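import Mathlib

/-!
Row 102, part (C), leaf DISC (helper88), part 1: the analytic discs `t = t' + G(w)`, `|w| ≤ ρ`.

`exists_disc`: for every slope `k > 0` and every `δ > 0` there is `η > 0` such that for every
`ρ > 0` there is a function `G`, holomorphic near `|w| ≤ ρ`, even, `G 0 = 0`, `|G| ≤ δ` on
`|w| ≤ ρ`, and `Im G ≤ -η` on the part `k |Re w| ≤ |Im w|` of the circle `|w| = ρ`.
-/

set_option autoImplicit false

open Set Filter Topology Metric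

noncomputable section

namespace Crest.Agent.R102.Disc88

/-- real part of `2 s z / (1 - s z)` -/
theorem re_poisson {s : ℝ} {z : ℂ} (h : 1 - (s : ℂ) * z ≠ 0) :
    (2 * s * z / (1 - s * z)).re = (1 - ‖(s : ℂ) * z‖ ^ 2) / ‖1 - (s : ℂ) * z‖ ^ 2 - 1 := by
  have h1 : ‖1 - (s : ℂ) * z‖ ^ 2 ≠ 0 := by positivity
  have h2 : (2 * s * z / (1 - s * z) : ℂ) = (1 + s * z) / (1 - s * z) - 1 := by
    field_simp
    ring
  have h3 : ((1 + (s : ℂ) * z) / (1 - s * z)).re =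
      (1 - ‖(s : ℂ) * z‖ ^ 2) / ‖1 - (s : ℂ) * z‖ ^ 2 := by
    rw [Complex.div_re, Complex.sq_norm, Complex.sq_norm, Complex.normSq_apply,
      Complex.normSq_apply]
    rw [← add_div]
    congr 1
    simp only [Complex.add_re, Complex.sub_re, Complex.one_re, Complex.add_im, Complex.sub_im,
      Complex.one_im]
    ring
  rw [h2, Complex.sub_re, h3, Complex.one_re]

/-- **the discs** -/
theorem exists_disc {k δ : ℝ} (hk : 0 < k) (hδ : 0 < δ) : ∃ η > 0, η ≤ δ ∧ ∀ ρ > 0,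
    ∃ (σ : ℝ) (G : ℂ → ℂ), ρ < σ ∧ DifferentiableOn ℂ G (ball 0 σ) ∧ G 0 = 0 ∧
      (∀ w, G (-w) = G w) ∧ (∀ w, ‖w‖ ≤ ρ → ‖G w‖ ≤ δ) ∧
      ∀ w, ‖w‖ = ρ → k * |w.re| ≤ |w.im| → (G w).im ≤ -η := by
  -- the parameter `s`
  set e : ℝ := k ^ 2 / (2 * (1 + k ^ 2)) with he
  have he0 : 0 < e := by positivity
  have he1 : e ≤ 1 / 2 := by
    rw [he, div_le_iff₀ (by positivity)]
    nlinarith [sq_nonneg k]
  set s : ℝ := 1 - e with hs
  have hs0 : 0 < s := by linarith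
  have hs2 : 1 / 2 ≤ s := by linarith
  have hs1 : s < 1 := by linarith
  -- amplitude
  set m : ℝ := δ * e / 2 with hm
  have hm0 : 0 < m := by positivity
  refine ⟨m / 2, by positivity, ?_, fun ρ hρ => ?_⟩
  · rw [hm]; nlinarith
  set σ : ℝ := ρ * (1 + e / 4) with hσ
  have hρσ : ρ < σ := by rw [hσ]; nlinarith
  have hσ0 : 0 < σ := hρ.trans hρσ
  -- `|s z| < 1` on the ball of radius `σ`
  have hnz : ∀ w : ℂ, ‖(s : ℂ) * (w / ρ) ^ 2‖ = s * (‖w‖ / ρ) ^ 2 := by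
    intro w
    rw [norm_mul, norm_pow, norm_div, Complex.norm_real, Complex.norm_real, Real.norm_eq_abs,
      Real.norm_eq_abs, abs_of_pos hs0, abs_of_pos hρ]
  have hlt : ∀ w : ℂ, ‖w‖ < σ → ‖(s : ℂ) * (w / ρ) ^ 2‖ < 1 := by
    intro w hw
    rw [hnz]
    have h1 : ‖w‖ / ρ < 1 + e / 4 := by
      rw [div_lt_iff₀ hρ]; rw [hσ] at hw; linarith
    have h2 : 0 ≤ ‖w‖ / ρ := by positivity
    have h3 : (‖w‖ / ρ) ^ 2 < (1 + e / 4) ^ 2 := by gcongr
    have h4 : (1 - e) * (1 + e / 4) ^ 2 ≤ 1 := by nlinarith [sq_nonneg e, mul_pos he0 he0]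
    calc s * (‖w‖ / ρ) ^ 2 < s * (1 + e / 4) ^ 2 := by gcongr
      _ ≤ 1 := by rw [hs]; exact h4
  have hne : ∀ w : ℂ, ‖w‖ < σ → 1 - (s : ℂ) * (w / ρ) ^ 2 ≠ 0 := by
    intro w hw h0
    have h1 : (s : ℂ) * (w / ρ) ^ 2 = 1 := (sub_eq_zero.1 h0).symm
    have h2 := hlt w hw
    rw [h1, norm_one] at h2
    exact lt_irrefl _ h2
  refine ⟨σ, fun w => Complex.I * m * (2 * s * (w / ρ) ^ 2 / (1 - s * (w / ρ) ^ 2)), hρσ, ?_,
    by simp, fun w => by simp [neg_div], ?_, ?_⟩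
  · -- holomorphic
    intro w hw
    rw [mem_ball_zero_iff] at hw
    have h1 := hne w hw
    have hρ' : (ρ : ℂ) ≠ 0 := by exact_mod_cast hρ.ne'
    refine DifferentiableAt.differentiableWithinAt ?_
    refine DifferentiableAt.const_mul ?_ _
    exact DifferentiableAt.fun_div (by fun_prop) (by fun_prop) h1
  · -- bound
    intro w hw
    have h1 : ‖w‖ / ρ ≤ 1 := (div_le_one hρ).2 hw
    have h2 : 0 ≤ ‖w‖ / ρ := by positivity
    have h3 : (‖w‖ / ρ) ^ 2 ≤ 1 := pow_le_one₀ h2 h1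
    have h4 : ‖(s : ℂ) * (w / ρ) ^ 2‖ ≤ s := by
      rw [hnz]; nlinarith
    have h5 : e ≤ ‖1 - (s : ℂ) * (w / ρ) ^ 2‖ := by
      have := norm_sub_norm_le (1 : ℂ) ((s : ℂ) * (w / ρ) ^ 2)
      rw [norm_one] at this
      linarith
    have h6 : ‖2 * (s : ℂ) * (w / ρ) ^ 2‖ ≤ 2 := by
      rw [mul_assoc, norm_mul]
      have : ‖(2 : ℂ)‖ = 2 := by simp
      rw [this]; linarith
    rw [norm_mul, norm_mul, Complex.norm_I, one_mul, Complex.norm_real, Real.norm_eq_abs,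
      abs_of_pos hm0, norm_div]
    calc m * (‖2 * (s : ℂ) * (w / ρ) ^ 2‖ / ‖1 - (s : ℂ) * (w / ρ) ^ 2‖) ≤ m * (2 / e) := by
          gcongr
      _ = δ := by rw [hm]; field_simp
  · -- the sides
    intro w hw hside
    have hwσ : ‖w‖ < σ := by rw [hw]; exact hρσ
    have h1 := hne w hwσ
    have h2 : (Complex.I * m * (2 * s * (w / ρ) ^ 2 / (1 - s * (w / ρ) ^ 2))).im =
        m * (2 * s * (w / ρ) ^ 2 / (1 - s * (w / ρ) ^ 2) : ℂ).re := by
      rw [mul_assoc, Complex.I_mul_im, Complex.re_ofReal_mul]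
    rw [h2, re_poisson h1]
    -- `x² + y² = ρ²`
    have hxy : w.re ^ 2 + w.im ^ 2 = ρ ^ 2 := by
      rw [← hw, Complex.sq_norm, Complex.normSq_apply]; ring
    have hside2 : k ^ 2 * w.re ^ 2 ≤ w.im ^ 2 := by
      have h3 : (k * |w.re|) ^ 2 ≤ |w.im| ^ 2 := by gcongr
      rw [mul_pow, sq_abs, sq_abs] at h3
      exact h3
    have hnorm : ‖1 - (s : ℂ) * (w / ρ) ^ 2‖ ^ 2 = (1 - s) ^ 2 + 4 * s * (w.im ^ 2 / ρ ^ 2) := by
      have hre : ((w / ρ : ℂ)).re = w.re / ρ := by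
        rw [Complex.div_ofReal_re]
      have him : ((w / ρ : ℂ)).im = w.im / ρ := by
        rw [Complex.div_ofReal_im]
      rw [Complex.sq_norm, Complex.normSq_apply, sq (w / ρ : ℂ)]
      simp only [Complex.sub_re, Complex.sub_im, Complex.one_re, Complex.one_im,
        Complex.mul_re, Complex.mul_im, hre, him, Complex.ofReal_re, Complex.ofReal_im,
        zero_mul, sub_zero, add_zero]
      have h4 : (w.re / ρ) ^ 2 + (w.im / ρ) ^ 2 = 1 := by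
        rw [div_pow, div_pow, ← add_div, hxy, div_self (by positivity)]
      have h5 : (w.im ^ 2 / ρ ^ 2) = (w.im / ρ) ^ 2 := by rw [div_pow]
      rw [h5]
      set X := w.re / ρ
      set Y := w.im / ρ
      have h6 : X ^ 2 = 1 - Y ^ 2 := by linarith
      have h7 : (1 - s * (X * X - Y * Y)) * (1 - s * (X * X - Y * Y)) +
          (0 - s * (X * Y + Y * X)) * (0 - s * (X * Y + Y * X)) =
          1 - 2 * s * (X ^ 2 - Y ^ 2) + s ^ 2 * (X ^ 2 + Y ^ 2) ^ 2 := by ring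
      rw [h7, h6]; ring
    have hnn : ‖(s : ℂ) * (w / ρ) ^ 2‖ = s := by
      rw [hnz, hw, div_self hρ.ne']; ring
    rw [hnn, hnorm]
    -- lower bound for `y²/ρ²`
    have hy : k ^ 2 / (1 + k ^ 2) ≤ w.im ^ 2 / ρ ^ 2 := by
      rw [div_le_div_iff₀ (by positivity) (by positivity), ← hxy]
      nlinarith
    have hek : k ^ 2 / (1 + k ^ 2) = 2 * e := by rw [he]; field_simp
    rw [hek] at hy
    set Y := w.im ^ 2 / ρ ^ 2 with hY
    have hden : 0 < (1 - s) ^ 2 + 4 * s * Y := by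
      have : 0 < Y := by linarith
      positivity
    have h8 : (1 - s ^ 2) / ((1 - s) ^ 2 + 4 * s * Y) ≤ 1 / 2 := by
      rw [div_le_div_iff₀ hden (by norm_num)]
      rw [hs]
      nlinarith [mul_nonneg hs0.le (sub_nonneg.2 hy), sq_nonneg e, mul_pos he0 he0]
    nlinarith

/-- **placement of the discs**: `D` contains the sector part of the box up to height `h0 + c` and,
for every `ε > 0`, the full part up to height `h0 - ε` for `|w|` small. -/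
theorem placement {k c δ r H h0 g1 g2 : ℝ} (hk : 0 < k) (hc : 0 < c) (hδ : 0 < δ) (hr : 0 < r)
    {D : Set (ℂ × ℂ)}
    (hsec : ∀ t w : ℂ, g1 < t.re → t.re < g2 → -H < t.im → t.im < h0 + c →
      |w.im| < k * |w.re| → ‖w‖ < r → (t, w) ∈ D)
    (hlow : ∀ ε > 0, ∃ ρ0 > 0, ∀ t w : ℂ, g1 < t.re → t.re < g2 → -H < t.im → t.im < h0 - ε →
      ‖w‖ < ρ0 → (t, w) ∈ D) :
    ∃ c' > 0, c' < δ ∧ ∀ ρ1 > 0, ∃ (ρ σ : ℝ) (G : ℂ → ℂ), 0 < ρ ∧ ρ < ρ1 ∧ ρ < σ ∧
      DifferentiableOn ℂ G (ball 0 σ) ∧ G 0 = 0 ∧ (∀ w, G (-w) = G w) ∧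
      (∀ w, ‖w‖ ≤ ρ → ‖G w‖ ≤ δ / 2) ∧
      (∀ t w : ℂ, g1 + δ < t.re → t.re < g2 - δ → -H + δ < t.im → t.im < h0 + c' → ‖w‖ = ρ →
        (t + G w, w) ∈ D) ∧
      (∀ t w : ℂ, g1 + δ < t.re → t.re < g2 - δ → -H + δ < t.im → t.im < h0 - δ → ‖w‖ ≤ ρ →
        (t + G w, w) ∈ D) := by
  set δ' : ℝ := min (δ / 2) (c / 4) with hδ'
  have hδ'0 : 0 < δ' := lt_min (by linarith) (by linarith)
  have hδ'1 : δ' ≤ δ / 2 := min_le_left _ _
  have hδ'2 : δ' ≤ c / 4 := min_le_right _ _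
  obtain ⟨η, hη, hηδ, hG⟩ := exists_disc hk hδ'0
  refine ⟨η / 4, by linarith, by linarith, fun ρ1 hρ1 => ?_⟩
  obtain ⟨ρ0, hρ0, hlow'⟩ := hlow (η / 2) (by linarith)
  set ρ : ℝ := min (min ρ0 r) ρ1 / 2 with hρdef
  have hmin : 0 < min (min ρ0 r) ρ1 := lt_min (lt_min hρ0 hr) hρ1
  have hρ : 0 < ρ := by positivity
  have hρρ0 : ρ < ρ0 := by
    have : min (min ρ0 r) ρ1 ≤ ρ0 := (min_le_left _ _).trans (min_le_left _ _)
    linarith
  have hρr : ρ < r := by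
    have : min (min ρ0 r) ρ1 ≤ r := (min_le_left _ _).trans (min_le_right _ _)
    linarith
  have hρρ1 : ρ < ρ1 := by
    have : min (min ρ0 r) ρ1 ≤ ρ1 := min_le_right _ _
    linarith
  obtain ⟨σ, G, hρσ, hGd, hG0, hGe, hGb, hGs⟩ := hG ρ hρ
  have hGb' : ∀ w : ℂ, ‖w‖ ≤ ρ → |(G w).re| ≤ δ' ∧ |(G w).im| ≤ δ' := fun w hw =>
    ⟨(Complex.abs_re_le_norm _).trans (hGb w hw), (Complex.abs_im_le_norm _).trans (hGb w hw)⟩
  refine ⟨ρ, σ, G, hρ, hρρ1, hρσ, hGd, hG0, hGe, fun w hw => (hGb w hw).trans hδ'1, ?_, ?_⟩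
  · intro t w h1 h2 h3 h4 hw
    obtain ⟨hre, him⟩ := hGb' w hw.le
    rw [abs_le] at hre him
    by_cases hside : k * |w.re| ≤ |w.im|
    · have h5 := hGs w hw hside
      refine hlow' _ _ ?_ ?_ ?_ ?_ (by rw [hw]; exact hρρ0)
      · rw [Complex.add_re]; linarith [hre.1]
      · rw [Complex.add_re]; linarith [hre.2]
      · rw [Complex.add_im]; linarith [him.1]
      · rw [Complex.add_im]; linarith
    · push Not at hside
      refine hsec _ _ ?_ ?_ ?_ ?_ hside (by rw [hw]; exact hρr)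
      · rw [Complex.add_re]; linarith [hre.1]
      · rw [Complex.add_re]; linarith [hre.2]
      · rw [Complex.add_im]; linarith [him.1]
      · rw [Complex.add_im]; linarith [him.2]
  · intro t w h1 h2 h3 h4 hw
    obtain ⟨hre, him⟩ := hGb' w hw
    rw [abs_le] at hre him
    refine hlow' _ _ ?_ ?_ ?_ ?_ (lt_of_le_of_lt hw hρρ0)
    · rw [Complex.add_re]; linarith [hre.1]
    · rw [Complex.add_re]; linarith [hre.2]
    · rw [Complex.add_im]; linarith [him.1]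
    · rw [Complex.add_im]; linarith [him.2]

end Crest.Agent.R102.Disc88
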