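import Crest.Agent.R102.LeviM3_88
import Crest.Agent.R102.Disc_88

/-!
Row 102, part (C) (helper88), leaf (A3): continuation by the discs `t = τ + G(w)`.

`a3`: `f(t,w)` meromorphic in the sector part `|Im w| < k |Re w|`, `|w| < r`, `Im t < h0 + c`, and
holomorphic in the low parts (`Im t < h0 - ε`, `|w| < ρ0(ε)`); then `f(·,0)` is meromorphic near
every point of the line `Im t = h0`.
-/

set_option autoImplicit false

open Set Filter Topology Metric

noncomputable section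

namespace Crest.Agent.R102.A388

open Crest.Agent.R102.Mer88 Crest.Agent.R102.LeviM88 Crest.Agent.R102

/-- the discs, annulus version -/
theorem exists_disc' {k δ : ℝ} (hk : 0 < k) (hδ : 0 < δ) : ∃ η > 0, η ≤ δ ∧ ∀ ρ > 0,
    ∃ (ρ' σ : ℝ) (G : ℂ → ℂ), 0 < ρ' ∧ ρ' < ρ ∧ ρ < σ ∧ DifferentiableOn ℂ G (ball 0 σ) ∧
      G 0 = 0 ∧ (∀ w, G (-w) = G w) ∧ (∀ w, ‖w‖ ≤ ρ → ‖G w‖ ≤ δ) ∧
      ∀ w, ρ' ≤ ‖w‖ → ‖w‖ ≤ ρ → k * |w.re| ≤ |w.im| → (G w).im ≤ -η := by
  obtain ⟨η, hη, hηδ, h⟩ := Disc88.exists_disc hk hδ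
  refine ⟨η / 2, by linarith, by linarith, fun ρ hρ => ?_⟩
  obtain ⟨σ, G, hσ, hG, hG0, heven, hbd, hlow⟩ := h ρ hρ
  have hcont : ContinuousOn G (closedBall 0 ρ) :=
    hG.continuousOn.mono (closedBall_subset_ball hσ)
  have huc := (isCompact_closedBall (0 : ℂ) ρ).uniformContinuousOn_of_continuous hcont
  rw [Metric.uniformContinuousOn_iff] at huc
  obtain ⟨μ, hμ, hμG⟩ := huc (η / 2) (by linarith)
  refine ⟨max (ρ / 2) (ρ - μ / 2), σ, G, lt_max_of_lt_left (by linarith),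
    max_lt (by linarith) (by linarith), hσ, hG, hG0, heven, hbd, fun w hw1 hw2 hw3 => ?_⟩
  have hw0 : 0 < ‖w‖ := lt_of_lt_of_le (lt_max_of_lt_left (by linarith)) hw1
  have hwμ : ρ - ‖w‖ < μ := by linarith [(le_max_right (ρ / 2) (ρ - μ / 2)).trans hw1]
  set c : ℝ := ρ / ‖w‖ with hc
  have hc1 : 1 ≤ c := by rw [hc, le_div_iff₀ hw0]; linarith
  have hcw : c * ‖w‖ = ρ := by rw [hc]; field_simp
  have hn : ‖(c : ℂ) * w‖ = ρ := by
    rw [norm_mul, Complex.norm_real, Real.norm_of_nonneg (by linarith), hcw]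
  have h1 := hlow ((c : ℂ) * w) hn (by
    have e1 : ((c : ℂ) * w).re = c * w.re := by simp
    have e2 : ((c : ℂ) * w).im = c * w.im := by simp
    rw [e1, e2, abs_mul, abs_mul, abs_of_pos (by linarith : 0 < c)]
    nlinarith)
  have h2 := hμG w (by rw [mem_closedBall_zero_iff]; exact hw2) ((c : ℂ) * w)
    (by rw [mem_closedBall_zero_iff]; exact hn.le) (by
      rw [dist_eq_norm]
      have e3 : w - (c : ℂ) * w = ((1 - c : ℝ) : ℂ) * w := by push_cast; ring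
      rw [e3, norm_mul, Complex.norm_real, Real.norm_eq_abs, abs_of_nonpos (by linarith)]
      nlinarith)
  rw [dist_eq_norm] at h2
  have h3 := (Complex.abs_im_le_norm (G w - G ((c : ℂ) * w))).trans h2.le
  rw [Complex.sub_im, abs_le] at h3
  linarith

/-- **(A3)** -/
theorem a3 {f : ℂ × ℂ → ℂ} {k c r H h0 g1 g2 : ℝ} (hk : 0 < k) (hc : 0 < c) (hr : 0 < r)
    (hH : -H < h0)
    (hsec : ∀ t w : ℂ, g1 < t.re → t.re < g2 → -H < t.im → t.im < h0 + c →
      |w.im| < k * |w.re| → ‖w‖ < r → MerAt f (t, w))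
    (hlow : ∀ ε > 0, ∃ ρ0 > 0, ∀ t w : ℂ, g1 < t.re → t.re < g2 → -H < t.im → t.im < h0 - ε →
      ‖w‖ < ρ0 → AnalyticAt ℂ f (t, w))
    {t1 : ℂ} (ht1 : g1 < t1.re) (ht2 : t1.re < g2) (ht3 : t1.im = h0) :
    ∃ p q : ℂ → ℂ, AnalyticAt ℂ p t1 ∧ NZ q t1 ∧
      ∀ᶠ t in 𝓝 t1, t.im < h0 → q t * f (t, 0) = p t := by
  -- parameters
  obtain ⟨δ, hδ, hδ1⟩ : ∃ δ : ℝ, 0 < δ ∧ δ < min (min (t1.re - g1) (g2 - t1.re)) ((h0 + H) / 2) :=
    exists_between (lt_min (lt_min (by linarith) (by linarith)) (by linarith))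
  rw [lt_min_iff, lt_min_iff] at hδ1
  obtain ⟨⟨hδa, hδb⟩, hδc⟩ := hδ1
  set δ' : ℝ := min (δ / 2) (c / 4) with hδ'
  have hδ'0 : 0 < δ' := lt_min (by linarith) (by linarith)
  have hδ'1 : δ' ≤ δ / 2 := min_le_left _ _
  have hδ'2 : δ' ≤ c / 4 := min_le_right _ _
  obtain ⟨η, hη, hηδ, hdisc⟩ := exists_disc' hk hδ'0
  obtain ⟨ρa, hρa, hlowa⟩ := hlow (η / 2) (by linarith)
  obtain ⟨ρb, hρb, hlowb⟩ := hlow (δ / 2) (by linarith)
  set ρ : ℝ := min (min ρa ρb) r / 2 with hρ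
  have hmin : 0 < min (min ρa ρb) r := lt_min (lt_min hρa hρb) hr
  have hρ0 : 0 < ρ := by positivity
  have hρa' : ρ < ρa := by
    linarith [(min_le_left (min ρa ρb) r).trans (min_le_left ρa ρb)]
  have hρb' : ρ < ρb := by
    linarith [(min_le_left (min ρa ρb) r).trans (min_le_right ρa ρb)]
  have hρr : ρ < r := by linarith [min_le_right (min ρa ρb) r]
  obtain ⟨ρ', σ, G, hρ'0, hρ'ρ, hσ, hG, hG0, -, hbd, hGlow⟩ := hdisc ρ hρ0
  have hGa : ∀ w : ℂ, ‖w‖ ≤ ρ → AnalyticAt ℂ G w := fun w hw =>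
    hG.analyticAt (isOpen_ball.mem_nhds (by rw [mem_ball_zero_iff]; linarith))
  set Φ : ℂ × ℂ → ℂ × ℂ := fun x => (x.1 + G x.2, x.2) with hΦ
  set Ψ : ℂ × ℂ → ℂ × ℂ := fun x => (x.1 - G x.2, x.2) with hΨ
  have hGa2 : ∀ t w : ℂ, ‖w‖ ≤ ρ → AnalyticAt ℂ (fun x : ℂ × ℂ => G x.2) (t, w) := fun t w hw =>
    AnalyticAt.comp (f := fun x : ℂ × ℂ => x.2) (hGa w hw) analyticAt_snd
  have hΦa : ∀ t w : ℂ, ‖w‖ ≤ ρ → AnalyticAt ℂ Φ (t, w) := fun t w hw =>
    (analyticAt_fst.add (hGa2 t w hw)).prod analyticAt_snd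
  have hLB : ∀ t w : ℂ, ‖w‖ ≤ ρ → LBih Φ Ψ (t, w) := by
    intro t w hw
    have h1 : ContinuousAt G w := (hGa w hw).continuousAt
    refine ⟨hΦa t w hw, ?_, ?_, Eventually.of_forall fun y => ?_⟩
    · show ContinuousAt (fun x : ℂ × ℂ => (x.1 - G x.2, x.2)) (t + G w, w)
      refine ContinuousAt.prodMk (continuousAt_fst.sub ?_) continuousAt_snd
      exact ContinuousAt.comp (f := fun x : ℂ × ℂ => x.2) h1 continuousAt_snd
    · simp [hΦ, hΨ]
    · simp [hΦ, hΨ]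
  set A : Set ℂ := {t | g1 + δ < t.re ∧ t.re < g2 - δ ∧ -H + δ < t.im ∧ t.im < h0} with hA
  have hAo : IsOpen A := by
    refine (isOpen_lt continuous_const Complex.continuous_re).inter
      ((isOpen_lt Complex.continuous_re continuous_const).inter
      ((isOpen_lt continuous_const Complex.continuous_im).inter
      (isOpen_lt Complex.continuous_im continuous_const)))
  have hAc : Convex ℝ A := by
    refine (convex_halfSpace_re_gt _).inter ((convex_halfSpace_re_lt _).inter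
      ((convex_halfSpace_im_gt _).inter (convex_halfSpace_im_lt _)))
  -- bounds for `G`
  have hGre : ∀ w : ℂ, ‖w‖ ≤ ρ → |(G w).re| ≤ δ' := fun w hw =>
    (Complex.abs_re_le_norm _).trans (hbd w hw)
  have hGim : ∀ w : ℂ, ‖w‖ ≤ ρ → |(G w).im| ≤ δ' := fun w hw =>
    (Complex.abs_im_le_norm _).trans (hbd w hw)
  have key : ∀ t : ℂ, g1 + δ < t.re → t.re < g2 - δ → -H + δ < t.im → t.im ≤ h0 →
      ∀ w : ℂ, ρ' ≤ ‖w‖ → ‖w‖ ≤ ρ → MerAt (fun x => f (Φ x)) (t, w) := by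
    intro t h1 h2 h3 h4 w hw1 hw2
    refine MerAt.comp (hLB t w hw2) ?_
    have h5 := abs_le.1 (hGre w hw2)
    have h6 := abs_le.1 (hGim w hw2)
    show MerAt f (t + G w, w)
    rcases lt_or_ge |w.im| (k * |w.re|) with h7 | h7
    · refine hsec _ _ ?_ ?_ ?_ ?_ h7 (by linarith) <;>
        simp only [Complex.add_re, Complex.add_im] <;> linarith
    · have h8 := hGlow w hw1 hw2 h7
      refine merAt_of_analyticAt (hlowa _ _ ?_ ?_ ?_ ?_ (by linarith)) <;>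
        simp only [Complex.add_re, Complex.add_im] <;> linarith
  obtain ⟨r', hr', p, q, hp, hq, ⟨t', ht', hqt⟩, heq⟩ := levi_mer (f := fun x => f (Φ x))
    hρ'0 hρ'ρ hAo hAc (fun t ht w => key t ht.1 ht.2.1 ht.2.2.1 ht.2.2.2.le w)
    (by
      intro t ht
      obtain ⟨ρc, hρc, hlowc⟩ := hlow ((h0 - t.im) / 2) (by linarith [ht.2.2.2])
      have h1 : AnalyticAt ℂ f (Φ (t, 0)) := by
        simp only [hΦ, hG0, add_zero]
        exact hlowc t 0 (by linarith [ht.1]) (by linarith [ht.2.1]) (by linarith [ht.2.2.1])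
          (by linarith [ht.2.2.2]) (by simpa using hρc)
      exact h1.comp (hΦa t 0 (by simpa using hρ0.le)))
    (t0 := ⟨t1.re, (h0 - H) / 2⟩) ⟨by simp; linarith, by simp; linarith, by simp; linarith,
      by simp; linarith⟩
    (by
      intro w hw
      have h5 := abs_le.1 (hGre w hw)
      have h6 := abs_le.1 (hGim w hw)
      have h1 : AnalyticAt ℂ f (Φ (⟨t1.re, (h0 - H) / 2⟩, w)) := by
        refine hlowb _ _ ?_ ?_ ?_ ?_ (by linarith) <;>
          simp only [Complex.add_re, Complex.add_im] <;> linarith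
      exact h1.comp (hΦa _ w hw)) (t1 := t1)
    (by
      rw [Metric.mem_closure_iff]
      intro e he
      obtain ⟨s, hs, hs1⟩ : ∃ s : ℝ, 0 < s ∧ s < min e δ := exists_between (lt_min he hδ)
      rw [lt_min_iff] at hs1
      refine ⟨⟨t1.re, h0 - s⟩, ⟨by simp; linarith, by simp; linarith, by simp; linarith,
        by simp; linarith⟩, ?_⟩
      rw [dist_eq_norm]
      have e1 : t1 - (⟨t1.re, h0 - s⟩ : ℂ) = (s : ℂ) * Complex.I := by
        apply Complex.ext <;> simp [ht3]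
      rw [e1, norm_mul, Complex.norm_real, Complex.norm_I, mul_one, Real.norm_of_nonneg hs.le]
      exact hs1.1)
    (fun w => key t1 (by linarith) (by linarith) (by linarith) ht3.le w)
  refine ⟨p, q, hp t1 (mem_ball_self hr'), nz_of_ball hq ht' (mem_ball_self hr')
    (((hq t' ht').continuousAt.eventually_ne hqt).frequently), ?_⟩
  have hev1 : ∀ᶠ t in 𝓝 t1, g1 + δ < t.re :=
    Complex.continuous_re.continuousAt.eventually (lt_mem_nhds (by linarith))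
  have hev2 : ∀ᶠ t in 𝓝 t1, t.re < g2 - δ :=
    Complex.continuous_re.continuousAt.eventually (gt_mem_nhds (by linarith))
  have hev3 : ∀ᶠ t in 𝓝 t1, -H + δ < t.im :=
    Complex.continuous_im.continuousAt.eventually (lt_mem_nhds (by linarith))
  filter_upwards [ball_mem_nhds t1 hr', hev1, hev2, hev3] with t h1 h2 h3 h4 h5
  have := heq t h1 ⟨h2, h3, h4, h5⟩
  simpa [hΦ, hG0] using this

/-- **(A3)**, one-variable form of the conclusion -/
theorem a3_mero {f : ℂ × ℂ → ℂ} {k c r H h0 g1 g2 : ℝ} (hk : 0 < k) (hc : 0 < c) (hr : 0 < r)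
    (hH : -H < h0)
    (hsec : ∀ t w : ℂ, g1 < t.re → t.re < g2 → -H < t.im → t.im < h0 + c →
      |w.im| < k * |w.re| → ‖w‖ < r → MerAt f (t, w))
    (hlow : ∀ ε > 0, ∃ ρ0 > 0, ∀ t w : ℂ, g1 < t.re → t.re < g2 → -H < t.im → t.im < h0 - ε →
      ‖w‖ < ρ0 → AnalyticAt ℂ f (t, w))
    {t1 : ℂ} (ht1 : g1 < t1.re) (ht2 : t1.re < g2) (ht3 : t1.im = h0) :
    ∃ F : ℂ → ℂ, MeromorphicAt F t1 ∧ ∀ᶠ t in 𝓝 t1, t.im < h0 → F t = f (t, 0) := by
  obtain ⟨p, q, hp, hq, he⟩ := a3 hk hc hr hH hsec hlow ht1 ht2 ht3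
  refine ⟨fun t => p t / q t, hp.meromorphicAt.div hq.1.meromorphicAt, ?_⟩
  have h1 : ∀ᶠ t in 𝓝[≠] t1, q t ≠ 0 := by
    rcases hq.1.eventually_eq_zero_or_eventually_ne_zero with h3 | h3
    · exact absurd h3 (by rw [not_eventually]; exact hq.2)
    · exact h3
  filter_upwards [he, eventually_nhdsWithin_iff.1 h1] with t h2 h3 h4
  have h5 : q t ≠ 0 := h3 (by
    intro h6
    rw [mem_singleton_iff] at h6
    rw [h6, ht3] at h4
    exact lt_irrefl _ h4)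
  rw [← h2 h4]
  field_simp

end Crest.Agent.R102.A388
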