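import Crest.Agent.R102.Face_300

/-!
Row 102, T1-B (helper300): **the FACE LEMMA in the coordinates `(ψ, H)`** (tangent angle, support
function) with the relation `ψ' H'' - ψ'' H' + ψ'^3 H = c`, zeros of `ψ'` allowed; and the facts
F1(i), F2 of R1_523.
-/

set_option autoImplicit false

open Set Filter Topology
open scoped ComplexConjugate

noncomputable section

namespace Crest.Agent.R102.F300

open Crest.Agent.R102.C0 Crest.Agent.R102.B821 Complex

/-- isotropic coordinate `X + i Y` of the point with label `z` -/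
def ZZ (ψ H : ℂ → ℂ) (z : ℂ) : ℂ := exp (I * ψ z) * (I * H z - deriv H z / deriv ψ z)

/-- isotropic coordinate `X - i Y` of the point with label `z` -/
def ZZc (ψ H : ℂ → ℂ) (z : ℂ) : ℂ := exp (-(I * ψ z)) * (-(I * H z) - deriv H z / deriv ψ z)

/-- the relation between tangent angle and support function -/
def Rel (S : Set ℂ) (ψ H : ℂ → ℂ) (c : ℂ) : Prop :=
  ∀ z ∈ S, deriv ψ z * deriv (deriv H) z - deriv (deriv ψ) z * deriv H z
    + deriv ψ z ^ 3 * H z = c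

/-- incidence `point with label b ∈ line (φ, p)`, polynomial form -/
def Inc (ψ H : ℂ → ℂ) (φ p b : ℂ) : Prop :=
  deriv ψ b * p = deriv ψ b * H b * cos (φ - ψ b) + deriv H b * sin (φ - ψ b)

theorem onLine_self (ψ H : ℂ → ℂ) (z : ℂ) : OnLine (ψ z) (H z) (ZZ ψ H z) (ZZc ψ H z) := by
  have h1 : exp (-(I * ψ z)) * exp (I * ψ z) = 1 := by rw [← exp_add]; simp
  unfold OnLine ZZ ZZc
  linear_combination (2 * I * H z) * h1

theorem onLine_iff (ψ H : ℂ → ℂ) {φ p b : ℂ} (hb : deriv ψ b ≠ 0) :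
    OnLine φ p (ZZ ψ H b) (ZZc ψ H b) ↔ Inc ψ H φ p b := by
  have hm : deriv H b = deriv ψ b * (deriv H b / deriv ψ b) := by field_simp
  set m := deriv H b / deriv ψ b with hm'
  have e1 : exp (-(I * φ)) * exp (I * ψ b) = exp (-(φ - ψ b) * I) := by
    rw [← exp_add]; congr 1; ring
  have e2 : exp (I * φ) * exp (-(I * ψ b)) = exp ((φ - ψ b) * I) := by
    rw [← exp_add]; congr 1; ring
  have key : exp (-(I * φ)) * ZZ ψ H b - exp (I * φ) * ZZc ψ H b
      = 2 * I * (H b * cos (φ - ψ b) + m * sin (φ - ψ b)) := by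
    have c1 := two_cos (φ - ψ b)
    have c2 := two_sin (φ - ψ b)
    have hI : I * I = -1 := I_mul_I
    unfold ZZ ZZc
    rw [← hm']
    linear_combination (I * H b - m) * e1 + (I * H b + m) * e2 - (I * H b) * c1 - (I * m) * c2
      - (m * (exp (-(φ - ψ b) * I) - exp ((φ - ψ b) * I))) * hI
  have h2I : (2 : ℂ) * I ≠ 0 := by simp
  unfold OnLine Inc
  rw [key, hm]
  constructor
  · intro h
    have h3 := mul_left_cancel₀ h2I h
    rw [← h3]; ring
  · intro h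
    have h3 : H b * cos (φ - ψ b) + m * sin (φ - ψ b) = p := by
      refine mul_left_cancel₀ hb ?_
      rw [h]; ring
    rw [h3]

theorem hasDerivAt_ZZ {S : Set ℂ} (hS : IsOpen S) {ψ H : ℂ → ℂ} {c : ℂ}
    (hψ : DifferentiableOn ℂ ψ S) (hH : DifferentiableOn ℂ H S) (hrel : Rel S ψ H c) {z : ℂ}
    (hz : z ∈ S) (hy : deriv ψ z ≠ 0) :
    HasDerivAt (ZZ ψ H) (-c / deriv ψ z ^ 2 * exp (I * ψ z)) z ∧
    HasDerivAt (ZZc ψ H) (-c / deriv ψ z ^ 2 * exp (-(I * ψ z))) z := by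
  have hψa : AnalyticAt ℂ ψ z := hψ.analyticAt (hS.mem_nhds hz)
  have hHa : AnalyticAt ℂ H z := hH.analyticAt (hS.mem_nhds hz)
  have d1 := hψa.differentiableAt.hasDerivAt
  have d2 := hHa.differentiableAt.hasDerivAt
  have d3 := hψa.deriv.differentiableAt.hasDerivAt
  have d4 := hHa.deriv.differentiableAt.hasDerivAt
  have d5 := d4.div d3 hy
  have hr := hrel z hz
  constructor
  · have d6 := ((d1.const_mul I).cexp).mul ((d2.const_mul I).sub d5)
    refine d6.congr_deriv ?_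
    have hI : I * I = -1 := I_mul_I
    simp only [Pi.sub_apply, Pi.div_apply]
    field_simp
    linear_combination (-1 : ℂ) * hr + (deriv ψ z ^ 3 * H z) * hI
  · have d6 := ((d1.const_mul I).neg.cexp).mul ((d2.const_mul I).neg.sub d5)
    refine d6.congr_deriv ?_
    have hI : I * I = -1 := I_mul_I
    simp only [Pi.sub_apply, Pi.div_apply, Pi.neg_apply]
    field_simp
    linear_combination (-1 : ℂ) * hr + (deriv ψ z ^ 3 * H z) * hI

/-- `S` minus the zeros of `ψ'` -/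
def Sreg (S : Set ℂ) (ψ : ℂ → ℂ) : Set ℂ := {z | z ∈ S ∧ deriv ψ z ≠ 0}

theorem isOpen_Sreg {S : Set ℂ} (hS : IsOpen S) {ψ : ℂ → ℂ} (hψ : DifferentiableOn ℂ ψ S) :
    IsOpen (Sreg S ψ) := by
  rw [isOpen_iff_mem_nhds]
  rintro z ⟨hz, hy⟩
  have h1 : ContinuousAt (deriv ψ) z := (hψ.analyticAt (hS.mem_nhds hz)).deriv.continuousAt
  filter_upwards [hS.mem_nhds hz, h1.eventually_ne hy] with y h2 h3
  exact ⟨h2, h3⟩

theorem dense_Sreg {S : Set ℂ} (hS : IsOpen S) {ψ H : ℂ → ℂ} {c : ℂ} (hc : c ≠ 0)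
    (hrel : Rel S ψ H c) : S ⊆ closure (Sreg S ψ) := by
  intro z hz
  rw [mem_closure_iff_frequently]
  intro hno
  have h1 : ∀ᶠ y in 𝓝 z, deriv ψ y = 0 := by
    filter_upwards [hno, hS.mem_nhds hz] with y h2 h3
    by_contra h4
    exact h2 ⟨h3, h4⟩
  have h5 : deriv ψ =ᶠ[𝓝 z] fun _ => (0 : ℂ) := h1
  have h6 : deriv (deriv ψ) z = 0 := by rw [h5.deriv_eq]; simp
  have h7 := hrel z hz
  rw [h6, h1.self_of_nhds] at h7
  apply hc
  rw [← h7]; ring

/-- **FACE LEMMA in the coordinates `(ψ, H)`**: `S` open and convex, `ψ' H'' - ψ'' H' + ψ'^3 H = c`;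
if at one point `x` the label `Bt` and a line `(φ, p)` through the vertex are analytic,
`∂Bt/∂t ≠ 0`, `dφ ∧ dp ≠ 0`, and `Bt x ∈ closure S`, then `(ψ, H)` continues holomorphically
through every point of a punctured neighbourhood of `Bt x`. -/
theorem face {S : Set ℂ} (hS : IsOpen S) (hSc : Convex ℝ S) {ψ H : ℂ → ℂ} {c : ℂ} (hc : c ≠ 0)
    (hψ : DifferentiableOn ℂ ψ S) (hH : DifferentiableOn ℂ H S) (hrel : Rel S ψ H c)
    {φ p Bt : ℂ × ℂ → ℂ} {x : ℂ × ℂ}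
    (hφ : AnalyticAt ℂ φ x) (hp : AnalyticAt ℂ p x) (hB : AnalyticAt ℂ Bt x)
    (hB1 : q1 Bt x ≠ 0) (har : q1 φ x * q2 p x - q2 φ x * q1 p x ≠ 0)
    (hon : ∀ᶠ y in 𝓝 x, Bt y ∈ S → Inc ψ H (φ y) (p y) (Bt y))
    (hx : Bt x ∈ closure S) :
    ∀ᶠ z in 𝓝[≠] (Bt x), RegAt S ψ H z := by
  refine face_reg hS hSc (isOpen_Sreg hS hψ) (fun z hz => hz.1) (dense_Sreg hS hc hrel) hψ hH
    (Z := ZZ ψ H) (Zc := ZZc ψ H) (κ := fun z => -c / deriv ψ z ^ 2)
    (fun z hz => (hasDerivAt_ZZ hS hψ hH hrel hz.1 hz.2).1)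
    (fun z hz => (hasDerivAt_ZZ hS hψ hH hrel hz.1 hz.2).2)
    (fun z hz => div_ne_zero (neg_ne_zero.2 hc) (pow_ne_zero _ hz.2))
    (fun z _ => onLine_self ψ H z) hφ hp hB hB1 har ?_ hx
  filter_upwards [hon] with y hy hyS
  exact (onLine_iff ψ H hyS.2).2 (hy hyS.1)

/-- **FACE LEMMA, strip**: a natural boundary `|Im z| = h0` is impossible. -/
theorem face_strip {h0 : ℝ} {ψ H : ℂ → ℂ} {c : ℂ} (hc : c ≠ 0)
    (hψ : DifferentiableOn ℂ ψ {z : ℂ | |z.im| < h0})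
    (hH : DifferentiableOn ℂ H {z : ℂ | |z.im| < h0})
    (hrel : Rel {z : ℂ | |z.im| < h0} ψ H c)
    {φ p Bt : ℂ × ℂ → ℂ} {x : ℂ × ℂ}
    (hNB : ∀ s : ℂ, s.im = (Bt x).im → ¬ RegAt {z : ℂ | |z.im| < h0} ψ H s)
    (hφ : AnalyticAt ℂ φ x) (hp : AnalyticAt ℂ p x) (hB : AnalyticAt ℂ Bt x)
    (hB1 : q1 Bt x ≠ 0) (har : q1 φ x * q2 p x - q2 φ x * q1 p x ≠ 0)
    (hon : ∀ᶠ y in 𝓝 x, |(Bt y).im| < h0 → Inc ψ H (φ y) (p y) (Bt y))
    (h0pos : 0 < h0) (hx : |(Bt x).im| ≤ h0) : False := by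
  have hS : IsOpen {z : ℂ | |z.im| < h0} :=
    isOpen_lt (continuous_abs.comp Complex.continuous_im) continuous_const
  have hSe : {z : ℂ | |z.im| < h0} = Complex.imLm ⁻¹' (Metric.ball (0 : ℝ) h0) := by
    ext z; simp [Real.norm_eq_abs]
  have hSc : Convex ℝ {z : ℂ | |z.im| < h0} := by
    rw [hSe]; exact (convex_ball (0 : ℝ) h0).linear_preimage _
  have hcl : Bt x ∈ closure {z : ℂ | |z.im| < h0} := by
    -- scale the imaginary part
    have h1 : Tendsto (fun t : ℝ => (((Bt x).re : ℝ) : ℂ) + ((1 - t : ℝ) : ℂ) * (((Bt x).im : ℝ) : ℂ) * I)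
        (𝓝[>] 0) (𝓝 (Bt x)) := by
      have h2 : ContinuousAt (fun t : ℝ => (((Bt x).re : ℝ) : ℂ)
          + ((1 - t : ℝ) : ℂ) * (((Bt x).im : ℝ) : ℂ) * I) 0 := by fun_prop
      have h3 := h2.tendsto.mono_left (nhdsWithin_le_nhds (s := Ioi (0 : ℝ)))
      simpa using h3
    refine mem_closure_of_tendsto h1 ?_
    have h4 : ∀ᶠ t : ℝ in 𝓝[>] 0, t ∈ Ioo (0 : ℝ) 1 := Ioo_mem_nhdsGT one_pos
    filter_upwards [h4] with t ht
    simp only [Set.mem_ofPred_eq, add_im, ofReal_im, mul_im, ofReal_re, I_im, I_re, mul_re,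
      mul_zero, mul_one, zero_mul, sub_zero, add_zero, zero_add]
    rw [abs_mul, abs_of_pos (by linarith [ht.2] : (0 : ℝ) < 1 - t)]
    nlinarith [ht.1, ht.2, abs_nonneg (Bt x).im]
  have h5 := face hS hSc hc hψ hH hrel hφ hp hB hB1 har hon hcl
  -- horizontal neighbours
  have h6 : Tendsto (fun t : ℝ => Bt x + (t : ℂ)) (𝓝[>] 0) (𝓝[≠] (Bt x)) := by
    refine tendsto_nhdsWithin_iff.2 ⟨?_, ?_⟩
    · have h2 : ContinuousAt (fun t : ℝ => Bt x + (t : ℂ)) 0 := by fun_prop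
      have h3 := h2.tendsto.mono_left (nhdsWithin_le_nhds (s := Ioi (0 : ℝ)))
      simpa using h3
    · filter_upwards [self_mem_nhdsWithin] with t ht
      have ht' : (0 : ℝ) < t := ht
      simp [ht'.ne']
  obtain ⟨t, ht⟩ := (h6.eventually h5).exists
  exact hNB _ (by simp) ht

end Crest.Agent.R102.F300
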