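import Crest.Agent.R102.Schottky_948
import Crest.Agent.R264.MontelU

/-! # The big theorem of Montel (normality of families omitting two values)

In a finite dimensional complex space `E` (in particular `ℂ` and `ℂ × ℂ`).

* `schottky_E`: Schottky on balls of `E`.
* `big_montel_ultra`: ultrafilter form.
* `big_montel`: subsequence form.
* `vitali_omit`: a family omitting `0, 1` on a connected open `D` which converges pointwise on a
  nonempty open subset to a holomorphic function `g` of `D` converges locally uniformly to `g`.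
* the same three statements with two arbitrary distinct omitted values (`_ab`).
-/

set_option autoImplicit false

open Set Filter Metric Complex Topology

namespace Crest.Agent.R102.M948

open Crest.Agent.R264 Crest.Agent.R266.SCV

variable {E : Type*} [NormedAddCommGroup E] [NormedSpace ℂ E]
variable {ι : Type*}

/-- Schottky on balls of a complex normed space. -/
theorem schottky_E {f : E → ℂ} {a : E} {r : ℝ} (hr : 0 < r)
    (hf : DifferentiableOn ℂ f (ball a r))
    (h0 : ∀ z ∈ ball a r, f z ≠ 0) (h1 : ∀ z ∈ ball a r, f z ≠ 1)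
    {M : ℝ} (hM : ‖f a‖ ≤ M) {θ : ℝ} (hθ0 : 0 ≤ θ) (hθ1 : θ < 1) :
    ∀ z ∈ closedBall a (θ * r), ‖f z‖ ≤ Psi M θ := by
  intro z hz
  rcases eq_or_ne z a with rfl | hne
  · have := schottky (f := fun _ : ℂ => f z) (c := 0) (R := 1) one_pos
      (differentiableOn_const _) (fun _ _ => h0 z (mem_ball_self hr))
      (fun _ _ => h1 z (mem_ball_self hr)) hM hθ0 hθ1 0 (mem_closedBall_self (by positivity))
    exact this
  have hn : 0 < ‖z - a‖ := norm_pos_iff.mpr (sub_ne_zero.mpr hne)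
  set R : ℝ := r / ‖z - a‖ with hR
  have hR0 : 0 < R := by positivity
  set L : ℂ → E := fun t => a + t • (z - a) with hL
  have hLd : Differentiable ℂ L := by rw [hL]; fun_prop
  have hLm : MapsTo L (ball 0 R) (ball a r) := by
    intro t ht
    rw [mem_ball_zero_iff] at ht
    rw [mem_ball_iff_norm, hL]
    simp only [add_sub_cancel_left, norm_smul]
    calc ‖t‖ * ‖z - a‖ < R * ‖z - a‖ := by gcongr
      _ = r := by rw [hR]; field_simp
  have h := schottky (f := f ∘ L) (c := 0) (R := R) hR0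
    (hf.comp hLd.differentiableOn hLm) (fun t ht => h0 _ (hLm ht)) (fun t ht => h1 _ (hLm ht))
    (M := M) (by simpa [hL] using hM) hθ0 hθ1 1 (by
      rw [mem_closedBall_zero_iff, norm_one, hR]
      rw [mem_closedBall, dist_eq_norm] at hz
      have : ‖z - a‖ / ‖z - a‖ ≤ θ * r / ‖z - a‖ := by gcongr
      rw [div_self hn.ne'] at this
      rw [← mul_div_assoc]
      exact this)
  simpa [hL] using h

/-- Montel for families bounded near every point (eventually along the ultrafilter). -/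
theorem montel_loc_ultra [FiniteDimensional ℂ E] (u : Ultrafilter ι)
    {D : Set E} (hD : IsOpen D) {f : ι → E → ℂ}
    (hf : ∀ᶠ k in (u : Filter ι), DifferentiableOn ℂ (f k) D)
    (hB : ∀ z ∈ D, ∃ r > 0, ∃ M : ℝ, ball z r ⊆ D ∧
      ∀ᶠ k in (u : Filter ι), ∀ w ∈ ball z r, ‖f k w‖ ≤ M) :
    ∃ g : E → ℂ, DifferentiableOn ℂ g D ∧ TendstoLocallyUniformlyOn f g u D := by
  classical
  have hlim : ∀ z, ∃ w, z ∈ D → Tendsto (fun k => f k z) u (𝓝 w) := by
    intro z
    by_cases hz : z ∈ D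
    · obtain ⟨r, hr, M, -, hM⟩ := hB z hz
      have hK : IsCompact (closedBall (0 : ℂ) M) := isCompact_closedBall _ _
      have hle : ((u.map (fun k => f k z) : Ultrafilter ℂ) : Filter ℂ) ≤
          𝓟 (closedBall (0 : ℂ) M) := by
        rw [le_principal_iff]
        show (fun k => f k z) ⁻¹' closedBall (0 : ℂ) M ∈ (u : Filter ι)
        filter_upwards [hM] with k hk
        simpa using hk z (mem_ball_self hr)
      obtain ⟨w, hw, hw'⟩ := hK.ultrafilter_le_nhds _ hle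
      exact ⟨w, fun _ => hw'⟩
    · exact ⟨0, fun h => (hz h).elim⟩
  choose g hg using hlim
  have h1 : TendstoLocallyUniformlyOn f g u D := by
    rw [Metric.tendstoLocallyUniformlyOn_iff]
    intro ε hε x hx
    obtain ⟨r, hr, M, hrD, hM⟩ := hB x hx
    have h2 : TendstoLocallyUniformlyOn f g u (ball x r) :=
      tlu_of_pointwise isOpen_ball (hf.mono fun k hk => hk.mono hrD) hM
        (fun z hz => hg z (hrD hz))
    obtain ⟨t, ht, htu⟩ := (Metric.tendstoLocallyUniformlyOn_iff.1 h2) ε hε x (mem_ball_self hr)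
    refine ⟨t, ?_, htu⟩
    rw [isOpen_ball.nhdsWithin_eq (mem_ball_self hr)] at ht
    exact mem_nhdsWithin_of_mem_nhds ht
  exact ⟨g, (analyticOnNhd_of_tendstoLocallyUniformlyOn hD h1 hf).differentiableOn, h1⟩

/-- eventual boundedness at one point propagates (Schottky) -/
theorem bounded_everywhere (l : Filter ι)
    {D : Set E} (hD : IsOpen D) (hc : IsPreconnected D) {f : ι → E → ℂ}
    (hf : ∀ᶠ k in l, DifferentiableOn ℂ (f k) D)
    (h0 : ∀ᶠ k in l, ∀ z ∈ D, f k z ≠ 0) (h1 : ∀ᶠ k in l, ∀ z ∈ D, f k z ≠ 1)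
    {p : E} (hp : p ∈ D) {M₀ : ℝ} (hM₀ : ∀ᶠ k in l, ‖f k p‖ ≤ M₀) :
    ∀ z ∈ D, ∃ r > 0, ∃ M : ℝ, ball z r ⊆ D ∧ ∀ᶠ k in l, ∀ w ∈ ball z r, ‖f k w‖ ≤ M := by
  -- one step
  have step : ∀ a ∈ D, ∀ r > 0, ball a r ⊆ D → ∀ M, (∀ᶠ k in l, ‖f k a‖ ≤ M) →
      ∀ᶠ k in l, ∀ w ∈ closedBall a (1 / 2 * r), ‖f k w‖ ≤ Psi M (1 / 2) := by
    intro a ha r hr hrD M hM
    filter_upwards [hf, h0, h1, hM] with k hk hk0 hk1 hkM
    exact schottky_E hr (hk.mono hrD) (fun z hz => hk0 z (hrD hz)) (fun z hz => hk1 z (hrD hz))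
      hkM (by norm_num) (by norm_num)
  set B : Set E := {z | ∃ M : ℝ, ∀ᶠ k in l, ‖f k z‖ ≤ M} with hBdef
  have hBD : D ⊆ B := by
    -- `B` is relatively clopen
    have hopen : ∀ a ∈ D ∩ B, ∃ r > 0, ball a r ⊆ D ∩ B := by
      rintro a ⟨ha, M, hM⟩
      obtain ⟨r, hr, hrD⟩ := Metric.isOpen_iff.1 hD a ha
      refine ⟨1 / 2 * r, by positivity, fun w hw => ⟨hrD (ball_subset_ball (by linarith) hw), ?_⟩⟩
      refine ⟨Psi M (1 / 2), ?_⟩
      filter_upwards [step a ha r hr hrD M hM] with k hk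
      exact hk w (ball_subset_closedBall hw)
    have hclosed : ∀ a ∈ D \ B, ∃ r > 0, ball a r ⊆ D \ B := by
      rintro a ⟨ha, haB⟩
      obtain ⟨r, hr, hrD⟩ := Metric.isOpen_iff.1 hD a ha
      refine ⟨r / 3, by positivity, fun w hw => ⟨hrD (ball_subset_ball (by linarith) hw), ?_⟩⟩
      rintro ⟨M, hM⟩
      apply haB
      have hwr : ball w (2 * r / 3) ⊆ D := by
        refine (ball_subset_ball' ?_).trans hrD
        rw [mem_ball] at hw
        linarith
      have hwD : w ∈ D := hrD (ball_subset_ball (by linarith) hw)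
      refine ⟨Psi M (1 / 2), ?_⟩
      filter_upwards [step w hwD (2 * r / 3) (by positivity) hwr M hM] with k hk
      apply hk
      rw [mem_closedBall, dist_comm]
      rw [mem_ball] at hw
      linarith
    have ho1 : IsOpen (D ∩ B) := Metric.isOpen_iff.2 hopen
    have ho2 : IsOpen (D \ B) := Metric.isOpen_iff.2 hclosed
    intro z hz
    by_contra hzB
    have h := hc (D ∩ B) (D \ B) ho1 ho2 (fun x hx => by
      by_cases hxB : x ∈ B
      · exact Or.inl ⟨hx, hxB⟩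
      · exact Or.inr ⟨hx, hxB⟩) ⟨p, hp, hp, M₀, hM₀⟩ ⟨z, hz, hz, hzB⟩
    obtain ⟨x, -, ⟨-, hx1⟩, -, hx2⟩ := h
    exact hx2 hx1
  intro z hz
  obtain ⟨M, hM⟩ := hBD hz
  obtain ⟨r, hr, hrD⟩ := Metric.isOpen_iff.1 hD z hz
  refine ⟨1 / 2 * r, by positivity, Psi M (1 / 2), (ball_subset_ball (by linarith)).trans hrD, ?_⟩
  filter_upwards [step z hz r hr hrD M hM] with k hk
  exact fun w hw => hk w (ball_subset_closedBall hw)

/-- **Big Montel**, ultrafilter form. -/
theorem big_montel_ultra [FiniteDimensional ℂ E] (u : Ultrafilter ι)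
    {D : Set E} (hD : IsOpen D) (hc : IsPreconnected D) {f : ι → E → ℂ}
    (hf : ∀ᶠ k in (u : Filter ι), DifferentiableOn ℂ (f k) D)
    (h0 : ∀ᶠ k in (u : Filter ι), ∀ z ∈ D, f k z ≠ 0)
    (h1 : ∀ᶠ k in (u : Filter ι), ∀ z ∈ D, f k z ≠ 1) :
    (∃ g : E → ℂ, DifferentiableOn ℂ g D ∧ TendstoLocallyUniformlyOn f g u D) ∨
      TendstoLocallyUniformlyOn (fun k z => (f k z)⁻¹) (fun _ => 0) u D := by
  rcases D.eq_empty_or_nonempty with rfl | ⟨p, hp⟩
  · left
    refine ⟨0, differentiableOn_empty, ?_⟩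
    intro v hv x hx
    exact hx.elim
  by_cases hb : ∃ q ∈ D, ∃ M : ℝ, ∀ᶠ k in (u : Filter ι), ‖f k q‖ ≤ M
  · left
    obtain ⟨q, hq, M, hM⟩ := hb
    exact montel_loc_ultra u hD hf (bounded_everywhere _ hD hc hf h0 h1 hq hM)
  · right
    push Not at hb
    have hfi : ∀ᶠ k in (u : Filter ι), DifferentiableOn ℂ (fun z => (f k z)⁻¹) D := by
      filter_upwards [hf, h0] with k hk hk0
      exact hk.inv hk0
    have hfi0 : ∀ᶠ k in (u : Filter ι), ∀ z ∈ D, (f k z)⁻¹ ≠ 0 := by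
      filter_upwards [h0] with k hk0 z hz
      exact inv_ne_zero (hk0 z hz)
    have hfi1 : ∀ᶠ k in (u : Filter ι), ∀ z ∈ D, (f k z)⁻¹ ≠ 1 := by
      filter_upwards [h1] with k hk1 z hz h
      exact hk1 z hz (by rwa [inv_eq_one] at h)
    have hlarge : ∀ z ∈ D, ∀ M : ℝ, ∀ᶠ k in (u : Filter ι), M < ‖f k z‖ := hb
    have hp1 : ∀ᶠ k in (u : Filter ι), ‖(f k p)⁻¹‖ ≤ 1 := by
      filter_upwards [hlarge p hp 1] with k hk
      rw [norm_inv]
      exact inv_le_one_of_one_le₀ hk.le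
    obtain ⟨g, hg, hgu⟩ := montel_loc_ultra u hD hfi
      (bounded_everywhere _ hD hc hfi hfi0 hfi1 hp hp1)
    have hpt : ∀ z ∈ D, Tendsto (fun k => (f k z)⁻¹) u (𝓝 0) := by
      intro z hz
      rw [Metric.tendsto_nhds]
      intro ε hε
      filter_upwards [hlarge z hz (ε⁻¹)] with k hk
      rw [dist_zero_right, norm_inv]
      exact inv_lt_of_inv_lt₀ hε hk
    refine hgu.congr_right fun z hz => ?_
    exact tendsto_nhds_unique (hgu.tendsto_at hz) (hpt z hz)

/-- compact exhaustion of an open set -/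
theorem exists_exhaustion [FiniteDimensional ℂ E] {D : Set E} (hD : IsOpen D) :
    ∃ K : ℕ → Set E, (∀ n, IsCompact (K n)) ∧ (∀ n, K n ⊆ D) ∧ (∀ m n, m ≤ n → K m ⊆ K n) ∧
      ∀ x ∈ D, ∀ᶠ n in atTop, K n ∈ 𝓝 x := by
  have : ProperSpace E := FiniteDimensional.proper ℂ E
  have : LocallyCompactSpace D := hD.locallyCompactSpace
  have : SecondCountableTopology E := inferInstance
  have : SigmaCompactSpace D := inferInstance
  let K' : CompactExhaustion D := default
  refine ⟨fun n => (↑) '' K' n, fun n => (K'.isCompact n).image continuous_subtype_val,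
    fun n => by rintro _ ⟨x, -, rfl⟩; exact x.2,
    fun m n hmn => image_mono (K'.subset hmn), fun x hx => ?_⟩
  obtain ⟨n, hn⟩ := K'.exists_mem ⟨x, hx⟩
  filter_upwards [eventually_ge_atTop (n + 1)] with m hm
  have h1 : K' m ∈ 𝓝 (⟨x, hx⟩ : D) :=
    mem_of_superset (mem_interior_iff_mem_nhds.1 (K'.subset_interior_succ n hn)) (K'.subset hm)
  have h2 := hD.isOpenEmbedding_subtypeVal.map_nhds_eq ⟨x, hx⟩
  have h3 : (↑) '' K' m ∈ map ((↑) : D → E) (𝓝 ⟨x, hx⟩) := image_mem_map h1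
  rwa [h2] at h3

/-- from an ultrafilter limit to a subsequence -/
theorem exists_subseq_of_ultra [FiniteDimensional ℂ E] {u : Ultrafilter ℕ}
    (hu : (u : Filter ℕ) ≤ atTop) {D : Set E} (hD : IsOpen D) {f : ℕ → E → ℂ} {g : E → ℂ}
    (h : TendstoLocallyUniformlyOn f g u D) :
    ∃ φ : ℕ → ℕ, StrictMono φ ∧ TendstoLocallyUniformlyOn (fun n => f (φ n)) g atTop D := by
  obtain ⟨K, hK, hKD, hKm, hKx⟩ := exists_exhaustion hD
  have h1 : ∀ n : ℕ, ∀ᶠ k in (u : Filter ℕ), ∀ x ∈ K n, dist (g x) (f k x) < 1 / (n + 1) := by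
    intro n
    have h2 := (tendstoLocallyUniformlyOn_iff_tendstoUniformlyOn_of_compact (hK n)).1
      (h.mono (hKD n))
    exact Metric.tendstoUniformlyOn_iff.1 h2 _ (by positivity)
  have h2 : ∀ n : ℕ, ∃ᶠ k in atTop, ∀ x ∈ K n, dist (g x) (f k x) < 1 / (n + 1) := fun n =>
    ((h1 n).frequently).filter_mono hu
  obtain ⟨φ, hφ, hφ'⟩ := extraction_forall_of_frequently h2
  refine ⟨φ, hφ, ?_⟩
  rw [Metric.tendstoLocallyUniformlyOn_iff]
  intro ε hε x hx
  obtain ⟨n, hn⟩ := (hKx x hx).exists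
  refine ⟨K n, mem_nhdsWithin_of_mem_nhds hn, ?_⟩
  obtain ⟨m, hm⟩ := exists_nat_one_div_lt hε
  filter_upwards [eventually_ge_atTop n, eventually_ge_atTop m] with k hkn hkm y hy
  refine (hφ' k y (hKm n k hkn hy)).trans_le (le_trans ?_ hm.le)
  have : (m : ℝ) ≤ k := by exact_mod_cast hkm
  gcongr

/-- **Big Montel**, subsequence form. -/
theorem big_montel [FiniteDimensional ℂ E] {D : Set E} (hD : IsOpen D) (hc : IsPreconnected D)
    {f : ℕ → E → ℂ} (hf : ∀ k, DifferentiableOn ℂ (f k) D)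
    (h0 : ∀ k, ∀ z ∈ D, f k z ≠ 0) (h1 : ∀ k, ∀ z ∈ D, f k z ≠ 1) :
    ∃ φ : ℕ → ℕ, StrictMono φ ∧
      ((∃ g : E → ℂ, DifferentiableOn ℂ g D ∧
          TendstoLocallyUniformlyOn (fun n => f (φ n)) g atTop D) ∨
        TendstoLocallyUniformlyOn (fun n z => (f (φ n) z)⁻¹) (fun _ => 0) atTop D) := by
  have hu : ((hyperfilter ℕ : Ultrafilter ℕ) : Filter ℕ) ≤ atTop := by
    rw [← Nat.cofinite_eq_atTop]; exact hyperfilter_le_cofinite
  rcases big_montel_ultra (hyperfilter ℕ) hD hc (Eventually.of_forall hf)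
    (Eventually.of_forall h0) (Eventually.of_forall h1) with ⟨g, hg, h⟩ | h
  · obtain ⟨φ, hφ, hφ'⟩ := exists_subseq_of_ultra hu hD h
    exact ⟨φ, hφ, Or.inl ⟨g, hg, hφ'⟩⟩
  · obtain ⟨φ, hφ, hφ'⟩ := exists_subseq_of_ultra hu hD h
    exact ⟨φ, hφ, Or.inr hφ'⟩

/-- locally uniform convergence on an open set can be tested on ultrafilters -/
theorem tlu_of_ultra [FiniteDimensional ℂ E] {l : Filter ι} {D : Set E} (hD : IsOpen D)
    {f : ι → E → ℂ} {g : E → ℂ}
    (h : ∀ u : Ultrafilter ι, (u : Filter ι) ≤ l → TendstoLocallyUniformlyOn f g u D) :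
    TendstoLocallyUniformlyOn f g l D := by
  have : ProperSpace E := FiniteDimensional.proper ℂ E
  rw [Metric.tendstoLocallyUniformlyOn_iff]
  intro ε hε x hx
  obtain ⟨s, hs, hsD⟩ := Metric.isOpen_iff.1 hD x hx
  refine ⟨closedBall x (s / 2), mem_nhdsWithin_of_mem_nhds (closedBall_mem_nhds x (by positivity)),
    ?_⟩
  by_contra hcon
  have hne : (l ⊓ 𝓟 {k | ¬ ∀ y ∈ closedBall x (s / 2), dist (g y) (f k y) < ε}).NeBot := by
    rw [← frequently_mem_iff_neBot]
    intro hcon'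
    apply hcon
    filter_upwards [hcon'] with k hk
    by_contra hk'
    exact hk hk'
  obtain ⟨u, hu⟩ := @Ultrafilter.exists_le ι _ hne
  have h1 := h u (hu.trans inf_le_left)
  have h2 : ∀ᶠ k in (u : Filter ι), ¬ ∀ y ∈ closedBall x (s / 2), dist (g y) (f k y) < ε :=
    hu.trans inf_le_right (mem_principal_self _)
  have h3 := (tendstoLocallyUniformlyOn_iff_tendstoUniformlyOn_of_compact
    (isCompact_closedBall x (s / 2))).1 (h1.mono ((closedBall_subset_ball (by linarith)).trans hsD))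
  have h4 := Metric.tendstoUniformlyOn_iff.1 h3 ε hε
  obtain ⟨k, hk1, hk2⟩ := (h2.and h4).exists
  exact hk1 hk2

/-- **Vitali** for families omitting `0` and `1`. -/
theorem vitali_omit [FiniteDimensional ℂ E] {l : Filter ι}
    {D : Set E} (hD : IsOpen D) (hc : IsPreconnected D) {f : ι → E → ℂ} {g : E → ℂ}
    (hg : DifferentiableOn ℂ g D)
    (hf : ∀ᶠ k in l, DifferentiableOn ℂ (f k) D)
    (h0 : ∀ᶠ k in l, ∀ z ∈ D, f k z ≠ 0) (h1 : ∀ᶠ k in l, ∀ z ∈ D, f k z ≠ 1)
    {W : Set E} (hW : IsOpen W) (hWne : W.Nonempty) (hWD : W ⊆ D)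
    (hlim : ∀ z ∈ W, Tendsto (fun k => f k z) l (𝓝 (g z))) :
    TendstoLocallyUniformlyOn f g l D := by
  refine tlu_of_ultra hD fun u hu => ?_
  obtain ⟨p, hp⟩ := hWne
  have hpD := hWD hp
  have hlimu : ∀ z ∈ W, Tendsto (fun k => f k z) u (𝓝 (g z)) := fun z hz =>
    (hlim z hz).mono_left hu
  obtain ⟨M, hM⟩ : ∃ M : ℝ, ∀ᶠ k in (u : Filter ι), ‖f k p‖ ≤ M := by
    refine ⟨‖g p‖ + 1, ?_⟩
    filter_upwards [(hlimu p hp).norm.eventually (Iio_mem_nhds (lt_add_one ‖g p‖))] with k hk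
    exact le_of_lt hk
  obtain ⟨g', hg', hgu⟩ := montel_loc_ultra u hD (hu hf)
    (bounded_everywhere _ hD hc (hu hf) (hu h0) (hu h1) hpD hM)
  have han : AnalyticOnNhd ℂ g D := by
    have h1 : TendstoLocallyUniformlyOn (fun _ : ι => g) g u D := fun v hv x hx =>
      ⟨univ, univ_mem, Eventually.of_forall fun _ y _ => refl_mem_uniformity hv⟩
    exact analyticOnNhd_of_tendstoLocallyUniformlyOn hD h1 (Eventually.of_forall fun _ => hg)
  have han' : AnalyticOnNhd ℂ g' D := analyticOnNhd_of_tendstoLocallyUniformlyOn hD hgu (hu hf)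
  have heq : EqOn g' g D := by
    refine han'.eqOn_of_preconnected_of_eventuallyEq han hc hpD ?_
    filter_upwards [hW.mem_nhds hp] with z hz
    exact tendsto_nhds_unique (hgu.tendsto_at (hWD hz)) (hlimu z hz)
  exact hgu.congr_right heq

/-! ### two arbitrary omitted values -/

theorem affine_diff {f : E → ℂ} {D : Set E} (hf : DifferentiableOn ℂ f D) (a b : ℂ) :
    DifferentiableOn ℂ (fun z => (f z - a) / (b - a)) D := by
  have h1 : DifferentiableOn ℂ (fun z => (b - a)⁻¹ * (f z - a)) D :=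
    (hf.sub (differentiableOn_const _)).const_mul _
  refine h1.congr fun z _ => ?_
  rw [div_eq_inv_mul]

omit [NormedSpace ℂ E] in
theorem affine_tlu {l : Filter ι} {D : Set E} {f : ι → E → ℂ} {g : E → ℂ} {a b : ℂ}
    (hab : a ≠ b)
    (h : TendstoLocallyUniformlyOn (fun k z => (f k z - a) / (b - a)) g l D) :
    TendstoLocallyUniformlyOn f (fun z => a + (b - a) * g z) l D := by
  have hba : b - a ≠ 0 := sub_ne_zero.mpr hab.symm
  rw [Metric.tendstoLocallyUniformlyOn_iff] at h ⊢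
  intro ε hε x hx
  obtain ⟨t, ht, htu⟩ := h (ε / ‖b - a‖) (div_pos hε (norm_pos_iff.mpr hba)) x hx
  refine ⟨t, ht, ?_⟩
  filter_upwards [htu] with k hk y hy
  have h1 := hk y hy
  rw [dist_eq_norm, lt_div_iff₀ (norm_pos_iff.mpr hba), ← norm_mul] at h1
  rw [dist_eq_norm]
  have e : a + (b - a) * g y - f k y = (g y - (f k y - a) / (b - a)) * (b - a) := by
    field_simp
    ring
  rw [e]; exact h1

theorem big_montel_ultra_ab [FiniteDimensional ℂ E] (u : Ultrafilter ι)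
    {D : Set E} (hD : IsOpen D) (hc : IsPreconnected D) {f : ι → E → ℂ} {a b : ℂ} (hab : a ≠ b)
    (hf : ∀ᶠ k in (u : Filter ι), DifferentiableOn ℂ (f k) D)
    (h0 : ∀ᶠ k in (u : Filter ι), ∀ z ∈ D, f k z ≠ a)
    (h1 : ∀ᶠ k in (u : Filter ι), ∀ z ∈ D, f k z ≠ b) :
    (∃ g : E → ℂ, DifferentiableOn ℂ g D ∧ TendstoLocallyUniformlyOn f g u D) ∨
      ∀ z ∈ D, ∃ r > 0, ∀ M : ℝ, ∀ᶠ k in (u : Filter ι), ∀ w ∈ ball z r, M ≤ ‖f k w‖ := by
  have hba : b - a ≠ 0 := sub_ne_zero.mpr hab.symm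
  have hn : 0 < ‖b - a‖ := norm_pos_iff.mpr hba
  have : ProperSpace E := FiniteDimensional.proper ℂ E
  rcases big_montel_ultra u hD hc (f := fun k z => (f k z - a) / (b - a))
    (hf.mono fun k hk => affine_diff hk a b)
    (h0.mono fun k hk z hz => div_ne_zero (sub_ne_zero.mpr (hk z hz)) hba)
    (h1.mono fun k hk z hz h => hk z hz (by
      rw [div_eq_one_iff_eq hba] at h
      linear_combination h)) with ⟨g, hg, h⟩ | h
  · left
    exact ⟨_, (differentiableOn_const a).add (hg.const_mul (b - a)), affine_tlu hab h⟩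
  · right
    intro z hz
    obtain ⟨s, hs, hsD⟩ := Metric.isOpen_iff.1 hD z hz
    refine ⟨s / 2, by positivity, fun M => ?_⟩
    have h3 := (tendstoLocallyUniformlyOn_iff_tendstoUniformlyOn_of_compact
      (isCompact_closedBall z (s / 2))).1 (h.mono ((closedBall_subset_ball (by linarith)).trans hsD))
    set N : ℝ := (|M| + ‖a‖ + 1) / ‖b - a‖ with hN
    have hN0 : 0 < N := by rw [hN]; positivity
    filter_upwards [Metric.tendstoUniformlyOn_iff.1 h3 (N⁻¹) (by positivity), h0] with k hk hk0 w hw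
    have h4 := hk w (ball_subset_closedBall hw)
    have hwD : w ∈ D := hsD (ball_subset_ball (by linarith) hw)
    have h5 : 0 < ‖f k w - a‖ := norm_pos_iff.mpr (sub_ne_zero.mpr (hk0 w hwD))
    rw [dist_comm, dist_zero_right, norm_inv, norm_div] at h4
    have h6 : N < ‖f k w - a‖ / ‖b - a‖ :=
      (inv_lt_inv₀ (by positivity) hN0).1 h4
    rw [hN, div_lt_div_iff_of_pos_right hn] at h6
    have h7 : ‖f k w - a‖ ≤ ‖f k w‖ + ‖a‖ := norm_sub_le _ _
    have h8 := le_abs_self M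
    linarith

theorem vitali_omit_ab [FiniteDimensional ℂ E] {l : Filter ι}
    {D : Set E} (hD : IsOpen D) (hc : IsPreconnected D) {f : ι → E → ℂ} {g : E → ℂ}
    (hg : DifferentiableOn ℂ g D) {a b : ℂ} (hab : a ≠ b)
    (hf : ∀ᶠ k in l, DifferentiableOn ℂ (f k) D)
    (h0 : ∀ᶠ k in l, ∀ z ∈ D, f k z ≠ a) (h1 : ∀ᶠ k in l, ∀ z ∈ D, f k z ≠ b)
    {W : Set E} (hW : IsOpen W) (hWne : W.Nonempty) (hWD : W ⊆ D)
    (hlim : ∀ z ∈ W, Tendsto (fun k => f k z) l (𝓝 (g z))) :
    TendstoLocallyUniformlyOn f g l D := by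
  have hba : b - a ≠ 0 := sub_ne_zero.mpr hab.symm
  have h := vitali_omit (l := l) hD hc (f := fun k z => (f k z - a) / (b - a))
    (g := fun z => (g z - a) / (b - a)) (affine_diff hg a b)
    (hf.mono fun k hk => affine_diff hk a b)
    (h0.mono fun k hk z hz => div_ne_zero (sub_ne_zero.mpr (hk z hz)) hba)
    (h1.mono fun k hk z hz h => hk z hz (by
      rw [div_eq_one_iff_eq hba] at h
      linear_combination h)) hW hWne hWD
    (fun z hz => ((hlim z hz).sub_const a).div_const (b - a))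
  refine (affine_tlu hab h).congr_right fun z _ => ?_
  field_simp
  ring

end Crest.Agent.R102.M948
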