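import Mathlib
import Crest.Agent.R102.BigMontel_948

/-!
Row 102, T1-B, end of step 5 (638 #23556 (3)), pure compactness / identity statements.

* `montel_ev` : Montel along an ultrafilter, functions only eventually holomorphic near each point;
* `newton` : holomorphic dependence of the zero of an almost linear equation on parameters;
* `end1` : no births where the limit `R` of `exp (2 i (ψ₀ - φ_n))` is not `1`;
* `face_unique`, `end2` : `R = 1` on a dense part of the face is impossible.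
-/

set_option autoImplicit false
set_option linter.unusedSectionVars false
set_option linter.unusedVariables false

open Set Filter Topology Metric Complex

noncomputable section

namespace Crest.Agent.R102.End613

open Crest.Agent.R102.M948 Crest.Agent.R264 Crest.Agent.R266.SCV

variable {E : Type*} [NormedAddCommGroup E] [NormedSpace ℂ E] [FiniteDimensional ℂ E]
variable {ι : Type*}

/-- Montel along an ultrafilter; near every point the functions are eventually holomorphic and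
bounded -/
theorem montel_ev (u : Ultrafilter ι) {D : Set E} (hD : IsOpen D) {f : ι → E → ℂ}
    (h : ∀ x ∈ D, ∃ r > 0, ∃ M : ℝ, ball x r ⊆ D ∧
      ∀ᶠ k in (u : Filter ι), DifferentiableOn ℂ (f k) (ball x r) ∧ ∀ w ∈ ball x r, ‖f k w‖ ≤ M) :
    ∃ g : E → ℂ, DifferentiableOn ℂ g D ∧ TendstoLocallyUniformlyOn f g u D := by
  classical
  have hloc : ∀ x ∈ D, ∃ r > 0, ball x r ⊆ D ∧ ∃ g : E → ℂ, DifferentiableOn ℂ g (ball x r) ∧
      TendstoLocallyUniformlyOn f g u (ball x r) := by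
    intro x hx
    obtain ⟨r, hr, M, hrD, hM⟩ := h x hx
    refine ⟨r, hr, hrD, ?_⟩
    refine montel_loc_ultra u isOpen_ball (hM.mono fun k hk => hk.1) (fun z hz => ?_)
    obtain ⟨s, hs, hsz⟩ := Metric.isOpen_iff.1 isOpen_ball z hz
    exact ⟨s, hs, M, hsz, hM.mono fun k hk w hw => hk.2 w (hsz hw)⟩
  choose! r hr hrD g hg hgu using hloc
  have hpt : ∀ x ∈ D, ∀ y ∈ ball x (r x), Tendsto (fun k => f k y) u (𝓝 (g x y)) :=
    fun x hx y hy => (hgu x hx).tendsto_at hy
  have heq : ∀ x ∈ D, ∀ y ∈ ball x (r x), g y y = g x y := fun x hx y hy =>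
    tendsto_nhds_unique (hpt y (hrD x hx hy) y (mem_ball_self (hr y (hrD x hx hy)))) (hpt x hx y hy)
  refine ⟨fun y => g y y, ?_, ?_⟩
  · intro x hx
    have h1 : DifferentiableAt ℂ (g x) x :=
      (hg x hx).differentiableAt (isOpen_ball.mem_nhds (mem_ball_self (hr x hx)))
    refine (h1.congr_of_eventuallyEq ?_).differentiableWithinAt
    filter_upwards [isOpen_ball.mem_nhds (mem_ball_self (hr x hx))] with y hy
    exact heq x hx y hy
  · rw [Metric.tendstoLocallyUniformlyOn_iff]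
    intro ε hε x hx
    have h1 := (Metric.tendstoLocallyUniformlyOn_iff.1 (hgu x hx)) ε hε x (mem_ball_self (hr x hx))
    obtain ⟨t, ht, hk⟩ := h1
    rw [isOpen_ball.nhdsWithin_eq (mem_ball_self (hr x hx))] at ht
    refine ⟨t ∩ ball x (r x), mem_nhdsWithin_of_mem_nhds
      (inter_mem ht (isOpen_ball.mem_nhds (mem_ball_self (hr x hx)))), ?_⟩
    filter_upwards [hk] with k hk y hy
    rw [heq x hx y hy.2]
    exact hk y hy.1

/-- zeros of an almost linear equation depend holomorphically on the parameter -/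
theorem newton {V : Set E} (hV : IsOpen V) {b₀ : ℂ} {ρ : ℝ} (hρ : 0 < ρ) {F : ℂ → E → ℂ}
    {A : E → ℂ}
    (hF : ∀ g : E → ℂ, DifferentiableOn ℂ g V → (∀ x ∈ V, g x ∈ closedBall b₀ ρ) →
      DifferentiableOn ℂ (fun x => F (g x) x) V)
    (hA : DifferentiableOn ℂ A V) {a : ℝ} (ha : 0 < a) (hAa : ∀ x ∈ V, a ≤ ‖A x‖)
    (hF0 : ∀ x ∈ V, ‖F b₀ x‖ ≤ a * ρ / 2)
    (hLip : ∀ x ∈ V, ∀ b ∈ closedBall b₀ ρ, ∀ b' ∈ closedBall b₀ ρ,
      ‖F b x - F b' x - A x * (b - b')‖ ≤ a / 4 * ‖b - b'‖) :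
    ∃ G : E → ℂ, DifferentiableOn ℂ G V ∧ (∀ x ∈ V, G x ∈ closedBall b₀ ρ ∧ F (G x) x = 0) ∧
      ∀ x ∈ V, ∀ b ∈ closedBall b₀ ρ, F b x = 0 → b = G x := by
  classical
  have hA0 : ∀ x ∈ V, A x ≠ 0 := fun x hx h0 => by
    have := hAa x hx
    rw [h0, norm_zero] at this
    linarith
  -- the Newton map
  let N : ℂ → E → ℂ := fun b x => b - F b x / A x
  have hNc : ∀ x ∈ V, ∀ b ∈ closedBall b₀ ρ, ∀ b' ∈ closedBall b₀ ρ,
      ‖N b x - N b' x‖ ≤ 1 / 4 * ‖b - b'‖ := by
    intro x hx b hb b' hb'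
    have h1 : N b x - N b' x = -((F b x - F b' x - A x * (b - b')) / A x) := by
      simp only [N]
      field_simp [hA0 x hx]
      ring
    rw [h1, norm_neg, norm_div, div_le_iff₀ (norm_pos_iff.2 (hA0 x hx))]
    calc ‖F b x - F b' x - A x * (b - b')‖ ≤ a / 4 * ‖b - b'‖ := hLip x hx b hb b' hb'
      _ ≤ 1 / 4 * ‖b - b'‖ * ‖A x‖ := by nlinarith [hAa x hx, norm_nonneg (b - b')]
  have hN0 : ∀ x ∈ V, ‖N b₀ x - b₀‖ ≤ ρ / 2 := by
    intro x hx
    have h1 : N b₀ x - b₀ = -(F b₀ x / A x) := by simp only [N]; ring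
    rw [h1, norm_neg, norm_div, div_le_iff₀ (norm_pos_iff.2 (hA0 x hx))]
    calc ‖F b₀ x‖ ≤ a * ρ / 2 := hF0 x hx
      _ ≤ ρ / 2 * ‖A x‖ := by nlinarith [hAa x hx]
  have hNm : ∀ x ∈ V, ∀ b ∈ closedBall b₀ ρ, N b x ∈ closedBall b₀ ρ := by
    intro x hx b hb
    have h1 := hNc x hx b hb b₀ (mem_closedBall_self hρ.le)
    have h2 := hN0 x hx
    have h3 : ‖b - b₀‖ ≤ ρ := by rwa [mem_closedBall, dist_eq_norm] at hb
    rw [mem_closedBall, dist_eq_norm]
    calc ‖N b x - b₀‖ = ‖(N b x - N b₀ x) + (N b₀ x - b₀)‖ := by ring_nf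
      _ ≤ ‖N b x - N b₀ x‖ + ‖N b₀ x - b₀‖ := norm_add_le _ _
      _ ≤ ρ := by linarith
  let G : ℕ → E → ℂ := fun k x => (fun b => N b x)^[k] b₀
  have hG0 : ∀ x, G 0 x = b₀ := fun x => rfl
  have hGs : ∀ k x, G (k + 1) x = N (G k x) x := fun k x => by
    simp only [G, Function.iterate_succ_apply']
  have hGm : ∀ k, ∀ x ∈ V, G k x ∈ closedBall b₀ ρ := by
    intro k
    induction k with
    | zero => intro x _; rw [hG0]; exact mem_closedBall_self hρ.le
    | succ k ih => intro x hx; rw [hGs]; exact hNm x hx _ (ih x hx)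
  have hGd : ∀ k, DifferentiableOn ℂ (G k) V := by
    intro k
    induction k with
    | zero => exact differentiableOn_const _
    | succ k ih =>
      have : G (k + 1) = fun x => G k x - F (G k x) x / A x := by
        funext x
        rw [hGs]
      rw [this]
      simp only [div_eq_mul_inv]
      exact ih.sub ((hF _ ih (hGm k)).mul (hA.inv hA0))
  have hGl : ∀ k, ∀ x ∈ V, dist (G k x) (G (k + 1) x) ≤ ρ * (1 / 4 : ℝ) ^ k := by
    intro k
    induction k with
    | zero =>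
      intro x hx
      rw [hGs, hG0, dist_comm, dist_eq_norm]
      have := hN0 x hx
      simp only [pow_zero]
      linarith
    | succ k ih =>
      intro x hx
      rw [hGs (k + 1), hGs k, dist_eq_norm]
      have h1 := hNc x hx _ (hGm k x hx) _ (hNm x hx _ (hGm k x hx))
      have h2 := ih x hx
      rw [hGs k, dist_eq_norm] at h2
      calc _ ≤ 1 / 4 * ‖G k x - N (G k x) x‖ := h1
        _ ≤ 1 / 4 * (ρ * (1 / 4 : ℝ) ^ k) := by gcongr
        _ = ρ * (1 / 4 : ℝ) ^ (k + 1) := by ring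
  have hcau : ∀ x ∈ V, ∃ y, Tendsto (fun k => G k x) atTop (𝓝 y) := fun x hx =>
    cauchySeq_tendsto_of_complete (cauchySeq_of_le_geometric (1 / 4) ρ (by norm_num)
      (fun k => hGl k x hx))
  choose! G' hG' using hcau
  have hest : ∀ k, ∀ x ∈ V, dist (G k x) (G' x) ≤ ρ * (1 / 4 : ℝ) ^ k / (1 - 1 / 4) :=
    fun k x hx => dist_le_of_le_geometric_of_tendsto (1 / 4) ρ (by norm_num)
      (fun k => hGl k x hx) (hG' x hx) k
  have hlu : TendstoUniformlyOn G G' atTop V := by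
    rw [Metric.tendstoUniformlyOn_iff]
    intro ε hε
    have h1 : Tendsto (fun k : ℕ => ρ * (1 / 4 : ℝ) ^ k / (1 - 1 / 4)) atTop (𝓝 0) := by
      have := ((tendsto_pow_atTop_nhds_zero_of_lt_one (show (0 : ℝ) ≤ 1 / 4 by norm_num)
        (by norm_num)).const_mul ρ).div_const (1 - 1 / 4)
      simpa using this
    filter_upwards [h1.eventually_lt_const hε] with k hk x hx
    rw [dist_comm]
    exact (hest k x hx).trans_lt hk
  have hG'm : ∀ x ∈ V, G' x ∈ closedBall b₀ ρ := fun x hx =>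
    isClosed_closedBall.mem_of_tendsto (hG' x hx) (Eventually.of_forall fun k => hGm k x hx)
  have hfix : ∀ x ∈ V, N (G' x) x = G' x := by
    intro x hx
    have h1 : Tendsto (fun k => G (k + 1) x) atTop (𝓝 (N (G' x) x)) := by
      rw [tendsto_iff_norm_sub_tendsto_zero]
      have h2 : Tendsto (fun k => 1 / 4 * ‖G k x - G' x‖) atTop (𝓝 0) := by
        have := ((tendsto_iff_norm_sub_tendsto_zero.1 (hG' x hx)).const_mul (1 / 4))
        simpa using this
      refine squeeze_zero (fun _ => norm_nonneg _) (fun k => ?_) h2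
      rw [hGs]
      exact hNc x hx _ (hGm k x hx) _ (hG'm x hx)
    exact tendsto_nhds_unique h1 ((hG' x hx).comp (tendsto_add_atTop_nat 1))
  refine ⟨G', ?_, fun x hx => ⟨hG'm x hx, ?_⟩, ?_⟩
  · exact (analyticOnNhd_of_tendstoLocallyUniformlyOn hV hlu.tendstoLocallyUniformlyOn
      (Eventually.of_forall hGd)).differentiableOn
  · have h1 := hfix x hx
    simp only [N] at h1
    have h2 : F (G' x) x / A x = 0 := by linear_combination -h1
    exact (div_eq_zero_iff.1 h2).resolve_right (hA0 x hx)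
  · intro x hx b hb hb0
    have h1 : N b x = b := by simp only [N]; rw [hb0]; simp
    have h2 := hNc x hx b hb (G' x) (hG'm x hx)
    rw [h1, hfix x hx] at h2
    have h3 : ‖b - G' x‖ = 0 := by
      have := norm_nonneg (b - G' x)
      linarith
    exact sub_eq_zero.1 (norm_eq_zero.1 h3)

/-- the equation of the line `(φ, p)` at the point with isotropic coordinates `(Z, Zc)` -/
def Inc (φ p Z Zc : ℂ) : ℂ := cexp (-(I * φ)) * Z - cexp (I * φ) * Zc - 2 * I * p

theorem inc_diff {V : Set E} {φ p z zc : E → ℂ} (hφ : DifferentiableOn ℂ φ V)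
    (hp : DifferentiableOn ℂ p V) (hz : DifferentiableOn ℂ z V) (hzc : DifferentiableOn ℂ zc V) :
    DifferentiableOn ℂ (fun x => Inc (φ x) (p x) (z x) (zc x)) V := by
  unfold Inc
  fun_prop

/-- differentiability from eventual local differentiability, on a compact set -/
theorem ev_diff_compact {l : Filter ι} {f : ι → E → ℂ} {D L : Set E} (hL : IsCompact L)
    (hLD : L ⊆ D)
    (h : ∀ x ∈ D, ∃ r > 0, ∀ᶠ n in l, DifferentiableOn ℂ (f n) (ball x r)) :
    ∀ᶠ n in l, ∀ x ∈ L, DifferentiableAt ℂ (f n) x := by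
  choose! r hr hf using h
  obtain ⟨t, htL, ht⟩ := hL.elim_nhds_subcover (fun x => ball x (r x))
    (fun x hx => ball_mem_nhds x (hr x (hLD hx)))
  have h1 : ∀ᶠ n in l, ∀ x ∈ t, DifferentiableOn ℂ (f n) (ball x (r x)) :=
    (Filter.eventually_all_finset t).2 fun x hx => hf x (hLD (htL x hx))
  filter_upwards [h1] with n hn x hx
  obtain ⟨y, hy⟩ := mem_iUnion.1 (ht hx)
  obtain ⟨hyt, hxy⟩ := mem_iUnion.1 hy
  exact (hn y hyt).differentiableAt (isOpen_ball.mem_nhds hxy)

/-- **END1** (638 (3), `ε` fixed): the limit `R` of `exp (2 i (T b₀ - φ_n))`; where `R ≠ 1` the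
label near `b₀` of the intersection of the line with the curve is a holomorphic function, eventually
defined on a fixed neighbourhood. -/
theorem end1 (u : Ultrafilter ι) {Gam Low : Set E} (hG : IsOpen Gam) (hGc : IsPreconnected Gam)
    (hL : IsOpen Low) (hLG : Low ⊆ Gam) (hLn : Low.Nonempty)
    {S : Set ℂ} (hS : IsOpen S) {Z Zc T c : ℂ → ℂ}
    (hZ : ∀ b ∈ S, HasDerivAt Z (c b * cexp (I * T b)) b)
    (hZc : ∀ b ∈ S, HasDerivAt Zc (c b * cexp (-(I * T b))) b)
    {b₀ : ℂ} (hb₀ : b₀ ∈ S) (hT : ContinuousAt T b₀) (hcc : ContinuousAt c b₀) (hc : c b₀ ≠ 0)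
    {φ p B : ι → E → ℂ}
    (hreg : ∀ x ∈ Gam, ∃ r > 0, ball x r ⊆ Gam ∧ ∃ C : ℝ, ∀ᶠ n in (u : Filter ι),
      DifferentiableOn ℂ (φ n) (ball x r) ∧ DifferentiableOn ℂ (p n) (ball x r) ∧
      ∀ y ∈ ball x r, |(φ n y - T b₀).im| ≤ C ∧ ‖Inc (φ n y) (p n y) (Z b₀) (Zc b₀)‖ ≤ C)
    (hB : ∀ x ∈ Low, Tendsto (fun n => B n x) u (𝓝 b₀))
    (hI : ∀ x ∈ Low, ∀ᶠ n in (u : Filter ι),
      Inc (φ n x) (p n x) (Z (B n x)) (Zc (B n x)) = 0) :
    ∃ R : E → ℂ, DifferentiableOn ℂ R Gam ∧ (∀ x ∈ Gam, R x ≠ 0) ∧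
      TendstoLocallyUniformlyOn (fun n x => cexp (2 * I * (T b₀ - φ n x))) R u Gam ∧
      ∀ Q ⊆ Gam, IsCompact Q → (∀ x ∈ Q, R x ≠ 1) → ∀ ε > 0, ∃ ρ > 0, ρ ≤ ε ∧
        closedBall b₀ ρ ⊆ S ∧ ∃ V : Set E, IsOpen V ∧ Q ⊆ V ∧ V ⊆ Gam ∧
        ∀ᶠ n in (u : Filter ι), ∃ G : E → ℂ, DifferentiableOn ℂ G V ∧
          (∀ x ∈ V, G x ∈ closedBall b₀ ρ ∧ Inc (φ n x) (p n x) (Z (G x)) (Zc (G x)) = 0) ∧
          ∀ x ∈ V, ∀ b ∈ closedBall b₀ ρ, Inc (φ n x) (p n x) (Z b) (Zc b) = 0 → b = G x := by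
  classical
  have hne : (u : Filter ι).NeBot := u.neBot
  have : ProperSpace E := FiniteDimensional.proper ℂ E
  -- the exponentials
  let W : ι → E → ℂ := fun n x => cexp (I * (φ n x - T b₀))
  let W' : ι → E → ℂ := fun n x => cexp (-(I * (φ n x - T b₀)))
  let P : ι → E → ℂ := fun n x => Inc (φ n x) (p n x) (Z b₀) (Zc b₀)
  have hWW : ∀ n x, W n x * W' n x = 1 := fun n x => by
    simp only [W, W']
    rw [← Complex.exp_add]
    simp
  have hWn : ∀ n x, ‖W n x‖ ≤ Real.exp |(φ n x - T b₀).im| := fun n x => by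
    simp only [W]
    rw [Complex.norm_exp]
    refine Real.exp_le_exp.2 ?_
    have : (I * (φ n x - T b₀)).re = -(φ n x - T b₀).im := by simp
    rw [this]
    exact neg_le_abs _
  have hWn' : ∀ n x, ‖W' n x‖ ≤ Real.exp |(φ n x - T b₀).im| := fun n x => by
    simp only [W']
    rw [Complex.norm_exp]
    refine Real.exp_le_exp.2 ?_
    have : (-(I * (φ n x - T b₀))).re = (φ n x - T b₀).im := by simp
    rw [this]
    exact le_abs_self _
  obtain ⟨w, hw, hwl⟩ := montel_ev u hG (f := W) (fun x hx => by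
    obtain ⟨r, hr, hrG, C, hC⟩ := hreg x hx
    refine ⟨r, hr, Real.exp C, hrG, ?_⟩
    filter_upwards [hC] with n hn
    refine ⟨?_, fun y hy => (hWn n y).trans (Real.exp_le_exp.2 (hn.2.2 y hy).1)⟩
    have := hn.1
    simp only [W]
    fun_prop)
  obtain ⟨w', hw', hwl'⟩ := montel_ev u hG (f := W') (fun x hx => by
    obtain ⟨r, hr, hrG, C, hC⟩ := hreg x hx
    refine ⟨r, hr, Real.exp C, hrG, ?_⟩
    filter_upwards [hC] with n hn
    refine ⟨?_, fun y hy => (hWn' n y).trans (Real.exp_le_exp.2 (hn.2.2 y hy).1)⟩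
    have := hn.1
    simp only [W']
    fun_prop)
  obtain ⟨P0, hP0, hPl⟩ := montel_ev u hG (f := P) (fun x hx => by
    obtain ⟨r, hr, hrG, C, hC⟩ := hreg x hx
    refine ⟨r, hr, C, hrG, ?_⟩
    filter_upwards [hC] with n hn
    exact ⟨inc_diff hn.1 hn.2.1 (differentiableOn_const _) (differentiableOn_const _),
      fun y hy => (hn.2.2 y hy).2⟩)
  obtain ⟨R, hR, hRl⟩ := montel_ev u hG (f := fun n x => cexp (2 * I * (T b₀ - φ n x)))
    (fun x hx => by
    obtain ⟨r, hr, hrG, C, hC⟩ := hreg x hx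
    refine ⟨r, hr, Real.exp C * Real.exp C, hrG, ?_⟩
    filter_upwards [hC] with n hn
    refine ⟨?_, fun y hy => ?_⟩
    · have := hn.1
      fun_prop
    · have h1 : cexp (2 * I * (T b₀ - φ n y)) = W' n y * W' n y := by
        simp only [W']
        rw [← Complex.exp_add]
        ring_nf
      rw [h1, norm_mul]
      have h2 := (hWn' n y).trans (Real.exp_le_exp.2 (hn.2.2 y hy).1)
      gcongr)
  have hww : ∀ x ∈ Gam, w x * w' x = 1 := fun x hx => by
    have h1 := (hwl.tendsto_at hx).mul (hwl'.tendsto_at hx)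
    have h2 : (fun n => W n x * W' n x) = fun _ => 1 := funext fun n => hWW n x
    rw [h2] at h1
    exact (tendsto_nhds_unique h1 tendsto_const_nhds)
  have hRw : ∀ x ∈ Gam, R x = w' x * w' x := fun x hx => by
    have h1 := (hwl'.tendsto_at hx).mul (hwl'.tendsto_at hx)
    refine tendsto_nhds_unique (hRl.tendsto_at hx) (h1.congr fun n => ?_)
    simp only [W']
    rw [← Complex.exp_add]
    ring_nf
  have hw'0 : ∀ x ∈ Gam, w' x ≠ 0 := fun x hx h0 => by
    have := hww x hx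
    rw [h0, mul_zero] at this
    exact zero_ne_one this
  have hexp1 : ∀ n x, cexp (-(I * φ n x)) = cexp (-(I * T b₀)) * W' n x := fun n x => by
    simp only [W']
    rw [← Complex.exp_add]
    ring_nf
  have hexp2 : ∀ n x, cexp (I * φ n x) = cexp (I * T b₀) * W n x := fun n x => by
    simp only [W]
    rw [← Complex.exp_add]
    ring_nf
  -- `P0 = 0`
  have hP00 : ∀ x ∈ Low, P0 x = 0 := by
    intro x hx
    have hxG := hLG hx
    have hZt : Tendsto (fun n => Z (B n x)) u (𝓝 (Z b₀)) :=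
      ((hZ b₀ hb₀).continuousAt.tendsto).comp (hB x hx)
    have hZct : Tendsto (fun n => Zc (B n x)) u (𝓝 (Zc b₀)) :=
      ((hZc b₀ hb₀).continuousAt.tendsto).comp (hB x hx)
    have h1 : Tendsto (fun n => cexp (-(I * T b₀)) * W' n x * (Z b₀ - Z (B n x)) -
        cexp (I * T b₀) * W n x * (Zc b₀ - Zc (B n x))) u (𝓝 (cexp (-(I * T b₀)) * w' x *
          (Z b₀ - Z b₀) - cexp (I * T b₀) * w x * (Zc b₀ - Zc b₀))) :=
      (((hwl'.tendsto_at hxG).const_mul _).mul (tendsto_const_nhds.sub hZt)).sub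
        (((hwl.tendsto_at hxG).const_mul _).mul (tendsto_const_nhds.sub hZct))
    have h2 : Tendsto (fun n => P n x) u (𝓝 (cexp (-(I * T b₀)) * w' x *
          (Z b₀ - Z b₀) - cexp (I * T b₀) * w x * (Zc b₀ - Zc b₀))) := by
      refine h1.congr' ?_
      filter_upwards [hI x hx] with n hn
      have h3 : P n x = P n x - Inc (φ n x) (p n x) (Z (B n x)) (Zc (B n x)) := by
        rw [hn, sub_zero]
      rw [h3]
      simp only [P, Inc]
      rw [hexp1, hexp2]
      ring
    have h3 := tendsto_nhds_unique (hPl.tendsto_at hxG) h2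
    rw [h3]
    ring
  have hP0G : ∀ x ∈ Gam, P0 x = 0 := by
    obtain ⟨x₀, hx₀⟩ := hLn
    have h1 := (analyticOnNhd_of_differentiableOn hG hP0).eqOn_zero_of_preconnected_of_eventuallyEq_zero
      hGc (hLG hx₀) (by
        filter_upwards [hL.mem_nhds hx₀] with y hy
        exact hP00 y hy)
    exact fun x hx => h1 hx
  refine ⟨R, hR, fun x hx => ?_, hRl, ?_⟩
  · rw [hRw x hx]
    exact mul_ne_zero (hw'0 x hx) (hw'0 x hx)
  intro Q hQG hQ hQ1 ε hε
  -- a compact neighbourhood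
  have hopen : IsOpen (Gam ∩ R ⁻¹' {1}ᶜ) :=
    hR.continuousOn.isOpen_inter_preimage hG isOpen_compl_singleton
  obtain ⟨L, hLc, hQL, hLsub⟩ := exists_compact_between hQ hopen
    (fun x hx => ⟨hQG hx, hQ1 x hx⟩)
  have hLG' : L ⊆ Gam := fun x hx => (hLsub hx).1
  have hwc : ContinuousOn w L := hw.continuousOn.mono hLG'
  have hwc' : ContinuousOn w' L := hw'.continuousOn.mono hLG'
  obtain ⟨M1, hM1⟩ := hLc.exists_bound_of_continuousOn hwc
  obtain ⟨M2, hM2⟩ := hLc.exists_bound_of_continuousOn hwc'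
  obtain ⟨a, ha, haL⟩ : ∃ a > 0, ∀ x ∈ L, 2 * a ≤ ‖c b₀ * (w' x - w x)‖ := by
    rcases L.eq_empty_or_nonempty with hLe | hLne
    · exact ⟨1, one_pos, fun x hx => by rw [hLe] at hx; exact absurd hx (notMem_empty x)⟩
    · have hcont : ContinuousOn (fun x => ‖c b₀ * (w' x - w x)‖) L :=
        (continuousOn_const.mul (hwc'.sub hwc)).norm
      obtain ⟨x₁, hx₁, hmin⟩ := hLc.exists_isMinOn hLne hcont
      have hpos : 0 < ‖c b₀ * (w' x₁ - w x₁)‖ := by
        refine norm_pos_iff.2 (mul_ne_zero hc (sub_ne_zero.2 fun heq => ?_))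
        refine (hLsub hx₁).2 ?_
        show R x₁ = 1
        rw [hRw x₁ (hLG' hx₁)]
        nth_rewrite 1 [heq]
        exact hww x₁ (hLG' hx₁)
      exact ⟨‖c b₀ * (w' x₁ - w x₁)‖ / 2, by positivity, fun x hx => by
        have := hmin hx
        simp only [mem_ofPred_eq] at this
        linarith⟩
  set M : ℝ := max M1 M2 + 1 with hM
  have hM0 : 0 < |M| + 1 := by positivity
  -- the radius
  have hd1 : ContinuousAt (fun b => c b * cexp (I * (T b - T b₀))) b₀ := by fun_prop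
  have hd2 : ContinuousAt (fun b => c b * cexp (-(I * (T b - T b₀)))) b₀ := by fun_prop
  have hκ : 0 < a / (8 * (|M| + 1)) := by positivity
  obtain ⟨ρ, hρ, hρε, hρS, hρ1, hρ2⟩ : ∃ ρ > 0, ρ ≤ ε ∧ closedBall b₀ ρ ⊆ S ∧
      (∀ b ∈ closedBall b₀ ρ, ‖c b * cexp (I * (T b - T b₀)) - c b₀‖ ≤ a / (8 * (|M| + 1))) ∧
      (∀ b ∈ closedBall b₀ ρ, ‖c b * cexp (-(I * (T b - T b₀))) - c b₀‖ ≤
        a / (8 * (|M| + 1))) := by
    have e1 := Metric.tendsto_nhds.1 hd1.tendsto _ hκ
    have e2 := Metric.tendsto_nhds.1 hd2.tendsto _ hκ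
    simp only [sub_self, mul_zero, neg_zero, Complex.exp_zero, mul_one] at e1 e2
    obtain ⟨ρ, hρ, hball⟩ := Metric.eventually_nhds_iff.1 (e1.and (e2.and (hS.mem_nhds hb₀)))
    refine ⟨min (ρ / 2) ε, by positivity, min_le_right _ _, ?_, ?_, ?_⟩
    · intro b hb
      exact (hball (y := b) (lt_of_le_of_lt (mem_closedBall.1 hb)
        (lt_of_le_of_lt (min_le_left _ _) (by linarith)))).2.2
    · intro b hb
      have := (hball (y := b) (lt_of_le_of_lt (mem_closedBall.1 hb)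
        (lt_of_le_of_lt (min_le_left _ _) (by linarith)))).1
      rw [dist_eq_norm] at this
      exact this.le
    · intro b hb
      have := (hball (y := b) (lt_of_le_of_lt (mem_closedBall.1 hb)
        (lt_of_le_of_lt (min_le_left _ _) (by linarith)))).2.1
      rw [dist_eq_norm] at this
      exact this.le
  refine ⟨ρ, hρ, hρε, hρS, interior L, isOpen_interior, hQL,
    interior_subset.trans hLG', ?_⟩
  -- uniform convergence on `L`
  have hcu : ∀ {f : ι → E → ℂ} {g : E → ℂ}, TendstoLocallyUniformlyOn f g u Gam →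
      TendstoUniformlyOn f g u L := fun h =>
    (tendstoLocallyUniformlyOn_iff_tendstoUniformlyOn_of_compact hLc).1 (h.mono hLG')
  have u1 := Metric.tendstoUniformlyOn_iff.1 (hcu hwl) 1 one_pos
  have u2 := Metric.tendstoUniformlyOn_iff.1 (hcu hwl') 1 one_pos
  have u3 := Metric.tendstoUniformlyOn_iff.1 (hcu hPl) (a * ρ / 2) (by positivity)
  have hca : 0 < a / (2 * (‖c b₀‖ + 1)) := by positivity
  have u4 := Metric.tendstoUniformlyOn_iff.1 (hcu hwl) _ hca
  have u5 := Metric.tendstoUniformlyOn_iff.1 (hcu hwl') _ hca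
  have v1 := ev_diff_compact (l := (u : Filter ι)) (f := φ) hLc hLG' (fun x hx => by
    obtain ⟨r, hr, hrG, C, hC⟩ := hreg x hx
    exact ⟨r, hr, hC.mono fun n hn => hn.1⟩)
  have v2 := ev_diff_compact (l := (u : Filter ι)) (f := p) hLc hLG' (fun x hx => by
    obtain ⟨r, hr, hrG, C, hC⟩ := hreg x hx
    exact ⟨r, hr, hC.mono fun n hn => hn.2.1⟩)
  filter_upwards [u1, u2, u3, u4, u5, v1, v2] with n g1 g2 g3 g4 g5 d1 d2
  have hVL : interior L ⊆ L := interior_subset
  have dφ : DifferentiableOn ℂ (φ n) (interior L) := fun x hx =>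
    (d1 x (hVL hx)).differentiableWithinAt
  have dp : DifferentiableOn ℂ (p n) (interior L) := fun x hx =>
    (d2 x (hVL hx)).differentiableWithinAt
  have bW : ∀ x ∈ L, ‖W n x‖ ≤ |M| + 1 := fun x hx => by
    have h1 := g1 x hx
    rw [dist_comm, dist_eq_norm] at h1
    have h2 : ‖W n x‖ ≤ ‖W n x - w x‖ + ‖w x‖ := by
      calc ‖W n x‖ = ‖(W n x - w x) + w x‖ := by ring_nf
        _ ≤ _ := norm_add_le _ _
    have h3 := hM1 x hx
    have h4 := le_max_left M1 M2
    have h5 := le_abs_self M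
    rw [hM] at h5 ⊢
    linarith
  have bW' : ∀ x ∈ L, ‖W' n x‖ ≤ |M| + 1 := fun x hx => by
    have h1 := g2 x hx
    rw [dist_comm, dist_eq_norm] at h1
    have h2 : ‖W' n x‖ ≤ ‖W' n x - w' x‖ + ‖w' x‖ := by
      calc ‖W' n x‖ = ‖(W' n x - w' x) + w' x‖ := by ring_nf
        _ ≤ _ := norm_add_le _ _
    have h3 := hM2 x hx
    have h4 := le_max_right M1 M2
    have h5 := le_abs_self M
    rw [hM] at h5 ⊢
    linarith
  have hderZ : ∀ b ∈ closedBall b₀ ρ, HasDerivWithinAt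
      (fun b => cexp (-(I * T b₀)) * Z b - c b₀ * b) (c b * cexp (I * (T b - T b₀)) - c b₀)
      (closedBall b₀ ρ) b := fun b hb => by
    have h1 := ((hZ b (hρS hb)).const_mul (cexp (-(I * T b₀)))).sub
      ((hasDerivAt_id b).const_mul (c b₀))
    refine (h1.congr_deriv ?_).hasDerivWithinAt
    have h2 : cexp (I * (T b - T b₀)) = cexp (-(I * T b₀)) * cexp (I * T b) := by
      rw [← Complex.exp_add]
      ring_nf
    rw [h2]
    ring
  have hderZc : ∀ b ∈ closedBall b₀ ρ, HasDerivWithinAt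
      (fun b => cexp (I * T b₀) * Zc b - c b₀ * b) (c b * cexp (-(I * (T b - T b₀))) - c b₀)
      (closedBall b₀ ρ) b := fun b hb => by
    have h1 := ((hZc b (hρS hb)).const_mul (cexp (I * T b₀))).sub
      ((hasDerivAt_id b).const_mul (c b₀))
    refine (h1.congr_deriv ?_).hasDerivWithinAt
    have h2 : cexp (-(I * (T b - T b₀))) = cexp (I * T b₀) * cexp (-(I * T b)) := by
      rw [← Complex.exp_add]
      ring_nf
    rw [h2]
    ring
  refine newton isOpen_interior hρ (F := fun b x => Inc (φ n x) (p n x) (Z b) (Zc b))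
    (A := fun x => c b₀ * (W' n x - W n x)) ?_ ?_ ha ?_ ?_ ?_
  · intro g hg hgm
    refine inc_diff dφ dp ?_ ?_
    · exact fun x hx => ((hZ (g x) (hρS (hgm x hx))).differentiableAt).comp_differentiableWithinAt x
        (hg x hx)
    · exact fun x hx => ((hZc (g x) (hρS (hgm x hx))).differentiableAt).comp_differentiableWithinAt
        x (hg x hx)
  · simp only [W, W']
    fun_prop
  · intro x hx
    have h1 := haL x (hVL hx)
    have h4 := g4 x (hVL hx)
    have h5 := g5 x (hVL hx)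
    rw [dist_eq_norm] at h4 h5
    have h6 : c b₀ * (w' x - w x) = c b₀ * (W' n x - W n x) + c b₀ * ((w' x - W' n x) -
      (w x - W n x)) := by ring
    have h7 : ‖c b₀ * ((w' x - W' n x) - (w x - W n x))‖ ≤ a := by
      rw [norm_mul]
      have h8 : ‖(w' x - W' n x) - (w x - W n x)‖ ≤ a / (‖c b₀‖ + 1) := by
        refine (norm_sub_le _ _).trans ?_
        have : a / (‖c b₀‖ + 1) = a / (2 * (‖c b₀‖ + 1)) + a / (2 * (‖c b₀‖ + 1)) := by
          field_simp
          ring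
        linarith
      calc ‖c b₀‖ * ‖(w' x - W' n x) - (w x - W n x)‖ ≤ (‖c b₀‖ + 1) * (a / (‖c b₀‖ + 1)) := by
            gcongr
            linarith
        _ = a := by field_simp
    have h9 := norm_add_le (c b₀ * (W' n x - W n x)) (c b₀ * ((w' x - W' n x) - (w x - W n x)))
    rw [← h6] at h9
    show a ≤ ‖c b₀ * (W' n x - W n x)‖
    linarith
  · intro x hx
    have h1 := g3 x (hVL hx)
    rw [hP0G x (hLG' (hVL hx)), dist_comm, dist_zero_right] at h1
    exact h1.le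
  · intro x hx b hb b' hb'
    have hcv := convex_closedBall b₀ ρ
    have m1 := hcv.norm_image_sub_le_of_norm_hasDerivWithin_le (fun b hb => hderZ b hb) hρ1 hb' hb
    have m2 := hcv.norm_image_sub_le_of_norm_hasDerivWithin_le (fun b hb => hderZc b hb) hρ2 hb' hb
    have h1 : Inc (φ n x) (p n x) (Z b) (Zc b) - Inc (φ n x) (p n x) (Z b') (Zc b') -
        c b₀ * (W' n x - W n x) * (b - b') =
        W' n x * ((cexp (-(I * T b₀)) * Z b - c b₀ * b) -
          (cexp (-(I * T b₀)) * Z b' - c b₀ * b')) -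
        W n x * ((cexp (I * T b₀) * Zc b - c b₀ * b) -
          (cexp (I * T b₀) * Zc b' - c b₀ * b')) := by
      simp only [Inc]
      rw [hexp1, hexp2]
      ring
    show ‖Inc (φ n x) (p n x) (Z b) (Zc b) - Inc (φ n x) (p n x) (Z b') (Zc b') -
        c b₀ * (W' n x - W n x) * (b - b')‖ ≤ a / 4 * ‖b - b'‖
    rw [h1]
    refine (norm_sub_le _ _).trans ?_
    rw [norm_mul, norm_mul]
    have k1 := bW x (hVL hx)
    have k2 := bW' x (hVL hx)
    calc _ ≤ (|M| + 1) * (a / (8 * (|M| + 1)) * ‖b - b'‖) +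
          (|M| + 1) * (a / (8 * (|M| + 1)) * ‖b - b'‖) := by gcongr
      _ = a / 4 * ‖b - b'‖ := by
        field_simp
        ring

end Crest.Agent.R102.End613
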