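import Mathlib
import Crest.Agent.R102.End_613

/-!
Row 102, T1-B, EDGE (a) (619 #28986 (a)): extraction of limits in a cusp window (helper985).

* `harnack_le` : one variable Harnack; `harnack_E` : on balls of `E`;
* `propagate` : a locally constant property on a preconnected set;
* `to_inf` : `Re f_n ≥ -C` locally, `Re f_n x₀ → ∞` ⟹ `Re f_n → ∞` locally uniformly;
* `cusp_lim` : `exp (2 i φ_n) → 0`, `2 i p_n exp (i φ_n) → k`;
* `label_lim` : labels in a strip converge, with strict bound;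
* `inc_lim` : the limit of the incidence (regular form, at zeros of `y` too).
-/

set_option autoImplicit false
set_option linter.unusedSectionVars false
set_option linter.unusedVariables false

open Set Filter Topology Metric Complex

noncomputable section

namespace Crest.Agent.R102.LimA985

open Crest.Agent.R102.M948 Crest.Agent.R102.End613 Crest.Agent.R264

variable {E : Type*} [NormedAddCommGroup E] [NormedSpace ℂ E] [FiniteDimensional ℂ E]
variable {ι : Type*}

/-- a locally constant property on a preconnected open set -/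
theorem propagate {X : Type*} [TopologicalSpace X] {D : Set X} (hc : IsPreconnected D)
    {P : X → Prop} (hstep : ∀ x ∈ D, ∃ V : Set X, IsOpen V ∧ x ∈ V ∧ ∀ y ∈ V ∩ D, (P x ↔ P y))
    {x₀ : X} (hx₀ : x₀ ∈ D) (h₀ : P x₀) : ∀ x ∈ D, P x := by
  choose! V hV hxV hPV using hstep
  intro x hx
  by_contra hP
  let A : Set X := ⋃ y ∈ {y | y ∈ D ∧ P y}, V y
  let B : Set X := ⋃ y ∈ {y | y ∈ D ∧ ¬ P y}, V y
  have hA : IsOpen A := isOpen_biUnion fun y hy => hV y hy.1
  have hB : IsOpen B := isOpen_biUnion fun y hy => hV y hy.1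
  obtain ⟨z, hz, hzA, hzB⟩ := hc A B hA hB (fun y hy => by
    by_cases hp : P y
    · exact Or.inl (mem_biUnion (show y ∈ {y | y ∈ D ∧ P y} from ⟨hy, hp⟩) (hxV y hy))
    · exact Or.inr (mem_biUnion (show y ∈ {y | y ∈ D ∧ ¬ P y} from ⟨hy, hp⟩) (hxV y hy)))
    ⟨x₀, hx₀, mem_biUnion (show x₀ ∈ {y | y ∈ D ∧ P y} from ⟨hx₀, h₀⟩) (hxV x₀ hx₀)⟩
    ⟨x, hx, mem_biUnion (show x ∈ {y | y ∈ D ∧ ¬ P y} from ⟨hx, hP⟩) (hxV x hx)⟩
  obtain ⟨y, hy, hzy⟩ := mem_iUnion₂.1 hzA
  obtain ⟨y', hy', hzy'⟩ := mem_iUnion₂.1 hzB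
  exact hy'.2 ((hPV y' hy'.1 z ⟨hzy', hz⟩).2 ((hPV y hy.1 z ⟨hzy, hz⟩).1 hy.2))

/-- Borel–Carathéodory on balls of `E`, half radius -/
theorem bc_E {f : E → ℂ} {a : E} {r M : ℝ} (hr : 0 < r) (hM : 0 < M)
    (hf : DifferentiableOn ℂ f (ball a r)) (hre : ∀ z ∈ ball a r, (f z).re - (f a).re ≤ M) :
    ∀ z ∈ closedBall a (r / 2), ‖f z - f a‖ ≤ 2 * M := by
  intro z hz
  rcases eq_or_ne z a with rfl | hne
  · simp only [sub_self, norm_zero]; positivity
  have hn : 0 < ‖z - a‖ := norm_pos_iff.mpr (sub_ne_zero.mpr hne)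
  have hz' : ‖z - a‖ ≤ r / 2 := by rwa [mem_closedBall, dist_eq_norm] at hz
  set R : ℝ := r / ‖z - a‖ with hR
  have hR2 : 2 ≤ R := by
    rw [hR, le_div_iff₀ hn]; linarith
  have hR0 : 0 < R := by positivity
  set L : ℂ → E := fun t => a + t • (z - a) with hL
  have hLd : Differentiable ℂ L := by rw [hL]; fun_prop
  have hLm : MapsTo L (ball 0 R) (ball a r) := by
    intro t ht
    rw [mem_ball_zero_iff] at ht
    rw [mem_ball_iff_norm, hL]
    simp only [add_sub_cancel_left, norm_smul]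
    calc ‖t‖ * ‖z - a‖ < R * ‖z - a‖ := by gcongr
      _ = r := by rw [hR]; field_simp
  have h := Complex.borelCaratheodory_zero (f := fun t => f (L t) - f a) (M := M) (R := R) (z := 1)
    hM ((hf.comp hLd.differentiableOn hLm).sub (differentiableOn_const _))
    (fun t ht => by
      have := hre _ (hLm ht)
      simpa using this) hR0 (by rw [mem_ball_zero_iff, norm_one]; linarith) (by simp [hL])
  have h2 : 2 * M * ‖(1 : ℂ)‖ / (R - ‖(1 : ℂ)‖) ≤ 2 * M := by
    rw [norm_one, mul_one, div_le_iff₀ (by linarith)]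
    nlinarith
  have h3 : f (L 1) = f z := by simp [hL]
  rw [h3] at h
  exact h.trans h2

/-- Harnack on balls of `E` -/
theorem harnack_E {f : E → ℂ} {a : E} {r C : ℝ} (hr : 0 < r)
    (hf : DifferentiableOn ℂ f (ball a r)) (hre : ∀ z ∈ ball a r, -C ≤ (f z).re) :
    ∀ z ∈ closedBall a (r / 4),
      (f z).re + C ≤ 3 * ((f a).re + C) ∧ (f a).re + C ≤ 3 * ((f z).re + C) := by
  have key : ∀ b ∈ ball a r, ∀ s > 0, ball b s ⊆ ball a r → ∀ z ∈ closedBall b (s / 2),
      (f z).re + C ≤ 3 * ((f b).re + C) := by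
    intro b hb s hs hsub z hz
    refine le_of_forall_pos_le_add fun ε hε => ?_
    have h0 : 0 ≤ (f b).re + C := by linarith [hre b hb]
    have h1 := bc_E (f := fun x => - f x) (M := (f b).re + C + ε / 2) hs (by linarith)
      (hf.mono hsub).neg (fun x hx => by
        have := hre x (hsub hx)
        simp only [neg_re]
        linarith) z hz
    have h2 : (f z).re - (f b).re ≤ ‖(- f z) - (- f b)‖ := by
      have := Complex.abs_re_le_norm ((- f z) - (- f b))
      have h3 : ((- f z) - (- f b)).re = -((f z).re - (f b).re) := by simp; ring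
      rw [h3, abs_neg] at this
      exact (le_abs_self _).trans this
    linarith
  intro z hz
  have hz' : dist z a ≤ r / 4 := by rwa [mem_closedBall] at hz
  refine ⟨key a (mem_ball_self hr) r hr subset_rfl z (closedBall_subset_closedBall (by linarith) hz),
    ?_⟩
  have hza : z ∈ ball a r := by rw [mem_ball]; linarith
  refine key z hza (r / 2) (by positivity) (ball_subset_ball' (by linarith)) a ?_
  rw [mem_closedBall, dist_comm]
  linarith

/-- `Re f_n ≥ -C` locally and `Re f_n x₀ → ∞` imply `Re f_n → ∞` locally uniformly -/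
theorem to_inf {l : Filter ι} {D : Set E} (hD : IsOpen D) (hc : IsPreconnected D) {f : ι → E → ℂ}
    (h : ∀ x ∈ D, ∃ r > 0, ball x r ⊆ D ∧ ∃ C : ℝ,
      ∀ᶠ n in l, DifferentiableOn ℂ (f n) (ball x r) ∧ ∀ y ∈ ball x r, -C ≤ (f n y).re)
    {x₀ : E} (hx₀ : x₀ ∈ D) (h₀ : Tendsto (fun n => (f n x₀).re) l atTop) :
    ∀ x ∈ D, ∃ r > 0, ball x r ⊆ D ∧ ∀ A : ℝ, ∀ᶠ n in l, ∀ y ∈ ball x r, A ≤ (f n y).re := by
  have hpt : ∀ x ∈ D, Tendsto (fun n => (f n x).re) l atTop := by
    refine propagate hc (fun x hx => ?_) hx₀ h₀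
    obtain ⟨r, hr, hrD, C, hC⟩ := h x hx
    refine ⟨ball x (r / 4), isOpen_ball, mem_ball_self (by positivity), fun y hy => ?_⟩
    have hy' : y ∈ closedBall x (r / 4) := ball_subset_closedBall hy.1
    rw [Filter.tendsto_atTop, Filter.tendsto_atTop]
    constructor
    · intro hx A
      filter_upwards [hC, hx (3 * (A + C) - C)] with n hn hA
      have := (harnack_E hr hn.1 hn.2 y hy').2
      linarith
    · intro hx A
      filter_upwards [hC, hx (3 * (A + C) - C)] with n hn hA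
      have := (harnack_E hr hn.1 hn.2 y hy').1
      linarith
  intro x hx
  obtain ⟨r, hr, hrD, C, hC⟩ := h x hx
  refine ⟨r / 4, by positivity, (ball_subset_ball (by linarith)).trans hrD, fun A => ?_⟩
  filter_upwards [hC, Filter.tendsto_atTop.1 (hpt x hx) (3 * (A + C) - C)] with n hn hA y hy
  have := (harnack_E hr hn.1 hn.2 y (ball_subset_closedBall hy)).2
  linarith

/-- Harnack comparison at two points of a preconnected set -/
theorem harnack_cmp {l : Filter ι} {D : Set E} (hD : IsOpen D) (hc : IsPreconnected D)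
    {f : ι → E → ℂ} {C : ℝ}
    (h : ∀ x ∈ D, ∃ r > 0, ball x r ⊆ D ∧
      ∀ᶠ n in l, DifferentiableOn ℂ (f n) (ball x r) ∧ ∀ y ∈ ball x r, -C ≤ (f n y).re)
    {x₀ : E} (hx₀ : x₀ ∈ D) :
    ∀ x ∈ D, ∃ c : ℝ, 1 ≤ c ∧ ∀ᶠ n in l,
      (f n x).re + C ≤ c * ((f n x₀).re + C) ∧ (f n x₀).re + C ≤ c * ((f n x).re + C) := by
  refine propagate hc (fun x hx => ?_) hx₀ ⟨1, le_refl _, Eventually.of_forall fun n => by simp⟩
  obtain ⟨r, hr, hrD, hC⟩ := h x hx
  refine ⟨ball x (r / 4), isOpen_ball, mem_ball_self (by positivity), fun y hy => ?_⟩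
  have hy' : y ∈ closedBall x (r / 4) := ball_subset_closedBall hy.1
  constructor
  · rintro ⟨c, hc1, hcn⟩
    refine ⟨3 * c, by linarith, ?_⟩
    filter_upwards [hC, hcn] with n hn hA
    have := harnack_E hr hn.1 hn.2 y hy'
    constructor
    · nlinarith [this.1, hA.1]
    · nlinarith [this.2, hA.2]
  · rintro ⟨c, hc1, hcn⟩
    refine ⟨3 * c, by linarith, ?_⟩
    filter_upwards [hC, hcn] with n hn hA
    have := harnack_E hr hn.1 hn.2 y hy'
    constructor
    · nlinarith [this.2, hA.1]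
    · nlinarith [this.1, hA.2]

/-- **cusp limit** -/
theorem cusp_lim (u : Ultrafilter ι) {G : Set E} (hG : IsOpen G) (hGc : IsPreconnected G)
    {φ p : ι → E → ℂ}
    (hreg : ∀ x ∈ G, ∃ r > 0, ball x r ⊆ G ∧ ∃ C : ℝ, ∀ᶠ n in (u : Filter ι),
      DifferentiableOn ℂ (φ n) (ball x r) ∧ DifferentiableOn ℂ (p n) (ball x r) ∧
      ∀ y ∈ ball x r, -C ≤ (φ n y).im ∧ ‖p n y * cexp (I * φ n y)‖ ≤ C)
    {x₀ : E} (hx₀ : x₀ ∈ G) (hinf : Tendsto (fun n => (φ n x₀).im) u atTop) :
    (∃ k : E → ℂ, DifferentiableOn ℂ k G ∧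
      TendstoLocallyUniformlyOn (fun n x => 2 * I * p n x * cexp (I * φ n x)) k u G) ∧
    TendstoLocallyUniformlyOn (fun n x => cexp (2 * I * φ n x)) (fun _ => 0) u G ∧
    ∀ x ∈ G, ∃ r > 0, ball x r ⊆ G ∧ ∀ A : ℝ, ∀ᶠ n in (u : Filter ι), ∀ y ∈ ball x r,
      A ≤ (φ n y).im := by
  have hre : ∀ z : ℂ, (-(I * z)).re = z.im := fun z => by simp
  have hT := to_inf (l := (u : Filter ι)) hG hGc (f := fun n x => -(I * φ n x)) (fun x hx => by
    obtain ⟨r, hr, hrG, C, hC⟩ := hreg x hx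
    refine ⟨r, hr, hrG, C, ?_⟩
    filter_upwards [hC] with n hn
    refine ⟨(hn.1.const_mul I).neg, fun y hy => ?_⟩
    rw [hre]
    exact (hn.2.2 y hy).1) hx₀ (by simpa only [hre] using hinf)
  simp only [hre] at hT
  refine ⟨montel_ev u hG (fun x hx => ?_), ?_, hT⟩
  · obtain ⟨r, hr, hrG, C, hC⟩ := hreg x hx
    refine ⟨r, hr, 2 * C, hrG, ?_⟩
    filter_upwards [hC] with n hn
    have h1 := hn.1
    have h2 := hn.2.1
    refine ⟨by fun_prop, fun y hy => ?_⟩
    have := (hn.2.2 y hy).2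
    rw [mul_assoc, norm_mul]
    simp only [norm_mul, Complex.norm_ofNat, Complex.norm_I, mul_one] at this ⊢
    linarith
  · rw [Metric.tendstoLocallyUniformlyOn_iff]
    intro ε hε x hx
    obtain ⟨r, hr, hrG, hA⟩ := hT x hx
    refine ⟨ball x r, mem_nhdsWithin_of_mem_nhds (ball_mem_nhds x hr), ?_⟩
    have h1 : Tendsto (fun A : ℝ => Real.exp (-(2 * A))) atTop (𝓝 0) := by
      refine Real.tendsto_exp_neg_atTop_nhds_zero.comp ?_
      exact tendsto_id.const_mul_atTop (by norm_num)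
    obtain ⟨A, hA'⟩ := (h1.eventually_lt_const hε).exists
    filter_upwards [hA A] with n hn y hy
    rw [dist_comm, dist_zero_right, Complex.norm_exp]
    refine lt_of_le_of_lt (Real.exp_le_exp.2 ?_) hA'
    have h2 : (2 * I * φ n y).re = -(2 * (φ n y).im) := by simp
    rw [h2]
    have := hn y hy
    linarith

/-- **limits of labels** -/
theorem label_lim (u : Ultrafilter ι) {D : Set E} (hD : IsOpen D) (hc : IsPreconnected D)
    {B : ι → E → ℂ} {h h' R : ℝ} (hh : h' < h)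
    (hB : ∀ x ∈ D, ∃ r > 0, ball x r ⊆ D ∧ ∀ᶠ n in (u : Filter ι),
      DifferentiableOn ℂ (B n) (ball x r) ∧ ∀ y ∈ ball x r, |(B n y).im| ≤ h)
    {x₀ : E} (hx₀ : x₀ ∈ D)
    (h₀ : ∀ᶠ n in (u : Filter ι), |(B n x₀).im| ≤ h' ∧ |(B n x₀).re| ≤ R) :
    ∃ β : E → ℂ, DifferentiableOn ℂ β D ∧ TendstoLocallyUniformlyOn B β u D ∧
      ∀ x ∈ D, |(β x).im| < h := by
  have hne : (u : Filter ι).NeBot := u.neBot
  have hhp : 0 < h := by
    obtain ⟨n, hn⟩ := h₀.exists
    linarith [abs_nonneg (B n x₀).im]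
  -- local oscillation
  have hosc : ∀ x ∈ D, ∃ r > 0, ball x r ⊆ D ∧ ∀ᶠ n in (u : Filter ι),
      DifferentiableOn ℂ (B n) (ball x r) ∧ ∀ y ∈ ball x r, ‖B n y - B n x‖ ≤ 4 * h := by
    intro x hx
    obtain ⟨r, hr, hrD, hn⟩ := hB x hx
    refine ⟨r / 2, by positivity, (ball_subset_ball (by linarith)).trans hrD, ?_⟩
    filter_upwards [hn] with n hn
    refine ⟨hn.1.mono (ball_subset_ball (by linarith)), fun y hy => ?_⟩
    have h1 := bc_E (f := fun x => I * B n x) (a := x) (r := r) (M := 2 * h) hr (by linarith)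
      (hn.1.const_mul I) (fun z hz => by
        have h2 := abs_le.1 (hn.2 z hz)
        have h3 := abs_le.1 (hn.2 x (mem_ball_self hr))
        simp only [mul_re, I_re, I_im, zero_mul, one_mul, zero_sub]
        linarith) y (ball_subset_closedBall hy)
    have h2 : I * B n y - I * B n x = I * (B n y - B n x) := by ring
    rw [h2, norm_mul, Complex.norm_I, one_mul] at h1
    linarith
  have hbd : ∀ x ∈ D, ∃ M : ℝ, ∀ᶠ n in (u : Filter ι), ‖B n x‖ ≤ M := by
    refine propagate hc (fun x hx => ?_) hx₀ ⟨h + R, ?_⟩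
    · obtain ⟨r, hr, hrD, hn⟩ := hosc x hx
      refine ⟨ball x r, isOpen_ball, mem_ball_self hr, fun y hy => ⟨?_, ?_⟩⟩
      · rintro ⟨M, hM⟩
        refine ⟨M + 4 * h, ?_⟩
        filter_upwards [hn, hM] with n hn hM
        have h1 := hn.2 y hy.1
        have h2 := norm_sub_norm_le (B n y) (B n x)
        linarith
      · rintro ⟨M, hM⟩
        refine ⟨M + 4 * h, ?_⟩
        filter_upwards [hn, hM] with n hn hM
        have h1 := hn.2 y hy.1
        rw [norm_sub_rev] at h1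
        have h2 := norm_sub_norm_le (B n x) (B n y)
        linarith
    · filter_upwards [h₀] with n hn
      have := Complex.norm_le_abs_re_add_abs_im (B n x₀)
      linarith [hn.1, hn.2]
  obtain ⟨β, hβ, hβu⟩ := montel_ev u hD (f := B) (fun x hx => by
    obtain ⟨r, hr, hrD, hn⟩ := hosc x hx
    obtain ⟨M, hM⟩ := hbd x hx
    refine ⟨r, hr, M + 4 * h, hrD, ?_⟩
    filter_upwards [hn, hM] with n hn hM
    refine ⟨hn.1, fun y hy => ?_⟩
    have h1 := hn.2 y hy
    have h2 := norm_sub_norm_le (B n y) (B n x)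
    linarith)
  refine ⟨β, hβ, hβu, ?_⟩
  have hpt : ∀ x ∈ D, Tendsto (fun n => B n x) u (𝓝 (β x)) := fun x hx => hβu.tendsto_at hx
  have hle : ∀ x ∈ D, |(β x).im| ≤ h := by
    intro x hx
    obtain ⟨r, hr, hrD, hn⟩ := hB x hx
    have h1 : Tendsto (fun n => |(B n x).im|) u (𝓝 |(β x).im|) :=
      ((Complex.continuous_im.tendsto _).comp (hpt x hx)).abs
    exact le_of_tendsto h1 (hn.mono fun n hn => hn.2 x (mem_ball_self hr))
  have hle0 : |(β x₀).im| ≤ h' := by
    have h1 : Tendsto (fun n => |(B n x₀).im|) u (𝓝 |(β x₀).im|) :=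
      ((Complex.continuous_im.tendsto _).comp (hpt x₀ hx₀)).abs
    exact le_of_tendsto h1 (h₀.mono fun n hn => hn.1)
  -- strictness: maximum principle for `exp (∓ i β)`
  have hstrict : ∀ s : ℝ, (s = 1 ∨ s = -1) → ∀ x ∈ D, s * (β x).im < h := by
    intro s hs x hx
    by_contra hcon
    have hnorm : ∀ y, ‖cexp (-(I * (s * β y)))‖ = Real.exp (s * (β y).im) := fun y => by
      rw [Complex.norm_exp]
      congr 1
      simp
    have hsle : ∀ y ∈ D, s * (β y).im ≤ h := by
      intro y hy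
      have := abs_le.1 (hle y hy)
      rcases hs with rfl | rfl <;> linarith
    have hmax : IsMaxOn (norm ∘ fun y => cexp (-(I * (s * β y)))) D x := by
      intro y hy
      simp only [Function.comp_apply, mem_ofPred_eq]
      rw [hnorm, hnorm]
      refine Real.exp_le_exp.2 ?_
      have := hsle y hy
      linarith
    have h1 := Complex.norm_eqOn_of_isPreconnected_of_isMaxOn (f := fun y => cexp (-(I * (s * β y))))
      hc hD (by fun_prop) hx hmax hx₀
    simp only [Function.comp_apply, Function.const_apply] at h1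
    rw [hnorm, hnorm] at h1
    have h2 := Real.exp_injective h1
    have h3 := abs_le.1 hle0
    rcases hs with rfl | rfl <;> linarith
  intro x hx
  rw [abs_lt]
  have h1 := hstrict 1 (Or.inl rfl) x hx
  have h2 := hstrict (-1) (Or.inr rfl) x hx
  constructor <;> linarith

/-- **limit of the incidence** in a cusp, regular form: `A = y Z`, `Ac = y Zc` -/
theorem inc_lim (u : Ultrafilter ι) {D : Set E} {h : ℝ} {A Ac y : ℂ → ℂ}
    (hA : ContinuousOn A {b | |b.im| < h}) (hAc : ContinuousOn Ac {b | |b.im| < h})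
    (hy : ContinuousOn y {b | |b.im| < h}) (hAy : ∀ b, |b.im| < h → y b = 0 → A b ≠ 0)
    {B m k : ι → E → ℂ} {β κ : E → ℂ} (hβ : ∀ x ∈ D, |(β x).im| < h)
    (hB : ∀ x ∈ D, Tendsto (fun n => B n x) u (𝓝 (β x)))
    (hm : ∀ x ∈ D, Tendsto (fun n => m n x) u (𝓝 0))
    (hk : ∀ x ∈ D, Tendsto (fun n => k n x) u (𝓝 (κ x)))
    (hinc : ∀ x ∈ D, ∀ᶠ n in (u : Filter ι), A (B n x) - m n x * Ac (B n x) = k n x * y (B n x)) :
    ∀ x ∈ D, A (β x) = κ x * y (β x) ∧ y (β x) ≠ 0 := by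
  have hne : (u : Filter ι).NeBot := u.neBot
  intro x hx
  have hS : IsOpen {b : ℂ | |b.im| < h} := isOpen_lt (by fun_prop) continuous_const
  have hmem : {b : ℂ | |b.im| < h} ∈ 𝓝 (β x) := hS.mem_nhds (hβ x hx)
  have h1 := ((hA.continuousAt hmem).tendsto.comp (hB x hx))
  have h2 := ((hAc.continuousAt hmem).tendsto.comp (hB x hx))
  have h3 := ((hy.continuousAt hmem).tendsto.comp (hB x hx))
  have h4 : Tendsto (fun n => A (B n x) - m n x * Ac (B n x)) u (𝓝 (A (β x) - 0 * Ac (β x))) :=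
    h1.sub ((hm x hx).mul h2)
  have h5 : Tendsto (fun n => k n x * y (B n x)) u (𝓝 (κ x * y (β x))) := (hk x hx).mul h3
  have h6 : A (β x) - 0 * Ac (β x) = κ x * y (β x) :=
    tendsto_nhds_unique_of_eventuallyEq h4 h5 (hinc x hx)
  have h7 : A (β x) = κ x * y (β x) := by rw [← h6]; ring
  refine ⟨h7, fun h0 => hAy _ (hβ x hx) h0 ?_⟩
  rw [h7, h0, mul_zero]

end Crest.Agent.R102.LimA985
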