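import Crest.Agent.R102.EndSeq_196
import Crest.Agent.R102.LimA_985
import Crest.Agent.R102.Face2_300
import Crest.Agent.R264.MontelU

/-!
Row 102, T1-B, EDGE (a)+(b) (helper196): **every interior window is normal and tangential**.
With `m_n = e^{2τφ_n}`, `k_n = 2 p_n e^{τφ_n}` (`τ = ±i`) locally bounded above the face, the
incidence is affine in `(m_n, k_n)`; Montel + `EndSeq196.end_seq` give `m = e^{2τψ(β)}` in the limit.
-/

set_option autoImplicit false

open Set Filter Topology Metric Complex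

noncomputable section

namespace Crest.Agent.R102.AB196

open Crest.Agent.R102.EdgeLim196 Crest.Agent.R102.EndSeq196

variable {ι : Type*}

/-- the incidence in the chart `(m, k)` -/
def FF (τ : ℂ) (ψ H : ℂ → ℂ) (m k b : ℂ) : ℂ :=
  deriv ψ b * k - cexp (τ * ψ b) * (deriv ψ b * H b + τ * deriv H b)
    - m * (cexp (-(τ * ψ b)) * (deriv ψ b * H b - τ * deriv H b))

theorem FF_of_inc {τ : ℂ} (hτ : τ = I ∨ τ = -I) {ψ H : ℂ → ℂ} {φ p b : ℂ}
    (h : F300.Inc ψ H φ p b) :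
    FF τ ψ H (cexp (2 * τ * φ)) (2 * p * cexp (τ * φ)) b = 0 := by
  have h1 : deriv ψ b * p = deriv ψ b * H b * cos (φ - ψ b) + deriv H b * sin (φ - ψ b) := h
  have hI : I * I = -1 := I_mul_I
  have e1 : cexp (2 * τ * φ) = cexp (τ * φ) * cexp (τ * φ) := by
    rw [← Complex.exp_add]; congr 1; ring
  have e2 : cexp (τ * ψ b) * cexp (-(τ * ψ b)) = 1 := by rw [← Complex.exp_add]; simp
  have e3 : cexp (τ * φ) * cexp (-(τ * φ)) = 1 := by rw [← Complex.exp_add]; simp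
  have hcos : 2 * cos (φ - ψ b) = cexp (τ * φ) * cexp (-(τ * ψ b)) +
      cexp (-(τ * φ)) * cexp (τ * ψ b) := by
    rw [Complex.cos]
    rcases hτ with rfl | rfl
    · rw [← Complex.exp_add, ← Complex.exp_add]
      have a1 : (φ - ψ b) * I = I * φ + -(I * ψ b) := by ring
      have a2 : -(φ - ψ b) * I = -(I * φ) + I * ψ b := by ring
      rw [a1, a2]; ring
    · rw [← Complex.exp_add, ← Complex.exp_add]
      have a1 : (φ - ψ b) * I = -(-I * φ) + -I * ψ b := by ring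
      have a2 : -(φ - ψ b) * I = -I * φ + -(-I * ψ b) := by ring
      rw [a1, a2]; ring
  have hsin : 2 * sin (φ - ψ b) = - τ * (cexp (τ * φ) * cexp (-(τ * ψ b)) -
      cexp (-(τ * φ)) * cexp (τ * ψ b)) := by
    rw [Complex.sin]
    rcases hτ with rfl | rfl
    · rw [← Complex.exp_add, ← Complex.exp_add]
      have a1 : (φ - ψ b) * I = I * φ + -(I * ψ b) := by ring
      have a2 : -(φ - ψ b) * I = -(I * φ) + I * ψ b := by ring
      rw [a1, a2]; ring
    · rw [← Complex.exp_add, ← Complex.exp_add]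
      have a1 : (φ - ψ b) * I = -(-I * φ) + -I * ψ b := by ring
      have a2 : -(φ - ψ b) * I = -I * φ + -(-I * ψ b) := by ring
      rw [a1, a2]; ring
  unfold FF
  rw [e1]
  set A := cexp (τ * φ)
  set A' := cexp (-(τ * φ))
  set P := cexp (τ * ψ b)
  set P' := cexp (-(τ * ψ b))
  linear_combination (2 * A) * h1 + A * (deriv ψ b * H b) * hcos + A * deriv H b * hsin
    + (deriv ψ b * H b * P + τ * deriv H b * P) * e3

theorem tau_sq {τ : ℂ} (hτ : τ = I ∨ τ = -I) : τ * τ = -1 := by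
  rcases hτ with rfl | rfl <;> simp

/-- derivative of the chart incidence in the label -/
theorem FF_deriv {τ : ℂ} (hτ : τ = I ∨ τ = -I) {ψ H : ℂ → ℂ} {h : ℝ}
    (hψ : DifferentiableOn ℂ ψ (Sp h)) (hH : DifferentiableOn ℂ H (Sp h)) {m k b : ℂ}
    (hb : b ∈ Sp h) :
    HasDerivAt (FF τ ψ H m k)
      (deriv (deriv ψ) b * k
        - cexp (τ * ψ b) * (deriv (deriv ψ) b * H b
          + τ * (deriv (deriv H) b + deriv ψ b ^ 2 * H b))
        - m * (cexp (-(τ * ψ b)) * (deriv (deriv ψ) b * H b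
          - τ * (deriv (deriv H) b + deriv ψ b ^ 2 * H b)))) b := by
  have hS := isOpen_Sp h
  have h1 : HasDerivAt ψ (deriv ψ b) b := (hψ.differentiableAt (hS.mem_nhds hb)).hasDerivAt
  have h2 : HasDerivAt H (deriv H b) b := (hH.differentiableAt (hS.mem_nhds hb)).hasDerivAt
  have h3 : HasDerivAt (deriv ψ) (deriv (deriv ψ) b) b :=
    ((hψ.deriv hS).differentiableAt (hS.mem_nhds hb)).hasDerivAt
  have h4 : HasDerivAt (deriv H) (deriv (deriv H) b) b :=
    ((hH.deriv hS).differentiableAt (hS.mem_nhds hb)).hasDerivAt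
  have h5 : HasDerivAt (fun z => cexp (τ * ψ z)) (cexp (τ * ψ b) * (τ * deriv ψ b)) b :=
    (h1.const_mul τ).cexp
  have h6 : HasDerivAt (fun z => cexp (-(τ * ψ z))) (cexp (-(τ * ψ b)) * (-(τ * deriv ψ b))) b :=
    ((h1.const_mul τ).neg).cexp
  have h7 := ((h3.mul_const k).sub (h5.mul ((h3.mul h2).add (h4.const_mul τ)))).sub
    ((h6.mul ((h3.mul h2).sub (h4.const_mul τ))).const_mul m)
  refine h7.congr_deriv ?_
  simp only [Pi.add_apply, Pi.sub_apply, Pi.mul_apply]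
  have ht := tau_sq hτ
  linear_combination (-(cexp (τ * ψ b) * deriv ψ b * deriv H b)
    - m * cexp (-(τ * ψ b)) * deriv ψ b * deriv H b) * ht

/-- on `F = 0`: `ψ' ∂F = τ c (m e^{-τψ} - e^{τψ})` -/
theorem FF_key {τ : ℂ} {ψ H : ℂ → ℂ} {c m k b : ℂ}
    (hrel : deriv ψ b * deriv (deriv H) b - deriv (deriv ψ) b * deriv H b
      + deriv ψ b ^ 3 * H b = c) (h0 : FF τ ψ H m k b = 0) :
    deriv ψ b * (deriv (deriv ψ) b * k
        - cexp (τ * ψ b) * (deriv (deriv ψ) b * H b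
          + τ * (deriv (deriv H) b + deriv ψ b ^ 2 * H b))
        - m * (cexp (-(τ * ψ b)) * (deriv (deriv ψ) b * H b
          - τ * (deriv (deriv H) b + deriv ψ b ^ 2 * H b)))) =
      τ * c * (m * cexp (-(τ * ψ b)) - cexp (τ * ψ b)) := by
  unfold FF at h0
  rw [← hrel]
  linear_combination deriv (deriv ψ) b * h0

theorem tangent_of {τ : ℂ} (hτ : τ = I ∨ τ = -I) {ψ H : ℂ → ℂ} {h : ℝ}
    (hψ : DifferentiableOn ℂ ψ (Sp h)) (hH : DifferentiableOn ℂ H (Sp h)) {c m k b : ℂ}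
    (hc : c ≠ 0) (hb : b ∈ Sp h)
    (hrel : deriv ψ b * deriv (deriv H) b - deriv (deriv ψ) b * deriv H b
      + deriv ψ b ^ 3 * H b = c) (h0 : FF τ ψ H m k b = 0)
    (hd : deriv (FF τ ψ H m k) b = 0) : m = cexp (2 * τ * ψ b) := by
  have h1 := FF_key hrel h0
  rw [← (FF_deriv hτ hψ hH hb).deriv, hd, mul_zero] at h1
  have hτ0 : τ ≠ 0 := by rcases hτ with rfl | rfl <;> simp
  have h2 : m * cexp (-(τ * ψ b)) - cexp (τ * ψ b) = 0 := by
    rcases mul_eq_zero.1 h1.symm with h3 | h3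
    · exact absurd h3 (mul_ne_zero hτ0 hc)
    · exact h3
  have e2 : cexp (τ * ψ b) * cexp (-(τ * ψ b)) = 1 := by rw [← Complex.exp_add]; simp
  have e3 : cexp (2 * τ * ψ b) = cexp (τ * ψ b) * cexp (τ * ψ b) := by
    rw [← Complex.exp_add]; congr 1; ring
  rw [e3]
  linear_combination cexp (τ * ψ b) * h2 - m * e2

/-- no line contains the curve -/
theorem FF_ne {τ : ℂ} (hτ : τ = I ∨ τ = -I) {ψ H : ℂ → ℂ} {h : ℝ} (hh : 0 < h)
    (hψ : DifferentiableOn ℂ ψ (Sp h)) (hH : DifferentiableOn ℂ H (Sp h)) {c : ℂ}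
    (hc : c ≠ 0) (hrel : F300.Rel (Sp h) ψ H c) (m k : ℂ) :
    ∃ b : ℂ, |b.im| < h ∧ FF τ ψ H m k b ≠ 0 := by
  by_contra hcon
  push Not at hcon
  have hS := isOpen_Sp h
  have h0S : (0 : ℂ) ∈ Sp h := by simpa [Sp] using hh
  have hm : ∀ b ∈ Sp h, m = cexp (2 * τ * ψ b) := by
    intro b hb
    refine tangent_of hτ hψ hH hc hb (hrel b hb) (hcon b hb) ?_
    have : FF τ ψ H m k =ᶠ[𝓝 b] fun _ => 0 := by
      filter_upwards [hS.mem_nhds hb] with z hz
      exact hcon z hz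
    rw [this.deriv_eq]
    simp
  have hτ0 : τ ≠ 0 := by rcases hτ with rfl | rfl <;> simp
  have hd0 : ∀ b ∈ Sp h, deriv ψ b = 0 := by
    intro b hb
    have h1 : HasDerivAt ψ (deriv ψ b) b := (hψ.differentiableAt (hS.mem_nhds hb)).hasDerivAt
    have h2 : HasDerivAt (fun z => cexp (2 * τ * ψ z))
      (cexp (2 * τ * ψ b) * (2 * τ * deriv ψ b)) b := (h1.const_mul (2 * τ)).cexp
    have h3 : (fun z => cexp (2 * τ * ψ z)) =ᶠ[𝓝 b] fun _ => m := by
      filter_upwards [hS.mem_nhds hb] with z hz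
      exact (hm z hz).symm
    have h4 := h2.deriv
    rw [h3.deriv_eq, deriv_const] at h4
    have h5 := h4.symm
    simp only [mul_eq_zero, Complex.exp_ne_zero, hτ0, OfNat.ofNat_ne_zero, or_false,
      false_or] at h5
    exact h5
  have hdd : deriv (deriv ψ) 0 = 0 := by
    have : deriv ψ =ᶠ[𝓝 (0 : ℂ)] fun _ => 0 := by
      filter_upwards [hS.mem_nhds h0S] with z hz
      exact hd0 z hz
    rw [this.deriv_eq]; simp
  have := hrel 0 h0S
  rw [hd0 0 h0S, hdd] at this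
  simp at this
  exact hc this.symm

theorem FF_per {τ : ℂ} (hτ : τ = I ∨ τ = -I) {ψ H : ℂ → ℂ} {h : ℝ} {k0 : ℤ}
    (hψp : ∀ b ∈ Sp h, ψ (b + 1) = ψ b + 2 * Real.pi * k0)
    (hHp : ∀ b ∈ Sp h, H (b + 1) = H b) {m k b : ℂ} (hb : b ∈ Sp h) :
    FF τ ψ H m k (b + 1) = FF τ ψ H m k b := by
  have hS := isOpen_Sp h
  have hd : ∀ f : ℂ → ℂ, deriv f (b + 1) = deriv (fun z => f (z + 1)) b := fun f =>
    (deriv_comp_add_const f 1 b).symm
  have h1 : deriv ψ (b + 1) = deriv ψ b := by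
    rw [hd]
    have : (fun z => ψ (z + 1)) =ᶠ[𝓝 b] fun z => ψ z + 2 * Real.pi * k0 := by
      filter_upwards [hS.mem_nhds hb] with z hz
      exact hψp z hz
    rw [this.deriv_eq, deriv_add_const]
  have h2 : deriv H (b + 1) = deriv H b := by
    rw [hd]
    have : (fun z => H (z + 1)) =ᶠ[𝓝 b] H := by
      filter_upwards [hS.mem_nhds hb] with z hz
      exact hHp z hz
    rw [this.deriv_eq]
  have h3 : cexp (τ * ψ (b + 1)) = cexp (τ * ψ b) := by
    rw [hψp b hb, mul_add, Complex.exp_add]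
    have : cexp (τ * (2 * Real.pi * k0)) = 1 := by
      rw [Complex.exp_eq_one_iff]
      rcases hτ with rfl | rfl
      · exact ⟨k0, by ring⟩
      · exact ⟨-k0, by push_cast; ring⟩
    rw [this, mul_one]
  have h4 : cexp (-(τ * ψ (b + 1))) = cexp (-(τ * ψ b)) := by
    rw [Complex.exp_neg, Complex.exp_neg, h3]
  unfold FF
  rw [h1, h2, h3, h4, hHp b hb]

/-- **(a)+(b), pure form.** -/
theorem ab_pure (u : Ultrafilter ι) {a h : ℝ} {Om : Set (ℂ × ℂ)} (hOm : IsOpen Om)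
    (hOc : IsPreconnected Om) (hLO : Lo a ⊆ Om) (hFO : Fc a ⊆ Om)
    {τ : ℂ} (hτ : τ = I ∨ τ = -I) {ψ H : ℂ → ℂ}
    (hψ : DifferentiableOn ℂ ψ (Sp h)) (hH : DifferentiableOn ℂ H (Sp h)) {c : ℂ} (hc : c ≠ 0)
    (hrel : F300.Rel (Sp h) ψ H c) {k0 : ℤ}
    (hψp : ∀ b ∈ Sp h, ψ (b + 1) = ψ b + 2 * Real.pi * k0)
    (hHp : ∀ b ∈ Sp h, H (b + 1) = H b)
    {Bn φn pn : ι → ℂ × ℂ → ℂ}
    (hBd : ∀ q ∈ Lo a, ∃ r > 0, ball q r ⊆ Lo a ∧ ∀ᶠ n in (u : Filter ι),
      DifferentiableOn ℂ (Bn n) (ball q r) ∧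
      ∀ x ∈ ball q r, |(Bn n x).im| < h ∧ F300.Inc ψ H (φn n x) (pn n x) (Bn n x))
    (hφd : ∀ q ∈ Om, ∃ r > 0, ball q r ⊆ Om ∧ ∃ C : ℝ, ∀ᶠ n in (u : Filter ι),
      DifferentiableOn ℂ (φn n) (ball q r) ∧ DifferentiableOn ℂ (pn n) (ball q r) ∧
      ∀ x ∈ ball q r, ‖cexp (2 * τ * φn n x)‖ ≤ C ∧ ‖pn n x * cexp (τ * φn n x)‖ ≤ C)
    {x0 : ℂ × ℂ} (hx0 : x0 ∈ Lo a) {h' : ℝ} (hh : h' < h)
    (h0 : ∀ᶠ n in (u : Filter ι), |(Bn n x0).im| ≤ h')
    (births : ∀ q0 ∈ Fc a, ∀ r > 0, closedBall q0 r ⊆ Om → ∀ x1 ∈ Lo a ∩ ball q0 r,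
      ∀ᶠ n in (u : Filter ι), ¬ ∃ G : ℂ × ℂ → ℂ, DifferentiableOn ℂ G (ball q0 r) ∧
        (∀ x ∈ ball q0 r, |(G x).im| < h) ∧ G =ᶠ[𝓝 x1] Bn n) :
    ∃ (m k β : ℂ × ℂ → ℂ) (N : ι → ℤ), DifferentiableOn ℂ m Om ∧ DifferentiableOn ℂ k Om ∧
      DifferentiableOn ℂ β (Lo a) ∧ (∀ x ∈ Om, m x ≠ 0) ∧
      TendstoLocallyUniformlyOn (fun n x => cexp (2 * τ * φn n x)) m u Om ∧
      TendstoLocallyUniformlyOn (fun n x => 2 * pn n x * cexp (τ * φn n x)) k u Om ∧
      TendstoLocallyUniformlyOn (fun n x => Bn n x - N n) β u (Lo a) ∧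
      (∀ x ∈ Lo a, |(β x).im| < h) ∧ (∀ x ∈ Lo a, FF τ ψ H (m x) (k x) (β x) = 0) ∧
      ∀ x ∈ Lo a, m x = cexp (2 * τ * ψ (β x)) := by
  have hne : (u : Filter ι).NeBot := u.neBot
  have hSo := isOpen_Sp h
  have hh0 : 0 < h := by
    obtain ⟨n, hn⟩ := h0.exists
    linarith [abs_nonneg (Bn n x0).im]
  -- limits of m and k
  obtain ⟨m, hmd, hml⟩ := End613.montel_ev u hOm (f := fun n x => cexp (2 * τ * φn n x))
    (fun x hx => by
      obtain ⟨r, hr, hrO, C, hC⟩ := hφd x hx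
      refine ⟨r, hr, C, hrO, hC.mono fun n hn => ⟨?_, fun w hw => (hn.2.2 w hw).1⟩⟩
      exact (hn.1.const_mul _).cexp)
  obtain ⟨k, hkd, hkl⟩ := End613.montel_ev u hOm (f := fun n x => 2 * pn n x * cexp (τ * φn n x))
    (fun x hx => by
      obtain ⟨r, hr, hrO, C, hC⟩ := hφd x hx
      refine ⟨r, hr, 2 * C, hrO, hC.mono fun n hn => ⟨?_, fun w hw => ?_⟩⟩
      · exact (hn.2.1.const_mul 2).mul (hn.1.const_mul _).cexp
      · have := (hn.2.2 w hw).2
        rw [mul_assoc, norm_mul, Complex.norm_ofNat]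
        linarith)
  -- limit of labels
  set N : ι → ℤ := fun n => ⌊(Bn n x0).re⌋ with hN
  obtain ⟨β, hβd, hβl, hβm⟩ := LimA985.label_lim u (isOpen_Lo a) (convex_Lo a).isPreconnected
    (B := fun n x => Bn n x - N n) (h := h) (h' := h') (R := 1) hh
    (fun x hx => by
      obtain ⟨r, hr, hrO, hn⟩ := hBd x hx
      refine ⟨r, hr, hrO, hn.mono fun n hn => ⟨hn.1.sub_const _, fun y hy => ?_⟩⟩
      have := (hn.2 y hy).1
      simpa using this.le)
    hx0 (h0.mono fun n hn => ⟨by simpa using hn, by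
      rw [sub_re, intCast_re, hN, Int.self_sub_floor, abs_of_nonneg (Int.fract_nonneg _)]
      exact (Int.fract_lt_one _).le⟩)
  -- the chart incidence
  set Fn : ι → (ℂ × ℂ) × ℂ → ℂ := fun n x =>
    FF τ ψ H (cexp (2 * τ * φn n x.1)) (2 * pn n x.1 * cexp (τ * φn n x.1)) x.2 with hFn
  set F : (ℂ × ℂ) × ℂ → ℂ := fun x => FF τ ψ H (m x.1) (k x.1) x.2 with hF
  have hcoef : DifferentiableOn ℂ (fun b => cexp (τ * ψ b) * (deriv ψ b * H b + τ * deriv H b))
      (Sp h) ∧ DifferentiableOn ℂ (fun b => cexp (-(τ * ψ b)) *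
        (deriv ψ b * H b - τ * deriv H b)) (Sp h) ∧ DifferentiableOn ℂ (deriv ψ) (Sp h) := by
    have h1 := hψ.deriv hSo
    have h2 := hH.deriv hSo
    exact ⟨(hψ.const_mul τ).cexp.mul ((h1.mul hH).add (h2.const_mul τ)),
      (hψ.const_mul τ).neg.cexp.mul ((h1.mul hH).sub (h2.const_mul τ)), h1⟩
  obtain ⟨hc1, hc2, hc3⟩ := hcoef
  have hgen : ∀ (V : Set (ℂ × ℂ)) (W : Set ℂ) (f g : ℂ × ℂ → ℂ), W ⊆ Sp h →
      DifferentiableOn ℂ f V → DifferentiableOn ℂ g V →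
      DifferentiableOn ℂ (fun x : (ℂ × ℂ) × ℂ => FF τ ψ H (f x.1) (g x.1) x.2) (V ×ˢ W) := by
    intro V W f g hW hf hg
    have a1 : DifferentiableOn ℂ (fun x : (ℂ × ℂ) × ℂ => f x.1) (V ×ˢ W) :=
      hf.comp differentiableOn_fst (fun x hx => hx.1)
    have a2 : DifferentiableOn ℂ (fun x : (ℂ × ℂ) × ℂ => g x.1) (V ×ˢ W) :=
      hg.comp differentiableOn_fst (fun x hx => hx.1)
    have b1 : DifferentiableOn ℂ (fun x : (ℂ × ℂ) × ℂ => cexp (τ * ψ x.2) *
        (deriv ψ x.2 * H x.2 + τ * deriv H x.2)) (V ×ˢ W) :=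
      hc1.comp differentiableOn_snd (fun x hx => hW hx.2)
    have b2 : DifferentiableOn ℂ (fun x : (ℂ × ℂ) × ℂ => cexp (-(τ * ψ x.2)) *
        (deriv ψ x.2 * H x.2 - τ * deriv H x.2)) (V ×ˢ W) :=
      hc2.comp differentiableOn_snd (fun x hx => hW hx.2)
    have b3 : DifferentiableOn ℂ (fun x : (ℂ × ℂ) × ℂ => deriv ψ x.2) (V ×ˢ W) :=
      hc3.comp differentiableOn_snd (fun x hx => hW hx.2)
    exact ((b3.mul a2).sub b1).sub (a1.mul b2)
  have hFd : DifferentiableOn ℂ F (Om ×ˢ Sp h) := hgen Om (Sp h) m k Subset.rfl hmd hkd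
  -- local boundedness of the coefficients
  have hFn1 : ∀ x ∈ Om ×ˢ Sp h, ∃ r > 0, ∃ M : ℝ, ball x r ⊆ Om ×ˢ Sp h ∧
      ∀ᶠ n in (u : Filter ι), DifferentiableOn ℂ (Fn n) (ball x r) ∧
        ∀ w ∈ ball x r, ‖Fn n w‖ ≤ M := by
    rintro ⟨q, b⟩ ⟨hq, hb⟩
    obtain ⟨r1, hr1, hr1O, C, hC⟩ := hφd q hq
    obtain ⟨r2, hr2, hr2O⟩ := Metric.isOpen_iff.1 hSo b hb
    have hcpt : IsCompact (closedBall b (r2 / 2)) := isCompact_closedBall _ _
    have hsub2 : closedBall b (r2 / 2) ⊆ Sp h :=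
      (closedBall_subset_ball (by linarith)).trans hr2O
    obtain ⟨M1, hM1⟩ := hcpt.exists_bound_of_continuousOn (hc1.continuousOn.mono hsub2)
    obtain ⟨M2, hM2⟩ := hcpt.exists_bound_of_continuousOn (hc2.continuousOn.mono hsub2)
    obtain ⟨M3, hM3⟩ := hcpt.exists_bound_of_continuousOn (hc3.continuousOn.mono hsub2)
    set r := min r1 (r2 / 2) with hr
    have hr0 : 0 < r := lt_min hr1 (by positivity)
    have hb1 : ∀ w ∈ ball ((q, b) : (ℂ × ℂ) × ℂ) r, w.1 ∈ ball q r1 ∧ w.2 ∈ ball b (r2 / 2) := by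
      intro w hw
      rw [← ball_prod_same] at hw
      exact ⟨ball_subset_ball (min_le_left _ _) hw.1, ball_subset_ball (min_le_right _ _) hw.2⟩
    refine ⟨r, hr0, M3 * (2 * C) + M1 + C * M2, fun w hw => ⟨hr1O (hb1 w hw).1,
      hsub2 (ball_subset_closedBall (hb1 w hw).2)⟩, hC.mono fun n hn => ⟨?_, fun w hw => ?_⟩⟩
    · have h1 := hgen (ball q r1) (ball b (r2 / 2)) (fun x => cexp (2 * τ * φn n x))
        (fun x => 2 * pn n x * cexp (τ * φn n x))
        (ball_subset_closedBall.trans hsub2) (hn.1.const_mul _).cexp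
        ((hn.2.1.const_mul 2).mul (hn.1.const_mul _).cexp)
      exact h1.mono fun w hw => hb1 w hw
    · obtain ⟨w1, w2⟩ := hb1 w hw
      have g1 := hM1 w.2 (ball_subset_closedBall w2)
      have g2 := hM2 w.2 (ball_subset_closedBall w2)
      have g3 := hM3 w.2 (ball_subset_closedBall w2)
      obtain ⟨g4, g5⟩ := hn.2.2 w.1 w1
      have g6 : ‖2 * pn n w.1 * cexp (τ * φn n w.1)‖ ≤ 2 * C := by
        rw [mul_assoc, norm_mul, Complex.norm_ofNat]; linarith
      have g0 : 0 ≤ C := (norm_nonneg _).trans g4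
      show ‖FF τ ψ H _ _ w.2‖ ≤ _
      unfold FF
      refine (norm_sub_le _ _).trans (add_le_add ((norm_sub_le _ _).trans (add_le_add ?_ g1)) ?_)
      · rw [norm_mul]
        exact mul_le_mul g3 g6 (norm_nonneg _) ((norm_nonneg _).trans g3)
      · rw [norm_mul]
        exact mul_le_mul g4 g2 (norm_nonneg _) g0
  have hFl : TendstoLocallyUniformlyOn Fn F u (Om ×ˢ Sp h) := by
    obtain ⟨F', hF'd, hF'l⟩ := End613.montel_ev u (hOm.prod hSo) hFn1
    refine hF'l.congr_right fun x hx => ?_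
    have h1 := hF'l.tendsto_at hx
    have h2 : Tendsto (fun n => Fn n x) u (𝓝 (F x)) := by
      have a1 := hml.tendsto_at hx.1
      have a2 := hkl.tendsto_at hx.1
      simp only [hFn, hF, FF]
      exact ((a2.const_mul _).sub_const _).sub (a1.mul_const _)
    exact tendsto_nhds_unique h1 h2
  have hper : ∀ q ∈ Om, ∀ b : ℂ, |b.im| < h → (F (q, b + 1) = 0 ↔ F (q, b) = 0) := by
    intro q _ b hb
    show FF τ ψ H (m q) (k q) (b + 1) = 0 ↔ FF τ ψ H (m q) (k q) b = 0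
    rw [FF_per hτ hψp hHp hb]
  have hperZ : ∀ (m k : ℂ) (n : ℤ) (b : ℂ), b ∈ Sp h → FF τ ψ H m k (b - n) = FF τ ψ H m k b := by
    have hnat : ∀ (m k : ℂ) (n : ℕ) (b : ℂ), b ∈ Sp h →
        FF τ ψ H m k (b + n) = FF τ ψ H m k b := by
      intro m k n
      induction n with
      | zero => intro b _; simp
      | succ n ih =>
        intro b hb
        have hb' : b + n ∈ Sp h := by
          have hb2 : |b.im| < h := hb
          show |(b + n).im| < h
          simpa using hb2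
        have : b + ((n + 1 : ℕ) : ℂ) = (b + n) + 1 := by push_cast; ring
        rw [this, FF_per hτ hψp hHp hb', ih b hb]
    intro m k n b hb
    obtain ⟨j, rfl | rfl⟩ := n.eq_nat_or_neg
    · have hb' : b - (j : ℂ) ∈ Sp h := by
        have hb2 : |b.im| < h := hb
        show |(b - (j : ℂ)).im| < h
        simpa using hb2
      have := hnat m k j (b - j) hb'
      rw [sub_add_cancel] at this
      rw [this]
      push_cast
      rfl
    · have := hnat m k j b hb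
      rw [← this]
      congr 1
      push_cast
      ring
  have key := end_seq (l := (u : Filter ι)) (a := a) (h := h) hOm hLO hFO
    (Bn := fun n x => Bn n x - N n) (B := β) (Fn := Fn) (F := F)
    (fun q hq => by
      obtain ⟨r, hr, hrO, hn⟩ := hBd q hq
      refine ⟨r, hr, hn.mono fun n hn => ⟨(hn.1.sub_const _).continuousOn, fun x hx => ?_⟩⟩
      obtain ⟨h1, h2⟩ := hn.2 x hx
      refine ⟨by simpa using h1, ?_⟩
      show FF τ ψ H _ _ (Bn n x - N n) = 0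
      rw [hperZ _ _ _ _ h1]
      exact FF_of_inc hτ h2)
    (fun q hq => hβl.tendsto_at hq) hβd hβm
    (fun x hx => by
      obtain ⟨r, hr, M, _, hn⟩ := hFn1 x hx
      exact ⟨r, hr, hn.mono fun n hn => hn.1⟩)
    hFl hFd hper (fun q _ => FF_ne hτ hh0 hψ hH hc hrel (m q) (k q))
    (fun q0 hq0 r hr hrO => by
      -- a small closed ball in `Lo a ∩ ball q0 r`
      have hne0 := face_mem_closure hq0
      obtain ⟨x1, hx1L, hx1b⟩ : ∃ x1 ∈ Lo a, x1 ∈ ball q0 r := by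
        have h4 : ∀ᶠ q' in 𝓝[Lo a] q0, q' ∈ Lo a ∧ q' ∈ ball q0 r :=
          eventually_mem_nhdsWithin.and (mem_nhdsWithin_of_mem_nhds (ball_mem_nhds q0 hr))
        obtain ⟨q', h7, h8⟩ := h4.exists
        exact ⟨q', h7, h8⟩
      obtain ⟨r1, hr1, hr1s⟩ := Metric.isOpen_iff.1 ((isOpen_Lo a).inter isOpen_ball) x1
        ⟨hx1L, hx1b⟩
      have hsub : closedBall x1 (r1 / 2) ⊆ Lo a ∩ ball q0 r :=
        (closedBall_subset_ball (by linarith)).trans hr1s
      refine ⟨closedBall x1 (r1 / 2), fun x hx => (hsub hx).1, isCompact_closedBall _ _, ?_⟩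
      refine ((births q0 hq0 r hr hrO x1 ⟨hx1L, hx1b⟩).mono fun n hn => ?_).frequently
      rintro ⟨G, V, hVo, hrV, hVO, hGd, hGm, hGe⟩
      apply hn
      refine ⟨fun x => G x + N n, (hGd.mono (ball_subset_closedBall.trans hrV)).add_const _,
        fun x hx => ?_, ?_⟩
      · have := (hGm x (hrV (ball_subset_closedBall hx))).1
        simpa using this
      · filter_upwards [ball_mem_nhds x1 (show (0 : ℝ) < r1 / 2 by positivity)] with x hx
        have h5 := hGe x ⟨ball_subset_closedBall hx,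
          hrV (ball_subset_closedBall (hsub (ball_subset_closedBall hx)).2)⟩
        rw [h5]
        ring)
  have htan : ∀ x ∈ Lo a, m x = cexp (2 * τ * ψ (β x)) := by
    intro x hx
    obtain ⟨h1, h2⟩ := key x hx
    exact tangent_of hτ hψ hH hc (hβm x hx) (hrel _ (hβm x hx)) h1 h2
  refine ⟨m, k, β, N, hmd, hkd, hβd, ?_, hml, hkl, hβl, hβm, fun x hx => (key x hx).1, htan⟩
  -- `m` is zero free
  intro z hz hmz
  obtain ⟨r, hr, hrO, C, hC⟩ := hφd z hz
  have hall : ∀ p ∈ ball z r, m p = 0 := by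
    by_contra hcon
    push Not at hcon
    obtain ⟨p, hp, hp0⟩ := hcon
    have := R264.hurwitz_ne_zero (l := (u : Filter ι)) (isOpen_ball (x := z) (ε := r))
      (convex_ball z r).isPreconnected (f := fun n x => cexp (2 * τ * φn n x)) (g := m)
      (hml.mono hrO) (hC.mono fun n hn => (hn.1.const_mul _).cexp)
      (Eventually.of_forall fun n x _ => Complex.exp_ne_zero _) hp hp0
    exact this z (mem_ball_self hr) hmz
  have han : AnalyticOnNhd ℂ m Om := R266.SCV.analyticOnNhd_of_differentiableOn hOm hmd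
  have hz0 : m =ᶠ[𝓝 z] 0 := by
    filter_upwards [ball_mem_nhds z hr] with p hp
    exact hall p hp
  have h1 := han.eqOn_zero_of_preconnected_of_eventuallyEq_zero hOc hz hz0 (hLO hx0)
  rw [htan x0 hx0] at h1
  exact Complex.exp_ne_zero _ h1

end Crest.Agent.R102.AB196
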