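import Mathlib

/-!
Row 102, part (C), leaf H3 (collapse theorem): formal calculus.

`evS ψ y hy : A⟦X⟧ →+* S⟦X⟧` is the substitution `F ↦ ∑ ψ(F_m) y^m` where `ψ : A →+* S⟦X⟧` and
`X ∣ y`.  It is the unique ring hom with `C a ↦ ψ a`, `X ↦ y`.
`Ty : H →+* H⟦X⟧` is the Taylor morphism of a differential `ℚ`-algebra `H`.
`pt φ y hy : H →+* S⟦X⟧`, `f ↦ ∑ φ(∂^n f / n!) y^n` is the point `φ` translated by `y`.
-/

set_option linter.unusedSectionVars false

namespace Crest.Agent.R102.H3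

open PowerSeries Finset

section evS

variable {A S S' : Type*} [CommRing A] [CommRing S] [CommRing S']

theorem eq_of_forall_X_pow_dvd {f g : S⟦X⟧} (h : ∀ M, (X : S⟦X⟧) ^ M ∣ f - g) : f = g := by
  rw [← sub_eq_zero]
  ext n
  have := X_pow_dvd_iff.1 (h (n + 1)) n (Nat.lt_succ_self n)
  simpa using this

theorem X_pow_dvd_pow {y : S⟦X⟧} (hy : (X : S⟦X⟧) ∣ y) (m : ℕ) : (X : S⟦X⟧) ^ m ∣ y ^ m :=
  pow_dvd_pow_of_dvd hy m

/-- the raw substitution -/
noncomputable def evRaw (ψ : A →+* S⟦X⟧) (y : S⟦X⟧) (F : A⟦X⟧) : S⟦X⟧ :=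
  PowerSeries.mk fun n => ∑ m ∈ range (n + 1), coeff n (ψ (coeff m F) * y ^ m)

theorem coeff_evRaw (ψ : A →+* S⟦X⟧) {y : S⟦X⟧} (hy : X ∣ y) (F : A⟦X⟧) {n M : ℕ} (h : n < M) :
    coeff n (evRaw ψ y F) = coeff n (∑ m ∈ range M, ψ (coeff m F) * y ^ m) := by
  rw [evRaw, coeff_mk, map_sum]
  refine Finset.sum_subset (by intro x; simp only [Finset.mem_range]; omega) ?_
  intro m _ hm
  simp only [Finset.mem_range, not_lt] at hm
  have : (X : S⟦X⟧) ^ m ∣ ψ (coeff m F) * y ^ m := (X_pow_dvd_pow hy m).mul_left _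
  exact X_pow_dvd_iff.1 this n (by omega)

theorem X_pow_dvd_evRaw (ψ : A →+* S⟦X⟧) {y : S⟦X⟧} (hy : X ∣ y) (F : A⟦X⟧) (M : ℕ) :
    (X : S⟦X⟧) ^ M ∣ evRaw ψ y F - ∑ m ∈ range M, ψ (coeff m F) * y ^ m := by
  rw [X_pow_dvd_iff]
  intro n hn
  rw [map_sub, coeff_evRaw ψ hy F hn, sub_self]

theorem sum_mul_sum_dvd {y : S⟦X⟧} (hy : (X : S⟦X⟧) ∣ y) (a b : ℕ → S⟦X⟧) (M : ℕ) :
    (X : S⟦X⟧) ^ M ∣ (∑ m ∈ range M, a m * y ^ m) * (∑ m ∈ range M, b m * y ^ m)
      - ∑ m ∈ range M, (∑ p ∈ antidiagonal m, a p.1 * b p.2) * y ^ m := by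
  have h1 : (∑ m ∈ range M, a m * y ^ m) * (∑ m ∈ range M, b m * y ^ m)
      = ∑ p ∈ range M ×ˢ range M, a p.1 * b p.2 * y ^ (p.1 + p.2) := by
    rw [Finset.sum_mul_sum, Finset.sum_product]
    refine Finset.sum_congr rfl fun i _ => Finset.sum_congr rfl fun j _ => ?_
    rw [pow_add]; ring
  have h2 : ∑ m ∈ range M, (∑ p ∈ antidiagonal m, a p.1 * b p.2) * y ^ m
      = ∑ p ∈ (range M ×ˢ range M).filter (fun p => p.1 + p.2 < M),
          a p.1 * b p.2 * y ^ (p.1 + p.2) := by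
    have : ∀ m ∈ range M, (∑ p ∈ antidiagonal m, a p.1 * b p.2) * y ^ m
        = ∑ p ∈ ((range M ×ˢ range M).filter (fun p => p.1 + p.2 < M)).filter
            (fun p => p.1 + p.2 = m), a p.1 * b p.2 * y ^ (p.1 + p.2) := by
      intro m hm
      rw [Finset.sum_mul]
      have he : ((range M ×ˢ range M).filter (fun p => p.1 + p.2 < M)).filter
            (fun p => p.1 + p.2 = m) = antidiagonal m := by
        ext p
        simp only [Finset.mem_filter, Finset.mem_product, Finset.mem_range, HasAntidiagonal.mem_antidiagonal]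
          at hm ⊢
        constructor
        · rintro ⟨_, h⟩; exact h
        · intro h; refine ⟨⟨⟨?_, ?_⟩, ?_⟩, h⟩ <;> omega
      rw [he]
      refine Finset.sum_congr rfl fun p hp => ?_
      rw [HasAntidiagonal.mem_antidiagonal.1 hp]
    rw [Finset.sum_congr rfl this]
    refine Finset.sum_fiberwise_of_maps_to (fun p hp => ?_) _
    simp only [Finset.mem_filter] at hp
    exact Finset.mem_range.2 hp.2
  rw [h1, h2, ← Finset.sum_filter_add_sum_filter_not (range M ×ˢ range M)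
    (fun p => p.1 + p.2 < M), add_sub_cancel_left]
  refine Finset.dvd_sum fun p hp => ?_
  simp only [Finset.mem_filter, not_lt] at hp
  exact ((pow_dvd_pow _ hp.2).trans (X_pow_dvd_pow hy _)).mul_left _

/-- Substitution `F ↦ ∑ ψ(F_m) y^m`, `ψ : A →+* S⟦X⟧`, `X ∣ y`. -/
noncomputable def evS (ψ : A →+* S⟦X⟧) (y : S⟦X⟧) (hy : X ∣ y) : A⟦X⟧ →+* S⟦X⟧ where
  toFun := evRaw ψ y
  map_one' := by
    refine eq_of_forall_X_pow_dvd fun M => ?_
    rcases Nat.eq_zero_or_pos M with rfl | hM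
    · simp
    have h := X_pow_dvd_evRaw ψ hy (1 : A⟦X⟧) M
    have h2 : ∑ m ∈ range M, ψ (coeff m (1 : A⟦X⟧)) * y ^ m = 1 := by
      rw [Finset.sum_eq_single 0]
      · simp
      · intro m _ hm
        rw [coeff_one, if_neg hm, map_zero, zero_mul]
      · intro h0; exact absurd (Finset.mem_range.2 hM) h0
    rwa [h2] at h
  map_zero' := by
    ext n
    simp [evRaw]
  map_add' F G := by
    ext n
    simp only [evRaw, coeff_mk, map_add, add_mul, Finset.sum_add_distrib]
  map_mul' F G := by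
    refine eq_of_forall_X_pow_dvd fun M => ?_
    have hF := X_pow_dvd_evRaw ψ hy F M
    have hG := X_pow_dvd_evRaw ψ hy G M
    have hFG := X_pow_dvd_evRaw ψ hy (F * G) M
    have h1 : ∑ m ∈ range M, ψ (coeff m (F * G)) * y ^ m
        = ∑ m ∈ range M, (∑ p ∈ antidiagonal m, ψ (coeff p.1 F) * ψ (coeff p.2 G)) * y ^ m := by
      refine Finset.sum_congr rfl fun m _ => ?_
      rw [coeff_mul, map_sum]
      simp only [map_mul]
    rw [h1] at hFG
    have h2 := sum_mul_sum_dvd hy (fun m => ψ (coeff m F)) (fun m => ψ (coeff m G)) M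
    set a := ∑ m ∈ range M, ψ (coeff m F) * y ^ m
    set b := ∑ m ∈ range M, ψ (coeff m G) * y ^ m
    set c := ∑ m ∈ range M, (∑ p ∈ antidiagonal m, ψ (coeff p.1 F) * ψ (coeff p.2 G)) * y ^ m
    have e : evRaw ψ y (F * G) - evRaw ψ y F * evRaw ψ y G
        = (evRaw ψ y (F * G) - c) - (a * b - c)
          - ((evRaw ψ y F - a) * evRaw ψ y G + a * (evRaw ψ y G - b)) := by ring
    rw [e]
    exact dvd_sub (dvd_sub hFG h2) (dvd_add (hF.mul_right _) (hG.mul_left _))

theorem X_pow_dvd_evS (ψ : A →+* S⟦X⟧) {y : S⟦X⟧} (hy : X ∣ y) (F : A⟦X⟧) (M : ℕ) :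
    (X : S⟦X⟧) ^ M ∣ evS ψ y hy F - ∑ m ∈ range M, ψ (coeff m F) * y ^ m :=
  X_pow_dvd_evRaw ψ hy F M

@[simp] theorem evS_C (ψ : A →+* S⟦X⟧) {y : S⟦X⟧} (hy : X ∣ y) (a : A) :
    evS ψ y hy (C a) = ψ a := by
  refine eq_of_forall_X_pow_dvd fun M => ?_
  rcases Nat.eq_zero_or_pos M with rfl | hM
  · simp
  have h := X_pow_dvd_evS ψ hy (C a : A⟦X⟧) M
  have h2 : ∑ m ∈ range M, ψ (coeff m (C a : A⟦X⟧)) * y ^ m = ψ a := by
    rw [Finset.sum_eq_single 0]
    · simp
    · intro m _ hm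
      rw [coeff_C, if_neg hm, map_zero, zero_mul]
    · intro h0; exact absurd (Finset.mem_range.2 hM) h0
  rwa [h2] at h

@[simp] theorem evS_X (ψ : A →+* S⟦X⟧) {y : S⟦X⟧} (hy : X ∣ y) :
    evS ψ y hy X = y := by
  refine eq_of_forall_X_pow_dvd fun M => ?_
  rcases Nat.lt_or_ge 1 M with hM | hM
  · have h := X_pow_dvd_evS ψ hy (X : A⟦X⟧) M
    have h2 : ∑ m ∈ range M, ψ (coeff m (X : A⟦X⟧)) * y ^ m = y := by
      rw [Finset.sum_eq_single 1]
      · simp
      · intro m _ hm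
        rw [coeff_X, if_neg hm, map_zero, zero_mul]
      · intro h0; exact absurd (Finset.mem_range.2 hM) h0
    rwa [h2] at h
  · have h := X_pow_dvd_evS ψ hy (X : A⟦X⟧) 1
    simp only [Finset.range_one, Finset.sum_singleton, coeff_zero_X, map_zero, zero_mul,
      sub_zero] at h
    exact (pow_dvd_pow _ hM).trans (dvd_sub h (by simpa using hy))

/-- Taylor remainder -/
theorem evS_eq (ψ : A →+* S⟦X⟧) {y : S⟦X⟧} (hy : X ∣ y) (F : A⟦X⟧) (M : ℕ) :
    evS ψ y hy F = ∑ m ∈ range M, ψ (coeff m F) * y ^ m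
      + y ^ M * evS ψ y hy (PowerSeries.mk fun n => coeff (n + M) F) := by
  have hF : F = ∑ m ∈ range M, C (coeff m F) * X ^ m
      + X ^ M * (PowerSeries.mk fun n => coeff (n + M) F) := by
    ext n
    rw [map_add, map_sum]
    simp only [coeff_C_mul, coeff_X_pow, coeff_X_pow_mul', coeff_mk]
    by_cases hn : n < M
    · rw [if_neg (by omega), add_zero, Finset.sum_eq_single n]
      · simp
      · intro m _ hm
        rw [if_neg (fun h => hm h.symm), mul_zero]
      · intro h0; exact absurd (Finset.mem_range.2 hn) h0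
    · rw [if_pos (by omega), Finset.sum_eq_zero, zero_add]
      · rw [Nat.sub_add_cancel (by omega)]
      · intro m hm
        rw [if_neg, mul_zero]
        rintro rfl
        exact hn (Finset.mem_range.1 hm)
  conv_lhs => rw [hF]
  rw [map_add, map_sum, map_mul, map_pow, evS_X]
  congr 1
  refine Finset.sum_congr rfl fun m _ => ?_
  rw [map_mul, map_pow, evS_X, evS_C]

/-- uniqueness: every ring hom `A⟦X⟧ → S⟦X⟧` mapping `X` into `(X)` is a substitution -/
theorem evS_unique (Φ : A⟦X⟧ →+* S⟦X⟧) (ψ : A →+* S⟦X⟧) {y : S⟦X⟧} (hy : X ∣ y)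
    (hC : ∀ a, Φ (C a) = ψ a) (hX : Φ X = y) : Φ = evS ψ y hy := by
  refine RingHom.ext fun F => eq_of_forall_X_pow_dvd fun M => ?_
  have h1 : (X : S⟦X⟧) ^ M ∣ Φ F - ∑ m ∈ range M, ψ (coeff m F) * y ^ m := by
    have hF : F = ∑ m ∈ range M, C (coeff m F) * X ^ m
        + X ^ M * (PowerSeries.mk fun n => coeff (n + M) F) := by
      ext n
      rw [map_add, map_sum]
      simp only [coeff_C_mul, coeff_X_pow, coeff_X_pow_mul', coeff_mk]
      by_cases hn : n < M
      · rw [if_neg (by omega), add_zero, Finset.sum_eq_single n]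
        · simp
        · intro m _ hm
          rw [if_neg (fun h => hm h.symm), mul_zero]
        · intro h0; exact absurd (Finset.mem_range.2 hn) h0
      · rw [if_pos (by omega), Finset.sum_eq_zero, zero_add]
        · rw [Nat.sub_add_cancel (by omega)]
        · intro m hm
          rw [if_neg, mul_zero]
          rintro rfl
          exact hn (Finset.mem_range.1 hm)
    have h2 : Φ F = ∑ m ∈ range M, ψ (coeff m F) * y ^ m
        + y ^ M * Φ (PowerSeries.mk fun n => coeff (n + M) F) := by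
      conv_lhs => rw [hF]
      rw [map_add, map_sum, map_mul, map_pow, hX]
      congr 1
      refine Finset.sum_congr rfl fun m _ => ?_
      rw [map_mul, map_pow, hX, hC]
    rw [h2, add_sub_cancel_left]
    exact (X_pow_dvd_pow hy M).mul_right _
  have h3 := X_pow_dvd_evS ψ hy F M
  have e : Φ F - evS ψ y hy F = (Φ F - ∑ m ∈ range M, ψ (coeff m F) * y ^ m)
      - (evS ψ y hy F - ∑ m ∈ range M, ψ (coeff m F) * y ^ m) := by ring
  rw [e]
  exact dvd_sub h1 h3

/-- naturality -/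
theorem comp_evS (χ : S⟦X⟧ →+* S'⟦X⟧) (hχ : X ∣ χ X) (ψ : A →+* S⟦X⟧) {y : S⟦X⟧} (hy : X ∣ y)
    (F : A⟦X⟧) :
    χ (evS ψ y hy F) = evS (χ.comp ψ) (χ y) (hχ.trans (map_dvd χ hy)) F := by
  have := evS_unique (χ.comp (evS ψ y hy)) (χ.comp ψ) (hχ.trans (map_dvd χ hy))
    (fun a => by simp) (by simp)
  exact congrArg (fun Φ : A⟦X⟧ →+* S'⟦X⟧ => Φ F) this

theorem constantCoeff_evS (ψ : A →+* S⟦X⟧) {y : S⟦X⟧} (hy : X ∣ y) (F : A⟦X⟧) :
    constantCoeff (evS ψ y hy F) = constantCoeff (ψ (constantCoeff F)) := by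
  have h := X_pow_dvd_evS ψ hy F 1
  simp only [Finset.range_one, Finset.sum_singleton, pow_zero, mul_one, pow_one] at h
  rw [X_dvd_iff, map_sub, sub_eq_zero] at h
  simpa using h

theorem evS_congr {ψ ψ' : A →+* S⟦X⟧} {y y' : S⟦X⟧} (hy : X ∣ y) (hy' : X ∣ y') (h : ψ = ψ')
    (h' : y = y') (F : A⟦X⟧) : evS ψ y hy F = evS ψ' y' hy' F := by
  subst h; subst h'; rfl

/-- difference property of the substitution -/
theorem evS_sub_evS (ψ : A →+* S⟦X⟧) {y y' : S⟦X⟧} (hy : X ∣ y) (hy' : X ∣ y') (F : A⟦X⟧) :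
    ∃ q : S⟦X⟧, constantCoeff q = constantCoeff (ψ (coeff 1 F)) ∧
      evS ψ y hy F - evS ψ y' hy' F = (y - y') * q := by
  -- the two variable trick: work in `S⟦X⟧` modulo nothing, using truncations
  -- quotient: `q = ∑_m ψ(F_m) (∑_{i+j=m-1} y^i y'^j)`
  let h : ℕ → S⟦X⟧ := fun m => ∑ i ∈ range m, y ^ i * y' ^ (m - 1 - i)
  have hh : ∀ m, (y - y') * h m = y ^ m - y' ^ m := by
    intro m
    have := (Commute.all y y').geom_sum₂_mul m
    rw [mul_comm]
    exact this
  have hdvd : ∀ m, (X : S⟦X⟧) ^ (m - 1) ∣ h m := by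
    intro m
    refine Finset.dvd_sum fun i hi => ?_
    have hi' := Finset.mem_range.1 hi
    have : (X : S⟦X⟧) ^ (m - 1) = X ^ i * X ^ (m - 1 - i) := by
      rw [← pow_add]; congr 1; omega
    rw [this]
    exact mul_dvd_mul (X_pow_dvd_pow hy i) (X_pow_dvd_pow hy' _)
  -- `q` as a formal sum
  let q : S⟦X⟧ := PowerSeries.mk fun n => coeff n (∑ m ∈ range (n + 2), ψ (coeff m F) * h m)
  have hq : ∀ M, (X : S⟦X⟧) ^ M ∣ q - ∑ m ∈ range (M + 1), ψ (coeff m F) * h m := by
    intro M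
    rw [X_pow_dvd_iff]
    intro n hn
    rw [map_sub, coeff_mk, sub_eq_zero, map_sum, map_sum]
    refine Finset.sum_subset (by intro x; simp only [Finset.mem_range]; omega) ?_
    intro m _ hm
    simp only [Finset.mem_range, not_lt] at hm
    exact X_pow_dvd_iff.1 ((hdvd m).mul_left _) n (by omega)
  refine ⟨q, ?_, eq_of_forall_X_pow_dvd fun M => ?_⟩
  · have h1 := hq 1
    rw [pow_one, X_dvd_iff, map_sub, sub_eq_zero] at h1
    rw [h1, Finset.sum_range_succ, Finset.sum_range_one]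
    simp [h]
  · have h1 := X_pow_dvd_evS ψ hy F (M + 1)
    have h2 := X_pow_dvd_evS ψ hy' F (M + 1)
    have h3 := (hq M).mul_left (y - y')
    have e3 : (y - y') * ∑ m ∈ range (M + 1), ψ (coeff m F) * h m
        = ∑ m ∈ range (M + 1), ψ (coeff m F) * y ^ m
          - ∑ m ∈ range (M + 1), ψ (coeff m F) * y' ^ m := by
      rw [Finset.mul_sum, ← Finset.sum_sub_distrib]
      refine Finset.sum_congr rfl fun m _ => ?_
      rw [mul_left_comm, hh]; ring
    rw [mul_sub, e3] at h3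
    have hM : (X : S⟦X⟧) ^ M ∣ X ^ (M + 1) := pow_dvd_pow _ (Nat.le_succ M)
    set a := ∑ m ∈ range (M + 1), ψ (coeff m F) * y ^ m
    set b := ∑ m ∈ range (M + 1), ψ (coeff m F) * y' ^ m
    have e : evS ψ y hy F - evS ψ y' hy' F - (y - y') * q
        = (evS ψ y hy F - a) - (evS ψ y' hy' F - b) - ((y - y') * q - (a - b)) := by ring
    rw [e]
    exact dvd_sub (dvd_sub (hM.trans h1) (hM.trans h2)) h3

end evS

end Crest.Agent.R102.H3

namespace Crest.Agent.R102.H3

open PowerSeries Finset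

section cD

variable {K T : Type*} [Field K] [CommRing T] [Algebra K T]

/-- the coefficientwise derivation on `T⟦X⟧` -/
noncomputable def cD (δ : Derivation K T T) : Derivation K T⟦X⟧ T⟦X⟧ where
  toFun F := PowerSeries.mk fun n => δ (coeff n F)
  map_add' F G := by ext n; simp
  map_smul' c F := by
    ext n
    simp only [coeff_mk, RingHom.id_apply, coeff_smul]
    rw [← δ.map_smul]
  map_one_eq_zero' := by
    ext n
    simp only [LinearMap.coe_mk, AddHom.coe_mk, coeff_mk, coeff_one, map_zero]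
    split_ifs <;> simp
  leibniz' F G := by
    ext n
    simp only [LinearMap.coe_mk, AddHom.coe_mk, coeff_mk, smul_eq_mul, map_add, coeff_mul, map_sum,
      Derivation.leibniz, Finset.sum_add_distrib]
    congr 1
    rw [← Finset.Nat.sum_antidiagonal_swap]
    rfl

@[simp] theorem coeff_cD (δ : Derivation K T T) (F : T⟦X⟧) (n : ℕ) :
    coeff n (cD δ F) = δ (coeff n F) := by
  change coeff n (PowerSeries.mk fun n => δ (coeff n F)) = _
  rw [coeff_mk]

theorem X_pow_dvd_cD (δ : Derivation K T T) {F : T⟦X⟧} {M : ℕ} (h : X ^ M ∣ F) :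
    X ^ M ∣ cD δ F := by
  rw [X_pow_dvd_iff] at h ⊢
  intro n hn
  rw [coeff_cD, h n hn, map_zero]

@[simp] theorem cD_X (δ : Derivation K T T) : cD δ (X : T⟦X⟧) = 0 := by
  ext n
  rw [coeff_cD, coeff_X]
  split_ifs <;> simp

@[simp] theorem cD_C (δ : Derivation K T T) (a : T) : cD δ (C a : T⟦X⟧) = C (δ a) := by
  ext n
  rw [coeff_cD, coeff_C, coeff_C]
  split_ifs <;> simp

end cD

section taylor

variable {K H : Type*} [Field K] [CharZero K] [CommRing H] [Algebra K H]

/-- `D_n f = ∂^n f / n!` -/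
noncomputable def dn (d : Derivation K H H) (n : ℕ) (f : H) : H :=
  ((n.factorial : K)⁻¹) • (d^[n] f)

@[simp] theorem dn_zero (d : Derivation K H H) (f : H) : dn d 0 f = f := by simp [dn]

@[simp] theorem dn_one (d : Derivation K H H) (f : H) : dn d 1 f = d f := by simp [dn]

theorem dn_succ (d : Derivation K H H) (n : ℕ) (f : H) :
    dn d (n + 1) f * ((n : H) + 1) = d (dn d n f) := by
  rw [dn, dn, d.map_smul, Function.iterate_succ_apply', mul_comm, ← Nat.cast_succ,
    ← nsmul_eq_mul, ← Nat.cast_smul_eq_nsmul K, smul_smul]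
  congr 1
  rw [Nat.factorial_succ]
  have h1 : ((n + 1 : ℕ) : K) ≠ 0 := Nat.cast_ne_zero.2 (Nat.succ_ne_zero n)
  have h2 : ((n.factorial : ℕ) : K) ≠ 0 := Nat.cast_ne_zero.2 n.factorial_ne_zero
  push_cast
  push_cast at h1
  field_simp

/-- power series `F` with `F' = ∂F` are determined by their constant coefficient -/
theorem ext_of_ode (d : Derivation K H H) {F G : H⟦X⟧} (hF : d⁄dX H F = cD d F)
    (hG : d⁄dX H G = cD d G) (h0 : constantCoeff F = constantCoeff G) : F = G := by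
  ext n
  induction n with
  | zero => simpa using h0
  | succ n ih =>
    have h1 := congrArg (coeff n) hF
    have h2 := congrArg (coeff n) hG
    rw [coeff_derivative, coeff_cD] at h1 h2
    have h3 : coeff (n + 1) F * ((n : H) + 1) = coeff (n + 1) G * ((n : H) + 1) := by
      rw [h1, h2, ih]
    have hu : IsUnit ((n : H) + 1) := by
      have : ((n : H) + 1) = algebraMap K H ((n + 1 : ℕ) : K) := by
        rw [map_natCast]; push_cast; rfl
      rw [this]
      exact (Ne.isUnit (Nat.cast_ne_zero.2 (Nat.succ_ne_zero n))).map _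
    exact hu.mul_left_injective h3

/-- the raw Taylor series -/
noncomputable def tyRaw (d : Derivation K H H) (f : H) : H⟦X⟧ := PowerSeries.mk fun n => dn d n f

theorem tyRaw_ode (d : Derivation K H H) (f : H) : d⁄dX H (tyRaw d f) = cD d (tyRaw d f) := by
  ext n
  rw [coeff_derivative, coeff_cD, tyRaw, coeff_mk, coeff_mk, dn_succ]

theorem constantCoeff_tyRaw (d : Derivation K H H) (f : H) :
    constantCoeff (tyRaw d f) = f := by
  rw [← coeff_zero_eq_constantCoeff_apply, tyRaw, coeff_mk, dn_zero]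

/-- the Taylor morphism `f ↦ ∑ (∂^n f / n!) X^n` -/
noncomputable def Ty (d : Derivation K H H) : H →+* H⟦X⟧ where
  toFun := tyRaw d
  map_one' := ext_of_ode d (tyRaw_ode d 1) (by simp) (by simp [constantCoeff_tyRaw])
  map_zero' := ext_of_ode d (tyRaw_ode d 0) (by simp) (by simp [constantCoeff_tyRaw])
  map_add' f g := ext_of_ode d (tyRaw_ode d _)
    (by rw [map_add, map_add, tyRaw_ode, tyRaw_ode]) (by simp [constantCoeff_tyRaw])
  map_mul' f g := ext_of_ode d (tyRaw_ode d _)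
    (by rw [Derivation.leibniz, Derivation.leibniz, tyRaw_ode, tyRaw_ode])
    (by simp [constantCoeff_tyRaw])

@[simp] theorem coeff_Ty (d : Derivation K H H) (f : H) (n : ℕ) :
    coeff n (Ty d f) = dn d n f := by
  change coeff n (tyRaw d f) = _
  rw [tyRaw, coeff_mk]

@[simp] theorem constantCoeff_Ty (d : Derivation K H H) (f : H) :
    constantCoeff (Ty d f) = f := constantCoeff_tyRaw d f

theorem Ty_ode (d : Derivation K H H) (f : H) : d⁄dX H (Ty d f) = cD d (Ty d f) :=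
  tyRaw_ode d f

theorem cD_Ty (d : Derivation K H H) (f : H) : cD d (Ty d f) = Ty d (d f) := by
  ext n
  rw [coeff_cD, coeff_Ty, coeff_Ty, dn, dn, d.map_smul]
  congr 1
  exact (Function.iterate_succ_apply' d n f).symm.trans (Function.iterate_succ_apply d n f)

theorem derivative_Ty (d : Derivation K H H) (f : H) : d⁄dX H (Ty d f) = Ty d (d f) := by
  rw [Ty_ode, cD_Ty]

/-- uniqueness of Taylor series -/
theorem eq_Ty (d : Derivation K H H) {F : H⟦X⟧} (hF : d⁄dX H F = cD d F) :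
    F = Ty d (constantCoeff F) := ext_of_ode d hF (Ty_ode d _) (by simp)

theorem Ty_algebraMap (d : Derivation K H H) (c : K) :
    Ty d (algebraMap K H c) = C (algebraMap K H c) := by
  have : (C (algebraMap K H c) : H⟦X⟧) = Ty d (constantCoeff (C (algebraMap K H c) : H⟦X⟧)) := by
    refine eq_Ty d ?_
    ext n
    rw [coeff_derivative, coeff_C, if_neg (Nat.succ_ne_zero n), zero_mul, cD_C]
    simp
  rw [this]
  simp

/-- functoriality of Taylor series -/
theorem map_Ty {H' : Type*} [CommRing H'] [Algebra K H'] (d : Derivation K H H)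
    (d' : Derivation K H' H') (τ : H →+* H') (hτ : ∀ f, τ (d f) = d' (τ f)) (f : H) :
    PowerSeries.map τ (Ty d f) = Ty d' (τ f) := by
  have : PowerSeries.map τ (Ty d f) = Ty d' (constantCoeff (PowerSeries.map τ (Ty d f))) := by
    refine eq_Ty d' ?_
    ext n
    rw [coeff_derivative, coeff_map, coeff_cD, coeff_map, coeff_Ty, coeff_Ty, ← hτ, ← dn_succ,
      map_mul, map_add, map_natCast, map_one]
  rw [this]
  congr 1
  rw [← coeff_zero_eq_constantCoeff_apply, coeff_map]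
  simp

variable {S : Type*} [CommRing S]

/-- the point `φ` translated by `y` -/
noncomputable def pt (d : Derivation K H H) (φ : H →+* S⟦X⟧) (y : S⟦X⟧) (hy : X ∣ y) :
    H →+* S⟦X⟧ := (evS φ y hy).comp (Ty d)

theorem pt_apply (d : Derivation K H H) (φ : H →+* S⟦X⟧) {y : S⟦X⟧} (hy : X ∣ y) (f : H) :
    pt d φ y hy f = evS φ y hy (Ty d f) := rfl

theorem constantCoeff_pt (d : Derivation K H H) (φ : H →+* S⟦X⟧) {y : S⟦X⟧} (hy : X ∣ y) (f : H) :
    constantCoeff (pt d φ y hy f) = constantCoeff (φ f) := by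
  rw [pt_apply, constantCoeff_evS, constantCoeff_Ty]

theorem pt_congr (d : Derivation K H H) {φ φ' : H →+* S⟦X⟧} {y y' : S⟦X⟧} (hy : X ∣ y)
    (hy' : X ∣ y') (h : φ = φ') (h' : y = y') : pt d φ y hy = pt d φ' y' hy' := by
  subst h; subst h'; rfl

/-- Taylor expansion with remainder -/
theorem pt_eq (d : Derivation K H H) (φ : H →+* S⟦X⟧) {y : S⟦X⟧} (hy : X ∣ y) (f : H) (M : ℕ) :
    ∃ q, pt d φ y hy f = ∑ m ∈ range M, φ (dn d m f) * y ^ m + y ^ M * q := by
  refine ⟨evS φ y hy (PowerSeries.mk fun n => coeff (n + M) (Ty d f)),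
    (evS_eq φ hy (Ty d f) M).trans ?_⟩
  simp only [coeff_Ty]

theorem pt_zero (d : Derivation K H H) (φ : H →+* S⟦X⟧) (h0 : (X : S⟦X⟧) ∣ 0) :
    pt d φ 0 h0 = φ := by
  refine RingHom.ext fun f => ?_
  obtain ⟨q, hq⟩ := pt_eq d φ h0 f 1
  rw [hq]
  simp

/-- the coordinate: if `∂z = 1` then the point moves by `y` -/
theorem pt_coord (d : Derivation K H H) (φ : H →+* S⟦X⟧) {y : S⟦X⟧} (hy : X ∣ y) {z : H}
    (hz : d z = 1) : pt d φ y hy z = φ z + y := by
  refine eq_of_forall_X_pow_dvd fun M => ?_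
  obtain ⟨q, hq⟩ := pt_eq d φ hy z (M + 2)
  have h2 : ∀ m, dn d (m + 2) z = 0 := by
    intro m
    rw [dn, Function.iterate_add_apply]
    have : d^[2] z = 0 := by
      simp [hz]
    rw [this]
    have h3 : ∀ k, d^[k] (0 : H) = 0 := by
      intro k
      induction k with
      | zero => rfl
      | succ k ih => rw [Function.iterate_succ_apply', ih, map_zero]
    rw [h3, smul_zero]
  rw [hq, Finset.sum_range_succ', Finset.sum_range_succ']
  simp only [h2, map_zero, zero_mul, Finset.sum_const_zero, zero_add, dn_zero, dn_one, pow_zero,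
    mul_one, pow_one, hz, map_one, one_mul]
  have : y + φ z + y ^ (M + 2) * q - (φ z + y) = y ^ (M + 2) * q := by ring
  rw [this]
  exact ((pow_dvd_pow X (by omega : M ≤ M + 2)).trans (X_pow_dvd_pow hy _)).mul_right _

/-- naturality of points (target) -/
theorem comp_pt {S' : Type*} [CommRing S'] (d : Derivation K H H) (χ : S⟦X⟧ →+* S'⟦X⟧)
    (hχ : X ∣ χ X) (φ : H →+* S⟦X⟧) {y : S⟦X⟧} (hy : X ∣ y) :
    χ.comp (pt d φ y hy) = pt d (χ.comp φ) (χ y) (hχ.trans (map_dvd χ hy)) :=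
  RingHom.ext fun f => comp_evS χ hχ φ hy (Ty d f)

/-- naturality of points (source) -/
theorem pt_comp {H' : Type*} [CommRing H'] [Algebra K H'] (d : Derivation K H H)
    (d' : Derivation K H' H') (τ : H →+* H') (hτ : ∀ f, τ (d f) = d' (τ f))
    (φ : H' →+* S⟦X⟧) {y : S⟦X⟧} (hy : X ∣ y) :
    (pt d' φ y hy).comp τ = pt d (φ.comp τ) y hy := by
  refine RingHom.ext fun f => ?_
  rw [RingHom.comp_apply, pt_apply, pt_apply, ← map_Ty d d' τ hτ]
  have := evS_unique ((evS φ y hy).comp (PowerSeries.map τ)) (φ.comp τ) hy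
    (fun a => by simp) (by simp)
  exact congrArg (fun Φ : H⟦X⟧ →+* S⟦X⟧ => Φ (Ty d f)) this

theorem eq_pt_of_evS (φ : H →+* S⟦X⟧) {y z : S⟦X⟧} (hy : X ∣ y)
    (hz : X ∣ z) : pt ((d⁄dX H).restrictScalars K) (evS φ y hy) z hz
      = evS φ (y + z) (dvd_add hy hz) := by
  refine evS_unique _ _ _ (fun a => ?_) ?_
  · obtain ⟨q, hq⟩ := pt_eq ((d⁄dX H).restrictScalars K) (evS φ y hy) hz (C a) 1
    have : ∀ M, (X : S⟦X⟧) ^ M ∣ pt ((d⁄dX H).restrictScalars K) (evS φ y hy) z hz (C a) - φ a := by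
      intro M
      obtain ⟨q, hq⟩ := pt_eq ((d⁄dX H).restrictScalars K) (evS φ y hy) hz (C a) (M + 1)
      have h2 : ∀ m, dn ((d⁄dX H).restrictScalars K) (m + 1) (C a : H⟦X⟧) = 0 := by
        intro m
        rw [dn, Function.iterate_succ_apply]
        have : ((d⁄dX H).restrictScalars K) (C a : H⟦X⟧) = 0 := by
          simp
        rw [this]
        have h3 : ∀ k, ((d⁄dX H).restrictScalars K)^[k] (0 : H⟦X⟧) = 0 := by
          intro k
          induction k with
          | zero => rfl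
          | succ k ih => rw [Function.iterate_succ_apply', ih, map_zero]
        rw [h3, smul_zero]
      rw [hq, Finset.sum_range_succ']
      simp only [h2, map_zero, zero_mul, Finset.sum_const_zero, zero_add, dn_zero, pow_zero,
        mul_one, evS_C, add_sub_cancel_left]
      exact ((pow_dvd_pow X (by omega : M ≤ M + 1)).trans (X_pow_dvd_pow hz _)).mul_right _
    exact eq_of_forall_X_pow_dvd this
  · rw [pt_coord]
    · simp
    · simp

/-- additivity of translations -/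
theorem pt_pt (d : Derivation K H H) (φ : H →+* S⟦X⟧) {y z : S⟦X⟧} (hy : X ∣ y)
    (hz : X ∣ z) : pt d (pt d φ y hy) z hz = pt d φ (y + z) (dvd_add hy hz) := by
  have h1 : pt d φ (y + z) (dvd_add hy hz)
      = (pt ((d⁄dX H).restrictScalars K) (evS φ y hy) z hz).comp (Ty d) := by
    rw [eq_pt_of_evS φ hy hz]
    rfl
  rw [h1, pt_comp d ((d⁄dX H).restrictScalars K) (Ty d) (fun f => ?_) (evS φ y hy) hz]
  · rfl
  · exact (derivative_Ty d f).symm

/-- difference property of points -/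
theorem pt_sub_pt (d : Derivation K H H) (φ : H →+* S⟦X⟧) {y y' : S⟦X⟧} (hy : X ∣ y)
    (hy' : X ∣ y') (f : H) : ∃ q : S⟦X⟧, constantCoeff q = constantCoeff (φ (d f)) ∧
      pt d φ y hy f - pt d φ y' hy' f = (y - y') * q := by
  obtain ⟨q, h1, h2⟩ := evS_sub_evS φ hy hy' (Ty d f)
  refine ⟨q, ?_, h2⟩
  rw [h1, coeff_Ty, dn_one]

end taylor

section hensel

variable {S : Type*} [CommRing S]

/-- abstract Hensel lemma, uniqueness -/
theorem root_unique {Θ : S⟦X⟧ → S⟦X⟧} {y y' q : S⟦X⟧} (hq : IsUnit (constantCoeff q))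
    (h : Θ y - Θ y' = (y - y') * q) (hy : Θ y = 0) (hy' : Θ y' = 0) : y = y' := by
  rw [hy, hy', sub_zero] at h
  have hq' : IsUnit q := PowerSeries.isUnit_iff_constantCoeff.2 hq
  rw [← sub_eq_zero]
  exact (hq'.mul_left_eq_zero).1 h.symm

/-- abstract Hensel lemma, existence -/
theorem exists_root (Θ : S⟦X⟧ → S⟦X⟧) (y0 : S⟦X⟧) (h0 : X ∣ Θ y0) (u : S) (hu : IsUnit u)
    (hd : ∀ y y', X ∣ y - y0 → X ∣ y' - y0 →
      ∃ q, constantCoeff q = u ∧ Θ y - Θ y' = (y - y') * q) :
    ∃ y, X ∣ y - y0 ∧ Θ y = 0 := by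
  obtain ⟨v, hv⟩ := hu.exists_left_inv
  -- Newton iteration
  let s : ℕ → S⟦X⟧ := fun n => Nat.rec y0 (fun _ y => y - C v * Θ y) n
  have hs0 : s 0 = y0 := rfl
  have hs1 : ∀ n, s (n + 1) = s n - C v * Θ (s n) := fun n => rfl
  have key : ∀ n, X ∣ s n - y0 ∧ X ^ (n + 1) ∣ Θ (s n) := by
    intro n
    induction n with
    | zero => exact ⟨by simp [hs0], by simpa [hs0] using h0⟩
    | succ n ih =>
      obtain ⟨ih1, ih2⟩ := ih
      have hX : (X : S⟦X⟧) ∣ Θ (s n) := (dvd_pow_self X (Nat.succ_ne_zero n)).trans ih2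
      have h1 : X ∣ s (n + 1) - y0 := by
        have : s (n + 1) - y0 = (s n - y0) - C v * Θ (s n) := by rw [hs1]; ring
        rw [this]
        exact dvd_sub ih1 (hX.mul_left _)
      refine ⟨h1, ?_⟩
      obtain ⟨q, hq, hq2⟩ := hd (s (n + 1)) (s n) h1 ih1
      have h2 : Θ (s (n + 1)) = Θ (s n) * (1 - C v * q) := by
        have : Θ (s (n + 1)) = Θ (s n) + (s (n + 1) - s n) * q := by rw [← hq2]; ring
        rw [this, hs1]; ring
      rw [h2, pow_succ]
      refine mul_dvd_mul ih2 ?_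
      rw [X_dvd_iff, map_sub, map_one, map_mul, constantCoeff_C, hq, hv, sub_self]
  have hstep : ∀ n, X ^ (n + 1) ∣ s (n + 1) - s n := by
    intro n
    have : s (n + 1) - s n = -(C v * Θ (s n)) := by rw [hs1]; ring
    rw [this, dvd_neg]
    exact (key n).2.mul_left _
  have hlim : ∀ n m, n ≤ m → X ^ (n + 1) ∣ s m - s n := by
    intro n m hnm
    induction m, hnm using Nat.le_induction with
    | base => simp
    | succ m hm ih =>
      have : s (m + 1) - s n = (s (m + 1) - s m) + (s m - s n) := by ring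
      rw [this]
      exact dvd_add ((pow_dvd_pow X (by omega)).trans (hstep m)) ih
  let y : S⟦X⟧ := PowerSeries.mk fun n => coeff n (s n)
  have hy : ∀ n, X ^ (n + 1) ∣ y - s n := by
    intro n
    rw [X_pow_dvd_iff]
    intro k hk
    rw [map_sub, coeff_mk]
    have := X_pow_dvd_iff.1 (hlim k n (by omega)) k (by omega)
    rw [map_sub, sub_eq_zero] at this
    rw [this, sub_self]
  have hy0 : X ∣ y - y0 := by
    have := hy 0
    rwa [zero_add, pow_one, hs0] at this
  refine ⟨y, hy0, ?_⟩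
  refine eq_of_forall_X_pow_dvd fun M => ?_
  rw [sub_zero]
  obtain ⟨q, hq, hq2⟩ := hd y (s M) hy0 (key M).1
  have : Θ y = Θ (s M) + (y - s M) * q := by rw [← hq2]; ring
  rw [this]
  exact dvd_add ((pow_dvd_pow X (Nat.le_succ M)).trans (key M).2)
    (((pow_dvd_pow X (Nat.le_succ M)).trans (hy M)).mul_right _)

end hensel

end Crest.Agent.R102.H3
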