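import Crest.Agent.R102.F1c_201
import Crest.Agent.R102.Hol_575
import Crest.Agent.R102.Form_575

/-!
# Row 102, [H3], F1 (helper201): the deformation homomorphism over `H3.Hol`, `H3.cD`.
-/

set_option autoImplicit false

open Set Filter Topology Metric TopologicalSpace

noncomputable section

namespace Crest.Agent.R102.H3

/-- the open ball. -/
def bO (z0 : ℂ) (r : ℝ) : Opens ℂ := ⟨ball z0 r, isOpen_ball⟩

@[simp] theorem coe_bO (z0 : ℂ) (r : ℝ) : ((bO z0 r : Opens ℂ) : Set ℂ) = ball z0 r := rfl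

theorem mem_bO {z0 : ℂ} {r : ℝ} {z : ℂ} : z ∈ bO z0 r ↔ z ∈ ball z0 r := Iff.rfl

theorem bO_preconnected (z0 : ℂ) (r : ℝ) : IsPreconnected ((bO z0 r : Opens ℂ) : Set ℂ) :=
  (convex_ball z0 r).isPreconnected

theorem cD_eq_dPS {T : Type*} [CommRing T] [Algebra ℂ T] (δ : Derivation ℂ T T)
    (F : PowerSeries T) : cD δ F = F1201.dPS δ F := by
  ext k
  rw [coeff_cD, F1201.coeff_dPS]

theorem lin_H {z0 : ℂ} {r : ℝ} (b0 : bO z0 r) : F1201.Lin (DH (bO z0 r)) (evH b0) := by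
  intro n A f c
  have hd : ∀ g : Hol (bO z0 r), DifferentiableOn ℂ (ext0 (g : bO z0 r → ℂ)) (ball z0 r) :=
    fun g => (Hol.an g).differentiableOn
  obtain ⟨u, hu0, hu⟩ := F1201.lin_sys (z0 := z0) (r := r) b0.2
    (a := fun i j => ext0 (A i j : bO z0 r → ℂ)) (f := fun i => ext0 (f i : bO z0 r → ℂ))
    (fun i j => hd _) (fun i => hd _) c
  have hud : ∀ i, AnalyticOnNhd ℂ (u i) (bO z0 r) := fun i =>
    DifferentiableOn.analyticOnNhd (fun z hz =>
      (hu i z hz).differentiableAt.differentiableWithinAt) isOpen_ball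
  refine ⟨fun i => Hol.ofFun (u i) (hud i), fun i => ?_, fun i => ?_⟩
  · rw [evH_apply, Hol.ofFun_apply, hu0]
  · rw [DH_ofFun]
    ext x
    rw [Hol.ofFun_apply, (hu i x x.2).deriv, ← evH_apply x, map_add, map_sum]
    simp only [map_mul, evH_apply, Hol.ofFun_apply, ext0_apply]

/-- all iterated derivatives zero at one point. -/
theorem idt_H {V : Opens ℂ} (hV : IsPreconnected (V : Set ℂ)) (b0 : V) :
    F1201.Idt (DH V) (evH b0) := by
  intro f hf
  refine Hol.eq_zero_of_eventually hV f b0 ?_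
  have hder : ∀ m : ℕ, ∀ z : V, iteratedDeriv m (ext0 (f : V → ℂ)) z =
      ((DH V)^[m] f : V → ℂ) z := by
    intro m
    induction m with
    | zero => intro z; rw [iteratedDeriv_zero, ext0_apply]; rfl
    | succ m ih =>
      intro z
      rw [iteratedDeriv_succ, Function.iterate_succ_apply', DH_apply]
      exact (eventually_ext0_eq ih z.2).deriv_eq.symm
  have htop : analyticOrderAt (ext0 (f : V → ℂ)) b0 = ⊤ := by
    rw [ENat.eq_top_iff_forall_ge]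
    intro n
    rw [natCast_le_analyticOrderAt_iff_iteratedDeriv_eq_zero (Hol.an f b0 b0.2)]
    intro i _
    rw [hder i b0, ← evH_apply, hf i]
  exact analyticOrderAt_eq_top.mp htop

/-- **(F1)** the deformation homomorphism over `Hol (ball)`. -/
theorem exists_Phi_H {z0 : ℂ} {r : ℝ} (b0 : bO z0 r)
    {A₀ : Type*} [CommRing A₀] [Algebra ℂ A₀] [Algebra.FiniteType ℂ A₀]
    {δ : Derivation ℂ A₀ A₀} {ρ : A₀ →ₐ[ℂ] Hol (bO z0 r)}
    (hρ : ∀ a, ρ (δ a) = DH (bO z0 r) (ρ a))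
    {ψ : A₀ →ₐ[ℂ] PowerSeries ℂ} (hψ : ∀ a, PowerSeries.constantCoeff (ψ a) = evH b0 (ρ a)) :
    ∃ Φ : A₀ →ₐ[ℂ] PowerSeries (Hol (bO z0 r)), (∀ a, Φ (δ a) = cD (DH (bO z0 r)) (Φ a)) ∧
      (∀ a, PowerSeries.constantCoeff (Φ a) = ρ a) ∧
      ∀ a, PowerSeries.map (evH b0 : Hol (bO z0 r) →+* ℂ) (Φ a) = ψ a := by
  obtain ⟨Φ, h1, h2, h3⟩ := F1201.exists_Phi (lin_H b0) (idt_H (bO_preconnected z0 r) b0) hρ
    (ψ := ψ) (fun a => by rw [PowerSeries.coeff_zero_eq_constantCoeff_apply]; exact hψ a)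
  exact ⟨Φ, fun a => by rw [cD_eq_dPS]; exact h1 a,
    fun a => by rw [← PowerSeries.coeff_zero_eq_constantCoeff_apply]; exact h2 a, h3⟩

/-- uniqueness of the deformation homomorphism (any connected `V`). -/
theorem Phi_unique_H {V : Opens ℂ} (hV : IsPreconnected (V : Set ℂ)) (b0 : V)
    {A₀ : Type*} [CommRing A₀] [Algebra ℂ A₀] {δ : Derivation ℂ A₀ A₀}
    {Φ Φ' : A₀ → PowerSeries (Hol V)}
    (h1 : ∀ a, Φ (δ a) = cD (DH V) (Φ a)) (h1' : ∀ a, Φ' (δ a) = cD (DH V) (Φ' a))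
    (h2 : ∀ a, PowerSeries.map (evH b0 : Hol V →+* ℂ) (Φ a) =
      PowerSeries.map (evH b0 : Hol V →+* ℂ) (Φ' a)) (a : A₀) : Φ a = Φ' a :=
  F1201.Phi_unique (idt_H hV b0) (δ := δ) (fun a => by rw [← cD_eq_dPS]; exact h1 a)
    (fun a => by rw [← cD_eq_dPS]; exact h1' a) (fun a => rfl) (fun a => (h2 a).symm) a

end Crest.Agent.R102.H3
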