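import Crest.Agent.R102.Rat1B_389
import Crest.Agent.R102.F1d_201

/-!
Row 102, part (C), leaf H3, CT: ACON (a finitely generated ring stable under the derivations which
contains the chain) and CONST (constants of the ring of holomorphic functions).
-/

set_option linter.unusedSectionVars false
set_option autoImplicit false

namespace Crest.Agent.R102.CT575

open H3 PowerSeries Finset TopologicalSpace

section acon

theorem fg_finset_sup {T ι : Type*} [CommRing T] [Algebra ℂ T] (s : Finset ι)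
    (R : ι → Subalgebra ℂ T) (h : ∀ i ∈ s, (R i).FG) : (s.sup R).FG := by
  classical
  induction s using Finset.induction_on with
  | empty => rw [Finset.sup_empty]; exact Subalgebra.fg_bot
  | insert a s ha ih =>
    rw [Finset.sup_insert]
    exact (h a (Finset.mem_insert_self _ _)).sup (ih fun i hi => h i (Finset.mem_insert_of_mem hi))

theorem acon {T A0 : Type} [CommRing T] [Algebra ℂ T] [CommRing A0] [Algebra ℂ A0]
    [Algebra.FiniteType ℂ A0] {ι : Type} (D : ι → Derivation ℂ T T) (d0 : Derivation ℂ A0 A0)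
    (z0 g0 : A0) (N : ℕ) (s : ℕ → A0 →ₐ[ℂ] T) (sh : A0 →ₐ[ℂ] T) (m k : ℕ → T)
    (hs : ∀ i, ∀ j < N, ∀ a, D i (s j a) = s j (d0 a) * D i (s j z0))
    (hsh : ∀ i a, D i (sh a) = sh (d0 a) * D i (sh z0))
    (hm0 : ∀ i, ∃ c : ℂ, D i (m 0) = algebraMap ℂ T c)
    (hk0 : ∀ i, ∃ c : ℂ, D i (k 0) = algebraMap ℂ T c)
    (inc : ∀ j < N, s j g0 = m j * s j z0 + k j)
    (inc' : ∀ j < N, s j g0 = m (j + 1) * s j z0 + k (j + 1))
    (refl : ∀ j < N, m (j + 1) * m j = s j (d0 g0) ^ 2)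
    (hum : ∀ j < N, IsUnit (m j)) (hut : ∀ j < N, IsUnit (s j (d0 g0) - m j))
    (hinc : sh g0 = m 0 * sh z0 + k 0) (huh : IsUnit (sh (d0 g0) - m 0)) :
    ∃ A : Subalgebra ℂ T, A.FG ∧ (∀ i, ∀ f ∈ A, D i f ∈ A) ∧ (∀ j < N, ∀ a, s j a ∈ A) ∧
      (∀ a, sh a ∈ A) ∧ (∀ j ≤ N, m j ∈ A ∧ k j ∈ A) ∧ (∀ j < N, ∃ μ ∈ A, μ * m j = 1) ∧
      (∀ j < N, ∃ τ ∈ A, τ * (s j (d0 g0) - m j) = 1) ∧
      ∃ τ ∈ A, τ * (sh (d0 g0) - m 0) = 1 := by
  classical
  have hμex : ∀ j, ∃ u : T, j < N → u * m j = 1 := by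
    intro j
    by_cases hj : j < N
    · obtain ⟨u, hu⟩ := (hum j hj).exists_left_inv
      exact ⟨u, fun _ => hu⟩
    · exact ⟨0, fun h => absurd h hj⟩
  have hτex : ∀ j, ∃ u : T, j < N → u * (s j (d0 g0) - m j) = 1 := by
    intro j
    by_cases hj : j < N
    · obtain ⟨u, hu⟩ := (hut j hj).exists_left_inv
      exact ⟨u, fun _ => hu⟩
    · exact ⟨0, fun h => absurd h hj⟩
  choose μ hμ using hμex
  choose τ hτ using hτex
  obtain ⟨τh, hτh⟩ := huh.exists_left_inv
  let fin : Finset T := (range (N + 1)).image m ∪ (range (N + 1)).image k ∪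
    (range N).image μ ∪ (range N).image τ ∪ {τh}
  let S : Set T := {x | (∃ j < N, ∃ a, x = s j a) ∨ (∃ a, x = sh a) ∨ x ∈ fin}
  set A := Algebra.adjoin ℂ S with hA
  have gs : ∀ j < N, ∀ a, s j a ∈ A := fun j hj a => Algebra.subset_adjoin (Or.inl ⟨j, hj, a, rfl⟩)
  have gh : ∀ a, sh a ∈ A := fun a => Algebra.subset_adjoin (Or.inr (Or.inl ⟨a, rfl⟩))
  have gf : ∀ x ∈ fin, x ∈ A := fun x hx => Algebra.subset_adjoin (Or.inr (Or.inr hx))
  have gm : ∀ j ≤ N, m j ∈ A := fun j hj => gf _ (by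
    simp only [fin, Finset.mem_union, Finset.mem_image, Finset.mem_range]
    exact Or.inl (Or.inl (Or.inl (Or.inl ⟨j, by omega, rfl⟩))))
  have gk : ∀ j ≤ N, k j ∈ A := fun j hj => gf _ (by
    simp only [fin, Finset.mem_union, Finset.mem_image, Finset.mem_range]
    exact Or.inl (Or.inl (Or.inl (Or.inr ⟨j, by omega, rfl⟩))))
  have gμ : ∀ j < N, μ j ∈ A := fun j hj => gf _ (by
    simp only [fin, Finset.mem_union, Finset.mem_image, Finset.mem_range]
    exact Or.inl (Or.inl (Or.inr ⟨j, hj, rfl⟩)))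
  have gτ : ∀ j < N, τ j ∈ A := fun j hj => gf _ (by
    simp only [fin, Finset.mem_union, Finset.mem_image, Finset.mem_range]
    exact Or.inl (Or.inr ⟨j, hj, rfl⟩))
  have gτh : τh ∈ A := gf _ (by
    simp only [fin, Finset.mem_union, Finset.mem_singleton]
    exact Or.inr trivial)
  -- closure
  have hcl : ∀ a, ∀ i ≤ N, D a (m i) ∈ A ∧ D a (k i) ∈ A ∧
      ∀ j < i, (∀ x, D a (s j x) ∈ A) ∧ D a (μ j) ∈ A ∧ D a (τ j) ∈ A := by
    intro a i
    induction i with
    | zero =>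
      intro _
      obtain ⟨c, hc⟩ := hm0 a
      obtain ⟨c', hc'⟩ := hk0 a
      exact ⟨by rw [hc]; exact A.algebraMap_mem c, by rw [hc']; exact A.algebraMap_mem c',
        fun j hj => absurd hj (by omega)⟩
    | succ i ih =>
      intro hi
      have hi' : i < N := hi
      obtain ⟨h1, h2, h3⟩ := ih hi'.le
      have hv := vertex_mem (D a) d0 (z0 := z0) (g0 := g0) (s i : A0 →+* T) (hs a i hi')
        (m := m i) (k := k i) (τ := τ i) (inc i hi') (hτ i hi') A (gs i hi') (gτ i hi') h1 h2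
      have hl := line_mem (D a) d0 (z0 := z0) (g0 := g0) (s i : A0 →+* T)
        (m := m i) (m' := m (i + 1)) (k' := k (i + 1)) (μ := μ i) (inc' i hi') (refl i hi')
        (hμ i hi') A (gs i hi') hv.2.1 (gm _ hi) (gμ i hi') h1
      refine ⟨hl.1, hl.2.1, fun j hj => ?_⟩
      rcases Nat.lt_succ_iff_lt_or_eq.1 hj with h4 | h4
      · exact h3 j h4
      · subst h4
        exact ⟨hv.2.1, hl.2.2, hv.2.2⟩
  have hhat : ∀ a, (∀ x, D a (sh x) ∈ A) ∧ D a τh ∈ A := by
    intro a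
    have hv := vertex_mem (D a) d0 (z0 := z0) (g0 := g0) (sh : A0 →+* T) (hsh a)
      (m := m 0) (k := k 0) (τ := τh) hinc hτh A gh gτh (hcl a 0 (Nat.zero_le _)).1
      (hcl a 0 (Nat.zero_le _)).2.1
    exact ⟨hv.2.1, hv.2.2⟩
  have hS : ∀ a, ∀ x ∈ S, D a x ∈ A := by
    rintro a x (⟨j, hj, b, rfl⟩ | ⟨b, rfl⟩ | hx)
    · exact ((hcl a N le_rfl).2.2 j hj).1 b
    · exact (hhat a).1 b
    · simp only [fin, Finset.mem_union, Finset.mem_image, Finset.mem_range,
        Finset.mem_singleton] at hx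
      rcases hx with (((⟨j, hj, rfl⟩ | ⟨j, hj, rfl⟩) | ⟨j, hj, rfl⟩) | ⟨j, hj, rfl⟩) | rfl
      · exact (hcl a j (by omega)).1
      · exact (hcl a j (by omega)).2.1
      · exact ((hcl a N le_rfl).2.2 j hj).2.1
      · exact ((hcl a N le_rfl).2.2 j hj).2.2
      · exact (hhat a).2
  refine ⟨A, ?_, fun i f hf => adjoin_stable (D i) S (fun x hx => hS i x hx) hf, gs, gh,
    fun j hj => ⟨gm j hj, gk j hj⟩, fun j hj => ⟨μ j, gμ j hj, hμ j hj⟩,
    fun j hj => ⟨τ j, gτ j hj, hτ j hj⟩, τh, gτh, hτh⟩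
  -- finite generation
  have htop : (⊤ : Subalgebra ℂ A0).FG := Algebra.FiniteType.out
  have hr : ∀ f : A0 →ₐ[ℂ] T, f.range.FG := by
    intro f
    rw [← Algebra.map_top]
    exact htop.map f
  have hfg : (((range N).sup fun j => (s j).range) ⊔ sh.range ⊔ Algebra.adjoin ℂ (fin : Set T)).FG :=
    ((fg_finset_sup _ _ fun j _ => hr (s j)).sup (hr sh)).sup (Subalgebra.fg_adjoin_finset fin)
  have heq : A = ((range N).sup fun j => (s j).range) ⊔ sh.range ⊔
      Algebra.adjoin ℂ (fin : Set T) := by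
    apply le_antisymm
    · refine Algebra.adjoin_le ?_
      rintro x (⟨j, hj, b, rfl⟩ | ⟨b, rfl⟩ | hx)
      · have h1 : (s j).range ≤ (range N).sup fun j => (s j).range :=
          Finset.le_sup (f := fun j => (s j).range) (Finset.mem_range.2 hj)
        exact (h1.trans (le_sup_left.trans le_sup_left)) ⟨b, rfl⟩
      · exact ((le_sup_right (a := (range N).sup fun j => (s j).range)).trans le_sup_left) ⟨b, rfl⟩
      · exact (le_sup_right (a := ((range N).sup fun j => (s j).range) ⊔ sh.range))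
          (Algebra.subset_adjoin hx)
    · refine sup_le (sup_le (Finset.sup_le fun j hj => ?_) ?_) ?_
      · rintro x ⟨b, rfl⟩
        exact gs j (Finset.mem_range.1 hj) b
      · rintro x ⟨b, rfl⟩
        exact gh b
      · exact Algebra.adjoin_le fun x hx => gf x hx
  rw [heq]
  exact hfg

end acon

section const

/-- Taylor series at one point -/
noncomputable def tyAt {V : Opens ℂ} (x : V) : Hol V →+* ℂ⟦X⟧ :=
  (PowerSeries.map (evH x : Hol V →+* ℂ)).comp (Ty (DH V))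

theorem tyAt_injective {V : Opens ℂ} (hV : IsPreconnected (V : Set ℂ)) (x : V) :
    Function.Injective (tyAt x) := by
  rw [injective_iff_map_eq_zero]
  intro f hf
  refine idt_H hV x f fun n => ?_
  have h1 := congrArg (coeff n) hf
  rw [tyAt, RingHom.comp_apply, coeff_map, coeff_Ty, dn, map_zero] at h1
  have h2 : (evH x : Hol V →+* ℂ) ((n.factorial : ℂ)⁻¹ • (DH V)^[n] f) =
      (n.factorial : ℂ)⁻¹ * evH x ((DH V)^[n] f) := by
    rw [RingHom.coe_coe, map_smul, smul_eq_mul]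
  rw [h2] at h1
  rcases mul_eq_zero.1 h1 with h3 | h3
  · exact absurd h3 (inv_ne_zero (by exact_mod_cast Nat.factorial_ne_zero n))
  · exact h3

theorem derivative_tyAt {V : Opens ℂ} (x : V) (f : Hol V) :
    d⁄dX ℂ (tyAt x f) = tyAt x (DH V f) := by
  ext n
  rw [coeff_derivative, tyAt, RingHom.comp_apply, RingHom.comp_apply, coeff_map, coeff_map,
    ← derivative_Ty, coeff_derivative, map_mul]
  congr 1

/-- **CONST** -/
theorem const_of {V : Opens ℂ} (hV : IsPreconnected (V : Set ℂ)) (a b : Hol V) (hb : b ≠ 0)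
    (h : DH V a * b = a * DH V b) : ∃ c : ℂ, a = c • b := by
  have hx : ∃ x : V, (b : V → ℂ) x ≠ 0 := by
    by_contra hcon
    push Not at hcon
    exact hb (Subtype.ext (funext hcon))
  obtain ⟨x, hx⟩ := hx
  have hcb : constantCoeff (tyAt x b) = (b : V → ℂ) x := by
    rw [tyAt, RingHom.comp_apply, ← coeff_zero_eq_constantCoeff_apply, coeff_map,
      coeff_zero_eq_constantCoeff_apply, constantCoeff_Ty]
    rfl
  have hbu : IsUnit (tyAt x b) := by
    rw [PowerSeries.isUnit_iff_constantCoeff, hcb]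
    exact hx.isUnit
  obtain ⟨v, hv⟩ := hbu.exists_right_inv
  set α := tyAt x a with hα
  set β := tyAt x b with hβ
  have h1 : d⁄dX ℂ α * β = α * d⁄dX ℂ β := by
    rw [hα, hβ, derivative_tyAt, derivative_tyAt, ← map_mul, h, map_mul]
  have h2 : d⁄dX ℂ (α * v) = 0 := by
    have e1 : d⁄dX ℂ (β * v) = 0 := by
      rw [hv]; exact Derivation.map_one_eq_zero _
    rw [Derivation.leibniz] at e1 ⊢
    simp only [smul_eq_mul] at e1 ⊢
    have e2 : (α * d⁄dX ℂ v + v * d⁄dX ℂ α) * β = 0 := by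
      calc (α * d⁄dX ℂ v + v * d⁄dX ℂ α) * β = α * (β * d⁄dX ℂ v) + v * (d⁄dX ℂ α * β) := by ring
        _ = α * (β * d⁄dX ℂ v + v * d⁄dX ℂ β) := by rw [h1]; ring
        _ = 0 := by rw [e1, mul_zero]
    exact (hbu.mul_left_eq_zero).1 e2
  have h3 : α * v = C (constantCoeff (α * v)) := by
    refine PowerSeries.derivative.ext ?_ ?_
    · rw [h2]
      simp
    · simp
  refine ⟨constantCoeff (α * v), tyAt_injective hV x ?_⟩
  have h4 : tyAt x (constantCoeff (α * v) • b) = C (constantCoeff (α * v)) * β := by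
    have : constantCoeff (α * v) • b = algebraMap ℂ (Hol V) (constantCoeff (α * v)) * b := by
      rw [Algebra.smul_def]
    rw [this, map_mul]
    congr 1
    rw [tyAt, RingHom.comp_apply, Ty_algebraMap, map_C]
    rfl
  rw [h4, ← h3, ← hα, mul_assoc, mul_comm v β, hv, mul_one]

end const

end Crest.Agent.R102.CT575
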