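import Crest.Agent.R102.EndI_929

/-!
Row 102, part (A) (helper262): `LeafDB`, bounds of the truncation and of its three derivatives.
-/

set_option autoImplicit false

open Set Filter Topology Metric Complex MeasureTheory
open scoped Real ContDiff

noncomputable section

namespace Crest.Agent.R102.A929

namespace DB262

lemma summable_inv_sq : Summable (fun k : ℤ => 1 / (1 + |(k : ℝ)|) ^ 2) := by
  have h : Summable (fun n : ℕ => 1 / (1 + (n : ℝ)) ^ 2) := by
    have h1 : Summable (fun n : ℕ => 1 / (n : ℝ) ^ 2) :=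
      Real.summable_one_div_nat_pow.2 (by norm_num)
    have h2 := (summable_nat_add_iff 1).2 h1
    refine h2.congr (fun n => ?_)
    push_cast
    ring
  refine Summable.of_nat_of_neg ?_ ?_
  · refine h.congr (fun n => ?_)
    simp
  · refine h.congr (fun n => ?_)
    simp

lemma log_half {n : ℕ} (hn : 64 ≤ n) : 4 / 5 * Real.log n ≤ Real.log (1 + (n : ℝ) / 2) := by
  have hn' : (64 : ℝ) ≤ n := by exact_mod_cast hn
  have hn0 : (0 : ℝ) < n := by linarith
  have h1 : Real.log ((n : ℝ) / 2) ≤ Real.log (1 + (n : ℝ) / 2) :=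
    Real.log_le_log (by positivity) (by linarith)
  have h2 : Real.log ((n : ℝ) / 2) = Real.log n - Real.log 2 :=
    Real.log_div hn0.ne' (by norm_num)
  have h3 : Real.log (64 : ℝ) ≤ Real.log n := Real.log_le_log (by norm_num) hn'
  have h4 : Real.log (64 : ℝ) = 6 * Real.log 2 := by
    have : (64 : ℝ) = 2 ^ 6 := by norm_num
    rw [this, Real.log_pow]; norm_num
  have h5 : 0 < Real.log 2 := Real.log_pos (by norm_num)
  linarith

lemma key_log {n : ℕ} (hn : 64 ≤ n) {k : ℝ} (hk0 : 0 ≤ k) (hk : k ≤ n / 2) :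
    16 * (k / n) * Real.log n ≤ 10 * Real.log (1 + k) := by
  have hn' : (64 : ℝ) ≤ n := by exact_mod_cast hn
  have hn0 : (0 : ℝ) < n := by linarith
  set s : ℝ := 2 * k / n with hs
  have hs0 : 0 ≤ s := by positivity
  have hs1 : s ≤ 1 := by
    rw [hs, div_le_one hn0]; linarith
  have hx : (1 : ℝ) ∈ Ioi (0 : ℝ) := by norm_num
  have hy : 1 + (n : ℝ) / 2 ∈ Ioi (0 : ℝ) := by rw [mem_Ioi]; positivity
  have hc := (strictConcaveOn_log_Ioi.concaveOn).2 hx hy (show (0 : ℝ) ≤ 1 - s by linarith) hs0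
    (by ring)
  simp only [smul_eq_mul, Real.log_one, mul_zero, zero_add, mul_one] at hc
  have e1 : 1 - s + s * (1 + (n : ℝ) / 2) = 1 + k := by
    rw [hs]; field_simp; ring
  rw [e1] at hc
  have h2 := mul_le_mul_of_nonneg_left (log_half hn) hs0
  have e2 : 16 * (k / n) * Real.log n = 10 * (s * (4 / 5 * Real.log n)) := by
    rw [hs]; ring
  rw [e2]
  linarith

/-- the exponent -/
lemma norm_ee_le {α : ℝ} {N n : ℕ} (hn : 64 ≤ n) (hα : 0 ≤ α) {z : ℂ}
    (hz : z ∈ St (etan α N n + 2 / n)) {k : ℤ} (hk : |k| ≤ ((n / 2 : ℕ) : ℤ)) :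
    ‖ee (k * z)‖ ≤ om α N k * (1 + |(k : ℝ)|) ^ 10 * Real.exp (2 * π) := by
  have hn' : (64 : ℝ) ≤ n := by exact_mod_cast hn
  have hn0 : (0 : ℝ) < n := by linarith
  have hπ := Real.pi_pos
  set κ : ℝ := |(k : ℝ)| with hκ
  have hκ0 : 0 ≤ κ := abs_nonneg _
  have hκn : κ ≤ n / 2 := by
    have h1 : ((|k| : ℤ) : ℝ) ≤ (((n / 2 : ℕ) : ℤ) : ℝ) := by exact_mod_cast hk
    rw [Int.cast_abs] at h1
    have h2 : (((n / 2 : ℕ) : ℤ) : ℝ) ≤ (n : ℝ) / 2 := by
      have := @Nat.cast_div_le ℝ _ _ _ n 2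
      push_cast at this ⊢
      exact this
    exact h1.trans h2
  have hzim : |z.im| ≤ etan α N n + 2 / n := hz
  have h1 : -(2 * π * ((k : ℂ) * z).im) ≤ 2 * π * κ * (etan α N n + 2 / n) := by
    have e1 : ((k : ℂ) * z).im = (k : ℝ) * z.im := by simp
    rw [e1]
    have e2 : -((k : ℝ) * z.im) ≤ κ * |z.im| := by
      rw [hκ, ← abs_mul]; exact neg_le_abs _
    have e3 : κ * |z.im| ≤ κ * (etan α N n + 2 / n) := mul_le_mul_of_nonneg_left hzim hκ0
    nlinarith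
  have h2 : 2 * π * κ * (etan α N n + 2 / n) =
      α * (κ / n * min (n : ℝ) N) + 16 * (κ / n) * Real.log n + 4 * π * (κ / n) := by
    unfold etan
    field_simp
    ring
  have h3 : κ / n * min (n : ℝ) N ≤ min κ N := by
    refine le_min ?_ ?_
    · calc κ / n * min (n : ℝ) N ≤ κ / n * n :=
            mul_le_mul_of_nonneg_left (min_le_left _ _) (by positivity)
        _ = κ := by field_simp
    · have h4 : κ / n ≤ 1 := by
        rw [div_le_one hn0]; linarith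
      calc κ / n * min (n : ℝ) N ≤ κ / n * N :=
            mul_le_mul_of_nonneg_left (min_le_right _ _) (by positivity)
        _ ≤ 1 * N := mul_le_mul_of_nonneg_right h4 (Nat.cast_nonneg N)
        _ = N := one_mul _
  have h4 := mul_le_mul_of_nonneg_left h3 hα
  have h5 := key_log hn hκ0 hκn
  have h6 : 4 * π * (κ / n) ≤ 2 * π := by
    have : κ / n ≤ 1 / 2 := by
      rw [div_le_iff₀ hn0]; linarith
    nlinarith
  have h7 : (1 + κ) ^ 10 = Real.exp (10 * Real.log (1 + κ)) := by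
    rw [mul_comm, Real.exp_mul, Real.exp_log (by positivity)]
    norm_cast
  rw [norm_ee, h7]
  unfold om
  rw [← Real.exp_add, ← Real.exp_add]
  refine Real.exp_le_exp.2 ?_
  rw [h2] at h1
  linarith

/-- the constant -/
def S0 : ℝ := ∑' k : ℤ, 1 / (1 + |(k : ℝ)|) ^ 2

lemma S0_nonneg : 0 ≤ S0 := tsum_nonneg (fun _ => by positivity)

lemma bound {G α : ℝ} {N n : ℕ} {a b : ℤ → ℂ} (hn : 64 ≤ n) (hα : 0 ≤ α) (ha : WB α N G a)
    (hb : ∀ k, ‖b k‖ ≤ (2 * π * (1 + |(k : ℝ)|)) ^ 3 * ‖a k‖) {z : ℂ}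
    (hz : z ∈ St (etan α N n + 2 / n)) :
    ‖qTr b n z‖ ≤ (2 * π) ^ 3 * Real.exp (2 * π) * G * S0 := by
  have hG : 0 ≤ G := by
    have := ha 0
    refine le_trans ?_ this
    unfold om
    positivity
  unfold qTr
  refine (norm_sum_le _ _).trans ?_
  have h1 : ∀ k ∈ Finset.Icc (-((n / 2 : ℕ) : ℤ)) ((n / 2 : ℕ) : ℤ), ‖b k * ee (k * z)‖ ≤
      (2 * π) ^ 3 * Real.exp (2 * π) * G * (1 / (1 + |(k : ℝ)|) ^ 2) := by
    intro k hk
    rw [Finset.mem_Icc] at hk
    have hk' : |k| ≤ ((n / 2 : ℕ) : ℤ) := abs_le.2 hk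
    rw [norm_mul]
    have e1 := norm_ee_le hn hα hz hk'
    have e2 := ha k
    set κ : ℝ := |(k : ℝ)| with hκ
    have hκ0 : 0 ≤ κ := abs_nonneg _
    have ho : 0 < om α N k := Real.exp_pos _
    have hE := Real.exp_pos (2 * π)
    calc ‖b k‖ * ‖ee (k * z)‖ ≤ ((2 * π * (1 + κ)) ^ 3 * ‖a k‖) *
          (om α N k * (1 + κ) ^ 10 * Real.exp (2 * π)) :=
          mul_le_mul (hb k) e1 (norm_nonneg _) (by positivity)
      _ = (2 * π) ^ 3 * Real.exp (2 * π) * (om α N k * (1 + κ) ^ 15 * ‖a k‖) *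
          (1 / (1 + κ) ^ 2) := by field_simp
      _ ≤ (2 * π) ^ 3 * Real.exp (2 * π) * G * (1 / (1 + κ) ^ 2) := by
          refine mul_le_mul_of_nonneg_right ?_ (by positivity)
          exact mul_le_mul_of_nonneg_left e2 (by positivity)
  refine (Finset.sum_le_sum h1).trans ?_
  rw [← Finset.mul_sum]
  refine mul_le_mul_of_nonneg_left ?_ (by positivity)
  exact summable_inv_sq.sum_le_tsum _ (fun k _ => by positivity)

/-- derivative of the truncation -/
lemma hasDerivAt_qTr (a : ℤ → ℂ) (n : ℕ) (z : ℂ) :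
    HasDerivAt (qTr a n) (qTr (fun k => 2 * π * I * k * a k) n z) z := by
  unfold qTr
  have h : ∀ k ∈ Finset.Icc (-((n / 2 : ℕ) : ℤ)) ((n / 2 : ℕ) : ℤ),
      HasDerivAt (fun z : ℂ => a k * ee (k * z)) (2 * π * I * k * a k * ee (k * z)) z := by
    intro k _
    have h1 : HasDerivAt (fun z : ℂ => (k : ℂ) * z) (k : ℂ) z := by
      have := (hasDerivAt_id z).const_mul (k : ℂ)
      simpa using this
    have h2 := HasDerivAt.comp z (hasDerivAt_ee ((k : ℂ) * z)) h1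
    have h3 := h2.const_mul (a k)
    refine h3.congr_deriv ?_
    ring
  have h4 := HasDerivAt.fun_sum h
  exact h4

lemma deriv_qTr (a : ℤ → ℂ) (n : ℕ) :
    deriv (qTr a n) = qTr (fun k => 2 * π * I * k * a k) n :=
  funext (fun z => (hasDerivAt_qTr a n z).deriv)

lemma norm_two_pi_I_k (k : ℤ) (w : ℂ) : ‖(2 * π * I * (k : ℂ) * w)‖ = 2 * π * |(k : ℝ)| * ‖w‖ := by
  rw [norm_mul, norm_mul, norm_mul, norm_mul, Complex.norm_I, Complex.norm_intCast,
    Complex.norm_real, Real.norm_of_nonneg Real.pi_pos.le]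
  norm_num

end DB262

open DB262 in
theorem leafDB : LeafDB := by
  intro G
  refine ⟨max 1 ((2 * π) ^ 3 * Real.exp (2 * π) * G * S0), le_max_left _ _, ?_⟩
  intro α N n a hn hα _ ha z hz
  have hπ := Real.pi_pos
  have hπ3 := Real.pi_gt_three
  have hk1 : ∀ k : ℤ, 1 ≤ 2 * π * (1 + |(k : ℝ)|) := fun k => by
    have := abs_nonneg (k : ℝ)
    nlinarith
  have hkk : ∀ k : ℤ, 2 * π * |(k : ℝ)| ≤ 2 * π * (1 + |(k : ℝ)|) := fun k => by
    nlinarith
  refine ⟨?_, ?_, ?_, ?_⟩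
  · refine (bound hn hα ha (b := a) (fun k => ?_) hz).trans (le_max_right _ _)
    have h1 : (1 : ℝ) ≤ (2 * π * (1 + |(k : ℝ)|)) ^ 3 := one_le_pow₀ (hk1 k)
    nlinarith [norm_nonneg (a k)]
  · rw [deriv_qTr]
    refine (bound hn hα ha (fun k => ?_) hz).trans (le_max_right _ _)
    rw [norm_two_pi_I_k]
    refine mul_le_mul_of_nonneg_right ?_ (norm_nonneg _)
    calc 2 * π * |(k : ℝ)| ≤ 2 * π * (1 + |(k : ℝ)|) := hkk k
      _ = (2 * π * (1 + |(k : ℝ)|)) ^ 1 := (pow_one _).symm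
      _ ≤ _ := pow_le_pow_right₀ (hk1 k) (by norm_num)
  · rw [deriv_qTr, deriv_qTr]
    refine (bound hn hα ha (fun k => ?_) hz).trans (le_max_right _ _)
    rw [norm_two_pi_I_k, norm_two_pi_I_k, ← mul_assoc]
    refine mul_le_mul_of_nonneg_right ?_ (norm_nonneg _)
    have h0 : 0 ≤ 2 * π * |(k : ℝ)| := by positivity
    calc 2 * π * |(k : ℝ)| * (2 * π * |(k : ℝ)|) = (2 * π * |(k : ℝ)|) ^ 2 := by ring
      _ ≤ (2 * π * (1 + |(k : ℝ)|)) ^ 2 := pow_le_pow_left₀ h0 (hkk k) 2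
      _ ≤ _ := pow_le_pow_right₀ (hk1 k) (by norm_num)
  · rw [deriv_qTr, deriv_qTr, deriv_qTr]
    refine (bound hn hα ha (fun k => ?_) hz).trans (le_max_right _ _)
    rw [norm_two_pi_I_k, norm_two_pi_I_k, norm_two_pi_I_k, ← mul_assoc, ← mul_assoc]
    refine mul_le_mul_of_nonneg_right ?_ (norm_nonneg _)
    have h0 : 0 ≤ 2 * π * |(k : ℝ)| := by positivity
    calc 2 * π * |(k : ℝ)| * (2 * π * |(k : ℝ)|) * (2 * π * |(k : ℝ)|) =
          (2 * π * |(k : ℝ)|) ^ 3 := by ring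
      _ ≤ (2 * π * (1 + |(k : ℝ)|)) ^ 3 := pow_le_pow_left₀ h0 (hkk k) 3

end Crest.Agent.R102.A929
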