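import Crest.Agent.R102.Fix2A_929

/-!
Row 102, part (A) (helper929): LEAF FIX.
-/

set_option autoImplicit false

open Set Filter Topology Metric Complex MeasureTheory
open scoped Real ContDiff ComplexConjugate

noncomputable section

namespace Crest.Agent.R102.A929

section

variable {q : C(ℂ, ℂ)} {q1 q2 : ℂ → ℂ} {ρ C B η r : ℝ} {n : ℕ} {c c' : Fin (n / 2) → ℂ} {z : ℂ}

lemma mv_conj (n k : ℕ) : mv n k = conj (mv n k) := by
  unfold mv
  rw [Complex.conj_ofReal]

lemma vv_im (x : ℝ) : (vv η n c x).im = 0 := Tg_real (mv_conj n) x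

lemma vv_re (x : ℝ) : vv η n c x = ((vv η n c x).re : ℂ) := by
  apply Complex.ext
  · simp
  · simp [vv_im]

lemma vv_re_p (x : ℝ) : vv η n c (x + 1 / n) = ((vv η n c ((x + 1 / n : ℝ) : ℂ)).re : ℂ) := by
  rw [← vv_re]; push_cast; rfl

lemma vv_re_m (x : ℝ) : vv η n c (x - 1 / n) = ((vv η n c ((x - 1 / n : ℝ) : ℂ)).re : ℂ) := by
  rw [← vv_re]; push_cast; rfl

lemma EV_real (hq : ∀ x : ℝ, (q x).im = 0) (x : ℝ) : EV q η n c x = ((EV q η n c x).re : ℂ) := by
  have h1 : EV q η n c x = EP q ((x - 1 / n + (vv η n c ((x - 1 / n : ℝ) : ℂ)).re : ℝ) : ℂ)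
      ((x + (vv η n c x).re : ℝ) : ℂ)
      ((x + 1 / n + (vv η n c ((x + 1 / n : ℝ) : ℂ)).re : ℝ) : ℂ) := by
    unfold EV
    rw [vv_re_m, vv_re_p, vv_re x]
    push_cast
    rfl
  rw [EP_eq_EPr hq] at h1
  rw [h1, Complex.ofReal_re]

/-- the orthogonality relations for positive modes -/
lemma Ctx.orth_pos (h : Ctx q q1 q2 ρ C B η r n) (hq : Differentiable ℂ q) (hc : ‖c‖ ≤ r)
    (hfix : Phi q η n c = c) (j : Fin (n / 2)) :
    ∫ x in (0 : ℝ)..1, EV q η n c x * ee (-((((j : ℕ) + 1 : ℕ) : ℂ) * x)) = 0 := by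
  have hn : (n : ℂ) ≠ 0 := by exact_mod_cast h.hn.ne'
  have h1 := congrFun hfix j
  have hE := continuous_real_of_diffOn h.η0 (h.diffEV hq hc)
  have hy : Continuous (fun x : ℝ => yy η n c x) :=
    differentiable_yy.continuous.comp Complex.continuous_ofReal
  have h2 : ∫ x in (0 : ℝ)..1, fv q η n c x * ee (-((((j : ℕ) + 1 : ℕ) : ℂ) * x)) =
      (∫ x in (0 : ℝ)..1, yy η n c x * ee (-((((j : ℕ) + 1 : ℕ) : ℂ) * x))) +
      4 * n * ∫ x in (0 : ℝ)..1, EV q η n c x * ee (-((((j : ℕ) + 1 : ℕ) : ℂ) * x)) := by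
    rw [← intervalIntegral.integral_const_mul, ← intervalIntegral.integral_add]
    · refine intervalIntegral.integral_congr (fun x _ => ?_)
      simp only [fv]
      ring
    · exact (hy.mul (continuous_eem _)).intervalIntegrable _ _
    · exact ((hE.mul (continuous_eem _)).const_mul _).intervalIntegrable _ _
  have h3 : ∫ x in (0 : ℝ)..1, yy η n c x * ee (-((((j : ℕ) + 1 : ℕ) : ℂ) * x)) =
      (Real.exp (-(2 * π * η * ((j : ℕ) + 1 : ℕ))) : ℂ) * (1 * c j) :=
    coeff_Tg (α := fun _ => 1) (β := fun _ => 1) j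
  unfold Phi at h1
  rw [h2, h3, mul_add, one_mul, ← mul_assoc, ← Complex.ofReal_mul, ← Real.exp_add,
    add_neg_cancel, Real.exp_zero, Complex.ofReal_one, one_mul] at h1
  have h4 : (Real.exp (2 * π * η * ((j : ℕ) + 1 : ℕ)) : ℂ) *
      (4 * n * ∫ x in (0 : ℝ)..1, EV q η n c x * ee (-((((j : ℕ) + 1 : ℕ) : ℂ) * x))) = 0 := by
    linear_combination h1
  have h5 : (Real.exp (2 * π * η * ((j : ℕ) + 1 : ℕ)) : ℂ) ≠ 0 := by
    exact_mod_cast (Real.exp_pos _).ne'
  rcases mul_eq_zero.1 h4 with h6 | h6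
  · exact absurd h6 h5
  · rcases mul_eq_zero.1 h6 with h7 | h7
    · exact absurd h7 (mul_ne_zero (by norm_num) hn)
    · exact h7

lemma deriv_vv_sum (_x : ℝ) : ∃ c' d' : ℕ → ℂ, ∀ x : ℝ, deriv (vv η n c) x =
    ∑ k ∈ Finset.Icc 1 (n / 2), (c' k * ee (k * x) + d' k * ee (-(k * x))) := by
  classical
  set cc : ℕ → ℂ := fun m => if hm : m < n / 2 then c ⟨m, hm⟩ else 0 with hcc
  refine ⟨fun k => (Real.exp (-(2 * π * η * (k : ℕ))) : ℂ) * (mv n k * (2 * π * I * k)) * cc (k - 1),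
    fun k => (Real.exp (-(2 * π * η * (k : ℕ))) : ℂ) * (mv n k * (-(2 * π * I * k))) *
      conj (cc (k - 1)), fun x => ?_⟩
  have e : vv η n c = Tg η (n / 2) (mv n) (mv n) c := rfl
  rw [e, deriv_Tg]
  unfold Tg
  have h1 : Finset.Icc 1 (n / 2) = Finset.Ico (0 + 1) (n / 2 + 1) := by
    ext m; simp
  rw [h1, ← Finset.sum_Ico_add' (fun k : ℕ => ((Real.exp (-(2 * π * η * (k : ℕ))) : ℂ) *
    (mv n k * (2 * π * I * k)) * cc (k - 1) * ee (k * x) +
    (Real.exp (-(2 * π * η * (k : ℕ))) : ℂ) * (mv n k * (-(2 * π * I * k))) *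
      conj (cc (k - 1)) * ee (-(k * x)))) 0 (n / 2) 1, ← Finset.range_eq_Ico, Finset.sum_range]
  refine Finset.sum_congr rfl (fun k _ => ?_)
  have hk : cc ((k : ℕ) + 1 - 1) = c k := by
    rw [hcc]
    simp only [Nat.add_sub_cancel]
    rw [dif_pos k.2]
  rw [hk]
  push_cast
  ring

/-- the orthogonality relations -/
lemma Ctx.orth (h : Ctx q q1 q2 ρ C B η r n) (hq : Differentiable ℂ q)
    (hqp : ∀ z, q (z + 1) = q z) (hqr : ∀ x : ℝ, (q x).im = 0) {M : ℝ → ℝ → ℝ}
    (hM : IsAct q (2 / n) M) (hr' : (n : ℝ) * √n * r < 1 / n) (hc : ‖c‖ ≤ r)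
    (hfix : Phi q η n c = c) (k : ℤ) (hk : 2 * |k| ≤ n) :
    ∫ x in (0 : ℝ)..1, EV q η n c x * ee (-(k * x)) = 0 := by
  have hn : (0 : ℝ) < n := by exact_mod_cast h.hn
  have hE := continuous_real_of_diffOn h.η0 (h.diffEV hq hc)
  set g : ℝ → ℝ := fun x => (EV q η n c x).re with hg
  have hgc : Continuous g := Complex.continuous_re.comp hE
  have hEg : ∀ x : ℝ, EV q η n c x = (g x : ℂ) := fun x => EV_real hqr x
  have hpos : ∀ k : ℤ, 1 ≤ k → k ≤ (n / 2 : ℕ) →
      ∫ x in (0 : ℝ)..1, (g x : ℂ) * ee (-(k * x)) = 0 := by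
    intro k hk1 hk2
    have hk3 : (k - 1).toNat < n / 2 := by omega
    have := h.orth_pos hq hc hfix ⟨(k - 1).toNat, hk3⟩
    have e1 : ((((k - 1).toNat + 1 : ℕ) : ℤ)) = k := by omega
    have e2 : ((((k - 1).toNat + 1 : ℕ) : ℂ)) = (k : ℂ) := by
      rw [← Int.cast_natCast, e1]
    simp only [e2] at this
    rw [← this]
    refine intervalIntegral.integral_congr (fun x _ => ?_)
    simp only [← hEg]
  by_cases hk0 : k = 0
  · subst hk0
    obtain ⟨c', d', hcd⟩ := deriv_vv_sum (η := η) (n := n) (c := c) 0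
    have hmean := mean_EP_complex h.hL (fun x => hqp x) hM (v := vv η n c) differentiable_vv
      (fun z => vv_add_one) vv_im n (fun x => ?_) (fun x => ?_) (fun x => ?_) (fun x => ?_)
    · have h0 := mean_zero hgc hpos (c := c') (d := d') (u := fun x => deriv (vv η n c) x) hcd (by
        rw [← hmean]
        refine intervalIntegral.integral_congr (fun x _ => ?_)
        rw [← hEg]
        rfl)
      rw [← h0]
      refine intervalIntegral.integral_congr (fun x _ => ?_)
      rw [← hEg, Int.cast_zero, zero_mul, neg_zero, ee_zero, mul_one]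
    · have h1 := norm_dvv_le (c := c) h.hn (real_mem_St h.η0 x)
      have h2 : ‖vv η n c (x + 1 / n) - vv η n c x‖ < 1 / n := by
        refine lt_of_le_of_lt (h1.trans ?_) hr'
        exact mul_le_mul_of_nonneg_left hc (by positivity)
      have h3 := (Complex.abs_re_le_norm (vv η n c (x + 1 / n) - vv η n c x)).trans_lt h2
      rw [Complex.sub_re, abs_lt] at h3
      have e : 2 / (n : ℝ) = 1 / n + 1 / n := by ring
      rw [e]
      constructor <;> linarith [h3.1, h3.2]
    · exact h.Xp hc (real_mem_St h.η0 x)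
    · exact h.Xm hc (real_mem_St h.η0 x)
    · have := hEg x
      have h1 : (EV q η n c x).im = 0 := by rw [this, Complex.ofReal_im]
      exact h1
  · have h1 := coeff_neg hpos k hk0 (by omega)
    rw [← h1]
    refine intervalIntegral.integral_congr (fun x _ => ?_)
    simp only [← hEg]

end

set_option maxHeartbeats 2000000 in
/-- **LEAF FIX** -/
theorem leafFIX : LeafFIX := by
  intro ρ C hL B hB
  have hρ := hL.ρ_pos
  have hCP0 := CP0_nonneg hL hB
  have hCX := CX_ge hB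
  have hCP : 0 ≤ CP C B := by
    have := hL.C_ge
    unfold CP
    positivity
  set R : ℝ := 8 * CP0 ρ C B + 1 with hR
  have hR0 : 1 ≤ R := by rw [hR]; linarith
  obtain ⟨n₁, hn₁⟩ := exists_nat_gt (R + 2 + 2 * CX B / ρ + (4 * R + 384 * CP C B) ^ 2)
  refine ⟨2 * R, n₁, by linarith, ?_⟩
  intro n q q1 q2 η M hn hη hq hqp hqr hS hM
  have hnn : (n₁ : ℝ) ≤ n := by exact_mod_cast hn
  have hx1 : 0 ≤ 2 * CX B / ρ := by positivity
  have hx2 : 0 ≤ (4 * R + 384 * CP C B) ^ 2 := by positivity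
  have hn0 : (0 : ℝ) < n := by linarith
  have hn1 : (1 : ℝ) ≤ n := by linarith
  have hn0' : 0 < n := by exact_mod_cast hn0
  have hRn : R < n := by linarith
  have hn2 : (2 : ℝ) < n := by linarith
  have hnρ : 2 * CX B / ρ < n := by linarith
  have hnL : (4 * R + 384 * CP C B) ^ 2 < n := by linarith
  set w : ℝ := √(n : ℝ) with hw
  have hw0 : 0 ≤ w := Real.sqrt_nonneg _
  have hw2 : w ^ 2 = n := Real.sq_sqrt hn0.le
  have hw1 : 1 ≤ w := by rw [hw, Real.one_le_sqrt]; exact hn1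
  have hwn : w ≤ n := by nlinarith
  have hwL : 4 * R + 384 * CP C B < w := by
    rw [hw]
    exact Real.lt_sqrt_of_sq_lt hnL
  set r : ℝ := R / (n : ℝ) ^ 4 with hr
  have hr0 : 0 < r := by positivity
  have e1 : (n : ℝ) ^ 2 * r = R / n ^ 2 := by rw [hr]; field_simp
  have e2 : (n : ℝ) * w * r = R * w / n ^ 3 := by rw [hr]; field_simp
  have hr2 : (n : ℝ) * w * r < 1 / n := by
    rw [e2, div_lt_div_iff₀ (by positivity) hn0]
    have : R * w * n < n * n * n := by
      have h1 : R * w ≤ R * n := mul_le_mul_of_nonneg_left hwn (by linarith)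
      have h2 : R * n < n * n := mul_lt_mul_of_pos_right hRn hn0
      exact mul_lt_mul_of_pos_right (h1.trans_lt h2) hn0
    nlinarith
  have hctx : Ctx2 q q1 q2 ρ C B η r n :=
    { hL := hL
      hS := hS
      hn := hn0'
      η0 := hη
      r1 := by
        rw [e1, div_le_div_iff₀ (by positivity) hn0]
        nlinarith
      r2 := hr2.le
      n2 := by rw [div_le_one hn0]; exact hn2.le
      nρ := by
        rw [div_lt_iff₀ hρ] at hnρ
        rw [← mul_div_assoc, div_lt_iff₀ hn0]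
        linarith
      hr := hr0
      hr0 := by
        rw [hr]
        gcongr
        rw [hR]; linarith
      hL2 := by
        have e3 : 2 * ((n : ℝ) ^ 3 * w * r) + 192 * CP C B * (w / n) =
            (4 * R + 384 * CP C B) / 2 * (w / n) := by
          rw [hr]; field_simp; ring
        rw [← hw, e3]
        have e4 : w / n = 1 / w := by rw [← hw2]; field_simp
        rw [e4, mul_one_div, div_le_iff₀ (by linarith)]
        linarith }
  obtain ⟨c, hc, hfix⟩ := hctx.exists_fixed hq hqp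
  refine ⟨vv η n c, differentiable_vv, fun z => vv_add_one, vv_im, fun z hz => ?_, fun z hz => ?_,
    fun z hz => ?_, fun z hz => ?_, fun k hk => ?_⟩
  · refine (norm_vv_le hz).trans ?_
    calc (n : ℝ) ^ 2 * ‖c‖ ≤ (n : ℝ) ^ 2 * r := mul_le_mul_of_nonneg_left hc (by positivity)
      _ = R / n ^ 2 := e1
      _ ≤ 2 * R / n ^ 2 := by gcongr; linarith
  · refine (norm_dvv_le hn0' hz).trans ?_
    have e5 : (n : ℝ) ^ (5 / 2 : ℝ) = n ^ 2 * w := by
      rw [hw, Real.sqrt_eq_rpow]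
      rw [show (5 / 2 : ℝ) = 2 + 1 / 2 by norm_num, Real.rpow_add hn0, Real.rpow_two]
    rw [e5]
    calc (n : ℝ) * √n * ‖c‖ ≤ (n : ℝ) * w * r := mul_le_mul_of_nonneg_left hc (by positivity)
      _ = R * w / n ^ 3 := e2
      _ = R / (n ^ 2 * w) := by
        rw [div_eq_div_iff (by positivity) (by positivity)]
        have : (n : ℝ) ^ 3 = n ^ 2 * w ^ 2 := by rw [hw2]; ring
        rw [this]; ring
      _ ≤ 2 * R / (n ^ 2 * w) := by gcongr; linarith
  · refine (norm_deriv_vv_le hz).trans ?_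
    calc 2 * ((n : ℝ) ^ 2 * √n) * ‖c‖ ≤ 2 * ((n : ℝ) ^ 2 * w) * r :=
          mul_le_mul_of_nonneg_left hc (by positivity)
      _ = 2 * R * w / n ^ 2 := by rw [hr]; field_simp
      _ ≤ 2 * R * n / n ^ 2 := by gcongr
      _ = 2 * R / n := by field_simp
  · have h1 := hctx.norm_fv hc hz
    have h2 := norm_yy_le (c := c) hz
    have h3 : ‖yy η n c z‖ ≤ n * r := h2.trans (mul_le_mul_of_nonneg_left hc hn0.le)
    have h4 : 4 * (n : ℂ) * EV q η n c z = fv q η n c z - yy η n c z := by unfold fv; ring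
    have h5 : 4 * (n : ℝ) * ‖EV q η n c z‖ ≤ r + n * r := by
      have := norm_sub_le (fv q η n c z) (yy η n c z)
      rw [← h4, norm_mul, norm_mul, Complex.norm_natCast] at this
      norm_num at this
      linarith
    have h6 : ‖EV q η n c z‖ ≤ 2 * R / n ^ 4 := by
      have h7 : 2 * R / (n : ℝ) ^ 4 = 2 * r := by rw [hr]; ring
      rw [h7]
      have h8 : r ≤ n * r := by
        have := mul_le_mul_of_nonneg_right hn1 hr0.le
        linarith
      have h9 : 4 * (n : ℝ) * ‖EV q η n c z‖ ≤ 4 * n * (2 * r) := by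
        have e6 : 4 * (n : ℝ) * (2 * r) = 8 * (n * r) := by ring
        rw [e6]
        have h10 : 0 ≤ n * r := by positivity
        linarith
      have h11 : (0 : ℝ) < 4 * n := by linarith
      exact le_of_mul_le_mul_left h9 h11
    exact h6
  · exact hctx.toCtx.orth hq hqp hqr hM hr2 hc hfix k hk

end Crest.Agent.R102.A929
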