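import Crest.Agent.R102.IfaceA_929

/-!
Row 102, part (A), leaf (GEO) (helper576): for a real continuous `q` the curve
`G' = exp(-2q + iΘ)`, `Θ' = exp q`, has `M(x, y) = arc - chord` with
`M_x = -P(x, y - x)`, `M_y = P(y, -(y - x))`, `P = Pq q`.
-/

set_option autoImplicit false

open Set Filter Topology Metric Complex MeasureTheory
open scoped Real ContDiff

noncomputable section

namespace Crest.Agent.R102.G576

open Crest.Agent.R102.A929

lemma Lam_eq {f : AA} {g : ℝ → ℂ} (h : ∀ r : unitInterval, f r = g r) :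
    Lam f = ∫ a in (0 : ℝ)..1, g a := by
  rw [Lam_apply]
  refine intervalIntegral.integral_congr (fun a ha => ?_)
  rw [uIcc_of_le zero_le_one] at ha
  unfold A929.ext
  rw [Set.IccExtend_of_mem _ _ ha]
  exact h ⟨a, ha⟩

lemma J_eq {f : AA} {g : ℝ → ℂ} (h : ∀ r : unitInterval, f r = g r) (r : unitInterval) :
    J f r = ∫ a in (0 : ℝ)..r, g a := by
  rw [J_apply]
  refine intervalIntegral.integral_congr (fun a ha => ?_)
  rw [uIcc_of_le r.2.1] at ha
  have ha' : a ∈ Icc (0 : ℝ) 1 := ⟨ha.1, ha.2.trans r.2.2⟩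
  change A929.ext f a = g a
  unfold A929.ext
  rw [Set.IccExtend_of_mem _ _ ha']
  exact h ⟨a, ha'⟩

/-- real restriction of `q` -/
def qr (q : C(ℂ, ℂ)) (x : ℝ) : ℝ := (q (x : ℂ)).re

lemma continuous_qr (q : C(ℂ, ℂ)) : Continuous (qr q) := by unfold qr; fun_prop

/-- tangent angle -/
def Th (q : C(ℂ, ℂ)) (x : ℝ) : ℝ := ∫ t in (0 : ℝ)..x, Real.exp (qr q t)

/-- arclength -/
def Ar (q : C(ℂ, ℂ)) (x : ℝ) : ℝ := ∫ t in (0 : ℝ)..x, Real.exp (-2 * qr q t)

/-- the velocity -/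
def Gd (q : C(ℂ, ℂ)) (x : ℝ) : ℂ := Complex.exp (((-2 * qr q x : ℝ) : ℂ) + I * ((Th q x : ℝ) : ℂ))

/-- the curve -/
def Gc (q : C(ℂ, ℂ)) (x : ℝ) : ℂ := ∫ t in (0 : ℝ)..x, Gd q t

/-- arc minus chord -/
def Mf (q : C(ℂ, ℂ)) (x y : ℝ) : ℝ := Ar q y - Ar q x - ‖Gc q y - Gc q x‖

variable {q : C(ℂ, ℂ)}

lemma hasDerivAt_Th (x : ℝ) : HasDerivAt (Th q) (Real.exp (qr q x)) x := by
  have hc : Continuous (fun t => Real.exp (qr q t)) := Real.continuous_exp.comp (continuous_qr q)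
  exact intervalIntegral.integral_hasDerivAt_right (hc.intervalIntegrable _ _)
    (hc.stronglyMeasurableAtFilter _ _) hc.continuousAt

lemma hasDerivAt_Ar (x : ℝ) : HasDerivAt (Ar q) (Real.exp (-2 * qr q x)) x := by
  have hc : Continuous (fun t => Real.exp (-2 * qr q t)) :=
    Real.continuous_exp.comp (continuous_const.mul (continuous_qr q))
  exact intervalIntegral.integral_hasDerivAt_right (hc.intervalIntegrable _ _)
    (hc.stronglyMeasurableAtFilter _ _) hc.continuousAt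

lemma continuous_Th : Continuous (Th q) :=
  continuous_iff_continuousAt.2 (fun x => (hasDerivAt_Th x).continuousAt)

lemma continuous_Gd : Continuous (Gd q) := by
  unfold Gd
  have h1 := continuous_qr q
  have h2 : Continuous (Th q) := continuous_Th
  fun_prop

lemma hasDerivAt_Gc (x : ℝ) : HasDerivAt (Gc q) (Gd q x) x := by
  have hc : Continuous (Gd q) := continuous_Gd
  exact intervalIntegral.integral_hasDerivAt_right (hc.intervalIntegrable _ _)
    (hc.stronglyMeasurableAtFilter _ _) hc.continuousAt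

/-- data along the segment from `x` to `x + e` -/
lemma q_seg (hre : ∀ x : ℝ, (q (x : ℂ)).im = 0) (x e r : ℝ) :
    q ((x : ℂ) + (e : ℂ) * (r : ℂ)) = ((qr q (x + e * r) : ℝ) : ℂ) := by
  have h : (x : ℂ) + (e : ℂ) * (r : ℂ) = ((x + e * r : ℝ) : ℂ) := by push_cast; ring
  rw [h]
  apply Complex.ext
  · simp [qr]
  · rw [hre]; simp

lemma q_pt (hre : ∀ x : ℝ, (q (x : ℂ)).im = 0) (x : ℝ) : q (x : ℂ) = ((qr q x : ℝ) : ℂ) := by
  apply Complex.ext
  · simp [qr]
  · rw [hre]; simp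

section seg

variable (hre : ∀ x : ℝ, (q (x : ℂ)).im = 0) (x e : ℝ)
include hre

lemma expd_apply (r : unitInterval) : (NormedSpace.exp (dq q x e) : AA) r =
    ((Real.exp (qr q (x + e * r) - qr q x) : ℝ) : ℂ) := by
  rw [exp_apply, dq_apply, q_seg hre, q_pt hre]
  push_cast
  rfl

omit hre in
lemma hasDerivAt_Th_seg (a : ℝ) :
    HasDerivAt (fun a => Th q (x + e * a)) (Real.exp (qr q (x + e * a)) * e) a := by
  have h1 : HasDerivAt (fun a : ℝ => x + e * a) e a := by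
    simpa using ((hasDerivAt_id a).const_mul e).const_add x
  exact (hasDerivAt_Th (q := q) (x + e * a)).comp a h1

/-- `z E(r) = Θ(x + e r) - Θ(x)` -/
lemma zE (r : unitInterval) : ((Xq q x e).2 • Ef (Xq q x e).1) r =
    ((Th q (x + e * r) - Th q x : ℝ) : ℂ) := by
  change ((e : ℂ) * Complex.exp (q x)) * (Ef (dq q x e)) r = _
  unfold Ef
  rw [J_eq (g := fun a => ((Real.exp (qr q (x + e * a) - qr q x) : ℝ) : ℂ))
    (expd_apply hre x e), intervalIntegral.integral_ofReal, q_pt hre, ← Complex.ofReal_exp,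
    ← Complex.ofReal_mul, ← Complex.ofReal_mul, ← intervalIntegral.integral_const_mul]
  congr 1
  have h : ∀ a : ℝ, e * Real.exp (qr q x) * Real.exp (qr q (x + e * a) - qr q x) =
      Real.exp (qr q (x + e * a)) * e := by
    intro a
    rw [Real.exp_sub]
    field_simp
  simp_rw [h]
  have hc : Continuous (fun a => Real.exp (qr q (x + e * a)) * e) := by
    have := continuous_qr q
    fun_prop
  rw [intervalIntegral.integral_eq_sub_of_hasDerivAt
    (fun a _ => hasDerivAt_Th_seg x e a) (hc.intervalIntegrable _ _)]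
  simp

lemma cosA_seg (r : unitInterval) : cosA ((Xq q x e).2 • Ef (Xq q x e).1) r =
    ((Real.cos (Th q (x + e * r) - Th q x) : ℝ) : ℂ) := by
  rw [cosA_apply, zE hre]
  push_cast
  rfl

lemma exp2_seg (r : unitInterval) : (NormedSpace.exp ((-2 : ℂ) • (Xq q x e).1) : AA) r =
    ((Real.exp (-2 * (qr q (x + e * r) - qr q x)) : ℝ) : ℂ) := by
  rw [exp_apply, AA.smul_apply]
  change Complex.exp (-2 * (dq q x e) r) = _
  rw [dq_apply, q_seg hre, q_pt hre]
  push_cast
  rfl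

lemma Ic_seg : Ic (Xq q x e) = ((∫ r in (0 : ℝ)..1,
    Real.exp (-2 * (qr q (x + e * r) - qr q x)) * Real.cos (Th q (x + e * r) - Th q x) : ℝ) : ℂ) := by
  unfold Ic
  rw [← intervalIntegral.integral_ofReal]
  refine Lam_eq (fun r => ?_)
  rw [AA.mul_apply, exp2_seg hre, cosA_seg hre]
  push_cast
  rfl

lemma zJ (r : unitInterval) : (Xq q x e).2 * (J (NormedSpace.exp (Xq q x e).1 *
    cosA ((Xq q x e).2 • Ef (Xq q x e).1))) r =
      ((Real.sin (Th q (x + e * r) - Th q x) : ℝ) : ℂ) := by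
  have h0 : ∀ a : unitInterval, (NormedSpace.exp (Xq q x e).1 *
      cosA ((Xq q x e).2 • Ef (Xq q x e).1) : AA) a =
      (fun a : ℝ => ((Real.exp (qr q (x + e * a) - qr q x) *
        Real.cos (Th q (x + e * a) - Th q x) : ℝ) : ℂ)) a := by
    intro a
    rw [AA.mul_apply, cosA_seg hre]
    have := expd_apply hre x e a
    change (NormedSpace.exp (dq q x e) : AA) a * _ = _
    rw [this]
    push_cast
    rfl
  rw [J_eq (g := fun a : ℝ => ((Real.exp (qr q (x + e * a) - qr q x) *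
        Real.cos (Th q (x + e * a) - Th q x) : ℝ) : ℂ)) h0, intervalIntegral.integral_ofReal]
  change ((e : ℂ) * Complex.exp (q x)) * _ = _
  rw [q_pt hre, ← Complex.ofReal_exp,
    ← Complex.ofReal_mul, ← Complex.ofReal_mul, ← intervalIntegral.integral_const_mul]
  congr 1
  have h : ∀ a : ℝ, e * Real.exp (qr q x) * (Real.exp (qr q (x + e * a) - qr q x) *
      Real.cos (Th q (x + e * a) - Th q x)) =
      Real.cos (Th q (x + e * a) - Th q x) * (Real.exp (qr q (x + e * a)) * e) := by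
    intro a
    rw [Real.exp_sub]
    field_simp
  simp_rw [h]
  have hc : Continuous (fun a => Real.cos (Th q (x + e * a) - Th q x) *
      (Real.exp (qr q (x + e * a)) * e)) := by
    have := continuous_qr q
    have h2 : Continuous (Th q) := continuous_Th
    fun_prop
  have hd : ∀ a ∈ uIcc (0 : ℝ) r, HasDerivAt (fun a => Real.sin (Th q (x + e * a) - Th q x))
      (Real.cos (Th q (x + e * a) - Th q x) * (Real.exp (qr q (x + e * a)) * e)) a := by
    intro a _
    exact ((hasDerivAt_Th_seg x e a).sub_const _).sin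
  rw [intervalIntegral.integral_eq_sub_of_hasDerivAt hd (hc.intervalIntegrable _ _)]
  simp

lemma zIs_seg : (Xq q x e).2 * Is (Xq q x e) = ((∫ r in (0 : ℝ)..1,
    Real.exp (-2 * (qr q (x + e * r) - qr q x)) * Real.sin (Th q (x + e * r) - Th q x) : ℝ) : ℂ) := by
  unfold Is
  rw [← intervalIntegral.integral_ofReal]
  have h1 : (Xq q x e).2 * Lam (NormedSpace.exp ((-2 : ℂ) • (Xq q x e).1) *
    J (NormedSpace.exp (Xq q x e).1 * cosA ((Xq q x e).2 • Ef (Xq q x e).1))) =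
      Lam ((Xq q x e).2 • (NormedSpace.exp ((-2 : ℂ) • (Xq q x e).1) *
    J (NormedSpace.exp (Xq q x e).1 * cosA ((Xq q x e).2 • Ef (Xq q x e).1)))) := by
    rw [map_smul, smul_eq_mul]
  rw [h1]
  refine Lam_eq (fun r => ?_)
  rw [AA.smul_apply, AA.mul_apply, exp2_seg hre, mul_left_comm, zJ hre]
  push_cast
  rfl

/-- the chord -/
lemma chord : Gc q (x + e) - Gc q x = e * Gd q x * (Ic (Xq q x e) + I * ((Xq q x e).2 * Is (Xq q x e))) := by
  have hd : ∀ r ∈ uIcc (0 : ℝ) 1, HasDerivAt (fun r : ℝ => Gc q (x + e * r))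
      ((e : ℂ) * Gd q (x + e * r)) r := by
    intro r _
    have h1 : HasDerivAt (fun a : ℝ => x + e * a) e r := by
      simpa using ((hasDerivAt_id r).const_mul e).const_add x
    have := (hasDerivAt_Gc (q := q) (x + e * r)).scomp r h1
    rw [Complex.real_smul] at this
    exact this
  have hc : Continuous (fun r : ℝ => (e : ℂ) * Gd q (x + e * r)) := by
    have : Continuous (Gd q) := continuous_Gd
    fun_prop
  have h1 := intervalIntegral.integral_eq_sub_of_hasDerivAt hd (hc.intervalIntegrable _ _)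
  have h2 : Gc q (x + e) - Gc q x = ∫ r in (0 : ℝ)..1, (e : ℂ) * Gd q (x + e * r) := by
    rw [h1]; simp
  rw [h2, Ic_seg hre, zIs_seg hre, ← intervalIntegral.integral_ofReal,
    ← intervalIntegral.integral_ofReal, ← intervalIntegral.integral_const_mul,
    ← intervalIntegral.integral_add, ← intervalIntegral.integral_const_mul]
  · refine intervalIntegral.integral_congr (fun r _ => ?_)
    have e1 : Gd q (x + e * r) = Gd q x *
        (((Real.exp (-2 * (qr q (x + e * r) - qr q x)) : ℝ) : ℂ) *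
          Complex.exp (((Th q (x + e * r) - Th q x : ℝ) : ℂ) * I)) := by
      unfold Gd
      rw [Complex.ofReal_exp, ← Complex.exp_add, ← Complex.exp_add]
      congr 1
      push_cast
      ring
    rw [e1, Complex.exp_mul_I]
    push_cast
    ring
  · apply Continuous.intervalIntegrable
    have := continuous_qr q
    have h2 : Continuous (Th q) := continuous_Th
    fun_prop
  · apply Continuous.intervalIntegrable
    have := continuous_qr q
    have h2 : Continuous (Th q) := continuous_Th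
    fun_prop

end seg

/-- square root on the nonnegative reals -/
lemma sq_ofReal {y : ℝ} (hy : 0 ≤ y) : ∃ s : ℝ, 1 ≤ s ∧ s ^ 2 = 1 + y ∧ A929.sq (y : ℂ) = (s : ℂ) := by
  have h1 : (0 : ℝ) < 1 + y := by linarith
  refine ⟨Real.exp (Real.log (1 + y) / 2), ?_, ?_, ?_⟩
  · apply Real.one_le_exp
    have := Real.log_nonneg (x := 1 + y) (by linarith)
    linarith
  · rw [← Real.exp_nat_mul]
    have : ((2 : ℕ) : ℝ) * (Real.log (1 + y) / 2) = Real.log (1 + y) := by push_cast; ring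
    rw [this, Real.exp_log h1]
  · unfold A929.sq
    rw [Complex.ofReal_exp]
    congr 1
    have : (1 : ℂ) + (y : ℂ) = ((1 + y : ℝ) : ℂ) := by push_cast; rfl
    rw [this, ← Complex.ofReal_log h1.le]
    push_cast
    rfl

/-- the real number `I_c` -/
def Icr (q : C(ℂ, ℂ)) (x e : ℝ) : ℝ := ∫ r in (0 : ℝ)..1,
    Real.exp (-2 * (qr q (x + e * r) - qr q x)) * Real.cos (Th q (x + e * r) - Th q x)

/-- the real number `z I_s` -/
def Isr (q : C(ℂ, ℂ)) (x e : ℝ) : ℝ := ∫ r in (0 : ℝ)..1,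
    Real.exp (-2 * (qr q (x + e * r) - qr q x)) * Real.sin (Th q (x + e * r) - Th q x)

/-- `|(I_c, z I_s)|` -/
def Nr (q : C(ℂ, ℂ)) (x e : ℝ) : ℝ := Real.sqrt (Icr q x e ^ 2 + Isr q x e ^ 2)

section key

variable (hre : ∀ x : ℝ, (q (x : ℂ)).im = 0)
include hre

/-- KEY IDENTITY: `Pq q x e = exp(-2 q x) (1 - cos β)`, `cos β = Icr / Nr`. -/
lemma Pq_eq {x e : ℝ} (hI : 0 < Icr q x e) :
    Pq q x e = ((Real.exp (-2 * qr q x) * (1 - Icr q x e / Nr q x e) : ℝ) : ℂ) := by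
  set z : ℂ := (Xq q x e).2 with hz
  have hzr : z = ((e * Real.exp (qr q x) : ℝ) : ℂ) := by
    rw [hz]
    change (e : ℂ) * Complex.exp (q x) = _
    rw [q_pt hre]
    push_cast
    rfl
  have hIc : Ic (Xq q x e) = ((Icr q x e : ℝ) : ℂ) := Ic_seg hre x e
  have hIs : z * Is (Xq q x e) = ((Isr q x e : ℝ) : ℂ) := zIs_seg hre x e
  have hIc0 : ((Icr q x e : ℝ) : ℂ) ≠ 0 := Complex.ofReal_ne_zero.2 hI.ne'
  have hY : z ^ 2 * bf (Xq q x e) ^ 2 = (((Isr q x e / Icr q x e) ^ 2 : ℝ) : ℂ) := by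
    unfold bf
    rw [hIc]
    have : z ^ 2 * (Is (Xq q x e) / (Icr q x e : ℂ)) ^ 2 =
        (z * Is (Xq q x e)) ^ 2 / (Icr q x e : ℂ) ^ 2 := by
      rw [div_pow]; ring
    rw [this, hIs]
    push_cast
    rw [div_pow]
  obtain ⟨s, hs1, hs2, hs3⟩ := sq_ofReal (y := (Isr q x e / Icr q x e) ^ 2) (by positivity)
  have hs0 : (0 : ℝ) < s := by linarith
  have hN : Nr q x e = Icr q x e * s := by
    unfold Nr
    rw [Real.sqrt_eq_iff_mul_self_eq (by positivity) (by positivity)]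
    have : Icr q x e * s * (Icr q x e * s) = Icr q x e ^ 2 * s ^ 2 := by ring
    rw [this, hs2]
    field_simp
  have hP : Pq q x e = (e : ℂ) ^ 2 * (bf (Xq q x e) ^ 2 * (1 / ((s : ℂ) * (1 + (s : ℂ))))) := by
    unfold Pq Qf phi
    rw [← hz, hY, hs3]
  have hE0 : (Real.exp (qr q x) : ℂ) ≠ 0 := Complex.ofReal_ne_zero.2 (Real.exp_ne_zero _)
  have h2 : Real.exp (-2 * qr q x) = 1 / Real.exp (qr q x) ^ 2 := by
    rw [← Real.exp_nat_mul, one_div, ← Real.exp_neg]
    congr 1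
    push_cast
    ring
  have h3 : (e : ℂ) ^ 2 * bf (Xq q x e) ^ 2 =
      ((Real.exp (-2 * qr q x) * (s ^ 2 - 1) : ℝ) : ℂ) := by
    have h4 : (e : ℂ) ^ 2 * bf (Xq q x e) ^ 2 =
        (z ^ 2 * bf (Xq q x e) ^ 2) / (Real.exp (qr q x) : ℂ) ^ 2 := by
      rw [hzr]
      push_cast
      field_simp
    rw [h4, hY, hs2, h2]
    push_cast
    field_simp
    ring
  rw [hP, ← mul_assoc, h3, hN]
  have hs0' : (s : ℂ) ≠ 0 := Complex.ofReal_ne_zero.2 hs0.ne'
  have hs1' : (1 + (s : ℂ)) ≠ 0 := by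
    have : (1 : ℂ) + (s : ℂ) = ((1 + s : ℝ) : ℂ) := by push_cast; rfl
    rw [this]
    exact Complex.ofReal_ne_zero.2 (by positivity)
  push_cast
  field_simp
  ring

/-- `|G(x+e) - G(x)| = |e| exp(-2q) Nr` -/
lemma norm_chord (x e : ℝ) :
    ‖Gc q (x + e) - Gc q x‖ = |e| * (Real.exp (-2 * qr q x) * Nr q x e) := by
  have hIc : Ic (Xq q x e) = ((Icr q x e : ℝ) : ℂ) := Ic_seg hre x e
  have hIs : (Xq q x e).2 * Is (Xq q x e) = ((Isr q x e : ℝ) : ℂ) := zIs_seg hre x e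
  rw [chord hre, hIc, hIs, norm_mul, norm_mul, Complex.norm_real, Real.norm_eq_abs, mul_assoc]
  congr 2
  · unfold Gd
    rw [Complex.norm_exp]
    simp
  · have : (Icr q x e : ℂ) + I * (Isr q x e : ℂ) = (Icr q x e : ℂ) + (Isr q x e : ℂ) * I := by ring
    rw [this, Complex.norm_add_mul_I]
    rfl

/-- real part of the chord in the tangent frame at `x` -/
lemma re_chord (x e : ℝ) :
    ((Gc q (x + e) - Gc q x) * (starRingEnd ℂ) (Gd q x)).re =
      e * Real.exp (-2 * qr q x) ^ 2 * Icr q x e := by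
  have hIc : Ic (Xq q x e) = ((Icr q x e : ℝ) : ℂ) := Ic_seg hre x e
  have hIs : (Xq q x e).2 * Is (Xq q x e) = ((Isr q x e : ℝ) : ℂ) := zIs_seg hre x e
  rw [chord hre, hIc, hIs]
  have h1 : (e : ℂ) * Gd q x * ((Icr q x e : ℂ) + I * (Isr q x e : ℂ)) * (starRingEnd ℂ) (Gd q x) =
      (e : ℂ) * ((Icr q x e : ℂ) + I * (Isr q x e : ℂ)) * (Gd q x * (starRingEnd ℂ) (Gd q x)) := by
    ring
  have hn : ‖Gd q x‖ = Real.exp (-2 * qr q x) := by
    unfold Gd
    rw [Complex.norm_exp]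
    simp
  rw [h1, Complex.mul_conj, Complex.normSq_eq_norm_sq, hn, mul_assoc, Complex.re_ofReal_mul,
    Complex.re_mul_ofReal]
  simp
  ring

end key

/-- derivative of the length of a planar vector -/
lemma hasFDerivAt_abs {D : ℝ × ℝ → ℂ} {D' : ℝ × ℝ →L[ℝ] ℂ} {p : ℝ × ℝ}
    (hD : HasFDerivAt D D' p) (h0 : D p ≠ 0) (L : ℝ × ℝ →L[ℝ] ℝ)
    (hL : ∀ v, L v = ((D p) * (starRingEnd ℂ) (D' v)).re / ‖D p‖) :
    HasFDerivAt (fun p => ‖D p‖) L p := by
  have h1 := hD.norm_sq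
  have h2 : ‖D p‖ ^ 2 ≠ 0 := by positivity
  have h3 := h1.sqrt h2
  have h4 : (fun p => Real.sqrt (‖D p‖ ^ 2)) = fun p => ‖D p‖ := by
    funext p
    exact Real.sqrt_sq (norm_nonneg _)
  rw [h4] at h3
  refine h3.congr_fderiv ?_
  refine ContinuousLinearMap.ext (fun v => ?_)
  rw [hL]
  have hD0 : ‖D p‖ ≠ 0 := norm_ne_zero_iff.2 h0
  simp [Real.sqrt_sq (norm_nonneg _)]
  field_simp

section act

variable (hre : ∀ x : ℝ, (q (x : ℂ)).im = 0)
include hre

lemma Icr_pos {ρ C : ℝ} (hL : LocQ ρ C) {x e : ℝ} (hX : ‖Xq q x e‖ < ρ) : 0 < Icr q x e := by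
  have h1 := hL.ic _ hX
  have hIc : Ic (Xq q x e) = ((Icr q x e : ℝ) : ℂ) := Ic_seg hre x e
  rw [hIc] at h1
  have h2 : ((Icr q x e : ℝ) : ℂ) - 1 = ((Icr q x e - 1 : ℝ) : ℂ) := by push_cast; rfl
  rw [h2, Complex.norm_real, Real.norm_eq_abs, abs_le] at h1
  linarith [h1.1]

omit hre in
lemma Nr_pos {x e : ℝ} (hI : 0 < Icr q x e) : 0 < Nr q x e := by
  unfold Nr
  apply Real.sqrt_pos.2
  positivity

/-- cosine of the angle between the tangent at `x` and the chord to `x + e`, `e ≠ 0` -/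
lemma cos_chord {x e : ℝ} (he : 0 < |e|) (hI : 0 < Icr q x e) :
    ((Gc q (x + e) - Gc q x) * (starRingEnd ℂ) (Gd q x)).re / ‖Gc q (x + e) - Gc q x‖ =
      e / |e| * (Real.exp (-2 * qr q x) - (Pq q x e).re) := by
  rw [norm_chord hre, re_chord hre, Pq_eq hre hI, Complex.ofReal_re]
  have h1 := Nr_pos hI
  have h2 := Real.exp_pos (-2 * qr q x)
  field_simp
  ring

/-- `∂_x (arc - chord) = - P(x, y - x)`, `∂_y (arc - chord) = P(y, -(y - x))`. -/
lemma hasFDerivAt_Mf {ρ C : ℝ} (hL : LocQ ρ C) {x y : ℝ} (hxy : x < y)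
    (hX : ‖Xq q x ((y - x : ℝ) : ℂ)‖ < ρ) (hY : ‖Xq q y ((-(y - x) : ℝ) : ℂ)‖ < ρ) :
    HasFDerivAt (fun p : ℝ × ℝ => Mf q p.1 p.2)
      ((-(Pq q x ((y : ℂ) - x)).re) • ContinuousLinearMap.fst ℝ ℝ ℝ +
        (Pq q y (-((y : ℂ) - x))).re • ContinuousLinearMap.snd ℝ ℝ ℝ) (x, y) := by
  have he : 0 < y - x := by linarith
  have hI1 := Icr_pos hre hL hX
  have hI2 := Icr_pos hre hL hY
  have hA1 : HasFDerivAt (fun p : ℝ × ℝ => Ar q p.1)
      (Real.exp (-2 * qr q x) • ContinuousLinearMap.fst ℝ ℝ ℝ) (x, y) :=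
    HasDerivAt.comp_hasFDerivAt (f := fun p : ℝ × ℝ => p.1) (x, y) (hasDerivAt_Ar (q := q) x)
      hasFDerivAt_fst
  have hA2 : HasFDerivAt (fun p : ℝ × ℝ => Ar q p.2)
      (Real.exp (-2 * qr q y) • ContinuousLinearMap.snd ℝ ℝ ℝ) (x, y) :=
    HasDerivAt.comp_hasFDerivAt (f := fun p : ℝ × ℝ => p.2) (x, y) (hasDerivAt_Ar (q := q) y)
      hasFDerivAt_snd
  have hG1 : HasFDerivAt (fun p : ℝ × ℝ => Gc q p.1)
      ((ContinuousLinearMap.toSpanSingleton ℝ (Gd q x)).comp (ContinuousLinearMap.fst ℝ ℝ ℝ))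
      (x, y) :=
    HasFDerivAt.comp (f := fun p : ℝ × ℝ => p.1) (x, y)
      (hasDerivAt_Gc (q := q) x).hasFDerivAt hasFDerivAt_fst
  have hG2 : HasFDerivAt (fun p : ℝ × ℝ => Gc q p.2)
      ((ContinuousLinearMap.toSpanSingleton ℝ (Gd q y)).comp (ContinuousLinearMap.snd ℝ ℝ ℝ))
      (x, y) :=
    HasFDerivAt.comp (f := fun p : ℝ × ℝ => p.2) (x, y)
      (hasDerivAt_Gc (q := q) y).hasFDerivAt hasFDerivAt_snd
  have hD := hG2.sub hG1
  have hxe : x + (y - x) = y := by ring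
  have hye : y + -(y - x) = x := by ring
  have hn : ‖Gc q y - Gc q x‖ = (y - x) * (Real.exp (-2 * qr q x) * Nr q x (y - x)) := by
    have := norm_chord hre x (y - x)
    rwa [hxe, abs_of_pos he] at this
  have hD0 : Gc q y - Gc q x ≠ 0 := by
    rw [← norm_pos_iff, hn]
    have h1 := Nr_pos hI1
    have h2 := Real.exp_pos (-2 * qr q x)
    positivity
  have hc1 : ((Gc q y - Gc q x) * (starRingEnd ℂ) (Gd q x)).re / ‖Gc q y - Gc q x‖ =
      Real.exp (-2 * qr q x) - (Pq q x ((y : ℂ) - x)).re := by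
    have := cos_chord hre (x := x) (e := y - x) (by positivity) hI1
    rw [hxe, abs_of_pos he, div_self he.ne', one_mul] at this
    rw [this]
    push_cast
    rfl
  have hc2 : ((Gc q y - Gc q x) * (starRingEnd ℂ) (Gd q y)).re / ‖Gc q y - Gc q x‖ =
      Real.exp (-2 * qr q y) - (Pq q y (-((y : ℂ) - x))).re := by
    have := cos_chord hre (x := y) (e := -(y - x)) (by rw [abs_neg]; positivity) hI2
    rw [hye, abs_neg, abs_of_pos he, neg_div, div_self he.ne'] at this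
    have h1 : Gc q x - Gc q y = -(Gc q y - Gc q x) := by ring
    rw [h1, norm_neg, neg_mul, Complex.neg_re, neg_div] at this
    have h2 : ((-(y - x) : ℝ) : ℂ) = -((y : ℂ) - x) := by push_cast; rfl
    rw [h2] at this
    linarith
  have hN := hasFDerivAt_abs (p := (x, y)) hD hD0
    ((-(Real.exp (-2 * qr q x) - (Pq q x ((y : ℂ) - x)).re)) • ContinuousLinearMap.fst ℝ ℝ ℝ +
      (Real.exp (-2 * qr q y) - (Pq q y (-((y : ℂ) - x))).re) • ContinuousLinearMap.snd ℝ ℝ ℝ)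
    (by
      intro v
      rw [← hc1, ← hc2]
      simp
      ring)
  have hM := (hA2.sub hA1).sub hN
  refine hM.congr_fderiv ?_
  refine ContinuousLinearMap.ext (fun v => ?_)
  simp
  ring

end act

section per

variable (hper : ∀ x : ℝ, q ((x : ℂ) + 1) = q (x : ℂ))
include hper

lemma qr_per (x : ℝ) : qr q (x + 1) = qr q x := by
  unfold qr
  rw [← hper x]
  push_cast
  rfl

lemma Th_per (x : ℝ) : Th q (x + 1) = Th q x + Th q 1 := by
  have h1 : ∀ x, HasDerivAt (fun x => Th q (x + 1) - Th q x) 0 x := by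
    intro x
    have h2 := (hasDerivAt_Th (q := q) (x + 1)).comp_add_const x 1
    have h3 := h2.sub (hasDerivAt_Th (q := q) x)
    rw [qr_per hper, sub_self] at h3
    exact h3
  have h4 := is_const_of_deriv_eq_zero (fun x => (h1 x).differentiableAt)
    (fun x => (h1 x).deriv) x 0
  simp only [zero_add] at h4
  have h5 : Th q 0 = 0 := by unfold Th; simp
  rw [h5] at h4
  linarith

lemma Ar_per (x : ℝ) : Ar q (x + 1) = Ar q x + Ar q 1 := by
  have h1 : ∀ x, HasDerivAt (fun x => Ar q (x + 1) - Ar q x) 0 x := by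
    intro x
    have h2 := (hasDerivAt_Ar (q := q) (x + 1)).comp_add_const x 1
    have h3 := h2.sub (hasDerivAt_Ar (q := q) x)
    rw [qr_per hper, sub_self] at h3
    exact h3
  have h4 := is_const_of_deriv_eq_zero (fun x => (h1 x).differentiableAt)
    (fun x => (h1 x).deriv) x 0
  simp only [zero_add] at h4
  have h5 : Ar q 0 = 0 := by unfold Ar; simp
  rw [h5] at h4
  linarith

lemma Gd_per (x : ℝ) : Gd q (x + 1) = Gd q x * Complex.exp (I * (Th q 1 : ℂ)) := by
  unfold Gd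
  rw [qr_per hper, Th_per hper, ← Complex.exp_add]
  congr 1
  push_cast
  ring

lemma Gc_per (x : ℝ) : Gc q (x + 1) = Gc q x * Complex.exp (I * (Th q 1 : ℂ)) + Gc q 1 := by
  have h1 : ∀ x, HasDerivAt (fun x => Gc q (x + 1) - Gc q x * Complex.exp (I * (Th q 1 : ℂ))) 0 x := by
    intro x
    have h2 := (hasDerivAt_Gc (q := q) (x + 1)).comp_add_const x 1
    have h3 := h2.sub ((hasDerivAt_Gc (q := q) x).mul_const (Complex.exp (I * (Th q 1 : ℂ))))
    rw [Gd_per hper, sub_self] at h3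
    exact h3
  have h4 := is_const_of_deriv_eq_zero (fun x => (h1 x).differentiableAt)
    (fun x => (h1 x).deriv) x 0
  simp only [zero_add] at h4
  have h5 : Gc q 0 = 0 := by unfold Gc; simp
  rw [h5] at h4
  linear_combination h4

lemma Mf_per (x y : ℝ) : Mf q (x + 1) (y + 1) = Mf q x y := by
  unfold Mf
  rw [Ar_per hper, Ar_per hper, Gc_per hper, Gc_per hper]
  have h1 : Gc q y * Complex.exp (I * (Th q 1 : ℂ)) + Gc q 1 -
      (Gc q x * Complex.exp (I * (Th q 1 : ℂ)) + Gc q 1) =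
      (Gc q y - Gc q x) * Complex.exp (I * (Th q 1 : ℂ)) := by ring
  rw [h1, norm_mul, Complex.norm_exp]
  simp

end per

theorem isAct_Mf {ρ C ε : ℝ} (hL : LocQ ρ C) (hre : ∀ x : ℝ, (q (x : ℂ)).im = 0)
    (hper : ∀ x : ℝ, q ((x : ℂ) + 1) = q (x : ℂ))
    (hX : ∀ x e : ℝ, |e| < ε → ‖Xq q x e‖ < ρ) : IsAct q ε (Mf q) where
  d := by
    intro x y hxy hε
    exact hasFDerivAt_Mf hre hL hxy (hX x (y - x) (by rwa [abs_of_pos (by linarith)]))
      (hX y (-(y - x)) (by rwa [abs_neg, abs_of_pos (by linarith)]))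
  per := Mf_per hper

theorem leafGEO : LeafGEO := by
  intro ρ C hL q ε _ hre hper hX
  exact ⟨Mf q, isAct_Mf hL hre hper hX⟩

end Crest.Agent.R102.G576
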