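import Crest.Agent.R102.IfaceA_929

/-!
Row 102, part (A) (helper262): `LeafSMR`, `LeafSMS` (smoothness structure `Sm` from derivatives).
-/

set_option autoImplicit false

open Set Filter Topology Metric Complex MeasureTheory
open scoped Real ContDiff

noncomputable section

namespace Crest.Agent.R102.A929

/-- `q1` is the derivative of `q` along all segments of `D` -/
def SegD (q q1 : ℂ → ℂ) (D : Set ℂ) : Prop :=
  ∀ x ∈ D, ∀ y ∈ D, ∀ s : ℝ, HasDerivAt (fun s : ℝ => q (x + s * (y - x)))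
    ((y - x) * q1 (x + s * (y - x))) s

section

variable {q q1 q2 q3 : ℂ → ℂ} {D : Set ℂ} {B m : ℝ} {x y e x' e' : ℂ}

lemma seg_mem' (hD : Convex ℝ D) (hx : x ∈ D) (hy : y ∈ D) {s : ℝ} (hs0 : 0 ≤ s) (hs1 : s ≤ 1) :
    x + s * (y - x) ∈ D := by
  have h1 := hD hx hy (a := 1 - s) (b := s) (by linarith) hs0 (by ring)
  have h2 : (1 - s) • x + s • y = x + s * (y - x) := by
    rw [Complex.real_smul, Complex.real_smul]
    push_cast
    ring
  rwa [h2] at h1

lemma SegD.lip (h : SegD q q1 D) (hD : Convex ℝ D) (hb : ∀ x ∈ D, ‖q1 x‖ ≤ B)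
    (hx : x ∈ D) (hy : y ∈ D) : ‖q y - q x‖ ≤ B * ‖y - x‖ := by
  have h1 := norm_image_sub_le_of_norm_deriv_le_segment_01'
    (f := fun s : ℝ => q (x + s * (y - x))) (f' := fun s : ℝ => (y - x) * q1 (x + s * (y - x)))
    (C := B * ‖y - x‖) (fun s _ => (h x hx y hy s).hasDerivWithinAt) (fun s hs => by
      rw [norm_mul, mul_comm]
      exact mul_le_mul_of_nonneg_right (hb _ (seg_mem' hD hx hy hs.1 hs.2.le)) (norm_nonneg _))
  simpa using h1

lemma SegD.tay1 (h : SegD q q1 D) (h1 : SegD q1 q2 D) (hD : Convex ℝ D)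
    (hb : ∀ x ∈ D, ‖q2 x‖ ≤ B) (hx : x ∈ D) (hxe : x + e ∈ D) :
    ‖q (x + e) - q x - e * q1 x‖ ≤ B * ‖e‖ ^ 2 := by
  have hB : 0 ≤ B := (norm_nonneg _).trans (hb x hx)
  have h2 := norm_image_sub_le_of_norm_deriv_le_segment_01'
    (f := fun s : ℝ => q (x + s * ((x + e) - x)) - (s : ℂ) * (e * q1 x))
    (f' := fun s : ℝ => ((x + e) - x) * q1 (x + s * ((x + e) - x)) - 1 * (e * q1 x))
    (C := B * ‖e‖ ^ 2) (fun s _ => by
      have ha := h x hx (x + e) hxe s
      have hb : HasDerivAt (fun s : ℝ => (s : ℂ)) 1 s := Complex.ofRealCLM.hasDerivAt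
      exact (ha.sub (hb.mul_const (e * q1 x))).hasDerivWithinAt) (fun s hs => by
      have ha := h1.lip hD hb hx (seg_mem' hD hx hxe hs.1 hs.2.le)
      have e1 : ((x + e) - x) * q1 (x + s * ((x + e) - x)) - 1 * (e * q1 x) =
        e * (q1 (x + s * ((x + e) - x)) - q1 x) := by ring
      rw [e1, norm_mul]
      have e2 : x + (s : ℂ) * (x + e - x) - x = s * e := by ring
      rw [e2, norm_mul, Complex.norm_real, Real.norm_of_nonneg hs.1] at ha
      have h3 : s * ‖e‖ ≤ ‖e‖ := mul_le_of_le_one_left (norm_nonneg _) hs.2.le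
      calc ‖e‖ * ‖q1 (x + s * ((x + e) - x)) - q1 x‖ ≤ ‖e‖ * (B * ‖e‖) :=
            mul_le_mul_of_nonneg_left (ha.trans (mul_le_mul_of_nonneg_left h3 hB)) (norm_nonneg _)
        _ = B * ‖e‖ ^ 2 := by ring)
  have e3 : (fun s : ℝ => q (x + s * ((x + e) - x)) - (s : ℂ) * (e * q1 x)) 1 -
      (fun s : ℝ => q (x + s * ((x + e) - x)) - (s : ℂ) * (e * q1 x)) 0 =
      q (x + e) - q x - e * q1 x := by
    simp
    ring
  rwa [e3] at h2

lemma SegD.tay2 (h : SegD q q1 D) (h1 : SegD q1 q2 D) (h2 : SegD q2 q3 D) (hD : Convex ℝ D)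
    (hb : ∀ x ∈ D, ‖q3 x‖ ≤ B) (hx : x ∈ D) (hxe : x + e ∈ D) :
    ‖q (x + e) - q x - e * q1 x - e ^ 2 * q2 x / 2‖ ≤ B * ‖e‖ ^ 3 := by
  have hB : 0 ≤ B := (norm_nonneg _).trans (hb x hx)
  have h2 := norm_image_sub_le_of_norm_deriv_le_segment_01'
    (f := fun s : ℝ => q (x + s * ((x + e) - x)) - (s : ℂ) * (e * q1 x) -
      (s : ℂ) ^ 2 * (e ^ 2 * q2 x / 2))
    (f' := fun s : ℝ => ((x + e) - x) * q1 (x + s * ((x + e) - x)) - 1 * (e * q1 x) -
      (2 * (s : ℂ) * 1) * (e ^ 2 * q2 x / 2))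
    (C := B * ‖e‖ ^ 3) (fun s _ => by
      have ha := h x hx (x + e) hxe s
      have hb : HasDerivAt (fun s : ℝ => (s : ℂ)) 1 s := Complex.ofRealCLM.hasDerivAt
      have hc : HasDerivAt (fun s : ℝ => (s : ℂ) ^ 2) (2 * (s : ℂ) * 1) s := by
        have := hb.mul hb
        refine HasDerivAt.congr_deriv (HasDerivAt.congr_of_eventuallyEq this ?_) (by ring)
        exact Filter.Eventually.of_forall (fun y => by
          change (y : ℂ) ^ 2 = (y : ℂ) * (y : ℂ)
          ring)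
      exact ((ha.sub (hb.mul_const (e * q1 x))).sub
        (hc.mul_const (e ^ 2 * q2 x / 2))).hasDerivWithinAt) (fun s hs => by
      have hm := seg_mem' hD hx hxe hs.1 hs.2.le
      have e2 : x + (s : ℂ) * (x + e - x) = x + s * e := by ring
      rw [e2] at hm
      have ha := h1.tay1 h2 hD hb hx hm
      have e1 : ((x + e) - x) * q1 (x + s * ((x + e) - x)) - 1 * (e * q1 x) -
          (2 * (s : ℂ) * 1) * (e ^ 2 * q2 x / 2) =
        e * (q1 (x + s * e) - q1 x - s * e * q2 x) := by rw [e2]; ring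
      rw [e1, norm_mul]
      rw [norm_mul, Complex.norm_real, Real.norm_of_nonneg hs.1] at ha
      have h3 : (s * ‖e‖) ^ 2 ≤ ‖e‖ ^ 2 := pow_le_pow_left₀ (mul_nonneg hs.1 (norm_nonneg _))
        (mul_le_of_le_one_left (norm_nonneg _) hs.2.le) 2
      calc ‖e‖ * ‖q1 (x + s * e) - q1 x - s * e * q2 x‖ ≤ ‖e‖ * (B * ‖e‖ ^ 2) :=
            mul_le_mul_of_nonneg_left (ha.trans (mul_le_mul_of_nonneg_left h3 hB)) (norm_nonneg _)
        _ = B * ‖e‖ ^ 3 := by ring)
  have e3 : (fun s : ℝ => q (x + s * ((x + e) - x)) - (s : ℂ) * (e * q1 x) -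
      (s : ℂ) ^ 2 * (e ^ 2 * q2 x / 2)) 1 -
      (fun s : ℝ => q (x + s * ((x + e) - x)) - (s : ℂ) * (e * q1 x) -
      (s : ℂ) ^ 2 * (e ^ 2 * q2 x / 2)) 0 =
      q (x + e) - q x - e * q1 x - e ^ 2 * q2 x / 2 := by
    simp
    ring
  rwa [e3] at h2

lemma SegD.tayd (h : SegD q q1 D) (h1 : SegD q1 q2 D) (h2 : SegD q2 q3 D) (hD : Convex ℝ D)
    (hb2 : ∀ x ∈ D, ‖q2 x‖ ≤ B) (hb : ∀ x ∈ D, ‖q3 x‖ ≤ B) (hx : x ∈ D) (hxe : x + e ∈ D)
    (hx' : x' ∈ D) (hxe' : x' + e' ∈ D) (he : ‖e‖ ≤ m) (he' : ‖e'‖ ≤ m) :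
    ‖(q (x' + e') - q x' - e' * q1 x') - (q (x + e) - q x - e * q1 x)‖ ≤
      B * (m * ‖e' - e‖ + m ^ 2 * ‖x' - x‖) := by
  have hB : 0 ≤ B := (norm_nonneg _).trans (hb x hx)
  have hm : 0 ≤ m := (norm_nonneg _).trans he
  have h3 := norm_image_sub_le_of_norm_deriv_le_segment_01'
    (f := fun s : ℝ => q ((x + e) + s * ((x' + e') - (x + e))) - q (x + s * (x' - x)) -
      (e + (s : ℂ) * (e' - e)) * q1 (x + s * (x' - x)))
    (f' := fun s : ℝ => ((x' + e') - (x + e)) * q1 ((x + e) + s * ((x' + e') - (x + e))) -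
      (x' - x) * q1 (x + s * (x' - x)) -
      ((1 * (e' - e)) * q1 (x + s * (x' - x)) +
        (e + (s : ℂ) * (e' - e)) * ((x' - x) * q2 (x + s * (x' - x)))))
    (C := B * (m * ‖e' - e‖ + m ^ 2 * ‖x' - x‖)) (fun s _ => by
      have ha := h (x + e) hxe (x' + e') hxe' s
      have hb := h x hx x' hx' s
      have hc := h1 x hx x' hx' s
      have hd : HasDerivAt (fun s : ℝ => (s : ℂ)) 1 s := Complex.ofRealCLM.hasDerivAt
      have he := (hd.mul_const (e' - e)).const_add e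
      exact ((ha.sub hb).sub (he.mul hc)).hasDerivWithinAt) (fun s hs => by
      have m1 := seg_mem' hD hx hx' hs.1 hs.2.le
      have m2 := seg_mem' hD hxe hxe' hs.1 hs.2.le
      set xs : ℂ := x + s * (x' - x) with hxs
      set es : ℂ := e + s * (e' - e) with hes
      have e2 : (x + e) + (s : ℂ) * ((x' + e') - (x + e)) = xs + es := by rw [hxs, hes]; ring
      rw [e2] at m2 ⊢
      have nes : ‖es‖ ≤ m := by
        have e3 : es = ((1 - s : ℝ) : ℂ) * e + (s : ℂ) * e' := by rw [hes]; push_cast; ring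
        rw [e3]
        refine (norm_add_le _ _).trans ?_
        rw [norm_mul, norm_mul, Complex.norm_real, Complex.norm_real,
          Real.norm_of_nonneg (by linarith [hs.2] : (0 : ℝ) ≤ 1 - s), Real.norm_of_nonneg hs.1]
        nlinarith [hs.1, hs.2]
      have ha := h1.tay1 h2 hD hb m1 m2
      have hb := h1.lip hD hb2 m1 m2
      rw [add_sub_cancel_left] at hb
      have e1 : ((x' + e') - (x + e)) * q1 (xs + es) - (x' - x) * q1 xs -
          ((1 * (e' - e)) * q1 xs + es * ((x' - x) * q2 xs)) =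
          (q1 (xs + es) - q1 xs) * (e' - e) + (q1 (xs + es) - q1 xs - es * q2 xs) * (x' - x) := by
        ring
      rw [e1]
      refine (norm_add_le _ _).trans ?_
      rw [norm_mul, norm_mul]
      have c1 : ‖q1 (xs + es) - q1 xs‖ ≤ B * m := hb.trans (mul_le_mul_of_nonneg_left nes hB)
      have c2 : ‖q1 (xs + es) - q1 xs - es * q2 xs‖ ≤ B * m ^ 2 :=
        ha.trans (mul_le_mul_of_nonneg_left (pow_le_pow_left₀ (norm_nonneg _) nes 2) hB)
      calc _ ≤ (B * m) * ‖e' - e‖ + (B * m ^ 2) * ‖x' - x‖ :=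
            add_le_add (mul_le_mul_of_nonneg_right c1 (norm_nonneg _))
              (mul_le_mul_of_nonneg_right c2 (norm_nonneg _))
        _ = _ := by ring)
  have e3 : (fun s : ℝ => q ((x + e) + s * ((x' + e') - (x + e))) - q (x + s * (x' - x)) -
      (e + (s : ℂ) * (e' - e)) * q1 (x + s * (x' - x))) 1 -
      (fun s : ℝ => q ((x + e) + s * ((x' + e') - (x + e))) - q (x + s * (x' - x)) -
      (e + (s : ℂ) * (e' - e)) * q1 (x + s * (x' - x))) 0 =
      (q (x' + e') - q x' - e' * q1 x') - (q (x + e) - q x - e * q1 x) := by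
    simp
  rwa [e3] at h3

end

lemma Sm.of_seg {q : C(ℂ, ℂ)} {q1 q2 q3 : ℂ → ℂ} {D : Set ℂ} {B : ℝ} (hB : 1 ≤ B)
    (hD : Convex ℝ D) (h : SegD q q1 D) (h1 : SegD q1 q2 D) (h2 : SegD q2 q3 D)
    (b0 : ∀ x ∈ D, ‖q x‖ ≤ B) (b1 : ∀ x ∈ D, ‖q1 x‖ ≤ B) (b2 : ∀ x ∈ D, ‖q2 x‖ ≤ B)
    (b3 : ∀ x ∈ D, ‖q3 x‖ ≤ B) : Sm q q1 q2 D B where
  B_ge := hB
  cv := hD
  b0 := b0
  b1 := b1
  b2 := b2
  l0 := fun _ hx _ hy => h.lip hD b1 hx hy
  l1 := fun _ hx _ hy => h1.lip hD b2 hx hy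
  t1 := fun _ _ _ _ hx hxe hx' hxe' _ he he' => h.tayd h1 h2 hD b2 b3 hx hxe hx' hxe' he he'
  t2 := fun _ _ hx hxe => h.tay2 h1 h2 hD b3 hx hxe

lemma segD_of_hasDerivAt {q q1 : ℂ → ℂ} {D : Set ℂ} (h : ∀ z, HasDerivAt q (q1 z) z) :
    SegD q q1 D := by
  intro x _ y _ s
  have h1 : HasDerivAt (fun s : ℝ => x + (s : ℂ) * (y - x)) (1 * (y - x)) s := by
    have hd : HasDerivAt (fun s : ℝ => (s : ℂ)) 1 s := Complex.ofRealCLM.hasDerivAt
    exact (hd.mul_const (y - x)).const_add x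
  have h2 := HasDerivAt.comp s (h (x + s * (y - x))) h1
  rw [one_mul, mul_comm] at h2
  exact h2

lemma convex_St (η : ℝ) : Convex ℝ (St η) := by
  intro x hx y hy a b ha hb hab
  simp only [St, mem_ofPred_eq] at hx hy ⊢
  have : (a • x + b • y).im = a * x.im + b * y.im := by simp
  rw [this]
  rw [abs_le] at hx hy ⊢
  constructor <;> nlinarith [hx.1, hx.2, hy.1, hy.2]

theorem leafSMS : LeafSMS := by
  intro q η B hη hB hq b0 b1 b2 b3
  have hq1 : Differentiable ℂ (deriv q) := by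
    have := hq.contDiff (n := 2)
    exact (this.differentiable_deriv_two)
  have hq2 : Differentiable ℂ (deriv (deriv q)) := by
    have := hq1.contDiff (n := 2)
    exact (this.differentiable_deriv_two)
  have hB4 : B ≤ 4 * B := by linarith
  exact Sm.of_seg (q3 := deriv (deriv (deriv q))) (by linarith) (convex_St η)
    (segD_of_hasDerivAt (fun z => (hq z).hasDerivAt))
    (segD_of_hasDerivAt (fun z => (hq1 z).hasDerivAt))
    (segD_of_hasDerivAt (fun z => (hq2 z).hasDerivAt))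
    (fun x hx => (b0 x hx).trans hB4) (fun x hx => (b1 x hx).trans hB4)
    (fun x hx => (b2 x hx).trans hB4) (fun x hx => (b3 x hx).trans hB4)

lemma segD_real {f f1 : ℝ → ℝ} (h : ∀ x, HasDerivAt f (f1 x) x) :
    SegD (fun z => (f z.re : ℂ)) (fun z => (f1 z.re : ℂ)) RR := by
  intro x hx y hy s
  simp only [RR, mem_ofPred_eq] at hx hy
  have hx' : x = (x.re : ℂ) := Complex.ext rfl (by simpa using hx)
  have hy' : y = (y.re : ℂ) := Complex.ext rfl (by simpa using hy)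
  have e1 : ∀ s : ℝ, (x + (s : ℂ) * (y - x)).re = x.re + s * (y.re - x.re) := by
    intro s; simp
  have e2 : y - x = ((y.re - x.re : ℝ) : ℂ) := by
    rw [hx', hy']; push_cast; simp
  have h1 : HasDerivAt (fun s : ℝ => x.re + s * (y.re - x.re)) (1 * (y.re - x.re)) s :=
    ((hasDerivAt_id s).mul_const (y.re - x.re)).const_add x.re
  have h2 := HasDerivAt.comp s (h (x.re + s * (y.re - x.re))) h1
  have h3 := h2.ofReal_comp
  simp only [e1]
  rw [e2]
  refine h3.congr_deriv ?_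
  push_cast
  ring

lemma convex_RR : Convex ℝ RR := by
  intro x hx y hy a b ha hb hab
  simp only [RR, mem_ofPred_eq] at hx hy ⊢
  simp [hx, hy]

theorem leafSMR : LeafSMR := by
  intro f hf hp
  have hper : Function.Periodic f 1 := hp
  have hf1 : ContDiff ℝ 2 (deriv f) := by
    have : ContDiff ℝ (2 + 1) f := by norm_num; exact hf
    exact (contDiff_succ_iff_deriv.1 this).2.2
  have hf2 : ContDiff ℝ 1 (deriv (deriv f)) := by
    have : ContDiff ℝ (1 + 1) (deriv f) := by norm_num; exact hf1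
    exact (contDiff_succ_iff_deriv.1 this).2.2
  have hf3 : ContDiff ℝ 0 (deriv (deriv (deriv f))) := by
    have : ContDiff ℝ (0 + 1) (deriv (deriv f)) := by norm_num; exact hf2
    exact (contDiff_succ_iff_deriv.1 this).2.2
  have hper1 : Function.Periodic (deriv f) 1 := by
    intro x
    have h1 : deriv (fun y => f (y + 1)) x = deriv f (x + 1) := deriv_comp_add_const f 1 x
    rw [← h1]
    congr 1
    exact funext hper
  have hper2 : Function.Periodic (deriv (deriv f)) 1 := by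
    intro x
    have h1 : deriv (fun y => (deriv f) (y + 1)) x = deriv (deriv f) (x + 1) :=
      deriv_comp_add_const (deriv f) 1 x
    rw [← h1]
    congr 1
    exact funext hper1
  have hper3 : Function.Periodic (deriv (deriv (deriv f))) 1 := by
    intro x
    have h1 : deriv (fun y => (deriv (deriv f)) (y + 1)) x = deriv (deriv (deriv f)) (x + 1) :=
      deriv_comp_add_const (deriv (deriv f)) 1 x
    rw [← h1]
    congr 1
    exact funext hper2
  have bd : ∀ g : ℝ → ℝ, Function.Periodic g 1 → Continuous g → ∃ B, ∀ x, ‖g x‖ ≤ B := by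
    intro g hg hc
    obtain ⟨B, hB⟩ := (hg.isBounded_of_continuous one_ne_zero hc).exists_norm_le
    exact ⟨B, fun x => hB _ (mem_range_self x)⟩
  obtain ⟨B0, hB0⟩ := bd f hper hf.continuous
  obtain ⟨B1, hB1⟩ := bd _ hper1 hf1.continuous
  obtain ⟨B2, hB2⟩ := bd _ hper2 hf2.continuous
  obtain ⟨B3, hB3⟩ := bd _ hper3 hf3.continuous
  set B : ℝ := max 1 (max (max B0 B1) (max B2 B3)) with hB
  have k0 : B0 ≤ B := by simp [hB]
  have k1 : B1 ≤ B := by simp [hB]
  have k2 : B2 ≤ B := by simp [hB]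
  have k3 : B3 ≤ B := by simp [hB]
  have hd : ∀ g : ℝ → ℝ, ContDiff ℝ 1 g → ∀ x, HasDerivAt g (deriv g x) x := fun g hg x =>
    (hg.differentiable (by norm_num) x).hasDerivAt
  refine ⟨fun z => ((deriv f z.re : ℝ) : ℂ), fun z => ((deriv (deriv f) z.re : ℝ) : ℂ), B, ?_⟩
  refine Sm.of_seg (q3 := fun z => ((deriv (deriv (deriv f)) z.re : ℝ) : ℂ)) (le_max_left _ _) convex_RR
    ?_ ?_ ?_ ?_ ?_ ?_ ?_
  · exact segD_real (hd f (hf.of_le (by norm_num)))
  · exact segD_real (hd _ (hf1.of_le (by norm_num)))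
  · exact segD_real (hd _ hf2)
  · intro x _
    change ‖((f x.re : ℝ) : ℂ)‖ ≤ B
    rw [Complex.norm_real]; exact (hB0 _).trans k0
  · intro x _
    change ‖((deriv f x.re : ℝ) : ℂ)‖ ≤ B
    rw [Complex.norm_real]; exact (hB1 _).trans k1
  · intro x _
    change ‖((deriv (deriv f) x.re : ℝ) : ℂ)‖ ≤ B
    rw [Complex.norm_real]; exact (hB2 _).trans k2
  · intro x _
    change ‖((deriv (deriv (deriv f)) x.re : ℝ) : ℂ)‖ ≤ B
    rw [Complex.norm_real]; exact (hB3 _).trans k3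

end Crest.Agent.R102.A929
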