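import Crest.Agent.R102.EndD_575
import Crest.Agent.R102.Fix3A_929
import Crest.Agent.R102.DB_262
import Crest.Agent.R102.Geo5_576
import Crest.Agent.R102.SmA_262

/-!
Row 102, part (A) (helper575): final assembly.
-/

set_option autoImplicit false

open Set Filter Topology Metric Complex MeasureTheory
open scoped Real ContDiff

noncomputable section

namespace Crest.Agent.R102.EndA575

open Crest.Agent.R102.A929
open Crest.Agent.R102.LinA682 (Dat gE gE_eq gE_per gE_diffOn gE_diff dat_pair bp ep KD)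

lemma differentiable_qTr (a : ℤ → ℂ) (n : ℕ) : Differentiable ℂ (qTr a n) := fun z =>
  (DB262.hasDerivAt_qTr a n z).differentiableAt

/-- the truncation as a continuous map -/
def qLc (a : ℤ → ℂ) (n : ℕ) : C(ℂ, ℂ) := ⟨qTr a n, (differentiable_qTr a n).continuous⟩

lemma qLc_apply (a : ℤ → ℂ) (n : ℕ) (z : ℂ) : qLc a n z = qTr a n z := rfl

lemma coe_qLc (a : ℤ → ℂ) (n : ℕ) : (qLc a n : ℂ → ℂ) = qTr a n := rfl

lemma qTr_per (a : ℤ → ℂ) (n : ℕ) (z : ℂ) : qTr a n (z + 1) = qTr a n z := by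
  unfold qTr
  refine Finset.sum_congr rfl fun k _ => ?_
  rw [LinA682.ee_mul_int_periodic]

lemma qTr_real {a : ℤ → ℂ} (ha : ∀ k, a (-k) = (starRingEnd ℂ) (a k)) (n : ℕ) (x : ℝ) :
    (qTr a n x).im = 0 := by
  rw [← Complex.conj_eq_iff_im]
  unfold qTr
  rw [map_sum]
  refine Finset.sum_equiv (Equiv.neg ℤ) (fun k => ?_) (fun k _ => ?_)
  · simp only [Finset.mem_Icc, Equiv.neg_apply]
    omega
  · rw [map_mul, Equiv.neg_apply, ha, conj_ee_262]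
    congr 2
    simp

lemma split_hasSum {a : ℤ → ℂ} (n : ℕ) {x : ℝ} {s : ℂ}
    (h : HasSum (fun k : ℤ => a k * ee (k * x)) s) :
    HasSum (fun k : ℤ => aHi a n k * ee (k * x)) (s - qTr a n x) := by
  have h1 : HasSum (fun k : ℤ => (if |k| ≤ ((n / 2 : ℕ) : ℤ) then a k else 0) * ee (k * x))
      (∑ k ∈ Finset.Icc (-((n / 2 : ℕ) : ℤ)) ((n / 2 : ℕ) : ℤ),
        (if |k| ≤ ((n / 2 : ℕ) : ℤ) then a k else 0) * ee (k * x)) := by
    refine hasSum_sum_of_ne_finset_zero (fun k hk => ?_)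
    rw [if_neg, zero_mul]
    intro h2
    exact hk (Finset.mem_Icc.2 (abs_le.1 h2))
  have h2 : (∑ k ∈ Finset.Icc (-((n / 2 : ℕ) : ℤ)) ((n / 2 : ℕ) : ℤ),
        (if |k| ≤ ((n / 2 : ℕ) : ℤ) then a k else 0) * ee (k * x)) = qTr a n x := by
    unfold qTr
    refine Finset.sum_congr rfl (fun k hk => ?_)
    rw [if_pos (abs_le.2 (Finset.mem_Icc.1 hk))]
  rw [h2] at h1
  have h3 := h.sub h1
  have e : (fun k : ℤ => a k * ee (k * x) -
      (if |k| ≤ ((n / 2 : ℕ) : ℤ) then a k else 0) * ee (k * x)) =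
      fun k : ℤ => aHi a n k * ee (k * x) := by
    funext k
    unfold aHi
    split_ifs <;> ring
  rw [e] at h3
  exact h3

lemma tail_sq {T A n E Cs : ℝ} (hE : 0 < E) (hn : 0 < n)
    (hT : T ^ 2 ≤ Cs * n ^ 2 / (E * n ^ 16)) {σ Cσ D : ℝ} (hCσ : 0 ≤ Cσ)
    (hn1 : 1 ≤ n) (hσ : σ ^ 2 ≤ Cσ / (E * n ^ 26)) :
    (A / n ^ 4 * T + D / n ^ 2 * σ) ^ 2 ≤ (2 * A ^ 2 * Cs + 2 * D ^ 2 * Cσ) / (E * n ^ 22) := by
  have h1 : (A / n ^ 4 * T) ^ 2 ≤ A ^ 2 * Cs / (E * n ^ 22) := by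
    calc (A / n ^ 4 * T) ^ 2 = A ^ 2 / n ^ 8 * T ^ 2 := by ring
      _ ≤ A ^ 2 / n ^ 8 * (Cs * n ^ 2 / (E * n ^ 16)) := by gcongr
      _ = A ^ 2 * Cs / (E * n ^ 22) := by field_simp
  have h2 : (D / n ^ 2 * σ) ^ 2 ≤ D ^ 2 * Cσ / (E * n ^ 22) := by
    calc (D / n ^ 2 * σ) ^ 2 = D ^ 2 / n ^ 4 * σ ^ 2 := by ring
      _ ≤ D ^ 2 / n ^ 4 * (Cσ / (E * n ^ 26)) := by gcongr
      _ = D ^ 2 * Cσ / (E * n ^ 30) := by field_simp
      _ ≤ D ^ 2 * Cσ / (E * n ^ 22) := by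
        have : n ^ 22 ≤ n ^ 30 := pow_le_pow_right₀ hn1 (by norm_num)
        gcongr
  have h3 : (A / n ^ 4 * T + D / n ^ 2 * σ) ^ 2 ≤
      2 * (A / n ^ 4 * T) ^ 2 + 2 * (D / n ^ 2 * σ) ^ 2 := by
    nlinarith [sq_nonneg (A / n ^ 4 * T - D / n ^ 2 * σ)]
  calc _ ≤ 2 * (A ^ 2 * Cs / (E * n ^ 22)) + 2 * (D ^ 2 * Cσ / (E * n ^ 22)) := by linarith
    _ = _ := by ring

lemma final_arith {X n E L P1 P2 P3 P4 : ℝ} (hE : 0 < E) (hn1 : 1 ≤ n) (hL1 : 1 ≤ L) (hLn : L ≤ n)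
    (hP1 : 0 ≤ P1) (hP2 : 0 ≤ P2) (_hP3 : 0 ≤ P3) (hP4 : 0 ≤ P4) (_hX : 0 ≤ X)
    (h : 3 / (2 * π) * (1 / n ^ 2) * X ≤ P1 / (E * n ^ 18) + P2 / (E * n ^ 20) +
      P3 / (E * n ^ 17 * L) + P4 / (E * n ^ 18)) :
    E * (1 + n) ^ 15 * X ≤ (2 ^ 15 * (2 * π / 3) * (P1 + P2 + P3 + P4)) / L := by
  have hn : 0 < n := by linarith
  have hL : 0 < L := by linarith
  have hpi := Real.pi_pos
  have b1 : ∀ P : ℝ, 0 ≤ P → P / (E * n ^ 18) ≤ P / (E * n ^ 17 * L) := by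
    intro P hP
    apply div_le_div_of_nonneg_left hP (by positivity)
    calc E * n ^ 17 * L ≤ E * n ^ 17 * n := by gcongr
      _ = E * n ^ 18 := by ring
  have b2 : ∀ P : ℝ, 0 ≤ P → P / (E * n ^ 20) ≤ P / (E * n ^ 17 * L) := by
    intro P hP
    refine le_trans ?_ (b1 P hP)
    apply div_le_div_of_nonneg_left hP (by positivity)
    have : n ^ 18 ≤ n ^ 20 := pow_le_pow_right₀ hn1 (by norm_num)
    gcongr
  have h2 : 3 / (2 * π) * (1 / n ^ 2) * X ≤ (P1 + P2 + P3 + P4) / (E * n ^ 17 * L) := by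
    calc 3 / (2 * π) * (1 / n ^ 2) * X ≤ P1 / (E * n ^ 18) + P2 / (E * n ^ 20) +
        P3 / (E * n ^ 17 * L) + P4 / (E * n ^ 18) := h
      _ ≤ P1 / (E * n ^ 17 * L) + P2 / (E * n ^ 17 * L) + P3 / (E * n ^ 17 * L) +
          P4 / (E * n ^ 17 * L) := by
        have := b1 P1 hP1
        have := b2 P2 hP2
        have := b1 P4 hP4
        linarith
      _ = _ := by ring
  have h3 : X ≤ (2 * π / 3) * ((P1 + P2 + P3 + P4) / (E * n ^ 15 * L)) := by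
    have h4 : X = (2 * π / 3 * n ^ 2) * (3 / (2 * π) * (1 / n ^ 2) * X) := by
      field_simp
    rw [h4]
    calc (2 * π / 3 * n ^ 2) * (3 / (2 * π) * (1 / n ^ 2) * X)
        ≤ (2 * π / 3 * n ^ 2) * ((P1 + P2 + P3 + P4) / (E * n ^ 17 * L)) := by gcongr
      _ = _ := by field_simp
  have h5 : (1 + n) ^ 15 ≤ 2 ^ 15 * n ^ 15 := by
    rw [← mul_pow]
    gcongr
    linarith
  calc E * (1 + n) ^ 15 * X ≤ E * (2 ^ 15 * n ^ 15) *
        ((2 * π / 3) * ((P1 + P2 + P3 + P4) / (E * n ^ 15 * L))) := by gcongr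
    _ = _ := by field_simp

/-- the core of the step -/
theorem step_core {ρ C B A : ℝ} {n : ℕ} {qL q : C(ℂ, ℂ)} {q1 q2 : ℂ → ℂ} {η : ℝ} {v : ℂ → ℂ}
    {a : ℤ → ℂ} (d1 : Dat ρ C B A n 1 qL q1 q2 η v) (d2 : Dat ρ C B A n (-1) qL q1 q2 η v)
    (hη : 0 < η) (hAn : 2 * A ≤ n)
    (hs : Summable fun k => ‖a k‖) (hs1 : ∑' k, ‖a k‖ ≤ 1 / n)
    (hq : ∀ x : ℝ, q x = qL x + ∑' k : ℤ, a k * ee (k * x))
    (hqr : ∀ x : ℝ, (q x).im = 0) (hqp : ∀ x : ℝ, q (x + 1) = q x)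
    {ε : ℝ} {M : ℝ → ℝ → ℝ} (hM : IsAct q ε M) (hε : 2 / n ≤ ε)
    (hv5 : ∀ z ∈ St η, ‖v (z + 1 / n) - v z‖ ≤ A / (n : ℝ) ^ (5 / 2 : ℝ))
    (hE : ∀ z ∈ St η, ‖gE qL v n z‖ ≤ A / n ^ 4)
    (hmode : ∀ k : ℤ, 2 * |k| ≤ n → ∫ x in (0 : ℝ)..1, gE qL v n x * ee (-(k * x)) = 0)
    {K c : ℝ}
    (hVAR : ∀ (S : ℝ → ℝ) (r : ℝ), 0 ≤ r → r ≤ c / n ^ 10 → Continuous S →
      (∀ t, S (t + 1) = S t + 1) →
      (∀ t, |S (t + 1 / n) - S t - 1 / n| ≤ A / (n : ℝ) ^ (5 / 2 : ℝ)) →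
      (∀ t : ℝ, ‖EP q (S (t - 1 / n)) (S t) (S (t + 1 / n))‖ ≤ r) →
      ∃ A₀ : ℝ, ∀ t : ℝ,
        |(∑ i ∈ Finset.range n, M (S (t + i / n)) (S (t + (i + 1) / n))) - A₀| ≤ K * n ^ 4 * r ^ 2)
    {r : ℝ} (hrdef : r = A / n ^ 4 * (∑' k : ℤ, if |k| ≤ ((n / 2 : ℕ) : ℤ) then 0 else
      Real.exp (-(2 * π * η * |(k : ℝ)|))) + 2 * KD C B / n ^ 2 * ∑' k, ‖a k‖)
    (hr : r ≤ c / n ^ 10) {Lb : ℝ}
    (hLIN : ‖(∫ x in (0 : ℝ)..1, (gE q v n x - gE qL v n x) *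
        (1 + deriv v x) * ee (-(n * x))) + I * (3 / (2 * π)) * (1 / n ^ 2) * a n‖ ≤ Lb) :
    3 / (2 * π) * (1 / n ^ 2) * ‖a n‖ ≤ 2 * π * (K * n ^ 4 * r ^ 2) +
      2 * A / n ^ 4 * Real.exp (-(2 * π * η * n)) + Lb := by
  have hn := d1.n_pos
  have hvr := d1.vre
  have hA := d1.hA
  have hpi := Real.pi_pos
  have hmem : ∀ x : ℝ, (x : ℂ) ∈ St η := d1.real_mem
  have hgd := gE_diffOn d1 d2
  have hgp : ∀ z ∈ St η, gE qL v n (z + 1) = gE qL v n z := fun z _ => gE_per d1.per d1.vper n z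
  have htail := leafTAIL (gE qL v n) η (A / n ^ 4) n hη hgd hgp hE hmode
  have hKD : 0 ≤ KD C B := by
    have := d1.C_pos
    have := Real.exp_pos B
    unfold KD; positivity
  have hr0 : 0 ≤ r := by
    rw [hrdef]
    have h1 : 0 ≤ ∑' k : ℤ, if |k| ≤ ((n / 2 : ℕ) : ℤ) then 0 else
      Real.exp (-(2 * π * η * |(k : ℝ)|)) := tsum_nonneg fun k => by split_ifs <;> positivity
    have h2 : 0 ≤ ∑' k, ‖a k‖ := tsum_nonneg fun _ => norm_nonneg _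
    positivity
  have hEq : ∀ t : ℝ, ‖EP q (sv v (t - 1 / n)) (sv v t) (sv v (t + 1 / n))‖ ≤ r := by
    intro t
    rw [← gE_real hvr]
    have h1 := gE_diff d1 d2 hs hs1 hq t
    have h2 := htail t
    have e : gE q v n t = gE qL v n t + (gE q v n t - gE qL v n t) := by ring
    rw [e, hrdef]
    exact (norm_add_le _ _).trans (add_le_add h2 h1)
  have hstep : ∀ t, |sv v (t + 1 / n) - sv v t - 1 / n| ≤ A / (n : ℝ) ^ (5 / 2 : ℝ) := by
    intro t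
    have h1 := hv5 t (hmem t)
    have e : v (t + 1 / n) - v t = ((sv v (t + 1 / n) - sv v t - 1 / n : ℝ) : ℂ) := by
      push_cast
      rw [sv_cast_add hvr, sv_cast hvr]; ring
    rw [e, Complex.norm_real, Real.norm_eq_abs] at h1
    exact h1
  obtain ⟨A₀, hA₀⟩ := hVAR (sv v) r hr0 hr (sv_continuous d1.dv) (sv_per d1.vper) hstep hEq
  have hI1 := mode_gE d1 d2 hAn hs hs1 hq hqr hqp hM hε hA₀
  -- the low part
  have hI2 : ‖∫ x in (0 : ℝ)..1, gE qL v n x * (1 + deriv v x) * ee (-(n * x))‖ ≤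
      2 * A / n ^ 4 * Real.exp (-(2 * π * η * n)) := by
    have hd : DifferentiableOn ℂ (fun z => gE qL v n z * (1 + deriv v z)) (St η) :=
      hgd.mul ((differentiable_const _).add (LinA682.differentiable_deriv d1.dv)).differentiableOn
    have hvp' : ∀ z, deriv v (z + 1) = deriv v z := by
      intro z
      have h := deriv_comp_add_const v 1 z
      have h2 : (fun y => v (y + 1)) = v := funext d1.vper
      rw [h2] at h
      exact h.symm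
    have h1 := norm_coeff_le (g := fun z => gE qL v n z * (1 + deriv v z)) hη.le hd
      (fun z hz => by
        simp only [hgp z hz, hvp']) (A := 2 * A / n ^ 4) (fun z hz => by
        rw [norm_mul]
        have h2 := d1.v2' hz
        calc ‖gE qL v n z‖ * ‖1 + deriv v z‖ ≤ A / n ^ 4 * 2 :=
              mul_le_mul (hE z hz) h2 (norm_nonneg _) (by positivity)
          _ = _ := by ring) (n : ℤ)
    have e1 : |((n : ℤ) : ℝ)| = n := by
      rw [Int.cast_natCast, abs_of_nonneg hn.le]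
    rw [e1] at h1
    push_cast at h1
    exact h1
  have hint : (∫ x in (0 : ℝ)..1, (gE q v n x - gE qL v n x) *
        (1 + deriv v x) * ee (-(n * x))) =
      (∫ x in (0 : ℝ)..1, gE q v n x * (1 + deriv v x) * ee (-(n * x))) -
        ∫ x in (0 : ℝ)..1, gE qL v n x * (1 + deriv v x) * ee (-(n * x)) := by
    rw [← intervalIntegral.integral_sub
      ((cont_gE d1 d2 q (d1.Xq_lt hs hs1 hq) (d2.Xq_lt hs hs1 hq)).intervalIntegrable _ _)
      ((cont_gE d1 d2 qL (fun x => d1.X_lt (hmem x)) (fun x => d2.X_lt (hmem x))).intervalIntegrable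
        _ _)]
    refine intervalIntegral.integral_congr (fun x _ => ?_)
    ring
  rw [hint] at hLIN
  set I1 := ∫ x in (0 : ℝ)..1, gE q v n x * (1 + deriv v x) * ee (-(n * x)) with hI1d
  set I2 := ∫ x in (0 : ℝ)..1, gE qL v n x * (1 + deriv v x) * ee (-(n * x)) with hI2d
  have e2 : I * (3 / (2 * π)) * (1 / n ^ 2) * a n =
      ((I1 - I2) + I * (3 / (2 * π)) * (1 / n ^ 2) * a n) - (I1 - I2) := by ring
  have e3 : ‖I * (3 / (2 * π)) * (1 / n ^ 2) * a n‖ = 3 / (2 * π) * (1 / n ^ 2) * ‖a n‖ := by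
    rw [norm_mul, norm_mul, norm_mul, Complex.norm_I, one_mul]
    have e4 : (3 / (2 * π) : ℂ) = ((3 / (2 * π) : ℝ) : ℂ) := by push_cast; ring
    have e5 : (1 / n ^ 2 : ℂ) = ((1 / n ^ 2 : ℝ) : ℂ) := by push_cast; ring
    rw [e4, e5, Complex.norm_real, Complex.norm_real, Real.norm_of_nonneg (by positivity),
      Real.norm_of_nonneg (by positivity)]
  rw [← e3, e2]
  refine (norm_sub_le _ _).trans ?_
  have h6 : ‖I1 - I2‖ ≤ 2 * π * (K * n ^ 4 * r ^ 2) + 2 * A / n ^ 4 * Real.exp (-(2 * π * η * n)) :=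
    (norm_sub_le _ _).trans (add_le_add hI1 hI2)
  linarith

set_option maxHeartbeats 1000000 in
/-- **the step inequality** -/
theorem step_ineq {f : ℝ → ℝ} (hf : ContDiff ℝ (⊤ : ℕ∞) f) (hp : ∀ x, f (x + 1) = f x) {ε₁ : ℝ}
    (hε₁ : 0 < ε₁) (hRS : RStarP (ofR f hf.continuous) ε₁) (G : ℝ) :
    ∃ (n₁ : ℕ) (C : ℝ), ∀ (α : ℝ) (N : ℕ), 0 ≤ α → α ≤ 1 → WB α N G (cf f) →
      ∀ n : ℕ, n₁ ≤ n → om α N n * (1 + (n : ℝ)) ^ 15 * ‖cf f n‖ ≤ C / Real.log n := by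
  obtain ⟨ρ, C, hL⟩ := exists_locQ
  have hρ := hL.ρ_pos
  have hC := hL.C_ge
  have hpi := Real.pi_pos
  set q : C(ℂ, ℂ) := ofR f hf.continuous with hqdef
  have hqa : ∀ x : ℝ, q x = (f x : ℂ) := fun x => by
    change ((f (x : ℂ).re : ℝ) : ℂ) = (f x : ℂ)
    rw [Complex.ofReal_re]
  have hqr : ∀ x : ℝ, (q x).im = 0 := fun x => by rw [hqa, Complex.ofReal_im]
  have hqp : ∀ x : ℝ, q (x + 1) = q x := fun x => by
    have e : ((x : ℂ) + 1) = ((x + 1 : ℝ) : ℂ) := by push_cast; ring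
    rw [e, hqa, hqa, hp]
  have hf3 : ContDiff ℝ 3 f := contDiff_infty.1 hf 3
  obtain ⟨q1r, q2r, Br, hSr⟩ := leafSMR f hf3 hp
  have hBr := hSr.B_ge
  have hCXr := CX_ge hBr
  -- action of `q`
  set ε₀ : ℝ := min 1 (ρ / (2 * CX Br)) with hε₀d
  have hε₀ : 0 < ε₀ := lt_min one_pos (by positivity)
  obtain ⟨M, hM⟩ := G576.leafGEO ρ C hL q ε₀ hε₀ hqr hqp (fun x e he => by
    have h1 : (x : ℂ) ∈ RR := by simp [RR]
    have h2 : (x : ℂ) + (e : ℂ) ∈ RR := by simp [RR]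
    have h3 : ‖(e : ℂ)‖ ≤ |e| := by rw [Complex.norm_real]; rfl
    have h4 := hSr.norm_Xq h1 h2 h3 (he.le.trans (min_le_left _ _))
    have h5 : |e| < ρ / (2 * CX Br) := he.trans_le (min_le_right _ _)
    calc ‖Xq q x e‖ ≤ CX Br * ‖(e : ℂ)‖ := h4
      _ ≤ CX Br * (ρ / (2 * CX Br)) :=
          mul_le_mul_of_nonneg_left (h3.trans h5.le) (by linarith)
      _ = ρ / 2 := by field_simp
      _ < ρ := by linarith)
  obtain ⟨B0, hB0, hDB⟩ := leafDB G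
  set B : ℝ := 4 * B0 with hBd
  have hB : 1 ≤ B := by linarith
  obtain ⟨A, nF, hA, hFIX⟩ := leafFIX ρ C hL B hB
  obtain ⟨A', nL, hA', hLIN⟩ := LinA682.leafLIN ρ C hL B A hB hA.le
  obtain ⟨Cs, nS, hCs, hSUM⟩ := Sum602.leafSUM G
  obtain ⟨K, c, nV, hK, hc, hVAR⟩ := leafVAR4 ρ C hL q q1r q2r Br ε₀ ε₁ A M hSr hqr hqp hε₀ hM
    hε₁ hRS hA.le
  have hKD : 0 ≤ KD C B := by
    have := Real.exp_pos B
    unfold KD; positivity
  have hCX := CX_ge hB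
  set Cσ : ℝ := (G * 2 ^ 13 * Sum602.SS) ^ 2 with hCσd
  have hCσ : 0 ≤ Cσ := sq_nonneg _
  set Cr : ℝ := 2 * A ^ 2 * Cs + 2 * (2 * KD C B) ^ 2 * Cσ with hCrd
  have hCr : 0 ≤ Cr := by positivity
  obtain ⟨nX, hnX⟩ := exists_nat_gt (max (max (2 * A) ((2 * CX B + 2 + 2 * Real.exp B) / ρ))
    (max (2 / ε₀) (√Cr / c)))
  refine ⟨max (max (max nF nL) (max nS nV)) (max nX 64),
    2 ^ 15 * (2 * π / 3) * ((2 * π * K * Cr) + (2 * A * Cs) + (A' * Cs) + (3 * A' * Cs)), ?_⟩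
  intro α N hα hα1 hW n hn
  have n1 : nF ≤ n := by omega
  have n2 : nL ≤ n := by omega
  have n3 : nS ≤ n := by omega
  have n4 : nV ≤ n := by omega
  have n5 : nX ≤ n := by omega
  have n6 : 64 ≤ n := by omega
  have n6' : (64 : ℝ) ≤ n := by exact_mod_cast n6
  have hn0 : (0 : ℝ) < n := by linarith
  have n5' : max (max (2 * A) ((2 * CX B + 2 + 2 * Real.exp B) / ρ)) (max (2 / ε₀) (√Cr / c)) < n :=
    hnX.trans_le (by exact_mod_cast n5)
  have hAn : 2 * A ≤ n := (((le_max_left _ _).trans (le_max_left _ _)).trans_lt n5').le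
  have hnρ : (2 * CX B + 2 + 2 * Real.exp B) / n < ρ := by
    have h1 := ((le_max_right _ _).trans (le_max_left _ _)).trans_lt n5'
    rw [div_lt_iff₀ hρ] at h1
    rw [div_lt_iff₀ hn0]
    linarith
  have hnε : 2 / (n : ℝ) ≤ ε₀ := by
    have h1 := ((le_max_left _ _).trans (le_max_right _ _)).trans_lt n5'
    rw [div_lt_iff₀ hε₀] at h1
    rw [div_le_iff₀ hn0]
    linarith
  have hnc : √Cr / c ≤ n := (((le_max_right _ _).trans (le_max_right _ _)).trans_lt n5').le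
  have hlog1 : 1 ≤ Real.log n := Sum602.log_one_le (by omega)
  have hlogn : Real.log n ≤ n := Sum602.log_le_self' (by omega)
  have hom : 0 < om α N n := Sum602.om_pos _
  have hom1 : 1 ≤ om α N n := Sum602.om_ge_one hα _
  -- the strip
  set η : ℝ := etan α N n with hηd
  have hη : 0 < η := by
    rw [hηd]
    unfold etan
    have h1 : 0 ≤ min (n : ℝ) N := le_min (by positivity) (by positivity)
    have h2 := mul_nonneg hα h1
    have : 0 < α * min (n : ℝ) N + 16 * Real.log n := by linarith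
    positivity
  have hηB := hDB α N n (cf f) n6 hα hα1 hW
  have dqL : Differentiable ℂ (qLc (cf f) n) := differentiable_qTr (cf f) n
  have perL : ∀ z, qLc (cf f) n (z + 1) = qLc (cf f) n z := qTr_per (cf f) n
  have qLr : ∀ x : ℝ, (qLc (cf f) n x).im = 0 := qTr_real (fun k => cf_neg f k) n
  have sm : Sm (qLc (cf f) n) (deriv (qLc (cf f) n)) (deriv (deriv (qLc (cf f) n)))
      (St (η + 2 / n)) B :=
    leafSMS (qLc (cf f) n) (η + 2 / n) B0 (by positivity) hB0 dqL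
      (fun z hz => (hηB z hz).1) (fun z hz => (hηB z hz).2.1) (fun z hz => (hηB z hz).2.2.1)
      (fun z hz => (hηB z hz).2.2.2)
  -- action of the truncation
  have h2n : 2 / (n : ℝ) ≤ 1 := by
    rw [div_le_one hn0]; linarith
  have hCXn : CX B * (2 / n) < ρ := by
    refine lt_of_le_of_lt ?_ hnρ
    have := Real.exp_pos B
    rw [mul_div_assoc', div_le_div_iff_of_pos_right hn0]
    linarith
  obtain ⟨ML, hML⟩ := G576.leafGEO ρ C hL (qLc (cf f) n) (2 / n) (by positivity) qLr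
    (fun x => perL x) (fun x e he => by
    have hmem : ∀ y : ℝ, (y : ℂ) ∈ St (η + 2 / n) := fun y => by
      change |(y : ℂ).im| ≤ η + 2 / n
      rw [Complex.ofReal_im, abs_zero]; positivity
    have h2 : (x : ℂ) + (e : ℂ) ∈ St (η + 2 / n) := by
      rw [← Complex.ofReal_add]; exact hmem _
    have h3 : ‖(e : ℂ)‖ ≤ |e| := by rw [Complex.norm_real]; rfl
    have h4 := sm.norm_Xq (hmem x) h2 h3 (he.le.trans h2n)
    refine h4.trans_lt (lt_of_le_of_lt ?_ hCXn)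
    exact mul_le_mul_of_nonneg_left (h3.trans he.le) (by linarith))
  obtain ⟨v, dv, vper, vre, v0, v1, v2, hE, hmode⟩ := hFIX n (qLc (cf f) n) _ _ η ML n1 hη.le dqL
    perL qLr sm hML
  obtain ⟨d1, d2⟩ := dat_pair hL hA.le hη.le (by omega : 2 ≤ n) (by linarith : A ≤ n) hnρ dqL perL sm
    dv vper vre v0 v1 v2
  obtain ⟨s1, s2, s3, s4, s5, s6, s7, s8⟩ := hSUM α N n (cf f) n3 hα hα1 hW
  have hqs : ∀ x : ℝ, q x = qLc (cf f) n x + ∑' k : ℤ, aHi (cf f) n k * ee (k * x) := by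
    intro x
    have h1 := (split_hasSum n (cf_hasSum hf hp x)).tsum_eq
    rw [h1, hqa, qLc_apply]; ring
  have hlin := hLIN n q (qLc (cf f) n) _ _ η (aHi (cf f) n) v n2 hη.le dqL perL qLr sm s1 s2 hqs hqr
    dv vper vre v0 v1 v2
  -- the number `r`
  set T : ℝ := ∑' k : ℤ, if |k| ≤ ((n / 2 : ℕ) : ℤ) then 0 else
      Real.exp (-(2 * π * η * |(k : ℝ)|)) with hT
  set σ : ℝ := ∑' k, ‖aHi (cf f) n k‖ with hσ
  set r : ℝ := A / n ^ 4 * T + 2 * KD C B / n ^ 2 * σ with hr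
  have hT0 : 0 ≤ T := tsum_nonneg fun k => by split_ifs <;> positivity
  have hσ0 : 0 ≤ σ := tsum_nonneg fun _ => norm_nonneg _
  have hr0 : 0 ≤ r := by positivity
  have hσ2 : σ ^ 2 ≤ Cσ / (om α N n * (n : ℝ) ^ 26) := sumHi26 hW hα (by omega)
  have hr2 : r ^ 2 ≤ Cr / (om α N n * (n : ℝ) ^ 22) :=
    tail_sq hom hn0 s7 hCσ (by linarith) hσ2
  have hrc : r ≤ c / n ^ 10 := by
    have h1 : r ^ 2 ≤ Cr / (n : ℝ) ^ 22 := by
      refine hr2.trans (div_le_div_of_nonneg_left hCr (by positivity) ?_)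
      have : 0 ≤ (n : ℝ) ^ 22 := by positivity
      nlinarith
    have h2 : √Cr ≤ c * n := by
      rw [div_le_iff₀ hc, mul_comm] at hnc
      exact hnc
    have h3 : Cr ≤ (c * n) ^ 2 := by
      calc Cr = √Cr ^ 2 := (Real.sq_sqrt hCr).symm
        _ ≤ _ := pow_le_pow_left₀ (Real.sqrt_nonneg _) h2 2
    have h4 : r ^ 2 ≤ (c / n ^ 10) ^ 2 := by
      calc r ^ 2 ≤ Cr / (n : ℝ) ^ 22 := h1
        _ ≤ (c * n) ^ 2 / (n : ℝ) ^ 22 := by gcongr
        _ = (c / n ^ 10) ^ 2 := by field_simp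
    exact (pow_le_pow_iff_left₀ hr0 (by positivity) (by norm_num)).1 h4
  have hcore := step_core d1 d2 hη hAn s1 s2 hqs hqr hqp hM hnε v1 hE hmode
    (fun S r' h0 h1 h2 h3 h4 h5 => hVAR n S r' n4 h0 h1 h2 h3 h4 h5) hr hrc hlin
  have haHi : aHi (cf f) n (n : ℤ) = cf f n := by
    unfold aHi
    rw [if_neg]
    rw [abs_of_nonneg (by positivity)]
    push Not
    have : n / 2 < n := by omega
    exact_mod_cast this
  rw [haHi] at hcore
  have hfin : 3 / (2 * π) * (1 / (n : ℝ) ^ 2) * ‖cf f n‖ ≤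
      (2 * π * K * Cr) / (om α N n * (n : ℝ) ^ 18) + (2 * A * Cs) / (om α N n * (n : ℝ) ^ 20) +
      (A' * Cs) / (om α N n * (n : ℝ) ^ 17 * Real.log n) +
      (3 * A' * Cs) / (om α N n * (n : ℝ) ^ 18) := by
    refine hcore.trans ?_
    have hlogpos : 0 < Real.log n := by linarith
    have t1 : 2 * π * (K * n ^ 4 * r ^ 2) ≤ (2 * π * K * Cr) / (om α N n * (n : ℝ) ^ 18) := by
      calc 2 * π * (K * n ^ 4 * r ^ 2) ≤
          2 * π * (K * n ^ 4 * (Cr / (om α N n * (n : ℝ) ^ 22))) := by gcongr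
        _ = _ := by field_simp
    have t2 : 2 * A / n ^ 4 * Real.exp (-(2 * π * η * n)) ≤
        (2 * A * Cs) / (om α N n * (n : ℝ) ^ 20) := by
      calc 2 * A / n ^ 4 * Real.exp (-(2 * π * η * n)) ≤
          2 * A / n ^ 4 * (Cs / (om α N n * (n : ℝ) ^ 16)) := by gcongr
        _ = _ := by field_simp
    have t3 : A' * ((∑' k : ℤ, if |k| ≤ 2 * n then
            ‖aHi (cf f) n k‖ * Real.exp (-(2 * π * η * |(n : ℝ) - k|)) else 0) / n ^ 3 +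
          (∑' k : ℤ, if 2 * n < |k| ∧ |k| ≤ n ^ 2 then
            ‖aHi (cf f) n k‖ * Real.exp (-(2 * π * η * |(n : ℝ) - k|)) else 0) / n ^ 2 +
          (∑' k : ℤ, if (n : ℤ) ^ 2 < |k| then ‖aHi (cf f) n k‖ else 0) / n ^ 2 +
          σ ^ 2 / n ^ 2) ≤
        (A' * Cs) / (om α N n * (n : ℝ) ^ 17 * Real.log n) +
          (3 * A' * Cs) / (om α N n * (n : ℝ) ^ 18) := by
      calc _ ≤ A' * ((Cs / (om α N n * (n : ℝ) ^ 14 * Real.log n)) / n ^ 3 +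
          (Cs / (om α N n * (n : ℝ) ^ 16)) / n ^ 2 + (Cs / (om α N n * (n : ℝ) ^ 16)) / n ^ 2 +
          (Cs / (om α N n * (n : ℝ) ^ 16)) / n ^ 2) := by gcongr
        _ = _ := by field_simp; ring
    linarith
  exact final_arith hom (by linarith) hlog1 hlogn (by positivity) (by positivity) (by positivity)
    (by positivity) (norm_nonneg _) hfin

/-- **Part (A)**: exponential decay of the Fourier coefficients -/
theorem partA (f : ℝ → ℝ) (hf : ContDiff ℝ (⊤ : ℕ∞) f) (hp : ∀ x, f (x + 1) = f x) (ε₁ : ℝ)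
    (hε₁ : 0 < ε₁) (hRS : RStarP (ofR f hf.continuous) ε₁) :
    ∃ C a : ℝ, 0 < a ∧ ∀ k : ℤ,
      ‖∫ x in (0 : ℝ)..1, (f x : ℂ) * ee (-(k * x))‖ ≤ C * Real.exp (-(a * |(k : ℝ)|)) := by
  obtain ⟨B, hB⟩ := wb_zero hf hp
  obtain ⟨C, b, hb, h⟩ := leafBOOT (cf f) B (norm_cf_neg f) hB (step_ineq hf hp hε₁ hRS)
  exact ⟨C, b, hb, h⟩

end Crest.Agent.R102.EndA575
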