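import Crest.Agent.R102.Start2_821

/-!
Row 102, part (B) (helper821): assembly.  Joint analyticity of the leaf family at `w = 0`, given
the Lagrangian (`IsLag`), the dynamical input `(R*)` and the resonance lemma `ResonanceB4`.
-/

set_option autoImplicit false

open Set Filter Topology Metric Complex MeasureTheory
open scoped Real ContDiff ComplexConjugate

noncomputable section

namespace Crest.Agent.R102.B821

open Crest.Agent.R266.SCV

variable {ρ₀ ε₀ k ρ r d A B : ℝ} {L Ψ U f g : ℂ × ℂ → ℂ} {M : ℕ}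

/-- the area form: if `E = 0` then `μ = w m₀(w)` -/
theorem Adm.area (hL : IsLag ρ₀ ε₀ L Ψ) {r₂ : ℝ}
    (hr₂ : ∀ x y : ℂ, (x, y) ∈ Dg (3 / 4 * ρ₀) (ε₀ / 2) → ‖y - x‖ ≤ r₂ →
        ‖q2 (q1 L) (x, y) + (y - x)‖ ≤ 1 / 100 * ‖y - x‖)
    (h : Adm ρ₀ ε₀ ρ r U) (hr : 2 * r ≤ r₂) (hE : ∀ p ∈ Dom (3 / 2) ρ r, Ef L U p = 0) :
    ∃ m₀ : ℂ → ℂ, DifferentiableOn ℂ m₀ (ball 0 (r / 2)) ∧
      (∀ p ∈ Dom 1 (ρ / 2) (r / 2), muf L U p = p.2 * m₀ p.2) ∧
      ∀ w : ℂ, ‖w‖ < r / 2 → ‖m₀ w - 1‖ ≤ 1 / 8 := by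
  have hr0 := h.r_pos
  have hr1 := h.r_le
  have hρ := h.ρ_pos
  have hrρ := h.r_le_ρ
  obtain ⟨α, hα, hαb, hαe⟩ := h.exists_at hL hr₂ hr
  have hm : IsH 1 ρ r (mmf α U) := (hα.mul ((IsH.const 1).add h.huf1)).neg
  have hdm : IsH (3 / 2) ρ r (del (mmf α U)) := by
    have := hm.del
    norm_num at this
    exact this
  have hmu : ∀ p ∈ Dom 1 ρ r, muf L U p = p.2 * mmf α U p := by
    intro p hp
    unfold muf mmf
    rw [hαe p hp]
    ring
  have hq : ∀ t w : ℂ, (t, w) ∈ Dom (3 / 2) ρ r → q1 (Ef L U) (t, w) = 0 ∧ q2 (Ef L U) (t, w) = 0 := by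
    intro t w hp
    have hev : Ef L U =ᶠ[𝓝 (t, w)] (fun _ => (0 : ℂ)) := by
      filter_upwards [(isOpen_Dom (3 / 2) ρ r).mem_nhds hp] with q hq
      exact hE q hq
    have hfd : fderiv ℂ (Ef L U) (t, w) = 0 := by
      rw [hev.fderiv_eq]
      simp
    unfold q1 q2
    rw [hfd]
    simp
  have hdel0 : ∀ p ∈ Dom (3 / 2) ρ r, del (mmf α U) p = 0 := by
    refine hdm.eq_zero_of_ne (by norm_num) (fun t w hp hw => ?_)
    have h1 := h.ident3 hL hp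
    rw [(hq t w hp).1, (hq t w hp).2, mul_zero, mul_zero, sub_zero] at h1
    have m1 : (t + ((1 / 2 : ℝ) : ℂ) * w, w) ∈ Dom 1 ρ r := tr_mem_half (1 / 2) (by norm_num) hp
    have m2 : (t + ((-(1 / 2) : ℝ) : ℂ) * w, w) ∈ Dom 1 ρ r :=
      tr_mem_half (-(1 / 2)) (by rw [abs_neg]; norm_num) hp
    have h2 : del (muf L U) (t, w) = w * del (mmf α U) (t, w) := by
      unfold del tr
      simp only
      rw [hmu _ m1, hmu _ m2]
      ring
    rw [h2] at h1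
    exact (mul_eq_zero.1 h1).resolve_left hw
  have hmb : Bdd 1 ρ r 0 (9 / 8) (mmf α U) := by
    intro p hp
    have h1 := mmf_bd (α := α) h hp (hαb p hp)
    rw [pow_zero, mul_one]
    have := norm_add_le (mmf α U p - 1) 1
    rw [sub_add_cancel, norm_one] at this
    linarith
  have e32 : (1 : ℝ) + 1 / 2 = 3 / 2 := by norm_num
  have key := del_bound (k := 1) (ρ := ρ) (r := r) (d := r / 2) (B := 0)
    (A := 9 / 8) (by norm_num) le_rfl hr0 hr1 (by linarith) (by linarith) (by linarith) le_rfl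
    (g := fun _ => 0) (μ := mmf α U) (by rw [e32]; exact IsH.const 0)
    (by intro p _; simp) hm hmb
    (by
      rw [e32]
      intro p hp
      rw [hdel0 p hp, mul_zero])
  rw [mul_zero] at key
  have hkey : ∀ p ∈ Dom 1 (ρ / 2) (r / 2), mmf α U p = fc (mmf α U) 0 p.2 := by
    intro p hp
    have h1 := key p (Dom_mono le_rfl (by linarith) (by linarith) hp)
    rw [zero_mul] at h1
    exact sub_eq_zero.1 (norm_le_zero_iff.1 h1)
  refine ⟨fc (mmf α U) 0, ?_, ?_, ?_⟩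
  · exact differentiableOn_fc hm 0 isOpen_ball (fun w hw => by
      rw [mem_ball_zero_iff] at hw
      exact ⟨by linarith, k_im_lt (r := r) (by norm_num) hρ (by linarith) (by linarith)⟩)
  · intro p hp
    rw [hmu p (Dom_mono le_rfl (by linarith) (by linarith) hp), hkey p hp]
  · intro w hw
    have hmem : (((0 : ℝ) : ℂ), w) ∈ Dom 1 (ρ / 2) (r / 2) :=
      real_mem_Dom.2 ⟨k_im_lt (by norm_num) (by linarith) (by linarith) hw, hw⟩
    rw [← hkey _ hmem]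
    exact mmf_bd h (Dom_mono le_rfl (by linarith) (by linarith) hmem)
      (hαb _ (Dom_mono le_rfl (by linarith) (by linarith) hmem))

/-- PART (B) of row 102: joint analyticity of the leaf family at `w = 0`. -/
theorem part_B (hL : IsLag ρ₀ ε₀ L Ψ) {ε₁ : ℝ} (hε₁ : 0 < ε₁) (hR : RStar L ε₁)
    (hB4 : ResonanceB4) :
    ∃ (ρ r B : ℝ) (U : ℂ × ℂ → ℂ) (m₀ : ℂ → ℂ), 0 ≤ B ∧ Adm ρ₀ ε₀ ρ r U ∧
      Bdd (1 / 2) ρ r 2 B U ∧ (∀ p ∈ Dom (3 / 2) ρ r, Ef L U p = 0) ∧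
      DifferentiableOn ℂ m₀ (ball 0 r) ∧ (∀ p ∈ Dom 1 ρ r, muf L U p = p.2 * m₀ p.2) ∧
      ∀ w : ℂ, ‖w‖ < r → ‖m₀ w - 1‖ ≤ 1 / 8 := by
  obtain ⟨C, c, r₁, hC, hc, hr₁, hB4'⟩ := hB4 ρ₀ ε₀ ε₁ L Ψ hL hε₁ hR
  obtain ⟨K, r₂, δ₀, hK1, hr₂, hδ₀, hr₂b, hKb⟩ := hL.exists_bounds
  obtain ⟨C₀, hC₀, hlim⟩ := newton_limit hL hC.le hc hB4' hδ₀ (by linarith) hr₂b hKb
  obtain ⟨ρ, r, B, A, U, hB, hA, hadm, hUb, hP⟩ := exists_start hL 32
  have hρ₀ := hL.ρ_pos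
  obtain ⟨ra, hra0, hra1, hS⟩ := adm_of_bdd hL hadm.hU hB hUb hadm.re hadm.par hadm.ρ_pos hadm.ρ_le
    hadm.r_pos hadm.r_le
  set s₀ : ℝ := min (ρ₀ / 16) (1 / 200) with hs₀
  have hs₀0 : 0 < s₀ := lt_min (by positivity) (by norm_num)
  set Z : ℝ := (200 ^ 3 * C₀) ^ 20 with hZ
  have hZ0 : 0 < Z := by positivity
  set rn : ℝ := min ra (min r₁ (min (r₂ / 2) (min (1 / ((A + 1) * Z)) (s₀ / 2)))) with hrn
  have hrn0 : 0 < rn := lt_min hra0 (lt_min hr₁ (lt_min (by positivity)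
    (lt_min (by positivity) (by positivity))))
  have c1 : rn ≤ ra := min_le_left _ _
  have c2 : rn ≤ r₁ := (min_le_right _ _).trans (min_le_left _ _)
  have c3 : rn ≤ r₂ / 2 := (min_le_right _ _).trans ((min_le_right _ _).trans (min_le_left _ _))
  have c4 : rn ≤ 1 / ((A + 1) * Z) :=
    (min_le_right _ _).trans ((min_le_right _ _).trans ((min_le_right _ _).trans (min_le_left _ _)))
  have c5 : rn ≤ s₀ / 2 :=
    (min_le_right _ _).trans ((min_le_right _ _).trans ((min_le_right _ _).trans (min_le_right _ _)))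
  have hrr : rn ≤ r := c1.trans hra1
  have hrn1 : rn ≤ 1 := hrr.trans hadm.r_le
  set x : ℝ := (rn / 200) ^ 3 / C₀ with hx
  have hC₀p : 0 < C₀ := by linarith
  have hx0 : 0 < x := by positivity
  have hxC : C₀ * x ≤ (rn / 200) ^ 3 := by
    rw [hx]
    exact le_of_eq (by field_simp)
  have hxr : x ≤ rn := by
    have h1 : x ≤ (rn / 200) ^ 3 := by
      rw [hx]; exact div_le_self (by positivity) hC₀
    have h2 : (rn / 200) ^ 3 ≤ rn / 200 := by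
      calc (rn / 200) ^ 3 ≤ (rn / 200) ^ 1 :=
            pow_le_pow_of_le_one (by positivity) (by linarith) (by norm_num)
        _ = rn / 200 := pow_one _
    linarith
  have hAdmS : AdmS ρ₀ ε₀ (ρ / 2) rn (2 * x) U := (hS rn hrn0 c1).slack (by linarith)
  have hPb : Bdd (3 / 2) (ρ / 2) rn 8 (x ^ 20) (Pf L U) := by
    intro p hp
    have h1 := hP p (Dom_mono le_rfl (by linarith [hadm.ρ_pos]) hrr hp)
    have hw : ‖p.2‖ ≤ rn := hp.2.le
    have e1 : (2 * 32 + 5 : ℕ) = 61 + 8 := by norm_num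
    rw [e1, pow_add] at h1
    have h2 : ‖p.2‖ ^ 61 ≤ rn ^ 61 := pow_le_pow_left₀ (norm_nonneg _) hw 61
    have h3 : A * rn ^ 61 ≤ x ^ 20 := by
      have e2 : x ^ 20 = rn ^ 60 / Z := by
        rw [hx, hZ]
        rw [div_pow, div_pow, mul_pow]
        rw [div_pow, ← pow_mul, ← pow_mul, div_div]
      rw [e2, le_div_iff₀ hZ0]
      have h4 : rn * ((A + 1) * Z) ≤ 1 := by
        rw [le_div_iff₀ (by positivity)] at c4
        exact c4
      calc A * rn ^ 61 * Z = rn ^ 60 * (rn * (A * Z)) := by ring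
        _ ≤ rn ^ 60 * (rn * ((A + 1) * Z)) := by
            have : A ≤ A + 1 := by linarith
            gcongr
        _ ≤ rn ^ 60 * 1 := mul_le_mul_of_nonneg_left h4 (by positivity)
        _ = rn ^ 60 := mul_one _
    calc ‖Pf L U p‖ ≤ A * (‖p.2‖ ^ 61 * ‖p.2‖ ^ 8) := h1
      _ ≤ A * (rn ^ 61 * ‖p.2‖ ^ 8) := by gcongr
      _ = A * rn ^ 61 * ‖p.2‖ ^ 8 := by ring
      _ ≤ x ^ 20 * ‖p.2‖ ^ 8 := mul_le_mul_of_nonneg_right h3 (by positivity)
  obtain ⟨Un, hUn, hE, hdiff⟩ := hlim (ρ / 2) rn x U c2 (by linarith) hx0 hxC hAdmS hPb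
  have hρp := hadm.ρ_pos
  obtain ⟨m₀, hm₀d, hm₀, hm₀b⟩ := hUn.area hL hr₂b (by linarith) hE
  have h8 := hUn.r_le_ρ
  have hUnr := hUn.r_pos
  refine ⟨ρ / 2 / 2 / 2, rn / 2 / 2, B + 2, Un, m₀, by positivity,
    hUn.mono (by linarith) (by linarith) (by positivity) (by positivity) (by linarith), ?_, ?_,
    hm₀d, hm₀, hm₀b⟩
  · intro p hp
    have h1 := hdiff p (Dom_mono le_rfl (by linarith) (by linarith) hp)
    have h2 := hUb p (Dom_mono le_rfl (by linarith) (by linarith) hp)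
    have h3 := norm_add_le (Un p - U p) (U p)
    rw [sub_add_cancel] at h3
    have hw1 : ‖p.2‖ ≤ 1 := by have : ‖p.2‖ < rn / 2 / 2 := hp.2; linarith
    have h4 : ‖p.2‖ ^ 5 ≤ ‖p.2‖ ^ 2 := pow_le_pow_of_le_one (norm_nonneg _) hw1 (by norm_num)
    have h5 : 2 * x * ‖p.2‖ ^ 5 ≤ 2 * ‖p.2‖ ^ 2 := by
      have : 2 * x ≤ 2 := by linarith
      calc 2 * x * ‖p.2‖ ^ 5 ≤ 2 * ‖p.2‖ ^ 5 := mul_le_mul_of_nonneg_right this (by positivity)
        _ ≤ 2 * ‖p.2‖ ^ 2 := by linarith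
    have e : (B + 2) * ‖p.2‖ ^ 2 = B * ‖p.2‖ ^ 2 + 2 * ‖p.2‖ ^ 2 := by ring
    rw [e]
    linarith
  · intro p hp
    exact hE p (Dom_mono le_rfl (by linarith) (by linarith) hp)

end Crest.Agent.R102.B821
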