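import Crest.Prelude.Def_ConvexBilliard

/-!
Definitions for the link between the frozen statements of row 102 (S0134/S0135) and the
dynamics of chords (pairs of boundary parameters).  See the r102 document `S0_821`.
-/

set_option autoImplicit false

namespace Crest.Agent.R102.S0

open Crest.AnalysisR.Billiard

/-- `det (v, w)`. -/
def det2 (v w : ℝ × ℝ) : ℝ := v.1 * w.2 - v.2 * w.1

/-- chord length between parameters `s`, `s'`. -/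
noncomputable def len (γ : ℝ → ℝ × ℝ) (s s' : ℝ) : ℝ :=
  Real.sqrt (dot (γ s' - γ s) (γ s' - γ s))

/-- outgoing momentum at `s` of the chord `(s, s')` (`= -∂₁ len`). -/
noncomputable def p1 (γ : ℝ → ℝ × ℝ) (s s' : ℝ) : ℝ :=
  dot (deriv γ s) (γ s' - γ s) / len γ s s'

/-- incoming momentum at `s'` of the chord `(s, s')` (`= ∂₂ len`). -/
noncomputable def p2 (γ : ℝ → ℝ × ℝ) (s s' : ℝ) : ℝ :=
  dot (deriv γ s') (γ s' - γ s) / len γ s s'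

/-- mixed derivative of the chord length. -/
noncomputable def h12 (γ : ℝ → ℝ × ℝ) (s s' : ℝ) : ℝ :=
  det2 (deriv γ s) (γ s' - γ s) * det2 (γ s' - γ s) (deriv γ s') / len γ s s' ^ 3

/-- the open set of pairs `s < s' < s + P`. -/
def Pairs (P : ℝ) : Set (ℝ × ℝ) := {z | z.1 < z.2 ∧ z.2 < z.1 + P}

/-- Abstract twist data: `q1 s s'` outgoing momentum, `q2 s s'` incoming momentum, `h` mixed
derivative.  The billiard instance is `q1 = p1 γ`, `q2 = p2 γ`, `h = h12 γ`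
(theorem `twistData_of_isTable`). -/
structure TwistData (P : ℝ) (q1 q2 h : ℝ → ℝ → ℝ) : Prop where
  hP : 0 < P
  per1 : ∀ s s', q1 (s + P) (s' + P) = q1 s s'
  per2 : ∀ s s', q2 (s + P) (s' + P) = q2 s s'
  perh : ∀ s s', h (s + P) (s' + P) = h s s'
  der1 : ∀ s s', s < s' → s' < s + P → HasDerivAt (fun t => q1 s t) (-(h s s')) s'
  der2 : ∀ s s', s < s' → s' < s + P → HasDerivAt (fun t => q2 t s') (h s s') s
  hpos : ∀ s s', s < s' → s' < s + P → 0 < h s s'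
  cont1 : ContinuousOn (fun z : ℝ × ℝ => q1 z.1 z.2) (Pairs P)
  cont2 : ContinuousOn (fun z : ℝ × ℝ => q2 z.1 z.2) (Pairs P)
  conth : ContinuousOn (fun z : ℝ × ℝ => h z.1 z.2) (Pairs P)
  next : ∀ s s', s < s' → s' < s + P → ∃ s'', s' < s'' ∧ s'' < s' + P ∧ q2 s s' = q1 s' s''
  prev : ∀ s' s'', s' < s'' → s'' < s' + P → ∃ s, s < s' ∧ s' < s + P ∧ q2 s s' = q1 s' s''

/-- A family of invariant leaves, given as graphs: `F b s` is the next bounce of the leaf `b`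
from the boundary parameter `s`. -/
structure LeafFam (P b₁ : ℝ) (q1 q2 : ℝ → ℝ → ℝ) (F : ℝ → ℝ → ℝ) : Prop where
  hb : 0 < b₁
  cont : ContinuousOn (fun z : ℝ × ℝ => F z.1 z.2) (Set.Ioo 0 b₁ ×ˢ Set.univ)
  mono : ∀ b ∈ Set.Ioo 0 b₁, StrictMono (F b)
  per : ∀ b ∈ Set.Ioo 0 b₁, ∀ s, F b (s + P) = F b s + P
  lo : ∀ b ∈ Set.Ioo 0 b₁, ∀ s, s < F b s
  hi : ∀ b ∈ Set.Ioo 0 b₁, ∀ s, F b s < s + P
  refl : ∀ b ∈ Set.Ioo 0 b₁, ∀ s, q2 s (F b s) = q1 (F b s) (F b (F b s))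
  mono_b : ∀ s, StrictMonoOn (fun b => F b s) (Set.Ioo 0 b₁)
  lim : ∀ s, Filter.Tendsto (fun b => F b s) (nhdsWithin 0 (Set.Ioi 0)) (nhds s)

/-- An (unstraightened) foliation by invariant curves, lifted: leaf `b ∈ (0,1)` is the curve
`x ↦ (S b x, S b (g b x))` of pairs, `g b` the dynamics on the leaf.  -/
structure FolData (P : ℝ) (q1 q2 : ℝ → ℝ → ℝ) (S g : ℝ → ℝ → ℝ) : Prop where
  contS : ContinuousOn (fun z : ℝ × ℝ => S z.1 z.2) (Set.Ioo 0 1 ×ˢ Set.univ)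
  contg : ContinuousOn (fun z : ℝ × ℝ => g z.1 z.2) (Set.Ioo 0 1 ×ˢ Set.univ)
  perS : ∀ b ∈ Set.Ioo (0:ℝ) 1, ∀ x, S b (x + 1) = S b x + P
  perg : ∀ b ∈ Set.Ioo (0:ℝ) 1, ∀ x, g b (x + 1) = g b x + 1
  monog : ∀ b ∈ Set.Ioo (0:ℝ) 1, StrictMono (g b)
  surjg : ∀ b ∈ Set.Ioo (0:ℝ) 1, Function.Surjective (g b)
  lo : ∀ b ∈ Set.Ioo (0:ℝ) 1, ∀ x, S b x < S b (g b x)
  hi : ∀ b ∈ Set.Ioo (0:ℝ) 1, ∀ x, S b (g b x) < S b x + P
  refl : ∀ b ∈ Set.Ioo (0:ℝ) 1, ∀ x,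
    q2 (S b x) (S b (g b x)) = q1 (S b (g b x)) (S b (g b (g b x)))
  inj : ∀ b ∈ Set.Ioo (0:ℝ) 1, ∀ b' ∈ Set.Ioo (0:ℝ) 1, ∀ x x',
    S b x = S b' x' → S b (g b x) = S b' (g b' x') → b = b' ∧ x = x'
  isOpen : ∀ O : Set (ℝ × ℝ), IsOpen O → O ⊆ Set.Ioo 0 1 ×ˢ Set.univ →
    IsOpen ((fun z : ℝ × ℝ => (S z.1 z.2, S z.1 (g z.1 z.2))) '' O)
  cover : ∃ ε > 0, ∀ s s', s < s' → s' < s + ε →
    ∃ b ∈ Set.Ioo (0:ℝ) 1, ∃ x, S b x = s ∧ S b (g b x) = s'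

/-- The closing property: chains with steps `< ε₁` that satisfy the reflection law at the inner
points and close up (winding number `j`) satisfy it at the closing point, too. -/
def Closing (P ε₁ : ℝ) (q1 q2 : ℝ → ℝ → ℝ) : Prop :=
  ∀ n j : ℕ, 1 ≤ n → ∀ x : ℕ → ℝ,
    (∀ i < n, x i < x (i + 1) ∧ x (i + 1) < x i + ε₁) → x n = x 0 + j * P →
    (∀ i, i + 1 < n → q2 (x i) (x (i + 1)) = q1 (x (i + 1)) (x (i + 2))) →
    q2 (x (n - 1)) (x n) = q1 (x 0) (x 1)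

end Crest.Agent.R102.S0
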