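import Mathlib
import Crest.Agent.R102.GeoDefs_821

/-!
Geometry of a billiard table (leaf T1 of `S0_821_v2`): tangent and chord positivity, derivatives
of the chord length, and the twist data of the billiard map.
-/

set_option autoImplicit false

namespace Crest.Agent.R102.S0

open Crest.AnalysisR.Billiard Set Filter Topology

/-! ### algebra -/

lemma det2_eq_dot_perp (v w : ℝ × ℝ) : det2 v w = dot (perp v) w := by
  simp only [det2, dot, perp]; ring

lemma det2_self (v : ℝ × ℝ) : det2 v v = 0 := by simp only [det2]; ring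

lemma det2_neg_swap (v w : ℝ × ℝ) : det2 v w = - det2 w v := by simp only [det2]; ring

lemma dot_comm' (v w : ℝ × ℝ) : dot v w = dot w v := by simp only [dot]; ring

lemma dot_self_nonneg (v : ℝ × ℝ) : 0 ≤ dot v v := by
  simp only [dot]; nlinarith [mul_self_nonneg v.1, mul_self_nonneg v.2]

lemma dot_self_pos {v : ℝ × ℝ} (hv : v ≠ 0) : 0 < dot v v := by
  rcases lt_or_eq_of_le (dot_self_nonneg v) with h | h
  · exact h
  · exfalso
    apply hv
    simp only [dot] at h
    have h1 : v.1 = 0 := by nlinarith [mul_self_nonneg v.1, mul_self_nonneg v.2]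
    have h2 : v.2 = 0 := by nlinarith [mul_self_nonneg v.1, mul_self_nonneg v.2]
    exact Prod.ext h1 h2

lemma dot_sq_add_det_sq (v w : ℝ × ℝ) : dot v w ^ 2 + det2 v w ^ 2 = dot v v * dot w w := by
  simp only [dot, det2]; ring

lemma ident1 (a u w : ℝ × ℝ) :
    dot a u * det2 a w - dot a w * det2 a u = - (dot a a * det2 w u) := by
  simp only [dot, det2]; ring

lemma ident2 (a u w : ℝ × ℝ) :
    dot a u * dot w w - dot a w * dot w u = - (det2 a w * det2 w u) := by
  simp only [dot, det2]; ring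

section table

variable {Ω : Set (ℝ × ℝ)} {γ : ℝ → ℝ × ℝ} {P : ℝ}

lemma tbl_P (h : IsTable Ω γ P) : 0 < P := h.2.2.2.2.1.1
lemma tbl_smooth (h : IsTable Ω γ P) : ContDiff ℝ (⊤ : ℕ∞) γ := h.2.2.2.2.1.2.1
lemma tbl_per (h : IsTable Ω γ P) : Function.Periodic γ P := h.2.2.2.2.1.2.2.1
lemma tbl_inj (h : IsTable Ω γ P) : Set.InjOn γ (Set.Ico 0 P) := h.2.2.2.2.1.2.2.2.1
lemma tbl_ne (h : IsTable Ω γ P) : ∀ s, deriv γ s ≠ 0 := h.2.2.2.2.1.2.2.2.2.1
lemma tbl_range (h : IsTable Ω γ P) : Set.range γ = frontier Ω := h.2.2.2.2.1.2.2.2.2.2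
lemma tbl_curv (h : IsTable Ω γ P) : ∀ s, 0 < det2 (deriv γ s) (deriv (deriv γ) s) := by
  intro s; rw [det2_eq_dot_perp]; exact h.2.2.2.2.2 s
lemma tbl_open (h : IsTable Ω γ P) : IsOpen Ω := h.1
lemma tbl_convex (h : IsTable Ω γ P) : Convex ℝ Ω := h.2.2.2.1.convex
lemma tbl_nonempty (h : IsTable Ω γ P) : Ω.Nonempty := h.2.2.1

lemma tbl_cont (h : IsTable Ω γ P) : Continuous γ := (tbl_smooth h).continuous

lemma tbl_deriv_smooth (h : IsTable Ω γ P) : ContDiff ℝ (⊤ : ℕ∞) (deriv γ) := by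
  have h1 : ContDiff ℝ ((⊤ : ℕ∞) + 1) γ := by
    simpa using tbl_smooth h
  exact (contDiff_succ_iff_deriv.mp h1).2.2

lemma tbl_hasDeriv (h : IsTable Ω γ P) (s : ℝ) : HasDerivAt γ (deriv γ s) s :=
  (((tbl_smooth h).differentiable (by simp)) s).hasDerivAt

lemma tbl_hasDeriv2 (h : IsTable Ω γ P) (s : ℝ) :
    HasDerivAt (deriv γ) (deriv (deriv γ) s) s :=
  (((tbl_deriv_smooth h).differentiable (by simp)) s).hasDerivAt

lemma tbl_deriv_cont (h : IsTable Ω γ P) : Continuous (deriv γ) := (tbl_deriv_smooth h).continuous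

lemma tbl_deriv_per (h : IsTable Ω γ P) : Function.Periodic (deriv γ) P := by
  intro s
  have h1 : (fun t => γ (t + P)) = γ := funext (tbl_per h)
  have h2 : deriv (fun t => γ (t + P)) s = deriv γ (s + P) := deriv_comp_add_const γ P s
  rw [← h2, h1]

lemma hasDerivAt_fst {f : ℝ → ℝ × ℝ} {f' : ℝ × ℝ} {s : ℝ} (h : HasDerivAt f f' s) :
    HasDerivAt (fun t => (f t).1) f'.1 s := by
  exact (ContinuousLinearMap.fst ℝ ℝ ℝ).hasFDerivAt.comp_hasDerivAt s h

lemma hasDerivAt_snd {f : ℝ → ℝ × ℝ} {f' : ℝ × ℝ} {s : ℝ} (h : HasDerivAt f f' s) :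
    HasDerivAt (fun t => (f t).2) f'.2 s := by
  exact (ContinuousLinearMap.snd ℝ ℝ ℝ).hasFDerivAt.comp_hasDerivAt s h

/-- equal points have parameters congruent mod `P`. -/
lemma tbl_inj_mod (h : IsTable Ω γ P) {a b : ℝ} (hab : γ a = γ b) : ∃ m : ℤ, b = a + m * P := by
  have hP := tbl_P h
  obtain ⟨ma, hma, -⟩ := existsUnique_sub_zsmul_mem_Ico hP a 0
  obtain ⟨mb, hmb, -⟩ := existsUnique_sub_zsmul_mem_Ico hP b 0
  rw [zero_add] at hma hmb
  have h1 : γ (a - ma • P) = γ a := (tbl_per h).sub_zsmul_eq ma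
  have h2 : γ (b - mb • P) = γ b := (tbl_per h).sub_zsmul_eq mb
  have h3 := tbl_inj h hma hmb (by rw [h1, h2, hab])
  refine ⟨mb - ma, ?_⟩
  simp only [zsmul_eq_mul] at h3
  push_cast
  linarith

lemma tbl_ne_of_lt (h : IsTable Ω γ P) {s s' : ℝ} (h1 : s < s') (h2 : s' < s + P) :
    γ s' ≠ γ s := by
  intro he
  obtain ⟨m, hm⟩ := tbl_inj_mod h he.symm
  have hP := tbl_P h
  have h3 : (0 : ℝ) < m := by
    by_contra hc
    push Not at hc
    nlinarith
  have h4 : (m : ℝ) < 1 := by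
    by_contra hc
    push Not at hc
    nlinarith
  have h5 : (0 : ℤ) < m := by exact_mod_cast h3
  have h6 : m < 1 := by exact_mod_cast h4
  omega

/-! ### the tangent -/

/-- derivative of `t ↦ det2 a (γ t - x)`. -/
lemma tbl_hasDeriv_det (h : IsTable Ω γ P) (a x : ℝ × ℝ) (t : ℝ) :
    HasDerivAt (fun t => det2 a (γ t - x)) (det2 a (deriv γ t)) t := by
  have h1 := hasDerivAt_fst (tbl_hasDeriv h t)
  have h2 := hasDerivAt_snd (tbl_hasDeriv h t)
  have h3 := ((h2.sub_const x.2).const_mul a.1).sub ((h1.sub_const x.1).const_mul a.2)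
  exact h3

lemma tbl_hasDeriv_det2 (h : IsTable Ω γ P) (a : ℝ × ℝ) (t : ℝ) :
    HasDerivAt (fun t => det2 a (deriv γ t)) (det2 a (deriv (deriv γ) t)) t := by
  have h1 := hasDerivAt_fst (tbl_hasDeriv2 h t)
  have h2 := hasDerivAt_snd (tbl_hasDeriv2 h t)
  have h3 := (h2.const_mul a.1).sub (h1.const_mul a.2)
  exact h3

lemma continuous_det2 : Continuous (fun z : (ℝ × ℝ) × (ℝ × ℝ) => det2 z.1 z.2) := by
  unfold det2; fun_prop

lemma continuous_dot : Continuous (fun z : (ℝ × ℝ) × (ℝ × ℝ) => dot z.1 z.2) := by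
  unfold dot; fun_prop

/-- local strict convexity: near `s` the curve is strictly on the left of its tangent at `s`. -/
lemma tbl_local (h : IsTable Ω γ P) (s : ℝ) :
    ∃ δ > 0, ∀ t, t ≠ s → |t - s| < δ → 0 < det2 (deriv γ s) (γ t - γ s) := by
  have hcont : Continuous (fun t => det2 (deriv γ s) (deriv (deriv γ) t)) := by
    have h1 : Continuous (deriv (deriv γ)) := by
      have h2 : ContDiff ℝ ((⊤ : ℕ∞) + 1) (deriv γ) := by simpa using tbl_deriv_smooth h
      exact (contDiff_succ_iff_deriv.mp h2).2.2.continuous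
    unfold det2
    fun_prop
  have hpos : ∀ᶠ t in 𝓝 s, 0 < det2 (deriv γ s) (deriv (deriv γ) t) :=
    hcont.continuousAt.eventually (lt_mem_nhds (tbl_curv h s))
  obtain ⟨δ, hδ, hδ'⟩ := Metric.eventually_nhds_iff.mp hpos
  refine ⟨δ, hδ, ?_⟩
  set φ : ℝ → ℝ := fun t => det2 (deriv γ s) (γ t - γ s) with hφ
  set φ1 : ℝ → ℝ := fun t => det2 (deriv γ s) (deriv γ t) with hφ1
  have hφd : ∀ t, HasDerivAt φ (φ1 t) t := fun t => tbl_hasDeriv_det h _ _ t
  have hφ1d : ∀ t, HasDerivAt φ1 (det2 (deriv γ s) (deriv (deriv γ) t)) t :=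
    fun t => tbl_hasDeriv_det2 h _ t
  have hφs : φ s = 0 := by simp only [hφ, sub_self]; simp [det2]
  have hφ1s : φ1 s = 0 := by simp only [hφ1]; exact det2_self _
  have hmono : StrictMonoOn φ1 (Set.Ioo (s - δ) (s + δ)) := by
    apply strictMonoOn_of_deriv_pos (convex_Ioo _ _)
    · exact fun t _ => (hφ1d t).continuousAt.continuousWithinAt
    · intro t ht
      rw [interior_Ioo] at ht
      rw [(hφ1d t).deriv]
      apply hδ'
      rw [Real.dist_eq, abs_lt]
      constructor <;> linarith [ht.1, ht.2]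
  intro t hts htδ
  rw [abs_lt] at htδ
  rcases lt_or_gt_of_ne hts with hlt | hgt
  · obtain ⟨ξ, hξ, hξ'⟩ := exists_deriv_eq_slope φ hlt
      (fun t _ => (hφd t).continuousAt.continuousWithinAt)
      (fun t _ => (hφd t).differentiableAt.differentiableWithinAt)
    rw [(hφd ξ).deriv, hφs] at hξ'
    have h1 : φ1 ξ < φ1 s := hmono ⟨by linarith [hξ.1], by linarith [hξ.2]⟩
      ⟨by linarith, by linarith⟩ hξ.2
    rw [hφ1s, hξ', div_neg_iff] at h1
    rcases h1 with h1 | h1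
    · exact absurd h1.2 (by linarith)
    · have := h1.1
      show 0 < φ t
      linarith
  · obtain ⟨ξ, hξ, hξ'⟩ := exists_deriv_eq_slope φ hgt
      (fun t _ => (hφd t).continuousAt.continuousWithinAt)
      (fun t _ => (hφd t).differentiableAt.differentiableWithinAt)
    rw [(hφd ξ).deriv, hφs] at hξ'
    have h1 : φ1 s < φ1 ξ := hmono ⟨by linarith, by linarith⟩
      ⟨by linarith [hξ.1], by linarith [hξ.2]⟩ hξ.1
    rw [hφ1s, hξ', div_pos_iff] at h1
    rcases h1 with h1 | h1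
    · show 0 < φ t
      linarith [h1.1]
    · exact absurd h1.2 (by linarith)

lemma tbl_mem_frontier (h : IsTable Ω γ P) (s : ℝ) : γ s ∈ frontier Ω := by
  rw [← tbl_range h]; exact mem_range_self s

lemma tbl_not_mem (h : IsTable Ω γ P) (s : ℝ) : γ s ∉ Ω := by
  have h1 := tbl_mem_frontier h s
  rw [(tbl_open h).frontier_eq] at h1
  exact h1.2

lemma tbl_mem_closure (h : IsTable Ω γ P) (s : ℝ) : γ s ∈ closure Ω :=
  frontier_subset_closure (tbl_mem_frontier h s)

/-- weak tangent positivity. -/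
lemma tbl_tan_weak (h : IsTable Ω γ P) (s : ℝ) :
    (∀ z ∈ Ω, 0 < det2 (deriv γ s) (z - γ s)) ∧
    (∀ z ∈ closure Ω, 0 ≤ det2 (deriv γ s) (z - γ s)) := by
  obtain ⟨f, hf⟩ := geometric_hahn_banach_open_point (tbl_convex h) (tbl_open h) (tbl_not_mem h s)
  set a := deriv γ s with ha
  have hfcl : ∀ z ∈ closure Ω, f z ≤ f (γ s) := by
    intro z hz
    exact le_on_closure (fun z hz => (hf z hz).le) f.continuous.continuousOn
      continuousOn_const hz
  have hmax : IsLocalMax (fun t => f (γ t)) s := by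
    apply Filter.Eventually.of_forall
    intro t
    exact hfcl _ (tbl_mem_closure h t)
  have hder : HasDerivAt (fun t => f (γ t)) (f a) s :=
    f.hasFDerivAt.comp_hasDerivAt s (tbl_hasDeriv h s)
  have hfa : f a = 0 := hmax.hasDerivAt_eq_zero hder
  have hrep : ∀ v : ℝ × ℝ, f v = v.1 * f (1, 0) + v.2 * f (0, 1) := by
    intro v
    have : v = v.1 • ((1 : ℝ), (0 : ℝ)) + v.2 • ((0 : ℝ), (1 : ℝ)) := by
      ext <;> simp
    conv_lhs => rw [this]
    rw [map_add, map_smul, map_smul, smul_eq_mul, smul_eq_mul]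
  set α := f (1, 0)
  set β := f (0, 1)
  have hA : a.1 * α + a.2 * β = 0 := by rw [← hrep]; exact hfa
  set c := β * a.1 - α * a.2 with hc
  have hid : ∀ v : ℝ × ℝ, dot a a * f v = c * det2 a v := by
    intro v
    rw [hrep v]
    simp only [dot, det2, hc]
    linear_combination (-(a.1 * v.1) - a.2 * v.2 + 2 * (a.1 * v.1 + a.2 * v.2)) * hA
  have haa : 0 < dot a a := dot_self_pos (tbl_ne h s)
  have hcneg : c < 0 := by
    obtain ⟨δ, hδ, hloc⟩ := tbl_local h s
    have h1 := hloc (s + δ / 2) (by linarith [hδ]) (by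
      rw [show s + δ / 2 - s = δ / 2 by ring, abs_of_pos (by linarith)]; linarith)
    have h2 := hid (γ (s + δ / 2) - γ s)
    have h3 : f (γ (s + δ / 2) - γ s) ≤ 0 := by
      rw [map_sub]; linarith [hfcl _ (tbl_mem_closure h (s + δ / 2))]
    have h4 : c ≤ 0 := by
      by_contra hc'
      push Not at hc'
      have : 0 < c * det2 a (γ (s + δ / 2) - γ s) := mul_pos hc' h1
      nlinarith
    rcases lt_or_eq_of_le h4 with h5 | h5
    · exact h5
    · exfalso
      obtain ⟨z, hz⟩ := tbl_nonempty h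
      have h6 := hid (z - γ s)
      rw [h5, zero_mul, map_sub] at h6
      have h7 := hf z hz
      nlinarith
  constructor
  · intro z hz
    have h6 := hid (z - γ s)
    have h7 := hf z hz
    rw [map_sub] at h6
    have h8 : c * det2 a (z - γ s) < 0 := by nlinarith
    by_contra hcon
    push Not at hcon
    nlinarith
  · intro z hz
    have h6 := hid (z - γ s)
    have h7 := hfcl z hz
    rw [map_sub] at h6
    have h8 : c * det2 a (z - γ s) ≤ 0 := by nlinarith
    by_contra hcon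
    push Not at hcon
    nlinarith

/-- near a boundary point, only nearby parameters. -/
lemma tbl_param_near (h : IsTable Ω γ P) (s δ : ℝ) (hδ : 0 < δ) :
    ∃ ρ > 0, ∀ τ ∈ Set.Icc (s - P / 2) (s + P / 2), δ ≤ |τ - s| → ρ ≤ dist (γ τ) (γ s) := by
  have hP := tbl_P h
  set K : Set ℝ := Set.Icc (s - P / 2) (s + P / 2) ∩ {τ | δ ≤ |τ - s|} with hK
  have hKc : IsCompact K := by
    apply isCompact_Icc.inter_right
    exact isClosed_le continuous_const (by fun_prop)
  rcases K.eq_empty_or_nonempty with he | hne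
  · refine ⟨1, one_pos, ?_⟩
    intro τ hτ h1
    exfalso
    have : τ ∈ K := ⟨hτ, h1⟩
    rw [he] at this
    exact this
  · have hcont : ContinuousOn (fun τ => dist (γ τ) (γ s)) K :=
      ((tbl_cont h).dist continuous_const).continuousOn
    obtain ⟨τ0, hτ0, hmin⟩ := hKc.exists_isMinOn hne hcont
    refine ⟨dist (γ τ0) (γ s), ?_, fun τ hτ h1 => hmin ⟨hτ, h1⟩⟩
    apply dist_pos.mpr
    have h2 := hτ0.1
    have h3 : δ ≤ |τ0 - s| := hτ0.2
    rcases lt_trichotomy τ0 s with h4 | h4 | h4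
    · intro he
      exact tbl_ne_of_lt h h4 (by linarith [h2.1]) he.symm
    · rw [h4, sub_self, abs_zero] at h3
      exact absurd h3 (by linarith)
    · exact tbl_ne_of_lt h h4 (by linarith [h2.2])

/-- every boundary point has a parameter in `[s - P/2, s + P/2]`. -/
lemma tbl_param (h : IsTable Ω γ P) (s : ℝ) {z : ℝ × ℝ} (hz : z ∈ frontier Ω) :
    ∃ τ ∈ Set.Ico (s - P / 2) (s + P / 2), γ τ = z := by
  rw [← tbl_range h] at hz
  obtain ⟨t, ht⟩ := hz
  obtain ⟨m, hm, -⟩ := existsUnique_sub_zsmul_mem_Ico (tbl_P h) t (s - P / 2)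
  refine ⟨t - m • P, ?_, ?_⟩
  · have h1 : s - P / 2 + P = s + P / 2 := by ring
    rw [h1] at hm
    exact hm
  · rw [(tbl_per h).sub_zsmul_eq m]; exact ht

/-- **Tangent positivity** (T1 a). -/
theorem tbl_tan (h : IsTable Ω γ P) (s : ℝ) {z : ℝ × ℝ} (hz : z ∈ closure Ω) (hne : z ≠ γ s) :
    0 < det2 (deriv γ s) (z - γ s) := by
  obtain ⟨hΩ, hcl⟩ := tbl_tan_weak h s
  rcases lt_or_eq_of_le (hcl z hz) with h1 | h1
  · exact h1
  exfalso
  obtain ⟨δ, hδ, hloc⟩ := tbl_local h s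
  obtain ⟨ρ, hρ, hfar⟩ := tbl_param_near h s δ hδ
  set d := dist z (γ s) with hd
  have hdpos : 0 < d := dist_pos.mpr hne
  -- the point at small parameter
  obtain ⟨t, ht0, ht1, htρ⟩ : ∃ t : ℝ, 0 < t ∧ t < 1 ∧ t * d < ρ := by
    refine ⟨min (1 / 2) (ρ / (2 * d)), by positivity, ?_, ?_⟩
    · exact lt_of_le_of_lt (min_le_left _ _) (by norm_num)
    · calc min (1 / 2) (ρ / (2 * d)) * d ≤ ρ / (2 * d) * d :=
            mul_le_mul_of_nonneg_right (min_le_right _ _) hdpos.le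
        _ = ρ / 2 := by field_simp
        _ < ρ := by linarith
  set w : ℝ × ℝ := γ s + t • (z - γ s) with hw
  have hwcl : w ∈ closure Ω := by
    have hconv := (tbl_convex h).closure
    have := hconv (tbl_mem_closure h s) hz (a := 1 - t) (b := t) (by linarith) ht0.le (by ring)
    have he : (1 - t) • γ s + t • z = w := by
      rw [hw, sub_smul, smul_sub, one_smul]; abel
    rwa [he] at this
  have hdet : det2 (deriv γ s) (w - γ s) = 0 := by
    have he : w - γ s = t • (z - γ s) := by rw [hw]; abel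
    rw [he]
    have : det2 (deriv γ s) (t • (z - γ s)) = t * det2 (deriv γ s) (z - γ s) := by
      simp only [det2, Prod.smul_fst, Prod.smul_snd, smul_eq_mul]; ring
    rw [this, ← h1, mul_zero]
  have hwf : w ∈ frontier Ω := by
    rw [(tbl_open h).frontier_eq]
    refine ⟨hwcl, fun hwΩ => ?_⟩
    have := hΩ w hwΩ
    rw [hdet] at this
    exact lt_irrefl _ this
  obtain ⟨τ, hτ, hτw⟩ := tbl_param h s hwf
  have hdist : dist (γ τ) (γ s) < ρ := by
    rw [hτw, hw, dist_eq_norm, show γ s + t • (z - γ s) - γ s = t • (z - γ s) by abel,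
      norm_smul, Real.norm_of_nonneg ht0.le, ← dist_eq_norm]
    exact htρ
  have hclose : |τ - s| < δ := by
    by_contra hc
    push Not at hc
    exact absurd (hfar τ ⟨hτ.1, hτ.2.le⟩ hc) (not_le.mpr hdist)
  have hτs : τ ≠ s := by
    intro he
    rw [he] at hτw
    have h2 : t • (z - γ s) = 0 := by
      have : γ s + t • (z - γ s) = γ s := by rw [← hw, ← hτw]
      exact left_eq_add.mp this.symm
    rcases smul_eq_zero.mp h2 with h3 | h3
    · exact absurd h3 ht0.ne'
    · exact hne (sub_eq_zero.mp h3)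
  have := hloc τ hτs hclose
  rw [hτw, hdet] at this
  exact lt_irrefl _ this

lemma tbl_tan_pos (h : IsTable Ω γ P) {s s' : ℝ} (h1 : s < s') (h2 : s' < s + P) :
    0 < det2 (deriv γ s) (γ s' - γ s) :=
  tbl_tan h s (tbl_mem_closure h s') (tbl_ne_of_lt h h1 h2)

lemma tbl_tan_pos' (h : IsTable Ω γ P) {s s' : ℝ} (h1 : s < s') (h2 : s' < s + P) :
    0 < det2 (γ s' - γ s) (deriv γ s') := by
  have h3 := tbl_tan h s' (tbl_mem_closure h s) (tbl_ne_of_lt h h1 h2).symm
  have h4 : det2 (deriv γ s') (γ s - γ s') = det2 (γ s' - γ s) (deriv γ s') := by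
    simp only [det2, Prod.fst_sub, Prod.snd_sub]; ring
  rwa [h4] at h3

/-! ### chords -/

lemma tbl_hasDeriv_dot (h : IsTable Ω γ P) (a x : ℝ × ℝ) (t : ℝ) :
    HasDerivAt (fun t => dot a (γ t - x)) (dot a (deriv γ t)) t := by
  have h1 := hasDerivAt_fst (tbl_hasDeriv h t)
  have h2 := hasDerivAt_snd (tbl_hasDeriv h t)
  exact ((h1.sub_const x.1).const_mul a.1).add ((h2.sub_const x.2).const_mul a.2)

/-- cotangent of the angle of the chord `(s, σ)` against the tangent at `s`. -/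
noncomputable def cot (γ : ℝ → ℝ × ℝ) (s σ : ℝ) : ℝ :=
  dot (deriv γ s) (γ σ - γ s) / det2 (deriv γ s) (γ σ - γ s)

lemma cot_hasDeriv (h : IsTable Ω γ P) {s σ : ℝ} (h1 : s < σ) (h2 : σ < s + P) :
    HasDerivAt (fun σ => cot γ s σ)
      (-(dot (deriv γ s) (deriv γ s) * det2 (γ σ - γ s) (deriv γ σ)) /
        det2 (deriv γ s) (γ σ - γ s) ^ 2) σ := by
  have hd := tbl_tan_pos h h1 h2
  have h3 := (tbl_hasDeriv_dot h (deriv γ s) (γ s) σ).div (tbl_hasDeriv_det h (deriv γ s) (γ s) σ)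
    hd.ne'
  refine h3.congr_deriv ?_
  rw [ident1]

lemma cot_strictAnti (h : IsTable Ω γ P) (s : ℝ) :
    StrictAntiOn (fun σ => cot γ s σ) (Set.Ioo s (s + P)) := by
  apply strictAntiOn_of_deriv_neg (convex_Ioo _ _)
  · exact fun σ hσ => (cot_hasDeriv h hσ.1 hσ.2).continuousAt.continuousWithinAt
  · intro σ hσ
    rw [interior_Ioo] at hσ
    rw [(cot_hasDeriv h hσ.1 hσ.2).deriv]
    apply div_neg_of_neg_of_pos
    · have := mul_pos (dot_self_pos (tbl_ne h s)) (tbl_tan_pos' h hσ.1 hσ.2)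
      linarith
    · have := tbl_tan_pos h hσ.1 hσ.2
      positivity

/-- **Chord positivity** (T1 b). -/
theorem tbl_chord (h : IsTable Ω γ P) {s s' σ : ℝ} (h1 : s < s') (h2 : s' < σ) (h3 : σ < s + P) :
    0 < det2 (γ s' - γ s) (γ σ - γ s) := by
  have ha := cot_strictAnti h s ⟨h1, by linarith⟩ ⟨by linarith, h3⟩ h2
  have hd1 := tbl_tan_pos h h1 (by linarith)
  have hd2 := tbl_tan_pos h (by linarith : s < σ) h3
  simp only [cot] at ha
  rw [div_lt_div_iff₀ hd2 hd1] at ha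
  have hid := ident1 (deriv γ s) (γ s' - γ s) (γ σ - γ s)
  have haa := dot_self_pos (tbl_ne h s)
  have h4 : 0 < dot (deriv γ s) (deriv γ s) * det2 (γ s' - γ s) (γ σ - γ s) := by
    rw [det2_neg_swap (γ s' - γ s)]
    linarith
  exact (mul_pos_iff_of_pos_left haa).mp h4

theorem tbl_chord_neg (h : IsTable Ω γ P) {s s' σ : ℝ} (h1 : s < σ) (h2 : σ < s')
    (h3 : s' < s + P) : det2 (γ s' - γ s) (γ σ - γ s) < 0 := by
  rw [det2_neg_swap]
  linarith [tbl_chord h h1 h2 h3]

lemma tbl_sub_ne (h : IsTable Ω γ P) {s s' : ℝ} (h1 : s < s') (h2 : s' < s + P) :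
    γ s' - γ s ≠ 0 := sub_ne_zero.mpr (tbl_ne_of_lt h h1 h2)

lemma len_pos (h : IsTable Ω γ P) {s s' : ℝ} (h1 : s < s') (h2 : s' < s + P) :
    0 < len γ s s' := Real.sqrt_pos.mpr (dot_self_pos (tbl_sub_ne h h1 h2))

lemma len_sq (s s' : ℝ) : len γ s s' ^ 2 = dot (γ s' - γ s) (γ s' - γ s) :=
  Real.sq_sqrt (dot_self_nonneg _)

lemma hasDerivAt_dotSelf {f : ℝ → ℝ × ℝ} {f' : ℝ × ℝ} {s : ℝ} (h : HasDerivAt f f' s) :
    HasDerivAt (fun t => dot (f t) (f t)) (2 * dot (f s) f') s := by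
  have h1 := hasDerivAt_fst h
  have h2 := hasDerivAt_snd h
  have h3 := (h1.mul h1).add (h2.mul h2)
  refine h3.congr_deriv ?_
  simp only [dot]; ring

/-- derivative of the length of a nonzero vector. -/
lemma hasDerivAt_sqrtDot {f : ℝ → ℝ × ℝ} {f' : ℝ × ℝ} {s : ℝ} (h : HasDerivAt f f' s)
    (hne : f s ≠ 0) :
    HasDerivAt (fun t => Real.sqrt (dot (f t) (f t)))
      (dot f' (f s) / Real.sqrt (dot (f s) (f s))) s := by
  have h1 := (hasDerivAt_dotSelf h).sqrt (dot_self_pos hne).ne'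
  refine h1.congr_deriv ?_
  have hp : 0 < Real.sqrt (dot (f s) (f s)) := Real.sqrt_pos.mpr (dot_self_pos hne)
  rw [dot_comm' f' (f s)]
  field_simp

lemma len_hasDeriv_right (h : IsTable Ω γ P) {s s' : ℝ} (h1 : s < s') (h2 : s' < s + P) :
    HasDerivAt (fun t => len γ s t) (p2 γ s s') s' :=
  hasDerivAt_sqrtDot ((tbl_hasDeriv h s').sub_const (γ s)) (tbl_sub_ne h h1 h2)

lemma len_hasDeriv_left (h : IsTable Ω γ P) {s s' : ℝ} (h1 : s < s') (h2 : s' < s + P) :
    HasDerivAt (fun t => len γ t s') (- p1 γ s s') s := by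
  have h3 := hasDerivAt_sqrtDot ((tbl_hasDeriv h s).const_sub (γ s')) (tbl_sub_ne h h1 h2)
  refine h3.congr_deriv ?_
  simp only [p1, len, dot, Prod.fst_neg, Prod.snd_neg]
  ring

lemma p1_hasDeriv_right (h : IsTable Ω γ P) {s s' : ℝ} (h1 : s < s') (h2 : s' < s + P) :
    HasDerivAt (fun t => p1 γ s t) (-(h12 γ s s')) s' := by
  have hl := len_pos h h1 h2
  have h3 := (tbl_hasDeriv_dot h (deriv γ s) (γ s) s').div (len_hasDeriv_right h h1 h2) hl.ne'
  refine h3.congr_deriv ?_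
  have hid := ident2 (deriv γ s) (deriv γ s') (γ s' - γ s)
  rw [← len_sq] at hid
  simp only [p2, h12]
  rw [dot_comm' (deriv γ s') (γ s' - γ s)]
  field_simp
  linear_combination hid

lemma p2_hasDeriv_left (h : IsTable Ω γ P) {s s' : ℝ} (h1 : s < s') (h2 : s' < s + P) :
    HasDerivAt (fun t => p2 γ t s') (h12 γ s s') s := by
  have hl := len_pos h h1 h2
  have h4 : HasDerivAt (fun t => dot (deriv γ s') (γ s' - γ t))
      (-(dot (deriv γ s') (deriv γ s))) s := by
    have h5 := (hasDerivAt_fst (tbl_hasDeriv h s)).const_sub (γ s').1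
    have h6 := (hasDerivAt_snd (tbl_hasDeriv h s)).const_sub (γ s').2
    have h7 := (h5.const_mul (deriv γ s').1).add (h6.const_mul (deriv γ s').2)
    refine h7.congr_deriv ?_
    simp only [dot]; ring
  have h3 := h4.div (len_hasDeriv_left h h1 h2) hl.ne'
  refine h3.congr_deriv ?_
  have hid := ident2 (deriv γ s') (deriv γ s) (γ s' - γ s)
  rw [← len_sq] at hid
  simp only [p1, h12]
  rw [dot_comm' (deriv γ s) (γ s' - γ s)]
  have e1 : det2 (deriv γ s') (γ s' - γ s) = - det2 (γ s' - γ s) (deriv γ s') :=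
    det2_neg_swap _ _
  have e2 : det2 (γ s' - γ s) (deriv γ s) = - det2 (deriv γ s) (γ s' - γ s) :=
    det2_neg_swap _ _
  rw [e1, e2] at hid
  field_simp
  linear_combination -hid

lemma h12_pos (h : IsTable Ω γ P) {s s' : ℝ} (h1 : s < s') (h2 : s' < s + P) :
    0 < h12 γ s s' :=
  div_pos (mul_pos (tbl_tan_pos h h1 h2) (tbl_tan_pos' h h1 h2)) (pow_pos (len_pos h h1 h2) 3)

lemma continuous_len (h : IsTable Ω γ P) : Continuous (fun z : ℝ × ℝ => len γ z.1 z.2) := by
  have h1 : Continuous (fun z : ℝ × ℝ => (γ z.2 - γ z.1, γ z.2 - γ z.1)) := by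
    have := tbl_cont h
    fun_prop
  exact Real.continuous_sqrt.comp (continuous_dot.comp h1)

lemma continuousOn_p1 (h : IsTable Ω γ P) :
    ContinuousOn (fun z : ℝ × ℝ => p1 γ z.1 z.2) (Pairs P) := by
  have h0 := tbl_cont h
  have h0' := tbl_deriv_cont h
  have h1 : Continuous (fun z : ℝ × ℝ => (deriv γ z.1, γ z.2 - γ z.1)) := by fun_prop
  exact (continuous_dot.comp h1).continuousOn.div (continuous_len h).continuousOn
    (fun z hz => (len_pos h hz.1 hz.2).ne')

lemma continuousOn_p2 (h : IsTable Ω γ P) :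
    ContinuousOn (fun z : ℝ × ℝ => p2 γ z.1 z.2) (Pairs P) := by
  have h0 := tbl_cont h
  have h0' := tbl_deriv_cont h
  have h1 : Continuous (fun z : ℝ × ℝ => (deriv γ z.2, γ z.2 - γ z.1)) := by fun_prop
  exact (continuous_dot.comp h1).continuousOn.div (continuous_len h).continuousOn
    (fun z hz => (len_pos h hz.1 hz.2).ne')

lemma continuousOn_h12 (h : IsTable Ω γ P) :
    ContinuousOn (fun z : ℝ × ℝ => h12 γ z.1 z.2) (Pairs P) := by
  have h0 := tbl_cont h
  have h0' := tbl_deriv_cont h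
  have h1 : Continuous (fun z : ℝ × ℝ => (deriv γ z.1, γ z.2 - γ z.1)) := by fun_prop
  have h2 : Continuous (fun z : ℝ × ℝ => (γ z.2 - γ z.1, deriv γ z.2)) := by fun_prop
  exact ((continuous_det2.comp h1).mul (continuous_det2.comp h2)).continuousOn.div
    ((continuous_len h).pow 3).continuousOn
    (fun z hz => (pow_pos (len_pos h hz.1 hz.2) 3).ne')

lemma p1_abs_lt (h : IsTable Ω γ P) {s s' : ℝ} (h1 : s < s') (h2 : s' < s + P) :
    |p1 γ s s'| < Real.sqrt (dot (deriv γ s) (deriv γ s)) := by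
  apply Real.lt_sqrt_of_sq_lt
  rw [sq_abs]
  have hl := len_pos h h1 h2
  have hid := dot_sq_add_det_sq (deriv γ s) (γ s' - γ s)
  rw [← len_sq] at hid
  have hd := tbl_tan_pos h h1 h2
  simp only [p1]
  rw [div_pow, div_lt_iff₀ (by positivity)]
  have : 0 < det2 (deriv γ s) (γ s' - γ s) ^ 2 := by positivity
  linarith

lemma p2_abs_lt (h : IsTable Ω γ P) {s s' : ℝ} (h1 : s < s') (h2 : s' < s + P) :
    |p2 γ s s'| < Real.sqrt (dot (deriv γ s') (deriv γ s')) := by
  apply Real.lt_sqrt_of_sq_lt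
  rw [sq_abs]
  have hl := len_pos h h1 h2
  have hid := dot_sq_add_det_sq (deriv γ s') (γ s' - γ s)
  rw [← len_sq] at hid
  have hd := tbl_tan_pos' h h1 h2
  have e1 : det2 (deriv γ s') (γ s' - γ s) = - det2 (γ s' - γ s) (deriv γ s') :=
    det2_neg_swap _ _
  rw [e1] at hid
  simp only [p2]
  rw [div_pow, div_lt_iff₀ (by positivity)]
  have : 0 < det2 (γ s' - γ s) (deriv γ s') ^ 2 := by positivity
  nlinarith

/-! ### limits of the momenta at the ends, next and previous point -/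

/-- component of `a` along the direction of `v`. -/
noncomputable def dirq (a v : ℝ × ℝ) : ℝ := dot a v / Real.sqrt (dot v v)

lemma dirq_smul_pos (a v : ℝ × ℝ) {t : ℝ} (ht : 0 < t) : dirq a (t • v) = dirq a v := by
  have h1 : dot (t • v) (t • v) = t ^ 2 * dot v v := by
    simp only [dot, Prod.smul_fst, Prod.smul_snd, smul_eq_mul]; ring
  have h2 : dot a (t • v) = t * dot a v := by
    simp only [dot, Prod.smul_fst, Prod.smul_snd, smul_eq_mul]; ring
  simp only [dirq]
  rw [h1, h2, Real.sqrt_mul (by positivity), Real.sqrt_sq ht.le, mul_div_mul_left _ _ ht.ne']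

lemma dirq_neg (a v : ℝ × ℝ) : dirq a (-v) = - dirq a v := by
  simp only [dirq, dot, Prod.fst_neg, Prod.snd_neg, mul_neg, neg_mul, neg_neg]
  rw [← neg_div]
  congr 1
  ring

lemma dirq_self {a : ℝ × ℝ} (ha : a ≠ 0) : dirq a a = Real.sqrt (dot a a) := by
  have h1 := dot_self_pos ha
  simp only [dirq]
  rw [div_eq_iff (Real.sqrt_pos.mpr h1).ne', Real.mul_self_sqrt h1.le]

lemma dirq_continuousAt (a : ℝ × ℝ) {v : ℝ × ℝ} (hv : v ≠ 0) :
    ContinuousAt (fun v => dirq a v) v := by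
  have h1 : Continuous (fun v : ℝ × ℝ => dot a v) := by unfold dot; fun_prop
  have h2 : Continuous (fun v : ℝ × ℝ => Real.sqrt (dot v v)) := by unfold dot; fun_prop
  exact h1.continuousAt.div h2.continuousAt (Real.sqrt_pos.mpr (dot_self_pos hv)).ne'

lemma dirq_slope_tendsto (h : IsTable Ω γ P) (s : ℝ) :
    Tendsto (fun t => dirq (deriv γ s) (slope γ s t)) (𝓝[≠] s)
      (𝓝 (Real.sqrt (dot (deriv γ s) (deriv γ s)))) := by
  have h1 := hasDerivAt_iff_tendsto_slope.mp (tbl_hasDeriv h s)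
  rw [← dirq_self (tbl_ne h s)]
  exact (dirq_continuousAt (deriv γ s) (tbl_ne h s)).tendsto.comp h1

lemma dirq_tendsto_right (h : IsTable Ω γ P) (s : ℝ) :
    Tendsto (fun t => dirq (deriv γ s) (γ t - γ s)) (𝓝[>] s)
      (𝓝 (Real.sqrt (dot (deriv γ s) (deriv γ s)))) := by
  have h1 := (dirq_slope_tendsto h s).mono_left (nhdsWithin_mono s (fun t (ht : s < t) => ht.ne'))
  refine h1.congr' ?_
  filter_upwards [self_mem_nhdsWithin] with t ht
  have ht' : (0 : ℝ) < (t - s)⁻¹ := inv_pos.mpr (sub_pos.mpr ht)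
  rw [slope_def_module, dirq_smul_pos _ _ ht']

lemma dirq_tendsto_left (h : IsTable Ω γ P) (s : ℝ) :
    Tendsto (fun t => dirq (deriv γ s) (γ t - γ s)) (𝓝[<] s)
      (𝓝 (-Real.sqrt (dot (deriv γ s) (deriv γ s)))) := by
  have h1 := ((dirq_slope_tendsto h s).mono_left
    (nhdsWithin_mono s (fun t (ht : t < s) => ht.ne))).neg
  refine h1.congr' ?_
  filter_upwards [self_mem_nhdsWithin] with t ht
  have ht' : (0 : ℝ) < (s - t)⁻¹ := inv_pos.mpr (sub_pos.mpr ht)
  rw [slope_def_module, show (t - s)⁻¹ • (γ t - γ s) = (s - t)⁻¹ • (-(γ t - γ s)) by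
    rw [smul_neg, ← neg_smul, ← neg_sub s t, inv_neg], dirq_smul_pos _ _ ht', dirq_neg, neg_neg]

lemma p1_eq_dirq (s s' : ℝ) : p1 γ s s' = dirq (deriv γ s) (γ s' - γ s) := rfl

lemma p2_eq_dirq (s s' : ℝ) : p2 γ s s' = - dirq (deriv γ s') (γ s - γ s') := by
  rw [← dirq_neg, neg_sub]; rfl

lemma p1_tendsto_right (h : IsTable Ω γ P) (s : ℝ) :
    Tendsto (fun t => p1 γ s t) (𝓝[>] s) (𝓝 (Real.sqrt (dot (deriv γ s) (deriv γ s)))) :=
  dirq_tendsto_right h s

lemma p1_tendsto_left (h : IsTable Ω γ P) (s : ℝ) :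
    Tendsto (fun t => p1 γ s t) (𝓝[<] (s + P))
      (𝓝 (-Real.sqrt (dot (deriv γ s) (deriv γ s)))) := by
  have h1 : Tendsto (fun t : ℝ => t - P) (𝓝[<] (s + P)) (𝓝[<] s) := by
    apply tendsto_nhdsWithin_of_tendsto_nhds_of_eventually_within
    · have : Tendsto (fun t : ℝ => t - P) (𝓝 (s + P)) (𝓝 (s + P - P)) :=
        (continuous_id.sub continuous_const).continuousAt.tendsto
      rw [add_sub_cancel_right] at this
      exact this.mono_left nhdsWithin_le_nhds
    · filter_upwards [self_mem_nhdsWithin] with t ht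
      have : t < s + P := ht
      show t - P < s
      linarith
  refine ((dirq_tendsto_left h s).comp h1).congr ?_
  intro t
  simp only [Function.comp, p1_eq_dirq]
  rw [(tbl_per h).sub_eq]

lemma p2_tendsto_left (h : IsTable Ω γ P) (s' : ℝ) :
    Tendsto (fun t => p2 γ t s') (𝓝[<] s')
      (𝓝 (Real.sqrt (dot (deriv γ s') (deriv γ s')))) := by
  have h1 := (dirq_tendsto_left h s').neg
  rw [neg_neg] at h1
  exact h1.congr (fun t => (p2_eq_dirq t s').symm)

lemma p2_tendsto_right (h : IsTable Ω γ P) (s' : ℝ) :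
    Tendsto (fun t => p2 γ t s') (𝓝[>] (s' - P))
      (𝓝 (-Real.sqrt (dot (deriv γ s') (deriv γ s')))) := by
  have h1 : Tendsto (fun t : ℝ => t + P) (𝓝[>] (s' - P)) (𝓝[>] s') := by
    apply tendsto_nhdsWithin_of_tendsto_nhds_of_eventually_within
    · have : Tendsto (fun t : ℝ => t + P) (𝓝 (s' - P)) (𝓝 (s' - P + P)) :=
        (continuous_id.add continuous_const).continuousAt.tendsto
      rw [sub_add_cancel] at this
      exact this.mono_left nhdsWithin_le_nhds
    · filter_upwards [self_mem_nhdsWithin] with t ht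
      have : s' - P < t := ht
      show s' < t + P
      linarith
  refine (((dirq_tendsto_right h s').comp h1).neg).congr ?_
  intro t
  simp only [Function.comp, p2_eq_dirq]
  rw [tbl_per h t]

lemma p1_strictAnti (h : IsTable Ω γ P) (s : ℝ) :
    StrictAntiOn (fun t => p1 γ s t) (Set.Ioo s (s + P)) := by
  apply strictAntiOn_of_deriv_neg (convex_Ioo _ _)
  · exact fun σ hσ => (p1_hasDeriv_right h hσ.1 hσ.2).continuousAt.continuousWithinAt
  · intro σ hσ
    rw [interior_Ioo] at hσ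
    rw [(p1_hasDeriv_right h hσ.1 hσ.2).deriv]
    linarith [h12_pos h hσ.1 hσ.2]

lemma p2_strictMono (h : IsTable Ω γ P) (s' : ℝ) :
    StrictMonoOn (fun t => p2 γ t s') (Set.Ioo (s' - P) s') := by
  apply strictMonoOn_of_deriv_pos (convex_Ioo _ _)
  · exact fun σ hσ =>
      (p2_hasDeriv_left h hσ.2 (by linarith [hσ.1])).continuousAt.continuousWithinAt
  · intro σ hσ
    rw [interior_Ioo] at hσ
    rw [(p2_hasDeriv_left h hσ.2 (by linarith [hσ.1])).deriv]
    exact h12_pos h hσ.2 (by linarith [hσ.1])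

/-- every momentum is attained by a unique chord (existence). -/
lemma exists_p1_eq (h : IsTable Ω γ P) (s v : ℝ)
    (hv : |v| < Real.sqrt (dot (deriv γ s) (deriv γ s))) :
    ∃ t, s < t ∧ t < s + P ∧ p1 γ s t = v := by
  have hP := tbl_P h
  have h1 : ContinuousOn (fun t => p1 γ s t) (Set.Ioo s (s + P)) :=
    fun σ hσ => (p1_hasDeriv_right h hσ.1 hσ.2).continuousAt.continuousWithinAt
  have : (𝓝[<] (s + P)).NeBot := inferInstance
  have : (𝓝[>] s).NeBot := inferInstance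
  have hl1 : 𝓝[<] (s + P) ≤ 𝓟 (Set.Ioo s (s + P)) := by
    rw [le_principal_iff]
    exact Ioo_mem_nhdsLT (by linarith)
  have hl2 : 𝓝[>] s ≤ 𝓟 (Set.Ioo s (s + P)) := by
    rw [le_principal_iff]
    exact Ioo_mem_nhdsGT (by linarith)
  have h2 := isPreconnected_Ioo.intermediate_value_Ioo hl1 hl2 h1 (p1_tendsto_left h s)
    (p1_tendsto_right h s)
  obtain ⟨t, ht, htv⟩ := h2 (abs_lt.mp hv)
  exact ⟨t, ht.1, ht.2, htv⟩

lemma exists_p2_eq (h : IsTable Ω γ P) (s' v : ℝ)
    (hv : |v| < Real.sqrt (dot (deriv γ s') (deriv γ s'))) :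
    ∃ t, t < s' ∧ s' < t + P ∧ p2 γ t s' = v := by
  have hP := tbl_P h
  have h1 : ContinuousOn (fun t => p2 γ t s') (Set.Ioo (s' - P) s') :=
    fun σ hσ => (p2_hasDeriv_left h hσ.2 (by linarith [hσ.1])).continuousAt.continuousWithinAt
  have : (𝓝[<] s').NeBot := inferInstance
  have : (𝓝[>] (s' - P)).NeBot := inferInstance
  have hl1 : 𝓝[>] (s' - P) ≤ 𝓟 (Set.Ioo (s' - P) s') := by
    rw [le_principal_iff]
    exact Ioo_mem_nhdsGT (by linarith)
  have hl2 : 𝓝[<] s' ≤ 𝓟 (Set.Ioo (s' - P) s') := by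
    rw [le_principal_iff]
    exact Ioo_mem_nhdsLT (by linarith)
  have h2 := isPreconnected_Ioo.intermediate_value_Ioo hl1 hl2 h1 (p2_tendsto_right h s')
    (p2_tendsto_left h s')
  obtain ⟨t, ht, htv⟩ := h2 (abs_lt.mp hv)
  exact ⟨t, ht.2, by linarith [ht.1], htv⟩

/-- **Twist data of a table** (T1). -/
theorem twistData_of_isTable (h : IsTable Ω γ P) : TwistData P (p1 γ) (p2 γ) (h12 γ) where
  hP := tbl_P h
  per1 s s' := by simp only [p1, len]; rw [tbl_per h, tbl_per h, tbl_deriv_per h]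
  per2 s s' := by simp only [p2, len]; rw [tbl_per h, tbl_per h, tbl_deriv_per h]
  perh s s' := by
    simp only [h12, len]; rw [tbl_per h, tbl_per h, tbl_deriv_per h, tbl_deriv_per h]
  der1 _ _ h1 h2 := p1_hasDeriv_right h h1 h2
  der2 _ _ h1 h2 := p2_hasDeriv_left h h1 h2
  hpos _ _ h1 h2 := h12_pos h h1 h2
  cont1 := continuousOn_p1 h
  cont2 := continuousOn_p2 h
  conth := continuousOn_h12 h
  next s s' h1 h2 := by
    obtain ⟨t, ht1, ht2, ht3⟩ := exists_p1_eq h s' (p2 γ s s') (p2_abs_lt h h1 h2)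
    exact ⟨t, ht1, ht2, ht3.symm⟩
  prev s' s'' h1 h2 := by
    obtain ⟨t, ht1, ht2, ht3⟩ := exists_p2_eq h s' (p1 γ s' s'') (p1_abs_lt h h1 h2)
    exact ⟨t, ht1, ht2, ht3⟩

end table

end Crest.Agent.R102.S0
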