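import Mathlib
import Crest.Agent.R102.Geo_821

/-!
(FIN): a table whose boundary curve lies on a conic (zero set of a nonzero polynomial of degree
at most two) is the inside of an ellipse.
-/

set_option autoImplicit false

namespace Crest.Agent.R102.S0

open Crest.AnalysisR.Billiard Set Filter Topology Matrix

/-- polynomial of degree at most two. -/
def qpoly (A B C D E F : ℝ) (x : ℝ × ℝ) : ℝ :=
  A * x.1 ^ 2 + B * x.1 * x.2 + C * x.2 ^ 2 + D * x.1 + E * x.2 + F

/-- the quadratic form part. -/
def qform (A B C : ℝ) (v : ℝ × ℝ) : ℝ := A * v.1 ^ 2 + B * v.1 * v.2 + C * v.2 ^ 2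

/-- linear part at `p`. -/
def qlin (A B C D E : ℝ) (p v : ℝ × ℝ) : ℝ :=
  2 * A * p.1 * v.1 + B * (p.1 * v.2 + p.2 * v.1) + 2 * C * p.2 * v.2 + D * v.1 + E * v.2

lemma qpoly_line (A B C D E F : ℝ) (p v : ℝ × ℝ) (t : ℝ) :
    qpoly A B C D E F (p + t • v) =
      qform A B C v * t ^ 2 + qlin A B C D E p v * t + qpoly A B C D E F p := by
  simp only [qpoly, qform, qlin, Prod.fst_add, Prod.snd_add, Prod.smul_fst, Prod.smul_snd,
    smul_eq_mul]
  ring

/-- a line through a point of a bounded open convex set: the two boundary parameters. -/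
lemma exists_ends {Ω : Set (ℝ × ℝ)} (ho : IsOpen Ω) (hb : Bornology.IsBounded Ω)
    (hc : Convex ℝ Ω) {p v : ℝ × ℝ} (hp : p ∈ Ω) (hv : v ≠ 0) :
    ∃ a b : ℝ, a < 0 ∧ 0 < b ∧ p + a • v ∈ frontier Ω ∧ p + b • v ∈ frontier Ω ∧
      ∀ t : ℝ, p + t • v ∈ Ω ↔ a < t ∧ t < b := by
  set I : Set ℝ := {t | p + t • v ∈ Ω} with hI
  have hcontf : Continuous (fun t : ℝ => p + t • v) := by fun_prop
  have hIo : IsOpen I := ho.preimage hcontf
  have h0 : (0 : ℝ) ∈ I := by simp only [hI, mem_ofPred_eq, zero_smul, add_zero]; exact hp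
  have hIc : Convex ℝ I := by
    intro s hs t ht α β hα hβ hαβ
    have := hc hs ht hα hβ hαβ
    have he : α • (p + s • v) + β • (p + t • v) = p + (α • s + β • t) • v := by
      simp only [smul_add, smul_smul, add_smul, smul_eq_mul]
      have : α • p + β • p = p := by rw [← add_smul, hαβ, one_smul]
      nth_rewrite 3 [← this]
      abel
    rw [he] at this
    exact this
  have hnv : 0 < ‖v‖ := norm_pos_iff.mpr hv
  obtain ⟨R, hR⟩ := hb.exists_norm_le
  have hbd : ∀ t ∈ I, |t| ≤ (R + ‖p‖) / ‖v‖ := by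
    intro t ht
    rw [le_div_iff₀ hnv]
    have h1 : ‖t • v‖ ≤ ‖p + t • v‖ + ‖p‖ := by
      have : t • v = (p + t • v) - p := by abel
      calc ‖t • v‖ = ‖(p + t • v) - p‖ := by rw [← this]
        _ ≤ ‖p + t • v‖ + ‖p‖ := norm_sub_le _ _
    rw [norm_smul, Real.norm_eq_abs] at h1
    linarith [hR _ ht]
  have hbA : BddAbove I := ⟨_, fun t ht => (abs_le.mp (hbd t ht)).2⟩
  have hbB : BddBelow I := ⟨_, fun t ht => (abs_le.mp (hbd t ht)).1⟩
  have hne : I.Nonempty := ⟨0, h0⟩
  have hsup : sSup I ∉ I := by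
    intro hmem
    obtain ⟨ε, hε, hball⟩ := Metric.isOpen_iff.mp hIo _ hmem
    have : sSup I + ε / 2 ∈ I := hball (by
      rw [Metric.mem_ball, Real.dist_eq, show sSup I + ε / 2 - sSup I = ε / 2 by ring,
        abs_of_pos (by linarith)]; linarith)
    linarith [le_csSup hbA this]
  have hinf : sInf I ∉ I := by
    intro hmem
    obtain ⟨ε, hε, hball⟩ := Metric.isOpen_iff.mp hIo _ hmem
    have : sInf I - ε / 2 ∈ I := hball (by
      rw [Metric.mem_ball, Real.dist_eq, show sInf I - ε / 2 - sInf I = -(ε / 2) by ring,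
        abs_neg, abs_of_pos (by linarith)]; linarith)
    linarith [csInf_le hbB this]
  have hsupc : sSup I ∈ closure I := csSup_mem_closure hne hbA
  have hinfc : sInf I ∈ closure I := csInf_mem_closure hne hbB
  have hcl : ∀ t ∈ closure I, p + t • v ∈ closure Ω := by
    intro t ht
    exact closure_mono (image_subset_iff.mpr (fun t ht => ht))
      (image_closure_subset_closure_image hcontf (mem_image_of_mem _ ht))
  have hfr : ∀ t ∈ closure I, t ∉ I → p + t • v ∈ frontier Ω := by
    intro t ht hnt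
    rw [ho.frontier_eq]
    exact ⟨hcl t ht, hnt⟩
  have hiff : ∀ t : ℝ, p + t • v ∈ Ω ↔ sInf I < t ∧ t < sSup I := by
    intro t
    constructor
    · intro ht
      have ht' : t ∈ I := ht
      refine ⟨lt_of_le_of_ne (csInf_le hbB ht') ?_, lt_of_le_of_ne (le_csSup hbA ht') ?_⟩
      · intro he; exact hinf (he ▸ ht')
      · intro he; exact hsup (he ▸ ht')
    · rintro ⟨h1, h2⟩
      obtain ⟨a, ha, hat⟩ := exists_lt_of_csInf_lt hne h1
      obtain ⟨b, hb', hbt⟩ := exists_lt_of_lt_csSup hne h2
      exact hIc.ordConnected.out ha hb' ⟨hat.le, hbt.le⟩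
  have h00 := (hiff 0).mp (by simpa using hp)
  exact ⟨sInf I, sSup I, h00.1, h00.2, hfr _ hinfc hinf, hfr _ hsupc hsup, hiff⟩

theorem ellipse_of_conic {Ω : Set (ℝ × ℝ)} {γ : ℝ → ℝ × ℝ} {P : ℝ} (h : IsTable Ω γ P)
    (A B C D E F : ℝ)
    (hne : ¬ (A = 0 ∧ B = 0 ∧ C = 0 ∧ D = 0 ∧ E = 0 ∧ F = 0))
    (hz : ∀ s, qpoly A B C D E F (γ s) = 0) :
    ∃ (c : ℝ × ℝ) (Q : Matrix (Fin 2) (Fin 2) ℝ), Q.PosDef ∧
      Ω = {x : ℝ × ℝ | dotProduct ![x.1 - c.1, x.2 - c.2]
        (Q.mulVec ![x.1 - c.1, x.2 - c.2]) < 1} := by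
  obtain ⟨p, hp⟩ := tbl_nonempty h
  have hfr : ∀ z ∈ frontier Ω, qpoly A B C D E F z = 0 := by
    intro z hz'
    rw [← tbl_range h] at hz'
    obtain ⟨s, rfl⟩ := hz'
    exact hz s
  have hends := fun {v : ℝ × ℝ} (hv : v ≠ 0) =>
    exists_ends (tbl_open h) h.2.1 (tbl_convex h) hp hv
  -- factorisation on lines through p
  have hfac : ∀ v : ℝ × ℝ, v ≠ 0 → ∃ a b : ℝ, a < 0 ∧ 0 < b ∧
      (∀ t, qpoly A B C D E F (p + t • v) = qform A B C v * (t - a) * (t - b)) ∧
      (∀ t : ℝ, p + t • v ∈ Ω ↔ a < t ∧ t < b) := by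
    intro v hv
    obtain ⟨a, b, ha, hb, hfa, hfb, hiff⟩ := hends hv
    refine ⟨a, b, ha, hb, ?_, hiff⟩
    have h1 := hfr _ hfa
    have h2 := hfr _ hfb
    rw [qpoly_line] at h1 h2
    intro t
    rw [qpoly_line]
    have hab : a - b ≠ 0 := by linarith
    have h3 : qlin A B C D E p v = - qform A B C v * (a + b) := by
      have : (a - b) * (qform A B C v * (a + b) + qlin A B C D E p v) = 0 := by
        linear_combination h1 - h2
      rcases mul_eq_zero.mp this with h4 | h4
      · exact absurd h4 hab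
      · linarith
    have h4 : qpoly A B C D E F p = qform A B C v * (a * b) := by
      rw [h3] at h1
      linear_combination h1
    rw [h3, h4]
    ring
  -- q(p) ≠ 0
  have hqp : qpoly A B C D E F p ≠ 0 := by
    intro h0
    apply hne
    have hall : ∀ v : ℝ × ℝ, v ≠ 0 → qform A B C v = 0 ∧ qlin A B C D E p v = 0 := by
      intro v hv
      obtain ⟨a, b, ha, hb, hf, -⟩ := hfac v hv
      have h1 := hf 0
      simp only [zero_smul, add_zero, h0] at h1
      have h2 : qform A B C v = 0 := by
        have : qform A B C v * (a * b) = 0 := by linear_combination -h1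
        rcases mul_eq_zero.mp this with h3 | h3
        · exact h3
        · exact absurd h3 (mul_neg_of_neg_of_pos ha hb).ne
      refine ⟨h2, ?_⟩
      have h3 := hf 1
      rw [qpoly_line, h2, h0] at h3
      linarith
    have e1 := hall (1, 0) (by simp)
    have e2 := hall (0, 1) (by simp)
    have e3 := hall (1, 1) (by simp)
    simp only [qform, qlin] at e1 e2 e3
    have hA : A = 0 := by linarith [e1.1]
    have hC : C = 0 := by linarith [e2.1]
    have hB : B = 0 := by linarith [e3.1]
    subst hA hC hB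
    have hD : D = 0 := by linarith [e1.2]
    have hE : E = 0 := by linarith [e2.2]
    subst hD hE
    have hF : F = 0 := by simpa [qpoly] using h0
    exact ⟨rfl, rfl, rfl, rfl, rfl, hF⟩
  -- WLOG sign: work with σ = -sign
  -- positive definiteness of (-q(p)) * form
  set k0 := - qpoly A B C D E F p with hk0
  have hdef : ∀ v : ℝ × ℝ, v ≠ 0 → 0 < k0 * qform A B C v := by
    intro v hv
    obtain ⟨a, b, ha, hb, hf, -⟩ := hfac v hv
    have h1 := hf 0
    simp only [zero_smul, add_zero] at h1
    have h2 : k0 = qform A B C v * (-(a * b)) := by rw [hk0, h1]; ring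
    have h3 : 0 < -(a * b) := by nlinarith
    have h4 : qform A B C v ≠ 0 := by
      intro h5
      rw [h5, zero_mul] at h1
      rw [zero_mul] at h1
      exact hqp h1
    rw [h2]
    have : 0 < qform A B C v ^ 2 := by positivity
    nlinarith
  have hk0ne : k0 ≠ 0 := by rw [hk0]; exact neg_ne_zero.mpr hqp
  -- discriminant
  have hA : 0 < k0 * A := by
    have := hdef (1, 0) (by simp)
    simpa [qform] using this
  have hdisc : 0 < 4 * A * C - B ^ 2 := by
    have hAne : A ≠ 0 := by
      intro h0; rw [h0, mul_zero] at hA; exact lt_irrefl _ hA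
    have h1 := hdef (-B, 2 * A) (by
      intro h0
      have := congrArg Prod.snd h0
      simp at this
      exact hAne this)
    have h2 : k0 * qform A B C (-B, 2 * A) = (k0 * A) * (4 * A * C - B ^ 2) := by
      simp only [qform]; ring
    rw [h2] at h1
    exact (mul_pos_iff_of_pos_left hA).mp h1
  set dd := 4 * A * C - B ^ 2 with hdd
  -- centre
  set c1 := (B * E - 2 * C * D) / dd with hc1
  set c2 := (B * D - 2 * A * E) / dd with hc2
  have hlin1 : 2 * A * c1 + B * c2 + D = 0 := by
    rw [hc1, hc2]; field_simp; rw [hdd]; ring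
  have hlin2 : B * c1 + 2 * C * c2 + E = 0 := by
    rw [hc1, hc2]; field_simp; rw [hdd]; ring
  set k := - qpoly A B C D E F (c1, c2) with hk
  have hcen : ∀ x : ℝ × ℝ, qpoly A B C D E F x =
      qform A B C (x.1 - c1, x.2 - c2) - k := by
    intro x
    simp only [qpoly, qform, hk]
    linear_combination (x.1 - c1) * hlin1 + (x.2 - c2) * hlin2
  have hkk : 0 < k0 * k := by
    have h1 := hcen p
    have h2 : k0 * k = k0 * qform A B C (p.1 - c1, p.2 - c2) + k0 ^ 2 := by
      rw [hk0]; rw [h1]; ring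
    rw [h2]
    have h3 : 0 ≤ k0 * qform A B C (p.1 - c1, p.2 - c2) := by
      by_cases h4 : (p.1 - c1, p.2 - c2) = ((0 : ℝ), (0 : ℝ))
      · rw [h4]; simp [qform]
      · exact (hdef _ h4).le
    positivity
  have hkne : k ≠ 0 := by
    intro h0; rw [h0, mul_zero] at hkk; exact lt_irrefl _ hkk
  refine ⟨(c1, c2), !![A / k, B / (2 * k); B / (2 * k), C / k], ?_, ?_⟩
  · -- positive definite
    have hform : ∀ x : Fin 2 → ℝ, dotProduct x ((!![A / k, B / (2 * k); B / (2 * k), C / k] :
        Matrix (Fin 2) (Fin 2) ℝ).mulVec x) = qform A B C (x 0, x 1) / k := by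
      intro x
      simp [dotProduct, Matrix.mulVec, Fin.sum_univ_two, qform]
      field_simp
      ring
    rw [Matrix.posDef_iff_dotProduct_mulVec]
    refine ⟨?_, ?_⟩
    · ext i j
      fin_cases i <;> fin_cases j <;> simp
    · intro x hx
      have hx' : (x 0, x 1) ≠ ((0 : ℝ), (0 : ℝ)) := by
        intro h0
        apply hx
        funext i
        fin_cases i
        · exact congrArg Prod.fst h0
        · exact congrArg Prod.snd h0
      have h1 := hform x
      have hstar : star x = x := by funext i; simp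
      rw [hstar, h1]
      have h2 := hdef _ hx'
      have h3 : qform A B C (x 0, x 1) / k = (k0 * qform A B C (x 0, x 1)) / (k0 * k) := by
        field_simp
      rw [h3]
      exact div_pos h2 hkk
  · ext x
    have hform : dotProduct ![x.1 - c1, x.2 - c2]
        ((!![A / k, B / (2 * k); B / (2 * k), C / k] :
        Matrix (Fin 2) (Fin 2) ℝ).mulVec ![x.1 - c1, x.2 - c2]) =
        qform A B C (x.1 - c1, x.2 - c2) / k := by
      simp [dotProduct, Matrix.mulVec, Fin.sum_univ_two, qform]
      field_simp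
      ring
    simp only [mem_ofPred_eq]
    rw [hform]
    -- k0 * q(x) < 0 iff x ∈ Ω
    have hside : x ∈ Ω ↔ k0 * qpoly A B C D E F x < 0 := by
      by_cases hxp : x = p
      · rw [hxp]
        constructor
        · intro _
          have : 0 < k0 ^ 2 := by positivity
          rw [hk0] at this ⊢
          nlinarith
        · intro _; exact hp
      · have hv : x - p ≠ 0 := sub_ne_zero.mpr hxp
        obtain ⟨a, b, ha, hb, hf, hiff⟩ := hfac _ hv
        have h1 := hf 1
        have h2 := hiff 1
        have hx1 : p + (1 : ℝ) • (x - p) = x := by rw [one_smul]; abel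
        rw [hx1] at h1 h2
        rw [h2, h1]
        have h3 := hdef _ hv
        constructor
        · rintro ⟨-, h5⟩
          have : k0 * (qform A B C (x - p) * (1 - a) * (1 - b)) =
            (k0 * qform A B C (x - p)) * ((1 - a) * (1 - b)) := by ring
          rw [this]
          have h6 : (1 - a) * (1 - b) < 0 := mul_neg_of_pos_of_neg (by linarith) (by linarith)
          exact mul_neg_of_pos_of_neg h3 h6
        · intro h5
          refine ⟨by linarith, ?_⟩
          by_contra h6
          push Not at h6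
          have : k0 * (qform A B C (x - p) * (1 - a) * (1 - b)) =
            (k0 * qform A B C (x - p)) * ((1 - a) * (1 - b)) := by ring
          rw [this] at h5
          have h7 : 0 ≤ (1 - a) * (1 - b) := mul_nonneg (by linarith) (by linarith)
          have h8 := mul_nonneg h3.le h7
          linarith
    rw [hside, hcen x]
    have h9 : qform A B C (x.1 - c1, x.2 - c2) / k < 1 ↔
        (k0 * qform A B C (x.1 - c1, x.2 - c2)) / (k0 * k) < 1 := by
      rw [mul_div_mul_left _ _ hk0ne]
    rw [h9, div_lt_one hkk]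
    constructor
    · intro h10; nlinarith
    · intro h10; nlinarith

end Crest.Agent.R102.S0
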