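import Crest.Agent.R102.Geo_821
import Crest.Agent.R102.Geo5_576
import Crest.Agent.R102.SmA_262

/-!
Row 102, leaf (T5) (helper576), part a: the Lazutkin coordinate of a table.

For a table with boundary curve `γ` there are a smooth 1-periodic real `q`, a smooth increasing
`σ` with `σ (x + 1) = σ x + P` and `K ≠ 0` with `γ (σ x) = γ (σ 0) + K * Gc q x` (complex notation),
where `Gc q` is the curve with velocity `exp(-2q + iΘ)`, `Θ' = exp q` of `Geo5_576`.
-/

set_option autoImplicit false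

open Set Filter Topology MeasureTheory
open scoped Real ContDiff ComplexConjugate
open Crest.AnalysisR.Billiard

noncomputable section

namespace Crest.Agent.R102.T5

open Crest.Agent.R102.S0
open Crest.Agent.R102.A929 (ofR Pq EP Xq LocQ IsAct RStarP RR Sm leafSMR exists_locQ)
open Crest.Agent.R102.G576

/-- a planar vector as a complex number -/
def toC (v : ℝ × ℝ) : ℂ := (v.1 : ℂ) + (v.2 : ℂ) * Complex.I

@[simp] lemma toC_re (v : ℝ × ℝ) : (toC v).re = v.1 := by simp [toC]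
@[simp] lemma toC_im (v : ℝ × ℝ) : (toC v).im = v.2 := by simp [toC]

lemma toC_sub (v w : ℝ × ℝ) : toC (v - w) = toC v - toC w := by
  apply Complex.ext <;> simp

lemma dot_eq (v w : ℝ × ℝ) : dot v w = (toC w * conj (toC v)).re := by
  simp [dot, Complex.mul_re]; ring

lemma det2_eq (v w : ℝ × ℝ) : det2 v w = (conj (toC v) * toC w).im := by
  simp [det2, Complex.mul_im]; ring

lemma norm_toC (v : ℝ × ℝ) : ‖toC v‖ = Real.sqrt (dot v v) := by
  rw [Complex.norm_def, Complex.normSq_apply]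
  simp [dot]

lemma toC_hasDerivAt {f : ℝ → ℝ × ℝ} {f' : ℝ × ℝ} {s : ℝ} (h : HasDerivAt f f' s) :
    HasDerivAt (fun t => toC (f t)) (toC f') s :=
  (hasDerivAt_fst h).ofReal_comp.add ((hasDerivAt_snd h).ofReal_comp.mul_const Complex.I)

/-- squared speed -/
def dd (γ : ℝ → ℝ × ℝ) (s : ℝ) : ℝ := dot (deriv γ s) (deriv γ s)

/-- `det (γ', γ'')` -/
def cur (γ : ℝ → ℝ × ℝ) (s : ℝ) : ℝ := det2 (deriv γ s) (deriv (deriv γ) s)

/-- Lazutkin density `κ^{2/3} |γ'|` -/
def lz (γ : ℝ → ℝ × ℝ) (s : ℝ) : ℝ :=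
  Real.exp (2 / 3 * Real.log (cur γ s) - 1 / 2 * Real.log (dd γ s))

/-- its primitive -/
def Lz (γ : ℝ → ℝ × ℝ) (s : ℝ) : ℝ := ∫ t in (0 : ℝ)..s, lz γ t

/-- Lazutkin length -/
def ell (γ : ℝ → ℝ × ℝ) (P : ℝ) : ℝ := Lz γ P

/-- normalised Lazutkin coordinate -/
def xi (γ : ℝ → ℝ × ℝ) (P s : ℝ) : ℝ := Lz γ s / ell γ P

section

variable {Ω : Set (ℝ × ℝ)} {γ : ℝ → ℝ × ℝ} {P : ℝ}

lemma tbl_deriv2_smooth (h : IsTable Ω γ P) : ContDiff ℝ (⊤ : ℕ∞) (deriv (deriv γ)) := by
  have h1 : ContDiff ℝ ((⊤ : ℕ∞) + 1) (deriv γ) := by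
    simpa using tbl_deriv_smooth h
  exact (contDiff_succ_iff_deriv.mp h1).2.2

lemma dd_pos (h : IsTable Ω γ P) (s : ℝ) : 0 < dd γ s := dot_self_pos (tbl_ne h s)
lemma cur_pos (h : IsTable Ω γ P) (s : ℝ) : 0 < cur γ s := tbl_curv h s

lemma contDiff_dd (h : IsTable Ω γ P) : ContDiff ℝ (⊤ : ℕ∞) (dd γ) := by
  have h1 := tbl_deriv_smooth h
  exact (h1.fst.mul h1.fst).add (h1.snd.mul h1.snd)

lemma contDiff_cur (h : IsTable Ω γ P) : ContDiff ℝ (⊤ : ℕ∞) (cur γ) := by
  have h1 := tbl_deriv_smooth h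
  have h2 := tbl_deriv2_smooth h
  exact (h1.fst.mul h2.snd).sub (h1.snd.mul h2.fst)

lemma contDiff_lz (h : IsTable Ω γ P) : ContDiff ℝ (⊤ : ℕ∞) (lz γ) := by
  have h1 := (contDiff_cur h).log (fun s => (cur_pos h s).ne')
  have h2 := (contDiff_dd h).log (fun s => (dd_pos h s).ne')
  exact ((contDiff_const.mul h1).sub (contDiff_const.mul h2)).exp

lemma lz_pos (s : ℝ) : 0 < lz γ s := Real.exp_pos _

lemma hasDerivAt_Lz (h : IsTable Ω γ P) (s : ℝ) : HasDerivAt (Lz γ) (lz γ s) s := by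
  have hc : Continuous (lz γ) := (contDiff_lz h).continuous
  exact intervalIntegral.integral_hasDerivAt_right (hc.intervalIntegrable _ _)
    (hc.stronglyMeasurableAtFilter _ _) hc.continuousAt

lemma contDiff_Lz (h : IsTable Ω γ P) : ContDiff ℝ (⊤ : ℕ∞) (Lz γ) := by
  rw [contDiff_infty_iff_deriv]
  have h1 : deriv (Lz γ) = lz γ := funext (fun s => (hasDerivAt_Lz h s).deriv)
  exact ⟨fun s => (hasDerivAt_Lz h s).differentiableAt, by rw [h1]; exact contDiff_lz h⟩

lemma tbl_deriv2_per (h : IsTable Ω γ P) : Function.Periodic (deriv (deriv γ)) P := by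
  intro s
  have h1 : (fun t => deriv γ (t + P)) = deriv γ := funext (tbl_deriv_per h)
  have h2 : deriv (fun t => deriv γ (t + P)) s = deriv (deriv γ) (s + P) :=
    deriv_comp_add_const (deriv γ) P s
  rw [← h2, h1]

lemma lz_per (h : IsTable Ω γ P) (s : ℝ) : lz γ (s + P) = lz γ s := by
  unfold lz cur dd
  rw [tbl_deriv_per h, tbl_deriv2_per h]

lemma Lz_per (h : IsTable Ω γ P) (s : ℝ) : Lz γ (s + P) = Lz γ s + ell γ P := by
  have h1 : ∀ x, HasDerivAt (fun x => Lz γ (x + P) - Lz γ x) 0 x := by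
    intro x
    have h2 := (hasDerivAt_Lz h (x + P)).comp_add_const x P
    have h3 := h2.sub (hasDerivAt_Lz h x)
    rw [lz_per h, sub_self] at h3
    exact h3
  have h4 := is_const_of_deriv_eq_zero (fun x => (h1 x).differentiableAt)
    (fun x => (h1 x).deriv) s 0
  simp only [zero_add] at h4
  have h5 : Lz γ 0 = 0 := by unfold Lz; simp
  rw [h5] at h4
  unfold ell
  linarith

lemma Lz_mono (h : IsTable Ω γ P) : StrictMono (Lz γ) := by
  apply strictMono_of_deriv_pos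
  intro s
  rw [(hasDerivAt_Lz h s).deriv]
  exact lz_pos s

lemma ell_pos (h : IsTable Ω γ P) : 0 < ell γ P := by
  have h5 : Lz γ 0 = 0 := by unfold Lz; simp
  have := Lz_mono h (tbl_P h)
  rw [h5] at this
  exact this

lemma hasDerivAt_xi (h : IsTable Ω γ P) (s : ℝ) : HasDerivAt (xi γ P) (lz γ s / ell γ P) s :=
  (hasDerivAt_Lz h s).div_const _

lemma contDiff_xi (h : IsTable Ω γ P) : ContDiff ℝ (⊤ : ℕ∞) (xi γ P) :=
  (contDiff_Lz h).div_const _

lemma xi_mono (h : IsTable Ω γ P) : StrictMono (xi γ P) := by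
  intro a b hab
  exact div_lt_div_of_pos_right (Lz_mono h hab) (ell_pos h)

lemma xi_per (h : IsTable Ω γ P) (s : ℝ) : xi γ P (s + P) = xi γ P s + 1 := by
  unfold xi
  rw [Lz_per h, add_div, div_self (ell_pos h).ne']

lemma xi_nat (h : IsTable Ω γ P) (n : ℕ) : xi γ P (n * P) = n ∧ xi γ P (-(n * P)) = -n := by
  induction n with
  | zero =>
    have h5 : Lz γ 0 = 0 := by unfold Lz; simp
    simp [xi, h5]
  | succ n ih =>
    constructor
    · have := xi_per h (n * P)
      rw [ih.1] at this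
      have h2 : ((n + 1 : ℕ) : ℝ) * P = n * P + P := by push_cast; ring
      rw [h2, this]
      push_cast
      rfl
    · have := xi_per h (-(((n + 1 : ℕ) : ℝ) * P))
      have h2 : -(((n + 1 : ℕ) : ℝ) * P) + P = -(n * P) := by push_cast; ring
      rw [h2, ih.2] at this
      push_cast at this ⊢
      linarith

lemma xi_surj (h : IsTable Ω γ P) : Function.Surjective (xi γ P) := by
  intro y
  obtain ⟨n, hn⟩ := exists_nat_ge |y|
  rw [abs_le] at hn
  have h1 := xi_nat h n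
  exact mem_range_of_exists_le_of_exists_ge (contDiff_xi h).continuous
    ⟨-(n * P), by rw [h1.2]; exact hn.1⟩ ⟨n * P, by rw [h1.1]; exact hn.2⟩

/-- the Lazutkin coordinate as a homeomorphism -/
def xiH (h : IsTable Ω γ P) : ℝ ≃ₜ ℝ :=
  (StrictMono.orderIsoOfSurjective _ (xi_mono h) (xi_surj h)).toHomeomorph

lemma xiH_apply (h : IsTable Ω γ P) (s : ℝ) : xiH h s = xi γ P s := rfl

/-- inverse of the Lazutkin coordinate -/
def sig (h : IsTable Ω γ P) (x : ℝ) : ℝ := (xiH h).symm x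

lemma xi_sig (h : IsTable Ω γ P) (x : ℝ) : xi γ P (sig h x) = x := (xiH h).apply_symm_apply x

lemma sig_xi (h : IsTable Ω γ P) (s : ℝ) : sig h (xi γ P s) = s := (xiH h).symm_apply_apply s

lemma contDiff_sig (h : IsTable Ω γ P) : ContDiff ℝ (⊤ : ℕ∞) (sig h) :=
  Homeomorph.contDiff_symm_deriv (xiH h) (f' := fun s => lz γ s / ell γ P)
    (fun s => (div_pos (lz_pos s) (ell_pos h)).ne') (hasDerivAt_xi h) (contDiff_xi h)

lemma sig_mono (h : IsTable Ω γ P) : StrictMono (sig h) := by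
  intro a b hab
  by_contra hc
  push Not at hc
  have := (xi_mono h).monotone hc
  rw [xi_sig, xi_sig] at this
  linarith

lemma sig_surj (h : IsTable Ω γ P) : Function.Surjective (sig h) := fun s => ⟨_, sig_xi h s⟩

lemma sig_per (h : IsTable Ω γ P) (x : ℝ) : sig h (x + 1) = sig h x + P := by
  apply (xi_mono h).injective
  rw [xi_per h, xi_sig, xi_sig]

/-- derivative of `sig` -/
def sd (h : IsTable Ω γ P) (x : ℝ) : ℝ := ell γ P / lz γ (sig h x)

lemma sd_pos (h : IsTable Ω γ P) (x : ℝ) : 0 < sd h x := div_pos (ell_pos h) (lz_pos _)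

lemma hasDerivAt_sig (h : IsTable Ω γ P) (x : ℝ) : HasDerivAt (sig h) (sd h x) x := by
  have h1 := HasDerivAt.of_local_left_inverse (f := xi γ P) (g := sig h) (a := x)
    (contDiff_sig h).continuous.continuousAt (hasDerivAt_xi h (sig h x))
    (div_pos (lz_pos _) (ell_pos h)).ne' (Eventually.of_forall (xi_sig h))
  rw [inv_div] at h1
  exact h1

lemma contDiff_sd (h : IsTable Ω γ P) : ContDiff ℝ (⊤ : ℕ∞) (sd h) :=
  contDiff_const.div ((contDiff_lz h).comp (contDiff_sig h)) (fun _ => (lz_pos _).ne')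

/-- the function `q`: one third of the logarithm of the normalised curvature -/
def q0 (h : IsTable Ω γ P) (x : ℝ) : ℝ :=
  Real.log (ell γ P) + 1 / 3 * Real.log (cur γ (sig h x)) - 1 / 2 * Real.log (dd γ (sig h x))

lemma contDiff_q0 (h : IsTable Ω γ P) : ContDiff ℝ (⊤ : ℕ∞) (q0 h) := by
  have h1 := ((contDiff_cur h).comp (contDiff_sig h)).log (fun s => (cur_pos h _).ne')
  have h2 := ((contDiff_dd h).comp (contDiff_sig h)).log (fun s => (dd_pos h _).ne')
  exact (contDiff_const.add (contDiff_const.mul h1)).sub (contDiff_const.mul h2)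

lemma q0_per (h : IsTable Ω γ P) (x : ℝ) : q0 h (x + 1) = q0 h x := by
  unfold q0 cur dd
  rw [sig_per h, tbl_deriv_per h, tbl_deriv2_per h]

/-- velocity in the Lazutkin coordinate -/
def vel (h : IsTable Ω γ P) (x : ℝ) : ℂ := toC (deriv γ (sig h x)) * (sd h x : ℂ)

lemma hasDerivAt_cv (h : IsTable Ω γ P) (x : ℝ) :
    HasDerivAt (fun x => toC (γ (sig h x))) (vel h x) x := by
  have h1 := (toC_hasDerivAt (tbl_hasDeriv h (sig h x))).scomp x (hasDerivAt_sig h x)
  have h2 : (sd h x) • toC (deriv γ (sig h x)) = vel h x := by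
    rw [Complex.real_smul, vel, mul_comm]
  rw [h2] at h1
  exact h1

lemma hasDerivAt_vel (h : IsTable Ω γ P) (x : ℝ) :
    HasDerivAt (vel h) (toC (deriv (deriv γ) (sig h x)) * (sd h x : ℂ) * (sd h x : ℂ) +
      toC (deriv γ (sig h x)) * ((deriv (sd h) x : ℝ) : ℂ)) x := by
  have h1 := (toC_hasDerivAt (tbl_hasDeriv2 h (sig h x))).scomp x (hasDerivAt_sig h x)
  have h3 : HasDerivAt (sd h) (deriv (sd h) x) x :=
    (((contDiff_sd h).differentiable (by simp)) x).hasDerivAt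
  have h4 := h1.mul h3.ofReal_comp
  have h2 : (sd h x) • toC (deriv (deriv γ) (sig h x)) =
      toC (deriv (deriv γ) (sig h x)) * (sd h x : ℂ) := by
    rw [Complex.real_smul, mul_comm]
  rw [h2] at h4
  exact h4

lemma norm_vel_sq (h : IsTable Ω γ P) (x : ℝ) :
    ‖vel h x‖ ^ 2 = ell γ P ^ 6 * Real.exp (-4 * q0 h x) := by
  unfold vel
  rw [norm_mul, mul_pow, norm_toC, Real.sq_sqrt (dot_self_nonneg _), Complex.norm_real,
    Real.norm_of_nonneg (sd_pos h x).le]
  have h1 := dd_pos h (sig h x)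
  have h2 := cur_pos h (sig h x)
  have h3 := ell_pos h
  have e1 : dot (deriv γ (sig h x)) (deriv γ (sig h x)) = Real.exp (Real.log (dd γ (sig h x))) :=
    (Real.exp_log h1).symm
  rw [e1]
  unfold sd lz q0
  rw [div_pow, ← Real.exp_nat_mul, div_eq_mul_inv, ← Real.exp_neg]
  have e2 : ell γ P ^ 6 * Real.exp (-4 * (Real.log (ell γ P) + 1 / 3 * Real.log (cur γ (sig h x)) -
      1 / 2 * Real.log (dd γ (sig h x)))) = ell γ P ^ 2 *
      Real.exp (-4 / 3 * Real.log (cur γ (sig h x)) + 2 * Real.log (dd γ (sig h x))) := by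
    have e3 : -4 * (Real.log (ell γ P) + 1 / 3 * Real.log (cur γ (sig h x)) -
      1 / 2 * Real.log (dd γ (sig h x))) = -((4 : ℕ) * Real.log (ell γ P)) +
      (-4 / 3 * Real.log (cur γ (sig h x)) + 2 * Real.log (dd γ (sig h x))) := by
      push_cast; ring
    rw [e3, Real.exp_add, Real.exp_neg, Real.exp_nat_mul, Real.exp_log h3]
    field_simp
  rw [e2, mul_left_comm, ← Real.exp_add]
  congr 2
  push_cast
  ring

lemma im_vel (h : IsTable Ω γ P) (x : ℝ) :
    (conj (vel h x) * (toC (deriv (deriv γ) (sig h x)) * (sd h x : ℂ) * (sd h x : ℂ) +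
      toC (deriv γ (sig h x)) * ((deriv (sd h) x : ℝ) : ℂ))).im =
    ‖vel h x‖ ^ 2 * Real.exp (q0 h x) := by
  have e0 : conj (vel h x) * (toC (deriv (deriv γ) (sig h x)) * (sd h x : ℂ) * (sd h x : ℂ) +
      toC (deriv γ (sig h x)) * ((deriv (sd h) x : ℝ) : ℂ)) =
      ((sd h x ^ 3 : ℝ) : ℂ) * (conj (toC (deriv γ (sig h x))) * toC (deriv (deriv γ) (sig h x))) +
      ((sd h x * deriv (sd h) x * ‖toC (deriv γ (sig h x))‖ ^ 2 : ℝ) : ℂ) := by
    unfold vel
    rw [map_mul, Complex.conj_ofReal]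
    have := Complex.mul_conj' (toC (deriv γ (sig h x)))
    push_cast
    rw [← this]
    ring
  rw [e0, Complex.add_im, Complex.ofReal_im, add_zero, Complex.im_ofReal_mul, ← det2_eq]
  have h1 := dd_pos h (sig h x)
  have h2 := cur_pos h (sig h x)
  have h3 := ell_pos h
  have e4 : ‖vel h x‖ ^ 2 = dd γ (sig h x) * sd h x ^ 2 := by
    unfold vel
    rw [norm_mul, mul_pow, norm_toC, Real.sq_sqrt (dot_self_nonneg _), Complex.norm_real,
      Real.norm_of_nonneg (sd_pos h x).le]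
    rfl
  rw [e4]
  have e5 : sd h x * cur γ (sig h x) = dd γ (sig h x) * Real.exp (q0 h x) := by
    have e6 : sd h x = Real.exp (Real.log (ell γ P) - (2 / 3 * Real.log (cur γ (sig h x)) -
        1 / 2 * Real.log (dd γ (sig h x)))) := by
      rw [Real.exp_sub, Real.exp_log h3]
      rfl
    have e7 : cur γ (sig h x) = Real.exp (Real.log (cur γ (sig h x))) := (Real.exp_log h2).symm
    have e8 : dd γ (sig h x) = Real.exp (Real.log (dd γ (sig h x))) := (Real.exp_log h1).symm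
    calc sd h x * cur γ (sig h x) = sd h x * Real.exp (Real.log (cur γ (sig h x))) := by rw [← e7]
      _ = Real.exp (Real.log (dd γ (sig h x))) * Real.exp (q0 h x) := by
          rw [e6, ← Real.exp_add, ← Real.exp_add]
          congr 1
          unfold q0
          ring
      _ = _ := by rw [← e8]
  change sd h x ^ 3 * cur γ (sig h x) = _
  linear_combination sd h x ^ 2 * e5

lemma vel_ne (h : IsTable Ω γ P) (x : ℝ) : vel h x ≠ 0 := by
  intro h0
  have h1 := norm_vel_sq h x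
  rw [h0, norm_zero] at h1
  have h2 := ell_pos h
  have h3 : 0 < ell γ P ^ 6 * Real.exp (-4 * q0 h x) := by positivity
  rw [← h1] at h3
  norm_num at h3

/-- logarithmic derivative of the velocity -/
lemma hasDerivAt_vel' (h : IsTable Ω γ P) (x : ℝ) :
    HasDerivAt (vel h) (vel h x * ((-2 * deriv (q0 h) x : ℝ) + Complex.I * (Real.exp (q0 h x) : ℝ)))
      x := by
  have hv := hasDerivAt_vel h x
  refine hv.congr_deriv ?_
  set z' : ℂ := toC (deriv (deriv γ) (sig h x)) * (sd h x : ℂ) * (sd h x : ℂ) +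
      toC (deriv γ (sig h x)) * ((deriv (sd h) x : ℝ) : ℂ) with hz'
  have him := im_vel h x
  rw [← hz'] at him
  have hre : (conj (vel h x) * z').re = ‖vel h x‖ ^ 2 * (-2 * deriv (q0 h) x) := by
    have h1 := hv.norm_sq
    have hq : HasDerivAt (q0 h) (deriv (q0 h) x) x :=
      (((contDiff_q0 h).differentiable (by simp)) x).hasDerivAt
    have h2 := ((hq.const_mul (-4)).exp).const_mul (ell γ P ^ 6)
    have h3 : (fun x => ‖vel h x‖ ^ 2) = fun x => ell γ P ^ 6 * Real.exp (-4 * q0 h x) :=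
      funext (norm_vel_sq h)
    rw [← h3] at h2
    have h4 := h1.unique h2
    rw [Complex.inner] at h4
    rw [norm_vel_sq h, mul_comm (conj _)]
    linarith
  have hc : conj (vel h x) ≠ 0 := by
    rw [Ne, map_eq_zero]
    exact vel_ne h x
  apply mul_left_cancel₀ hc
  have hn : conj (vel h x) * vel h x = ((‖vel h x‖ ^ 2 : ℝ) : ℂ) := by
    rw [mul_comm, Complex.mul_conj']
    push_cast
    rfl
  rw [← mul_assoc, hn]
  apply Complex.ext
  · rw [hre, Complex.re_ofReal_mul]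
    simp [- Complex.ofReal_exp]
  · rw [him, Complex.im_ofReal_mul]
    simp [- Complex.ofReal_exp]

/-- the function `q` as an element of `C(ℂ, ℂ)` -/
def qT (h : IsTable Ω γ P) : C(ℂ, ℂ) := ofR (q0 h) (contDiff_q0 h).continuous

lemma qT_ofReal (h : IsTable Ω γ P) (x : ℝ) : qT h (x : ℂ) = ((q0 h x : ℝ) : ℂ) := by
  simp [qT, ofR]

lemma qr_qT (h : IsTable Ω γ P) : qr (qT h) = q0 h := by
  funext x
  unfold qr
  rw [qT_ofReal]
  simp

/-- the constant of proportionality -/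
def Kc (h : IsTable Ω γ P) : ℂ := vel h 0 / Gd (qT h) 0

lemma Gd_ne (q : C(ℂ, ℂ)) (x : ℝ) : Gd q x ≠ 0 := Complex.exp_ne_zero _

lemma Kc_ne (h : IsTable Ω γ P) : Kc h ≠ 0 := div_ne_zero (vel_ne h 0) (Gd_ne _ 0)

lemma vel_eq (h : IsTable Ω γ P) (x : ℝ) : vel h x = Kc h * Gd (qT h) x := by
  have hG : ∀ x, HasDerivAt (Gd (qT h)) (Gd (qT h) x * ((-2 * deriv (q0 h) x : ℝ) +
      Complex.I * (Real.exp (q0 h x) : ℝ))) x := by
    intro x
    have hq : HasDerivAt (q0 h) (deriv (q0 h) x) x :=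
      (((contDiff_q0 h).differentiable (by simp)) x).hasDerivAt
    have hT := hasDerivAt_Th (q := qT h) x
    rw [qr_qT] at hT
    have h1 : HasDerivAt (fun x => ((-2 * q0 h x : ℝ) : ℂ)) ((-2 * deriv (q0 h) x : ℝ) : ℂ) x :=
      (hq.const_mul (-2)).ofReal_comp
    have h2 := h1.add ((hT.ofReal_comp).const_mul Complex.I)
    have h3 := h2.cexp
    have h4 : Gd (qT h) = fun x => Complex.exp (((-2 * q0 h x : ℝ) : ℂ) +
        Complex.I * ((Th (qT h) x : ℝ) : ℂ)) := by
      funext y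
      unfold Gd
      rw [qr_qT]
    rw [h4]
    exact h3
  have hW : ∀ x, HasDerivAt (fun x => vel h x / Gd (qT h) x) 0 x := by
    intro x
    have h1 := (hasDerivAt_vel' h x).div (hG x) (Gd_ne _ x)
    refine h1.congr_deriv ?_
    have : vel h x * ((-2 * deriv (q0 h) x : ℝ) + Complex.I * (Real.exp (q0 h x) : ℝ)) * Gd (qT h) x -
      vel h x * (Gd (qT h) x * ((-2 * deriv (q0 h) x : ℝ) + Complex.I * (Real.exp (q0 h x) : ℝ))) =
      0 := by ring
    rw [this, zero_div]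
  have h4 := is_const_of_deriv_eq_zero (fun x => (hW x).differentiableAt)
    (fun x => (hW x).deriv) x 0
  rw [div_eq_iff (Gd_ne _ x)] at h4
  exact h4

lemma cv_eq (h : IsTable Ω γ P) (x : ℝ) :
    toC (γ (sig h x)) = toC (γ (sig h 0)) + Kc h * Gc (qT h) x := by
  have h1 : ∀ x, HasDerivAt (fun x => toC (γ (sig h x)) - Kc h * Gc (qT h) x) 0 x := by
    intro x
    have h2 := (hasDerivAt_cv h x).sub ((hasDerivAt_Gc (q := qT h) x).const_mul (Kc h))
    rw [vel_eq, sub_self] at h2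
    exact h2
  have h4 := is_const_of_deriv_eq_zero (fun x => (h1 x).differentiableAt)
    (fun x => (h1 x).deriv) x 0
  have h5 : Gc (qT h) 0 = 0 := by unfold Gc; simp
  simp only [h5] at h4
  linear_combination h4

end

/-- `q` (in the Lazutkin coordinate), the parameter change `σ` and the constant `K` of a table:
`γ (σ x) = γ (σ 0) + K * Gc q x`. Only the values of `q` on the real line matter. -/
structure Laz (γ : ℝ → ℝ × ℝ) (P : ℝ) (q : C(ℂ, ℂ)) (σ : ℝ → ℝ) (K : ℂ) : Prop where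
  im : ∀ x : ℝ, (q x).im = 0
  per : ∀ x : ℝ, q ((x : ℂ) + 1) = q x
  smooth : ContDiff ℝ (⊤ : ℕ∞) (qr q)
  σ_smooth : ContDiff ℝ (⊤ : ℕ∞) σ
  σ_mono : StrictMono σ
  σ_surj : Function.Surjective σ
  σ_per : ∀ x, σ (x + 1) = σ x + P
  σ_pos : ∀ x, 0 < deriv σ x
  K_ne : K ≠ 0
  curve : ∀ x, toC (γ (σ x)) = toC (γ (σ 0)) + K * Gc q x

theorem laz_of_isTable {Ω : Set (ℝ × ℝ)} {γ : ℝ → ℝ × ℝ} {P : ℝ} (h : IsTable Ω γ P) :
    Laz γ P (qT h) (sig h) (Kc h) where
  im x := by rw [qT_ofReal]; simp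
  per x := by
    have : (x : ℂ) + 1 = ((x + 1 : ℝ) : ℂ) := by push_cast; rfl
    rw [this, qT_ofReal, qT_ofReal, q0_per]
  smooth := by rw [qr_qT]; exact contDiff_q0 h
  σ_smooth := contDiff_sig h
  σ_mono := sig_mono h
  σ_surj := sig_surj h
  σ_per := sig_per h
  σ_pos x := by rw [(hasDerivAt_sig h x).deriv]; exact sd_pos h x
  K_ne := Kc_ne h
  curve := cv_eq h

lemma Gc_congr {q q' : C(ℂ, ℂ)} (h : ∀ x : ℝ, q' x = q x) :
    qr q' = qr q ∧ Th q' = Th q ∧ Gd q' = Gd q ∧ Gc q' = Gc q := by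
  have h1 : qr q' = qr q := by funext x; unfold qr; rw [h]
  have h2 : Th q' = Th q := by unfold Th; rw [h1]
  have h3 : Gd q' = Gd q := by unfold Gd; rw [h1, h2]
  exact ⟨h1, h2, h3, by unfold Gc; rw [h3]⟩

theorem Laz.congr {γ : ℝ → ℝ × ℝ} {P : ℝ} {q q' : C(ℂ, ℂ)} {σ : ℝ → ℝ} {K : ℂ}
    (hL : Laz γ P q σ K) (h : ∀ x : ℝ, q' x = q x) : Laz γ P q' σ K where
  im x := by rw [h]; exact hL.im x
  per x := by
    have : (x : ℂ) + 1 = ((x + 1 : ℝ) : ℂ) := by push_cast; rfl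
    rw [this, h, h, ← hL.per x, this]
  smooth := by rw [(Gc_congr h).1]; exact hL.smooth
  σ_smooth := hL.σ_smooth
  σ_mono := hL.σ_mono
  σ_surj := hL.σ_surj
  σ_per := hL.σ_per
  σ_pos := hL.σ_pos
  K_ne := hL.K_ne
  curve x := by rw [(Gc_congr h).2.2.2]; exact hL.curve x

end Crest.Agent.R102.T5
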