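import Mathlib
import Crest.Agent.R102.Fin_821
import Crest.Agent.R102.T5a_576

/-!
(KC): if `y = κ^{1/3}` satisfies `y'' = (K - 2 y²) y` with constant `K` in the Lazutkin
coordinate, then the table is the inside of an ellipse.
-/

set_option autoImplicit false

namespace Crest.Agent.R102.S0

open Crest.AnalysisR.Billiard Set Filter Topology Matrix
open Crest.Agent.R102.T5 Crest.Agent.R102.G576

/-- abstract version: real functions `y, y1, Θ, X, Y`. -/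
theorem conic_of_Kconst {y y1 Θ X Y : ℝ → ℝ} {K : ℝ} (hy : ∀ x, 0 < y x)
    (dy : ∀ x, HasDerivAt y (y1 x) x) (dy1 : ∀ x, HasDerivAt y1 ((K - 2 * y x ^ 2) * y x) x)
    (dΘ : ∀ x, HasDerivAt Θ (y x) x)
    (dX : ∀ x, HasDerivAt X ((y x ^ 2)⁻¹ * Real.cos (Θ x)) x)
    (dY : ∀ x, HasDerivAt Y ((y x ^ 2)⁻¹ * Real.sin (Θ x)) x)
    (hper : ∀ x, y (x + 1) = y x) :
    ∃ m11 m12 m22 c1 c2 C : ℝ, C < 0 ∧
      ∀ x, m11 * (X x - c1) ^ 2 + 2 * m12 * (X x - c1) * (Y x - c2) + m22 * (Y x - c2) ^ 2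
        + C⁻¹ = 0 := by
  -- first integral
  have hconst : ∀ {f : ℝ → ℝ}, (∀ x, HasDerivAt f 0 x) → ∀ x, f x = f 0 := by
    intro f hf x
    exact is_const_of_deriv_eq_zero (fun x => (hf x).differentiableAt) (fun x => (hf x).deriv) x 0
  set C : ℝ := y1 0 ^ 2 - K * y 0 ^ 2 + y 0 ^ 4 with hC
  have hint : ∀ x, y1 x ^ 2 - K * y x ^ 2 + y x ^ 4 = C := by
    intro x
    refine hconst (f := fun x => y1 x ^ 2 - K * y x ^ 2 + y x ^ 4) (fun x => ?_) x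
    have h1 := (((dy1 x).pow 2).sub (((dy x).pow 2).const_mul K)).add ((dy x).pow 4)
    refine h1.congr_deriv ?_
    simp only [Nat.cast_ofNat]
    ring
  -- minimum of y
  have hyc : Continuous y := continuous_iff_continuousAt.2 (fun x => (dy x).continuousAt)
  obtain ⟨xm, -, hxm⟩ := isCompact_Icc.exists_isMinOn (nonempty_Icc.mpr (zero_le_one (α := ℝ)))
    (hyc.continuousOn (s := Icc (0 : ℝ) 1))
  have hperZ : ∀ x : ℝ, ∃ x' ∈ Icc (0 : ℝ) 1, y x' = y x := by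
    intro x
    have hP : Function.Periodic y 1 := hper
    refine ⟨Int.fract x, ⟨Int.fract_nonneg x, (Int.fract_lt_one x).le⟩, ?_⟩
    have : Int.fract x = x - (⌊x⌋ : ℤ) • (1 : ℝ) := by
      rw [zsmul_eq_mul, mul_one]; rfl
    rw [this]
    exact hP.sub_zsmul_eq ⌊x⌋
  have hmin : ∀ x, y xm ≤ y x := by
    intro x
    obtain ⟨x', hx', he⟩ := hperZ x
    rw [← he]
    exact hxm hx'
  have hy1m : y1 xm = 0 :=
    IsLocalMin.hasDerivAt_eq_zero (Filter.Eventually.of_forall hmin) (dy xm)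
  have hCm : C = y xm ^ 2 * (y xm ^ 2 - K) := by
    rw [← hint xm, hy1m]; ring
  have hCneg : C < 0 := by
    have hm := hy xm
    by_cases hcst : ∀ x, y x = y xm
    · have h1 : HasDerivAt y 0 xm := by
        have : y = fun _ => y xm := funext hcst
        rw [this]; exact hasDerivAt_const _ _
      have hy1z : ∀ x, y1 x = 0 := by
        intro x
        have h2 : HasDerivAt y 0 x := by
          have : y = fun _ => y xm := funext hcst
          rw [this]; exact hasDerivAt_const _ _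
        exact (dy x).unique h2
      have h3 : HasDerivAt y1 0 xm := by
        have : y1 = fun _ => (0 : ℝ) := funext hy1z
        rw [this]; exact hasDerivAt_const _ _
      have h4 := (dy1 xm).unique h3
      have h5 : K = 2 * y xm ^ 2 := by
        rcases mul_eq_zero.mp h4 with h | h
        · linarith
        · exact absurd h hm.ne'
      rw [hCm, h5]
      have : 0 < y xm ^ 4 := by positivity
      nlinarith
    · push Not at hcst
      obtain ⟨x, hx⟩ := hcst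
      have hlt : y xm < y x := lt_of_le_of_ne (hmin x) (Ne.symm hx)
      have h1 := hint x
      have h2 : 0 ≤ y1 x ^ 2 := sq_nonneg _
      -- (y x ^2 - ym^2) * (K - y x^2 - ym^2) = y1 x^2
      have h3 : (y x ^ 2 - y xm ^ 2) * (K - y x ^ 2 - y xm ^ 2) = y1 x ^ 2 := by
        rw [hCm] at h1
        linear_combination -h1
      have h4 : 0 < y x ^ 2 - y xm ^ 2 := by nlinarith
      have h5 : 0 ≤ K - y x ^ 2 - y xm ^ 2 := by
        by_contra h6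
        push Not at h6
        nlinarith
      have h6 : y xm ^ 2 - K < 0 := by
        have := hy x
        nlinarith [sq_nonneg (y x)]
      rw [hCm]
      exact mul_neg_of_pos_of_neg (by positivity) h6
  have hCne : C ≠ 0 := hCneg.ne
  -- centre
  have hcs : ∀ x, Real.cos (Θ x) ^ 2 + Real.sin (Θ x) ^ 2 = 1 := fun x =>
    Real.cos_sq_add_sin_sq (Θ x)
  have dcos : ∀ x, HasDerivAt (fun x => Real.cos (Θ x)) (-(Real.sin (Θ x)) * y x) x :=
    fun x => (dΘ x).cos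
  have dsin : ∀ x, HasDerivAt (fun x => Real.sin (Θ x)) (Real.cos (Θ x) * y x) x :=
    fun x => (dΘ x).sin
  have hyne : ∀ x, y x ≠ 0 := fun x => (hy x).ne'
  -- derivative of y1 / y
  have dq1 : ∀ x, HasDerivAt (fun x => y1 x / y x) (-(y x ^ 2) - C * (y x ^ 2)⁻¹) x := by
    intro x
    refine ((dy1 x).div (dy x) (hyne x)).congr_deriv ?_
    have := hint x
    have h2 := hyne x
    field_simp
    linear_combination -this
  have hc1 : ∀ x, X x + C⁻¹ * (y1 x / y x) * Real.cos (Θ x) + C⁻¹ * y x * Real.sin (Θ x) =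
      X 0 + C⁻¹ * (y1 0 / y 0) * Real.cos (Θ 0) + C⁻¹ * y 0 * Real.sin (Θ 0) := by
    intro x
    refine hconst (f := fun x => X x + C⁻¹ * (y1 x / y x) * Real.cos (Θ x) +
      C⁻¹ * y x * Real.sin (Θ x)) (fun x => ?_) x
    refine (((dX x).add (((dq1 x).const_mul C⁻¹).mul (dcos x))).add
      (((dy x).const_mul C⁻¹).mul (dsin x))).congr_deriv ?_
    have h2 := hyne x
    field_simp
    ring
  have hc2 : ∀ x, Y x + C⁻¹ * (y1 x / y x) * Real.sin (Θ x) - C⁻¹ * y x * Real.cos (Θ x) =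
      Y 0 + C⁻¹ * (y1 0 / y 0) * Real.sin (Θ 0) - C⁻¹ * y 0 * Real.cos (Θ 0) := by
    intro x
    refine hconst (f := fun x => Y x + C⁻¹ * (y1 x / y x) * Real.sin (Θ x) -
      C⁻¹ * y x * Real.cos (Θ x)) (fun x => ?_) x
    refine (((dY x).add (((dq1 x).const_mul C⁻¹).mul (dsin x))).sub
      (((dy x).const_mul C⁻¹).mul (dcos x))).congr_deriv ?_
    have h2 := hyne x
    field_simp
    ring
  -- the matrix
  have hm11 : ∀ x, y x ^ 2 * Real.cos (Θ x) ^ 2 - 2 * y1 x * (Real.cos (Θ x) * Real.sin (Θ x)) +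
      (K - y x ^ 2) * Real.sin (Θ x) ^ 2 = y 0 ^ 2 * Real.cos (Θ 0) ^ 2 -
      2 * y1 0 * (Real.cos (Θ 0) * Real.sin (Θ 0)) + (K - y 0 ^ 2) * Real.sin (Θ 0) ^ 2 := by
    intro x
    refine hconst (f := fun x => y x ^ 2 * Real.cos (Θ x) ^ 2 -
      2 * y1 x * (Real.cos (Θ x) * Real.sin (Θ x)) + (K - y x ^ 2) * Real.sin (Θ x) ^ 2)
      (fun x => ?_) x
    refine (((((dy x).pow 2).mul ((dcos x).pow 2)).sub (((dy1 x).const_mul 2).mul
      ((dcos x).mul (dsin x)))).add ((((dy x).pow 2).const_sub K).mul ((dsin x).pow 2))).congr_deriv ?_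
    simp only [Nat.cast_ofNat, Pi.mul_apply, Pi.pow_apply, Pi.sub_apply]
    ring
  have hm12 : ∀ x, y x ^ 2 * (Real.cos (Θ x) * Real.sin (Θ x)) +
      y1 x * (Real.cos (Θ x) ^ 2 - Real.sin (Θ x) ^ 2) -
      (K - y x ^ 2) * (Real.cos (Θ x) * Real.sin (Θ x)) =
      y 0 ^ 2 * (Real.cos (Θ 0) * Real.sin (Θ 0)) +
      y1 0 * (Real.cos (Θ 0) ^ 2 - Real.sin (Θ 0) ^ 2) -
      (K - y 0 ^ 2) * (Real.cos (Θ 0) * Real.sin (Θ 0)) := by
    intro x
    refine hconst (f := fun x => y x ^ 2 * (Real.cos (Θ x) * Real.sin (Θ x)) +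
      y1 x * (Real.cos (Θ x) ^ 2 - Real.sin (Θ x) ^ 2) -
      (K - y x ^ 2) * (Real.cos (Θ x) * Real.sin (Θ x))) (fun x => ?_) x
    refine (((((dy x).pow 2).mul ((dcos x).mul (dsin x))).add ((dy1 x).mul
      (((dcos x).pow 2).sub ((dsin x).pow 2)))).sub ((((dy x).pow 2).const_sub K).mul
      ((dcos x).mul (dsin x)))).congr_deriv ?_
    simp only [Nat.cast_ofNat, Pi.mul_apply, Pi.pow_apply, Pi.sub_apply]
    ring
  have hm22 : ∀ x, y x ^ 2 * Real.sin (Θ x) ^ 2 + 2 * y1 x * (Real.cos (Θ x) * Real.sin (Θ x)) +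
      (K - y x ^ 2) * Real.cos (Θ x) ^ 2 = y 0 ^ 2 * Real.sin (Θ 0) ^ 2 +
      2 * y1 0 * (Real.cos (Θ 0) * Real.sin (Θ 0)) + (K - y 0 ^ 2) * Real.cos (Θ 0) ^ 2 := by
    intro x
    refine hconst (f := fun x => y x ^ 2 * Real.sin (Θ x) ^ 2 +
      2 * y1 x * (Real.cos (Θ x) * Real.sin (Θ x)) + (K - y x ^ 2) * Real.cos (Θ x) ^ 2)
      (fun x => ?_) x
    refine (((((dy x).pow 2).mul ((dsin x).pow 2)).add (((dy1 x).const_mul 2).mul
      ((dcos x).mul (dsin x)))).add ((((dy x).pow 2).const_sub K).mul ((dcos x).pow 2))).congr_deriv ?_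
    simp only [Nat.cast_ofNat, Pi.mul_apply, Pi.pow_apply, Pi.sub_apply]
    ring
  refine ⟨y 0 ^ 2 * Real.cos (Θ 0) ^ 2 - 2 * y1 0 * (Real.cos (Θ 0) * Real.sin (Θ 0)) +
      (K - y 0 ^ 2) * Real.sin (Θ 0) ^ 2,
    y 0 ^ 2 * (Real.cos (Θ 0) * Real.sin (Θ 0)) +
      y1 0 * (Real.cos (Θ 0) ^ 2 - Real.sin (Θ 0) ^ 2) -
      (K - y 0 ^ 2) * (Real.cos (Θ 0) * Real.sin (Θ 0)),
    y 0 ^ 2 * Real.sin (Θ 0) ^ 2 + 2 * y1 0 * (Real.cos (Θ 0) * Real.sin (Θ 0)) +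
      (K - y 0 ^ 2) * Real.cos (Θ 0) ^ 2,
    X 0 + C⁻¹ * (y1 0 / y 0) * Real.cos (Θ 0) + C⁻¹ * y 0 * Real.sin (Θ 0),
    Y 0 + C⁻¹ * (y1 0 / y 0) * Real.sin (Θ 0) - C⁻¹ * y 0 * Real.cos (Θ 0),
    C, hCneg, fun x => ?_⟩
  · rw [← hm11 x, ← hm12 x, ← hm22 x, ← hc1 x, ← hc2 x]
    have h1 := hint x
    have h2 := hyne x
    have h3 := hcs x
    set c := Real.cos (Θ x)
    set s := Real.sin (Θ x)
    set Y0 := y x
    set Y1 := y1 x
    -- X - c1 = -C⁻¹ ((Y1/Y0) c + Y0 s), Y - c2 = -C⁻¹ ((Y1/Y0) s - Y0 c)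
    have e1 : X x - (X x + C⁻¹ * (Y1 / Y0) * c + C⁻¹ * Y0 * s) =
        -(C⁻¹ * ((Y1 / Y0) * c + Y0 * s)) := by ring
    have e2 : Y x - (Y x + C⁻¹ * (Y1 / Y0) * s - C⁻¹ * Y0 * c) =
        -(C⁻¹ * ((Y1 / Y0) * s - Y0 * c)) := by ring
    rw [e1, e2]
    have hc2' : c ^ 2 = 1 - s ^ 2 := by linarith
    have key : (Y0 ^ 2 * c ^ 2 - 2 * Y1 * (c * s) + (K - Y0 ^ 2) * s ^ 2) *
        ((Y1 / Y0) * c + Y0 * s) ^ 2 + 2 * (Y0 ^ 2 * (c * s) + Y1 * (c ^ 2 - s ^ 2) -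
        (K - Y0 ^ 2) * (c * s)) * ((Y1 / Y0) * c + Y0 * s) * ((Y1 / Y0) * s - Y0 * c) +
        (Y0 ^ 2 * s ^ 2 + 2 * Y1 * (c * s) + (K - Y0 ^ 2) * c ^ 2) *
        ((Y1 / Y0) * s - Y0 * c) ^ 2 = -C := by
      have e3 : (Y0 ^ 2 * c ^ 2 - 2 * Y1 * (c * s) + (K - Y0 ^ 2) * s ^ 2) *
        ((Y1 / Y0) * c + Y0 * s) ^ 2 + 2 * (Y0 ^ 2 * (c * s) + Y1 * (c ^ 2 - s ^ 2) -
        (K - Y0 ^ 2) * (c * s)) * ((Y1 / Y0) * c + Y0 * s) * ((Y1 / Y0) * s - Y0 * c) +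
        (Y0 ^ 2 * s ^ 2 + 2 * Y1 * (c * s) + (K - Y0 ^ 2) * c ^ 2) *
        ((Y1 / Y0) * s - Y0 * c) ^ 2 = (c ^ 2 + s ^ 2) ^ 2 *
          (Y0 ^ 2 * (Y1 / Y0) ^ 2 - 2 * Y1 * (Y1 / Y0) * Y0 + (K - Y0 ^ 2) * Y0 ^ 2) := by
        ring
      rw [e3, h3]
      field_simp
      linear_combination -h1
    have e4 : ∀ P Q R a b : ℝ, P * (-(C⁻¹ * a)) ^ 2 + 2 * Q * (-(C⁻¹ * a)) * (-(C⁻¹ * b)) +
        R * (-(C⁻¹ * b)) ^ 2 = C⁻¹ ^ 2 * (P * a ^ 2 + 2 * Q * a * b + R * b ^ 2) := by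
      intros; ring
    rw [e4, key]
    field_simp
    ring

theorem ellipse_of_Kconst {Ω : Set (ℝ × ℝ)} {γ : ℝ → ℝ × ℝ} {P : ℝ} (h : IsTable Ω γ P)
    {q : C(ℂ, ℂ)} {σ : ℝ → ℝ} {K₀ : ℂ} (hl : Laz γ P q σ K₀) (K : ℝ)
    (hK : ∀ x : ℝ, deriv (deriv (fun x => Real.exp (qr q x))) x =
      (K - 2 * Real.exp (qr q x) ^ 2) * Real.exp (qr q x)) :
    ∃ (c : ℝ × ℝ) (Q : Matrix (Fin 2) (Fin 2) ℝ), Q.PosDef ∧
      Ω = {x : ℝ × ℝ | dotProduct ![x.1 - c.1, x.2 - c.2]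
        (Q.mulVec ![x.1 - c.1, x.2 - c.2]) < 1} := by
  have hys : ContDiff ℝ (⊤ : ℕ∞) (fun x => Real.exp (qr q x)) :=
    Real.contDiff_exp.comp hl.smooth
  have hys1 : ContDiff ℝ (⊤ : ℕ∞) (deriv (fun x => Real.exp (qr q x))) := by
    have h1 : ContDiff ℝ ((⊤ : ℕ∞) + 1) (fun x => Real.exp (qr q x)) := by simpa using hys
    exact (contDiff_succ_iff_deriv.mp h1).2.2
  have dZ : ∀ x, HasDerivAt (Gc q) (Gd q x) x := fun x => hasDerivAt_Gc x
  have hGd : ∀ x, Gd q x = (((Real.exp (qr q x) ^ 2)⁻¹ : ℝ) : ℂ) *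
      (((Real.cos (Th q x) : ℝ) : ℂ) + ((Real.sin (Th q x) : ℝ) : ℂ) * Complex.I) := by
    intro x
    unfold Gd
    rw [Complex.exp_add, mul_comm Complex.I, Complex.exp_mul_I, ← Complex.ofReal_exp,
      ← Complex.ofReal_cos, ← Complex.ofReal_sin]
    congr 2
    rw [← Real.exp_nat_mul, ← Real.exp_neg]
    congr 1
    push_cast
    ring
  have dX : ∀ x, HasDerivAt (fun x => (Gc q x).re)
      ((Real.exp (qr q x) ^ 2)⁻¹ * Real.cos (Th q x)) x := by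
    intro x
    have h1 := (Complex.reCLM.hasFDerivAt.comp_hasDerivAt x (dZ x))
    refine h1.congr_deriv ?_
    rw [hGd, Complex.reCLM_apply, Complex.re_ofReal_mul]
    simp only [Complex.add_re, Complex.ofReal_re, Complex.mul_re, Complex.I_re,
      Complex.ofReal_im, Complex.I_im]
    ring
  have dY : ∀ x, HasDerivAt (fun x => (Gc q x).im)
      ((Real.exp (qr q x) ^ 2)⁻¹ * Real.sin (Th q x)) x := by
    intro x
    have h1 := (Complex.imCLM.hasFDerivAt.comp_hasDerivAt x (dZ x))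
    refine h1.congr_deriv ?_
    rw [hGd, Complex.imCLM_apply, Complex.im_ofReal_mul]
    simp only [Complex.add_im, Complex.ofReal_re, Complex.mul_im, Complex.I_re,
      Complex.ofReal_im, Complex.I_im]
    ring
  obtain ⟨m11, m12, m22, c1, c2, C, hC, hconic⟩ := conic_of_Kconst
    (y := fun x => Real.exp (qr q x)) (y1 := deriv (fun x => Real.exp (qr q x))) (Θ := Th q)
    (X := fun x => (Gc q x).re) (Y := fun x => (Gc q x).im) (K := K)
    (fun x => Real.exp_pos _)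
    (fun x => ((hys.differentiable (by simp)) x).hasDerivAt)
    (fun x => by
      have := ((hys1.differentiable (by simp)) x).hasDerivAt
      rwa [hK x] at this)
    (fun x => hasDerivAt_Th x) dX dY
    (fun x => by
      have h0 : qr q (x + 1) = qr q x := by
        unfold qr
        rw [show (((x + 1 : ℝ)) : ℂ) = (x : ℂ) + 1 by push_cast; rfl, hl.per]
      show Real.exp (qr q (x + 1)) = Real.exp (qr q x)
      rw [h0])
  -- the similarity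
  set k1 : ℝ := (K₀⁻¹).re with hk1
  set k2 : ℝ := (K₀⁻¹).im with hk2
  set g0 := toC (γ (σ 0)) with hg0
  set e1 : ℝ := -(k1 * g0.re - k2 * g0.im) - c1 with he1
  set e2 : ℝ := -(k2 * g0.re + k1 * g0.im) - c2 with he2
  have hpoly : ∀ g : ℝ × ℝ, qpoly
      (m11 * k1 ^ 2 + 2 * m12 * k1 * k2 + m22 * k2 ^ 2)
      (-2 * m11 * k1 * k2 + 2 * m12 * (k1 ^ 2 - k2 ^ 2) + 2 * m22 * k1 * k2)
      (m11 * k2 ^ 2 - 2 * m12 * k1 * k2 + m22 * k1 ^ 2)
      (2 * m11 * k1 * e1 + 2 * m12 * (k1 * e2 + k2 * e1) + 2 * m22 * k2 * e2)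
      (-2 * m11 * k2 * e1 + 2 * m12 * (-k2 * e2 + k1 * e1) + 2 * m22 * k1 * e2)
      (m11 * e1 ^ 2 + 2 * m12 * e1 * e2 + m22 * e2 ^ 2 + C⁻¹) g =
      m11 * (k1 * g.1 - k2 * g.2 + e1) ^ 2 +
      2 * m12 * (k1 * g.1 - k2 * g.2 + e1) * (k2 * g.1 + k1 * g.2 + e2) +
      m22 * (k2 * g.1 + k1 * g.2 + e2) ^ 2 + C⁻¹ := by
    intro g
    simp only [qpoly]
    ring
  have hKn : k1 ^ 2 + k2 ^ 2 ≠ 0 := by
    have h1 : K₀⁻¹ ≠ 0 := inv_ne_zero hl.K_ne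
    have h2 : Complex.normSq K₀⁻¹ ≠ 0 := by
      rw [Ne, Complex.normSq_eq_zero]; exact h1
    rw [Complex.normSq_apply] at h2
    intro h3
    apply h2
    rw [← h3]; ring
  refine ellipse_of_conic h
      (m11 * k1 ^ 2 + 2 * m12 * k1 * k2 + m22 * k2 ^ 2)
      (-2 * m11 * k1 * k2 + 2 * m12 * (k1 ^ 2 - k2 ^ 2) + 2 * m22 * k1 * k2)
      (m11 * k2 ^ 2 - 2 * m12 * k1 * k2 + m22 * k1 ^ 2)
      (2 * m11 * k1 * e1 + 2 * m12 * (k1 * e2 + k2 * e1) + 2 * m22 * k2 * e2)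
      (-2 * m11 * k2 * e1 + 2 * m12 * (-k2 * e2 + k1 * e1) + 2 * m22 * k1 * e2)
      (m11 * e1 ^ 2 + 2 * m12 * e1 * e2 + m22 * e2 ^ 2 + C⁻¹) ?_ (fun s => ?_)
  rotate_left
  · obtain ⟨x, rfl⟩ := hl.σ_surj s
    rw [hpoly]
    have h1 := hl.curve x
    have h2 : Gc q x = K₀⁻¹ * (toC (γ (σ x)) - g0) := by
      rw [h1, hg0]
      have := hl.K_ne
      field_simp
      ring
    have hre : (Gc q x).re = k1 * ((γ (σ x)).1 - g0.re) - k2 * ((γ (σ x)).2 - g0.im) := by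
      rw [h2, Complex.mul_re, Complex.sub_re, Complex.sub_im, toC_re, toC_im]
    have him : (Gc q x).im = k2 * ((γ (σ x)).1 - g0.re) + k1 * ((γ (σ x)).2 - g0.im) := by
      rw [h2, Complex.mul_im, Complex.sub_re, Complex.sub_im, toC_re, toC_im]
      ring
    have h3 := hconic x
    simp only [hre, him] at h3
    rw [← h3, he1, he2]
    ring
  · rintro ⟨hA, hB, hCc, hD, hE, hF⟩
    -- evaluate at the centre
    set D0 := k1 ^ 2 + k2 ^ 2 with hD0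
    have h1 := hpoly (-(k1 * e1 + k2 * e2) / D0, (k2 * e1 - k1 * e2) / D0)
    rw [hA, hB, hCc, hD, hE, hF] at h1
    have h2 : k1 * (-(k1 * e1 + k2 * e2) / D0) - k2 * ((k2 * e1 - k1 * e2) / D0) + e1 = 0 := by
      field_simp
      rw [hD0]; ring
    have h3 : k2 * (-(k1 * e1 + k2 * e2) / D0) + k1 * ((k2 * e1 - k1 * e2) / D0) + e2 = 0 := by
      field_simp
      rw [hD0]; ring
    simp only [h2, h3] at h1
    simp only [qpoly] at h1
    have h4 : C⁻¹ = 0 := by linarith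
    exact (inv_ne_zero hC.ne) h4

end Crest.Agent.R102.S0
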