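import Mathlib
import Crest.Agent.R102.GeoDefs_821

/-!
Row 102, link leaf (T3c) of `S0_821_v2`, parts (iii)-(v) (helper540): if the good leaves (conjugate
to a rotation) are dense then all leaves are graphs, and the foliation gives a `LeafFam`.
-/

set_option autoImplicit false
set_option linter.unusedTactic false
set_option linter.unusedSectionVars false

open Set Filter Topology

namespace Crest.Agent.R102.S0

/-- a circle map conjugate to a rotation -/
def GoodLeaf (gb : ℝ → ℝ) : Prop :=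
  ∃ (φ : ℝ → ℝ) (r : ℝ), Continuous φ ∧ StrictMono φ ∧ (∀ x, φ (x + 1) = φ x + 1) ∧
    ∀ x, φ (gb x) = φ x + r

section One

variable {P : ℝ} {q1 q2 h : ℝ → ℝ → ℝ} {σ n nm : ℝ → ℝ}

lemma TwistData.anti1 (hT : TwistData P q1 q2 h) (s : ℝ) : StrictAntiOn (q1 s) (Ioo s (s + P)) := by
  refine strictAntiOn_of_deriv_neg (convex_Ioo _ _) (fun t ht =>
    (hT.der1 s t ht.1 ht.2).continuousAt.continuousWithinAt) (fun t ht => ?_)
  rw [interior_Ioo] at ht
  rw [(hT.der1 s t ht.1 ht.2).deriv]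
  linarith [hT.hpos s t ht.1 ht.2]

lemma TwistData.mono2 (hT : TwistData P q1 q2 h) (s' : ℝ) :
    StrictMonoOn (fun s => q2 s s') (Ioo (s' - P) s') := by
  refine strictMonoOn_of_deriv_pos (convex_Ioo _ _) (fun t ht =>
    (hT.der2 t s' ht.2 (by linarith [ht.1])).continuousAt.continuousWithinAt) (fun t ht => ?_)
  rw [interior_Ioo] at ht
  rw [(hT.der2 t s' ht.2 (by linarith [ht.1])).deriv]
  exact hT.hpos t s' ht.2 (by linarith [ht.1])

/-- one leaf -/
structure Leaf (P : ℝ) (q1 q2 : ℝ → ℝ → ℝ) (σ n nm : ℝ → ℝ) : Prop where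
  cont : Continuous σ
  per : ∀ x, σ (x + 1) = σ x + P
  lo : ∀ x, σ x < σ (n x)
  hi : ∀ x, σ (n x) < σ x + P
  refl : ∀ x, q2 (σ x) (σ (n x)) = q1 (σ (n x)) (σ (n (n x)))
  inj : ∀ x y, σ x = σ y → σ (n x) = σ (n y) → x = y
  right : ∀ x, n (nm x) = x

lemma Leaf.twist (hT : TwistData P q1 q2 h) (hL : Leaf P q1 q2 σ n nm) {x y : ℝ}
    (hxy : σ x = σ y) (hne : x ≠ y) :
    (σ (nm x) < σ (nm y) ∧ σ (n y) < σ (n x)) ∨ (σ (nm y) < σ (nm x) ∧ σ (n x) < σ (n y)) := by
  have hx1 : σ (nm x) ∈ Ioo (σ x - P) (σ x) := by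
    have h1 := hL.lo (nm x)
    have h2 := hL.hi (nm x)
    rw [hL.right] at h1 h2
    exact ⟨by linarith, h1⟩
  have hy1 : σ (nm y) ∈ Ioo (σ x - P) (σ x) := by
    have h1 := hL.lo (nm y)
    have h2 := hL.hi (nm y)
    rw [hL.right] at h1 h2
    rw [hxy]
    exact ⟨by linarith, h1⟩
  have hx2 : σ (n x) ∈ Ioo (σ x) (σ x + P) := ⟨hL.lo x, hL.hi x⟩
  have hy2 : σ (n y) ∈ Ioo (σ x) (σ x + P) := by rw [hxy]; exact ⟨hL.lo y, hL.hi y⟩
  have rx : q2 (σ (nm x)) (σ x) = q1 (σ x) (σ (n x)) := by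
    have := hL.refl (nm x)
    rwa [hL.right] at this
  have ry : q2 (σ (nm y)) (σ x) = q1 (σ x) (σ (n y)) := by
    have := hL.refl (nm y)
    rw [hL.right] at this
    rw [hxy]
    exact this
  rcases lt_trichotomy (σ (n x)) (σ (n y)) with hlt | heq | hgt
  · right
    refine ⟨?_, hlt⟩
    have h1 := hT.anti1 (σ x) hx2 hy2 hlt
    rw [← rx, ← ry] at h1
    exact ((hT.mono2 (σ x)).lt_iff_lt hy1 hx1).1 h1
  · exact absurd (hL.inj x y hxy heq) hne
  · left
    refine ⟨?_, hgt⟩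
    have h1 := hT.anti1 (σ x) hy2 hx2 hgt
    rw [← rx, ← ry] at h1
    exact ((hT.mono2 (σ x)).lt_iff_lt hx1 hy1).1 h1

lemma Leaf.per_int (hL : Leaf P q1 q2 σ n nm) (k : ℤ) (x : ℝ) : σ (x + k) = σ x + k * P := by
  have h1 : Function.Periodic (fun x => σ x - P * x) 1 := by
    intro x
    change σ (x + 1) - P * (x + 1) = σ x - P * x
    rw [hL.per]
    ring
  have h2 := h1.int_mul k x
  rw [mul_one] at h2
  change σ (x + k) - P * (x + k) = σ x - P * x at h2
  linarith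

/-- a monotone leaf is strictly monotone -/
lemma Leaf.strict (hT : TwistData P q1 q2 h) (hL : Leaf P q1 q2 σ n nm) (hn : StrictMono n)
    (hm : Monotone σ) : StrictMono σ := by
  intro x y hxy
  refine lt_of_le_of_ne (hm hxy.le) (fun heq => ?_)
  have hnm : nm x < nm y := by
    rw [← hn.lt_iff_lt, hL.right, hL.right]
    exact hxy
  rcases hL.twist hT heq hxy.ne with h1 | h1
  · exact absurd (hm (hn hxy).le) (not_le.2 h1.2)
  · exact absurd (hm hnm.le) (not_le.2 h1.1)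

/-- translation trick -/
theorem Leaf.strictMono_of_rot (hT : TwistData P q1 q2 h) {r : ℝ}
    (hL : Leaf P q1 q2 σ (fun x => x + r) (fun x => x - r)) : StrictMono σ := by
  have hP := hT.hP
  -- no bad translation
  have key : ∀ a, 0 < a → a ≤ 1 → ∀ y, σ y < σ (y + a) := by
    by_contra hcon
    push Not at hcon
    obtain ⟨a0, ha0, ha1, y0, hy0⟩ := hcon
    set B : Set ℝ := {a | 0 < a ∧ a ≤ 1 ∧ ∃ y, σ (y + a) ≤ σ y} with hB
    have hBne : B.Nonempty := ⟨a0, ha0, ha1, y0, hy0⟩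
    have hBb : BddAbove B := ⟨1, fun a ha => ha.2.1⟩
    set s := sSup B with hs
    have hs0 : 0 < s := lt_of_lt_of_le ha0 (le_csSup hBb ⟨ha0, ha1, y0, hy0⟩)
    have hs1 : s ≤ 1 := csSup_le hBne (fun a ha => ha.2.1)
    obtain ⟨u, -, hu, huB⟩ := exists_seq_tendsto_sSup hBne hBb
    -- representatives in [0, 1]
    have hrep : ∀ k, ∃ y ∈ Icc (0 : ℝ) 1, σ (y + u k) ≤ σ y := by
      intro k
      obtain ⟨-, -, y, hy⟩ := huB k
      refine ⟨Int.fract y, ⟨Int.fract_nonneg y, (Int.fract_lt_one y).le⟩, ?_⟩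
      have h1 := hL.per_int ⌊y⌋ (Int.fract y)
      have h2 := hL.per_int ⌊y⌋ (Int.fract y + u k)
      have e1 : Int.fract y + (⌊y⌋ : ℝ) = y := Int.fract_add_floor y
      have e2 : Int.fract y + u k + (⌊y⌋ : ℝ) = y + u k := by
        linear_combination Int.fract_add_floor y
      rw [e1] at h1
      rw [e2] at h2
      rw [h1, h2] at hy
      linarith
    choose v hv hvle using hrep
    obtain ⟨y, -, φ, hφ, hy⟩ := isCompact_Icc.tendsto_subseq hv
    have hys : σ (y + s) ≤ σ y := by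
      have t1 : Tendsto (fun k => σ (v (φ k) + u (φ k))) atTop (𝓝 (σ (y + s))) :=
        (hL.cont.tendsto _).comp (hy.add (hu.comp hφ.tendsto_atTop))
      have t2 : Tendsto (fun k => σ (v (φ k))) atTop (𝓝 (σ y)) := (hL.cont.tendsto _).comp hy
      exact le_of_tendsto_of_tendsto' t1 t2 (fun k => hvle (φ k))
    have hs1' : s < 1 := by
      refine lt_of_le_of_ne hs1 (fun heq => ?_)
      rw [heq, hL.per] at hys
      linarith
    have hge : ∀ z, σ z ≤ σ (z + s) := by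
      intro z
      have t1 : Tendsto (fun a => σ (z + a)) (𝓝[>] s) (𝓝 (σ (z + s))) :=
        ((hL.cont.comp (continuous_const.add continuous_id)).tendsto s).mono_left
          nhdsWithin_le_nhds
      refine ge_of_tendsto t1 ?_
      filter_upwards [Ioo_mem_nhdsGT hs1'] with a ha
      by_contra hlt
      push Not at hlt
      have : a ∈ B := ⟨hs0.trans ha.1, ha.2.le, z, hlt.le⟩
      exact absurd (le_csSup hBb this) (not_le.2 ha.1)
    have heq : σ y = σ (y + s) := le_antisymm (hge y) hys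
    rcases hL.twist hT heq (by linarith : y ≠ y + s) with h1 | h1
    · have h2 := hge (y + r)
      have e : y + r + s = y + s + r := by ring
      rw [e] at h2
      exact absurd h1.2 (not_lt.2 h2)
    · have h2 := hge (y - r)
      have e : y - r + s = y + s - r := by ring
      rw [e] at h2
      exact absurd h1.1 (not_lt.2 h2)
  have key2 : ∀ k : ℕ, ∀ a : ℝ, 0 < a → a ≤ k → ∀ y, σ y < σ (y + a) := by
    intro k
    induction k with
    | zero =>
      intro a ha ha' y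
      simp only [Nat.cast_zero] at ha'
      linarith
    | succ k ih =>
      intro a ha ha' y
      rcases le_or_gt a 1 with h1 | h1
      · exact key a ha h1 y
      · have h2 := ih (a - 1) (by linarith) (by push_cast at ha'; linarith) y
        have e : y + a = y + (a - 1) + 1 := by ring
        rw [e, hL.per]
        linarith
  intro x y hxy
  obtain ⟨k, hk⟩ := exists_nat_ge (y - x)
  have := key2 k (y - x) (by linarith) hk x
  rwa [add_sub_cancel] at this

end One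

section Fol

variable {P : ℝ} {q1 q2 h S g : ℝ → ℝ → ℝ}

lemma FolData.cS (hF : FolData P q1 q2 S g) {b : ℝ} (hb : b ∈ Ioo (0 : ℝ) 1) :
    Continuous (S b) :=
  hF.contS.comp_continuous (f := fun x : ℝ => (b, x)) (by fun_prop) (fun _ => ⟨hb, mem_univ _⟩)

lemma FolData.cg (hF : FolData P q1 q2 S g) {b : ℝ} (hb : b ∈ Ioo (0 : ℝ) 1) :
    Continuous (g b) :=
  hF.contg.comp_continuous (f := fun x : ℝ => (b, x)) (by fun_prop) (fun _ => ⟨hb, mem_univ _⟩)

lemma FolData.cSb (hF : FolData P q1 q2 S g) (x : ℝ) :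
    ContinuousOn (fun b => S b x) (Ioo (0 : ℝ) 1) :=
  hF.contS.comp (f := fun b : ℝ => (b, x)) (by fun_prop) (fun _ hb => ⟨hb, mem_univ _⟩)

lemma FolData.leaf (hF : FolData P q1 q2 S g) {b : ℝ} (hb : b ∈ Ioo (0 : ℝ) 1) :
    Leaf P q1 q2 (S b) (g b) (Function.invFun (g b)) where
  cont := hF.cS hb
  per := hF.perS b hb
  lo := hF.lo b hb
  hi := hF.hi b hb
  refl := hF.refl b hb
  inj := fun x y h1 h2 => (hF.inj b hb b hb x y h1 h2).2
  right := fun x => Function.rightInverse_invFun (hF.surjg b hb) x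

lemma surj_of_per {f : ℝ → ℝ} {P : ℝ} (hP : 0 < P) (hc : Continuous f)
    (hp : ∀ x, f (x + 1) = f x + P) : Function.Surjective f := by
  have h1 : ∀ k : ℕ, ∀ x, f (x + k) = f x + k * P := by
    intro k
    induction k with
    | zero => intro x; simp
    | succ k ih =>
      intro x
      have e : x + ((k + 1 : ℕ) : ℝ) = x + k + 1 := by push_cast; ring
      rw [e, hp, ih]; push_cast; ring
  intro y
  obtain ⟨k, hk⟩ := exists_nat_ge (|y - f 0| / P)
  rw [div_le_iff₀ hP] at hk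
  have h2 := abs_le.1 hk
  have h3 : f (-(k : ℝ)) ≤ y := by
    have h4 := h1 k (-(k : ℝ))
    rw [neg_add_cancel] at h4
    linarith [h2.1]
  have h5 : y ≤ f (k : ℝ) := by
    have h4 := h1 k 0
    rw [zero_add] at h4
    linarith [h2.2]
  obtain ⟨x, hx⟩ := mem_range_of_exists_le_of_exists_ge hc ⟨_, h3⟩ ⟨_, h5⟩
  exact ⟨x, hx⟩

/-- good leaves are graphs -/
theorem FolData.strictMono_good (hT : TwistData P q1 q2 h) (hF : FolData P q1 q2 S g) {b : ℝ}
    (hb : b ∈ Ioo (0 : ℝ) 1) (hg : GoodLeaf (g b)) : StrictMono (S b) := by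
  obtain ⟨φ, r, hφc, hφm, hφ1, hφg⟩ := hg
  have hsurj : Function.Surjective φ := surj_of_per one_pos hφc hφ1
  set e : ℝ ≃o ℝ := hφm.orderIsoOfSurjective φ hsurj with he
  have heφ : ∀ x, e x = φ x := fun x => rfl
  have hψφ : ∀ x, e.symm (φ x) = x := fun x => e.symm_apply_apply x
  have hφψ : ∀ y, φ (e.symm y) = y := fun y => e.apply_symm_apply y
  have hψc : Continuous e.symm := e.symm.continuous
  have hgψ : ∀ y, g b (e.symm y) = e.symm (y + r) := by
    intro y
    apply e.injective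
    rw [heφ, hφg, hφψ, e.apply_symm_apply]
  have hψ1 : ∀ y, e.symm (y + 1) = e.symm y + 1 := by
    intro y
    apply e.injective
    rw [e.apply_symm_apply, heφ, hφ1, hφψ]
  have hL : Leaf P q1 q2 (fun y => S b (e.symm y)) (fun x => x + r) (fun x => x - r) := by
    refine { cont := (hF.cS hb).comp hψc, per := fun y => ?_, lo := fun y => ?_,
             hi := fun y => ?_, refl := fun y => ?_, inj := fun x y h1 h2 => ?_,
             right := fun x => by simp }
    · change S b (e.symm (y + 1)) = S b (e.symm y) + P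
      rw [hψ1, hF.perS b hb]
    · change S b (e.symm y) < S b (e.symm (y + r))
      rw [← hgψ]; exact hF.lo b hb _
    · change S b (e.symm (y + r)) < S b (e.symm y) + P
      rw [← hgψ]; exact hF.hi b hb _
    · change q2 (S b (e.symm y)) (S b (e.symm (y + r))) =
        q1 (S b (e.symm (y + r))) (S b (e.symm (y + r + r)))
      rw [← hgψ (y + r), ← hgψ]; exact hF.refl b hb _
    · change S b (e.symm (x + r)) = S b (e.symm (y + r)) at h2
      rw [← hgψ, ← hgψ] at h2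
      exact e.symm.injective (hF.inj b hb b hb _ _ h1 h2).2
  have hmono := hL.strictMono_of_rot hT
  intro x y hxy
  have := hmono (hφm hxy)
  change S b (e.symm (φ x)) < S b (e.symm (φ y)) at this
  rwa [hψφ, hψφ] at this

/-- all leaves are graphs -/
theorem FolData.strictMono_all (hT : TwistData P q1 q2 h) (hF : FolData P q1 q2 S g)
    (hd : ∀ u v, 0 ≤ u → u < v → v ≤ 1 → ∃ b ∈ Ioo u v, GoodLeaf (g b)) {b : ℝ}
    (hb : b ∈ Ioo (0 : ℝ) 1) : StrictMono (S b) := by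
  refine (hF.leaf hb).strict hT (hF.monog b hb) (fun x y hxy => ?_)
  by_contra hlt
  push Not at hlt
  have h1 : ∀ᶠ b' in 𝓝 b, S b' y < S b' x := by
    have c1 := ((hF.cSb y).continuousAt (isOpen_Ioo.mem_nhds hb))
    have c2 := ((hF.cSb x).continuousAt (isOpen_Ioo.mem_nhds hb))
    exact c1.eventually_lt c2 hlt
  have h2 : ∀ᶠ b' in 𝓝 b, b' ∈ Ioo (0 : ℝ) 1 := isOpen_Ioo.mem_nhds hb
  obtain ⟨u, v, huv, hsub⟩ := mem_nhds_iff_exists_Ioo_subset.1 (h1.and h2)
  have hub : u < b := huv.1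
  have hbv : b < v := huv.2
  obtain ⟨b', hb', hgood⟩ := hd (max u 0) (min v 1) (le_max_right _ _)
    (lt_of_lt_of_le (max_lt hub hb.1) (le_min hbv.le hb.2.le)) (min_le_right _ _)
  have hb'' : b' ∈ Ioo u v :=
    ⟨lt_of_le_of_lt (le_max_left _ _) hb'.1, lt_of_lt_of_le hb'.2 (min_le_left _ _)⟩
  have h3 := hsub hb''
  have h4 := (hF.strictMono_good hT h3.2 hgood).monotone hxy
  exact absurd h3.1 (not_lt.2 h4)

/-- inverse of the leaf parametrisation -/
noncomputable def TT (S : ℝ → ℝ → ℝ) (b : ℝ) : ℝ → ℝ := Function.invFun (S b)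

/-- the circle map of the leaf -/
noncomputable def FF (S g : ℝ → ℝ → ℝ) (b s : ℝ) : ℝ := S b (g b (TT S b s))

section Graph

variable (hT : TwistData P q1 q2 h) (hF : FolData P q1 q2 S g)
  (hS : ∀ b ∈ Ioo (0 : ℝ) 1, StrictMono (S b))

include hT hF in
lemma FolData.surjS {b : ℝ} (hb : b ∈ Ioo (0 : ℝ) 1) : Function.Surjective (S b) :=
  surj_of_per hT.hP (hF.cS hb) (hF.perS b hb)

include hT hF in
lemma FolData.S_TT {b : ℝ} (hb : b ∈ Ioo (0 : ℝ) 1) (s : ℝ) : S b (TT S b s) = s :=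
  Function.rightInverse_invFun (hF.surjS hT hb) s

include hS in
lemma TT_S {b : ℝ} (hb : b ∈ Ioo (0 : ℝ) 1) (x : ℝ) : TT S b (S b x) = x :=
  Function.leftInverse_invFun (hS b hb).injective x

include hS in
lemma FF_S {b : ℝ} (hb : b ∈ Ioo (0 : ℝ) 1) (x : ℝ) : FF S g b (S b x) = S b (g b x) := by
  unfold FF
  rw [TT_S hS hb]

include hT hF hS in
lemma continuousOn_TT : ContinuousOn (fun z : ℝ × ℝ => TT S z.1 z.2) (Ioo 0 1 ×ˢ univ) := by
  rintro ⟨b, s⟩ ⟨hb, -⟩
  refine ContinuousAt.continuousWithinAt ?_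
  rw [Metric.continuousAt_iff']
  intro ε hε
  simp only at hb
  set x := TT S b s with hx
  have hSx : S b x = s := hF.S_TT hT hb s
  have hO : (Ioo (0 : ℝ) 1 ×ˢ (univ : Set ℝ)) ∈ 𝓝 (b, s) :=
    (isOpen_Ioo.prod isOpen_univ).mem_nhds ⟨hb, mem_univ _⟩
  have hc : ∀ y, ContinuousAt (fun z : ℝ × ℝ => S z.1 y) (b, s) := fun y =>
    ContinuousAt.comp (f := fun z : ℝ × ℝ => z.1) (g := fun b => S b y)
      ((hF.cSb y).continuousAt (isOpen_Ioo.mem_nhds hb)) continuousAt_fst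
  have h1 : ∀ᶠ z in 𝓝 (b, s), S z.1 (x - ε / 2) < z.2 := by
    refine (hc _).eventually_lt continuousAt_snd ?_
    change S b (x - ε / 2) < s
    rw [← hSx]
    exact hS b hb (by linarith)
  have h2 : ∀ᶠ z in 𝓝 (b, s), z.2 < S z.1 (x + ε / 2) := by
    refine ContinuousAt.eventually_lt continuousAt_snd (hc _) ?_
    change s < S b (x + ε / 2)
    nth_rw 1 [← hSx]
    exact hS b hb (by linarith)
  filter_upwards [h1, h2, hO] with z hz1 hz2 hz3
  have hz : z.1 ∈ Ioo (0 : ℝ) 1 := hz3.1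
  have e := hF.S_TT hT hz z.2
  have a1 : x - ε / 2 < TT S z.1 z.2 := by
    rw [← (hS z.1 hz).lt_iff_lt, e]; exact hz1
  have a2 : TT S z.1 z.2 < x + ε / 2 := by
    rw [← (hS z.1 hz).lt_iff_lt, e]; exact hz2
  rw [Real.dist_eq, abs_lt]
  change -ε < TT S z.1 z.2 - x ∧ TT S z.1 z.2 - x < ε
  constructor <;> linarith

include hT hF hS in
lemma continuousOn_FF : ContinuousOn (fun z : ℝ × ℝ => FF S g z.1 z.2) (Ioo 0 1 ×ˢ univ) := by
  have h1 := continuousOn_TT hT hF hS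
  have h2 : ContinuousOn (fun z : ℝ × ℝ => (z.1, TT S z.1 z.2)) (Ioo 0 1 ×ˢ univ) :=
    continuousOn_fst.prodMk h1
  have h3 : ContinuousOn (fun z : ℝ × ℝ => g z.1 (TT S z.1 z.2)) (Ioo 0 1 ×ˢ univ) :=
    hF.contg.comp h2 (fun z hz => ⟨hz.1, mem_univ _⟩)
  exact hF.contS.comp (continuousOn_fst.prodMk h3) (fun z hz => ⟨hz.1, mem_univ _⟩)

include hT hF hS in
lemma FF_injOn (s : ℝ) : InjOn (fun b => FF S g b s) (Ioo 0 1) := by
  intro b hb b' hb' heq
  have e1 := hF.S_TT hT hb s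
  have e2 := hF.S_TT hT hb' s
  exact (hF.inj b hb b' hb' (TT S b s) (TT S b' s) (by rw [e1, e2]) heq).1

include hT hF hS in
lemma FF_cont_b (s : ℝ) : ContinuousOn (fun b => FF S g b s) (Ioo 0 1) :=
  (continuousOn_FF hT hF hS).comp (f := fun b : ℝ => (b, s)) (by fun_prop)
    (fun _ hb => ⟨hb, mem_univ _⟩)

include hT hF hS in
lemma FF_cont_s {b : ℝ} (hb : b ∈ Ioo (0 : ℝ) 1) : Continuous (fun s => FF S g b s) :=
  (continuousOn_FF hT hF hS).comp_continuous (f := fun s : ℝ => (b, s)) (by fun_prop)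
    (fun _ => ⟨hb, mem_univ _⟩)

include hT hF hS in
/-- same direction for all base points -/
lemma FF_direction : (∀ s, StrictMonoOn (fun b => FF S g b s) (Ioo 0 1)) ∨
    (∀ s, StrictAntiOn (fun b => FF S g b s) (Ioo 0 1)) := by
  have hb1 : (1 / 3 : ℝ) ∈ Ioo (0 : ℝ) 1 := by constructor <;> norm_num
  have hb2 : (1 / 2 : ℝ) ∈ Ioo (0 : ℝ) 1 := by constructor <;> norm_num
  have hdir : ∀ s, StrictMonoOn (fun b => FF S g b s) (Ioo 0 1) ∨
      StrictAntiOn (fun b => FF S g b s) (Ioo 0 1) := fun s =>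
    ContinuousOn.strictMonoOn_of_injOn_Ioo one_pos (FF_cont_b hT hF hS s) (FF_injOn hT hF hS s)
  have hne : ∀ s, FF S g (1 / 2) s - FF S g (1 / 3) s ≠ 0 := by
    intro s h0
    have := FF_injOn hT hF hS s hb2 hb1 (sub_eq_zero.1 h0)
    norm_num at this
  have hc : Continuous (fun s => FF S g (1 / 2) s - FF S g (1 / 3) s) :=
    (FF_cont_s hT hF hS hb2).sub (FF_cont_s hT hF hS hb1)
  have hsign : (∀ s, 0 < FF S g (1 / 2) s - FF S g (1 / 3) s) ∨
      (∀ s, FF S g (1 / 2) s - FF S g (1 / 3) s < 0) := by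
    by_contra hcon
    push Not at hcon
    obtain ⟨⟨s1, h1⟩, ⟨s2, h2⟩⟩ := hcon
    obtain ⟨s, hs⟩ := mem_range_of_exists_le_of_exists_ge hc ⟨s1, h1⟩ ⟨s2, h2⟩
    exact hne s hs
  rcases hsign with hp | hn
  · left
    intro s
    rcases hdir s with h1 | h1
    · exact h1
    · have := h1 hb1 hb2 (by norm_num)
      have h2 := hp s
      simp only at this
      linarith
  · right
    intro s
    rcases hdir s with h1 | h1
    · have := h1 hb1 hb2 (by norm_num)
      have h2 := hn s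
      simp only at this
      linarith
    · exact h1

include hT hF hS in
lemma FF_mono {b : ℝ} (hb : b ∈ Ioo (0 : ℝ) 1) : StrictMono (FF S g b) := by
  intro s s' hss
  unfold FF
  apply hS b hb
  apply hF.monog b hb
  rw [← (hS b hb).lt_iff_lt, hF.S_TT hT hb, hF.S_TT hT hb]
  exact hss

include hT hF hS in
lemma FF_per {b : ℝ} (hb : b ∈ Ioo (0 : ℝ) 1) (s : ℝ) : FF S g b (s + P) = FF S g b s + P := by
  have h1 : TT S b (s + P) = TT S b s + 1 := by
    apply (hS b hb).injective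
    rw [hF.S_TT hT hb, hF.perS b hb, hF.S_TT hT hb]
  unfold FF
  rw [h1, hF.perg b hb, hF.perS b hb]

include hT hF in
lemma FF_lo {b : ℝ} (hb : b ∈ Ioo (0 : ℝ) 1) (s : ℝ) : s < FF S g b s := by
  have := hF.lo b hb (TT S b s)
  rwa [hF.S_TT hT hb] at this

include hT hF in
lemma FF_hi {b : ℝ} (hb : b ∈ Ioo (0 : ℝ) 1) (s : ℝ) : FF S g b s < s + P := by
  have := hF.hi b hb (TT S b s)
  rwa [hF.S_TT hT hb] at this

include hT hF hS in
lemma FF_refl {b : ℝ} (hb : b ∈ Ioo (0 : ℝ) 1) (s : ℝ) :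
    q2 s (FF S g b s) = q1 (FF S g b s) (FF S g b (FF S g b s)) := by
  have h1 := hF.refl b hb (TT S b s)
  rw [hF.S_TT hT hb] at h1
  have h2 : FF S g b (FF S g b s) = S b (g b (g b (TT S b s))) := by
    conv_lhs => rw [show FF S g b s = S b (g b (TT S b s)) from rfl]
    rw [FF_S hS hb]
  rw [h2]
  exact h1

include hT hF hS in
lemma FF_cover : ∃ ε > 0, ∀ s s', s < s' → s' < s + ε → ∃ b ∈ Ioo (0 : ℝ) 1, FF S g b s = s' := by
  obtain ⟨ε, hε, hc⟩ := hF.cover
  refine ⟨ε, hε, fun s s' h1 h2 => ?_⟩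
  obtain ⟨b, hb, x, hx, hx'⟩ := hc s s' h1 h2
  refine ⟨b, hb, ?_⟩
  rw [← hx, FF_S hS hb, hx']

end Graph

/-- limit at the boundary -/
lemma lim_of_cover {F : ℝ → ℝ → ℝ} (hlo : ∀ b ∈ Ioo (0 : ℝ) 1, ∀ s, s < F b s)
    (hm : ∀ s, StrictMonoOn (fun b => F b s) (Ioo 0 1))
    (hc : ∃ ε > 0, ∀ s s', s < s' → s' < s + ε → ∃ b ∈ Ioo (0 : ℝ) 1, F b s = s') (s : ℝ) :
    Tendsto (fun b => F b s) (𝓝[>] 0) (𝓝 s) := by
  obtain ⟨ε, hε, hc⟩ := hc
  rw [Metric.tendsto_nhds]
  intro η hη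
  obtain ⟨b, hb, hbe⟩ := hc s (s + min η ε / 2) (by have := lt_min hη hε; linarith)
    (by have := min_le_right η ε; linarith)
  filter_upwards [Ioo_mem_nhdsGT hb.1] with b' hb'
  have hb'1 : b' ∈ Ioo (0 : ℝ) 1 := ⟨hb'.1, hb'.2.trans hb.2⟩
  have h1 := hlo b' hb'1 s
  have h2 := hm s hb'1 hb hb'.2
  simp only at h2
  rw [hbe] at h2
  have h3 := min_le_left η ε
  rw [Real.dist_eq, abs_lt]
  constructor <;> linarith

/-- (T3c), assembly -/
theorem leafFam_of_good (hT : TwistData P q1 q2 h) (hF : FolData P q1 q2 S g)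
    (hd : ∀ u v, 0 ≤ u → u < v → v ≤ 1 → ∃ b ∈ Ioo u v, GoodLeaf (g b)) :
    ∃ F b₁, LeafFam P b₁ q1 q2 F := by
  have hS : ∀ b ∈ Ioo (0 : ℝ) 1, StrictMono (S b) := fun b hb => hF.strictMono_all hT hd hb
  have hcover := FF_cover hT hF hS
  rcases FF_direction hT hF hS with hm | ha
  · refine ⟨FF S g, 1, {
      hb := one_pos, cont := continuousOn_FF hT hF hS,
      mono := fun b hb => FF_mono hT hF hS hb, per := fun b hb s => FF_per hT hF hS hb s,
      lo := fun b hb s => FF_lo hT hF hb s, hi := fun b hb s => FF_hi hT hF hb s,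
      refl := fun b hb s => FF_refl hT hF hS hb s, mono_b := hm,
      lim := lim_of_cover (fun b hb s => FF_lo hT hF hb s) hm hcover }⟩
  · have hflip : ∀ b ∈ Ioo (0 : ℝ) 1, 1 - b ∈ Ioo (0 : ℝ) 1 := fun b hb =>
      ⟨by linarith [hb.2], by linarith [hb.1]⟩
    have hm : ∀ s, StrictMonoOn (fun b => FF S g (1 - b) s) (Ioo 0 1) := by
      intro s b hb b' hb' hlt
      exact ha s (hflip b' hb') (hflip b hb) (by linarith)
    refine ⟨fun b s => FF S g (1 - b) s, 1, {
      hb := one_pos, cont := ?_,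
      mono := fun b hb => FF_mono hT hF hS (hflip b hb),
      per := fun b hb s => FF_per hT hF hS (hflip b hb) s,
      lo := fun b hb s => FF_lo hT hF (hflip b hb) s,
      hi := fun b hb s => FF_hi hT hF (hflip b hb) s,
      refl := fun b hb s => FF_refl hT hF hS (hflip b hb) s, mono_b := hm,
      lim := lim_of_cover (fun b hb s => FF_lo hT hF (hflip b hb) s) hm ?_ }⟩
    · exact (continuousOn_FF hT hF hS).comp (f := fun z : ℝ × ℝ => (1 - z.1, z.2)) (by fun_prop)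
        (fun z hz => ⟨hflip z.1 hz.1, mem_univ _⟩)
    · obtain ⟨ε, hε, hc⟩ := hcover
      refine ⟨ε, hε, fun s s' h1 h2 => ?_⟩
      obtain ⟨b, hb, hbe⟩ := hc s s' h1 h2
      refine ⟨1 - b, hflip b hb, ?_⟩
      change FF S g (1 - (1 - b)) s = s'
      rw [sub_sub_cancel]
      exact hbe

end Fol

end Crest.Agent.R102.S0
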