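import Crest.Agent.R102.Fol1B_160
import Crest.Agent.R102.Fol2_540

/-!
Row 102, link leaf (T3c) of `S0_821_v2`, assembly modulo the area lemma (helper540).
-/

set_option autoImplicit false

open Set Filter Topology

namespace Crest.Agent.R102.S0

variable {P : ℝ} {q1 q2 h S g : ℝ → ℝ → ℝ} {T : ℝ × ℝ → ℝ × ℝ}

/-- a next-point map -/
noncomputable def nextMap (hT : TwistData P q1 q2 h) (z : ℝ × ℝ) : ℝ × ℝ :=
  open Classical in
  if hz : z.1 < z.2 ∧ z.2 < z.1 + P then (z.2, Classical.choose (hT.next z.1 z.2 hz.1 hz.2)) else z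

lemma isNext_nextMap (hT : TwistData P q1 q2 h) : IsNext P q1 q2 (nextMap hT) := by
  have key : ∀ z ∈ Pairs P, (nextMap hT z).1 = z.2 ∧ z.2 < (nextMap hT z).2 ∧
      (nextMap hT z).2 < z.2 + P ∧ q2 z.1 z.2 = q1 z.2 (nextMap hT z).2 := by
    intro z hz
    have hz' : z.1 < z.2 ∧ z.2 < z.1 + P := hz
    have h1 := Classical.choose_spec (hT.next z.1 z.2 hz'.1 hz'.2)
    unfold nextMap
    rw [dif_pos hz']
    exact ⟨rfl, h1⟩
  refine ⟨fun z hz => (key z hz).1, fun z hz => ?_, fun z hz => (key z hz).2.2.2⟩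
  obtain ⟨h1, h2, h3, -⟩ := key z hz
  change (nextMap hT z).1 < (nextMap hT z).2 ∧ (nextMap hT z).2 < (nextMap hT z).1 + P
  rw [h1]
  exact ⟨h2, h3⟩

/-- (T3c) modulo the area lemma -/
theorem leafFam_of_folData_of_area (hT : TwistData P q1 q2 h) (hF : FolData P q1 q2 S g)
    (hN : IsNext P q1 q2 T) (hA : AreaL P T) : ∃ F b₁, LeafFam P b₁ q1 q2 F := by
  refine leafFam_of_good hT hF (fun u v hu huv hv => ?_)
  obtain ⟨b, hb, hw⟩ := exists_good_leaf_of_area hT hF hN hA hu huv hv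
  have hb' : b ∈ Ioo (0 : ℝ) 1 := ⟨lt_of_le_of_lt hu hb.1, lt_of_lt_of_le hb.2 hv⟩
  obtain ⟨φ, r, h1, h2, h3, h4⟩ := exists_conj_of_not_wand (hF.cg hb') (hF.monog b hb')
    (hF.perg b hb') hw
  exact ⟨b, hb, φ, r, h1, h2, h3, h4⟩

end Crest.Agent.R102.S0
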