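import Crest.Agent.R102.Geo_821

/-!
Row 102, leaf T3l, part C: chord angles, and the billiard map in terms of pairs.
-/

set_option autoImplicit false

namespace Crest.Agent.R102.L785

open Set Filter Topology
open Crest.AnalysisR.Billiard Crest.Agent.R102.S0

/-- speed. -/
noncomputable def nn (γ : ℝ → ℝ × ℝ) (s : ℝ) : ℝ := Real.sqrt (dot (deriv γ s) (deriv γ s))

/-- outgoing angle at `s` of the chord `(s, s')`. -/
noncomputable def ang (γ : ℝ → ℝ × ℝ) (s s' : ℝ) : ℝ := Real.arccos (p1 γ s s' / nn γ s)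

/-- outgoing angle at `s'` after reflection of the chord `(s, s')`. -/
noncomputable def ang2 (γ : ℝ → ℝ × ℝ) (s s' : ℝ) : ℝ := Real.arccos (p2 γ s s' / nn γ s')

section
variable {Ω : Set (ℝ × ℝ)} {γ : ℝ → ℝ × ℝ} {P : ℝ}

lemma nn_pos (h : IsTable Ω γ P) (s : ℝ) : 0 < nn γ s :=
  Real.sqrt_pos.mpr (dot_self_pos (tbl_ne h s))

lemma nn_sq (s : ℝ) : nn γ s ^ 2 = dot (deriv γ s) (deriv γ s) :=
  Real.sq_sqrt (dot_self_nonneg _)

lemma c1_abs (h : IsTable Ω γ P) {s s' : ℝ} (h1 : s < s') (h2 : s' < s + P) :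
    |p1 γ s s' / nn γ s| < 1 := by
  rw [abs_div, abs_of_pos (nn_pos h s), div_lt_one (nn_pos h s)]
  exact p1_abs_lt h h1 h2

lemma c2_abs (h : IsTable Ω γ P) {s s' : ℝ} (h1 : s < s') (h2 : s' < s + P) :
    |p2 γ s s' / nn γ s'| < 1 := by
  rw [abs_div, abs_of_pos (nn_pos h s'), div_lt_one (nn_pos h s')]
  exact p2_abs_lt h h1 h2

lemma ang_mem (h : IsTable Ω γ P) {s s' : ℝ} (h1 : s < s') (h2 : s' < s + P) :
    ang γ s s' ∈ Ioo 0 Real.pi := by
  have := abs_lt.1 (c1_abs h h1 h2)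
  exact ⟨Real.arccos_pos.2 this.2, Real.arccos_lt_pi.2 this.1⟩

lemma ang2_mem (h : IsTable Ω γ P) {s s' : ℝ} (h1 : s < s') (h2 : s' < s + P) :
    ang2 γ s s' ∈ Ioo 0 Real.pi := by
  have := abs_lt.1 (c2_abs h h1 h2)
  exact ⟨Real.arccos_pos.2 this.2, Real.arccos_lt_pi.2 this.1⟩

lemma cos_ang (h : IsTable Ω γ P) {s s' : ℝ} (h1 : s < s') (h2 : s' < s + P) :
    Real.cos (ang γ s s') = p1 γ s s' / nn γ s := by
  have := abs_lt.1 (c1_abs h h1 h2)
  exact Real.cos_arccos this.1.le this.2.le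

lemma cos_ang2 (h : IsTable Ω γ P) {s s' : ℝ} (h1 : s < s') (h2 : s' < s + P) :
    Real.cos (ang2 γ s s') = p2 γ s s' / nn γ s' := by
  have := abs_lt.1 (c2_abs h h1 h2)
  exact Real.cos_arccos this.1.le this.2.le

lemma sin_arccos_aux {c d n l : ℝ} (hn : 0 < n) (hl : 0 < l) (hd : 0 < d)
    (hcd : c ^ 2 + d ^ 2 = n ^ 2 * l ^ 2) :
    Real.sin (Real.arccos (c / l / n)) = d / (n * l) := by
  rw [Real.sin_arccos]
  have h1 : 1 - (c / l / n) ^ 2 = (d / (n * l)) ^ 2 := by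
    field_simp
    linarith
  rw [h1]
  exact Real.sqrt_sq (by positivity)

lemma sin_ang (h : IsTable Ω γ P) {s s' : ℝ} (h1 : s < s') (h2 : s' < s + P) :
    Real.sin (ang γ s s') = det2 (deriv γ s) (γ s' - γ s) / (nn γ s * len γ s s') := by
  refine sin_arccos_aux (nn_pos h s) (len_pos h h1 h2) (tbl_tan_pos h h1 h2) ?_
  rw [nn_sq, len_sq]
  exact dot_sq_add_det_sq _ _

lemma sin_ang2 (h : IsTable Ω γ P) {s s' : ℝ} (h1 : s < s') (h2 : s' < s + P) :
    Real.sin (ang2 γ s s') = det2 (γ s' - γ s) (deriv γ s') / (nn γ s' * len γ s s') := by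
  refine sin_arccos_aux (nn_pos h s') (len_pos h h1 h2) (tbl_tan_pos' h h1 h2) ?_
  rw [nn_sq, len_sq, det2_neg_swap]
  have := dot_sq_add_det_sq (deriv γ s') (γ s' - γ s)
  linarith

lemma outDir_ang (h : IsTable Ω γ P) {s s' : ℝ} (h1 : s < s') (h2 : s' < s + P) :
    outDir γ s (ang γ s s') = (1 / len γ s s') • (γ s' - γ s) := by
  have hn := nn_pos h s
  have hl := len_pos h h1 h2
  have hn2 : nn γ s ^ 2 = (deriv γ s).1 * (deriv γ s).1 + (deriv γ s).2 * (deriv γ s).2 := nn_sq s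
  rw [outDir, cos_ang h h1 h2, sin_ang h h1 h2]
  have hu : unitTangent γ s = (1 / nn γ s) • deriv γ s := rfl
  rw [hu]
  refine Prod.ext ?_ ?_
  · simp only [p1, dot, det2, perp, Prod.fst_add, Prod.smul_fst, Prod.smul_snd, smul_eq_mul,
      Prod.fst_sub, Prod.snd_sub]
    field_simp
    rw [hn2]
    ring
  · simp only [p1, dot, det2, perp, Prod.snd_add, Prod.smul_fst, Prod.smul_snd, smul_eq_mul,
      Prod.fst_sub, Prod.snd_sub]
    field_simp
    rw [hn2]
    ring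

/-- pairs give billiard steps. -/
lemma isNextHit_pair (h : IsTable Ω γ P) {s s' : ℝ} (h1 : s < s') (h2 : s' < s + P) :
    IsNextHit Ω γ (γ s, ang γ s s') (γ s', ang2 γ s s') := by
  have hl := len_pos h h1 h2
  have hn := nn_pos h s'
  refine ⟨⟨tbl_mem_frontier h s, ang_mem h h1 h2⟩, ⟨tbl_mem_frontier h s', ang2_mem h h1 h2⟩,
    s, s', len γ s s', rfl, rfl, hl, ?_, ?_, ?_⟩
  · simp only
    rw [outDir_ang h h1 h2, smul_smul, mul_one_div_cancel hl.ne', one_smul]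
    abel
  · simp only
    rw [outDir_ang h h1 h2, cos_ang2 h h1 h2]
    have hu : unitTangent γ s' = (1 / nn γ s') • deriv γ s' := rfl
    rw [hu]
    simp only [p2, dot, Prod.smul_fst, Prod.smul_snd, smul_eq_mul, Prod.fst_sub, Prod.snd_sub]
    field_simp
  · simp only
    rw [outDir_ang h h1 h2, sin_ang2 h h1 h2]
    have hu : unitTangent γ s' = (1 / nn γ s') • deriv γ s' := rfl
    rw [hu]
    simp only [det2, dot, perp, Prod.smul_fst, Prod.smul_snd, smul_eq_mul, Prod.fst_sub,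
      Prod.snd_sub]
    field_simp
    ring

lemma exists_ang (h : IsTable Ω γ P) (s : ℝ) {δ : ℝ} (hδ : δ ∈ Ioo 0 Real.pi) :
    ∃ s', s < s' ∧ s' < s + P ∧ ang γ s s' = δ := by
  have hn := nn_pos h s
  have hc : |Real.cos δ| < 1 := by
    rw [abs_lt]
    constructor
    · have := Real.cos_lt_cos_of_nonneg_of_le_pi hδ.1.le le_rfl hδ.2
      rwa [Real.cos_pi] at this
    · have := Real.cos_lt_cos_of_nonneg_of_le_pi le_rfl hδ.2.le hδ.1
      rwa [Real.cos_zero] at this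
  obtain ⟨t, ht1, ht2, ht3⟩ := exists_p1_eq h s (nn γ s * Real.cos δ) (by
    rw [abs_mul, abs_of_pos hn]
    change _ < nn γ s
    nlinarith)
  refine ⟨t, ht1, ht2, ?_⟩
  rw [ang, ht3, mul_div_cancel_left₀ _ hn.ne']
  exact Real.arccos_cos hδ.1.le hδ.2.le

lemma ang_strictMono (h : IsTable Ω γ P) (s : ℝ) : StrictMonoOn (ang γ s) (Ioo s (s + P)) := by
  intro a ha b hb hab
  have h1 := p1_strictAnti h s ha hb hab
  have h2 := abs_lt.1 (c1_abs h ha.1 ha.2)
  have h3 := abs_lt.1 (c1_abs h hb.1 hb.2)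
  exact Real.strictAntiOn_arccos ⟨h3.1.le, h3.2.le⟩ ⟨h2.1.le, h2.2.le⟩
    (div_lt_div_of_pos_right h1 (nn_pos h s))

lemma ang2_inj (h : IsTable Ω γ P) {s' a b : ℝ} (ha : a < s') (ha' : s' < a + P)
    (hb : b < s') (hb' : s' < b + P) (hab : ang2 γ a s' = ang2 γ b s') : a = b := by
  have h2 := abs_lt.1 (c2_abs h ha ha')
  have h3 := abs_lt.1 (c2_abs h hb hb')
  have h4 := Real.arccos_injOn ⟨h2.1.le, h2.2.le⟩ ⟨h3.1.le, h3.2.le⟩ hab
  have h5 := (div_left_inj' (nn_pos h s').ne').1 h4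
  exact (p2_strictMono h s').injOn ⟨by linarith, ha⟩ ⟨by linarith, hb⟩ h5

lemma refl_of_ang (h : IsTable Ω γ P) {s s' s'' : ℝ} (h1 : s < s') (h2 : s' < s + P)
    (h3 : s' < s'') (h4 : s'' < s' + P) (he : ang γ s' s'' = ang2 γ s s') :
    p2 γ s s' = p1 γ s' s'' := by
  have a2 := abs_lt.1 (c1_abs h h3 h4)
  have a3 := abs_lt.1 (c2_abs h h1 h2)
  have a4 := Real.arccos_injOn ⟨a2.1.le, a2.2.le⟩ ⟨a3.1.le, a3.2.le⟩ he
  exact ((div_left_inj' (nn_pos h s').ne').1 a4).symm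

lemma nn_per (h : IsTable Ω γ P) (s : ℝ) : nn γ (s + P) = nn γ s := by
  simp only [nn]; rw [tbl_deriv_per h]

lemma ang_per (h : IsTable Ω γ P) (s s' : ℝ) : ang γ (s + P) (s' + P) = ang γ s s' := by
  simp only [ang]; rw [nn_per h, (twistData_of_isTable h).per1]

lemma ang2_per (h : IsTable Ω γ P) (s s' : ℝ) : ang2 γ (s + P) (s' + P) = ang2 γ s s' := by
  simp only [ang2]; rw [nn_per h, (twistData_of_isTable h).per2]

lemma continuous_nn (h : IsTable Ω γ P) : Continuous (nn γ) := by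
  have h0 := tbl_deriv_cont h
  unfold nn dot
  fun_prop

lemma isOpen_Pairs (P : ℝ) : IsOpen (Pairs P) :=
  (isOpen_lt continuous_fst continuous_snd).inter
    (isOpen_lt continuous_snd (continuous_fst.add continuous_const))

lemma continuousOn_ang (h : IsTable Ω γ P) :
    ContinuousOn (fun z : ℝ × ℝ => ang γ z.1 z.2) (Pairs P) := by
  have h1 := continuousOn_p1 h
  have h2 : Continuous (fun z : ℝ × ℝ => nn γ z.1) := (continuous_nn h).comp continuous_fst
  exact Real.continuous_arccos.comp_continuousOn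
    (h1.div h2.continuousOn fun z _ => (nn_pos h z.1).ne')

lemma continuousOn_ang2 (h : IsTable Ω γ P) :
    ContinuousOn (fun z : ℝ × ℝ => ang2 γ z.1 z.2) (Pairs P) := by
  have h1 := continuousOn_p2 h
  have h2 : Continuous (fun z : ℝ × ℝ => nn γ z.2) := (continuous_nn h).comp continuous_snd
  exact Real.continuous_arccos.comp_continuousOn
    (h1.div h2.continuousOn fun z _ => (nn_pos h z.2).ne')

/-- short chords have small angles, locally uniformly. -/
lemma ang_small_local (h : IsTable Ω γ P) {η : ℝ} (hη : 0 < η) (s₀ : ℝ) :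
    ∀ᶠ z : ℝ × ℝ in 𝓝 (0, s₀), 0 < z.1 → ang γ z.2 (z.2 + z.1) < η := by
  have hstr : HasStrictDerivAt γ (deriv γ s₀) s₀ :=
    ((tbl_smooth h).contDiffAt).hasStrictDerivAt (by simp)
  -- slopes
  have h1 : Tendsto (fun z : ℝ × ℝ => (z.1)⁻¹ • (γ (z.2 + z.1) - γ z.2))
      (𝓝 (0, s₀) ⊓ 𝓟 {z | 0 < z.1}) (𝓝 (deriv γ s₀)) := by
    have h2 : Tendsto (fun z : ℝ × ℝ => (z.2 + z.1, z.2)) (𝓝 ((0 : ℝ), s₀)) (𝓝 (s₀, s₀)) := by
      have : Continuous (fun z : ℝ × ℝ => (z.2 + z.1, z.2)) := by fun_prop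
      have h3 := this.tendsto (0, s₀)
      simpa using h3
    have h4 := hstr.hasStrictFDerivAt.isLittleO.comp_tendsto h2
    simp only [Function.comp_def] at h4
    rw [tendsto_iff_norm_sub_tendsto_zero]
    rw [Asymptotics.isLittleO_iff] at h4
    rw [Metric.tendsto_nhds]
    intro ε hε
    have h5 := h4 (half_pos hε)
    rw [eventually_inf_principal]
    filter_upwards [h5] with z hz hz0
    have hz0' : (0:ℝ) < z.1 := hz0
    have e1 : (z.1)⁻¹ • (γ (z.2 + z.1) - γ z.2) - deriv γ s₀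
        = (z.1)⁻¹ • (γ (z.2 + z.1) - γ z.2 - z.1 • deriv γ s₀) := by
      rw [smul_sub _ (γ (z.2 + z.1) - γ z.2), smul_smul, inv_mul_cancel₀ hz0'.ne', one_smul]
    rw [dist_zero_right, norm_norm, e1, norm_smul, norm_inv, Real.norm_of_nonneg hz0'.le]
    have e2 : z.2 + z.1 - z.2 = z.1 := by ring
    simp only [e2, ContinuousLinearMap.toSpanSingleton_apply, Real.norm_of_nonneg hz0'.le] at hz
    rw [inv_mul_lt_iff₀ hz0']
    calc _ ≤ ε / 2 * z.1 := hz
      _ < z.1 * ε := by nlinarith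
  have h6 : Tendsto (fun z : ℝ × ℝ => p1 γ z.2 (z.2 + z.1) / nn γ z.2)
      (𝓝 (0, s₀) ⊓ 𝓟 {z | 0 < z.1}) (𝓝 1) := by
    have hd : Tendsto (fun z : ℝ × ℝ => deriv γ z.2) (𝓝 (0, s₀) ⊓ 𝓟 {z | 0 < z.1})
        (𝓝 (deriv γ s₀)) := by
      have : Continuous (fun z : ℝ × ℝ => deriv γ z.2) := (tbl_deriv_cont h).comp continuous_snd
      exact (this.tendsto (0, s₀)).mono_left inf_le_left
    have hdot : Tendsto (fun z : ℝ × ℝ => dot (deriv γ z.2)
        ((z.1)⁻¹ • (γ (z.2 + z.1) - γ z.2))) (𝓝 (0, s₀) ⊓ 𝓟 {z | 0 < z.1})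
        (𝓝 (dot (deriv γ s₀) (deriv γ s₀))) :=
      (continuous_dot.tendsto _).comp (hd.prodMk_nhds h1)
    have hsq : Tendsto (fun z : ℝ × ℝ => Real.sqrt (dot ((z.1)⁻¹ • (γ (z.2 + z.1) - γ z.2))
        ((z.1)⁻¹ • (γ (z.2 + z.1) - γ z.2)))) (𝓝 (0, s₀) ⊓ 𝓟 {z | 0 < z.1})
        (𝓝 (nn γ s₀)) :=
      (Real.continuous_sqrt.tendsto _).comp ((continuous_dot.tendsto _).comp (h1.prodMk_nhds h1))
    have hnn : Tendsto (fun z : ℝ × ℝ => nn γ z.2) (𝓝 (0, s₀) ⊓ 𝓟 {z | 0 < z.1})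
        (𝓝 (nn γ s₀)) := by
      have : Continuous (fun z : ℝ × ℝ => nn γ z.2) := (continuous_nn h).comp continuous_snd
      exact (this.tendsto (0, s₀)).mono_left inf_le_left
    have hq := (hdot.div hsq (nn_pos h s₀).ne').div hnn (nn_pos h s₀).ne'
    have e3 : dot (deriv γ s₀) (deriv γ s₀) / nn γ s₀ / nn γ s₀ = 1 := by
      have := nn_sq (γ := γ) s₀
      have hp := nn_pos h s₀
      rw [← this]; field_simp
    rw [e3] at hq
    refine hq.congr' ?_
    rw [EventuallyEq, eventually_inf_principal]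
    refine Eventually.of_forall fun z hz => ?_
    have hz' : (0:ℝ) < (z.1)⁻¹ := inv_pos.2 hz
    have := dirq_smul_pos (deriv γ z.2) (γ (z.2 + z.1) - γ z.2) hz'
    simp only [Pi.div_apply]
    rw [p1_eq_dirq, ← this]
    rfl
  have h7 : Tendsto (fun z : ℝ × ℝ => ang γ z.2 (z.2 + z.1))
      (𝓝 (0, s₀) ⊓ 𝓟 {z | 0 < z.1}) (𝓝 0) := by
    have := (Real.continuous_arccos.tendsto 1).comp h6
    rwa [Real.arccos_one] at this
  have h8 := h7.eventually (gt_mem_nhds hη)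
  rwa [eventually_inf_principal] at h8

/-- short chords have small angles, uniformly. -/
lemma ang_small (h : IsTable Ω γ P) {η : ℝ} (hη : 0 < η) :
    ∃ ε > 0, ε ≤ P ∧ ∀ s s', s < s' → s' < s + ε → ang γ s s' < η := by
  have hP := tbl_P h
  have h1 := (isCompact_Icc (a := (0:ℝ)) (b := P)).eventually_forall_of_forall_eventually
    (x₀ := (0:ℝ)) (P := fun t s => 0 < t → ang γ s (s + t) < η)
    (fun s₀ _ => ang_small_local h hη s₀)
  obtain ⟨ε, hε, hb⟩ := Metric.eventually_nhds_iff.1 h1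
  refine ⟨min ε P, lt_min hε hP, min_le_right _ _, ?_⟩
  intro s s' hs hs'
  -- reduce `s` to `[0,P]`
  obtain ⟨m, hm, -⟩ := existsUnique_sub_zsmul_mem_Ico hP s 0
  rw [zero_add] at hm
  have hper : ∀ (m : ℤ) (a b : ℝ), ang γ (a - m • P) (b - m • P) = ang γ a b := by
    intro m
    induction m using Int.induction_on with
    | zero => simp
    | succ i ih =>
      intro a b
      rw [← ang_per h, ← ih a b]
      congr 1 <;> (simp only [zsmul_eq_mul]; push_cast; ring)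
    | pred i ih =>
      intro a b
      have e := ang_per h (a - (-(i : ℤ)) • P) (b - (-(i : ℤ)) • P)
      rw [ih] at e
      rw [← e]
      congr 1 <;> (simp only [zsmul_eq_mul]; push_cast; ring)
  have ht : dist (s' - s) 0 < ε := by
    rw [dist_zero_right, Real.norm_of_nonneg (by linarith)]
    have := min_le_left ε P
    linarith
  have h2 := hb ht (s - m • P) ⟨hm.1, hm.2.le⟩ (by linarith)
  have e : s - m • P + (s' - s) = s' - m • P := by ring
  rw [e, hper] at h2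
  exact h2

end

/-- continuity of a root of a family of strictly monotone functions. -/
theorem continuous_of_root {Z : Type*} [TopologicalSpace Z] {f : Z → ℝ → ℝ}
    {c r lo hi : Z → ℝ} (hlo : Continuous lo) (hhi : Continuous hi) (hc : Continuous c)
    (hr : ∀ z, lo z < r z ∧ r z < hi z) (hroot : ∀ z, f z (r z) = c z)
    (hmono : ∀ z, StrictMonoOn (f z) (Ioo (lo z) (hi z)))
    (hf : ∀ z t, lo z < t → t < hi z → ContinuousAt (fun w => f w t) z) : Continuous r := by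
  rw [continuous_iff_continuousAt]
  intro z₀
  obtain ⟨hr1, hr2⟩ := hr z₀
  rw [ContinuousAt, tendsto_order]
  constructor
  · intro u hu
    set u' := max u ((lo z₀ + r z₀) / 2) with hu'
    have h1 : u' < r z₀ := max_lt hu (by linarith)
    have h2 : lo z₀ < u' := lt_of_lt_of_le (by linarith) (le_max_right _ _)
    have h3 : u' < hi z₀ := h1.trans hr2
    have h4 : f z₀ u' < c z₀ := by
      rw [← hroot]; exact hmono z₀ ⟨h2, h3⟩ ⟨hr1, hr2⟩ h1
    have h5 : ∀ᶠ z in 𝓝 z₀, f z u' < c z := (hf z₀ u' h2 h3).eventually_lt hc.continuousAt h4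
    have h6 : ∀ᶠ z in 𝓝 z₀, lo z < u' := hlo.continuousAt.eventually_lt_const h2
    have h7 : ∀ᶠ z in 𝓝 z₀, u' < hi z := hhi.continuousAt.eventually_const_lt h3
    filter_upwards [h5, h6, h7] with z e5 e6 e7
    by_contra hcon
    push Not at hcon
    have e8 : r z ≤ u' := hcon.trans (le_max_left _ _)
    have e9 := (hmono z).monotoneOn (hr z) ⟨e6, e7⟩ e8
    rw [hroot] at e9
    exact absurd e9 (not_le.2 e5)
  · intro u hu
    set u' := min u ((hi z₀ + r z₀) / 2) with hu'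
    have h1 : r z₀ < u' := lt_min hu (by linarith)
    have h2 : u' < hi z₀ := lt_of_le_of_lt (min_le_right _ _) (by linarith)
    have h3 : lo z₀ < u' := hr1.trans h1
    have h4 : c z₀ < f z₀ u' := by
      rw [← hroot]; exact hmono z₀ ⟨hr1, hr2⟩ ⟨h3, h2⟩ h1
    have h5 : ∀ᶠ z in 𝓝 z₀, c z < f z u' := hc.continuousAt.eventually_lt (hf z₀ u' h3 h2) h4
    have h6 : ∀ᶠ z in 𝓝 z₀, lo z < u' := hlo.continuousAt.eventually_lt_const h3
    have h7 : ∀ᶠ z in 𝓝 z₀, u' < hi z := hhi.continuousAt.eventually_const_lt h2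
    filter_upwards [h5, h6, h7] with z e5 e6 e7
    by_contra hcon
    push Not at hcon
    have e8 : u' ≤ r z := (min_le_left _ _).trans hcon
    have e9 := (hmono z).monotoneOn ⟨e6, e7⟩ (hr z) e8
    rw [hroot] at e9
    exact absurd e9 (not_le.2 e5)

end Crest.Agent.R102.L785
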