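import Crest.Agent.R102.LiftB_785
import Crest.Agent.R102.LiftC_785

/-!
Row 102, leaf T3l: an invariant phase foliation gives `FolData`.
-/

set_option autoImplicit false

namespace Crest.Agent.R102.L785

open Set Filter Topology
open Crest.AnalysisR.Billiard Crest.Agent.R102.S0

section
variable {Ω : Set (ℝ × ℝ)} {γ : ℝ → ℝ × ℝ} {P : ℝ}

/-- The data of the lift, before turning `(0,1)` into a subset. -/
structure PreFol (P : ℝ) (q1 q2 : ℝ → ℝ → ℝ) (ρ : AA → ℝ × ℝ) (G : AA → ℝ) : Prop where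
  emb : IsOpenEmbedding ρ
  pair : ∀ a, ρ a ∈ Pairs P
  per : ∀ b x, ρ (b, x + 1) = ρ (b, x) + (P, P)
  contG : Continuous G
  perG : ∀ b x, G (b, x + 1) = G (b, x) + 1
  injG : ∀ b, Function.Injective fun x => G (b, x)
  next : ∀ a : AA, (ρ (a.1, G a)).1 = (ρ a).2
  refl : ∀ a : AA, q2 (ρ a).1 (ρ a).2 = q1 (ρ (a.1, G a)).1 (ρ (a.1, G a)).2
  cover : ∃ ε > 0, ∀ s s', s < s' → s' < s + ε → ∃ a, ρ a = (s, s')

theorem exists_preFol (h : IsTable Ω γ P) (hf : HasInvariantPhaseFoliation Ω γ) :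
    ∃ ρ G, PreFol P (p1 γ) (p2 γ) ρ G := by
  obtain ⟨U, hUs, ⟨O, hO, hUO⟩, ⟨η, hη, hηU⟩, -, H, hH⟩ := hf
  obtain ⟨κ, k1, k2, k3, k4⟩ := lift_foliation h hUs hO hUO hη hηU H
  have hP := tbl_P h
  have k2m : ∀ (b : Ioo (0:ℝ) 1) (x : ℝ) (k : ℤ), κ (b, x + k) = κ (b, x) + (k * P, 0) := by
    intro b x k
    induction k using Int.induction_on with
    | zero => simp
    | succ i ih =>
      have := k2 b (x + i)
      push_cast at ih ⊢
      rw [← add_assoc, this, ih]
      refine Prod.ext ?_ ?_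
      · simp only [Prod.fst_add]; ring
      · simp only [Prod.snd_add]; ring
    | pred i ih =>
      have := k2 b (x + (-(i:ℤ) - 1 : ℤ))
      push_cast at ih this ⊢
      have e : x + (-(i:ℝ) - 1) + 1 = x + -(i:ℝ) := by ring
      rw [e, ih] at this
      have e1 := congrArg Prod.fst this
      have e2 := congrArg Prod.snd this
      simp only [Prod.fst_add, Prod.snd_add] at e1 e2
      refine Prod.ext ?_ ?_
      · simp only [Prod.fst_add]; linarith
      · simp only [Prod.snd_add]; linarith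
  have hU : ∀ a, (γ (κ a).1, (κ a).2) ∈ U := fun a => (k3 (κ a)).1 ⟨a, rfl⟩
  have hδ : ∀ a, (κ a).2 ∈ Ioo 0 Real.pi := fun a => (hUs (hU a)).2
  -- next boundary parameter
  choose E hE1 hE2 hE3 using fun a : AA => exists_ang h (κ a).1 (hδ a)
  set ρ : AA → ℝ × ℝ := fun a => ((κ a).1, E a) with hρ
  have hρp : ∀ a, ρ a ∈ Pairs P := fun a => ⟨hE1 a, hE2 a⟩
  have hEc : Continuous E := by
    have hκ1 : Continuous fun a => (κ a).1 := continuous_fst.comp k1.continuous
    refine continuous_of_root (f := fun a t => ang γ (κ a).1 t) (c := fun a => (κ a).2)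
      (lo := fun a => (κ a).1) (hi := fun a => (κ a).1 + P) hκ1 (hκ1.add continuous_const)
      (continuous_snd.comp k1.continuous) (fun a => ⟨hE1 a, hE2 a⟩) hE3
      (fun a => ang_strictMono h _) ?_
    intro a t h1 h2
    have h3 : ContinuousAt (fun z : ℝ × ℝ => ang γ z.1 z.2) ((κ a).1, t) :=
      (continuousOn_ang h).continuousAt ((isOpen_Pairs P).mem_nhds ⟨h1, h2⟩)
    have h4 : ContinuousAt (fun w : AA => ((κ w).1, t)) a :=
      (hκ1.prodMk continuous_const).continuousAt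
    exact ContinuousAt.comp (f := fun w : AA => ((κ w).1, t)) h3 h4
  have hρc : Continuous ρ := (continuous_fst.comp k1.continuous).prodMk hEc
  have hρκ : ∀ a a', ρ a = ρ a' → κ a = κ a' := by
    intro a a' haa
    have h1 : (κ a).1 = (κ a').1 := (Prod.ext_iff.1 haa).1
    have h2 : E a = E a' := (Prod.ext_iff.1 haa).2
    refine Prod.ext h1 ?_
    rw [← hE3 a, ← hE3 a', h1, h2]
  have hκρ : ∀ a a', κ a = κ a' → ρ a = ρ a' := fun a a' haa => by rw [k1.injective haa]
  have hρinj : Function.Injective ρ := fun a a' haa => k1.injective (hρκ a a' haa)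
  have hρopen : IsOpenMap ρ := by
    intro V hV
    have h1 : ρ '' V = Pairs P ∩ (fun z : ℝ × ℝ => (z.1, ang γ z.1 z.2)) ⁻¹' (κ '' V) := by
      ext z
      constructor
      · rintro ⟨a, ha, rfl⟩
        refine ⟨hρp a, ⟨a, ha, ?_⟩⟩
        refine Prod.ext rfl ?_
        exact (hE3 a).symm
      · rintro ⟨hz, a, ha, hza⟩
        refine ⟨a, ha, ?_⟩
        have e1 : (κ a).1 = z.1 := (Prod.ext_iff.1 hza).1
        have e2 : (κ a).2 = ang γ z.1 z.2 := (Prod.ext_iff.1 hza).2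
        refine Prod.ext e1 ?_
        refine (ang_strictMono h z.1).injOn ⟨?_, ?_⟩ ⟨hz.1, hz.2⟩ ?_
        · rw [← e1]; exact hE1 a
        · rw [← e1]; exact hE2 a
        · change ang γ z.1 (E a) = _
          rw [← e2, ← hE3 a, e1]
    rw [h1]
    refine ContinuousOn.isOpen_inter_preimage ?_ (isOpen_Pairs P) (k1.isOpenMap V hV)
    exact continuous_fst.continuousOn.prodMk (continuousOn_ang h)
  have hemb : IsOpenEmbedding ρ :=
    .of_continuous_injective_isOpenMap hρc hρinj hρopen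
  -- leaf map
  have hleaf : ∀ a : AA, ∃ y : ℝ, κ (a.1, y) = (E a, ang2 γ (κ a).1 (E a)) := by
    rintro ⟨b, x⟩
    obtain ⟨-, hinv, -⟩ := hH b
    obtain ⟨θ, hθ⟩ := (k4 b (γ (κ (b, x)).1, (κ (b, x)).2)).1 ⟨x, rfl⟩
    have h1 := isNextHit_pair h (hE1 (b, x)) (hE2 (b, x))
    rw [hE3] at h1
    obtain ⟨θ', hθ'⟩ := hinv _ ⟨θ, hθ⟩ _ h1
    obtain ⟨x', hx'⟩ := (k4 b _).2 ⟨θ', hθ'⟩
    have e1 : γ (κ (b, x')).1 = γ (E (b, x)) := congrArg Prod.fst hx'
    have e2 : (κ (b, x')).2 = ang2 γ (κ (b, x)).1 (E (b, x)) := congrArg Prod.snd hx'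
    obtain ⟨m, hm⟩ := tbl_inj_mod h e1
    refine ⟨x' + m, ?_⟩
    rw [k2m]
    refine Prod.ext ?_ ?_
    · simp only [Prod.fst_add]; exact hm.symm
    · simp only [Prod.snd_add, add_zero]; exact e2
  choose G hG using hleaf
  have hGc : Continuous G := by
    have h1 : Continuous (fun a : AA => ((a.1, G a) : AA)) := by
      rw [k1.isInducing.continuous_iff]
      have h2 : (κ ∘ fun a : AA => ((a.1, G a) : AA)) =
          fun a => (E a, ang2 γ (κ a).1 (E a)) := by
        funext a; exact hG a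
      rw [h2]
      refine hEc.prodMk ?_
      have h3 : (fun a => ang2 γ (κ a).1 (E a)) = (fun z : ℝ × ℝ => ang2 γ z.1 z.2) ∘ ρ := rfl
      rw [h3]
      exact (continuousOn_ang2 h).comp_continuous hρc hρp
    exact continuous_snd.comp h1
  have hEper : ∀ b x, E (b, x + 1) = E (b, x) + P := by
    intro b x
    have h1 := k2 b x
    have e1 : (κ (b, x + 1)).1 = (κ (b, x)).1 + P := by rw [h1]; rfl
    have e2 : (κ (b, x + 1)).2 = (κ (b, x)).2 := by rw [h1]; simp
    have h3 := hE1 (b, x + 1)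
    have h4 := hE2 (b, x + 1)
    have h5 := hE1 (b, x)
    have h6 := hE2 (b, x)
    rw [e1] at h3 h4
    refine (ang_strictMono h ((κ (b, x)).1 + P)).injOn ⟨h3, h4⟩ ⟨by linarith, by linarith⟩ ?_
    rw [ang_per h, hE3, ← e1, hE3, e2]
  have hρper : ∀ b x, ρ (b, x + 1) = ρ (b, x) + (P, P) := by
    intro b x
    refine Prod.ext ?_ ?_
    · simp only [hρ, Prod.fst_add]; rw [k2 b x]; rfl
    · simp only [hρ, Prod.snd_add]; exact hEper b x
  have hGper : ∀ b x, G (b, x + 1) = G (b, x) + 1 := by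
    intro b x
    have h1 := hG (b, x + 1)
    have h2 := hG (b, x)
    have h3 := k2 b (G (b, x))
    simp only at h1 h2
    rw [h2] at h3
    have h4 : κ (b, G (b, x + 1)) = κ (b, G (b, x) + 1) := by
      rw [h1, h3, hEper]
      refine Prod.ext ?_ ?_
      · simp
      · simp only [Prod.snd_add, add_zero]
        rw [k2 b x]
        simp only [Prod.fst_add]
        exact ang2_per h _ _
    have h5 := k1.injective h4
    exact congrArg Prod.snd h5
  have hnext : ∀ a : AA, (ρ (a.1, G a)).1 = (ρ a).2 := by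
    intro a
    simp only [hρ]
    rw [hG]
  have hang : ∀ a : AA, ang γ (ρ (a.1, G a)).1 (ρ (a.1, G a)).2 = ang2 γ (ρ a).1 (ρ a).2 := by
    intro a
    simp only [hρ]
    rw [hE3, hG]
  obtain ⟨ε, hε, -, hsm⟩ := ang_small h hη
  refine ⟨ρ, G, hemb, hρp, hρper, hGc, hGper, ?_, hnext, ?_, ⟨min ε P, lt_min hε hP, ?_⟩⟩
  · intro b x y hxy
    have h1 := hG (b, x)
    have h2 := hG (b, y)
    simp only at h1 h2 hxy
    rw [hxy, h2] at h1
    have e1 : E (b, y) = E (b, x) := congrArg Prod.fst h1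
    have e2 : ang2 γ (κ (b, y)).1 (E (b, y)) = ang2 γ (κ (b, x)).1 (E (b, x)) :=
      congrArg Prod.snd h1
    have h3 := hE1 (b, x)
    have h4 := hE2 (b, x)
    have h5 := hE1 (b, y)
    have h6 := hE2 (b, y)
    rw [e1] at e2 h5 h6
    have e3 := ang2_inj h h5 h6 h3 h4 e2
    have h7 : ρ (b, y) = ρ (b, x) := Prod.ext e3 e1
    have h8 := hρinj h7
    exact (congrArg Prod.snd h8).symm
  · intro a
    have h1 := hρp a
    have h2 := hρp (a.1, G a)
    have h3 := hang a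
    have h4 := hnext a
    rw [h4]
    have h2a := h2.1
    have h2b := h2.2
    rw [h4] at h2a h2b h3
    exact refl_of_ang h h1.1 h1.2 h2a h2b h3
  · intro s s' hs hs'
    have hs'1 : s' < s + ε := by linarith [min_le_left ε P]
    have hs'2 : s' < s + P := by linarith [min_le_right ε P]
    have h1 := hsm s s' hs hs'1
    have h2 : (γ s, ang γ s s') ∈ U := hηU ⟨⟨tbl_mem_frontier h s, ang_mem h hs hs'2⟩, h1⟩
    obtain ⟨a, ha⟩ := (k3 (s, ang γ s s')).2 h2
    refine ⟨a, ?_⟩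
    have e1 : (κ a).1 = s := congrArg Prod.fst ha
    have e2 : (κ a).2 = ang γ s s' := congrArg Prod.snd ha
    refine Prod.ext e1 ?_
    have h3 := hE1 a
    have h4 := hE2 a
    have h5 := hE3 a
    rw [e1] at h3 h4 h5
    rw [e2] at h5
    exact (ang_strictMono h s).injOn ⟨h3, h4⟩ ⟨hs, hs'2⟩ h5

/-- a function of `(b, x)`, `b ∈ (0,1)`, extended by zero. -/
noncomputable def ext0 (f : AA → ℝ) (b x : ℝ) : ℝ :=
  open Classical in if hb : b ∈ Ioo (0:ℝ) 1 then f (⟨b, hb⟩, x) else 0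

lemma ext0_of {f : AA → ℝ} {b : ℝ} (hb : b ∈ Ioo (0:ℝ) 1) (x : ℝ) :
    ext0 f b x = f (⟨b, hb⟩, x) := dif_pos hb

lemma ext0_cont {f : AA → ℝ} (hf : Continuous f) :
    ContinuousOn (fun z : ℝ × ℝ => ext0 f z.1 z.2) (Ioo 0 1 ×ˢ univ) := by
  rw [continuousOn_iff_continuous_domRestrict]
  have h1 : ((Ioo (0:ℝ) 1) ×ˢ univ).domRestrict (fun z : ℝ × ℝ => ext0 f z.1 z.2) =
      f ∘ fun z : ((Ioo (0:ℝ) 1) ×ˢ (univ : Set ℝ) : Set (ℝ × ℝ)) =>
        ((⟨z.1.1, z.2.1⟩, z.1.2) : AA) := by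
    funext z
    exact ext0_of z.2.1 _
  rw [h1]
  refine hf.comp (Continuous.prodMk (Continuous.subtype_mk ?_ _) ?_) <;> fun_prop

theorem folData_of_preFol {q1 q2 : ℝ → ℝ → ℝ} {ρ : AA → ℝ × ℝ} {G : AA → ℝ}
    (h : PreFol P q1 q2 ρ G) :
    FolData P q1 q2 (ext0 fun a => (ρ a).1) (ext0 G) := by
  have hc1 : Continuous fun a => (ρ a).1 := continuous_fst.comp h.emb.continuous
  have key : ∀ b ∈ Ioo (0:ℝ) 1, StrictMono (ext0 G b) := by
    intro b hb
    have e : ext0 G b = fun x => G (⟨b, hb⟩, x) := funext fun x => ext0_of hb x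
    have hcont : Continuous fun x => G (⟨b, hb⟩, x) :=
      h.contG.comp (continuous_const.prodMk continuous_id)
    rw [e]
    rcases hcont.strictMono_of_inj (h.injG _) with h1 | h1
    · exact h1
    · exfalso
      have h2 := h1 (show (0:ℝ) < 0 + 1 by norm_num)
      simp only [h.perG] at h2
      linarith
  have hnxt : ∀ b (hb : b ∈ Ioo (0:ℝ) 1) (x : ℝ),
      ext0 (fun a => (ρ a).1) b (ext0 G b x) = (ρ (⟨b, hb⟩, x)).2 := by
    intro b hb x
    rw [ext0_of hb, ext0_of hb]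
    exact h.next (⟨b, hb⟩, x)
  refine ⟨ext0_cont hc1, ext0_cont h.contG, ?_, ?_, key, ?_, ?_, ?_, ?_, ?_, ?_, ?_⟩
  · intro b hb x
    rw [ext0_of hb, ext0_of hb, h.per]; rfl
  · intro b hb x
    rw [ext0_of hb, ext0_of hb, h.perG]
  · intro b hb y
    have hcont : Continuous (ext0 G b) := by
      have e : ext0 G b = fun x => G (⟨b, hb⟩, x) := funext fun x => ext0_of hb x
      rw [e]
      exact h.contG.comp (continuous_const.prodMk continuous_id)
    have hper : ∀ (x : ℝ) (k : ℤ), ext0 G b (x + k) = ext0 G b x + k := by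
      intro x k
      induction k using Int.induction_on with
      | zero => simp
      | succ i ih =>
        push_cast at ih ⊢
        rw [← add_assoc, ext0_of (f := G) hb, h.perG, ← ext0_of (f := G) hb, ih]; ring
      | pred i ih =>
        have := h.perG ⟨b, hb⟩ (x + (-(i:ℤ) - 1 : ℤ))
        rw [← ext0_of (f := G) hb, ← ext0_of (f := G) hb] at this
        push_cast at ih this ⊢
        have e : x + (-(i:ℝ) - 1) + 1 = x + -(i:ℝ) := by ring
        rw [e, ih] at this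
        linarith
    set n : ℤ := ⌊y - ext0 G b 0⌋ with hn
    have h1 : ext0 G b (0 + n) ≤ y := by
      rw [hper]; have := Int.floor_le (y - ext0 G b 0); linarith
    have h2 : y ≤ ext0 G b (0 + (n + 1 : ℤ)) := by
      rw [hper]; have := Int.lt_floor_add_one (y - ext0 G b 0); push_cast; linarith
    have h3 : (0 + (n : ℝ)) ≤ 0 + ((n + 1 : ℤ) : ℝ) := by push_cast; linarith
    obtain ⟨x, -, hx⟩ := intermediate_value_Icc h3 hcont.continuousOn ⟨h1, h2⟩
    exact ⟨x, hx⟩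
  · intro b hb x
    rw [hnxt b hb, ext0_of hb]
    exact (h.pair (⟨b, hb⟩, x)).1
  · intro b hb x
    rw [hnxt b hb, ext0_of hb]
    exact (h.pair (⟨b, hb⟩, x)).2
  · intro b hb x
    rw [hnxt b hb, hnxt b hb, ext0_of hb, ext0_of hb]
    have h1 := h.refl (⟨b, hb⟩, x)
    have h2 := h.next (⟨b, hb⟩, x)
    simp only at h1 h2
    rw [h2] at h1
    exact h1
  · intro b hb b' hb' x x' h1 h2
    rw [hnxt b hb, hnxt b' hb'] at h2
    rw [ext0_of hb, ext0_of hb'] at h1
    have h3 := h.emb.injective (Prod.ext h1 h2)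
    simp only [Prod.mk.injEq, Subtype.mk.injEq] at h3
    exact h3
  · intro O hO hOs
    have h1 : (fun z : ℝ × ℝ => (ext0 (fun a => (ρ a).1) z.1 z.2,
        ext0 (fun a => (ρ a).1) z.1 (ext0 G z.1 z.2))) '' O =
        ρ '' ((fun a : AA => ((a.1 : ℝ), a.2)) ⁻¹' O) := by
      ext w
      constructor
      · rintro ⟨⟨b, x⟩, hz, rfl⟩
        have hb : b ∈ Ioo (0:ℝ) 1 := (hOs hz).1
        refine ⟨(⟨b, hb⟩, x), hz, ?_⟩
        simp only
        rw [hnxt b hb, ext0_of hb]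
      · rintro ⟨⟨⟨b, hb⟩, x⟩, hz, rfl⟩
        refine ⟨(b, x), hz, ?_⟩
        simp only
        rw [hnxt b hb, ext0_of hb]
    rw [h1]
    exact h.emb.isOpenMap _ (hO.preimage (by fun_prop))
  · obtain ⟨ε, hε, hc⟩ := h.cover
    refine ⟨ε, hε, fun s s' hs hs' => ?_⟩
    obtain ⟨⟨⟨b, hb⟩, x⟩, ha⟩ := hc s s' hs hs'
    refine ⟨b, hb, x, ?_, ?_⟩
    · rw [ext0_of hb, ha]
    · rw [hnxt b hb, ha]

/-- **T3l**: an invariant phase foliation lifts to foliation data. -/
theorem folData_of_foliation (h : IsTable Ω γ P) (hf : HasInvariantPhaseFoliation Ω γ) :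
    ∃ S g, FolData P (p1 γ) (p2 γ) S g := by
  obtain ⟨ρ, G, hG⟩ := exists_preFol h hf
  exact ⟨_, _, folData_of_preFol hG⟩

end

end Crest.Agent.R102.L785
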