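import Mathlib

/-!
Row 102, link leaf (T4) of `S0_821` (helper576): dynamics of a family of invariant graphs.

`Dyn p1 p2 P b1 F` : abstract form of the leaf family (`F b` = the circle map of the leaf `b`),
together with the only facts about `p1`, `p2` which are used (injectivity of `p1 s ·`,
periodicity).  Results: closing of short chains (`closing`), rational leaves through every point
with small steps (`exists_leaf`), uniform smallness of the steps (`exists_small`).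
-/

set_option autoImplicit false

open Set Filter Topology

namespace Crest.Agent.R102.T4576

structure Dyn (p1 p2 : ℝ → ℝ → ℝ) (P b1 : ℝ) (F : ℝ → ℝ → ℝ) : Prop where
  hP : 0 < P
  hb1 : 0 < b1
  inj : ∀ s s' s'', s < s' → s' < s + P → s < s'' → s'' < s + P → p1 s s' = p1 s s'' → s' = s''
  per1 : ∀ s s', p1 (s + P) (s' + P) = p1 s s'
  per2 : ∀ s s', p2 (s + P) (s' + P) = p2 s s'
  cont : ContinuousOn (fun p : ℝ × ℝ => F p.1 p.2) (Ioo 0 b1 ×ˢ univ)
  mono_s : ∀ b ∈ Ioo 0 b1, StrictMono (F b)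
  shift : ∀ b ∈ Ioo 0 b1, ∀ s, F b (s + P) = F b s + P
  lo : ∀ b ∈ Ioo 0 b1, ∀ s, s < F b s
  hi : ∀ b ∈ Ioo 0 b1, ∀ s, F b s < s + P
  refl : ∀ b ∈ Ioo 0 b1, ∀ s, p2 s (F b s) = p1 (F b s) (F b (F b s))
  mono_b : ∀ s, StrictMonoOn (fun b => F b s) (Ioo 0 b1)
  lim0 : ∀ s, Tendsto (fun b => F b s) (nhdsWithin 0 (Ioi 0)) (nhds s)

namespace Dyn

variable {p1 p2 : ℝ → ℝ → ℝ} {P b1 : ℝ} {F : ℝ → ℝ → ℝ}

lemma cont_s (D : Dyn p1 p2 P b1 F) {b : ℝ} (hb : b ∈ Ioo 0 b1) : Continuous (F b) :=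
  D.cont.comp_continuous (f := fun s : ℝ => (b, s)) (by fun_prop) (fun s => ⟨hb, mem_univ s⟩)

lemma cont_b (D : Dyn p1 p2 P b1 F) (s : ℝ) : ContinuousOn (fun b => F b s) (Ioo 0 b1) :=
  D.cont.comp (f := fun b : ℝ => (b, s)) (by fun_prop) (fun b hb => ⟨hb, mem_univ s⟩)

lemma cont_iter (D : Dyn p1 p2 P b1 F) (s : ℝ) (n : ℕ) :
    ContinuousOn (fun b => (F b)^[n] s) (Ioo 0 b1) := by
  induction n with
  | zero => simpa using continuousOn_const
  | succ n ih =>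
    have h : ContinuousOn (fun b => F b ((F b)^[n] s)) (Ioo 0 b1) :=
      D.cont.comp (f := fun b : ℝ => (b, (F b)^[n] s)) (continuousOn_id.prodMk ih)
        (fun b hb => ⟨hb, mem_univ _⟩)
    refine h.congr (fun b _ => ?_)
    rw [Function.iterate_succ_apply']

lemma periodic (D : Dyn p1 p2 P b1 F) {b : ℝ} (hb : b ∈ Ioo 0 b1) :
    Function.Periodic (fun s => F b s - s) P := by
  intro s
  change F b (s + P) - (s + P) = F b s - s
  rw [D.shift b hb s]; ring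

/-- uniform positive gap of a leaf -/
lemma exists_gap (D : Dyn p1 p2 P b1 F) {b : ℝ} (hb : b ∈ Ioo 0 b1) :
    ∃ e : ℝ, 0 < e ∧ e ≤ P ∧ ∀ s, e ≤ F b s - s := by
  have hc : ContinuousOn (fun s => F b s - s) (Icc 0 P) :=
    ((D.cont_s hb).sub continuous_id).continuousOn
  obtain ⟨s0, _, hs0⟩ := isCompact_Icc.exists_isMinOn (nonempty_Icc.2 D.hP.le) hc
  refine ⟨F b s0 - s0, by linarith [D.lo b hb s0], by linarith [D.hi b hb s0], fun s => ?_⟩
  obtain ⟨y, hy, hsy⟩ := (D.periodic hb).exists_mem_Ico₀ D.hP s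
  change F b s - s = F b y - y at hsy
  rw [hsy]
  exact hs0 ⟨hy.1, hy.2.le⟩

lemma exists_small (D : Dyn p1 p2 P b1 F) {η : ℝ} (hη : 0 < η) :
    ∃ b ∈ Ioo 0 b1, ∀ s, F b s - s < η := by
  set K : ℕ := ⌈P / (η / 2)⌉₊ with hK
  have hη2 : 0 < η / 2 := by linarith
  have hev : ∀ᶠ b in nhdsWithin (0 : ℝ) (Ioi 0), ∀ k ∈ Finset.range (K + 2),
      F b (k * (η / 2)) < k * (η / 2) + η / 2 := by
    rw [Filter.eventually_all_finset]
    intro k _
    exact (D.lim0 _).eventually (gt_mem_nhds (by linarith)) |>.mono (fun b hb => hb)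
  have hev2 : ∀ᶠ b in nhdsWithin (0 : ℝ) (Ioi 0), b ∈ Ioo 0 b1 :=
    Ioo_mem_nhdsGT D.hb1
  obtain ⟨b, hb1, hb2⟩ := (hev.and hev2).exists
  refine ⟨b, hb2, fun s => ?_⟩
  obtain ⟨y, hy, hsy⟩ := (D.periodic hb2).exists_mem_Ico₀ D.hP s
  change F b s - s = F b y - y at hsy
  rw [hsy]
  set k : ℕ := ⌈y / (η / 2)⌉₊ with hk
  have h1 : y / (η / 2) ≤ k := Nat.le_ceil _
  have h2 : (k : ℝ) < y / (η / 2) + 1 := Nat.ceil_lt_add_one (div_nonneg hy.1 hη2.le)
  have h1' : y ≤ k * (η / 2) := by rwa [div_le_iff₀ hη2] at h1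
  have h2' : (k : ℝ) * (η / 2) < y + η / 2 := by
    have := mul_lt_mul_of_pos_right h2 hη2
    rwa [add_mul, div_mul_cancel₀ _ hη2.ne', one_mul] at this
  have hkK : k ≤ K := Nat.ceil_le_ceil (by gcongr; exact hy.2.le)
  have h3 := hb1 k (Finset.mem_range.2 (by omega))
  have h4 : F b y ≤ F b (k * (η / 2)) := (D.mono_s b hb2).monotone h1'
  linarith

/-- every short pair lies on a leaf -/
lemma coverage (D : Dyn p1 p2 P b1 F) {bs : ℝ} (hbs : bs ∈ Ioo 0 b1) {s s' : ℝ} (h : s < s')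
    (h' : s' ≤ F bs s) : ∃ b ∈ Ioo 0 b1, b ≤ bs ∧ F b s = s' := by
  have hev : ∀ᶠ b in nhdsWithin (0 : ℝ) (Ioi 0), F b s < s' :=
    (D.lim0 s).eventually (gt_mem_nhds h)
  have hev2 : ∀ᶠ b in nhdsWithin (0 : ℝ) (Ioi 0), b ∈ Ioo 0 bs := Ioo_mem_nhdsGT hbs.1
  obtain ⟨b0, hb0, hb0'⟩ := (hev.and hev2).exists
  have hsub : Icc b0 bs ⊆ Ioo 0 b1 := fun b hb =>
    ⟨lt_of_lt_of_le hb0'.1 hb.1, lt_of_le_of_lt hb.2 hbs.2⟩
  have hc : ContinuousOn (fun b => F b s) (Icc b0 bs) := (D.cont_b s).mono hsub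
  obtain ⟨b, hb, hbe⟩ := intermediate_value_Icc hb0'.2.le hc ⟨hb0.le, h'⟩
  exact ⟨b, hsub hb, hb.2, hbe⟩

lemma shift_nat (D : Dyn p1 p2 P b1 F) {b : ℝ} (hb : b ∈ Ioo 0 b1) (s : ℝ) (j : ℕ) :
    F b (s + j * P) = F b s + j * P := by
  induction j with
  | zero => simp
  | succ j ih =>
    have : s + ((j + 1 : ℕ) : ℝ) * P = (s + j * P) + P := by push_cast; ring
    rw [this, D.shift b hb, ih]; push_cast; ring

lemma per1_nat (D : Dyn p1 p2 P b1 F) (s s' : ℝ) (j : ℕ) :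
    p1 (s + j * P) (s' + j * P) = p1 s s' := by
  induction j with
  | zero => simp
  | succ j ih =>
    have h1 : s + ((j + 1 : ℕ) : ℝ) * P = (s + j * P) + P := by push_cast; ring
    have h2 : s' + ((j + 1 : ℕ) : ℝ) * P = (s' + j * P) + P := by push_cast; ring
    rw [h1, h2, D.per1, ih]

lemma per2_nat (D : Dyn p1 p2 P b1 F) (s s' : ℝ) (j : ℕ) :
    p2 (s + j * P) (s' + j * P) = p2 s s' := by
  induction j with
  | zero => simp
  | succ j ih =>
    have h1 : s + ((j + 1 : ℕ) : ℝ) * P = (s + j * P) + P := by push_cast; ring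
    have h2 : s' + ((j + 1 : ℕ) : ℝ) * P = (s' + j * P) + P := by push_cast; ring
    rw [h1, h2, D.per2, ih]

/-- a chain of short steps follows one leaf -/
lemma chain_eq (D : Dyn p1 p2 P b1 F) {b : ℝ} (hb : b ∈ Ioo 0 b1) {n : ℕ} {x : ℕ → ℝ}
    (hx : ∀ i < n, 0 < x (i + 1) - x i ∧ x (i + 1) - x i < P)
    (hlaw : ∀ i, 1 ≤ i → i < n → p2 (x (i - 1)) (x i) = p1 (x i) (x (i + 1)))
    (h1 : x 1 = F b (x 0)) : ∀ i < n, x (i + 1) = F b (x i) := by
  intro i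
  induction i with
  | zero => intro _; simpa using h1
  | succ i ih =>
    intro hi
    have e1 : x (i + 1) = F b (x i) := ih (by omega)
    have law := hlaw (i + 1) (by omega) hi
    rw [Nat.add_sub_cancel] at law
    have r := D.refl b hb (x i)
    rw [← e1] at r
    rw [law] at r
    have hs := hx (i + 1) hi
    exact D.inj _ _ _ (by linarith [hs.1]) (by linarith [hs.2]) (D.lo b hb _) (D.hi b hb _) r

/-- (T4) closing of short chains -/
theorem closing (D : Dyn p1 p2 P b1 F) :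
    ∃ e1 : ℝ, 0 < e1 ∧ e1 ≤ P ∧ ∀ (n j : ℕ) (x : ℕ → ℝ), 1 ≤ n →
      (∀ i < n, 0 < x (i + 1) - x i ∧ x (i + 1) - x i < e1) → x n = x 0 + j * P →
      (∀ i, 1 ≤ i → i < n → p2 (x (i - 1)) (x i) = p1 (x i) (x (i + 1))) →
      p2 (x (n - 1) - j * P) (x 0) = p1 (x 0) (x 1) := by
  have hbs : b1 / 2 ∈ Ioo 0 b1 := ⟨by linarith [D.hb1], by linarith [D.hb1]⟩
  obtain ⟨e, he, heP, hge⟩ := D.exists_gap hbs
  refine ⟨e, he, heP, fun n j x hn hx hxn hlaw => ?_⟩
  have h0 := hx 0 (by omega)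
  rw [zero_add] at h0
  obtain ⟨b, hb, _, hb1⟩ := D.coverage hbs (s := x 0) (s' := x 1) (by linarith [h0.1])
    (by linarith [h0.2, hge (x 0)])
  have hch := D.chain_eq hb (fun i hi => ⟨(hx i hi).1, lt_of_lt_of_le (hx i hi).2 heP⟩) hlaw
    hb1.symm
  have hl := hch (n - 1) (by omega)
  rw [Nat.sub_add_cancel hn, hxn] at hl
  have r := D.refl b hb (x (n - 1))
  rw [← hl, D.shift_nat hb, D.per1_nat, hb1] at r
  rw [← r]
  have := D.per2_nat (x (n - 1) - j * P) (x 0) j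
  rw [← this]
  congr 1
  ring

lemma iter_mono (D : Dyn p1 p2 P b1 F) {b : ℝ} (hb : b ∈ Ioo 0 b1) (n : ℕ) :
    StrictMono ((F b)^[n]) := (D.mono_s b hb).iterate n

lemma iter_gap (_D : Dyn p1 p2 P b1 F) {b e : ℝ} (he : ∀ s, e ≤ F b s - s) (x : ℝ) (n : ℕ) :
    x + n * e ≤ (F b)^[n] x := by
  induction n with
  | zero => simp
  | succ n ih =>
    rw [Function.iterate_succ_apply']
    have := he ((F b)^[n] x)
    push_cast
    linarith

lemma iter_small (_D : Dyn p1 p2 P b1 F) {b e : ℝ} (he : ∀ s, F b s - s < e) (x : ℝ) (n : ℕ) :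
    (F b)^[n] x ≤ x + n * e := by
  induction n with
  | zero => simp
  | succ n ih =>
    rw [Function.iterate_succ_apply']
    have := he ((F b)^[n] x)
    push_cast
    linarith

lemma step_le (D : Dyn p1 p2 P b1 F) {b b' : ℝ} (hb : b ∈ Ioo 0 b1) (hb' : b' ∈ Ioo 0 b1)
    (h : b ≤ b') (s : ℝ) : F b s ≤ F b' s := (D.mono_b s).monotoneOn hb hb' h

lemma iter_le (D : Dyn p1 p2 P b1 F) {b b' : ℝ} (hb : b ∈ Ioo 0 b1) (hb' : b' ∈ Ioo 0 b1)
    (h : b ≤ b') (s : ℝ) (n : ℕ) : (F b)^[n] s ≤ (F b')^[n] s := by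
  induction n with
  | zero => simp
  | succ n ih =>
    rw [Function.iterate_succ_apply', Function.iterate_succ_apply']
    exact ((D.mono_s b hb).monotone ih).trans (D.step_le hb hb' h _)

lemma iter_lt (D : Dyn p1 p2 P b1 F) {b b' : ℝ} (hb : b ∈ Ioo 0 b1) (hb' : b' ∈ Ioo 0 b1)
    (h : b < b') (s : ℝ) {n : ℕ} (hn : 1 ≤ n) : (F b)^[n] s < (F b')^[n] s := by
  obtain ⟨m, rfl⟩ : ∃ m, n = m + 1 := ⟨n - 1, by omega⟩
  rw [Function.iterate_succ_apply', Function.iterate_succ_apply']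
  exact lt_of_le_of_lt ((D.mono_s b hb).monotone (D.iter_le hb hb' h.le s m))
    (D.mono_b _ hb hb' h)

/-- (H_n), general form: for every `η > 0` there is `w₀ > 0` such that for `0 < j`, `j < w₀ n`
every point lies on a leaf whose map satisfies `F^n x = x + j P`, and all steps of the leaf are
`< η`. -/
theorem exists_leaf (D : Dyn p1 p2 P b1 F) {η : ℝ} (hη : 0 < η) :
    ∃ w0 : ℝ, 0 < w0 ∧ ∀ (n j : ℕ), 1 ≤ j → (j : ℝ) < w0 * n → ∀ x : ℝ,
      ∃ b ∈ Ioo 0 b1, (F b)^[n] x = x + j * P ∧ ∀ s, F b s - s < η := by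
  obtain ⟨bη, hbη, hsm⟩ := D.exists_small hη
  obtain ⟨e, he, heP, hge⟩ := D.exists_gap hbη
  refine ⟨e / P, div_pos he D.hP, fun n j hj hjn x => ?_⟩
  have hn : 1 ≤ n := by
    rcases Nat.eq_zero_or_pos n with h | h
    · subst h
      simp only [Nat.cast_zero, mul_zero] at hjn
      have : (0 : ℝ) ≤ j := Nat.cast_nonneg j
      linarith
    · exact h
  have hn0 : (0 : ℝ) < n := by exact_mod_cast hn
  have hup : x + j * P < (F bη)^[n] x := by
    have h1 := D.iter_gap hge x n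
    have h2 : (j : ℝ) * P < n * e := by
      have := mul_lt_mul_of_pos_right hjn D.hP
      have e2 : e / P * n * P = n * e := by
        have := D.hP.ne'
        field_simp
      linarith
    linarith
  -- a leaf with very small steps
  obtain ⟨b0, hb0, hb0s⟩ := D.exists_small (div_pos D.hP hn0)
  have hlow : (F b0)^[n] x ≤ x + j * P := by
    have h1 := D.iter_small hb0s x n
    have h2 : (n : ℝ) * (P / n) = P := by field_simp
    have h3 : P ≤ j * P := by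
      have : (1 : ℝ) ≤ j := by exact_mod_cast hj
      nlinarith [D.hP]
    linarith
  have hle : b0 ≤ bη := by
    by_contra hcon
    push Not at hcon
    have := D.iter_le hbη hb0 hcon.le x n
    linarith
  have hsub : Icc b0 bη ⊆ Ioo 0 b1 := fun b hb =>
    ⟨lt_of_lt_of_le hb0.1 hb.1, lt_of_le_of_lt hb.2 hbη.2⟩
  have hc : ContinuousOn (fun b => (F b)^[n] x) (Icc b0 bη) := (D.cont_iter x n).mono hsub
  obtain ⟨b, hb, hbe⟩ := intermediate_value_Icc hle hc ⟨hlow, hup.le⟩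
  refine ⟨b, hsub hb, hbe, fun s => ?_⟩
  have := D.step_le (hsub hb) hbη hb.2 s
  linarith [hsm s]

/-- (H_n): for `n` large every point lies on an `n`-periodic chain of winding one with steps
`< η`. -/
theorem exists_leaf_one (D : Dyn p1 p2 P b1 F) {η : ℝ} (hη : 0 < η) :
    ∃ n0 : ℕ, ∀ n ≥ n0, ∀ x : ℝ,
      ∃ b ∈ Ioo 0 b1, (F b)^[n] x = x + P ∧ ∀ s, F b s - s < η := by
  obtain ⟨w0, hw0, h⟩ := D.exists_leaf hη
  refine ⟨⌊1 / w0⌋₊ + 1, fun n hn x => ?_⟩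
  have h1 : 1 / w0 < n := by
    have := Nat.lt_floor_add_one (1 / w0)
    have h2 : ((⌊1 / w0⌋₊ + 1 : ℕ) : ℝ) ≤ n := by exact_mod_cast hn
    push_cast at h2
    linarith
  have h2 : ((1 : ℕ) : ℝ) < w0 * n := by
    rw [div_lt_iff₀ hw0] at h1
    push_cast
    linarith
  obtain ⟨b, hb, hbe, hs⟩ := h n 1 le_rfl h2 x
  refine ⟨b, hb, by simpa using hbe, hs⟩

end Dyn

end Crest.Agent.R102.T4576
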