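import Crest.Agent.R102.T5a_576
import Crest.Agent.R102.T4_576

/-!
Row 102, leaf (T5) (helper576), part b: closing property of a leaf family and its transport to the
Lazutkin coordinate: `RStarP`.
-/

set_option autoImplicit false

open Set Filter Topology MeasureTheory
open scoped Real ContDiff ComplexConjugate
open Crest.AnalysisR.Billiard

noncomputable section

namespace Crest.Agent.R102.T5

open Crest.Agent.R102.S0
open Crest.Agent.R102.A929 (ofR Pq EP Xq dq LocQ IsAct RStarP RR Sm leafSMR exists_locQ CX CX_ge AA.ext'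
  dq_apply)
open Crest.Agent.R102.G576

/-! ### the closing property -/

section closing

variable {P b₁ : ℝ} {q1 q2 h : ℝ → ℝ → ℝ} {F : ℝ → ℝ → ℝ}

lemma twist_anti (tw : TwistData P q1 q2 h) (s : ℝ) :
    StrictAntiOn (fun t => q1 s t) (Ioo s (s + P)) := by
  apply strictAntiOn_of_deriv_neg (convex_Ioo _ _)
  · exact fun σ hσ => (tw.der1 s σ hσ.1 hσ.2).continuousAt.continuousWithinAt
  · intro σ hσ
    rw [interior_Ioo] at hσ
    rw [(tw.der1 s σ hσ.1 hσ.2).deriv]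
    linarith [tw.hpos s σ hσ.1 hσ.2]

theorem dyn_of (tw : TwistData P q1 q2 h) (lf : LeafFam P b₁ q1 q2 F) :
    T4576.Dyn q1 q2 P b₁ F where
  hP := tw.hP
  hb1 := lf.hb
  inj s _ _ h1 h2 h3 h4 he := (twist_anti tw s).injOn ⟨h1, h2⟩ ⟨h3, h4⟩ he
  per1 := tw.per1
  per2 := tw.per2
  cont := lf.cont
  mono_s := lf.mono
  shift := lf.per
  lo := lf.lo
  hi := lf.hi
  refl := lf.refl
  mono_b := lf.mono_b
  lim0 := lf.lim

/-- (T4) in the form of `S0_821_v2` -/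
theorem closing_of_leafFam (tw : TwistData P q1 q2 h) (lf : LeafFam P b₁ q1 q2 F) :
    ∃ e₁ : ℝ, 0 < e₁ ∧ Closing P e₁ q1 q2 := by
  obtain ⟨e, he, heP, hc⟩ := (dyn_of tw lf).closing
  refine ⟨e, he, fun n j hn x hx hxn hlaw => ?_⟩
  have h1 := hc n j x hn (fun i hi => ⟨by linarith [(hx i hi).1], by linarith [(hx i hi).2]⟩) hxn
    (fun i hi hin => by
      obtain ⟨k, rfl⟩ : ∃ k, i = k + 1 := ⟨i - 1, by omega⟩
      exact hlaw k hin)
  rw [← h1, ← (dyn_of tw lf).per2_nat (x (n - 1) - j * P) (x 0) j, hxn, sub_add_cancel]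

end closing

/-! ### momenta in the Lazutkin coordinate -/

section lazutkin

variable {γ : ℝ → ℝ × ℝ} {P : ℝ} {q : C(ℂ, ℂ)} {σ : ℝ → ℝ} {K : ℂ}

lemma Laz.hasDerivAt_σ (hL : Laz γ P q σ K) (x : ℝ) : HasDerivAt σ (deriv σ x) x :=
  ((hL.σ_smooth.differentiable (by simp)) x).hasDerivAt

lemma Laz.velocity (hL : Laz γ P q σ K) (hγ : Differentiable ℝ γ) (x : ℝ) :
    toC (deriv γ (σ x)) * ((deriv σ x : ℝ) : ℂ) = K * Gd q x := by
  have h1 := (toC_hasDerivAt (hγ (σ x)).hasDerivAt).scomp x (hL.hasDerivAt_σ x)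
  have h2 : (deriv σ x) • toC (deriv γ (σ x)) = toC (deriv γ (σ x)) * ((deriv σ x : ℝ) : ℂ) := by
    rw [Complex.real_smul, mul_comm]
  rw [h2] at h1
  have h3 : HasDerivAt (fun x => toC (γ (σ x))) (K * Gd q x) x := by
    have h4 := ((hasDerivAt_Gc (q := q) x).const_mul K).const_add (toC (γ (σ 0)))
    have h5 : (fun x => toC (γ (σ x))) = fun x => toC (γ (σ 0)) + K * Gc q x :=
      funext hL.curve
    rw [h5]
    exact h4
  exact h1.unique h3

lemma Laz.chord (hL : Laz γ P q σ K) (x y : ℝ) :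
    toC (γ (σ y) - γ (σ x)) = K * (Gc q y - Gc q x) := by
  rw [toC_sub, hL.curve y, hL.curve x]
  ring

lemma Laz.len (hL : Laz γ P q σ K) (x y : ℝ) :
    S0.len γ (σ x) (σ y) = ‖K‖ * ‖Gc q y - Gc q x‖ := by
  unfold S0.len
  rw [← norm_toC, hL.chord, norm_mul]

lemma Laz.p1 (hL : Laz γ P q σ K) (hγ : Differentiable ℝ γ) (x y : ℝ) :
    deriv σ x * S0.p1 γ (σ x) (σ y) = ‖K‖ *
      (((Gc q y - Gc q x) * conj (Gd q x)).re / ‖Gc q y - Gc q x‖) := by
  unfold S0.p1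
  rw [hL.len, dot_eq, hL.chord]
  have h1 : deriv σ x * (K * (Gc q y - Gc q x) * conj (toC (deriv γ (σ x)))).re =
      ‖K‖ ^ 2 * ((Gc q y - Gc q x) * conj (Gd q x)).re := by
    have h2 : ((deriv σ x : ℝ) : ℂ) * (K * (Gc q y - Gc q x) * conj (toC (deriv γ (σ x)))) =
        ((‖K‖ ^ 2 : ℝ) : ℂ) * ((Gc q y - Gc q x) * conj (Gd q x)) := by
      have h3 : conj (toC (deriv γ (σ x))) * ((deriv σ x : ℝ) : ℂ) = conj K * conj (Gd q x) := by
        rw [← map_mul, ← hL.velocity hγ x, map_mul, Complex.conj_ofReal]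
      have h4 := Complex.mul_conj' K
      push_cast
      rw [← h4]
      linear_combination K * (Gc q y - Gc q x) * h3
    have h5 := congrArg Complex.re h2
    rw [Complex.re_ofReal_mul, Complex.re_ofReal_mul] at h5
    exact h5
  rw [← mul_div_assoc, h1]
  have hK : ‖K‖ ≠ 0 := norm_ne_zero_iff.2 hL.K_ne
  rw [sq, mul_assoc, mul_div_mul_left _ _ hK, mul_div_assoc]

lemma Laz.p2 (hL : Laz γ P q σ K) (hγ : Differentiable ℝ γ) (x y : ℝ) :
    deriv σ y * S0.p2 γ (σ x) (σ y) = ‖K‖ *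
      (((Gc q y - Gc q x) * conj (Gd q y)).re / ‖Gc q y - Gc q x‖) := by
  unfold S0.p2
  rw [hL.len, dot_eq, hL.chord]
  have h1 : deriv σ y * (K * (Gc q y - Gc q x) * conj (toC (deriv γ (σ y)))).re =
      ‖K‖ ^ 2 * ((Gc q y - Gc q x) * conj (Gd q y)).re := by
    have h2 : ((deriv σ y : ℝ) : ℂ) * (K * (Gc q y - Gc q x) * conj (toC (deriv γ (σ y)))) =
        ((‖K‖ ^ 2 : ℝ) : ℂ) * ((Gc q y - Gc q x) * conj (Gd q y)) := by
      have h3 : conj (toC (deriv γ (σ y))) * ((deriv σ y : ℝ) : ℂ) = conj K * conj (Gd q y) := by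
        rw [← map_mul, ← hL.velocity hγ y, map_mul, Complex.conj_ofReal]
      have h4 := Complex.mul_conj' K
      push_cast
      rw [← h4]
      linear_combination K * (Gc q y - Gc q x) * h3
    have h5 := congrArg Complex.re h2
    rw [Complex.re_ofReal_mul, Complex.re_ofReal_mul] at h5
    exact h5
  rw [← mul_div_assoc, h1]
  have hK : ‖K‖ ≠ 0 := norm_ne_zero_iff.2 hL.K_ne
  rw [sq, mul_assoc, mul_div_mul_left _ _ hK, mul_div_assoc]

variable {ρ C : ℝ}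

/-- outgoing momentum -/
lemma Laz.p1_eq (hL : Laz γ P q σ K) (hQ : LocQ ρ C) (hγ : Differentiable ℝ γ) {x y : ℝ}
    (hxy : x < y) (hX : ‖Xq q x ((y - x : ℝ) : ℂ)‖ < ρ) :
    deriv σ x * S0.p1 γ (σ x) (σ y) = ‖K‖ *
      (Real.exp (-2 * qr q x) - (Pq q x ((y : ℂ) - x)).re) := by
  have he : 0 < y - x := by linarith
  have hI1 := Icr_pos hL.im hQ hX
  have := cos_chord hL.im (x := x) (e := y - x) (by positivity) hI1
  have hxe : x + (y - x) = y := by ring
  rw [hxe, abs_of_pos he, div_self he.ne', one_mul] at this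
  rw [hL.p1 hγ, this]
  push_cast
  rfl

/-- incoming momentum -/
lemma Laz.p2_eq (hL : Laz γ P q σ K) (hQ : LocQ ρ C) (hγ : Differentiable ℝ γ) {x y : ℝ}
    (hxy : x < y) (hY : ‖Xq q y ((-(y - x) : ℝ) : ℂ)‖ < ρ) :
    deriv σ y * S0.p2 γ (σ x) (σ y) = ‖K‖ *
      (Real.exp (-2 * qr q y) - (Pq q y (-((y : ℂ) - x))).re) := by
  have he : 0 < y - x := by linarith
  have hI2 := Icr_pos hL.im hQ hY
  have := cos_chord hL.im (x := y) (e := -(y - x)) (by rw [abs_neg]; positivity) hI2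
  have hye : y + -(y - x) = x := by ring
  rw [hye, abs_neg, abs_of_pos he, neg_div, div_self he.ne'] at this
  have h1 : Gc q x - Gc q y = -(Gc q y - Gc q x) := by ring
  rw [h1, norm_neg, neg_mul, Complex.neg_re, neg_div] at this
  have h2 : ((-(y - x) : ℝ) : ℂ) = -((y : ℂ) - x) := by push_cast; rfl
  rw [h2] at this
  rw [hL.p2 hγ]
  congr 1
  linarith

lemma Pq_im_zero (hre : ∀ x : ℝ, (q x).im = 0) (hQ : LocQ ρ C) {x e : ℝ}
    (hX : ‖Xq q x (e : ℂ)‖ < ρ) : (Pq q x (e : ℂ)).im = 0 := by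
  rw [Pq_eq hre (Icr_pos hre hQ hX), Complex.ofReal_im]

/-- reflection law in the Lazutkin coordinate -/
theorem Laz.refl_iff (hL : Laz γ P q σ K) (hQ : LocQ ρ C) (hγ : Differentiable ℝ γ) {ε : ℝ}
    (hX : ∀ x e : ℝ, |e| < ε → ‖Xq q x e‖ < ρ) {a b c : ℝ} (hab : a < b) (hab' : b - a < ε)
    (hbc : b < c) (hbc' : c - b < ε) :
    S0.p2 γ (σ a) (σ b) = S0.p1 γ (σ b) (σ c) ↔ EP q a b c = 0 := by
  have x1 : ‖Xq q b ((-(b - a) : ℝ) : ℂ)‖ < ρ :=
    hX b (-(b - a)) (by rw [abs_neg, abs_of_pos (by linarith)]; exact hab')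
  have x2 : ‖Xq q b ((c - b : ℝ) : ℂ)‖ < ρ :=
    hX b (c - b) (by rw [abs_of_pos (by linarith)]; exact hbc')
  have h1 := hL.p2_eq hQ hγ hab x1
  have h2 := hL.p1_eq hQ hγ hbc x2
  have hp := hL.σ_pos b
  have hK : ‖K‖ ≠ 0 := norm_ne_zero_iff.2 hL.K_ne
  have i1 := Pq_im_zero hL.im hQ x1
  have i2 := Pq_im_zero hL.im hQ x2
  have e1 : ((-(b - a) : ℝ) : ℂ) = -((b : ℂ) - a) := by push_cast; rfl
  have e2 : ((c - b : ℝ) : ℂ) = (c : ℂ) - b := by push_cast; rfl
  rw [e1] at i1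
  rw [e2] at i2
  unfold EP
  constructor
  · intro h
    rw [h] at h1
    have h3 := h1.symm.trans h2
    have h4 := mul_left_cancel₀ hK h3
    apply Complex.ext
    · rw [Complex.sub_re, Complex.zero_re]
      linarith
    · rw [Complex.sub_im, i1, i2, sub_zero, Complex.zero_im]
  · intro h
    have h3 := congrArg Complex.re h
    rw [Complex.sub_re, Complex.zero_re, sub_eq_zero] at h3
    rw [h3, ← h2] at h1
    exact mul_left_cancel₀ hp.ne' h1

/-! ### smallness -/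

lemma Xq_congr {q q' : C(ℂ, ℂ)} (h : ∀ x : ℝ, q' x = q x) (x e : ℝ) :
    Xq q' x e = Xq q x e := by
  unfold Xq
  rw [h]
  congr 1
  refine AA.ext' (fun r => ?_)
  rw [dq_apply, dq_apply, h]
  have : (x : ℂ) + (e : ℂ) * ((r : ℝ) : ℂ) = ((x + e * r : ℝ) : ℂ) := by push_cast; rfl
  rw [this, h]

lemma Laz.q_eq (hL : Laz γ P q σ K) (x : ℝ) :
    q x = ofR (qr q) hL.smooth.continuous x := by
  rw [q_pt hL.im]
  simp [ofR]

/-- uniform smallness of `Xq` -/
lemma Laz.exists_small (hL : Laz γ P q σ K) (hρ : 0 < ρ) :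
    ∃ ε : ℝ, 0 < ε ∧ ∀ x e : ℝ, |e| < ε → ‖Xq q x e‖ < ρ := by
  have hper : ∀ x, qr q (x + 1) = qr q x := qr_per hL.per
  obtain ⟨q1, q2, B, hS⟩ := leafSMR (qr q) (by exact_mod_cast contDiff_infty.1 hL.smooth 3) hper
  have hC := CX_ge hS.B_ge
  refine ⟨min 1 (ρ / CX B), by positivity, fun x e he => ?_⟩
  rw [lt_min_iff] at he
  have h1 : Xq q x e = Xq (ofR (qr q) hL.smooth.continuous) x e := Xq_congr hL.q_eq x e
  rw [h1]
  have h2 := hS.norm_Xq (x := (x : ℂ)) (e := (e : ℂ)) (m := 1) (by simp [RR]) (by simp [RR])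
    (by rw [Complex.norm_real, Real.norm_eq_abs]; exact he.1.le) le_rfl
  rw [Complex.norm_real, Real.norm_eq_abs] at h2
  refine h2.trans_lt ?_
  have h3 := he.2
  rw [lt_div_iff₀ (by linarith)] at h3
  linarith

/-- small steps in `x` are small steps in `s` -/
lemma Laz.exists_step (hL : Laz γ P q σ K) {η : ℝ} (hη : 0 < η) :
    ∃ ε : ℝ, 0 < ε ∧ ∀ x y : ℝ, x < y → y - x < ε → σ y < σ x + η := by
  have hc : Continuous (deriv σ) := (contDiff_infty_iff_deriv.1 hL.σ_smooth).2.continuous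
  have hper : Function.Periodic (deriv σ) 1 := by
    intro x
    have h1 : (fun t => σ (t + 1)) = fun t => σ t + P := funext hL.σ_per
    have h2 : deriv (fun t => σ (t + 1)) x = deriv σ (x + 1) := deriv_comp_add_const σ 1 x
    rw [← h2, h1, deriv_add_const]
  obtain ⟨B, hB⟩ := (isCompact_Icc (a := (0 : ℝ)) (b := 1)).exists_bound_of_continuousOn
    hc.continuousOn
  have hB' : ∀ x, deriv σ x ≤ max B 1 := by
    intro x
    obtain ⟨y, hy, hxy⟩ := hper.exists_mem_Ico₀ one_pos x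
    rw [hxy]
    exact (le_abs_self _).trans ((hB y ⟨hy.1, hy.2.le⟩).trans (le_max_left _ _))
  have hB1 : (0 : ℝ) < max B 1 := lt_of_lt_of_le one_pos (le_max_right _ _)
  refine ⟨η / max B 1, by positivity, fun x y hxy he => ?_⟩
  obtain ⟨c, hc1, hc2⟩ := exists_hasDerivAt_eq_slope σ (deriv σ) hxy
    hL.σ_smooth.continuous.continuousOn (fun z _ => hL.hasDerivAt_σ z)
  have h1 := hB' c
  rw [hc2, div_le_iff₀ (by linarith)] at h1
  rw [lt_div_iff₀ hB1] at he
  linarith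

lemma Laz.σ_per_nat (hL : Laz γ P q σ K) (x : ℝ) (j : ℕ) : σ (x + j) = σ x + j * P := by
  induction j with
  | zero => simp
  | succ j ih =>
    have : x + ((j + 1 : ℕ) : ℝ) = (x + j) + 1 := by push_cast; ring
    rw [this, hL.σ_per, ih]
    push_cast
    ring

/-- **(T5)** the closing property in the Lazutkin coordinate. -/
theorem rstarP_of_closing (hL : Laz γ P q σ K) (hγ : Differentiable ℝ γ)
    (hper2 : ∀ s s', S0.p2 γ (s + P) (s' + P) = S0.p2 γ s s') {e₁ : ℝ} (he₁ : 0 < e₁)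
    (hC : Closing P e₁ (S0.p1 γ) (S0.p2 γ)) : ∃ ε₁ : ℝ, 0 < ε₁ ∧ RStarP q ε₁ := by
  obtain ⟨ρ, C, hQ⟩ := exists_locQ
  obtain ⟨ε, hε, hX⟩ := hL.exists_small hQ.ρ_pos
  obtain ⟨ε', hε', hσ⟩ := hL.exists_step he₁
  refine ⟨min ε ε', lt_min hε hε', fun n j x hn hj hx hxn hlaw => ?_⟩
  have hx1 : ∀ i < n, x i < x (i + 1) := fun i hi => by linarith [(hx i hi).1]
  have hx2 : ∀ i < n, x (i + 1) - x i < ε := fun i hi => lt_of_lt_of_le (hx i hi).2 (min_le_left _ _)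
  have hx3 : ∀ i < n, x (i + 1) - x i < ε' := fun i hi =>
    lt_of_lt_of_le (hx i hi).2 (min_le_right _ _)
  have hper2n : ∀ (j : ℕ) (s s' : ℝ), S0.p2 γ (s + j * P) (s' + j * P) = S0.p2 γ s s' := by
    intro j
    induction j with
    | zero => intro s s'; simp
    | succ j ih =>
      intro s s'
      have e1 : s + ((j + 1 : ℕ) : ℝ) * P = (s + j * P) + P := by push_cast; ring
      have e2 : s' + ((j + 1 : ℕ) : ℝ) * P = (s' + j * P) + P := by push_cast; ring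
      rw [e1, e2, hper2, ih]
  have hcl := hC n j hn (fun i => σ (x i))
    (fun i hi => ⟨hL.σ_mono (hx1 i hi), hσ _ _ (hx1 i hi) (hx3 i hi)⟩)
    (by rw [hxn, hL.σ_per_nat])
    (fun i hi => by
      have h1 := hlaw (i + 1) (by omega) hi
      rw [Nat.add_sub_cancel] at h1
      exact (hL.refl_iff hQ hγ hX (hx1 i (by omega)) (hx2 i (by omega)) (hx1 (i + 1) hi)
        (hx2 (i + 1) hi)).2 h1)
  have h0 := hx 0 (by omega)
  have hlast : x (n - 1) < x n ∧ x n - x (n - 1) < ε := by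
    have h1 := hx1 (n - 1) (by omega)
    have h2 := hx2 (n - 1) (by omega)
    rw [Nat.sub_add_cancel hn] at h1 h2
    exact ⟨h1, h2⟩
  have e1 : σ (x (n - 1)) = σ (x (n - 1) - j) + j * P := by
    rw [← hL.σ_per_nat, sub_add_cancel]
  rw [hxn, hL.σ_per_nat, e1, hper2n] at hcl
  have h1 := (hL.refl_iff hQ hγ hX (a := x (n - 1) - j) (b := x 0) (c := x 1)
    (by linarith [hlast.1]) (by linarith [hlast.2]) (by linarith [h0.1])
    (lt_of_lt_of_le h0.2 (min_le_left _ _))).1 hcl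
  push_cast at h1
  exact h1

end lazutkin

end Crest.Agent.R102.T5
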