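import Crest.Agent.R102.T2_849

/-!
Row 102, leaf (T1) facts used by (T2): `IsTable → TF` (helper849).
-/

set_option autoImplicit false

open Set Filter Topology
open Crest.AnalysisR.Billiard

noncomputable section

namespace Crest.Agent.R102.T2

section
variable {Ω : Set (ℝ × ℝ)} {γ : ℝ → ℝ × ℝ} {P : ℝ}

/-- a derivative of `t ↦ dt u (γ t - p)` -/
lemma hasDerivAt_dt {u p g' : ℝ × ℝ} {t : ℝ} (h : HasDerivAt γ g' t) :
    HasDerivAt (fun t => dt u (γ t - p)) (dt u g') t := by
  have h1 : HasDerivAt (fun t => (γ t).1) g'.1 t := h.fst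
  have h2 : HasDerivAt (fun t => (γ t).2) g'.2 t := h.snd
  have h3 : HasDerivAt (fun t => u.1 * ((γ t).2 - p.2) - u.2 * ((γ t).1 - p.1))
      (u.1 * g'.2 - u.2 * g'.1) t :=
    ((h2.sub_const _).const_mul _).sub ((h1.sub_const _).const_mul _)
  exact h3

lemma sm_der (hs : ContDiff ℝ (⊤ : ℕ∞) γ) (s : ℝ) : HasDerivAt γ (deriv γ s) s :=
  (hs.differentiable (by simp) s).hasDerivAt

lemma sm_der2 (hs : ContDiff ℝ (⊤ : ℕ∞) γ) (s : ℝ) :
    HasDerivAt (deriv γ) (deriv (deriv γ) s) s := by
  have h1 : ContDiff ℝ 2 γ := hs.of_le (by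
    have : ((2 : ℕ∞) : WithTop ℕ∞) ≤ ((⊤ : ℕ∞) : WithTop ℕ∞) := WithTop.coe_le_coe.2 le_top
    exact this)
  have h2 : ContDiff ℝ 1 (deriv γ) := by
    have : (2 : WithTop ℕ∞) = 1 + 1 := by norm_num
    rw [this] at h1
    exact ((contDiff_succ_iff_deriv).1 h1).2.2
  exact (h2.differentiable (by simp) s).hasDerivAt

/-- injectivity within a period -/
lemma ne_of_table (h : IsTable Ω γ P) {s s' : ℝ} (h1 : s < s') (h2 : s' < s + P) :
    γ s' ≠ γ s := by
  obtain ⟨-, -, -, -, ⟨hP, -, hper, hinj, -, -⟩, -⟩ := h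
  intro he
  set n : ℤ := ⌊s / P⌋ with hn
  have a1 : (n : ℝ) ≤ s / P := Int.floor_le _
  have a2 : s / P < n + 1 := Int.lt_floor_add_one _
  rw [le_div_iff₀ hP] at a1
  rw [div_lt_iff₀ hP] at a2
  have e1 : γ (s - n * P) = γ s := by
    have := hper.sub_zsmul_eq (x := s) n
    rwa [zsmul_eq_mul] at this
  have e2 : γ (s' - n * P) = γ s' := by
    have := hper.sub_zsmul_eq (x := s') n
    rwa [zsmul_eq_mul] at this
  have m1 : s - n * P ∈ Ico (0 : ℝ) P := ⟨by linarith, by linarith⟩
  rcases lt_or_ge (s' - n * P) P with hl | hg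
  · have m2 : s' - n * P ∈ Ico (0 : ℝ) P := ⟨by linarith, hl⟩
    have := hinj m2 m1 (by rw [e1, e2, he])
    linarith
  · have m2 : s' - n * P - P ∈ Ico (0 : ℝ) P := ⟨by linarith, by linarith⟩
    have e3 : γ (s' - n * P - P) = γ (s' - n * P) := hper.sub_eq _
    have := hinj m2 m1 (by rw [e3, e1, e2, he])
    linarith

/-- near `s` the curve is strictly on the left of its tangent line -/
lemma near_of_table (h : IsTable Ω γ P) (s : ℝ) :
    ∃ δ > 0, ∀ t, t ≠ s → |t - s| < δ → 0 < dt (deriv γ s) (γ t - γ s) := by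
  obtain ⟨-, -, -, -, ⟨hP, hs, hper, hinj, -, -⟩, hcv⟩ := h
  set a := deriv γ s with ha
  set g : ℝ → ℝ := fun t => dt a (γ t - γ s) with hg
  set g' : ℝ → ℝ := fun t => dt a (deriv γ t - 0) with hg'
  have d1 : ∀ t, HasDerivAt g (g' t) t := by
    intro t
    have := hasDerivAt_dt (u := a) (p := γ s) (sm_der hs t)
    simpa [hg', sub_zero] using this
  have d2 : HasDerivAt g' (dt a (deriv (deriv γ) s)) s :=
    hasDerivAt_dt (u := a) (p := 0) (sm_der2 hs s)
  have hpos : 0 < deriv g' s := by
    rw [d2.deriv, dt_eq]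
    exact hcv s
  have hz : g' s = 0 := by simp [hg', ← ha, dt_self]
  have hgs : g s = 0 := by simp [hg, dt]
  obtain ⟨δ, hδ, hsig⟩ := Metric.eventually_nhds_iff.1
    (eventually_nhdsWithin_sign_eq_of_deriv_pos hpos hz)
  have hcont : Continuous g := continuous_iff_continuousAt.2 fun t => (d1 t).continuousAt
  have hdg : ∀ t, deriv g t = g' t := fun t => (d1 t).deriv
  refine ⟨δ, hδ, fun t hne ht => ?_⟩
  change 0 < g t
  rw [← hgs]
  rcases lt_or_gt_of_ne hne with hl | hr
  · -- strictly decreasing on `[t, s]`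
    have : StrictAntiOn g (Icc t s) := by
      apply strictAntiOn_of_deriv_neg (convex_Icc _ _) hcont.continuousOn
      intro x hx
      rw [interior_Icc] at hx
      rw [hdg]
      have h1 := hsig (y := x) (by
        rw [Real.dist_eq, abs_of_neg (by linarith [hx.2])]
        rw [abs_of_neg (by linarith)] at ht
        linarith [hx.1])
      rw [_root_.sign_neg (show x - s < 0 by linarith [hx.2])] at h1
      exact sign_eq_neg_one_iff.1 h1
    exact this (left_mem_Icc.2 hl.le) (right_mem_Icc.2 hl.le) hl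
  · have : StrictMonoOn g (Icc s t) := by
      apply strictMonoOn_of_deriv_pos (convex_Icc _ _) hcont.continuousOn
      intro x hx
      rw [interior_Icc] at hx
      rw [hdg]
      have h1 := hsig (y := x) (by
        rw [Real.dist_eq, abs_of_pos (by linarith [hx.1])]
        rw [abs_of_pos (by linarith)] at ht
        linarith [hx.2])
      rw [_root_.sign_pos (show 0 < x - s by linarith [hx.1])] at h1
      exact sign_eq_one_iff.1 h1
    exact this (left_mem_Icc.2 hr.le) (right_mem_Icc.2 hr.le) hr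

/-- the table is on the left of every tangent line (weakly on the closure, strictly inside) -/
lemma side_of_table (h : IsTable Ω γ P) (s : ℝ) :
    (∀ z ∈ Ω, 0 < dt (deriv γ s) (z - γ s)) ∧
      ∀ z ∈ closure Ω, 0 ≤ dt (deriv γ s) (z - γ s) := by
  have hnear := near_of_table h s
  obtain ⟨hop, -, -, hsc, ⟨hP, hs, hper, hinj, hd, hfr⟩, hcv⟩ := h
  set p := γ s with hp
  set a := deriv γ s with ha
  have hpf : p ∈ frontier Ω := by rw [← hfr]; exact ⟨s, rfl⟩
  have hpn : p ∉ Ω := by rw [hop.frontier_eq] at hpf; exact hpf.2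
  obtain ⟨f, hf⟩ := geometric_hahn_banach_open_point hsc.convex hop hpn
  have hfc : ∀ z ∈ closure Ω, f z ≤ f p := by
    intro z hz
    exact (isClosed_le f.continuous continuous_const).closure_subset_iff.2
      (fun z hz => (hf z hz).le) hz
  have hγc : ∀ t, γ t ∈ closure Ω := fun t => by
    apply frontier_subset_closure
    rw [← hfr]; exact ⟨t, rfl⟩
  have hder : HasDerivAt (fun t => f (γ t)) (f a) s := f.hasFDerivAt.comp_hasDerivAt s (sm_der hs s)
  have hmax : IsLocalMax (fun t => f (γ t)) s :=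
    Filter.Eventually.of_forall fun t => hfc _ (hγc t)
  have hfa : f a = 0 := hmax.hasDerivAt_eq_zero hder
  have ha0 := dot_self_pos (hd s)
  rw [← ha] at ha0
  have key : ∀ v : ℝ × ℝ, dot a a * f v = dt a v * f (perp a) := by
    intro v
    have h1 : dot a a • v = dot a v • a + dt a v • perp a := by
      unfold dot dt perp
      ext
      · simp only [Prod.smul_fst, Prod.fst_add, smul_eq_mul]; ring
      · simp only [Prod.smul_snd, Prod.snd_add, smul_eq_mul]; ring
    have h2 : f (dot a a • v) = f (dot a v • a + dt a v • perp a) := by rw [h1]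
    rw [map_add, map_smul, map_smul, map_smul, hfa, smul_eq_mul, smul_eq_mul, smul_eq_mul,
      mul_zero, zero_add] at h2
    exact h2
  -- the sign of `f (perp a)`
  obtain ⟨δ, hδ, hnr⟩ := hnear
  have hneg : f (perp a) < 0 := by
    have h1 := hnr (s + δ / 2) (by linarith) (by
      rw [show s + δ / 2 - s = δ / 2 by ring, abs_of_pos (by linarith)]; linarith)
    have h2 := key (γ (s + δ / 2) - p)
    have h3 : f (γ (s + δ / 2) - p) ≤ 0 := by
      rw [map_sub]; linarith [hfc _ (hγc (s + δ / 2))]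
    have h4 : dt a (γ (s + δ / 2) - p) * f (perp a) ≤ 0 := by
      rw [← h2]; exact mul_nonpos_of_nonneg_of_nonpos ha0.le h3
    have h5 : f (perp a) ≤ 0 := by
      by_contra hcon
      have := mul_pos h1 (not_le.1 hcon)
      linarith
    rcases h5.lt_or_eq with h6 | h6
    · exact h6
    · exfalso
      -- then `f = 0`
      have : ∀ v, f v = 0 := by
        intro v
        have := key v
        rw [h6, mul_zero] at this
        rcases mul_eq_zero.1 this with h | h
        · exact absurd h ha0.ne'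
        · exact h
      have hne : (closure Ω).Nonempty := ⟨p, hγc s⟩
      obtain ⟨z, hz⟩ := closure_nonempty_iff.1 hne
      have := hf z hz
      rw [‹∀ v, f v = 0› z, ‹∀ v, f v = 0› p] at this
      exact lt_irrefl _ this
  constructor
  · intro z hz
    have h2 := key (z - p)
    have h3 : f (z - p) < 0 := by rw [map_sub]; linarith [hf z hz]
    have h4 : dt a (z - p) * f (perp a) < 0 := by rw [← h2]; exact mul_neg_of_pos_of_neg ha0 h3
    by_contra hcon
    have := mul_nonneg_of_nonpos_of_nonpos (not_lt.1 hcon) hneg.le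
    linarith
  · intro z hz
    have h2 := key (z - p)
    have h3 : f (z - p) ≤ 0 := by rw [map_sub]; linarith [hfc z hz]
    have h4 : dt a (z - p) * f (perp a) ≤ 0 := by
      rw [← h2]; exact mul_nonpos_of_nonneg_of_nonpos ha0.le h3
    by_contra hcon
    have := mul_pos_of_neg_of_neg (not_le.1 hcon) hneg
    linarith

/-- strict on the closure, except at the point of tangency -/
lemma tan_of_table (h : IsTable Ω γ P) (s : ℝ) {z : ℝ × ℝ} (hz : z ∈ closure Ω)
    (hne : z ≠ γ s) : 0 < dt (deriv γ s) (z - γ s) := by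
  have hside := side_of_table h s
  obtain ⟨δ, hδ, hnr⟩ := near_of_table h s
  have hinj' := fun t h1 h2 => ne_of_table h (s := s) (s' := t) h1 h2
  obtain ⟨hop, -, -, hsc, ⟨hP, hs, hper, hinj, hd, hfr⟩, hcv⟩ := h
  refine lt_of_le_of_ne (hside.2 z hz) fun h0 => ?_
  set p := γ s with hp
  set a := deriv γ s with ha
  have hγc : ∀ t, γ t ∈ closure Ω := fun t => by
    apply frontier_subset_closure
    rw [← hfr]; exact ⟨t, rfl⟩
  set K' : Set (ℝ × ℝ) := γ '' Icc (s + δ) (s + P - δ) with hK'
  have hK'c : IsClosed K' := (isCompact_Icc.image hs.continuous).isClosed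
  have hmem : ∀ r ∈ Ioc (0 : ℝ) 1, p + r • (z - p) ∈ K' := by
    intro r hr
    have h1 : p + r • (z - p) ∈ closure Ω :=
      (hsc.convex.closure).add_smul_sub_mem (hγc s) hz ⟨hr.1.le, hr.2⟩
    have h2 : dt a (p + r • (z - p) - p) = 0 := by
      rw [add_sub_cancel_left, dt_smul, ← h0, mul_zero]
    have h3 : p + r • (z - p) ∉ Ω := fun hin => by
      have := hside.1 _ hin
      linarith
    have h4 : p + r • (z - p) ∈ frontier Ω := by rw [hop.frontier_eq]; exact ⟨h1, h3⟩
    rw [← hfr] at h4
    obtain ⟨t, ht⟩ := h4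
    -- shift `t` into `[s, s + P)`
    set n : ℤ := ⌊(t - s) / P⌋ with hn
    have a1 : (n : ℝ) ≤ (t - s) / P := Int.floor_le _
    have a2 : (t - s) / P < n + 1 := Int.lt_floor_add_one _
    rw [le_div_iff₀ hP] at a1
    rw [div_lt_iff₀ hP] at a2
    have e1 : γ (t - n * P) = γ t := by
      have := hper.sub_zsmul_eq (x := t) n
      rwa [zsmul_eq_mul] at this
    set t' := t - n * P with ht'
    have b1 : s ≤ t' := by rw [ht']; linarith
    have b2 : t' < s + P := by rw [ht']; linarith
    have hzp : z - p ≠ 0 := sub_ne_zero.2 hne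
    have b3 : t' ≠ s := by
      rintro hts
      have h5 : p + r • (z - p) = p := by rw [← ht, ← e1, hts]
      have h6 : r • (z - p) = 0 := by simpa using h5
      rcases smul_eq_zero.1 h6 with h7 | h7
      · exact hr.1.ne' h7
      · exact hzp h7
    refine ⟨t', ⟨?_, ?_⟩, by rw [e1, ht]⟩
    · by_contra hcon
      have h7 := hnr t' b3 (by
        rw [abs_of_nonneg (by linarith)]; linarith [not_le.1 hcon])
      rw [e1, ht, h2] at h7
      exact lt_irrefl _ h7
    · by_contra hcon
      have e2 : γ (t' - P) = γ t' := hper.sub_eq _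
      have h7 := hnr (t' - P) (by intro hh; linarith) (by
        rw [abs_of_neg (by linarith)]; linarith [not_le.1 hcon])
      rw [e2, e1, ht, h2] at h7
      exact lt_irrefl _ h7
  have htd : Tendsto (fun r : ℝ => p + r • (z - p)) (𝓝[>] 0) (𝓝 p) := by
    have hc : Continuous fun r : ℝ => p + r • (z - p) := by fun_prop
    have := hc.tendsto 0
    simp only [zero_smul, add_zero] at this
    exact this.mono_left nhdsWithin_le_nhds
  have hin : p ∈ K' := by
    apply hK'c.mem_of_tendsto htd
    filter_upwards [Ioc_mem_nhdsGT (show (0 : ℝ) < 1 by norm_num)] with r hr using hmem r hr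
  obtain ⟨t, ht, hte⟩ := hin
  exact hinj' t (by linarith [ht.1]) (by linarith [ht.2]) hte

/-- orientation of three points of the curve -/
lemma ori_of_table (h : IsTable Ω γ P) {s s' σ : ℝ} (h1 : s < s') (h2 : s' < σ)
    (h3 : σ < s + P) : 0 < dt (γ s' - γ s) (γ σ - γ s) := by
  have hne : ∀ x y, x < y → y < x + P → γ y ≠ γ x := fun x y => ne_of_table h
  have htan : ∀ x y, γ y ≠ γ x → 0 < dt (deriv γ x) (γ y - γ x) := by
    intro x y hxy
    refine tan_of_table h x ?_ hxy
    apply frontier_subset_closure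
    rw [← h.2.2.2.2.1.2.2.2.2.2]; exact ⟨y, rfl⟩
  obtain ⟨hop, -, -, hsc, ⟨hP, hs, hper, hinj, hd, hfr⟩, hcv⟩ := h
  set u := γ s' - γ s with hu
  have n1 := hne s s' h1 (by linarith)
  have hu0 : u ≠ 0 := sub_ne_zero.2 n1
  -- no zero
  have nz : ∀ x, s' < x → x < s + P → dt u (γ x - γ s) ≠ 0 := by
    intro x hx1 hx2 h0
    obtain ⟨c, hc⟩ := par hu0 h0
    have n2 := hne s x (by linarith) hx2
    have n3 := hne s' x hx1 (by linarith)
    have c0 : c ≠ 0 := by
      rintro rfl
      rw [zero_smul] at hc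
      exact n2 (sub_eq_zero.1 hc)
    have c1 : c ≠ 1 := by
      rintro rfl
      rw [one_smul, hu] at hc
      exact n3 (sub_left_injective hc)
    rcases lt_or_gt_of_ne c0 with hneg | hpos
    · have t1 := htan s s' n1
      have t2 := htan s x n2
      rw [hc, dt_smul] at t2
      have := mul_neg_of_neg_of_pos hneg t1
      linarith
    rcases lt_or_gt_of_ne c1 with hlt | hgt
    · have t1 := htan x s n2.symm
      have t2 := htan x s' n3.symm
      have e1 : γ s - γ x = (-c) • u := by
        have : γ s - γ x = -(γ x - γ s) := by abel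
        rw [this, hc, neg_smul]
      have e2 : γ s' - γ x = (1 - c) • u := by
        have : γ s' - γ x = u - (γ x - γ s) := by rw [hu]; abel
        rw [this, hc, sub_smul, one_smul]
      rw [e1, dt_smul] at t1
      rw [e2, dt_smul] at t2
      have q1 : 0 < dt (deriv γ x) u := by
        by_contra hcon
        have := mul_nonpos_of_nonneg_of_nonpos (show (0 : ℝ) ≤ 1 - c by linarith) (not_lt.1 hcon)
        linarith
      have := mul_neg_of_neg_of_pos (show -c < 0 by linarith) q1
      linarith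
    · have t1 := htan s' s n1.symm
      have t2 := htan s' x n3
      have e1 : γ s - γ s' = (-1 : ℝ) • u := by rw [hu, neg_smul, one_smul]; abel
      have e2 : γ x - γ s' = (c - 1) • u := by
        have : γ x - γ s' = (γ x - γ s) - u := by rw [hu]; abel
        rw [this, hc, sub_smul, one_smul]
      rw [e1, dt_smul] at t1
      rw [e2, dt_smul] at t2
      have q1 : 0 < dt (deriv γ s') u := by
        by_contra hcon
        have := mul_nonpos_of_nonneg_of_nonpos (show (0 : ℝ) ≤ c - 1 by linarith) (not_lt.1 hcon)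
        linarith
      linarith
  -- positive near `s'`
  set f : ℝ → ℝ := fun x => dt u (γ x - γ s) with hf
  have hder : HasDerivAt f (dt u (deriv γ s')) s' := hasDerivAt_dt (sm_der hs s')
  have hfs : f s' = 0 := by rw [hf]; exact dt_self u
  have hpos : 0 < deriv f s' := by
    rw [hder.deriv, dt_swap, ← dt_neg, hu, neg_sub]
    exact htan s' s n1.symm
  have hcont : Continuous f := by
    rw [hf]
    unfold dt
    have := hs.continuous
    fun_prop
  obtain ⟨ε, hε, hsig⟩ := Metric.eventually_nhds_iff.1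
    (eventually_nhdsWithin_sign_eq_of_deriv_pos hpos hfs)
  set x1 := s' + min (ε / 2) ((σ - s') / 2) with hx1
  have m0 : 0 < min (ε / 2) ((σ - s') / 2) := lt_min (by linarith) (by linarith)
  have m1 : min (ε / 2) ((σ - s') / 2) ≤ ε / 2 := min_le_left _ _
  have m2 : min (ε / 2) ((σ - s') / 2) ≤ (σ - s') / 2 := min_le_right _ _
  have hf1 : 0 < f x1 := by
    have h4 := hsig (y := x1) (by
      rw [Real.dist_eq, hx1, add_sub_cancel_left, abs_of_pos m0]; linarith)
    rw [_root_.sign_pos (show 0 < x1 - s' by rw [hx1]; linarith)] at h4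
    exact sign_eq_one_iff.1 h4
  by_contra hcon
  have hiv := intermediate_value_Icc' (show x1 ≤ σ by rw [hx1]; linarith) hcont.continuousOn
  obtain ⟨x, hx, hx0⟩ := hiv ⟨not_lt.1 hcon, hf1.le⟩
  exact nz x (by linarith [hx.1]) (by linarith [hx.2]) hx0

/-- the facts (T1) about a table -/
theorem tf_of_isTable (h : IsTable Ω γ P) : TF Ω γ P where
  hP := h.2.2.2.2.1.1
  op := h.1
  bd := h.2.1
  per := h.2.2.2.2.1.2.2.1
  der := sm_der h.2.2.2.2.1.2.1
  dne := h.2.2.2.2.1.2.2.2.2.1
  fr := h.2.2.2.2.1.2.2.2.2.2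
  tan := fun s _ hz hne => tan_of_table h s hz hne
  ori := fun _ _ _ h1 h2 h3 => ori_of_table h h1 h2 h3

/-- **(T2)**, literal form -/
theorem leafFam_of_hasCausticCollar (h : IsTable Ω γ P) (hc : HasCausticCollar Ω γ) :
    ∃ (F : ℝ → ℝ → ℝ) (b₁ : ℝ), S0.LeafFam P b₁ (S0.p1 γ) (S0.p2 γ) F := by
  obtain ⟨F, hF⟩ := leafFam_of_collar (tf_of_isTable h) hc
  exact ⟨F, _, hF⟩

end

end Crest.Agent.R102.T2
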