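import Crest.Agent.R102.AreaB_160
import Crest.Agent.R102.Fol3_540
import Crest.Agent.R102.Lift_785
import Crest.Agent.R102.TF_849
import Crest.Agent.R102.T5b_576
import Crest.Agent.R102.Geo_821

/-!
Row 102: the links S0134/S0135 ⇒ `LeafFam` ⇒ `Closing` for a table.
-/

set_option autoImplicit false

namespace Crest.Agent.R102.S0

open Set Crest.AnalysisR.Billiard

/-- **T3c**: a foliation by invariant curves consists (near the boundary) of graphs. -/
theorem leafFam_of_folData {P : ℝ} {q1 q2 h : ℝ → ℝ → ℝ} {S g : ℝ → ℝ → ℝ}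
    (hT : TwistData P q1 q2 h) (hF : FolData P q1 q2 S g) : ∃ F b₁, LeafFam P b₁ q1 q2 F :=
  leafFam_of_folData_of_area hT hF (isNext_nextT hT) (areaL_of_isNext hT (isNext_nextT hT))

/-- the link for S0135. -/
theorem leafFam_of_hasInvariantPhaseFoliation {Ω : Set (ℝ × ℝ)} {γ : ℝ → ℝ × ℝ} {P : ℝ}
    (ht : IsTable Ω γ P) (hf : HasInvariantPhaseFoliation Ω γ) :
    ∃ F b₁, LeafFam P b₁ (p1 γ) (p2 γ) F := by
  obtain ⟨S, g, hF⟩ := L785.folData_of_foliation ht hf
  exact leafFam_of_folData (twistData_of_isTable ht) hF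

/-- **The complete link**: for a table with a continuous collar of caustics (S0134) or an
invariant phase foliation (S0135), the Lazutkin datum `qT ht` satisfies the closing condition
`RStarP`. -/
theorem rstarP_of_table {Ω : Set (ℝ × ℝ)} {γ : ℝ → ℝ × ℝ} {P : ℝ} (ht : IsTable Ω γ P)
    (hf : HasCausticCollar Ω γ ∨ HasInvariantPhaseFoliation Ω γ) :
    T5.Laz γ P (T5.qT ht) (T5.sig ht) (T5.Kc ht) ∧
      ∃ ε₁ : ℝ, 0 < ε₁ ∧ A929.RStarP (T5.qT ht) ε₁ := by
  have hL : ∃ F b₁, LeafFam P b₁ (p1 γ) (p2 γ) F := by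
    rcases hf with hf | hf
    · exact T2.leafFam_of_hasCausticCollar ht hf
    · exact leafFam_of_hasInvariantPhaseFoliation ht hf
  obtain ⟨F, b₁, lf⟩ := hL
  have tw := twistData_of_isTable ht
  obtain ⟨e, he, hC⟩ := T5.closing_of_leafFam tw lf
  have hγ : Differentiable ℝ γ := ht.2.2.2.2.1.2.1.differentiable (by simp)
  exact ⟨T5.laz_of_isTable ht, T5.rstarP_of_closing (T5.laz_of_isTable ht) hγ tw.per2 he hC⟩

end Crest.Agent.R102.S0
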