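import Crest.Agent.R102.Holo_540

/-!
Row 102, part (B), lemma B4 (helper540): the action of an approximate leaf is constant up to
`C n^5 w^{-2} ε²`.
-/

set_option autoImplicit false

open Set Filter Topology Metric Complex MeasureTheory
open scoped Real ContDiff ComplexConjugate

noncomputable section

namespace Crest.Agent.R102.B540

open Crest.Agent.R102.B821 Crest.Agent.R266.SCV

variable {ρ₀ ε₀ ε₁ ρ d w ε K δ₀ b : ℝ} {n j : ℕ} {L Ψ : ℂ × ℂ → ℂ} {X : ℂ → ℂ}

/-- the true chain -/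
def YY (L : ℂ × ℂ → ℂ) (X : ℂ → ℂ) (w : ℝ) (n : ℕ) (t : ℂ) (i : ℕ) : ℂ :=
  yy X w t (WW L X w n t) i

lemma Dat.YY_Dg (D : Dat ρ₀ ε₀ ρ d w ε K δ₀ b n j L Ψ X) {t : ℂ} (ht : |t.im| < ρ - d) {i : ℕ}
    (hi : i + 1 ≤ n) : (YY L X w n t i, YY L X w n t (i + 1)) ∈ Dg (3 / 4 * ρ₀) (ε₀ / 2) :=
  D.yy_Dg (D.strip_sub ht) (D.WW_le ht (by omega)) (D.WW_le ht hi)

lemma Dat.diff_YY (D : Dat ρ₀ ε₀ ρ d w ε K δ₀ b n j L Ψ X) {i : ℕ} (hi : i ≤ n) :
    DifferentiableOn ℂ (fun t => YY L X w n t i) {t | |t.im| < ρ - d} :=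
  D.diff_yy D.strip_sub (D.diff_WW hi)

lemma Dat.nw (D : Dat ρ₀ ε₀ ρ d w ε K δ₀ b n j L Ψ X) : (n : ℂ) * w = j := by
  have hn : (n : ℝ) ≠ 0 := by exact_mod_cast D.n_pos.ne'
  have h : (n : ℝ) * w = j := by rw [D.hw]; field_simp
  exact_mod_cast h

lemma Dat.X_add (D : Dat ρ₀ ε₀ ρ d w ε K δ₀ b n j L Ψ X) {t : ℂ} (ht : |t.im| < ρ) (m : ℕ) :
    X (t + m) = X t + m := by
  induction m with
  | zero => simp
  | succ m ih =>
    have h := D.Xper (t + m) (by simpa using ht)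
    push_cast
    rw [← add_assoc, h, ih]
    ring

lemma Dat.YY_zero (D : Dat ρ₀ ε₀ ρ d w ε K δ₀ b n j L Ψ X) {t : ℂ} (ht : |t.im| < ρ - d) :
    YY L X w n t 0 = X t := by
  unfold YY yy XX
  rw [D.WW_zero ht]
  simp

lemma Dat.YY_end (D : Dat ρ₀ ε₀ ρ d w ε K δ₀ b n j L Ψ X) {t : ℂ} (ht : |t.im| < ρ - d) :
    YY L X w n t n = X t + j := by
  unfold YY yy XX
  rw [D.WW_end ht, D.nw, D.X_add (D.strip_sub ht)]
  simp

lemma q2_per_nat (h : IsLag ρ₀ ε₀ L Ψ) (m : ℕ) {a c : ℂ} (hp : (a, c) ∈ Dg ρ₀ ε₀) :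
    q2 L (a + m, c + m) = q2 L (a, c) := by
  induction m with
  | zero => simp
  | succ m ih =>
    have hm : (a + m, c + m) ∈ Dg ρ₀ ε₀ := by
      refine ⟨?_, ?_, ?_⟩
      · simpa using hp.1
      · simpa using hp.2.1
      · simpa using hp.2.2
    have h1 := h.q2_per hm
    rw [← ih, ← h1]
    push_cast
    congr 2 <;> ring

/-- the reflection law at the starting point, real parameters -/
lemma Dat.closing_real (D : Dat ρ₀ ε₀ ρ d w ε K δ₀ b n j L Ψ X) (hR : RStar L ε₁)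
    (hw1 : 2 * w < ε₁) (hj : 1 ≤ j) (t : ℝ) :
    EL L (YY L X w n t (n - 1) - j) (YY L X w n t 0) (YY L X w n t 1) = 0 := by
  have ht := D.real_strip t
  have hn := D.n_pos
  have hwp := D.w_pos
  set x : ℕ → ℝ := fun i => (YY L X w n t i).re with hx
  have hre : ∀ i ≤ n, ((x i : ℝ) : ℂ) = YY L X w n t i := by
    intro i hi
    have h1 : conj (YY L X w n t i) = YY L X w n t i := D.yy_real t (D.WW_real t hi)
    rw [Complex.conj_eq_iff_re] at h1
    exact h1
  have h1 : ∀ i < n, 0 < x (i + 1) - x i ∧ x (i + 1) - x i < ε₁ := by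
    intro i hi
    have h2 : ‖YY L X w n t (i + 1) - YY L X w n t i - w‖ ≤ 27 / 100 * w :=
      D.yy_step (D.strip_sub ht) (D.WW_le ht (by omega)) (D.WW_le ht (by omega))
    have h3 := Complex.abs_re_le_norm (YY L X w n t (i + 1) - YY L X w n t i - w)
    rw [Complex.sub_re, Complex.sub_re, Complex.ofReal_re] at h3
    have h4 := abs_le.1 (h3.trans h2)
    simp only [hx]
    constructor <;> linarith [h4.1, h4.2]
  have h2 : x n = x 0 + j := by
    simp only [hx]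
    rw [D.YY_end ht, D.YY_zero ht]
    simp
  have h3 : ∀ i, 1 ≤ i → i < n → EL L (x (i - 1)) (x i) (x (i + 1)) = 0 := by
    intro i hi1 hi2
    obtain ⟨m, rfl⟩ : ∃ m, i = m + 1 := ⟨i - 1, by omega⟩
    rw [hre _ (by omega), hre _ (by omega), hre _ (by omega)]
    exact D.EL_zero ht hi2
  have h4 := hR n j x hn hj h1 h2 h3
  rwa [hre _ (by omega), hre _ (by omega), hre _ (by omega)] at h4

/-- the reflection law at the starting point, complex parameters -/
lemma Dat.closing (D : Dat ρ₀ ε₀ ρ d w ε K δ₀ b n j L Ψ X) (hR : RStar L ε₁)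
    (hw1 : 2 * w < ε₁) (hj : 1 ≤ j) {t : ℂ} (ht : |t.im| < ρ - d) :
    q2 L (YY L X w n t (n - 1), YY L X w n t n) + q1 L (YY L X w n t 0, YY L X w n t 1) = 0 := by
  have hn := D.n_pos
  have hρd : 0 < ρ - d := by have := D.d_lt; linarith
  set H : ℂ → ℂ := fun t =>
    q2 L (YY L X w n t (n - 1), YY L X w n t n) + q1 L (YY L X w n t 0, YY L X w n t 1) with hH
  have e1 : n - 1 + 1 = n := by omega
  have m1 : ∀ t : ℂ, |t.im| < ρ - d →
      (YY L X w n t (n - 1), YY L X w n t n) ∈ Dg ρ₀ ε₀ := by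
    intro t ht
    have := D.YY_Dg ht (i := n - 1) (by omega)
    rw [e1] at this
    exact D.sub_Dg this
  have m2 : ∀ t : ℂ, |t.im| < ρ - d →
      (YY L X w n t 0, YY L X w n t 1) ∈ Dg ρ₀ ε₀ := by
    intro t ht
    exact D.sub_Dg (D.YY_Dg ht (i := 0) (by omega))
  have h1 : DifferentiableOn ℂ (q2 L) (Dg ρ₀ ε₀) := (ana_q2 D.lag.anaL).differentiableOn
  have h2 : DifferentiableOn ℂ (q1 L) (Dg ρ₀ ε₀) := (ana_q1 D.lag.anaL).differentiableOn
  have hHd : DifferentiableOn ℂ H {t | |t.im| < ρ - d} :=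
    (h1.comp ((D.diff_YY (by omega)).prodMk (D.diff_YY le_rfl)) m1).add
      (h2.comp ((D.diff_YY (by omega)).prodMk (D.diff_YY (by omega))) m2)
  have hHa : AnalyticOnNhd ℂ H {t | |t.im| < ρ - d} := hHd.analyticOnNhd (isOpen_strip _)
  have hreal : ∀ t : ℝ, H t = 0 := by
    intro t
    have ht := D.real_strip t
    have h3 := D.closing_real hR hw1 hj t
    unfold EL at h3
    have hm := m1 t ht
    have hm' : (YY L X w n t (n - 1) - j, YY L X w n t 0) ∈ Dg ρ₀ ε₀ := by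
      have e2 : YY L X w n t 0 = YY L X w n t n - j := by
        rw [D.YY_zero ht, D.YY_end ht]; ring
      rw [e2]
      refine ⟨?_, ?_, ?_⟩
      · simpa using hm.1
      · simpa using hm.2.1
      · simpa using hm.2.2
    have h4 := q2_per_nat D.lag j hm'
    have e3 : YY L X w n t (n - 1) - j + j = YY L X w n t (n - 1) := by ring
    have e4 : YY L X w n t 0 + j = YY L X w n t n := by
      rw [D.YY_zero ht, D.YY_end ht]
    rw [e3, e4] at h4
    simp only [hH]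
    rw [h4]
    exact h3
  have hfreq : ∃ᶠ z in 𝓝[≠] (0 : ℂ), H z = 0 := by
    have h5 : Tendsto (fun k : ℕ => ((1 / ((k : ℝ) + 1) : ℝ) : ℂ)) atTop (𝓝[≠] (0 : ℂ)) := by
      rw [tendsto_nhdsWithin_iff]
      constructor
      · have h6 := tendsto_one_div_add_atTop_nhds_zero_nat (𝕜 := ℝ)
        have h7 := (Complex.continuous_ofReal.tendsto (0 : ℝ)).comp h6
        rw [Complex.ofReal_zero] at h7
        exact h7
      · refine Eventually.of_forall (fun k => ?_)
        rw [Set.mem_compl_iff, Set.mem_singleton_iff, Complex.ofReal_eq_zero]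
        positivity
    exact h5.frequently (Frequently.of_forall (fun k => hreal _))
  have h0 : (0 : ℂ) ∈ {t : ℂ | |t.im| < ρ - d} := by simpa using hρd
  have hz := hHa.eqOn_zero_of_preconnected_of_frequently_eq_zero
    (convex_strip _).isPreconnected h0 hfreq
  exact hz ht

/-- the true action -/
def AA (L : ℂ × ℂ → ℂ) (X : ℂ → ℂ) (w : ℝ) (n : ℕ) (t : ℂ) : ℂ :=
  ∑ i ∈ Finset.range n, L (YY L X w n t i, YY L X w n t (i + 1))

lemma Dat.deriv_AA (D : Dat ρ₀ ε₀ ρ d w ε K δ₀ b n j L Ψ X) (hR : RStar L ε₁)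
    (hw1 : 2 * w < ε₁) (hj : 1 ≤ j) {t : ℂ} (ht : |t.im| < ρ - d) :
    HasDerivAt (AA L X w n) 0 t := by
  have hn := D.n_pos
  have hD : ∀ i ≤ n, HasDerivAt (fun s => YY L X w n s i) (deriv (fun s => YY L X w n s i) t) t :=
    fun i hi => ((D.diff_YY hi).differentiableAt ((isOpen_strip _).mem_nhds ht)).hasDerivAt
  set y' : ℕ → ℂ := fun i => deriv (fun s => YY L X w n s i) t with hy'
  have h1 : ∀ i ∈ Finset.range n, HasDerivAt (fun s => L (YY L X w n s i, YY L X w n s (i + 1)))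
      (q1 L (YY L X w n t i, YY L X w n t (i + 1)) * y' i +
        q2 L (YY L X w n t i, YY L X w n t (i + 1)) * y' (i + 1)) t := by
    intro i hi
    have hi' := Finset.mem_range.1 hi
    exact hasDerivAt_comp2 (D.lag.dL _ (D.sub_Dg (D.YY_Dg ht (by omega)))) (hD i (by omega))
      (hD (i + 1) (by omega))
  have h2 := HasDerivAt.fun_sum h1
  refine h2.congr_deriv ?_
  obtain ⟨m, rfl⟩ : ∃ m, n = m + 1 := ⟨n - 1, by omega⟩
  rw [sum_parts (fun i => q1 L (YY L X w (m + 1) t i, YY L X w (m + 1) t (i + 1)))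
    (fun i => q2 L (YY L X w (m + 1) t i, YY L X w (m + 1) t (i + 1))) y' m]
  have h3 : ∑ i ∈ Finset.range m,
      (q1 L (YY L X w (m + 1) t (i + 1), YY L X w (m + 1) t (i + 1 + 1)) +
        q2 L (YY L X w (m + 1) t i, YY L X w (m + 1) t (i + 1))) * y' (i + 1) = 0 := by
    refine Finset.sum_eq_zero (fun i hi => ?_)
    have hi' := Finset.mem_range.1 hi
    have h4 := D.EL_zero ht (m := i) (by omega)
    unfold EL at h4
    rw [add_comm] at h4
    unfold YY
    rw [h4, zero_mul]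
  rw [h3, add_zero]
  have h5 : y' 0 = y' (m + 1) := by
    have h6 : HasDerivAt (fun s => YY L X w (m + 1) s (m + 1)) (y' 0) t := by
      have h7 := (hD 0 (by omega)).add_const (j : ℂ)
      refine h7.congr_of_eventuallyEq ?_
      filter_upwards [(isOpen_strip _).mem_nhds ht] with s hs
      rw [D.YY_end hs, D.YY_zero hs]
    exact h6.deriv.symm
  have h8 := D.closing hR hw1 hj ht
  simp only [Nat.add_sub_cancel] at h8
  rw [← h5, zero_add]
  linear_combination (y' 0) * h8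

lemma Dat.AA_const (D : Dat ρ₀ ε₀ ρ d w ε K δ₀ b n j L Ψ X) (hR : RStar L ε₁)
    (hw1 : 2 * w < ε₁) (hj : 1 ≤ j) : ∃ A : ℂ, ∀ t : ℂ, |t.im| < ρ - d → AA L X w n t = A := by
  have hρd : 0 < ρ - d := by have := D.d_lt; linarith
  have h1 : DifferentiableOn ℂ (AA L X w n) {t | |t.im| < ρ - d} := fun t ht =>
    (D.deriv_AA hR hw1 hj ht).differentiableAt.differentiableWithinAt
  have h2 : ({t : ℂ | |t.im| < ρ - d}).EqOn (deriv (AA L X w n)) 0 := fun t ht =>
    (D.deriv_AA hR hw1 hj ht).deriv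
  obtain ⟨A, hA⟩ := (isOpen_strip (ρ - d)).exists_is_const_of_deriv_eq_zero
    (convex_strip _).isPreconnected h1 h2
  exact ⟨A, fun t ht => hA t ht⟩

lemma Dat.AA_sub (D : Dat ρ₀ ε₀ ρ d w ε K δ₀ b n j L Ψ X) {t : ℂ} (ht : |t.im| < ρ - d) :
    ‖(∑ i ∈ Finset.range n, L (XX X w t i, XX X w t (i + 1))) - AA L X w n t‖ ≤
      26 * K * n ^ 5 / w ^ 2 * ε ^ 2 := by
  have hn := D.n_pos
  have hK := D.K_pos
  have hbn := D.b_nn
  have hwp := D.w_pos
  set h : ℕ → ℂ := fun i => -(DX X w t i * WW L X w n t i) with hh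
  have hhb : ∀ i ≤ n, ‖h i‖ ≤ 101 / 100 * b := by
    intro i hi
    simp only [hh]
    rw [norm_neg]
    exact D.DXv_le (D.strip_sub ht) (D.WW_le ht hi) i
  have hXY : ∀ i, XX X w t i = YY L X w n t i + h i := by
    intro i
    simp only [hh]
    unfold YY yy
    ring
  have hlin : ∑ i ∈ Finset.range n, (q1 L (YY L X w n t i, YY L X w n t (i + 1)) * h i +
      q2 L (YY L X w n t i, YY L X w n t (i + 1)) * h (i + 1)) = 0 := by
    obtain ⟨m, hm⟩ : ∃ m, n = m + 1 := ⟨n - 1, by omega⟩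
    have hz := D.WW_zero ht
    have he := D.WW_end ht
    have h0 : h 0 = 0 := by simp only [hh]; rw [hz]; ring
    have h1 : h n = 0 := by
      simp only [hh]; rw [he]; ring
    have hsum := sum_parts (fun i => q1 L (YY L X w n t i, YY L X w n t (i + 1)))
      (fun i => q2 L (YY L X w n t i, YY L X w n t (i + 1))) h m
    rw [← hm, h0, h1, mul_zero, mul_zero, add_zero, zero_add] at hsum
    rw [hsum]
    refine Finset.sum_eq_zero (fun i hi => ?_)
    have hi' := Finset.mem_range.1 hi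
    have h4 := D.EL_zero ht (m := i) (by omega)
    unfold EL at h4
    rw [add_comm] at h4
    unfold YY
    rw [h4, zero_mul]
  have e : (∑ i ∈ Finset.range n, L (XX X w t i, XX X w t (i + 1))) - AA L X w n t =
      ∑ i ∈ Finset.range n, (L (YY L X w n t i + h i, YY L X w n t (i + 1) + h (i + 1)) -
        L (YY L X w n t i, YY L X w n t (i + 1)) -
        (q1 L (YY L X w n t i, YY L X w n t (i + 1)) * h i +
          q2 L (YY L X w n t i, YY L X w n t (i + 1)) * h (i + 1))) := by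
    rw [Finset.sum_sub_distrib, Finset.sum_sub_distrib, hlin, sub_zero]
    unfold AA
    congr 1
    refine Finset.sum_congr rfl (fun i _ => ?_)
    rw [hXY i, hXY (i + 1)]
  rw [e]
  have hbd : ∀ i ∈ Finset.range n, ‖L (YY L X w n t i + h i, YY L X w n t (i + 1) + h (i + 1)) -
        L (YY L X w n t i, YY L X w n t (i + 1)) -
        (q1 L (YY L X w n t i, YY L X w n t (i + 1)) * h i +
          q2 L (YY L X w n t i, YY L X w n t (i + 1)) * h (i + 1))‖ ≤
      K * (101 / 100 * b) ^ 2 := by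
    intro i hi
    have hi' := Finset.mem_range.1 hi
    exact D.tay _ _ _ _ _ (D.YY_Dg ht (by omega)) (hhb i (by omega)) (hhb (i + 1) (by omega))
      (by have := D.b_δ; linarith)
  refine (norm_sum_le _ _).trans ((Finset.sum_le_sum hbd).trans ?_)
  rw [Finset.sum_const, Finset.card_range, nsmul_eq_mul, D.hb]
  have e2 : (n : ℝ) * (K * (101 / 100 * (5 * n ^ 2 / w * ε)) ^ 2) =
    (101 / 100 * 5) ^ 2 * (K * n ^ 5 / w ^ 2 * ε ^ 2) := by
    field_simp
  rw [e2]
  have e3 : 26 * K * n ^ 5 / w ^ 2 * ε ^ 2 = 26 * (K * n ^ 5 / w ^ 2 * ε ^ 2) := by ring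
  rw [e3]
  refine mul_le_mul_of_nonneg_right (by norm_num) (by positivity)

/-- the resonance lemma -/
theorem resonanceB4 : ResonanceB4 := by
  intro ρ₀ ε₀ ε₁ L Ψ hL hε₁ hR
  obtain ⟨K1, r₂, δ₁, -, hr₂, -, hq, -⟩ := hL.exists_bounds
  obtain ⟨K, δ₀, hK1, hδ₀, hlip, htay⟩ := exists_bounds2 hL
  have hρ₀ := hL.ρ_pos
  have hε₀ := hL.ε_pos
  have hK : 0 < K := by linarith
  set c : ℝ := min (min (1 / 40) (ρ₀ / 100)) (min (δ₀ / 10) (1 / (10 + 50 * K))) with hc
  have hc0 : 0 < c := by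
    refine lt_min (lt_min (by norm_num) (by positivity)) (lt_min (by positivity) (by positivity))
  have hc1 : c ≤ 1 / 40 := (min_le_left _ _).trans (min_le_left _ _)
  have hc2 : c ≤ ρ₀ / 100 := (min_le_left _ _).trans (min_le_right _ _)
  have hc3 : c ≤ δ₀ / 10 := (min_le_right _ _).trans (min_le_left _ _)
  have hc4 : c ≤ 1 / (10 + 50 * K) := (min_le_right _ _).trans (min_le_right _ _)
  refine ⟨26 * K, c, min (r₂ / 2) (min (ε₀ / 4) (ε₁ / 2)), by positivity, hc0,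
    lt_min (by positivity) (lt_min (by positivity) (by positivity)), ?_⟩
  intro ρ d w ε n j X hd hdρ hd1 hρ hn hj hw hwr hε hsmall Xd Xper Xre Xid X' XE
  have hnR : (1 : ℝ) ≤ n := by exact_mod_cast hn
  have hjR : (1 : ℝ) ≤ j := by exact_mod_cast hj
  have hn0 : (0 : ℝ) < n := by linarith
  have hwp : 0 < w := by rw [hw]; positivity
  have hw1 : 1 / (n : ℝ) ≤ w := by
    rw [hw]
    exact div_le_div_of_nonneg_right hjR hn0.le
  have hw2 : 1 / w ≤ n := by
    rw [div_le_iff₀ hwp]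
    rw [div_le_iff₀ hn0] at hw1
    linarith
  have hwr2 : w < r₂ / 2 := hwr.trans_le (min_le_left _ _)
  have hwε₀ : w < ε₀ / 4 := hwr.trans_le ((min_le_right _ _).trans (min_le_left _ _))
  have hwε₁ : w < ε₁ / 2 := hwr.trans_le ((min_le_right _ _).trans (min_le_right _ _))
  -- powers of n
  have hsm : (n : ℝ) ^ 6 * ε ≤ c := hsmall.trans (by nlinarith)
  have hpow : ∀ k ≤ 6, (n : ℝ) ^ k * ε ≤ (n : ℝ) ^ 6 * ε := fun k hk =>
    mul_le_mul_of_nonneg_right (pow_le_pow_right₀ hnR hk) hε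
  have h3 : (n : ℝ) ^ 3 * ε ≤ c := (hpow 3 (by norm_num)).trans hsm
  have h4 : (n : ℝ) ^ 4 * ε ≤ c := (hpow 4 (by norm_num)).trans hsm
  have h3d : (n : ℝ) ^ 3 * ε ≤ c * d := (hpow 3 (by norm_num)).trans hsmall
  have hb3 : 5 * (n : ℝ) ^ 2 / w * ε ≤ 5 * (n ^ 3 * ε) := by
    have e : 5 * (n : ℝ) ^ 2 / w * ε = (5 * n ^ 2 * ε) * (1 / w) := by ring
    rw [e]
    calc (5 * (n : ℝ) ^ 2 * ε) * (1 / w) ≤ (5 * n ^ 2 * ε) * n :=
          mul_le_mul_of_nonneg_left hw2 (by positivity)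
      _ = _ := by ring
  have hbw : 5 * (n : ℝ) ^ 2 / w * ε ≤ w / 8 := by
    have h5 : 5 * ((n : ℝ) ^ 3 * ε) ≤ 1 / 8 * (1 / n) := by
      rw [mul_one_div, le_div_iff₀ hn0]
      calc 5 * ((n : ℝ) ^ 3 * ε) * n = 5 * (n ^ 4 * ε) := by ring
        _ ≤ 5 * c := by linarith
        _ ≤ 1 / 8 := by linarith
    linarith
  have D : Dat ρ₀ ε₀ ρ d w ε K δ₀ (5 * n ^ 2 / w * ε) n j L Ψ X := by
    refine { lag := hL, q12 := fun x y hxy h => hq x y hxy (by linarith), lip := hlip,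
             tay := htay, K_pos := hK.le, d_pos := hd, d_lt := hdρ, ρ_le := hρ, n_pos := hn,
             hw := hw, w_pos := hwp, w_lt := by linarith, ε_nn := hε, hb := rfl, b_w := hbw,
             b_ρ := by linarith, b_δ := by linarith, contr := ?_, Xd := Xd, Xper := Xper,
             Xre := Xre, Xid := Xid, X' := X', XE := XE }
    have t1 : 10 * (n : ℝ) ^ 2 / w ≤ 10 * n ^ 3 := by
      have e : 10 * (n : ℝ) ^ 2 / w = (10 * n ^ 2) * (1 / w) := by ring
      rw [e]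
      calc (10 * (n : ℝ) ^ 2) * (1 / w) ≤ (10 * n ^ 2) * n :=
            mul_le_mul_of_nonneg_left hw2 (by positivity)
        _ = _ := by ring
    have t2 : 0 ≤ ε / d + K * (5 * (n ^ 3 * ε)) := by positivity
    have t3 : ε / d + K * (5 * n ^ 2 / w * ε) ≤ ε / d + K * (5 * (n ^ 3 * ε)) := by
      have := mul_le_mul_of_nonneg_left hb3 hK.le
      linarith
    have t4 : 10 * (n : ℝ) ^ 2 / w * (ε / d + K * (5 * n ^ 2 / w * ε)) ≤
        10 * n ^ 3 * (ε / d + K * (5 * (n ^ 3 * ε))) :=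
      (mul_le_mul_of_nonneg_left t3 (by positivity)).trans (mul_le_mul_of_nonneg_right t1 t2)
    refine t4.trans ?_
    have t5 : 10 * (n : ℝ) ^ 3 * (ε / d + K * (5 * (n ^ 3 * ε))) =
        10 * ((n ^ 3 * ε) / d) + 50 * K * (n ^ 6 * ε) := by ring
    rw [t5]
    have t6 : (n : ℝ) ^ 3 * ε / d ≤ c := by rw [div_le_iff₀ hd]; exact h3d
    have t7 : 50 * K * ((n : ℝ) ^ 6 * ε) ≤ 50 * K * c :=
      mul_le_mul_of_nonneg_left hsm (by positivity)
    have t8 : (10 + 50 * K) * c ≤ 1 := by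
      rw [le_div_iff₀ (by positivity)] at hc4
      linarith
    linarith
  obtain ⟨A, hA⟩ := D.AA_const hR (by linarith) hj
  refine ⟨A, fun t ht => ?_⟩
  have h7 := D.AA_sub ht
  rw [hA t ht] at h7
  have e : (∑ i ∈ Finset.range n, L (X (t + i * w), X (t + (i + 1) * w))) =
      ∑ i ∈ Finset.range n, L (XX X w t i, XX X w t (i + 1)) := by
    refine Finset.sum_congr rfl (fun i _ => ?_)
    unfold XX
    push_cast
    rfl
  rw [e]
  exact h7

end Crest.Agent.R102.B540
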