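import Crest.Agent.R102.Sup_821

/-!
Row 102, part (B) (helper821): the billiard Lagrangian near the diagonal, the Euler-Lagrange
function, the single dynamical input `(R*)`, and the exact statement of the resonance lemma B4.
-/

set_option autoImplicit false

open Set Filter Topology Metric Complex MeasureTheory
open scoped Real ContDiff ComplexConjugate

noncomputable section

namespace Crest.Agent.R102.B821

/-- neighbourhood of the diagonal of a strip -/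
def Dg (ρ₀ ε₀ : ℝ) : Set (ℂ × ℂ) := {p | |p.1.im| < ρ₀ ∧ |p.2.im| < ρ₀ ∧ ‖p.2 - p.1‖ < ε₀}

lemma isOpen_Dg (ρ₀ ε₀ : ℝ) : IsOpen (Dg ρ₀ ε₀) := by
  have h1 : IsOpen {p : ℂ × ℂ | |p.1.im| < ρ₀} := isOpen_lt (by fun_prop) continuous_const
  have h2 : IsOpen {p : ℂ × ℂ | |p.2.im| < ρ₀} := isOpen_lt (by fun_prop) continuous_const
  have h3 : IsOpen {p : ℂ × ℂ | ‖p.2 - p.1‖ < ε₀} := isOpen_lt (by fun_prop) continuous_const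
  exact h1.inter (h2.inter h3)

/-- The billiard Lagrangian (arclength minus chord, times 4) in Lazutkin coordinate:
`L(x, y) = (y - x)^3 Ψ(x, y)`, `Ψ` holomorphic near the diagonal of the strip `|Im x| < ρ₀`,
symmetric, 1-periodic, real, `Ψ(x, x) = 1/6`. -/
structure IsLag (ρ₀ ε₀ : ℝ) (L Ψ : ℂ × ℂ → ℂ) : Prop where
  ρ_pos : 0 < ρ₀
  ε_pos : 0 < ε₀
  diff : DifferentiableOn ℂ Ψ (Dg ρ₀ ε₀)
  eq : ∀ x y : ℂ, (x, y) ∈ Dg ρ₀ ε₀ → L (x, y) = (y - x) ^ 3 * Ψ (x, y)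
  diag : ∀ x : ℂ, |x.im| < ρ₀ → Ψ (x, x) = 1 / 6
  symm : ∀ x y : ℂ, (x, y) ∈ Dg ρ₀ ε₀ → Ψ (y, x) = Ψ (x, y)
  per : ∀ x y : ℂ, (x, y) ∈ Dg ρ₀ ε₀ → Ψ (x + 1, y + 1) = Ψ (x, y)
  real : ∀ x y : ℂ, (x, y) ∈ Dg ρ₀ ε₀ → Ψ (conj x, conj y) = conj (Ψ (x, y))
  bdd : ∃ K : ℝ, ∀ p ∈ Dg ρ₀ ε₀, ‖Ψ p‖ ≤ K

/-- Euler-Lagrange function `L_2(x, y) + L_1(y, z)` -/
def EL (L : ℂ × ℂ → ℂ) (x y z : ℂ) : ℂ := q2 L (x, y) + q1 L (y, z)

/-- (R*): every real billiard chain with steps in `(0, ε₁)` which comes back to its starting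
point after `n` steps is closed: the Euler-Lagrange equation also holds at the starting point. -/
def RStar (L : ℂ × ℂ → ℂ) (ε₁ : ℝ) : Prop :=
  ∀ (n j : ℕ) (x : ℕ → ℝ), 1 ≤ n → 1 ≤ j →
    (∀ i < n, 0 < x (i + 1) - x i ∧ x (i + 1) - x i < ε₁) → x n = x 0 + j →
    (∀ i, 1 ≤ i → i < n → EL L (x (i - 1)) (x i) (x (i + 1)) = 0) →
    EL L ((x (n - 1) : ℂ) - j) (x 0) (x 1) = 0

/-- B4, one-variable form (the only place where `(R*)` is used).  `X` is an approximate leaf of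
rotation number `w = j/n` on the complex strip `|Im t| < ρ` with defect `X' E = O(ε)`; then its
action `∑ L(X(t + i w), X(t + (i+1) w))` is constant up to `C n^5 w^{-2} ε²` on `|Im t| < ρ - d`. -/
def ResonanceB4 : Prop :=
  ∀ (ρ₀ ε₀ ε₁ : ℝ) (L Ψ : ℂ × ℂ → ℂ), IsLag ρ₀ ε₀ L Ψ → 0 < ε₁ → RStar L ε₁ →
    ∃ C c r₁ : ℝ, 0 < C ∧ 0 < c ∧ 0 < r₁ ∧
      ∀ (ρ d w ε : ℝ) (n j : ℕ) (X : ℂ → ℂ), 0 < d → d < ρ → d ≤ 1 → ρ ≤ ρ₀ / 2 → 0 < n → 0 < j →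
        w = j / n → w < r₁ → 0 ≤ ε → (n : ℝ) ^ 6 * ε ≤ c * d →
        DifferentiableOn ℂ X {t | |t.im| < ρ} →
        (∀ t : ℂ, |t.im| < ρ → X (t + 1) = X t + 1) →
        (∀ t : ℝ, (X t).im = 0) →
        (∀ t : ℂ, |t.im| < ρ → ‖X t - t‖ ≤ ρ₀ / 8) →
        (∀ t : ℂ, |t.im| < ρ → ‖deriv X t - 1‖ ≤ 1 / 100) →
        (∀ t : ℂ, |t.im| < ρ → ‖deriv X t * EL L (X (t - w)) (X t) (X (t + w))‖ ≤ ε) →
        ∃ A : ℂ, ∀ t : ℂ, |t.im| < ρ - d →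
          ‖(∑ i ∈ Finset.range n, L (X (t + i * w), X (t + (i + 1) * w))) - A‖ ≤
            C * n ^ 5 / w ^ 2 * ε ^ 2

end Crest.Agent.R102.B821
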