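import Crest.Agent.R102.HolA_929
import Crest.Agent.R102.Four_821

/-!
Row 102, leaf (T5) (helper576), part c: exponential decay of the Fourier coefficients of a
1-periodic real function gives a holomorphic extension to a strip.
-/

set_option autoImplicit false

open Set Filter Topology MeasureTheory
open scoped Real ContDiff ComplexConjugate

noncomputable section

namespace Crest.Agent.R102.T5

/-- open strip -/
def Str (η : ℝ) : Set ℂ := {z | |z.im| < η}

lemma isOpen_Str (η : ℝ) : IsOpen (Str η) :=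
  isOpen_lt (by fun_prop) continuous_const

lemma convex_Str (η : ℝ) : Convex ℝ (Str η) := by
  have h1 : Str η = Complex.imLm ⁻¹' (Ioo (-η) η) := by
    ext z
    simp [Str, abs_lt]
  rw [h1]
  exact (convex_Ioo _ _).linear_preimage _

lemma real_mem_Str {η : ℝ} (hη : 0 < η) (x : ℝ) : (x : ℂ) ∈ Str η := by
  simp [Str, hη]

lemma conj_mem_Str {η : ℝ} {z : ℂ} (hz : z ∈ Str η) : conj z ∈ Str η := by
  simpa [Str] using hz

lemma add_one_mem_Str {η : ℝ} {z : ℂ} (hz : z ∈ Str η) : z + 1 ∈ Str η := by
  simpa [Str] using hz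

/-- identity theorem from real points -/
theorem eqOn_of_real {F G : ℂ → ℂ} {U : Set ℂ} (hU : IsOpen U) (hc : IsPreconnected U)
    (hF : DifferentiableOn ℂ F U) (hG : DifferentiableOn ℂ G U) {x₀ : ℝ} (hx₀ : (x₀ : ℂ) ∈ U)
    {δ : ℝ} (hδ : 0 < δ) (h : ∀ x : ℝ, |x - x₀| < δ → (x : ℂ) ∈ U → F x = G x) : EqOn F G U := by
  refine (hF.analyticOnNhd hU).eqOn_of_preconnected_of_frequently_eq (hG.analyticOnNhd hU) hc hx₀ ?_
  have h1 : Tendsto (fun x : ℝ => (x : ℂ)) (𝓝[≠] x₀) (𝓝[≠] (x₀ : ℂ)) := by
    refine tendsto_nhdsWithin_of_tendsto_nhds_of_eventually_within _ ?_ ?_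
    · exact (Complex.continuous_ofReal.tendsto x₀).mono_left nhdsWithin_le_nhds
    · filter_upwards [self_mem_nhdsWithin] with x hx
      simpa using hx
  refine h1.frequently (Eventually.frequently ?_)
  have h2 : ∀ᶠ x : ℝ in 𝓝 x₀, (x : ℂ) ∈ U :=
    Complex.continuous_ofReal.continuousAt.eventually (hU.mem_nhds hx₀)
  have h3 : ∀ᶠ x : ℝ in 𝓝 x₀, |x - x₀| < δ := by
    have := Metric.ball_mem_nhds x₀ hδ
    filter_upwards [this] with x hx
    rwa [Metric.mem_ball, Real.dist_eq] at hx
  filter_upwards [nhdsWithin_le_nhds h2, nhdsWithin_le_nhds h3] with x hx hx'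
  exact h x hx' hx

theorem eqOn_Str {F G : ℂ → ℂ} {η : ℝ} (hη : 0 < η)
    (hF : DifferentiableOn ℂ F (Str η)) (hG : DifferentiableOn ℂ G (Str η))
    (h : ∀ x : ℝ, F x = G x) : EqOn F G (Str η) :=
  eqOn_of_real (isOpen_Str η) (convex_Str η).isPreconnected hF hG (real_mem_Str hη 0) one_pos
    (fun x _ _ => h x)

/-- reflection of a holomorphic function -/
lemma differentiableOn_reflect {F : ℂ → ℂ} {U : Set ℂ} (hU : IsOpen U)
    (hF : DifferentiableOn ℂ F U) (hc : ∀ z ∈ U, conj z ∈ U) :
    DifferentiableOn ℂ (fun z => conj (F (conj z))) U := by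
  intro z hz
  have h1 : DifferentiableAt ℂ F (conj z) := hF.differentiableAt (hU.mem_nhds (hc z hz))
  have h2 : DifferentiableAt ℂ (star ∘ F ∘ star) (star (conj z)) := h1.star_star
  have h3 : star (conj z) = z := star_star z
  rw [h3] at h2
  exact h2.differentiableWithinAt

/-- exponential decay of Fourier coefficients gives a holomorphic extension -/
theorem analytic_ext {f : ℝ → ℝ} (hf : Continuous f) (hper : ∀ x, f (x + 1) = f x) {C a : ℝ}
    (ha : 0 < a)
    (hc : ∀ k : ℤ, ‖∫ x in (0 : ℝ)..1, (f x : ℂ) * A929.ee (-(k * x))‖ ≤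
      C * Real.exp (-(a * |(k : ℝ)|))) :
    ∃ Q : ℂ → ℂ, DifferentiableOn ℂ Q (Str (a / (2 * π))) ∧ ∀ x : ℝ, Q x = f x := by
  set c : ℤ → ℂ := fun k => ∫ x in (0 : ℝ)..1, (f x : ℂ) * A929.ee (-(k * x)) with hcdef
  have hC : 0 ≤ C := by
    have := hc 0
    simp only [Int.cast_zero, abs_zero, mul_zero, neg_zero, Real.exp_zero, mul_one] at this
    exact (norm_nonneg _).trans this
  have hpi := Real.pi_pos
  refine ⟨fun z => ∑' k : ℤ, c k * A929.ee (k * z), ?_, ?_⟩
  · -- differentiability
    intro z hz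
    have hz' : |z.im| < a / (2 * π) := hz
    obtain ⟨η, h1, h2⟩ := exists_between hz'
    have hη : 0 < η := (abs_nonneg _).trans_lt h1
    rw [lt_div_iff₀ (by positivity)] at h2
    have hU := isOpen_Str η
    have hs : 0 < a - η * (2 * π) := by linarith
    have hd : DifferentiableOn ℂ (fun z => ∑' k : ℤ, c k * A929.ee (k * z)) (Str η) := by
      refine Complex.differentiableOn_tsum_of_summable_norm
        (u := fun k : ℤ => C * Real.exp (-((a - η * (2 * π)) * |(k : ℝ)|)))
        ((B821.summable_exp_abs hs).mul_left C) (fun k => ?_) hU (fun k w hw => ?_)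
      · exact ((A929.differentiable_ee.comp (by fun_prop)).const_mul _).differentiableOn
      · have hw' : |w.im| < η := hw
        rw [norm_mul, A929.norm_ee]
        have h3 : -(2 * π * ((k : ℂ) * w).im) ≤ η * (2 * π) * |(k : ℝ)| := by
          have h4 : ((k : ℂ) * w).im = k * w.im := by simp
          rw [h4]
          have h5 : -((k : ℝ) * w.im) ≤ |(k : ℝ)| * |w.im| := by
            rw [← abs_mul]; exact neg_le_abs _
          have h6 : |(k : ℝ)| * |w.im| ≤ |(k : ℝ)| * η :=
            mul_le_mul_of_nonneg_left hw'.le (abs_nonneg _)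
          nlinarith
        calc ‖c k‖ * Real.exp (-(2 * π * ((k : ℂ) * w).im))
            ≤ (C * Real.exp (-(a * |(k : ℝ)|))) * Real.exp (η * (2 * π) * |(k : ℝ)|) :=
              mul_le_mul (hc k) (Real.exp_le_exp.2 h3) (Real.exp_nonneg _) (by positivity)
          _ = C * Real.exp (-((a - η * (2 * π)) * |(k : ℝ)|)) := by
              rw [mul_assoc, ← Real.exp_add]
              congr 2
              ring
    exact (hd.differentiableAt (hU.mem_nhds h1)).differentiableWithinAt
  · -- values on the real line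
    intro x
    set φ : ℝ → ℂ := fun x => (f x : ℂ) with hφ
    have hφc : Continuous φ := by fun_prop
    have hφp : Function.Periodic φ 1 := by
      intro x
      simp only [hφ]
      rw [hper]
    let F : C(AddCircle (1 : ℝ), ℂ) := ⟨hφp.lift, by
      exact continuous_coinduced_dom.mpr hφc⟩
    have hFapp : ∀ x : ℝ, F (x : AddCircle (1 : ℝ)) = φ x := fun x => rfl
    have hcoef : ∀ n : ℤ, fourierCoeff F n = c n := by
      intro n
      rw [fourierCoeff_eq_intervalIntegral F n 0]
      simp only [one_div, inv_one, one_smul, zero_add]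
      refine intervalIntegral.integral_congr (fun x _ => ?_)
      rw [fourier_coe_apply, hFapp, smul_eq_mul, mul_comm]
      change φ x * _ = φ x * _
      congr 1
      unfold A929.ee
      congr 1
      push_cast
      ring
    have hsum : Summable (fourierCoeff F) := by
      refine Summable.of_norm_bounded
        (g := fun n : ℤ => C * Real.exp (-(a * |(n : ℝ)|)))
        ((B821.summable_exp_abs ha).mul_left C) (fun n => ?_)
      rw [hcoef]
      exact hc n
    have h8 := has_pointwise_sum_fourier_series_of_summable hsum (x : AddCircle (1 : ℝ))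
    have h10 : (fun n : ℤ => c n * A929.ee (n * x)) =
        fun n : ℤ => fourierCoeff F n • fourier n (x : AddCircle (1 : ℝ)) := by
      ext n
      rw [hcoef, fourier_coe_apply, smul_eq_mul]
      congr 1
      unfold A929.ee
      congr 1
      push_cast
      ring
    rw [← h10] at h8
    exact h8.tsum_eq

/-- projection onto a closed strip -/
def clip (η : ℝ) (z : ℂ) : ℂ := (z.re : ℂ) + ((max (-η) (min η z.im) : ℝ) : ℂ) * Complex.I

lemma continuous_clip (η : ℝ) : Continuous (clip η) := by
  unfold clip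
  fun_prop

lemma clip_im (η : ℝ) (z : ℂ) : (clip η z).im = max (-η) (min η z.im) := by
  simp [clip]

lemma clip_mem {η η' : ℝ} (hη : 0 ≤ η) (h : η < η') (z : ℂ) : clip η z ∈ Str η' := by
  change |(clip η z).im| < η'
  rw [clip_im, abs_lt]
  constructor
  · have := le_max_left (-η) (min η z.im); linarith
  · refine (max_le (by linarith) (min_le_left _ _)).trans_lt h

lemma clip_eq {η : ℝ} {z : ℂ} (hz : |z.im| ≤ η) : clip η z = z := by
  rw [abs_le] at hz
  apply Complex.ext
  · simp [clip]
  · rw [clip_im, min_eq_right hz.2, max_eq_right hz.1]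

/-- a globally continuous function which agrees with `Q` on a closed strip -/
theorem exists_cont_ext {Q : ℂ → ℂ} {η η' : ℝ} (hη : 0 ≤ η) (h : η < η')
    (hQ : DifferentiableOn ℂ Q (Str η')) :
    ∃ q : C(ℂ, ℂ), ∀ z : ℂ, |z.im| ≤ η → q z = Q z := by
  refine ⟨⟨fun z => Q (clip η z), ?_⟩, fun z hz => ?_⟩
  · exact hQ.continuousOn.comp_continuous (continuous_clip η) (fun z => clip_mem hη h z)
  · change Q (clip η z) = Q z
    rw [clip_eq hz]

/-- a real 1-periodic function with exponentially decaying Fourier coefficients has an extension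
`q : C(ℂ, ℂ)` which is holomorphic, 1-periodic and real on an open strip -/
theorem exists_q {f : ℝ → ℝ} (hf : Continuous f) (hper : ∀ x, f (x + 1) = f x) {C a : ℝ}
    (ha : 0 < a)
    (hc : ∀ k : ℤ, ‖∫ x in (0 : ℝ)..1, (f x : ℂ) * A929.ee (-(k * x))‖ ≤
      C * Real.exp (-(a * |(k : ℝ)|))) :
    ∃ (q : C(ℂ, ℂ)) (η : ℝ), 0 < η ∧ DifferentiableOn ℂ q (Str η) ∧ (∀ x : ℝ, q x = f x) ∧
      (∀ z ∈ Str η, q (z + 1) = q z) ∧ ∀ z ∈ Str η, q (conj z) = conj (q z) := by
  obtain ⟨Q, hQ, hQr⟩ := analytic_ext hf hper ha hc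
  have hpi := Real.pi_pos
  have ha' : 0 < a / (2 * π) := by positivity
  obtain ⟨η, hη, hη'⟩ := exists_between ha'
  obtain ⟨q, hq⟩ := exists_cont_ext hη.le hη' hQ
  have hd : DifferentiableOn ℂ q (Str η) := by
    refine (hQ.mono (fun z hz => lt_trans hz hη')).congr (fun z hz => hq z (le_of_lt hz))
  have hqr : ∀ x : ℝ, q x = f x := fun x => by rw [hq _ (by simpa using hη.le), hQr]
  refine ⟨q, η, hη, hd, hqr, ?_, ?_⟩
  · have h1 : EqOn (fun z => q (z + 1)) q (Str η) := by
      refine eqOn_Str hη ?_ hd (fun x => ?_)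
      · exact hd.comp (by fun_prop) (fun z hz => add_one_mem_Str hz)
      · have : (x : ℂ) + 1 = ((x + 1 : ℝ) : ℂ) := by push_cast; rfl
        change q ((x : ℂ) + 1) = q x
        rw [this, hqr, hqr, hper]
    exact h1
  · have h1 : EqOn (fun z => conj (q (conj z))) q (Str η) := by
      refine eqOn_Str hη (differentiableOn_reflect (isOpen_Str η) hd (fun z hz => conj_mem_Str hz))
        hd (fun x => ?_)
      rw [Complex.conj_ofReal, hqr, Complex.conj_ofReal]
    intro z hz
    have h2 := h1 hz
    simp only at h2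
    rw [← h2, starRingEnd_self_apply]

end Crest.Agent.R102.T5
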