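import Crest.Agent.R102.T5b_576
import Crest.Agent.R102.T5c_576
import Crest.Agent.R102.Lag_821
import Crest.Agent.R266.SCV

/-!
Row 102, leaf (T5) (helper576), part d: for `q` holomorphic on a strip, real and 1-periodic, the
billiard Lagrangian `L(x, y) = (y - x)^3 Ψ(x, y)` is a Lagrangian in the sense of `Lag_821`
(`IsLag`), and `RStarP q` gives `RStar L`.
-/

set_option autoImplicit false

open Set Filter Topology MeasureTheory
open scoped Real ContDiff ComplexConjugate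

noncomputable section

namespace Crest.Agent.R102.T5

open Crest.Agent.R102.A929 (ofR Pq EP Xq dq LocQ IsAct RStarP exists_locQ AA AA.ext'
  dq_apply Qf Qf_zero Xq_zero)
open Crest.Agent.R102.G576
open Crest.Agent.R102.B821 (IsLag RStar EL Dg isOpen_Dg)

/-! ### bounds on strips -/

lemma exists_bound_Str {G : ℂ → ℂ} {η η' : ℝ} (h : η' < η) (hG : ContinuousOn G (Str η))
    (hper : ∀ z ∈ Str η, G (z + 1) = G z) : ∃ B : ℝ, 0 < B ∧ ∀ z : ℂ, |z.im| ≤ η' → ‖G z‖ ≤ B := by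
  have hK : IsCompact (Icc (0 : ℝ) 1 ×ℂ Icc (-η') η') := isCompact_Icc.reProdIm isCompact_Icc
  obtain ⟨B, hB⟩ := hK.exists_bound_of_continuousOn (hG.mono (fun z hz => by
    rw [Complex.mem_reProdIm] at hz
    change |z.im| < η
    rw [abs_lt]
    exact ⟨by linarith [hz.2.1], by linarith [hz.2.2]⟩))
  refine ⟨max B 1, lt_of_lt_of_le one_pos (le_max_right _ _), fun z hz => ?_⟩
  have hn : ∀ (n : ℕ) (z : ℂ), |z.im| < η → G (z + n) = G z := by
    intro n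
    induction n with
    | zero => intro z _; simp
    | succ n ih =>
      intro z hz
      have : z + ((n + 1 : ℕ) : ℂ) = (z + n) + 1 := by push_cast; ring
      rw [this, hper (z + n) (by simpa [Str] using hz), ih z hz]
  have hz' : |(z - (⌊z.re⌋ : ℂ)).im| < η := by
    simpa using hz.trans_lt h
  have hzint : G (z - (⌊z.re⌋ : ℂ)) = G z := by
    rcases le_total 0 ⌊z.re⌋ with h0 | h0
    · obtain ⟨n, hn'⟩ := Int.eq_ofNat_of_zero_le h0
      have := hn n (z - (⌊z.re⌋ : ℂ)) hz'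
      rw [hn'] at this ⊢
      rw [← this]
      congr 1
      push_cast
      ring
    · obtain ⟨n, hn'⟩ := Int.exists_eq_neg_ofNat h0
      have := hn n z (hz.trans_lt h)
      rw [hn']
      rw [← this]
      congr 1
      push_cast
      ring
  rw [← hzint]
  refine (hB _ ?_).trans (le_max_left _ _)
  rw [Complex.mem_reProdIm]
  rw [abs_le] at hz
  simp only [Complex.sub_re, Complex.intCast_re, Complex.sub_im, Complex.intCast_im, sub_zero]
  refine ⟨⟨by linarith [Int.floor_le z.re], by linarith [Int.lt_floor_add_one z.re]⟩, hz⟩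

/-! ### holomorphy of `Xq` -/

section

variable {q : C(ℂ, ℂ)} {η : ℝ}

/-- pairs `(x, e)` with `x`, `x + e` in the strip -/
def SE (η : ℝ) : Set (ℂ × ℂ) := {p | p.1 ∈ Str η ∧ p.1 + p.2 ∈ Str η}

lemma isOpen_SE (η : ℝ) : IsOpen (SE η) :=
  ((isOpen_Str η).preimage continuous_fst).inter
    ((isOpen_Str η).preimage (continuous_fst.add continuous_snd))

lemma seg_mem_Str {x e : ℂ} (hx : x ∈ Str η) (hxe : x + e ∈ Str η) {r : ℝ} (h0 : 0 ≤ r)
    (h1 : r ≤ 1) : x + e * (r : ℂ) ∈ Str η := by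
  have h2 := convex_Str η hx hxe (a := 1 - r) (b := r) (by linarith) h0 (by ring)
  have h3 : (1 - r) • x + r • (x + e) = x + e * (r : ℂ) := by
    rw [Complex.real_smul, Complex.real_smul]
    push_cast
    ring
  rwa [h3] at h2

theorem differentiableOn_dq (hd : DifferentiableOn ℂ q (Str η)) :
    DifferentiableOn ℂ (fun p : ℂ × ℂ => dq q p.1 p.2) (SE η) := by
  have hc : ContinuousOn (fun p : (ℂ × ℂ) × unitInterval =>
      q (p.1.1 + p.1.2 * (((p.2 : unitInterval) : ℝ) : ℂ)) - q p.1.1) (SE η ×ˢ univ) := by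
    apply Continuous.continuousOn
    fun_prop
  have h1 := R266.SCV.analyticOnNhd_fam (E := ℂ × ℂ) (K := unitInterval) (isOpen_SE η) hc
    (fun k x hx v => by
      have hm : x.1 + x.2 * (((k : unitInterval) : ℝ) : ℂ) ∈ Str η :=
        seg_mem_Str hx.1 hx.2 k.2.1 k.2.2
      have d1 : DifferentiableAt ℂ q (x.1 + x.2 * (((k : unitInterval) : ℝ) : ℂ)) :=
        hd.differentiableAt ((isOpen_Str η).mem_nhds hm)
      have d2 : DifferentiableAt ℂ q x.1 := hd.differentiableAt ((isOpen_Str η).mem_nhds hx.1)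
      refine DifferentiableAt.sub ?_ ?_
      · refine DifferentiableAt.comp (g := q) (f := fun z : ℂ => (x + z • v).1 + (x + z • v).2 *
          (((k : unitInterval) : ℝ) : ℂ)) 0 ?_ ?_
        · simpa using d1
        · simp only [Prod.fst_add, Prod.smul_fst, Prod.snd_add, Prod.smul_snd, smul_eq_mul]
          fun_prop
      · refine DifferentiableAt.comp (g := q) (f := fun z : ℂ => (x + z • v).1) 0 ?_ ?_
        · simpa using d2
        · simp only [Prod.fst_add, Prod.smul_fst, smul_eq_mul]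
          fun_prop)
  have h2 : (fun p : ℂ × ℂ => dq q p.1 p.2) = (R266.SCV.fam (fun p : (ℂ × ℂ) × unitInterval =>
      q (p.1.1 + p.1.2 * (((p.2 : unitInterval) : ℝ) : ℂ)) - q p.1.1) : ℂ × ℂ → C(unitInterval, ℂ)) := by
    funext p
    refine AA.ext' (fun r => ?_)
    rw [dq_apply]
    unfold R266.SCV.fam
    change _ = (ContinuousMap.mkD (fun k : unitInterval => q (p.1 + p.2 * (((k : unitInterval) : ℝ) : ℂ)) -
      q p.1) 0) r
    rw [ContinuousMap.mkD_apply_of_continuous]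
    fun_prop
  rw [h2]
  exact h1.differentiableOn

theorem differentiableOn_Xq (hd : DifferentiableOn ℂ q (Str η)) :
    DifferentiableOn ℂ (fun p : ℂ × ℂ => Xq q p.1 p.2) (SE η) := by
  intro p hp
  have h1 : DifferentiableAt ℂ (fun p : ℂ × ℂ => dq q p.1 p.2) p :=
    (differentiableOn_dq hd).differentiableAt ((isOpen_SE η).mem_nhds hp)
  have h2 : DifferentiableAt ℂ (fun p : ℂ × ℂ => q p.1) p :=
    (hd.differentiableAt ((isOpen_Str η).mem_nhds hp.1)).comp p differentiableAt_fst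
  exact (h1.prodMk (differentiableAt_snd.mul h2.cexp)).differentiableWithinAt

theorem exists_small_Str (hd : DifferentiableOn ℂ q (Str η))
    (hper : ∀ z ∈ Str η, q (z + 1) = q z) {ρ₀ ρ : ℝ} (h : ρ₀ < η) (hρ : 0 < ρ) :
    ∃ ε₀ : ℝ, 0 < ε₀ ∧ ∀ x e : ℂ, x ∈ Str ρ₀ → x + e ∈ Str ρ₀ → ‖e‖ < ε₀ → ‖Xq q x e‖ < ρ := by
  obtain ⟨B0, hB0, hb0⟩ := exists_bound_Str h hd.continuousOn hper
  have hd1 : DifferentiableOn ℂ (deriv q) (Str η) := hd.deriv (isOpen_Str η)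
  obtain ⟨B1, hB1, hb1⟩ := exists_bound_Str h hd1.continuousOn (fun z hz => by
    have h1 : (fun w => q (w + 1)) =ᶠ[𝓝 z] q := by
      filter_upwards [(isOpen_Str η).mem_nhds hz] with w hw
      exact hper w hw
    have h2 := h1.deriv_eq
    rw [deriv_comp_add_const] at h2
    exact h2)
  have hlip : ∀ x ∈ Str ρ₀, ∀ y ∈ Str ρ₀, ‖q y - q x‖ ≤ B1 * ‖y - x‖ := by
    intro x hx y hy
    refine Convex.norm_image_sub_le_of_norm_deriv_le (𝕜 := ℂ) (f := q) (s := Str ρ₀)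
      (fun z hz => ?_) (fun z hz => hb1 z (le_of_lt hz)) (convex_Str ρ₀) hx hy
    exact hd.differentiableAt ((isOpen_Str η).mem_nhds (lt_trans hz h))
  refine ⟨ρ / (B1 + Real.exp B0), by positivity, fun x e hx hxe he => ?_⟩
  have h1 : ‖dq q x e‖ ≤ B1 * ‖e‖ := by
    refine (A929.AA.norm_le (by positivity)).2 (fun r => ?_)
    rw [dq_apply]
    have hm := seg_mem_Str hx hxe r.2.1 r.2.2
    refine (hlip x hx _ hm).trans ?_
    refine mul_le_mul_of_nonneg_left ?_ hB1.le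
    rw [add_sub_cancel_left, norm_mul, Complex.norm_real, Real.norm_of_nonneg r.2.1]
    exact mul_le_of_le_one_right (norm_nonneg _) r.2.2
  have h2 : ‖e * Complex.exp (q x)‖ ≤ Real.exp B0 * ‖e‖ := by
    rw [norm_mul, mul_comm, Complex.norm_exp]
    refine mul_le_mul_of_nonneg_right ?_ (norm_nonneg _)
    exact Real.exp_le_exp.2 ((Complex.re_le_norm _).trans (hb0 x (le_of_lt hx)))
  have h3 : ‖Xq q x e‖ = max ‖dq q x e‖ ‖e * Complex.exp (q x)‖ := rfl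
  have h4 : (B1 + Real.exp B0) * ‖e‖ < ρ := by
    rw [lt_div_iff₀ (by positivity)] at he
    linarith
  have h5 := norm_nonneg e
  have h6 := Real.exp_pos B0
  rw [h3]
  refine max_lt ?_ ?_ <;> nlinarith

/-! ### the Lagrangian -/

/-- `Ψ(x, y) = 4 ∫_0^1 r^2 Qf(Xq q (x + r e) (-r e)) dr`, `e = y - x` -/
def Psq (q : C(ℂ, ℂ)) (p : ℂ × ℂ) : ℂ :=
  4 * ∫ r in (0 : ℝ)..1, (r : ℂ) ^ 2 * Qf (Xq q (p.1 + r * (p.2 - p.1)) (-(r * (p.2 - p.1))))

/-- the billiard Lagrangian, `4 (arc - chord)` -/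
def Lq (q : C(ℂ, ℂ)) (p : ℂ × ℂ) : ℂ := (p.2 - p.1) ^ 3 * Psq q p

/-- data for the construction of the Lagrangian -/
structure Sml (q : C(ℂ, ℂ)) (ρ C η ρ₀ ε₀ : ℝ) : Prop where
  loc : LocQ ρ C
  ρ_pos : 0 < ρ₀
  lt : ρ₀ < η
  ε_pos : 0 < ε₀
  hd : DifferentiableOn ℂ q (Str η)
  per : ∀ z ∈ Str η, q (z + 1) = q z
  real : ∀ x : ℝ, (q x).im = 0
  sm : ∀ x e : ℂ, x ∈ Str ρ₀ → x + e ∈ Str ρ₀ → ‖e‖ < ε₀ → ‖Xq q x e‖ < ρ

variable {ρ C ρ₀ ε₀ : ℝ}

/-- the domain of `Qf ∘ Xq` -/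
def SEe (ρ₀ ε₀ : ℝ) : Set (ℂ × ℂ) := {p | p ∈ SE ρ₀ ∧ ‖p.2‖ < ε₀}

lemma isOpen_SEe (ρ₀ ε₀ : ℝ) : IsOpen (SEe ρ₀ ε₀) := by
  have h1 : IsOpen {p : ℂ × ℂ | ‖p.2‖ < ε₀} := isOpen_lt (by fun_prop) continuous_const
  exact (isOpen_SE ρ₀).inter h1

lemma Sml.diff (h : Sml q ρ C η ρ₀ ε₀) :
    DifferentiableOn ℂ (fun p : ℂ × ℂ => Qf (Xq q p.1 p.2)) (SEe ρ₀ ε₀) := by
  intro p hp
  have h1 : p ∈ SE η := ⟨lt_trans hp.1.1 h.lt, lt_trans hp.1.2 h.lt⟩
  have h2 : DifferentiableAt ℂ (fun p : ℂ × ℂ => Xq q p.1 p.2) p :=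
    (differentiableOn_Xq h.hd).differentiableAt ((isOpen_SE η).mem_nhds h1)
  have h3 : DifferentiableAt ℂ Qf (Xq q p.1 p.2) :=
    (h.loc.an _ (h.sm _ _ hp.1.1 hp.1.2 hp.2)).differentiableAt
  exact (DifferentiableAt.comp (g := Qf) (f := fun p : ℂ × ℂ => Xq q p.1 p.2) p h3
    h2).differentiableWithinAt

lemma seg_SEe {x y : ℂ} (h : (x, y) ∈ Dg ρ₀ ε₀) {r : ℝ} (h0 : 0 ≤ r) (h1 : r ≤ 1) :
    (x + r * (y - x), -(r * (y - x))) ∈ SEe ρ₀ ε₀ := by
  have hx : x ∈ Str ρ₀ := h.1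
  have hy : y ∈ Str ρ₀ := h.2.1
  have hxy : ‖y - x‖ < ε₀ := h.2.2
  refine ⟨⟨?_, ?_⟩, ?_⟩
  · have := seg_mem_Str (x := x) (e := y - x) hx (by rwa [add_sub_cancel]) h0 h1
    simp only
    rwa [mul_comm]
  · simp only
    rw [add_neg_cancel_right]
    exact hx
  · simp only
    rw [norm_neg, norm_mul, Complex.norm_real, Real.norm_of_nonneg h0]
    exact (mul_le_of_le_one_left (norm_nonneg _) h1).trans_lt hxy

lemma Sml.diff_Psq (h : Sml q ρ C η ρ₀ ε₀) : DifferentiableOn ℂ (Psq q) (Dg ρ₀ ε₀) := by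
  have hm : MapsTo (fun p : (ℂ × ℂ) × ℝ =>
      ((p.1.1 + p.2 * (p.1.2 - p.1.1), -(p.2 * (p.1.2 - p.1.1))) : ℂ × ℂ))
      (Dg ρ₀ ε₀ ×ˢ uIcc 0 1) (SEe ρ₀ ε₀) := by
    intro p hp
    have h2 := hp.2
    rw [uIcc_of_le zero_le_one] at h2
    exact seg_SEe (x := p.1.1) (y := p.1.2) hp.1 h2.1 h2.2
  have hc : ContinuousOn (fun p : (ℂ × ℂ) × ℝ => (p.2 : ℂ) ^ 2 *
      Qf (Xq q (p.1.1 + p.2 * (p.1.2 - p.1.1)) (-(p.2 * (p.1.2 - p.1.1)))))
      (Dg ρ₀ ε₀ ×ˢ uIcc 0 1) := by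
    refine ContinuousOn.mul (by fun_prop) ?_
    exact h.diff.continuousOn.comp (f := fun p : (ℂ × ℂ) × ℝ =>
      ((p.1.1 + p.2 * (p.1.2 - p.1.1), -(p.2 * (p.1.2 - p.1.1))) : ℂ × ℂ)) (by fun_prop) hm
  have h1 := R266.SCV.analyticOnNhd_intervalIntegral (E := ℂ × ℂ) (isOpen_Dg ρ₀ ε₀) hc
    (fun t ht => by
      refine (differentiableOn_const ((t : ℂ) ^ 2)).mul ?_
      exact h.diff.comp (f := fun p : ℂ × ℂ =>
        ((p.1 + t * (p.2 - p.1), -(t * (p.2 - p.1))) : ℂ × ℂ)) (by fun_prop)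
        (fun p hp => hm (show (p, t) ∈ Dg ρ₀ ε₀ ×ˢ uIcc 0 1 from ⟨hp, ht⟩)))
  exact (h1.differentiableOn).const_mul 4

lemma Sml.norm_Psq (h : Sml q ρ C η ρ₀ ε₀) {p : ℂ × ℂ} (hp : p ∈ Dg ρ₀ ε₀) :
    ‖Psq q p‖ ≤ 4 * C := by
  unfold Psq
  rw [norm_mul]
  have h1 := intervalIntegral.norm_integral_le_of_norm_le_const
    (f := fun r : ℝ => (r : ℂ) ^ 2 * Qf (Xq q (p.1 + r * (p.2 - p.1)) (-(r * (p.2 - p.1)))))
    (a := 0) (b := 1) (C := C) (fun r hr => by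
      rw [uIoc_of_le zero_le_one] at hr
      have hm := seg_SEe (x := p.1) (y := p.2) hp hr.1.le hr.2
      have h2 := h.loc.bd _ (h.sm _ _ hm.1.1 hm.1.2 hm.2)
      rw [norm_mul, norm_pow, Complex.norm_real, Real.norm_of_nonneg hr.1.le]
      have h3 : r ^ 2 ≤ 1 := pow_le_one₀ hr.1.le hr.2
      have h4 := norm_nonneg (Qf (Xq q (p.1 + r * (p.2 - p.1)) (-(r * (p.2 - p.1)))))
      calc r ^ 2 * ‖Qf (Xq q (p.1 + r * (p.2 - p.1)) (-(r * (p.2 - p.1))))‖
          ≤ 1 * ‖Qf (Xq q (p.1 + r * (p.2 - p.1)) (-(r * (p.2 - p.1))))‖ :=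
            mul_le_mul_of_nonneg_right h3 h4
        _ ≤ C := by rw [one_mul]; exact h2)
  simp only [sub_zero, abs_one, mul_one] at h1
  have h5 : ‖(4 : ℂ)‖ = 4 := by norm_num
  rw [h5]
  linarith

lemma Psq_diag (x : ℂ) : Psq q (x, x) = 1 / 6 := by
  unfold Psq
  simp only [sub_self, mul_zero, neg_zero, add_zero]
  rw [Xq_zero, Qf_zero, intervalIntegral.integral_mul_const]
  have : ∫ r in (0 : ℝ)..1, (r : ℂ) ^ 2 = 1 / 3 := by
    have h1 : ∀ r : ℝ, (r : ℂ) ^ 2 = ((r ^ 2 : ℝ) : ℂ) := fun r => by push_cast; rfl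
    simp_rw [h1]
    rw [intervalIntegral.integral_ofReal, integral_pow]
    norm_num
  rw [this]
  norm_num

lemma Xq_per (hper : ∀ z ∈ Str η, q (z + 1) = q z) {x e : ℂ} (hx : x ∈ Str η)
    (hxe : x + e ∈ Str η) : Xq q (x + 1) e = Xq q x e := by
  unfold Xq
  rw [hper x hx]
  congr 1
  refine AA.ext' (fun r => ?_)
  rw [dq_apply, dq_apply, hper x hx]
  have h1 := seg_mem_Str hx hxe r.2.1 r.2.2
  have : x + 1 + e * (((r : unitInterval) : ℝ) : ℂ) = (x + e * (((r : unitInterval) : ℝ) : ℂ)) + 1 := by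
    ring
  rw [this, hper _ h1]

lemma Sml.per_Psq (h : Sml q ρ C η ρ₀ ε₀) {x y : ℂ} (hp : (x, y) ∈ Dg ρ₀ ε₀) :
    Psq q (x + 1, y + 1) = Psq q (x, y) := by
  unfold Psq
  congr 1
  refine intervalIntegral.integral_congr (fun r hr => ?_)
  rw [uIcc_of_le zero_le_one] at hr
  simp only
  congr 2
  have hm := seg_SEe hp hr.1 hr.2
  have e1 : x + 1 + (r : ℂ) * (y + 1 - (x + 1)) = (x + r * (y - x)) + 1 := by ring
  have e2 : (r : ℂ) * (y + 1 - (x + 1)) = r * (y - x) := by ring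
  rw [e1, e2]
  exact Xq_per h.per (lt_trans hm.1.1 h.lt) (lt_trans hm.1.2 h.lt)

/-! ### identity theorem on `Dg` from real pairs -/

/-- increments allowed at `x` -/
def Vx (ρ₀ ε₀ : ℝ) (x : ℂ) : Set ℂ := {e | x + e ∈ Str ρ₀ ∧ ‖e‖ < ε₀}

lemma isOpen_Vx (x : ℂ) : IsOpen (Vx ρ₀ ε₀ x) := by
  have h1 : IsOpen {e : ℂ | ‖e‖ < ε₀} := isOpen_lt (by fun_prop) continuous_const
  have h2 : IsOpen {e : ℂ | x + e ∈ Str ρ₀} := (isOpen_Str ρ₀).preimage (by fun_prop)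
  exact h2.inter h1

lemma convex_Vx (x : ℂ) : Convex ℝ (Vx ρ₀ ε₀ x) := by
  have h1 : Vx ρ₀ ε₀ x = ((fun e => x + e) ⁻¹' (Str ρ₀)) ∩ Metric.ball 0 ε₀ := by
    ext e
    simp [Vx]
  rw [h1]
  exact ((convex_Str ρ₀).translate_preimage_right x).inter (convex_ball _ _)

/-- holomorphic along the two families of slices -/
structure SlD (ρ₀ ε₀ : ℝ) (F : ℂ × ℂ → ℂ) : Prop where
  base : ∀ e : ℝ, 0 < e → e < ε₀ → DifferentiableOn ℂ (fun c : ℂ => F (c, c + e)) (Str ρ₀)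
  incr : ∀ x ∈ Str ρ₀, DifferentiableOn ℂ (fun e : ℂ => F (x, x + e)) (Vx ρ₀ ε₀ x)

lemma slD_of_diff {F : ℂ × ℂ → ℂ} (hF : DifferentiableOn ℂ F (Dg ρ₀ ε₀)) : SlD ρ₀ ε₀ F where
  base e he he' := by
    have hmap : MapsTo (fun c : ℂ => ((c, c + e) : ℂ × ℂ)) (Str ρ₀) (Dg ρ₀ ε₀) := by
      intro c hc
      refine ⟨hc, ?_, ?_⟩
      · simpa [Str] using hc
      · simp only [add_sub_cancel_left]
        rw [Complex.norm_real, Real.norm_of_nonneg he.le]
        exact he'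
    have hd : Differentiable ℂ (fun c : ℂ => ((c, c + e) : ℂ × ℂ)) := by fun_prop
    exact hF.comp hd.differentiableOn hmap
  incr x hx := by
    have hmap : MapsTo (fun e : ℂ => ((x, x + e) : ℂ × ℂ)) (Vx ρ₀ ε₀ x) (Dg ρ₀ ε₀) := by
      intro e he
      refine ⟨hx, he.1, ?_⟩
      simp only [add_sub_cancel_left]
      exact he.2
    have hd : Differentiable ℂ (fun e : ℂ => ((x, x + e) : ℂ × ℂ)) := by fun_prop
    exact hF.comp hd.differentiableOn hmap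

lemma differentiableOn_reflect' {F : ℂ → ℂ} {U U' : Set ℂ} (hU : IsOpen U')
    (hF : DifferentiableOn ℂ F U') (hc : ∀ z ∈ U, conj z ∈ U') :
    DifferentiableOn ℂ (fun z => conj (F (conj z))) U := by
  intro z hz
  have h1 : DifferentiableAt ℂ F (conj z) := hF.differentiableAt (hU.mem_nhds (hc z hz))
  have h2 : DifferentiableAt ℂ (star ∘ F ∘ star) (star (conj z)) := h1.star_star
  have h3 : star (conj z) = z := star_star z
  rw [h3] at h2
  exact h2.differentiableWithinAt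

lemma SlD.reflect {F : ℂ × ℂ → ℂ} (hF : SlD ρ₀ ε₀ F) :
    SlD ρ₀ ε₀ (fun p => conj (F (conj p.1, conj p.2))) where
  base e he he' := by
    have h1 := differentiableOn_reflect (isOpen_Str ρ₀) (hF.base e he he')
      (fun z hz => conj_mem_Str hz)
    refine h1.congr (fun c _ => ?_)
    simp only [map_add, Complex.conj_ofReal]
  incr x hx := by
    have h1 := differentiableOn_reflect' (F := fun e => F (conj x, conj x + e))
      (U := Vx ρ₀ ε₀ x) (isOpen_Vx (conj x)) (hF.incr (conj x) (conj_mem_Str hx)) (fun z hz => by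
        refine ⟨?_, ?_⟩
        · rw [← map_add]
          exact conj_mem_Str hz.1
        · rw [Complex.norm_conj]
          exact hz.2)
    refine h1.congr (fun c _ => ?_)
    simp only [map_add]

lemma Dg_ident {F G : ℂ × ℂ → ℂ} (hρ₀ : 0 < ρ₀) (hε₀ : 0 < ε₀)
    (hF : SlD ρ₀ ε₀ F) (hG : SlD ρ₀ ε₀ G)
    (h : ∀ x y : ℝ, x < y → y - x < ε₀ → F (x, y) = G (x, y)) : EqOn F G (Dg ρ₀ ε₀) := by
  have step1 : ∀ e : ℝ, 0 < e → e < ε₀ → ∀ c ∈ Str ρ₀, F (c, c + e) = G (c, c + e) := by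
    intro e he he' c hc
    have := eqOn_Str hρ₀ (hF.base e he he') (hG.base e he he')
      (fun x => by
        have h1 := h x (x + e) (by linarith) (by linarith)
        push_cast at h1
        exact h1) hc
    exact this
  intro p hp
  obtain ⟨x, y⟩ := p
  have hx : x ∈ Str ρ₀ := hp.1
  have hxim : |x.im| < ρ₀ := hp.1
  have hmid : (((ε₀ / 2 : ℝ)) : ℂ) ∈ Vx ρ₀ ε₀ x := by
    refine ⟨?_, ?_⟩
    · simpa [Str] using hxim
    · rw [Complex.norm_real, Real.norm_of_nonneg (by positivity)]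
      linarith
  have h2 := eqOn_of_real (isOpen_Vx x) (convex_Vx x).isPreconnected (hF.incr x hx)
    (hG.incr x hx) (x₀ := ε₀ / 2) hmid (δ := ε₀ / 2) (by positivity)
    (fun e he hev => by
      rw [abs_lt] at he
      exact step1 e (by linarith) (by linarith) x hp.1)
  have h3 : y - x ∈ Vx ρ₀ ε₀ x := by
    refine ⟨?_, hp.2.2⟩
    rw [add_sub_cancel]
    exact hp.2.1
  have h4 := h2 h3
  simp only [add_sub_cancel] at h4
  exact h4

/-! ### real identities -/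

lemma Sml.sm_real (h : Sml q ρ C η ρ₀ ε₀) (x e : ℝ) (he : |e| < ε₀) : ‖Xq q x e‖ < ρ := by
  refine h.sm x e (real_mem_Str h.ρ_pos x) ?_ ?_
  · have : (x : ℂ) + e = ((x + e : ℝ) : ℂ) := by push_cast; rfl
    rw [this]
    exact real_mem_Str h.ρ_pos _
  · rwa [Complex.norm_real, Real.norm_eq_abs]

lemma Sml.act (h : Sml q ρ C η ρ₀ ε₀) : IsAct q ε₀ (Mf q) :=
  isAct_Mf h.loc h.real (fun x => h.per x (real_mem_Str (h.ρ_pos.trans h.lt) x)) h.sm_real

lemma Sml.Pq_real (h : Sml q ρ C η ρ₀ ε₀) (x e : ℝ) (he : |e| < ε₀) :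
    (((Pq q x (e : ℂ)).re : ℝ) : ℂ) = Pq q x e := by
  apply Complex.ext
  · simp
  · rw [Complex.ofReal_im, Pq_im_zero h.real h.loc (h.sm_real x e he)]

lemma real_mem_Dg (h : Sml q ρ C η ρ₀ ε₀) {x y : ℝ} (hxy : |y - x| < ε₀) :
    ((x : ℂ), (y : ℂ)) ∈ Dg ρ₀ ε₀ := by
  refine ⟨real_mem_Str h.ρ_pos x, real_mem_Str h.ρ_pos y, ?_⟩
  simp only
  rw [← Complex.ofReal_sub, Complex.norm_real, Real.norm_eq_abs]
  exact hxy

lemma Sml.cont_int (h : Sml q ρ C η ρ₀ ε₀) {x y : ℂ} (hp : (x, y) ∈ Dg ρ₀ ε₀) :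
    ContinuousOn (fun r : ℝ => (r : ℂ) ^ 2 * Qf (Xq q (x + r * (y - x)) (-(r * (y - x)))))
      (Icc 0 1) := by
  refine ContinuousOn.mul (by fun_prop) ?_
  exact h.diff.continuousOn.comp (f := fun r : ℝ =>
      ((x + r * (y - x), -(r * (y - x))) : ℂ × ℂ)) (by fun_prop)
      (fun r hr => seg_SEe hp hr.1 hr.2)

lemma continuous_Mf : Continuous (fun p : ℝ × ℝ => Mf q p.1 p.2) := by
  have h1 : Continuous (Ar q) := continuous_iff_continuousAt.2
    (fun x => (hasDerivAt_Ar x).continuousAt)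
  have h2 : Continuous (Gc q) := continuous_iff_continuousAt.2
    (fun x => (hasDerivAt_Gc x).continuousAt)
  unfold Mf
  fun_prop

lemma Mf_self (x : ℝ) : Mf q x x = 0 := by simp [Mf]

/-- `L = 4 (arc - chord)`, first form -/
lemma Sml.real1 (h : Sml q ρ C η ρ₀ ε₀) {x y : ℝ} (hxy : x < y) (hxy' : y - x < ε₀) :
    ((4 * Mf q x y : ℝ) : ℂ) = ((y : ℂ) - x) ^ 3 * Psq q (x, y) := by
  have he : 0 < y - x := by linarith
  have hmem := real_mem_Dg h (x := x) (y := y) (by rwa [abs_of_pos he])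
  have hcont := h.cont_int hmem
  have hder : ∀ r ∈ Ioo (0 : ℝ) 1, HasDerivAt (fun r : ℝ => ((Mf q x (x + r * (y - x)) : ℝ) : ℂ))
      (((y : ℂ) - x) ^ 3 * ((r : ℂ) ^ 2 *
        Qf (Xq q (x + r * ((y : ℂ) - x)) (-(r * ((y : ℂ) - x)))))) r := by
    intro r hr
    have hre : 0 < r * (y - x) := mul_pos hr.1 he
    have hre' : r * (y - x) < ε₀ := by nlinarith [hr.2]
    have h1 := h.act.d x (x + r * (y - x)) (by linarith) (by linarith)
    have h2 : HasDerivAt (fun r : ℝ => ((x, x + r * (y - x)) : ℝ × ℝ)) (0, y - x) r := by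
      refine (hasDerivAt_const r x).prodMk ?_
      simpa using ((hasDerivAt_id r).mul_const (y - x)).const_add x
    have h3 := h1.comp_hasDerivAt r h2
    have h4 := h3.ofReal_comp
    refine h4.congr_deriv ?_
    have h5 := h.Pq_real (x + r * (y - x)) (-(r * (y - x))) (by rwa [abs_neg, abs_of_pos hre])
    simp only [add_apply, smul_apply,
      ContinuousLinearMap.coe_fst', ContinuousLinearMap.coe_snd', smul_eq_mul, mul_zero, zero_add]
    have e1 : -((((x + r * (y - x) : ℝ)) : ℂ) - x) = ((-(r * (y - x)) : ℝ) : ℂ) := by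
      push_cast; ring
    rw [e1, Complex.ofReal_mul, h5]
    unfold Pq
    push_cast
    ring
  have hcg : ContinuousOn (fun r : ℝ => ((Mf q x (x + r * (y - x)) : ℝ) : ℂ)) (Icc 0 1) := by
    have := continuous_Mf (q := q)
    have h2 : Continuous (fun r : ℝ => ((x, x + r * (y - x)) : ℝ × ℝ)) := by fun_prop
    exact (Complex.continuous_ofReal.comp (this.comp h2)).continuousOn
  have hint : IntervalIntegrable (fun r : ℝ => ((y : ℂ) - x) ^ 3 * ((r : ℂ) ^ 2 *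
        Qf (Xq q (x + r * ((y : ℂ) - x)) (-(r * ((y : ℂ) - x)))))) volume 0 1 := by
    apply ContinuousOn.intervalIntegrable
    rw [uIcc_of_le zero_le_one]
    exact continuousOn_const.mul hcont
  have h1 := intervalIntegral.integral_eq_sub_of_hasDerivAt_of_le zero_le_one hcg hder hint
  simp only [one_mul, zero_mul, add_zero, add_sub_cancel, Mf_self, Complex.ofReal_zero,
    sub_zero] at h1
  rw [intervalIntegral.integral_const_mul] at h1
  unfold Psq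
  push_cast
  rw [← h1]
  ring

/-- `L = 4 (arc - chord)`, second form -/
lemma Sml.real2 (h : Sml q ρ C η ρ₀ ε₀) {x y : ℝ} (hxy : x < y) (hxy' : y - x < ε₀) :
    ((4 * Mf q x y : ℝ) : ℂ) = ((y : ℂ) - x) ^ 3 * Psq q (y, x) := by
  have he : 0 < y - x := by linarith
  have hmem := real_mem_Dg h (x := y) (y := x) (by rw [abs_sub_comm, abs_of_pos he]; exact hxy')
  have hcont := h.cont_int hmem
  have hder : ∀ r ∈ Ioo (0 : ℝ) 1, HasDerivAt (fun r : ℝ => ((Mf q (y + r * (x - y)) y : ℝ) : ℂ))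
      (((y : ℂ) - x) ^ 3 * ((r : ℂ) ^ 2 *
        Qf (Xq q (y + r * ((x : ℂ) - y)) (-(r * ((x : ℂ) - y)))))) r := by
    intro r hr
    have hre : 0 < r * (y - x) := mul_pos hr.1 he
    have hre' : r * (y - x) < ε₀ := by nlinarith [hr.2]
    have h1 := h.act.d (y + r * (x - y)) y (by linarith) (by linarith)
    have h2 : HasDerivAt (fun r : ℝ => ((y + r * (x - y), y) : ℝ × ℝ)) (x - y, 0) r := by
      refine HasDerivAt.prodMk ?_ (hasDerivAt_const r y)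
      simpa using ((hasDerivAt_id r).mul_const (x - y)).const_add y
    have h3 := h1.comp_hasDerivAt r h2
    have h4 := h3.ofReal_comp
    refine h4.congr_deriv ?_
    have h5 := h.Pq_real (y + r * (x - y)) (-(r * (x - y))) (by
      rw [abs_neg, abs_of_neg (by linarith)]; linarith)
    simp only [add_apply, smul_apply,
      ContinuousLinearMap.coe_fst', ContinuousLinearMap.coe_snd', smul_eq_mul, mul_zero, add_zero]
    have e1 : ((y : ℂ) - ((y + r * (x - y) : ℝ) : ℂ)) = ((-(r * (x - y)) : ℝ) : ℂ) := by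
      push_cast; ring
    rw [e1, Complex.ofReal_mul, Complex.ofReal_neg, h5]
    unfold Pq
    push_cast
    ring
  have hcg : ContinuousOn (fun r : ℝ => ((Mf q (y + r * (x - y)) y : ℝ) : ℂ)) (Icc 0 1) := by
    have := continuous_Mf (q := q)
    have h2 : Continuous (fun r : ℝ => ((y + r * (x - y), y) : ℝ × ℝ)) := by fun_prop
    exact (Complex.continuous_ofReal.comp (this.comp h2)).continuousOn
  have hint : IntervalIntegrable (fun r : ℝ => ((y : ℂ) - x) ^ 3 * ((r : ℂ) ^ 2 *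
        Qf (Xq q (y + r * ((x : ℂ) - y)) (-(r * ((x : ℂ) - y)))))) volume 0 1 := by
    apply ContinuousOn.intervalIntegrable
    rw [uIcc_of_le zero_le_one]
    exact continuousOn_const.mul hcont
  have h1 := intervalIntegral.integral_eq_sub_of_hasDerivAt_of_le zero_le_one hcg hder hint
  simp only [one_mul, zero_mul, add_zero, add_sub_cancel, Mf_self, Complex.ofReal_zero,
    sub_zero] at h1
  rw [intervalIntegral.integral_const_mul] at h1
  unfold Psq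
  push_cast
  rw [← h1]
  ring

/-- symmetry -/
lemma Sml.symm (h : Sml q ρ C η ρ₀ ε₀) {x y : ℂ} (hp : (x, y) ∈ Dg ρ₀ ε₀) :
    Psq q (y, x) = Psq q (x, y) := by
  have hswap : MapsTo (fun p : ℂ × ℂ => ((p.2, p.1) : ℂ × ℂ)) (Dg ρ₀ ε₀) (Dg ρ₀ ε₀) := by
    intro p hp
    refine ⟨hp.2.1, hp.1, ?_⟩
    simp only
    rw [norm_sub_rev]
    exact hp.2.2
  have hd : DifferentiableOn ℂ (fun p : ℂ × ℂ => Psq q (p.2, p.1)) (Dg ρ₀ ε₀) :=
    h.diff_Psq.comp (f := fun p : ℂ × ℂ => ((p.2, p.1) : ℂ × ℂ)) (by fun_prop) hswap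
  have := Dg_ident h.ρ_pos h.ε_pos (slD_of_diff hd) (slD_of_diff h.diff_Psq)
    (fun x y hxy hxy' => by
      have h1 := h.real1 hxy hxy'
      rw [h.real2 hxy hxy'] at h1
      have h2 : ((y : ℂ) - x) ^ 3 ≠ 0 := by
        apply pow_ne_zero
        rw [← Complex.ofReal_sub, Complex.ofReal_ne_zero]
        linarith
      exact mul_left_cancel₀ h2 h1) hp
  exact this

/-- reality -/
lemma Sml.conj (h : Sml q ρ C η ρ₀ ε₀) {x y : ℂ} (hp : (x, y) ∈ Dg ρ₀ ε₀) :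
    Psq q (conj x, conj y) = conj (Psq q (x, y)) := by
  have hs := slD_of_diff h.diff_Psq
  have := Dg_ident h.ρ_pos h.ε_pos hs.reflect hs
    (fun x y hxy hxy' => by
      have h1 := h.real1 hxy hxy'
      have h3 : ((y : ℂ) - x) ≠ 0 := by
        rw [← Complex.ofReal_sub, Complex.ofReal_ne_zero]
        linarith
      have h2 : Psq q (x, y) = ((4 * Mf q x y / (y - x) ^ 3 : ℝ) : ℂ) := by
        push_cast
        rw [eq_div_iff (pow_ne_zero 3 h3)]
        push_cast at h1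
        rw [h1, mul_comm]
      simp only [Complex.conj_ofReal]
      rw [h2, Complex.conj_ofReal]) hp
  simp only at this
  rw [← this, starRingEnd_self_apply]

/-- **(T5)** `L` is a Lagrangian in the sense of part (B) -/
theorem Sml.isLag (h : Sml q ρ C η ρ₀ ε₀) : IsLag ρ₀ ε₀ (Lq q) (Psq q) where
  ρ_pos := h.ρ_pos
  ε_pos := h.ε_pos
  diff := h.diff_Psq
  eq _ _ _ := rfl
  diag x _ := Psq_diag x
  symm _ _ hp := h.symm hp
  per _ _ hp := h.per_Psq hp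
  real _ _ hp := h.conj hp
  bdd := ⟨4 * C, fun _ hp => h.norm_Psq hp⟩

lemma Sml.diff_Lq (h : Sml q ρ C η ρ₀ ε₀) : DifferentiableOn ℂ (Lq q) (Dg ρ₀ ε₀) := by
  have h1 : DifferentiableOn ℂ (fun p : ℂ × ℂ => (p.2 - p.1) ^ 3) (Dg ρ₀ ε₀) := by fun_prop
  exact h1.mul h.diff_Psq

/-- partial derivatives of `L` at real points -/
lemma Sml.fderiv_Lq (h : Sml q ρ C η ρ₀ ε₀) {x y : ℝ} (hxy : x < y) (hxy' : y - x < ε₀) :
    B821.q2 (Lq q) (x, y) = 4 * Pq q y (-((y : ℂ) - x)) ∧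
      B821.q1 (Lq q) (x, y) = -(4 * Pq q x ((y : ℂ) - x)) := by
  have he : 0 < y - x := by linarith
  have hmem := real_mem_Dg h (x := x) (y := y) (by rwa [abs_of_pos he])
  have hL : HasFDerivAt (Lq q) (fderiv ℂ (Lq q) (x, y)) ((x : ℂ), (y : ℂ)) :=
    (h.diff_Lq.differentiableAt ((isOpen_Dg ρ₀ ε₀).mem_nhds hmem)).hasFDerivAt
  have hLr := hL.restrictScalars ℝ
  have hM := h.act.d x y hxy hxy'
  constructor
  · have h1 : HasDerivAt (fun t : ℝ => (((x : ℂ), (t : ℂ)) : ℂ × ℂ)) (0, 1) y := by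
      refine (hasDerivAt_const y (x : ℂ)).prodMk ?_
      exact Complex.ofRealCLM.hasDerivAt
    have h2 := hLr.comp_hasDerivAt y h1
    have h3 : HasDerivAt (fun t : ℝ => ((x, t) : ℝ × ℝ)) (0, 1) y :=
      (hasDerivAt_const y x).prodMk (hasDerivAt_id y)
    have h4 := ((hM.comp_hasDerivAt y h3).const_mul 4).ofReal_comp
    have hev : (Lq q ∘ fun t : ℝ => (((x : ℂ), (t : ℂ)) : ℂ × ℂ)) =ᶠ[𝓝 y]
        fun t : ℝ => ((4 * Mf q x t : ℝ) : ℂ) := by
      have e1 : ∀ᶠ t : ℝ in 𝓝 y, x < t := lt_mem_nhds hxy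
      have e2 : ∀ᶠ t : ℝ in 𝓝 y, t < x + ε₀ := gt_mem_nhds (by linarith)
      filter_upwards [e1, e2] with t h5 h6
      rw [h.real1 h5 (by linarith)]
      rfl
    have h7 := h2.unique (h4.congr_of_eventuallyEq hev)
    have h5 := h.Pq_real y (-(y - x)) (by rw [abs_neg, abs_of_pos he]; exact hxy')
    have e1 : ((-(y - x) : ℝ) : ℂ) = -((y : ℂ) - x) := by push_cast; ring
    rw [e1] at h5
    unfold B821.q2
    have h8 : (fderiv ℂ (Lq q) (x, y)) (0, 1) = ((fderiv ℂ (Lq q) (x, y)).restrictScalars ℝ) (0, 1) :=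
      rfl
    rw [h8, h7]
    simp only [add_apply, smul_apply, ContinuousLinearMap.coe_fst',
      ContinuousLinearMap.coe_snd', smul_eq_mul, mul_zero, zero_add, mul_one]
    rw [Complex.ofReal_mul, h5]
    push_cast
    rfl
  · have h1 : HasDerivAt (fun t : ℝ => (((t : ℂ), (y : ℂ)) : ℂ × ℂ)) (1, 0) x := by
      refine HasDerivAt.prodMk ?_ (hasDerivAt_const x (y : ℂ))
      exact Complex.ofRealCLM.hasDerivAt
    have h2 := hLr.comp_hasDerivAt x h1
    have h3 : HasDerivAt (fun t : ℝ => ((t, y) : ℝ × ℝ)) (1, 0) x :=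
      (hasDerivAt_id x).prodMk (hasDerivAt_const x y)
    have h4 := ((hM.comp_hasDerivAt x h3).const_mul 4).ofReal_comp
    have hev : (Lq q ∘ fun t : ℝ => (((t : ℂ), (y : ℂ)) : ℂ × ℂ)) =ᶠ[𝓝 x]
        fun t : ℝ => ((4 * Mf q t y : ℝ) : ℂ) := by
      have e1 : ∀ᶠ t : ℝ in 𝓝 x, t < y := gt_mem_nhds hxy
      have e2 : ∀ᶠ t : ℝ in 𝓝 x, y - ε₀ < t := lt_mem_nhds (by linarith)
      filter_upwards [e1, e2] with t h5 h6
      rw [h.real1 h5 (by linarith)]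
      rfl
    have h7 := h2.unique (h4.congr_of_eventuallyEq hev)
    have h5 := h.Pq_real x (y - x) (by rw [abs_of_pos he]; exact hxy')
    have e1 : ((y - x : ℝ) : ℂ) = (y : ℂ) - x := by push_cast; ring
    rw [e1] at h5
    unfold B821.q1
    have h8 : (fderiv ℂ (Lq q) (x, y)) (1, 0) = ((fderiv ℂ (Lq q) (x, y)).restrictScalars ℝ) (1, 0) :=
      rfl
    rw [h8, h7]
    simp only [add_apply, smul_apply, ContinuousLinearMap.coe_fst',
      ContinuousLinearMap.coe_snd', smul_eq_mul, mul_zero, add_zero, mul_one]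
    rw [Complex.ofReal_mul, Complex.ofReal_neg, h5]
    push_cast
    ring

lemma Sml.EL_eq (h : Sml q ρ C η ρ₀ ε₀) {a b c : ℝ} (hab : a < b) (hab' : b - a < ε₀)
    (hbc : b < c) (hbc' : c - b < ε₀) : EL (Lq q) a b c = 4 * EP q a b c := by
  unfold EL EP
  rw [(h.fderiv_Lq hab hab').1, (h.fderiv_Lq hbc hbc').2]
  ring

/-- **(T5)** `(R*)` for the Lagrangian -/
theorem Sml.rStar (h : Sml q ρ C η ρ₀ ε₀) {ε₁ : ℝ} (hε : ε₁ ≤ ε₀) (hR : RStarP q ε₁) :
    RStar (Lq q) ε₁ := by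
  intro n j x hn hj hx hxn hlaw
  have h0 := hx 0 (by omega)
  have hl := hx (n - 1) (by omega)
  rw [Nat.sub_add_cancel hn, hxn] at hl
  rw [zero_add] at h0
  have h1 := hR n j x hn hj hx hxn (fun i hi hin => by
    have a1 := hx (i - 1) (by omega)
    have a2 := hx i hin
    rw [Nat.sub_add_cancel hi] at a1
    have h2 := hlaw i hi hin
    rw [h.EL_eq (by linarith) (by linarith) (by linarith) (by linarith)] at h2
    exact (mul_eq_zero.1 h2).resolve_left (by norm_num))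
  have e1 : ((x (n - 1) : ℂ) - j) = ((x (n - 1) - j : ℝ) : ℂ) := by push_cast; rfl
  rw [e1] at h1 ⊢
  rw [h.EL_eq (by linarith) (by linarith) (by linarith) (by linarith), h1, mul_zero]

lemma rStarP_mono {q : C(ℂ, ℂ)} {ε ε' : ℝ} (h : RStarP q ε) (hε : ε' ≤ ε) : RStarP q ε' :=
  fun n j x hn hj hx hxn hlaw =>
    h n j x hn hj (fun i hi => ⟨(hx i hi).1, lt_of_lt_of_le (hx i hi).2 hε⟩) hxn hlaw

lemma EP_congr {q q' : C(ℂ, ℂ)} (h : ∀ x : ℝ, q' x = q x) (a b c : ℝ) :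
    EP q' a b c = EP q a b c := by
  have e1 : -((b : ℂ) - a) = ((-(b - a) : ℝ) : ℂ) := by push_cast; ring
  have e2 : (c : ℂ) - b = ((c - b : ℝ) : ℂ) := by push_cast; ring
  unfold EP Pq
  rw [e1, e2, Xq_congr h, Xq_congr h]

lemma rStarP_congr {q q' : C(ℂ, ℂ)} {ε : ℝ} (h : RStarP q ε) (hq : ∀ x : ℝ, q' x = q x) :
    RStarP q' ε := by
  intro n j x hn hj hx hxn hlaw
  have h1 := h n j x hn hj hx hxn (fun i hi hin => by rw [← EP_congr hq]; exact hlaw i hi hin)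
  have e1 : ((x (n - 1) : ℂ) - j) = ((x (n - 1) - j : ℝ) : ℂ) := by push_cast; rfl
  rw [e1] at h1 ⊢
  rw [EP_congr hq]
  exact h1

/-- every strip carries the data `Sml` -/
theorem exists_sml (hd : DifferentiableOn ℂ q (Str η)) (hper : ∀ z ∈ Str η, q (z + 1) = q z)
    (hre : ∀ x : ℝ, (q x).im = 0) {ρ₀ : ℝ} (hρ₀ : 0 < ρ₀) (h : ρ₀ < η) :
    ∃ ρ C ε₀ : ℝ, Sml q ρ C η ρ₀ ε₀ := by
  obtain ⟨ρ, C, hQ⟩ := exists_locQ
  obtain ⟨ε₀, hε₀, hs⟩ := exists_small_Str hd hper h hQ.ρ_pos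
  exact ⟨ρ, C, ε₀, hQ, hρ₀, h, hε₀, hd, hper, hre, hs⟩

/-- **(T5)** summary: `q` holomorphic on a strip, real and 1-periodic, with `(R*)`. -/
theorem lag_of_q (hd : DifferentiableOn ℂ q (Str η)) (hper : ∀ z ∈ Str η, q (z + 1) = q z)
    (hre : ∀ x : ℝ, (q x).im = 0) {ε₁ : ℝ} (hε₁ : 0 < ε₁) (hR : RStarP q ε₁) {ρ₀ : ℝ}
    (hρ₀ : 0 < ρ₀) (h : ρ₀ < η) :
    ∃ ε₀ ε₂ : ℝ, 0 < ε₂ ∧ IsLag ρ₀ ε₀ (Lq q) (Psq q) ∧ RStar (Lq q) ε₂ := by
  obtain ⟨ρ, C, ε₀, hS⟩ := exists_sml hd hper hre hρ₀ h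
  exact ⟨ε₀, min ε₀ ε₁, lt_min hS.ε_pos hε₁, hS.isLag,
    hS.rStar (min_le_left _ _) (rStarP_mono hR (min_le_right _ _))⟩

end

end Crest.Agent.R102.T5
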