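import Mathlib
import Crest.Agent.R102.KC_821
import Crest.Agent.R102.FinalB_821
import Crest.Agent.R102.ResB4_540
import Crest.Agent.R102.EndA_575
import Crest.Agent.R102.T5d_576
import Crest.Agent.R102.Link_160

/-!
Row 102, assembly: a table with a continuous collar of caustics or an invariant phase foliation
has an analytic Lazutkin datum `q` with `(R*)` (link `S0` + part (A)), and a jointly analytic leaf
family (part (B)).  What remains is the analytic statement `PartC`.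
-/

set_option autoImplicit false

namespace Crest.Agent.R102.C0

open Crest.AnalysisR.Billiard Set Filter Topology
open Crest.Agent.R102.T5 Crest.Agent.R102.G576 Crest.Agent.R102.A929 Crest.Agent.R102.B821
open Crest.Agent.R102.S0
open Crest.Agent.R102
open scoped ComplexConjugate

/-- **(S0) + (A)**: the analytic datum of a table with a collar/foliation. -/
theorem table_datum {Ω : Set (ℝ × ℝ)} {γ : ℝ → ℝ × ℝ} {P : ℝ} (ht : IsTable Ω γ P)
    (hf : HasCausticCollar Ω γ ∨ HasInvariantPhaseFoliation Ω γ) :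
    ∃ (q : C(ℂ, ℂ)) (η : ℝ) (σ : ℝ → ℝ) (K₀ : ℂ) (ε₁ : ℝ), 0 < η ∧
      DifferentiableOn ℂ q (Str η) ∧ (∀ z ∈ Str η, q (z + 1) = q z) ∧
      (∀ z ∈ Str η, q (conj z) = conj (q z)) ∧ Laz γ P q σ K₀ ∧ 0 < ε₁ ∧ RStarP q ε₁ := by
  obtain ⟨hl, ε₁, hε₁, hR⟩ := rstarP_of_table ht hf
  obtain ⟨C, a, ha, hc⟩ := EndA575.partA (q0 ht) (contDiff_q0 ht) (q0_per ht) ε₁ hε₁ hR
  obtain ⟨q, η, hη, hd, hq, hper, hconj⟩ := exists_q (contDiff_q0 ht).continuous (q0_per ht) ha hc
  have hqq : ∀ x : ℝ, q x = qT ht x := fun x => by rw [hq, qT_ofReal]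
  exact ⟨q, η, sig ht, Kc ht, ε₁, hη, hd, hper, hconj, hl.congr hqq, hε₁, rStarP_congr hR hqq⟩

/-- an analytic datum `q`: holomorphic, real and 1-periodic on the strip, and its real curve
`Gc q` (velocity `exp (-2 q + i Th)`, `Th' = exp q`) is a simple closed strictly convex curve. -/
structure Datum (q : C(ℂ, ℂ)) (η : ℝ) : Prop where
  η_pos : 0 < η
  diff : DifferentiableOn ℂ q (Str η)
  per : ∀ z ∈ Str η, q (z + 1) = q z
  cj : ∀ z ∈ Str η, q (conj z) = conj (q z)
  closed : ∀ x : ℝ, Gc q (x + 1) = Gc q x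
  inj : ∀ x y : ℝ, Gc q x = Gc q y → ∃ n : ℤ, y = x + n
  turn : ∀ x : ℝ, Th q (x + 1) = Th q x + 2 * Real.pi
  convex : ∀ x y : ℝ, x < y → y < x + 1 → 0 < (conj (Gd q x) * (Gc q y - Gc q x)).im

/-- a jointly analytic leaf family, as delivered by part (B) -/
structure Leaves (q : C(ℂ, ℂ)) (ρ₀ ε₀ ρ r B : ℝ) (U : ℂ × ℂ → ℂ) (m₀ : ℂ → ℂ) : Prop where
  lag : IsLag ρ₀ ε₀ (Lq q) (Psq q)
  B_nn : 0 ≤ B
  adm : Adm ρ₀ ε₀ ρ r U
  bdd : Bdd (1 / 2) ρ r 2 B U
  el : ∀ p ∈ Dom (3 / 2) ρ r, Ef (Lq q) U p = 0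
  m_diff : DifferentiableOn ℂ m₀ (Metric.ball 0 r)
  area : ∀ p ∈ Dom 1 ρ r, muf (Lq q) U p = p.2 * m₀ p.2
  m_near : ∀ w : ℂ, ‖w‖ < r → ‖m₀ w - 1‖ ≤ 1 / 8

theorem datum_of_laz {Ω : Set (ℝ × ℝ)} {γ : ℝ → ℝ × ℝ} {P : ℝ} (ht : IsTable Ω γ P)
    {q : C(ℂ, ℂ)} {η : ℝ} {σ : ℝ → ℝ} {K₀ : ℂ} (hη : 0 < η) (hd : DifferentiableOn ℂ q (Str η))
    (hper : ∀ z ∈ Str η, q (z + 1) = q z) (hconj : ∀ z ∈ Str η, q (conj z) = conj (q z))
    (hl : Laz γ P q σ K₀) : Datum q η := by
  have hγ : Differentiable ℝ γ := (tbl_smooth ht).differentiable (by simp)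
  have hclosed : ∀ x : ℝ, Gc q (x + 1) = Gc q x := by
    intro x
    have h1 := hl.curve x
    have h2 := hl.curve (x + 1)
    rw [hl.σ_per, tbl_per ht (σ x), h1] at h2
    exact (mul_left_cancel₀ hl.K_ne (add_left_cancel h2)).symm
  have hconvex : ∀ x y : ℝ, x < y → y < x + 1 →
      0 < (conj (Gd q x) * (Gc q y - Gc q x)).im := by
    intro x y hxy hy1
    have h1 : σ x < σ y := hl.σ_mono hxy
    have h2 : σ y < σ x + P := by rw [← hl.σ_per]; exact hl.σ_mono hy1
    have h3 := tbl_tan_pos ht h1 h2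
    rw [det2_eq, hl.chord] at h3
    have h4 := hl.velocity hγ x
    have h5 : ((deriv σ x : ℝ) : ℂ) * (conj (toC (deriv γ (σ x))) * (K₀ * (Gc q y - Gc q x))) =
        ((‖K₀‖ ^ 2 : ℝ) : ℂ) * (conj (Gd q x) * (Gc q y - Gc q x)) := by
      have h6 : conj (toC (deriv γ (σ x))) * ((deriv σ x : ℝ) : ℂ) = conj K₀ * conj (Gd q x) := by
        rw [← map_mul, ← h4, map_mul, Complex.conj_ofReal]
      have h7 := Complex.mul_conj' K₀
      push_cast
      rw [← h7]
      linear_combination K₀ * (Gc q y - Gc q x) * h6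
    have h6 := congrArg Complex.im h5
    rw [Complex.im_ofReal_mul, Complex.im_ofReal_mul] at h6
    have h7 : 0 < deriv σ x * (conj (toC (deriv γ (σ x))) * (K₀ * (Gc q y - Gc q x))).im :=
      mul_pos (hl.σ_pos x) h3
    rw [h6] at h7
    exact pos_of_mul_pos_right h7 (by positivity)
  have hTm : ∀ x y : ℝ, x < y → Th q x < Th q y := by
    have : StrictMono (Th q) := strictMono_of_deriv_pos (fun x => by
      rw [(hasDerivAt_Th x).deriv]; exact Real.exp_pos _)
    exact fun x y h => this h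
  have hqp : ∀ x : ℝ, qr q (x + 1) = qr q x := by
    intro x
    unfold qr
    rw [show (((x + 1 : ℝ)) : ℂ) = (x : ℂ) + 1 by push_cast; rfl, hl.per]
  refine ⟨hη, hd, hper, hconj, hclosed, ?_, ?_, hconvex⟩
  · intro x y hxy
    have h1 : toC (γ (σ x)) = toC (γ (σ y)) := by rw [hl.curve x, hl.curve y, hxy]
    have h2 : γ (σ x) = γ (σ y) := by
      have h3 := congrArg Complex.re h1
      have h4 := congrArg Complex.im h1
      rw [toC_re, toC_re] at h3
      rw [toC_im, toC_im] at h4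
      exact Prod.ext h3 h4
    obtain ⟨m, hm⟩ := tbl_inj_mod ht h2
    refine ⟨m, hl.σ_mono.injective ?_⟩
    have h5 : ∀ n : ℤ, σ (x + n) = σ x + n * P := by
      intro n
      obtain ⟨k, rfl | rfl⟩ := n.eq_nat_or_neg
      · have := hl.σ_per_nat x k
        push_cast
        exact this
      · have := hl.σ_per_nat (x - k) k
        rw [sub_add_cancel] at this
        push_cast
        rw [← sub_eq_add_neg]
        linarith
    rw [h5, hm]
  · intro x
    have h1 : Gd q (x + 1) = Gd q x := by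
      have h2 : HasDerivAt (fun x => Gc q (x + 1)) (Gd q (x + 1)) x :=
        HasDerivAt.comp_add_const x 1 (hasDerivAt_Gc (x + 1))
      have h3 : (fun x => Gc q (x + 1)) = Gc q := funext hclosed
      rw [h3] at h2
      exact h2.unique (hasDerivAt_Gc x)
    unfold Gd at h1
    rw [hqp, Complex.exp_add, Complex.exp_add] at h1
    have h2 := mul_left_cancel₀ (Complex.exp_ne_zero _) h1
    rw [Complex.exp_eq_exp_iff_exists_int] at h2
    obtain ⟨n, hn⟩ := h2
    have h3 : Th q (x + 1) = Th q x + n * (2 * Real.pi) := by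
      have h4 : ((Th q (x + 1) : ℝ) : ℂ) = ((Th q x + n * (2 * Real.pi) : ℝ) : ℂ) := by
        have : Complex.I * ((Th q (x + 1) : ℝ) : ℂ) =
            Complex.I * ((Th q x + n * (2 * Real.pi) : ℝ) : ℂ) := by
          rw [hn]; push_cast; ring
        exact mul_left_cancel₀ Complex.I_ne_zero this
      exact_mod_cast h4
    have hpi := Real.pi_pos
    have h4 : (0 : ℝ) < n := by
      have := hTm x (x + 1) (by linarith)
      rw [h3] at this
      by_contra hc
      push Not at hc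
      nlinarith
    have h5 : n = 1 := by
      have h6 : 0 < n := by exact_mod_cast h4
      by_contra hne
      have h7 : (2 : ℤ) ≤ n := by omega
      have h8 : (2 : ℝ) ≤ n := by exact_mod_cast h7
      have hTc : Continuous (Th q) := continuous_iff_continuousAt.2
        (fun x => (hasDerivAt_Th x).continuousAt)
      obtain ⟨y, hy, hTy⟩ := intermediate_value_Icc (show x ≤ x + 1 by linarith)
        hTc.continuousOn (show Th q x + 2 * Real.pi ∈ Icc (Th q x) (Th q (x + 1)) from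
          ⟨by linarith, by rw [h3]; nlinarith⟩)
      have hxy : x < y := by
        rcases lt_or_eq_of_le hy.1 with h | h
        · exact h
        · exfalso; rw [← h] at hTy; linarith
      have hy1 : y < x + 1 := by
        rcases lt_or_eq_of_le hy.2 with h | h
        · exact h
        · exfalso; rw [h, h3] at hTy; nlinarith
      have c1 := hconvex x y hxy hy1
      have c2 := hconvex y (x + 1) hy1 (by linarith)
      rw [hclosed] at c2
      have h9 : Gd q y = ((Real.exp (-2 * qr q y + 2 * qr q x) : ℝ) : ℂ) * Gd q x := by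
        unfold Gd
        rw [hTy, Complex.ofReal_exp, ← Complex.exp_add, Complex.exp_eq_exp_iff_exists_int]
        refine ⟨1, ?_⟩
        push_cast
        ring
      rw [h9, map_mul, Complex.conj_ofReal, mul_assoc, Complex.im_ofReal_mul] at c2
      have h10 := pos_of_mul_pos_right c2 (Real.exp_pos _).le
      have h11 : conj (Gd q x) * (Gc q x - Gc q y) = -(conj (Gd q x) * (Gc q y - Gc q x)) := by
        ring
      rw [h11, Complex.neg_im] at h10
      linarith
    rw [h3, h5]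
    push_cast
    ring

/-- **The one open statement of row 102**: an analytic datum with a jointly analytic family of
leaves is a conic datum. -/
def PartC : Prop :=
  ∀ (q : C(ℂ, ℂ)) (η ρ₀ ε₀ ρ r B : ℝ) (U : ℂ × ℂ → ℂ) (m₀ : ℂ → ℂ), Datum q η → ρ₀ < η →
    Leaves q ρ₀ ε₀ ρ r B U m₀ →
    ∃ K : ℝ, ∀ x : ℝ, deriv (deriv (fun x => Real.exp (qr q x))) x =
      (K - 2 * Real.exp (qr q x) ^ 2) * Real.exp (qr q x)

theorem conclusion_of_partC (hC : PartC) {Ω : Set (ℝ × ℝ)} {γ : ℝ → ℝ × ℝ} {P : ℝ}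
    (ht : IsTable Ω γ P) (hf : HasCausticCollar Ω γ ∨ HasInvariantPhaseFoliation Ω γ) :
    ∃ (c : ℝ × ℝ) (Q : Matrix (Fin 2) (Fin 2) ℝ), Q.PosDef ∧
      Ω = {x : ℝ × ℝ | dotProduct ![x.1 - c.1, x.2 - c.2]
        (Q.mulVec ![x.1 - c.1, x.2 - c.2]) < 1} := by
  obtain ⟨q, η, σ, K₀, ε₁, hη, hd, hper, hconj, hl, hε₁, hR⟩ := table_datum ht hf
  obtain ⟨ε₀, ε₂, hε₂, hL, hRS⟩ := lag_of_q hd hper hl.im hε₁ hR (ρ₀ := η / 2) (by positivity)
    (by linarith)
  obtain ⟨ρ, r, B, U, m₀, hB, hadm, hUb, hE, hm, hmu, hmb⟩ := part_B hL hε₂ hRS B540.resonanceB4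
  obtain ⟨K, hK⟩ := hC q η (η / 2) ε₀ ρ r B U m₀ (datum_of_laz ht hη hd hper hconj hl)
    (by linarith) ⟨hL, hB, hadm, hUb, hE, hm, hmu, hmb⟩
  exact ellipse_of_Kconst ht hl K hK

end Crest.Agent.R102.C0
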