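import Mathlib
import Crest.Agent.R102.Asm_821

/-!
Row 102, (C0), part 1: the complexified curve of an analytic datum: primitives on a strip,
tangent angle `Tc`, isotropic coordinates `Zs q 1 = X + iY`, `Zs q (-1) = X - iY`, arclength `Sc`,
chords, direction `ph` and length of a chord near the diagonal.
-/

set_option autoImplicit false

open Set Filter Topology MeasureTheory
open scoped ComplexConjugate

noncomputable section

namespace Crest.Agent.R102.C0

open Crest.Agent.R102.T5 Crest.Agent.R102.G576 Crest.Agent.R102.A929 Crest.Agent.R102.B821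

section Prim

variable {f : ℂ → ℂ} {η : ℝ}

/-- the primitive of `f` which vanishes at `0` -/
def prim (f : ℂ → ℂ) (z : ℂ) : ℂ := ∫ r in (0 : ℝ)..1, z * f (r * z)

lemma mul_mem_Str {z : ℂ} (hz : z ∈ Str η) {r : ℝ} (h0 : 0 ≤ r) (h1 : r ≤ 1) :
    (r : ℂ) * z ∈ Str η := by
  have h2 : |z.im| < η := hz
  change |((r : ℂ) * z).im| < η
  rw [Complex.im_ofReal_mul, abs_mul, abs_of_nonneg h0]
  exact (mul_le_of_le_one_left (abs_nonneg _) h1).trans_lt h2

lemma differentiableOn_prim (hf : DifferentiableOn ℂ f (Str η)) :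
    DifferentiableOn ℂ (prim f) (Str η) := by
  have h1 := R266.SCV.analyticOnNhd_intervalIntegral (E := ℂ) (F := ℂ)
    (f := fun p : ℂ × ℝ => p.1 * f (p.2 * p.1)) (a := 0) (b := 1) (isOpen_Str η) ?_ ?_
  · exact h1.differentiableOn
  · refine continuousOn_fst.mul ?_
    refine hf.continuousOn.comp (f := fun p : ℂ × ℝ => (p.2 : ℂ) * p.1) (by fun_prop) ?_
    intro p hp
    have h2 := hp.2
    rw [uIcc_of_le zero_le_one] at h2
    exact mul_mem_Str hp.1 h2.1 h2.2
  · intro r hr
    rw [uIcc_of_le zero_le_one] at hr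
    refine differentiableOn_id.mul ?_
    exact hf.comp (f := fun z : ℂ => (r : ℂ) * z) (by fun_prop)
      (fun z hz => mul_mem_Str hz hr.1 hr.2)

lemma prim_ofReal (f : ℂ → ℂ) (x : ℝ) : prim f x = ∫ t in (0 : ℝ)..x, f (t : ℂ) := by
  have h1 := intervalIntegral.smul_integral_comp_mul_right (a := 0) (b := 1)
    (fun t : ℝ => f (t : ℂ)) x
  rw [zero_mul, one_mul] at h1
  rw [← h1]
  unfold prim
  rw [intervalIntegral.integral_const_mul, Complex.real_smul]
  push_cast
  rfl

lemma hasDerivAt_prim (hη : 0 < η) (hf : DifferentiableOn ℂ f (Str η)) {z : ℂ} (hz : z ∈ Str η) :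
    HasDerivAt (prim f) (f z) z := by
  have hd := differentiableOn_prim hf
  have h1 : EqOn (deriv (prim f)) f (Str η) := by
    refine eqOn_Str hη (hd.deriv (isOpen_Str η)) hf (fun x => ?_)
    have hx : (x : ℂ) ∈ Str η := real_mem_Str hη x
    have h2 : HasDerivAt (prim f) (deriv (prim f) x) (x : ℂ) :=
      (hd.differentiableAt ((isOpen_Str η).mem_nhds hx)).hasDerivAt
    have h3 := h2.comp_ofReal
    have hc : Continuous (fun t : ℝ => f (t : ℂ)) := by
      rw [← continuousOn_univ]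
      exact hf.continuousOn.comp Complex.continuous_ofReal.continuousOn
        (fun t _ => real_mem_Str hη t)
    have h4 : HasDerivAt (fun t : ℝ => prim f (t : ℂ)) (f (x : ℂ)) x := by
      have h5 : (fun t : ℝ => prim f (t : ℂ)) = fun t => ∫ s in (0 : ℝ)..t, f (s : ℂ) :=
        funext (prim_ofReal f)
      rw [h5]
      exact intervalIntegral.integral_hasDerivAt_right (hc.intervalIntegrable _ _)
        (hc.stronglyMeasurableAtFilter _ _) hc.continuousAt
    exact h3.unique h4
  have h2 := (hd.differentiableAt ((isOpen_Str η).mem_nhds hz)).hasDerivAt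
  rwa [h1 hz] at h2

lemma prim_zero (f : ℂ → ℂ) : prim f 0 = 0 := by simp [prim]

end Prim

section Curve

variable {q : C(ℂ, ℂ)} {η : ℝ}

/-- complexified tangent angle -/
def Tc (q : C(ℂ, ℂ)) : ℂ → ℂ := prim (fun z => Complex.exp (q z))

/-- complexified arclength -/
def Sc (q : C(ℂ, ℂ)) : ℂ → ℂ := prim (fun z => Complex.exp (-2 * q z))

/-- velocities of the isotropic coordinates, `s = ± 1` -/
def vel (q : C(ℂ, ℂ)) (s : ℂ) (z : ℂ) : ℂ := Complex.exp (-2 * q z + s * (Complex.I * Tc q z))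

/-- isotropic coordinates of the curve: `Zs q 1 = X + i Y`, `Zs q (-1) = X - i Y` -/
def Zs (q : C(ℂ, ℂ)) (s : ℂ) : ℂ → ℂ := prim (vel q s)

variable (h : Datum q η)

include h

lemma Datum.exp_diff : DifferentiableOn ℂ (fun z => Complex.exp (q z)) (Str η) := h.diff.cexp

lemma Datum.hasDerivAt_Tc {z : ℂ} (hz : z ∈ Str η) :
    HasDerivAt (Tc q) (Complex.exp (q z)) z := hasDerivAt_prim h.η_pos h.exp_diff hz

lemma Datum.Tc_diff : DifferentiableOn ℂ (Tc q) (Str η) :=
  fun _ hz => (h.hasDerivAt_Tc hz).differentiableAt.differentiableWithinAt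

lemma Datum.hasDerivAt_Sc {z : ℂ} (hz : z ∈ Str η) :
    HasDerivAt (Sc q) (Complex.exp (-2 * q z)) z :=
  hasDerivAt_prim h.η_pos (h.diff.const_mul _).cexp hz

lemma Datum.Sc_diff : DifferentiableOn ℂ (Sc q) (Str η) :=
  fun _ hz => (h.hasDerivAt_Sc hz).differentiableAt.differentiableWithinAt

lemma Datum.vel_diff (s : ℂ) : DifferentiableOn ℂ (vel q s) (Str η) :=
  ((h.diff.const_mul _).add ((h.Tc_diff.const_mul _).const_mul _)).cexp

lemma Datum.hasDerivAt_Zs (s : ℂ) {z : ℂ} (hz : z ∈ Str η) :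
    HasDerivAt (Zs q s) (vel q s z) z := hasDerivAt_prim h.η_pos (h.vel_diff s) hz

lemma Datum.Zs_diff (s : ℂ) : DifferentiableOn ℂ (Zs q s) (Str η) :=
  fun _ hz => (h.hasDerivAt_Zs s hz).differentiableAt.differentiableWithinAt

/-! #### real values -/

lemma Datum.q_real (x : ℝ) : q (x : ℂ) = ((qr q x : ℝ) : ℂ) := by
  have h1 := h.cj x (real_mem_Str h.η_pos x)
  rw [Complex.conj_ofReal] at h1
  exact (Complex.conj_eq_iff_re.1 h1.symm).symm

lemma Datum.Tc_real (x : ℝ) : Tc q x = ((Th q x : ℝ) : ℂ) := by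
  unfold Tc Th
  rw [prim_ofReal, ← intervalIntegral.integral_ofReal]
  refine intervalIntegral.integral_congr (fun t _ => ?_)
  rw [h.q_real, Complex.ofReal_exp]

lemma Datum.Sc_real (x : ℝ) : Sc q x = ((Ar q x : ℝ) : ℂ) := by
  unfold Sc Ar
  rw [prim_ofReal, ← intervalIntegral.integral_ofReal]
  refine intervalIntegral.integral_congr (fun t _ => ?_)
  rw [h.q_real, Complex.ofReal_exp]
  push_cast
  rfl

lemma Datum.vel_real (x : ℝ) : vel q 1 x = Gd q x := by
  unfold vel Gd
  rw [h.q_real, h.Tc_real]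
  push_cast
  ring_nf

lemma Datum.Zs_real (x : ℝ) : Zs q 1 x = Gc q x := by
  unfold Zs Gc
  rw [prim_ofReal]
  exact intervalIntegral.integral_congr (fun t _ => h.vel_real t)

/-! #### conjugation -/

lemma Datum.Tc_conj {z : ℂ} (hz : z ∈ Str η) : Tc q (conj z) = conj (Tc q z) := by
  have h1 : EqOn (fun z => conj (Tc q (conj z))) (Tc q) (Str η) := by
    refine eqOn_Str h.η_pos (differentiableOn_reflect (isOpen_Str η) h.Tc_diff
      (fun z hz => conj_mem_Str hz)) h.Tc_diff (fun x => ?_)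
    rw [Complex.conj_ofReal, h.Tc_real, Complex.conj_ofReal]
  have h2 := h1 hz
  simp only at h2
  rw [← h2, starRingEnd_self_apply]

lemma Datum.Sc_conj {z : ℂ} (hz : z ∈ Str η) : Sc q (conj z) = conj (Sc q z) := by
  have h1 : EqOn (fun z => conj (Sc q (conj z))) (Sc q) (Str η) := by
    refine eqOn_Str h.η_pos (differentiableOn_reflect (isOpen_Str η) h.Sc_diff
      (fun z hz => conj_mem_Str hz)) h.Sc_diff (fun x => ?_)
    rw [Complex.conj_ofReal, h.Sc_real, Complex.conj_ofReal]
  have h2 := h1 hz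
  simp only at h2
  rw [← h2, starRingEnd_self_apply]

lemma Datum.vel_conj {z : ℂ} (hz : z ∈ Str η) : vel q (-1) (conj z) = conj (vel q 1 z) := by
  unfold vel
  rw [← Complex.exp_conj, h.cj z hz, h.Tc_conj hz]
  congr 1
  simp only [map_add, map_mul, Complex.conj_I, map_neg, map_one, map_ofNat]
  ring

lemma Datum.Zs_conj {z : ℂ} (hz : z ∈ Str η) : Zs q (-1) (conj z) = conj (Zs q 1 z) := by
  have h1 : EqOn (fun z => conj (Zs q 1 (conj z))) (Zs q (-1)) (Str η) := by
    refine eqOn_Str h.η_pos (differentiableOn_reflect (isOpen_Str η) (h.Zs_diff 1)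
      (fun z hz => conj_mem_Str hz)) (h.Zs_diff (-1)) (fun x => ?_)
    rw [Complex.conj_ofReal]
    unfold Zs
    rw [prim_ofReal, prim_ofReal, ← intervalIntegral.intervalIntegral_conj]
    refine intervalIntegral.integral_congr (fun t _ => ?_)
    have := h.vel_conj (z := (t : ℂ)) (real_mem_Str h.η_pos t)
    rw [Complex.conj_ofReal] at this
    exact this.symm
  have h2 := h1 (conj_mem_Str hz)
  simp only [starRingEnd_self_apply] at h2
  exact h2.symm

/-! #### periods -/

lemma Datum.Tc_per {z : ℂ} (hz : z ∈ Str η) : Tc q (z + 1) = Tc q z + 2 * Real.pi := by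
  have h1 : EqOn (fun z => Tc q (z + 1)) (fun z => Tc q z + 2 * Real.pi) (Str η) := by
    refine eqOn_Str h.η_pos ?_ (h.Tc_diff.add_const _) (fun x => ?_)
    · exact h.Tc_diff.comp (by fun_prop) (fun z hz => add_one_mem_Str hz)
    · have : (x : ℂ) + 1 = ((x + 1 : ℝ) : ℂ) := by push_cast; rfl
      rw [this, h.Tc_real, h.Tc_real, h.turn]
      push_cast
      rfl
  exact h1 hz

lemma Datum.vel_per {z : ℂ} (hz : z ∈ Str η) {s : ℂ} (hs : s = 1 ∨ s = -1) :
    vel q s (z + 1) = vel q s z := by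
  unfold vel
  rw [h.per z hz, h.Tc_per hz, Complex.exp_eq_exp_iff_exists_int]
  rcases hs with rfl | rfl
  · exact ⟨1, by push_cast; ring⟩
  · exact ⟨-1, by push_cast; ring⟩

lemma Datum.Zs_per {z : ℂ} (hz : z ∈ Str η) {s : ℂ} (hs : s = 1 ∨ s = -1) :
    Zs q s (z + 1) = Zs q s z := by
  have key : ∀ z ∈ Str η, Zs q 1 (z + 1) = Zs q 1 z := by
    intro z hz
    have h1 : EqOn (fun z => Zs q 1 (z + 1)) (Zs q 1) (Str η) := by
      refine eqOn_Str h.η_pos ?_ (h.Zs_diff 1) (fun x => ?_)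
      · exact (h.Zs_diff 1).comp (by fun_prop) (fun z hz => add_one_mem_Str hz)
      · have : (x : ℂ) + 1 = ((x + 1 : ℝ) : ℂ) := by push_cast; rfl
        rw [this, h.Zs_real, h.Zs_real, h.closed]
    exact h1 hz
  rcases hs with rfl | rfl
  · exact key z hz
  · have h1 := key (conj z) (conj_mem_Str hz)
    have h2 := h.Zs_conj (z := conj z + 1) (add_one_mem_Str (conj_mem_Str hz))
    have h3 := h.Zs_conj (z := conj z) (conj_mem_Str hz)
    rw [map_add, map_one, starRingEnd_self_apply] at h2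
    rw [starRingEnd_self_apply] at h3
    rw [h2, h1, h3]

end Curve

end Crest.Agent.R102.C0
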