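import Mathlib
import Crest.Agent.R102.Crv_821

/-!
Row 102, (C0): **the interface of part (C)**: the analytic family of lines `l(t, w) = (φ, p)`.

Conventions.
* `q : C(ℂ, ℂ)` is holomorphic, real and 1-periodic on the strip `Str η` (`Datum q η`, Asm_821).
  `y = exp q`.  Complexified curve: tangent angle `Tc q` (`Tc' = exp q`), arclength `Sc q`
  (`Sc' = exp (-2 q)`), isotropic coordinates `Zs q 1 = X + i Y`, `Zs q (-1) = X - i Y`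
  (`Zs q s' = exp (-2 q + s i Tc)`), all holomorphic on `Str η` (Crv_821);
  `Tc (z + 1) = Tc z + 2π`, `Zs q s (z + 1) = Zs q s z`, real on the real line
  (`Zs q (-1) (conj z) = conj (Zs q 1 z)`).
* a (complex) line is `{X : n(φ) · X = p}`, `n(φ) = (- sin φ, cos φ)`, i.e.
  `exp (-iφ) Z - exp (iφ) Zc = 2 i p` in isotropic coordinates (`OnLine φ p Z Zc`).
* `l(t, w) = (φ (t, w), p (t, w))` is the line through the points with labels `b (t ± w/2, w)`;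
  the point with label `b (t, w)` lies on `l (t - w/2, w)` and `l (t + w/2, w)`.
-/

set_option autoImplicit false

open Set Filter Topology MeasureTheory
open scoped ComplexConjugate

noncomputable section

namespace Crest.Agent.R102.C0

open Crest.Agent.R102.T5 Crest.Agent.R102.G576 Crest.Agent.R102.A929 Crest.Agent.R102.B821

/-- product domain: a strip in `t`, a disc in `w` -/
def PD (ρ r : ℝ) : Set (ℂ × ℂ) := {p | |p.1.im| < ρ ∧ ‖p.2‖ < r}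

/-- the point with isotropic coordinates `(Z, Zc)` lies on the line `(φ, p)` -/
def OnLine (φ p Z Zc : ℂ) : Prop :=
  Complex.exp (-(Complex.I * φ)) * Z - Complex.exp (Complex.I * φ) * Zc = 2 * Complex.I * p

/-- **the analytic family of lines** of a datum `q`: `b` = label of the vertices, `(φ, p)` = lines,
`m₀` = density (`dφ ∧ dp = (w / 4) m₀(w) dt ∧ dw`). -/
structure LineFam (q : C(ℂ, ℂ)) (η ρ r B : ℝ) (b φ p : ℂ × ℂ → ℂ) (m₀ : ℂ → ℂ) : Prop where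
  dat : Datum q η
  ρ_pos : 0 < ρ
  r_pos : 0 < r
  r_le : 4 * r ≤ ρ
  ρ_lt : 2 * ρ < η
  /- labels -/
  b_diff : DifferentiableOn ℂ b (PD ρ r)
  b_near : ∀ x ∈ PD ρ r, ‖b x - x.1‖ ≤ B * ‖x.2‖ ^ 2
  b_mem : ∀ x ∈ PD ρ r, |(b x).im| < 2 * ρ
  b_t : ∀ x ∈ PD ρ r, ‖q1 b x - 1‖ ≤ 1 / 100
  b_per : ∀ t w : ℂ, (t, w) ∈ PD ρ r → b (t + 1, w) = b (t, w) + 1
  b_even : ∀ t w : ℂ, (t, w) ∈ PD ρ r → b (t, -w) = b (t, w)
  b_conj : ∀ t w : ℂ, (t, w) ∈ PD ρ r → b (conj t, conj w) = conj (b (t, w))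
  /- lines -/
  φ_diff : DifferentiableOn ℂ φ (PD ρ r)
  p_diff : DifferentiableOn ℂ p (PD ρ r)
  φ_zero : ∀ t : ℂ, |t.im| < ρ → φ (t, 0) = Tc q t
  φ_per : ∀ t w : ℂ, (t, w) ∈ PD ρ r → φ (t + 1, w) = φ (t, w) + 2 * Real.pi
  p_per : ∀ t w : ℂ, (t, w) ∈ PD ρ r → p (t + 1, w) = p (t, w)
  φ_even : ∀ t w : ℂ, (t, w) ∈ PD ρ r → φ (t, -w) = φ (t, w)
  p_even : ∀ t w : ℂ, (t, w) ∈ PD ρ r → p (t, -w) = p (t, w)
  φ_conj : ∀ t w : ℂ, (t, w) ∈ PD ρ r → φ (conj t, conj w) = conj (φ (t, w))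
  p_conj : ∀ t w : ℂ, (t, w) ∈ PD ρ r → p (conj t, conj w) = conj (p (t, w))
  /- incidence: the vertices `b (t ± w/2, w)` lie on `l (t, w)` -/
  inc : ∀ t w : ℂ, (t, w) ∈ PD ρ r → (t + w / 2, w) ∈ PD ρ r →
    OnLine (φ (t, w)) (p (t, w)) (Zs q 1 (b (t + w / 2, w))) (Zs q (-1) (b (t + w / 2, w)))
  inc' : ∀ t w : ℂ, (t, w) ∈ PD ρ r → (t - w / 2, w) ∈ PD ρ r →
    OnLine (φ (t, w)) (p (t, w)) (Zs q 1 (b (t - w / 2, w))) (Zs q (-1) (b (t - w / 2, w)))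
  /- law of reflection at the vertex `b (t, w)` -/
  refl : ∀ t w : ℂ, (t, w) ∈ PD ρ r → (t - w / 2, w) ∈ PD ρ r → (t + w / 2, w) ∈ PD ρ r →
    φ (t - w / 2, w) + φ (t + w / 2, w) = 2 * Tc q (b (t, w))
  /- half the angle of reflection is small -/
  δ_small : ∀ t w : ℂ, (t, w) ∈ PD ρ r → (t + w / 2, w) ∈ PD ρ r →
    ‖φ (t + w / 2, w) - Tc q (b (t, w))‖ ≤ 1 / 5
  /- area form -/
  area : ∀ t w : ℂ, (t, w) ∈ PD ρ r →
    q1 φ (t, w) * q2 p (t, w) - q2 φ (t, w) * q1 p (t, w) = w / 4 * m₀ w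
  m_diff : DifferentiableOn ℂ m₀ (Metric.ball 0 r)
  m_near : ∀ w : ℂ, ‖w‖ < r → ‖m₀ w - 1‖ ≤ 1 / 8

/-- `PartC` in line coordinates -/
def PartCL : Prop :=
  ∀ (q : C(ℂ, ℂ)) (η ρ r B : ℝ) (b φ p : ℂ × ℂ → ℂ) (m₀ : ℂ → ℂ), LineFam q η ρ r B b φ p m₀ →
    ∃ K : ℝ, ∀ x : ℝ, deriv (deriv (fun x => Real.exp (qr q x))) x =
      (K - 2 * Real.exp (qr q x) ^ 2) * Real.exp (qr q x)

end Crest.Agent.R102.C0
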