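import Mathlib
import Crest.Agent.R102.Crv_821

/-!
Row 102, (C0), part 2: chords near the diagonal: direction `ph` and (reduced) length `cl`.
-/

set_option autoImplicit false

open Set Filter Topology MeasureTheory
open scoped ComplexConjugate

noncomputable section

namespace Crest.Agent.R102.C0

open Crest.Agent.R102.T5 Crest.Agent.R102.G576 Crest.Agent.R102.A929 Crest.Agent.R102.B821

variable {q : C(ℂ, ℂ)} {η ρ₀ ε₀ : ℝ}

/-- reduced chord in isotropic coordinates: `(y - x) * Ach q s (x, y) = Zs q s y - Zs q s x` -/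
def Ach (q : C(ℂ, ℂ)) (s : ℂ) (p : ℂ × ℂ) : ℂ :=
  ∫ r in (0 : ℝ)..1, vel q s (p.1 + r * (p.2 - p.1))

lemma vel_ne (s z : ℂ) : vel q s z ≠ 0 := Complex.exp_ne_zero _

lemma seg_mem_Str' {x y : ℂ} (hx : x ∈ Str η) (hy : y ∈ Str η) {r : ℝ} (h0 : 0 ≤ r) (h1 : r ≤ 1) :
    x + r * (y - x) ∈ Str η := by
  have := seg_mem_Str (x := x) (e := y - x) hx (by rwa [add_sub_cancel]) h0 h1
  rwa [mul_comm] at this

lemma Datum.Ach_cont (h : Datum q η) (s : ℂ) {x y : ℂ} (hx : x ∈ Str η) (hy : y ∈ Str η) :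
    ContinuousOn (fun r : ℝ => vel q s (x + r * (y - x))) (uIcc 0 1) := by
  refine (h.vel_diff s).continuousOn.comp (f := fun r : ℝ => x + (r : ℂ) * (y - x))
    (by fun_prop) (fun r hr => ?_)
  rw [uIcc_of_le zero_le_one] at hr
  exact seg_mem_Str' hx hy hr.1 hr.2

lemma Datum.Ach_diff (h : Datum q η) (s : ℂ) :
    DifferentiableOn ℂ (Ach q s) (Str η ×ˢ Str η) := by
  have h1 := R266.SCV.analyticOnNhd_intervalIntegral (E := ℂ × ℂ) (F := ℂ)
    (f := fun p : (ℂ × ℂ) × ℝ => vel q s (p.1.1 + p.2 * (p.1.2 - p.1.1))) (a := 0) (b := 1)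
    ((isOpen_Str η).prod (isOpen_Str η)) ?_ ?_
  · exact h1.differentiableOn
  · refine (h.vel_diff s).continuousOn.comp
      (f := fun p : (ℂ × ℂ) × ℝ => p.1.1 + (p.2 : ℂ) * (p.1.2 - p.1.1)) (by fun_prop) ?_
    intro p hp
    have h2 := hp.2
    rw [uIcc_of_le zero_le_one] at h2
    exact seg_mem_Str' hp.1.1 hp.1.2 h2.1 h2.2
  · intro r hr
    rw [uIcc_of_le zero_le_one] at hr
    exact (h.vel_diff s).comp (f := fun p : ℂ × ℂ => p.1 + (r : ℂ) * (p.2 - p.1)) (by fun_prop)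
      (fun p hp => seg_mem_Str' hp.1 hp.2 hr.1 hr.2)

lemma Datum.Ach_mul (h : Datum q η) (s : ℂ) {x y : ℂ} (hx : x ∈ Str η) (hy : y ∈ Str η) :
    (y - x) * Ach q s (x, y) = Zs q s y - Zs q s x := by
  have h1 : ∀ r ∈ uIcc (0 : ℝ) 1, HasDerivAt (fun r : ℝ => Zs q s (x + r * (y - x)))
      ((y - x) * vel q s (x + r * (y - x))) r := by
    intro r hr
    rw [uIcc_of_le zero_le_one] at hr
    have h2 := h.hasDerivAt_Zs s (seg_mem_Str' hx hy hr.1 hr.2)
    have h3 : HasDerivAt (fun r : ℝ => x + (r : ℂ) * (y - x)) (y - x) r := by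
      have := ((Complex.ofRealCLM.hasDerivAt (x := r)).mul_const (y - x)).const_add x
      simpa using this
    have h4 := h2.comp r h3
    rw [mul_comm]
    exact h4
  have hc := (continuousOn_const (c := y - x)).mul (h.Ach_cont s hx hy)
  have h2 := intervalIntegral.integral_eq_sub_of_hasDerivAt h1 hc.intervalIntegrable
  rw [intervalIntegral.integral_const_mul] at h2
  simp only [Complex.ofReal_one, one_mul, Complex.ofReal_zero, zero_mul, add_zero,
    add_sub_cancel] at h2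
  exact h2

lemma Ach_diag (s x : ℂ) : Ach q s (x, x) = vel q s x := by
  unfold Ach
  simp

lemma Ach_swap (s x y : ℂ) : Ach q s (y, x) = Ach q s (x, y) := by
  unfold Ach
  have h1 := intervalIntegral.integral_comp_sub_left (a := 0) (b := 1)
    (fun r : ℝ => vel q s (x + r * (y - x))) 1
  simp only [sub_self, sub_zero] at h1
  rw [← h1]
  refine intervalIntegral.integral_congr (fun r _ => ?_)
  simp only
  congr 1
  push_cast
  ring

lemma Datum.Ach_conj (h : Datum q η) {x y : ℂ} (hx : x ∈ Str η) (hy : y ∈ Str η) :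
    Ach q (-1) (conj x, conj y) = conj (Ach q 1 (x, y)) := by
  unfold Ach
  rw [← intervalIntegral.intervalIntegral_conj]
  refine intervalIntegral.integral_congr (fun r hr => ?_)
  rw [uIcc_of_le zero_le_one] at hr
  simp only
  rw [← h.vel_conj (seg_mem_Str' hx hy hr.1 hr.2)]
  congr 1
  simp only [map_add, map_mul, map_sub, Complex.conj_ofReal]

lemma Datum.Ach_per (h : Datum q η) {s : ℂ} (hs : s = 1 ∨ s = -1) {x y : ℂ} (hx : x ∈ Str η)
    (hy : y ∈ Str η) : Ach q s (x + 1, y + 1) = Ach q s (x, y) := by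
  unfold Ach
  refine intervalIntegral.integral_congr (fun r hr => ?_)
  rw [uIcc_of_le zero_le_one] at hr
  simp only
  rw [← h.vel_per (seg_mem_Str' hx hy hr.1 hr.2) hs]
  congr 1
  ring

/-- smallness data for the chord functions -/
structure Sm (q : C(ℂ, ℂ)) (η ρ₀ ε₀ : ℝ) : Prop where
  dat : Datum q η
  ρ_pos : 0 < ρ₀
  lt : ρ₀ < η
  ε_pos : 0 < ε₀
  sm : ∀ x e : ℂ, x ∈ Str ρ₀ → x + e ∈ Str ρ₀ → ‖e‖ < ε₀ → ‖Xq q x e‖ < 1 / 100

theorem Datum.exists_Sm (h : Datum q η) (hρ : 0 < ρ₀) (hlt : ρ₀ < η) :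
    ∃ ε₀, Sm q η ρ₀ ε₀ := by
  obtain ⟨ε₀, hε₀, hs⟩ := exists_small_Str h.diff h.per hlt (ρ := 1 / 100) (by norm_num)
  exact ⟨ε₀, h, hρ, hlt, hε₀, hs⟩

lemma Sm.mono (h : Sm q η ρ₀ ε₀) {ρ₁ ε₁ : ℝ} (h1 : 0 < ρ₁) (h2 : ρ₁ ≤ ρ₀) (h3 : 0 < ε₁)
    (h4 : ε₁ ≤ ε₀) : Sm q η ρ₁ ε₁ :=
  ⟨h.dat, h1, lt_of_le_of_lt h2 h.lt, h3, fun x e hx hxe he =>
    h.sm x e (lt_of_lt_of_le hx h2) (lt_of_lt_of_le hxe h2) (lt_of_lt_of_le he h4)⟩

section

variable (h : Sm q η ρ₀ ε₀) {x y : ℂ} (hp : (x, y) ∈ Dg ρ₀ ε₀)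

include h hp

lemma Sm.mx : x ∈ Str η := lt_trans hp.1 h.lt
lemma Sm.my : y ∈ Str η := lt_trans hp.2.1 h.lt

lemma Sm.Xq_lt : ‖Xq q x (y - x)‖ < 1 / 100 :=
  h.sm x (y - x) hp.1 (by rw [add_sub_cancel]; exact hp.2.1) hp.2.2

lemma Sm.dq_le {r : ℝ} (h0 : 0 ≤ r) (h1 : r ≤ 1) :
    ‖q (x + r * (y - x)) - q x‖ ≤ 1 / 100 := by
  have h2 : ‖dq q x (y - x)‖ ≤ 1 / 100 := by
    have h3 : ‖Xq q x (y - x)‖ = max ‖dq q x (y - x)‖ ‖(y - x) * Complex.exp (q x)‖ := rfl
    have h4 := h.Xq_lt hp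
    rw [h3] at h4
    exact ((le_max_left _ _).trans_lt h4).le
  have h3 := (AA.norm_coe_le_norm (dq q x (y - x)) ⟨r, h0, h1⟩).trans h2
  rw [dq_apply] at h3
  simp only at h3
  rwa [mul_comm (y - x) (r : ℂ)] at h3

lemma Sm.e_le : ‖(y - x) * Complex.exp (q x)‖ ≤ 1 / 100 := by
  have h3 : ‖Xq q x (y - x)‖ = max ‖dq q x (y - x)‖ ‖(y - x) * Complex.exp (q x)‖ := rfl
  have h4 := h.Xq_lt hp
  rw [h3] at h4
  exact ((le_max_right _ _).trans_lt h4).le

lemma Sm.Tc_le {r : ℝ} (h0 : 0 ≤ r) (h1 : r ≤ 1) :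
    ‖Tc q (x + r * (y - x)) - Tc q x‖ ≤ 11 / 1000 := by
  have hd : ∀ a ∈ Icc (0 : ℝ) 1, HasDerivWithinAt (fun a : ℝ => Tc q (x + a * (y - x)))
      (Complex.exp (q (x + a * (y - x))) * (y - x)) (Icc 0 1) a := by
    intro a ha
    have h2 := h.dat.hasDerivAt_Tc (seg_mem_Str' (h.mx hp) (h.my hp) ha.1 ha.2)
    have h3 : HasDerivAt (fun r : ℝ => x + (r : ℂ) * (y - x)) (y - x) a := by
      have := ((Complex.ofRealCLM.hasDerivAt (x := a)).mul_const (y - x)).const_add x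
      simpa using this
    exact (h2.comp a h3).hasDerivWithinAt
  have hb : ∀ a ∈ Ico (0 : ℝ) 1, ‖Complex.exp (q (x + a * (y - x))) * (y - x)‖ ≤ 11 / 1000 := by
    intro a ha
    have h2 := h.dq_le hp ha.1 ha.2.le
    have h3 : Complex.exp (q (x + a * (y - x))) * (y - x) =
        Complex.exp (q (x + a * (y - x)) - q x) * ((y - x) * Complex.exp (q x)) := by
      rw [Complex.exp_sub]
      have := Complex.exp_ne_zero (q x)
      field_simp
    rw [h3, norm_mul]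
    have h4 : ‖Complex.exp (q (x + a * (y - x)) - q x)‖ ≤ 11 / 10 := by
      have h5 := Complex.norm_exp_sub_one_le (x := q (x + a * (y - x)) - q x) (by linarith)
      have h6 : ‖Complex.exp (q (x + a * (y - x)) - q x)‖ ≤
          ‖Complex.exp (q (x + a * (y - x)) - q x) - 1‖ + ‖(1 : ℂ)‖ := by
        have := norm_add_le (Complex.exp (q (x + a * (y - x)) - q x) - 1) 1
        rwa [sub_add_cancel] at this
      rw [norm_one] at h6
      linarith
    have h5 := h.e_le hp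
    calc _ ≤ 11 / 10 * (1 / 100) := mul_le_mul h4 h5 (norm_nonneg _) (by norm_num)
      _ = 11 / 1000 := by norm_num
  have h2 := norm_image_sub_le_of_norm_deriv_le_segment' (f := fun a : ℝ => Tc q (x + a * (y - x)))
    hd hb r ⟨h0, h1⟩
  simp only [Complex.ofReal_zero, zero_mul, add_zero, sub_zero] at h2
  refine h2.trans ?_
  nlinarith

lemma Sm.vel_near {s : ℂ} (hs : s = 1 ∨ s = -1) {r : ℝ} (h0 : 0 ≤ r) (h1 : r ≤ 1) :
    ‖vel q s (x + r * (y - x)) * (vel q s x)⁻¹ - 1‖ ≤ 7 / 100 := by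
  have hs1 : ‖s‖ = 1 := by rcases hs with rfl | rfl <;> simp
  have e1 : vel q s (x + r * (y - x)) * (vel q s x)⁻¹ =
      Complex.exp (-2 * (q (x + r * (y - x)) - q x) +
        s * (Complex.I * (Tc q (x + r * (y - x)) - Tc q x))) := by
    unfold vel
    rw [← Complex.exp_neg, ← Complex.exp_add]
    congr 1
    ring
  have h2 := h.dq_le hp h0 h1
  have h3 := h.Tc_le hp h0 h1
  have h4 : ‖-2 * (q (x + r * (y - x)) - q x) +
        s * (Complex.I * (Tc q (x + r * (y - x)) - Tc q x))‖ ≤ 31 / 1000 := by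
    refine (norm_add_le _ _).trans ?_
    rw [norm_mul, norm_mul, norm_mul, hs1, Complex.norm_I]
    have : ‖(-2 : ℂ)‖ = 2 := by norm_num
    rw [this]
    linarith
  rw [e1]
  refine (Complex.norm_exp_sub_one_le (by linarith)).trans ?_
  linarith

lemma Sm.Ach_near {s : ℂ} (hs : s = 1 ∨ s = -1) :
    ‖Ach q s (x, y) * (vel q s x)⁻¹ - 1‖ ≤ 7 / 100 := by
  have hc := h.dat.Ach_cont s (h.mx hp) (h.my hp)
  have e1 : Ach q s (x, y) * (vel q s x)⁻¹ - 1 =
      ∫ r in (0 : ℝ)..1, (vel q s (x + r * (y - x)) * (vel q s x)⁻¹ - 1) := by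
    rw [intervalIntegral.integral_sub (f := fun r : ℝ => vel q s (x + r * (y - x)) *
      (vel q s x)⁻¹) (g := fun _ => (1 : ℂ)) (hc.mul continuousOn_const).intervalIntegrable
      (continuousOn_const.intervalIntegrable), intervalIntegral.integral_mul_const]
    simp [Ach]
  rw [e1]
  have h1 := intervalIntegral.norm_integral_le_of_norm_le_const
    (f := fun r : ℝ => vel q s (x + r * (y - x)) * (vel q s x)⁻¹ - 1)
    (a := 0) (b := 1) (C := 7 / 100) (fun r hr => by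
      rw [uIoc_of_le zero_le_one] at hr
      exact h.vel_near hp hs hr.1.le hr.2)
  simpa using h1

lemma Sm.Ach_ne {s : ℂ} (hs : s = 1 ∨ s = -1) : Ach q s (x, y) ≠ 0 := by
  intro h0
  have h1 := h.Ach_near hp hs
  rw [h0] at h1
  simp at h1
  norm_num at h1

end

/-- `exp (2 i (ph - (Θ(x)+Θ(y))/2))` -/
def Vch (q : C(ℂ, ℂ)) (p : ℂ × ℂ) : ℂ :=
  Ach q 1 p / Ach q (-1) p * Complex.exp (-(Complex.I * (Tc q p.1 + Tc q p.2)))

/-- direction of the chord -/
def ph (q : C(ℂ, ℂ)) (p : ℂ × ℂ) : ℂ :=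
  (Tc q p.1 + Tc q p.2) / 2 + Complex.log (Vch q p) / (2 * Complex.I)

/-- chord length divided by `y - x` -/
def cl (q : C(ℂ, ℂ)) (p : ℂ × ℂ) : ℂ := Complex.exp (-(Complex.I * ph q p)) * Ach q 1 p

section

variable (h : Sm q η ρ₀ ε₀) {x y : ℂ} (hp : (x, y) ∈ Dg ρ₀ ε₀)

include h hp

lemma Sm.Vch_near : ‖Vch q (x, y) - 1‖ ≤ 1 / 5 := by
  set α := Ach q 1 (x, y) * (vel q 1 x)⁻¹ - 1 with hα
  set β := Ach q (-1) (x, y) * (vel q (-1) x)⁻¹ - 1 with hβ
  have h1 : ‖α‖ ≤ 7 / 100 := h.Ach_near hp (Or.inl rfl)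
  have h2 : ‖β‖ ≤ 7 / 100 := h.Ach_near hp (Or.inr rfl)
  have v1 := vel_ne (q := q) 1 x
  have v2 := vel_ne (q := q) (-1) x
  have e1 : Ach q 1 (x, y) = vel q 1 x * (1 + α) := by rw [hα]; field_simp; ring
  have e2 : Ach q (-1) (x, y) = vel q (-1) x * (1 + β) := by rw [hβ]; field_simp; ring
  have hβ1 : (93 / 100 : ℝ) ≤ ‖1 + β‖ := by
    have := norm_sub_norm_le (1 : ℂ) (-β)
    rw [norm_neg, norm_one, sub_neg_eq_add] at this
    linarith
  have hβ0 : 1 + β ≠ 0 := by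
    intro h0; rw [h0, norm_zero] at hβ1; linarith
  have e3 : Vch q (x, y) = (1 + (α - β) / (1 + β)) *
      Complex.exp (-(Complex.I * (Tc q y - Tc q x))) := by
    have e4 : vel q 1 x / vel q (-1) x * Complex.exp (-(Complex.I * (Tc q x + Tc q y))) =
        Complex.exp (-(Complex.I * (Tc q y - Tc q x))) := by
      unfold vel
      rw [← Complex.exp_sub, ← Complex.exp_add]
      congr 1
      ring
    rw [← e4]
    unfold Vch
    simp only
    rw [e1, e2]
    field_simp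
    ring
  have h3 : ‖(α - β) / (1 + β)‖ ≤ 151 / 1000 := by
    rw [norm_div, div_le_iff₀ (by linarith)]
    have := norm_sub_le α β
    nlinarith
  have h4 := h.Tc_le hp (r := 1) zero_le_one le_rfl
  simp only [Complex.ofReal_one, one_mul, add_sub_cancel] at h4
  have h5 : ‖Complex.exp (-(Complex.I * (Tc q y - Tc q x))) - 1‖ ≤ 22 / 1000 := by
    have h6 : ‖-(Complex.I * (Tc q y - Tc q x))‖ ≤ 11 / 1000 := by
      rw [norm_neg, norm_mul, Complex.norm_I, one_mul]; exact h4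
    refine (Complex.norm_exp_sub_one_le (by linarith)).trans ?_
    linarith
  rw [e3]
  set a := (α - β) / (1 + β)
  set b := Complex.exp (-(Complex.I * (Tc q y - Tc q x))) - 1 with hb
  have e5 : (1 + a) * Complex.exp (-(Complex.I * (Tc q y - Tc q x))) - 1 = a + b + a * b := by
    have : Complex.exp (-(Complex.I * (Tc q y - Tc q x))) = 1 + b := by rw [hb]; ring
    rw [this]; ring
  rw [e5]
  have h6 : ‖a + b + a * b‖ ≤ ‖a‖ + ‖b‖ + ‖a‖ * ‖b‖ := by
    refine (norm_add_le _ _).trans ?_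
    rw [norm_mul]
    have := norm_add_le a b
    linarith
  have h7 : ‖a‖ * ‖b‖ ≤ 151 / 1000 * (22 / 1000) :=
    mul_le_mul h3 h5 (norm_nonneg _) (by norm_num)
  linarith

lemma Sm.Vch_slit : Vch q (x, y) ∈ Complex.slitPlane := by
  have h1 := h.Vch_near hp
  have h2 : |(Vch q (x, y) - 1).re| ≤ 1 / 5 := (Complex.abs_re_le_norm _).trans h1
  rw [Complex.sub_re, Complex.one_re, abs_le] at h2
  exact Or.inl (by linarith [h2.1])

lemma Sm.Vch_ne : Vch q (x, y) ≠ 0 := Complex.slitPlane_ne_zero (h.Vch_slit hp)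

lemma Sm.log_le : ‖Complex.log (Vch q (x, y))‖ ≤ 1 / 4 := by
  have h1 := h.Vch_near hp
  have h2 := Complex.norm_log_one_add_le (z := Vch q (x, y) - 1) (by linarith)
  rw [add_sub_cancel] at h2
  refine h2.trans ?_
  set n := ‖Vch q (x, y) - 1‖
  have hn : 0 ≤ n := norm_nonneg _
  have h3 : (1 - n)⁻¹ ≤ 5 / 4 := by
    rw [inv_le_comm₀ (by linarith) (by norm_num)]
    norm_num
    linarith
  have h4 : n ^ 2 ≤ 1 / 25 := by nlinarith
  have h5 : n ^ 2 * (1 - n)⁻¹ ≤ 1 / 25 * (5 / 4) :=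
    mul_le_mul h4 h3 (by have : 0 < 1 - n := by linarith
                         positivity) (by norm_num)
  linarith

lemma Sm.exp_ph : Complex.exp (2 * (Complex.I * ph q (x, y))) =
    Ach q 1 (x, y) / Ach q (-1) (x, y) := by
  have h1 : 2 * (Complex.I * ph q (x, y)) =
      Complex.I * (Tc q x + Tc q y) + Complex.log (Vch q (x, y)) := by
    unfold ph
    have := Complex.I_ne_zero
    field_simp
  rw [h1, Complex.exp_add, Complex.exp_log (h.Vch_ne hp)]
  unfold Vch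
  simp only
  rw [mul_comm, mul_assoc, ← Complex.exp_add]
  simp

lemma Sm.cl_eq : cl q (x, y) = Complex.exp (Complex.I * ph q (x, y)) * Ach q (-1) (x, y) := by
  have h1 := h.exp_ph hp
  have h2 := h.Ach_ne hp (s := -1) (Or.inr rfl)
  unfold cl
  rw [eq_div_iff h2] at h1
  rw [← h1, ← mul_assoc, ← Complex.exp_add]
  congr 2
  ring

lemma Sm.chord1 : (y - x) * cl q (x, y) * Complex.exp (Complex.I * ph q (x, y)) =
    Zs q 1 y - Zs q 1 x := by
  rw [← h.dat.Ach_mul 1 (h.mx hp) (h.my hp)]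
  unfold cl
  have : Complex.exp (-(Complex.I * ph q (x, y))) * Complex.exp (Complex.I * ph q (x, y)) = 1 := by
    rw [← Complex.exp_add]; simp
  linear_combination (y - x) * Ach q 1 (x, y) * this

lemma Sm.chord2 : (y - x) * cl q (x, y) * Complex.exp (-(Complex.I * ph q (x, y))) =
    Zs q (-1) y - Zs q (-1) x := by
  rw [← h.dat.Ach_mul (-1) (h.mx hp) (h.my hp), h.cl_eq hp]
  have : Complex.exp (-(Complex.I * ph q (x, y))) * Complex.exp (Complex.I * ph q (x, y)) = 1 := by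
    rw [← Complex.exp_add]; simp
  linear_combination (y - x) * Ach q (-1) (x, y) * this

lemma Sm.ph_near : ‖ph q (x, y) - Tc q x‖ ≤ 1 / 5 ∧ ‖ph q (x, y) - Tc q y‖ ≤ 1 / 5 := by
  have h1 := h.log_le hp
  have h2 := h.Tc_le hp (r := 1) zero_le_one le_rfl
  simp only [Complex.ofReal_one, one_mul, add_sub_cancel] at h2
  have h3 : ‖Complex.log (Vch q (x, y)) / (2 * Complex.I)‖ ≤ 1 / 8 := by
    rw [norm_div, norm_mul, Complex.norm_I, mul_one, div_le_iff₀ (by norm_num)]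
    have : ‖(2 : ℂ)‖ = 2 := by norm_num
    rw [this]
    linarith
  have h4 : ‖(Tc q y - Tc q x) / 2‖ ≤ 11 / 2000 := by
    rw [norm_div]
    have : ‖(2 : ℂ)‖ = 2 := by norm_num
    rw [this]
    linarith
  constructor
  · have e1 : ph q (x, y) - Tc q x = (Tc q y - Tc q x) / 2 +
        Complex.log (Vch q (x, y)) / (2 * Complex.I) := by unfold ph; simp only; ring
    rw [e1]
    refine (norm_add_le _ _).trans ?_
    linarith
  · have e1 : ph q (x, y) - Tc q y = -((Tc q y - Tc q x) / 2) +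
        Complex.log (Vch q (x, y)) / (2 * Complex.I) := by unfold ph; simp only; ring
    rw [e1]
    refine (norm_add_le _ _).trans ?_
    rw [norm_neg]
    linarith

end

lemma Vch_diag (x : ℂ) : Vch q (x, x) = 1 := by
  unfold Vch
  rw [Ach_diag, Ach_diag]
  unfold vel
  simp only
  rw [← Complex.exp_sub, ← Complex.exp_add]
  have : -2 * q x + 1 * (Complex.I * Tc q x) - (-2 * q x + -1 * (Complex.I * Tc q x)) +
      -(Complex.I * (Tc q x + Tc q x)) = 0 := by ring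
  rw [this, Complex.exp_zero]

lemma ph_diag (x : ℂ) : ph q (x, x) = Tc q x := by
  unfold ph
  rw [Vch_diag, Complex.log_one]
  simp

lemma Vch_swap (x y : ℂ) : Vch q (y, x) = Vch q (x, y) := by
  unfold Vch
  rw [Ach_swap 1 x y, Ach_swap (-1) x y]
  simp only
  rw [add_comm (Tc q y)]

lemma ph_swap (x y : ℂ) : ph q (y, x) = ph q (x, y) := by
  unfold ph
  rw [Vch_swap]
  simp only
  rw [add_comm (Tc q y)]

lemma cl_swap (x y : ℂ) : cl q (y, x) = cl q (x, y) := by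
  unfold cl
  rw [ph_swap, Ach_swap]

lemma Sm.ph_diff (h : Sm q η ρ₀ ε₀) : DifferentiableOn ℂ (ph q) (Dg ρ₀ ε₀) := by
  have hsub : Dg ρ₀ ε₀ ⊆ Str η ×ˢ Str η := fun p hp =>
    ⟨lt_trans hp.1 h.lt, lt_trans hp.2.1 h.lt⟩
  have h1 := (h.dat.Ach_diff 1).mono hsub
  have h2 := (h.dat.Ach_diff (-1)).mono hsub
  have h3 : DifferentiableOn ℂ (fun p : ℂ × ℂ => Tc q p.1) (Dg ρ₀ ε₀) :=
    h.dat.Tc_diff.comp differentiable_fst.differentiableOn (fun p hp => (hsub hp).1)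
  have h4 : DifferentiableOn ℂ (fun p : ℂ × ℂ => Tc q p.2) (Dg ρ₀ ε₀) :=
    h.dat.Tc_diff.comp differentiable_snd.differentiableOn (fun p hp => (hsub hp).2)
  have hV : DifferentiableOn ℂ (Vch q) (Dg ρ₀ ε₀) := by
    have h5 := (h1.mul (h2.inv (fun (p : ℂ × ℂ) hp =>
      h.Ach_ne (x := p.1) (y := p.2) hp (Or.inr rfl)))).mul
      (((h3.add h4).const_mul Complex.I).neg.cexp)
    refine h5.congr (fun p _ => ?_)
    unfold Vch
    rw [div_eq_mul_inv]
    rfl
  have hL : DifferentiableOn ℂ (fun p : ℂ × ℂ => Complex.log (Vch q p)) (Dg ρ₀ ε₀) :=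
    hV.clog (fun (p : ℂ × ℂ) hp => h.Vch_slit (x := p.1) (y := p.2) hp)
  have h6 := ((h3.add h4).mul_const ((2 : ℂ)⁻¹)).add (hL.mul_const ((2 * Complex.I)⁻¹))
  refine h6.congr (fun p _ => ?_)
  unfold ph
  rw [div_eq_mul_inv, div_eq_mul_inv]
  rfl

lemma Sm.cl_diff (h : Sm q η ρ₀ ε₀) : DifferentiableOn ℂ (cl q) (Dg ρ₀ ε₀) := by
  have hsub : Dg ρ₀ ε₀ ⊆ Str η ×ˢ Str η := fun p hp =>
    ⟨lt_trans hp.1 h.lt, lt_trans hp.2.1 h.lt⟩
  exact ((h.ph_diff.const_mul Complex.I).neg.cexp).mul ((h.dat.Ach_diff 1).mono hsub)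

lemma Sm.ph_per (h : Sm q η ρ₀ ε₀) {x y : ℂ} (hp : (x, y) ∈ Dg ρ₀ ε₀) :
    ph q (x + 1, y + 1) = ph q (x, y) + 2 * Real.pi := by
  have e1 : Vch q (x + 1, y + 1) = Vch q (x, y) := by
    unfold Vch
    simp only
    rw [h.dat.Ach_per (Or.inl rfl) (h.mx hp) (h.my hp), h.dat.Ach_per (Or.inr rfl) (h.mx hp) (h.my hp),
      h.dat.Tc_per (h.mx hp), h.dat.Tc_per (h.my hp)]
    congr 1
    rw [Complex.exp_eq_exp_iff_exists_int]
    exact ⟨-2, by push_cast; ring⟩
  unfold ph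
  rw [e1]
  simp only
  rw [h.dat.Tc_per (h.mx hp), h.dat.Tc_per (h.my hp)]
  ring

lemma Sm.ph_conj (h : Sm q η ρ₀ ε₀) {x y : ℂ} (hp : (x, y) ∈ Dg ρ₀ ε₀) :
    ph q (conj x, conj y) = conj (ph q (x, y)) := by
  have hx := h.mx hp
  have hy := h.my hp
  have a1 := h.dat.Ach_conj hx hy
  have a2 : Ach q 1 (conj x, conj y) = conj (Ach q (-1) (x, y)) := by
    have := h.dat.Ach_conj (conj_mem_Str hx) (conj_mem_Str hy)
    rw [starRingEnd_self_apply, starRingEnd_self_apply] at this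
    rw [this, starRingEnd_self_apply]
  have e1 : Vch q (conj x, conj y) = (conj (Vch q (x, y)))⁻¹ := by
    unfold Vch
    simp only
    rw [a1, a2, h.dat.Tc_conj hx, h.dat.Tc_conj hy, map_mul, map_div₀, mul_inv, inv_div,
      ← Complex.exp_conj, ← Complex.exp_neg]
    congr 2
    simp only [map_neg, map_mul, map_add, Complex.conj_I]
    ring
  have hV := h.Vch_slit hp
  have e2 : Complex.log (Vch q (conj x, conj y)) = -conj (Complex.log (Vch q (x, y))) := by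
    have harg : Complex.arg (Vch q (x, y)) ≠ Real.pi := Complex.mem_slitPlane_iff_arg.1 hV |>.1
    have harg' : Complex.arg (conj (Vch q (x, y))) ≠ Real.pi := by
      have h1 : conj (Vch q (x, y)) ∈ Complex.slitPlane := by
        rw [Complex.mem_slitPlane_iff] at hV ⊢
        rcases hV with h1 | h1
        · exact Or.inl (by simpa using h1)
        · exact Or.inr (by simpa using h1)
      exact (Complex.mem_slitPlane_iff_arg.1 h1).1
    rw [e1, Complex.log_inv _ harg', Complex.log_conj _ harg]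
  unfold ph
  rw [e2]
  simp only [map_add, map_div₀, map_mul, Complex.conj_I, map_ofNat]
  rw [h.dat.Tc_conj hx, h.dat.Tc_conj hy]
  have := Complex.I_ne_zero
  field_simp

end Crest.Agent.R102.C0
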