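import Mathlib
import Crest.Agent.R102.Crd_821

/-!
Row 102, (C0), part 3: the Lagrangian of part (B) is `4 (arc - chord)`; its partial derivatives in
terms of the direction `ph` of the chord; the area form of the space of lines.
-/

set_option autoImplicit false

open Set Filter Topology MeasureTheory
open scoped ComplexConjugate

noncomputable section

namespace Crest.Agent.R102.C0

open Crest.Agent.R102.T5 Crest.Agent.R102.G576 Crest.Agent.R102.A929 Crest.Agent.R102.B821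

variable {q : C(ℂ, ℂ)} {η ρ₀ ε₀ : ℝ}

/-! ### real chords -/

lemma Sm.real_mem (h : Sm q η ρ₀ ε₀) {x y : ℝ} (hxy : |y - x| < ε₀) :
    ((x : ℂ), (y : ℂ)) ∈ Dg ρ₀ ε₀ := by
  refine ⟨real_mem_Str h.ρ_pos x, real_mem_Str h.ρ_pos y, ?_⟩
  simp only
  rw [← Complex.ofReal_sub, Complex.norm_real, Real.norm_eq_abs]
  exact hxy

/-- for real `x < y` the chord function is the euclidean length -/
lemma Sm.cl_real (h : Sm q η ρ₀ ε₀) {x y : ℝ} (hxy : x < y) (hxy' : y - x < ε₀) :
    ((y : ℂ) - x) * cl q (x, y) = ((‖Gc q y - Gc q x‖ : ℝ) : ℂ) := by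
  have hp : ((x : ℂ), (y : ℂ)) ∈ Dg ρ₀ ε₀ := h.real_mem (by rw [abs_of_pos (by linarith)]; exact hxy')
  have hph := h.ph_conj hp
  rw [Complex.conj_ofReal, Complex.conj_ofReal] at hph
  obtain ⟨f, hf⟩ : ∃ f : ℝ, ph q (x, y) = f := ⟨_, (Complex.conj_eq_iff_re.1 hph.symm).symm⟩
  have hA := h.dat.Ach_conj (h.mx hp) (h.my hp)
  rw [Complex.conj_ofReal, Complex.conj_ofReal] at hA
  have hcc : conj (cl q (x, y)) = cl q (x, y) := by
    conv_rhs => rw [h.cl_eq hp]
    unfold cl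
    rw [map_mul, ← Complex.exp_conj, ← hA]
    congr 2
    rw [hf]
    simp
  obtain ⟨c, hc⟩ : ∃ c : ℝ, cl q (x, y) = c := ⟨_, (Complex.conj_eq_iff_re.1 hcc).symm⟩
  have hpos : 0 < c := by
    set α := Ach q 1 ((x : ℂ), (y : ℂ)) * (vel q 1 x)⁻¹ - 1 with hα
    have h1 : ‖α‖ ≤ 7 / 100 := h.Ach_near hp (Or.inl rfl)
    have v1 := vel_ne (q := q) 1 (x : ℂ)
    have e1 : Ach q 1 ((x : ℂ), (y : ℂ)) = vel q 1 x * (1 + α) := by
      rw [hα]; field_simp; ring
    have h2 := (h.ph_near hp).1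
    set δ := ph q ((x : ℂ), (y : ℂ)) - Tc q x with hδ
    set β := Complex.exp (-(Complex.I * δ)) - 1 with hβ
    have h3 : ‖β‖ ≤ 2 / 5 := by
      have h4 : ‖-(Complex.I * δ)‖ ≤ 1 / 5 := by
        rw [norm_neg, norm_mul, Complex.norm_I, one_mul]; exact h2
      refine (Complex.norm_exp_sub_one_le (by linarith)).trans ?_
      linarith
    have e2 : cl q ((x : ℂ), (y : ℂ)) = ((Real.exp (-2 * qr q x) : ℝ) : ℂ) * ((1 + β) * (1 + α)) := by
      unfold cl
      rw [e1]
      have e3 : Complex.exp (-(Complex.I * ph q ((x : ℂ), (y : ℂ)))) * vel q 1 x =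
          ((Real.exp (-2 * qr q x) : ℝ) : ℂ) * (1 + β) := by
        rw [hβ, add_sub_cancel, Complex.ofReal_exp, ← Complex.exp_add]
        unfold vel
        rw [← Complex.exp_add, h.dat.q_real]
        congr 1
        rw [hδ]
        push_cast
        ring
      rw [← mul_assoc, e3, mul_assoc]
    rw [hc] at e2
    have e4 := congrArg Complex.re e2
    rw [Complex.re_ofReal_mul, Complex.ofReal_re] at e4
    have h5 : (1 / 2 : ℝ) ≤ ((1 + β) * (1 + α)).re := by
      have h6 : ‖(1 + β) * (1 + α) - 1‖ ≤ 1 / 2 := by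
        have : (1 + β) * (1 + α) - 1 = β + α + β * α := by ring
        rw [this]
        have h7 : ‖β + α + β * α‖ ≤ ‖β‖ + ‖α‖ + ‖β‖ * ‖α‖ := by
          refine (norm_add_le _ _).trans ?_
          rw [norm_mul]
          have := norm_add_le β α
          linarith
        have h8 : ‖β‖ * ‖α‖ ≤ 2 / 5 * (7 / 100) := mul_le_mul h3 h1 (norm_nonneg _) (by norm_num)
        linarith
      have h9 := (Complex.abs_re_le_norm _).trans h6
      rw [Complex.sub_re, Complex.one_re, abs_le] at h9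
      linarith [h9.1]
    rw [e4]
    have := Real.exp_pos (-2 * qr q x)
    nlinarith
  have hn : ‖(((y : ℂ) - x) * cl q (x, y))‖ = ‖Gc q y - Gc q x‖ := by
    rw [← h.dat.Zs_real, ← h.dat.Zs_real, ← h.chord1 hp, norm_mul _ (Complex.exp _)]
    have : ‖Complex.exp (Complex.I * ph q ((x : ℂ), (y : ℂ)))‖ = 1 := by
      rw [hf, mul_comm]; exact Complex.norm_exp_ofReal_mul_I f
    rw [this, mul_one]
  rw [← hn, hc, ← Complex.ofReal_sub, ← Complex.ofReal_mul, Complex.norm_real,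
    Real.norm_of_nonneg (mul_nonneg (by linarith) hpos.le)]

/-- **the Lagrangian is `4 (arc - chord)`** on the complex domain -/
theorem Sm.Lq_eq (h : Sm q η ρ₀ ε₀) {ρ C : ℝ} (hS : Sml q ρ C η ρ₀ ε₀) {x y : ℂ}
    (hp : (x, y) ∈ Dg ρ₀ ε₀) :
    Lq q (x, y) = 4 * (Sc q y - Sc q x - (y - x) * cl q (x, y)) := by
  have hsub : Dg ρ₀ ε₀ ⊆ Str η ×ˢ Str η := fun p hp =>
    ⟨lt_trans hp.1 h.lt, lt_trans hp.2.1 h.lt⟩
  have h3 : DifferentiableOn ℂ (fun p : ℂ × ℂ => Sc q p.1) (Dg ρ₀ ε₀) :=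
    h.dat.Sc_diff.comp differentiable_fst.differentiableOn (fun p hp => (hsub hp).1)
  have h4 : DifferentiableOn ℂ (fun p : ℂ × ℂ => Sc q p.2) (Dg ρ₀ ε₀) :=
    h.dat.Sc_diff.comp differentiable_snd.differentiableOn (fun p hp => (hsub hp).2)
  have h5 : DifferentiableOn ℂ (fun p : ℂ × ℂ =>
      4 * (Sc q p.2 - Sc q p.1 - (p.2 - p.1) * cl q p)) (Dg ρ₀ ε₀) := by
    refine ((h4.sub h3).sub (DifferentiableOn.mul (by fun_prop) h.cl_diff)).const_mul 4
  have := Dg_ident h.ρ_pos h.ε_pos (slD_of_diff hS.diff_Lq) (slD_of_diff h5)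
    (fun x y hxy hxy' => by
      have h1 := hS.real1 hxy hxy'
      have h2 : Lq q ((x : ℂ), (y : ℂ)) = ((4 * Mf q x y : ℝ) : ℂ) := h1.symm
      rw [h2]
      simp only
      rw [h.cl_real hxy hxy', h.dat.Sc_real, h.dat.Sc_real]
      unfold Mf
      push_cast
      ring) hp
  exact this

/-! ### partial derivatives -/

section partials

variable (h : Sm q η ρ₀ ε₀) {x y : ℂ} (hp : (x, y) ∈ Dg ρ₀ ε₀)

include h hp

lemma Sm.hph : DifferentiableAt ℂ (ph q) (x, y) :=
  h.ph_diff.differentiableAt ((isOpen_Dg ρ₀ ε₀).mem_nhds hp)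

lemma Sm.hcl : DifferentiableAt ℂ (cl q) (x, y) :=
  h.cl_diff.differentiableAt ((isOpen_Dg ρ₀ ε₀).mem_nhds hp)

lemma Sm.ph_y : HasDerivAt (fun y => ph q (x, y)) (q2 (ph q) (x, y)) y := by
  have := hasDerivAt_comp2 (F := ph q) (h.hph hp) (hasDerivAt_const y x) (hasDerivAt_id y)
  simpa using this

lemma Sm.ph_x : HasDerivAt (fun x => ph q (x, y)) (q1 (ph q) (x, y)) x := by
  have := hasDerivAt_comp2 (F := ph q) (h.hph hp) (hasDerivAt_id x) (hasDerivAt_const x y)
  simpa using this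

lemma Sm.cl_y : HasDerivAt (fun y => cl q (x, y)) (q2 (cl q) (x, y)) y := by
  have := hasDerivAt_comp2 (F := cl q) (h.hcl hp) (hasDerivAt_const y x) (hasDerivAt_id y)
  simpa using this

lemma Sm.cl_x : HasDerivAt (fun x => cl q (x, y)) (q1 (cl q) (x, y)) x := by
  have := hasDerivAt_comp2 (F := cl q) (h.hcl hp) (hasDerivAt_id x) (hasDerivAt_const x y)
  simpa using this

/-- `∂_y` of chord length and direction -/
lemma Sm.part_y : (cl q (x, y) + (y - x) * q2 (cl q) (x, y) =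
      Complex.exp (-2 * q y) * Complex.cos (Tc q y - ph q (x, y))) ∧
    ((y - x) * cl q (x, y) * q2 (ph q) (x, y) =
      Complex.exp (-2 * q y) * Complex.sin (Tc q y - ph q (x, y))) := by
  have hev : ∀ᶠ y' in 𝓝 y, (x, y') ∈ Dg ρ₀ ε₀ := by
    have hc : ContinuousAt (fun y' : ℂ => (x, y')) y := by fun_prop
    exact hc.eventually ((isOpen_Dg ρ₀ ε₀).mem_nhds hp)
  have d1 : HasDerivAt (fun y => (y - x) * cl q (x, y))
      (1 * cl q (x, y) + (y - x) * q2 (cl q) (x, y)) y :=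
    ((hasDerivAt_id y).sub_const x).mul (h.cl_y hp)
  have d2 : HasDerivAt (fun y => Complex.exp (Complex.I * ph q (x, y)))
      (Complex.exp (Complex.I * ph q (x, y)) * (Complex.I * q2 (ph q) (x, y))) y :=
    ((h.ph_y hp).const_mul Complex.I).cexp
  have d3 : HasDerivAt (fun y => Complex.exp (-(Complex.I * ph q (x, y))))
      (Complex.exp (-(Complex.I * ph q (x, y))) * (-(Complex.I * q2 (ph q) (x, y)))) y :=
    ((h.ph_y hp).const_mul Complex.I).neg.cexp
  have e1 : HasDerivAt (fun y => (y - x) * cl q (x, y) * Complex.exp (Complex.I * ph q (x, y)))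
      (vel q 1 y) y := by
    refine ((h.dat.hasDerivAt_Zs 1 (h.my hp)).sub_const (Zs q 1 x)).congr_of_eventuallyEq ?_
    filter_upwards [hev] with y' hy'
    exact h.chord1 hy'
  have e2 : HasDerivAt (fun y => (y - x) * cl q (x, y) * Complex.exp (-(Complex.I * ph q (x, y))))
      (vel q (-1) y) y := by
    refine ((h.dat.hasDerivAt_Zs (-1) (h.my hp)).sub_const (Zs q (-1) x)).congr_of_eventuallyEq ?_
    filter_upwards [hev] with y' hy'
    exact h.chord2 hy'
  have f1 := e1.unique (d1.mul d2)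
  have f2 := e2.unique (d1.mul d3)
  set E := Complex.exp (Complex.I * ph q (x, y)) with hE
  have hE0 : E ≠ 0 := Complex.exp_ne_zero _
  have hEi : Complex.exp (-(Complex.I * ph q (x, y))) = E⁻¹ := Complex.exp_neg _
  rw [hEi] at f2
  have g1 : vel q 1 y * E⁻¹ = Complex.exp (-2 * q y) *
      Complex.exp ((Tc q y - ph q (x, y)) * Complex.I) := by
    rw [← hEi]
    unfold vel
    rw [← Complex.exp_add, ← Complex.exp_add]
    congr 1
    ring
  have g2 : vel q (-1) y * E = Complex.exp (-2 * q y) *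
      Complex.exp (-(Tc q y - ph q (x, y)) * Complex.I) := by
    rw [hE]
    unfold vel
    rw [← Complex.exp_add, ← Complex.exp_add]
    congr 1
    ring
  rw [f1] at g1
  rw [f2] at g2
  have k1 : (cl q (x, y) + (y - x) * q2 (cl q) (x, y)) +
      (y - x) * cl q (x, y) * (Complex.I * q2 (ph q) (x, y)) = Complex.exp (-2 * q y) *
      Complex.exp ((Tc q y - ph q (x, y)) * Complex.I) := by
    rw [← g1]; field_simp
  have k2 : (cl q (x, y) + (y - x) * q2 (cl q) (x, y)) -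
      (y - x) * cl q (x, y) * (Complex.I * q2 (ph q) (x, y)) = Complex.exp (-2 * q y) *
      Complex.exp (-(Tc q y - ph q (x, y)) * Complex.I) := by
    rw [← g2]; field_simp; ring
  have hI := Complex.I_sq
  constructor
  · rw [Complex.cos]
    linear_combination (1 / 2) * (k1 + k2)
  · rw [Complex.sin]
    linear_combination (-Complex.I / 2) * (k1 - k2) +
      (y - x) * cl q (x, y) * q2 (ph q) (x, y) * hI

/-- `∂_x` of chord length and direction -/
lemma Sm.part_x : (-cl q (x, y) + (y - x) * q1 (cl q) (x, y) =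
      -(Complex.exp (-2 * q x) * Complex.cos (Tc q x - ph q (x, y)))) ∧
    ((y - x) * cl q (x, y) * q1 (ph q) (x, y) =
      -(Complex.exp (-2 * q x) * Complex.sin (Tc q x - ph q (x, y)))) := by
  have hev : ∀ᶠ x' in 𝓝 x, (x', y) ∈ Dg ρ₀ ε₀ := by
    have hc : ContinuousAt (fun x' : ℂ => (x', y)) x := by fun_prop
    exact hc.eventually ((isOpen_Dg ρ₀ ε₀).mem_nhds hp)
  have d1 : HasDerivAt (fun x => (y - x) * cl q (x, y))
      ((-1) * cl q (x, y) + (y - x) * q1 (cl q) (x, y)) x :=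
    ((hasDerivAt_id x).const_sub y).mul (h.cl_x hp)
  have d2 : HasDerivAt (fun x => Complex.exp (Complex.I * ph q (x, y)))
      (Complex.exp (Complex.I * ph q (x, y)) * (Complex.I * q1 (ph q) (x, y))) x :=
    ((h.ph_x hp).const_mul Complex.I).cexp
  have d3 : HasDerivAt (fun x => Complex.exp (-(Complex.I * ph q (x, y))))
      (Complex.exp (-(Complex.I * ph q (x, y))) * (-(Complex.I * q1 (ph q) (x, y)))) x :=
    ((h.ph_x hp).const_mul Complex.I).neg.cexp
  have e1 : HasDerivAt (fun x => (y - x) * cl q (x, y) * Complex.exp (Complex.I * ph q (x, y)))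
      (-vel q 1 x) x := by
    refine ((h.dat.hasDerivAt_Zs 1 (h.mx hp)).const_sub (Zs q 1 y)).congr_of_eventuallyEq ?_
    filter_upwards [hev] with x' hx'
    exact h.chord1 hx'
  have e2 : HasDerivAt (fun x => (y - x) * cl q (x, y) * Complex.exp (-(Complex.I * ph q (x, y))))
      (-vel q (-1) x) x := by
    refine ((h.dat.hasDerivAt_Zs (-1) (h.mx hp)).const_sub (Zs q (-1) y)).congr_of_eventuallyEq ?_
    filter_upwards [hev] with x' hx'
    exact h.chord2 hx'
  have f1 := e1.unique (d1.mul d2)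
  have f2 := e2.unique (d1.mul d3)
  set E := Complex.exp (Complex.I * ph q (x, y)) with hE
  have hE0 : E ≠ 0 := Complex.exp_ne_zero _
  have hEi : Complex.exp (-(Complex.I * ph q (x, y))) = E⁻¹ := Complex.exp_neg _
  rw [hEi] at f2
  have g1 : -vel q 1 x * E⁻¹ = -(Complex.exp (-2 * q x) *
      Complex.exp ((Tc q x - ph q (x, y)) * Complex.I)) := by
    rw [← hEi, neg_mul]
    unfold vel
    rw [← Complex.exp_add, ← Complex.exp_add]
    congr 2
    ring
  have g2 : -vel q (-1) x * E = -(Complex.exp (-2 * q x) *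
      Complex.exp (-(Tc q x - ph q (x, y)) * Complex.I)) := by
    rw [hE, neg_mul]
    unfold vel
    rw [← Complex.exp_add, ← Complex.exp_add]
    congr 2
    ring
  rw [f1] at g1
  rw [f2] at g2
  have k1 : (-cl q (x, y) + (y - x) * q1 (cl q) (x, y)) +
      (y - x) * cl q (x, y) * (Complex.I * q1 (ph q) (x, y)) = -(Complex.exp (-2 * q x) *
      Complex.exp ((Tc q x - ph q (x, y)) * Complex.I)) := by
    rw [← g1]; field_simp
  have k2 : (-cl q (x, y) + (y - x) * q1 (cl q) (x, y)) -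
      (y - x) * cl q (x, y) * (Complex.I * q1 (ph q) (x, y)) = -(Complex.exp (-2 * q x) *
      Complex.exp (-(Tc q x - ph q (x, y)) * Complex.I)) := by
    rw [← g2]; field_simp; ring
  have hI := Complex.I_sq
  constructor
  · rw [Complex.cos]
    linear_combination (1 / 2) * (k1 + k2)
  · rw [Complex.sin]
    linear_combination (-Complex.I / 2) * (k1 - k2) +
      (y - x) * cl q (x, y) * q1 (ph q) (x, y) * hI

variable {ρ C : ℝ} (hS : Sml q ρ C η ρ₀ ε₀)

include hS

lemma Sm.Lq_y : q2 (Lq q) (x, y) =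
    4 * (Complex.exp (-2 * q y) * (1 - Complex.cos (Tc q y - ph q (x, y)))) := by
  have hev : ∀ᶠ y' in 𝓝 y, (x, y') ∈ Dg ρ₀ ε₀ := by
    have hc : ContinuousAt (fun y' : ℂ => (x, y')) y := by fun_prop
    exact hc.eventually ((isOpen_Dg ρ₀ ε₀).mem_nhds hp)
  have hL : DifferentiableAt ℂ (Lq q) (x, y) :=
    hS.diff_Lq.differentiableAt ((isOpen_Dg ρ₀ ε₀).mem_nhds hp)
  have d0 : HasDerivAt (fun y => Lq q (x, y)) (q2 (Lq q) (x, y)) y := by
    have := hasDerivAt_comp2 (F := Lq q) hL (hasDerivAt_const y x) (hasDerivAt_id y)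
    simpa using this
  have d1 : HasDerivAt (fun y => (y - x) * cl q (x, y))
      (1 * cl q (x, y) + (y - x) * q2 (cl q) (x, y)) y :=
    ((hasDerivAt_id y).sub_const x).mul (h.cl_y hp)
  have d2 := ((((h.dat.hasDerivAt_Sc (h.my hp)).sub_const (Sc q x)).sub d1).const_mul 4)
  have d3 := d2.congr_of_eventuallyEq (f₁ := fun y => Lq q (x, y)) (by
    filter_upwards [hev] with y' hy'
    exact h.Lq_eq hS hy')
  rw [d0.unique d3, one_mul, (h.part_y hp).1]
  ring

lemma Sm.Lq_x : q1 (Lq q) (x, y) =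
    -(4 * (Complex.exp (-2 * q x) * (1 - Complex.cos (Tc q x - ph q (x, y))))) := by
  have hev : ∀ᶠ x' in 𝓝 x, (x', y) ∈ Dg ρ₀ ε₀ := by
    have hc : ContinuousAt (fun x' : ℂ => (x', y)) x := by fun_prop
    exact hc.eventually ((isOpen_Dg ρ₀ ε₀).mem_nhds hp)
  have hL : DifferentiableAt ℂ (Lq q) (x, y) :=
    hS.diff_Lq.differentiableAt ((isOpen_Dg ρ₀ ε₀).mem_nhds hp)
  have d0 : HasDerivAt (fun x => Lq q (x, y)) (q1 (Lq q) (x, y)) x := by
    have := hasDerivAt_comp2 (F := Lq q) hL (hasDerivAt_id x) (hasDerivAt_const x y)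
    simpa using this
  have d1 : HasDerivAt (fun x => (y - x) * cl q (x, y))
      ((-1) * cl q (x, y) + (y - x) * q1 (cl q) (x, y)) x :=
    ((hasDerivAt_id x).const_sub y).mul (h.cl_x hp)
  have d2 := ((((h.dat.hasDerivAt_Sc (h.mx hp)).const_sub (Sc q y)).sub d1).const_mul 4)
  have d3 := d2.congr_of_eventuallyEq (f₁ := fun x => Lq q (x, y)) (by
    filter_upwards [hev] with x' hx'
    exact h.Lq_eq hS hx')
  rw [d0.unique d3, neg_one_mul, (h.part_x hp).1]
  ring

lemma Sm.Lq_xy : q2 (q1 (Lq q)) (x, y) =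
    4 * (Complex.exp (-2 * q x) * Complex.sin (Tc q x - ph q (x, y)) * q2 (ph q) (x, y)) := by
  have hev : ∀ᶠ y' in 𝓝 y, (x, y') ∈ Dg ρ₀ ε₀ := by
    have hc : ContinuousAt (fun y' : ℂ => (x, y')) y := by fun_prop
    exact hc.eventually ((isOpen_Dg ρ₀ ε₀).mem_nhds hp)
  have hL : DifferentiableAt ℂ (q1 (Lq q)) (x, y) :=
    (ana_q1 hS.isLag.anaL _ hp).differentiableAt
  have d0 : HasDerivAt (fun y => q1 (Lq q) (x, y)) (q2 (q1 (Lq q)) (x, y)) y := by
    have := hasDerivAt_comp2 (F := q1 (Lq q)) hL (hasDerivAt_const y x) (hasDerivAt_id y)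
    simpa using this
  have d1 : HasDerivAt (fun y => -(4 * (Complex.exp (-2 * q x) *
      (1 - Complex.cos (Tc q x - ph q (x, y))))))
      (-(4 * (Complex.exp (-2 * q x) *
      (-(-Complex.sin (Tc q x - ph q (x, y)) * (-(q2 (ph q) (x, y)))))))) y := by
    have e1 := ((h.ph_y hp).const_sub (Tc q x)).ccos
    exact (((e1.const_sub 1).const_mul _).const_mul 4).neg
  have d3 := d1.congr_of_eventuallyEq (f₁ := fun y => q1 (Lq q) (x, y)) (by
    filter_upwards [hev] with y' hy'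
    exact h.Lq_x hy' hS)
  rw [d0.unique d3]
  ring

end partials

/-! ### support function and area form -/

/-- `p = n(φ) · X` with `n(φ) = (- sin φ, cos φ)` for the line through `x` and `y` -/
def pc (q : C(ℂ, ℂ)) (p : ℂ × ℂ) : ℂ :=
  (Complex.exp (-(Complex.I * ph q p)) * Zs q 1 p.1 -
    Complex.exp (Complex.I * ph q p) * Zs q (-1) p.1) / (2 * Complex.I)

lemma Sm.pc_eq_snd (h : Sm q η ρ₀ ε₀) {x y : ℂ} (hp : (x, y) ∈ Dg ρ₀ ε₀) :
    pc q (x, y) = (Complex.exp (-(Complex.I * ph q (x, y))) * Zs q 1 y -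
      Complex.exp (Complex.I * ph q (x, y)) * Zs q (-1) y) / (2 * Complex.I) := by
  have h1 := h.chord1 hp
  have h2 := h.chord2 hp
  have : Complex.exp (-(Complex.I * ph q (x, y))) * Complex.exp (Complex.I * ph q (x, y)) = 1 := by
    rw [← Complex.exp_add]; simp
  unfold pc
  simp only
  congr 1
  linear_combination Complex.exp (-(Complex.I * ph q (x, y))) * h1 -
    Complex.exp (Complex.I * ph q (x, y)) * h2

lemma Sm.pc_diff (h : Sm q η ρ₀ ε₀) : DifferentiableOn ℂ (pc q) (Dg ρ₀ ε₀) := by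
  have hsub : Dg ρ₀ ε₀ ⊆ Str η ×ˢ Str η := fun p hp =>
    ⟨lt_trans hp.1 h.lt, lt_trans hp.2.1 h.lt⟩
  have h3 : ∀ s : ℂ, DifferentiableOn ℂ (fun p : ℂ × ℂ => Zs q s p.1) (Dg ρ₀ ε₀) := fun s =>
    (h.dat.Zs_diff s).comp differentiable_fst.differentiableOn (fun p hp => (hsub hp).1)
  have h4 := (((h.ph_diff.const_mul Complex.I).neg.cexp).mul (h3 1)).sub
    (((h.ph_diff.const_mul Complex.I).cexp).mul (h3 (-1)))
  refine (h4.mul_const ((2 * Complex.I)⁻¹)).congr (fun p _ => ?_)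
  unfold pc
  rw [div_eq_mul_inv]
  rfl

/-- **area form**: `dφ ∧ dp = - (1/4) L_12 dx ∧ dy` -/
theorem Sm.area (h : Sm q η ρ₀ ε₀) {ρ C : ℝ} (hS : Sml q ρ C η ρ₀ ε₀) {x y : ℂ}
    (hp : (x, y) ∈ Dg ρ₀ ε₀) :
    q1 (ph q) (x, y) * q2 (pc q) (x, y) - q2 (ph q) (x, y) * q1 (pc q) (x, y) =
      -(q2 (q1 (Lq q)) (x, y) / 4) := by
  have hd : DifferentiableAt ℂ (pc q) (x, y) :=
    h.pc_diff.differentiableAt ((isOpen_Dg ρ₀ ε₀).mem_nhds hp)
  have a1 : HasDerivAt (fun y => pc q (x, y)) (q2 (pc q) (x, y)) y := by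
    have := hasDerivAt_comp2 (F := pc q) hd (hasDerivAt_const y x) (hasDerivAt_id y)
    simpa using this
  have a2 : HasDerivAt (fun x => pc q (x, y)) (q1 (pc q) (x, y)) x := by
    have := hasDerivAt_comp2 (F := pc q) hd (hasDerivAt_id x) (hasDerivAt_const x y)
    simpa using this
  have b1 := ((((((h.ph_y hp).const_mul Complex.I).neg.cexp).mul_const (Zs q 1 x)).sub
    ((((h.ph_y hp).const_mul Complex.I).cexp).mul_const (Zs q (-1) x))).div_const (2 * Complex.I))
  have b2 := ((((((h.ph_x hp).const_mul Complex.I).neg.cexp).mul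
    (h.dat.hasDerivAt_Zs 1 (h.mx hp))).sub
    ((((h.ph_x hp).const_mul Complex.I).cexp).mul (h.dat.hasDerivAt_Zs (-1) (h.mx hp)))).div_const
    (2 * Complex.I))
  have c1 := a1.unique b1
  have c2 := a2.unique b2
  rw [c1, c2, h.Lq_xy hp hS]
  have g1 : Complex.exp (-(Complex.I * ph q (x, y))) * vel q 1 x = Complex.exp (-2 * q x) *
      Complex.exp ((Tc q x - ph q (x, y)) * Complex.I) := by
    unfold vel
    rw [← Complex.exp_add, ← Complex.exp_add]
    congr 1
    ring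
  have g2 : Complex.exp (Complex.I * ph q (x, y)) * vel q (-1) x = Complex.exp (-2 * q x) *
      Complex.exp (-(Tc q x - ph q (x, y)) * Complex.I) := by
    unfold vel
    rw [← Complex.exp_add, ← Complex.exp_add]
    congr 1
    ring
  rw [Complex.sin]
  have hI := Complex.I_ne_zero
  have hI2 := Complex.I_sq
  simp only [Pi.neg_apply]
  generalize Complex.exp ((Tc q x - ph q (x, y)) * Complex.I) = E1 at g1 ⊢
  generalize Complex.exp (-(Tc q x - ph q (x, y)) * Complex.I) = E2 at g2 ⊢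
  generalize Complex.exp (-2 * q x) = E3 at g1 g2 ⊢
  generalize Complex.exp (-(Complex.I * ph q (x, y))) = A at g1 ⊢
  generalize Complex.exp (Complex.I * ph q (x, y)) = B at g2 ⊢
  field_simp
  linear_combination (-q2 (ph q) (x, y)) * g1 + q2 (ph q) (x, y) * g2 +
    q2 (ph q) (x, y) * E3 * (E2 - E1) * hI2

end Crest.Agent.R102.C0
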