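import Mathlib
import Crest.Agent.R102.C0Defs_821
import Crest.Agent.R102.Lqc_821

/-!
Row 102, (C0): the analytic family of lines from the output of part (B), and
`PartCL → PartC`.
-/

set_option autoImplicit false

open Set Filter Topology MeasureTheory
open scoped ComplexConjugate

noncomputable section

namespace Crest.Agent.R102.C0

open Crest.Agent.R102.T5 Crest.Agent.R102.G576 Crest.Agent.R102.A929 Crest.Agent.R102.B821

variable {q : C(ℂ, ℂ)} {η ρ₀ ε₀ ρ r B ρq Cq : ℝ} {U : ℂ × ℂ → ℂ} {m₀ : ℂ → ℂ}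

/-- direction of the line `l(t, w)` -/
def phl (q : C(ℂ, ℂ)) (U : ℂ × ℂ → ℂ) (p : ℂ × ℂ) : ℂ :=
  ph q (tr (-(1 / 2)) (Xf U) p, tr (1 / 2) (Xf U) p)

/-- support function of the line `l(t, w)` -/
def pcl (q : C(ℂ, ℂ)) (U : ℂ × ℂ → ℂ) (p : ℂ × ℂ) : ℂ :=
  pc q (tr (-(1 / 2)) (Xf U) p, tr (1 / 2) (Xf U) p)

lemma sin_ne_zero_of_small {z : ℂ} (hz : ‖z‖ ≤ 1) (h0 : z ≠ 0) : Complex.sin z ≠ 0 := by
  intro hs
  rw [Complex.sin_eq_zero_iff] at hs
  obtain ⟨k, hk⟩ := hs
  rcases eq_or_ne k 0 with rfl | hk0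
  · exact h0 (by rw [hk]; simp)
  · have h1 : (1 : ℝ) ≤ |(k : ℝ)| := by
      exact_mod_cast Int.one_le_abs hk0
    rw [hk, norm_mul, Complex.norm_intCast, Complex.norm_real, Real.norm_of_nonneg Real.pi_pos.le]
      at hz
    have := Real.pi_gt_three
    nlinarith

/-- all data with common constants -/
structure Good (q : C(ℂ, ℂ)) (η ρ₀ ε₀ ρ r B : ℝ) (U : ℂ × ℂ → ℂ) (m₀ : ℂ → ℂ) (ρq Cq : ℝ) :
    Prop where
  sm : Sm q η ρ₀ ε₀
  sml : Sml q ρq Cq η ρ₀ ε₀
  adm : Adm ρ₀ ε₀ ρ r U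
  B_nn : 0 ≤ B
  B_le : B * r ≤ ρ / 2
  bdd : Bdd (1 / 2) ρ r 2 B U
  el : ∀ p ∈ Dom (3 / 2) ρ r, Ef (Lq q) U p = 0
  m_diff : DifferentiableOn ℂ m₀ (Metric.ball 0 r)
  area : ∀ p ∈ Dom 1 ρ r, muf (Lq q) U p = p.2 * m₀ p.2
  m_near : ∀ w : ℂ, ‖w‖ < r → ‖m₀ w - 1‖ ≤ 1 / 8

theorem good_of_leaves (hD : Datum q η) (hlt : ρ₀ < η) (hl : Leaves q ρ₀ ε₀ ρ r B U m₀) :
    ∃ ρq Cq ε' r' : ℝ, Good q η ρ₀ ε' ρ r' B U m₀ ρq Cq := by
  have hρ₀ := hl.lag.ρ_pos
  obtain ⟨ρq, Cq, εq, hq⟩ := exists_sml hD.diff hD.per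
    (fun x => by rw [hD.q_real]; simp) hρ₀ hlt
  obtain ⟨ε1, h1⟩ := hD.exists_Sm hρ₀ hlt
  have hε₀ := hl.lag.ε_pos
  have hr := hl.adm.r_pos
  have hρ := hl.adm.ρ_pos
  have hB := hl.B_nn
  set ε' : ℝ := min εq (min ε1 ε₀) with hε'
  have hε'0 : 0 < ε' := lt_min hq.ε_pos (lt_min h1.ε_pos hε₀)
  have a1 : ε' ≤ εq := min_le_left _ _
  have a2 : ε' ≤ ε1 := (min_le_right _ _).trans (min_le_left _ _)
  set r' : ℝ := min r (min (ε' / 4) (ρ / (2 * (B + 1)))) with hr'
  have hr'0 : 0 < r' := lt_min hr (lt_min (by positivity) (by positivity))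
  have b1 : r' ≤ r := min_le_left _ _
  have b2 : r' ≤ ε' / 4 := (min_le_right _ _).trans (min_le_left _ _)
  have b3 : r' ≤ ρ / (2 * (B + 1)) := (min_le_right _ _).trans (min_le_right _ _)
  have hadm0 := hl.adm.mono (ρ' := ρ) (r' := r') le_rfl b1 hρ hr'0 (by
    have := hl.adm.r_le_ρ
    linarith)
  refine ⟨ρq, Cq, ε', r', h1.mono hρ₀ le_rfl hε'0 a2, ?_, ?_, hB, ?_, ?_, ?_, ?_, ?_, ?_⟩
  · exact ⟨hq.loc, hq.ρ_pos, hq.lt, hε'0, hq.hd, hq.per, hq.real, fun x e hx hxe he =>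
      hq.sm x e hx hxe (lt_of_lt_of_le he a1)⟩
  · exact { hadm0 with r_le_ε := by linarith }
  · rw [le_div_iff₀ (by positivity)] at b3
    nlinarith
  · exact fun p hp => hl.bdd p (Dom_mono le_rfl le_rfl b1 hp)
  · exact fun p hp => hl.el p (Dom_mono le_rfl le_rfl b1 hp)
  · exact hl.m_diff.mono (Metric.ball_subset_ball b1)
  · exact fun p hp => hl.area p (Dom_mono le_rfl le_rfl b1 hp)
  · exact fun w hw => hl.m_near w (lt_of_lt_of_le hw b1)

section

variable (h : Good q η ρ₀ ε₀ ρ r B U m₀ ρq Cq)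

include h

lemma Good.pair {p : ℂ × ℂ} (hp : p ∈ Dom 1 ρ r) :
    (tr (-(1 / 2)) (Xf U) p, tr (1 / 2) (Xf U) p) ∈ Dg ρ₀ ε₀ := h.adm.pair_half h.sml.isLag hp

lemma Good.U_zero {t : ℂ} (ht : |t.im| < ρ) : U (t, 0) = 0 := by
  have h1 := h.bdd (t, 0) ⟨by simpa using ht, by simpa using h.adm.r_pos⟩
  simpa using h1

lemma Good.zero_mem {k : ℝ} {t : ℂ} (ht : |t.im| < ρ) : ((t, 0) : ℂ × ℂ) ∈ Dom k ρ r :=
  ⟨by simpa using ht, by simpa using h.adm.r_pos⟩

lemma Good.tr_zero' {c : ℝ} {t : ℂ} (ht : |t.im| < ρ) : tr c (Xf U) (t, 0) = t := by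
  unfold tr Xf
  simp only [mul_zero, add_zero]
  rw [h.U_zero ht, add_zero]

/-! ### differentiability -/

lemma Good.Xtr_diff (c : ℝ) : DifferentiableOn ℂ (tr c (Xf U)) (Dom (1 / 2 + |c|) ρ r) :=
  (h.adm.hU.isX.tr c).diff

lemma Good.pair_diff :
    DifferentiableOn ℂ (fun p => (tr (-(1 / 2)) (Xf U) p, tr (1 / 2) (Xf U) p)) (Dom 1 ρ r) := by
  have h1 := h.Xtr_diff (-(1 / 2))
  have h2 := h.Xtr_diff (1 / 2)
  have e : |(1 / 2 : ℝ)| = 1 / 2 := by norm_num
  rw [abs_neg, e] at h1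
  rw [e] at h2
  norm_num at h1 h2
  refine DifferentiableOn.prodMk ?_ ?_
  · simpa using h1
  · simpa using h2

lemma Good.phl_diff : DifferentiableOn ℂ (phl q U) (Dom 1 ρ r) :=
  h.sm.ph_diff.comp h.pair_diff (fun _ hp => h.pair hp)

lemma Good.pcl_diff : DifferentiableOn ℂ (pcl q U) (Dom 1 ρ r) :=
  h.sm.pc_diff.comp h.pair_diff (fun _ hp => h.pair hp)

/-! ### symmetries -/

lemma Good.Xtr_per {c : ℝ} {t w : ℂ} (hp : (t, w) ∈ Dom (1 / 2 + |c|) ρ r) :
    tr c (Xf U) (t + 1, w) = tr c (Xf U) (t, w) + 1 := (h.adm.hU.isX.tr c).per t w hp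

lemma Good.Xm_per {t w : ℂ} (hp : (t, w) ∈ Dom 1 ρ r) :
    tr (-(1 / 2)) (Xf U) (t + 1, w) = tr (-(1 / 2)) (Xf U) (t, w) + 1 := by
  refine h.Xtr_per ?_
  have e : |(-(1 / 2) : ℝ)| = 1 / 2 := by norm_num [abs_of_pos]
  rw [e]
  norm_num
  exact hp

lemma Good.Xp_per {t w : ℂ} (hp : (t, w) ∈ Dom 1 ρ r) :
    tr (1 / 2) (Xf U) (t + 1, w) = tr (1 / 2) (Xf U) (t, w) + 1 := by
  refine h.Xtr_per ?_
  have e : |(1 / 2 : ℝ)| = 1 / 2 := by norm_num
  rw [e]
  norm_num
  exact hp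

lemma Good.phl_per {t w : ℂ} (hp : (t, w) ∈ Dom 1 ρ r) :
    phl q U (t + 1, w) = phl q U (t, w) + 2 * Real.pi := by
  unfold phl
  rw [h.Xm_per hp, h.Xp_per hp, h.sm.ph_per (h.pair hp)]

lemma Good.pcl_per {t w : ℂ} (hp : (t, w) ∈ Dom 1 ρ r) :
    pcl q U (t + 1, w) = pcl q U (t, w) := by
  have hm := h.pair hp
  unfold pcl pc
  rw [h.Xm_per hp, h.Xp_per hp, h.sm.ph_per hm]
  simp only
  rw [h.sm.dat.Zs_per (h.sm.mx hm) (Or.inl rfl), h.sm.dat.Zs_per (h.sm.mx hm) (Or.inr rfl)]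
  set f := ph q (tr (-(1 / 2)) (Xf U) (t, w), tr (1 / 2) (Xf U) (t, w))
  have e1 : Complex.exp (-(Complex.I * (f + 2 * Real.pi))) = Complex.exp (-(Complex.I * f)) := by
    rw [Complex.exp_eq_exp_iff_exists_int]
    exact ⟨-1, by push_cast; ring⟩
  have e2 : Complex.exp (Complex.I * (f + 2 * Real.pi)) = Complex.exp (Complex.I * f) := by
    rw [Complex.exp_eq_exp_iff_exists_int]
    exact ⟨1, by push_cast; ring⟩
  rw [e1, e2]

lemma Good.X_neg {t w : ℂ} (hp : (t, w) ∈ Dom 1 ρ r) :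
    tr (-(1 / 2)) (Xf U) (t, -w) = tr (1 / 2) (Xf U) (t, w) ∧
    tr (1 / 2) (Xf U) (t, -w) = tr (-(1 / 2)) (Xf U) (t, w) := by
  have h1 := h.adm.Xf_par (-(1 / 2)) (k' := 1) (by norm_num [abs_of_pos]) hp
  have h2 := h.adm.Xf_par (1 / 2) (k' := 1) (by norm_num [abs_of_pos]) hp
  rw [neg_neg] at h1
  exact ⟨h1, h2⟩

lemma Good.phl_even {t w : ℂ} (hp : (t, w) ∈ Dom 1 ρ r) :
    phl q U (t, -w) = phl q U (t, w) := by
  unfold phl
  rw [(h.X_neg hp).1, (h.X_neg hp).2, ph_swap]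

lemma Good.pcl_even {t w : ℂ} (hp : (t, w) ∈ Dom 1 ρ r) :
    pcl q U (t, -w) = pcl q U (t, w) := by
  unfold pcl
  rw [(h.X_neg hp).1, (h.X_neg hp).2, h.sm.pc_eq_snd (h.pair hp)]
  unfold pc
  simp only
  rw [ph_swap]

lemma Good.X_conj {c : ℝ} (hc : |c| = 1 / 2) {t w : ℂ} (hp : (t, w) ∈ Dom 1 ρ r) :
    tr c (Xf U) (conj t, conj w) = conj (tr c (Xf U) (t, w)) :=
  h.adm.Xf_re c (k' := 1) (by rw [hc]; norm_num) hp

lemma Good.phl_conj {t w : ℂ} (hp : (t, w) ∈ Dom 1 ρ r) :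
    phl q U (conj t, conj w) = conj (phl q U (t, w)) := by
  unfold phl
  rw [h.X_conj (by norm_num [abs_of_pos]) hp, h.X_conj (by norm_num) hp,
    h.sm.ph_conj (h.pair hp)]

lemma Good.pcl_conj {t w : ℂ} (hp : (t, w) ∈ Dom 1 ρ r) :
    pcl q U (conj t, conj w) = conj (pcl q U (t, w)) := by
  have hm := h.pair hp
  unfold pcl pc
  rw [h.X_conj (by norm_num [abs_of_pos]) hp, h.X_conj (by norm_num) hp, h.sm.ph_conj hm]
  simp only
  have hx := h.sm.mx hm
  have a1 := h.sm.dat.Zs_conj hx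
  have a2 : Zs q 1 (conj (tr (-(1 / 2)) (Xf U) (t, w))) =
      conj (Zs q (-1) (tr (-(1 / 2)) (Xf U) (t, w))) := by
    have := h.sm.dat.Zs_conj (conj_mem_Str hx)
    rw [starRingEnd_self_apply] at this
    rw [this, starRingEnd_self_apply]
  rw [a1, a2]
  simp only [map_div₀, map_sub, map_mul, ← Complex.exp_conj, map_neg, Complex.conj_I, map_ofNat]
  have := Complex.I_ne_zero
  field_simp
  ring_nf

lemma Good.phl_zero {t : ℂ} (ht : |t.im| < ρ) : phl q U (t, 0) = Tc q t := by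
  unfold phl
  rw [h.tr_zero' ht, h.tr_zero' ht, ph_diag]

/-! ### reflection -/

lemma Good.hasDerivAt_X_zero {c : ℝ} {t : ℂ} (ht : |t.im| < ρ) :
    HasDerivAt (fun w => tr c (Xf U) (t, w)) (c : ℂ) 0 := by
  have hm : ((t, 0) : ℂ × ℂ) ∈ Dom (1 / 2) ρ r := h.zero_mem ht
  have hU : DifferentiableAt ℂ U (t + c * 0, 0) := by
    rw [mul_zero, add_zero]; exact h.adm.hU.differentiableAt hm
  have h1 := hasDerivAt_Xf_w (c := c) (U := U) (t := t) (w := 0) hU
  have hUd : DifferentiableAt ℂ U (t, 0) := h.adm.hU.differentiableAt hm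
  have h2 : q2 U (t, 0) = 0 := by
    have e1 := hasDerivAt_snd hUd
    have e2 : HasDerivAt (fun s => U (t, s)) 0 0 := by
      rw [hasDerivAt_iff_isLittleO_nhds_zero]
      have hev : ∀ᶠ s : ℂ in 𝓝 0, (t, s) ∈ Dom (1 / 2) ρ r := by
        have hc : ContinuousAt (fun s : ℂ => (t, s)) 0 := by fun_prop
        exact hc.eventually ((isOpen_Dom _ _ _).mem_nhds hm)
      have hO : (fun s => U (t, 0 + s) - U (t, 0) - s • (0 : ℂ)) =O[𝓝 0] fun s : ℂ => s ^ 2 := by
        refine Asymptotics.IsBigO.of_bound B ?_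
        filter_upwards [hev] with s hs
        have := h.bdd _ hs
        rw [smul_zero, sub_zero, h.U_zero ht, sub_zero, zero_add, norm_pow]
        exact this
      refine hO.trans_isLittleO ?_
      have := Asymptotics.isLittleO_pow_id (𝕜 := ℂ) (n := 2) (by norm_num)
      exact this
    exact e1.unique e2
  have h3 : q1 U (t, 0) = 0 := by
    have e1 := hasDerivAt_fst hUd
    have e2 : HasDerivAt (fun s => U (s, 0)) 0 t := by
      refine (hasDerivAt_const t (0 : ℂ)).congr_of_eventuallyEq ?_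
      have : ∀ᶠ s : ℂ in 𝓝 t, |s.im| < ρ :=
        (isOpen_lt (by fun_prop) continuous_const).mem_nhds ht
      filter_upwards [this] with s hs
      exact h.U_zero hs
    exact e1.unique e2
  refine h1.congr_deriv ?_
  unfold tr Xw Xt
  simp only [mul_zero, add_zero]
  rw [h2, h3]
  ring

/-- **law of reflection** -/
theorem Good.refl {t w : ℂ} (hp : (t, w) ∈ Dom (3 / 2) ρ r) :
    ph q (tr (-1) (Xf U) (t, w), Xf U (t, w)) + ph q (Xf U (t, w), tr 1 (Xf U) (t, w)) =
      2 * Tc q (Xf U (t, w)) := by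
  have ht : |t.im| < ρ := by
    have := hp.1
    simp only at this
    have := abs_nonneg w.im
    linarith
  set S : Set ℂ := {w | (t, w) ∈ Dom (3 / 2) ρ r} with hS
  have hSo : IsOpen S := (isOpen_Dom _ _ _).preimage (by fun_prop)
  have hSc : IsPreconnected S := by
    have : Convex ℝ S := by
      intro a ha b hb s s' hs hs' hss
      have ha1 := ha.1
      have hb1 := hb.1
      have ha2 : ‖a‖ < r := ha.2
      have hb2 : ‖b‖ < r := hb.2
      simp only at ha1 hb1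
      refine ⟨?_, ?_⟩
      · simp only [Complex.real_smul, Complex.add_im, Complex.im_ofReal_mul]
        have h1 : |s * a.im + s' * b.im| ≤ s * |a.im| + s' * |b.im| := by
          refine (abs_add_le _ _).trans ?_
          rw [abs_mul, abs_mul, abs_of_nonneg hs, abs_of_nonneg hs']
        have h2 : s' = 1 - s := by linarith
        subst h2
        rcases eq_or_lt_of_le hs with h0 | h0
        · rw [← h0] at h1 ⊢
          simp only [zero_mul, sub_zero, one_mul, zero_add] at h1 ⊢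
          linarith
        · nlinarith
      · have h1 : ‖s • a + s' • b‖ ≤ s * ‖a‖ + s' * ‖b‖ := by
          refine (norm_add_le _ _).trans ?_
          rw [norm_smul, norm_smul, Real.norm_of_nonneg hs, Real.norm_of_nonneg hs']
        have h2 : s' = 1 - s := by linarith
        subst h2
        simp only
        rcases eq_or_lt_of_le hs with h0 | h0
        · rw [← h0] at h1 ⊢
          simp only [zero_mul, sub_zero, one_mul, zero_add] at h1 ⊢
          linarith
        · nlinarith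
    exact this.isPreconnected
  have h0S : (0 : ℂ) ∈ S := h.zero_mem ht
  have hmem := fun (w : ℂ) (hw : w ∈ S) => h.adm.mem3 h.sml.isLag hw
  -- the functions
  have dX : ∀ w ∈ S, DifferentiableAt ℂ (fun w => Xf U (t, w)) w := by
    intro w hw
    have h1 := hasDerivAt_Xf_w (c := 0) (U := U) (t := t) (w := w) (by
      rw [Complex.ofReal_zero, zero_mul, add_zero]
      exact h.adm.hU.differentiableAt (h.adm.mem_0 hw))
    have h2 : (fun s => tr 0 (Xf U) (t, s)) = fun s => Xf U (t, s) := by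
      funext s; exact tr_zero _ _
    rw [h2] at h1
    exact h1.differentiableAt
  have dXp : ∀ w ∈ S, DifferentiableAt ℂ (fun w => tr 1 (Xf U) (t, w)) w := by
    intro w hw
    exact (hasDerivAt_Xf_w (c := 1) (U := U) (t := t) (w := w)
      (h.adm.hU.differentiableAt (h.adm.mem_p hw))).differentiableAt
  have dXm : ∀ w ∈ S, DifferentiableAt ℂ (fun w => tr (-1) (Xf U) (t, w)) w := by
    intro w hw
    exact (hasDerivAt_Xf_w (c := -1) (U := U) (t := t) (w := w)
      (h.adm.hU.differentiableAt (h.adm.mem_m hw))).differentiableAt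
  set a : ℂ → ℂ := fun w => ph q (Xf U (t, w), tr 1 (Xf U) (t, w)) with ha
  set c : ℂ → ℂ := fun w => ph q (tr (-1) (Xf U) (t, w), Xf U (t, w)) with hc
  set T : ℂ → ℂ := fun w => Tc q (Xf U (t, w)) with hT
  have da : DifferentiableOn ℂ a S := by
    intro w hw
    have h1 := h.sm.hph (hmem w hw).2
    exact (DifferentiableAt.comp (g := ph q) (f := fun w => (Xf U (t, w), tr 1 (Xf U) (t, w))) w
      h1 ((dX w hw).prodMk (dXp w hw))).differentiableWithinAt
  have dc : DifferentiableOn ℂ c S := by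
    intro w hw
    have h1 := h.sm.hph (hmem w hw).1
    exact (DifferentiableAt.comp (g := ph q) (f := fun w => (tr (-1) (Xf U) (t, w), Xf U (t, w))) w
      h1 ((dXm w hw).prodMk (dX w hw))).differentiableWithinAt
  have dT : DifferentiableOn ℂ T S := by
    intro w hw
    have h1 := (h.sm.dat.hasDerivAt_Tc (h.sm.mx (hmem w hw).2)).differentiableAt
    exact (DifferentiableAt.comp (g := Tc q) (f := fun w => Xf U (t, w)) w
      h1 (dX w hw)).differentiableWithinAt
  -- bounds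
  have ba : ∀ w ∈ S, ‖a w - T w‖ ≤ 1 / 5 := fun w hw => (h.sm.ph_near (hmem w hw).2).1
  have bc : ∀ w ∈ S, ‖c w - T w‖ ≤ 1 / 5 := fun w hw => (h.sm.ph_near (hmem w hw).1).2
  -- Euler-Lagrange
  have hEL : ∀ w ∈ S, Complex.cos (T w - c w) = Complex.cos (T w - a w) := by
    intro w hw
    have h1 := h.el (t, w) hw
    unfold B821.Ef B821.EL at h1
    rw [h.sm.Lq_y (hmem w hw).1 h.sml, h.sm.Lq_x (hmem w hw).2 h.sml] at h1
    have h2 := Complex.exp_ne_zero (-2 * q (Xf U (t, w)))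
    have h3 : Complex.exp (-2 * q (Xf U (t, w))) * (Complex.cos (T w - a w) -
        Complex.cos (T w - c w)) = 0 := by
      simp only [ha, hc, hT]
      linear_combination h1 / 4
    rcases mul_eq_zero.1 h3 with h4 | h4
    · exact absurd h4 h2
    · exact (sub_eq_zero.1 h4).symm
  have hsin : ∀ w ∈ S, Complex.sin ((a w + c w - 2 * T w) / 2) *
      Complex.sin ((a w - c w) / 2) = 0 := by
    intro w hw
    have h1 := Complex.cos_sub_cos (T w - c w) (T w - a w)
    rw [hEL w hw, sub_self] at h1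
    have e1 : (T w - c w + (T w - a w)) / 2 = -((a w + c w - 2 * T w) / 2) := by ring
    have e2 : (T w - c w - (T w - a w)) / 2 = (a w - c w) / 2 := by ring
    rw [e1, e2, Complex.sin_neg] at h1
    linear_combination (-1 / 2) * h1
  -- the derivative of a - c at 0
  have hXt0 : Xf U (t, 0) = t := by
    have := h.tr_zero' (c := 0) ht
    rwa [tr_zero] at this
  have htt : ((t, t) : ℂ × ℂ) ∈ Dg ρ₀ ε₀ := by
    have := (hmem 0 h0S).2
    rw [hXt0, h.tr_zero' ht] at this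
    exact this
  have hdiag : q1 (ph q) (t, t) + q2 (ph q) (t, t) = Complex.exp (q t) := by
    have h1 := hasDerivAt_comp2 (F := ph q) (x := fun s => s) (y := fun s => s) (s := t)
      (h.sm.hph htt) (hasDerivAt_id t) (hasDerivAt_id t)
    have h2 : (fun s => ph q (s, s)) = Tc q := funext (fun s => ph_diag s)
    rw [h2] at h1
    have h3 := h1.unique (h.sm.dat.hasDerivAt_Tc (h.sm.mx htt))
    rw [mul_one, mul_one] at h3
    exact h3
  have hd0 : HasDerivAt (fun w => a w - c w) (Complex.exp (q t)) 0 := by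
    have x0 := h.hasDerivAt_X_zero (c := 0) ht
    have e0 : (fun w => tr 0 (Xf U) (t, w)) = fun w => Xf U (t, w) := by
      funext s; exact tr_zero _ _
    rw [e0] at x0
    have x1 := h.hasDerivAt_X_zero (c := 1) ht
    have x2 := h.hasDerivAt_X_zero (c := -1) ht
    have f1 : DifferentiableAt ℂ (ph q) (Xf U (t, 0), tr 1 (Xf U) (t, 0)) := by
      rw [hXt0, h.tr_zero' ht]; exact h.sm.hph htt
    have f2 : DifferentiableAt ℂ (ph q) (tr (-1) (Xf U) (t, 0), Xf U (t, 0)) := by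
      rw [hXt0, h.tr_zero' ht]; exact h.sm.hph htt
    have h1 := hasDerivAt_comp2 (F := ph q) (s := 0) f1 x0 x1
    have h2 := hasDerivAt_comp2 (F := ph q) (s := 0) f2 x2 x0
    refine (h1.sub h2).congr_deriv ?_
    rw [hXt0, h.tr_zero' ht, h.tr_zero' ht, ← hdiag]
    push_cast
    ring
  have hne : ∀ᶠ w in 𝓝[≠] (0 : ℂ), a w - c w ≠ 0 := by
    have h1 := hd0.eventually_ne (Complex.exp_ne_zero _) (c := 0)
    exact h1
  have hF0 : ∀ᶠ w in 𝓝[≠] (0 : ℂ), a w + c w - 2 * T w = 0 := by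
    have hSn : ∀ᶠ w in 𝓝[≠] (0 : ℂ), w ∈ S := nhdsWithin_le_nhds (hSo.mem_nhds h0S)
    filter_upwards [hne, hSn] with w hw hwS
    have b1 := ba w hwS
    have b2 := bc w hwS
    have h2 : ‖(2 : ℂ)‖ = 2 := by norm_num
    have hG : ‖(a w - c w) / 2‖ ≤ 1 := by
      rw [norm_div, h2]
      have : a w - c w = (a w - T w) - (c w - T w) := by ring
      rw [this]
      have := norm_sub_le (a w - T w) (c w - T w)
      linarith
    have hFn : ‖(a w + c w - 2 * T w) / 2‖ ≤ 1 := by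
      rw [norm_div, h2]
      have : a w + c w - 2 * T w = (a w - T w) + (c w - T w) := by ring
      rw [this]
      have := norm_add_le (a w - T w) (c w - T w)
      linarith
    have h3 : Complex.sin ((a w - c w) / 2) ≠ 0 :=
      sin_ne_zero_of_small hG (div_ne_zero hw (by norm_num))
    have h4 := (mul_eq_zero.1 (hsin w hwS)).resolve_right h3
    by_contra h5
    exact sin_ne_zero_of_small hFn (div_ne_zero h5 (by norm_num)) h4
  have hFd : DifferentiableOn ℂ (fun w => a w + c w - 2 * T w) S :=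
    (da.add dc).sub (dT.const_mul 2)
  have hid : EqOn (fun w => a w + c w - 2 * T w) (fun _ => 0) S :=
    (hFd.analyticOnNhd hSo).eqOn_of_preconnected_of_frequently_eq
      analyticOnNhd_const hSc h0S hF0.frequently
  have := hid hp
  simp only [ha, hc, hT] at this
  linear_combination this

/-! ### area form -/

theorem Good.area_form {t w : ℂ} (hp : (t, w) ∈ Dom 1 ρ r) :
    q1 (phl q U) (t, w) * q2 (pcl q U) (t, w) - q2 (phl q U) (t, w) * q1 (pcl q U) (t, w) =
      w / 4 * m₀ w := by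
  have hm := h.pair hp
  have e12 : |(1 / 2 : ℝ)| = 1 / 2 := by norm_num
  have hpm : (t + ((-(1 / 2) : ℝ) : ℂ) * w, w) ∈ Dom (1 / 2) ρ r :=
    tr_mem_half (-(1 / 2)) (by rw [abs_neg, e12]; norm_num) hp
  have hpp : (t + ((1 / 2 : ℝ) : ℂ) * w, w) ∈ Dom (1 / 2) ρ r :=
    tr_mem_half (1 / 2) (by rw [e12]; norm_num) hp
  have Um := h.adm.hU.differentiableAt hpm
  have Up := h.adm.hU.differentiableAt hpp
  have xt := hasDerivAt_Xf_t Um
  have yt := hasDerivAt_Xf_t Up
  have xw := hasDerivAt_Xf_w Um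
  have yw := hasDerivAt_Xf_w Up
  have hph := h.sm.hph hm
  have hpc : DifferentiableAt ℂ (pc q) (tr (-(1 / 2)) (Xf U) (t, w), tr (1 / 2) (Xf U) (t, w)) :=
    h.sm.pc_diff.differentiableAt ((isOpen_Dg ρ₀ ε₀).mem_nhds hm)
  have hphl : DifferentiableAt ℂ (phl q U) (t, w) :=
    h.phl_diff.differentiableAt ((isOpen_Dom _ _ _).mem_nhds hp)
  have hpcl : DifferentiableAt ℂ (pcl q U) (t, w) :=
    h.pcl_diff.differentiableAt ((isOpen_Dom _ _ _).mem_nhds hp)
  have a1 := (hasDerivAt_fst hphl).unique (hasDerivAt_comp2 (F := ph q)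
    (x := fun s => tr (-(1 / 2)) (Xf U) (s, w)) (y := fun s => tr (1 / 2) (Xf U) (s, w)) hph xt yt)
  have a2 := (hasDerivAt_snd hphl).unique (hasDerivAt_comp2 (F := ph q)
    (x := fun s => tr (-(1 / 2)) (Xf U) (t, s)) (y := fun s => tr (1 / 2) (Xf U) (t, s)) hph xw yw)
  have a3 := (hasDerivAt_fst hpcl).unique (hasDerivAt_comp2 (F := pc q)
    (x := fun s => tr (-(1 / 2)) (Xf U) (s, w)) (y := fun s => tr (1 / 2) (Xf U) (s, w)) hpc xt yt)
  have a4 := (hasDerivAt_snd hpcl).unique (hasDerivAt_comp2 (F := pc q)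
    (x := fun s => tr (-(1 / 2)) (Xf U) (t, s)) (y := fun s => tr (1 / 2) (Xf U) (t, s)) hpc xw yw)
  have har := h.sm.area h.sml hm
  have hmu := h.area (t, w) hp
  have e1 : muf (Lq q) U (t, w) = -(q2 (q1 (Lq q)) (tr (-(1 / 2)) (Xf U) (t, w),
      tr (1 / 2) (Xf U) (t, w)) * (tr (-(1 / 2)) (Xt U) (t, w) * tr (1 / 2) (Xt U) (t, w)) *
      (1 + (tr (1 / 2) (uf U) (t, w) - tr (-(1 / 2)) (uf U) (t, w)))) := rfl
  have um : tr (-(1 / 2)) (uf U) (t, w) =
      tr (-(1 / 2)) (Xw U) (t, w) * (tr (-(1 / 2)) (Xt U) (t, w))⁻¹ := rfl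
  have up : tr (1 / 2) (uf U) (t, w) =
      tr (1 / 2) (Xw U) (t, w) * (tr (1 / 2) (Xt U) (t, w))⁻¹ := rfl
  have nm : tr (-(1 / 2)) (Xt U) (t, w) ≠ 0 := h.adm.Xt_ne hpm
  have np : tr (1 / 2) (Xt U) (t, w) ≠ 0 := h.adm.Xt_ne hpp
  rw [e1, um, up] at hmu
  simp only at hmu
  rw [a1, a2, a3, a4]
  push_cast at *
  generalize tr (-(1 / 2)) (Xt U) (t, w) = A at *
  generalize tr (1 / 2) (Xt U) (t, w) = A' at *
  generalize tr (-(1 / 2)) (Xw U) (t, w) = W at *
  generalize tr (1 / 2) (Xw U) (t, w) = W' at *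
  generalize q1 (ph q) (tr (-(1 / 2)) (Xf U) (t, w), tr (1 / 2) (Xf U) (t, w)) = a at *
  generalize q2 (ph q) (tr (-(1 / 2)) (Xf U) (t, w), tr (1 / 2) (Xf U) (t, w)) = b at *
  generalize q1 (pc q) (tr (-(1 / 2)) (Xf U) (t, w), tr (1 / 2) (Xf U) (t, w)) = c at *
  generalize q2 (pc q) (tr (-(1 / 2)) (Xf U) (t, w), tr (1 / 2) (Xf U) (t, w)) = d at *
  generalize q2 (q1 (Lq q)) (tr (-(1 / 2)) (Xf U) (t, w), tr (1 / 2) (Xf U) (t, w)) = L at *
  have e2 : w / 4 * m₀ w = (w * m₀ w) / 4 := by ring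
  rw [e2, ← hmu]
  have e3 : A * A' * (1 + (W' * A'⁻¹ - W * A⁻¹)) = A * A' + W' * A - W * A' := by
    field_simp
    ring
  have e4 : -(L * (A * A') * (1 + (W' * A'⁻¹ - W * A⁻¹))) / 4 =
      -(L / 4) * (A * A' * (1 + (W' * A'⁻¹ - W * A⁻¹))) := by ring
  rw [e4, e3, ← har]
  ring

end

/-! ### the line family -/

lemma PD_sub (hρ : 0 < ρ) (hr : 8 * r ≤ ρ) : PD (ρ / 2) r ⊆ Dom (3 / 2) ρ r := by
  intro p hp
  have h1 : |p.1.im| < ρ / 2 := hp.1
  have h2 : ‖p.2‖ < r := hp.2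
  have h3 := Complex.abs_im_le_norm p.2
  exact ⟨by linarith, h2⟩

theorem Good.lineFam (h : Good q η ρ₀ ε₀ ρ r B U m₀ ρq Cq) :
    LineFam q η (ρ / 2) r B (Xf U) (phl q U) (pcl q U) m₀ := by
  have hρ := h.adm.ρ_pos
  have hr := h.adm.r_pos
  have h8 := h.adm.r_le_ρ
  have s3 : PD (ρ / 2) r ⊆ Dom (3 / 2) ρ r := PD_sub hρ h8
  have s1 : PD (ρ / 2) r ⊆ Dom 1 ρ r := s3.trans (Dom_mono (by norm_num) le_rfl le_rfl)
  have s0 : PD (ρ / 2) r ⊆ Dom (1 / 2) ρ r := s3.trans (Dom_mono (by norm_num) le_rfl le_rfl)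
  have eh : ∀ w : ℂ, (((1 / 2 : ℝ)) : ℂ) * w = w / 2 := fun w => by push_cast; ring
  have ehm : ∀ w : ℂ, (((-(1 / 2) : ℝ)) : ℂ) * w = -(w / 2) := fun w => by push_cast; ring
  have hXp : ∀ t w : ℂ, tr (1 / 2) (Xf U) (t, w) = Xf U (t + w / 2, w) := by
    intro t w; unfold tr; simp only; rw [eh]
  have hXm : ∀ t w : ℂ, tr (-(1 / 2)) (Xf U) (t, w) = Xf U (t - w / 2, w) := by
    intro t w; unfold tr; simp only; rw [ehm, ← sub_eq_add_neg]
  have hUb : ∀ x ∈ PD (ρ / 2) r, ‖U x‖ ≤ B * ‖x.2‖ ^ 2 := fun x hx => h.bdd x (s0 hx)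
  have hI := Complex.I_ne_zero
  refine
    { dat := h.sm.dat
      ρ_pos := by positivity
      r_pos := hr
      r_le := by linarith
      ρ_lt := by
        have := h.adm.ρ_le
        have := h.sm.lt
        have := h.sm.ρ_pos
        linarith
      b_diff := h.adm.hU.isX.diff.mono s0
      b_near := fun x hx => by
        have e1 : Xf U x - x.1 = U x := by unfold Xf; ring
        rw [e1]
        exact hUb x hx
      b_mem := fun x hx => by
        have e1 : (Xf U x).im = x.1.im + (U x).im := by simp [Xf]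
        have h1 : |x.1.im| < ρ / 2 := hx.1
        have h2 := (Complex.abs_im_le_norm (U x)).trans (hUb x hx)
        have h3 : ‖x.2‖ < r := hx.2
        have h4 : B * ‖x.2‖ ^ 2 ≤ B * r := by
          refine mul_le_mul_of_nonneg_left ?_ h.B_nn
          have := norm_nonneg x.2
          have := h.adm.r_le
          nlinarith
        have h5 := h.B_le
        rw [e1]
        have := abs_add_le x.1.im (U x).im
        linarith
      b_t := fun x hx => by
        have hUd := h.adm.hU.differentiableAt (s0 hx)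
        have e1 : q1 (Xf U) x = 1 + q1 U x := by
          have hXd : HasFDerivAt (Xf U) (ContinuousLinearMap.fst ℂ ℂ ℂ + fderiv ℂ U x) x :=
            hasFDerivAt_fst.add hUd.hasFDerivAt
          unfold q1
          rw [hXd.fderiv]
          simp
        rw [e1, add_sub_cancel_left]
        exact h.adm.Ut_bd x (s0 hx)
      b_per := fun t w hx => h.adm.hU.isX.per t w (s0 hx)
      b_even := fun t w hx => by
        have := h.adm.Xf_par 0 (k' := 1 / 2) (by norm_num) (s0 hx)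
        rw [neg_zero, tr_zero, tr_zero] at this
        exact this
      b_conj := fun t w hx => by
        have := h.adm.Xf_re 0 (k' := 1 / 2) (by norm_num) (s0 hx)
        rw [tr_zero, tr_zero] at this
        exact this
      φ_diff := h.phl_diff.mono s1
      p_diff := h.pcl_diff.mono s1
      φ_zero := fun t ht => h.phl_zero (by linarith)
      φ_per := fun t w hx => h.phl_per (s1 hx)
      p_per := fun t w hx => h.pcl_per (s1 hx)
      φ_even := fun t w hx => h.phl_even (s1 hx)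
      p_even := fun t w hx => h.pcl_even (s1 hx)
      φ_conj := fun t w hx => h.phl_conj (s1 hx)
      p_conj := fun t w hx => h.pcl_conj (s1 hx)
      inc := fun t w hx _ => by
        unfold OnLine phl pcl
        rw [h.sm.pc_eq_snd (h.pair (s1 hx)), hXp]
        field_simp
      inc' := fun t w hx _ => by
        unfold OnLine phl pcl pc
        simp only
        rw [hXm]
        field_simp
      refl := fun t w hx _ _ => by
        have h1 := h.refl (s3 hx)
        have e1 : phl q U (t - w / 2, w) = ph q (tr (-1) (Xf U) (t, w), Xf U (t, w)) := by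
          unfold phl
          rw [hXm, hXp]
          unfold tr
          simp only
          congr 3
          · push_cast; ring_nf
          · ring_nf
        have e2 : phl q U (t + w / 2, w) = ph q (Xf U (t, w), tr 1 (Xf U) (t, w)) := by
          unfold phl
          rw [hXm, hXp]
          unfold tr
          simp only
          congr 3
          · ring_nf
          · push_cast; ring_nf
        rw [e1, e2, h1]
      δ_small := fun t w hx _ => by
        have e2 : phl q U (t + w / 2, w) = ph q (Xf U (t, w), tr 1 (Xf U) (t, w)) := by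
          unfold phl
          rw [hXm, hXp]
          unfold tr
          simp only
          congr 3
          · ring_nf
          · push_cast; ring_nf
        rw [e2]
        exact (h.sm.ph_near (h.adm.mem3 h.sml.isLag (s3 hx)).2).1
      area := fun t w hx => h.area_form (s1 hx)
      m_diff := h.m_diff
      m_near := h.m_near }

/-- **`PartC` follows from its version in line coordinates** -/
theorem partC_of_partCL (hC : PartCL) : PartC := by
  intro q η ρ₀ ε₀ ρ r B U m₀ hD hlt hl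
  obtain ⟨ρq, Cq, ε', r', hg⟩ := good_of_leaves hD hlt hl
  exact hC q η (ρ / 2) r' B (Xf U) (phl q U) (pcl q U) m₀ hg.lineFam

end Crest.Agent.R102.C0
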