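import Mathlib
import Crest.Agent.R102.C0Defs_821

/-!
Row 102, part (C), **C1 = propagation of convergence**: literal statements.

* `KMap V ε C k`: the (square root of the) momentum function `k (y, e) = e + O(e³)`,
  e.g. `k (y, e) = 4 sin ((φ (y, y + e) - θ (y)) / 2) / θ' (y)`; law of reflection:
  `k (y, e₊) = - k (y, - e₋)`.
* `LeafOn k K r B X`: `X (t, w) = t + O(w²)` is holomorphic on `K × D(0, r)` and satisfies the law.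
* `Loc`: (half disc known ⇒ disc), in every direction `u`, constants uniform.
* `Grow`: convex known set `K` with fat half discs at the boundary ⇒ a thickening of `K`.
* `SExt q η h θ H`: `(θ, H)` = holomorphic extension of (tangent angle, support function) to
  `Str h`; zeros of `θ'` allowed.  `LineFamS`: the family of lines over `Str h`.
* `ExtS`: the family of lines extends jointly to `Str h' × D(0, r')` for every `h' < h`.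
* `GapS`: and to `D(t₁, c) × D(0, r')` for every regular point `t₁` of the boundary line `Im t = h`.
-/

set_option autoImplicit false

open Set Filter Topology
open scoped ComplexConjugate

noncomputable section

namespace Crest.Agent.R102.C1

open Crest.Agent.R102.T5 Crest.Agent.R102.A929 Crest.Agent.R102.B821 Crest.Agent.R102.C0

/-- momentum function: `k (y, e) = e + O(e³)` -/
structure KMap (V : Set ℂ) (ε C : ℝ) (k : ℂ × ℂ → ℂ) : Prop where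
  diff : DifferentiableOn ℂ k (V ×ˢ Metric.ball 0 ε)
  near : ∀ y ∈ V, ∀ e : ℂ, ‖e‖ < ε → ‖k (y, e) - e‖ ≤ C * ‖e‖ ^ 3

/-- a leaf function `X (t, w) = t + O(w²)` over `K` for the law `k (y, e₊) = - k (y, - e₋)` -/
structure LeafOn (k : ℂ × ℂ → ℂ) (K : Set ℂ) (r B : ℝ) (X : ℂ × ℂ → ℂ) : Prop where
  diff : DifferentiableOn ℂ X (K ×ˢ Metric.ball 0 r)
  near : ∀ t ∈ K, ∀ w : ℂ, ‖w‖ < r → ‖X (t, w) - t‖ ≤ B * ‖w‖ ^ 2
  law : ∀ t w : ℂ, ‖w‖ < r → t - w ∈ K → t ∈ K → t + w ∈ K →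
    k (X (t, w), X (t + w, w) - X (t, w)) = -k (X (t, w), X (t - w, w) - X (t, w))

/-- half disc with centre `c`, inner normal `- i u` -/
def Half (c u : ℂ) (η δ : ℝ) : Set ℂ := {t | t ∈ Metric.ball c η ∧ ((t - c) * conj u).im < -δ}

/-- **(LOC)** -/
def Loc : Prop :=
  ∃ κ : ℝ, 0 < κ ∧ κ < 1 ∧ ∀ η ε C r B : ℝ, 0 < η → 0 < ε → 0 < r → ∃ r' B' : ℝ, 0 < r' ∧ r' ≤ r ∧
    ∀ (c u : ℂ) (k X : ℂ × ℂ → ℂ), ‖u‖ = 1 → KMap (Metric.ball c (2 * η)) ε C k →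
      LeafOn k (Half c u η (κ * η)) r B X →
      ∃ X' : ℂ × ℂ → ℂ, LeafOn k (Metric.ball c (2 * κ * η)) r' B' X' ∧
        ∀ t ∈ Metric.ball c (2 * κ * η), t ∈ Half c u η (κ * η) → ∀ w : ℂ, ‖w‖ < r' →
          X' (t, w) = X (t, w)

/-- **(GROW)**: convex `K`; at every boundary point a half disc contained in `K` -/
def Grow : Prop :=
  ∃ κ : ℝ, 0 < κ ∧ κ < 1 ∧ ∀ η ε C r B : ℝ, 0 < η → 0 < ε → 0 < r → ∃ r' B' : ℝ, 0 < r' ∧ r' ≤ r ∧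
    ∀ (K : Set ℂ) (k X : ℂ × ℂ → ℂ), IsOpen K → Convex ℝ K →
      (∀ c ∈ frontier K, ∃ u : ℂ, ‖u‖ = 1 ∧ Half c u η (κ * η) ⊆ K) →
      KMap (Metric.thickening (2 * η) K) ε C k → LeafOn k K r B X →
      ∃ X' : ℂ × ℂ → ℂ, LeafOn k (Metric.thickening (κ * η) K) r' B' X' ∧
        ∀ t ∈ K, ∀ w : ℂ, ‖w‖ < r' → X' (t, w) = X (t, w)

/-- support function of the complexified curve -/
def Hc (q : C(ℂ, ℂ)) (z : ℂ) : ℂ :=
  (Complex.exp (-(Complex.I * Tc q z)) * Zs q 1 z - Complex.exp (Complex.I * Tc q z) * Zs q (-1) z) /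
    (2 * Complex.I)

/-- `(θ, H)` = holomorphic extension to the open set `V ⊇ Str η` of the tangent angle and of the
support function.  (Zeros of `θ'` are allowed.) -/
structure VExt (q : C(ℂ, ℂ)) (η : ℝ) (V : Set ℂ) (θ H : ℂ → ℂ) : Prop where
  open' : IsOpen V
  conn : IsPreconnected V
  sub : Str η ⊆ V
  θ_diff : DifferentiableOn ℂ θ V
  H_diff : DifferentiableOn ℂ H V
  θ_eq : ∀ z ∈ Str η, θ z = Tc q z
  H_eq : ∀ z ∈ Str η, H z = Hc q z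

/-- the point with label `β` lies on the line `(φ, p)` (regular form, also at zeros of `θ'`) -/
def IncS (θ H : ℂ → ℂ) (φ p β : ℂ) : Prop :=
  deriv θ β * (p - H β * Complex.cos (φ - θ β)) = deriv H β * Complex.sin (φ - θ β)

/-- **the family of lines over an open set `K`** (`K` = strip or disc) -/
structure LineFamS (θ H : ℂ → ℂ) (K : Set ℂ) (r B : ℝ) (b φ p : ℂ × ℂ → ℂ) (m₀ : ℂ → ℂ) :
    Prop where
  b_diff : DifferentiableOn ℂ b (K ×ˢ Metric.ball 0 r)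
  b_near : ∀ t ∈ K, ∀ w : ℂ, ‖w‖ < r → ‖b (t, w) - t‖ ≤ B * ‖w‖ ^ 2
  b_even : ∀ t ∈ K, ∀ w : ℂ, ‖w‖ < r → b (t, -w) = b (t, w)
  φ_diff : DifferentiableOn ℂ φ (K ×ˢ Metric.ball 0 r)
  p_diff : DifferentiableOn ℂ p (K ×ˢ Metric.ball 0 r)
  φ_zero : ∀ t ∈ K, φ (t, 0) = θ t
  p_zero : ∀ t ∈ K, p (t, 0) = H t
  φ_even : ∀ t ∈ K, ∀ w : ℂ, ‖w‖ < r → φ (t, -w) = φ (t, w)
  p_even : ∀ t ∈ K, ∀ w : ℂ, ‖w‖ < r → p (t, -w) = p (t, w)
  inc : ∀ t w : ℂ, ‖w‖ < r → t ∈ K → t + w / 2 ∈ K →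
    IncS θ H (φ (t, w)) (p (t, w)) (b (t + w / 2, w))
  inc' : ∀ t w : ℂ, ‖w‖ < r → t ∈ K → t - w / 2 ∈ K →
    IncS θ H (φ (t, w)) (p (t, w)) (b (t - w / 2, w))
  refl : ∀ t w : ℂ, ‖w‖ < r → t ∈ K → t - w / 2 ∈ K → t + w / 2 ∈ K →
    φ (t - w / 2, w) + φ (t + w / 2, w) = 2 * θ (b (t, w))
  area : ∀ t ∈ K, ∀ w : ℂ, ‖w‖ < r →
    q1 φ (t, w) * q2 p (t, w) - q2 φ (t, w) * q1 p (t, w) = w / 4 * m₀ w

/-- **(EXT)**: `(θ, H)` on `Str h`: the family of lines extends to every smaller strip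
(`r' = r'(h')`), periodic and real. -/
def ExtS : Prop :=
  ∀ (q : C(ℂ, ℂ)) (η ρ r B : ℝ) (b φ p : ℂ × ℂ → ℂ) (m₀ : ℂ → ℂ), LineFam q η ρ r B b φ p m₀ →
    ∀ (θ H : ℂ → ℂ) (V : Set ℂ) (h h' : ℝ), VExt q η V θ H → Str h ⊆ V → ρ < h' → h' < h →
    ∃ (r' B' : ℝ) (b' φ' p' : ℂ × ℂ → ℂ), 0 < r' ∧ r' ≤ r ∧
      LineFamS θ H (Str h') r' B' b' φ' p' m₀ ∧
      (∀ t w : ℂ, (t, w) ∈ PD ρ r' → b' (t, w) = b (t, w) ∧ φ' (t, w) = φ (t, w) ∧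
        p' (t, w) = p (t, w)) ∧
      (∀ t w : ℂ, (t, w) ∈ PD h' r' → b' (t + 1, w) = b' (t, w) + 1 ∧
        φ' (t + 1, w) = φ' (t, w) + 2 * Real.pi ∧ p' (t + 1, w) = p' (t, w)) ∧
      (∀ t w : ℂ, (t, w) ∈ PD h' r' → b' (conj t, conj w) = conj (b' (t, w)) ∧
        φ' (conj t, conj w) = conj (φ' (t, w)) ∧ p' (conj t, conj w) = conj (p' (t, w)))

/-- **(GAP)**: `(θ, H)` holomorphic on `Str h` and near the point `t₁`, `Im t₁ = h`: the family of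
lines extends jointly to a neighbourhood of `(t₁, 0)`, and agrees there with every extension of the
family to a smaller strip. -/
def GapS : Prop :=
  ∀ (q : C(ℂ, ℂ)) (η ρ r B : ℝ) (b φ p : ℂ × ℂ → ℂ) (m₀ : ℂ → ℂ), LineFam q η ρ r B b φ p m₀ →
    ∀ (θ H : ℂ → ℂ) (V : Set ℂ) (h : ℝ) (t₁ : ℂ), VExt q η V θ H → Str h ⊆ V → ρ < h →
      t₁.im = h → t₁ ∈ V →
    ∃ (c r' B' : ℝ) (b' φ' p' : ℂ × ℂ → ℂ), 0 < c ∧ 0 < r' ∧ r' ≤ r ∧
      LineFamS θ H (Metric.ball t₁ c) r' B' b' φ' p' m₀ ∧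
      ∀ (h'' r'' B'' : ℝ) (b'' φ'' p'' : ℂ × ℂ → ℂ), ρ < h'' → h'' ≤ h → 0 < r'' → r'' ≤ r' →
        LineFamS θ H (Str h'') r'' B'' b'' φ'' p'' m₀ →
        (∀ t w : ℂ, (t, w) ∈ PD ρ r'' → b'' (t, w) = b (t, w) ∧ φ'' (t, w) = φ (t, w) ∧
          p'' (t, w) = p (t, w)) →
        ∀ t ∈ Metric.ball t₁ c, |t.im| < h'' → ∀ w : ℂ, ‖w‖ < r'' →
          b' (t, w) = b'' (t, w) ∧ φ' (t, w) = φ'' (t, w) ∧ p' (t, w) = p'' (t, w)

/-- **(ZY)**: at a zero of `θ'` (inside `V`): it is simple, `θ''' = 0`, `H' ≠ 0`. -/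
def ZeroY : Prop :=
  ∀ (q : C(ℂ, ℂ)) (η : ℝ) (V : Set ℂ) (θ H : ℂ → ℂ), Datum q η → VExt q η V θ H →
    (∀ z ∈ V, deriv θ z * deriv (deriv H) z - deriv (deriv θ) z * deriv H z +
      deriv θ z ^ 3 * H z = -1) ∧
    ∀ z ∈ V, deriv θ z = 0 → deriv (deriv θ) z ≠ 0 ∧ deriv (deriv (deriv θ)) z = 0 ∧ deriv H z ≠ 0

end Crest.Agent.R102.C1
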