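import Mathlib
import Crest.Agent.R102.C1Defs_821
import Crest.Agent.R266.SCV

/-!
Row 102, part (C), C1: tools.  The forward map `E`, two constants, Schwarz of order two.
-/

set_option autoImplicit false

open Set Filter Topology Metric
open scoped ComplexConjugate

noncomputable section

namespace Crest.Agent.R102.C1

/-! ### two constants -/

/-- product of two rotated copies + maximum principle -/
theorem two_constants {f : ℂ → ℂ} {a : ℂ} {ρ M : ℝ} (hρ : 0 < ρ)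
    (hf : DifferentiableOn ℂ f (closedBall a ρ))
    (hM : ∀ ζ : ℂ, ‖ζ‖ = ρ → ‖f (a + ζ)‖ * ‖f (a + Complex.I * ζ)‖ ≤ M) :
    ‖f a‖ ^ 2 ≤ M := by
  have hmem : ∀ ζ : ℂ, ‖ζ‖ ≤ ρ → a + ζ ∈ closedBall a ρ ∧ a + Complex.I * ζ ∈ closedBall a ρ := by
    intro ζ hζ
    constructor
    · rw [mem_closedBall, dist_eq_norm, add_sub_cancel_left]; exact hζ
    · rw [mem_closedBall, dist_eq_norm, add_sub_cancel_left, norm_mul, Complex.norm_I, one_mul]
      exact hζ
  have hd : DifferentiableOn ℂ (fun ζ => f (a + ζ) * f (a + Complex.I * ζ)) (closedBall 0 ρ) := by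
    refine DifferentiableOn.mul ?_ ?_
    · exact hf.comp (by fun_prop) (fun ζ hζ => (hmem ζ (by simpa using hζ)).1)
    · exact hf.comp (by fun_prop) (fun ζ hζ => (hmem ζ (by simpa using hζ)).2)
  have h1 := Complex.norm_le_of_forall_mem_frontier_norm_le (U := ball (0 : ℂ) ρ) isBounded_ball
    (f := fun ζ => f (a + ζ) * f (a + Complex.I * ζ)) (C := M)
    (DifferentiableOn.diffContOnCl (by rw [closure_ball _ hρ.ne']; exact hd))
    (fun ζ hζ => by
      rw [frontier_ball _ hρ.ne', mem_sphere, dist_zero_right] at hζ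
      rw [norm_mul]
      exact hM ζ hζ) (z := 0) (subset_closure (mem_ball_self hρ))
  simpa [sq] using h1

/-- Schwarz lemma of order two -/
theorem schwarz_two {f : ℂ → ℂ} {R M A : ℝ} (hR : 0 < R) (hf : DifferentiableOn ℂ f (ball 0 R))
    (hM : ∀ w ∈ ball (0 : ℂ) R, ‖f w‖ ≤ M) (hA : ∀ w ∈ ball (0 : ℂ) R, ‖f w‖ ≤ A * ‖w‖ ^ 2) :
    ∀ w ∈ ball (0 : ℂ) R, ‖f w‖ ≤ M / R ^ 2 * ‖w‖ ^ 2 := by
  have h0 : f 0 = 0 := by
    have := hA 0 (mem_ball_self hR)
    simpa using this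
  have hM0 : 0 ≤ M := (norm_nonneg _).trans (hM 0 (mem_ball_self hR))
  have hd1 : DifferentiableOn ℂ (dslope f 0) (ball 0 R) :=
    (Complex.differentiableOn_dslope (ball_mem_nhds _ hR)).2 hf
  have hval : ∀ w : ℂ, w ≠ 0 → f w = w * dslope f 0 w := by
    intro w hw
    rw [dslope_of_ne _ hw, slope_def_field, h0]
    field_simp
    ring
  have h10 : dslope f 0 0 = 0 := by
    by_contra hne
    have hc : ContinuousAt (dslope f 0) 0 :=
      (hd1.differentiableAt (ball_mem_nhds _ hR)).continuousAt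
    have h1 : Tendsto (fun w : ℂ => ‖dslope f 0 w‖ - A * ‖w‖) (𝓝[≠] 0)
        (𝓝 (‖dslope f 0 0‖ - A * ‖(0 : ℂ)‖)) :=
      ((hc.norm.sub (by fun_prop : ContinuousAt (fun w : ℂ => A * ‖w‖) 0)).tendsto).mono_left
        nhdsWithin_le_nhds
    have h2 : ∀ᶠ w in 𝓝[≠] (0 : ℂ), ‖dslope f 0 w‖ - A * ‖w‖ ≤ 0 := by
      have h3 : ∀ᶠ w in 𝓝[≠] (0 : ℂ), w ∈ ball (0 : ℂ) R :=
        mem_nhdsWithin_of_mem_nhds (ball_mem_nhds _ hR)
      filter_upwards [h3, self_mem_nhdsWithin] with w hw hw0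
      have hw0' : w ≠ 0 := hw0
      have h4 := hA w hw
      rw [hval w hw0', norm_mul] at h4
      have h5 : 0 < ‖w‖ := norm_pos_iff.2 hw0'
      have h6 : ‖w‖ * ‖dslope f 0 w‖ ≤ ‖w‖ * (A * ‖w‖) := by linarith [h4, sq ‖w‖]
      linarith [le_of_mul_le_mul_left h6 h5]
    have h3 := le_of_tendsto h1 h2
    simp only [norm_zero, mul_zero, sub_zero] at h3
    exact hne (norm_le_zero_iff.1 h3)
  have hd2 : DifferentiableOn ℂ (dslope (dslope f 0) 0) (ball 0 R) :=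
    (Complex.differentiableOn_dslope (ball_mem_nhds _ hR)).2 hd1
  have hval2 : ∀ w : ℂ, f w = w ^ 2 * dslope (dslope f 0) 0 w := by
    intro w
    rcases eq_or_ne w 0 with rfl | hw
    · rw [h0]; ring
    · rw [hval w hw, dslope_of_ne (dslope f 0) hw, slope_def_field, h10]
      field_simp
      ring
  intro w hw
  rcases eq_or_ne w 0 with rfl | hw0
  · rw [h0]; simp
  have hwR : ‖w‖ < R := by simpa using hw
  have hw1 : 0 < ‖w‖ := norm_pos_iff.2 hw0
  have key : ∀ s : ℝ, ‖w‖ ≤ s → s < R → ‖f w‖ ≤ M / s ^ 2 * ‖w‖ ^ 2 := by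
    intro s hs hsR
    have hs0 : 0 < s := hw1.trans_le hs
    have h1 := Complex.norm_le_of_forall_mem_frontier_norm_le (U := ball (0 : ℂ) s) isBounded_ball
      (f := dslope (dslope f 0) 0) (C := M / s ^ 2)
      (DifferentiableOn.diffContOnCl (by
        rw [closure_ball _ hs0.ne']
        exact hd2.mono (closedBall_subset_ball hsR)))
      (fun ζ hζ => by
        rw [frontier_ball _ hs0.ne', mem_sphere, dist_zero_right] at hζ
        have h2 := hM ζ (by rw [mem_ball, dist_zero_right, hζ]; exact hsR)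
        rw [hval2 ζ, norm_mul, norm_pow, hζ] at h2
        rw [le_div_iff₀ (by positivity)]
        linarith) (z := w) (by
          rw [closure_ball _ hs0.ne', mem_closedBall, dist_zero_right]; exact hs)
    rw [hval2 w, norm_mul, norm_pow, mul_comm]
    gcongr
  have hlim : Tendsto (fun s : ℝ => M / s ^ 2 * ‖w‖ ^ 2) (𝓝[<] R) (𝓝 (M / R ^ 2 * ‖w‖ ^ 2)) := by
    have : ContinuousAt (fun s : ℝ => M / s ^ 2 * ‖w‖ ^ 2) R :=
      ContinuousAt.mul (ContinuousAt.div continuousAt_const (by fun_prop) (by positivity))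
        continuousAt_const
    exact this.tendsto.mono_left nhdsWithin_le_nhds
  refine ge_of_tendsto hlim ?_
  filter_upwards [Ioo_mem_nhdsLT hwR] with s hs
  exact key s hs.1.le hs.2

/-! ### the forward map -/

/-- iteration for the solution of `k (y, a) = - k (y, - e)` -/
def itv (k : ℂ × ℂ → ℂ) : ℕ → ℂ × ℂ → ℂ
  | 0 => fun p => p.2
  | n + 1 => fun p => -k (p.1, -p.2) - (k (p.1, itv k n p) - itv k n p)

section
variable {V : Set ℂ} {ε C : ℝ} {k : ℂ × ℂ → ℂ}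

lemma KMap.lip (hk : KMap V ε C k) {ε₁ : ℝ} (hC : 0 ≤ C) (h0 : 0 < ε₁) (h1 : 2 * ε₁ < ε)
    (h2 : 8 * C * ε₁ ^ 2 ≤ 1 / 2) {y : ℂ} (hy : y ∈ V) {a b : ℂ} (ha : ‖a‖ < ε₁) (hb : ‖b‖ < ε₁) :
    ‖(k (y, a) - a) - (k (y, b) - b)‖ ≤ 1 / 2 * ‖a - b‖ := by
  have hd : DifferentiableOn ℂ (fun e => k (y, e) - e) (ball 0 ε) := by
    refine DifferentiableOn.sub ?_ (by fun_prop)
    exact hk.diff.comp (by fun_prop : DifferentiableOn ℂ (fun e : ℂ => ((y, e) : ℂ × ℂ)) (ball 0 ε))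
      (fun e he => ⟨hy, he⟩)
  refine (convex_ball (0 : ℂ) ε₁).norm_image_sub_le_of_norm_deriv_le
    (f := fun e => k (y, e) - e) (C := 1 / 2) ?_ ?_ (by simpa using hb) (by simpa using ha)
  · intro e he
    have he' : ‖e‖ < ε₁ := by simpa using he
    exact hd.differentiableAt (isOpen_ball.mem_nhds (by
      rw [mem_ball, dist_zero_right]; linarith))
  · intro e he
    have he' : ‖e‖ < ε₁ := by simpa using he
    have hsub : closedBall e ε₁ ⊆ ball 0 ε := by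
      intro z hz
      rw [mem_closedBall, dist_eq_norm] at hz
      rw [mem_ball, dist_zero_right]
      calc ‖z‖ = ‖(z - e) + e‖ := by ring_nf
        _ ≤ ‖z - e‖ + ‖e‖ := norm_add_le _ _
        _ < ε := by linarith
    have h3 := Complex.norm_deriv_le_of_forall_mem_sphere_norm_le (f := fun e => k (y, e) - e)
      (c := e) (R := ε₁) (C := C * (2 * ε₁) ^ 3) h0
      (DifferentiableOn.diffContOnCl (by
        rw [closure_ball _ h0.ne']; exact hd.mono hsub))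
      (fun z hz => by
        have hz' : z ∈ ball (0 : ℂ) ε := hsub (sphere_subset_closedBall hz)
        rw [mem_ball, dist_zero_right] at hz'
        have hz2 : ‖z‖ ≤ 2 * ε₁ := by
          rw [mem_sphere, dist_eq_norm] at hz
          calc ‖z‖ = ‖(z - e) + e‖ := by ring_nf
            _ ≤ ‖z - e‖ + ‖e‖ := norm_add_le _ _
            _ ≤ 2 * ε₁ := by linarith
        refine (hk.near y hy z hz').trans ?_
        gcongr)
    refine h3.trans ?_
    rw [div_le_iff₀ h0]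
    nlinarith [h2, h0]

lemma KMap.itv_bound (hk : KMap V ε C k) {ε' : ℝ} (hC : 0 ≤ C) (h0 : 0 < ε') (h1 : 2 * ε' ≤ ε)
    (h2 : 9 * C * ε' ^ 2 ≤ 1) {y : ℂ} (hy : y ∈ V) {e : ℂ} (he : ‖e‖ < ε') (n : ℕ) :
    ‖itv k n (y, e)‖ ≤ 2 * ‖e‖ := by
  have hn0 := norm_nonneg e
  induction n with
  | zero => simp only [itv]; linarith
  | succ n ih =>
    simp only [itv]
    have h3 := hk.near y hy (-e) (by rw [norm_neg]; linarith)
    have h4 := hk.near y hy (itv k n (y, e)) (by linarith)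
    have h5 : ‖k (y, -e)‖ ≤ ‖e‖ + C * ‖e‖ ^ 3 := by
      calc ‖k (y, -e)‖ = ‖(k (y, -e) - -e) + -e‖ := by ring_nf
        _ ≤ ‖k (y, -e) - -e‖ + ‖-e‖ := norm_add_le _ _
        _ ≤ _ := by rw [norm_neg] at h3 ⊢; linarith
    have h6 : C * ‖itv k n (y, e)‖ ^ 3 ≤ C * (2 * ‖e‖) ^ 3 := by gcongr
    have h7 : ‖e‖ ^ 2 ≤ ε' ^ 2 := by gcongr
    calc ‖-k (y, -e) - (k (y, itv k n (y, e)) - itv k n (y, e))‖
        ≤ ‖k (y, -e)‖ + ‖k (y, itv k n (y, e)) - itv k n (y, e)‖ := by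
          refine (norm_sub_le _ _).trans ?_
          rw [norm_neg]
      _ ≤ ‖e‖ + C * ‖e‖ ^ 3 + C * (2 * ‖e‖) ^ 3 := by linarith
      _ = ‖e‖ + 9 * C * ‖e‖ ^ 2 * ‖e‖ := by ring
      _ ≤ ‖e‖ + 1 * ‖e‖ := by
          have : 9 * C * ‖e‖ ^ 2 ≤ 1 := le_trans (by gcongr) h2
          gcongr
      _ = 2 * ‖e‖ := by ring

/-- **the forward map `E`** of the law `k (y, E) = - k (y, - e)`; constants depend on `ε`, `C`
only. -/
theorem exists_E (ε C : ℝ) (hε : 0 < ε) : ∃ ε' C' : ℝ, 0 < ε' ∧ ε' ≤ ε ∧ 0 ≤ C' ∧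
    ∀ (V : Set ℂ) (k : ℂ × ℂ → ℂ), IsOpen V → KMap V ε C k →
    ∃ E : ℂ × ℂ → ℂ, DifferentiableOn ℂ E (V ×ˢ ball 0 ε') ∧
      (∀ y ∈ V, ∀ e : ℂ, ‖e‖ < ε' → ‖E (y, e) - e‖ ≤ C' * ‖e‖ ^ 3 ∧ k (y, E (y, e)) = -k (y, -e)) ∧
      ∀ y ∈ V, ∀ e a : ℂ, ‖e‖ < ε' → ‖a‖ < ε' → k (y, a) = -k (y, -e) → a = E (y, e) := by
  set C₀ : ℝ := |C| with hC₀
  have hC0 : 0 ≤ C₀ := abs_nonneg _
  set ε₁ : ℝ := min (ε / 3) (1 / (4 * (C₀ + 1))) with hε₁
  have h10 : 0 < ε₁ := lt_min (by positivity) (by positivity)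
  have h11 : 2 * ε₁ < ε := by
    have : ε₁ ≤ ε / 3 := min_le_left _ _
    linarith
  have h12' : (C₀ + 1) * ε₁ ≤ 1 / 4 := by
    have : ε₁ ≤ 1 / (4 * (C₀ + 1)) := min_le_right _ _
    calc (C₀ + 1) * ε₁ ≤ (C₀ + 1) * (1 / (4 * (C₀ + 1))) := by gcongr
      _ = 1 / 4 := by field_simp
  have h13 : ε₁ ≤ 1 / 4 := by nlinarith
  have h12 : 8 * C₀ * ε₁ ^ 2 ≤ 1 / 2 := by nlinarith
  refine ⟨ε₁ / 2, 4 * C₀, by positivity, by linarith, by positivity, ?_⟩
  intro V k hV hk'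
  have hk : KMap V ε C₀ k := ⟨hk'.diff, fun y hy e he => (hk'.near y hy e he).trans (by
    gcongr; exact le_abs_self C)⟩
  have h15 : 9 * C₀ * (ε₁ / 2) ^ 2 ≤ 1 := by nlinarith
  have hb : ∀ y ∈ V, ∀ e : ℂ, ‖e‖ < ε₁ / 2 → ∀ n, ‖itv k n (y, e)‖ ≤ 2 * ‖e‖ := fun y hy e he n =>
    hk.itv_bound hC0 (by positivity) (by linarith) h15 hy he n
  have hstep : ∀ n, ∀ y ∈ V, ∀ e : ℂ, ‖e‖ < ε₁ / 2 →
      ‖itv k (n + 1) (y, e) - itv k n (y, e)‖ ≤ (1 / 2) ^ n * (2 * C₀ * ‖e‖ ^ 3) := by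
    intro n
    induction n with
    | zero =>
      intro y hy e he
      simp only [itv, pow_zero, one_mul]
      have h3 := hk.near y hy (-e) (by rw [norm_neg]; linarith)
      have h4 := hk.near y hy e (by linarith)
      rw [norm_neg] at h3
      calc ‖-k (y, -e) - (k (y, e) - e) - e‖ = ‖-(k (y, -e) - -e) - (k (y, e) - e)‖ := by
            ring_nf
        _ ≤ ‖k (y, -e) - -e‖ + ‖k (y, e) - e‖ := by
            refine (norm_sub_le _ _).trans ?_
            rw [norm_neg]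
        _ ≤ 2 * C₀ * ‖e‖ ^ 3 := by linarith
    | succ n ih =>
      intro y hy e he
      have h3 := ih y hy e he
      have h4 := hk.lip hC0 h10 h11 h12 hy (a := itv k (n + 1) (y, e)) (b := itv k n (y, e))
        (by linarith [hb y hy e he (n + 1)]) (by linarith [hb y hy e he n])
      have h5 : itv k (n + 2) (y, e) - itv k (n + 1) (y, e) =
          -((k (y, itv k (n + 1) (y, e)) - itv k (n + 1) (y, e)) -
            (k (y, itv k n (y, e)) - itv k n (y, e))) := by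
        rw [show itv k (n + 2) (y, e) = -k (y, -e) - (k (y, itv k (n + 1) (y, e)) -
          itv k (n + 1) (y, e)) from rfl, show itv k (n + 1) (y, e) = -k (y, -e) -
          (k (y, itv k n (y, e)) - itv k n (y, e)) from rfl]
        ring
      rw [h5, norm_neg]
      calc _ ≤ 1 / 2 * ‖itv k (n + 1) (y, e) - itv k n (y, e)‖ := h4
        _ ≤ 1 / 2 * ((1 / 2) ^ n * (2 * C₀ * ‖e‖ ^ 3)) := by gcongr
        _ = (1 / 2) ^ (n + 1) * (2 * C₀ * ‖e‖ ^ 3) := by ring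
  have hdiff : ∀ n, DifferentiableOn ℂ (itv k n) (V ×ˢ ball 0 (ε₁ / 2)) := by
    intro n
    induction n with
    | zero => exact differentiable_snd.differentiableOn
    | succ n ih =>
      have h3 : DifferentiableOn ℂ (fun p : ℂ × ℂ => k (p.1, -p.2)) (V ×ˢ ball 0 (ε₁ / 2)) := by
        refine hk.diff.comp (by fun_prop) ?_
        intro p hp
        refine ⟨hp.1, ?_⟩
        have := hp.2
        rw [mem_ball, dist_zero_right] at this ⊢
        rw [norm_neg]; linarith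
      have h4 : DifferentiableOn ℂ (fun p : ℂ × ℂ => k (p.1, itv k n p)) (V ×ˢ ball 0 (ε₁ / 2)) := by
        refine hk.diff.comp (differentiable_fst.differentiableOn.prodMk ih) ?_
        intro p hp
        refine ⟨hp.1, ?_⟩
        have h5 := hp.2
        rw [mem_ball, dist_zero_right] at h5 ⊢
        have := hb p.1 hp.1 p.2 h5 n
        linarith
      exact (h3.neg).sub (h4.sub ih)
  -- the limit
  have hcv : ∀ y ∈ V, ∀ e : ℂ, ‖e‖ < ε₁ / 2 → ∃ a, Tendsto (fun n => itv k n (y, e)) atTop (𝓝 a) ∧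
      ∀ n, ‖itv k n (y, e) - a‖ ≤ (2 * C₀ * ‖e‖ ^ 3) * (1 / 2) ^ n / (1 - 1 / 2) := by
    intro y hy e he
    have h3 : ∀ n, dist (itv k n (y, e)) (itv k (n + 1) (y, e)) ≤ (2 * C₀ * ‖e‖ ^ 3) * (1 / 2) ^ n := by
      intro n
      rw [dist_comm, dist_eq_norm, mul_comm]
      exact hstep n y hy e he
    have h4 := cauchySeq_of_le_geometric (1 / 2) (2 * C₀ * ‖e‖ ^ 3) (by norm_num) h3
    obtain ⟨a, ha⟩ := cauchySeq_tendsto_of_complete h4
    refine ⟨a, ha, fun n => ?_⟩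
    have h5 := dist_le_of_le_geometric_of_tendsto (1 / 2) (2 * C₀ * ‖e‖ ^ 3) (by norm_num) h3 ha n
    rwa [dist_eq_norm] at h5
  classical
  let E : ℂ × ℂ → ℂ := fun p => if h : p.1 ∈ V ∧ ‖p.2‖ < ε₁ / 2 then
    (hcv p.1 h.1 p.2 h.2).choose else 0
  have hE : ∀ y ∈ V, ∀ e : ℂ, ‖e‖ < ε₁ / 2 → Tendsto (fun n => itv k n (y, e)) atTop (𝓝 (E (y, e))) ∧
      ∀ n, ‖itv k n (y, e) - E (y, e)‖ ≤ (2 * C₀ * ‖e‖ ^ 3) * (1 / 2) ^ n / (1 - 1 / 2) := by
    intro y hy e he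
    have h3 : E (y, e) = (hcv y hy e he).choose := by
      simp only [E]
      rw [dif_pos ⟨hy, he⟩]
    rw [h3]
    exact (hcv y hy e he).choose_spec
  have hEb : ∀ y ∈ V, ∀ e : ℂ, ‖e‖ < ε₁ / 2 → ‖E (y, e)‖ ≤ 2 * ‖e‖ := fun y hy e he =>
    le_of_tendsto (hE y hy e he).1.norm (Eventually.of_forall (hb y hy e he))
  have hEeq : ∀ y ∈ V, ∀ e : ℂ, ‖e‖ < ε₁ / 2 → k (y, E (y, e)) = -k (y, -e) := by
    intro y hy e he
    have hlt : ‖E (y, e)‖ < ε := by linarith [hEb y hy e he]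
    have hc : ContinuousAt (fun a => k (y, a)) (E (y, e)) := by
      have h3 : DifferentiableAt ℂ k (y, E (y, e)) := hk.diff.differentiableAt
        ((hV.prod isOpen_ball).mem_nhds ⟨hy, by rw [mem_ball, dist_zero_right]; exact hlt⟩)
      exact ContinuousAt.comp (f := fun a => ((y, a) : ℂ × ℂ)) h3.continuousAt (by fun_prop)
    have h4 := (hE y hy e he).1
    have h5 : Tendsto (fun n => itv k (n + 1) (y, e)) atTop
        (𝓝 (-k (y, -e) - (k (y, E (y, e)) - E (y, e)))) := by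
      have h6 : Tendsto (fun n => k (y, itv k n (y, e))) atTop (𝓝 (k (y, E (y, e)))) :=
        hc.tendsto.comp h4
      exact tendsto_const_nhds.sub (h6.sub h4)
    have h6 := tendsto_nhds_unique h5 ((tendsto_add_atTop_iff_nat 1).2 h4)
    linear_combination -h6
  refine ⟨E, ?_, ?_, ?_⟩
  · have h3 : TendstoUniformlyOn (fun n => itv k n) E atTop (V ×ˢ ball 0 (ε₁ / 2)) := by
      rw [Metric.tendstoUniformlyOn_iff]
      intro δ hδ
      have h4 : Tendsto (fun n : ℕ => (2 * C₀ * 1) * (1 / 2 : ℝ) ^ n / (1 - 1 / 2)) atTop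
          (𝓝 ((2 * C₀ * 1) * 0 / (1 - 1 / 2))) :=
        ((tendsto_pow_atTop_nhds_zero_of_lt_one (by norm_num) (by norm_num)).const_mul _).div_const _
      simp only [mul_zero, zero_div] at h4
      filter_upwards [h4.eventually (gt_mem_nhds hδ)] with n hn p hp
      have h5 : ‖p.2‖ < ε₁ / 2 := by simpa using hp.2
      have h6 := (hE p.1 hp.1 p.2 h5).2 n
      rw [dist_comm, dist_eq_norm]
      refine (h6.trans ?_).trans_lt hn
      have h7 : ‖p.2‖ ^ 3 ≤ 1 := by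
        have : ‖p.2‖ ≤ 1 := by linarith
        exact pow_le_one₀ (norm_nonneg _) this
      have h8 : (0 : ℝ) ≤ (1 / 2) ^ n := by positivity
      have h9 : (0 : ℝ) < 1 - 1 / 2 := by norm_num
      gcongr
    exact (Crest.Agent.R266.SCV.analyticOnNhd_of_tendstoLocallyUniformlyOn (hV.prod isOpen_ball)
      h3.tendstoLocallyUniformlyOn (Eventually.of_forall hdiff)).differentiableOn
  · intro y hy e he
    refine ⟨?_, hEeq y hy e he⟩
    have h6 := (hE y hy e he).2 0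
    rw [norm_sub_rev]
    simp only [itv, pow_zero, mul_one] at h6
    have h7 : 2 * C₀ * ‖e‖ ^ 3 / (1 - 1 / 2) = 4 * C₀ * ‖e‖ ^ 3 := by ring
    linarith
  · intro y hy e a he ha h
    have h3 := hEeq y hy e he
    have h4 := hk.lip hC0 h10 h11 h12 hy (a := a) (b := E (y, e)) (by linarith)
      (by linarith [hEb y hy e he])
    rw [h, h3] at h4
    have h5 : -k (y, -e) - a - (-k (y, -e) - E (y, e)) = -(a - E (y, e)) := by ring
    rw [h5, norm_neg] at h4
    have h6 : ‖a - E (y, e)‖ ≤ 0 := by linarith [norm_nonneg (a - E (y, e))]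
    exact sub_eq_zero.1 (norm_le_zero_iff.1 h6)

end

end Crest.Agent.R102.C1
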