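import Crest.Agent.R266.SCV

/-!
Row 102, leaf CL-HR (helper948): weak Remez inequality, propagation of smallness from a set of
positive (outer) measure on the real line, Hartogs' lemma (a.e. version), and the extension
theorem: if `f(w,t)` is analytic near `(w,t) ∈ W × D(t0,r0)` and for `u ∈ F ⊆ ℝ` the function
`f(u,·)` extends to `D(t0,R)`, then for a.e. `u ∈ F` and every `R' < R` the function `f` extends
analytically to a full neighbourhood of `{u} × D(t0,R')`.
-/

set_option autoImplicit false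
set_option linter.unusedSectionVars false
set_option linter.unusedVariables false

open Set Filter Topology Metric MeasureTheory Polynomial
open scoped Real ENNReal

noncomputable section

namespace Crest.Agent.R102.M948

/-- separated points in a set of large outer measure -/
theorem exists_separated (k : ℕ) : ∀ (E : Set ℝ) (δ : ℝ), 0 < δ → BddBelow E →
    ENNReal.ofReal (k * (2 * δ)) < volume E →
    ∃ x : ℕ → ℝ, (∀ i ≤ k, x i ∈ E) ∧ ∀ i < k, x i + δ ≤ x (i + 1) := by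
  induction k with
  | zero =>
    intro E δ hδ hb hv
    have hne : E.Nonempty := by
      by_contra h
      rw [not_nonempty_iff_eq_empty] at h
      simp [h] at hv
    obtain ⟨x, hx⟩ := hne
    exact ⟨fun _ => x, fun i _ => hx, fun i hi => absurd hi (Nat.not_lt_zero _)⟩
  | succ k ih =>
    intro E δ hδ hb hv
    have hne : E.Nonempty := by
      by_contra h
      rw [not_nonempty_iff_eq_empty] at h
      simp [h] at hv
    obtain ⟨x0, hx0, hx0'⟩ := exists_lt_of_csInf_lt hne (lt_add_of_pos_right (sInf E) hδ)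
    have hcov : E ⊆ (E ∩ Ici (x0 + δ)) ∪ Icc (sInf E) (sInf E + 2 * δ) := by
      intro y hy
      by_cases h : x0 + δ ≤ y
      · exact Or.inl ⟨hy, h⟩
      · refine Or.inr ⟨csInf_le hb hy, ?_⟩
        push Not at h
        linarith
    have h1 : volume E ≤ volume (E ∩ Ici (x0 + δ)) + ENNReal.ofReal (2 * δ) := by
      refine (measure_mono hcov).trans ((measure_union_le _ _).trans ?_)
      rw [Real.volume_Icc]
      simp
    have h2 : ENNReal.ofReal (((k + 1 : ℕ) : ℝ) * (2 * δ)) =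
        ENNReal.ofReal (k * (2 * δ)) + ENNReal.ofReal (2 * δ) := by
      rw [← ENNReal.ofReal_add (by positivity) (by positivity)]
      congr 1
      push_cast
      ring
    have h3 : ENNReal.ofReal (k * (2 * δ)) < volume (E ∩ Ici (x0 + δ)) := by
      rw [h2] at hv
      exact (ENNReal.add_lt_add_iff_right ENNReal.ofReal_ne_top).1 (hv.trans_le h1)
    obtain ⟨x, hx, hx'⟩ := ih (E ∩ Ici (x0 + δ)) δ hδ (hb.mono inter_subset_left) h3
    refine ⟨fun i => Nat.casesOn i x0 x, ?_, ?_⟩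
    · intro i hi
      cases i with
      | zero => exact hx0
      | succ i => exact (hx i (by omega)).1
    · intro i hi
      cases i with
      | zero => exact (hx 0 (by omega)).2
      | succ i => exact hx' i (by omega)

theorem separated_dist {k : ℕ} {x : ℕ → ℝ} {δ : ℝ} (hx : ∀ i < k, x i + δ ≤ x (i + 1)) :
    ∀ i j, i ≤ j → j ≤ k → ((j : ℝ) - i) * δ ≤ x j - x i := by
  intro i j hij
  induction j, hij using Nat.le_induction with
  | base => intro _; simp
  | succ j hij ih =>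
    intro hj
    have h1 := ih (by omega)
    have h2 := hx j (by omega)
    push_cast
    nlinarith

theorem separated_dist' {k : ℕ} {x : ℕ → ℝ} {δ : ℝ} (hδ : 0 < δ)
    (hx : ∀ i < k, x i + δ ≤ x (i + 1)) {i j : ℕ} (hi : i ≤ k) (hj : j ≤ k) :
    |(i : ℝ) - j| * δ ≤ |x i - x j| := by
  rcases le_total i j with h | h
  · have h1 := separated_dist hx i j h hj
    have h2 : (i : ℝ) ≤ j := by exact_mod_cast h
    rw [abs_sub_comm (i : ℝ), abs_of_nonneg (by linarith : (0 : ℝ) ≤ (j : ℝ) - i), abs_sub_comm]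
    exact h1.trans (le_abs_self _)
  · have h1 := separated_dist hx j i h hi
    have h2 : (j : ℝ) ≤ i := by exact_mod_cast h
    rw [abs_of_nonneg (by linarith : (0 : ℝ) ≤ (i : ℝ) - j)]
    exact h1.trans (le_abs_self _)

theorem prod_abs_sub (d i : ℕ) (hi : i ≤ d) :
    ∏ j ∈ (Finset.range (d + 1)).erase i, |(i : ℝ) - j| = (i.factorial : ℝ) * (d - i).factorial := by
  have h1 : (Finset.range (d + 1)).erase i = Finset.range i ∪ Finset.Ico (i + 1) (d + 1) := by
    ext j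
    simp only [Finset.mem_erase, Finset.mem_range, Finset.mem_union, Finset.mem_Ico]
    omega
  have h2 : Disjoint (Finset.range i) (Finset.Ico (i + 1) (d + 1)) := by
    rw [Finset.disjoint_left]
    intro j hj hj'
    simp only [Finset.mem_range, Finset.mem_Ico] at hj hj'
    omega
  rw [h1, Finset.prod_union h2]
  congr 1
  · rw [← Finset.prod_range_reflect, ← Finset.prod_range_add_one_eq_factorial]
    push_cast
    refine Finset.prod_congr rfl (fun j hj => ?_)
    rw [Finset.mem_range] at hj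
    have : ((i - 1 - j : ℕ) : ℝ) = (i : ℝ) - 1 - j := by
      rw [Nat.cast_sub (by omega), Nat.cast_sub (by omega)]; simp
    rw [this]
    rw [show (i : ℝ) - ((i : ℝ) - 1 - j) = j + 1 by ring]
    exact abs_of_nonneg (by positivity)
  · rw [Finset.prod_Ico_eq_prod_range, show d + 1 - (i + 1) = d - i by omega,
      ← Finset.prod_range_add_one_eq_factorial]
    push_cast
    refine Finset.prod_congr rfl (fun j hj => ?_)
    rw [show (i : ℝ) - (i + 1 + j) = -(j + 1) by ring, abs_neg]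
    exact abs_of_nonneg (by positivity)

/-- weak Remez inequality -/
theorem remez_weak (d : ℕ) {E : Set ℝ} {c L : ℝ} (hL : 0 < L) (hE : E ⊆ Icc (c - L) (c + L))
    (hvol : ENNReal.ofReal L ≤ volume E) {P : ℂ[X]} (hP : P.degree < (d + 1 : ℕ)) {M : ℝ}
    (hM : ∀ x ∈ E, ‖P.eval (x : ℂ)‖ ≤ M) {z : ℂ} (hz : ‖z - c‖ ≤ L) :
    ‖P.eval z‖ ≤ 3 * 24 ^ d * M := by
  set δ : ℝ := L / (2 * (d + 1)) with hδd
  have hδ : 0 < δ := by positivity
  have h0 : ENNReal.ofReal (d * (2 * δ)) < volume E := by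
    refine lt_of_lt_of_le ?_ hvol
    rw [ENNReal.ofReal_lt_ofReal_iff hL, hδd]
    rw [show (d : ℝ) * (2 * (L / (2 * (d + 1)))) = L * (d / (d + 1)) by field_simp]
    have : (d : ℝ) / (d + 1) < 1 := by
      rw [div_lt_one (by positivity)]; linarith
    nlinarith
  obtain ⟨x, hx, hx'⟩ := exists_separated d E δ hδ
    ⟨c - L, fun y hy => (hE hy).1⟩ h0
  have hM0 : 0 ≤ M := (norm_nonneg _).trans (hM _ (hx 0 (Nat.zero_le _)))
  set v : ℕ → ℂ := fun i => (x i : ℂ) with hv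
  have hinj : Set.InjOn v (Finset.range (d + 1) : Set ℕ) := by
    intro i hi j hj hij
    simp only [Finset.coe_range, mem_Iio] at hi hj
    have h1 : x i = x j := by
      have h0 : (x i : ℂ) = (x j : ℂ) := hij
      exact_mod_cast h0
    have h2 := separated_dist' hδ hx' (show i ≤ d by omega) (show j ≤ d by omega)
    rw [h1, sub_self, abs_zero] at h2
    have h3 : |(i : ℝ) - j| ≤ 0 := by
      by_contra h; push Not at h; nlinarith
    have h4 : (i : ℝ) - j = 0 := abs_nonpos_iff.1 h3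
    exact_mod_cast sub_eq_zero.1 h4
  have hcard : (Finset.range (d + 1)).card = d + 1 := Finset.card_range _
  have hint := Lagrange.eq_interpolate (s := Finset.range (d + 1)) (v := v) hinj
    (f := P) (by rw [hcard]; exact hP)
  have hPe : P.eval z = ∑ i ∈ Finset.range (d + 1), P.eval (v i) *
      (Lagrange.basis (Finset.range (d + 1)) v i).eval z := by
    conv_lhs => rw [hint]
    rw [Lagrange.interpolate_apply, eval_finsetSum]
    refine Finset.sum_congr rfl (fun i _ => ?_)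
    rw [eval_mul, eval_C]
  have hbas : ∀ i ∈ Finset.range (d + 1),
      ‖(Lagrange.basis (Finset.range (d + 1)) v i).eval z‖ ≤
        (4 * (d + 1)) ^ d / ((i.factorial : ℝ) * (d - i).factorial) := by
    intro i hi
    have hi' : i ≤ d := by rw [Finset.mem_range] at hi; omega
    unfold Lagrange.basis
    rw [eval_prod, norm_prod]
    have h1 : ∀ j ∈ (Finset.range (d + 1)).erase i,
        ‖(Lagrange.basisDivisor (v i) (v j)).eval z‖ ≤ (4 * (d + 1)) / |(i : ℝ) - j| := by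
      intro j hj
      rw [Finset.mem_erase, Finset.mem_range] at hj
      have hj' : j ≤ d := by omega
      have h2 := separated_dist' hδ hx' hi' hj'
      have h3 : (0 : ℝ) < |(i : ℝ) - j| := by
        rw [abs_pos, sub_ne_zero]
        exact_mod_cast hj.1.symm
      unfold Lagrange.basisDivisor
      rw [eval_mul, eval_C, eval_sub, eval_X, eval_C, norm_mul, norm_inv]
      have h4 : ‖v i - v j‖ = |x i - x j| := by
        rw [hv]; simp only; rw [← Complex.ofReal_sub, Complex.norm_real, Real.norm_eq_abs]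
      have h5 : ‖z - v j‖ ≤ 2 * L := by
        have h6 : ‖(c : ℂ) - v j‖ ≤ L := by
          rw [hv]; simp only
          rw [← Complex.ofReal_sub, Complex.norm_real, Real.norm_eq_abs, abs_le]
          have := hE (hx j hj')
          constructor <;> [linarith [this.2]; linarith [this.1]]
        calc ‖z - v j‖ = ‖(z - c) + (c - v j)‖ := by congr 1; ring
          _ ≤ ‖z - c‖ + ‖(c : ℂ) - v j‖ := norm_add_le _ _
          _ ≤ 2 * L := by linarith
      rw [h4, ← div_eq_inv_mul]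
      have h7 : 0 < |x i - x j| := lt_of_lt_of_le (by positivity) h2
      rw [div_le_div_iff₀ h7 h3]
      have h8 : L = 2 * (d + 1) * δ := by rw [hδd]; field_simp
      calc ‖z - v j‖ * |(i : ℝ) - j| ≤ 2 * L * |(i : ℝ) - j| := by gcongr
        _ = 4 * (d + 1) * (|(i : ℝ) - j| * δ) := by rw [h8]; ring
        _ ≤ 4 * (d + 1) * |x i - x j| := by gcongr
    refine (Finset.prod_le_prod (fun _ _ => norm_nonneg _) h1).trans (le_of_eq ?_)
    rw [Finset.prod_div_distrib, Finset.prod_const, Finset.card_erase_of_mem hi, hcard,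
      prod_abs_sub d i hi']
    simp
  have hsum : ∑ i ∈ Finset.range (d + 1),
      (4 * ((d : ℝ) + 1)) ^ d / ((i.factorial : ℝ) * (d - i).factorial) =
      (8 * (d + 1)) ^ d / d.factorial := by
    have h1 : ∀ i ∈ Finset.range (d + 1),
        (4 * ((d : ℝ) + 1)) ^ d / ((i.factorial : ℝ) * (d - i).factorial) =
        (4 * ((d : ℝ) + 1)) ^ d / d.factorial * (d.choose i) := by
      intro i hi
      have hi' : i ≤ d := by rw [Finset.mem_range] at hi; omega
      have h2 : ((d.choose i : ℕ) : ℝ) * i.factorial * (d - i).factorial = d.factorial := by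
        exact_mod_cast Nat.choose_mul_factorial_mul_factorial hi'
      rw [← h2]
      have : (0 : ℝ) < d.choose i := by exact_mod_cast Nat.choose_pos hi'
      field_simp
    rw [Finset.sum_congr rfl h1, ← Finset.mul_sum]
    have h3 : ∑ i ∈ Finset.range (d + 1), ((d.choose i : ℕ) : ℝ) = 2 ^ d := by
      exact_mod_cast Nat.sum_range_choose d
    rw [h3, show (8 * ((d : ℝ) + 1)) = 4 * (d + 1) * 2 by ring, mul_pow _ 2]
    ring
  have hexp : (8 * ((d : ℝ) + 1)) ^ d / d.factorial ≤ 3 * 24 ^ d := by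
    have h1 := Real.pow_div_factorial_le_exp (x := (d : ℝ) + 1) (by positivity) d
    have h2 : Real.exp ((d : ℝ) + 1) ≤ 3 ^ (d + 1) := by
      have h3 : Real.exp ((d : ℝ) + 1) = Real.exp 1 ^ (d + 1) := by
        rw [← Real.exp_nat_mul]; push_cast; ring_nf
      rw [h3]
      have h4 : Real.exp 1 < 3 := by have := Real.exp_one_lt_d9; linarith
      gcongr
    calc (8 * ((d : ℝ) + 1)) ^ d / d.factorial = 8 ^ d * (((d : ℝ) + 1) ^ d / d.factorial) := by
          rw [mul_pow]; ring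
      _ ≤ 8 ^ d * 3 ^ (d + 1) := by gcongr; exact h1.trans h2
      _ = 3 * 24 ^ d := by rw [pow_succ, show (24 : ℝ) = 8 * 3 by norm_num, mul_pow]; ring
  rw [hPe]
  calc ‖∑ i ∈ Finset.range (d + 1), P.eval (v i) *
      (Lagrange.basis (Finset.range (d + 1)) v i).eval z‖
      ≤ ∑ i ∈ Finset.range (d + 1), ‖P.eval (v i) *
        (Lagrange.basis (Finset.range (d + 1)) v i).eval z‖ := norm_sum_le _ _
    _ ≤ ∑ i ∈ Finset.range (d + 1), M *
        ((4 * ((d : ℝ) + 1)) ^ d / ((i.factorial : ℝ) * (d - i).factorial)) := by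
        refine Finset.sum_le_sum (fun i hi => ?_)
        rw [norm_mul]
        have := hM _ (hx i (by rw [Finset.mem_range] at hi; omega))
        exact mul_le_mul this (hbas i hi) (norm_nonneg _) hM0
    _ = M * ((8 * (d + 1)) ^ d / d.factorial) := by rw [← Finset.mul_sum, hsum]
    _ ≤ M * (3 * 24 ^ d) := by gcongr
    _ = 3 * 24 ^ d * M := by ring

/-- Taylor polynomial bound: coefficients -/
theorem taylor_approx {b : ℂ → ℂ} {c : ℂ} {ρ M : ℝ} (hρ : 0 < ρ)
    (hb : DifferentiableOn ℂ b (ball c ρ)) (hM : ∀ z ∈ ball c ρ, ‖b z‖ ≤ M)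
    {s : ℝ} (hs0 : 0 < s) (hs : s ≤ ρ / 4) (d : ℕ) :
    ∃ P : ℂ[X], P.degree < (d + 1 : ℕ) ∧
      ∀ z, ‖z - c‖ ≤ s → ‖b z - P.eval z‖ ≤ 2 * M * (2 * s / ρ) ^ (d + 1) := by
  have hM0 : 0 ≤ M := (norm_nonneg _).trans (hM c (mem_ball_self hρ))
  set a : ℕ → ℂ := fun n => (n.factorial : ℂ)⁻¹ * iteratedDeriv n b c with ha
  have ha' : ∀ n, ‖a n‖ ≤ M / (ρ / 2) ^ n := by
    intro n
    have h1 := Complex.norm_iteratedDeriv_le_of_forall_mem_sphere_norm_le (f := b) (c := c)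
      (R := ρ / 2) (C := M) n (by positivity)
      ((hb.mono (closedBall_subset_ball (by linarith))).diffContOnCl_ball (le_refl _))
      (fun z hz => hM z (by rw [mem_sphere] at hz; rw [mem_ball, hz]; linarith))
    rw [ha]; simp only
    rw [norm_mul, norm_inv, Complex.norm_natCast]
    have h2 : (0 : ℝ) < n.factorial := by exact_mod_cast n.factorial_pos
    calc (n.factorial : ℝ)⁻¹ * ‖iteratedDeriv n b c‖
        ≤ (n.factorial : ℝ)⁻¹ * (n.factorial * M / (ρ / 2) ^ n) := by gcongr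
      _ = M / (ρ / 2) ^ n := by field_simp
  refine ⟨∑ n ∈ Finset.range (d + 1), C (a n) * (X - C c) ^ n, ?_, ?_⟩
  · refine (Polynomial.degree_sum_le _ _).trans_lt ?_
    rw [Finset.sup_lt_iff (by exact_mod_cast WithBot.bot_lt_coe _)]
    intro n hn
    rw [Finset.mem_range] at hn
    calc (C (a n) * (X - C c) ^ n).degree ≤ (C (a n)).degree + ((X - C c) ^ n).degree :=
          degree_mul_le _ _
      _ ≤ 0 + n := by
          refine add_le_add degree_C_le ?_
          refine (degree_pow_le _ _).trans ?_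
          rw [degree_X_sub_C]; simp
      _ = (n : WithBot ℕ) := by simp
      _ < (d + 1 : ℕ) := by exact_mod_cast hn
  · intro z hz
    have hzb : z ∈ ball c ρ := by rw [mem_ball, dist_eq_norm]; linarith
    have hsum := Complex.hasSum_taylorSeries_on_ball hb hzb
    have hsum' : HasSum (fun n => a n * (z - c) ^ n) (b z) := by
      have he : (fun n => a n * (z - c) ^ n) =
          (fun n : ℕ => (n.factorial : ℂ)⁻¹ • (z - c) ^ n • iteratedDeriv n b c) := by
        ext n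
        rw [ha]; simp only [smul_eq_mul]; ring
      rw [he]
      exact hsum
    have hev : (∑ n ∈ Finset.range (d + 1), C (a n) * (X - C c) ^ n).eval z =
        ∑ n ∈ Finset.range (d + 1), a n * (z - c) ^ n := by
      rw [eval_finsetSum]; simp
    rw [hev]
    have h1 : HasSum (fun n => a (n + (d + 1)) * (z - c) ^ (n + (d + 1)))
        (b z - ∑ n ∈ Finset.range (d + 1), a n * (z - c) ^ n) :=
      (hasSum_nat_add_iff' (d + 1)).2 hsum'
    set q : ℝ := 2 * s / ρ with hq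
    have hq0 : 0 ≤ q := by positivity
    have hq1 : q ≤ 1 / 2 := by
      rw [hq, div_le_iff₀ hρ]; linarith
    have h2 : ∀ n, ‖a n * (z - c) ^ n‖ ≤ M * q ^ n := by
      intro n
      rw [norm_mul, norm_pow]
      calc ‖a n‖ * ‖z - c‖ ^ n ≤ M / (ρ / 2) ^ n * s ^ n := by
            gcongr
            exact ha' n
        _ = M * q ^ n := by
            rw [hq, div_mul_eq_mul_div, mul_div_assoc, ← div_pow]
            congr 2
            field_simp
    have h3 : HasSum (fun n => M * q ^ (d + 1) * q ^ n) (M * q ^ (d + 1) * (1 - q)⁻¹) :=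
      (hasSum_geometric_of_lt_one hq0 (by linarith)).mul_left _
    rw [← h1.tsum_eq]
    refine (tsum_of_norm_bounded h3 (fun n => ?_)).trans ?_
    · refine (h2 _).trans (le_of_eq ?_)
      rw [pow_add]; ring
    · have h4 : (1 - q)⁻¹ ≤ 2 := by
        rw [inv_le_comm₀ (by linarith) (by norm_num)]; linarith
      calc M * q ^ (d + 1) * (1 - q)⁻¹ ≤ M * q ^ (d + 1) * 2 := by gcongr
        _ = 2 * M * q ^ (d + 1) := by ring

/-- smallness on a real set of large measure propagates to a disc -/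
theorem small_propagation {b : ℂ → ℂ} {c ρ M : ℝ} (hρ : 0 < ρ)
    (hb : DifferentiableOn ℂ b (ball (c : ℂ) ρ)) (hM : ∀ z ∈ ball (c : ℂ) ρ, ‖b z‖ ≤ M)
    {s : ℝ} (hs0 : 0 < s) (hs : s ≤ ρ / 4) {E : Set ℝ} (hE : E ⊆ Icc (c - s) (c + s))
    (hvol : ENNReal.ofReal s ≤ volume E) {m : ℝ} (hm : ∀ x ∈ E, ‖b x‖ ≤ m) (d : ℕ)
    {z : ℂ} (hz : ‖z - c‖ ≤ s) :
    ‖b z‖ ≤ 3 * 24 ^ d * (m + 4 * M * (2 * s / ρ) ^ (d + 1)) := by
  have hM0 : 0 ≤ M := (norm_nonneg _).trans (hM c (mem_ball_self hρ))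
  obtain ⟨P, hP, hPb⟩ := taylor_approx hρ hb hM hs0 hs d
  set e : ℝ := 2 * M * (2 * s / ρ) ^ (d + 1) with he
  have he0 : 0 ≤ e := by positivity
  have h1 : ∀ x ∈ E, ‖P.eval (x : ℂ)‖ ≤ m + e := by
    intro x hx
    have h2 : ‖(x : ℂ) - c‖ ≤ s := by
      rw [← Complex.ofReal_sub, Complex.norm_real, Real.norm_eq_abs, abs_le]
      have := hE hx
      constructor <;> [linarith [this.1]; linarith [this.2]]
    calc ‖P.eval (x : ℂ)‖ = ‖b x - (b x - P.eval (x : ℂ))‖ := by congr 1; ring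
      _ ≤ ‖b x‖ + ‖b x - P.eval (x : ℂ)‖ := norm_sub_le _ _
      _ ≤ m + e := add_le_add (hm x hx) (hPb _ h2)
  have h2 := remez_weak d hs0 hE hvol hP h1 hz
  have h3 := hPb z hz
  calc ‖b z‖ = ‖P.eval z + (b z - P.eval z)‖ := by congr 1; ring
    _ ≤ ‖P.eval z‖ + ‖b z - P.eval z‖ := norm_add_le _ _
    _ ≤ 3 * 24 ^ d * (m + e) + e := add_le_add h2 h3
    _ ≤ 3 * 24 ^ d * (m + e) + 3 * 24 ^ d * e := by
        have : (1 : ℝ) ≤ 3 * 24 ^ d := by
          have := one_le_pow₀ (n := d) (show (1 : ℝ) ≤ 24 by norm_num)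
          linarith
        nlinarith
    _ = 3 * 24 ^ d * (m + 4 * M * (2 * s / ρ) ^ (d + 1)) := by rw [he]; ring

/-- local bound at a density point -/
theorem local_bound_of_density {b : ℕ → ℂ → ℂ} {c ρ : ℝ} (hρ : 0 < ρ)
    (hb : ∀ n, DifferentiableOn ℂ (b n) (ball (c : ℂ) ρ)) {K A : ℝ} (hA : 0 < A)
    (hbd : ∀ n, ∀ z ∈ ball (c : ℂ) ρ, ‖b n z‖ ≤ K * A ^ n) {E : Set ℝ} {K' B B' : ℝ}
    (hB : 0 < B) (hBB : B < B') (hEB : ∀ x ∈ E, ∀ n, ‖b n x‖ ≤ K' * B ^ n)
    (hdens : ∀ᶠ s in 𝓝[>] (0 : ℝ), ENNReal.ofReal s ≤ volume (E ∩ Icc (c - s) (c + s))) :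
    ∃ r > 0, r < ρ ∧ ∃ K'', ∀ n, ∀ z ∈ closedBall (c : ℂ) r, ‖b n z‖ ≤ K'' * B' ^ n := by
  have hK0 : 0 ≤ K := by
    have := (norm_nonneg _).trans (hbd 0 c (mem_ball_self hρ))
    simpa using this
  have hB' : 0 < B' := hB.trans hBB
  rcases le_or_gt A B' with hAB | hAB
  · refine ⟨ρ / 2, by positivity, by linarith, K, fun n z hz => ?_⟩
    refine (hbd n z (closedBall_subset_ball (by linarith) hz)).trans ?_
    gcongr
  have hBA : B < A := hBB.trans hAB
  obtain ⟨q, hq⟩ : ∃ q : ℕ, 24 < (B' / B) ^ q :=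
    pow_unbounded_of_one_lt _ ((one_lt_div hB).2 hBB)
  have hq0 : q ≠ 0 := by
    rintro rfl
    norm_num at hq
  -- choose s
  have hs_ev : ∀ᶠ s in 𝓝[>] (0 : ℝ), 2 * s / ρ ≤ (B / A) ^ q ∧ s ≤ ρ / 4 ∧ 0 < s := by
    have hpos : 0 < min (ρ * (B / A) ^ q / 2) (ρ / 4) := by positivity
    have h1 : ∀ᶠ s in 𝓝[>] (0 : ℝ), s < min (ρ * (B / A) ^ q / 2) (ρ / 4) :=
      mem_nhdsWithin_of_mem_nhds (Iio_mem_nhds hpos)
    filter_upwards [h1, self_mem_nhdsWithin] with s hs hs0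
    rw [lt_min_iff] at hs
    refine ⟨?_, hs.2.le, hs0⟩
    rw [div_le_iff₀ hρ]; linarith [hs.1]
  obtain ⟨s, ⟨hs1, hs2, hs0⟩, hs3⟩ := (hs_ev.and hdens).exists
  refine ⟨s, hs0, by linarith, 3 * (B' / B) ^ q * (K' + 4 * K), fun n z hz => ?_⟩
  have hEne : ∃ x, x ∈ E := by
    by_contra h
    have : E = ∅ := by ext x; simp; exact fun hx => h ⟨x, hx⟩
    rw [this] at hs3
    simp at hs3
    linarith
  have hK'0 : 0 ≤ K' := by
    obtain ⟨x, hx⟩ := hEne
    have := (norm_nonneg _).trans (hEB x hx 0)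
    simpa using this
  set d : ℕ := n / q + 1 with hd
  have hd1 : n ≤ q * d := by
    rw [hd, mul_add, mul_one]
    have := Nat.div_add_mod n q
    have h2 := Nat.mod_lt n (Nat.pos_of_ne_zero hq0)
    omega
  have hd2 : q * d ≤ n + q := by
    rw [hd, mul_add, mul_one]
    have := Nat.mul_div_le n q
    omega
  have hd3 : n / q + 1 ≤ d + 1 := by omega
  have hmain := small_propagation hρ (hb n) (hbd n) hs0 hs2 (E := E ∩ Icc (c - s) (c + s))
    inter_subset_right hs3 (fun x hx => hEB x hx.1 n) d (z := z)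
    (by rwa [mem_closedBall, dist_eq_norm] at hz)
  have h24 : (24 : ℝ) ^ d ≤ (B' / B) ^ (n + q) := by
    calc (24 : ℝ) ^ d ≤ ((B' / B) ^ q) ^ d := by gcongr
      _ = (B' / B) ^ (q * d) := by rw [← pow_mul]
      _ ≤ (B' / B) ^ (n + q) := pow_le_pow_right₀ ((one_lt_div hB).2 hBB).le hd2
  have hAn : A ^ n * (2 * s / ρ) ^ (d + 1) ≤ B ^ n := by
    have h1 : (2 * s / ρ) ^ (d + 1) ≤ (B / A) ^ n := by
      calc (2 * s / ρ) ^ (d + 1) ≤ ((B / A) ^ q) ^ (d + 1) := by gcongr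
        _ = (B / A) ^ (q * (d + 1)) := by rw [← pow_mul]
        _ ≤ (B / A) ^ n := pow_le_pow_of_le_one (by positivity)
            ((div_lt_one hA).2 hBA).le (by
              calc n ≤ q * d := hd1
                _ ≤ q * (d + 1) := Nat.mul_le_mul_left _ (Nat.le_succ _))
    calc A ^ n * (2 * s / ρ) ^ (d + 1) ≤ A ^ n * (B / A) ^ n := by gcongr
      _ = B ^ n := by rw [← mul_pow]; congr 1; field_simp
  calc ‖b n z‖ ≤ 3 * 24 ^ d * (K' * B ^ n + 4 * (K * A ^ n) * (2 * s / ρ) ^ (d + 1)) := hmain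
    _ = 3 * 24 ^ d * (K' * B ^ n + 4 * K * (A ^ n * (2 * s / ρ) ^ (d + 1))) := by ring
    _ ≤ 3 * (B' / B) ^ (n + q) * (K' * B ^ n + 4 * K * B ^ n) := by gcongr
    _ = 3 * (B' / B) ^ q * (K' + 4 * K) * ((B' / B) ^ n * B ^ n) := by rw [pow_add]; ring
    _ = 3 * (B' / B) ^ q * (K' + 4 * K) * B' ^ n := by
        rw [← mul_pow]; congr 2; field_simp

/-- density points of an arbitrary set of reals -/
theorem ae_density (E : Set ℝ) : ∀ᵐ c : ℝ, c ∈ E →
    ∀ᶠ s in 𝓝[>] (0 : ℝ), ENNReal.ofReal s ≤ volume (E ∩ Icc (c - s) (c + s)) := by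
  have h := ae_imp_of_ae_restrict (IsUnifLocDoublingMeasure.ae_tendsto_measure_inter_div
    (μ := (volume : Measure ℝ)) E 1)
  filter_upwards [h] with c hc hcE
  have h1 := hc hcE (fun s : ℝ => c) (fun s : ℝ => s) (l := 𝓝[>] 0) tendsto_id
    (by
      filter_upwards [self_mem_nhdsWithin] with s hs
      rw [one_mul]
      exact mem_closedBall_self (le_of_lt hs))
  have h2 : ∀ᶠ s in 𝓝[>] (0 : ℝ), (1 / 2 : ℝ≥0∞) <
      volume (E ∩ closedBall c s) / volume (closedBall c s) :=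
    h1.eventually (lt_mem_nhds (by simp))
  filter_upwards [h2, self_mem_nhdsWithin] with s hs hs0
  rw [mem_Ioi] at hs0
  rw [Real.closedBall_eq_Icc, Real.volume_Icc] at hs
  have h3 : ENNReal.ofReal (c + s - (c - s)) ≠ 0 := by
    simp; linarith
  rw [ENNReal.lt_div_iff_mul_lt (Or.inl h3) (Or.inl ENNReal.ofReal_ne_top)] at hs
  refine le_trans (le_of_eq ?_) hs.le
  rw [show (1 / 2 : ℝ≥0∞) = ENNReal.ofReal (1 / 2) by
    rw [ENNReal.ofReal_div_of_pos (by norm_num)]; simp,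
    ← ENNReal.ofReal_mul (by norm_num)]
  congr 1; ring

/-- **Hartogs' lemma, a.e. version** -/
theorem hartogs_ae {b : ℕ → ℂ → ℂ} {F : Set ℝ} {B : ℝ} (hB : 0 ≤ B)
    (hloc : ∀ u ∈ F, ∃ ρ > 0, (∀ n, DifferentiableOn ℂ (b n) (ball (u : ℂ) ρ)) ∧
      ∃ K A : ℝ, 0 < A ∧ ∀ n, ∀ z ∈ ball (u : ℂ) ρ, ‖b n z‖ ≤ K * A ^ n)
    (hF : ∀ u ∈ F, ∀ B' > B, ∃ K', ∀ n, ‖b n u‖ ≤ K' * B' ^ n) :
    ∀ᵐ u : ℝ, u ∈ F → ∀ B' > B, ∀ ε > 0, ∃ r > 0, r < ε ∧ ∃ K'', ∀ n,
      ∀ z ∈ ball (u : ℂ) r, ‖b n z‖ ≤ K'' * B' ^ n := by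
  set G : ℕ → ℕ → Set ℝ := fun N k =>
    {u | u ∈ F ∧ ∀ n, ‖b n u‖ ≤ N * (B + 1 / ((k : ℝ) + 1)) ^ n} with hG
  have h1 : ∀ N k, ∀ᵐ c : ℝ, c ∈ G N k →
      ∀ᶠ s in 𝓝[>] (0 : ℝ), ENNReal.ofReal s ≤ volume (G N k ∩ Icc (c - s) (c + s)) :=
    fun N k => ae_density (G N k)
  have h2 := ae_all_iff.2 (fun N => ae_all_iff.2 (h1 N))
  filter_upwards [h2] with u hu huF B' hB' ε hε
  obtain ⟨k, hk⟩ := exists_nat_one_div_lt (show (0 : ℝ) < B' - B by linarith)
  have hBk : B < B + 1 / ((k : ℝ) + 1) := by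
    have : (0 : ℝ) < 1 / ((k : ℝ) + 1) := by positivity
    linarith
  obtain ⟨K', hK'⟩ := hF u huF _ hBk
  obtain ⟨N, hN⟩ := exists_nat_ge K'
  have huG : u ∈ G N k := by
    refine ⟨huF, fun n => (hK' n).trans ?_⟩
    gcongr
  obtain ⟨ρ, hρ, hdiff, K, A, hA, hKA⟩ := hloc u huF
  have hρ' : 0 < min ρ ε := lt_min hρ hε
  have hsub : ball (u : ℂ) (min ρ ε) ⊆ ball (u : ℂ) ρ := ball_subset_ball (min_le_left _ _)
  obtain ⟨r, hr, hrρ, K'', hK''⟩ := local_bound_of_density hρ'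
    (fun n => (hdiff n).mono hsub) hA (fun n z hz => hKA n z (hsub hz))
    (E := G N k) (K' := N) (B := B + 1 / ((k : ℝ) + 1)) (B' := B')
    (by linarith) (by linarith) (fun x hx n => hx.2 n) (hu N k huG)
  exact ⟨r, hr, hrρ.trans_le (min_le_right _ _), K'', fun n z hz =>
    hK'' n z (ball_subset_closedBall hz)⟩

/-! ### the joint extension theorem -/

/-- partial derivative in the second variable -/
def dt (f : ℂ × ℂ → ℂ) : ℂ × ℂ → ℂ := fun p => fderiv ℂ f p (0, 1)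

theorem analyticOnNhd_dt {f : ℂ × ℂ → ℂ} {U : Set (ℂ × ℂ)} (hf : AnalyticOnNhd ℂ f U) :
    AnalyticOnNhd ℂ (dt f) U := fun p hp =>
  ((ContinuousLinearMap.apply ℂ ℂ ((0, 1) : ℂ × ℂ)).analyticAt _).comp (hf.fderiv p hp)

theorem analyticOnNhd_dt_iter {f : ℂ × ℂ → ℂ} {U : Set (ℂ × ℂ)} (hf : AnalyticOnNhd ℂ f U)
    (n : ℕ) : AnalyticOnNhd ℂ (dt^[n] f) U := by
  induction n with
  | zero => exact hf
  | succ n ih => rw [Function.iterate_succ_apply']; exact analyticOnNhd_dt ih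

theorem hasDerivAt_slice {f : ℂ × ℂ → ℂ} {w t : ℂ} (hf : DifferentiableAt ℂ f (w, t)) :
    HasDerivAt (fun s => f (w, s)) (dt f (w, t)) t := by
  have h1 : HasDerivAt (fun s : ℂ => ((w, s) : ℂ × ℂ)) ((0, 1) : ℂ × ℂ) t :=
    (hasDerivAt_const t w).prodMk (hasDerivAt_id t)
  exact hf.hasFDerivAt.comp_hasDerivAt t h1

theorem iteratedDeriv_slice {f : ℂ × ℂ → ℂ} {U : Set (ℂ × ℂ)} (hU : IsOpen U)
    (hf : AnalyticOnNhd ℂ f U) (n : ℕ) : ∀ w t : ℂ, (w, t) ∈ U →
    iteratedDeriv n (fun s => f (w, s)) t = (dt^[n] f) (w, t) := by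
  induction n with
  | zero => intro w t _; simp
  | succ n ih =>
    intro w t hwt
    rw [iteratedDeriv_succ, Function.iterate_succ_apply']
    have h1 : (iteratedDeriv n (fun s => f (w, s))) =ᶠ[𝓝 t] (fun s => (dt^[n] f) (w, s)) := by
      have hc : Continuous (fun s : ℂ => ((w, s) : ℂ × ℂ)) := by fun_prop
      filter_upwards [(hU.preimage hc).mem_nhds hwt] with s hs
      exact ih w s hs
    rw [h1.deriv_eq]
    exact (hasDerivAt_slice ((analyticOnNhd_dt_iter hf n) _ hwt).differentiableAt).deriv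

/-- Taylor coefficients in the second variable -/
def coefT (f : ℂ × ℂ → ℂ) (t0 : ℂ) (n : ℕ) (w : ℂ) : ℂ :=
  (n.factorial : ℂ)⁻¹ * iteratedDeriv n (fun s => f (w, s)) t0

theorem differentiableOn_coefT {f : ℂ × ℂ → ℂ} {W : Set ℂ} (hW : IsOpen W) {t0 : ℂ} {r0 : ℝ}
    (hr0 : 0 < r0) (hf : DifferentiableOn ℂ f (W ×ˢ ball t0 r0)) (n : ℕ) :
    DifferentiableOn ℂ (coefT f t0 n) W := by
  have hU : IsOpen (W ×ˢ ball t0 r0) := hW.prod isOpen_ball
  have ha := Crest.Agent.R266.SCV.analyticOnNhd_of_differentiableOn hU hf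
  have h1 : ∀ w ∈ W, coefT f t0 n w = (n.factorial : ℂ)⁻¹ * (dt^[n] f) (w, t0) := by
    intro w hw
    unfold coefT
    rw [iteratedDeriv_slice hU ha n w t0 ⟨hw, mem_ball_self hr0⟩]
  refine DifferentiableOn.congr ?_ h1
  refine DifferentiableOn.const_mul ?_ _
  have h2 : DifferentiableOn ℂ (dt^[n] f) (W ×ˢ ball t0 r0) :=
    (analyticOnNhd_dt_iter ha n).differentiableOn
  exact h2.comp (by fun_prop : DifferentiableOn ℂ (fun w : ℂ => (w, t0)) W)
    (fun w hw => ⟨hw, mem_ball_self hr0⟩)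

theorem norm_coefT_le {f : ℂ × ℂ → ℂ} {t0 w : ℂ} {r M : ℝ} (hr : 0 < r)
    (hf : DiffContOnCl ℂ (fun t => f (w, t)) (ball t0 r))
    (hM : ∀ t ∈ sphere t0 r, ‖f (w, t)‖ ≤ M) (n : ℕ) :
    ‖coefT f t0 n w‖ ≤ M * (1 / r) ^ n := by
  have h1 := Complex.norm_iteratedDeriv_le_of_forall_mem_sphere_norm_le n hr hf hM
  unfold coefT
  rw [norm_mul, norm_inv, Complex.norm_natCast]
  have h2 : (0 : ℝ) < n.factorial := by exact_mod_cast n.factorial_pos
  calc (n.factorial : ℝ)⁻¹ * ‖iteratedDeriv n (fun s => f (w, s)) t0‖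
      ≤ (n.factorial : ℝ)⁻¹ * (n.factorial * M / r ^ n) := by gcongr
    _ = M * (1 / r) ^ n := by rw [one_div, inv_pow]; field_simp

theorem slice_differentiableOn {f : ℂ × ℂ → ℂ} {W T : Set ℂ}
    (hf : DifferentiableOn ℂ f (W ×ˢ T)) {w : ℂ} (hw : w ∈ W) :
    DifferentiableOn ℂ (fun t => f (w, t)) T :=
  hf.comp (by fun_prop : DifferentiableOn ℂ (fun t : ℂ => (w, t)) T) (fun t ht => ⟨hw, ht⟩)

/-- **Hartogs extension, a.e. version (disc)** -/
theorem extend_ae {f : ℂ × ℂ → ℂ} {W : Set ℂ} (hW : IsOpen W) {t0 : ℂ} {r0 : ℝ}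
    (hr0 : 0 < r0) (hf : DifferentiableOn ℂ f (W ×ˢ ball t0 r0)) {R : ℝ} {F : Set ℝ}
    (hF : ∀ u ∈ F, (u : ℂ) ∈ W ∧ ∃ g : ℂ → ℂ, DifferentiableOn ℂ g (ball t0 R) ∧
      ∀ᶠ t in 𝓝 t0, g t = f (u, t)) :
    ∀ᵐ u : ℝ, u ∈ F → ∀ R' < R, ∀ ε > 0, ∃ r > 0, r < ε ∧ ball (u : ℂ) r ⊆ W ∧
      ∃ G : ℂ × ℂ → ℂ, AnalyticOnNhd ℂ G (ball (u : ℂ) r ×ˢ ball t0 R') ∧
        ∀ w ∈ ball (u : ℂ) r, ∀ t ∈ ball t0 (min r0 R'), G (w, t) = f (w, t) := by
  rcases le_or_gt R 0 with hR | hR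
  · refine Eventually.of_forall (fun u hu R' hR' ε hε => ?_)
    obtain ⟨r, hr, hrW⟩ := Metric.isOpen_iff.1 hW u (hF u hu).1
    refine ⟨min r (ε / 2), lt_min hr (by positivity), (min_le_right _ _).trans_lt (by linarith),
      (ball_subset_ball (min_le_left _ _)).trans hrW, f, ?_, fun _ _ _ _ => rfl⟩
    have hemp : ball t0 R' = ∅ := ball_eq_empty.2 (by linarith)
    rw [hemp, prod_empty]
    exact fun x hx => absurd hx (notMem_empty _)
  have hloc : ∀ u ∈ F, ∃ ρ > 0, (∀ n, DifferentiableOn ℂ (coefT f t0 n) (ball (u : ℂ) ρ)) ∧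
      ∃ K A : ℝ, 0 < A ∧ ∀ n, ∀ z ∈ ball (u : ℂ) ρ, ‖coefT f t0 n z‖ ≤ K * A ^ n := by
    intro u hu
    obtain ⟨ρ, hρ, hρW⟩ := Metric.isOpen_iff.1 hW u (hF u hu).1
    have hcomp : IsCompact (closedBall (u : ℂ) (ρ / 2) ×ˢ closedBall t0 (r0 / 2)) :=
      (isCompact_closedBall _ _).prod (isCompact_closedBall _ _)
    have hsub : closedBall (u : ℂ) (ρ / 2) ×ˢ closedBall t0 (r0 / 2) ⊆ W ×ˢ ball t0 r0 :=
      prod_mono ((closedBall_subset_ball (by linarith)).trans hρW)
        (closedBall_subset_ball (by linarith))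
    obtain ⟨M, hM⟩ := hcomp.exists_bound_of_continuousOn (hf.mono hsub).continuousOn
    refine ⟨ρ / 2, by positivity, fun n => (differentiableOn_coefT hW hr0 hf n).mono
      ((ball_subset_ball (by linarith)).trans hρW), M, 1 / (r0 / 2), by positivity, ?_⟩
    intro n z hz
    have hzc : z ∈ closedBall (u : ℂ) (ρ / 2) := ball_subset_closedBall hz
    have hzW : z ∈ W := hρW (closedBall_subset_ball (by linarith) hzc)
    refine norm_coefT_le (by positivity) ?_ (fun t ht => hM _ ⟨hzc, sphere_subset_closedBall ht⟩) n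
    exact ((slice_differentiableOn hf hzW).mono
      (closedBall_subset_ball (by linarith))).diffContOnCl_ball (le_refl _)
  have hFb : ∀ u ∈ F, ∀ B' > 1 / R, ∃ K', ∀ n, ‖coefT f t0 n u‖ ≤ K' * B' ^ n := by
    intro u hu B' hB'
    obtain ⟨-, g, hg, hgf⟩ := hF u hu
    have hB'0 : 0 < B' := lt_trans (by positivity) hB'
    have h1 : 1 / B' < R := (one_div_lt hB'0 hR).2 hB'
    obtain ⟨M, hM⟩ := (isCompact_closedBall t0 (1 / B')).exists_bound_of_continuousOn
      (hg.mono (closedBall_subset_ball h1)).continuousOn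
    refine ⟨M, fun n => ?_⟩
    have h2 : coefT f t0 n u = coefT (fun p => g p.2) t0 n u := by
      unfold coefT
      congr 1
      have h3 : (fun s => f ((u : ℂ), s)) =ᶠ[𝓝 t0] (fun s => g s) := by
        filter_upwards [hgf] with s hs; exact hs.symm
      exact h3.iteratedDeriv_eq n
    rw [h2]
    have h3 := norm_coefT_le (f := fun p => g p.2) (t0 := t0) (w := (u : ℂ)) (r := 1 / B')
      (M := M) (by positivity)
      ((hg.mono (closedBall_subset_ball h1)).diffContOnCl_ball (le_refl _))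
      (fun t ht => hM t (sphere_subset_closedBall ht)) n
    simpa using h3
  filter_upwards [hartogs_ae (b := coefT f t0) (F := F) (B := 1 / R) (by positivity) hloc hFb]
    with u hu huF R' hR' ε hε
  obtain ⟨ρ, hρ, hρW⟩ := Metric.isOpen_iff.1 hW u (hF u huF).1
  rcases le_or_gt R' 0 with hR'0 | hR'0
  · refine ⟨min ρ (ε / 2), lt_min hρ (by positivity), (min_le_right _ _).trans_lt (by linarith),
      (ball_subset_ball (min_le_left _ _)).trans hρW, f, ?_, fun _ _ _ _ => rfl⟩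
    have hemp : ball t0 R' = ∅ := ball_eq_empty.2 (by linarith)
    rw [hemp, prod_empty]
    exact fun x hx => absurd hx (notMem_empty _)
  obtain ⟨R'', hR''1, hR''2⟩ := exists_between hR'
  have hR''0 : 0 < R'' := hR'0.trans hR''1
  obtain ⟨r, hr, hrε, K'', hK''⟩ := hu huF (1 / R'') (one_div_lt_one_div_of_lt hR''0 hR''2)
    (min ρ ε) (lt_min hρ hε)
  rw [lt_min_iff] at hrε
  have hrW : ball (u : ℂ) r ⊆ W := (ball_subset_ball hrε.1.le).trans hρW
  refine ⟨r, hr, hrε.2, hrW, fun p => ∑' n, coefT f t0 n p.1 * (p.2 - t0) ^ n, ?_, ?_⟩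
  · have hopen : IsOpen (ball (u : ℂ) r ×ˢ ball t0 R') := isOpen_ball.prod isOpen_ball
    have hK0 : 0 ≤ K'' := by
      have := (norm_nonneg _).trans (hK'' 0 u (mem_ball_self hr))
      simpa using this
    have hsumm : Summable (fun n : ℕ => K'' * (R' / R'') ^ n) :=
      (summable_geometric_of_lt_one (by positivity) ((div_lt_one hR''0).2 hR''1)).mul_left _
    have hbd : ∀ n : ℕ, ∀ p ∈ ball (u : ℂ) r ×ˢ ball t0 R',
        ‖coefT f t0 n p.1 * (p.2 - t0) ^ n‖ ≤ K'' * (R' / R'') ^ n := by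
      intro n p hp
      have h1 := hK'' n p.1 hp.1
      have h2 : ‖p.2 - t0‖ ≤ R' := by
        have := hp.2; rw [mem_ball, dist_eq_norm] at this; exact this.le
      rw [norm_mul, norm_pow]
      calc ‖coefT f t0 n p.1‖ * ‖p.2 - t0‖ ^ n ≤ K'' * (1 / R'') ^ n * R' ^ n := by gcongr
        _ = K'' * (R' / R'') ^ n := by rw [mul_assoc, ← mul_pow]; congr 2; ring
    refine Crest.Agent.R266.SCV.analyticOnNhd_of_tendstoLocallyUniformlyOn hopen
      (tendstoUniformlyOn_tsum_nat hsumm hbd).tendstoLocallyUniformlyOn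
      (Eventually.of_forall (fun N => ?_))
    refine DifferentiableOn.fun_sum (fun n _ => ?_)
    refine DifferentiableOn.mul ?_ (by fun_prop)
    exact ((differentiableOn_coefT hW hr0 hf n).mono hrW).comp
      (differentiable_fst.differentiableOn) (fun p hp => hp.1)
  · intro w hw t ht
    have hwW : w ∈ W := hrW hw
    have h1 := Complex.hasSum_taylorSeries_on_ball (slice_differentiableOn hf hwW)
      (z := t) (ball_subset_ball (min_le_left _ _) ht)
    have he : (fun n => coefT f t0 n w * (t - t0) ^ n) =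
        (fun n : ℕ => (n.factorial : ℂ)⁻¹ • (t - t0) ^ n •
          iteratedDeriv n (fun s => f (w, s)) t0) := by
      ext n
      unfold coefT; simp only [smul_eq_mul]; ring
    show ∑' n, coefT f t0 n w * (t - t0) ^ n = f (w, t)
    rw [he]
    exact h1.tsum_eq

end Crest.Agent.R102.M948
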