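import Mathlib
import Crest.Agent.R102.C1A_821
import Crest.Agent.R102.HartR_948

/-!
Row 102, part (C), C1: extension of a leaf in the good directions of `w`, by iteration.
-/

set_option autoImplicit false

open Set Filter Topology Metric
open scoped ComplexConjugate

noncomputable section

namespace Crest.Agent.R102.C1

/-! ### half discs -/

lemma mem_Half {c u : ℂ} {η δ : ℝ} {t : ℂ} :
    t ∈ Half c u η δ ↔ ‖t - c‖ < η ∧ ((t - c) * conj u).im < -δ := by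
  unfold Half
  rw [mem_setOf_eq, mem_ball, dist_eq_norm]

lemma isOpen_Half (c u : ℂ) (η δ : ℝ) : IsOpen (Half c u η δ) := by
  have : Half c u η δ = ball c η ∩ {t | ((t - c) * conj u).im < -δ} := rfl
  rw [this]
  exact isOpen_ball.inter (isOpen_lt (by fun_prop) continuous_const)

lemma im_add_mul (a b v : ℂ) (r : ℝ) (s : ℝ) :
    (((r : ℂ) * a + (s : ℂ) * b) * v).im = r * (a * v).im + s * (b * v).im := by
  rw [add_mul, Complex.add_im, mul_assoc, mul_assoc, Complex.im_ofReal_mul, Complex.im_ofReal_mul]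

lemma convex_Half (c u : ℂ) (η δ : ℝ) : Convex ℝ (Half c u η δ) := by
  intro x hx y hy a b ha hb hab
  have h1 : a • x + b • y - c = (a : ℂ) * (x - c) + (b : ℂ) * (y - c) := by
    have : ((a : ℂ) + b) = 1 := by exact_mod_cast hab
    simp only [Complex.real_smul]
    linear_combination c * this
  have hx' := mem_Half.1 hx
  have hy' := mem_Half.1 hy
  refine mem_Half.2 ⟨?_, ?_⟩
  · have := (convex_ball c η) hx.1 hy.1 ha hb hab
    rwa [mem_ball, dist_eq_norm] at this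
  · rw [h1, im_add_mul]
    rcases eq_or_lt_of_le ha with h0 | h0
    · rw [← h0] at hab ⊢
      have : b = 1 := by linarith
      rw [this]; linarith [hy'.2]
    · have h2 : a * ((x - c) * conj u).im < a * (-δ) := by
        exact mul_lt_mul_of_pos_left hx'.2 h0
      have h3 : b * ((y - c) * conj u).im ≤ b * (-δ) := mul_le_mul_of_nonneg_left hy'.2.le hb
      have h4 : a * (-δ) + b * (-δ) = -δ := by rw [← add_mul, hab]; ring
      linarith

lemma seg_Half {c u : ℂ} {η δ : ℝ} {t w : ℂ} {a b s : ℝ} (ha : t - a * w ∈ Half c u η δ)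
    (hb : t - b * w ∈ Half c u η δ) (h1 : a ≤ s) (h2 : s ≤ b) : t - s * w ∈ Half c u η δ := by
  rcases eq_or_lt_of_le (h1.trans h2) with h | h
  · have : s = a := le_antisymm (by rw [h]; exact h2) h1
    rw [this]; exact ha
  · have hpos : 0 < b - a := by linarith
    have := (convex_Half c u η δ) ha hb (a := (b - s) / (b - a)) (b := (s - a) / (b - a))
      (div_nonneg (by linarith) hpos.le) (div_nonneg (by linarith) hpos.le)
      (by field_simp; ring)
    convert this using 1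
    simp only [Complex.real_smul]
    have hne : ((b : ℂ) - a) ≠ 0 := by
      have : (b - a : ℝ) ≠ 0 := hpos.ne'
      exact_mod_cast this
    push_cast
    field_simp
    ring

/-! ### iteration -/

/-- the dynamics on (position, last step) -/
def Fm (E : ℂ × ℂ → ℂ) (s : ℂ × ℂ) : ℂ × ℂ := (s.1 + E s, E s)

/-- the state at `t - n w` -/
def st0 (X : ℂ × ℂ → ℂ) (w : ℂ) (n : ℕ) (t : ℂ) : ℂ × ℂ :=
  (X (t - n * w, w), X (t - n * w, w) - X (t - (n + 1) * w, w))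

/-- `E` is the forward map of the law `k` -/
structure EMap (V : Set ℂ) (ε' C' : ℝ) (k E : ℂ × ℂ → ℂ) : Prop where
  ε_pos : 0 < ε'
  C_nn : 0 ≤ C'
  diff : DifferentiableOn ℂ E (V ×ˢ ball 0 ε')
  near : ∀ y ∈ V, ∀ e : ℂ, ‖e‖ < ε' → ‖E (y, e) - e‖ ≤ C' * ‖e‖ ^ 3
  uniq : ∀ y ∈ V, ∀ e a : ℂ, ‖e‖ < ε' → ‖a‖ < ε' → k (y, a) = -k (y, -e) → a = E (y, e)

/-- the situation: half disc, small `w` -/
structure Sit (c u : ℂ) (η δ ε' C' r B : ℝ) (k E X : ℂ × ℂ → ℂ) (w : ℂ) : Prop where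
  η_pos : 0 < η
  B_nn : 0 ≤ B
  em : EMap (ball c (2 * η)) ε' C' k E
  lf : LeafOn k (Half c u η δ) r B X
  w_r : ‖w‖ < r
  w_one : ‖w‖ ≤ 1
  w_ε : 2 * ‖w‖ < ε'
  w_C : (2 * B + 16 * C' * η) * ‖w‖ ≤ 1
  w_η : (B + 2 * η * (2 * B + 16 * C' * η)) * ‖w‖ < η

section
variable {c u : ℂ} {η δ ε' C' r B : ℝ} {k E X : ℂ × ℂ → ℂ} {w : ℂ}

lemma Sit.near_K (S : Sit c u η δ ε' C' r B k E X w) {t : ℂ} (ht : t ∈ Half c u η δ) :
    ‖X (t, w) - t‖ ≤ B * ‖w‖ ^ 2 := S.lf.near t ht w S.w_r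

lemma Sit.mem_two (_S : Sit c u η δ ε' C' r B k E X w) {t x : ℂ} (ht : ‖t - c‖ < η)
    (hx : ‖x - t‖ < η) : x ∈ ball c (2 * η) := by
  rw [mem_ball, dist_eq_norm]
  calc ‖x - c‖ = ‖(x - t) + (t - c)‖ := by ring_nf
    _ ≤ ‖x - t‖ + ‖t - c‖ := norm_add_le _ _
    _ < 2 * η := by linarith

lemma Sit.Bw_le (S : Sit c u η δ ε' C' r B k E X w) : B * ‖w‖ ^ 2 < η := by
  have h1 := S.w_η
  have h2 := S.w_one
  have h3 := S.B_nn
  have h4 := S.em.C_nn
  have h5 := S.η_pos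
  have h6 := norm_nonneg w
  have h7 : 0 ≤ 2 * η * (2 * B + 16 * C' * η) * ‖w‖ := by positivity
  have h8 : B * ‖w‖ ^ 2 ≤ B * ‖w‖ := by
    rw [sq]
    exact mul_le_mul_of_nonneg_left (mul_le_of_le_one_left h6 h2) h3
  nlinarith

lemma Sit.memX (S : Sit c u η δ ε' C' r B k E X w) {t : ℂ} (ht : t ∈ Half c u η δ) :
    X (t, w) ∈ ball c (2 * η) :=
  S.mem_two (mem_Half.1 ht).1 ((S.near_K ht).trans_lt S.Bw_le)

lemma Sit.step_near (S : Sit c u η δ ε' C' r B k E X w) {t s : ℂ} (ht : t ∈ Half c u η δ)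
    (hs : s ∈ Half c u η δ) (hts : t - s = w) : ‖X (t, w) - X (s, w) - w‖ ≤ 2 * B * ‖w‖ ^ 2 := by
  have h1 := S.near_K ht
  have h2 := S.near_K hs
  calc ‖X (t, w) - X (s, w) - w‖ = ‖(X (t, w) - t) - (X (s, w) - s)‖ := by rw [← hts]; ring_nf
    _ ≤ ‖X (t, w) - t‖ + ‖X (s, w) - s‖ := norm_sub_le _ _
    _ ≤ 2 * B * ‖w‖ ^ 2 := by linarith

/-- `β ≤ ‖w‖` -/
lemma Sit.beta (S : Sit c u η δ ε' C' r B k E X w) :
    (2 * B + 16 * C' * η) * ‖w‖ ^ 2 ≤ ‖w‖ := by
  have := S.w_C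
  have h6 := norm_nonneg w
  calc (2 * B + 16 * C' * η) * ‖w‖ ^ 2 = ((2 * B + 16 * C' * η) * ‖w‖) * ‖w‖ := by ring
    _ ≤ 1 * ‖w‖ := by gcongr
    _ = ‖w‖ := one_mul _

lemma Sit.two_B (S : Sit c u η δ ε' C' r B k E X w) : 2 * B * ‖w‖ ^ 2 ≤ ‖w‖ := by
  have h1 := S.beta
  have h4 := S.em.C_nn
  have h5 := S.η_pos
  have : 0 ≤ 16 * C' * η * ‖w‖ ^ 2 := by positivity
  nlinarith

/-- the orbit started at `t - n w` shadows `t - (n - j) w` -/
theorem Sit.orbit (S : Sit c u η δ ε' C' r B k E X w) {t : ℂ} {n : ℕ} (ht : ‖t - c‖ < η)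
    (h1 : t - n * w ∈ Half c u η δ) (h2 : t - (n + 1) * w ∈ Half c u η δ) (j : ℕ) (hj : j ≤ n) :
    ‖((Fm E)^[j] (st0 X w n t)).2 - w‖ ≤ 2 * B * ‖w‖ ^ 2 + j * (8 * C' * ‖w‖ ^ 3) ∧
    ‖((Fm E)^[j] (st0 X w n t)).1 - (t - (n - j : ℝ) * w)‖ ≤
      B * ‖w‖ ^ 2 + j * ((2 * B + 16 * C' * η) * ‖w‖ ^ 2) ∧
    ((Fm E)^[j] (st0 X w n t)).1 ∈ ball c (2 * η) ∧ ‖((Fm E)^[j] (st0 X w n t)).2‖ < ε' := by
  have hw0 := norm_nonneg w
  have hC := S.em.C_nn
  have hB := S.B_nn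
  have hη := S.η_pos
  have hn : n * ‖w‖ ≤ 2 * η := by
    have h3 : ‖((n : ℂ)) * w‖ ≤ ‖t - c‖ + ‖t - n * w - c‖ := by
      calc ‖((n : ℂ)) * w‖ = ‖(t - c) - (t - n * w - c)‖ := by ring_nf
        _ ≤ _ := norm_sub_le _ _
    rw [norm_mul, Complex.norm_natCast] at h3
    linarith [(mem_Half.1 h1).1]
  -- auxiliary: bounds imply membership
  have aux : ∀ (j : ℕ) (s : ℂ × ℂ), j ≤ n → ‖s.2 - w‖ ≤ 2 * B * ‖w‖ ^ 2 + j * (8 * C' * ‖w‖ ^ 3) →
      ‖s.1 - (t - (n - j : ℝ) * w)‖ ≤ B * ‖w‖ ^ 2 + j * ((2 * B + 16 * C' * η) * ‖w‖ ^ 2) →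
      ‖s.2 - w‖ ≤ (2 * B + 16 * C' * η) * ‖w‖ ^ 2 ∧ s.1 ∈ ball c (2 * η) ∧ ‖s.2‖ ≤ 2 * ‖w‖ := by
    intro j s hj a1 a2
    have hjw : j * ‖w‖ ≤ 2 * η := le_trans (by gcongr) hn
    have b1 : ‖s.2 - w‖ ≤ (2 * B + 16 * C' * η) * ‖w‖ ^ 2 := by
      refine a1.trans ?_
      have : j * (8 * C' * ‖w‖ ^ 3) = (j * ‖w‖) * (8 * C' * ‖w‖ ^ 2) := by ring
      rw [this]
      have : (j * ‖w‖) * (8 * C' * ‖w‖ ^ 2) ≤ (2 * η) * (8 * C' * ‖w‖ ^ 2) := by gcongr
      nlinarith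
    refine ⟨b1, ?_, ?_⟩
    · have h3 : ‖t - ((n - j : ℝ) : ℂ) * w - c‖ < η := by
        have h4 : t - ((n - j : ℝ) : ℂ) * w ∈ ball c η := by
          have e1 : t ∈ ball c η := by rw [mem_ball, dist_eq_norm]; exact ht
          have e2 : t - n * w ∈ ball c η := h1.1
          rcases Nat.eq_zero_or_pos n with h0 | h0
          · have : j = 0 := by omega
            subst this; subst h0; simpa using e1
          have hn0 : (0 : ℝ) < n := by exact_mod_cast h0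
          have hjn : (j : ℝ) ≤ n := by exact_mod_cast hj
          have := (convex_ball c η) e1 e2 (a := j / n) (b := (n - j) / n) (by positivity)
            (div_nonneg (by linarith) hn0.le) (by field_simp; ring)
          convert this using 1
          simp only [Complex.real_smul]
          have : (n : ℂ) ≠ 0 := by exact_mod_cast hn0.ne'
          push_cast
          field_simp
          ring
        rwa [mem_ball, dist_eq_norm] at h4
      refine S.mem_two h3 ?_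
      refine a2.trans_lt (lt_of_le_of_lt ?_ S.w_η)
      have e3 : B * ‖w‖ ^ 2 ≤ B * ‖w‖ := by
        rw [sq]
        exact mul_le_mul_of_nonneg_left (mul_le_of_le_one_left hw0 S.w_one) hB
      have e4 : j * ((2 * B + 16 * C' * η) * ‖w‖ ^ 2) = (j * ‖w‖) * ((2 * B + 16 * C' * η) * ‖w‖) := by
        ring
      have e5 : (j * ‖w‖) * ((2 * B + 16 * C' * η) * ‖w‖) ≤
          (2 * η) * ((2 * B + 16 * C' * η) * ‖w‖) := by gcongr
      rw [e4]
      nlinarith
    · calc ‖s.2‖ = ‖(s.2 - w) + w‖ := by ring_nf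
        _ ≤ ‖s.2 - w‖ + ‖w‖ := norm_add_le _ _
        _ ≤ 2 * ‖w‖ := by linarith [S.beta]
  induction j with
  | zero =>
    have a1 : ‖(st0 X w n t).2 - w‖ ≤ 2 * B * ‖w‖ ^ 2 + (0 : ℕ) * (8 * C' * ‖w‖ ^ 3) := by
      have := S.step_near h1 h2 (by ring)
      simpa [st0] using this
    have a2 : ‖(st0 X w n t).1 - (t - (n - (0 : ℕ) : ℝ) * w)‖ ≤
        B * ‖w‖ ^ 2 + (0 : ℕ) * ((2 * B + 16 * C' * η) * ‖w‖ ^ 2) := by
      have := S.near_K h1
      simpa [st0] using this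
    obtain ⟨-, m1, m2⟩ := aux 0 _ (by omega) a1 a2
    exact ⟨a1, a2, m1, m2.trans_lt S.w_ε⟩
  | succ j ih =>
    obtain ⟨i1, i2, i3, i4⟩ := ih (by omega)
    obtain ⟨-, -, m2⟩ := aux j _ (by omega) i1 i2
    rw [Function.iterate_succ_apply']
    set s := (Fm E)^[j] (st0 X w n t) with hs
    have hE := S.em.near s.1 i3 s.2 i4
    have hE' : ‖E s - s.2‖ ≤ 8 * C' * ‖w‖ ^ 3 := by
      refine hE.trans ?_
      calc C' * ‖s.2‖ ^ 3 ≤ C' * (2 * ‖w‖) ^ 3 := by gcongr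
        _ = 8 * C' * ‖w‖ ^ 3 := by ring
    have a1 : ‖(Fm E s).2 - w‖ ≤ 2 * B * ‖w‖ ^ 2 + (j + 1 : ℕ) * (8 * C' * ‖w‖ ^ 3) := by
      calc ‖(Fm E s).2 - w‖ = ‖(E s - s.2) + (s.2 - w)‖ := by simp only [Fm]; ring_nf
        _ ≤ ‖E s - s.2‖ + ‖s.2 - w‖ := norm_add_le _ _
        _ ≤ _ := by push_cast; linarith
    have b1 : ‖(Fm E s).2 - w‖ ≤ (2 * B + 16 * C' * η) * ‖w‖ ^ 2 := by
      refine a1.trans ?_
      have hjw : ((j + 1 : ℕ) : ℝ) * ‖w‖ ≤ 2 * η := by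
        have : ((j + 1 : ℕ) : ℝ) ≤ n := by exact_mod_cast hj
        exact le_trans (by gcongr) hn
      have e1 : ((j + 1 : ℕ) : ℝ) * (8 * C' * ‖w‖ ^ 3) = (((j + 1 : ℕ) : ℝ) * ‖w‖) * (8 * C' * ‖w‖ ^ 2) := by
        ring
      rw [e1]
      have : (((j + 1 : ℕ) : ℝ) * ‖w‖) * (8 * C' * ‖w‖ ^ 2) ≤ (2 * η) * (8 * C' * ‖w‖ ^ 2) := by gcongr
      nlinarith
    have a2 : ‖(Fm E s).1 - (t - (n - (j + 1 : ℕ) : ℝ) * w)‖ ≤
        B * ‖w‖ ^ 2 + (j + 1 : ℕ) * ((2 * B + 16 * C' * η) * ‖w‖ ^ 2) := by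
      calc ‖(Fm E s).1 - (t - (n - (j + 1 : ℕ) : ℝ) * w)‖
          = ‖(s.1 - (t - (n - j : ℝ) * w)) + ((Fm E s).2 - w)‖ := by
            simp only [Fm]; push_cast; ring_nf
        _ ≤ ‖s.1 - (t - (n - j : ℝ) * w)‖ + ‖(Fm E s).2 - w‖ := norm_add_le _ _
        _ ≤ _ := by push_cast; push_cast at i2; linarith
    obtain ⟨-, m1, m2'⟩ := aux (j + 1) _ hj a1 a2
    exact ⟨a1, a2, m1, m2'.trans_lt S.w_ε⟩

/-- `t - n w`, `t - (n + 1) w` in the half disc -/
def TT (c u : ℂ) (η δ : ℝ) (w : ℂ) (n : ℕ) : Set ℂ :=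
  {t | ‖t - c‖ < η ∧ t - n * w ∈ Half c u η δ ∧ t - (n + 1) * w ∈ Half c u η δ}

lemma isOpen_TT (c u : ℂ) (η δ : ℝ) (w : ℂ) (n : ℕ) : IsOpen (TT c u η δ w n) := by
  have h1 : IsOpen {t : ℂ | ‖t - c‖ < η} :=
    isOpen_lt (by fun_prop : Continuous fun t : ℂ => ‖t - c‖) continuous_const
  have h2 : IsOpen {t : ℂ | t - n * w ∈ Half c u η δ} :=
    (isOpen_Half c u η δ).preimage (by fun_prop : Continuous fun t : ℂ => t - n * w)
  have h3 : IsOpen {t : ℂ | t - (n + 1) * w ∈ Half c u η δ} :=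
    (isOpen_Half c u η δ).preimage (by fun_prop : Continuous fun t : ℂ => t - (n + 1) * w)
  exact h1.inter (h2.inter h3)

/-- the extension with `n` steps -/
def XX (E X : ℂ × ℂ → ℂ) (w : ℂ) (n : ℕ) (t : ℂ) : ℂ := ((Fm E)^[n] (st0 X w n t)).1

theorem Sit.XX_near (S : Sit c u η δ ε' C' r B k E X w) {t : ℂ} {n : ℕ} (ht : t ∈ TT c u η δ w n) :
    ‖XX E X w n t - t‖ ≤ (B + 2 * η * (2 * B + 16 * C' * η)) * ‖w‖ := by
  have hw0 := norm_nonneg w
  have hC := S.em.C_nn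
  have hB := S.B_nn
  have hη := S.η_pos
  have h := (S.orbit ht.1 ht.2.1 ht.2.2 n le_rfl).2.1
  have e0 : t - ((n - n : ℝ) : ℂ) * w = t := by push_cast; ring
  rw [e0] at h
  unfold XX
  refine h.trans ?_
  have hn : n * ‖w‖ ≤ 2 * η := by
    have h3 : ‖((n : ℂ)) * w‖ ≤ ‖t - c‖ + ‖t - n * w - c‖ := by
      calc ‖((n : ℂ)) * w‖ = ‖(t - c) - (t - n * w - c)‖ := by ring_nf
        _ ≤ _ := norm_sub_le _ _
    rw [norm_mul, Complex.norm_natCast] at h3
    linarith [(mem_Half.1 ht.2.1).1, ht.1]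
  have e3 : B * ‖w‖ ^ 2 ≤ B * ‖w‖ := by
    rw [sq]
    exact mul_le_mul_of_nonneg_left (mul_le_of_le_one_left hw0 S.w_one) hB
  have e4 : n * ((2 * B + 16 * C' * η) * ‖w‖ ^ 2) = (n * ‖w‖) * ((2 * B + 16 * C' * η) * ‖w‖) := by
    ring
  have e5 : (n * ‖w‖) * ((2 * B + 16 * C' * η) * ‖w‖) ≤
      (2 * η) * ((2 * B + 16 * C' * η) * ‖w‖) := by gcongr
  rw [e4]
  nlinarith

theorem Sit.XX_diff (S : Sit c u η δ ε' C' r B k E X w) (n : ℕ) :
    DifferentiableOn ℂ (XX E X w n) (TT c u η δ w n) := by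
  have hX : DifferentiableOn ℂ (fun s : ℂ => X (s, w)) (Half c u η δ) :=
    S.lf.diff.comp (by fun_prop : DifferentiableOn ℂ (fun s : ℂ => ((s, w) : ℂ × ℂ)) _)
      (fun s hs => ⟨hs, by rw [mem_ball, dist_zero_right]; exact S.w_r⟩)
  have key : ∀ j ≤ n, DifferentiableOn ℂ (fun t => (Fm E)^[j] (st0 X w n t)) (TT c u η δ w n) := by
    intro j
    induction j with
    | zero =>
      intro _
      have h1 : DifferentiableOn ℂ (fun t : ℂ => X (t - n * w, w)) (TT c u η δ w n) :=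
        hX.comp (by fun_prop : DifferentiableOn ℂ (fun t : ℂ => t - n * w) _) (fun t ht => ht.2.1)
      have h2 : DifferentiableOn ℂ (fun t : ℂ => X (t - (n + 1) * w, w)) (TT c u η δ w n) :=
        hX.comp (by fun_prop : DifferentiableOn ℂ (fun t : ℂ => t - (n + 1) * w) _)
          (fun t ht => ht.2.2)
      exact h1.prodMk (h1.sub h2)
    | succ j ih =>
      intro hj
      have h1 := ih (by omega)
      have h2 : DifferentiableOn ℂ (fun t => E ((Fm E)^[j] (st0 X w n t))) (TT c u η δ w n) := by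
        refine S.em.diff.comp h1 (fun t ht => ?_)
        have := S.orbit ht.1 ht.2.1 ht.2.2 j (by omega)
        exact ⟨this.2.2.1, by rw [mem_ball, dist_zero_right]; exact this.2.2.2⟩
      have h3 : (fun t => (Fm E)^[j + 1] (st0 X w n t)) =
          fun t => (((Fm E)^[j] (st0 X w n t)).1 + E ((Fm E)^[j] (st0 X w n t)),
            E ((Fm E)^[j] (st0 X w n t))) := by
        funext t
        rw [Function.iterate_succ_apply']
        rfl
      rw [h3]
      exact (h1.fst.add h2).prodMk h2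
  exact (key n le_rfl).fst

theorem Sit.XX_succ (S : Sit c u η δ ε' C' r B k E X w) {t : ℂ} {n : ℕ} (h1 : t ∈ TT c u η δ w n)
    (h2 : t ∈ TT c u η δ w (n + 1)) : XX E X w (n + 1) t = XX E X w n t := by
  unfold XX
  rw [Function.iterate_succ_apply]
  have hcast : ((n + 1 : ℕ) : ℂ) = (n : ℂ) + 1 := by push_cast; ring
  have m0 := h1.2.1
  have m1 := h1.2.2
  have m2 := h2.2.2
  rw [hcast] at m2
  have hlaw := S.lf.law (t - (n + 1) * w) w S.w_r
    (by rw [show t - (n + 1) * w - w = t - (n + 1 + 1) * w by ring]; exact m2) m1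
    (by rw [show t - (n + 1) * w + w = t - n * w by ring]; exact m0)
  rw [show t - (n + 1) * w + w = t - n * w by ring,
    show t - (n + 1) * w - w = t - (n + 1 + 1) * w by ring] at hlaw
  have s1 := S.step_near m0 m1 (by ring)
  have s2 := S.step_near m1 m2 (by ring)
  have b := S.two_B
  have hw := S.w_ε
  have n1 : ‖X (t - n * w, w) - X (t - (n + 1) * w, w)‖ < ε' := by
    calc _ = ‖(X (t - n * w, w) - X (t - (n + 1) * w, w) - w) + w‖ := by ring_nf
      _ ≤ _ := norm_add_le _ _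
      _ < ε' := by linarith
  have n2 : ‖X (t - (n + 1) * w, w) - X (t - (n + 1 + 1) * w, w)‖ < ε' := by
    calc _ = ‖(X (t - (n + 1) * w, w) - X (t - (n + 1 + 1) * w, w) - w) + w‖ := by ring_nf
      _ ≤ _ := norm_add_le _ _
      _ < ε' := by linarith
  have hu := S.em.uniq (X (t - (n + 1) * w, w)) (S.memX m1)
    (X (t - (n + 1) * w, w) - X (t - (n + 1 + 1) * w, w))
    (X (t - n * w, w) - X (t - (n + 1) * w, w)) n2 n1 (by
      rw [hlaw]
      ring_nf)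
  have h3 : Fm E (st0 X w (n + 1) t) = st0 X w n t := by
    unfold Fm st0
    rw [hcast]
    simp only
    rw [← hu]
    ext <;> simp
  rw [h3]

lemma TT_between {n m j : ℕ} {t : ℂ} (h1 : t ∈ TT c u η δ w n) (h2 : t ∈ TT c u η δ w m)
    (hn : n ≤ j) (hm : j ≤ m) : t ∈ TT c u η δ w j := by
  have a1 : t - ((n : ℝ) : ℂ) * w ∈ Half c u η δ := by simpa using h1.2.1
  have a2 : t - ((m + 1 : ℝ) : ℂ) * w ∈ Half c u η δ := by simpa using h2.2.2
  have e1 : (n : ℝ) ≤ j := by exact_mod_cast hn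
  have e2 : (j : ℝ) ≤ m := by exact_mod_cast hm
  refine ⟨h1.1, ?_, ?_⟩
  · have := seg_Half a1 a2 (s := j) e1 (by linarith)
    simpa using this
  · have := seg_Half a1 a2 (s := j + 1) (by linarith) (by linarith)
    simpa using this

theorem Sit.XX_eq (S : Sit c u η δ ε' C' r B k E X w) {t : ℂ} {n m : ℕ} (h1 : t ∈ TT c u η δ w n)
    (h2 : t ∈ TT c u η δ w m) : XX E X w n t = XX E X w m t := by
  wlog hnm : n ≤ m generalizing n m
  · exact (this h2 h1 (by omega)).symm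
  obtain ⟨d, rfl⟩ := Nat.exists_eq_add_of_le hnm
  clear hnm
  induction d with
  | zero => rfl
  | succ d ih =>
    have h3 : t ∈ TT c u η δ w (n + d) := TT_between h1 h2 (by omega) (by omega)
    rw [ih h3]
    exact (S.XX_succ h3 h2).symm

/-- **extension of `X (·, w)` for `w` in the good sector** -/
theorem Sit.sector (S : Sit c u η δ ε' C' r B k E X w) (hu : ‖u‖ = 1) (hδ : 0 < δ)
    (hδη : δ ≤ η / 40) (hwη : ‖w‖ ≤ η / 100) (hg : ‖w‖ / 8 < (w * conj u).im) :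
    ∃ Y : ℂ → ℂ, DifferentiableOn ℂ Y (ball c (η / 40)) ∧
      (∀ t ∈ ball c (η / 40), ‖Y t - t‖ ≤ (B + 2 * η * (2 * B + 16 * C' * η)) * ‖w‖) ∧
      ∀ t ∈ ball c (η / 40), t ∈ Half c u η δ → Y t = X (t, w) := by
  have hη := S.η_pos
  have hw0 : 0 < ‖w‖ := by
    rcases eq_or_ne w 0 with h | h
    · rw [h] at hg; simp at hg
    · exact norm_pos_iff.2 h
  have hi0 : 0 < (w * conj u).im := by linarith
  have hcov : ∀ t ∈ ball c (η / 40), ∃ n : ℕ, t ∈ TT c u η δ w n := by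
    intro t ht
    rw [mem_ball, dist_eq_norm] at ht
    refine ⟨⌈(η / 40 + δ) / (w * conj u).im⌉₊, by linarith, ?_, ?_⟩
    all_goals
      set n := ⌈(η / 40 + δ) / (w * conj u).im⌉₊ with hn
      have h1 : (η / 40 + δ) / (w * conj u).im ≤ n := Nat.le_ceil _
      have h2 : (n : ℝ) < (η / 40 + δ) / (w * conj u).im + 1 := Nat.ceil_lt_add_one (by positivity)
      have h3 : η / 40 + δ ≤ n * (w * conj u).im := by
        rwa [div_le_iff₀ hi0] at h1
      have h4 : (η / 40 + δ) / (w * conj u).im ≤ (η / 40 + δ) / (‖w‖ / 8) := by gcongr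
      have h5 : n * ‖w‖ ≤ 8 * (η / 40 + δ) + ‖w‖ := by
        have : n * ‖w‖ ≤ ((η / 40 + δ) / (‖w‖ / 8) + 1) * ‖w‖ := by gcongr; linarith
        refine this.trans (le_of_eq ?_)
        field_simp
      have him : ((t - c) * conj u).im ≤ ‖t - c‖ := by
        refine (Complex.im_le_norm _).trans (le_of_eq ?_)
        rw [norm_mul, Complex.norm_conj, hu, mul_one]
    · refine mem_Half.2 ⟨?_, ?_⟩
      · calc ‖t - n * w - c‖ = ‖(t - c) - n * w‖ := by ring_nf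
          _ ≤ ‖t - c‖ + ‖(n : ℂ) * w‖ := norm_sub_le _ _
          _ = ‖t - c‖ + n * ‖w‖ := by rw [norm_mul, Complex.norm_natCast]
          _ < η := by nlinarith
      · have : ((t - n * w - c) * conj u).im = ((t - c) * conj u).im - n * (w * conj u).im := by
          rw [show (t - n * w - c) * conj u = (t - c) * conj u - ((n : ℝ) : ℂ) * (w * conj u) by
            push_cast; ring, Complex.sub_im, Complex.im_ofReal_mul]
        rw [this]
        linarith
    · refine mem_Half.2 ⟨?_, ?_⟩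
      · calc ‖t - (n + 1) * w - c‖ = ‖(t - c) - ((n + 1 : ℕ) : ℂ) * w‖ := by push_cast; ring_nf
          _ ≤ ‖t - c‖ + ‖((n + 1 : ℕ) : ℂ) * w‖ := norm_sub_le _ _
          _ = ‖t - c‖ + (n + 1) * ‖w‖ := by rw [norm_mul, Complex.norm_natCast]; push_cast; ring
          _ < η := by nlinarith
      · have : ((t - (n + 1) * w - c) * conj u).im =
            ((t - c) * conj u).im - (n + 1) * (w * conj u).im := by
          rw [show (t - (n + 1) * w - c) * conj u = (t - c) * conj u -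
            ((n + 1 : ℝ) : ℂ) * (w * conj u) by
            push_cast; ring, Complex.sub_im, Complex.im_ofReal_mul]
        rw [this]
        nlinarith
  classical
  let N : ℂ → ℕ := fun t => if h : t ∈ ball c (η / 40) then (hcov t h).choose else 0
  have hN : ∀ t ∈ ball c (η / 40), t ∈ TT c u η δ w (N t) := by
    intro t ht
    simp only [N]
    rw [dif_pos ht]
    exact (hcov t ht).choose_spec
  refine ⟨fun t => XX E X w (N t) t, ?_, ?_, ?_⟩
  · intro t ht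
    have h1 := hN t ht
    have h2 : DifferentiableAt ℂ (XX E X w (N t)) t :=
      (S.XX_diff (N t)).differentiableAt ((isOpen_TT c u η δ w (N t)).mem_nhds h1)
    refine (h2.congr_of_eventuallyEq ?_).differentiableWithinAt
    filter_upwards [(isOpen_TT c u η δ w (N t)).mem_nhds h1, isOpen_ball.mem_nhds ht] with s hs hs'
    exact S.XX_eq (hN s hs') hs
  · intro t ht
    exact S.XX_near (hN t ht)
  · intro t ht htK
    have h0 : t ∈ TT c u η δ w 0 := by
      have h1 := mem_Half.1 htK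
      refine ⟨h1.1, by simpa using htK, ?_⟩
      refine mem_Half.2 ⟨?_, ?_⟩
      · rw [mem_ball, dist_eq_norm] at ht
        calc ‖t - ((0 : ℕ) + 1) * w - c‖ = ‖(t - c) - w‖ := by push_cast; ring_nf
          _ ≤ ‖t - c‖ + ‖w‖ := norm_sub_le _ _
          _ < η := by linarith
      · have : ((t - ((0 : ℕ) + 1) * w - c) * conj u).im =
            ((t - c) * conj u).im - (w * conj u).im := by
          rw [show (t - ((0 : ℕ) + 1) * w - c) * conj u = (t - c) * conj u - w * conj u by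
            push_cast; ring, Complex.sub_im]
        rw [this]
        linarith [h1.2]
    show XX E X w (N t) t = X (t, w)
    rw [S.XX_eq (hN t ht) h0]
    simp [XX, st0]

end

end Crest.Agent.R102.C1
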