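import Mathlib
import Crest.Agent.R102.C1B_821

/-!
Row 102, part (C), C1: **`Loc`** (half disc ⇒ disc).
-/

set_option autoImplicit false

open Set Filter Topology Metric
open scoped ComplexConjugate

noncomputable section

namespace Crest.Agent.R102.C1

open Crest.Agent.R102.M948

/-- `w ↦ - w` -/
def negw (X : ℂ × ℂ → ℂ) (p : ℂ × ℂ) : ℂ := X (p.1, -p.2)

lemma LeafOn.neg {k : ℂ × ℂ → ℂ} {K : Set ℂ} {r B : ℝ} {X : ℂ × ℂ → ℂ} (h : LeafOn k K r B X) :
    LeafOn k K r B (negw X) := by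
  refine ⟨?_, ?_, ?_⟩
  · refine h.diff.comp (by fun_prop) (fun p hp => ⟨hp.1, ?_⟩)
    have := hp.2
    simp only [mem_ball, dist_zero_right] at this ⊢
    rwa [norm_neg]
  · intro t ht w hw
    have := h.near t ht (-w) (by rwa [norm_neg])
    rwa [norm_neg] at this
  · intro t w hw h1 h2 h3
    have := h.law t (-w) (by rwa [norm_neg]) (by rwa [sub_neg_eq_add]) h2
      (by rwa [← sub_eq_add_neg])
    simp only [negw]
    rw [sub_neg_eq_add, ← sub_eq_add_neg] at this
    rw [this, neg_neg]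

lemma LeafOn.mono {k : ℂ × ℂ → ℂ} {K K' : Set ℂ} {r B r' B' : ℝ} {X : ℂ × ℂ → ℂ}
    (h : LeafOn k K r B X) (hK : K' ⊆ K) (hr : r' ≤ r) (hB : B ≤ B') : LeafOn k K' r' B' X := by
  refine ⟨h.diff.mono (prod_mono hK (ball_subset_ball hr)), ?_, ?_⟩
  · intro t ht w hw
    exact (h.near t (hK ht) w (hw.trans_le hr)).trans (by gcongr)
  · intro t w hw h1 h2 h3
    exact h.law t w (hw.trans_le hr) (hK h1) (hK h2) (hK h3)

section
variable {c u : ℂ} {η ε' C' r B r₁ : ℝ} {k E X : ℂ × ℂ → ℂ}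

/-- the deviation, `w` first -/
def fdev (X : ℂ × ℂ → ℂ) (p : ℂ × ℂ) : ℂ := X (p.2, p.1) - p.2

/-- Taylor centre -/
def cen (c u : ℂ) (η : ℝ) : ℂ := c - Complex.I * ((η / 400 : ℝ) : ℂ) * u

lemma cen_dist (hu : ‖u‖ = 1) (hη : 0 < η) : ‖cen c u η - c‖ = η / 400 := by
  unfold cen
  rw [show c - Complex.I * ((η / 400 : ℝ) : ℂ) * u - c = -(Complex.I * ((η / 400 : ℝ) : ℂ) * u) by
    ring, norm_neg, norm_mul, norm_mul, Complex.norm_I, hu, Complex.norm_real, Real.norm_eq_abs,
    abs_of_pos (by positivity)]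
  ring

lemma cen_im (hu : ‖u‖ = 1) (t : ℂ) :
    ((t - c) * conj u).im = ((t - cen c u η) * conj u).im - η / 400 := by
  have h1 : u * conj u = 1 := by
    rw [Complex.mul_conj, Complex.normSq_eq_norm_sq, hu]; norm_num
  have h2 : (t - c) * conj u = (t - cen c u η) * conj u - Complex.I * ((η / 400 : ℝ) : ℂ) := by
    unfold cen
    linear_combination -(Complex.I * ((η / 400 : ℝ) : ℂ)) * h1
  rw [h2, Complex.sub_im]
  simp

lemma ball_cen_Half (hu : ‖u‖ = 1) (hη : 0 < η) :
    ball (cen c u η) (9 * η / 4000) ⊆ Half c u η (η / 4000) := by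
  intro t ht
  rw [mem_ball, dist_eq_norm] at ht
  refine mem_Half.2 ⟨?_, ?_⟩
  · calc ‖t - c‖ = ‖(t - cen c u η) + (cen c u η - c)‖ := by ring_nf
      _ ≤ ‖t - cen c u η‖ + ‖cen c u η - c‖ := norm_add_le _ _
      _ < η := by rw [cen_dist hu hη]; linarith
  · rw [cen_im hu (η := η)]
    have : ((t - cen c u η) * conj u).im ≤ ‖t - cen c u η‖ := by
      refine (Complex.im_le_norm _).trans (le_of_eq ?_)
      rw [norm_mul, Complex.norm_conj, hu, mul_one]
    linarith

lemma fdev_diff {K : Set ℂ} (h : DifferentiableOn ℂ X (K ×ˢ ball 0 r)) :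
    DifferentiableOn ℂ (fdev X) (ball 0 r ×ˢ K) := by
  refine DifferentiableOn.sub ?_ (by fun_prop)
  exact h.comp (by fun_prop : DifferentiableOn ℂ (fun p : ℂ × ℂ => ((p.2, p.1) : ℂ × ℂ)) _)
    (fun p hp => ⟨hp.2, hp.1⟩)

lemma coef_diff (hu : ‖u‖ = 1) (hη : 0 < η) (h : LeafOn k (Half c u η (η / 4000)) r B X) (n : ℕ) :
    DifferentiableOn ℂ (coefT (fdev X) (cen c u η) n) (ball 0 r) :=
  differentiableOn_coefT isOpen_ball (r0 := 9 * η / 4000) (by positivity)
    ((fdev_diff h.diff).mono (prod_mono le_rfl (ball_cen_Half hu hη))) n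

lemma coef_known (hu : ‖u‖ = 1) (hη : 0 < η) (h : LeafOn k (Half c u η (η / 4000)) r B X) (n : ℕ)
    {w : ℂ} (hw : ‖w‖ < r) :
    ‖coefT (fdev X) (cen c u η) n w‖ ≤ B * ‖w‖ ^ 2 * (1 / (η / 800)) ^ n := by
  have hsub : closedBall (cen c u η) (η / 800) ⊆ Half c u η (η / 4000) :=
    (closedBall_subset_ball (by linarith)).trans (ball_cen_Half hu hη)
  have hw' : w ∈ ball (0 : ℂ) r := by rw [mem_ball, dist_zero_right]; exact hw
  refine norm_coefT_le (by positivity) ?_ ?_ n
  · refine DifferentiableOn.diffContOnCl ?_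
    rw [closure_ball _ (by positivity)]
    exact (slice_differentiableOn (fdev_diff h.diff) hw').mono hsub
  · intro t ht
    exact h.near t (hsub (sphere_subset_closedBall ht)) w hw

lemma coef_good_aux (hu : ‖u‖ = 1) (hη : 0 < η) {w : ℂ} (n : ℕ) {A : ℝ} {Y : ℂ → ℂ}
    (hY : DifferentiableOn ℂ Y (ball c (η / 40))) (hYn : ∀ t ∈ ball c (η / 40), ‖Y t - t‖ ≤ A)
    (hYX : ∀ t ∈ ball c (η / 40), t ∈ Half c u η (η / 4000) → Y t = X (t, w)) :
    ‖coefT (fdev X) (cen c u η) n w‖ ≤ A * (1 / (η / 50)) ^ n := by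
  have hsub : closedBall (cen c u η) (η / 50) ⊆ ball c (η / 40) := by
    intro t ht
    rw [mem_closedBall, dist_eq_norm] at ht
    rw [mem_ball, dist_eq_norm]
    calc ‖t - c‖ = ‖(t - cen c u η) + (cen c u η - c)‖ := by ring_nf
      _ ≤ ‖t - cen c u η‖ + ‖cen c u η - c‖ := norm_add_le _ _
      _ < η / 40 := by rw [cen_dist hu hη]; linarith
  have h1 : coefT (fdev X) (cen c u η) n w =
      coefT (fun p : ℂ × ℂ => Y p.2 - p.2) (cen c u η) n w := by
    unfold coefT
    congr 1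
    have h3 : (fun s => fdev X (w, s)) =ᶠ[𝓝 (cen c u η)] (fun s => Y s - s) := by
      filter_upwards [isOpen_ball.mem_nhds (mem_ball_self (x := cen c u η)
        (show 0 < 9 * η / 4000 by positivity))] with s hs
      have hs2 : s ∈ ball c (η / 40) := hsub (by
        rw [mem_ball] at hs; rw [mem_closedBall]; linarith)
      simp only [fdev]
      rw [hYX s hs2 (ball_cen_Half hu hη hs)]
    exact h3.iteratedDeriv_eq n
  rw [h1]
  refine norm_coefT_le (by positivity) ?_ ?_ n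
  · refine DifferentiableOn.diffContOnCl ?_
    rw [closure_ball _ (by positivity)]
    exact (hY.sub differentiableOn_id).mono hsub
  · intro t ht
    exact hYn t (hsub (sphere_subset_closedBall ht))

/-- the constant `A` -/
def Aco (η C' B : ℝ) : ℝ := B + 2 * η * (2 * B + 16 * C' * η)

lemma coef_good (hu : ‖u‖ = 1) (hη : 0 < η) (n : ℕ) {w : ℂ}
    (S : Sit c u η (η / 4000) ε' C' r B k E X w)
    (S' : Sit c u η (η / 4000) ε' C' r B k E (negw X) (-w))
    (hwη : ‖w‖ ≤ η / 100) (hg : ‖w‖ / 8 < |(w * conj u).im|) :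
    ‖coefT (fdev X) (cen c u η) n w‖ ≤ Aco η C' B * (1 / (η / 50)) ^ n := by
  have hA : Aco η C' B * ‖w‖ ≤ Aco η C' B := by
    have hB := S.B_nn
    have hC := S.em.C_nn
    have : 0 ≤ Aco η C' B := by unfold Aco; positivity
    exact mul_le_of_le_one_right this S.w_one
  rcases lt_abs.1 hg with h | h
  · obtain ⟨Y, h1, h2, h3⟩ := S.sector hu (by positivity) (by linarith) hwη h
    exact coef_good_aux hu hη n h1 (fun t ht => (h2 t ht).trans hA) h3
  · obtain ⟨Y, h1, h2, h3⟩ := S'.sector hu (by positivity) (by linarith) (by rwa [norm_neg])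
      (by rw [norm_neg, neg_mul, Complex.neg_im]; exact h)
    refine coef_good_aux hu hη n h1 (fun t ht => (h2 t ht).trans (by rw [norm_neg]; exact hA)) ?_
    intro t ht htK
    rw [h3 t ht htK]
    simp [negw]

theorem coef_all (hu : ‖u‖ = 1) (hη : 0 < η) (n : ℕ)
    (S : ∀ w : ℂ, ‖w‖ < r₁ → Sit c u η (η / 4000) ε' C' r B k E X w ∧
      Sit c u η (η / 4000) ε' C' r B k E (negw X) (-w) ∧ ‖w‖ ≤ η / 100)
    {w : ℂ} (hw : ‖w‖ < r₁ / 2) :
    ‖coefT (fdev X) (cen c u η) n w‖ ≤ (Aco η C' B + B) * (1 / (η / 200)) ^ n := by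
  have hr₁ : 0 < r₁ := by linarith [norm_nonneg w]
  have h00 := (S 0 (by simpa using hr₁)).1
  have hB := h00.B_nn
  have hC := h00.em.C_nn
  have hlf := h00.lf
  have hA0 : 0 ≤ Aco η C' B := by unfold Aco; positivity
  have hw1 : ‖w‖ < r₁ := by linarith
  obtain ⟨S1, S2, S3⟩ := S w hw1
  have hkn : ∀ z : ℂ, ‖z‖ < r₁ → ‖coefT (fdev X) (cen c u η) n z‖ ≤ B * (1 / (η / 800)) ^ n := by
    intro z hz
    obtain ⟨T1, -, -⟩ := S z hz
    refine (coef_known hu hη hlf n T1.w_r).trans ?_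
    have : B * ‖z‖ ^ 2 ≤ B := by
      have : ‖z‖ ^ 2 ≤ 1 := pow_le_one₀ (norm_nonneg _) T1.w_one
      exact mul_le_of_le_one_right hB this
    gcongr
  by_cases hg : ‖w‖ / 8 < |(w * conj u).im|
  · refine (coef_good hu hη n S1 S2 S3 hg).trans ?_
    have : (1 / (η / 50)) ^ n ≤ (1 / (η / 200)) ^ n := by gcongr; norm_num
    calc Aco η C' B * (1 / (η / 50)) ^ n ≤ Aco η C' B * (1 / (η / 200)) ^ n := by gcongr
      _ ≤ (Aco η C' B + B) * (1 / (η / 200)) ^ n := by gcongr; linarith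
  · push Not at hg
    rcases eq_or_ne w 0 with h0 | h0
    · have h1 := coef_known hu hη hlf n S1.w_r
      rw [h0, norm_zero] at h1
      have h2 : ‖coefT (fdev X) (cen c u η) n 0‖ ≤ 0 := by simpa using h1
      rw [h0]
      refine h2.trans ?_
      positivity
    have hwp : 0 < ‖w‖ := norm_pos_iff.2 h0
    have hsub : closedBall w (‖w‖ / 2) ⊆ ball 0 r := by
      intro z hz
      rw [mem_closedBall, dist_eq_norm] at hz
      have hz2 : ‖z‖ < r₁ := by
        calc ‖z‖ = ‖(z - w) + w‖ := by ring_nf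
          _ ≤ ‖z - w‖ + ‖w‖ := norm_add_le _ _
          _ < r₁ := by linarith
      rw [mem_ball, dist_zero_right]
      exact (S z hz2).1.w_r
    have key := two_constants (f := coefT (fdev X) (cen c u η) n) (a := w) (ρ := ‖w‖ / 2)
      (M := (Aco η C' B * (1 / (η / 50)) ^ n) * (B * (1 / (η / 800)) ^ n)) (by positivity)
      ((coef_diff hu hη hlf n).mono hsub) ?_
    · have h1 : (Aco η C' B * (1 / (η / 50)) ^ n) * (B * (1 / (η / 800)) ^ n) =
          (Aco η C' B * B) * ((1 / (η / 200)) ^ n) ^ 2 := by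
        rw [← pow_mul, mul_comm n 2, pow_mul, show (1 / (η / 200)) ^ 2 =
          (1 / (η / 50)) * (1 / (η / 800)) by field_simp; norm_num, mul_pow]
        ring
      rw [h1] at key
      have h2 : (Aco η C' B * B) * ((1 / (η / 200)) ^ n) ^ 2 ≤
          ((Aco η C' B + B) * (1 / (η / 200)) ^ n) ^ 2 := by
        rw [mul_pow]
        gcongr
        nlinarith
      exact (pow_le_pow_iff_left₀ (norm_nonneg _) (by positivity) two_ne_zero).1 (key.trans h2)
    · intro ζ hζ
      have hζ1 : ‖Complex.I * ζ‖ = ‖w‖ / 2 := by rw [norm_mul, Complex.norm_I, one_mul, hζ]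
      have hb : ∀ z : ℂ, ‖z‖ = ‖w‖ / 2 → ‖w + z‖ ≤ 3 / 2 * ‖w‖ := by
        intro z hz
        refine (norm_add_le _ _).trans (by rw [hz]; linarith)
      have hb' : ∀ z : ℂ, ‖z‖ = ‖w‖ / 2 → ‖w + z‖ < r₁ := fun z hz => by linarith [hb z hz]
      have hgood : ∀ z : ℂ, ‖z‖ = ‖w‖ / 2 → 7 / 20 * ‖w‖ ≤ |(z * conj u).im| →
          ‖coefT (fdev X) (cen c u η) n (w + z)‖ ≤ Aco η C' B * (1 / (η / 50)) ^ n := by
        intro z hz hzi
        obtain ⟨T1, T2, T3⟩ := S (w + z) (hb' z hz)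
        refine coef_good hu hη n T1 T2 T3 ?_
        have h3 : |(z * conj u).im| - |(w * conj u).im| ≤ |((w + z) * conj u).im| := by
          rw [add_mul, Complex.add_im]
          have := abs_sub_abs_le_abs_sub (z * conj u).im (-(w * conj u).im)
          rw [abs_neg, sub_neg_eq_add] at this
          rwa [add_comm (w * conj u).im]
        linarith [hb z hz]
      have hn0 : ∀ z : ℂ, 0 ≤ ‖coefT (fdev X) (cen c u η) n z‖ := fun z => norm_nonneg _
      have hsq : (ζ * conj u).im ^ 2 + (ζ * conj u).re ^ 2 = (‖w‖ / 2) ^ 2 := by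
        have h3 : ‖ζ * conj u‖ = ‖w‖ / 2 := by rw [norm_mul, Complex.norm_conj, hu, mul_one, hζ]
        rw [← h3, ← Complex.normSq_eq_norm_sq, Complex.normSq_apply]
        ring
      by_cases hc : 7 / 20 * ‖w‖ ≤ |(ζ * conj u).im|
      · exact mul_le_mul (hgood ζ hζ hc) (hkn _ (hb' _ hζ1)) (hn0 _) (by positivity)
      · push Not at hc
        have h4 : 7 / 20 * ‖w‖ ≤ |((Complex.I * ζ) * conj u).im| := by
          rw [mul_assoc, Complex.I_mul_im]
          have h5 : (ζ * conj u).im ^ 2 < (7 / 20 * ‖w‖) ^ 2 := by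
            rw [← sq_abs]
            gcongr
          have h6 : (7 / 20 * ‖w‖) ^ 2 ≤ |(ζ * conj u).re| ^ 2 := by
            rw [sq_abs]
            nlinarith
          exact (pow_le_pow_iff_left₀ (by positivity) (abs_nonneg _) two_ne_zero).1 h6
        rw [mul_comm]
        exact mul_le_mul (hgood _ hζ1 h4) (hkn _ (hb' _ hζ)) (hn0 _) (by positivity)

/-- the extended function -/
def GX (X : ℂ × ℂ → ℂ) (c u : ℂ) (η : ℝ) (p : ℂ × ℂ) : ℂ :=
  p.1 + ∑' n, coefT (fdev X) (cen c u η) n p.2 * (p.1 - cen c u η) ^ n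

theorem assembly (hu : ‖u‖ = 1) (hη : 0 < η) (hr₁ : 0 < r₁)
    (S : ∀ w : ℂ, ‖w‖ < r₁ → Sit c u η (η / 4000) ε' C' r B k E X w ∧
      Sit c u η (η / 4000) ε' C' r B k E (negw X) (-w) ∧ ‖w‖ ≤ η / 100) :
    DifferentiableOn ℂ (GX X c u η) (ball (cen c u η) (3 * η / 800) ×ˢ ball 0 (r₁ / 2)) ∧
    (∀ t ∈ ball (cen c u η) (3 * η / 800), ∀ w : ℂ, ‖w‖ < r₁ / 2 →
      ‖GX X c u η (t, w) - t‖ ≤ 4 * ((Aco η C' B + B) / (r₁ / 2) ^ 2) * ‖w‖ ^ 2) ∧
    (∀ t ∈ ball (cen c u η) (3 * η / 800), t ∈ Half c u η (η / 4000) → ∀ w : ℂ, ‖w‖ < r₁ / 2 →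
      GX X c u η (t, w) = X (t, w)) := by
  have h00 := (S 0 (by simpa using hr₁)).1
  have hB := h00.B_nn
  have hC := h00.em.C_nn
  have hlf := h00.lf
  have hA0 : 0 ≤ Aco η C' B := by unfold Aco; positivity
  have hrr : ∀ w : ℂ, ‖w‖ < r₁ → ‖w‖ < r := fun w hw => (S w hw).1.w_r
  have hsubr : ball (0 : ℂ) (r₁ / 2) ⊆ ball 0 r := by
    intro w hw
    rw [mem_ball, dist_zero_right] at hw ⊢
    exact hrr w (by linarith)
  set M : ℝ := Aco η C' B + B with hM
  have hM0 : 0 ≤ M := by positivity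
  -- quadratic bound of the coefficients
  have hq : ∀ n : ℕ, ∀ w : ℂ, ‖w‖ < r₁ / 2 → ‖coefT (fdev X) (cen c u η) n w‖ ≤
      (M / (r₁ / 2) ^ 2 * ‖w‖ ^ 2) * (1 / (η / 200)) ^ n := by
    intro n w hw
    have h1 := schwarz_two (f := coefT (fdev X) (cen c u η) n) (R := r₁ / 2)
      (M := M * (1 / (η / 200)) ^ n) (A := B * (1 / (η / 800)) ^ n) (by positivity)
      ((coef_diff hu hη hlf n).mono hsubr)
      (fun z hz => coef_all hu hη n S (by simpa using hz))
      (fun z hz => by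
        have := coef_known hu hη hlf n (w := z) (hrr z (by
          rw [mem_ball, dist_zero_right] at hz; linarith))
        refine this.trans (le_of_eq ?_)
        ring) w (by simpa using hw)
    refine h1.trans (le_of_eq ?_)
    ring
  have hterm : ∀ n : ℕ, ∀ t ∈ ball (cen c u η) (3 * η / 800), ∀ w : ℂ, ‖w‖ < r₁ / 2 →
      ‖coefT (fdev X) (cen c u η) n w * (t - cen c u η) ^ n‖ ≤
        (M / (r₁ / 2) ^ 2 * ‖w‖ ^ 2) * (3 / 4) ^ n := by
    intro n t ht w hw
    rw [mem_ball, dist_eq_norm] at ht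
    rw [norm_mul, norm_pow]
    calc ‖coefT (fdev X) (cen c u η) n w‖ * ‖t - cen c u η‖ ^ n
        ≤ ((M / (r₁ / 2) ^ 2 * ‖w‖ ^ 2) * (1 / (η / 200)) ^ n) * (3 * η / 800) ^ n := by
          gcongr
          exact hq n w hw
      _ = (M / (r₁ / 2) ^ 2 * ‖w‖ ^ 2) * (3 / 4) ^ n := by
          rw [mul_assoc, ← mul_pow]
          congr 2
          field_simp
          norm_num
  have hterm' : ∀ n : ℕ, ∀ p ∈ ball (cen c u η) (3 * η / 800) ×ˢ ball (0 : ℂ) (r₁ / 2),
      ‖coefT (fdev X) (cen c u η) n p.2 * (p.1 - cen c u η) ^ n‖ ≤ M * (3 / 4) ^ n := by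
    intro n p hp
    have h2 : ‖p.2‖ < r₁ / 2 := by simpa using hp.2
    refine (hterm n p.1 hp.1 p.2 h2).trans ?_
    have h3 : M / (r₁ / 2) ^ 2 * ‖p.2‖ ^ 2 ≤ M := by
      rw [div_mul_eq_mul_div, div_le_iff₀ (by positivity)]
      gcongr
    gcongr
  refine ⟨?_, ?_, ?_⟩
  · have hopen : IsOpen (ball (cen c u η) (3 * η / 800) ×ˢ ball (0 : ℂ) (r₁ / 2)) :=
      isOpen_ball.prod isOpen_ball
    have hsumm : Summable (fun n : ℕ => M * (3 / 4 : ℝ) ^ n) :=
      (summable_geometric_of_lt_one (by norm_num) (by norm_num)).mul_left _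
    have h1 := Crest.Agent.R266.SCV.analyticOnNhd_of_tendstoLocallyUniformlyOn hopen
      (tendstoUniformlyOn_tsum_nat hsumm hterm').tendstoLocallyUniformlyOn
      (Eventually.of_forall (fun N => by
        refine DifferentiableOn.fun_sum (fun n _ => ?_)
        refine DifferentiableOn.mul ?_ (by fun_prop)
        exact ((coef_diff hu hη hlf n).mono hsubr).comp
          (differentiable_snd.differentiableOn) (fun p hp => hp.2)))
    exact DifferentiableOn.add (by fun_prop) h1.differentiableOn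
  · intro t ht w hw
    have hs : HasSum (fun n : ℕ => (M / (r₁ / 2) ^ 2 * ‖w‖ ^ 2) * (3 / 4 : ℝ) ^ n)
        ((M / (r₁ / 2) ^ 2 * ‖w‖ ^ 2) * (1 - 3 / 4)⁻¹) :=
      (hasSum_geometric_of_lt_one (by norm_num) (by norm_num)).mul_left _
    have h1 := tsum_of_norm_bounded hs (fun n => hterm n t ht w hw)
    have h2 : GX X c u η (t, w) - t =
        ∑' n, coefT (fdev X) (cen c u η) n w * (t - cen c u η) ^ n := by
      unfold GX; simp
    rw [h2]
    refine h1.trans (le_of_eq ?_)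
    norm_num
    ring
  · intro t ht htK w hw
    have hwr : w ∈ ball (0 : ℂ) r := hsubr (by simpa using hw)
    have hopen : IsOpen (ball (cen c u η) (3 * η / 800) ∩ Half c u η (η / 4000)) :=
      isOpen_ball.inter (isOpen_Half _ _ _ _)
    have hconv : Convex ℝ (ball (cen c u η) (3 * η / 800) ∩ Half c u η (η / 4000)) :=
      (convex_ball _ _).inter (convex_Half _ _ _ _)
    have hXd : DifferentiableOn ℂ (fun s => X (s, w))
        (ball (cen c u η) (3 * η / 800) ∩ Half c u η (η / 4000)) :=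
      hlf.diff.comp (by fun_prop : DifferentiableOn ℂ (fun s : ℂ => ((s, w) : ℂ × ℂ)) _)
        (fun s hs => ⟨hs.2, hwr⟩)
    have hser : ∀ s : ℂ, s ∈ ball (cen c u η) (9 * η / 4000) →
        HasSum (fun n : ℕ => coefT (fdev X) (cen c u η) n w * (s - cen c u η) ^ n)
          (fdev X (w, s)) := by
      intro s hs
      have h1 := Complex.hasSum_taylorSeries_on_ball
        ((slice_differentiableOn (fdev_diff hlf.diff) hwr).mono (ball_cen_Half hu hη)) hs
      have h2 : (fun n : ℕ => coefT (fdev X) (cen c u η) n w * (s - cen c u η) ^ n) =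
          (fun n : ℕ => (n.factorial : ℂ)⁻¹ • (s - cen c u η) ^ n •
            iteratedDeriv n (fun s => fdev X (w, s)) (cen c u η)) := by
        funext n
        unfold coefT; simp only [smul_eq_mul]; ring
      rw [h2]
      exact h1
    have hval : ∀ s : ℂ, s ∈ ball (cen c u η) (9 * η / 4000) → GX X c u η (s, w) = X (s, w) := by
      intro s hs
      unfold GX
      rw [(hser s hs).tsum_eq]
      simp [fdev]
    have hGd : DifferentiableOn ℂ (fun s => GX X c u η (s, w))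
        (ball (cen c u η) (3 * η / 800) ∩ Half c u η (η / 4000)) := by
      have hopen : IsOpen (ball (cen c u η) (3 * η / 800) ×ˢ ball (0 : ℂ) (r₁ / 2)) :=
        isOpen_ball.prod isOpen_ball
      have hsumm : Summable (fun n : ℕ => M * (3 / 4 : ℝ) ^ n) :=
        (summable_geometric_of_lt_one (by norm_num) (by norm_num)).mul_left _
      have h1 := Crest.Agent.R266.SCV.analyticOnNhd_of_tendstoLocallyUniformlyOn hopen
        (tendstoUniformlyOn_tsum_nat hsumm hterm').tendstoLocallyUniformlyOn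
        (Eventually.of_forall (fun N => by
          refine DifferentiableOn.fun_sum (fun n _ => ?_)
          refine DifferentiableOn.mul ?_ (by fun_prop)
          exact ((coef_diff hu hη hlf n).mono hsubr).comp
            (differentiable_snd.differentiableOn) (fun p hp => hp.2)))
      have h2 : DifferentiableOn ℂ (GX X c u η)
          (ball (cen c u η) (3 * η / 800) ×ˢ ball 0 (r₁ / 2)) :=
        DifferentiableOn.add (by fun_prop) h1.differentiableOn
      exact h2.comp (by fun_prop : DifferentiableOn ℂ (fun s : ℂ => ((s, w) : ℂ × ℂ)) _)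
        (fun s hs => ⟨hs.1, by simpa using hw⟩)
    have hcm : cen c u η ∈ ball (cen c u η) (3 * η / 800) ∩ Half c u η (η / 4000) :=
      ⟨mem_ball_self (by positivity), ball_cen_Half hu hη (mem_ball_self (by positivity))⟩
    have hid := (hGd.analyticOnNhd hopen).eqOn_of_preconnected_of_eventuallyEq
      (hXd.analyticOnNhd hopen) hconv.isPreconnected hcm (by
        filter_upwards [isOpen_ball.mem_nhds (mem_ball_self (x := cen c u η)
          (show 0 < 9 * η / 4000 by positivity))] with s hs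
        exact hval s hs)
    exact hid ⟨ht, htK⟩

end

end Crest.Agent.R102.C1
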