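import Mathlib
import Crest.Agent.R102.C1C_821

/-!
Row 102, part (C), C1: **`loc : Loc`**, gluing, **`grow : Grow`**.
-/

set_option autoImplicit false

open Set Filter Topology Metric
open scoped ComplexConjugate

noncomputable section

namespace Crest.Agent.R102.C1

open Crest.Agent.R102.M948

/-- domain of the law -/
def LD (D : Set ℂ) (r : ℝ) : Set (ℂ × ℂ) :=
  {p | p.2 ∈ ball (0 : ℂ) r ∧ p.1 - p.2 ∈ D ∧ p.1 ∈ D ∧ p.1 + p.2 ∈ D}

lemma isOpen_LD {D : Set ℂ} (hD : IsOpen D) (r : ℝ) : IsOpen (LD D r) := by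
  have h1 : IsOpen {p : ℂ × ℂ | p.2 ∈ ball (0 : ℂ) r} := isOpen_ball.preimage continuous_snd
  have h2 : IsOpen {p : ℂ × ℂ | p.1 - p.2 ∈ D} := hD.preimage (by fun_prop)
  have h3 : IsOpen {p : ℂ × ℂ | p.1 ∈ D} := hD.preimage continuous_fst
  have h4 : IsOpen {p : ℂ × ℂ | p.1 + p.2 ∈ D} := hD.preimage (by fun_prop)
  exact h1.inter (h2.inter (h3.inter h4))

lemma convex_LD {D : Set ℂ} (hD : Convex ℝ D) (r : ℝ) : Convex ℝ (LD D r) := by
  intro x hx y hy a b ha hb hab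
  refine ⟨?_, ?_, ?_, ?_⟩
  · exact (convex_ball (0 : ℂ) r) hx.1 hy.1 ha hb hab
  · have := hD hx.2.1 hy.2.1 ha hb hab
    convert this using 1
    simp only [Prod.fst_add, Prod.smul_fst, Prod.snd_add, Prod.smul_snd, smul_sub]
    ring
  · exact hD hx.2.2.1 hy.2.2.1 ha hb hab
  · have := hD hx.2.2.2 hy.2.2.2 ha hb hab
    convert this using 1
    simp only [Prod.fst_add, Prod.smul_fst, Prod.snd_add, Prod.smul_snd, smul_add]
    ring

/-- the defect of the law -/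
def Lam (k X : ℂ × ℂ → ℂ) (p : ℂ × ℂ) : ℂ :=
  k (X p, X (p.1 + p.2, p.2) - X p) + k (X p, X (p.1 - p.2, p.2) - X p)

lemma near_two {D : Set ℂ} {r B : ℝ} {X : ℂ × ℂ → ℂ} (hB : 0 ≤ B)
    (hn : ∀ t ∈ D, ∀ w : ℂ, ‖w‖ < r → ‖X (t, w) - t‖ ≤ B * ‖w‖ ^ 2) {t s w : ℂ} (ht : t ∈ D)
    (hs : s ∈ D) (hw : ‖w‖ < r) (hts : ‖t - s‖ = ‖w‖) :
    ‖X (t, w) - X (s, w)‖ < r + 2 * B * r ^ 2 := by
  have h1 := hn t ht w hw
  have h2 := hn s hs w hw
  have h3 : B * ‖w‖ ^ 2 ≤ B * r ^ 2 := by gcongr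
  calc ‖X (t, w) - X (s, w)‖ = ‖(t - s) + ((X (t, w) - t) - (X (s, w) - s))‖ := by ring_nf
    _ ≤ ‖t - s‖ + ‖(X (t, w) - t) - (X (s, w) - s)‖ := norm_add_le _ _
    _ ≤ ‖t - s‖ + (‖X (t, w) - t‖ + ‖X (s, w) - s‖) := by gcongr; exact norm_sub_le _ _
    _ < r + 2 * B * r ^ 2 := by rw [hts]; linarith

theorem law_ext {V D : Set ℂ} {ε C r B : ℝ} {k X : ℂ × ℂ → ℂ} (hD : IsOpen D) (hDc : Convex ℝ D)
    (hk : KMap V ε C k) (hB : 0 ≤ B) (hX : DifferentiableOn ℂ X (D ×ˢ ball 0 r))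
    (hn : ∀ t ∈ D, ∀ w : ℂ, ‖w‖ < r → ‖X (t, w) - t‖ ≤ B * ‖w‖ ^ 2)
    (hmem : ∀ t ∈ D, ∀ w : ℂ, ‖w‖ < r → X (t, w) ∈ V) (hε : r + 2 * B * r ^ 2 ≤ ε) {t₀ : ℂ}
    (ht₀ : (t₀, 0) ∈ LD D r) (hloc : ∀ᶠ p in 𝓝 ((t₀, 0) : ℂ × ℂ), Lam k X p = 0) :
    ∀ p ∈ LD D r, Lam k X p = 0 := by
  have hXp : DifferentiableOn ℂ X (LD D r) := hX.mono (fun p hp => ⟨hp.2.2.1, hp.1⟩)
  have hXa : DifferentiableOn ℂ (fun p : ℂ × ℂ => X (p.1 + p.2, p.2)) (LD D r) :=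
    hX.comp (by fun_prop) (fun p hp => ⟨hp.2.2.2, hp.1⟩)
  have hXb : DifferentiableOn ℂ (fun p : ℂ × ℂ => X (p.1 - p.2, p.2)) (LD D r) :=
    hX.comp (by fun_prop) (fun p hp => ⟨hp.2.1, hp.1⟩)
  have hd : DifferentiableOn ℂ (Lam k X) (LD D r) := by
    refine DifferentiableOn.add ?_ ?_
    · refine hk.diff.comp (hXp.prodMk (hXa.sub hXp)) (fun p hp => ?_)
      have hw : ‖p.2‖ < r := by simpa using hp.1
      refine ⟨hmem p.1 hp.2.2.1 p.2 hw, ?_⟩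
      rw [mem_ball, dist_zero_right]
      exact (near_two hB hn hp.2.2.2 hp.2.2.1 hw (by rw [add_sub_cancel_left])).trans_le hε
    · refine hk.diff.comp (hXp.prodMk (hXb.sub hXp)) (fun p hp => ?_)
      have hw : ‖p.2‖ < r := by simpa using hp.1
      refine ⟨hmem p.1 hp.2.2.1 p.2 hw, ?_⟩
      rw [mem_ball, dist_zero_right]
      exact (near_two hB hn hp.2.1 hp.2.2.1 hw (by
        rw [sub_right_comm, sub_self, zero_sub, norm_neg])).trans_le hε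
  have ha := Crest.Agent.R266.SCV.analyticOnNhd_of_differentiableOn (isOpen_LD hD r) hd
  have := ha.eqOn_zero_of_preconnected_of_eventuallyEq_zero (convex_LD hDc r).isPreconnected ht₀
    (by filter_upwards [hloc] with p hp; simpa using hp)
  exact fun p hp => this hp

/-- constants for which the whole construction works -/
theorem exists_r (η ε' C' r B : ℝ) (hη : 0 < η) (hε' : 0 < ε') (hr : 0 < r) (hB : 0 ≤ B)
    (hC' : 0 ≤ C') : ∃ r₁ : ℝ, 0 < r₁ ∧ ∀ w : ℂ, ‖w‖ < r₁ → ‖w‖ < r ∧ ‖w‖ ≤ 1 ∧ 2 * ‖w‖ < ε' ∧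
      (2 * B + 16 * C' * η) * ‖w‖ ≤ 1 ∧ (B + 2 * η * (2 * B + 16 * C' * η)) * ‖w‖ < η ∧
      ‖w‖ ≤ η / 100 := by
  set a := 2 * B + 16 * C' * η with ha
  have ha0 : 0 ≤ a := by positivity
  set A := B + 2 * η * a with hA
  have hA0 : 0 ≤ A := by positivity
  refine ⟨min r (min 1 (min (ε' / 3) (min (1 / (a + 1)) (min (η / (A + 1)) (η / 100))))), ?_, ?_⟩
  · refine lt_min hr (lt_min one_pos (lt_min (by positivity) (lt_min (by positivity)
      (lt_min (by positivity) (by positivity)))))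
  · intro w hw
    simp only [lt_min_iff] at hw
    obtain ⟨h1, h2, h3, h4, h5, h6⟩ := hw
    have hw0 := norm_nonneg w
    rw [lt_div_iff₀ (by positivity)] at h4 h5
    refine ⟨h1, h2.le, by linarith, by nlinarith, by nlinarith, h6.le⟩

theorem loc_aux {η ε C r B : ℝ} (hη : 0 < η) (hε : 0 < ε) (hr : 0 < r) (hB : 0 ≤ B) :
    ∃ r' B' : ℝ, 0 < r' ∧ r' ≤ r ∧
    ∀ (c u : ℂ) (k X : ℂ × ℂ → ℂ), ‖u‖ = 1 → KMap (ball c (2 * η)) ε C k →
      LeafOn k (Half c u η (η / 4000)) r B X →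
      ∃ X' : ℂ × ℂ → ℂ, LeafOn k (ball (cen c u η) (3 * η / 800)) r' B' X' ∧
        ∀ t ∈ ball (cen c u η) (3 * η / 800), t ∈ Half c u η (η / 4000) → ∀ w : ℂ, ‖w‖ < r' →
          X' (t, w) = X (t, w) := by
  obtain ⟨ε', C', hε', hεε, hC', hE⟩ := exists_E ε C hε
  obtain ⟨r₁, hr₁, hS⟩ := exists_r η ε' C' r B hη hε' hr hB hC'
  set B' : ℝ := 4 * ((Aco η C' B + B) / (r₁ / 2) ^ 2) with hB'
  have hA0 : 0 ≤ Aco η C' B := by unfold Aco; positivity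
  have hB'0 : 0 ≤ B' := by positivity
  -- the final radius
  set r' : ℝ := min (r₁ / 2) (min r (min 1 (min (ε / (2 * B' + 2)) (η / (B' + 1))))) with hr'
  have hr'0 : 0 < r' := lt_min (by positivity) (lt_min hr (lt_min one_pos (lt_min (by positivity)
    (by positivity))))
  have e1 : r' ≤ r₁ / 2 := min_le_left _ _
  have e2 : r' ≤ r := (min_le_right _ _).trans (min_le_left _ _)
  have e3 : r' ≤ 1 := (min_le_right _ _).trans ((min_le_right _ _).trans (min_le_left _ _))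
  have e4 : r' ≤ ε / (2 * B' + 2) := (min_le_right _ _).trans ((min_le_right _ _).trans
    ((min_le_right _ _).trans (min_le_left _ _)))
  have e5 : r' ≤ η / (B' + 1) := (min_le_right _ _).trans ((min_le_right _ _).trans
    ((min_le_right _ _).trans (min_le_right _ _)))
  rw [le_div_iff₀ (by positivity)] at e4 e5
  have hsq : B' * r' ^ 2 ≤ B' * r' := by
    rw [sq]
    exact mul_le_mul_of_nonneg_left (mul_le_of_le_one_left hr'0.le e3) hB'0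
  have e6 : r' + 2 * B' * r' ^ 2 ≤ ε := by nlinarith
  have e7 : B' * r' ^ 2 < η := by nlinarith
  refine ⟨r', B', hr'0, e2, ?_⟩
  intro c u k X hu hk hX
  obtain ⟨E, hE1, hE2, hE3⟩ := hE (ball c (2 * η)) k isOpen_ball hk
  have em : EMap (ball c (2 * η)) ε' C' k E :=
    ⟨hε', hC', hE1, fun y hy e he => (hE2 y hy e he).1, hE3⟩
  have S : ∀ w : ℂ, ‖w‖ < r₁ → Sit c u η (η / 4000) ε' C' r B k E X w ∧
      Sit c u η (η / 4000) ε' C' r B k E (negw X) (-w) ∧ ‖w‖ ≤ η / 100 := by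
    intro w hw
    obtain ⟨h1, h2, h3, h4, h5, h6⟩ := hS w hw
    refine ⟨⟨hη, hB, em, hX, h1, h2, h3, h4, h5⟩, ⟨hη, hB, em, hX.neg, ?_, ?_, ?_, ?_, ?_⟩, h6⟩ <;>
      rw [norm_neg] <;> assumption
  obtain ⟨a1, a2, a3⟩ := assembly hu hη hr₁ S
  have hopen : IsOpen (ball (cen c u η) (3 * η / 800)) := isOpen_ball
  have d1 : DifferentiableOn ℂ (GX X c u η) (ball (cen c u η) (3 * η / 800) ×ˢ ball 0 r') :=
    a1.mono (prod_mono le_rfl (ball_subset_ball e1))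
  have d2 : ∀ t ∈ ball (cen c u η) (3 * η / 800), ∀ w : ℂ, ‖w‖ < r' →
      ‖GX X c u η (t, w) - t‖ ≤ B' * ‖w‖ ^ 2 := fun t ht w hw => a2 t ht w (hw.trans_le e1)
  have hmem : ∀ t ∈ ball (cen c u η) (3 * η / 800), ∀ w : ℂ, ‖w‖ < r' →
      GX X c u η (t, w) ∈ ball c (2 * η) := by
    intro t ht w hw
    have h1 := d2 t ht w hw
    rw [mem_ball, dist_eq_norm] at ht ⊢
    have h2 : B' * ‖w‖ ^ 2 ≤ B' * r' ^ 2 := by gcongr
    have h3 : ‖t - c‖ ≤ 3 * η / 800 + η / 400 := by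
      calc ‖t - c‖ = ‖(t - cen c u η) + (cen c u η - c)‖ := by ring_nf
        _ ≤ ‖t - cen c u η‖ + ‖cen c u η - c‖ := norm_add_le _ _
        _ ≤ _ := by rw [cen_dist hu hη]; linarith
    calc ‖GX X c u η (t, w) - c‖ = ‖(GX X c u η (t, w) - t) + (t - c)‖ := by ring_nf
      _ ≤ ‖GX X c u η (t, w) - t‖ + ‖t - c‖ := norm_add_le _ _
      _ < 2 * η := by linarith
  have hcen : cen c u η ∈ ball (cen c u η) (3 * η / 800) := mem_ball_self (by positivity)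
  have hcen2 : cen c u η ∈ Half c u η (η / 4000) := ball_cen_Half hu hη (mem_ball_self (by positivity))
  have hloc : ∀ᶠ p in 𝓝 ((cen c u η, 0) : ℂ × ℂ), Lam k (GX X c u η) p = 0 := by
    have hLD : ((cen c u η, 0) : ℂ × ℂ) ∈
        LD (ball (cen c u η) (3 * η / 800) ∩ Half c u η (η / 4000)) r' := by
      refine ⟨mem_ball_self hr'0, ?_, ⟨hcen, hcen2⟩, ?_⟩
      · show cen c u η - 0 ∈ _
        rw [sub_zero]; exact ⟨hcen, hcen2⟩
      · show cen c u η + 0 ∈ _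
        rw [add_zero]; exact ⟨hcen, hcen2⟩
    filter_upwards [(isOpen_LD (hopen.inter (isOpen_Half c u η (η / 4000))) r').mem_nhds hLD] with p hp
    have hw : ‖p.2‖ < r' := by simpa using hp.1
    have g0 : GX X c u η p = X p := a3 p.1 hp.2.2.1.1 hp.2.2.1.2 p.2 (hw.trans_le e1)
    have g1 := a3 (p.1 + p.2) hp.2.2.2.1 hp.2.2.2.2 p.2 (hw.trans_le e1)
    have g2 := a3 (p.1 - p.2) hp.2.1.1 hp.2.1.2 p.2 (hw.trans_le e1)
    have := hX.law p.1 p.2 (hw.trans_le e2) hp.2.1.2 hp.2.2.1.2 hp.2.2.2.2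
    unfold Lam
    rw [g0, g1, g2]
    rw [show X p = X (p.1, p.2) from rfl, this, neg_add_cancel]
  have hlaw := law_ext hopen (convex_ball _ _) hk hB'0 d1 d2 hmem e6 (t₀ := cen c u η)
    ⟨mem_ball_self hr'0, by show cen c u η - 0 ∈ _; rw [sub_zero]; exact hcen, hcen,
      by show cen c u η + 0 ∈ _; rw [add_zero]; exact hcen⟩ hloc
  refine ⟨GX X c u η, ⟨d1, d2, ?_⟩, fun t ht htK w hw => a3 t ht htK w (hw.trans_le e1)⟩
  intro t w hw h1 h2 h3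
  have := hlaw (t, w) ⟨by simpa using hw, h1, h2, h3⟩
  unfold Lam at this
  exact eq_neg_of_add_eq_zero_left this

lemma ball_sub_cen {c u : ℂ} {η : ℝ} (hu : ‖u‖ = 1) (hη : 0 < η) :
    ball c (η / 2000) ⊆ ball (cen c u η) (3 * η / 800) := by
  intro t ht
  rw [mem_ball, dist_eq_norm] at ht ⊢
  calc ‖t - cen c u η‖ = ‖(t - c) - (cen c u η - c)‖ := by ring_nf
    _ ≤ ‖t - c‖ + ‖cen c u η - c‖ := norm_sub_le _ _
    _ < 3 * η / 800 := by rw [cen_dist hu hη]; linarith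

/-- **(LOC)** -/
theorem loc : Loc := by
  refine ⟨1 / 4000, by norm_num, by norm_num, ?_⟩
  intro η ε C r B hη hε hr
  obtain ⟨r', B', h1, h2, h3⟩ := loc_aux (C := C) (B := max B 0) hη hε hr (le_max_right _ _)
  refine ⟨r', B', h1, h2, ?_⟩
  intro c u k X hu hk hX
  have e1 : 1 / 4000 * η = η / 4000 := by ring
  have e2 : 2 * (1 / 4000) * η = η / 2000 := by ring
  rw [e1] at hX
  obtain ⟨X', a1, a2⟩ := h3 c u k X hu hk (hX.mono le_rfl le_rfl (le_max_left _ _))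
  rw [e1, e2]
  exact ⟨X', a1.mono (ball_sub_cen hu hη) le_rfl le_rfl, fun t ht htK w hw =>
    a2 t (ball_sub_cen hu hη ht) htK w hw⟩

end Crest.Agent.R102.C1
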