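import Mathlib
import Crest.Agent.R102.C1D_821

/-!
Row 102, part (C), C1: gluing, `grow' `, **`grow : Grow`**.
-/

set_option autoImplicit false

open Set Filter Topology Metric
open scoped ComplexConjugate

noncomputable section

namespace Crest.Agent.R102.C1

section glue
variable {K F : Set ℂ} {s r B : ℝ} {k X : ℂ × ℂ → ℂ} {Xc : ℂ → ℂ × ℂ → ℂ}

/-- two functions holomorphic on a convex open set which agree near one point -/
lemma eq_of_eq_open {D G : Set ℂ} {f g : ℂ → ℂ} (hD : IsOpen D) (hDc : IsPreconnected D)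
    (hf : DifferentiableOn ℂ f D) (hg : DifferentiableOn ℂ g D) (hG : IsOpen G) {z₀ : ℂ}
    (h0 : z₀ ∈ D) (h0' : z₀ ∈ G) (h : ∀ z ∈ D, z ∈ G → f z = g z) : ∀ z ∈ D, f z = g z := by
  have := (hf.analyticOnNhd hD).eqOn_of_preconnected_of_eventuallyEq (hg.analyticOnNhd hD) hDc h0
    (by
      filter_upwards [hD.mem_nhds h0, hG.mem_nhds h0'] with z hz hz'
      exact h z hz hz')
  exact fun z hz => this hz

lemma slice_t {K : Set ℂ} {r : ℝ} {X : ℂ × ℂ → ℂ} (h : DifferentiableOn ℂ X (K ×ˢ ball 0 r)) {w : ℂ}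
    (hw : ‖w‖ < r) : DifferentiableOn ℂ (fun t => X (t, w)) K :=
  h.comp (by fun_prop : DifferentiableOn ℂ (fun s : ℂ => ((s, w) : ℂ × ℂ)) _)
    (fun t ht => ⟨ht, by simpa using hw⟩)

lemma glue_consistent (hK : IsOpen K) (hF : F ⊆ closure K)
    (hXc : ∀ c ∈ F, LeafOn k (ball c s) r B (Xc c))
    (hag : ∀ c ∈ F, ∀ t ∈ ball c s, t ∈ K → ∀ w : ℂ, ‖w‖ < r → Xc c (t, w) = X (t, w))
    {c c' : ℂ} (hc : c ∈ F) (hc' : c' ∈ F) {t : ℂ} (ht : t ∈ ball c (s / 2))
    (ht' : t ∈ ball c' (s / 2)) {w : ℂ} (hw : ‖w‖ < r) : Xc c (t, w) = Xc c' (t, w) := by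
  have hs : 0 < s := by
    have := dist_nonneg.trans_lt (mem_ball.1 ht)
    linarith
  have hcc : c ∈ ball c' s := by
    rw [mem_ball] at ht ht' ⊢
    calc dist c c' ≤ dist c t + dist t c' := dist_triangle _ _ _
      _ < s := by rw [dist_comm c t]; linarith
  have hopen : IsOpen (ball c s ∩ ball c' s) := isOpen_ball.inter isOpen_ball
  obtain ⟨z₀, hz₀, hz₀K⟩ := mem_closure_iff.1 (hF hc) _ hopen ⟨mem_ball_self hs, hcc⟩
  refine eq_of_eq_open hopen ((convex_ball _ _).inter (convex_ball _ _)).isPreconnected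
    ((slice_t (hXc c hc).diff hw).mono inter_subset_left)
    ((slice_t (hXc c' hc').diff hw).mono inter_subset_right) hK hz₀ hz₀K ?_ t
    ⟨ball_subset_ball (by linarith) ht, ball_subset_ball (by linarith) ht'⟩
  intro z hz hzK
  show Xc c (z, w) = Xc c' (z, w)
  rw [hag c hc z hz.1 hzK w hw, hag c' hc' z hz.2 hzK w hw]

/-- **gluing** -/
theorem glue (hK : IsOpen K) (hF : F ⊆ closure K) (hs : 0 < s) (hX : LeafOn k K r B X)
    (hXc : ∀ c ∈ F, LeafOn k (ball c s) r B (Xc c))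
    (hag : ∀ c ∈ F, ∀ t ∈ ball c s, t ∈ K → ∀ w : ℂ, ‖w‖ < r → Xc c (t, w) = X (t, w)) :
    ∃ X' : ℂ × ℂ → ℂ, LeafOn k (K ∪ ⋃ c ∈ F, ball c (s / 3)) (min r (s / 12)) B X' ∧
      (∀ t ∈ K, ∀ w : ℂ, X' (t, w) = X (t, w)) ∧
      ∀ c ∈ F, ∀ t ∈ ball c (s / 3), ∀ w : ℂ, ‖w‖ < r → X' (t, w) = Xc c (t, w) := by
  classical
  let X' : ℂ × ℂ → ℂ := fun p => if p.1 ∈ K then X p else
    if h : ∃ c ∈ F, p.1 ∈ ball c (s / 3) then Xc h.choose p else 0
  have h13 : ∀ c : ℂ, ball c (s / 3) ⊆ ball c (s / 2) := fun c => ball_subset_ball (by linarith)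
  have h12 : ∀ c : ℂ, ball c (s / 2) ⊆ ball c s := fun c => ball_subset_ball (by linarith)
  have P1 : ∀ t ∈ K, ∀ w : ℂ, X' (t, w) = X (t, w) := by
    intro t ht w
    simp only [X']
    rw [if_pos ht]
  -- `X' = Xc c` on `K' ∩ ball c (s / 2)`
  have P2 : ∀ c ∈ F, ∀ t ∈ ball c (s / 2), (t ∈ K ∨ ∃ c' ∈ F, t ∈ ball c' (s / 3)) → ∀ w : ℂ,
      ‖w‖ < r → X' (t, w) = Xc c (t, w) := by
    intro c hc t ht htK w hw
    by_cases h : t ∈ K
    · rw [P1 t h w, hag c hc t (h12 c ht) h w hw]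
    · have h' : ∃ c' ∈ F, t ∈ ball c' (s / 3) := htK.resolve_left h
      have e : X' (t, w) = Xc h'.choose (t, w) := by
        simp only [X']
        rw [if_neg h, dif_pos h']
      rw [e]
      exact glue_consistent hK hF hXc hag h'.choose_spec.1 hc (h13 _ h'.choose_spec.2) ht hw
  refine ⟨X', ⟨?_, ?_, ?_⟩, P1, fun c hc t ht w hw => P2 c hc t (h13 c ht) (Or.inr ⟨c, hc, ht⟩) w hw⟩
  · intro p hp
    have hp2 : ‖p.2‖ < r := by
      have := hp.2
      rw [mem_ball, dist_zero_right] at this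
      exact this.trans_le (min_le_left _ _)
    have hp2' : p.2 ∈ ball (0 : ℂ) r := by rw [mem_ball, dist_zero_right]; exact hp2
    rcases hp.1 with h | h
    · have hd : DifferentiableAt ℂ X p := hX.diff.differentiableAt
        ((hK.prod isOpen_ball).mem_nhds ⟨h, hp2'⟩)
      refine (hd.congr_of_eventuallyEq ?_).differentiableWithinAt
      filter_upwards [(hK.preimage continuous_fst).mem_nhds h] with x hx
      exact P1 x.1 hx x.2
    · simp only [mem_iUnion] at h
      obtain ⟨c, hc, hpc⟩ := h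
      have hd : DifferentiableAt ℂ (Xc c) p := (hXc c hc).diff.differentiableAt
        ((isOpen_ball.prod isOpen_ball).mem_nhds ⟨h12 c (h13 c hpc), hp2'⟩)
      refine (hd.congr_of_eventuallyEq ?_).differentiableWithinAt
      filter_upwards [((isOpen_ball (x := c) (ε := s / 3)).preimage continuous_fst).mem_nhds hpc,
        ((isOpen_ball (x := (0 : ℂ)) (ε := r)).preimage continuous_snd).mem_nhds hp2'] with x hx hx2
      exact P2 c hc x.1 (h13 c hx) (Or.inr ⟨c, hc, hx⟩) x.2 (by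
        have : x.2 ∈ ball (0 : ℂ) r := hx2
        rwa [mem_ball, dist_zero_right] at this)
  · intro t ht w hw
    have hwr : ‖w‖ < r := hw.trans_le (min_le_left _ _)
    rcases ht with h | h
    · rw [P1 t h w]; exact hX.near t h w hwr
    · simp only [mem_iUnion] at h
      obtain ⟨c, hc, htc⟩ := h
      rw [P2 c hc t (h13 c htc) (Or.inr ⟨c, hc, htc⟩) w hwr]
      exact (hXc c hc).near t (h12 c (h13 c htc)) w hwr
  · intro t w hw h1 h2 h3
    have hwr : ‖w‖ < r := hw.trans_le (min_le_left _ _)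
    have hws : ‖w‖ < s / 12 := hw.trans_le (min_le_right _ _)
    have conv : ∀ x : ℂ, x ∈ K ∪ ⋃ c ∈ F, ball c (s / 3) → x ∈ K ∨ ∃ c' ∈ F, x ∈ ball c' (s / 3) := by
      intro x hx
      rcases hx with h | h
      · exact Or.inl h
      · simp only [mem_iUnion, exists_prop] at h
        exact Or.inr h
    -- if all three are in `ball c (s / 2)`, `c ∈ F`
    have caseB : ∀ c ∈ F, t - w ∈ ball c (s / 2) → t ∈ ball c (s / 2) → t + w ∈ ball c (s / 2) →
        k (X' (t, w), X' (t + w, w) - X' (t, w)) = -k (X' (t, w), X' (t - w, w) - X' (t, w)) := by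
      intro c hc b1 b2 b3
      rw [P2 c hc _ b1 (conv _ h1) w hwr, P2 c hc _ b2 (conv _ h2) w hwr,
        P2 c hc _ b3 (conv _ h3) w hwr]
      exact (hXc c hc).law t w hwr (h12 c b1) (h12 c b2) (h12 c b3)
    have mv : ∀ (c x y : ℂ), x ∈ ball c (s / 3) → ‖y - x‖ ≤ 2 * ‖w‖ → y ∈ ball c (s / 2) := by
      intro c x y hx hy
      rw [mem_ball, dist_eq_norm] at hx ⊢
      calc ‖y - c‖ = ‖(y - x) + (x - c)‖ := by ring_nf
        _ ≤ ‖y - x‖ + ‖x - c‖ := norm_add_le _ _
        _ < s / 2 := by linarith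
    have hw0 := norm_nonneg w
    have n1 : ‖t - (t - w)‖ ≤ 2 * ‖w‖ := by rw [sub_sub_cancel]; linarith
    have n2 : ‖t + w - (t - w)‖ ≤ 2 * ‖w‖ := by
      rw [show t + w - (t - w) = 2 * w by ring, norm_mul]; norm_num
    have n3 : ‖t - w - t‖ ≤ 2 * ‖w‖ := by
      rw [show t - w - t = -w by ring, norm_neg]; linarith
    have n4 : ‖t + w - t‖ ≤ 2 * ‖w‖ := by rw [add_sub_cancel_left]; linarith
    have n5 : ‖t - (t + w)‖ ≤ 2 * ‖w‖ := by
      rw [show t - (t + w) = -w by ring, norm_neg]; linarith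
    have n6 : ‖t - w - (t + w)‖ ≤ 2 * ‖w‖ := by
      rw [show t - w - (t + w) = -(2 * w) by ring, norm_neg, norm_mul]; norm_num
    rcases conv _ h1 with g1 | ⟨c, hc, g1⟩
    · rcases conv _ h2 with g2 | ⟨c, hc, g2⟩
      · rcases conv _ h3 with g3 | ⟨c, hc, g3⟩
        · rw [P1 _ g1, P1 _ g2, P1 _ g3]
          exact hX.law t w hwr g1 g2 g3
        · exact caseB c hc (mv c _ _ g3 n6) (mv c _ _ g3 n5) (h13 c g3)
      · exact caseB c hc (mv c _ _ g2 n3) (h13 c g2) (mv c _ _ g2 n4)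
    · exact caseB c hc (h13 c g1) (mv c _ _ g1 n1) (mv c _ _ g1 n2)

end glue

/-- **(GROW')**: arbitrary open `K`, arbitrary set `F` of centres with fat half discs -/
theorem grow' {η ε C r B : ℝ} (hη : 0 < η) (hε : 0 < ε) (hr : 0 < r) :
    ∃ r' B' : ℝ, 0 < r' ∧ r' ≤ r ∧ ∀ (K F : Set ℂ) (k X : ℂ × ℂ → ℂ), IsOpen K → F ⊆ closure K →
      (∀ c ∈ F, ∃ u : ℂ, ‖u‖ = 1 ∧ Half c u η (η / 4000) ⊆ K) →
      (∀ c ∈ F, IsPreconnected (K ∩ ball c (η / 800))) →
      (∀ c ∈ F, KMap (ball c (2 * η)) ε C k) → LeafOn k K r B X →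
      ∃ X' : ℂ × ℂ → ℂ, LeafOn k (K ∪ ⋃ c ∈ F, ball c (η / 2400)) r' B' X' ∧
        ∀ t ∈ K, ∀ w : ℂ, X' (t, w) = X (t, w) := by
  obtain ⟨r', B', h1, h2, h3⟩ := loc_aux (C := C) (B := max B 0) hη hε hr (le_max_right _ _)
  refine ⟨min r' (η / 800 / 12), max B B', lt_min h1 (by positivity), (min_le_left _ _).trans h2, ?_⟩
  intro K F k X hK hF hH hcn hk hX
  have hex : ∀ c ∈ F, ∃ X' : ℂ × ℂ → ℂ, LeafOn k (ball c (η / 800)) r' (max B B') X' ∧
      ∀ t ∈ ball c (η / 800), t ∈ K → ∀ w : ℂ, ‖w‖ < r' → X' (t, w) = X (t, w) := by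
    intro c hc
    obtain ⟨u, hu, hHK⟩ := hH c hc
    obtain ⟨X', a1, a2⟩ := h3 c u k X hu (hk c hc) (hX.mono hHK le_rfl (le_max_left _ _))
    have hsub : ball c (η / 800) ⊆ ball (cen c u η) (3 * η / 800) := by
      intro t ht
      rw [mem_ball, dist_eq_norm] at ht ⊢
      calc ‖t - cen c u η‖ = ‖(t - c) - (cen c u η - c)‖ := by ring_nf
        _ ≤ ‖t - c‖ + ‖cen c u η - c‖ := norm_sub_le _ _
        _ < 3 * η / 800 := by rw [cen_dist hu hη]; linarith
    refine ⟨X', a1.mono hsub le_rfl (le_max_right _ _), ?_⟩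
    intro t ht htK w hw
    have hw' : ‖w‖ < r := hw.trans_le h2
    set z₀ : ℂ := c - Complex.I * ((η / 2000 : ℝ) : ℂ) * u with hz₀
    have hn : ‖z₀ - c‖ = η / 2000 := by
      rw [hz₀, show c - Complex.I * ((η / 2000 : ℝ) : ℂ) * u - c =
        -(Complex.I * ((η / 2000 : ℝ) : ℂ) * u) by
        ring, norm_neg, norm_mul, norm_mul, Complex.norm_I, hu, Complex.norm_real,
        Real.norm_eq_abs, abs_of_pos (by positivity)]
      ring
    have hzH : z₀ ∈ Half c u η (η / 4000) := by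
      refine mem_Half.2 ⟨by rw [hn]; linarith, ?_⟩
      have h1 : u * conj u = 1 := by
        rw [Complex.mul_conj, Complex.normSq_eq_norm_sq, hu]; norm_num
      have h2 : (z₀ - c) * conj u = -(Complex.I * ((η / 2000 : ℝ) : ℂ)) := by
        rw [hz₀]
        linear_combination -(Complex.I * ((η / 2000 : ℝ) : ℂ)) * h1
      rw [h2, Complex.neg_im]
      simp
      linarith
    have hzb : z₀ ∈ ball c (η / 800) := by rw [mem_ball, dist_eq_norm, hn]; linarith
    refine eq_of_eq_open (hK.inter isOpen_ball) (hcn c hc)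
      ((slice_t a1.diff hw).mono (inter_subset_right.trans hsub))
      ((slice_t hX.diff hw').mono inter_subset_left) (isOpen_Half c u η (η / 4000))
      ⟨hHK hzH, hzb⟩ hzH ?_ t ⟨htK, ht⟩
    intro z hz hzH'
    exact a2 z (hsub hz.2) hzH' w hw
  choose! Xc hXc using hex
  obtain ⟨X', b1, b2, -⟩ := glue hK hF (s := η / 800) (by positivity)
    (hX.mono le_rfl h2 (le_max_left B B')) (fun c hc => (hXc c hc).1) (fun c hc => (hXc c hc).2)
  refine ⟨X', b1.mono ?_ le_rfl le_rfl, b2⟩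
  rw [show η / 800 / 3 = η / 2400 by ring]

/-- **(GROW)** -/
theorem grow : Grow := by
  refine ⟨1 / 4000, by norm_num, by norm_num, ?_⟩
  intro η ε C r B hη hε hr
  obtain ⟨r', B', h1, h2, h3⟩ := grow' (C := C) (B := B) hη hε hr
  refine ⟨r', B', h1, h2, ?_⟩
  intro K k X hK hKc hH hk hX
  have e1 : 1 / 4000 * η = η / 4000 := by ring
  have hth : ∀ c ∈ frontier K, ball c (2 * η) ⊆ thickening (2 * η) K := by
    intro c hc t ht
    rw [← thickening_closure]
    exact mem_thickening_iff.2 ⟨c, frontier_subset_closure hc, ht⟩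
  obtain ⟨X', a1, a2⟩ := h3 K (frontier K) k X hK frontier_subset_closure
    (fun c hc => by
      obtain ⟨u, hu, h⟩ := hH c hc
      rw [e1] at h
      exact ⟨u, hu, h⟩)
    (fun c _ => (hKc.inter (convex_ball _ _)).isPreconnected)
    (fun c hc => ⟨hk.diff.mono (prod_mono (hth c hc) le_rfl),
      fun y hy => hk.near y (hth c hc hy)⟩) hX
  rw [e1]
  · refine ⟨X', a1.mono ?_ le_rfl le_rfl, fun t ht w _ => a2 t ht w⟩
    intro t ht
    by_cases htK : t ∈ K
    · exact Or.inl htK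
    right
    obtain ⟨z, hz, hd⟩ := mem_thickening_iff.1 ht
    obtain ⟨c, hc, hcs⟩ : (segment ℝ t z ∩ frontier K).Nonempty := by
      by_contra hne
      rw [not_nonempty_iff_eq_empty] at hne
      have hpre : IsPreconnected (segment ℝ t z) := (convex_segment t z).isPreconnected
      have h5 := hpre K (closure K)ᶜ hK isClosed_closure.isOpen_compl (by
        intro x hx
        by_cases hxK : x ∈ K
        · exact Or.inl hxK
        · right
          intro hxc
          have : x ∈ segment ℝ t z ∩ frontier K := ⟨hx, by rw [hK.frontier_eq]; exact ⟨hxc, hxK⟩⟩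
          rw [hne] at this
          exact this) ⟨z, right_mem_segment ℝ t z, hz⟩ ⟨t, left_mem_segment ℝ t z, by
            intro htc
            have : t ∈ segment ℝ t z ∩ frontier K :=
              ⟨left_mem_segment ℝ t z, by rw [hK.frontier_eq]; exact ⟨htc, htK⟩⟩
            rw [hne] at this
            exact this⟩
      obtain ⟨x, -, hx1, hx2⟩ := h5
      exact hx2 (subset_closure hx1)
    simp only [mem_iUnion, exists_prop]
    refine ⟨c, hcs, ?_⟩
    rw [mem_ball]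
    have h6 : dist t c ≤ dist t z := by
      have h7 := segment_subset_closedBall_left t z hc
      rw [mem_closedBall] at h7
      rw [dist_comm t c]
      exact h7
    linarith

end Crest.Agent.R102.C1
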