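import Mathlib
import Crest.Agent.R102.C1F_821
import Crest.Agent.R102.C0_821

/-!
Row 102, part (C), C1: the extended `(θ, H)` satisfies the Lazutkin relation; `ZeroY`; the chord
functions on `Str η`; the momentum function.
-/

set_option autoImplicit false

open Set Filter Topology Metric
open scoped ComplexConjugate

noncomputable section

namespace Crest.Agent.R102.C1

open Crest.Agent.R102.C0 Crest.Agent.R102.T5 Crest.Agent.R102.A929 Crest.Agent.R102.B821

variable {q : C(ℂ, ℂ)} {η : ℝ}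

/-- tangential component of the position -/
def Cc (q : C(ℂ, ℂ)) (z : ℂ) : ℂ :=
  (Complex.exp (-(Complex.I * Tc q z)) * Zs q 1 z + Complex.exp (Complex.I * Tc q z) * Zs q (-1) z) / 2

lemma vel_one (z : ℂ) : Complex.exp (-(Complex.I * Tc q z)) * vel q 1 z = Complex.exp (-2 * q z) := by
  unfold C0.vel
  rw [← Complex.exp_add]
  congr 1
  ring

lemma vel_neg (z : ℂ) : Complex.exp (Complex.I * Tc q z) * vel q (-1) z = Complex.exp (-2 * q z) := by
  unfold C0.vel
  rw [← Complex.exp_add]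
  congr 1
  ring

lemma Datum.hasDerivAt_Hc (h : Datum q η) {z : ℂ} (hz : z ∈ Str η) :
    HasDerivAt (Hc q) (-(Complex.exp (q z) * Cc q z)) z := by
  have hT := h.hasDerivAt_Tc hz
  have h1 := ((hT.const_mul Complex.I).neg.cexp).mul (h.hasDerivAt_Zs 1 hz)
  have h2 := ((hT.const_mul Complex.I).cexp).mul (h.hasDerivAt_Zs (-1) hz)
  have h3 := (h1.sub h2).div_const (2 * Complex.I)
  refine h3.congr_deriv ?_
  have v1 := vel_one (q := q) z
  have v2 := vel_neg (q := q) z
  have hI := Complex.I_ne_zero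
  have hI2 := Complex.I_sq
  unfold Cc
  rw [div_eq_iff (mul_ne_zero two_ne_zero hI)]
  simp only [Pi.neg_apply]
  linear_combination v1 - v2

lemma Datum.hasDerivAt_Cc (h : Datum q η) {z : ℂ} (hz : z ∈ Str η) :
    HasDerivAt (Cc q) (Complex.exp (-2 * q z) + Complex.exp (q z) * Hc q z) z := by
  have hT := h.hasDerivAt_Tc hz
  have h1 := ((hT.const_mul Complex.I).neg.cexp).mul (h.hasDerivAt_Zs 1 hz)
  have h2 := ((hT.const_mul Complex.I).cexp).mul (h.hasDerivAt_Zs (-1) hz)
  have h3 := (h1.add h2).div_const 2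
  refine h3.congr_deriv ?_
  have v1 := vel_one (q := q) z
  have v2 := vel_neg (q := q) z
  have hI := Complex.I_ne_zero
  have hI2 := Complex.I_sq
  have e : Hc q z = -(Complex.I * (Complex.exp (-(Complex.I * Tc q z)) * Zs q 1 z -
      Complex.exp (Complex.I * Tc q z) * Zs q (-1) z)) / 2 := by
    unfold Hc
    field_simp
    linear_combination (Complex.exp (-(Complex.I * Tc q z)) * Zs q 1 z -
      Complex.exp (Complex.I * Tc q z) * Zs q (-1) z) * hI2
  rw [e]
  simp only [Pi.neg_apply]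
  linear_combination (1 / 2 : ℂ) * v1 + (1 / 2 : ℂ) * v2

section
variable {V : Set ℂ} {θ H : ℂ → ℂ} (D : Datum q η) (E : VExt q η V θ H)

include D E

lemma dθ_eq {z : ℂ} (hz : z ∈ Str η) : deriv θ z = Complex.exp (q z) := by
  have h : θ =ᶠ[𝓝 z] Tc q := by
    filter_upwards [(isOpen_Str η).mem_nhds hz] with x hx using E.θ_eq x hx
  rw [h.deriv_eq]
  exact (D.hasDerivAt_Tc hz).deriv

lemma ddθ_eq {z : ℂ} (hz : z ∈ Str η) :
    deriv (deriv θ) z = Complex.exp (q z) * deriv q z := by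
  have h : deriv θ =ᶠ[𝓝 z] fun x => Complex.exp (q x) := by
    filter_upwards [(isOpen_Str η).mem_nhds hz] with x hx using dθ_eq D E hx
  rw [h.deriv_eq]
  exact ((D.diff.differentiableAt ((isOpen_Str η).mem_nhds hz)).hasDerivAt.cexp).deriv

lemma dH_eq {z : ℂ} (hz : z ∈ Str η) : deriv H z = -(Complex.exp (q z) * Cc q z) := by
  have h : H =ᶠ[𝓝 z] Hc q := by
    filter_upwards [(isOpen_Str η).mem_nhds hz] with x hx using E.H_eq x hx
  rw [h.deriv_eq]
  exact (Datum.hasDerivAt_Hc D hz).deriv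

lemma ddH_eq {z : ℂ} (hz : z ∈ Str η) :
    deriv (deriv H) z = -(Complex.exp (q z) * deriv q z * Cc q z +
      Complex.exp (q z) * (Complex.exp (-2 * q z) + Complex.exp (q z) * Hc q z)) := by
  have h : deriv H =ᶠ[𝓝 z] fun x => -(Complex.exp (q x) * Cc q x) := by
    filter_upwards [(isOpen_Str η).mem_nhds hz] with x hx using dH_eq D E hx
  rw [h.deriv_eq]
  exact (((D.diff.differentiableAt ((isOpen_Str η).mem_nhds hz)).hasDerivAt.cexp).mul
    (Datum.hasDerivAt_Cc D hz)).neg.deriv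

theorem LZ_of_VExt : LZ V θ H := by
  refine ⟨E.open', E.θ_diff, E.H_diff, ?_⟩
  have d1 := E.θ_diff.deriv E.open'
  have d2 := E.H_diff.deriv E.open'
  have hd : DifferentiableOn ℂ (fun z => deriv θ z * deriv (deriv H) z -
      deriv (deriv θ) z * deriv H z + deriv θ z ^ 3 * H z + 1) V :=
    (((d1.mul (d2.deriv E.open')).sub ((d1.deriv E.open').mul d2)).add
      ((d1.pow 3).mul E.H_diff)).add_const _
  have h0 : (0 : ℂ) ∈ Str η := by simpa [Str] using D.η_pos
  have := (hd.analyticOnNhd E.open').eqOn_zero_of_preconnected_of_eventuallyEq_zero E.conn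
    (E.sub h0) (by
      filter_upwards [(isOpen_Str η).mem_nhds h0] with z hz
      rw [dθ_eq D E hz, ddθ_eq D E hz, dH_eq D E hz, ddH_eq D E hz, E.H_eq z hz]
      have e : Complex.exp (q z) * Complex.exp (q z) * Complex.exp (-2 * q z) = 1 := by
        rw [← Complex.exp_add, ← Complex.exp_add]
        rw [show q z + q z + -2 * q z = 0 by ring, Complex.exp_zero]
      simp only [Pi.zero_apply]
      linear_combination -e)
  intro z hz
  have h1 := this hz
  simp only [Pi.zero_apply] at h1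
  linear_combination h1

end

/-- **(ZY)** -/
theorem zeroY : ZeroY := by
  intro q η V θ H D E
  have L := LZ_of_VExt D E
  refine ⟨L.rel, ?_⟩
  intro z hz h0
  have h1 := L.rel z hz
  rw [h0] at h1
  have h2 : deriv (deriv θ) z * deriv H z = 1 := by linear_combination -h1
  have h3 : deriv (deriv θ) z ≠ 0 := fun h => by rw [h, zero_mul] at h2; exact zero_ne_one h2
  have h4 : deriv H z ≠ 0 := fun h => by rw [h, mul_zero] at h2; exact zero_ne_one h2
  refine ⟨h3, ?_, h4⟩
  have d1 := L.dθ.deriv L.op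
  have d2 := L.dH.deriv L.op
  have a1 := L.hθ' hz
  have a2 : HasDerivAt (deriv (deriv θ)) (deriv (deriv (deriv θ)) z) z :=
    ((d1.deriv L.op).differentiableAt (L.op.mem_nhds hz)).hasDerivAt
  have a3 := L.hH hz
  have a4 := L.hH' hz
  have a5 : HasDerivAt (deriv (deriv H)) (deriv (deriv (deriv H)) z) z :=
    ((d2.deriv L.op).differentiableAt (L.op.mem_nhds hz)).hasDerivAt
  have h5 := (((a1.mul a5).sub (a2.mul a4)).add ((a1.pow 3).mul a3))
  have h6 : (fun z => deriv θ z * deriv (deriv H) z - deriv (deriv θ) z * deriv H z +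
      deriv θ z ^ 3 * H z) =ᶠ[𝓝 z] fun _ => (-1 : ℂ) := by
    filter_upwards [L.op.mem_nhds hz] with x hx using L.rel x hx
  have h7 := (h5.congr_of_eventuallyEq (f₁ := fun _ => (-1 : ℂ)) (by
    filter_upwards [h6] with x hx
    exact hx.symm)).unique (hasDerivAt_const z (-1 : ℂ))
  simp only [Pi.pow_apply] at h7
  rw [h0] at h7
  have h8 : deriv (deriv (deriv θ)) z * deriv H z = 0 := by
    linear_combination -h7
  exact (mul_eq_zero.1 h8).resolve_right h4

section
variable {V : Set ℂ} {θ H : ℂ → ℂ} (D : Datum q η) (E : VExt q η V θ H)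

include D E

lemma GG_eq {s : ℂ} (hs : s = 1 ∨ s = -1) {z : ℂ} (hz : z ∈ Str η) :
    GG θ H s z = Complex.exp (q z) * Zs q s z := by
  have hI := Complex.I_ne_zero
  have hI2 := Complex.I_sq
  unfold GG
  rw [dθ_eq D E hz, dH_eq D E hz, E.H_eq z hz, E.θ_eq z hz]
  unfold Hc Cc
  have e : Complex.exp (Complex.I * Tc q z) * Complex.exp (-(Complex.I * Tc q z)) = 1 := by
    rw [← Complex.exp_add]; simp
  rcases hs with rfl | rfl
  · rw [one_mul]
    have : 1 * Complex.I * Complex.exp (q z) * ((Complex.exp (-(Complex.I * Tc q z)) * Zs q 1 z -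
        Complex.exp (Complex.I * Tc q z) * Zs q (-1) z) / (2 * Complex.I)) -
        -(Complex.exp (q z) * ((Complex.exp (-(Complex.I * Tc q z)) * Zs q 1 z +
        Complex.exp (Complex.I * Tc q z) * Zs q (-1) z) / 2)) =
        Complex.exp (q z) * (Complex.exp (-(Complex.I * Tc q z)) * Zs q 1 z) := by
      field_simp
      ring
    rw [this]
    linear_combination (Complex.exp (q z) * Zs q 1 z) * e
  · have : -1 * Complex.I * Complex.exp (q z) * ((Complex.exp (-(Complex.I * Tc q z)) * Zs q 1 z -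
        Complex.exp (Complex.I * Tc q z) * Zs q (-1) z) / (2 * Complex.I)) -
        -(Complex.exp (q z) * ((Complex.exp (-(Complex.I * Tc q z)) * Zs q 1 z +
        Complex.exp (Complex.I * Tc q z) * Zs q (-1) z) / 2)) =
        Complex.exp (q z) * (Complex.exp (Complex.I * Tc q z) * Zs q (-1) z) := by
      field_simp
      ring
    rw [this, show (-1 : ℂ) * (Complex.I * Tc q z) = -(Complex.I * Tc q z) by ring]
    linear_combination (Complex.exp (q z) * Zs q (-1) z) * e

lemma As_eq {s : ℂ} (hs : s = 1 ∨ s = -1) {x y : ℂ} (hx : x ∈ Str η) (hy : y ∈ Str η) :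
    As θ H s (x, y) = Complex.exp (q x) * Complex.exp (q y) * Ach q s (x, y) := by
  have L := LZ_of_VExt D E
  rcases eq_or_ne x y with h | h
  · subst h
    rw [L.As_diag (by rcases hs with rfl | rfl <;> norm_num) (E.sub hx), Ach_diag, E.θ_eq x hx]
    unfold C0.vel
    rw [← Complex.exp_add, ← Complex.exp_add]
    congr 1
    ring
  · have hne : y - x ≠ 0 := sub_ne_zero.2 h.symm
    refine mul_left_cancel₀ hne ?_
    unfold As
    have h1 := D2_mul (GG θ H s) x y
    have h2 := D2_mul (deriv θ) x y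
    have h3 := D.Ach_mul s hx hy
    rw [GG_eq D E hs hx, GG_eq D E hs hy] at h1
    rw [dθ_eq D E hx, dθ_eq D E hy] at h2
    simp only
    rw [dθ_eq D E hx, GG_eq D E hs hx]
    linear_combination (Complex.exp (q x)) * h1 - (Complex.exp (q x) * Zs q s x) * h2 -
      (Complex.exp (q x) * Complex.exp (q y)) * h3

lemma Wch_eq {x y : ℂ} (hx : x ∈ Str η) (hy : y ∈ Str η) : Wch θ H (x, y) = Vch q (x, y) := by
  unfold Wch Vch
  rw [As_eq D E (Or.inl rfl) hx hy, As_eq D E (Or.inr rfl) hx hy]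
  simp only
  rw [E.θ_eq x hx, E.θ_eq y hy, mul_div_mul_left _ _ (mul_ne_zero (Complex.exp_ne_zero _)
    (Complex.exp_ne_zero _))]

lemma Phi_eq {x y : ℂ} (hx : x ∈ Str η) (hy : y ∈ Str η) : Phi θ H (x, y) = ph q (x, y) := by
  unfold Phi ph
  rw [Wch_eq D E hx hy]
  simp only
  rw [E.θ_eq x hx, E.θ_eq y hy]

lemma Pch_eq {ρ₀ ε₀ : ℝ} (S : Sm q η ρ₀ ε₀) {x y : ℂ} (hp : (x, y) ∈ Dg ρ₀ ε₀) :
    Pch θ H (x, y) = pc q (x, y) := by
  have hx := S.mx hp
  have hy := S.my hp
  have h1 : As θ H (-1) (x, y) ≠ 0 := by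
    rw [As_eq D E (Or.inr rfl) hx hy]
    exact mul_ne_zero (mul_ne_zero (Complex.exp_ne_zero _) (Complex.exp_ne_zero _))
      (S.Ach_ne hp (Or.inr rfl))
  have h2 : Wch θ H (x, y) ∈ Complex.slitPlane := by
    rw [Wch_eq D E hx hy]; exact S.Vch_slit hp
  have h3 := inc_fst h1 h2
  unfold IncS at h3
  rw [Phi_eq D E hx hy, dθ_eq D E hx, dH_eq D E hx, E.H_eq x hx, E.θ_eq x hx] at h3
  have h4 : Complex.exp (q x) ≠ 0 := Complex.exp_ne_zero _
  have h5 : Pch θ H (x, y) = Hc q x * Complex.cos (ph q (x, y) - Tc q x) -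
      Cc q x * Complex.sin (ph q (x, y) - Tc q x) := by
    refine mul_left_cancel₀ h4 ?_
    linear_combination h3
  rw [h5]
  unfold pc Hc Cc
  simp only
  have hI := Complex.I_ne_zero
  have hI2 := Complex.I_sq
  set Ep := Complex.exp (Complex.I * ph q (x, y)) with hEp
  set Em := Complex.exp (-(Complex.I * ph q (x, y))) with hEm
  set Tp := Complex.exp (Complex.I * Tc q x) with hTp
  set Tm := Complex.exp (-(Complex.I * Tc q x)) with hTm
  have htm : Tp * Tm = 1 := by rw [hTp, hTm, ← Complex.exp_add]; simp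
  have hcos : Complex.cos (ph q (x, y) - Tc q x) = (Ep * Tm + Em * Tp) / 2 := by
    rw [Complex.cos, hEp, hEm, hTp, hTm, ← Complex.exp_add, ← Complex.exp_add]
    congr 3
    · ring_nf
    · ring_nf
  have hsin : Complex.sin (ph q (x, y) - Tc q x) = (Em * Tp - Ep * Tm) * Complex.I / 2 := by
    rw [Complex.sin, hEp, hEm, hTp, hTm, ← Complex.exp_add, ← Complex.exp_add]
    congr 4
    · ring_nf
    · ring_nf
  rw [hcos, hsin]
  field_simp
  linear_combination (2 * (Em * Zs q 1 x - Ep * Zs q (-1) x)) * htm -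
    ((Tm * Zs q 1 x + Tp * Zs q (-1) x) * (Em * Tp - Ep * Tm)) * hI2

end

end Crest.Agent.R102.C1
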