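import Mathlib
import Crest.Agent.R102.C1G_821

/-!
Row 102, part (C), C1: the momentum function of `(θ, H)` is `e + O(e³)` on compact sets.
-/

set_option autoImplicit false

open Set Filter Topology Metric
open scoped ComplexConjugate

noncomputable section

namespace Crest.Agent.R102.C1

open Crest.Agent.R102.C0 Crest.Agent.R102.T5 Crest.Agent.R102.A929 Crest.Agent.R102.B821
open Crest.Agent.R102.M948

variable {q : C(ℂ, ℂ)} {η : ℝ}

theorem exists_both (D : Datum q η) {ρ₀ : ℝ} (hρ : 0 < ρ₀) (hlt : ρ₀ < η) :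
    ∃ ε₀ ρq Cq : ℝ, C0.Sm q η ρ₀ ε₀ ∧ Sml q ρq Cq η ρ₀ ε₀ := by
  obtain ⟨ρq, Cq, εq, hq⟩ := exists_sml D.diff D.per
    (fun x => by rw [D.q_real]; simp) hρ hlt
  obtain ⟨ε1, h1⟩ := D.exists_Sm hρ hlt
  have hε'0 : 0 < min εq ε1 := lt_min hq.ε_pos h1.ε_pos
  exact ⟨min εq ε1, ρq, Cq, h1.mono hρ le_rfl hε'0 (min_le_right _ _),
    ⟨hq.loc, hq.ρ_pos, hq.lt, hε'0, hq.hd, hq.per, hq.real, fun x e hx hxe he =>
      hq.sm x e hx hxe (lt_of_lt_of_le he (min_le_left _ _))⟩⟩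

lemma cos_ne_zero_of_small {z : ℂ} (hz : ‖z‖ ≤ 1) : Complex.cos z ≠ 0 := by
  intro h
  rw [Complex.cos_eq_zero_iff] at h
  obtain ⟨k, hk⟩ := h
  have h1 : ‖z‖ = |(2 * (k : ℝ) + 1)| * Real.pi / 2 := by
    rw [hk, show ((2 * (k : ℂ) + 1) * (Real.pi : ℂ) / 2) =
      (((2 * (k : ℝ) + 1) * Real.pi / 2 : ℝ) : ℂ) by push_cast; ring, Complex.norm_real,
      Real.norm_eq_abs, abs_div, abs_mul, abs_of_pos Real.pi_pos]
    norm_num
  have h2 : (1 : ℝ) ≤ |(2 * (k : ℝ) + 1)| := by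
    have h3 : (1 : ℤ) ≤ |2 * k + 1| := by
      rcases le_or_gt 0 k with h | h
      · rw [abs_of_nonneg (by omega)]; omega
      · rw [abs_of_neg (by omega)]; omega
    exact_mod_cast h3
  have := Real.pi_gt_three
  nlinarith

section
variable {V : Set ℂ} {θ H : ℂ → ℂ} (D : Datum q η) (E : VExt q η V θ H)

include D E

lemma mem_ND {ρ₀ ε₀ : ℝ} (S : C0.Sm q η ρ₀ ε₀) {x y : ℂ} (hp : (x, y) ∈ Dg ρ₀ ε₀) :
    (x, y) ∈ ND θ H V := by
  have hx := S.mx hp
  have hy := S.my hp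
  refine ⟨⟨⟨E.sub hx, E.sub hy⟩, ?_, ?_⟩, ?_⟩
  · rw [As_eq D E (Or.inr rfl) hx hy]
    exact mul_ne_zero (mul_ne_zero (Complex.exp_ne_zero _) (Complex.exp_ne_zero _))
      (S.Ach_ne hp (Or.inr rfl))
  · rw [Wch_eq D E hx hy]; exact S.Vch_slit hp
  · rw [Phi_eq D E hx hy]
    simp only
    rw [E.θ_eq x hx]
    refine cos_ne_zero_of_small ?_
    rw [norm_div]
    have := (S.ph_near hp).1
    norm_num
    linarith

lemma kx_real {ρ₀ ε₀ : ℝ} (S : C0.Sm q η ρ₀ ε₀) {x y : ℂ} (hp : (x, y) ∈ Dg ρ₀ ε₀) :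
    Complex.exp (q x) * kx θ H (x, y) = 4 * Complex.sin ((ph q (x, y) - Tc q x) / 2) := by
  have hx := S.mx hp
  have hy := S.my hp
  have h1 := mem_ND D E S hp
  have h2 := kx_mul h1.1.2.1 h1.1.2.2 h1.2
  rwa [dθ_eq D E hx, Phi_eq D E hx hy, E.θ_eq x hx] at h2

/-- `k² = - 2 L₁` -/
lemma kx_sq {ρ₀ ε₀ ρq Cq : ℝ} (S : C0.Sm q η ρ₀ ε₀) (S' : Sml q ρq Cq η ρ₀ ε₀) {x y : ℂ}
    (hp : (x, y) ∈ Dg ρ₀ ε₀) : kx θ H (x, y) ^ 2 = -2 * B821.q1 (Lq q) (x, y) := by
  have h1 := kx_real D E S hp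
  have h2 := S.Lq_x hp S'
  have h3 : Complex.cos (Tc q x - ph q (x, y)) =
      1 - 2 * Complex.sin ((ph q (x, y) - Tc q x) / 2) ^ 2 := by
    have h4 := Complex.cos_two_mul ((ph q (x, y) - Tc q x) / 2)
    have h5 := Complex.sin_sq_add_cos_sq ((ph q (x, y) - Tc q x) / 2)
    rw [show 2 * ((ph q (x, y) - Tc q x) / 2) = -(Tc q x - ph q (x, y)) by ring,
      Complex.cos_neg] at h4
    linear_combination h4 + 2 * h5
  have h6 : Complex.exp (q x) * Complex.exp (q x) * Complex.exp (-2 * q x) = 1 := by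
    rw [← Complex.exp_add, ← Complex.exp_add]
    rw [show q x + q x + -2 * q x = 0 by ring, Complex.exp_zero]
  rw [h2, h3]
  have h7 : (Complex.exp (q x) * kx θ H (x, y)) ^ 2 =
      16 * Complex.sin ((ph q (x, y) - Tc q x) / 2) ^ 2 := by rw [h1]; ring
  linear_combination (Complex.exp (-2 * q x)) * h7 - (kx θ H (x, y) ^ 2) * h6

end

/-- domain of `kk` -/
def NE (θ H : ℂ → ℂ) (V : Set ℂ) : Set (ℂ × ℂ) := {p | (p.1, p.1 + p.2) ∈ ND θ H V}

section
variable {V : Set ℂ} {θ H : ℂ → ℂ} (L : LZ V θ H)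

include L

lemma LZ.openE : IsOpen (NE θ H V) :=
  L.openD.preimage (by fun_prop : Continuous fun p : ℂ × ℂ => ((p.1, p.1 + p.2) : ℂ × ℂ))

lemma LZ.zero_mem {x : ℂ} (hx : x ∈ V) : (x, 0) ∈ NE θ H V := by
  show (x, x + 0) ∈ ND θ H V
  rw [add_zero]
  exact L.diag_mem hx

lemma LZ.kk_diff : DifferentiableOn ℂ (kk θ H) (NE θ H V) :=
  L.kx_diff.comp (by fun_prop : DifferentiableOn ℂ (fun p : ℂ × ℂ => ((p.1, p.1 + p.2) : ℂ × ℂ)) _)
    (fun _ hp => hp)

lemma LZ.kk_zero {x : ℂ} (hx : x ∈ V) : kk θ H (x, 0) = 0 := by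
  have h1 : DD θ H (x, x) = 0 := by
    unfold DD
    rw [D2_diag, D2_diag, D2_diag, L.GG_deriv 1 hx, L.GG_deriv (-1) hx]
    simp only
    have e1 : Complex.exp (-(Complex.I * θ x)) * Complex.exp (1 * (Complex.I * θ x)) = 1 := by
      rw [← Complex.exp_add]; simp
    have e2 : Complex.exp (Complex.I * θ x) * Complex.exp (-1 * (Complex.I * θ x)) = 1 := by
      rw [← Complex.exp_add]; simp
    linear_combination ((1 * (Complex.I * deriv θ x)) *
      (1 * Complex.I * deriv θ x * H x - deriv H x) +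
      (1 * Complex.I * deriv (deriv θ) x * H x + 1 * Complex.I * deriv θ x * deriv H x -
        deriv (deriv H) x)) * e1 - ((-1 * (Complex.I * deriv θ x)) *
      (-1 * Complex.I * deriv θ x * H x - deriv H x) +
      (-1 * Complex.I * deriv (deriv θ) x * H x + -1 * Complex.I * deriv θ x * deriv H x -
        deriv (deriv H) x)) * e2
  unfold kk
  simp only
  rw [add_zero]
  unfold kx
  rw [h1]
  simp

/-- `∂₂ Φ (x, x) = θ' (x) / 2` -/
lemma LZ.Phi_dy {x : ℂ} (hx : x ∈ V) :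
    HasDerivAt (fun y => Phi θ H (x, y)) (deriv θ x / 2) x := by
  have hm := L.diag_mem hx
  have hP : DifferentiableAt ℂ (Phi θ H) (x, x) :=
    L.Phi_diff.differentiableAt (L.open1.mem_nhds hm.1)
  set F := fderiv ℂ (Phi θ H) (x, x) with hF
  have h1 : HasDerivAt (fun y => Phi θ H (y, y)) (F (1, 1)) x := by
    have h2 : HasDerivAt (fun y : ℂ => ((y, y) : ℂ × ℂ)) (1, 1) x :=
      (hasDerivAt_id x).prodMk (hasDerivAt_id x)
    exact HasFDerivAt.comp_hasDerivAt (f := fun y : ℂ => ((y, y) : ℂ × ℂ)) x hP.hasFDerivAt h2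
  have h2 : F (1, 1) = deriv θ x := by
    refine h1.unique ((L.hθ hx).congr_of_eventuallyEq ?_)
    filter_upwards [L.op.mem_nhds hx] with y hy
    exact L.Phi_diag hy
  have h3 : HasDerivAt (fun y => Phi θ H (x, y)) (F (0, 1)) x := by
    have h4 : HasDerivAt (fun y : ℂ => ((x, y) : ℂ × ℂ)) (0, 1) x :=
      (hasDerivAt_const x x).prodMk (hasDerivAt_id x)
    exact hP.hasFDerivAt.comp_hasDerivAt x h4
  have h4 : HasDerivAt (fun y => Phi θ H (y, x)) (F (1, 0)) x := by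
    have h5 : HasDerivAt (fun y : ℂ => ((y, x) : ℂ × ℂ)) (1, 0) x :=
      (hasDerivAt_id x).prodMk (hasDerivAt_const x x)
    exact HasFDerivAt.comp_hasDerivAt (f := fun y : ℂ => ((y, x) : ℂ × ℂ)) x hP.hasFDerivAt h5
  have h5 : (fun y => Phi θ H (y, x)) = fun y => Phi θ H (x, y) := funext fun y => Phi_swap x y
  rw [h5] at h4
  have h6 : F (1, 0) = F (0, 1) := h4.unique h3
  have h7 : F (1, 1) = F (1, 0) + F (0, 1) := by rw [← map_add]; simp
  have h8 : F (0, 1) = deriv θ x / 2 := by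
    rw [h2, h6] at h7
    linear_combination -h7 / 2
  rw [← h8]
  exact h3

/-- `∂_e k (x, 0) = 1` at regular points -/
lemma LZ.kk_deriv {x : ℂ} (hx : x ∈ V) (h0 : deriv θ x ≠ 0) :
    HasDerivAt (fun e => kk θ H (x, e)) 1 0 := by
  have hm := L.zero_mem hx
  have hd : DifferentiableAt ℂ (kk θ H) (x, 0) :=
    L.kk_diff.differentiableAt (L.openE.mem_nhds hm)
  have h1 : DifferentiableAt ℂ (fun e => kk θ H (x, e)) 0 :=
    hd.comp (0 : ℂ) (by fun_prop : DifferentiableAt ℂ (fun e : ℂ => ((x, e) : ℂ × ℂ)) 0)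
  obtain ⟨d, hd'⟩ : ∃ d, HasDerivAt (fun e => kk θ H (x, e)) d 0 := ⟨_, h1.hasDerivAt⟩
  have h2 : HasDerivAt (fun e : ℂ => Phi θ H (x, x + e)) (deriv θ x / 2) 0 := by
    have h3 : HasDerivAt (fun y => Phi θ H (x, y)) (deriv θ x / 2) (x + 0) := by
      rw [add_zero]; exact L.Phi_dy hx
    exact HasDerivAt.comp_const_add x 0 h3
  have h3 := (((h2.sub_const (θ x)).div_const 2).csin).const_mul 4
  have h4 : (fun e => deriv θ x * kk θ H (x, e)) =ᶠ[𝓝 0]
      fun e => 4 * Complex.sin ((Phi θ H (x, x + e) - θ x) / 2) := by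
    have hc : ContinuousAt (fun e : ℂ => ((x, e) : ℂ × ℂ)) 0 := by fun_prop
    filter_upwards [hc (L.openE.mem_nhds hm)] with e he
    have he' : (x, x + e) ∈ ND θ H V := he
    exact kx_mul he'.1.2.1 he'.1.2.2 he'.2
  have h5 := (hd'.const_mul (deriv θ x)).unique (h3.congr_of_eventuallyEq h4)
  rw [add_zero, L.Phi_diag hx, sub_self, zero_div, Complex.cos_zero] at h5
  have h6 : d = 1 := by
    refine mul_left_cancel₀ h0 ?_
    rw [h5]; ring
  rw [← h6]
  exact hd'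

end

/-- the deviation of the momentum function -/
def fk (θ H : ℂ → ℂ) (p : ℂ × ℂ) : ℂ := kk θ H p - p.2

section
variable {V : Set ℂ} {θ H : ℂ → ℂ} (D : Datum q η) (E : VExt q η V θ H)

include D E

lemma fk_real {x : ℂ} (hx : x ∈ Str (η / 4)) :
    ∃ C r : ℝ, 0 ≤ C ∧ 0 < r ∧ ∀ e : ℂ, ‖e‖ < r → ‖fk θ H (x, e)‖ ≤ C * ‖e‖ ^ 3 := by
  have L := LZ_of_VExt D E
  have hη := D.η_pos
  obtain ⟨ε₀, ρq, Cq, S, S'⟩ := exists_both D (ρ₀ := η / 2) (by positivity) (by linarith)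
  obtain ⟨K, ε₂, hK, hε₂, h1, h2, h3, h4, -, -⟩ := S'.isLag.exists_bounds2
  have hxη : x ∈ Str η := by
    have : |x.im| < η / 4 := hx
    show |x.im| < η
    linarith
  have hd := L.kk_deriv (E.sub hxη) (by rw [dθ_eq D E hxη]; exact Complex.exp_ne_zero _)
  have h5 : ∀ᶠ e in 𝓝 (0 : ℂ), ‖kk θ H (x, e) - e‖ ≤ 1 / 2 * ‖e‖ := by
    have h6 := (hasDerivAt_iff_isLittleO.1 hd).bound (show (0 : ℝ) < 1 / 2 by norm_num)
    filter_upwards [h6] with e he
    rw [L.kk_zero (E.sub hxη)] at he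
    simpa using he
  obtain ⟨r, hr, hrb⟩ := Metric.eventually_nhds_iff.1 h5
  refine ⟨2 * K, min r (min ε₂ (η / 16)), by positivity, lt_min hr (lt_min hε₂ (by positivity)), ?_⟩
  intro e he
  rw [lt_min_iff, lt_min_iff] at he
  have h6 : ‖kk θ H (x, e) - e‖ ≤ 1 / 2 * ‖e‖ := hrb (by rw [dist_zero_right]; exact he.1)
  have hx4 : |x.im| < η / 4 := hx
  have hy : |(x + e).im| < 13 / 16 * (η / 2) := by
    rw [Complex.add_im]
    have a1 := abs_add_le x.im e.im
    have a2 := Complex.abs_im_le_norm e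
    linarith [he.2.2]
  have hp : (x, x + e) ∈ Dg (13 / 16 * (η / 2)) ε₂ := by
    refine ⟨?_, hy, ?_⟩
    · show |x.im| < 13 / 16 * (η / 2)
      linarith
    · show ‖x + e - x‖ < ε₂
      rw [add_sub_cancel_left]; exact he.2.1
  have hp' : (x, x + e) ∈ Dg (η / 2) ε₀ := Dg_mono (by linarith) h1 hp
  have h7 := h4 x (x + e) hp
  rw [add_sub_cancel_left] at h7
  have h8 := kx_sq D E S S' hp'
  have h9 : kk θ H (x, e) = kx θ H (x, x + e) := rfl
  rw [← h9] at h8
  have h10 : ‖(kk θ H (x, e) - e) * (kk θ H (x, e) + e)‖ ≤ 2 * K * ‖e‖ ^ 4 := by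
    have : (kk θ H (x, e) - e) * (kk θ H (x, e) + e) =
        -2 * (B821.q1 (Lq q) (x, x + e) + e ^ 2 / 2) := by linear_combination h8
    rw [this, norm_mul]
    norm_num
    linarith
  rcases eq_or_ne e 0 with h0 | h0
  · subst h0
    have : fk θ H (x, 0) = 0 := by unfold fk; rw [L.kk_zero (E.sub hxη)]; simp
    rw [this]; simp
  have he0 : 0 < ‖e‖ := norm_pos_iff.2 h0
  have h11 : ‖e‖ ≤ ‖kk θ H (x, e) + e‖ := by
    have : ‖2 * e‖ ≤ ‖kk θ H (x, e) + e‖ + ‖kk θ H (x, e) - e‖ := by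
      calc ‖2 * e‖ = ‖(kk θ H (x, e) + e) - (kk θ H (x, e) - e)‖ := by ring_nf
        _ ≤ _ := norm_sub_le _ _
    rw [norm_mul] at this
    norm_num at this
    linarith
  rw [norm_mul] at h10
  unfold fk
  simp only
  have h12 : ‖kk θ H (x, e) - e‖ * ‖e‖ ≤ (2 * K * ‖e‖ ^ 3) * ‖e‖ := by
    calc ‖kk θ H (x, e) - e‖ * ‖e‖ ≤ ‖kk θ H (x, e) - e‖ * ‖kk θ H (x, e) + e‖ := by gcongr
      _ ≤ 2 * K * ‖e‖ ^ 4 := h10
      _ = (2 * K * ‖e‖ ^ 3) * ‖e‖ := by ring
  exact le_of_mul_le_mul_right h12 he0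

/-- local product neighbourhoods -/
lemma exists_ball {x : ℂ} (hx : x ∈ V) : ∃ s > 0, ball x s ×ˢ ball 0 s ⊆ NE θ H V := by
  have L := LZ_of_VExt D E
  obtain ⟨s, hs, h⟩ := Metric.isOpen_iff.1 L.openE (x, 0) (L.zero_mem hx)
  refine ⟨s, hs, ?_⟩
  rwa [ball_prod_same]

lemma coefk_diff (n : ℕ) : DifferentiableOn ℂ (coefT (fk θ H) 0 n) V := by
  have L := LZ_of_VExt D E
  intro x hx
  obtain ⟨s, hs, h⟩ := exists_ball D E hx
  have hf : DifferentiableOn ℂ (fk θ H) (ball x s ×ˢ ball 0 s) :=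
    (L.kk_diff.mono h).sub differentiable_snd.differentiableOn
  exact ((differentiableOn_coefT isOpen_ball hs hf n).differentiableAt
    (isOpen_ball.mem_nhds (mem_ball_self hs))).differentiableWithinAt

lemma coefk_zero {n : ℕ} (hn : n ≤ 2) : ∀ x ∈ V, coefT (fk θ H) 0 n x = 0 := by
  have L := LZ_of_VExt D E
  have hη := D.η_pos
  have h0 : (0 : ℂ) ∈ Str (η / 4) := by
    show |(0 : ℂ).im| < η / 4
    simp; positivity
  have hsub : Str (η / 4) ⊆ V := fun x hx => E.sub (by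
    have : |x.im| < η / 4 := hx
    show |x.im| < η
    linarith)
  have := ((coefk_diff D E n).analyticOnNhd E.open').eqOn_zero_of_preconnected_of_eventuallyEq_zero
    E.conn (hsub h0) (by
      filter_upwards [(isOpen_Str (η / 4)).mem_nhds h0] with x hx
      simp only [Pi.zero_apply]
      obtain ⟨C, r, hC, hr, hb⟩ := fk_real D E hx
      obtain ⟨s, hs, hsN⟩ := exists_ball D E (hsub hx)
      have key : ∀ ε : ℝ, 0 < ε → ε < min r (min s 1) → ‖coefT (fk θ H) 0 n x‖ ≤ C * ε := by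
        intro ε hε hε'
        rw [lt_min_iff, lt_min_iff] at hε'
        have hcl : closedBall (0 : ℂ) ε ⊆ ball 0 s := closedBall_subset_ball hε'.2.1
        have hd : DifferentiableOn ℂ (fun t => fk θ H (x, t)) (closedBall 0 ε) := by
          have hf : DifferentiableOn ℂ (fk θ H) (ball x s ×ˢ ball 0 s) :=
            (L.kk_diff.mono hsN).sub differentiable_snd.differentiableOn
          exact (slice_differentiableOn hf (mem_ball_self hs)).mono hcl
        have h1 := norm_coefT_le (f := fk θ H) (t0 := 0) (w := x) (r := ε) (M := C * ε ^ 3) hε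
          (DifferentiableOn.diffContOnCl (by rw [closure_ball _ hε.ne']; exact hd))
          (fun t ht => by
            rw [mem_sphere, dist_zero_right] at ht
            have := hb t (by rw [ht]; exact hε'.1)
            rwa [ht] at this) n
        refine h1.trans ?_
        have h2 : ε ^ 3 * (1 / ε) ^ n ≤ ε := by
          have h3 : ε ^ 3 * (1 / ε) ^ n = ε ^ (3 - n) := by
            rw [one_div, inv_pow, ← div_eq_mul_inv, div_eq_iff (by positivity), ← pow_add]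
            congr 1
            omega
          rw [h3]
          calc ε ^ (3 - n) ≤ ε ^ 1 := pow_le_pow_of_le_one hε.le hε'.2.2.le (by omega)
            _ = ε := pow_one ε
        calc C * ε ^ 3 * (1 / ε) ^ n = C * (ε ^ 3 * (1 / ε) ^ n) := by ring
          _ ≤ C * ε := by gcongr
      have hlim : Tendsto (fun ε : ℝ => C * ε) (𝓝[>] 0) (𝓝 (C * 0)) :=
        ((continuous_const.mul continuous_id).tendsto 0).mono_left nhdsWithin_le_nhds
      rw [mul_zero] at hlim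
      have hle : ‖coefT (fk θ H) 0 n x‖ ≤ 0 := by
        refine ge_of_tendsto hlim ?_
        filter_upwards [Ioo_mem_nhdsGT (lt_min hr (lt_min hs one_pos))] with ε hε
        exact key ε hε.1 hε.2
      exact norm_le_zero_iff.1 hle)
  intro x hx
  exact this hx

/-- **the momentum function on a compact set** -/
theorem exists_KMap {Q : Set ℂ} (hQ : IsCompact Q) (hQV : Q ⊆ V) :
    ∃ ε C : ℝ, 0 < ε ∧ KMap Q ε C (kk θ H) ∧ Q ×ˢ ball 0 ε ⊆ NE θ H V := by
  have L := LZ_of_VExt D E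
  obtain ⟨u, v, hu, hv, hQu, h0v, huv⟩ := generalized_tube_lemma hQ (isCompact_singleton (x := (0 : ℂ)))
    L.openE (by
      rintro ⟨x, e⟩ ⟨hx, he⟩
      simp only [mem_singleton_iff] at he
      subst he
      exact L.zero_mem (hQV hx))
  obtain ⟨s, hs, hsv⟩ := Metric.isOpen_iff.1 hv 0 (h0v rfl)
  have hcl : closedBall (0 : ℂ) (s / 2) ⊆ v := (closedBall_subset_ball (by linarith)).trans hsv
  have hf : DifferentiableOn ℂ (fk θ H) (u ×ˢ v) :=
    (L.kk_diff.mono huv).sub differentiable_snd.differentiableOn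
  obtain ⟨M, hM⟩ := (hQ.prod (isCompact_closedBall (0 : ℂ) (s / 2))).exists_bound_of_continuousOn
    (hf.continuousOn.mono (prod_mono hQu hcl))
  have hNE : Q ×ˢ ball 0 (s / 4) ⊆ NE θ H V :=
    (prod_mono hQu ((ball_subset_ball (by linarith)).trans hsv)).trans huv
  refine ⟨s / 4, 2 * |M| * (2 / s) ^ 3, by positivity, ⟨?_, ?_⟩, hNE⟩
  · exact L.kk_diff.mono hNE
  · intro x hx e he
    have hd : DifferentiableOn ℂ (fun t => fk θ H (x, t)) v :=
      slice_differentiableOn hf (hQu hx)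
    have hcoef : ∀ n : ℕ, ‖coefT (fk θ H) 0 n x‖ ≤ |M| * (1 / (s / 2)) ^ n := by
      intro n
      refine norm_coefT_le (by positivity) ?_ (fun t ht => ?_) n
      · refine DifferentiableOn.diffContOnCl ?_
        rw [closure_ball _ (by positivity)]
        exact hd.mono hcl
      · exact (hM (x, t) ⟨hx, sphere_subset_closedBall ht⟩).trans (le_abs_self M)
    have hsum := Complex.hasSum_taylorSeries_on_ball (f := fun t => fk θ H (x, t)) (c := 0)
      (r := s) (z := e) (hd.mono hsv) (by rw [mem_ball, dist_zero_right]; linarith)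
    have he' : (fun n : ℕ => (n.factorial : ℂ)⁻¹ • (e - 0) ^ n •
        iteratedDeriv n (fun t => fk θ H (x, t)) 0) = fun n => coefT (fk θ H) 0 n x * e ^ n := by
      funext n
      unfold coefT; simp only [smul_eq_mul, sub_zero]; ring
    rw [he'] at hsum
    have hsum3 : HasSum (fun n => coefT (fk θ H) 0 (n + 3) x * e ^ (n + 3)) (fk θ H (x, e)) := by
      have := (hasSum_nat_add_iff' 3).2 hsum
      simp only [Finset.sum_range_succ, Finset.sum_range_zero] at this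
      rw [coefk_zero D E (by norm_num) x (hQV hx), coefk_zero D E (by norm_num) x (hQV hx),
        coefk_zero D E (by norm_num) x (hQV hx)] at this
      simpa using this
    have hx1 : 2 * ‖e‖ / s ≤ 1 / 2 := by
      rw [div_le_iff₀ hs]; linarith
    have hgeo : HasSum (fun n : ℕ => (|M| * (2 * ‖e‖ / s) ^ 3) * (1 / 2 : ℝ) ^ n)
        ((|M| * (2 * ‖e‖ / s) ^ 3) * (1 - 1 / 2)⁻¹) :=
      (hasSum_geometric_of_lt_one (by norm_num) (by norm_num)).mul_left _
    have hb := tsum_of_norm_bounded hgeo (f := fun n => coefT (fk θ H) 0 (n + 3) x * e ^ (n + 3))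
      (fun n => by
        rw [norm_mul, norm_pow]
        calc ‖coefT (fk θ H) 0 (n + 3) x‖ * ‖e‖ ^ (n + 3)
            ≤ (|M| * (1 / (s / 2)) ^ (n + 3)) * ‖e‖ ^ (n + 3) := by gcongr; exact hcoef _
          _ = |M| * (2 * ‖e‖ / s) ^ 3 * (2 * ‖e‖ / s) ^ n := by
              rw [mul_assoc, ← mul_pow, mul_assoc, ← pow_add]
              congr 1
              rw [show 1 / (s / 2) * ‖e‖ = 2 * ‖e‖ / s by field_simp, add_comm]
          _ ≤ |M| * (2 * ‖e‖ / s) ^ 3 * (1 / 2) ^ n := by gcongr)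
    rw [hsum3.tsum_eq] at hb
    show ‖kk θ H (x, e) - e‖ ≤ _
    refine hb.trans (le_of_eq ?_)
    rw [div_pow, mul_pow, div_pow]
    norm_num
    ring

end

end Crest.Agent.R102.C1
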