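import Mathlib
import Crest.Agent.R102.C1H_821

/-!
Row 102, part (C), C1: the labels `b` of a `LineFam` satisfy the law of the momentum function of
`(θ, H)`; strips.
-/

set_option autoImplicit false
set_option linter.unusedSectionVars false

open Set Filter Topology Metric
open scoped ComplexConjugate

noncomputable section

namespace Crest.Agent.R102.C1

open Crest.Agent.R102.C0 Crest.Agent.R102.T5 Crest.Agent.R102.A929 Crest.Agent.R102.B821
open Crest.Agent.R102.M948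

variable {q : C(ℂ, ℂ)} {η ρ r B : ℝ} {b φ p : ℂ × ℂ → ℂ} {m₀ : ℂ → ℂ}

lemma LineFam.B_nn (F : LineFam q η ρ r B b φ p m₀) : 0 ≤ B := by
  have hr := F.r_pos
  have hρ := F.ρ_pos
  have h := F.b_near (0, ((r / 2 : ℝ) : ℂ)) (by
    refine ⟨by simpa using hρ, ?_⟩
    show ‖((r / 2 : ℝ) : ℂ)‖ < r
    rw [Complex.norm_real, Real.norm_eq_abs, abs_of_pos (by positivity)]
    linarith)
  have h2 : 0 ≤ B * ‖((r / 2 : ℝ) : ℂ)‖ ^ 2 := (norm_nonneg _).trans h
  rw [Complex.norm_real, Real.norm_eq_abs, abs_of_pos (by positivity)] at h2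
  by_contra hB
  push Not at hB
  nlinarith [mul_pos hr hr, mul_neg_of_neg_of_pos hB (mul_pos hr hr)]

/-- smallness of `r'` -/
structure Rs (ρ r B ε₀ r' : ℝ) : Prop where
  pos : 0 < r'
  le : r' ≤ r
  ε : r' + 2 * B * r' ^ 2 ≤ ε₀
  B2 : 2 * B * r' ≤ 1 / 2
  ρ4 : 4 * r' ≤ ρ

theorem exists_Rs (hr : 0 < r) (hρ : 0 < ρ) (hB : 0 ≤ B) {ε₀ : ℝ} (hε : 0 < ε₀) :
    ∃ r₀, 0 < r₀ ∧ ∀ r', 0 < r' → r' ≤ r₀ → Rs ρ r B ε₀ r' := by
  refine ⟨min r (min 1 (min (ε₀ / (2 * B + 1)) (min (1 / (4 * (B + 1))) (ρ / 4)))), ?_, ?_⟩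
  · exact lt_min hr (lt_min one_pos (lt_min (by positivity) (lt_min (by positivity)
      (by positivity))))
  · intro r' h0 h
    simp only [le_min_iff] at h
    obtain ⟨h1, h2, h3, h4, h5⟩ := h
    rw [le_div_iff₀ (by positivity)] at h3 h4
    refine ⟨h0, h1, ?_, ?_, by linarith⟩
    · have : B * r' ^ 2 ≤ B * r' := by
        rw [pow_two]
        exact mul_le_mul_of_nonneg_left (mul_le_of_le_one_left h0.le h2) hB
      nlinarith
    · nlinarith

section
variable (F : LineFam q η ρ r B b φ p m₀) {ρ₀ ε₀ r' : ℝ} (S : C0.Sm q η ρ₀ ε₀) (hρ₀ : 2 * ρ ≤ ρ₀)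
  (R : Rs ρ r B ε₀ r')

include F S hρ₀ R

lemma mem_PD {t w : ℂ} (ht : |t.im| < ρ) (hw : ‖w‖ < r') : (t, w) ∈ PD ρ r :=
  ⟨ht, hw.trans_le R.le⟩

lemma pair_Dg {t s w : ℂ} (ht : |t.im| < ρ) (hs : |s.im| < ρ) (hw : ‖w‖ < r')
    (hts : ‖t - s‖ = ‖w‖) : (b (s, w), b (t, w)) ∈ Dg ρ₀ ε₀ := by
  have hB := LineFam.B_nn F
  have m1 := mem_PD F S hρ₀ R ht hw
  have m2 := mem_PD F S hρ₀ R hs hw
  refine ⟨(F.b_mem _ m2).trans_le hρ₀, (F.b_mem _ m1).trans_le hρ₀, ?_⟩
  show ‖b (t, w) - b (s, w)‖ < ε₀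
  have n1 := F.b_near _ m1
  have n2 := F.b_near _ m2
  simp only at n1 n2
  have h3 : B * ‖w‖ ^ 2 ≤ B * r' ^ 2 := by gcongr
  calc ‖b (t, w) - b (s, w)‖ = ‖(t - s) + ((b (t, w) - t) - (b (s, w) - s))‖ := by ring_nf
    _ ≤ ‖t - s‖ + ‖(b (t, w) - t) - (b (s, w) - s)‖ := norm_add_le _ _
    _ ≤ ‖t - s‖ + (‖b (t, w) - t‖ + ‖b (s, w) - s‖) := by gcongr; exact norm_sub_le _ _
    _ < ε₀ := by rw [hts]; linarith [R.ε]

lemma b_zero {t : ℂ} (ht : |t.im| < ρ) : b (t, 0) = t := by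
  have m1 := mem_PD F S hρ₀ R ht (w := 0) (by simpa using R.pos)
  have n1 := F.b_near _ m1
  simp only [norm_zero] at n1
  have : ‖b (t, 0) - t‖ ≤ 0 := by simpa using n1
  exact sub_eq_zero.1 (norm_le_zero_iff.1 this)

/-- the line is the chord through the vertices -/
theorem chord_eq {t w : ℂ} (ht : |t.im| < ρ) (hm : |(t - w / 2).im| < ρ)
    (hp : |(t + w / 2).im| < ρ) (hw : ‖w‖ < r') :
    φ (t, w) = ph q (b (t - w / 2, w), b (t + w / 2, w)) ∧
    p (t, w) = pc q (b (t - w / 2, w), b (t + w / 2, w)) := by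
  have hB := LineFam.B_nn F
  have hts : ‖t + w / 2 - (t - w / 2)‖ = ‖w‖ := by congr 1; ring
  have hD := pair_Dg F S hρ₀ R hp hm hw hts
  have m0 := mem_PD F S hρ₀ R ht hw
  have m1 := mem_PD F S hρ₀ R hm hw
  have m2 := mem_PD F S hρ₀ R hp hw
  have i1 := F.inc' t w m0 m1
  have i2 := F.inc t w m0 m2
  unfold OnLine at i1 i2
  set x := b (t - w / 2, w) with hx
  set y := b (t + w / 2, w) with hy
  have hφ : φ (t, w) = ph q (x, y) := by
    rcases eq_or_ne w 0 with h0 | h0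
    · subst h0
      have e1 : x = t := by rw [hx]; simp only [zero_div, sub_zero]; exact b_zero F S hρ₀ R ht
      have e2 : y = t := by rw [hy]; simp only [zero_div, add_zero]; exact b_zero F S hρ₀ R ht
      rw [e1, e2, ph_diag, F.φ_zero t ht]
    have hxy : y - x ≠ 0 := by
      intro h
      have n1 := F.b_near _ m1
      have n2 := F.b_near _ m2
      simp only at n1 n2
      have h3 : ‖w‖ ≤ 2 * B * ‖w‖ ^ 2 := by
        calc ‖w‖ = ‖-((y - (t + w / 2)) - (x - (t - w / 2)))‖ := by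
              rw [show -((y - (t + w / 2)) - (x - (t - w / 2))) = w - (y - x) by ring, h, sub_zero]
          _ = ‖(y - (t + w / 2)) - (x - (t - w / 2))‖ := norm_neg _
          _ ≤ ‖y - (t + w / 2)‖ + ‖x - (t - w / 2)‖ := norm_sub_le _ _
          _ ≤ 2 * B * ‖w‖ ^ 2 := by linarith
      have hwp : 0 < ‖w‖ := norm_pos_iff.2 h0
      have h4 : 2 * B * ‖w‖ ≤ 1 / 2 := le_trans (by gcongr) R.B2
      nlinarith
    have a1 := S.dat.Ach_mul 1 (S.mx hD) (S.my hD)
    have a2 := S.dat.Ach_mul (-1) (S.mx hD) (S.my hD)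
    have a3 : Complex.exp (-(Complex.I * φ (t, w))) * Ach q 1 (x, y) =
        Complex.exp (Complex.I * φ (t, w)) * Ach q (-1) (x, y) := by
      refine mul_left_cancel₀ hxy ?_
      linear_combination Complex.exp (-(Complex.I * φ (t, w))) * a1 -
        Complex.exp (Complex.I * φ (t, w)) * a2 + i2 - i1
    have hne := S.Ach_ne hD (s := -1) (Or.inr rfl)
    have a4 : Complex.exp (2 * (Complex.I * φ (t, w))) = Ach q 1 (x, y) / Ach q (-1) (x, y) := by
      rw [eq_div_iff hne]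
      have e1 : Complex.exp (2 * (Complex.I * φ (t, w))) =
          Complex.exp (Complex.I * φ (t, w)) * Complex.exp (Complex.I * φ (t, w)) := by
        rw [← Complex.exp_add]; congr 1; ring
      have e2 : Complex.exp (Complex.I * φ (t, w)) * Complex.exp (-(Complex.I * φ (t, w))) = 1 := by
        rw [← Complex.exp_add]; simp
      rw [e1]
      linear_combination (-Complex.exp (Complex.I * φ (t, w))) * a3 + (Ach q 1 (x, y)) * e2
    have a5 := S.exp_ph hD
    rw [← a4, Complex.exp_eq_exp_iff_exists_int] at a5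
    obtain ⟨n, hn⟩ := a5
    have hI := Complex.I_ne_zero
    have a6 : ph q (x, y) - φ (t, w) = n * Real.pi := by
      have : (2 * Complex.I) * (ph q (x, y) - φ (t, w)) = (2 * Complex.I) * (n * Real.pi) := by
        linear_combination hn
      exact mul_left_cancel₀ (mul_ne_zero two_ne_zero hI) this
    have d1 := F.δ_small (t - w / 2) w m1 (by rw [sub_add_cancel]; exact m0)
    rw [sub_add_cancel, ← hx] at d1
    have d2 := (S.ph_near hD).1
    have a7 : ‖ph q (x, y) - φ (t, w)‖ ≤ 2 / 5 := by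
      calc ‖ph q (x, y) - φ (t, w)‖ = ‖(ph q (x, y) - Tc q x) - (φ (t, w) - Tc q x)‖ := by ring_nf
        _ ≤ ‖ph q (x, y) - Tc q x‖ + ‖φ (t, w) - Tc q x‖ := norm_sub_le _ _
        _ ≤ 2 / 5 := by linarith
    have hn0 : n = 0 := by
      by_contra hne
      have h1 : (1 : ℝ) ≤ |(n : ℝ)| := by
        have : (1 : ℤ) ≤ |n| := Int.one_le_abs hne
        exact_mod_cast this
      rw [a6, norm_mul, Complex.norm_intCast, Complex.norm_real, Real.norm_eq_abs,
        abs_of_pos Real.pi_pos] at a7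
      have := Real.pi_gt_three
      nlinarith
    rw [hn0] at a6
    simp only [Int.cast_zero, zero_mul] at a6
    exact (sub_eq_zero.1 a6).symm
  refine ⟨hφ, ?_⟩
  unfold pc
  simp only
  rw [← hφ, i1]
  have hI := Complex.I_ne_zero
  field_simp

variable {V : Set ℂ} {θ H : ℂ → ℂ} (E : VExt q η V θ H)

include E

/-- **the labels satisfy the law of the momentum function** -/
theorem leafOn_b : LeafOn (kk θ H) (Str ρ) r' B b := by
  have hsub : (Str ρ) ×ˢ ball (0 : ℂ) r' ⊆ PD ρ r := by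
    rintro ⟨t, w⟩ ⟨ht, hw⟩
    rw [mem_ball, dist_zero_right] at hw
    exact mem_PD F S hρ₀ R ht hw
  refine ⟨F.b_diff.mono hsub, ?_, ?_⟩
  · intro t ht w hw
    exact F.b_near (t, w) (mem_PD F S hρ₀ R ht hw)
  · intro t w hw h1 h2 h3
    have half : ∀ s : ℂ, |s.im| < ρ → |t.im| < ρ → |((s + t) / 2).im| < ρ := by
      intro s hs ht
      have : ((s + t) / 2).im = (s.im + t.im) / 2 := by
        rw [show (s + t) / 2 = (((1 / 2 : ℝ)) : ℂ) * (s + t) by push_cast; ring,
          Complex.im_ofReal_mul, Complex.add_im]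
        ring
      rw [this, abs_div, abs_of_pos (by norm_num : (0 : ℝ) < 2)]
      have := abs_add_le s.im t.im
      linarith
    have hm : |(t - w / 2).im| < ρ := by
      have := half (t - w) h1 h2
      rwa [show (t - w + t) / 2 = t - w / 2 by ring] at this
    have hp : |(t + w / 2).im| < ρ := by
      have := half (t + w) h3 h2
      rwa [show (t + w + t) / 2 = t + w / 2 by ring] at this
    have c1 := (chord_eq F S hρ₀ R (t := t + w / 2) (w := w) hp
      (by rw [show t + w / 2 - w / 2 = t by ring]; exact h2)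
      (by rw [show t + w / 2 + w / 2 = t + w by ring]; exact h3) hw).1
    rw [show t + w / 2 - w / 2 = t by ring, show t + w / 2 + w / 2 = t + w by ring] at c1
    have c2 := (chord_eq F S hρ₀ R (t := t - w / 2) (w := w) hm
      (by rw [show t - w / 2 - w / 2 = t - w by ring]; exact h1)
      (by rw [show t - w / 2 + w / 2 = t by ring]; exact h2) hw).1
    rw [show t - w / 2 - w / 2 = t - w by ring, show t - w / 2 + w / 2 = t by ring] at c2
    have hr := F.refl t w (mem_PD F S hρ₀ R h2 hw) (mem_PD F S hρ₀ R hm hw)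
      (mem_PD F S hρ₀ R hp hw)
    rw [c1, c2] at hr
    have hD1 := pair_Dg F S hρ₀ R h3 h2 hw (by rw [add_sub_cancel_left])
    have hD2 := pair_Dg F S hρ₀ R h1 h2 hw (by
      rw [show t - w - t = -w by ring, norm_neg])
    have k1 := kx_real F.dat E S hD1
    have k2 := kx_real F.dat E S hD2
    rw [show ph q (b (t - w, w), b (t, w)) = ph q (b (t, w), b (t - w, w)) from ph_swap _ _] at hr
    have e1 : (ph q (b (t, w), b (t + w, w)) - Tc q (b (t, w))) / 2 =
        -((ph q (b (t, w), b (t - w, w)) - Tc q (b (t, w))) / 2) := by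
      linear_combination (1 / 2 : ℂ) * hr
    rw [e1, Complex.sin_neg] at k1
    have g1 : kk θ H (b (t, w), b (t + w, w) - b (t, w)) = kx θ H (b (t, w), b (t + w, w)) := by
      unfold kk; simp only; rw [add_sub_cancel]
    have g2 : kk θ H (b (t, w), b (t - w, w) - b (t, w)) = kx θ H (b (t, w), b (t - w, w)) := by
      unfold kk; simp only; rw [add_sub_cancel]
    rw [g1, g2]
    refine mul_left_cancel₀ (Complex.exp_ne_zero (q (b (t, w)))) ?_
    linear_combination k1 + k2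

/-- lines in terms of the chord functions of `(θ, H)` -/
theorem chord_eq' {t w : ℂ} (ht : |t.im| < ρ) (hm : |(t - w / 2).im| < ρ)
    (hp : |(t + w / 2).im| < ρ) (hw : ‖w‖ < r') :
    φ (t, w) = Phi θ H (b (t - w / 2, w), b (t + w / 2, w)) ∧
    p (t, w) = Pch θ H (b (t - w / 2, w), b (t + w / 2, w)) := by
  have hts : ‖t + w / 2 - (t - w / 2)‖ = ‖w‖ := by congr 1; ring
  have hD := pair_Dg F S hρ₀ R hp hm hw hts
  have h := chord_eq F S hρ₀ R ht hm hp hw
  rw [Phi_eq F.dat E (S.mx hD) (S.my hD), Pch_eq F.dat E S hD]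
  exact h

end

/-! ### periodicity -/

section
variable {V : Set ℂ} {θ H : ℂ → ℂ} {h : ℝ} (D : Datum q η) (E : VExt q η V θ H)
  (hV : Str h ⊆ V) (hη : η ≤ h)

lemma convex_Str (h : ℝ) : Convex ℝ (Str h) := by
  have : Str h = {t : ℂ | |t.im| < h} := rfl
  rw [this]
  exact convex_strip h

lemma add_one_Str {z : ℂ} (hz : z ∈ Str h) : z + 1 ∈ Str h := by
  have : |z.im| < h := hz
  show |(z + 1).im| < h
  simpa using this

include D E hV hη

lemma θ_per {z : ℂ} (hz : z ∈ Str h) : θ (z + 1) = θ z + 2 * Real.pi := by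
  have h0 : (0 : ℂ) ∈ Str η := by
    show |(0 : ℂ).im| < η
    simpa using D.η_pos
  have hsub : Str η ⊆ Str h := fun z hz => lt_of_lt_of_le hz hη
  refine eq_of_eq_open (f := fun z => θ (z + 1)) (g := fun z => θ z + 2 * Real.pi)
    (isOpen_Str h) (convex_Str h).isPreconnected ?_ ?_ (isOpen_Str η) (hsub h0) h0 ?_ z hz
  · exact (E.θ_diff.mono hV).comp (by fun_prop) (fun z hz => add_one_Str hz)
  · exact (E.θ_diff.mono hV).add_const _
  · intro z _ hz
    rw [E.θ_eq z hz, E.θ_eq (z + 1) (add_one_Str hz), D.Tc_per hz]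

lemma Hc_per {z : ℂ} (hz : z ∈ Str η) : Hc q (z + 1) = Hc q z := by
  unfold Hc
  rw [D.Tc_per hz, D.Zs_per hz (Or.inl rfl), D.Zs_per hz (Or.inr rfl)]
  have e1 : Complex.exp (Complex.I * (Tc q z + 2 * Real.pi)) = Complex.exp (Complex.I * Tc q z) := by
    rw [Complex.exp_eq_exp_iff_exists_int]
    exact ⟨1, by push_cast; ring⟩
  have e2 : Complex.exp (-(Complex.I * (Tc q z + 2 * Real.pi))) =
      Complex.exp (-(Complex.I * Tc q z)) := by
    rw [Complex.exp_eq_exp_iff_exists_int]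
    exact ⟨-1, by push_cast; ring⟩
  rw [e1, e2]

lemma H_per {z : ℂ} (hz : z ∈ Str h) : H (z + 1) = H z := by
  have h0 : (0 : ℂ) ∈ Str η := by
    show |(0 : ℂ).im| < η
    simpa using D.η_pos
  have hsub : Str η ⊆ Str h := fun z hz => lt_of_lt_of_le hz hη
  refine eq_of_eq_open (f := fun z => H (z + 1)) (g := H)
    (isOpen_Str h) (convex_Str h).isPreconnected ?_ ?_ (isOpen_Str η) (hsub h0) h0 ?_ z hz
  · exact (E.H_diff.mono hV).comp (by fun_prop) (fun z hz => add_one_Str hz)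
  · exact E.H_diff.mono hV
  · intro z _ hz
    rw [E.H_eq z hz, E.H_eq (z + 1) (add_one_Str hz), Hc_per D E hV hη hz]

lemma dθ_per {z : ℂ} (hz : z ∈ Str h) : deriv θ (z + 1) = deriv θ z := by
  have h1 : (fun z => θ (z + 1)) =ᶠ[𝓝 z] fun z => θ z + 2 * Real.pi := by
    filter_upwards [(isOpen_Str h).mem_nhds hz] with x hx using θ_per D E hV hη hx
  have h2 := h1.deriv_eq
  rwa [deriv_comp_add_const, deriv_add_const] at h2

lemma dH_per {z : ℂ} (hz : z ∈ Str h) : deriv H (z + 1) = deriv H z := by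
  have h1 : (fun z => H (z + 1)) =ᶠ[𝓝 z] H := by
    filter_upwards [(isOpen_Str h).mem_nhds hz] with x hx using H_per D E hV hη hx
  have h2 := h1.deriv_eq
  rwa [deriv_comp_add_const] at h2

lemma GG_per {s : ℂ} (hs : s = 1 ∨ s = -1) {z : ℂ} (hz : z ∈ Str h) :
    GG θ H s (z + 1) = GG θ H s z := by
  unfold GG
  rw [θ_per D E hV hη hz, H_per D E hV hη hz, dθ_per D E hV hη hz, dH_per D E hV hη hz]
  congr 1
  rw [Complex.exp_eq_exp_iff_exists_int]
  rcases hs with rfl | rfl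
  · exact ⟨1, by push_cast; ring⟩
  · exact ⟨-1, by push_cast; ring⟩

lemma D2_per {f : ℂ → ℂ} (hf : ∀ z ∈ Str h, f (z + 1) = f z) {x y : ℂ} (hx : x ∈ Str h)
    (hy : y ∈ Str h) : D2 f (x + 1, y + 1) = D2 f (x, y) := by
  rcases eq_or_ne x y with h0 | h0
  · subst h0
    rw [D2_diag, D2_diag]
    have h1 : (fun z => f (z + 1)) =ᶠ[𝓝 x] f := by
      filter_upwards [(isOpen_Str h).mem_nhds hx] with z hz using hf z hz
    have h2 := h1.deriv_eq
    rwa [deriv_comp_add_const] at h2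
  · refine mul_left_cancel₀ (sub_ne_zero.2 h0.symm) ?_
    rw [D2_mul]
    have := D2_mul f (x + 1) (y + 1)
    rw [hf x hx, hf y hy] at this
    rw [← this]
    ring

lemma As_per {s : ℂ} (hs : s = 1 ∨ s = -1) {x y : ℂ} (hx : x ∈ Str h) (hy : y ∈ Str h) :
    As θ H s (x + 1, y + 1) = As θ H s (x, y) := by
  unfold As
  simp only
  rw [dθ_per D E hV hη hx, GG_per D E hV hη hs hx,
    D2_per D E hV hη (fun z hz => GG_per D E hV hη hs hz) hx hy,
    D2_per D E hV hη (fun z hz => dθ_per D E hV hη hz) hx hy]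

lemma Wch_per {x y : ℂ} (hx : x ∈ Str h) (hy : y ∈ Str h) :
    Wch θ H (x + 1, y + 1) = Wch θ H (x, y) := by
  unfold Wch
  simp only
  rw [As_per D E hV hη (Or.inl rfl) hx hy, As_per D E hV hη (Or.inr rfl) hx hy,
    θ_per D E hV hη hx, θ_per D E hV hη hy]
  congr 1
  rw [Complex.exp_eq_exp_iff_exists_int]
  exact ⟨-2, by push_cast; ring⟩

lemma Phi_per {x y : ℂ} (hx : x ∈ Str h) (hy : y ∈ Str h) :
    Phi θ H (x + 1, y + 1) = Phi θ H (x, y) + 2 * Real.pi := by
  unfold Phi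
  rw [Wch_per D E hV hη hx hy]
  simp only
  rw [θ_per D E hV hη hx, θ_per D E hV hη hy]
  ring

lemma kx_per {x y : ℂ} (hx : x ∈ Str h) (hy : y ∈ Str h) :
    kx θ H (x + 1, y + 1) = kx θ H (x, y) := by
  unfold kx DD
  simp only
  rw [As_per D E hV hη (Or.inr rfl) hx hy, Phi_per D E hV hη hx hy, θ_per D E hV hη hx,
    H_per D E hV hη hx,
    D2_per D E hV hη (fun z hz => GG_per D E hV hη (Or.inl rfl) hz) hx hy,
    D2_per D E hV hη (fun z hz => GG_per D E hV hη (Or.inr rfl) hz) hx hy,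
    D2_per D E hV hη (fun z hz => dθ_per D E hV hη hz) hx hy]
  have e1 : ∀ a : ℂ, Complex.exp (Complex.I * (a + 2 * Real.pi)) = Complex.exp (Complex.I * a) := by
    intro a
    rw [Complex.exp_eq_exp_iff_exists_int]
    exact ⟨1, by push_cast; ring⟩
  have e2 : ∀ a : ℂ, Complex.exp (-(Complex.I * (a + 2 * Real.pi))) =
      Complex.exp (-(Complex.I * a)) := by
    intro a
    rw [Complex.exp_eq_exp_iff_exists_int]
    exact ⟨-1, by push_cast; ring⟩
  rw [e1, e2, e2]
  have e3 : (Phi θ H (x, y) + 2 * Real.pi - (θ x + 2 * Real.pi)) / 2 = (Phi θ H (x, y) - θ x) / 2 := by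
    ring
  rw [e3]

lemma kk_per {x e : ℂ} (hx : x ∈ Str h) (hy : x + e ∈ Str h) :
    kk θ H (x + 1, e) = kk θ H (x, e) := by
  unfold kk
  simp only
  rw [show x + 1 + e = x + e + 1 by ring]
  exact kx_per D E hV hη hx hy

lemma ND_per {x y : ℂ} (hx : x ∈ Str h) (hy : y ∈ Str h) (hm : (x, y) ∈ ND θ H V) :
    (x + 1, y + 1) ∈ ND θ H V := by
  refine ⟨⟨⟨hV (add_one_Str hx), hV (add_one_Str hy)⟩, ?_, ?_⟩, ?_⟩
  · rw [As_per D E hV hη (Or.inr rfl) hx hy]; exact hm.1.2.1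
  · rw [Wch_per D E hV hη hx hy]; exact hm.1.2.2
  · have := hm.2
    simp only at this ⊢
    rw [Phi_per D E hV hη hx hy, θ_per D E hV hη hx]
    rwa [show (Phi θ H (x, y) + 2 * Real.pi - (θ x + 2 * Real.pi)) / 2 =
      (Phi θ H (x, y) - θ x) / 2 by ring]

end

end Crest.Agent.R102.C1
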