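import Mathlib
import Crest.Agent.R102.C1I_821

/-!
Row 102, part (C), C1: growth of strips; construction of the family of lines.
-/

set_option autoImplicit false
set_option linter.unusedSectionVars false

open Set Filter Topology Metric
open scoped ComplexConjugate

noncomputable section

namespace Crest.Agent.R102.C1

open Crest.Agent.R102.C0 Crest.Agent.R102.T5 Crest.Agent.R102.A929 Crest.Agent.R102.B821
open Crest.Agent.R102.M948

/-! ### strips -/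

lemma mem_Str {h : ℝ} {z : ℂ} : z ∈ Str h ↔ |z.im| < h := Iff.rfl

lemma Str_mono {h h' : ℝ} (hh : h ≤ h') : Str h ⊆ Str h' := fun _ hz => lt_of_lt_of_le hz hh

lemma per_int {h : ℝ} {P : ℂ → Prop} (hP : ∀ z ∈ Str h, (P (z + 1) ↔ P z)) (n : ℤ) :
    ∀ z ∈ Str h, (P (z + n) ↔ P z) := by
  induction n with
  | zero => intro z _; simp
  | succ n ih =>
    intro z hz
    rw [show z + (((n : ℤ) + 1 : ℤ) : ℂ) = z + ((n : ℤ) : ℂ) + 1 by push_cast; ring]
    exact (hP (z + ((n : ℤ) : ℂ)) (by rw [mem_Str] at hz ⊢; simpa using hz)).trans (ih z hz)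
  | pred n ih =>
    intro z hz
    have h1 := hP (z + ((-(n : ℤ) - 1 : ℤ) : ℂ)) (by rw [mem_Str] at hz ⊢; simpa using hz)
    rw [show z + ((-(n : ℤ) - 1 : ℤ) : ℂ) + 1 = z + ((-(n : ℤ) : ℤ) : ℂ) by push_cast; ring] at h1
    exact h1.symm.trans (ih z hz)

lemma thick_Str {h d : ℝ} (_hh : 0 < h) : thickening d (Str h) ⊆ Str (h + d) := by
  intro t ht
  obtain ⟨z, hz, hd⟩ := mem_thickening_iff.1 ht
  rw [mem_Str] at hz ⊢
  rw [dist_eq_norm] at hd
  have h1 := Complex.abs_im_le_norm (t - z)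
  have h2 : |t.im| ≤ |z.im| + |(t - z).im| := by
    have := abs_add_le z.im (t - z).im
    rwa [Complex.sub_im, add_sub_cancel] at this
  linarith

lemma Str_thick {h d : ℝ} (hh : 0 < h) (hd : 0 < d) : Str (h + d) ⊆ thickening d (Str h) := by
  intro t ht
  rw [mem_Str] at ht
  rw [mem_thickening_iff]
  -- scale the imaginary part
  set s : ℝ := h / (h + d) with hs
  have hs0 : 0 < s := by positivity
  have hs1 : s < 1 := by rw [hs, div_lt_one (by positivity)]; linarith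
  refine ⟨⟨t.re, s * t.im⟩, ?_, ?_⟩
  · rw [mem_Str]
    simp only
    rw [abs_mul, abs_of_pos hs0]
    calc s * |t.im| < s * (h + d) := by gcongr
      _ = h := by rw [hs]; field_simp
  · rw [dist_eq_norm]
    have e : t - (⟨t.re, s * t.im⟩ : ℂ) = ⟨0, (1 - s) * t.im⟩ := by
      apply Complex.ext
      · simp
      · simp; ring
    rw [e]
    have e2 : ((⟨0, (1 - s) * t.im⟩ : ℂ)) = (((1 - s) * t.im : ℝ) : ℂ) * Complex.I := by
      apply Complex.ext <;> simp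
    rw [e2, norm_mul, Complex.norm_I, mul_one, Complex.norm_real, Real.norm_eq_abs, abs_mul,
      abs_of_pos (by linarith)]
    calc (1 - s) * |t.im| < (1 - s) * (h + d) := by
          have : 0 < 1 - s := by linarith
          gcongr
      _ = d := by rw [hs]; field_simp; ring

lemma half_Str {h η δ : ℝ} (_hh : 0 < h) (hη : η ≤ h) (hδ : 0 ≤ δ) {c : ℂ}
    (hc : c ∈ frontier (Str h)) : ∃ u : ℂ, ‖u‖ = 1 ∧ Half c u η δ ⊆ Str h := by
  have hc' : |c.im| = h := by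
    have : Str h = {z : ℂ | |z.im| < h} := rfl
    rw [this] at hc
    exact frontier_lt_subset_eq (f := fun z : ℂ => |z.im|) (g := fun _ => h)
      (continuous_abs.comp Complex.continuous_im) continuous_const hc
  rcases le_or_gt 0 c.im with h0 | h0
  · rw [abs_of_nonneg h0] at hc'
    refine ⟨1, by simp, ?_⟩
    intro t ht
    obtain ⟨h1, h2⟩ := mem_Half.1 ht
    simp only [map_one, mul_one, Complex.sub_im] at h2
    have h3 := Complex.abs_im_le_norm (t - c)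
    rw [Complex.sub_im, abs_le] at h3
    rw [mem_Str, abs_lt]
    constructor <;> linarith [h3.1, h3.2]
  · rw [abs_of_neg h0] at hc'
    refine ⟨-1, by simp, ?_⟩
    intro t ht
    obtain ⟨h1, h2⟩ := mem_Half.1 ht
    have e : (t - c) * conj (-1 : ℂ) = -(t - c) := by simp
    rw [e, Complex.neg_im, Complex.sub_im] at h2
    have h3 := Complex.abs_im_le_norm (t - c)
    rw [Complex.sub_im, abs_le] at h3
    rw [mem_Str, abs_lt]
    constructor <;> linarith [h3.1, h3.2]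

theorem strip_grow {k X : ℂ × ℂ → ℂ} {ρ h₂ h₃ ε C r B : ℝ} (hρ : 0 < ρ) (h23 : h₂ < h₃)
    (hε : 0 < ε) (hr : 0 < r) (hk : KMap (Str h₃) ε C k) (hX : LeafOn k (Str ρ) r B X) :
    ∃ (r' B' : ℝ) (X' : ℂ × ℂ → ℂ), 0 < r' ∧ r' ≤ r ∧ LeafOn k (Str h₂) r' B' X' ∧
      ∀ t ∈ Str ρ, ∀ w : ℂ, ‖w‖ < r' → X' (t, w) = X (t, w) := by
  obtain ⟨κ, hκ0, hκ1, hG⟩ := grow
  set η₀ : ℝ := min ρ ((h₃ - h₂) / 4) with hη₀
  have hη0 : 0 < η₀ := lt_min hρ (by linarith)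
  have e1 : η₀ ≤ ρ := min_le_left _ _
  have e2 : η₀ ≤ (h₃ - h₂) / 4 := min_le_right _ _
  have hκη : κ * η₀ ≤ η₀ := mul_le_of_le_one_left hη0.le hκ1.le
  have hκη0 : 0 < κ * η₀ := by positivity
  have key : ∀ n : ℕ, ρ + n * (κ * η₀) ≤ h₂ + κ * η₀ ∨ n = 0 →
      ∃ (r' B' : ℝ) (X' : ℂ × ℂ → ℂ), 0 < r' ∧ r' ≤ r ∧
        LeafOn k (Str (ρ + n * (κ * η₀))) r' B' X' ∧
        ∀ t ∈ Str ρ, ∀ w : ℂ, ‖w‖ < r' → X' (t, w) = X (t, w) := by
    intro n
    induction n with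
    | zero =>
      intro _
      refine ⟨r, B, X, hr, le_rfl, ?_, fun _ _ _ _ => rfl⟩
      simpa using hX
    | succ n ih =>
      intro hn
      have hn' : ρ + n * (κ * η₀) ≤ h₂ := by
        rcases hn with hn | hn
        · push_cast at hn; linarith
        · omega
      obtain ⟨r₁, B₁, X₁, a1, a2, a3, a4⟩ := ih (Or.inl (by linarith))
      obtain ⟨r₂, B₂, b1, b2, b3⟩ := hG η₀ ε C r₁ B₁ hη0 hε a1
      set h' : ℝ := ρ + n * (κ * η₀) with hh'
      have hρh : ρ ≤ h' := by rw [hh']; have : 0 ≤ n * (κ * η₀) := by positivity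
                              linarith
      have hh0 : 0 < h' := hρ.trans_le hρh
      have hth : thickening (2 * η₀) (Str h') ⊆ Str h₃ :=
        (thick_Str hh0).trans (Str_mono (by linarith))
      obtain ⟨X₂, c1, c2⟩ := b3 (Str h') k X₁ (isOpen_Str h') (convex_Str h')
        (fun c hc => half_Str hh0 (e1.trans hρh) hκη0.le hc)
        ⟨hk.diff.mono (prod_mono hth le_rfl), fun y hy => hk.near y (hth hy)⟩ a3
      refine ⟨r₂, B₂, X₂, b1, b2.trans a2, ?_, ?_⟩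
      · have : ρ + ((n + 1 : ℕ) : ℝ) * (κ * η₀) = h' + κ * η₀ := by rw [hh']; push_cast; ring
        rw [this]
        exact c1.mono (Str_thick hh0 hκη0) le_rfl le_rfl
      · intro t ht w hw
        rw [c2 t (Str_mono hρh ht) w hw]
        exact a4 t ht w (hw.trans_le b2)
  by_cases hle : h₂ ≤ ρ
  · exact ⟨r, B, X, hr, le_rfl, hX.mono (Str_mono hle) le_rfl le_rfl, fun _ _ _ _ => rfl⟩
  push Not at hle
  set n : ℕ := ⌈(h₂ - ρ) / (κ * η₀)⌉₊ with hn
  have h1 : (h₂ - ρ) / (κ * η₀) ≤ n := Nat.le_ceil _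
  have h2 : (n : ℝ) < (h₂ - ρ) / (κ * η₀) + 1 := Nat.ceil_lt_add_one (div_nonneg (by linarith) hκη0.le)
  rw [div_le_iff₀ hκη0] at h1
  have h3 : n * (κ * η₀) < h₂ - ρ + κ * η₀ := by
    have := mul_lt_mul_of_pos_right h2 hκη0
    rwa [add_mul, one_mul, div_mul_cancel₀ _ hκη0.ne'] at this
  obtain ⟨r', B', X', a1, a2, a3, a4⟩ := key n (Or.inl (by linarith))
  exact ⟨r', B', X', a1, a2, a3.mono (Str_mono (by linarith)) le_rfl le_rfl, a4⟩

/-! ### momentum function on strips -/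

variable {q : C(ℂ, ℂ)} {η ρ r B : ℝ} {b φ p : ℂ × ℂ → ℂ} {m₀ : ℂ → ℂ}

section
variable {V : Set ℂ} {θ H : ℂ → ℂ} {h : ℝ} (D : Datum q η) (E : VExt q η V θ H)
  (hV : Str h ⊆ V) (hη : η ≤ h)

include D E hV hη

lemma ND_per_iff {x y : ℂ} (hx : x ∈ Str h) (hy : y ∈ Str h) :
    (x + 1, y + 1) ∈ ND θ H V ↔ (x, y) ∈ ND θ H V := by
  refine ⟨fun hm => ?_, ND_per D E hV hη hx hy⟩
  refine ⟨⟨⟨hV hx, hV hy⟩, ?_, ?_⟩, ?_⟩
  · rw [← As_per D E hV hη (Or.inr rfl) hx hy]; exact hm.1.2.1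
  · rw [← Wch_per D E hV hη hx hy]; exact hm.1.2.2
  · have := hm.2
    rw [Phi_per D E hV hη hx hy, θ_per D E hV hη hx] at this
    rwa [show (Phi θ H (x, y) + 2 * Real.pi - (θ x + 2 * Real.pi)) / 2 =
      (Phi θ H (x, y) - θ x) / 2 by ring] at this

theorem strip_KMap {h₃ : ℝ} (h3 : h₃ < h) (_h30 : 0 < h₃) : ∃ ε C : ℝ, 0 < ε ∧ h₃ + ε ≤ h ∧
    KMap (Str h₃) ε C (kk θ H) ∧ Str h₃ ×ˢ ball 0 ε ⊆ NE θ H V := by
  have L := LZ_of_VExt D E
  set Q : Set ℂ := Icc (0 : ℝ) 1 ×ℂ Icc (-h₃) h₃ with hQ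
  have hQc : IsCompact Q := isCompact_Icc.reProdIm isCompact_Icc
  have hQV : Q ⊆ V := by
    intro z hz
    rw [hQ, Complex.mem_reProdIm] at hz
    exact hV (by rw [mem_Str]; exact lt_of_le_of_lt (abs_le.2 hz.2) h3)
  obtain ⟨ε, C, hε, hk, hN⟩ := exists_KMap D E hQc hQV
  set ε' := min ε (h - h₃) with hε'
  have hε'0 : 0 < ε' := lt_min hε (by linarith)
  have key : ∀ x ∈ Str h₃, ∀ e : ℂ, ‖e‖ < ε' →
      (x, x + e) ∈ ND θ H V ∧ ‖kk θ H (x, e) - e‖ ≤ C * ‖e‖ ^ 3 := by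
    intro x hx e he
    have he1 : ‖e‖ < ε := he.trans_le (min_le_left _ _)
    have he2 : ‖e‖ < h - h₃ := he.trans_le (min_le_right _ _)
    have hxe : ∀ z ∈ Str h₃, z + e ∈ Str h := by
      intro z hz
      rw [mem_Str] at hz ⊢
      rw [Complex.add_im]
      have := abs_add_le z.im e.im
      have := Complex.abs_im_le_norm e
      linarith
    have hper := per_int (h := h₃) (P := fun z => (z, z + e) ∈ ND θ H V ∧
      ‖kk θ H (z, e) - e‖ ≤ C * ‖e‖ ^ 3) (fun z hz => by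
        have hz' : z ∈ Str h := Str_mono h3.le hz
        rw [kk_per D E hV hη hz' (hxe z hz), show z + 1 + e = z + e + 1 by ring,
          ND_per_iff D E hV hη hz' (hxe z hz)]) (-⌊x.re⌋) x hx
    rw [← hper]
    have hzQ : x + ((-⌊x.re⌋ : ℤ) : ℂ) ∈ Q := by
      rw [hQ, Complex.mem_reProdIm]
      rw [mem_Str, abs_lt] at hx
      have h1 := Int.floor_le x.re
      have h2 := Int.lt_floor_add_one x.re
      simp only [Complex.add_re, Complex.intCast_re, Complex.add_im, Complex.intCast_im,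
        Int.cast_neg, Complex.neg_re, Complex.neg_im]
      refine ⟨⟨by linarith, by linarith⟩, ⟨by linarith [hx.1], by linarith [hx.2]⟩⟩
    exact ⟨hN (show ((x + ((-⌊x.re⌋ : ℤ) : ℂ), e) : ℂ × ℂ) ∈ Q ×ˢ ball 0 ε from
      ⟨hzQ, by simpa using he1⟩), hk.near _ hzQ e he1⟩
  have hsub : Str h₃ ×ˢ ball 0 ε' ⊆ NE θ H V := by
    rintro ⟨x, e⟩ ⟨hx, he⟩
    exact (key x hx e (by simpa using he)).1
  refine ⟨ε', C, hε'0, by have : ε' ≤ h - h₃ := min_le_right _ _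
                          linarith, ⟨L.kk_diff.mono hsub, fun x hx e he => (key x hx e he).2⟩, hsub⟩

end

/-! ### from labels to lines -/

lemma LZ.A0_diag {V : Set ℂ} {θ H : ℂ → ℂ} (L : LZ V θ H) {x : ℂ} (hx : x ∈ V) :
    A0 θ H (x, x) = 2 * Complex.I * H x := by
  unfold A0
  rw [D2_diag, D2_diag, L.GG_deriv 1 hx, L.GG_deriv (-1) hx]
  unfold GG
  simp only
  have h1 := L.rel x hx
  have hI := Complex.I_sq
  have e : Complex.exp (1 * (Complex.I * θ x)) * Complex.exp (-1 * (Complex.I * θ x)) = 1 := by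
    rw [← Complex.exp_add]
    rw [show 1 * (Complex.I * θ x) + -1 * (Complex.I * θ x) = 0 by ring, Complex.exp_zero]
  set a := Complex.exp (1 * (Complex.I * θ x)) with ha
  set c := Complex.exp (-1 * (Complex.I * θ x)) with hc
  set y := deriv θ x
  set y' := deriv (deriv θ) x
  set K := H x
  set K' := deriv H x
  set K'' := deriv (deriv H) x
  linear_combination (-(2 * Complex.I * K)) * h1 + (2 * Complex.I * K -
    2 * Complex.I * K * (y * K'' - y' * K' + y ^ 3 * K + 1)) * e +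
    (2 * Complex.I * y ^ 3 * K ^ 2 * a * c) * hI

lemma LZ.Pch_diag {V : Set ℂ} {θ H : ℂ → ℂ} (L : LZ V θ H) {x : ℂ} (hx : x ∈ V) :
    Pch θ H (x, x) = H x := by
  unfold Pch
  rw [L.A0_diag hx, L.As_diag (by norm_num) hx, L.Phi_diag hx]
  have e : Complex.exp (-(Complex.I * θ x)) = Complex.exp (-1 * (Complex.I * θ x)) := by
    congr 1; ring
  rw [e]
  have h1 := Complex.exp_ne_zero (-1 * (Complex.I * θ x))
  have h2 := Complex.I_ne_zero
  field_simp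

/-- labels on `K₂` with good pairs -/
structure Pre (V : Set ℂ) (θ H : ℂ → ℂ) (K₂ : Set ℂ) (r B : ℝ) (X : ℂ × ℂ → ℂ) : Prop where
  lz : LZ V θ H
  op : IsOpen K₂
  lf : LeafOn (kk θ H) K₂ r B X
  mem : ∀ t ∈ K₂, ∀ w : ℂ, ‖w‖ < r → X (t, w) ∈ V
  pair : ∀ s ∈ K₂, ∀ t ∈ K₂, ∀ w : ℂ, ‖w‖ < r → ‖t - s‖ = ‖w‖ → (X (s, w), X (t, w)) ∈ ND θ H V

/-- direction of the line -/
def phX (θ H : ℂ → ℂ) (X : ℂ × ℂ → ℂ) (x : ℂ × ℂ) : ℂ :=
  Phi θ H (X (x.1 - x.2 / 2, x.2), X (x.1 + x.2 / 2, x.2))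

/-- support function of the line -/
def pX (θ H : ℂ → ℂ) (X : ℂ × ℂ → ℂ) (x : ℂ × ℂ) : ℂ :=
  Pch θ H (X (x.1 - x.2 / 2, x.2), X (x.1 + x.2 / 2, x.2))

/-- domain of the lines -/
def PK (K₂ : Set ℂ) (r : ℝ) : Set (ℂ × ℂ) :=
  {x | x.2 ∈ ball (0 : ℂ) r ∧ x.1 - x.2 / 2 ∈ K₂ ∧ x.1 + x.2 / 2 ∈ K₂}

section
variable {V : Set ℂ} {θ H : ℂ → ℂ} {K₂ : Set ℂ} {X : ℂ × ℂ → ℂ} (P : Pre V θ H K₂ r B X)

include P

lemma Pre.openPK : IsOpen (PK K₂ r) := by
  have h1 : IsOpen {x : ℂ × ℂ | x.2 ∈ ball (0 : ℂ) r} := isOpen_ball.preimage continuous_snd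
  have h2 : IsOpen {x : ℂ × ℂ | x.1 - x.2 / 2 ∈ K₂} := P.op.preimage (by fun_prop)
  have h3 : IsOpen {x : ℂ × ℂ | x.1 + x.2 / 2 ∈ K₂} := P.op.preimage (by fun_prop)
  exact h1.inter (h2.inter h3)

lemma Pre.memND {x : ℂ × ℂ} (hx : x ∈ PK K₂ r) :
    (X (x.1 - x.2 / 2, x.2), X (x.1 + x.2 / 2, x.2)) ∈ ND θ H V :=
  P.pair _ hx.2.1 _ hx.2.2 x.2 (by simpa using hx.1) (by congr 1; ring)

lemma Pre.pairs_diff : DifferentiableOn ℂ
    (fun x : ℂ × ℂ => (X (x.1 - x.2 / 2, x.2), X (x.1 + x.2 / 2, x.2))) (PK K₂ r) := by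
  refine DifferentiableOn.prodMk ?_ ?_
  · exact P.lf.diff.comp (by fun_prop : DifferentiableOn ℂ
      (fun x : ℂ × ℂ => ((x.1 - x.2 / 2, x.2) : ℂ × ℂ)) _) (fun x hx => ⟨hx.2.1, hx.1⟩)
  · exact P.lf.diff.comp (by fun_prop : DifferentiableOn ℂ
      (fun x : ℂ × ℂ => ((x.1 + x.2 / 2, x.2) : ℂ × ℂ)) _) (fun x hx => ⟨hx.2.2, hx.1⟩)

lemma Pre.ph_diff : DifferentiableOn ℂ (phX θ H X) (PK K₂ r) :=
  P.lz.Phi_diff.comp P.pairs_diff (fun _ hx => (P.memND hx).1)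

lemma Pre.p_diff : DifferentiableOn ℂ (pX θ H X) (PK K₂ r) :=
  P.lz.Pch_diff.comp P.pairs_diff (fun _ hx => (P.memND hx).1)

lemma Pre.X_zero (hr : 0 < r) {t : ℂ} (ht : t ∈ K₂) : X (t, 0) = t := by
  have n1 := P.lf.near t ht 0 (by simpa using hr)
  have : ‖X (t, 0) - t‖ ≤ 0 := by simpa using n1
  exact sub_eq_zero.1 (norm_le_zero_iff.1 this)

end

/-- **construction of the family of lines** from labels on `K₂`, by identity from a seed `G` -/
theorem build {V : Set ℂ} {θ H : ℂ → ℂ} {K₂ K G : Set ℂ} {r₂ : ℝ} {X : ℂ × ℂ → ℂ}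
    (P : Pre V θ H K₂ r₂ B X) (hr : 0 < r) (hr2 : r ≤ r₂) (hK₂ : Convex ℝ K₂) (hK : IsOpen K)
    (hKc : Convex ℝ K) (hKV : K ⊆ V)
    (hKK : ∀ t ∈ K, ∀ w : ℂ, ‖w‖ < r → t - w / 2 ∈ K₂ ∧ t ∈ K₂ ∧ t + w / 2 ∈ K₂)
    (hG : IsOpen G) (hGne : G.Nonempty)
    (hGK : ∀ t ∈ G, t ∈ K ∧ ∀ w : ℂ, ‖w‖ < r → t - w / 2 ∈ K ∧ t + w / 2 ∈ K)
    (s_even : ∀ t ∈ G, ∀ w : ℂ, ‖w‖ < r → X (t, -w) = X (t, w))
    (s_refl : ∀ t ∈ G, ∀ w : ℂ, ‖w‖ < r →
      phX θ H X (t - w / 2, w) + phX θ H X (t + w / 2, w) = 2 * θ (X (t, w)))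
    (s_area : ∀ t ∈ G, ∀ w : ℂ, ‖w‖ < r →
      q1 (phX θ H X) (t, w) * q2 (pX θ H X) (t, w) -
        q2 (phX θ H X) (t, w) * q1 (pX θ H X) (t, w) = w / 4 * m₀ w) :
    LineFamS θ H K r B X (phX θ H X) (pX θ H X) m₀ := by
  obtain ⟨t₀, ht₀⟩ := hGne
  have hr₂ : 0 < r₂ := hr.trans_le hr2
  have hKsub : K ⊆ K₂ := fun t ht => (hKK t ht 0 (by simpa using hr)).2.1
  have hPK : K ×ˢ ball (0 : ℂ) r ⊆ PK K₂ r₂ := by
    rintro ⟨t, w⟩ ⟨ht, hw⟩
    have hw' : ‖w‖ < r := by simpa using hw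
    exact ⟨ball_subset_ball hr2 hw, (hKK t ht w hw').1, (hKK t ht w hw').2.2⟩
  have hlf := P.lf.mono hKsub hr2 le_rfl
  -- evenness on all of `K₂`
  have heven : ∀ t ∈ K₂, ∀ w : ℂ, ‖w‖ < r → X (t, -w) = X (t, w) := by
    intro t ht w hw
    have hw' : ‖w‖ < r₂ := hw.trans_le hr2
    refine eq_of_eq_open (f := fun t => X (t, -w)) (g := fun t => X (t, w)) P.op
      hK₂.isPreconnected (slice_t P.lf.diff (by rwa [norm_neg])) (slice_t P.lf.diff hw') hG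
      (hKsub (hGK t₀ ht₀).1) ht₀ ?_ t ht
    intro z _ hz
    exact s_even z hz w hw
  refine ⟨hlf.diff, hlf.near, fun t ht w hw => heven t (hKsub ht) w hw, P.ph_diff.mono hPK,
    P.p_diff.mono hPK, ?_, ?_, ?_, ?_, ?_, ?_, ?_, ?_⟩
  · intro t ht
    unfold phX
    simp only [zero_div, sub_zero, add_zero]
    rw [P.X_zero hr₂ (hKsub ht), P.lz.Phi_diag (hKV ht)]
  · intro t ht
    unfold pX
    simp only [zero_div, sub_zero, add_zero]
    rw [P.X_zero hr₂ (hKsub ht), P.lz.Pch_diag (hKV ht)]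
  · intro t ht w hw
    obtain ⟨a1, -, a3⟩ := hKK t ht w hw
    unfold phX
    simp only
    rw [show t - -w / 2 = t + w / 2 by ring, show t + -w / 2 = t - w / 2 by ring,
      heven _ a1 w hw, heven _ a3 w hw]
    exact Phi_swap _ _
  · intro t ht w hw
    obtain ⟨a1, -, a3⟩ := hKK t ht w hw
    unfold pX
    simp only
    rw [show t - -w / 2 = t + w / 2 by ring, show t + -w / 2 = t - w / 2 by ring,
      heven _ a1 w hw, heven _ a3 w hw]
    exact Pch_swap _ _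
  · intro t w hw ht _
    have := P.memND (x := (t, w)) (hPK ⟨ht, by simpa using hw⟩)
    exact inc_snd this.1.2.1 this.1.2.2
  · intro t w hw ht _
    have := P.memND (x := (t, w)) (hPK ⟨ht, by simpa using hw⟩)
    exact inc_fst this.1.2.1 this.1.2.2
  · intro t w hw ht h1 h2
    have hwr : w ∈ ball (0 : ℂ) r := by simpa using hw
    set T : Set ℂ := {t | t - w / 2 ∈ K ∧ t ∈ K ∧ t + w / 2 ∈ K} with hT
    have hTo : IsOpen T := (hK.preimage (by fun_prop)).inter (hK.inter (hK.preimage (by fun_prop)))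
    have hTc : Convex ℝ T := by
      intro x hx y hy a c ha hc hac
      refine ⟨?_, hKc hx.2.1 hy.2.1 ha hc hac, ?_⟩
      · have := hKc hx.1 hy.1 ha hc hac
        convert this using 1
        have e : (a : ℂ) + c = 1 := by exact_mod_cast hac
        simp only [Complex.real_smul]
        linear_combination (w / 2) * e
      · have := hKc hx.2.2 hy.2.2 ha hc hac
        convert this using 1
        have e : (a : ℂ) + c = 1 := by exact_mod_cast hac
        simp only [Complex.real_smul]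
        linear_combination (-(w / 2)) * e
    have d1 : DifferentiableOn ℂ (fun t => phX θ H X (t - w / 2, w)) T :=
      (P.ph_diff.mono hPK).comp (by fun_prop : DifferentiableOn ℂ
        (fun t : ℂ => ((t - w / 2, w) : ℂ × ℂ)) _) (fun t ht => ⟨ht.1, hwr⟩)
    have d2 : DifferentiableOn ℂ (fun t => phX θ H X (t + w / 2, w)) T :=
      (P.ph_diff.mono hPK).comp (by fun_prop : DifferentiableOn ℂ
        (fun t : ℂ => ((t + w / 2, w) : ℂ × ℂ)) _) (fun t ht => ⟨ht.2.2, hwr⟩)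
    have d3 : DifferentiableOn ℂ (fun t => 2 * θ (X (t, w))) T := by
      refine DifferentiableOn.const_mul ?_ 2
      refine P.lz.dθ.comp ((slice_t hlf.diff hw).mono (fun t ht => ht.2.1)) ?_
      intro s hs
      exact P.mem s (hKsub hs.2.1) w (hw.trans_le hr2)
    refine eq_of_eq_open (D := T) (G := G) hTo hTc.isPreconnected (d1.add d2) d3 hG
      ⟨((hGK t₀ ht₀).2 w hw).1, (hGK t₀ ht₀).1, ((hGK t₀ ht₀).2 w hw).2⟩ ht₀ ?_ t ⟨h1, ht, h2⟩
    intro z _ hz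
    exact s_refl z hz w hw
  · intro t ht w hw
    have hwr : w ∈ ball (0 : ℂ) r := by simpa using hw
    have ho : IsOpen (K ×ˢ ball (0 : ℂ) r) := hK.prod isOpen_ball
    have a1 := R266.SCV.analyticOnNhd_of_differentiableOn ho (P.ph_diff.mono hPK)
    have a2 := R266.SCV.analyticOnNhd_of_differentiableOn ho (P.p_diff.mono hPK)
    have c1 := (ana_q1 a1).differentiableOn
    have c2 := (ana_q2 a1).differentiableOn
    have c3 := (ana_q1 a2).differentiableOn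
    have c4 := (ana_q2 a2).differentiableOn
    have sl : ∀ {f : ℂ × ℂ → ℂ}, DifferentiableOn ℂ f (K ×ˢ ball (0 : ℂ) r) →
        DifferentiableOn ℂ (fun t => f (t, w)) K := fun hf => slice_t hf hw
    refine eq_of_eq_open (f := fun t => q1 (phX θ H X) (t, w) * q2 (pX θ H X) (t, w) -
        q2 (phX θ H X) (t, w) * q1 (pX θ H X) (t, w)) (g := fun _ => w / 4 * m₀ w) hK
      hKc.isPreconnected (((sl c1).mul (sl c4)).sub ((sl c2).mul (sl c3)))
      (differentiableOn_const _) hG (hGK t₀ ht₀).1 ht₀ ?_ t ht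
    intro z _ hz
    exact s_area z hz w hw

end Crest.Agent.R102.C1
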