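import Mathlib
import Crest.Agent.R102.C1J_821

/-!
Row 102, part (C), C1: **`extS : ExtS`**.
-/

set_option autoImplicit false
set_option linter.unusedSectionVars false

open Set Filter Topology Metric
open scoped ComplexConjugate

noncomputable section

namespace Crest.Agent.R102.C1

open Crest.Agent.R102.C0 Crest.Agent.R102.T5 Crest.Agent.R102.A929 Crest.Agent.R102.B821
open Crest.Agent.R102.M948

variable {q : C(ℂ, ℂ)} {η ρ r B : ℝ} {b φ p : ℂ × ℂ → ℂ} {m₀ : ℂ → ℂ}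
variable {V : Set ℂ} {θ H : ℂ → ℂ} {h : ℝ}

lemma half_im {t w : ℂ} {a d : ℝ} (ht : |t.im| < a) (hw : ‖w‖ ≤ 2 * d) :
    |(t - w / 2).im| < a + d ∧ |(t + w / 2).im| < a + d := by
  have h1 : |(w / 2).im| ≤ d := by
    refine (Complex.abs_im_le_norm _).trans ?_
    rw [norm_div]
    have : ‖(2 : ℂ)‖ = 2 := by norm_num
    rw [this]
    linarith
  constructor
  · rw [Complex.sub_im]
    have := abs_sub t.im (w / 2).im
    linarith
  · rw [Complex.add_im]
    have := abs_add_le t.im (w / 2).im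
    linarith

/-- labels on a big strip -/
theorem strip_pre (F : LineFam q η ρ r B b φ p m₀) (E : VExt q η V θ H) (hV : Str h ⊆ V)
    (hη : η ≤ h) {h₂ : ℝ} (h1 : ρ < h₂) (h2 : h₂ < h) :
    ∃ (r₂ B₂ : ℝ) (X : ℂ × ℂ → ℂ), 0 < r₂ ∧ r₂ ≤ r ∧ 4 * r₂ ≤ ρ ∧ 0 ≤ B₂ ∧
      Pre V θ H (Str h₂) r₂ B₂ X ∧ (∀ t ∈ Str ρ, ∀ w : ℂ, ‖w‖ < r₂ → X (t, w) = b (t, w)) ∧
      ∀ t w : ℂ, |t.im| < ρ → |(t - w / 2).im| < ρ → |(t + w / 2).im| < ρ → ‖w‖ < r₂ →
        φ (t, w) = phX θ H b (t, w) ∧ p (t, w) = pX θ H b (t, w) := by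
  have D := F.dat
  have hρ := F.ρ_pos
  have hB := LineFam.B_nn F
  obtain ⟨ε₀, ρq, Cq, S, -⟩ := exists_both D (ρ₀ := (2 * ρ + η) / 2) (by linarith [D.η_pos])
    (by linarith [F.ρ_lt])
  have hρ₀ : 2 * ρ ≤ (2 * ρ + η) / 2 := by linarith [F.ρ_lt]
  obtain ⟨r₀, hr₀, hR⟩ := exists_Rs F.r_pos hρ hB S.ε_pos
  have R := hR r₀ hr₀ le_rfl
  have L0 := leafOn_b F S hρ₀ R E
  have hh₂ : 0 < h₂ := hρ.trans h1
  obtain ⟨ε, C, hε, hε', hk, hN⟩ := strip_KMap D E hV hη (h₃ := (h₂ + h) / 2) (by linarith)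
    (by linarith)
  obtain ⟨r₁, B₁, X, a1, a2, a3, a4⟩ := strip_grow hρ (h₂ := h₂) (by linarith) hε hr₀ hk L0
  set B₂ := |B₁| with hB₂
  have hB₂0 : 0 ≤ B₂ := abs_nonneg _
  set r₂ := min r₁ (min 1 (min (ε / (2 * B₂ + 1)) ((h - h₂) / 2 / (B₂ + 1)))) with hr₂
  have hhh : 0 < (h - h₂) / 2 := by linarith
  have c0 : 0 < r₂ := lt_min a1 (lt_min one_pos (lt_min (by positivity) (by positivity)))
  have c1 : r₂ ≤ r₁ := min_le_left _ _
  have c2 : r₂ ≤ 1 := (min_le_right _ _).trans (min_le_left _ _)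
  have c3 : r₂ ≤ ε / (2 * B₂ + 1) := (min_le_right _ _).trans ((min_le_right _ _).trans
    (min_le_left _ _))
  have c4 : r₂ ≤ (h - h₂) / 2 / (B₂ + 1) := (min_le_right _ _).trans ((min_le_right _ _).trans
    (min_le_right _ _))
  rw [le_div_iff₀ (by positivity)] at c3 c4
  have hsq : B₂ * r₂ ^ 2 ≤ B₂ * r₂ := by
    rw [pow_two]
    exact mul_le_mul_of_nonneg_left (mul_le_of_le_one_left c0.le c2) hB₂0
  have c5 : r₂ + 2 * B₂ * r₂ ^ 2 ≤ ε := by nlinarith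
  have c6 : B₂ * r₂ ^ 2 < (h - h₂) / 2 := by nlinarith
  have hlf : LeafOn (kk θ H) (Str h₂) r₂ B₂ X := a3.mono le_rfl c1 (le_abs_self _)
  have hX3 : ∀ t ∈ Str h₂, ∀ w : ℂ, ‖w‖ < r₂ → X (t, w) ∈ Str ((h₂ + h) / 2) := by
    intro t ht w hw
    have n1 := hlf.near t ht w hw
    have n2 : B₂ * ‖w‖ ^ 2 ≤ B₂ * r₂ ^ 2 := by gcongr
    have n3 := Complex.abs_im_le_norm (X (t, w) - t)
    rw [mem_Str] at ht ⊢
    have n4 : |(X (t, w)).im| ≤ |t.im| + |(X (t, w) - t).im| := by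
      have := abs_add_le t.im (X (t, w) - t).im
      rwa [Complex.sub_im, add_sub_cancel] at this
    linarith
  refine ⟨r₂, B₂, X, c0, c1.trans (a2.trans R.le), by linarith [R.ρ4, c1.trans a2], hB₂0,
    ⟨LZ_of_VExt D E, isOpen_Str _, hlf, ?_, ?_⟩, fun t ht w hw => a4 t ht w (hw.trans_le c1), ?_⟩
  · intro t ht w hw
    exact hV (Str_mono (by linarith) (hX3 t ht w hw))
  · intro s hs t ht w hw hts
    have h5 : (X (s, w), X (t, w) - X (s, w)) ∈ NE θ H V := by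
      refine hN ⟨hX3 s hs w hw, ?_⟩
      rw [mem_ball, dist_zero_right]
      exact (near_two hB₂0 hlf.near ht hs hw hts).trans_le c5
    have h6 : (X (s, w), X (s, w) + (X (t, w) - X (s, w))) ∈ ND θ H V := h5
    rwa [add_sub_cancel] at h6
  · intro t w ht hm hp hw
    exact chord_eq' F S hρ₀ R E ht hm hp (hw.trans_le (c1.trans a2))

/-- the seeds on `Str (ρ / 2)` -/
theorem seeds (F : LineFam q η ρ r B b φ p m₀) (E : VExt q η V θ H) {h₂ r₂ B₂ : ℝ}
    {X : ℂ × ℂ → ℂ} (hr₂ : 0 < r₂) (hr : r₂ ≤ r) (h4 : 4 * r₂ ≤ ρ)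
    (hXb : ∀ t ∈ Str ρ, ∀ w : ℂ, ‖w‖ < r₂ → X (t, w) = b (t, w))
    (hφ : ∀ t w : ℂ, |t.im| < ρ → |(t - w / 2).im| < ρ → |(t + w / 2).im| < ρ → ‖w‖ < r₂ →
        φ (t, w) = phX θ H b (t, w) ∧ p (t, w) = pX θ H b (t, w)) :
    (∀ t ∈ Str (3 / 4 * ρ), ∀ w : ℂ, ‖w‖ < r₂ → phX θ H X (t, w) = φ (t, w) ∧
      pX θ H X (t, w) = p (t, w)) ∧
    (∀ t ∈ Str (ρ / 2), ∀ w : ℂ, ‖w‖ < r₂ → X (t, -w) = X (t, w)) ∧
    (∀ t ∈ Str (ρ / 2), ∀ w : ℂ, ‖w‖ < r₂ →
      phX θ H X (t - w / 2, w) + phX θ H X (t + w / 2, w) = 2 * θ (X (t, w))) ∧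
    (∀ t ∈ Str (ρ / 2), ∀ w : ℂ, ‖w‖ < r₂ →
      q1 (phX θ H X) (t, w) * q2 (pX θ H X) (t, w) -
        q2 (phX θ H X) (t, w) * q1 (pX θ H X) (t, w) = w / 4 * m₀ w) := by
  have D := F.dat
  have hρ := F.ρ_pos
  have hPD : ∀ t w : ℂ, |t.im| < ρ → ‖w‖ < r₂ → (t, w) ∈ PD ρ r := fun t w ht hw =>
    ⟨ht, hw.trans_le hr⟩
  have s0 : ∀ t ∈ Str (3 / 4 * ρ), ∀ w : ℂ, ‖w‖ < r₂ → phX θ H X (t, w) = φ (t, w) ∧
      pX θ H X (t, w) = p (t, w) := by
    intro t ht w hw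
    obtain ⟨e1, e2⟩ := half_im (t := t) (w := w) (a := 3 / 4 * ρ) (d := ρ / 8) (mem_Str.1 ht)
      (by linarith)
    have f1 : |(t - w / 2).im| < ρ := by linarith
    have f2 : |(t + w / 2).im| < ρ := by linarith
    obtain ⟨g1, g2⟩ := hφ t w (by linarith [mem_Str.1 ht]) f1 f2 hw
    rw [g1, g2]
    unfold phX pX
    simp only
    rw [hXb (t - w / 2) f1 w hw, hXb (t + w / 2) f2 w hw]
    exact ⟨rfl, rfl⟩
  refine ⟨s0, ?_, ?_, ?_⟩
  · intro t ht w hw
    rw [mem_Str] at ht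
    have ht' : |t.im| < ρ := by linarith
    rw [hXb t ht' (-w) (by rwa [norm_neg]), hXb t ht' w hw]
    exact F.b_even t w (hPD t w ht' hw)
  · intro t ht w hw
    rw [mem_Str] at ht
    have ht' : |t.im| < ρ := by linarith
    obtain ⟨e1, e2⟩ := half_im (d := ρ / 8) ht (w := w) (by linarith)
    rw [(s0 (t - w / 2) (by rw [mem_Str]; linarith) w hw).1,
      (s0 (t + w / 2) (by rw [mem_Str]; linarith) w hw).1, hXb t ht' w hw,
      F.refl t w (hPD t w ht' hw) (hPD _ w (by linarith) hw) (hPD _ w (by linarith) hw)]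
    have hb : |(b (t, w)).im| < η := (F.b_mem _ (hPD t w ht' hw)).trans F.ρ_lt
    rw [E.θ_eq _ hb]
  · intro t ht w hw
    rw [mem_Str] at ht
    have ht' : |t.im| < ρ := by linarith
    have hopen : IsOpen (Str (3 / 4 * ρ) ×ˢ ball (0 : ℂ) r₂) := (isOpen_Str _).prod isOpen_ball
    have hmem : ((t, w) : ℂ × ℂ) ∈ Str (3 / 4 * ρ) ×ˢ ball (0 : ℂ) r₂ :=
      ⟨by rw [mem_Str]; linarith, by simpa using hw⟩
    have e1 : phX θ H X =ᶠ[𝓝 (t, w)] φ := by
      filter_upwards [hopen.mem_nhds hmem] with x hx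
      exact (s0 x.1 hx.1 x.2 (by simpa using hx.2)).1
    have e2 : pX θ H X =ᶠ[𝓝 (t, w)] p := by
      filter_upwards [hopen.mem_nhds hmem] with x hx
      exact (s0 x.1 hx.1 x.2 (by simpa using hx.2)).2
    have a := F.area t w (hPD t w ht' hw)
    unfold B821.q1 B821.q2 at a ⊢
    rw [e1.fderiv_eq, e2.fderiv_eq]
    exact a

lemma conj_slice {K : Set ℂ} {r : ℝ} {f : ℂ × ℂ → ℂ} (hK : ∀ t, t ∈ K → conj t ∈ K)
    (hKo : IsOpen K) (hf : DifferentiableOn ℂ f (K ×ˢ ball 0 r)) {w : ℂ} (hw : ‖w‖ < r) :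
    DifferentiableOn ℂ (fun t => conj (f (conj t, conj w))) K := by
  intro t ht
  have h1 : DifferentiableAt ℂ (fun s => f (s, conj w)) (conj t) :=
    (slice_t hf (by rwa [RCLike.norm_conj])).differentiableAt (hKo.mem_nhds (hK t ht))
  have h2 := h1.conj_conj
  rw [Complex.conj_conj] at h2
  exact h2.differentiableWithinAt

/-- **(EXT)** -/
theorem extS : ExtS := by
  intro q η ρ r B b φ p m₀ F θ H V h₀ h' E hV₀ h1 h2₀
  have D := F.dat
  have hρ := F.ρ_pos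
  -- enlarge `h`
  set h := max h₀ η with hh
  have hV : Str h ⊆ V := by
    rcases max_cases h₀ η with ⟨e, -⟩ | ⟨e, -⟩
    · rw [hh, e]; exact hV₀
    · rw [hh, e]; exact E.sub
  have hη : η ≤ h := le_max_right _ _
  have h2 : h' < h := h2₀.trans_le (le_max_left _ _)
  obtain ⟨r₂, B₂, X, a0, a1, a2, hB₂, P, a4, a5⟩ := strip_pre F E hV hη (h₂ := (h' + h) / 2)
    (by linarith) (by linarith)
  obtain ⟨s0, s1, s2, s3⟩ := seeds F E (h₂ := (h' + h) / 2) (B₂ := B₂) a0 a1 a2 a4 a5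
  set r' := min r₂ ((h - h') / 2) with hr'
  have r0 : 0 < r' := lt_min a0 (by linarith)
  have r1 : r' ≤ r₂ := min_le_left _ _
  have r2 : r' ≤ (h - h') / 2 := min_le_right _ _
  have hh' : 0 < h' := hρ.trans h1
  have hG0 : (0 : ℂ) ∈ Str (ρ / 2) := by rw [mem_Str]; simpa using hρ
  have hsub : Str (ρ / 2) ⊆ Str h' := Str_mono (by linarith)
  have hLF : LineFamS θ H (Str h') r' B₂ X (phX θ H X) (pX θ H X) m₀ := by
    refine build P r0 r1 (convex_Str _) (isOpen_Str _) (convex_Str _)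
      ((Str_mono h2.le).trans hV) ?_ (isOpen_Str (ρ / 2)) ⟨0, hG0⟩ ?_
      (fun t ht w hw => s1 t ht w (hw.trans_le r1)) (fun t ht w hw => s2 t ht w (hw.trans_le r1))
      (fun t ht w hw => s3 t ht w (hw.trans_le r1))
    · intro t ht w hw
      obtain ⟨e1, e2⟩ := half_im (d := (h - h') / 4) (mem_Str.1 ht) (w := w) (by linarith)
      refine ⟨?_, ?_, ?_⟩
      · rw [mem_Str]; linarith
      · exact Str_mono (by linarith) ht
      · rw [mem_Str]; linarith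
    · intro t ht
      refine ⟨hsub ht, fun w hw => ?_⟩
      obtain ⟨e1, e2⟩ := half_im (d := ρ / 8) (mem_Str.1 ht) (w := w) (by linarith)
      exact ⟨by rw [mem_Str]; linarith, by rw [mem_Str]; linarith⟩
  refine ⟨r', B₂, X, phX θ H X, pX θ H X, r0, r1.trans a1, hLF, ?_, ?_, ?_⟩
  · rintro t w ⟨ht, hw⟩
    simp only at ht hw
    have hwr : ‖w‖ < r := hw.trans_le (r1.trans a1)
    have hPDs : (Str ρ) ×ˢ ball (0 : ℂ) r ⊆ PD ρ r := by
      rintro ⟨t, w⟩ ⟨ht, hw⟩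
      exact ⟨ht, by simpa using hw⟩
    have hsρ : Str ρ ⊆ Str h' := Str_mono h1.le
    refine ⟨a4 t ht w (hw.trans_le r1), ?_, ?_⟩
    · refine eq_of_eq_open (f := fun t => phX θ H X (t, w)) (g := fun t => φ (t, w))
        (isOpen_Str ρ) (convex_Str ρ).isPreconnected ((slice_t hLF.φ_diff hw).mono hsρ)
        (slice_t (F.φ_diff.mono hPDs) hwr) (isOpen_Str (3 / 4 * ρ))
        (Str_mono (by linarith) hG0) (Str_mono (by linarith) hG0) ?_ t ht
      intro z _ hz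
      exact (s0 z hz w (hw.trans_le r1)).1
    · refine eq_of_eq_open (f := fun t => pX θ H X (t, w)) (g := fun t => p (t, w))
        (isOpen_Str ρ) (convex_Str ρ).isPreconnected ((slice_t hLF.p_diff hw).mono hsρ)
        (slice_t (F.p_diff.mono hPDs) hwr) (isOpen_Str (3 / 4 * ρ))
        (Str_mono (by linarith) hG0) (Str_mono (by linarith) hG0) ?_ t ht
      intro z _ hz
      exact (s0 z hz w (hw.trans_le r1)).2
  · rintro t w ⟨ht, hw⟩
    simp only at ht hw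
    have hw2 : ‖w‖ < r₂ := hw.trans_le r1
    have hPD : ∀ z : ℂ, z ∈ Str (ρ / 2) → (z, w) ∈ PD ρ r := fun z hz =>
      ⟨by have := mem_Str.1 hz; show |z.im| < ρ; linarith, hw2.trans_le a1⟩
    have hz1 : ∀ z : ℂ, z ∈ Str (ρ / 2) → z + 1 ∈ Str (ρ / 2) := fun z hz => by
      rw [mem_Str] at hz ⊢; simpa using hz
    have sl : ∀ {f : ℂ × ℂ → ℂ}, DifferentiableOn ℂ f (Str h' ×ˢ ball (0 : ℂ) r') →
        DifferentiableOn ℂ (fun t => f (t, w)) (Str h') := fun hf => slice_t hf hw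
    have sl1 : ∀ {f : ℂ × ℂ → ℂ}, DifferentiableOn ℂ f (Str h' ×ˢ ball (0 : ℂ) r') →
        DifferentiableOn ℂ (fun t => f (t + 1, w)) (Str h') := fun hf =>
      (slice_t hf hw).comp (by fun_prop : DifferentiableOn ℂ (fun t : ℂ => t + 1) _)
        (fun z hz => by rw [mem_Str] at hz ⊢; simpa using hz)
    refine ⟨?_, ?_, ?_⟩
    · refine eq_of_eq_open (f := fun t => X (t + 1, w)) (g := fun t => X (t, w) + 1)
        (isOpen_Str h') (convex_Str h').isPreconnected (sl1 hLF.b_diff) ((sl hLF.b_diff).add_const 1)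
        (isOpen_Str (ρ / 2)) (hsub hG0) hG0 ?_ t ht
      intro z _ hz
      show X (z + 1, w) = X (z, w) + 1
      rw [a4 z (Str_mono (by linarith) hz) w hw2, a4 (z + 1) (Str_mono (by linarith) (hz1 z hz)) w hw2]
      exact F.b_per z w (hPD z hz)
    · refine eq_of_eq_open (f := fun t => phX θ H X (t + 1, w))
        (g := fun t => phX θ H X (t, w) + 2 * Real.pi)
        (isOpen_Str h') (convex_Str h').isPreconnected (sl1 hLF.φ_diff)
        ((sl hLF.φ_diff).add_const _)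
        (isOpen_Str (ρ / 2)) (hsub hG0) hG0 ?_ t ht
      intro z _ hz
      show phX θ H X (z + 1, w) = phX θ H X (z, w) + 2 * Real.pi
      rw [(s0 z (Str_mono (by linarith) hz) w hw2).1,
        (s0 (z + 1) (Str_mono (by linarith) (hz1 z hz)) w hw2).1]
      exact F.φ_per z w (hPD z hz)
    · refine eq_of_eq_open (f := fun t => pX θ H X (t + 1, w)) (g := fun t => pX θ H X (t, w))
        (isOpen_Str h') (convex_Str h').isPreconnected (sl1 hLF.p_diff) (sl hLF.p_diff)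
        (isOpen_Str (ρ / 2)) (hsub hG0) hG0 ?_ t ht
      intro z _ hz
      show pX θ H X (z + 1, w) = pX θ H X (z, w)
      rw [(s0 z (Str_mono (by linarith) hz) w hw2).2,
        (s0 (z + 1) (Str_mono (by linarith) (hz1 z hz)) w hw2).2]
      exact F.p_per z w (hPD z hz)
  · rintro t w ⟨ht, hw⟩
    simp only at ht hw
    have hw2 : ‖w‖ < r₂ := hw.trans_le r1
    have hcw : ‖conj w‖ < r₂ := by rwa [RCLike.norm_conj]
    have hPD : ∀ z : ℂ, z ∈ Str (ρ / 2) → (z, w) ∈ PD ρ r := fun z hz =>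
      ⟨by have := mem_Str.1 hz; show |z.im| < ρ; linarith, hw2.trans_le a1⟩
    have hcz : ∀ {a : ℝ} (z : ℂ), z ∈ Str a → conj z ∈ Str a := fun z hz => by
      rw [mem_Str] at hz ⊢
      rwa [Complex.conj_im, abs_neg]
    have sl : ∀ {f : ℂ × ℂ → ℂ}, DifferentiableOn ℂ f (Str h' ×ˢ ball (0 : ℂ) r') →
        DifferentiableOn ℂ (fun t => f (t, w)) (Str h') := fun hf => slice_t hf hw
    have key : ∀ (f g : ℂ × ℂ → ℂ), DifferentiableOn ℂ f (Str h' ×ˢ ball (0 : ℂ) r') →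
        (∀ z ∈ Str (ρ / 2), f (z, w) = g (z, w)) →
        (∀ z ∈ Str (ρ / 2), f (conj z, conj w) = g (conj z, conj w)) →
        (∀ z ∈ Str (ρ / 2), g (conj z, conj w) = conj (g (z, w))) →
        f (conj t, conj w) = conj (f (t, w)) := by
      intro f g hf h5 h6 h7
      have h8 := eq_of_eq_open (f := fun t => conj (f (conj t, conj w))) (g := fun t => f (t, w))
        (isOpen_Str h') (convex_Str h').isPreconnected
        (conj_slice (fun t ht => hcz t ht) (isOpen_Str h') hf hw) (sl hf)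
        (isOpen_Str (ρ / 2)) (hsub hG0) hG0 (fun z _ hz => by
          show conj (f (conj z, conj w)) = f (z, w)
          rw [h6 z hz, h7 z hz, Complex.conj_conj, h5 z hz]) t ht
      rw [← h8, Complex.conj_conj]
    refine ⟨?_, ?_, ?_⟩
    · exact key X b hLF.b_diff (fun z hz => a4 z (Str_mono (by linarith) hz) w hw2)
        (fun z hz => a4 (conj z) (Str_mono (by linarith) (hcz z hz)) (conj w) hcw)
        (fun z hz => F.b_conj z w (hPD z hz))
    · exact key (phX θ H X) φ hLF.φ_diff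
        (fun z hz => (s0 z (Str_mono (by linarith) hz) w hw2).1)
        (fun z hz => (s0 (conj z) (Str_mono (by linarith) (hcz z hz)) (conj w) hcw).1)
        (fun z hz => F.φ_conj z w (hPD z hz))
    · exact key (pX θ H X) p hLF.p_diff
        (fun z hz => (s0 z (Str_mono (by linarith) hz) w hw2).2)
        (fun z hz => (s0 (conj z) (Str_mono (by linarith) (hcz z hz)) (conj w) hcw).2)
        (fun z hz => F.p_conj z w (hPD z hz))

end Crest.Agent.R102.C1
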