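import Mathlib
import Crest.Agent.R102.C1K_821

/-!
Row 102, part (C), C1: **`gapS : GapS`**.
-/

set_option autoImplicit false
set_option linter.unusedSectionVars false

open Set Filter Topology Metric
open scoped ComplexConjugate

noncomputable section

namespace Crest.Agent.R102.C1

open Crest.Agent.R102.C0 Crest.Agent.R102.T5 Crest.Agent.R102.A929 Crest.Agent.R102.B821
open Crest.Agent.R102.M948

variable {q : C(ℂ, ℂ)} {η ρ r B : ℝ} {b φ p : ℂ × ℂ → ℂ} {m₀ : ℂ → ℂ}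
variable {V : Set ℂ} {θ H : ℂ → ℂ} {h : ℝ}

lemma LineFamS.mono {K K' : Set ℂ} {r' : ℝ} (L : LineFamS θ H K r B b φ p m₀) (hK : K' ⊆ K)
    (hr : r' ≤ r) : LineFamS θ H K' r' B b φ p m₀ := by
  have hs : K' ×ˢ ball (0 : ℂ) r' ⊆ K ×ˢ ball 0 r := prod_mono hK (ball_subset_ball hr)
  refine ⟨L.b_diff.mono hs, fun t ht w hw => L.b_near t (hK ht) w (hw.trans_le hr),
    fun t ht w hw => L.b_even t (hK ht) w (hw.trans_le hr), L.φ_diff.mono hs, L.p_diff.mono hs,
    fun t ht => L.φ_zero t (hK ht), fun t ht => L.p_zero t (hK ht),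
    fun t ht w hw => L.φ_even t (hK ht) w (hw.trans_le hr),
    fun t ht w hw => L.p_even t (hK ht) w (hw.trans_le hr),
    fun t w hw h1 h2 => L.inc t w (hw.trans_le hr) (hK h1) (hK h2),
    fun t w hw h1 h2 => L.inc' t w (hw.trans_le hr) (hK h1) (hK h2),
    fun t w hw h1 h2 h3 => L.refl t w (hw.trans_le hr) (hK h1) (hK h2) (hK h3),
    fun t ht w hw => L.area t (hK ht) w (hw.trans_le hr)⟩

/-- the family on a strip, from labels on a bigger one -/
theorem strip_build (hρ : 0 < ρ) {h₂ h₃ r₂ B₂ r' : ℝ} {X : ℂ × ℂ → ℂ}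
    (P : Pre V θ H (Str h₂) r₂ B₂ X) (hV : Str h₃ ⊆ V) (h1 : ρ ≤ h₃) (r0 : 0 < r') (r1 : r' ≤ r₂)
    (h4 : 4 * r₂ ≤ ρ) (r2 : h₃ + r' ≤ h₂)
    (s1 : ∀ t ∈ Str (ρ / 2), ∀ w : ℂ, ‖w‖ < r₂ → X (t, -w) = X (t, w))
    (s2 : ∀ t ∈ Str (ρ / 2), ∀ w : ℂ, ‖w‖ < r₂ →
      phX θ H X (t - w / 2, w) + phX θ H X (t + w / 2, w) = 2 * θ (X (t, w)))
    (s3 : ∀ t ∈ Str (ρ / 2), ∀ w : ℂ, ‖w‖ < r₂ →
      q1 (phX θ H X) (t, w) * q2 (pX θ H X) (t, w) -
        q2 (phX θ H X) (t, w) * q1 (pX θ H X) (t, w) = w / 4 * m₀ w) :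
    LineFamS θ H (Str h₃) r' B₂ X (phX θ H X) (pX θ H X) m₀ := by
  have hG0 : (0 : ℂ) ∈ Str (ρ / 2) := by rw [mem_Str]; simpa using hρ
  have hsub : Str (ρ / 2) ⊆ Str h₃ := Str_mono (by linarith)
  refine build P r0 r1 (convex_Str _) (isOpen_Str _) (convex_Str _) hV ?_
    (isOpen_Str (ρ / 2)) ⟨0, hG0⟩ ?_
    (fun t ht w hw => s1 t ht w (hw.trans_le r1)) (fun t ht w hw => s2 t ht w (hw.trans_le r1))
    (fun t ht w hw => s3 t ht w (hw.trans_le r1))
  · intro t ht w hw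
    obtain ⟨e1, e2⟩ := half_im (d := r' / 2) (mem_Str.1 ht) (w := w) (by linarith)
    refine ⟨?_, ?_, ?_⟩
    · rw [mem_Str]; linarith
    · exact Str_mono (by linarith) ht
    · rw [mem_Str]; linarith
  · intro t ht
    refine ⟨hsub ht, fun w hw => ?_⟩
    obtain ⟨e1, e2⟩ := half_im (d := ρ / 8) (mem_Str.1 ht) (w := w) (by linarith)
    exact ⟨by rw [mem_Str]; linarith, by rw [mem_Str]; linarith⟩

/-- identity theorem: strip – strip – disc -/
theorem agree {f' f'' g : ℂ → ℂ} {t₁ : ℂ} {h c h₃ h'' ρ' : ℝ} (hρ' : 0 < ρ') (hρ₃ : ρ' ≤ h₃)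
    (hρ'' : ρ' ≤ h'') (hc : 0 < c) (hch : c ≤ h) (h3 : h₃ < h) (hc3 : h < h₃ + c)
    (ht₁ : t₁.im = h) (hf' : DifferentiableOn ℂ f' (ball t₁ c))
    (hf'' : DifferentiableOn ℂ f'' (Str h'')) (hg : DifferentiableOn ℂ g (Str h₃))
    (e1 : ∀ t ∈ ball t₁ c, t.im < h₃ → f' t = g t) (e2 : ∀ t ∈ Str ρ', g t = f'' t) :
    ∀ t ∈ ball t₁ c, |t.im| < h'' → f' t = f'' t := by
  have him : ∀ t ∈ ball t₁ c, 0 < t.im := by
    intro t ht
    have h1 := Complex.abs_im_le_norm (t - t₁)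
    rw [mem_ball, dist_eq_norm] at ht
    rw [Complex.sub_im, abs_le] at h1
    linarith [h1.1]
  have h0 : (0 : ℂ) ∈ Str ρ' := by rw [mem_Str]; simpa using hρ'
  have hgf : ∀ t ∈ Str (min h₃ h''), g t = f'' t := by
    refine eq_of_eq_open (isOpen_Str _) (convex_Str _).isPreconnected
      (hg.mono (Str_mono (min_le_left _ _))) (hf''.mono (Str_mono (min_le_right _ _)))
      (isOpen_Str ρ') (Str_mono (le_min hρ₃ hρ'') h0) h0 ?_
    intro z _ hz
    exact e2 z hz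
  intro t ht ht''
  rcases le_or_gt h'' h₃ with hle | hlt
  · have h5 : t.im < h₃ := lt_of_le_of_lt (le_abs_self _) (ht''.trans_le hle)
    rw [e1 t ht h5]
    exact hgf t (by rw [mem_Str]; rwa [min_eq_right hle])
  · have hs : t₁ - ((h - h₃ + c) / 2 : ℝ) * Complex.I ∈ ball t₁ c ∩ Str h₃ := by
      refine ⟨?_, ?_⟩
      · rw [mem_ball, dist_eq_norm, sub_sub_cancel_left, norm_neg, norm_mul, Complex.norm_I,
          mul_one, Complex.norm_real, Real.norm_eq_abs, abs_of_pos (by linarith)]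
        linarith
      · rw [mem_Str]
        have e : (t₁ - ((h - h₃ + c) / 2 : ℝ) * Complex.I).im = h - (h - h₃ + c) / 2 := by
          simp [ht₁]
        rw [e, abs_lt]
        constructor <;> linarith
    refine eq_of_eq_open (D := ball t₁ c ∩ Str h'') (G := ball t₁ c ∩ Str h₃)
      (isOpen_ball.inter (isOpen_Str _))
      ((convex_ball _ _).inter (convex_Str _)).isPreconnected (hf'.mono inter_subset_left)
      (hf''.mono inter_subset_right) (isOpen_ball.inter (isOpen_Str _))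
      ⟨hs.1, Str_mono hlt.le hs.2⟩ hs ?_ t ⟨ht, ht''⟩
    intro z _ hz
    rw [e1 z hz.1 (lt_of_le_of_lt (le_abs_self _) hz.2)]
    exact hgf z (by rw [mem_Str, min_eq_left hlt.le]; exact hz.2)

/-- a disc reached by a `LeafOn` is `Pre` -/
theorem ball_pre (L : LZ V θ H) {t₁ : ℂ} {R R' ε r₁ B₁ : ℝ} {X₁ : ℂ × ℂ → ℂ} (hε : 0 < ε)
    (hRR : R < R') (hr₁ : 0 < r₁) (hQV : closedBall t₁ R' ⊆ V)
    (hN : closedBall t₁ R' ×ˢ ball (0 : ℂ) ε ⊆ NE θ H V)
    (hX : LeafOn (kk θ H) (ball t₁ R) r₁ B₁ X₁) :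
    ∃ r₂ B₂ : ℝ, 0 < r₂ ∧ r₂ ≤ r₁ ∧ Pre V θ H (ball t₁ R) r₂ B₂ X₁ := by
  set B₂ := |B₁| with hB₂
  have hB₂0 : 0 ≤ B₂ := abs_nonneg _
  set r₂ := min r₁ (min 1 (min (ε / (2 * B₂ + 1)) ((R' - R) / (B₂ + 1)))) with hr₂
  have hhh : 0 < R' - R := by linarith
  have c0 : 0 < r₂ := lt_min hr₁ (lt_min one_pos (lt_min (by positivity) (by positivity)))
  have c1 : r₂ ≤ r₁ := min_le_left _ _
  have c2 : r₂ ≤ 1 := (min_le_right _ _).trans (min_le_left _ _)
  have c3 : r₂ ≤ ε / (2 * B₂ + 1) := (min_le_right _ _).trans ((min_le_right _ _).trans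
    (min_le_left _ _))
  have c4 : r₂ ≤ (R' - R) / (B₂ + 1) := (min_le_right _ _).trans ((min_le_right _ _).trans
    (min_le_right _ _))
  rw [le_div_iff₀ (by positivity)] at c3 c4
  have hsq : B₂ * r₂ ^ 2 ≤ B₂ * r₂ := by
    rw [pow_two]
    exact mul_le_mul_of_nonneg_left (mul_le_of_le_one_left c0.le c2) hB₂0
  have c5 : r₂ + 2 * B₂ * r₂ ^ 2 ≤ ε := by nlinarith
  have c6 : B₂ * r₂ ^ 2 ≤ R' - R := by nlinarith
  have hlf : LeafOn (kk θ H) (ball t₁ R) r₂ B₂ X₁ := hX.mono le_rfl c1 (le_abs_self _)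
  have hX3 : ∀ t ∈ ball t₁ R, ∀ w : ℂ, ‖w‖ < r₂ → X₁ (t, w) ∈ closedBall t₁ R' := by
    intro t ht w hw
    have n1 := hlf.near t ht w hw
    have n2 : B₂ * ‖w‖ ^ 2 ≤ B₂ * r₂ ^ 2 := by gcongr
    rw [mem_ball, dist_eq_norm] at ht
    rw [mem_closedBall, dist_eq_norm]
    have e : X₁ (t, w) - t₁ = (X₁ (t, w) - t) + (t - t₁) := by ring
    rw [e]
    refine (norm_add_le _ _).trans ?_
    linarith
  refine ⟨r₂, B₂, c0, c1, ⟨L, isOpen_ball, hlf, fun t ht w hw => hQV (hX3 t ht w hw), ?_⟩⟩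
  intro s hs t ht w hw hts
  have h5 : (X₁ (s, w), X₁ (t, w) - X₁ (s, w)) ∈ NE θ H V := by
    refine hN ⟨hX3 s hs w hw, ?_⟩
    rw [mem_ball, dist_zero_right]
    exact (near_two hB₂0 hlf.near ht hs hw hts).trans_le c5
  have h6 : (X₁ (s, w), X₁ (s, w) + (X₁ (t, w) - X₁ (s, w))) ∈ ND θ H V := h5
  rwa [add_sub_cancel] at h6

/-- (LOC) with the explicit constant -/
theorem loc_expl {η ε C r B : ℝ} (hη : 0 < η) (hε : 0 < ε) (hr : 0 < r) :
    ∃ r' B' : ℝ, 0 < r' ∧ r' ≤ r ∧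
    ∀ (c u : ℂ) (k X : ℂ × ℂ → ℂ), ‖u‖ = 1 → KMap (ball c (2 * η)) ε C k →
      LeafOn k (Half c u η (η / 4000)) r B X →
      ∃ X' : ℂ × ℂ → ℂ, LeafOn k (ball c (η / 2000)) r' B' X' ∧
        ∀ t ∈ ball c (η / 2000), t ∈ Half c u η (η / 4000) → ∀ w : ℂ, ‖w‖ < r' →
          X' (t, w) = X (t, w) := by
  obtain ⟨r', B', h1, h2, h3⟩ := loc_aux (C := C) (B := max B 0) hη hε hr (le_max_right _ _)
  refine ⟨r', B', h1, h2, ?_⟩
  intro c u k X hu hk hX
  obtain ⟨X', a1, a2⟩ := h3 c u k X hu hk (hX.mono le_rfl le_rfl (le_max_left _ _))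
  exact ⟨X', a1.mono (ball_sub_cen hu hη) le_rfl le_rfl, fun t ht htK w hw =>
    a2 t (ball_sub_cen hu hη ht) htK w hw⟩

/-- **(GAP)** -/
theorem gapS : GapS := by
  intro q η ρ r B b φ p m₀ F θ H V h t₁ E hV h1 ht₁ ht₁V
  have D := F.dat
  have hρ := F.ρ_pos
  have hρ2 : 0 < ρ / 2 := by linarith
  have hPDs : ∀ {s : ℝ}, s ≤ r → (Str ρ) ×ˢ ball (0 : ℂ) s ⊆ PD ρ r := by
    rintro s hs ⟨t, w⟩ ⟨ht, hw⟩
    exact ⟨ht, lt_of_lt_of_le (by simpa using hw) hs⟩
  rcases lt_or_ge h η with hη | hη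
  · -- inside the given strip
    obtain ⟨r', B', b', φ', p', a1, a2, a3, a4, -, -⟩ := extS q η ρ r B b φ p m₀ F θ H V η
      ((h + η) / 2) E E.sub (by linarith) (by linarith)
    set c : ℝ := (η - h) / 2 with hc
    have hc0 : 0 < c := by linarith
    have hball : ball t₁ c ⊆ Str ((h + η) / 2) := by
      intro t ht
      have h2 := Complex.abs_im_le_norm (t - t₁)
      rw [mem_ball, dist_eq_norm] at ht
      rw [Complex.sub_im, abs_le] at h2
      rw [mem_Str, abs_lt]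
      constructor <;> linarith [h2.1, h2.2]
    refine ⟨c, r', B', b', φ', p', hc0, a1, a2, a3.mono hball le_rfl, ?_⟩
    intro h'' r'' B'' b'' φ'' p'' k1 k2 k3 k4 L'' k5 t ht ht'' w hw
    have h0 : (0 : ℂ) ∈ Str ρ := by rw [mem_Str]; simpa using hρ
    have key : ∀ f g : ℂ × ℂ → ℂ, DifferentiableOn ℂ f (Str ((h + η) / 2) ×ˢ ball 0 r') →
        DifferentiableOn ℂ g (Str h'' ×ˢ ball 0 r'') →
        (∀ z ∈ Str ρ, f (z, w) = g (z, w)) → f (t, w) = g (t, w) := by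
      intro f g hf hg he
      exact eq_of_eq_open (f := fun t => f (t, w)) (g := fun t => g (t, w)) (isOpen_Str h'')
        (convex_Str h'').isPreconnected
        ((slice_t hf (hw.trans_le k4)).mono (Str_mono (by linarith))) (slice_t hg hw)
        (isOpen_Str ρ) (Str_mono k1.le h0) h0 (fun z _ hz => he z hz) t ht''
    have hPD : ∀ z ∈ Str ρ, (z, w) ∈ PD ρ r'' ∧ (z, w) ∈ PD ρ r' := fun z hz =>
      ⟨⟨hz, hw⟩, ⟨hz, hw.trans_le k4⟩⟩
    refine ⟨key b' b'' a3.b_diff L''.b_diff fun z hz => ?_,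
      key φ' φ'' a3.φ_diff L''.φ_diff fun z hz => ?_,
      key p' p'' a3.p_diff L''.p_diff fun z hz => ?_⟩
    · rw [(a4 z w (hPD z hz).2).1, (k5 z w (hPD z hz).1).1]
    · rw [(a4 z w (hPD z hz).2).2.1, (k5 z w (hPD z hz).1).2.1]
    · rw [(a4 z w (hPD z hz).2).2.2, (k5 z w (hPD z hz).1).2.2]
  · -- the main case
    have L := LZ_of_VExt D E
    obtain ⟨s, hs, hsV⟩ := Metric.isOpen_iff.1 E.open' t₁ ht₁V
    set η₀ : ℝ := min (s / 4) ((h - ρ) / 4) with hη₀
    have hη0 : 0 < η₀ := lt_min (by linarith) (by linarith)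
    have m1 : η₀ ≤ s / 4 := min_le_left _ _
    have m2 : η₀ ≤ (h - ρ) / 4 := min_le_right _ _
    set e := η₀ / 4000 with he
    have he0 : 0 < e := by positivity
    have heη : η₀ = 4000 * e := by rw [he]; ring
    have hQV : closedBall t₁ (2 * η₀) ⊆ V :=
      (closedBall_subset_ball (by linarith)).trans hsV
    obtain ⟨ε, C, hε, hk, hN⟩ := exists_KMap D E (isCompact_closedBall t₁ (2 * η₀)) hQV
    obtain ⟨r₂, B₂, X, a0, a1, a2, hB₂, P, a4, a5⟩ := strip_pre F E hV hη (h₂ := h - e)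
      (by linarith) (by linarith)
    obtain ⟨s0, s1, s2, s3⟩ := seeds F E (h₂ := h - e) (B₂ := B₂) a0 a1 a2 a4 a5
    obtain ⟨r₃, B₃, c1, c2, c3⟩ := loc_expl (C := C) (B := B₂) hη0 hε a0
    have hHalf : Half t₁ 1 η₀ (η₀ / 4000) ⊆ Str (h - e) := by
      intro t ht
      obtain ⟨g1, g2⟩ := mem_Half.1 ht
      simp only [map_one, mul_one, Complex.sub_im] at g2
      have g3 := Complex.abs_im_le_norm (t - t₁)
      rw [Complex.sub_im, abs_le] at g3
      rw [mem_Str, abs_lt]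
      constructor <;> linarith [g3.1, g3.2]
    have hkb : KMap (ball t₁ (2 * η₀)) ε C (kk θ H) :=
      ⟨hk.diff.mono (prod_mono ball_subset_closedBall le_rfl),
        fun y hy e he => hk.near y (ball_subset_closedBall hy) e he⟩
    obtain ⟨X₁, c4, c5⟩ := c3 t₁ 1 (kk θ H) X (by simp) hkb (P.lf.mono hHalf le_rfl le_rfl)
    have e2 : η₀ / 2000 = 2 * e := by rw [he]; ring
    rw [e2] at c4 c5
    obtain ⟨r₄, B₄, d0, d1, P₁⟩ := ball_pre L (R' := 2 * η₀) hε (by linarith) c1 hQV hN c4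
    -- `X₁ = X` below
    have eqX : ∀ t ∈ ball t₁ (2 * e), t.im < h - e → ∀ w : ℂ, ‖w‖ < r₃ → X₁ (t, w) = X (t, w) := by
      intro t ht htim w hw
      refine c5 t ht (mem_Half.2 ⟨?_, ?_⟩) w hw
      · rw [mem_ball, dist_eq_norm] at ht
        linarith
      · simp only [map_one, mul_one, Complex.sub_im]
        linarith
    set r' := min r₄ (e / 16) with hr'
    have r0 : 0 < r' := lt_min d0 (by linarith)
    have r14 : r' ≤ r₄ := min_le_left _ _
    have r1e : r' ≤ e / 16 := min_le_right _ _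
    have r13 : r' ≤ r₃ := r14.trans d1
    have r12 : r' ≤ r₂ := r13.trans c2
    have him : ∀ t w : ℂ, ‖w‖ < r' → (t - w / 2).im < t.im + e / 16 ∧
        (t + w / 2).im < t.im + e / 16 := by
      intro t w hw
      have g1 : |(w / 2).im| ≤ e / 32 := by
        refine (Complex.abs_im_le_norm _).trans ?_
        rw [norm_div]
        have : ‖(2 : ℂ)‖ = 2 := by norm_num
        rw [this]
        linarith
      rw [abs_le] at g1
      rw [Complex.sub_im, Complex.add_im]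
      constructor <;> linarith [g1.1, g1.2]
    have hbal : ∀ {a : ℝ} (t₀ t w : ℂ), t ∈ ball t₀ a → ‖w‖ < r' →
        t - w / 2 ∈ ball t₀ (a + e / 16) ∧ t + w / 2 ∈ ball t₀ (a + e / 16) := by
      intro a t₀ t w ht hw
      have g1 : ‖w / 2‖ ≤ e / 32 := by
        rw [norm_div]
        have : ‖(2 : ℂ)‖ = 2 := by norm_num
        rw [this]
        linarith
      rw [mem_ball, dist_eq_norm] at ht
      constructor
      · rw [mem_ball, dist_eq_norm, show t - w / 2 - t₀ = (t - t₀) - w / 2 by ring]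
        refine (norm_sub_le _ _).trans_lt (by linarith)
      · rw [mem_ball, dist_eq_norm, show t + w / 2 - t₀ = (t - t₀) + w / 2 by ring]
        refine (norm_add_le _ _).trans_lt (by linarith)
    -- lines agree below
    have eqP : ∀ t ∈ ball t₁ (3 / 2 * e), t.im < h - 9 / 8 * e → ∀ w : ℂ, ‖w‖ < r' →
        phX θ H X₁ (t, w) = phX θ H X (t, w) ∧ pX θ H X₁ (t, w) = pX θ H X (t, w) := by
      intro t ht htim w hw
      obtain ⟨g1, g2⟩ := him t w hw
      obtain ⟨g3, g4⟩ := hbal t₁ t w ht hw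
      unfold phX pX
      simp only
      rw [eqX (t - w / 2) (ball_subset_ball (by linarith) g3) (by linarith) w (hw.trans_le r13),
        eqX (t + w / 2) (ball_subset_ball (by linarith) g4) (by linarith) w (hw.trans_le r13)]
      exact ⟨rfl, rfl⟩
    -- the family on the strip
    have LS := strip_build (m₀ := m₀) hρ P ((Str_mono (by linarith)).trans hV)
      (h₃ := h - 9 / 8 * e) (r' := r') (by linarith) r0 r12 a2 (by linarith) s1 s2 s3
    -- the seed
    set g₀ : ℂ := t₁ - ((21 / 16 * e : ℝ) : ℂ) * Complex.I with hg₀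
    have hg₀t : ‖g₀ - t₁‖ = 21 / 16 * e := by
      rw [hg₀, sub_sub_cancel_left, norm_neg, norm_mul, Complex.norm_I, mul_one,
        Complex.norm_real, Real.norm_eq_abs, abs_of_pos (by linarith)]
    have hg₀im : g₀.im = h - 21 / 16 * e := by simp [hg₀, ht₁]
    have hGs : ∀ {a : ℝ} (t : ℂ), t ∈ ball g₀ a → t ∈ ball t₁ (21 / 16 * e + a) ∧
        t.im < h - 21 / 16 * e + a ∧ h - 21 / 16 * e - a < t.im := by
      intro a t ht
      rw [mem_ball, dist_eq_norm] at ht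
      have g3 := Complex.abs_im_le_norm (t - g₀)
      rw [Complex.sub_im, abs_le] at g3
      refine ⟨?_, by linarith [g3.1, g3.2], by linarith [g3.1, g3.2]⟩
      rw [mem_ball, dist_eq_norm, show t - t₁ = (t - g₀) + (g₀ - t₁) by ring]
      refine (norm_add_le _ _).trans_lt (by linarith)
    have hGS : ∀ t ∈ ball g₀ (e / 8), t ∈ Str (h - 9 / 8 * e) := by
      intro t ht
      obtain ⟨-, g2, g3⟩ := hGs t ht
      rw [mem_Str, abs_lt]
      constructor <;> linarith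
    have hGsub : ∀ t ∈ ball g₀ (e / 16), t ∈ ball t₁ (3 / 2 * e) ∧ t ∈ Str (h - 9 / 8 * e) ∧
        ∀ w : ℂ, ‖w‖ < r' →
          (t - w / 2 ∈ ball t₁ (3 / 2 * e) ∧ t + w / 2 ∈ ball t₁ (3 / 2 * e)) ∧
          (t - w / 2 ∈ Str (h - 9 / 8 * e) ∧ t + w / 2 ∈ Str (h - 9 / 8 * e)) := by
      intro t ht
      refine ⟨ball_subset_ball (by linarith) (hGs t ht).1,
        hGS t (ball_subset_ball (by linarith) ht), fun w hw => ?_⟩
      obtain ⟨g3, g4⟩ := hbal g₀ t w ht hw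
      exact ⟨⟨ball_subset_ball (by linarith) (hGs _ g3).1,
        ball_subset_ball (by linarith) (hGs _ g4).1⟩,
        hGS _ (ball_subset_ball (by linarith) g3), hGS _ (ball_subset_ball (by linarith) g4)⟩
    have hStrim : ∀ {a : ℝ} {t : ℂ}, t ∈ Str a → t.im < a := fun ht =>
      lt_of_le_of_lt (le_abs_self _) ht
    have LB : LineFamS θ H (ball t₁ (3 / 2 * e)) r' B₄ X₁ (phX θ H X₁) (pX θ H X₁) m₀ := by
      refine build P₁ r0 r14 (convex_ball _ _) isOpen_ball (convex_ball _ _)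
        ((ball_subset_ball (by linarith)).trans (ball_subset_closedBall.trans hQV)) ?_
        (isOpen_ball (x := g₀) (ε := e / 16)) ⟨g₀, mem_ball_self (by linarith)⟩ ?_ ?_ ?_ ?_
      · intro t ht w hw
        obtain ⟨g3, g4⟩ := hbal t₁ t w ht hw
        exact ⟨ball_subset_ball (by linarith) g3, ball_subset_ball (by linarith) ht,
          ball_subset_ball (by linarith) g4⟩
      · intro t ht
        exact ⟨(hGsub t ht).1, fun w hw => ((hGsub t ht).2.2 w hw).1⟩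
      · intro t ht w hw
        obtain ⟨g1, g2, -⟩ := hGsub t ht
        have g5 := hStrim g2
        rw [eqX t (ball_subset_ball (by linarith) g1) (by linarith) (-w)
          (by rw [norm_neg]; exact hw.trans_le r13),
          eqX t (ball_subset_ball (by linarith) g1) (by linarith) w (hw.trans_le r13)]
        exact LS.b_even t g2 w hw
      · intro t ht w hw
        obtain ⟨g1, g2, g3⟩ := hGsub t ht
        obtain ⟨⟨g4, g5⟩, g6, g7⟩ := g3 w hw
        have g8 := hStrim g2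
        rw [(eqP _ g4 (hStrim g6) w hw).1, (eqP _ g5 (hStrim g7) w hw).1,
          eqX t (ball_subset_ball (by linarith) g1) (by linarith) w (hw.trans_le r13)]
        exact LS.refl t w hw g2 g6 g7
      · intro t ht w hw
        obtain ⟨g1, g2, g3⟩ := hGsub t ht
        have hopen : IsOpen (ball g₀ (e / 16) ×ˢ ball (0 : ℂ) r') := isOpen_ball.prod isOpen_ball
        have hmem : ((t, w) : ℂ × ℂ) ∈ ball g₀ (e / 16) ×ˢ ball (0 : ℂ) r' :=
          ⟨ht, by simpa using hw⟩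
        have e1 : phX θ H X₁ =ᶠ[𝓝 (t, w)] phX θ H X := by
          filter_upwards [hopen.mem_nhds hmem] with x hx
          obtain ⟨k1, k2, -⟩ := hGsub x.1 hx.1
          exact (eqP x.1 k1 (hStrim k2) x.2 (by simpa using hx.2)).1
        have e2 : pX θ H X₁ =ᶠ[𝓝 (t, w)] pX θ H X := by
          filter_upwards [hopen.mem_nhds hmem] with x hx
          obtain ⟨k1, k2, -⟩ := hGsub x.1 hx.1
          exact (eqP x.1 k1 (hStrim k2) x.2 (by simpa using hx.2)).2
        have a := LS.area t g2 w hw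
        unfold B821.q1 B821.q2 at a ⊢
        rw [e1.fderiv_eq, e2.fderiv_eq]
        exact a
    refine ⟨3 / 2 * e, r', B₄, X₁, phX θ H X₁, pX θ H X₁, by linarith, r0, r12.trans a1, LB, ?_⟩
    intro h'' r'' B'' b'' φ'' p'' k1 k2 k3 k4 L'' k5 t ht ht'' w hw
    have hw' : ‖w‖ < r' := hw.trans_le k4
    have hw2 : ‖w‖ < r₂ := hw'.trans_le r12
    have hPD : ∀ z ∈ Str (ρ / 2), (z, w) ∈ PD ρ r'' := fun z hz =>
      ⟨by have := mem_Str.1 hz; show |z.im| < ρ; linarith, hw⟩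
    have key : ∀ f' g f'' : ℂ × ℂ → ℂ, DifferentiableOn ℂ f' (ball t₁ (3 / 2 * e) ×ˢ ball 0 r') →
        DifferentiableOn ℂ g (Str (h - 9 / 8 * e) ×ˢ ball 0 r') →
        DifferentiableOn ℂ f'' (Str h'' ×ˢ ball 0 r'') →
        (∀ t ∈ ball t₁ (3 / 2 * e), t.im < h - 9 / 8 * e → f' (t, w) = g (t, w)) →
        (∀ z ∈ Str (ρ / 2), g (z, w) = f'' (z, w)) → f' (t, w) = f'' (t, w) := by
      intro f' g f'' hf' hg hf'' h1 h2
      exact agree (f' := fun t => f' (t, w)) (g := fun t => g (t, w)) (f'' := fun t => f'' (t, w))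
        hρ2 (h₃ := h - 9 / 8 * e) (by linarith) (by linarith) (by linarith) (h := h)
        (by linarith) (by linarith) (by linarith) ht₁ (slice_t hf' hw') (slice_t hf'' hw)
        (slice_t hg hw') h1 h2 t ht ht''
    refine ⟨key X₁ X b'' LB.b_diff LS.b_diff L''.b_diff ?_ ?_,
      key (phX θ H X₁) (phX θ H X) φ'' LB.φ_diff LS.φ_diff L''.φ_diff ?_ ?_,
      key (pX θ H X₁) (pX θ H X) p'' LB.p_diff LS.p_diff L''.p_diff ?_ ?_⟩
    · intro z hz hzim
      exact eqX z (ball_subset_ball (by linarith) hz) (by linarith) w (hw'.trans_le r13)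
    · intro z hz
      rw [a4 z (Str_mono (by linarith) hz) w hw2, (k5 z w (hPD z hz)).1]
    · intro z hz hzim
      exact (eqP z hz hzim w hw').1
    · intro z hz
      rw [(s0 z (Str_mono (by linarith) hz) w hw2).1, (k5 z w (hPD z hz)).2.1]
    · intro z hz hzim
      exact (eqP z hz hzim w hw').2
    · intro z hz
      rw [(s0 z (Str_mono (by linarith) hz) w hw2).2, (k5 z w (hPD z hz)).2.2]

end Crest.Agent.R102.C1
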