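import Crest.Agent.R102.AMer_88
import Crest.Agent.R102.C1L_821

/-!
Row 102, part (C) (helper88): `aMerF : RatCont → AMer` (GapS discharged by helper821's `gapS`).
-/

set_option autoImplicit false

namespace Crest.Agent.R102.AMer88

open Crest.Agent.R102.Spine Crest.Agent.R102.C1

theorem aMerF (hR : RatCont) : AMer := aMer gapS hR

end Crest.Agent.R102.AMer88
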