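import Crest.Agent.R102.Sec_88
import Crest.Agent.R102.C1K_821

/-!
Row 102, part (C) (helper88): **`aMer : GapS → RatCont → AMer`** (Case A, not algebraic).
-/

set_option autoImplicit false

open Set Filter Topology Metric

noncomputable section

namespace Crest.Agent.R102.AMer88

open Crest.Agent.R102.Mer88 Crest.Agent.R102.LeviM88 Crest.Agent.R102.Spine
open Crest.Agent.R102.T5 Crest.Agent.R102.G576 Crest.Agent.R102.A929 Crest.Agent.R102.B821
open Crest.Agent.R102.C0 Crest.Agent.R102.C1 Crest.Agent.R102.VC88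

theorem LineFamS.mono_r {θ H : ℂ → ℂ} {K : Set ℂ} {r r' B : ℝ} {b φ p : ℂ × ℂ → ℂ} {m₀ : ℂ → ℂ}
    (h : LineFamS θ H K r' B b φ p m₀) (hr : r ≤ r') : LineFamS θ H K r B b φ p m₀ := by
  have hsub : K ×ˢ ball (0 : ℂ) r ⊆ K ×ˢ ball (0 : ℂ) r' :=
    prod_mono subset_rfl (ball_subset_ball hr)
  exact
    { b_diff := h.b_diff.mono hsub
      b_near := fun t ht w hw => h.b_near t ht w (hw.trans_le hr)
      b_even := fun t ht w hw => h.b_even t ht w (hw.trans_le hr)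
      φ_diff := h.φ_diff.mono hsub
      p_diff := h.p_diff.mono hsub
      φ_zero := h.φ_zero
      p_zero := h.p_zero
      φ_even := fun t ht w hw => h.φ_even t ht w (hw.trans_le hr)
      p_even := fun t ht w hw => h.p_even t ht w (hw.trans_le hr)
      inc := fun t w hw => h.inc t w (hw.trans_le hr)
      inc' := fun t w hw => h.inc' t w (hw.trans_le hr)
      refl := fun t w hw => h.refl t w (hw.trans_le hr)
      area := fun t ht w hw => h.area t ht w (hw.trans_le hr) }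

section glue

open Classical in
/-- gluing at a regular point -/
theorem vext_glue {q : C(ℂ, ℂ)} {η h0 : ℝ} {θ H : ℂ → ℂ} (hη0 : 0 < η) (hη : η ≤ h0)
    (hV : VExt q η (Str h0) θ H) {g : ℂ} (hg : g.im = h0) {c0 : ℝ} (hc0 : 0 < c0)
    {θ' H' : ℂ → ℂ} (hθ' : DifferentiableOn ℂ θ' (ball g c0))
    (hH' : DifferentiableOn ℂ H' (ball g c0))
    (he : ∀ z ∈ ball g c0, |z.im| < h0 → θ' z = θ z ∧ H' z = H z) :
    VExt q η (Str h0 ∪ ball g c0) (fun z => if z ∈ Str h0 then θ z else θ' z)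
      (fun z => if z ∈ Str h0 then H z else H' z) := by
  have hso := isOpen_Str h0
  have gl : ∀ {f f' : ℂ → ℂ}, DifferentiableOn ℂ f (Str h0) → DifferentiableOn ℂ f' (ball g c0) →
      (∀ z ∈ ball g c0, |z.im| < h0 → f' z = f z) →
      DifferentiableOn ℂ (fun z => if z ∈ Str h0 then f z else f' z) (Str h0 ∪ ball g c0) := by
    intro f f' hf hf' hff z hz
    refine DifferentiableAt.differentiableWithinAt ?_
    by_cases h1 : z ∈ Str h0
    · refine (hf.differentiableAt (hso.mem_nhds h1)).congr_of_eventuallyEq ?_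
      filter_upwards [hso.mem_nhds h1] with y hy
      rw [if_pos hy]
    · have h2 : z ∈ ball g c0 := hz.resolve_left h1
      refine (hf'.differentiableAt (isOpen_ball.mem_nhds h2)).congr_of_eventuallyEq ?_
      filter_upwards [isOpen_ball.mem_nhds h2] with y hy
      split_ifs with h3
      · exact (hff y hy h3).symm
      · rfl
  have hh0 : 0 < h0 := hη0.trans_le hη
  refine ⟨hso.union isOpen_ball, ?_, (str_mono hη).trans subset_union_left,
    gl hV.θ_diff hθ' fun z hz h => (he z hz h).1, gl hV.H_diff hH' fun z hz h => (he z hz h).2,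
    ?_, ?_⟩
  · -- connected
    obtain ⟨s, hs, hs1⟩ : ∃ s : ℝ, 0 < s ∧ s < min c0 h0 := exists_between (lt_min hc0 hh0)
    rw [lt_min_iff] at hs1
    refine IsPreconnected.union (⟨g.re, h0 - s⟩ : ℂ) ?_ ?_ (str_conv h0).isPreconnected
      (convex_ball g c0).isPreconnected
    · show |h0 - s| < h0
      rw [abs_lt]; constructor <;> linarith
    · rw [mem_ball, dist_eq_norm]
      have e1 : (⟨g.re, h0 - s⟩ : ℂ) - g = (-s : ℝ) * Complex.I := by
        apply Complex.ext <;> simp [hg]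
      rw [e1, norm_mul, Complex.norm_real, Complex.norm_I, mul_one, norm_neg,
        Real.norm_of_nonneg hs.le]
      exact hs1.1
  · intro z hz
    rw [if_pos (str_mono hη hz)]; exact hV.θ_eq z hz
  · intro z hz
    rw [if_pos (str_mono hη hz)]; exact hV.H_eq z hz

end glue

variable {q : C(ℂ, ℂ)} {η ρ r B : ℝ} {b φ p : ℂ × ℂ → ℂ} {m₀ : ℂ → ℂ}

/-- analytic on the product of a strip and a disc -/
theorem an_prod {K : Set ℂ} (hK : IsOpen K) {r : ℝ} {f : ℂ × ℂ → ℂ}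
    (hf : DifferentiableOn ℂ f (K ×ˢ ball (0 : ℂ) r)) {x : ℂ × ℂ} (h1 : x.1 ∈ K)
    (h2 : ‖x.2‖ < r) : AnalyticAt ℂ f x :=
  Crest.Agent.R266.SCV.analyticOnNhd_of_differentiableOn (hK.prod isOpen_ball) hf x
    ⟨h1, by rw [mem_ball_zero_iff]; exact h2⟩

theorem zone_of_reg (hG : GapS) (hL : LineFam q η ρ r B b φ p m₀) {θ H : ℂ → ℂ} {h0 : ℝ}
    (hη : η ≤ h0) (hV : VExt q η (Str h0) θ H) {g : ℂ} (hg : g.im = h0) {c0 : ℝ}
    (hc0 : 0 < c0) (hreg : RegR h0 θ H g c0) :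
    ∃ c r1 : ℝ, 0 < c ∧ c ≤ ρ ∧ 0 < r1 ∧ r1 ≤ r ∧ ∃ φ' p' : ℂ × ℂ → ℂ,
      ZoneExt ρ r φ p h0 g c r1 φ' p' := by
  classical
  obtain ⟨θ', H', hθ', hH', he⟩ := hreg
  have hρ := hL.ρ_pos
  have hρη := hL.ρ_lt
  have hV1 := vext_glue hL.dat.η_pos hη hV hg hc0 hθ' hH' he
  obtain ⟨c1, r1, B1, b1, φ1, p1, hc1, hr1, hr1r, hF1, hagree⟩ :=
    hG q η ρ r B b φ p m₀ hL _ _ _ h0 g hV1 subset_union_left (by linarith) hg
      (Or.inr (mem_ball_self hc0))
  set h' : ℝ := max (h0 - c1 / 4) ((ρ + h0) / 2) with hh'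
  have hh1 : h0 - c1 / 4 ≤ h' := le_max_left _ _
  have hh2 : ρ < h' := lt_of_lt_of_le (by linarith) (le_max_right _ _)
  have hh3 : h' < h0 := max_lt (by linarith) (by linarith)
  obtain ⟨r2, B2, b2, φ2, p2, hr2, hr2r, hF2, hext, -, -⟩ :=
    extS q η ρ r B b φ p m₀ hL _ _ _ h0 h' hV1 subset_union_left hh2 hh3
  set r3 : ℝ := min r1 r2 with hr3
  have hr30 : 0 < r3 := lt_min hr1 hr2
  have hag := hagree h' r3 B2 b2 φ2 p2 hh2 hh3.le hr30 (min_le_left _ _)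
    (LineFamS.mono_r hF2 (min_le_right _ _)) (fun t w h => hext t w ⟨h.1,
      h.2.trans_le (min_le_right _ _)⟩)
  have hSo : IsOpen (Str h') := isOpen_Str h'
  have hcpos : 0 < min (c1 / 4) ρ := lt_min (by linarith) hρ
  refine ⟨min (c1 / 4) ρ, r3, hcpos, min_le_right _ _, hr30, (min_le_left _ _).trans hr1r,
    fun x => if x.1 ∈ Str h' then φ2 x else φ1 x, fun x => if x.1 ∈ Str h' then p2 x else p1 x,
    ?_⟩
  have hball : ∀ x ∈ Zone h0 g (min (c1 / 4) ρ) r3, x.1 ∉ Str h' → x.1 ∈ ball g c1 := by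
    rintro x ⟨x1, x2, x3, x4⟩ hx
    have hc4 := min_le_left (c1 / 4) ρ
    have hcρ := min_le_right (c1 / 4) ρ
    have h5 : h' ≤ x.1.im := by
      by_contra h6
      apply hx
      show |x.1.im| < h'
      rw [abs_lt]; constructor <;> linarith
    rw [mem_ball, dist_eq_norm]
    have h6 : |(x.1 - g).re| < c1 / 4 := by rw [Complex.sub_re]; linarith
    have h7 : |(x.1 - g).im| ≤ c1 / 4 := by
      rw [Complex.sub_im, hg, abs_le]; constructor <;> linarith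
    have h8 := Complex.norm_le_abs_re_add_abs_im (x.1 - g)
    linarith
  have gl : ∀ {f2 f1 : ℂ × ℂ → ℂ}, DifferentiableOn ℂ f2 (Str h' ×ˢ ball (0 : ℂ) r2) →
      DifferentiableOn ℂ f1 (ball g c1 ×ˢ ball (0 : ℂ) r1) →
      (∀ t ∈ ball g c1, |t.im| < h' → ∀ w : ℂ, ‖w‖ < r3 → f1 (t, w) = f2 (t, w)) →
      AnalyticOnNhd ℂ (fun x => if x.1 ∈ Str h' then f2 x else f1 x)
        (Zone h0 g (min (c1 / 4) ρ) r3) := by
    intro f2 f1 hf2 hf1 hff x hx
    have hx3 : ‖x.2‖ < r3 := hx.2.2.2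
    by_cases h1 : x.1 ∈ Str h'
    · refine (an_prod hSo hf2 h1 (hx3.trans_le (min_le_right _ _))).congr ?_
      filter_upwards [continuous_fst.continuousAt.eventually (hSo.mem_nhds h1)] with y hy
      rw [if_pos (show y.1 ∈ Str h' from hy)]
    · have h2 := hball x hx h1
      refine (an_prod isOpen_ball hf1 h2 (hx3.trans_le (min_le_left _ _))).congr ?_
      have k1 : ∀ᶠ y : ℂ × ℂ in 𝓝 x, y.1 ∈ ball g c1 :=
        continuous_fst.continuousAt.eventually (isOpen_ball.mem_nhds h2)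
      have k2 : ∀ᶠ y : ℂ × ℂ in 𝓝 x, ‖y.2‖ < r3 :=
        (by fun_prop : Continuous fun y : ℂ × ℂ => ‖y.2‖).continuousAt.eventually
          (gt_mem_nhds hx3)
      filter_upwards [k1, k2] with y m1 m2
      split_ifs with h3
      · exact hff y.1 m1 h3 y.2 m2
      · rfl
  refine ⟨gl hF2.φ_diff hF1.φ_diff fun t ht hti w hw => (hag t ht hti w hw).2.1,
    gl hF2.p_diff hF1.p_diff fun t ht hti w hw => (hag t ht hti w hw).2.2, ?_, ?_⟩
  · intro x hx hxP
    have h1 : x.1 ∈ Str h' := lt_trans hxP.1 hh2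
    rw [if_pos h1]
    exact (hext x.1 x.2 ⟨hxP.1, hx.2.2.2.trans_le (min_le_right _ _)⟩).2.1
  · intro x hx hxP
    have h1 : x.1 ∈ Str h' := lt_trans hxP.1 hh2
    rw [if_pos h1]
    exact (hext x.1 x.2 ⟨hxP.1, hx.2.2.2.trans_le (min_le_right _ _)⟩).2.2

/-- the low part -/
theorem low_ext (hL : LineFam q η ρ r B b φ p m₀) {θ H : ℂ → ℂ} {h0 : ℝ}
    (hη : η ≤ h0) (hV : VExt q η (Str h0) θ H) {ε : ℝ} (hε : 0 < ε) :
    ∃ h' r' : ℝ, h0 - ε ≤ h' ∧ h' < h0 ∧ ρ < h' ∧ 0 < r' ∧ r' ≤ r ∧ ∃ φ' p' : ℂ × ℂ → ℂ,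
      (∀ x ∈ PD h' r', AnalyticAt ℂ φ' x ∧ AnalyticAt ℂ p' x) ∧
      (∀ x ∈ PD ρ r', φ' x = φ x ∧ p' x = p x) ∧
      ∀ t ∈ Str h', φ' (t, 0) = θ t ∧ p' (t, 0) = H t := by
  have hρ := hL.ρ_pos
  have hρη := hL.ρ_lt
  set h' : ℝ := max (h0 - ε) ((ρ + h0) / 2) with hh'
  have hh1 : h0 - ε ≤ h' := le_max_left _ _
  have hh2 : ρ < h' := lt_of_lt_of_le (by linarith) (le_max_right _ _)
  have hh3 : h' < h0 := max_lt (by linarith) (by linarith)
  obtain ⟨r2, B2, b2, φ2, p2, hr2, hr2r, hF2, hext, -, -⟩ :=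
    extS q η ρ r B b φ p m₀ hL _ _ _ h0 h' hV subset_rfl hh2 hh3
  exact ⟨h', r2, hh1, hh3, hh2, hr2, hr2r, φ2, p2,
    fun x hx => ⟨an_prod (isOpen_Str h') hF2.φ_diff hx.1 hx.2,
      an_prod (isOpen_Str h') hF2.p_diff hx.1 hx.2⟩,
    fun x hx => (hext x.1 x.2 hx).2, fun t ht => ⟨hF2.φ_zero t ht, hF2.p_zero t ht⟩⟩

/-- vertical continuation in the low part -/
theorem low_VM {g g' : ℂ × ℂ → ℂ} {h' r' : ℝ} (_hρh : ρ < h') (hr : r' ≤ r)
    (han : ∀ x ∈ PD h' r', AnalyticAt ℂ g' x) (heq : ∀ x ∈ PD ρ r', g' x = g x)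
    {t w : ℂ} (h1 : 0 < t.im) (h2 : t.im < h') (h3 : ‖w‖ < r') :
    VM ρ r g (t, w) (min (h' - t.im) (r' - ‖w‖)) g' := by
  have he : 0 < min (h' - t.im) (r' - ‖w‖) := lt_min (by linarith) (by linarith)
  have hsub : Tube t w (min (h' - t.im) (r' - ‖w‖)) ⊆ PD h' r' := by
    rintro y ⟨-, y2, y3, y4⟩
    have e1 := min_le_left (h' - t.im) (r' - ‖w‖)
    have e2 := min_le_right (h' - t.im) (r' - ‖w‖)
    refine ⟨by rw [abs_lt]; constructor <;> linarith, ?_⟩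
    calc ‖y.2‖ = ‖(y.2 - w) + w‖ := by congr 1; ring
      _ ≤ ‖y.2 - w‖ + ‖w‖ := norm_add_le _ _
      _ < r' := by linarith
  refine ⟨he, h1, h3.trans_le hr, fun y hy => merAt_of_analyticAt (han y (hsub hy)), ?_⟩
  intro y hy hyP
  refine rep_of_analytic ?_
  have h4 : y ∈ PD ρ r' := ⟨hyP.1, (hsub hy).2⟩
  filter_upwards [(isOpen_PD ρ r').mem_nhds h4] with z hz
  rw [one_mul, heq z hz]

theorem steps {x v : ℝ} (hv : 0 < v) (hx : 0 ≤ x) :
    (⌊x / v⌋₊ : ℝ) * v ≤ x ∧ x < ⌊x / v⌋₊ * v + v := by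
  constructor
  · have := Nat.floor_le (a := x / v) (div_nonneg hx hv.le)
    rwa [le_div_iff₀ hv] at this
  · have := Nat.lt_floor_add_one (x / v)
    rw [div_lt_iff₀ hv] at this
    linarith

/-- the sector part between two zones -/
theorem sec_all (hR : RatCont) (hL : LineFam q η ρ r B b φ p m₀) (hna : ¬ AlgC q)
    {h0 c r1 a1 a2 : ℝ} (hc : 0 < c) (hcρ : c ≤ ρ) (hr1 : 0 < r1) (hr1r : r1 ≤ r) {ga gb : ℂ}
    {φa pa φb pb : ℂ × ℂ → ℂ} (Za : ZoneExt ρ r φ p h0 ga c r1 φa pa)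
    (Zb : ZoneExt ρ r φ p h0 gb c r1 φb pb) (hga : ga.re = a1) (hgb : gb.re = a2)
    (ha : a2 - a1 = 3) {t w : ℂ} (h1 : a1 < t.re) (h2 : t.re < a2) (h3 : 0 < t.im)
    (h4 : t.im < h0 + c / 2) (h5 : |w.im| < c / 12 * |w.re|)
    (h6 : ‖w‖ < min (r1 / 2) (c / 4)) :
    ∃ (e : ℝ) (E P : ℂ × ℂ → ℂ),
      VM ρ r (fun x => Complex.exp (Complex.I * φ x)) (t, w) e E ∧ VM ρ r p (t, w) e P := by
  have h6a : ‖w‖ < r1 / 2 := h6.trans_le (min_le_left _ _)
  have h6b : ‖w‖ < c / 4 := h6.trans_le (min_le_right _ _)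
  have hre := (Complex.abs_re_le_norm w).trans_lt h6b
  have hw0 : 0 < |w.re| := by
    by_contra h7
    have h8 : |w.re| = 0 := le_antisymm (not_lt.1 h7) (abs_nonneg _)
    rw [h8, mul_zero] at h5
    exact absurd h5 (not_lt.2 (abs_nonneg _))
  obtain ⟨v, hv⟩ : ∃ v, v = |w.re| := ⟨_, rfl⟩
  rw [← hv] at h5 hre hw0
  obtain ⟨i1, i2⟩ := steps hw0 (x := t.re - a1) (by linarith)
  obtain ⟨k1, k2⟩ := steps hw0 (x := a2 - t.re) (by linarith)
  generalize ⌊(t.re - a1) / v⌋₊ = i at i1 i2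
  generalize ⌊(a2 - t.re) / v⌋₊ = i' at k1 k2
  have hi0 : (0 : ℝ) ≤ i := Nat.cast_nonneg i
  have hi0' : (0 : ℝ) ≤ i' := Nat.cast_nonneg i'
  have hsum : ((i : ℝ) + i') * |w.im| ≤ c / 4 := by
    have e1 : ((i : ℝ) + i') * |w.im| ≤ ((i : ℝ) + i') * (c / 12 * v) := by gcongr
    have e2 : ((i : ℝ) + i') * (c / 12 * v) = c / 12 * (i * v + i' * v) := by ring
    have e3 : c / 12 * (i * v + i' * v) ≤ c / 12 * 3 :=
      mul_le_mul_of_nonneg_left (by linarith) (by linarith)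
    linarith
  rcases lt_or_gt_of_ne (abs_pos.1 (hv ▸ hw0)) with hneg | hpos
  · have hvr : w.re = -v := by rw [hv, abs_of_neg hneg]; ring
    refine sec_core hR hL hna hc hcρ hr1 hr1r Zb Za (j := i') (j' := i) ?_ ?_ ?_ h3 h4 h6a
    · rw [hgb, hvr, abs_lt]; constructor <;> linarith
    · rw [hga, hvr, abs_lt]; constructor <;> linarith
    · linarith
  · have hvr : w.re = v := by rw [hv, abs_of_pos hpos]
    refine sec_core hR hL hna hc hcρ hr1 hr1r Za Zb (j := i) (j' := i') ?_ ?_ hsum h3 h4 h6a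
    · rw [hga, hvr, abs_lt]; constructor <;> linarith
    · rw [hgb, hvr, abs_lt]; constructor <;> linarith

/-- **Case A, not algebraic** -/
theorem aMer (hG : GapS) (hR : RatCont) : AMer := by
  intro q η ρ r B b φ p m₀ θ H h0 hD hna hreg s hs
  obtain ⟨g, hg, c0, hc0, hreg⟩ := hreg
  have hL := hD.fam
  have hη := hD.le
  have hV := hD.ext
  have hρ := hL.ρ_pos
  have hρη := hL.ρ_lt
  have hh0 : 0 < h0 := by linarith
  have hRR : RegR h0 θ H g c0 := hreg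
  -- the two regular points
  set n : ℤ := ⌊s.re - g.re⌋ with hn
  have hn1 : (n : ℝ) ≤ s.re - g.re := Int.floor_le _
  have hn2 : s.re - g.re < n + 1 := Int.lt_floor_add_one _
  have hga : (g + ((n - 1 : ℤ) : ℂ)).re = g.re + n - 1 := by simp; ring
  have hgb : (g + ((n + 2 : ℤ) : ℂ)).re = g.re + n + 2 := by simp; ring
  obtain ⟨ca, ra, hca, hcaρ, hra, hrar, φa, pa, Za'⟩ := zone_of_reg hG hL hη hV
    (g := g + ((n - 1 : ℤ) : ℂ)) (by simp [hg]) hc0 (hRR.shift hL.dat hη hV (n - 1))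
  obtain ⟨cb, rb, hcb, hcbρ, hrb, hrbr, φb, pb, Zb'⟩ := zone_of_reg hG hL hη hV
    (g := g + ((n + 2 : ℤ) : ℂ)) (by simp [hg]) hc0 (hRR.shift hL.dat hη hV (n + 2))
  set c : ℝ := min ca cb with hc
  set r1 : ℝ := min ra rb with hr1
  have hc0' : 0 < c := lt_min hca hcb
  have hr10 : 0 < r1 := lt_min hra hrb
  have hcρ : c ≤ ρ := (min_le_left _ _).trans hcaρ
  have hr1r : r1 ≤ r := (min_le_left _ _).trans hrar
  have Za := Za'.mono (min_le_left ca cb) (min_le_left ra rb)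
  have Zb := Zb'.mono (min_le_right ca cb) (min_le_right ra rb)
  rw [← hc, ← hr1] at Za Zb
  -- the sector part
  have hsec : ∀ t w : ℂ, g.re + n - 1 < t.re → t.re < g.re + n + 2 → 0 < t.im →
      t.im < h0 + c / 2 → |w.im| < c / 12 * |w.re| → ‖w‖ < min (r1 / 2) (c / 4) →
      ∃ (e : ℝ) (E P : ℂ × ℂ → ℂ),
        VM ρ r (fun x => Complex.exp (Complex.I * φ x)) (t, w) e E ∧ VM ρ r p (t, w) e P := by
    intro t w h1 h2 h3 h4 h5 h6
    exact sec_all hR hL hna hc0' hcρ hr10 hr1r Za Zb hga hgb (by ring) h1 h2 h3 h4 h5 h6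
  have hexp : ∀ {f : ℂ × ℂ → ℂ} {x : ℂ × ℂ}, AnalyticAt ℂ f x →
      AnalyticAt ℂ (fun x => Complex.exp (Complex.I * f x)) x := fun {f x} hf =>
    (analyticAt_const.mul hf).cexp
  -- the two functions
  obtain ⟨E, hE, hE1⟩ := A388.a3_mero (f := vfun ρ r fun x => Complex.exp (Complex.I * φ x))
    (k := c / 12) (c := c / 2) (r := min (r1 / 2) (c / 4)) (H := 0) (h0 := h0)
    (g1 := g.re + n - 1) (g2 := g.re + n + 2) (by linarith) (by linarith)
    (lt_min (by linarith) (by linarith)) (by linarith)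
    (by
      intro t w h1 h2 h3 h4 h5 h6
      obtain ⟨e, E, P, hE, -⟩ := hsec t w h1 h2 (by linarith) h4 h5 h6
      exact vfun_mer hρ hE)
    (by
      intro ε hε
      obtain ⟨h', r', k1, k2, k3, k4, k5, φ', p', k6, k7, k8⟩ := low_ext hL hη hV hε
      refine ⟨r', k4, fun t w _ _ h3 h4 h5 => ?_⟩
      have hmem : ((t, w) : ℂ × ℂ) ∈ PD h' r' :=
        ⟨by show |t.im| < h'; rw [abs_lt]; constructor <;> linarith, h5⟩
      exact (vfun_an hρ (low_VM (g' := fun x => Complex.exp (Complex.I * φ' x)) k3 k5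
        (fun x hx => hexp (k6 x hx).1) (fun x hx => by rw [(k7 x hx).1])
        (by linarith) (by linarith) h5) (hexp (k6 _ hmem).1)).1)
    (t1 := s) (by linarith) (by linarith) hs
  obtain ⟨F, hF, hF1⟩ := A388.a3_mero (f := vfun ρ r p)
    (k := c / 12) (c := c / 2) (r := min (r1 / 2) (c / 4)) (H := 0) (h0 := h0)
    (g1 := g.re + n - 1) (g2 := g.re + n + 2) (by linarith) (by linarith)
    (lt_min (by linarith) (by linarith)) (by linarith)
    (by
      intro t w h1 h2 h3 h4 h5 h6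
      obtain ⟨e, E, P, -, hP⟩ := hsec t w h1 h2 (by linarith) h4 h5 h6
      exact vfun_mer hρ hP)
    (by
      intro ε hε
      obtain ⟨h', r', k1, k2, k3, k4, k5, φ', p', k6, k7, k8⟩ := low_ext hL hη hV hε
      refine ⟨r', k4, fun t w _ _ h3 h4 h5 => ?_⟩
      have hmem : ((t, w) : ℂ × ℂ) ∈ PD h' r' :=
        ⟨by show |t.im| < h'; rw [abs_lt]; constructor <;> linarith, h5⟩
      exact (vfun_an hρ (low_VM (g' := p') k3 k5
        (fun x hx => (k6 x hx).2) (fun x hx => (k7 x hx).2)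
        (by linarith) (by linarith) h5) (k6 _ hmem).2).1)
    (t1 := s) (by linarith) (by linarith) hs
  refine ⟨E, F, hE, hF, ?_⟩
  have hpos : ∀ᶠ z in 𝓝 s, 0 < z.im :=
    Complex.continuous_im.continuousAt.eventually (lt_mem_nhds (by rw [hs]; exact hh0))
  filter_upwards [hE1, hF1, hpos] with z hz1 hz2 hz3 hz4
  have hz5 : z.im < h0 := (le_abs_self _).trans_lt hz4
  obtain ⟨h', r', k1, k2, k3, k4, k5, φ', p', k6, k7, k8⟩ :=
    low_ext hL hη hV (ε := (h0 - z.im) / 2) (by linarith)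
  have hmem : ((z, 0) : ℂ × ℂ) ∈ PD h' r' :=
    ⟨by show |z.im| < h'; rw [abs_lt]; constructor <;> linarith, by simpa using k4⟩
  have hzS : z ∈ Str h' := hmem.1
  constructor
  · rw [hz1 hz5, (vfun_an hρ (low_VM (g' := fun x => Complex.exp (Complex.I * φ' x)) k3 k5
        (fun x hx => hexp (k6 x hx).1) (fun x hx => by rw [(k7 x hx).1])
        hz3 (by linarith) (by simpa using k4)) (hexp (k6 _ hmem).1)).2]
    rw [(k8 z hzS).1]
  · rw [hz2 hz5, (vfun_an hρ (low_VM (g' := p') k3 k5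
        (fun x hx => (k6 x hx).2) (fun x hx => (k7 x hx).2)
        hz3 (by linarith) (by simpa using k4)) (k6 _ hmem).2).2]
    exact (k8 z hzS).2

end Crest.Agent.R102.AMer88
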