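import Mathlib

/-!
Row 102, T1-E (E3-LOC): the local billiard step in label coordinates, regular across zeros of `y`.

`θ, H` entire (direction and support function of the tangent at the label `z`), `y = θ'`,
`y H'' - y' H' + y³ H = -1`, `y'' = (K - 2 y²) y`.
For labels `z, z + e` put `χ = θ (z + e) - θ z` and
  `u z e = H'(z) y(z+e) - y(z) (y(z+e) H(z+e) sin χ + H'(z+e) cos χ)`,
  `v z e = y(z+e) (H(z+e) cos χ - H z) - H'(z+e) sin χ`.
In `e`: `u'' = (K - 2 y²) u - y(z) sin χ`, `v'' = (K - 2 y²) v + cos χ`, `u = e + ..`, `v = e²/2 + ..`.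
The line through the points with labels `z, z+e` has direction `φ`, `tan (φ - θ z) = y z * R z e`,
`R = v / u`, and support number `p = cos (φ - θ z) (H z + H' z * R z e)`.
-/

set_option autoImplicit false
open Complex Metric Set Filter Topology

noncomputable section
namespace Crest.Agent.R102.StepE599

/-- entire datum of the curve in Lazutkin time -/
structure Ent (θ H K : ℂ → ℂ) : Prop where
  dθ : Differentiable ℂ θ
  dH : Differentiable ℂ H
  dK : Differentiable ℂ K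
  relH : ∀ z, deriv θ z * deriv (deriv H) z - deriv (deriv θ) z * deriv H z
    + (deriv θ z) ^ 3 * H z = -1
  relK : ∀ z, deriv (deriv (deriv θ)) z = (K z - 2 * (deriv θ z) ^ 2) * deriv θ z

/-- difference of the tangent angles -/
def chi (θ : ℂ → ℂ) (z e : ℂ) : ℂ := θ (z + e) - θ z

def u (θ H : ℂ → ℂ) (z e : ℂ) : ℂ :=
  deriv H z * deriv θ (z + e) - deriv θ z *
    (deriv θ (z + e) * H (z + e) * sin (chi θ z e) + deriv H (z + e) * cos (chi θ z e))

def v (θ H : ℂ → ℂ) (z e : ℂ) : ℂ :=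
  deriv θ (z + e) * (H (z + e) * cos (chi θ z e) - H z) - deriv H (z + e) * sin (chi θ z e)

/-- first derivative of `u` in `e` -/
def u1 (θ H : ℂ → ℂ) (z e : ℂ) : ℂ :=
  deriv H z * deriv (deriv θ) (z + e) - deriv θ z *
    (deriv (deriv θ) (z + e) * H (z + e) * sin (chi θ z e)
      + ((deriv θ (z + e)) ^ 2 * H (z + e) + deriv (deriv H) (z + e)) * cos (chi θ z e))

/-- first derivative of `v` in `e` -/
def v1 (θ H : ℂ → ℂ) (z e : ℂ) : ℂ :=
  deriv (deriv θ) (z + e) * (H (z + e) * cos (chi θ z e) - H z)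
    - ((deriv θ (z + e)) ^ 2 * H (z + e) + deriv (deriv H) (z + e)) * sin (chi θ z e)

section deriv
variable {θ H K : ℂ → ℂ} (h : Ent θ H K)
include h

lemma Ent.dθ1 : Differentiable ℂ (deriv θ) :=
  fun z => (h.dθ.analyticAt z).deriv.differentiableAt
lemma Ent.dθ2 : Differentiable ℂ (deriv (deriv θ)) :=
  fun z => (h.dθ.analyticAt z).deriv.deriv.differentiableAt
lemma Ent.dθ3 : Differentiable ℂ (deriv (deriv (deriv θ))) :=
  fun z => (h.dθ.analyticAt z).deriv.deriv.deriv.differentiableAt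
lemma Ent.dH1 : Differentiable ℂ (deriv H) :=
  fun z => (h.dH.analyticAt z).deriv.differentiableAt
lemma Ent.dH2 : Differentiable ℂ (deriv (deriv H)) :=
  fun z => (h.dH.analyticAt z).deriv.deriv.differentiableAt
lemma Ent.dH3 : Differentiable ℂ (deriv (deriv (deriv H))) :=
  fun z => (h.dH.analyticAt z).deriv.deriv.deriv.differentiableAt

/-- `H''' = (K - 3y²) H' - 3 y y' H` -/
lemma Ent.H3 (z : ℂ) : deriv (deriv (deriv H)) z
    = (K z - 3 * (deriv θ z) ^ 2) * deriv H z - 3 * deriv θ z * deriv (deriv θ) z * H z := by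
  have hprod : ∀ s, deriv θ s * (deriv (deriv (deriv H)) s
      - ((K s - 3 * (deriv θ s) ^ 2) * deriv H s - 3 * deriv θ s * deriv (deriv θ) s * H s)) = 0 := by
    intro s
    have h1 : HasDerivAt (fun s => deriv θ s * deriv (deriv H) s - deriv (deriv θ) s * deriv H s
        + (deriv θ s) ^ 3 * H s)
        (deriv (deriv θ) s * deriv (deriv H) s + deriv θ s * deriv (deriv (deriv H)) s
          - (deriv (deriv (deriv θ)) s * deriv H s + deriv (deriv θ) s * deriv (deriv H) s)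
          + (((3 : ℕ) : ℂ) * (deriv θ s) ^ (3 - 1) * deriv (deriv θ) s * H s
            + (deriv θ s) ^ 3 * deriv H s)) s := by
      refine HasDerivAt.add (HasDerivAt.sub ?_ ?_) ?_
      · exact (h.dθ1 s).hasDerivAt.mul (h.dH2 s).hasDerivAt
      · exact (h.dθ2 s).hasDerivAt.mul (h.dH1 s).hasDerivAt
      · exact ((h.dθ1 s).hasDerivAt.pow 3).mul (h.dH s).hasDerivAt
    have h2 : HasDerivAt (fun s => deriv θ s * deriv (deriv H) s - deriv (deriv θ) s * deriv H s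
        + (deriv θ s) ^ 3 * H s) 0 s := by
      have : (fun s => deriv θ s * deriv (deriv H) s - deriv (deriv θ) s * deriv H s
        + (deriv θ s) ^ 3 * H s) = fun _ => (-1 : ℂ) := funext h.relH
      rw [this]; exact hasDerivAt_const s _
    have h3 := h1.unique h2
    rw [h.relK s] at h3
    push_cast at h3
    linear_combination h3
  -- `y ≢ 0`
  have hA : AnalyticOnNhd ℂ (deriv θ) univ := fun s _ => (h.dθ.analyticAt s).deriv
  have hB : AnalyticOnNhd ℂ (fun s => deriv (deriv (deriv H)) s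
      - ((K s - 3 * (deriv θ s) ^ 2) * deriv H s
        - 3 * deriv θ s * deriv (deriv θ) s * H s)) univ := by
    have : Differentiable ℂ (fun s => deriv (deriv (deriv H)) s
      - ((K s - 3 * (deriv θ s) ^ 2) * deriv H s
        - 3 * deriv θ s * deriv (deriv θ) s * H s)) := by
      have := h.dH3; have := h.dH1; have := h.dK; have := h.dθ1; have := h.dθ2; have := h.dH
      fun_prop
    exact fun s _ => this.analyticAt s
  rcases AnalyticOnNhd.eq_zero_or_eq_zero_of_mul_eq_zero hA hB (fun s _ => hprod s)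
      isPreconnected_univ with h0 | h0
  · exfalso
    have := h.relH z
    have e0 : deriv θ = fun _ => (0 : ℂ) := funext fun s => h0 s (mem_univ _)
    rw [e0] at this
    simp at this
  · exact sub_eq_zero.mp (h0 z (mem_univ _))


lemma Ent.chi_deriv (z e : ℂ) : HasDerivAt (chi θ z) (deriv θ (z + e)) e := by
  unfold chi
  exact ((h.dθ (z + e)).hasDerivAt.comp_const_add z e).sub_const _

lemma Ent.u_deriv (z e : ℂ) : HasDerivAt (u θ H z) (u1 θ H z e) e := by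
  have hc := h.chi_deriv z e
  have ht1 := ((h.dθ1 (z + e)).hasDerivAt.comp_const_add z e)
  have hH := ((h.dH (z + e)).hasDerivAt.comp_const_add z e)
  have hH1 := ((h.dH1 (z + e)).hasDerivAt.comp_const_add z e)
  have := (ht1.const_mul (deriv H z)).sub
    ((((ht1.mul hH).mul hc.csin).add (hH1.mul hc.ccos)).const_mul (deriv θ z))
  refine this.congr_deriv ?_
  unfold u1
  simp only [Pi.mul_apply]
  ring

lemma Ent.v_deriv (z e : ℂ) : HasDerivAt (v θ H z) (v1 θ H z e) e := by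
  have hc := h.chi_deriv z e
  have ht1 := ((h.dθ1 (z + e)).hasDerivAt.comp_const_add z e)
  have hH := ((h.dH (z + e)).hasDerivAt.comp_const_add z e)
  have hH1 := ((h.dH1 (z + e)).hasDerivAt.comp_const_add z e)
  have := (ht1.mul ((hH.mul hc.ccos).sub_const (H z))).sub (hH1.mul hc.csin)
  refine this.congr_deriv ?_
  unfold v1
  simp only [Pi.mul_apply]
  ring

lemma Ent.u1_deriv (z e : ℂ) : HasDerivAt (u1 θ H z)
    ((K (z + e) - 2 * (deriv θ (z + e)) ^ 2) * u θ H z e - deriv θ z * sin (chi θ z e)) e := by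
  have hc := h.chi_deriv z e
  have ht1 := ((h.dθ1 (z + e)).hasDerivAt.comp_const_add z e)
  have ht2 := ((h.dθ2 (z + e)).hasDerivAt.comp_const_add z e)
  have hH := ((h.dH (z + e)).hasDerivAt.comp_const_add z e)
  have hH1 := ((h.dH1 (z + e)).hasDerivAt.comp_const_add z e)
  have hH2 := ((h.dH2 (z + e)).hasDerivAt.comp_const_add z e)
  have := (ht2.const_mul (deriv H z)).sub
    ((((ht2.mul hH).mul hc.csin).add ((((ht1.pow 2).mul hH).add hH2).mul hc.ccos)).const_mul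
      (deriv θ z))
  refine this.congr_deriv ?_
  have r1 := h.relH (z + e)
  have r2 := h.relK (z + e)
  have r3 := h.H3 (z + e)
  unfold u
  simp only [Pi.mul_apply, Pi.add_apply, Pi.pow_apply]
  rw [r2, r3]
  push_cast
  linear_combination (deriv θ z * sin (chi θ z e)) * r1

lemma Ent.v1_deriv (z e : ℂ) : HasDerivAt (v1 θ H z)
    ((K (z + e) - 2 * (deriv θ (z + e)) ^ 2) * v θ H z e + cos (chi θ z e)) e := by
  have hc := h.chi_deriv z e
  have ht1 := ((h.dθ1 (z + e)).hasDerivAt.comp_const_add z e)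
  have ht2 := ((h.dθ2 (z + e)).hasDerivAt.comp_const_add z e)
  have hH := ((h.dH (z + e)).hasDerivAt.comp_const_add z e)
  have hH1 := ((h.dH1 (z + e)).hasDerivAt.comp_const_add z e)
  have hH2 := ((h.dH2 (z + e)).hasDerivAt.comp_const_add z e)
  have := (ht2.mul ((hH.mul hc.ccos).sub_const (H z))).sub ((((ht1.pow 2).mul hH).add hH2).mul hc.csin)
  refine this.congr_deriv ?_
  have r1 := h.relH (z + e)
  have r2 := h.relK (z + e)
  have r3 := h.H3 (z + e)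
  unfold v
  simp only [Pi.mul_apply, Pi.add_apply, Pi.pow_apply]
  rw [r2, r3]
  push_cast
  linear_combination (-cos (chi θ z e)) * r1

omit h in
lemma chi_zero (θ : ℂ → ℂ) (z : ℂ) : chi θ z 0 = 0 := by simp [chi]

omit h in
lemma u_zero (z : ℂ) : u θ H z 0 = 0 := by
  simp [u, chi]; ring

omit h in
lemma v_zero (z : ℂ) : v θ H z 0 = 0 := by
  simp [v, chi]

lemma Ent.u1_zero (z : ℂ) : u1 θ H z 0 = 1 := by
  have := h.relH z
  simp only [u1, chi, add_zero, sub_self, sin_zero, cos_zero, mul_zero, mul_one, zero_add]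
  linear_combination -this

omit h in
lemma v1_zero (z : ℂ) : v1 θ H z 0 = 0 := by
  simp [v1, chi]

end deriv

/-! ## the small solution lemma -/

/-- if `|f''| ≤ c |f| + B` on the closed ball and `f (0) = f'(0) = 0`, then `f` is small -/
lemma small_sol {f f1 f2 : ℂ → ℂ} {ρ c B : ℝ} (hρ : 0 ≤ ρ) (hc : 0 ≤ c) (hB : 0 ≤ B)
    (hcρ : c * ρ ^ 2 ≤ 1 / 2)
    (h1 : ∀ s, ‖s‖ ≤ ρ → HasDerivAt f (f1 s) s) (h2 : ∀ s, ‖s‖ ≤ ρ → HasDerivAt f1 (f2 s) s)
    (h0 : f 0 = 0) (h00 : f1 0 = 0) (hb : ∀ s, ‖s‖ ≤ ρ → ‖f2 s‖ ≤ c * ‖f s‖ + B) :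
    (∀ s, ‖s‖ ≤ ρ → ‖f s‖ ≤ 2 * B * ρ ^ 2) ∧ (∀ s, ‖s‖ ≤ ρ → ‖f1 s‖ ≤ 2 * B * ρ) := by
  have hcomp : IsCompact (closedBall (0 : ℂ) ρ) := isCompact_closedBall 0 ρ
  have hne : (closedBall (0 : ℂ) ρ).Nonempty := ⟨0, by simpa using hρ⟩
  have hcont : ContinuousOn (fun s => ‖f s‖) (closedBall 0 ρ) := by
    intro s hs
    exact (h1 s (by simpa using hs)).continuousAt.norm.continuousWithinAt
  obtain ⟨m, hm, hmax⟩ := hcomp.exists_isMaxOn hne hcont
  set X := ‖f m‖ with hX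
  have hXle : ∀ s, ‖s‖ ≤ ρ → ‖f s‖ ≤ X := fun s hs => hmax (by simpa using hs)
  have hX0 : 0 ≤ X := norm_nonneg _
  have hf2 : ∀ s, ‖s‖ ≤ ρ → ‖f2 s‖ ≤ c * X + B := fun s hs =>
    (hb s hs).trans (by have := mul_le_mul_of_nonneg_left (hXle s hs) hc; linarith)
  have hf1 : ∀ s, ‖s‖ ≤ ρ → ‖f1 s‖ ≤ (c * X + B) * ρ := by
    intro s hs
    have := (convex_closedBall (0 : ℂ) ρ).norm_image_sub_le_of_norm_hasDerivWithin_le
      (f := f1) (f' := f2) (C := c * X + B)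
      (fun x hx => (h2 x (by simpa using hx)).hasDerivWithinAt)
      (fun x hx => hf2 x (by simpa using hx)) (x := 0) (y := s)
      (by simpa using hρ) (by simpa using hs)
    rw [h00, sub_zero, sub_zero] at this
    exact this.trans (mul_le_mul_of_nonneg_left hs (by positivity))
  have hf : ∀ s, ‖s‖ ≤ ρ → ‖f s‖ ≤ (c * X + B) * ρ ^ 2 := by
    intro s hs
    have := (convex_closedBall (0 : ℂ) ρ).norm_image_sub_le_of_norm_hasDerivWithin_le
      (f := f) (f' := f1) (C := (c * X + B) * ρ)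
      (fun x hx => (h1 x (by simpa using hx)).hasDerivWithinAt)
      (fun x hx => hf1 x (by simpa using hx)) (x := 0) (y := s)
      (by simpa using hρ) (by simpa using hs)
    rw [h0, sub_zero, sub_zero] at this
    refine this.trans ?_
    have h3 : 0 ≤ (c * X + B) * ρ := by positivity
    calc (c * X + B) * ρ * ‖s‖ ≤ (c * X + B) * ρ * ρ := mul_le_mul_of_nonneg_left hs h3
      _ = _ := by ring
  have hXb : X ≤ 2 * B * ρ ^ 2 := by
    have h3 := hf m (by simpa using hm)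
    have h4 : (c * X + B) * ρ ^ 2 = (c * ρ ^ 2) * X + B * ρ ^ 2 := by ring
    have h5 : (c * ρ ^ 2) * X ≤ 1 / 2 * X := mul_le_mul_of_nonneg_right hcρ hX0
    rw [← hX] at h3
    nlinarith
  refine ⟨fun s hs => (hXle s hs).trans hXb, fun s hs => (hf1 s hs).trans ?_⟩
  have h6 : c * X ≤ B := by
    have : c * X ≤ c * (2 * B * ρ ^ 2) := mul_le_mul_of_nonneg_left hXb hc
    nlinarith
  nlinarith

/-! ## elementary bounds -/

lemma norm_cos_le {w : ℂ} (hw : ‖w‖ ≤ 1) : ‖cos w‖ ≤ 3 := by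
  have h1 : ‖exp (w * I)‖ ≤ Real.exp 1 := by
    rw [Complex.norm_exp]
    apply Real.exp_le_exp.mpr
    calc (w * I).re ≤ ‖w * I‖ := Complex.re_le_norm _
      _ = ‖w‖ := by simp
      _ ≤ 1 := hw
  have h2 : ‖exp (-w * I)‖ ≤ Real.exp 1 := by
    rw [Complex.norm_exp]
    apply Real.exp_le_exp.mpr
    calc (-w * I).re ≤ ‖-w * I‖ := Complex.re_le_norm _
      _ = ‖w‖ := by simp
      _ ≤ 1 := hw
  have h3 : Real.exp 1 ≤ 3 := by
    have := Real.exp_one_lt_d9; linarith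
  unfold Complex.cos
  rw [norm_div]
  have := norm_add_le (exp (w * I)) (exp (-w * I))
  simp only [Complex.norm_ofNat]
  linarith

lemma norm_sin_le3 {w : ℂ} (hw : ‖w‖ ≤ 1) : ‖sin w‖ ≤ 3 * ‖w‖ := by
  have := (convex_closedBall (0 : ℂ) 1).norm_image_sub_le_of_norm_hasDerivWithin_le
      (f := sin) (f' := cos) (C := 3)
      (fun x _ => (hasDerivAt_sin x).hasDerivWithinAt)
      (fun x hx => norm_cos_le (by simpa using hx)) (x := 0) (y := w)
      (by simp) (by simpa using hw)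
  simpa using this

lemma norm_cos_sub_one_le {w : ℂ} (hw : ‖w‖ ≤ 1) : ‖cos w - 1‖ ≤ 3 * ‖w‖ ^ 2 := by
  have := (convex_closedBall (0 : ℂ) ‖w‖).norm_image_sub_le_of_norm_hasDerivWithin_le
      (f := cos) (f' := fun x => - sin x) (C := 3 * ‖w‖)
      (fun x _ => (hasDerivAt_cos x).hasDerivWithinAt)
      (fun x hx => by
        have hx' : ‖x‖ ≤ ‖w‖ := by simpa using hx
        rw [norm_neg]
        exact (norm_sin_le3 (hx'.trans hw)).trans (by linarith)) (x := 0) (y := w)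
      (by simp) (by simp)
  simp only [cos_zero, sub_zero] at this
  calc _ ≤ _ := this
    _ = _ := by ring

/-- smallness of the datum on the closed ball of radius `ρ` around `z` -/
structure Good (θ K : ℂ → ℂ) (z : ℂ) (ρ : ℝ) : Prop where
  pos : 0 < ρ
  y_le : ∀ s, ‖s - z‖ ≤ ρ → ‖deriv θ s‖ * ρ ≤ 1 / 200
  K_le : ∀ s, ‖s - z‖ ≤ ρ → ‖K s‖ * ρ ^ 2 ≤ 1 / 200

section local_
variable {θ H K : ℂ → ℂ} {z : ℂ} {ρ : ℝ}

lemma Good.y' (g : Good θ K z ρ) {s : ℂ} (hs : ‖s - z‖ ≤ ρ) : ‖deriv θ s‖ ≤ 1 / 200 / ρ := by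
  rw [le_div_iff₀ g.pos]; exact g.y_le s hs

lemma Good.k' (g : Good θ K z ρ) {s : ℂ} (hs : ‖s - z‖ ≤ ρ) :
    ‖K s - 2 * (deriv θ s) ^ 2‖ ≤ 1 / 100 / ρ ^ 2 := by
  have hp := g.pos
  rw [le_div_iff₀ (by positivity)]
  have h1 := g.y_le s hs
  have h2 := g.K_le s hs
  have h3 : ‖K s - 2 * (deriv θ s) ^ 2‖ ≤ ‖K s‖ + 2 * ‖deriv θ s‖ ^ 2 := by
    refine (norm_sub_le _ _).trans (le_of_eq ?_)
    rw [norm_mul, norm_pow]; simp
  have h4 : (‖deriv θ s‖ * ρ) ^ 2 ≤ (1 / 200) ^ 2 := pow_le_pow_left₀ (by positivity) h1 2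
  calc ‖K s - 2 * (deriv θ s) ^ 2‖ * ρ ^ 2 ≤ (‖K s‖ + 2 * ‖deriv θ s‖ ^ 2) * ρ ^ 2 :=
        mul_le_mul_of_nonneg_right h3 (by positivity)
    _ = ‖K s‖ * ρ ^ 2 + 2 * (‖deriv θ s‖ * ρ) ^ 2 := by ring
    _ ≤ 1 / 100 := by linarith

lemma chi_le (h : Ent θ H K) (g : Good θ K z ρ) {s : ℂ} (hs : ‖s‖ ≤ ρ) :
    ‖chi θ z s‖ ≤ 1 / 200 / ρ * ‖s‖ := by
  have := (convex_closedBall z ρ).norm_image_sub_le_of_norm_hasDerivWithin_le
      (f := θ) (f' := deriv θ) (C := 1 / 200 / ρ)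
      (fun x _ => (h.dθ x).hasDerivAt.hasDerivWithinAt)
      (fun x hx => g.y' (by simpa [dist_eq_norm] using hx)) (x := z) (y := z + s)
      (by simpa using g.pos.le) (by simpa [dist_eq_norm] using hs)
  simpa [chi] using this

lemma chi_le_one (h : Ent θ H K) (g : Good θ K z ρ) {s : ℂ} (hs : ‖s‖ ≤ ρ) :
    ‖chi θ z s‖ ≤ 1 / 200 := by
  have hp := g.pos
  refine (chi_le h g hs).trans ?_
  rw [div_mul_eq_mul_div, div_le_iff₀ hp]
  nlinarith

/-- `u = e + ..` -/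
lemma u_near (h : Ent θ H K) (g : Good θ K z ρ) {s : ℂ} (hs : ‖s‖ ≤ ρ) :
    ‖u θ H z s - s‖ ≤ 22 / 1000 * (‖s‖ ^ 3 / ρ ^ 2) ∧
    ‖u1 θ H z s - 1‖ ≤ 22 / 1000 * (‖s‖ ^ 2 / ρ ^ 2) := by
  have hp := g.pos
  set r := ‖s‖ with hr
  have hr0 : 0 ≤ r := norm_nonneg _
  have key := small_sol (f := fun s => u θ H z s - s) (f1 := fun s => u1 θ H z s - 1)
    (f2 := fun s => (K (z + s) - 2 * (deriv θ (z + s)) ^ 2) * u θ H z s
      - deriv θ z * sin (chi θ z s)) (ρ := r) (c := 1 / 100 / ρ ^ 2) (B := 11 / 1000 * (r / ρ ^ 2))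
    hr0 (by positivity) (by positivity)
    (by
      rw [div_mul_eq_mul_div, div_le_iff₀ (by positivity)]
      have : r ^ 2 ≤ ρ ^ 2 := pow_le_pow_left₀ hr0 hs 2
      nlinarith)
    (fun x _ => (h.u_deriv z x).sub (hasDerivAt_id x))
    (fun x _ => (h.u1_deriv z x).sub_const 1)
    (by simp [u_zero]) (by simp [h.u1_zero])
    (by
      intro x hx
      have hxρ : ‖x‖ ≤ ρ := hx.trans hs
      have hzx : ‖z + x - z‖ ≤ ρ := by simpa using hxρ
      have hk := g.k' hzx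
      have hy := g.y' (s := z) (by simpa using hp.le)
      have hχ := chi_le h g hxρ
      have hχ1 : ‖chi θ z x‖ ≤ 1 := (chi_le_one h g hxρ).trans (by norm_num)
      have hsin := norm_sin_le3 hχ1
      have e1 : (K (z + x) - 2 * (deriv θ (z + x)) ^ 2) * u θ H z x
          - deriv θ z * sin (chi θ z x)
          = (K (z + x) - 2 * (deriv θ (z + x)) ^ 2) * (u θ H z x - x)
            + (K (z + x) - 2 * (deriv θ (z + x)) ^ 2) * x - deriv θ z * sin (chi θ z x) := by ring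
      rw [e1]
      have t1 : ‖(K (z + x) - 2 * (deriv θ (z + x)) ^ 2) * (u θ H z x - x)‖
          ≤ 1 / 100 / ρ ^ 2 * ‖u θ H z x - x‖ := by
        rw [norm_mul]; exact mul_le_mul_of_nonneg_right hk (norm_nonneg _)
      have t2 : ‖(K (z + x) - 2 * (deriv θ (z + x)) ^ 2) * x‖ ≤ 1 / 100 / ρ ^ 2 * r := by
        rw [norm_mul]; exact mul_le_mul hk hx (norm_nonneg _) (by positivity)
      have t3 : ‖deriv θ z * sin (chi θ z x)‖ ≤ 1 / 200 / ρ * (3 * (1 / 200 / ρ * r)) := by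
        rw [norm_mul]
        refine mul_le_mul hy (hsin.trans ?_) (norm_nonneg _) (by positivity)
        have : 1 / 200 / ρ * ‖x‖ ≤ 1 / 200 / ρ * r := mul_le_mul_of_nonneg_left hx (by positivity)
        linarith
      have t4 : 1 / 100 / ρ ^ 2 * r + 1 / 200 / ρ * (3 * (1 / 200 / ρ * r))
          ≤ 11 / 1000 * (r / ρ ^ 2) := by
        have : 1 / 100 / ρ ^ 2 * r + 1 / 200 / ρ * (3 * (1 / 200 / ρ * r))
          = (1 / 100 + 3 / 40000) * (r / ρ ^ 2) := by field_simp; ring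
        rw [this]
        exact mul_le_mul_of_nonneg_right (by norm_num) (by positivity)
      refine (norm_sub_le _ _).trans ?_
      refine (add_le_add (norm_add_le _ _) le_rfl).trans ?_
      linarith)
  refine ⟨?_, ?_⟩
  · have := key.1 s le_rfl
    refine this.trans (le_of_eq ?_)
    field_simp; ring
  · have := key.2 s le_rfl
    refine this.trans (le_of_eq ?_)
    field_simp; ring

/-- `v = e²/2 + ..` -/
lemma v_near (h : Ent θ H K) (g : Good θ K z ρ) {s : ℂ} (hs : ‖s‖ ≤ ρ) :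
    ‖v θ H z s - s ^ 2 / 2‖ ≤ 11 / 1000 * (‖s‖ ^ 4 / ρ ^ 2) ∧
    ‖v1 θ H z s - s‖ ≤ 11 / 1000 * (‖s‖ ^ 3 / ρ ^ 2) := by
  have hp := g.pos
  set r := ‖s‖ with hr
  have hr0 : 0 ≤ r := norm_nonneg _
  have key := small_sol (f := fun s => v θ H z s - s ^ 2 / 2) (f1 := fun s => v1 θ H z s - s)
    (f2 := fun s => (K (z + s) - 2 * (deriv θ (z + s)) ^ 2) * v θ H z s
      + cos (chi θ z s) - 1) (ρ := r) (c := 1 / 100 / ρ ^ 2) (B := 11 / 2000 * (r ^ 2 / ρ ^ 2))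
    hr0 (by positivity) (by positivity)
    (by
      rw [div_mul_eq_mul_div, div_le_iff₀ (by positivity)]
      have : r ^ 2 ≤ ρ ^ 2 := pow_le_pow_left₀ hr0 hs 2
      nlinarith)
    (fun x _ => by
      refine ((h.v_deriv z x).sub ((hasDerivAt_id x).pow 2 |>.div_const 2)).congr_deriv ?_
      simp)
    (fun x _ => (h.v1_deriv z x).sub (hasDerivAt_id x))
    (by simp [v_zero]) (by simp [v1_zero])
    (by
      intro x hx
      have hxρ : ‖x‖ ≤ ρ := hx.trans hs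
      have hzx : ‖z + x - z‖ ≤ ρ := by simpa using hxρ
      have hk := g.k' hzx
      have hχ := chi_le h g hxρ
      have hχ1 : ‖chi θ z x‖ ≤ 1 := (chi_le_one h g hxρ).trans (by norm_num)
      have hcos := norm_cos_sub_one_le hχ1
      have e1 : (K (z + x) - 2 * (deriv θ (z + x)) ^ 2) * v θ H z x
          + cos (chi θ z x) - 1
          = (K (z + x) - 2 * (deriv θ (z + x)) ^ 2) * (v θ H z x - x ^ 2 / 2)
            + (K (z + x) - 2 * (deriv θ (z + x)) ^ 2) * (x ^ 2 / 2) + (cos (chi θ z x) - 1) := by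
        ring
      rw [e1]
      have t1 : ‖(K (z + x) - 2 * (deriv θ (z + x)) ^ 2) * (v θ H z x - x ^ 2 / 2)‖
          ≤ 1 / 100 / ρ ^ 2 * ‖v θ H z x - x ^ 2 / 2‖ := by
        rw [norm_mul]; exact mul_le_mul_of_nonneg_right hk (norm_nonneg _)
      have t2 : ‖(K (z + x) - 2 * (deriv θ (z + x)) ^ 2) * (x ^ 2 / 2)‖
          ≤ 1 / 100 / ρ ^ 2 * (r ^ 2 / 2) := by
        rw [norm_mul]
        refine mul_le_mul hk ?_ (norm_nonneg _) (by positivity)
        rw [norm_div, norm_pow]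
        have := pow_le_pow_left₀ (norm_nonneg _) hx 2
        simp only [Complex.norm_ofNat]
        linarith
      have t3 : ‖cos (chi θ z x) - 1‖ ≤ 3 * (1 / 200 / ρ * r) ^ 2 := by
        refine hcos.trans ?_
        have : ‖chi θ z x‖ ≤ 1 / 200 / ρ * r :=
          hχ.trans (mul_le_mul_of_nonneg_left hx (by positivity))
        have := pow_le_pow_left₀ (norm_nonneg _) this 2
        linarith
      have t4 : 1 / 100 / ρ ^ 2 * (r ^ 2 / 2) + 3 * (1 / 200 / ρ * r) ^ 2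
          ≤ 11 / 2000 * (r ^ 2 / ρ ^ 2) := by
        have : 1 / 100 / ρ ^ 2 * (r ^ 2 / 2) + 3 * (1 / 200 / ρ * r) ^ 2
          = (1 / 200 + 3 / 40000) * (r ^ 2 / ρ ^ 2) := by field_simp; ring
        rw [this]
        exact mul_le_mul_of_nonneg_right (by norm_num) (by positivity)
      refine (norm_add_le _ _).trans ?_
      refine (add_le_add (norm_add_le _ _) le_rfl).trans ?_
      linarith)
  refine ⟨?_, ?_⟩
  · have := key.1 s le_rfl
    refine this.trans (le_of_eq ?_)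
    field_simp; ring
  · have := key.2 s le_rfl
    refine this.trans (le_of_eq ?_)
    field_simp; ring

/-- bounds on the closed ball of radius `r` for the sharp form of the step lemma -/
structure Bd (θ K : ℂ → ℂ) (z : ℂ) (r b0 b1 a1 : ℝ) : Prop where
  y_le : ∀ s, ‖s - z‖ ≤ r → ‖deriv θ s‖ ≤ b0
  y1_le : ∀ s, ‖s - z‖ ≤ r → ‖deriv (deriv θ) s‖ ≤ b1
  K1_le : ∀ s, ‖s - z‖ ≤ r → ‖deriv K s‖ ≤ a1

lemma Bd.nonneg {r b0 b1 a1 : ℝ} (hr : 0 ≤ r) (b : Bd θ K z r b0 b1 a1) :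
    0 ≤ b0 ∧ 0 ≤ b1 ∧ 0 ≤ a1 :=
  ⟨(norm_nonneg _).trans (b.y_le z (by simpa using hr)),
    (norm_nonneg _).trans (b.y1_le z (by simpa using hr)),
    (norm_nonneg _).trans (b.K1_le z (by simpa using hr))⟩

lemma chi_le_b (h : Ent θ H K) {r b0 b1 a1 : ℝ} (b : Bd θ K z r b0 b1 a1) {s : ℂ}
    (hs : ‖s‖ ≤ r) : ‖chi θ z s‖ ≤ b0 * ‖s‖ := by
  have := (convex_closedBall z r).norm_image_sub_le_of_norm_hasDerivWithin_le
      (f := θ) (f' := deriv θ) (C := b0)
      (fun x _ => (h.dθ x).hasDerivAt.hasDerivWithinAt)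
      (fun x hx => b.y_le _ (by simpa [dist_eq_norm] using hx)) (x := z) (y := z + s)
      (by simpa using (norm_nonneg s).trans hs) (by simpa [dist_eq_norm] using hs)
  simpa [chi] using this

/-- `χ(e) + χ(-e)` is of second order -/
lemma chi_even_le (h : Ent θ H K) {r b0 b1 a1 : ℝ} (b : Bd θ K z r b0 b1 a1) {s : ℂ}
    (hs : ‖s‖ ≤ r) : ‖chi θ z s + chi θ z (-s)‖ ≤ 2 * b1 * ‖s‖ ^ 2 := by
  have hb := b.nonneg ((norm_nonneg s).trans hs)
  -- derivative `y (z+s) - y (z-s)`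
  have hy : ∀ x : ℂ, ‖x‖ ≤ r → ‖deriv θ (z + x) - deriv θ (z + -x)‖ ≤ 2 * b1 * ‖x‖ := by
    intro x hx
    have := (convex_closedBall z r).norm_image_sub_le_of_norm_hasDerivWithin_le
      (f := deriv θ) (f' := deriv (deriv θ)) (C := b1)
      (fun x _ => (h.dθ1 x).hasDerivAt.hasDerivWithinAt)
      (fun x hx => b.y1_le _ (by simpa [dist_eq_norm] using hx)) (x := z + -x) (y := z + x)
      (by simpa [dist_eq_norm] using hx) (by simpa [dist_eq_norm] using hx)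
    refine this.trans (le_of_eq ?_)
    have : z + x - (z + -x) = 2 * x := by ring
    rw [this, norm_mul]; simp; ring
  have := (convex_closedBall (0 : ℂ) ‖s‖).norm_image_sub_le_of_norm_hasDerivWithin_le
      (f := fun x => chi θ z x + chi θ z (-x)) (f' := fun x => deriv θ (z + x) - deriv θ (z + -x))
      (C := 2 * b1 * ‖s‖)
      (fun x _ => by
        have h1 := h.chi_deriv z x
        have h2 := (h.chi_deriv z (-x)).scomp x (hasDerivAt_neg x)
        have := h1.add h2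
        refine (this.congr_deriv ?_).hasDerivWithinAt
        simp [sub_eq_add_neg])
      (fun x hx => by
        have hx' : ‖x‖ ≤ ‖s‖ := by simpa using hx
        exact (hy x (hx'.trans hs)).trans (mul_le_mul_of_nonneg_left hx' (by linarith [hb.2.1])))
      (x := 0) (y := s) (by simp) (by simp)
  simp only [neg_zero, chi_zero, add_zero, sub_zero] at this
  refine this.trans (le_of_eq (by ring))

lemma k_diff_le (h : Ent θ H K) {r b0 b1 a1 : ℝ} (b : Bd θ K z r b0 b1 a1) {s : ℂ}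
    (hs : ‖s‖ ≤ r) : ‖(K (z + s) - 2 * (deriv θ (z + s)) ^ 2)
      - (K (z + -s) - 2 * (deriv θ (z + -s)) ^ 2)‖ ≤ (a1 + 4 * b0 * b1) * (2 * ‖s‖) := by
  have hb := b.nonneg ((norm_nonneg s).trans hs)
  have := (convex_closedBall z r).norm_image_sub_le_of_norm_hasDerivWithin_le
      (f := fun x => K x - 2 * (deriv θ x) ^ 2)
      (f' := fun x => deriv K x - 4 * deriv θ x * deriv (deriv θ) x) (C := a1 + 4 * b0 * b1)
      (fun x _ => by
        have h1 := (h.dK x).hasDerivAt.sub (((h.dθ1 x).hasDerivAt.pow 2).const_mul 2)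
        refine (h1.congr_deriv ?_).hasDerivWithinAt
        push_cast; ring)
      (fun x hx => by
        have hx' : ‖x - z‖ ≤ r := by simpa [dist_eq_norm] using hx
        refine (norm_sub_le _ _).trans ?_
        rw [norm_mul, norm_mul]
        have e1 := b.y_le x hx'
        have e2 := b.y1_le x hx'
        have e3 := b.K1_le x hx'
        simp only [Complex.norm_ofNat]
        have : 4 * ‖deriv θ x‖ * ‖deriv (deriv θ) x‖ ≤ 4 * b0 * b1 :=
          mul_le_mul (by linarith) e2 (norm_nonneg _) (by linarith [hb.1])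
        linarith)
      (x := z + -s) (y := z + s)
      (by simpa [dist_eq_norm] using hs) (by simpa [dist_eq_norm] using hs)
  refine this.trans (le_of_eq ?_)
  have : z + s - (z + -s) = 2 * s := by ring
  rw [this, norm_mul]; simp

lemma norm_div_two (w : ℂ) : ‖w / 2‖ = ‖w‖ / 2 := by
  rw [norm_div]; simp

lemma sin_add_sin_le {a b : ℂ} (ha : ‖a‖ ≤ 1) (hb : ‖b‖ ≤ 1) :
    ‖sin a + sin b‖ ≤ 9 * ‖a + b‖ := by
  have e : sin a + sin b = 2 * (sin ((a + b) / 2) * cos ((a - b) / 2)) := by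
    have h1 : a = (a + b) / 2 + (a - b) / 2 := by ring
    have h2 : b = (a + b) / 2 - (a - b) / 2 := by ring
    conv_lhs => rw [h1, h2]
    rw [sin_add, sin_sub]; ring_nf
  rw [e, norm_mul, norm_mul]
  have h1 : ‖(a + b) / 2‖ ≤ 1 := by
    rw [norm_div_two]; linarith [norm_add_le a b]
  have h2 : ‖(a - b) / 2‖ ≤ 1 := by
    rw [norm_div_two]; linarith [norm_sub_le a b]
  have h3 := norm_sin_le3 h1
  have h4 := norm_cos_le h2
  rw [norm_div_two] at h3
  have : ‖sin ((a + b) / 2)‖ * ‖cos ((a - b) / 2)‖ ≤ (3 * (‖a + b‖ / 2)) * 3 :=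
    mul_le_mul h3 h4 (norm_nonneg _) (by positivity)
  simp only [Complex.norm_ofNat]
  linarith

lemma cos_sub_cos_le {a b : ℂ} (ha : ‖a‖ ≤ 1) (hb : ‖b‖ ≤ 1) :
    ‖cos a - cos b‖ ≤ 9 / 2 * (‖a + b‖ * ‖a - b‖) := by
  have e : cos a - cos b = -(2 * (sin ((a + b) / 2) * sin ((a - b) / 2))) := by
    have h1 : a = (a + b) / 2 + (a - b) / 2 := by ring
    have h2 : b = (a + b) / 2 - (a - b) / 2 := by ring
    conv_lhs => rw [h1, h2]
    rw [cos_add, cos_sub]; ring_nf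
  rw [e, norm_neg, norm_mul, norm_mul]
  have h1 : ‖(a + b) / 2‖ ≤ 1 := by
    rw [norm_div_two]; linarith [norm_add_le a b]
  have h2 : ‖(a - b) / 2‖ ≤ 1 := by
    rw [norm_div_two]; linarith [norm_sub_le a b]
  have h3 := norm_sin_le3 h1
  have h4 := norm_sin_le3 h2
  rw [norm_div_two] at h3 h4
  have : ‖sin ((a + b) / 2)‖ * ‖sin ((a - b) / 2)‖ ≤ (3 * (‖a + b‖ / 2)) * (3 * (‖a - b‖ / 2)) :=
    mul_le_mul h3 h4 (norm_nonneg _) (by positivity)
  simp only [Complex.norm_ofNat]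
  linarith

/-- the even part of `u` is of fourth order -/
lemma u_even_le (h : Ent θ H K) (g : Good θ K z ρ) {b0 b1 a1 : ℝ} {s : ℂ} (hs : ‖s‖ ≤ ρ)
    (b : Bd θ K z ‖s‖ b0 b1 a1) :
    ‖u θ H z s + u θ H z (-s)‖ ≤ 68 * (a1 + b0 * b1) * ‖s‖ ^ 4 := by
  have hp := g.pos
  have hb := b.nonneg (norm_nonneg s)
  obtain ⟨hb0, hb1, ha1⟩ := hb
  set r := ‖s‖ with hr
  have hr0 : 0 ≤ r := norm_nonneg _
  have key := small_sol (f := fun s => u θ H z s + u θ H z (-s))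
    (f1 := fun s => u1 θ H z s - u1 θ H z (-s))
    (f2 := fun s => ((K (z + s) - 2 * (deriv θ (z + s)) ^ 2) * u θ H z s
      - deriv θ z * sin (chi θ z s)) + ((K (z + -s) - 2 * (deriv θ (z + -s)) ^ 2) * u θ H z (-s)
      - deriv θ z * sin (chi θ z (-s)))) (ρ := r) (c := 1 / 100 / ρ ^ 2)
    (B := 34 * (a1 + b0 * b1) * r ^ 2)
    hr0 (by positivity) (by positivity)
    (by
      rw [div_mul_eq_mul_div, div_le_iff₀ (by positivity)]
      have : r ^ 2 ≤ ρ ^ 2 := pow_le_pow_left₀ hr0 hs 2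
      nlinarith)
    (fun x _ => by
      have h2 := (h.u_deriv z (-x)).scomp x (hasDerivAt_neg x)
      refine ((h.u_deriv z x).add h2).congr_deriv ?_
      simp [sub_eq_add_neg])
    (fun x _ => by
      have h2 := (h.u1_deriv z (-x)).scomp x (hasDerivAt_neg x)
      refine ((h.u1_deriv z x).sub h2).congr_deriv ?_
      simp; ring)
    (by simp [u_zero]) (by simp [h.u1_zero])
    (by
      intro x hx
      have hxρ : ‖x‖ ≤ ρ := hx.trans hs
      have hzx : ‖z + x - z‖ ≤ ρ := by simpa using hxρ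
      have hk := g.k' hzx
      have hy := b.y_le z (by simpa using hr0)
      have hkd := k_diff_le h b hx
      have hce := chi_even_le h b hx
      have c1 : ‖chi θ z x‖ ≤ 1 := (chi_le_one h g hxρ).trans (by norm_num)
      have c2 : ‖chi θ z (-x)‖ ≤ 1 :=
        (chi_le_one h g (s := -x) (by simpa using hxρ)).trans (by norm_num)
      have hss := sin_add_sin_le c1 c2
      have hu : ‖u θ H z (-x)‖ ≤ 2 * r := by
        have := (u_near h g (s := -x) (by simpa using hxρ)).1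
        rw [norm_neg] at this
        have e2 : ‖u θ H z (-x)‖ ≤ ‖u θ H z (-x) - -x‖ + ‖x‖ := by
          have := norm_add_le (u θ H z (-x) - -x) (-x)
          simpa using this
        have e3 : ‖x‖ ^ 3 / ρ ^ 2 ≤ r := by
          rw [div_le_iff₀ (by positivity)]
          have : ‖x‖ ^ 2 ≤ ρ ^ 2 := pow_le_pow_left₀ (norm_nonneg _) hxρ 2
          calc ‖x‖ ^ 3 = ‖x‖ * ‖x‖ ^ 2 := by ring
            _ ≤ r * ρ ^ 2 := mul_le_mul hx this (by positivity) hr0
        linarith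
      have e1 : ((K (z + x) - 2 * (deriv θ (z + x)) ^ 2) * u θ H z x
          - deriv θ z * sin (chi θ z x)) + ((K (z + -x) - 2 * (deriv θ (z + -x)) ^ 2)
            * u θ H z (-x) - deriv θ z * sin (chi θ z (-x)))
          = (K (z + x) - 2 * (deriv θ (z + x)) ^ 2) * (u θ H z x + u θ H z (-x))
            - ((K (z + x) - 2 * (deriv θ (z + x)) ^ 2)
              - (K (z + -x) - 2 * (deriv θ (z + -x)) ^ 2)) * u θ H z (-x)
            - deriv θ z * (sin (chi θ z x) + sin (chi θ z (-x))) := by ring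
      rw [e1]
      have t1 : ‖(K (z + x) - 2 * (deriv θ (z + x)) ^ 2) * (u θ H z x + u θ H z (-x))‖
          ≤ 1 / 100 / ρ ^ 2 * ‖u θ H z x + u θ H z (-x)‖ := by
        rw [norm_mul]; exact mul_le_mul_of_nonneg_right hk (norm_nonneg _)
      have t2 : ‖((K (z + x) - 2 * (deriv θ (z + x)) ^ 2)
              - (K (z + -x) - 2 * (deriv θ (z + -x)) ^ 2)) * u θ H z (-x)‖
          ≤ ((a1 + 4 * b0 * b1) * (2 * r)) * (2 * r) := by
        rw [norm_mul]
        refine mul_le_mul (hkd.trans ?_) hu (norm_nonneg _) (by positivity)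
        exact mul_le_mul_of_nonneg_left (by linarith) (by positivity)
      have t3 : ‖deriv θ z * (sin (chi θ z x) + sin (chi θ z (-x)))‖
          ≤ b0 * (9 * (2 * b1 * r ^ 2)) := by
        rw [norm_mul]
        refine mul_le_mul hy (hss.trans ?_) (norm_nonneg _) hb0
        have : ‖x‖ ^ 2 ≤ r ^ 2 := pow_le_pow_left₀ (norm_nonneg _) hx 2
        have : 2 * b1 * ‖x‖ ^ 2 ≤ 2 * b1 * r ^ 2 := mul_le_mul_of_nonneg_left this (by positivity)
        linarith
      have t4 : ((a1 + 4 * b0 * b1) * (2 * r)) * (2 * r) + b0 * (9 * (2 * b1 * r ^ 2))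
          ≤ 34 * (a1 + b0 * b1) * r ^ 2 := by
        have : 0 ≤ a1 * r ^ 2 := by positivity
        nlinarith
      refine (norm_sub_le _ _).trans ?_
      refine (add_le_add (norm_sub_le _ _) le_rfl).trans ?_
      linarith)
  have := key.1 s le_rfl
  refine this.trans (le_of_eq ?_)
  ring

/-- the odd part of `v` is of fifth order -/
lemma v_odd_le (h : Ent θ H K) (g : Good θ K z ρ) {b0 b1 a1 : ℝ} {s : ℂ} (hs : ‖s‖ ≤ ρ)
    (b : Bd θ K z ‖s‖ b0 b1 a1) :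
    ‖v θ H z s - v θ H z (-s)‖ ≤ 52 * (a1 + b0 * b1) * ‖s‖ ^ 5 := by
  have hp := g.pos
  have hb := b.nonneg (norm_nonneg s)
  obtain ⟨hb0, hb1, ha1⟩ := hb
  set r := ‖s‖ with hr
  have hr0 : 0 ≤ r := norm_nonneg _
  have key := small_sol (f := fun s => v θ H z s - v θ H z (-s))
    (f1 := fun s => v1 θ H z s + v1 θ H z (-s))
    (f2 := fun s => ((K (z + s) - 2 * (deriv θ (z + s)) ^ 2) * v θ H z s
      + cos (chi θ z s)) - ((K (z + -s) - 2 * (deriv θ (z + -s)) ^ 2) * v θ H z (-s)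
      + cos (chi θ z (-s)))) (ρ := r) (c := 1 / 100 / ρ ^ 2)
    (B := 26 * (a1 + b0 * b1) * r ^ 3)
    hr0 (by positivity) (by positivity)
    (by
      rw [div_mul_eq_mul_div, div_le_iff₀ (by positivity)]
      have : r ^ 2 ≤ ρ ^ 2 := pow_le_pow_left₀ hr0 hs 2
      nlinarith)
    (fun x _ => by
      have h2 := (h.v_deriv z (-x)).scomp x (hasDerivAt_neg x)
      refine ((h.v_deriv z x).sub h2).congr_deriv ?_
      simp)
    (fun x _ => by
      have h2 := (h.v1_deriv z (-x)).scomp x (hasDerivAt_neg x)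
      refine ((h.v1_deriv z x).add h2).congr_deriv ?_
      simp; ring)
    (by simp [v_zero]) (by simp [v1_zero])
    (by
      intro x hx
      have hxρ : ‖x‖ ≤ ρ := hx.trans hs
      have hzx : ‖z + x - z‖ ≤ ρ := by simpa using hxρ
      have hk := g.k' hzx
      have hkd := k_diff_le h b hx
      have hce := chi_even_le h b hx
      have c1 : ‖chi θ z x‖ ≤ 1 := (chi_le_one h g hxρ).trans (by norm_num)
      have c2 : ‖chi θ z (-x)‖ ≤ 1 :=
        (chi_le_one h g (s := -x) (by simpa using hxρ)).trans (by norm_num)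
      have d1 := chi_le_b h b hx
      have d2 := chi_le_b h b (s := -x) (by simpa using hx)
      rw [norm_neg] at d2
      have hcc := cos_sub_cos_le c1 c2
      have hv : ‖v θ H z (-x)‖ ≤ r ^ 2 := by
        have := (v_near h g (s := -x) (by simpa using hxρ)).1
        rw [norm_neg] at this
        have e2 : ‖v θ H z (-x)‖ ≤ ‖v θ H z (-x) - (-x) ^ 2 / 2‖ + ‖x‖ ^ 2 / 2 := by
          have := norm_add_le (v θ H z (-x) - (-x) ^ 2 / 2) ((-x) ^ 2 / 2)
          have e4 : ‖(-x) ^ 2 / 2‖ = ‖x‖ ^ 2 / 2 := by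
            rw [norm_div, norm_pow, norm_neg]; simp
          rw [e4] at this
          simpa using this
        have e3 : ‖x‖ ^ 4 / ρ ^ 2 ≤ r ^ 2 := by
          rw [div_le_iff₀ (by positivity)]
          have h5 : ‖x‖ ^ 2 ≤ ρ ^ 2 := pow_le_pow_left₀ (norm_nonneg _) hxρ 2
          have h6 : ‖x‖ ^ 2 ≤ r ^ 2 := pow_le_pow_left₀ (norm_nonneg _) hx 2
          calc ‖x‖ ^ 4 = ‖x‖ ^ 2 * ‖x‖ ^ 2 := by ring
            _ ≤ r ^ 2 * ρ ^ 2 := mul_le_mul h6 h5 (by positivity) (by positivity)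
        have h6 : ‖x‖ ^ 2 ≤ r ^ 2 := pow_le_pow_left₀ (norm_nonneg _) hx 2
        have h7 : 0 ≤ r ^ 2 := by positivity
        linarith
      have e1 : ((K (z + x) - 2 * (deriv θ (z + x)) ^ 2) * v θ H z x
          + cos (chi θ z x)) - ((K (z + -x) - 2 * (deriv θ (z + -x)) ^ 2)
            * v θ H z (-x) + cos (chi θ z (-x)))
          = (K (z + x) - 2 * (deriv θ (z + x)) ^ 2) * (v θ H z x - v θ H z (-x))
            + ((K (z + x) - 2 * (deriv θ (z + x)) ^ 2)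
              - (K (z + -x) - 2 * (deriv θ (z + -x)) ^ 2)) * v θ H z (-x)
            + (cos (chi θ z x) - cos (chi θ z (-x))) := by ring
      rw [e1]
      have t1 : ‖(K (z + x) - 2 * (deriv θ (z + x)) ^ 2) * (v θ H z x - v θ H z (-x))‖
          ≤ 1 / 100 / ρ ^ 2 * ‖v θ H z x - v θ H z (-x)‖ := by
        rw [norm_mul]; exact mul_le_mul_of_nonneg_right hk (norm_nonneg _)
      have t2 : ‖((K (z + x) - 2 * (deriv θ (z + x)) ^ 2)
              - (K (z + -x) - 2 * (deriv θ (z + -x)) ^ 2)) * v θ H z (-x)‖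
          ≤ ((a1 + 4 * b0 * b1) * (2 * r)) * r ^ 2 := by
        rw [norm_mul]
        refine mul_le_mul (hkd.trans ?_) hv (norm_nonneg _) (by positivity)
        exact mul_le_mul_of_nonneg_left (by linarith) (by positivity)
      have t3 : ‖cos (chi θ z x) - cos (chi θ z (-x))‖
          ≤ 9 / 2 * ((2 * b1 * r ^ 2) * (2 * b0 * r)) := by
        refine hcc.trans ?_
        have h7 : ‖x‖ ^ 2 ≤ r ^ 2 := pow_le_pow_left₀ (norm_nonneg _) hx 2
        have h8 : 2 * b1 * ‖x‖ ^ 2 ≤ 2 * b1 * r ^ 2 := mul_le_mul_of_nonneg_left h7 (by positivity)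
        have h9 : ‖chi θ z x - chi θ z (-x)‖ ≤ 2 * b0 * r := by
          refine (norm_sub_le _ _).trans ?_
          have : b0 * ‖x‖ ≤ b0 * r := mul_le_mul_of_nonneg_left hx hb0
          linarith
        have : ‖chi θ z x + chi θ z (-x)‖ * ‖chi θ z x - chi θ z (-x)‖
            ≤ (2 * b1 * r ^ 2) * (2 * b0 * r) :=
          mul_le_mul (hce.trans h8) h9 (norm_nonneg _) (by positivity)
        linarith
      have t4 : ((a1 + 4 * b0 * b1) * (2 * r)) * r ^ 2 + 9 / 2 * ((2 * b1 * r ^ 2) * (2 * b0 * r))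
          ≤ 26 * (a1 + b0 * b1) * r ^ 3 := by
        have : 0 ≤ a1 * r ^ 3 := by positivity
        nlinarith
      refine (norm_add_le _ _).trans ?_
      refine (add_le_add (norm_add_le _ _) le_rfl).trans ?_
      linarith)
  have := key.1 s le_rfl
  refine this.trans (le_of_eq ?_)
  ring

lemma cube_le {s : ℂ} {ρ : ℝ} (hp : 0 < ρ) (hs : ‖s‖ ≤ ρ) : ‖s‖ ^ 3 / ρ ^ 2 ≤ ‖s‖ := by
  rw [div_le_iff₀ (by positivity)]
  have : ‖s‖ ^ 2 ≤ ρ ^ 2 := pow_le_pow_left₀ (norm_nonneg _) hs 2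
  calc ‖s‖ ^ 3 = ‖s‖ * ‖s‖ ^ 2 := by ring
    _ ≤ ‖s‖ * ρ ^ 2 := mul_le_mul_of_nonneg_left this (norm_nonneg _)

lemma sq_le_one {s : ℂ} {ρ : ℝ} (hp : 0 < ρ) (hs : ‖s‖ ≤ ρ) : ‖s‖ ^ 2 / ρ ^ 2 ≤ 1 := by
  rw [div_le_iff₀ (by positivity), one_mul]
  exact pow_le_pow_left₀ (norm_nonneg _) hs 2

lemma fourth_le {s : ℂ} {ρ : ℝ} (hp : 0 < ρ) (hs : ‖s‖ ≤ ρ) :
    ‖s‖ ^ 4 / ρ ^ 2 ≤ ‖s‖ ^ 2 := by
  rw [div_le_iff₀ (by positivity)]
  have : ‖s‖ ^ 2 ≤ ρ ^ 2 := pow_le_pow_left₀ (norm_nonneg _) hs 2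
  calc ‖s‖ ^ 4 = ‖s‖ ^ 2 * ‖s‖ ^ 2 := by ring
    _ ≤ ‖s‖ ^ 2 * ρ ^ 2 := mul_le_mul_of_nonneg_left this (by positivity)

lemma u_ge (h : Ent θ H K) (g : Good θ K z ρ) {s : ℂ} (hs : ‖s‖ ≤ ρ) :
    978 / 1000 * ‖s‖ ≤ ‖u θ H z s‖ := by
  have h1 := (u_near h g hs).1
  have h2 := cube_le g.pos hs
  have h3 : ‖s‖ ≤ ‖u θ H z s‖ + ‖u θ H z s - s‖ := by
    have := norm_sub_le (u θ H z s) (u θ H z s - s)
    simpa using this
  linarith

lemma u_ne (h : Ent θ H K) (g : Good θ K z ρ) {s : ℂ} (hs : ‖s‖ ≤ ρ) (h0 : s ≠ 0) :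
    u θ H z s ≠ 0 := by
  have h1 := u_ge h g hs
  have h2 : 0 < ‖s‖ := norm_pos_iff.mpr h0
  intro h3
  rw [h3, norm_zero] at h1
  linarith

lemma u_le (h : Ent θ H K) (g : Good θ K z ρ) {s : ℂ} (hs : ‖s‖ ≤ ρ) :
    ‖u θ H z s‖ ≤ 1022 / 1000 * ‖s‖ := by
  have h1 := (u_near h g hs).1
  have h2 := cube_le g.pos hs
  have h3 : ‖u θ H z s‖ ≤ ‖s‖ + ‖u θ H z s - s‖ := by
    have := norm_add_le s (u θ H z s - s)
    simpa using this
  linarith

lemma v_le (h : Ent θ H K) (g : Good θ K z ρ) {s : ℂ} (hs : ‖s‖ ≤ ρ) :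
    ‖v θ H z s‖ ≤ 511 / 1000 * ‖s‖ ^ 2 := by
  have h1 := (v_near h g hs).1
  have h2 := fourth_le g.pos hs
  have h3 : ‖v θ H z s‖ ≤ ‖s‖ ^ 2 / 2 + ‖v θ H z s - s ^ 2 / 2‖ := by
    have := norm_add_le (s ^ 2 / 2) (v θ H z s - s ^ 2 / 2)
    have e : ‖s ^ 2 / 2‖ = ‖s‖ ^ 2 / 2 := by rw [norm_div, norm_pow]; simp
    rw [e] at this
    simpa using this
  linarith

/-- parameter of the chord `z → z + e` in the pencil of lines through the point `z` -/
def R (θ H : ℂ → ℂ) (z e : ℂ) : ℂ := v θ H z e / u θ H z e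

lemma R_zero : R θ H z 0 = 0 := by simp [R, v_zero]

lemma R_near (h : Ent θ H K) (g : Good θ K z ρ) {s : ℂ} (hs : ‖s‖ ≤ ρ) :
    ‖R θ H z s - s / 2‖ ≤ 23 / 1000 * (‖s‖ ^ 3 / ρ ^ 2) := by
  by_cases h0 : s = 0
  · subst h0; simp [R_zero]
  have hp := g.pos
  have hu := u_ne h g hs h0
  have hs0 : 0 < ‖s‖ := norm_pos_iff.mpr h0
  have e : R θ H z s - s / 2 = ((v θ H z s - s ^ 2 / 2) - s / 2 * (u θ H z s - s)) / u θ H z s := by
    unfold R
    field_simp
    ring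
  rw [e, norm_div, div_le_iff₀ (norm_pos_iff.mpr hu)]
  have h1 := (u_near h g hs).1
  have h2 := (v_near h g hs).1
  have h3 := u_ge h g hs
  have h4 : ‖(v θ H z s - s ^ 2 / 2) - s / 2 * (u θ H z s - s)‖
      ≤ 22 / 1000 * (‖s‖ ^ 4 / ρ ^ 2) := by
    refine (norm_sub_le _ _).trans ?_
    rw [norm_mul, norm_div_two]
    have : ‖s‖ / 2 * ‖u θ H z s - s‖ ≤ ‖s‖ / 2 * (22 / 1000 * (‖s‖ ^ 3 / ρ ^ 2)) :=
      mul_le_mul_of_nonneg_left h1 (by positivity)
    have e2 : ‖s‖ / 2 * (22 / 1000 * (‖s‖ ^ 3 / ρ ^ 2)) = 11 / 1000 * (‖s‖ ^ 4 / ρ ^ 2) := by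
      ring
    linarith
  refine h4.trans ?_
  have e3 : ‖s‖ ^ 4 / ρ ^ 2 = ‖s‖ ^ 3 / ρ ^ 2 * ‖s‖ := by ring
  rw [e3]
  have h5 : 0 ≤ ‖s‖ ^ 3 / ρ ^ 2 := by positivity
  nlinarith

lemma R_deriv (h : Ent θ H K) (g : Good θ K z ρ) {s : ℂ} (hs : ‖s‖ ≤ ρ) :
    ∃ d : ℂ, HasDerivAt (R θ H z) d s ∧ ‖d - 1 / 2‖ ≤ 1 / 10 := by
  have hp := g.pos
  by_cases h0 : s = 0
  · subst h0
    refine ⟨1 / 2, ?_, by simp⟩
    rw [hasDerivAt_iff_isLittleO_nhds_zero]
    have hO : (fun x : ℂ => R θ H z (0 + x) - R θ H z 0 - x • (1 / 2 : ℂ))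
        =O[𝓝 0] (fun x : ℂ => x ^ 3) := by
      refine Asymptotics.IsBigO.of_bound (23 / 1000 / ρ ^ 2) ?_
      have : closedBall (0 : ℂ) ρ ∈ 𝓝 (0 : ℂ) := closedBall_mem_nhds 0 hp
      filter_upwards [this] with x hx
      have := R_near h g (s := x) (by simpa using hx)
      rw [zero_add, R_zero, sub_zero, norm_pow]
      have e : R θ H z x - x • (1 / 2 : ℂ) = R θ H z x - x / 2 := by
        rw [smul_eq_mul]; ring
      rw [e]
      refine this.trans (le_of_eq (by ring))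
    exact hO.trans_isLittleO (Asymptotics.isLittleO_pow_id (by norm_num))
  · have hu := u_ne h g hs h0
    have hs0 : 0 < ‖s‖ := norm_pos_iff.mpr h0
    refine ⟨_, (h.v_deriv z s).div (h.u_deriv z s) hu, ?_⟩
    have hun : 0 < ‖u θ H z s‖ := norm_pos_iff.mpr hu
    have e : (v1 θ H z s * u θ H z s - v θ H z s * u1 θ H z s) / u θ H z s ^ 2 - 1 / 2
        = ((v1 θ H z s - s) * s + (v1 θ H z s - s) * (u θ H z s - s)
          - s ^ 2 / 2 * (u1 θ H z s - 1) - (v θ H z s - s ^ 2 / 2)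
          - (v θ H z s - s ^ 2 / 2) * (u1 θ H z s - 1) - (u θ H z s - s) ^ 2 / 2)
          / u θ H z s ^ 2 := by
      field_simp
      ring
    rw [e, norm_div, norm_pow, div_le_iff₀ (by positivity)]
    obtain ⟨a, a1⟩ := u_near h g hs
    obtain ⟨b, b1⟩ := v_near h g hs
    have c1 := cube_le hp hs
    have c2 := sq_le_one hp hs
    have c3 := fourth_le hp hs
    have hu2 := u_ge h g hs
    set A := u θ H z s - s
    set A1 := u1 θ H z s - 1
    set B := v θ H z s - s ^ 2 / 2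
    set B1 := v1 θ H z s - s
    have nA : ‖A‖ ≤ 22 / 1000 * ‖s‖ := by linarith
    have nA1 : ‖A1‖ ≤ 22 / 1000 := by linarith
    have nB : ‖B‖ ≤ 11 / 1000 * ‖s‖ ^ 2 := by linarith
    have nB1 : ‖B1‖ ≤ 11 / 1000 * ‖s‖ := by linarith
    have n1 : ‖B1 * s‖ ≤ 11 / 1000 * ‖s‖ ^ 2 := by
      rw [norm_mul]; nlinarith
    have n2 : ‖B1 * A‖ ≤ 1 / 1000 * ‖s‖ ^ 2 := by
      rw [norm_mul]
      have := mul_le_mul nB1 nA (norm_nonneg _) (by positivity)
      nlinarith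
    have n3 : ‖s ^ 2 / 2 * A1‖ ≤ 11 / 1000 * ‖s‖ ^ 2 := by
      rw [norm_mul, norm_div_two, norm_pow]
      have := mul_le_mul_of_nonneg_left nA1 (show (0 : ℝ) ≤ ‖s‖ ^ 2 / 2 by positivity)
      nlinarith
    have n4 : ‖B * A1‖ ≤ 1 / 1000 * ‖s‖ ^ 2 := by
      rw [norm_mul]
      have := mul_le_mul nB nA1 (norm_nonneg _) (by positivity)
      nlinarith [sq_nonneg ‖s‖]
    have n5 : ‖A ^ 2 / 2‖ ≤ 1 / 1000 * ‖s‖ ^ 2 := by
      rw [norm_div_two, norm_pow]
      have := pow_le_pow_left₀ (norm_nonneg _) nA 2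
      nlinarith [sq_nonneg ‖s‖]
    have n6 : ‖B1 * s + B1 * A - s ^ 2 / 2 * A1 - B - B * A1 - A ^ 2 / 2‖
        ≤ ‖B1 * s‖ + ‖B1 * A‖ + ‖s ^ 2 / 2 * A1‖ + ‖B‖ + ‖B * A1‖ + ‖A ^ 2 / 2‖ := by
      refine (norm_sub_le _ _).trans (add_le_add ?_ le_rfl)
      refine (norm_sub_le _ _).trans (add_le_add ?_ le_rfl)
      refine (norm_sub_le _ _).trans (add_le_add ?_ le_rfl)
      refine (norm_sub_le _ _).trans (add_le_add ?_ le_rfl)
      exact norm_add_le _ _
    have n7 : (978 / 1000 * ‖s‖) ^ 2 ≤ ‖u θ H z s‖ ^ 2 := pow_le_pow_left₀ (by positivity) hu2 2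
    have n8 : 0 ≤ ‖s‖ ^ 2 := by positivity
    nlinarith

lemma R_lip (h : Ent θ H K) (g : Good θ K z ρ) {s t : ℂ} (hs : ‖s‖ ≤ ρ) (ht : ‖t‖ ≤ ρ) :
    ‖(R θ H z s - R θ H z t) - (s - t) / 2‖ ≤ ‖s - t‖ / 10 := by
  choose! d hd hd' using fun x (hx : ‖x‖ ≤ ρ) => R_deriv h g (s := x) hx
  have := (convex_closedBall (0 : ℂ) ρ).norm_image_sub_le_of_norm_hasDerivWithin_le
      (f := fun x => R θ H z x - x / 2) (f' := fun x => d x - 1 / 2) (C := 1 / 10)
      (fun x hx => ((hd x (by simpa using hx)).sub ((hasDerivAt_id x).div_const 2)).hasDerivWithinAt)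
      (fun x hx => hd' x (by simpa using hx))
      (x := t) (y := s) (by simpa using ht) (by simpa using hs)
  have e : (R θ H z s - R θ H z t) - (s - t) / 2
      = (R θ H z s - s / 2) - (R θ H z t - t / 2) := by ring
  rw [e]
  exact this.trans (by linarith)

lemma R_expand (h : Ent θ H K) (g : Good θ K z ρ) {s t : ℂ} (hs : ‖s‖ ≤ ρ) (ht : ‖t‖ ≤ ρ) :
    2 / 5 * ‖s - t‖ ≤ ‖R θ H z s - R θ H z t‖ := by
  have h1 := R_lip h g hs ht
  have h2 : ‖(s - t) / 2‖ ≤ ‖R θ H z s - R θ H z t‖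
      + ‖(R θ H z s - R θ H z t) - (s - t) / 2‖ := by
    have := norm_sub_le (R θ H z s - R θ H z t) ((R θ H z s - R θ H z t) - (s - t) / 2)
    simpa using this
  rw [norm_div_two] at h2
  linarith

lemma R_inj (h : Ent θ H K) (g : Good θ K z ρ) {s t : ℂ} (hs : ‖s‖ ≤ ρ) (ht : ‖t‖ ≤ ρ)
    (e : R θ H z s = R θ H z t) : s = t := by
  have := R_expand h g hs ht
  rw [e, sub_self, norm_zero] at this
  have h2 : ‖s - t‖ = 0 := le_antisymm (by linarith) (norm_nonneg _)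
  exact sub_eq_zero.mp (norm_eq_zero.mp h2)

/-- `R` covers -/
lemma R_surj (h : Ent θ H K) (g : Good θ K z ρ) {e ζ : ℂ} (he : ‖e‖ ≤ ρ / 2)
    (hζ : ‖ζ - R θ H z e‖ ≤ ‖e‖ / 5) : ∃ x, ‖x - e‖ ≤ ‖e‖ / 2 ∧ R θ H z x = ζ := by
  set S := closedBall e (‖e‖ / 2) with hS
  have hSρ : ∀ x ∈ S, ‖x‖ ≤ ρ := by
    intro x hx
    have hx' : ‖x - e‖ ≤ ‖e‖ / 2 := by simpa [hS, dist_eq_norm] using hx
    have : ‖x‖ ≤ ‖x - e‖ + ‖e‖ := by simpa using norm_add_le (x - e) e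
    linarith [g.pos]
  set T : ℂ → ℂ := fun x => x - 2 * (R θ H z x - ζ) with hT
  have hTlip : ∀ x ∈ S, ∀ y ∈ S, ‖T x - T y‖ ≤ 1 / 5 * ‖x - y‖ := by
    intro x hx y hy
    have h1 := R_lip h g (hSρ x hx) (hSρ y hy)
    have e1 : T x - T y = -(2 * ((R θ H z x - R θ H z y) - (x - y) / 2)) := by
      simp only [hT]; ring
    rw [e1, norm_neg, norm_mul]
    simp only [Complex.norm_ofNat]
    linarith
  have heS : e ∈ S := by simp [hS]; positivity
  have hTe : ‖T e - e‖ ≤ 2 / 5 * ‖e‖ := by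
    have e1 : T e - e = 2 * (ζ - R θ H z e) := by simp only [hT]; ring
    rw [e1, norm_mul]
    simp only [Complex.norm_ofNat]
    linarith
  have hmaps : MapsTo T S S := by
    intro x hx
    have h1 := hTlip x hx e heS
    have hx' : ‖x - e‖ ≤ ‖e‖ / 2 := by simpa [hS, dist_eq_norm] using hx
    have h2 : ‖T x - e‖ ≤ ‖T x - T e‖ + ‖T e - e‖ := by
      simpa using norm_add_le (T x - T e) (T e - e)
    have : ‖T x - e‖ ≤ ‖e‖ / 2 := by linarith
    simpa [hS, dist_eq_norm] using this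
  have hcontr : ContractingWith (1 / 5 : NNReal) (hmaps.restrict T S S) := by
    refine ⟨by rw [← NNReal.coe_lt_coe]; norm_num, LipschitzWith.of_dist_le_mul ?_⟩
    rintro ⟨x, hx⟩ ⟨y, hy⟩
    rw [Subtype.dist_eq, Subtype.dist_eq, dist_eq_norm, dist_eq_norm]
    simpa using hTlip x hx y hy
  obtain ⟨x, hxS, hfix, -⟩ := ContractingWith.exists_fixedPoint' (s := S)
    isClosed_closedBall.isComplete hmaps hcontr heS (edist_ne_top _ _)
  refine ⟨x, by simpa [hS, dist_eq_norm] using hxS, ?_⟩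
  have h3 : T x = x := hfix
  simp only [hT] at h3
  have h4 : (2 : ℂ) * (R θ H z x - ζ) = 0 := by linear_combination -h3
  have h5 : R θ H z x - ζ = 0 := by
    rcases mul_eq_zero.mp h4 with h6 | h6
    · norm_num at h6
    · exact h6
  exact sub_eq_zero.mp h5

/-- oddness defect of `R` (sharp form) -/
lemma R_even_le (h : Ent θ H K) (g : Good θ K z ρ) {b0 b1 a1 : ℝ} {s : ℂ} (hs : ‖s‖ ≤ ρ)
    (b : Bd θ K z ‖s‖ b0 b1 a1) :
    ‖R θ H z s + R θ H z (-s)‖ ≤ 100 * (a1 + b0 * b1) * ‖s‖ ^ 4 := by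
  by_cases h0 : s = 0
  · subst h0; simp [R_zero]
  obtain ⟨hb0, hb1, ha1⟩ := b.nonneg (norm_nonneg s)
  have hs' : ‖-s‖ ≤ ρ := by simpa using hs
  have hu := u_ne h g hs h0
  have hu' := u_ne h g hs' (neg_ne_zero.mpr h0)
  have hs0 : 0 < ‖s‖ := norm_pos_iff.mpr h0
  have e : R θ H z s + R θ H z (-s)
      = (v θ H z s * (u θ H z s + u θ H z (-s)) - (v θ H z s - v θ H z (-s)) * u θ H z s)
        / (u θ H z s * u θ H z (-s)) := by
    unfold R
    field_simp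
    ring
  rw [e, norm_div, div_le_iff₀ (norm_pos_iff.mpr (mul_ne_zero hu hu'))]
  have p1 := u_even_le h g hs b
  have p2 := v_odd_le h g hs b
  have p3 := u_le h g hs
  have p4 := v_le h g hs
  have p5 := u_ge h g hs
  have p6 := u_ge h g hs'
  rw [norm_neg] at p6
  have hA : 0 ≤ a1 + b0 * b1 := by positivity
  have q1 : ‖v θ H z s * (u θ H z s + u θ H z (-s))‖
      ≤ 511 / 1000 * ‖s‖ ^ 2 * (68 * (a1 + b0 * b1) * ‖s‖ ^ 4) := by
    rw [norm_mul]
    exact mul_le_mul p4 p1 (norm_nonneg _) (by positivity)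
  have q2 : ‖(v θ H z s - v θ H z (-s)) * u θ H z s‖
      ≤ (52 * (a1 + b0 * b1) * ‖s‖ ^ 5) * (1022 / 1000 * ‖s‖) := by
    rw [norm_mul]
    exact mul_le_mul p2 p3 (norm_nonneg _) (by positivity)
  have q3 : 978 / 1000 * ‖s‖ * (978 / 1000 * ‖s‖) ≤ ‖u θ H z s * u θ H z (-s)‖ := by
    rw [norm_mul]
    exact mul_le_mul p5 p6 (by positivity) (norm_nonneg _)
  have q4 : 100 * (a1 + b0 * b1) * ‖s‖ ^ 4 * (978 / 1000 * ‖s‖ * (978 / 1000 * ‖s‖))
      ≤ 100 * (a1 + b0 * b1) * ‖s‖ ^ 4 * ‖u θ H z s * u θ H z (-s)‖ :=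
    mul_le_mul_of_nonneg_left q3 (by positivity)
  refine le_trans ?_ q4
  refine (norm_sub_le _ _).trans ?_
  have q5 : 0 ≤ (a1 + b0 * b1) * ‖s‖ ^ 6 := by positivity
  have q6 : 100 * (a1 + b0 * b1) * ‖s‖ ^ 4 * (978 / 1000 * ‖s‖ * (978 / 1000 * ‖s‖))
      = 95.6484 * ((a1 + b0 * b1) * ‖s‖ ^ 6) := by ring
  have q7 : 511 / 1000 * ‖s‖ ^ 2 * (68 * (a1 + b0 * b1) * ‖s‖ ^ 4)
      = 34.748 * ((a1 + b0 * b1) * ‖s‖ ^ 6) := by ring
  have q8 : (52 * (a1 + b0 * b1) * ‖s‖ ^ 5) * (1022 / 1000 * ‖s‖)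
      = 53.144 * ((a1 + b0 * b1) * ‖s‖ ^ 6) := by ring
  rw [q7] at q1
  rw [q8] at q2
  rw [q6]
  linarith

/-! ## the step -/

/-- the next label step: `z - e, z, z + st z e` are consecutive vertices -/
def st (θ H : ℂ → ℂ) (z e : ℂ) : ℂ :=
  Classical.epsilon (fun x => ‖x - e‖ ≤ ‖e‖ / 2 ∧ R θ H z x = -R θ H z (-e))

lemma R_even_crude (h : Ent θ H K) (g : Good θ K z ρ) {e : ℂ} (he : ‖e‖ ≤ ρ) :
    ‖-R θ H z (-e) - R θ H z e‖ ≤ 46 / 1000 * (‖e‖ ^ 3 / ρ ^ 2) := by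
  have h1 := R_near h g he
  have h2 := R_near h g (s := -e) (by simpa using he)
  rw [norm_neg] at h2
  have e1 : -R θ H z (-e) - R θ H z e
      = -((R θ H z e - e / 2) + (R θ H z (-e) - -e / 2)) := by ring
  rw [e1, norm_neg]
  refine (norm_add_le _ _).trans ?_
  linarith

lemma st_spec (h : Ent θ H K) (g : Good θ K z ρ) {e : ℂ} (he : ‖e‖ ≤ ρ / 2) :
    ‖st θ H z e - e‖ ≤ ‖e‖ / 2 ∧ R θ H z (st θ H z e) = -R θ H z (-e) := by
  have hp := g.pos
  have heρ : ‖e‖ ≤ ρ := by linarith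
  have h1 := R_even_crude h g heρ
  have h2 := cube_le hp heρ
  have := R_surj h g (ζ := -R θ H z (-e)) he (by
    have := norm_nonneg e
    linarith)
  exact Classical.epsilon_spec this

lemma st_le (h : Ent θ H K) (g : Good θ K z ρ) {e : ℂ} (he : ‖e‖ ≤ ρ / 2) :
    ‖st θ H z e‖ ≤ 3 / 2 * ‖e‖ := by
  have h1 := (st_spec h g he).1
  have : ‖st θ H z e‖ ≤ ‖st θ H z e - e‖ + ‖e‖ := by simpa using norm_add_le (st θ H z e - e) e
  linarith

lemma st_ge (h : Ent θ H K) (g : Good θ K z ρ) {e : ℂ} (he : ‖e‖ ≤ ρ / 2) :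
    1 / 2 * ‖e‖ ≤ ‖st θ H z e‖ := by
  have h1 := (st_spec h g he).1
  have : ‖e‖ ≤ ‖st θ H z e‖ + ‖st θ H z e - e‖ := by
    simpa using norm_sub_le (st θ H z e) (st θ H z e - e)
  linarith

/-- uniqueness of the next vertex -/
lemma st_unique (h : Ent θ H K) (g : Good θ K z ρ) {e x : ℂ} (he : ‖e‖ ≤ ρ / 2)
    (hx : ‖x‖ ≤ ρ) (hR : R θ H z x = -R θ H z (-e)) : x = st θ H z e := by
  have h1 := st_spec h g he
  have h2 := st_le h g he
  have hp := g.pos
  exact R_inj h g hx (by linarith [norm_nonneg e]) (hR.trans h1.2.symm)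

lemma st_near_crude (h : Ent θ H K) (g : Good θ K z ρ) {e : ℂ} (he : ‖e‖ ≤ ρ / 2) :
    ‖st θ H z e - e‖ ≤ 1 / 8 * (‖e‖ ^ 3 / ρ ^ 2) := by
  have hp := g.pos
  have heρ : ‖e‖ ≤ ρ := by linarith
  have h1 := st_spec h g he
  have h2 := st_le h g he
  have h3 := R_expand h g (s := st θ H z e) (t := e) (by linarith) heρ
  rw [h1.2] at h3
  have h4 := R_even_crude h g heρ
  have h5 : 0 ≤ ‖e‖ ^ 3 / ρ ^ 2 := by positivity
  linarith

/-- **the sharp step estimate** `e' - e = O (|e|⁴ (|K'| + |y y'|))` -/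
lemma st_near (h : Ent θ H K) (g : Good θ K z ρ) {b0 b1 a1 : ℝ} {e : ℂ} (he : ‖e‖ ≤ ρ / 2)
    (b : Bd θ K z ‖e‖ b0 b1 a1) :
    ‖st θ H z e - e‖ ≤ 250 * (a1 + b0 * b1) * ‖e‖ ^ 4 := by
  have hp := g.pos
  have heρ : ‖e‖ ≤ ρ := by linarith
  have h1 := st_spec h g he
  have h2 := st_le h g he
  have h3 := R_expand h g (s := st θ H z e) (t := e) (by linarith) heρ
  rw [h1.2] at h3
  have h4 := R_even_le h g heρ b
  have e1 : -R θ H z (-e) - R θ H z e = -(R θ H z e + R θ H z (-e)) := by ring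
  rw [e1, norm_neg] at h3
  linarith

/-! ## holomorphy in both variables -/

lemma u_contDiff (h : Ent θ H K) : ContDiff ℂ 1 (fun p : ℂ × ℂ => u θ H p.1 p.2) := by
  have a1 : ContDiff ℂ 1 θ := h.dθ.contDiff
  have a2 : ContDiff ℂ 1 (deriv θ) := h.dθ1.contDiff
  have a3 : ContDiff ℂ 1 H := h.dH.contDiff
  have a4 : ContDiff ℂ 1 (deriv H) := h.dH1.contDiff
  have a5 : ContDiff ℂ 1 sin := contDiff_sin
  have a6 : ContDiff ℂ 1 cos := contDiff_cos
  have s1 : ContDiff ℂ 1 (fun p : ℂ × ℂ => p.1 + p.2) := contDiff_fst.add contDiff_snd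
  have hχ : ContDiff ℂ 1 (fun p : ℂ × ℂ => chi θ p.1 p.2) :=
    (a1.comp s1).sub (a1.comp contDiff_fst)
  exact ((a4.comp contDiff_fst).mul (a2.comp s1)).sub ((a2.comp contDiff_fst).mul
    ((((a2.comp s1).mul (a3.comp s1)).mul (a5.comp hχ)).add ((a4.comp s1).mul (a6.comp hχ))))

lemma v_contDiff (h : Ent θ H K) : ContDiff ℂ 1 (fun p : ℂ × ℂ => v θ H p.1 p.2) := by
  have a1 : ContDiff ℂ 1 θ := h.dθ.contDiff
  have a2 : ContDiff ℂ 1 (deriv θ) := h.dθ1.contDiff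
  have a3 : ContDiff ℂ 1 H := h.dH.contDiff
  have a4 : ContDiff ℂ 1 (deriv H) := h.dH1.contDiff
  have a5 : ContDiff ℂ 1 sin := contDiff_sin
  have a6 : ContDiff ℂ 1 cos := contDiff_cos
  have s1 : ContDiff ℂ 1 (fun p : ℂ × ℂ => p.1 + p.2) := contDiff_fst.add contDiff_snd
  have hχ : ContDiff ℂ 1 (fun p : ℂ × ℂ => chi θ p.1 p.2) :=
    (a1.comp s1).sub (a1.comp contDiff_fst)
  exact ((a2.comp s1).mul (((a3.comp s1).mul (a6.comp hχ)).sub (a3.comp contDiff_fst))).sub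
    ((a4.comp s1).mul (a5.comp hχ))

lemma R_contDiffAt (h : Ent θ H K) {p : ℂ × ℂ} (hu : u θ H p.1 p.2 ≠ 0) :
    ContDiffAt ℂ 1 (fun p : ℂ × ℂ => R θ H p.1 p.2) p :=
  (v_contDiff h).contDiffAt.div (u_contDiff h).contDiffAt hu

/-- `Good` is an open condition -/
lemma Good.mono (g : Good θ K z ρ) {z' : ℂ} {ρ' : ℝ} (hρ' : 0 < ρ') (hz : ‖z' - z‖ + ρ' ≤ ρ) :
    Good θ K z' ρ' := by
  have hle : ρ' ≤ ρ := by linarith [norm_nonneg (z' - z)]
  refine ⟨hρ', ?_, ?_⟩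
  · intro s hs
    have h1 : ‖s - z‖ ≤ ρ := by
      have : ‖s - z‖ ≤ ‖s - z'‖ + ‖z' - z‖ := by simpa using norm_add_le (s - z') (z' - z)
      linarith
    exact (mul_le_mul_of_nonneg_left hle (norm_nonneg _)).trans (g.y_le s h1)
  · intro s hs
    have h1 : ‖s - z‖ ≤ ρ := by
      have : ‖s - z‖ ≤ ‖s - z'‖ + ‖z' - z‖ := by simpa using norm_add_le (s - z') (z' - z)
      linarith
    refine (mul_le_mul_of_nonneg_left ?_ (norm_nonneg _)).trans (g.K_le s h1)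
    exact pow_le_pow_left₀ hρ'.le hle 2

lemma st_continuousAt (h : Ent θ H K) (g : Good θ K z ρ) {e : ℂ} (he0 : e ≠ 0)
    (he : ‖e‖ < ρ / 2) : ContinuousAt (fun p : ℂ × ℂ => st θ H p.1 p.2) (z, e) := by
  have hp := g.pos
  set x0 := st θ H z e with hx0
  have hsp := st_spec h g he.le
  have hx0ne : x0 ≠ 0 := by
    have := st_ge h g he.le
    have h2 : 0 < ‖e‖ := norm_pos_iff.mpr he0
    intro h3
    rw [← hx0, h3, norm_zero] at this
    linarith
  have hx0le := st_le h g he.le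
  rw [← hx0] at hx0le
  -- radius for nearby points
  obtain ⟨ρ', h1, h2⟩ : ∃ ρ', 2 * ‖e‖ < ρ' ∧ ρ' < ρ := ⟨(2 * ‖e‖ + ρ) / 2, by linarith, by linarith⟩
  have hρ' : 0 < ρ' := by linarith [norm_nonneg e]
  have ev1 : ∀ᶠ p : ℂ × ℂ in 𝓝 (z, e), Good θ K p.1 ρ' ∧ ‖p.2‖ < ρ' / 2 := by
    have c1 : ContinuousAt (fun p : ℂ × ℂ => ‖p.1 - z‖ + ρ') (z, e) := by fun_prop
    have c2 : ContinuousAt (fun p : ℂ × ℂ => ‖p.2‖) (z, e) := by fun_prop
    have d1 := c1.eventually_lt (continuousAt_const (y := ρ)) (by simpa using h2)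
    have d2 := c2.eventually_lt (continuousAt_const (y := ρ' / 2))
      (by show ‖e‖ < ρ' / 2; linarith)
    filter_upwards [d1, d2] with p q1 q2
    exact ⟨g.mono hρ' q1.le, q2⟩
  -- the two defects tend to zero
  have c3 : ContinuousAt (fun p : ℂ × ℂ => R θ H p.1 (-p.2)) (z, e) := by
    have : ContinuousAt (fun p : ℂ × ℂ => R θ H p.1 p.2) (z, -e) :=
      (R_contDiffAt h (u_ne h g (by simpa using (by linarith : ‖e‖ ≤ ρ))
        (neg_ne_zero.mpr he0))).continuousAt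
    exact ContinuousAt.comp (f := fun p : ℂ × ℂ => (p.1, -p.2)) (x := (z, e)) this (by fun_prop)
  have c4 : ContinuousAt (fun p : ℂ × ℂ => R θ H p.1 x0) (z, e) := by
    have : ContinuousAt (fun p : ℂ × ℂ => R θ H p.1 p.2) (z, x0) :=
      (R_contDiffAt h (u_ne h g (by linarith) hx0ne)).continuousAt
    exact ContinuousAt.comp (f := fun p : ℂ × ℂ => (p.1, x0)) (x := (z, e)) this (by fun_prop)
  have c5 : Tendsto (fun p : ℂ × ℂ => 5 / 2 * (‖R θ H p.1 (-p.2) - R θ H z (-e)‖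
      + ‖R θ H p.1 x0 - R θ H z x0‖)) (𝓝 (z, e)) (𝓝 0) := by
    have e1 : Tendsto (fun p : ℂ × ℂ => R θ H p.1 (-p.2) - R θ H z (-e)) (𝓝 (z, e)) (𝓝 0) := by
      have := c3.tendsto.sub_const (R θ H z (-e))
      simpa using this
    have e2 : Tendsto (fun p : ℂ × ℂ => R θ H p.1 x0 - R θ H z x0) (𝓝 (z, e)) (𝓝 0) := by
      have := c4.tendsto.sub_const (R θ H z x0)
      simpa using this
    have := (e1.norm.add e2.norm).const_mul (5 / 2 : ℝ)
    simpa using this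
  rw [ContinuousAt, tendsto_iff_norm_sub_tendsto_zero]
  refine squeeze_zero' (Eventually.of_forall fun p => norm_nonneg _) ?_ c5
  filter_upwards [ev1] with p hp1
  obtain ⟨g', hp2⟩ := hp1
  have s1 := st_spec h g' hp2.le
  have s2 := st_le h g' hp2.le
  have s3 := R_expand h g' (s := st θ H p.1 p.2) (t := x0) (by linarith) (by linarith)
  have s4 : R θ H p.1 (st θ H p.1 p.2) - R θ H p.1 x0
      = -(R θ H p.1 (-p.2) - R θ H z (-e)) - (R θ H p.1 x0 - R θ H z x0) := by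
    rw [s1.2, hx0, hsp.2]; ring
  rw [s4] at s3
  have s5 := norm_sub_le (-(R θ H p.1 (-p.2) - R θ H z (-e))) (R θ H p.1 x0 - R θ H z x0)
  rw [norm_neg] at s5
  show ‖st θ H p.1 p.2 - st θ H z e‖ ≤ _
  rw [← hx0]
  linarith

lemma st_differentiableAt (h : Ent θ H K) (g : Good θ K z ρ) {e : ℂ} (he0 : e ≠ 0)
    (he : ‖e‖ < ρ / 2) : DifferentiableAt ℂ (fun p : ℂ × ℂ => st θ H p.1 p.2) (z, e) := by
  have hp := g.pos
  set x0 := st θ H z e with hx0
  have hsp := st_spec h g he.le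
  have hx0ne : x0 ≠ 0 := by
    have := st_ge h g he.le
    have h2 : 0 < ‖e‖ := norm_pos_iff.mpr he0
    intro h3
    rw [← hx0, h3, norm_zero] at this
    linarith
  have hx0le := st_le h g he.le
  rw [← hx0] at hx0le
  have hx0ρ : ‖x0‖ ≤ ρ := by linarith
  obtain ⟨L, hL⟩ : ∃ L : ℂ × ℂ →L[ℂ] ℂ, HasStrictFDerivAt (fun p : ℂ × ℂ => R θ H p.1 p.2) L (z, x0) :=
    ⟨_, (R_contDiffAt h (p := (z, x0)) (u_ne h g hx0ρ hx0ne)).hasStrictFDerivAt (by norm_num)⟩
  obtain ⟨b, hb, hb'⟩ := R_deriv h g hx0ρ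
  have hLb : L (0, 1) = b := by
    have h1 : HasDerivAt (fun x : ℂ => ((z, x) : ℂ × ℂ)) (0, 1) x0 :=
      (hasDerivAt_const x0 z).prodMk (hasDerivAt_id x0)
    have h2 := (hL.hasFDerivAt).comp_hasDerivAt x0 h1
    exact h2.unique hb
  have hb0 : b ≠ 0 := by
    intro h3
    rw [h3] at hb'
    norm_num at hb'
  set a := L (1, 0) with ha
  have hLf : ∀ p : ℂ × ℂ, L p = a * p.1 + b * p.2 := by
    intro p
    have : p = p.1 • ((1, 0) : ℂ × ℂ) + p.2 • ((0, 1) : ℂ × ℂ) := by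
      ext <;> simp
    conv_lhs => rw [this]
    rw [map_add, map_smul, map_smul, hLb, ← ha]
    simp only [smul_eq_mul]; ring
  -- the invertible derivative of `(z, x) ↦ (z, R z x)`
  let f1 : ℂ × ℂ →L[ℂ] ℂ × ℂ := (ContinuousLinearMap.fst ℂ ℂ ℂ).prod L
  let f2 : ℂ × ℂ →L[ℂ] ℂ × ℂ := (ContinuousLinearMap.fst ℂ ℂ ℂ).prod
    (b⁻¹ • (ContinuousLinearMap.snd ℂ ℂ ℂ - a • ContinuousLinearMap.fst ℂ ℂ ℂ))
  let Fe : (ℂ × ℂ) ≃L[ℂ] (ℂ × ℂ) := ContinuousLinearEquiv.equivOfInverse f1 f2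
    (by
      intro p
      ext
      · simp [f1, f2]
      · simp only [f1, f2, ContinuousLinearMap.prod_apply, ContinuousLinearMap.coe_fst',
          _root_.smul_apply, _root_.sub_apply,
          ContinuousLinearMap.coe_snd', smul_eq_mul, hLf]
        field_simp
        ring)
    (by
      intro p
      ext
      · simp [f1, f2]
      · simp only [f1, f2, ContinuousLinearMap.prod_apply, ContinuousLinearMap.coe_fst',
          _root_.smul_apply, _root_.sub_apply,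
          ContinuousLinearMap.coe_snd', smul_eq_mul, hLf]
        field_simp
        ring)
  have hF : HasStrictFDerivAt (fun p : ℂ × ℂ => (p.1, R θ H p.1 p.2))
      (Fe : ℂ × ℂ →L[ℂ] ℂ × ℂ) (z, x0) := by
    have : HasStrictFDerivAt (fun p : ℂ × ℂ => (p.1, R θ H p.1 p.2)) f1 (z, x0) :=
      hasStrictFDerivAt_fst.prodMk hL
    exact this
  -- local inverse
  set F : ℂ × ℂ → ℂ × ℂ := fun p => (p.1, R θ H p.1 p.2) with hFdef
  have hinv := hF.eventually_left_inverse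
  have hdinv := hF.to_localInverse.hasFDerivAt.differentiableAt
  have hcont := st_continuousAt h g he0 he
  have hG : DifferentiableAt ℂ (fun p : ℂ × ℂ => (p.1, -R θ H p.1 (-p.2))) (z, e) := by
    have h1 : DifferentiableAt ℂ (fun p : ℂ × ℂ => R θ H p.1 p.2) (z, -e) :=
      (R_contDiffAt h (p := (z, -e)) (u_ne h g (by simpa using (by linarith : ‖e‖ ≤ ρ))
        (neg_ne_zero.mpr he0))).differentiableAt (by norm_num)
    have h2 : DifferentiableAt ℂ (fun p : ℂ × ℂ => R θ H p.1 (-p.2)) (z, e) :=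
      DifferentiableAt.comp (f := fun p : ℂ × ℂ => (p.1, -p.2)) (z, e) h1
        (differentiableAt_fst.prodMk differentiableAt_snd.neg)
    exact differentiableAt_fst.prodMk h2.neg
  have hc2 : Tendsto (fun p : ℂ × ℂ => (p.1, st θ H p.1 p.2)) (𝓝 (z, e)) (𝓝 (z, x0)) := by
    exact (continuousAt_fst.prodMk hcont)
  -- nearby points
  obtain ⟨ρ', h1, h2⟩ : ∃ ρ', 2 * ‖e‖ < ρ' ∧ ρ' < ρ := ⟨(2 * ‖e‖ + ρ) / 2, by linarith, by linarith⟩
  have hρ' : 0 < ρ' := by linarith [norm_nonneg e]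
  have ev1 : ∀ᶠ p : ℂ × ℂ in 𝓝 (z, e), Good θ K p.1 ρ' ∧ ‖p.2‖ < ρ' / 2 := by
    have c1 : ContinuousAt (fun p : ℂ × ℂ => ‖p.1 - z‖ + ρ') (z, e) := by fun_prop
    have c2 : ContinuousAt (fun p : ℂ × ℂ => ‖p.2‖) (z, e) := by fun_prop
    have d1 := c1.eventually_lt (continuousAt_const (y := ρ)) (by simpa using h2)
    have d2 := c2.eventually_lt (continuousAt_const (y := ρ' / 2))
      (by show ‖e‖ < ρ' / 2; linarith)
    filter_upwards [d1, d2] with p q1 q2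
    exact ⟨g.mono hρ' q1.le, q2⟩
  have hFz : F (z, x0) = (z, -R θ H z (-e)) := by
    simp only [hFdef]; rw [hx0, hsp.2]
  have hcomp : DifferentiableAt ℂ (fun p : ℂ × ℂ =>
      (hF.localInverse F Fe (z, x0)) (p.1, -R θ H p.1 (-p.2))) (z, e) := by
    refine DifferentiableAt.comp (f := fun p : ℂ × ℂ => (p.1, -R θ H p.1 (-p.2))) (z, e) ?_ hG
    have := hdinv
    rw [hFz] at this
    exact this
  have heq : (fun p : ℂ × ℂ => st θ H p.1 p.2) =ᶠ[𝓝 (z, e)] fun p : ℂ × ℂ =>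
      ((hF.localInverse F Fe (z, x0)) (p.1, -R θ H p.1 (-p.2))).2 := by
    filter_upwards [ev1, hc2.eventually hinv] with p q1 q2
    have s1 := st_spec h q1.1 q1.2.le
    have s2 : F (p.1, st θ H p.1 p.2) = (p.1, -R θ H p.1 (-p.2)) := by
      simp only [hFdef]; rw [s1.2]
    rw [s2] at q2
    rw [q2]
  exact (differentiableAt_snd.comp (z, e) hcomp).congr_of_eventuallyEq heq

end local_

end Crest.Agent.R102.StepE599
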