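import Mathlib
import Crest.Agent.R102.AP3_599
import Crest.Agent.R266.Osgood

/-!
Row 102, T1-E, (AP3), global form near the real axis:
`∂_w³ (b (t + w/2, w) - b (t - w/2, w)) at w = 0` is `(2/5) J (t) + const`,
`J = G + y²/8`, `G = K - 2 y²`.
-/

set_option autoImplicit false
open Complex Metric Set Filter Topology Asymptotics

noncomputable section
namespace Crest.Agent.R102.StepE599

/-! ### joint Taylor expansion, local form -/

lemma int_o_loc {F F' : ℂ × ℂ → ℂ} {n : ℕ} {t : ℂ}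
    (h0 : ∀ᶠ z in 𝓝 t, F (z, 0) = 0)
    (hd : ∀ᶠ p : ℂ × ℂ in 𝓝 (t, 0), HasDerivAt (fun e => F (p.1, e)) (F' p) p.2)
    (ho : F' =o[𝓝 ((t, 0) : ℂ × ℂ)] fun p => p.2 ^ n) :
    F =o[𝓝 ((t, 0) : ℂ × ℂ)] fun p => p.2 ^ (n + 1) := by
  rw [isLittleO_iff] at ho ⊢
  intro c hc
  have h0' : ∀ᶠ p : ℂ × ℂ in 𝓝 (t, 0), F (p.1, 0) = 0 :=
    (continuous_fst.tendsto ((t, 0) : ℂ × ℂ)).eventually h0
  obtain ⟨δ, hδ, hb⟩ := Metric.eventually_nhds_iff_ball.1 ((ho hc).and (hd.and h0'))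
  filter_upwards [Metric.ball_mem_nhds ((t, 0) : ℂ × ℂ) hδ] with p hp
  have hp0 := (hb p hp).2.2
  rw [← ball_prod_same] at hp
  obtain ⟨hp1, hp2⟩ := hp
  have hp2' : ‖p.2‖ < δ := by simpa using hp2
  have hmem : ∀ x ∈ closedBall (0 : ℂ) ‖p.2‖, ((p.1, x) : ℂ × ℂ) ∈ ball ((t, 0) : ℂ × ℂ) δ := by
    intro x hx
    have hx' : ‖x‖ ≤ ‖p.2‖ := by simpa using hx
    rw [← ball_prod_same]
    exact ⟨hp1, by simpa using lt_of_le_of_lt hx' hp2'⟩
  have := (convex_closedBall (0:ℂ) ‖p.2‖).norm_image_sub_le_of_norm_hasDerivWithin_le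
    (f := fun e => F (p.1, e)) (f' := fun e => F' (p.1, e)) (C := c * ‖p.2‖ ^ n)
    (fun x hx => ((hb _ (hmem x hx)).2.1).hasDerivWithinAt)
    (fun x hx => by
      have hx' : ‖x‖ ≤ ‖p.2‖ := by simpa using hx
      have h2 := (hb _ (hmem x hx)).1
      simp only [norm_pow] at h2
      refine h2.trans ?_
      exact mul_le_mul_of_nonneg_left (pow_le_pow_left₀ (norm_nonneg _) hx' n) hc.le)
    (x := 0) (y := p.2) (by simp) (by simp)
  rw [hp0, sub_zero, sub_zero] at this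
  rw [norm_pow, pow_succ]
  calc _ ≤ _ := this
    _ = _ := by ring

theorem taylor_loc (n : ℕ) : ∀ (f : ℕ → ℂ × ℂ → ℂ) (t : ℂ)
    (_ : ∀ k < n, ∀ᶠ p : ℂ × ℂ in 𝓝 (t, 0), HasDerivAt (fun e => f k (p.1, e)) (f (k + 1) p) p.2)
    (_ : ContinuousAt (f n) (t, 0)),
    (fun p : ℂ × ℂ => f 0 p - ∑ k ∈ Finset.range n, f k (p.1, 0) / (k.factorial : ℂ) * p.2 ^ k
      - f n (t, 0) / (n.factorial : ℂ) * p.2 ^ n) =o[𝓝 ((t, 0) : ℂ × ℂ)]
        fun p : ℂ × ℂ => p.2 ^ n := by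
  induction n with
  | zero =>
    intro f t _ hc
    simp only [Finset.range_zero, Finset.sum_empty, sub_zero, Nat.factorial_zero, Nat.cast_one,
      div_one, pow_zero, mul_one]
    rw [isLittleO_one_iff]
    have := hc.tendsto.sub_const (f 0 (t, 0))
    simpa using this
  | succ n ih =>
    intro f t hd hc
    have h1 := ih (fun k => f (k + 1)) t (fun k hk => hd (k + 1) (by omega)) hc
    refine int_o_loc (F := fun p => f 0 p - ∑ k ∈ Finset.range (n + 1),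
      f k (p.1, 0) / (k.factorial : ℂ) * p.2 ^ k
        - f (n + 1) (t, 0) / ((n + 1).factorial : ℂ) * p.2 ^ (n + 1))
      (F' := fun p => f 1 p - ∑ k ∈ Finset.range n,
        f (k + 1) (p.1, 0) / (k.factorial : ℂ) * p.2 ^ k
      - f (n + 1) (t, 0) / (n.factorial : ℂ) * p.2 ^ n) ?_ ?_ h1
    · refine Eventually.of_forall fun z => ?_
      simp only
      rw [Finset.sum_range_succ']
      simp
    · filter_upwards [hd 0 (by omega)] with p hp
      have key : ∀ (k : ℕ) (a e : ℂ), HasDerivAt (fun e : ℂ => a / ((k + 1).factorial : ℂ) * e ^ (k + 1))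
          (a / (k.factorial : ℂ) * e ^ k) e := by
        intro k a e
        have h2 := ((hasDerivAt_pow (k + 1) e).const_mul (a / ((k + 1).factorial : ℂ)))
        refine h2.congr_deriv ?_
        rw [Nat.factorial_succ]
        have h3 : ((k : ℂ) + 1) ≠ 0 := Nat.cast_add_one_ne_zero k
        have h4 : ((k.factorial : ℕ) : ℂ) ≠ 0 := by exact_mod_cast Nat.factorial_ne_zero k
        push_cast
        field_simp
      have h5 : HasDerivAt (fun e : ℂ => ∑ k ∈ Finset.range (n + 1),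
          f k (p.1, 0) / (k.factorial : ℂ) * e ^ k)
          (∑ k ∈ Finset.range n, f (k + 1) (p.1, 0) / (k.factorial : ℂ) * p.2 ^ k) p.2 := by
        have h6 : (fun e : ℂ => ∑ k ∈ Finset.range (n + 1), f k (p.1, 0) / (k.factorial : ℂ) * e ^ k)
            = fun e : ℂ => (∑ k ∈ Finset.range n,
              f (k + 1) (p.1, 0) / ((k + 1).factorial : ℂ) * e ^ (k + 1)) + f 0 (p.1, 0) := by
          ext e
          rw [Finset.sum_range_succ']
          simp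
        rw [h6]
        refine HasDerivAt.add_const _ ?_
        exact HasDerivAt.fun_sum fun k _ => key k (f (k + 1) (p.1, 0)) p.2
      exact (hp.sub h5).sub (key n (f (n + 1) (t, 0)) p.2)

/-! ### partial derivatives of analytic functions -/

lemma partial_an {U : Set (ℂ × ℂ)} (hU : IsOpen U) {F : ℂ × ℂ → ℂ} (hF : AnalyticOnNhd ℂ F U)
    (k : ℕ) : AnalyticOnNhd ℂ (fun p : ℂ × ℂ => iteratedDeriv k (fun w => F (p.1, w)) p.2) U ∧
      ∀ p ∈ U, HasDerivAt (fun e => iteratedDeriv k (fun w => F (p.1, w)) e)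
        (iteratedDeriv (k + 1) (fun w => F (p.1, w)) p.2) p.2 := by
  have step : ∀ k, AnalyticOnNhd ℂ (fun p : ℂ × ℂ => iteratedDeriv k (fun w => F (p.1, w)) p.2) U →
      ∀ p ∈ U, HasDerivAt (fun e => iteratedDeriv k (fun w => F (p.1, w)) e)
        (iteratedDeriv (k + 1) (fun w => F (p.1, w)) p.2) p.2 ∧
        iteratedDeriv (k + 1) (fun w => F (p.1, w)) p.2 =
        fderiv ℂ (fun p : ℂ × ℂ => iteratedDeriv k (fun w => F (p.1, w)) p.2) p (0, 1) := by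
    intro k hk p hp
    have h1 : HasDerivAt (fun e : ℂ => ((p.1, e) : ℂ × ℂ)) (0, 1) p.2 :=
      (hasDerivAt_const p.2 p.1).prodMk (hasDerivAt_id p.2)
    have h2 : HasFDerivAt (fun p : ℂ × ℂ => iteratedDeriv k (fun w => F (p.1, w)) p.2)
        (fderiv ℂ (fun p : ℂ × ℂ => iteratedDeriv k (fun w => F (p.1, w)) p.2) p) (p.1, p.2) :=
      (hk p hp).differentiableAt.hasFDerivAt
    have h3 := h2.comp_hasDerivAt p.2 h1
    have h4 : HasDerivAt (fun e => iteratedDeriv k (fun w => F (p.1, w)) e)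
        (fderiv ℂ (fun p : ℂ × ℂ => iteratedDeriv k (fun w => F (p.1, w)) p.2) p (0, 1)) p.2 := h3
    have h5 : iteratedDeriv (k + 1) (fun w => F (p.1, w)) p.2 =
        fderiv ℂ (fun p : ℂ × ℂ => iteratedDeriv k (fun w => F (p.1, w)) p.2) p (0, 1) := by
      rw [iteratedDeriv_succ]
      exact h4.deriv
    refine ⟨?_, h5⟩
    rw [h5]
    exact h4
  have main : ∀ k, AnalyticOnNhd ℂ (fun p : ℂ × ℂ => iteratedDeriv k (fun w => F (p.1, w)) p.2) U := by
    intro k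
    induction k with
    | zero => simpa [iteratedDeriv_zero] using hF
    | succ k ih =>
      have h1 : AnalyticOnNhd ℂ (fun p => fderiv ℂ (fun p : ℂ × ℂ =>
          iteratedDeriv k (fun w => F (p.1, w)) p.2) p (0, 1)) U := by
        intro p hp
        have h2 := (ih.fderiv) p hp
        exact ((ContinuousLinearMap.apply ℂ ℂ ((0, 1) : ℂ × ℂ)).analyticAt _).comp h2
      exact h1.congr hU (fun p hp => ((step k ih p hp).2).symm)
  exact ⟨main k, fun p hp => (step k (main k) p hp).1⟩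

/-- even derivatives of a locally odd function vanish at `0` -/
lemma iter_odd {f : ℂ → ℂ} (hf : ∀ᶠ w in 𝓝 (0 : ℂ), f (-w) = -f w) {k : ℕ} (hk : Even k) :
    iteratedDeriv k f 0 = 0 := by
  have h1 : (fun w => f (-w)) =ᶠ[𝓝 0] fun w => -f w := hf
  have h2 := h1.iteratedDeriv_eq k
  rw [iteratedDeriv_comp_neg, neg_zero, hk.neg_one_pow, one_smul] at h2
  have h3 : iteratedDeriv k (fun w => -f w) 0 = -iteratedDeriv k f 0 := by
    exact iteratedDeriv_fun_neg k f 0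
  rw [h3] at h2
  have h4 : (2 : ℂ) * iteratedDeriv k f 0 = 0 := by linear_combination h2
  exact (mul_eq_zero.mp h4).resolve_left two_ne_zero

/-- local form with little-o hypotheses -/
theorem coeff_local2 {θ H K : ℂ → ℂ} (h : Ent θ H K) {X : ℂ × ℂ → ℂ} {c : ℂ → ℂ} {t c' : ℂ}
    (hX : Tendsto (fun w : ℂ => X (t, w)) (𝓝[≠] 0) (𝓝 t))
    (h1 : (fun w : ℂ => X (t, w) - X (t - w, w) - (w + w ^ 3 * c (t - w / 2)))
      =o[𝓝[≠] 0] fun w => w ^ 4)
    (h2 : (fun w : ℂ => X (t + w, w) - X (t, w) - (w + w ^ 3 * c (t + w / 2)))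
      =o[𝓝[≠] 0] fun w => w ^ 4)
    (hlaw : ∀ᶠ w in 𝓝[≠] (0 : ℂ),
      X (t + w, w) = X (t, w) + st θ H (X (t, w)) (X (t, w) - X (t - w, w)))
    (hc : HasStrictDerivAt c c' t) :
    c' = deriv K t / 15 - deriv θ t * deriv (deriv θ) t / 4 := by
  have hne : ∀ᶠ w in 𝓝[≠] (0 : ℂ), w ≠ 0 := self_mem_nhdsWithin
  have hw0 : Tendsto (fun w : ℂ => w) (𝓝[≠] 0) (𝓝 0) := tendsto_id.mono_left nhdsWithin_le_nhds
  have k1 : Tendsto (fun w : ℂ => t - w / 2) (𝓝[≠] 0) (𝓝 t) := by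
    have : ContinuousAt (fun w : ℂ => t - w / 2) 0 := by fun_prop
    have h3 : Tendsto (fun w : ℂ => t - w / 2) (𝓝 0) (𝓝 t) := by simpa using this.tendsto
    exact h3.mono_left nhdsWithin_le_nhds
  have k2 : Tendsto (fun w : ℂ => t + w / 2) (𝓝[≠] 0) (𝓝 t) := by
    have : ContinuousAt (fun w : ℂ => t + w / 2) 0 := by fun_prop
    have h3 : Tendsto (fun w : ℂ => t + w / 2) (𝓝 0) (𝓝 t) := by simpa using this.tendsto
    exact h3.mono_left nhdsWithin_le_nhds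
  have a1 := h1.tendsto_div_nhds_zero
  have a2 := h2.tendsto_div_nhds_zero
  -- `e / w → 1`
  have e1 : Tendsto (fun w : ℂ => (X (t, w) - X (t - w, w)) / w) (𝓝[≠] 0) (𝓝 1) := by
    have b1 := (a1.mul (hw0.pow 3)).add
      (((hw0.pow 2).mul (hc.hasDerivAt.continuousAt.tendsto.comp k1)).const_add 1)
    have e : (0 : ℂ) * 0 ^ 3 + (1 + 0 ^ 2 * c t) = 1 := by ring
    rw [e] at b1
    refine b1.congr' ?_
    filter_upwards [hne] with w hw
    simp only [Function.comp_apply]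
    field_simp
    ring
  have e2 : Tendsto (fun w : ℂ => X (t, w) - X (t - w, w)) (𝓝[≠] 0) (𝓝 0) := by
    have := hw0.mul e1
    rw [zero_mul] at this
    refine this.congr' ?_
    filter_upwards [hne] with w hw
    field_simp
  have e3 : ∀ᶠ w in 𝓝[≠] (0 : ℂ), X (t, w) - X (t - w, w) ≠ 0 := by
    filter_upwards [e1.eventually_ne one_ne_zero] with w b h0
    rw [h0, zero_div] at b
    exact b rfl
  have e4 : Tendsto (fun w : ℂ => ((X (t, w), X (t, w) - X (t - w, w)) : ℂ × ℂ)) (𝓝[≠] 0) (nl t) := by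
    refine tendsto_nhdsWithin_iff.mpr ⟨?_, e3⟩
    exact hX.prodMk_nhds e2
  have e5 := (st_lim h t).comp e4
  have e6 := e5.mul (e1.pow 4)
  rw [one_pow, mul_one] at e6
  -- the other side
  have f1 : Tendsto (fun w : ℂ => (c (t + w / 2) - c (t - w / 2)) / w) (𝓝[≠] 0) (𝓝 c') := by
    have f3 := hc.isLittleO.comp_tendsto (k2.prodMk_nhds k1)
    have f4 : ((fun p : ℂ × ℂ => p.1 - p.2) ∘ fun w : ℂ => ((t + w / 2, t - w / 2) : ℂ × ℂ))
        =O[𝓝[≠] (0 : ℂ)] fun w : ℂ => w := by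
      refine IsBigO.of_bound 1 (Eventually.of_forall fun w => le_of_eq ?_)
      simp only [Function.comp_apply, one_mul]
      congr 1
      ring
    have f5 := (f3.trans_isBigO f4).tendsto_div_nhds_zero.add_const c'
    rw [zero_add] at f5
    refine f5.congr' ?_
    filter_upwards [hne] with w hw
    simp only [Function.comp_apply, ContinuousLinearMap.toSpanSingleton_apply, smul_eq_mul]
    field_simp
    ring
  have f2 := (f1.add a2).sub a1
  have e : c' + 0 - 0 = c' := by ring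
  rw [e] at f2
  refine tendsto_nhds_unique (f2.congr' ?_) e6
  filter_upwards [hlaw, e3, hne] with w cc d f
  simp only [Function.comp_apply]
  have c' : st θ H (X (t, w)) (X (t, w) - X (t - w, w)) = X (t + w, w) - X (t, w) := by
    linear_combination -cc
  rw [c', div_pow, div_mul_div_comm, mul_comm ((X (t, w) - X (t - w, w)) ^ 4),
    mul_div_mul_right _ _ (pow_ne_zero 4 d)]
  field_simp
  ring

/-! ### the strip -/

/-- the domain `|Im t| < ρ`, `|w| < r` -/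
def PDm (ρ r : ℝ) : Set (ℂ × ℂ) := {p : ℂ × ℂ | |p.1.im| < ρ ∧ ‖p.2‖ < r}

lemma isOpen_PDm (ρ r : ℝ) : IsOpen (PDm ρ r) := by
  have c1 : Continuous fun p : ℂ × ℂ => |p.1.im| := by fun_prop
  have c2 : Continuous fun p : ℂ × ℂ => ‖p.2‖ := by fun_prop
  exact (isOpen_lt c1 continuous_const).inter (isOpen_lt c2 continuous_const)

/-- label function near the real axis -/
structure LB (ρ r : ℝ) (b : ℂ × ℂ → ℂ) : Prop where
  r_pos : 0 < r
  diff : DifferentiableOn ℂ b (PDm ρ r)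
  zero : ∀ t : ℂ, |t.im| < ρ → b (t, 0) = t
  even : ∀ t w : ℂ, |t.im| < ρ → ‖w‖ < r → b (t, -w) = b (t, w)

/-- the step -/
def SS (b : ℂ × ℂ → ℂ) (p : ℂ × ℂ) : ℂ := b (p.1 + p.2 / 2, p.2) - b (p.1 - p.2 / 2, p.2)

/-- domain of the step -/
def UU (ρ r : ℝ) : Set (ℂ × ℂ) :=
  {p : ℂ × ℂ | (p.1 + p.2 / 2, p.2) ∈ PDm ρ r ∧ (p.1 - p.2 / 2, p.2) ∈ PDm ρ r}

/-- third derivative of the step -/
def c3 (b : ℂ × ℂ → ℂ) (t : ℂ) : ℂ :=
  iteratedDeriv 3 (fun w => b (t + w / 2, w) - b (t - w / 2, w)) 0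

lemma isOpen_UU (ρ r : ℝ) : IsOpen (UU ρ r) := by
  have c1 : Continuous fun p : ℂ × ℂ => ((p.1 + p.2 / 2, p.2) : ℂ × ℂ) := by fun_prop
  have c2 : Continuous fun p : ℂ × ℂ => ((p.1 - p.2 / 2, p.2) : ℂ × ℂ) := by fun_prop
  exact ((isOpen_PDm ρ r).preimage c1).inter ((isOpen_PDm ρ r).preimage c2)

section
variable {ρ r : ℝ} {b : ℂ × ℂ → ℂ} (L : LB ρ r b)
include L

lemma LB.mem0 {t : ℂ} (ht : |t.im| < ρ) : ((t, 0) : ℂ × ℂ) ∈ PDm ρ r :=
  ⟨ht, by simpa using L.r_pos⟩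

lemma LB.mem {t : ℂ} (ht : |t.im| < ρ) : ((t, 0) : ℂ × ℂ) ∈ UU ρ r := by
  refine ⟨?_, ?_⟩
  · have e : ((t + 0 / 2, 0) : ℂ × ℂ) = (t, 0) := by simp
    show ((t + 0 / 2, 0) : ℂ × ℂ) ∈ PDm ρ r
    rw [e]
    exact L.mem0 ht
  · have e : ((t - 0 / 2, 0) : ℂ × ℂ) = (t, 0) := by simp
    show ((t - 0 / 2, 0) : ℂ × ℂ) ∈ PDm ρ r
    rw [e]
    exact L.mem0 ht

lemma LB.SS_an : AnalyticOnNhd ℂ (SS b) (UU ρ r) := by
  refine Crest.Agent.R266.SCV.analyticOnNhd_of_differentiableOn (isOpen_UU ρ r) ?_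
  have d1 : DifferentiableOn ℂ (fun p : ℂ × ℂ => b (p.1 + p.2 / 2, p.2)) (UU ρ r) :=
    L.diff.comp (f := fun p : ℂ × ℂ => ((p.1 + p.2 / 2, p.2) : ℂ × ℂ)) (by fun_prop)
      (fun p hp => hp.1)
  have d2 : DifferentiableOn ℂ (fun p : ℂ × ℂ => b (p.1 - p.2 / 2, p.2)) (UU ρ r) :=
    L.diff.comp (f := fun p : ℂ × ℂ => ((p.1 - p.2 / 2, p.2) : ℂ × ℂ)) (by fun_prop)
      (fun p hp => hp.2)
  exact d1.sub d2

lemma LB.c3_an {t : ℂ} (ht : |t.im| < ρ) : AnalyticAt ℂ (c3 b) t := by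
  have h1 := (partial_an (isOpen_UU ρ r) L.SS_an 3).1 (t, 0) (L.mem ht)
  have h2 : AnalyticAt ℂ (fun t : ℂ => ((t, 0) : ℂ × ℂ)) t := by fun_prop
  have e : c3 b = (fun p : ℂ × ℂ => iteratedDeriv 3 (fun w => SS b (p.1, w)) p.2) ∘
      (fun t : ℂ => ((t, 0) : ℂ × ℂ)) := by
    funext t
    simp only [c3, SS, Function.comp_apply]
  rw [e]
  exact AnalyticAt.comp (f := fun t : ℂ => ((t, 0) : ℂ × ℂ)) h1 h2

lemma LB.z1 {z : ℂ} (hz : |z.im| < ρ) : iteratedDeriv 1 (fun w => SS b (z, w)) 0 = 1 := by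
  have hD := (L.diff.differentiableAt ((isOpen_PDm ρ r).mem_nhds (L.mem0 hz))).hasFDerivAt
  generalize fderiv ℂ b (z, 0) = D at hD
  have d0 : D (1, 0) = 1 := by
    have h1 : HasDerivAt (fun s : ℂ => ((s, 0) : ℂ × ℂ)) (1, 0) z :=
      (hasDerivAt_id z).prodMk (hasDerivAt_const z 0)
    have h2 := hD.comp_hasDerivAt z h1
    have h3 : HasDerivAt (fun s : ℂ => b (s, 0)) 1 z := by
      refine (hasDerivAt_id z).congr_of_eventuallyEq ?_
      have c2 : ContinuousAt (fun z : ℂ => |z.im|) z := by fun_prop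
      filter_upwards [c2.eventually_lt continuousAt_const hz] with s hs
      exact L.zero s hs
    exact h2.unique h3
  have d1 : HasDerivAt (fun w : ℂ => b (z + w / 2, w)) (D (1 / 2, 1)) 0 := by
    have h1 : HasDerivAt (fun w : ℂ => ((z + w / 2, w) : ℂ × ℂ)) (1 / 2, 1) 0 :=
      (((hasDerivAt_id (0 : ℂ)).div_const 2).const_add z).prodMk (hasDerivAt_id 0)
    have h2 : HasFDerivAt b D ((fun w : ℂ => ((z + w / 2, w) : ℂ × ℂ)) 0) := by simpa using hD
    exact h2.comp_hasDerivAt (f := fun w : ℂ => ((z + w / 2, w) : ℂ × ℂ)) 0 h1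
  have d2 : HasDerivAt (fun w : ℂ => b (z - w / 2, w)) (D (-(1 / 2), 1)) 0 := by
    have h1 : HasDerivAt (fun w : ℂ => ((z - w / 2, w) : ℂ × ℂ)) (-(1 / 2), 1) 0 :=
      (((hasDerivAt_id (0 : ℂ)).div_const 2).const_sub z).prodMk (hasDerivAt_id 0)
    have h2 : HasFDerivAt b D ((fun w : ℂ => ((z - w / 2, w) : ℂ × ℂ)) 0) := by simpa using hD
    exact h2.comp_hasDerivAt (f := fun w : ℂ => ((z - w / 2, w) : ℂ × ℂ)) 0 h1
  rw [iteratedDeriv_one]
  have d3 : deriv (fun w => SS b (z, w)) 0 = D (1 / 2, 1) - D (-(1 / 2), 1) := (d1.sub d2).deriv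
  rw [d3, ← map_sub]
  have : ((1 / 2, 1) : ℂ × ℂ) - (-(1 / 2), 1) = (1, 0) := by
    ext
    · simp only [Prod.fst_sub]; ring
    · simp
  rw [this, d0]

lemma LB.odd {z : ℂ} (hz : |z.im| < ρ) : ∀ᶠ w in 𝓝 (0 : ℂ), SS b (z, -w) = -SS b (z, w) := by
  have c1 : ContinuousAt (fun w : ℂ => ((z, w) : ℂ × ℂ)) 0 := by fun_prop
  filter_upwards [c1.eventually ((isOpen_UU ρ r).mem_nhds (L.mem hz))] with w hw
  have hw1 : |(z + w / 2).im| < ρ := hw.1.1
  have hw2 : |(z - w / 2).im| < ρ := hw.2.1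
  have hw3 : ‖w‖ < r := hw.1.2
  have e1 := L.even (z + w / 2) w hw1 hw3
  have e2 := L.even (z - w / 2) w hw2 hw3
  simp only [SS]
  have e3 : z + -w / 2 = z - w / 2 := by ring
  have e4 : z - -w / 2 = z + w / 2 := by ring
  rw [e3, e4, e1, e2]
  ring

/-- joint expansion of the step -/
lemma LB.expand {t : ℂ} (ht : |t.im| < ρ) :
    (fun p : ℂ × ℂ => SS b p - (p.2 + p.2 ^ 3 * (c3 b p.1 / 6)))
        =o[𝓝 ((t, 0) : ℂ × ℂ)] fun p : ℂ × ℂ => p.2 ^ 4 := by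
  have hUt := L.mem ht
  have hT := taylor_loc 4 (fun k p => iteratedDeriv k (fun w => SS b (p.1, w)) p.2) t
    (by
      intro k _
      filter_upwards [(isOpen_UU ρ r).mem_nhds hUt] with p hp
      exact (partial_an (isOpen_UU ρ r) L.SS_an k).2 p hp)
    ((partial_an (isOpen_UU ρ r) L.SS_an 4).1 (t, 0) hUt).continuousAt
  refine hT.congr' ?_ (EventuallyEq.refl _ _)
  have hev : ∀ᶠ z in 𝓝 t, |z.im| < ρ := by
    have c2 : ContinuousAt (fun z : ℂ => |z.im|) t := by fun_prop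
    exact c2.eventually_lt continuousAt_const ht
  have hev2 : ∀ᶠ p : ℂ × ℂ in 𝓝 (t, 0), |p.1.im| < ρ :=
    (continuous_fst.tendsto ((t, 0) : ℂ × ℂ)).eventually hev
  filter_upwards [hev2] with p hp
  simp only [Finset.sum_range_succ, Finset.range_zero, Finset.sum_empty, Nat.factorial]
  have z0 : iteratedDeriv 0 (fun w => SS b (p.1, w)) 0 = 0 := by
    simp [iteratedDeriv_zero, SS]
  have z3 : iteratedDeriv 3 (fun w => SS b (p.1, w)) 0 = c3 b p.1 := rfl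
  have z2 : iteratedDeriv 2 (fun w => SS b (p.1, w)) 0 = 0 := iter_odd (L.odd hp) (by decide)
  have z4 : iteratedDeriv 4 (fun w => SS b (t, w)) 0 = 0 := iter_odd (L.odd ht) (by decide)
  have z00 : iteratedDeriv 0 (fun w => SS b (p.1, w)) p.2 = SS b p := by
    rw [iteratedDeriv_zero]
  rw [z0, L.z1 hp, z2, z3, z4, z00]
  push_cast
  ring

lemma LB.tendsto {t : ℂ} (ht : |t.im| < ρ) : Tendsto (fun w : ℂ => b (t, w)) (𝓝[≠] 0) (𝓝 t) := by
  have hd := L.diff.differentiableAt ((isOpen_PDm ρ r).mem_nhds (L.mem0 ht))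
  have c1 : ContinuousAt (fun w : ℂ => b (t, w)) 0 := by
    have c2 : ContinuousAt b ((fun w : ℂ => ((t, w) : ℂ × ℂ)) 0) := hd.continuousAt
    exact ContinuousAt.comp (f := fun w : ℂ => ((t, w) : ℂ × ℂ)) c2 (by fun_prop)
  have h3 : Tendsto (fun w : ℂ => b (t, w)) (𝓝 0) (𝓝 t) := by
    have := c1.tendsto
    rwa [L.zero t ht] at this
  exact h3.mono_left nhdsWithin_le_nhds

end

variable {θ H K : ℂ → ℂ} {ρ r : ℝ} {b : ℂ × ℂ → ℂ}

/-- derivative of the coefficient -/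
theorem LB.c3_deriv (h : Ent θ H K) (L : LB ρ r b) {t : ℂ} (ht : |t.im| < ρ)
    (hlaw : ∀ᶠ w in 𝓝[≠] (0 : ℂ),
      b (t + w, w) = b (t, w) + st θ H (b (t, w)) (b (t, w) - b (t - w, w))) :
    HasDerivAt (c3 b) (6 * (deriv K t / 15 - deriv θ t * deriv (deriv θ) t / 4)) t := by
  have hc3a := L.c3_an ht
  have hT2 := L.expand ht
  have k1 : Tendsto (fun w : ℂ => ((t - w / 2, w) : ℂ × ℂ)) (𝓝[≠] 0) (𝓝 (t, 0)) := by
    have : ContinuousAt (fun w : ℂ => ((t - w / 2, w) : ℂ × ℂ)) 0 := by fun_prop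
    have h3 : Tendsto (fun w : ℂ => ((t - w / 2, w) : ℂ × ℂ)) (𝓝 0) (𝓝 (t, 0)) := by
      simpa using this.tendsto
    exact h3.mono_left nhdsWithin_le_nhds
  have k2 : Tendsto (fun w : ℂ => ((t + w / 2, w) : ℂ × ℂ)) (𝓝[≠] 0) (𝓝 (t, 0)) := by
    have : ContinuousAt (fun w : ℂ => ((t + w / 2, w) : ℂ × ℂ)) 0 := by fun_prop
    have h3 : Tendsto (fun w : ℂ => ((t + w / 2, w) : ℂ × ℂ)) (𝓝 0) (𝓝 (t, 0)) := by
      simpa using this.tendsto
    exact h3.mono_left nhdsWithin_le_nhds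
  have o1 := hT2.comp_tendsto k1
  have o2 := hT2.comp_tendsto k2
  have p1 : (fun w : ℂ => b (t, w) - b (t - w, w) - (w + w ^ 3 * (c3 b (t - w / 2) / 6)))
      =o[𝓝[≠] 0] fun w => w ^ 4 := by
    refine o1.congr (fun w => ?_) (fun w => rfl)
    simp only [Function.comp_apply, SS]
    have e1 : t - w / 2 + w / 2 = t := by ring
    have e2 : t - w / 2 - w / 2 = t - w := by ring
    rw [e1, e2]
  have p2 : (fun w : ℂ => b (t + w, w) - b (t, w) - (w + w ^ 3 * (c3 b (t + w / 2) / 6)))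
      =o[𝓝[≠] 0] fun w => w ^ 4 := by
    refine o2.congr (fun w => ?_) (fun w => rfl)
    simp only [Function.comp_apply, SS]
    have e1 : t + w / 2 + w / 2 = t + w := by ring
    have e2 : t + w / 2 - w / 2 = t := by ring
    rw [e1, e2]
  have hfin := coeff_local2 h (X := b) (c := fun z => c3 b z / 6) (c' := deriv (c3 b) t / 6)
    (L.tendsto ht) p1 p2 hlaw (hc3a.hasStrictDerivAt.div_const 6)
  have e6 : deriv (c3 b) t = 6 * (deriv K t / 15 - deriv θ t * deriv (deriv θ) t / 4) := by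
    linear_combination 6 * hfin
  rw [← e6]
  exact hc3a.differentiableAt.hasDerivAt

/-- **(AP3)** near the real axis -/
theorem coeff_strip (h : Ent θ H K) (L : LB ρ r b)
    (hlaw : ∀ t : ℂ, |t.im| < ρ → ∀ᶠ w in 𝓝[≠] (0 : ℂ),
      b (t + w, w) = b (t, w) + st θ H (b (t, w)) (b (t, w) - b (t - w, w))) :
    ∃ c : ℂ, ∀ t : ℂ, |t.im| < ρ →
      iteratedDeriv 3 (fun w => b (t + w / 2, w) - b (t - w / 2, w)) 0 =
        2 / 5 * ((K t - 2 * (deriv θ t) ^ 2) + (deriv θ t) ^ 2 / 8) + c := by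
  set T : Set ℂ := {t : ℂ | |t.im| < ρ} with hT
  have hTo : IsOpen T := isOpen_lt (by fun_prop) continuous_const
  have hTc : IsPreconnected T := by
    have : T = Complex.imLm ⁻¹' (Ioo (-ρ) ρ) := by
      ext w
      simp [hT, abs_lt]
    rw [this]
    exact ((convex_Ioo _ _).linear_preimage _).isPreconnected
  set Φ : ℂ → ℂ := fun t => c3 b t
    - 2 / 5 * ((K t - 2 * (deriv θ t) ^ 2) + (deriv θ t) ^ 2 / 8) with hΦ
  have hΦd : ∀ t ∈ T, HasDerivAt Φ 0 t := by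
    intro t ht
    have h1 := L.c3_deriv h ht (hlaw t ht)
    have h2 := ((h.dθ1 t).hasDerivAt.pow 2)
    have h3 := (((h.dK t).hasDerivAt.sub (h2.const_mul 2)).add (h2.div_const 8)).const_mul (2 / 5 : ℂ)
    refine (h1.sub h3).congr_deriv ?_
    push_cast
    ring
  obtain ⟨c, hc⟩ := hTo.exists_is_const_of_deriv_eq_zero hTc
    (fun t ht => (hΦd t ht).differentiableAt.differentiableWithinAt) (fun t ht => (hΦd t ht).deriv)
  refine ⟨c, fun t ht => ?_⟩
  have := hc t ht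
  simp only [hΦ, c3] at this
  linear_combination this

end Crest.Agent.R102.StepE599
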