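import Crest.Agent.R102.LVB_669

/-!
Row 102, T1-E (516), leaf (HF): **the Hartogs figure**.  `Om` has the Levi property (669's `LV`),
`u ≠ 0` real; over the closed disc of centre `u`, radius `|u|/2` the set `Om` contains everything
below height `m`, and, where `‖w‖ ≤ 30 |Im w|`, the column `|Re t - x| < l` up to height `m + 2 g`:
then `Om` contains the points `(t, u)` of the column (shortened by `7 g`) up to height `m + 9 g/10`.
(helper77)
-/

set_option autoImplicit false

open Set Filter Topology Metric Complex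

noncomputable section

namespace Crest.Agent.R102.HF77

open Crest.Agent.R102.K669
open Crest.Agent.R102.Heights150 (pen pen_mono pen_eq pen_le)

/-- the analytic discs -/
def gd (m g : ℝ) (u : ℝ) (w : ℂ) : ℂ :=
  ((m - g : ℝ) : ℂ) * I - I * (g : ℂ) * ((w - u) / ((|u| / 2 : ℝ) : ℂ)) ^ 2

lemma gd_self (m g u : ℝ) : gd m g u (u : ℂ) = ((m - g : ℝ) : ℂ) * I := by
  simp [gd]

lemma gd_im {m g u : ℝ} (w : ℂ) : (gd m g u w).im =
    m - g - g * (((w.re - u) ^ 2 - w.im ^ 2) / (|u| / 2) ^ 2) := by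
  have h1 : ((w - u) / ((|u| / 2 : ℝ) : ℂ)) ^ 2 = (w - u) ^ 2 / (((|u| / 2) ^ 2 : ℝ) : ℂ) := by
    push_cast
    rw [div_pow]
  have h2 : (((w - u) / ((|u| / 2 : ℝ) : ℂ)) ^ 2).re =
      ((w.re - u) ^ 2 - w.im ^ 2) / (|u| / 2) ^ 2 := by
    rw [h1, Complex.div_ofReal_re]
    congr 1
    simp [pow_two, Complex.mul_re]
  rw [gd, Complex.sub_im, mul_assoc I, Complex.I_mul_im, Complex.re_ofReal_mul, h2]
  simp

lemma norm_gd_sub {m g u : ℝ} (hg : 0 ≤ g) (hu : u ≠ 0) {w : ℂ} (hw : ‖w - u‖ ≤ |u| / 2) :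
    ‖gd m g u w - ((m - g : ℝ) : ℂ) * I‖ ≤ g := by
  have hu0 : 0 < |u| / 2 := by positivity
  have h1 : gd m g u w - ((m - g : ℝ) : ℂ) * I =
      -(I * (g : ℂ) * ((w - u) / ((|u| / 2 : ℝ) : ℂ)) ^ 2) := by
    rw [gd]; ring
  rw [h1, norm_neg, norm_mul, norm_mul, Complex.norm_I, one_mul, norm_pow, norm_div,
    Complex.norm_real, Complex.norm_real, Real.norm_eq_abs, Real.norm_eq_abs, abs_of_nonneg hg,
    abs_of_pos hu0]
  have h2 : ‖w - u‖ / (|u| / 2) ≤ 1 := (div_le_one hu0).2 hw
  have h3 : (‖w - u‖ / (|u| / 2)) ^ 2 ≤ 1 := pow_le_one₀ (by positivity) h2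
  nlinarith

lemma pen_key {v lam y : ℝ} (h : lam * v = 1 / 8) :
    7 / 8 * v - (y - lam * y ^ 2) = (v - y) * (1 - lam * v - lam * y) := by
  linear_combination v * h

/-- **Hartogs figure** -/
theorem hf {b : ℝ} {W : Set ℂ} {Om : Set (ℂ × ℂ)} (h : LV b W Om) {u m x l g : ℝ} (hu : u ≠ 0)
    (hW : closedBall (u : ℂ) (|u| / 2) ⊆ W) (hg : 0 < g)
    (hbase : ∀ w ∈ closedBall (u : ℂ) (|u| / 2), ∀ t : ℂ, t.im < m → (t, w) ∈ Om)
    (hcol : ∀ w ∈ closedBall (u : ℂ) (|u| / 2), ‖w‖ ≤ 30 * |w.im| →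
      ∀ t : ℂ, |t.re - x| < l → t.im < m + 2 * g → (t, w) ∈ Om) :
    ∀ t : ℂ, |t.re - x| + 7 * g < l → t.im < m + 9 / 10 * g → (t, (u : ℂ)) ∈ Om := by
  intro t ht1 ht2
  have hu0 : 0 < |u| := abs_pos.2 hu
  set W' : Set ℂ := ball (u : ℂ) (|u| / 2) with hW'
  have hWW : W' ⊆ W := ball_subset_closedBall.trans hW
  have hgd : DifferentiableOn ℂ (gd m g u) W' := by
    unfold gd
    fun_prop
  have him : ∀ w ∈ closedBall (u : ℂ) (|u| / 2), (gd m g u w).im ≤ m := by
    intro w hw
    have h1 := norm_gd_sub (m := m) hg.le hu (w := w) (by simpa [dist_eq_norm] using hw)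
    have h2 := (Complex.abs_im_le_norm (gd m g u w - ((m - g : ℝ) : ℂ) * I)).trans h1
    have h3 : (gd m g u w - ((m - g : ℝ) : ℂ) * I).im = (gd m g u w).im - (m - g) := by simp
    rw [h3] at h2
    linarith [(abs_le.1 h2).2]
  have h' : LV 0 W' (shr W' (gd m g u) Om) := by
    refine h.shear isOpen_ball hWW hgd (fun w hw s hs => ?_)
    refine hbase w (ball_subset_closedBall hw) s ?_
    linarith [him w (ball_subset_closedBall hw)]
  -- the penalty
  set v : ℝ := 19 / 10 * g with hv
  have hv0 : 0 < v := by positivity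
  set lam : ℝ := 1 / (8 * v) with hlam
  have hl : 0 < lam := by positivity
  have e1 : 1 / (8 * lam) = v := by rw [hlam]; field_simp
  have e2 : 1 / (2 * lam) = 4 * v := by rw [hlam]; field_simp; norm_num
  have e3 : lam * v = 1 / 8 := by rw [hlam]; field_simp
  have hp0 : pen lam 0 = 0 := by
    rw [pen_eq (by rw [e2]; linarith)]; ring
  have hpv : pen lam v = 7 / 8 * v := by
    rw [pen_eq (by rw [e2]; linarith)]
    have : lam * v ^ 2 = (lam * v) * v := by ring
    rw [this, e3]; ring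
  have hp := h'.penS t.re hl (by rw [hp0, e1]; exact hv0.le)
  set r0 : ℝ := 7 / 8 * v with hr0
  set R := hgtS (shr W' (gd m g u) Om) (PhS lam t.re) (pen lam 0) (1 / (8 * lam)) with hR
  set ρ : ℝ := 49 / 100 * |u| with hρ
  have hρ0 : 0 < ρ := by positivity
  have hsub : closedBall (u : ℂ) ρ ⊆ W' := closedBall_subset_ball (by rw [hρ]; linarith)
  -- lower bound on the circle
  have hcirc : ∀ w ∈ sphere (u : ℂ) ρ, r0 ≤ R w := by
    intro w hw
    have hwW : w ∈ W' := hsub (sphere_subset_closedBall hw)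
    have hwc : w ∈ closedBall (u : ℂ) (|u| / 2) := ball_subset_closedBall hwW
    refine hp.le_hgt hwW (by rw [e1, hr0]; linarith) (fun τ hτ => ?_)
    have hpen : pen lam τ.im < r0 := by
      have h1 : 0 ≤ lam * (τ.re - t.re) ^ 2 := by positivity
      unfold PhS at hτ
      linarith
    have hτi : τ.im < v := by
      by_contra hcon
      push Not at hcon
      have h1 := pen_mono hl hcon
      rw [hpv] at h1
      linarith
    rcases lt_or_ge τ.im 0 with hneg | hpos
    · exact h'.base w hwW τ hneg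
    have hτr : |τ.re - t.re| < 3 * v := by
      have h1 : 0 ≤ pen lam τ.im := by
        have := pen_mono hl hpos
        rwa [hp0] at this
      have h2 : lam * (τ.re - t.re) ^ 2 < r0 := by
        unfold PhS at hτ
        linarith
      have h3 : (τ.re - t.re) ^ 2 < (3 * v) ^ 2 := by
        have h4 : (τ.re - t.re) ^ 2 = 8 * v * (lam * (τ.re - t.re) ^ 2) := by
          rw [hlam]; field_simp
        rw [h4]
        have h5 : 8 * v * (lam * (τ.re - t.re) ^ 2) < 8 * v * r0 :=
          mul_lt_mul_of_pos_left h2 (by positivity)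
        rw [hr0] at h5
        nlinarith
      exact abs_lt_of_sq_lt_sq h3 (by positivity)
    refine ⟨hwW, ?_⟩
    have hwn : (w.re - u) ^ 2 + w.im ^ 2 = ρ ^ 2 := by
      have h1 : ‖w - u‖ = ρ := by simpa [dist_eq_norm] using hw
      rw [← h1, ← Complex.normSq_eq_norm_sq, Complex.normSq_apply]
      simp [pow_two]
    have hgim := gd_im (m := m) (g := g) (u := u) w
    have hu2 : (|u| / 2) ^ 2 = |u| ^ 2 / 4 := by ring
    rcases le_or_gt (w.im ^ 2) ((11 / 100) ^ 2 * ρ ^ 2) with hs | hs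
    · -- base
      refine hbase w hwc _ ?_
      simp only [Complex.add_im]
      have h1 : 937 / 1000 ≤ ((w.re - u) ^ 2 - w.im ^ 2) / (|u| / 2) ^ 2 := by
        rw [le_div_iff₀ (by positivity), hu2]
        have h2 : (w.re - u) ^ 2 = ρ ^ 2 - w.im ^ 2 := by linarith
        rw [h2]
        have h3 : ρ ^ 2 = 2401 / 10000 * |u| ^ 2 := by rw [hρ]; ring
        rw [h3] at hs ⊢
        nlinarith [sq_nonneg |u|]
      rw [hgim]
      have h2 : g * (937 / 1000) ≤ g * (((w.re - u) ^ 2 - w.im ^ 2) / (|u| / 2) ^ 2) :=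
        mul_le_mul_of_nonneg_left h1 hg.le
      rw [hv] at hτi
      linarith
    · -- column
      have hng := norm_gd_sub (m := m) hg.le hu (w := w) (by simpa [dist_eq_norm] using hwc)
      refine hcol w hwc ?_ _ ?_ ?_
      · have h1 : 11 / 100 * ρ < |w.im| := by
          refine lt_of_pow_lt_pow_left₀ 2 (abs_nonneg _) ?_
          rw [sq_abs, mul_pow]
          exact hs
        have h2 : ‖w‖ ≤ |u| + ρ := by
          have h3 : ‖w - u‖ = ρ := by simpa [dist_eq_norm] using hw
          have h4 : ‖w‖ ≤ ‖(u : ℂ)‖ + ‖w - u‖ := by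
            have := norm_add_le (u : ℂ) (w - u)
            rwa [add_sub_cancel] at this
          rw [Complex.norm_real, Real.norm_eq_abs, h3] at h4
          exact h4
        rw [hρ] at h1 h2
        linarith
      · simp only [Complex.add_re]
        have h1 := (Complex.abs_re_le_norm (gd m g u w - ((m - g : ℝ) : ℂ) * I)).trans hng
        have h2 : (gd m g u w - ((m - g : ℝ) : ℂ) * I).re = (gd m g u w).re := by simp
        rw [h2] at h1
        have h3 : τ.re + (gd m g u w).re - x =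
            (τ.re - t.re) + (gd m g u w).re + (t.re - x) := by ring
        rw [h3]
        have h4 := abs_add_le ((τ.re - t.re) + (gd m g u w).re) (t.re - x)
        have h5 := abs_add_le (τ.re - t.re) (gd m g u w).re
        rw [hv] at hτr
        linarith
      · simp only [Complex.add_im]
        have h1 := him w hwc
        rw [hv] at hτi
        linarith
  -- minimum principle
  have hI : (I * (r0 : ℂ)).im = r0 := by simp
  have hmin := SH712.sh1 hp.lsc hp.nt hρ0 hsub (H := fun _ => I * (r0 : ℂ))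
    diffContOnCl_const (fun w hw => by rw [hI]; exact hcirc w hw) (u : ℂ)
    (mem_closedBall_self hρ0.le)
  have hRu : r0 ≤ R u := by rw [hI] at hmin; exact hmin
  have huW : (u : ℂ) ∈ W' := hsub (mem_closedBall_self hρ0.le)
  -- the point
  set τ : ℂ := t - ((m - g : ℝ) : ℂ) * I with hτ
  have hτre : τ.re = t.re := by simp [hτ]
  have hτim : τ.im = t.im - (m - g) := by simp [hτ]
  have hτv : τ.im < v := by rw [hτim, hv]; linarith
  have hΦ : PhS lam t.re τ < R u := by
    refine lt_of_lt_of_le ?_ hRu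
    unfold PhS
    rw [hτre, sub_self, pen_eq (by rw [e2]; linarith)]
    have h1 : r0 - (τ.im - lam * τ.im ^ 2) = (v - τ.im) * (1 - lam * v - lam * τ.im) :=
      pen_key e3
    have h2 : 0 < (v - τ.im) * (1 - lam * v - lam * τ.im) := by
      refine mul_pos (by linarith) ?_
      have h3 : lam * τ.im ≤ lam * v := mul_le_mul_of_nonneg_left hτv.le hl.le
      rw [e3] at h3
      rw [e3]
      linarith
    linarith
  have hmem := (hp.reg huW hΦ).2
  rw [gd_self] at hmem
  have : τ + ((m - g : ℝ) : ℂ) * I = t := by rw [hτ]; ring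
  rwa [this] at hmem

end Crest.Agent.R102.HF77
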