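import Crest.Agent.R102.LV_669

/-!
Row 102, T1-B (helper669), part B: the penalised heights `Dh (tilt α (kO Om)) lam s` of 150 are
superharmonic for every LV set; the regular set of the main sheet (KontB_669) is an LV set.
-/

set_option autoImplicit false
set_option linter.unusedSectionVars false

open Set Filter Topology Metric Complex MeasureTheory
open scoped Real

noncomputable section

namespace Crest.Agent.R102.K669

open Crest.Agent.R102.Heights150 (HD pen Dh tilt pen_mono pen_eq pen_le_max pen_le)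

/-- the penalty `pen lam y + lam (x - s)²` -/
def PhS (lam s : ℝ) (t : ℂ) : ℝ := pen lam t.im + lam * (t.re - s) ^ 2

lemma pen_cont {lam : ℝ} (hl : 0 < lam) : Continuous (pen lam) := by
  have h : pen lam = fun y => min y (1 / (2 * lam)) - lam * (min y (1 / (2 * lam))) ^ 2 := by
    funext y
    unfold pen
    split_ifs with h
    · rw [min_eq_left h]
    · rw [min_eq_right (not_le.1 h).le]
      field_simp
      ring
  rw [h]
  fun_prop

lemma PhS_cont {lam s : ℝ} (hl : 0 < lam) : Continuous (PhS lam s) := by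
  have h := (pen_cont hl).comp Complex.continuous_im
  have h2 : Continuous (fun t : ℂ => lam * (t.re - s) ^ 2) := by fun_prop
  exact h.add h2

/-- where the penalised level is at most `1/(8 lam)` we are strictly below the vertex -/
lemma lt_of_pen_le {lam y : ℝ} (hl : 0 < lam) (h : pen lam y ≤ 1 / (8 * lam)) :
    y < 1 / (2 * lam) := by
  by_contra hcon
  push Not at hcon
  have h1 := pen_mono hl hcon
  rw [pen_eq le_rfl] at h1
  have h2 : 1 / (2 * lam) - lam * (1 / (2 * lam)) ^ 2 = 1 / (4 * lam) := by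
    field_simp
    ring
  rw [h2] at h1
  have h3 : 1 / (8 * lam) < 1 / (4 * lam) :=
    one_div_lt_one_div_of_lt (by positivity) (by linarith)
  linarith

lemma lt_of_pen_lt {lam y y' : ℝ} (hl : 0 < lam) (h : pen lam y < pen lam y') : y < y' := by
  by_contra hcon
  push Not at hcon
  exact absurd (pen_mono hl hcon) (not_le.2 h)

/-- **LV sets have admissible penalties** -/
theorem LV.penS {b : ℝ} {W : Set ℂ} {Om : Set (ℂ × ℂ)} (h : LV b W Om) {lam : ℝ} (s : ℝ)
    (hl : 0 < lam) (hb : pen lam b ≤ 1 / (8 * lam)) :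
    PenS Om W (PhS lam s) (pen lam b) (1 / (8 * lam))
      {t | |t.re - s| ≤ Real.sqrt ((1 / (8 * lam) - pen lam b) / lam) ∧ b ≤ t.im ∧
        t.im ≤ 1 / (2 * lam)} := by
  have hsq : ∀ x : ℝ, 0 ≤ lam * (x - s) ^ 2 := fun x => by positivity
  refine ⟨h.isOpen, h.WO, hb, ?_, PhS_cont hl, ?_, ?_, ?_⟩
  · intro w hw t ht
    refine h.base w hw t ?_
    refine lt_of_pen_lt hl (lt_of_le_of_lt ?_ ht)
    have := hsq t.re
    unfold PhS
    linarith
  · -- touching
    rintro t ⟨-, -, -⟩ w0 hw0 hm hM H hH h0 δ hδ hev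
    have hpt : pen lam t.im ≤ 1 / (8 * lam) := by
      have := hsq t.re
      unfold PhS at hM
      linarith
    have hty := lt_of_pen_le hl hpt
    set P : ℂ → ℂ := fun z => I * (PhS lam s t : ℂ) +
      ((1 - 2 * lam * t.im : ℝ) + (2 * lam * (t.re - s) : ℝ) * I) * (z - t) +
      I * lam * (z - t) ^ 2 with hP
    have hd : ∀ z : ℂ, HasDerivAt P
        (((1 - 2 * lam * t.im : ℝ) + (2 * lam * (t.re - s) : ℝ) * I) +
          I * lam * (2 * (z - t))) z := by
      intro z
      have e1 := ((hasDerivAt_id z).sub_const t).const_mul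
        (((1 - 2 * lam * t.im : ℝ) : ℂ) + ((2 * lam * (t.re - s) : ℝ) : ℂ) * I)
      have e2 := (((hasDerivAt_id z).sub_const t).pow 2).const_mul (I * (lam : ℂ))
      have e3 := (e1.const_add (I * (PhS lam s t : ℂ))).add e2
      refine e3.congr_deriv ?_
      simp
    have hPa : AnalyticAt ℂ P t := Differentiable.analyticAt (fun z => (hd z).differentiableAt) t
    have hP' : 0 < (deriv P t).re := by
      rw [(hd t).deriv]
      simp only [sub_self, mul_zero, add_zero, add_re, ofReal_re, mul_re, ofReal_im, I_re, I_im]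
      rw [lt_div_iff₀ (by positivity)] at hty
      linarith
    have hPt : (P t).im = (H w0).im := by
      rw [h0]; simp [hP]
    refine h.levi t w0 hw0 P (fun _ => 0) H (by simpa using hPa) (by simpa using hP')
      analyticAt_const hH (by simpa using hPt) δ hδ ?_
    have e2 : ∀ᶠ z : ℂ in 𝓝 t, z.im < 1 / (2 * lam) :=
      (isOpen_lt Complex.continuous_im continuous_const).mem_nhds hty
    have e3 : ∀ᶠ q : ℂ × ℂ in 𝓝 (t, w0), q.1.im < 1 / (2 * lam) :=
      (continuousAt_fst (p := (t, w0))).eventually e2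
    filter_upwards [hev, e3] with q hq hq2 hq3
    refine hq ?_
    have hq3' : (P q.1).im < (H q.2).im + δ * ‖q.2 - w0‖ ^ 2 := by simpa using hq3
    refine lt_of_eq_of_lt ?_ hq3'
    have e4 : (P q.1).im = PhS lam s t + (1 - 2 * lam * t.im) * (q.1.im - t.im) +
        2 * lam * (t.re - s) * (q.1.re - t.re) +
        lam * ((q.1.re - t.re) ^ 2 - (q.1.im - t.im) ^ 2) := by
      simp only [hP, add_im, mul_im, mul_re, I_re, I_im, ofReal_re, ofReal_im, add_re, sub_re,
        sub_im, pow_two]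
      ring
    rw [e4]
    simp only [PhS]
    rw [pen_eq hty.le, pen_eq (le_of_lt hq2)]
    ring
  · set L := Real.sqrt ((1 / (8 * lam) - pen lam b) / lam) with hL
    have h1 : {t : ℂ | |t.re - s| ≤ L ∧ b ≤ t.im ∧ t.im ≤ 1 / (2 * lam)} =
        Icc (s - L) (s + L) ×ℂ Icc b (1 / (2 * lam)) := by
      ext t
      simp only [Set.mem_ofPred_eq, Complex.mem_reProdIm, mem_Icc, _root_.abs_le]
      constructor
      · rintro ⟨⟨a1, a2⟩, a3, a4⟩; exact ⟨⟨by linarith, by linarith⟩, a3, a4⟩
      · rintro ⟨⟨a1, a2⟩, a3, a4⟩; exact ⟨⟨by linarith, by linarith⟩, a3, a4⟩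
    rw [h1]
    exact isCompact_Icc.reProdIm isCompact_Icc
  · intro w hw t ht hn
    have hpt : pen lam t.im ≤ 1 / (8 * lam) := by
      have := hsq t.re
      unfold PhS at ht
      linarith
    have hty := lt_of_pen_le hl hpt
    have hb' : b ≤ t.im := by
      by_contra hcon
      push Not at hcon
      exact hn (h.base w hw t hcon)
    refine ⟨t, ⟨?_, hb', hty.le⟩, le_rfl, hn⟩
    refine Real.abs_le_sqrt ?_
    rw [le_div_iff₀ hl]
    have h1 := pen_mono hl hb'
    unfold PhS at ht
    linarith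

/-- the sheared set for the tilt `α` -/
lemma mem_shr_tilt {W : Set ℂ} {Om : Set (ℂ × ℂ)} {α : ℝ} {x y : ℝ} {z : ℂ} :
    (((x : ℂ) + y * I, z) : ℂ × ℂ) ∈ shr W (fun z => α * z) Om ↔
      z ∈ W ∧ ((((x + α * z.re : ℝ) : ℂ) + ((y + α * z.im : ℝ) : ℂ) * I, z) : ℂ × ℂ) ∈ Om := by
  unfold shr
  simp only [Set.mem_ofPred_eq]
  have : (x : ℂ) + y * I + α * z = ((x + α * z.re : ℝ) : ℂ) + ((y + α * z.im : ℝ) : ℂ) * I := by
    apply Complex.ext <;> simp
  rw [this]

/-- **150's penalised tilted height is the penalised height of the sheared set** -/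
theorem LV.Dh_eq {b : ℝ} {W : Set ℂ} {Om : Set (ℂ × ℂ)} (h : LV b W Om) (hb1 : b ≤ 1) {a : ℝ}
    {α : ℝ} (hα : ∀ w ∈ W, |α * w.im| ≤ a) (ha : a ≤ 1 / 2) {lam : ℝ} (s : ℝ) (hl : 1 ≤ lam)
    (hb : pen lam (b - a) ≤ 1 / (8 * lam)) {z : ℂ} (hz : z ∈ W) :
    Dh (tilt α (kO Om)) lam s z =
      hgtS (shr W (fun z => α * z) Om) (PhS lam s) (pen lam (b - a)) (1 / (8 * lam)) z := by
  have hl0 : 0 < lam := by linarith
  have hshr : LV (b - a) W (shr W (fun z => α * z) Om) := by
    refine h.shear h.WO (subset_refl _) (by fun_prop) ?_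
    intro w hw t ht
    refine h.base w hw t ?_
    have h1 := hα w hw
    have h2 := le_abs_self (α * w.im)
    have h3 : ((α : ℂ) * w).im = α * w.im := by simp
    rw [h3] at ht
    linarith
  have hp := hshr.penS s hl0 hb
  have hk : ∀ x, b - a ≤ tilt α (kO Om) x z := by
    intro x
    have h1 := h.base_le_kO hb1 (x + α * z.re) hz
    have h2 := hα z hz
    have h3 := le_abs_self (α * z.im)
    unfold tilt
    linarith
  have hbdd : BddBelow (range fun x : ℝ =>
      min (1 / (8 * lam)) (pen lam (tilt α (kO Om) x z) + lam * (x - s) ^ 2)) :=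
    Heights150.bdd hl0 hk
  apply le_antisymm
  · refine hp.le_hgt hz ?_ ?_
    · exact (ciInf_le hbdd s).trans (min_le_left _ _)
    · intro t ht
      have h1 : Dh (tilt α (kO Om)) lam s z ≤
          min (1 / (8 * lam)) (pen lam (tilt α (kO Om) t.re z) + lam * (t.re - s) ^ 2) :=
        ciInf_le hbdd t.re
      have h2 := ht.trans_le (h1.trans (min_le_right _ _))
      unfold PhS at h2
      have h3 := lt_of_pen_lt hl0 (by linarith : pen lam t.im < pen lam (tilt α (kO Om) t.re z))
      have h4 : t = (t.re : ℂ) + t.im * I := (Complex.re_add_im t).symm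
      rw [h4, mem_shr_tilt]
      refine ⟨hz, h.mem_of_lt hz ?_⟩
      unfold tilt at h3
      linarith
  · refine csSup_le ⟨_, hp.m_mem hz⟩ ?_
    rintro r ⟨hr1, hr2, hr3⟩
    refine le_ciInf (fun x => le_min hr2 ?_)
    by_contra hcon
    push Not at hcon
    set y0 := tilt α (kO Om) x z with hy0
    have hlow : pen lam y0 ≤ 1 / (8 * lam) := by
      have : 0 ≤ lam * (x - s) ^ 2 := by positivity
      linarith
    have hy2 := lt_of_pen_le hl0 hlow
    have h12 : 1 / (2 * lam) ≤ 1 / 2 := one_div_le_one_div_of_le (by norm_num) (by linarith)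
    have hk1 : kO Om (x + α * z.re) z < 1 := by
      have h2 := hα z hz
      have h3 := le_abs_self (α * z.im)
      rw [hy0] at hy2
      unfold tilt at hy2
      linarith
    have hnm := h.kO_notMem hk1 le_rfl
    have h5 := hr3 ((x : ℂ) + y0 * I) (by
      unfold PhS
      simp only [add_re, ofReal_re, mul_re, I_re, mul_zero, ofReal_im, I_im, mul_one, sub_self,
        add_zero, add_im, mul_im, zero_add]
      exact hcon)
    rw [mem_shr_tilt] at h5
    apply hnm
    have h6 : y0 + α * z.im = kO Om (x + α * z.re) z := by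
      rw [hy0]; unfold tilt; ring
    rw [h6] at h5
    exact h5.2

/-- **150's (P2), general form**: the penalised tilted heights are superharmonic -/
theorem LV.supH_Dh {b : ℝ} {W : Set ℂ} {Om : Set (ℂ × ℂ)} (h : LV b W Om) (hb1 : b ≤ 1) {a : ℝ}
    {α : ℝ} (hα : ∀ w ∈ W, |α * w.im| ≤ a) (ha : a ≤ 1 / 2) {lam : ℝ} (s : ℝ) (hl : 1 ≤ lam)
    (hb : pen lam (b - a) ≤ 1 / (8 * lam)) :
    Slope811.SupH W (Dh (tilt α (kO Om)) lam s) := by
  have hl0 : 0 < lam := by linarith
  have hshr : LV (b - a) W (shr W (fun z => α * z) Om) := by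
    refine h.shear h.WO (subset_refl _) (by fun_prop) ?_
    intro w hw t ht
    refine h.base w hw t ?_
    have h1 := hα w hw
    have h2 := le_abs_self (α * w.im)
    have h3 : ((α : ℂ) * w).im = α * w.im := by simp
    rw [h3] at ht
    linarith
  have h1 := (hshr.penS s hl0 hb).supH
  have heq : ∀ z ∈ W, hgtS (shr W (fun z => α * z) Om) (PhS lam s) (pen lam (b - a))
      (1 / (8 * lam)) z = Dh (tilt α (kO Om)) lam s z := fun z hz =>
    (h.Dh_eq hb1 hα ha s hl hb hz).symm
  refine ⟨?_, ?_⟩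
  · intro z hz c hc
    rw [← heq z hz] at hc
    filter_upwards [h1.lsc z hz c hc, self_mem_nhdsWithin] with z' hz' hzW
    rwa [heq z' hzW] at hz'
  · intro c hc
    obtain ⟨r0, hr0, H⟩ := h1.cmp c hc
    refine ⟨r0, hr0, fun r hr hrr => ⟨(H r hr hrr).1, fun p hp hs => ?_⟩⟩
    have hsub := (H r hr hrr).1
    rw [← heq c hc]
    refine (H r hr hrr).2 p hp (fun z hz => ?_)
    rw [heq z (hsub (sphere_subset_closedBall hz))]
    exact hs z hz

/-- **150's (P2)** on the half disc with base `{Im t < 0}` -/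
theorem LV.supH_HD {R : ℝ} (hR : 0 ≤ R) {Om : Set (ℂ × ℂ)} (h : LV 0 (HD R) Om) {α : ℝ}
    (hα : |α| * R ≤ 1 / 2) {lam : ℝ} (s : ℝ) (hl : 1 ≤ lam) :
    Slope811.SupH (HD R) (Dh (tilt α (kO Om)) lam s) := by
  refine h.supH_Dh (by norm_num) (a := |α| * R) ?_ hα s hl ?_
  · intro w hw
    rw [abs_mul]
    refine mul_le_mul_of_nonneg_left ?_ (abs_nonneg _)
    exact (Complex.abs_im_le_norm w).trans hw.2.le
  · have h1 : pen lam (0 - |α| * R) ≤ 0 - |α| * R := pen_le (by linarith) _
    have h2 : 0 ≤ |α| * R := by positivity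
    have h3 : 0 < 1 / (8 * lam) := by positivity
    linarith

/-- **the regular set of the main sheet is an LV set** -/
theorem lv_isReg {E : Type*} [NormedAddCommGroup E] [NormedSpace ℂ E] [CompleteSpace E]
    {F : ℂ × ℂ → E} {C : Set E} {y1 y0 : ℝ} {W : Set ℂ} (h10 : y1 < y0) (hW : IsOpen W)
    (hF : DifferentiableOn ℂ F (Slab y1 y0 W)) (hC : ∀ q ∈ Slab y1 y0 W, F q ∈ C)
    (hCo : IsOpen C) (hCc : Convex ℝ C) :
    LV y0 W {p | p.2 ∈ W ∧ IsReg F C y1 y0 W p} := by
  refine ⟨(hW.preimage continuous_snd).inter isOpen_isReg, hW, fun p hp => hp.1, ?_, ?_, ?_⟩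
  · intro w hw t ht
    exact ⟨hw, isReg_of_slab hW hF hC ht hw⟩
  · rintro ⟨t, w⟩ ⟨hw, hr⟩ y hy
    refine ⟨hw, hr.below ?_ rfl ?_⟩
    · simp
    · simp [hy]
  · intro t0 w0 hw0 P sg H hP hP' hsg hH h0 δ hδ hev
    refine ⟨hw0, ?_⟩
    rcases lt_or_ge t0.im y0 with hlt | hge
    · exact isReg_of_slab hW hF hC hlt hw0
    -- a small disc around `w0`
    set η : ℝ := (y0 - y1) / 4 with hη
    have hη0 : 0 < η := by rw [hη]; linarith
    have e1 : ∀ᶠ w in 𝓝 w0, AnalyticAt ℂ sg w := hsg.eventually_analyticAt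
    have e2 : ∀ᶠ w in 𝓝 w0, |(sg w).im - (sg w0).im| < η := by
      have hc : ContinuousAt (fun w => |(sg w).im - (sg w0).im|) w0 := by
        have h1 := hsg.continuousAt
        exact ((Complex.continuous_im.continuousAt.comp h1).sub continuousAt_const).abs
      exact hc.eventually_lt continuousAt_const (by simpa using hη0)
    obtain ⟨ρ, hρ, hρs⟩ := Metric.eventually_nhds_iff_ball.1 (e1.and (e2.and (hW.mem_nhds hw0)))
    set W' := ball w0 ρ with hW'
    have hWW : W' ⊆ W := fun w hw => (hρs w hw).2.2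
    have hsgd : DifferentiableOn ℂ sg W' := fun w hw =>
      (hρs w hw).1.differentiableAt.differentiableWithinAt
    have hw0' : w0 ∈ W' := mem_ball_self hρ
    set y1' : ℝ := y1 - (sg w0).im + η with hy1'
    set y0' : ℝ := y0 - (sg w0).im - η with hy0'
    have h10' : y1' < y0' := by rw [hy1', hy0', hη]; linarith
    have hlow : ∀ w ∈ W', y1 ≤ y1' + (sg w).im := by
      intro w hw
      have := (abs_lt.1 (hρs w hw).2.1).1
      rw [hy1']; linarith
    have hreg : ∀ w ∈ W', ∀ t : ℂ, y1 < t.im → t.im < y0' + (sg w).im →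
        IsReg F C y1 y0 W (t, w) := by
      intro w hw t _ ht
      refine isReg_of_slab hW hF hC ?_ (hWW hw)
      have := (abs_lt.1 (hρs w hw).2.1).2
      simp only
      rw [hy0'] at ht
      linarith
    have hsh := fun (t' : ℂ) (w : ℂ) (hw : w ∈ W') =>
      isReg_shear (F := F) (C := C) h10 hW hF isOpen_ball hWW hsgd h10' hlow hreg
        (t' := t') (w0 := w) hw
    set F' : ℂ × ℂ → E := fun q => ext F C y1 y0 W (q.1 + sg q.2, q.2) with hF'
    have hslab : ∀ q ∈ Slab y1' y0' W', IsReg F C y1 y0 W (q.1 + sg q.2, q.2) ∧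
        y1 < (q.1 + sg q.2).im := by
      rintro q ⟨a1, a2, a3⟩
      have h1 := hlow q.2 a3
      have h2 : y1 < (q.1 + sg q.2).im := by simp only [add_im]; linarith
      exact ⟨hreg q.2 a3 _ h2 (by simp only [add_im]; linarith), h2⟩
    have hF'd : DifferentiableOn ℂ F' (Slab y1' y0' W') := by
      intro q hq
      refine DifferentiableAt.differentiableWithinAt ?_
      obtain ⟨h1, h2⟩ := hslab q hq
      have h3 := ext_differentiableAt h10 h1 h2
      have h4 : DifferentiableAt ℂ sg q.2 := (hρs q.2 hq.2.2).1.differentiableAt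
      have h5 : DifferentiableAt ℂ (fun q : ℂ × ℂ => sg q.2) q :=
        DifferentiableAt.comp (g := sg) (f := fun q : ℂ × ℂ => q.2) q h4 differentiableAt_snd
      have h6 : DifferentiableAt ℂ (fun q : ℂ × ℂ => ((q.1 + sg q.2, q.2) : ℂ × ℂ)) q :=
        (differentiableAt_fst.add h5).prodMk differentiableAt_snd
      exact DifferentiableAt.comp (g := ext F C y1 y0 W)
        (f := fun q : ℂ × ℂ => ((q.1 + sg q.2, q.2) : ℂ × ℂ)) q h3 h6
    have hF'C : ∀ q ∈ Slab y1' y0' W', F' q ∈ C := fun q hq =>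
      ext_mem h10 (hslab q hq).1 (hslab q hq).2
    have hgoal : IsReg F' C y1' y0' W' (t0 - sg w0, w0) := by
      rcases lt_or_ge (t0 - sg w0).im y0' with hl | hg
      · exact isReg_of_slab isOpen_ball hF'd hF'C hl hw0'
      refine isReg_of_touch h10' isOpen_ball hF'd hF'C hCo hCc (by linarith) hw0' hP hP' hH h0
        hδ ?_
      have hc : ContinuousAt (fun q : ℂ × ℂ => ((q.1 + sg q.2, q.2) : ℂ × ℂ))
          (t0 - sg w0, w0) := by
        refine ContinuousAt.prodMk ?_ continuousAt_snd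
        refine continuousAt_fst.add ?_
        exact ContinuousAt.comp (g := sg) (f := fun q : ℂ × ℂ => q.2) hsg.continuousAt
          continuousAt_snd
      have hpt : ((t0 - sg w0 + sg w0, w0) : ℂ × ℂ) = (t0, w0) := by simp
      have hev' := hc.eventually (by simpa only [hpt] using hev)
      have hmem : ∀ᶠ q : ℂ × ℂ in 𝓝 (t0 - sg w0, w0), q.2 ∈ W' :=
        (continuousAt_snd (p := (t0 - sg w0, w0))).eventually (isOpen_ball.mem_nhds hw0')
      filter_upwards [hev', hmem] with q hq hqW hq3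
      have h7 := hq (by simpa using hq3)
      exact (hsh q.1 q.2 hqW).2 h7.2
    have := (hsh (t0 - sg w0) w0 hw0').1 hgoal
    simpa using this

end Crest.Agent.R102.K669
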