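import Crest.Agent.R102.Fatou_472

/-!
# Superharmonic functions in the mean-value sense, minimum principle
-/

namespace Crest.Agent.R102.Slope231

open MeasureTheory Set Filter Topology Complex Metric
open scoped Real

/-- superharmonic in the circle-mean sense -/
structure SuperH (V : ℂ → ℝ) (W : Set ℂ) : Prop where
  lsc : LowerSemicontinuousOn V W
  int : ∀ c r, 0 < r → closedBall c r ⊆ W →
    IntervalIntegrable (fun θ : ℝ => V (circleMap c r θ)) volume 0 (2 * π)
  mean : ∀ c r, 0 < r → closedBall c r ⊆ W →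
    (2 * π)⁻¹ * ∫ θ in (0 : ℝ)..(2 * π), V (circleMap c r θ) ≤ V c

/-- Minimum principle for lsc functions satisfying the super mean value property on small circles -/
theorem min_principle {U : Set ℂ} (hU : IsOpen U) (hUb : Bornology.IsBounded U) {G : ℂ → ℝ}
    (hG : LowerSemicontinuousOn G U)
    (hmean : ∀ z ∈ U, ∃ r > 0, closedBall z r ⊆ U ∧
      IntervalIntegrable (fun θ : ℝ => G (circleMap z r θ)) volume 0 (2 * π) ∧
      (2 * π)⁻¹ * ∫ θ in (0 : ℝ)..(2 * π), G (circleMap z r θ) ≤ G z)
    (hbd : ∀ ζ ∈ frontier U, ∀ ε > 0, ∀ᶠ z in 𝓝[U] ζ, -ε < G z) :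
    ∀ z ∈ U, 0 ≤ G z := by
  classical
  intro z0 hz0
  by_contra hneg
  push Not at hneg
  set δ : ℝ := - G z0 with hδ
  have hδ0 : 0 < δ := by rw [hδ]; linarith
  set G' : ℂ → ℝ := fun z => if z ∈ U then min (G z) 0 else 0 with hG'
  have hlsc : LowerSemicontinuous G' := by
    intro z y hy
    by_cases hz : z ∈ U
    · have h1 : G' z = min (G z) 0 := by simp [hG', hz]
      rw [h1] at hy
      have hy' : y < G z ∧ y < 0 := lt_min_iff.1 hy
      have h2 := hG z hz y hy'.1
      rw [hU.nhdsWithin_eq hz] at h2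
      filter_upwards [h2, hU.mem_nhds hz] with w hw hwU
      have h3 : G' w = min (G w) 0 := by simp [hG', hwU]
      change y < G' w
      rw [h3]
      exact lt_min hw hy'.2
    · have h1 : G' z = 0 := by simp [hG', hz]
      rw [h1] at hy
      by_cases hzc : z ∈ closure U
      · have hzf : z ∈ frontier U := by
          rw [hU.frontier_eq]; exact ⟨hzc, hz⟩
        have hy0 : y < 0 := hy
        have h2 := hbd z hzf (-y) (by linarith)
        rw [eventually_nhdsWithin_iff] at h2
        filter_upwards [h2] with w hw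
        change y < G' w
        by_cases hwU : w ∈ U
        · have h3 : G' w = min (G w) 0 := by simp [hG', hwU]
          rw [h3]
          exact lt_min (by simpa using hw hwU) hy0
        · simpa [hG', hwU] using hy0
      · have h2 : (closure U)ᶜ ∈ 𝓝 z := isClosed_closure.isOpen_compl.mem_nhds hzc
        filter_upwards [h2] with w hw
        have hwU : w ∉ U := fun h => hw (subset_closure h)
        simpa [hG', hwU] using hy
  obtain ⟨R, hR⟩ := hUb.subset_closedBall z0
  have hcl : IsCompact (closure U) := by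
    have : closure U ⊆ closedBall z0 R := closure_minimal hR isClosed_closedBall
    exact (isCompact_closedBall z0 R).of_isClosed_subset isClosed_closure this
  have hR0 : 0 ≤ R := by
    have := hR hz0
    simpa using this
  set ε : ℝ := δ / (4 * (R ^ 2 + 1)) with hε
  have hε0 : 0 < ε := by positivity
  have hεR : ε * R ^ 2 ≤ δ / 4 := by
    rw [hε, div_mul_eq_mul_div, div_le_div_iff₀ (by positivity) (by norm_num)]
    nlinarith [sq_nonneg R]
  have hcont : Continuous fun z : ℂ => -(ε * ‖z - z0‖ ^ 2) := by fun_prop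
  have hlsc2 : LowerSemicontinuous fun z => G' z + -(ε * ‖z - z0‖ ^ 2) :=
    hlsc.add hcont.lowerSemicontinuous
  obtain ⟨z1, hz1, hmin⟩ := (hlsc2.lowerSemicontinuousOn (closure U)).exists_isMinOn
    ⟨z0, subset_closure hz0⟩ hcl
  have hm0 : G' z1 + -(ε * ‖z1 - z0‖ ^ 2) ≤ -δ := by
    have := hmin (subset_closure hz0)
    simp only [Set.mem_ofPred_eq] at this
    refine this.trans ?_
    have h1 : G' z0 = G z0 := by simp [hG', hz0, hneg.le]
    rw [h1]; simp [hδ]
  have hz1R : ‖z1 - z0‖ ≤ R := by
    have : closure U ⊆ closedBall z0 R := closure_minimal hR isClosed_closedBall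
    have := this hz1
    simpa [dist_eq_norm] using this
  have hz1sq : ε * ‖z1 - z0‖ ^ 2 ≤ δ / 4 := by
    refine le_trans ?_ hεR
    gcongr
  have hz1U : z1 ∈ U := by
    by_contra h
    have h1 : G' z1 = 0 := by simp [hG', h]
    rw [h1] at hm0
    linarith
  have hG1neg : G' z1 < 0 := by linarith
  have hG1 : G' z1 = G z1 := by
    have h1 : G' z1 = min (G z1) 0 := by simp [hG', hz1U]
    rw [h1] at hG1neg ⊢
    rcases min_lt_iff.1 hG1neg with h | h
    · exact min_eq_left h.le
    · exact absurd h (lt_irrefl _)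
  obtain ⟨r, hr, hball, hint, hmn⟩ := hmean z1 hz1U
  -- lower bound on the circle
  set m : ℝ := G' z1 + -(ε * ‖z1 - z0‖ ^ 2) with hm
  have hlow : ∀ θ : ℝ, m + ε * ‖circleMap z1 r θ - z0‖ ^ 2 ≤ G (circleMap z1 r θ) := by
    intro θ
    have hmem : circleMap z1 r θ ∈ U := hball (circleMap_mem_closedBall _ hr.le _)
    have h1 := hmin (subset_closure hmem)
    simp only [Set.mem_ofPred_eq] at h1
    have h2 : G' (circleMap z1 r θ) ≤ G (circleMap z1 r θ) := by
      simp only [hG', hmem, if_true]; exact min_le_left _ _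
    rw [hm]
    linarith
  have hsq : ∀ θ : ℝ, ‖circleMap z1 r θ - z0‖ ^ 2 = ‖z1 - z0‖ ^ 2 + r ^ 2 +
      2 * r * ((z1 - z0).re * Real.cos θ + (z1 - z0).im * Real.sin θ) := by
    intro θ
    rw [← Complex.normSq_eq_norm_sq, ← Complex.normSq_eq_norm_sq, Complex.normSq_apply,
      Complex.normSq_apply]
    have e1 : (circleMap z1 r θ - z0).re = (z1 - z0).re + r * Real.cos θ := by
      simp [circleMap, Complex.exp_re]
      ring
    have e2 : (circleMap z1 r θ - z0).im = (z1 - z0).im + r * Real.sin θ := by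
      simp [circleMap, Complex.exp_im]
      ring
    rw [e1, e2]
    have := Real.sin_sq_add_cos_sq θ
    linear_combination (r ^ 2) * this
  have hI1 : (∫ θ in (0 : ℝ)..(2 * π), (m + ε * ‖circleMap z1 r θ - z0‖ ^ 2)) =
      2 * π * (m + ε * (‖z1 - z0‖ ^ 2 + r ^ 2)) := by
    have e : (fun θ : ℝ => m + ε * ‖circleMap z1 r θ - z0‖ ^ 2) =
        fun θ : ℝ => (m + ε * (‖z1 - z0‖ ^ 2 + r ^ 2)) +
          ((ε * (2 * r) * (z1 - z0).re) * Real.cos θ +
            (ε * (2 * r) * (z1 - z0).im) * Real.sin θ) := by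
      ext θ
      rw [hsq θ]; ring
    rw [e, intervalIntegral.integral_add (by simp) (by
        apply Continuous.intervalIntegrable; fun_prop),
      intervalIntegral.integral_add (by apply Continuous.intervalIntegrable; fun_prop)
        (by apply Continuous.intervalIntegrable; fun_prop)]
    simp
    ring
  have hI2 : (∫ θ in (0 : ℝ)..(2 * π), (m + ε * ‖circleMap z1 r θ - z0‖ ^ 2)) ≤
      ∫ θ in (0 : ℝ)..(2 * π), G (circleMap z1 r θ) := by
    apply intervalIntegral.integral_mono_on (by positivity)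
    · apply Continuous.intervalIntegrable
      have := continuous_circleMap z1 r
      fun_prop
    · exact hint
    · intro θ _; exact hlow θ
  rw [hI1] at hI2
  have hpi : (0 : ℝ) < 2 * π := by positivity
  have hI3 : m + ε * (‖z1 - z0‖ ^ 2 + r ^ 2) ≤ G z1 := by
    have h3 : (2 * π)⁻¹ * (2 * π * (m + ε * (‖z1 - z0‖ ^ 2 + r ^ 2))) ≤
        (2 * π)⁻¹ * ∫ θ in (0 : ℝ)..(2 * π), G (circleMap z1 r θ) := by gcongr
    rw [inv_mul_cancel_left₀ hpi.ne'] at h3
    exact h3.trans hmn
  have : 0 < ε * r ^ 2 := by positivity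
  rw [hm, hG1] at hI3
  nlinarith

end Crest.Agent.R102.Slope231
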