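import Crest.Agent.R102.SHtest_712
import Crest.Agent.R102.SlopeA_231

/-!
# Row 102, T1-E, steps (E5') + (E6) (helper924)

The potential theory block at the end of T1-E (758 #24475, 924 #24838): two superharmonic heights
`V ≤ R` near a real segment, `V ≤ Λ + ε` and `R ≥ Λ + c |Im w| - ε` off the real axis (`Λ` harmonic),
`V ≥ -C` everywhere. Then `R ≥ Λ + cρ/4` on the real segment (`gain`), and `V = R` almost
everywhere on the real segment is impossible; in fact `{V < R}` has measure at least `η₀` (`kink`).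
-/

set_option autoImplicit false

open Set Filter Topology Metric Complex MeasureTheory
open scoped Real
open Crest.Agent.R102.SH712 (NT sh1_re sh2)
open Crest.Agent.R102.LP472 (pk Om Om_re Om_differentiableAt one_sub_pk_le
  setIntegral_pk_le_of_disjoint setIntegral_pk_le_one)

namespace Crest.Agent.R102.E56

/-- (E6): the gain at a real point, from the gain off the axis. -/
theorem gain {c ρ B C : ℝ} (hc : 0 < c) (hρ : 0 < ρ) (hB : 0 ≤ B) (hC : 0 ≤ C) :
    ∃ ε₁ > 0, ∀ (W : Set ℂ) (R : ℂ → ℝ) (L : ℂ → ℂ) (x : ℂ) (ε : ℝ), IsOpen W →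
      LowerSemicontinuousOn R W → NT R W → closedBall x ρ ⊆ W → DifferentiableOn ℂ L W →
      (∀ w ∈ W, |(L w).re| ≤ B) → (∀ w ∈ W, -C ≤ R w) → ε ≤ ε₁ → x.im = 0 →
      (∀ w ∈ W, ε ≤ |w.im| → (L w).re + c * |w.im| - ε ≤ R w) →
      (L x).re + c * ρ / 4 ≤ R x := by
  set a : ℝ := c * ρ / 4 with ha
  set b : ℝ := c * ρ / 2 with hb
  have ha0 : 0 < a := by positivity
  have hb0 : 0 < b := by positivity
  set τ : ℝ := min (1 / 4) (Real.exp (-((C + B + a) / b))) with hτ
  have hτ0 : 0 < τ := lt_min (by norm_num) (Real.exp_pos _)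
  have hτ4 : τ ≤ 1 / 4 := min_le_left _ _
  have hτe : τ ≤ Real.exp (-((C + B + a) / b)) := min_le_right _ _
  refine ⟨min (c * ρ / 8) (ρ * τ / 4), lt_min (by positivity) (by positivity), ?_⟩
  intro W R L x ε hW hlsc hNT hsub hL hLB hRC hε hx hR
  have hε1 : ε ≤ c * ρ / 8 := hε.trans (min_le_left _ _)
  have hε2 : ε ≤ ρ * τ / 4 := hε.trans (min_le_right _ _)
  set s : ℝ := 1 - τ / 2 with hs
  have hs1 : s < 1 := by linarith
  have hs0 : 3 / 4 ≤ s := by linarith
  -- the harmonic minorant
  set Fn : ℂ → ℂ := fun w => L w + a + b * Complex.log (1 - s * ((w - x) / ρ) ^ 2) with hFn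
  have hρC : (ρ : ℂ) ≠ 0 := by exact_mod_cast hρ.ne'
  have hz : ∀ w ∈ closedBall x ρ, ‖(w - x) / ρ‖ ≤ 1 := by
    intro w hw
    rw [mem_closedBall, dist_eq_norm] at hw
    rw [norm_div, Complex.norm_real, Real.norm_eq_abs, abs_of_pos hρ, div_le_one hρ]
    exact hw
  have hslit : ∀ w ∈ closedBall x ρ, 1 - s * ((w - x) / ρ) ^ 2 ∈ slitPlane := by
    intro w hw
    rw [Complex.mem_slitPlane_iff]
    left
    have h1 : ‖(s : ℂ) * ((w - x) / ρ) ^ 2‖ < 1 := by
      rw [norm_mul, norm_pow, Complex.norm_real, Real.norm_eq_abs, abs_of_pos (by linarith)]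
      have h2 := hz w hw
      have h3 : ‖(w - x) / ρ‖ ^ 2 ≤ 1 := pow_le_one₀ (norm_nonneg _) h2
      nlinarith [norm_nonneg ((w - x) / ρ)]
    have h4 := (Complex.abs_re_le_norm ((s : ℂ) * ((w - x) / ρ) ^ 2)).trans_lt h1
    have h5 := (abs_lt.1 h4).2
    rw [Complex.sub_re, Complex.one_re]
    linarith
  have hdiff : DifferentiableOn ℂ Fn (closedBall x ρ) := by
    intro w hw
    have h1 : DifferentiableAt ℂ L w := hL.differentiableAt (hW.mem_nhds (hsub hw))
    have h2 : DifferentiableAt ℂ (fun w : ℂ => Complex.log (1 - s * ((w - x) / ρ) ^ 2)) w := by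
      refine DifferentiableAt.clog ?_ (hslit w hw)
      fun_prop
    exact ((h1.add_const _).add (h2.const_mul _)).differentiableWithinAt
  have hcl : DiffContOnCl ℂ Fn (ball x ρ) := by
    apply DifferentiableOn.diffContOnCl
    rw [closure_ball x hρ.ne']
    exact hdiff
  have hre : ∀ w, (Fn w).re = (L w).re + a + b * Real.log ‖1 - s * ((w - x) / ρ) ^ 2‖ := by
    intro w
    simp only [hFn, Complex.add_re, Complex.ofReal_re, Complex.re_ofReal_mul, Complex.log_re]
  have hkey := sh1_re hlsc hNT hρ hsub hcl (by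
    intro w hw
    have hwc : w ∈ closedBall x ρ := sphere_subset_closedBall hw
    have hwW := hsub hwc
    set ζ : ℂ := (w - x) / ρ with hζ
    have hζn : ‖ζ‖ = 1 := by
      rw [mem_sphere, dist_eq_norm] at hw
      rw [hζ, norm_div, Complex.norm_real, Real.norm_eq_abs, abs_of_pos hρ, hw, div_self hρ.ne']
    have him : w.im = ρ * ζ.im := by
      rw [hζ, Complex.div_ofReal_im, Complex.sub_im, hx]
      field_simp
      ring
    set y : ℝ := |ζ.im| with hy
    have hy0 : 0 ≤ y := abs_nonneg _
    have hwim : |w.im| = ρ * y := by rw [him, abs_mul, abs_of_pos hρ]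
    have hnorm : ‖1 - (s : ℂ) * ζ ^ 2‖ ≤ (1 - s) + 2 * y := by
      have h1 : 1 - (s : ℂ) * ζ ^ 2 = ((1 - s : ℝ) : ℂ) + (s : ℂ) * (ζ * (starRingEnd ℂ ζ - ζ)) := by
        have h2 : ζ * starRingEnd ℂ ζ = 1 := by
          rw [Complex.mul_conj, Complex.normSq_eq_norm_sq, hζn]; norm_num
        push_cast
        linear_combination -(s : ℂ) * h2
      have h3 : ‖starRingEnd ℂ ζ - ζ‖ = 2 * y := by
        have h4 : starRingEnd ℂ ζ - ζ = ((-(2 * ζ.im) : ℝ) : ℂ) * I := by
          apply Complex.ext <;> simp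
          ring
        rw [h4, norm_mul, Complex.norm_I, mul_one, Complex.norm_real, Real.norm_eq_abs, abs_neg,
          abs_mul, abs_two]
      rw [h1]
      refine (norm_add_le _ _).trans ?_
      rw [norm_mul, norm_mul, hζn, h3, Complex.norm_real, Complex.norm_real, Real.norm_eq_abs,
        Real.norm_eq_abs, abs_of_pos (by linarith : (0 : ℝ) < 1 - s),
        abs_of_pos (by linarith : (0 : ℝ) < s)]
      nlinarith
    have hpos : 0 < ‖1 - (s : ℂ) * ζ ^ 2‖ := by
      rw [norm_pos_iff]
      exact slitPlane_ne_zero (hslit w hwc)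
    have hlog : Real.log ‖1 - (s : ℂ) * ζ ^ 2‖ ≤ Real.log ((1 - s) + 2 * y) :=
      Real.log_le_log hpos hnorm
    have hpos2 : 0 < (1 - s) + 2 * y := by linarith
    rw [hre w]
    by_cases hyε : ε ≤ |w.im|
    · have h1 := hR w hwW hyε
      have h2 : Real.log ((1 - s) + 2 * y) ≤ (1 - s) + 2 * y - 1 := Real.log_le_sub_one_of_pos hpos2
      rw [hwim] at h1
      have h3 : b * Real.log ‖1 - (s : ℂ) * ζ ^ 2‖ ≤ b * (2 * y - s) :=
        mul_le_mul_of_nonneg_left (by linarith) hb0.le
      have h4 : b * (2 * y - s) = c * (ρ * y) - c * ρ / 2 * s := by rw [hb]; ring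
      have h5 : c * ρ / 2 * (3 / 4) ≤ c * ρ / 2 * s :=
        mul_le_mul_of_nonneg_left hs0 (by positivity)
      have h6 : c * ρ / 2 * (3 / 4) = c * ρ * (3 / 8) := by ring
      have h7 : a = c * ρ * (2 / 8) := by rw [ha]; ring
      have h8 : c * ρ / 8 = c * ρ * (1 / 8) := by ring
      rw [h4] at h3
      rw [h6] at h5
      rw [h8] at hε1
      linarith
    · push Not at hyε
      have h1 : ρ * y < ρ * (τ / 4) := by rw [← hwim]; linarith
      have h2 : y < τ / 4 := lt_of_mul_lt_mul_left h1 hρ.le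
      have h3 : (1 - s) + 2 * y ≤ τ := by linarith
      have h4 : Real.log ((1 - s) + 2 * y) ≤ -((C + B + a) / b) := by
        rw [Real.log_le_iff_le_exp hpos2]
        exact h3.trans hτe
      have h5 : b * Real.log ‖1 - (s : ℂ) * ζ ^ 2‖ ≤ b * (-((C + B + a) / b)) :=
        mul_le_mul_of_nonneg_left (hlog.trans h4) hb0.le
      have h6 : b * (-((C + B + a) / b)) = -(C + B + a) := by
        field_simp
      have h7 := (abs_le.1 (hLB w hwW)).2
      have h8 := hRC w hwW
      rw [h6] at h5
      linarith) x (mem_closedBall_self hρ.le)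
  rw [hre x] at hkey
  simp only [sub_self, zero_div, ne_eq, OfNat.ofNat_ne_zero, not_false_eq_true, zero_pow, mul_zero,
    sub_zero, norm_one, Real.log_one, add_zero] at hkey
  exact hkey

/-- lower semicontinuity minus a continuous function -/
theorem lsc_sub {V : ℂ → ℝ} {U : Set ℂ} (hV : LowerSemicontinuousOn V U) {F : ℂ → ℂ}
    (hF : ContinuousOn F U) : LowerSemicontinuousOn (fun z => V z - (F z).re) U := by
  have h1 : LowerSemicontinuousOn (fun z => -(F z).re) U :=
    (Complex.continuous_re.comp_continuousOn hF).neg.lowerSemicontinuousOn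
  have := hV.add h1
  simpa [sub_eq_add_neg] using this

/-- a compact subset of `[x₀ - r, x₀ + r]` avoiding a set of small measure -/
theorem exists_compact (x₀ : ℝ) {r η : ℝ} (hη : 0 < η) (S : Set ℝ)
    (hS : volume S < ENNReal.ofReal η) :
    ∃ K : Set ℝ, IsCompact K ∧ K ⊆ Icc (x₀ - r) (x₀ + r) \ S ∧
      volume.real (Icc (x₀ - r) (x₀ + r) \ K) ≤ 2 * η := by
  set T := toMeasurable volume S with hT
  have hTm : MeasurableSet T := measurableSet_toMeasurable _ _
  have hST : S ⊆ T := subset_toMeasurable _ _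
  have hTv : volume T < ENNReal.ofReal η := by rw [hT, measure_toMeasurable]; exact hS
  set J := Icc (x₀ - r) (x₀ + r) with hJ
  have hJT : MeasurableSet (J \ T) := measurableSet_Icc.diff hTm
  have hfin : volume (J \ T) ≠ ⊤ :=
    ne_top_of_le_ne_top (by rw [hJ, Real.volume_Icc]; exact ENNReal.ofReal_ne_top)
      (measure_mono (s := J \ T) (t := J) sdiff_subset)
  have hη' : ENNReal.ofReal η ≠ 0 := by
    rw [Ne, ENNReal.ofReal_eq_zero]; linarith
  obtain ⟨K, hKs, hKc, hKm⟩ := hJT.exists_isCompact_sdiff_lt hfin hη'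
  refine ⟨K, hKc, hKs.trans (sdiff_subset_sdiff_right hST), ?_⟩
  have h1 : J \ K ⊆ T ∪ ((J \ T) \ K) := by
    rintro x ⟨hx, hxK⟩
    by_cases hxT : x ∈ T
    · exact Or.inl hxT
    · exact Or.inr ⟨⟨hx, hxT⟩, hxK⟩
  have h2 : volume (J \ K) ≤ ENNReal.ofReal (2 * η) := by
    refine (measure_mono h1).trans ((measure_union_le _ _).trans ?_)
    have h3 : ENNReal.ofReal (2 * η) = ENNReal.ofReal η + ENNReal.ofReal η := by
      rw [← ENNReal.ofReal_add hη.le hη.le]; congr 1; ring
    rw [h3]
    exact add_le_add hTv.le hKm.le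
  exact ENNReal.toReal_le_of_le_ofReal (by positivity) h2

/-- (E5') the value inside from a lower bound on a large compact part of the diameter -/
theorem inside {W : Set ℂ} (hW : IsOpen W) {V : ℂ → ℝ} (hlsc : LowerSemicontinuousOn V W)
    (hNT : NT V W) {M : ℝ} (hM : ∀ w ∈ W, |V w| ≤ M) {x₀ r : ℝ} (hr : 0 < r)
    (hsub : closedBall (x₀ : ℂ) r ⊆ W) {L : ℂ → ℂ} (hL : DifferentiableOn ℂ L W) {B C c₁ : ℝ}
    (hB : 0 ≤ B) (hC : 0 ≤ C) (hc₁ : 0 ≤ c₁) (hLB : ∀ w ∈ W, |(L w).re| ≤ B)
    (hVC : ∀ w ∈ W, -C ≤ V w) {K : Set ℝ} (hK : IsCompact K)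
    (hKV : ∀ x : ℝ, x ∈ K → |x - x₀| ≤ r → (L x).re + c₁ ≤ V x) {δ : ℝ} (hδ : 0 < δ)
    (hδr : δ < r) :
    (L (x₀ + δ * I)).re + c₁ - (B + C + c₁) * (2 * δ / r)
      - (B + C + c₁) * (1 - ∫ t in K, pk x₀ δ t) ≤ V (x₀ + δ * I) := by
  set D : ℝ := B + C + c₁ with hD
  have hD0 : 0 ≤ D := by positivity
  set U : Set ℂ := ball (x₀ : ℂ) r ∩ {z | 0 < z.im} with hU
  have hUo : IsOpen U := isOpen_ball.inter (isOpen_lt continuous_const Complex.continuous_im)
  have hUW : U ⊆ W := (inter_subset_left.trans ball_subset_closedBall).trans hsub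
  have hcl : closure U ⊆ closedBall (x₀ : ℂ) r ∩ {z | 0 ≤ z.im} := by
    refine closure_minimal ?_ (isClosed_closedBall.inter
      (isClosed_le continuous_const Complex.continuous_im))
    rintro z ⟨h1, h2⟩
    exact ⟨ball_subset_closedBall h1, (show 0 < z.im from h2).le⟩
  -- the harmonic minorant
  set g : ℂ → ℂ := fun w => -(2 * I) * (w - x₀) / r + (w - x₀) ^ 2 / (r : ℂ) ^ 2 with hg
  set F : ℂ → ℂ := fun w => L w + c₁ - D * g w - D * (1 - Om K w) with hF
  have hgre : ∀ w : ℂ, (g w).re = 2 * w.im / r + ((w.re - x₀) ^ 2 - w.im ^ 2) / r ^ 2 := by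
    intro w
    simp only [hg]
    have h1 : (-(2 * I) * (w - x₀) / (r : ℂ) : ℂ).re = 2 * w.im / r := by
      rw [Complex.div_ofReal_re]
      congr 1
      simp
    have h2 : ((w - x₀) ^ 2 / (r : ℂ) ^ 2 : ℂ).re = ((w.re - x₀) ^ 2 - w.im ^ 2) / r ^ 2 := by
      rw [← Complex.ofReal_pow, Complex.div_ofReal_re]
      congr 1
      rw [sq, Complex.mul_re]
      simp
      ring
    rw [Complex.add_re, h1, h2]
  have hFre : ∀ w : ℂ, 0 < w.im → (F w).re = (L w).re + c₁ - D * (g w).re
      - D * (1 - ∫ t in K, pk w.re w.im t) := by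
    intro w hw
    simp only [hF]
    rw [Complex.sub_re, Complex.sub_re, Complex.add_re, Complex.ofReal_re, Complex.re_ofReal_mul,
      Complex.re_ofReal_mul, Complex.sub_re, Complex.one_re, Om_re hK hw]
  have hFd : ∀ w ∈ U, DifferentiableAt ℂ F w := by
    intro w hw
    have h1 : DifferentiableAt ℂ L w := hL.differentiableAt (hW.mem_nhds (hUW hw))
    have h2 : DifferentiableAt ℂ (Om K) w := Om_differentiableAt hK hw.2
    have h3 : DifferentiableAt ℂ g w := by
      simp only [hg]
      fun_prop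
    exact ((h1.add_const _).sub (h3.const_mul _)).sub ((h2.const_sub 1).const_mul _)
  have hgc : Continuous fun w : ℂ => (g w).re := by
    simp only [hg]
    fun_prop
  have hLc : ContinuousOn (fun w : ℂ => (L w).re) W :=
    Complex.continuous_re.comp_continuousOn hL.continuousOn
  -- mass bounds
  have hpk1 : ∀ w : ℂ, 0 < w.im → ∫ t in K, pk w.re w.im t ≤ 1 := fun w hw =>
    setIntegral_pk_le_one hw _ _
  have hmain := Slope231.min_principle hUo (isBounded_ball.subset inter_subset_left)
    (G := fun z => V z - (F z).re)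
    (lsc_sub (hlsc.mono hUW) (fun w hw => (hFd w hw).continuousAt.continuousWithinAt))
    (by
      intro z hz
      obtain ⟨ρ, hρ, hρU⟩ := Metric.nhds_basis_closedBall.mem_iff.1 (hUo.mem_nhds hz)
      obtain ⟨h1, h2⟩ := sh2 hlsc hNT hM hρ (hρU.trans hUW)
      refine ⟨ρ, hρ, hρU, ?_⟩
      have h3 : IntervalIntegrable (fun θ : ℝ => (F (circleMap z ρ θ)).re) volume 0 (2 * π) ∧
          (2 * π)⁻¹ * ∫ θ in (0 : ℝ)..(2 * π), (F (circleMap z ρ θ)).re = (F z).re := by
        have hcont : Continuous fun θ : ℝ => F (circleMap z ρ θ) := by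
          rw [continuous_iff_continuousAt]
          intro θ
          exact ((hFd _ (hρU (circleMap_mem_closedBall z hρ.le θ))).continuousAt).comp
            (f := circleMap z ρ) (continuous_circleMap z ρ).continuousAt
        refine ⟨(Complex.continuous_re.comp hcont).intervalIntegrable _ _, ?_⟩
        have h1 : Real.circleAverage F z ρ = F z := by
          apply DiffContOnCl.circleAverage
          rw [abs_of_pos hρ]
          refine ⟨fun w hw => (hFd w (hρU (ball_subset_closedBall hw))).differentiableWithinAt, ?_⟩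
          rw [closure_ball z hρ.ne']
          exact fun w hw => (hFd w (hρU hw)).continuousAt.continuousWithinAt
        rw [Real.circleAverage_def] at h1
        have h2 : (∫ θ in (0 : ℝ)..(2 * π), (F (circleMap z ρ θ)).re) =
            (∫ θ in (0 : ℝ)..(2 * π), F (circleMap z ρ θ)).re := by
          have := Complex.reCLM.intervalIntegral_comp_comm
            (hcont.intervalIntegrable (μ := volume) 0 (2 * π))
          simpa using this
        rw [h2, ← h1]
        simp
      refine ⟨h1.sub h3.1, ?_⟩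
      rw [intervalIntegral.integral_sub h1 h3.1, mul_sub, h3.2]
      linarith)
    (by
      intro ζ hζ ε hε
      have hζc := hcl (frontier_subset_closure hζ)
      have hζU : ζ ∉ U := by
        rw [hUo.frontier_eq] at hζ
        exact hζ.2
      have hζW : ζ ∈ W := hsub hζc.1
      have hLev : ∀ᶠ z in 𝓝[U] ζ, (L z).re < (L ζ).re + ε / 3 :=
        ((hLc ζ hζW).mono_left (nhdsWithin_mono _ hUW)).eventually (gt_mem_nhds (by linarith))
      have hgev : ∀ᶠ z in 𝓝[U] ζ, (g ζ).re - ε / (3 * (D + 1)) < (g z).re :=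
        (hgc.continuousAt.mono_left nhdsWithin_le_nhds).eventually (lt_mem_nhds (by
          have : 0 < ε / (3 * (D + 1)) := by positivity
          linarith))
      have hDε : D * (ε / (3 * (D + 1))) ≤ ε / 3 := by
        have h1 : D * (ε / (3 * (D + 1))) = (ε / 3) * (D / (D + 1)) := by
          field_simp
        have h2 : D / (D + 1) ≤ 1 := by
          rw [div_le_one (by positivity)]; linarith
        rw [h1]
        nlinarith
      have hLB1 := (abs_le.1 (hLB ζ hζW)).2
      by_cases him : 0 < ζ.im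
      · -- the arc
        have hnorm : ‖ζ - x₀‖ = r := by
          have h1 := hζc.1
          rw [mem_closedBall, dist_eq_norm] at h1
          refine le_antisymm h1 ?_
          by_contra hcon
          push Not at hcon
          exact hζU ⟨by rw [mem_ball, dist_eq_norm]; exact hcon, him⟩
        have hsq : (ζ.re - x₀) ^ 2 + ζ.im ^ 2 = r ^ 2 := by
          have h1 : ‖ζ - x₀‖ ^ 2 = r ^ 2 := by rw [hnorm]
          rw [← Complex.normSq_eq_norm_sq, Complex.normSq_apply] at h1
          simp at h1
          nlinarith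
        have hle : ζ.im ≤ r := by nlinarith [sq_nonneg (ζ.re - x₀)]
        have hg1 : 1 ≤ (g ζ).re := by
          rw [hgre]
          have h2 : (ζ.re - x₀) ^ 2 - ζ.im ^ 2 = r ^ 2 - 2 * ζ.im ^ 2 := by linarith
          rw [h2]
          have h3 : 2 * ζ.im / r + (r ^ 2 - 2 * ζ.im ^ 2) / r ^ 2
              = 1 + 2 * (ζ.im / r) * (1 - ζ.im / r) := by
            field_simp
            ring
          rw [h3]
          have h4 : ζ.im / r ≤ 1 := by rw [div_le_one hr]; exact hle
          have h5 : 0 ≤ ζ.im / r := by positivity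
          nlinarith [mul_nonneg h5 (sub_nonneg.2 h4)]
        filter_upwards [hLev, hgev, self_mem_nhdsWithin] with z h1 h2 h3
        rw [hFre z h3.2]
        have h4 := hVC z (hUW h3)
        have h5 := hpk1 z h3.2
        have h6 : D * (1 - ε / (3 * (D + 1))) ≤ D * (g z).re :=
          mul_le_mul_of_nonneg_left (by linarith) hD0
        have h7 : 0 ≤ D * (1 - ∫ t in K, pk z.re z.im t) := mul_nonneg hD0 (by linarith)
        have h8 : D * (1 - ε / (3 * (D + 1))) = D - D * (ε / (3 * (D + 1))) := by ring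
        rw [h8] at h6
        linarith
      · -- the real axis
        have him0 : ζ.im = 0 := le_antisymm (not_lt.1 him) hζc.2
        have hζx : ζ = ((ζ.re : ℝ) : ℂ) := by
          apply Complex.ext <;> simp [him0]
        set x : ℝ := ζ.re with hx
        have hxr : |x - x₀| ≤ r := by
          have h1 := hζc.1
          rw [mem_closedBall, dist_eq_norm, hζx, ← Complex.ofReal_sub, Complex.norm_real,
            Real.norm_eq_abs] at h1
          exact h1
        have hg0 : 0 ≤ (g ζ).re := by
          rw [hgre, him0]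
          simp only [mul_zero, zero_div, zero_add, ne_eq, OfNat.ofNat_ne_zero, not_false_eq_true,
            zero_pow, sub_zero]
          positivity
        have hDg : ∀ z : ℂ, (g ζ).re - ε / (3 * (D + 1)) < (g z).re → -(ε / 3) ≤ D * (g z).re := by
          intro z h2
          have h6 : D * (0 - ε / (3 * (D + 1))) ≤ D * (g z).re :=
            mul_le_mul_of_nonneg_left (by linarith) hD0
          have h8 : D * (0 - ε / (3 * (D + 1))) = - (D * (ε / (3 * (D + 1)))) := by ring
          rw [h8] at h6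
          linarith
        by_cases hxK : x ∈ K
        · have hVx := hKV x hxK hxr
          have hVev : ∀ᶠ z in 𝓝[U] ζ, V ζ - ε / 3 < V z :=
            (hlsc ζ hζW (V ζ - ε / 3) (by linarith)).filter_mono (nhdsWithin_mono _ hUW)
          rw [← hζx] at hVx
          filter_upwards [hLev, hgev, hVev, self_mem_nhdsWithin] with z h1 h2 h3 h4
          rw [hFre z h4.2]
          have h5 := hpk1 z h4.2
          have h7 : 0 ≤ D * (1 - ∫ t in K, pk z.re z.im t) := mul_nonneg hD0 (by linarith)
          have h8 := hDg z h2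
          linarith
        · -- outside `K` the Poisson mass tends to zero
          obtain ⟨d, hd, hdK⟩ : ∃ d > 0, ∀ t ∈ K, d ≤ |t - x| := by
            obtain ⟨d, hd, h⟩ := Metric.isOpen_iff.1 hK.isClosed.isOpen_compl x hxK
            refine ⟨d, hd, fun t ht => ?_⟩
            by_contra hcon
            push Not at hcon
            exact h (by rw [mem_ball, Real.dist_eq]; exact hcon) ht
          have hlim : Tendsto (fun v : ℝ => D * (1 - 2 / π * Real.arctan (d / 2 / v))) (𝓝[>] 0)
              (𝓝 0) := by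
            have h0 : Tendsto (fun v : ℝ => d / 2 / v) (𝓝[>] 0) atTop := by
              simp only [div_eq_mul_inv (d / 2)]
              exact Tendsto.const_mul_atTop (by positivity) tendsto_inv_nhdsGT_zero
            have h1 : Tendsto Real.arctan atTop (𝓝 (π / 2)) :=
              tendsto_nhds_of_tendsto_nhdsWithin Real.tendsto_arctan_atTop
            have h2 := (((h1.comp h0).const_mul (2 / π)).const_sub 1).const_mul D
            have h3 : D * (1 - 2 / π * (π / 2)) = 0 := by
              have := Real.pi_ne_zero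
              field_simp; ring
            rw [h3] at h2
            exact h2
          have himt : Tendsto (fun z : ℂ => z.im) (𝓝[U] ζ) (𝓝[>] 0) := by
            rw [tendsto_nhdsWithin_iff]
            refine ⟨?_, ?_⟩
            · have := Complex.continuous_im.tendsto ζ
              rw [him0] at this
              exact this.mono_left nhdsWithin_le_nhds
            · filter_upwards [self_mem_nhdsWithin] with z hz
              exact hz.2
          have h1 := (hlim.comp himt).eventually (gt_mem_nhds (show 0 < ε / 3 by positivity))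
          have h2 : ∀ᶠ z in 𝓝[U] ζ, |z.re - x| < d / 2 := by
            apply mem_nhdsWithin_of_mem_nhds
            have hc : Continuous fun z : ℂ => |z.re - x| := by fun_prop
            have := hc.tendsto ζ
            simp only [← hx, sub_self, abs_zero] at this
            exact this.eventually (gt_mem_nhds (show (0 : ℝ) < d / 2 by positivity))
          filter_upwards [hLev, hgev, h1, h2, self_mem_nhdsWithin] with z h3 h4 h5 h6 h7
          rw [hFre z h7.2]
          have h8 := hDg z h4
          have h9 := hVC z (hUW h7)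
          have h7' : 0 < z.im := h7.2
          have h10 : ∫ t in K, pk z.re z.im t ≤ 1 - 2 / π * Real.arctan (d / 2 / z.im) := by
            refine setIntegral_pk_le_of_disjoint h7' (by positivity) _ ?_
            intro t ht
            rw [div_mul_cancel₀ _ h7'.ne']
            have h11 := hdK t ht
            have h12 : |t - x| ≤ |z.re - x| + |z.re - t| := by
              have : t - x = (z.re - x) - (z.re - t) := by ring
              rw [this]
              exact abs_sub _ _
            linarith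
          simp only [Function.comp] at h5
          have h13 : D * ∫ t in K, pk z.re z.im t ≤
              D * (1 - 2 / π * Real.arctan (d / 2 / z.im)) := mul_le_mul_of_nonneg_left h10 hD0
          have h14 : D * (1 - ∫ t in K, pk z.re z.im t) = D - D * ∫ t in K, pk z.re z.im t := by
            ring
          rw [h14]
          linarith)
  -- evaluation
  have hmem : (x₀ : ℂ) + δ * I ∈ U := by
    refine ⟨?_, ?_⟩
    · rw [mem_ball, dist_eq_norm]
      simpa [abs_of_pos hδ] using hδr
    · simpa using hδ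
  have h1 := hmain _ hmem
  have him : ((x₀ : ℂ) + δ * I).im = δ := by simp
  have hre : ((x₀ : ℂ) + δ * I).re = x₀ := by simp
  rw [hFre _ (by rw [him]; exact hδ), hgre, him, hre] at h1
  have h2 : D * (2 * δ / r + ((x₀ - x₀) ^ 2 - δ ^ 2) / r ^ 2) ≤ D * (2 * δ / r) := by
    refine mul_le_mul_of_nonneg_left ?_ hD0
    have : ((x₀ - x₀) ^ 2 - δ ^ 2) / r ^ 2 = - (δ ^ 2 / r ^ 2) := by ring
    rw [this]
    have : 0 ≤ δ ^ 2 / r ^ 2 := by positivity
    linarith
  linarith

/-- **(E5') + (E6)**: two superharmonic heights `V ≤ R` near a real segment, with `V ≤ Λ + ε` and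
`R ≥ Λ + c |Im w| - ε` at distance `≥ ε` from the real axis, `V ≥ -C`: then `V < R` on a subset of the
segment of measure at least `η₀`. The constants `ε₀, η₀` depend on `c, B, C, r` only. -/
theorem kink {c r B C : ℝ} (hc : 0 < c) (hr : 0 < r) (hB : 0 ≤ B) (hC : 0 ≤ C) :
    ∃ ε₀ > 0, ∃ η₀ > 0, ∀ (W : Set ℂ) (V R : ℂ → ℝ) (L : ℂ → ℂ) (x₀ ε M : ℝ), IsOpen W →
      closedBall (x₀ : ℂ) r ⊆ W → DifferentiableOn ℂ L W → (∀ w ∈ W, |(L w).re| ≤ B) →
      LowerSemicontinuousOn V W → NT V W → LowerSemicontinuousOn R W → NT R W →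
      (∀ w ∈ W, -C ≤ V w) → (∀ w ∈ W, V w ≤ M) → (∀ w ∈ W, V w ≤ R w) → ε ≤ ε₀ →
      (∀ w ∈ W, ε ≤ |w.im| → V w ≤ (L w).re + ε) →
      (∀ w ∈ W, ε ≤ |w.im| → (L w).re + c * |w.im| - ε ≤ R w) →
      ENNReal.ofReal η₀ ≤ volume {x : ℝ | |x - x₀| ≤ r ∧ V x < R x} := by
  obtain ⟨ε₁, hε₁, hgain⟩ := gain (C := C) hc (half_pos hr) hB hC
  set c₁ : ℝ := c * (r / 2) / 4 with hc₁
  have hc₁0 : 0 < c₁ := by positivity
  set D : ℝ := B + C + c₁ with hD
  have hD0 : 0 < D := by positivity
  -- choice of `δ`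
  have hlim : Tendsto (fun v : ℝ => D * (2 * v / (r / 2)) +
      D * (1 - 2 / π * Real.arctan (r / 2 / v))) (𝓝[>] 0) (𝓝 0) := by
    have h0 : Tendsto (fun v : ℝ => r / 2 / v) (𝓝[>] 0) atTop := by
      simp only [div_eq_mul_inv (r / 2)]
      exact Tendsto.const_mul_atTop (by positivity) tendsto_inv_nhdsGT_zero
    have h1 : Tendsto Real.arctan atTop (𝓝 (π / 2)) :=
      tendsto_nhds_of_tendsto_nhdsWithin Real.tendsto_arctan_atTop
    have h2 := (((h1.comp h0).const_mul (2 / π)).const_sub 1).const_mul D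
    have h3 : D * (1 - 2 / π * (π / 2)) = 0 := by
      have := Real.pi_ne_zero
      field_simp; ring
    rw [h3] at h2
    have h4 : Tendsto (fun v : ℝ => D * (2 * v / (r / 2))) (𝓝[>] 0) (𝓝 0) := by
      have h5 : Continuous fun v : ℝ => D * (2 * v / (r / 2)) := by fun_prop
      have := (h5.tendsto 0).mono_left (nhdsWithin_le_nhds (s := Ioi (0 : ℝ)))
      simpa using this
    simpa using h4.add h2
  obtain ⟨δ, hδs, hδ, hδr⟩ := ((hlim.eventually (gt_mem_nhds
    (show 0 < c₁ / 4 by positivity))).and (Ioo_mem_nhdsGT (half_pos hr))).exists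
  refine ⟨min ε₁ (min δ (c₁ / 4)), by positivity, c₁ * π * δ / (8 * D), by positivity, ?_⟩
  intro W V R L x₀ ε M hW hsub hL hLB hVl hVN hRl hRN hVC hVM hVR hε hV hR
  have hεε : ε ≤ ε₁ := hε.trans (min_le_left _ _)
  have hεδ : ε ≤ δ := hε.trans ((min_le_right _ _).trans (min_le_left _ _))
  have hεc : ε ≤ c₁ / 4 := hε.trans ((min_le_right _ _).trans (min_le_right _ _))
  by_contra hcon
  push Not at hcon
  set S : Set ℝ := {x : ℝ | |x - x₀| ≤ r ∧ V x < R x} with hS
  obtain ⟨K, hKc, hKS, hKm⟩ := exists_compact x₀ (r := r / 2) (by positivity) S hcon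
  -- the good part of the segment
  have hKV : ∀ x : ℝ, x ∈ K → |x - x₀| ≤ r / 2 → (L x).re + c₁ ≤ V x := by
    intro x hx hxr
    have h1 := (hKS hx).2
    have h2 : R x ≤ V x := by
      by_contra h3
      push Not at h3
      exact h1 ⟨by linarith, h3⟩
    have hsubx : closedBall (x : ℂ) (r / 2) ⊆ W := by
      refine (closedBall_subset_closedBall' ?_).trans hsub
      rw [Complex.dist_eq, ← Complex.ofReal_sub, Complex.norm_real, Real.norm_eq_abs]
      linarith
    have h3 := hgain W R L x ε hW hRl hRN hsubx hL hLB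
      (fun w hw => (hVC w hw).trans (hVR w hw)) hεε (by simp) hR
    linarith
  have hsub' : closedBall (x₀ : ℂ) (r / 2) ⊆ W :=
    (closedBall_subset_closedBall (by linarith)).trans hsub
  have hM : ∀ w ∈ W, |V w| ≤ max C M := fun w hw =>
    abs_le.2 ⟨by linarith [hVC w hw, le_max_left C M], (hVM w hw).trans (le_max_right _ _)⟩
  have h1 := inside hW hVl hVN hM (half_pos hr) hsub' hL hB hC hc₁0.le hLB hVC hKc hKV hδ hδr
  have h2 := one_sub_pk_le hδ (b := r / 2 / δ) (by positivity) x₀ hKc.measurableSet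
  have h3 : r / 2 / δ * δ = r / 2 := by field_simp
  rw [h3] at h2
  have h4 : (π * δ)⁻¹ * volume.real (Icc (x₀ - r / 2) (x₀ + r / 2) \ K) ≤ c₁ / (4 * D) := by
    refine (mul_le_mul_of_nonneg_left hKm (by positivity)).trans (le_of_eq ?_)
    have := Real.pi_ne_zero
    field_simp
    ring
  have h5 : D * (1 - ∫ t in K, pk x₀ δ t) ≤
      D * (c₁ / (4 * D) + (1 - 2 / π * Real.arctan (r / 2 / δ))) :=
    mul_le_mul_of_nonneg_left (by linarith) hD0.le
  have h6 : D * (c₁ / (4 * D)) = c₁ / 4 := by field_simp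
  rw [mul_add, h6] at h5
  have hmem : ((x₀ : ℂ) + δ * I) ∈ W := by
    refine hsub' ?_
    rw [mem_closedBall, dist_eq_norm]
    simpa [abs_of_pos hδ] using hδr.le
  have h7 := hV _ hmem (by simpa [abs_of_pos hδ] using hεδ)
  linarith

end Crest.Agent.R102.E56
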