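import Crest.Agent.R102.SHtest_712

/-!
Row 102, T1-B (c) (helper845), part A: superharmonic functions in the local test sense `NT`:
stability, the minimum principle, conversions.
-/

set_option autoImplicit false

open Set Filter Topology Metric Complex MeasureTheory
open scoped Real ComplexConjugate

noncomputable section

namespace Crest.Agent.R102.Slope845

open Crest.Agent.R102.SH712 (NT)

/-- lower semicontinuous with the super mean value property for small circles -/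
def SH (Om : Set ℂ) (V : ℂ → ℝ) : Prop :=
  LowerSemicontinuousOn V Om ∧ ∀ w ∈ Om, ∀ᶠ ρ in 𝓝[>] (0 : ℝ),
    CircleIntegrable V w ρ ∧ Real.circleAverage V w ρ ≤ V w

theorem NT_mono {V : ℂ → ℝ} {W W' : Set ℂ} (h : NT V W) (hs : W' ⊆ W) : NT V W' :=
  fun w hw => h w (hs hw)

theorem NT_congr {V V' : ℂ → ℝ} {W : Set ℂ} (hW : IsOpen W) (h : NT V W)
    (he : ∀ w ∈ W, V w = V' w) : NT V' W := by
  intro w2 hw2 H hH δ hδ h1
  refine h w2 hw2 H hH δ hδ ⟨(he w2 hw2).trans h1.1, ?_⟩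
  filter_upwards [h1.2, hW.mem_nhds hw2] with w hw hwW
  rw [he w hwW]; exact hw

theorem NT_sub_im {V : ℂ → ℝ} {W : Set ℂ} (h : NT V W) {G : ℂ → ℂ}
    (hG : ∀ w ∈ W, AnalyticAt ℂ G w) : NT (fun z => V z - (G z).im) W := by
  intro w2 hw2 H hH δ hδ h1
  refine h w2 hw2 (fun w => H w + G w) (hH.add (hG w2 hw2)) δ hδ ⟨?_, ?_⟩
  · have := h1.1
    simp only [Complex.add_im] at this ⊢; linarith
  · filter_upwards [h1.2] with w hw
    simp only [Complex.add_im] at hw ⊢; linarith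

theorem analyticAt_conj_conj {H : ℂ → ℂ} {w : ℂ} (hH : AnalyticAt ℂ H (conj w)) :
    AnalyticAt ℂ (fun z => conj (H (conj z))) w := by
  rw [Complex.analyticAt_iff_eventually_differentiableAt] at hH ⊢
  have h1 : Tendsto (fun z : ℂ => conj z) (𝓝 w) (𝓝 (conj w)) :=
    (Complex.continuous_conj).tendsto w
  filter_upwards [h1.eventually hH] with z hz
  have := DifferentiableAt.conj_conj (𝕜 := ℂ) hz
  simpa [Function.comp_def] using this

theorem NT_conj {V : ℂ → ℝ} {W : Set ℂ} (h : NT V W) :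
    NT (fun z => V (conj z)) {z | conj z ∈ W} := by
  intro w2 hw2 H hH δ hδ h1
  have hH' : AnalyticAt ℂ H (conj (conj w2)) := by simpa using hH
  refine h (conj w2) hw2 (fun w => -conj (H (conj w))) (analyticAt_conj_conj hH').neg δ hδ
    ⟨?_, ?_⟩
  · have := h1.1
    simpa using this
  · have h2 : Tendsto (fun z : ℂ => conj z) (𝓝 (conj w2)) (𝓝 w2) := by
      have := (Complex.continuous_conj).tendsto (conj w2)
      simpa using this
    filter_upwards [h2.eventually h1.2] with w hw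
    have e1 : ‖conj w - w2‖ = ‖w - conj w2‖ := by
      rw [← Complex.norm_conj (conj w - w2)]
      simp
    rw [e1] at hw
    simpa using hw

theorem NT_comp_sub {V : ℂ → ℝ} {W : Set ℂ} (h : NT V W) (c : ℂ) :
    NT (fun z => V (z - c)) {z | z - c ∈ W} := by
  intro w2 hw2 H hH δ hδ h1
  have h2 : AnalyticAt ℂ (fun w => H (w + c)) (w2 - c) := by
    have h3 : AnalyticAt ℂ (fun w : ℂ => w + c) (w2 - c) := by fun_prop
    have h4 : AnalyticAt ℂ H ((fun w : ℂ => w + c) (w2 - c)) := by simpa using hH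
    exact AnalyticAt.comp (g := H) (f := fun w : ℂ => w + c) h4 h3
  refine h (w2 - c) hw2 (fun w => H (w + c)) h2 δ hδ ⟨?_, ?_⟩
  · have := h1.1
    simpa using this
  · have h5 : Tendsto (fun z : ℂ => z + c) (𝓝 (w2 - c)) (𝓝 w2) := by
      have : Continuous (fun z : ℂ => z + c) := by fun_prop
      have := this.tendsto (w2 - c)
      simpa using this
    filter_upwards [h5.eventually h1.2] with w hw
    have e1 : w + c - w2 = w - (w2 - c) := by ring
    rw [e1] at hw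
    simpa using hw

theorem avg_im {H : ℂ → ℂ} {w : ℂ} (hH : AnalyticAt ℂ H w) :
    ∀ᶠ ρ in 𝓝[>] (0 : ℝ), CircleIntegrable (fun z => (H z).im) w ρ ∧
      Real.circleAverage (fun z => (H z).im) w ρ = (H w).im := by
  rw [Complex.analyticAt_iff_eventually_differentiableAt] at hH
  obtain ⟨r, hr, hball⟩ := Metric.eventually_nhds_iff_ball.1 hH
  filter_upwards [Ioo_mem_nhdsGT hr] with ρ hρ
  have hd : DifferentiableOn ℂ H (ball w r) := fun z hz => (hball z hz).differentiableWithinAt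
  have hcl : closedBall w ρ ⊆ ball w r := closedBall_subset_ball hρ.2
  have hc : ContinuousOn H (closedBall w ρ) := hd.continuousOn.mono hcl
  have hdc : DiffContOnCl ℂ H (ball w |ρ|) := by
    rw [abs_of_pos hρ.1]
    refine DifferentiableOn.diffContOnCl ?_
    rw [closure_ball w hρ.1.ne']
    exact hd.mono hcl
  have hsph : ContinuousOn H (sphere w |ρ|) := by
    rw [abs_of_pos hρ.1]; exact hc.mono sphere_subset_closedBall
  have hci : CircleIntegrable H w ρ := hsph.circleIntegrable'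
  constructor
  · have : ContinuousOn (fun z => (H z).im) (sphere w |ρ|) :=
      Complex.continuous_im.comp_continuousOn hsph
    exact this.circleIntegrable'
  · have h1 := DiffContOnCl.circleAverage hdc
    have h2 := Complex.imCLM.circleAverage_comp_comm hci
    rw [h1] at h2
    exact h2

theorem touch_avg {V : ℂ → ℝ} {w : ℂ} {H : ℂ → ℂ} (hH : AnalyticAt ℂ H w) {δ : ℝ} (hδ : 0 < δ)
    (h1 : V w = (H w).im ∧ ∀ᶠ z in 𝓝 w, (H z).im + δ * ‖z - w‖ ^ 2 ≤ V z)
    (hV : ∀ᶠ ρ in 𝓝[>] (0 : ℝ), CircleIntegrable V w ρ ∧ Real.circleAverage V w ρ ≤ V w) :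
    False := by
  obtain ⟨r, hr, hball⟩ := Metric.eventually_nhds_iff_ball.1 h1.2
  obtain ⟨ρ, ⟨⟨⟨a1, a2⟩, a3, a4⟩, a5⟩⟩ :=
    (((avg_im hH).and hV).and (Ioo_mem_nhdsGT hr)).exists
  have hρ : 0 < ρ := a5.1
  have h2 : Real.circleAverage (fun z => (H z).im + δ * ρ ^ 2) w ρ ≤ Real.circleAverage V w ρ := by
    refine Real.circleAverage_mono (a1.add (circleIntegrable_const _ _ _)) a3 ?_
    intro z hz
    rw [abs_of_pos hρ] at hz
    have h3 := hball z (by rw [mem_ball, mem_sphere.1 hz]; exact a5.2)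
    have h4 : ‖z - w‖ = ρ := by rw [← dist_eq_norm]; exact hz
    rw [h4] at h3
    exact h3
  have h5 : Real.circleAverage (fun z => (H z).im + δ * ρ ^ 2) w ρ = (H w).im + δ * ρ ^ 2 := by
    have := Real.circleAverage_fun_add a1 (circleIntegrable_const (δ * ρ ^ 2) w ρ)
    rw [this, a2, Real.circleAverage_const]
  have h6 : 0 < δ * ρ ^ 2 := by positivity
  rw [h5] at h2
  linarith [h1.1]

theorem NT_of_SH {V : ℂ → ℝ} {W : Set ℂ} (h : SH W V) : NT V W := by
  intro w2 hw2 H hH δ hδ h1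
  exact touch_avg hH hδ h1 (h.2 w2 hw2)

theorem NT_im {G : ℂ → ℂ} {W : Set ℂ} (hG : ∀ w ∈ W, AnalyticAt ℂ G w) :
    NT (fun z => (G z).im) W := by
  intro w2 hw2 H hH δ hδ h1
  refine touch_avg (V := fun z => (G z).im) hH hδ h1 ?_
  filter_upwards [avg_im (hG w2 hw2)] with ρ hρ
  exact ⟨hρ.1, hρ.2.le⟩

/-- minimum principle -/
theorem minp {Ω : Set ℂ} {B : ℝ} (hB : ∀ z ∈ Ω, ‖z‖ ≤ B) (hΩ : IsOpen Ω) {v : ℂ → ℝ}
    (hl : LowerSemicontinuousOn v Ω) (hNT : NT v Ω)
    (hbd : ∀ ζ ∈ closure Ω, ζ ∉ Ω → ∀ ε > 0, ∀ᶠ z in 𝓝[Ω] ζ, -ε < v z) :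
    ∀ z ∈ Ω, 0 ≤ v z := by
  intro z1 hz1
  by_contra hcon
  push Not at hcon
  set m : ℝ := -v z1 with hm
  have hm0 : 0 < m := by rw [hm]; linarith
  have hB0 : 0 ≤ B := (norm_nonneg _).trans (hB z1 hz1)
  set ε : ℝ := m / (4 * (B ^ 2 + 1)) with hε
  have hε0 : 0 < ε := by positivity
  have hεB : ε * B ^ 2 < m / 4 := by
    rw [hε, div_mul_eq_mul_div, div_lt_div_iff₀ (by positivity) (by norm_num)]
    nlinarith
  set K : Set ℂ := {z | z ∈ Ω ∧ v z ≤ -(m / 2)} with hK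
  have hKΩ : K ⊆ Ω := fun z hz => hz.1
  have hKcl : IsClosed K := by
    apply isClosed_of_closure_subset
    intro ζ hζ
    have hfr : ∃ᶠ z in 𝓝 ζ, z ∈ K := mem_closure_iff_frequently.1 hζ
    have key : (∀ᶠ z in 𝓝[Ω] ζ, -(m / 2) < v z) → False := by
      intro h
      rw [eventually_nhdsWithin_iff] at h
      obtain ⟨z, hz1, hz2⟩ := (hfr.and_eventually h).exists
      have := hz2 hz1.1
      linarith [hz1.2]
    have hζΩ : ζ ∈ Ω := by
      by_contra hn
      exact key (hbd ζ (closure_mono hKΩ hζ) hn (m / 2) (by positivity))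
    refine ⟨hζΩ, ?_⟩
    by_contra hn
    push Not at hn
    exact key (hl ζ hζΩ _ hn)
  have hKc : IsCompact K := by
    refine Metric.isCompact_of_isClosed_isBounded hKcl ?_
    refine (Metric.isBounded_closedBall (x := (0 : ℂ)) (r := B)).subset ?_
    intro z hz
    rw [mem_closedBall_zero_iff]
    exact hB z hz.1
  have hz1K : z1 ∈ K := ⟨hz1, by rw [hm]; linarith⟩
  have hlw : LowerSemicontinuousOn (fun z => v z + -(ε * ‖z‖ ^ 2)) K := by
    refine LowerSemicontinuousOn.add (hl.mono hKΩ) ?_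
    refine Continuous.lowerSemicontinuous ?_ |>.lowerSemicontinuousOn _
    fun_prop
  obtain ⟨w2, hw2, hmin⟩ := hlw.exists_isMinOn ⟨z1, hz1K⟩ hKc
  have hmin1 : v w2 + -(ε * ‖w2‖ ^ 2) ≤ -m := by
    have h1 : v w2 + -(ε * ‖w2‖ ^ 2) ≤ v z1 + -(ε * ‖z1‖ ^ 2) := hmin hz1K
    have h2 : 0 ≤ ε * ‖z1‖ ^ 2 := by positivity
    rw [hm]; linarith
  have hglob : ∀ z ∈ Ω, v w2 + -(ε * ‖w2‖ ^ 2) ≤ v z + -(ε * ‖z‖ ^ 2) := by
    intro z hz
    by_cases hzK : z ∈ K
    · exact hmin hzK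
    · have h1 : -(m / 2) < v z := by
        by_contra hn
        push Not at hn
        exact hzK ⟨hz, hn⟩
      have h2 : ‖z‖ ^ 2 ≤ B ^ 2 := by
        have := hB z hz
        have := norm_nonneg z
        nlinarith
      have h3 : ε * ‖z‖ ^ 2 ≤ ε * B ^ 2 := by gcongr
      linarith
  refine hNT w2 hw2.1 (fun w => I * ((v w2 : ℂ) + 2 * ε * (conj w2 * (w - w2)))) (by fun_prop)
    ε hε0 ⟨?_, ?_⟩
  · simp
  · filter_upwards [hΩ.mem_nhds hw2.1] with w hw
    have h1 := hglob w hw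
    have h2 : ‖w‖ ^ 2 - ‖w2‖ ^ 2 = 2 * (conj w2 * (w - w2)).re + ‖w - w2‖ ^ 2 := by
      simp only [← Complex.normSq_eq_norm_sq, Complex.normSq_apply, Complex.mul_re, Complex.conj_re,
        Complex.conj_im, Complex.sub_re, Complex.sub_im]
      ring
    have h3 : (I * ((v w2 : ℂ) + 2 * ε * (conj w2 * (w - w2)))).im =
        v w2 + 2 * ε * (conj w2 * (w - w2)).re := by
      have : (2 * (ε : ℂ) * (conj w2 * (w - w2))).re = 2 * ε * (conj w2 * (w - w2)).re := by
        have : 2 * (ε : ℂ) * (conj w2 * (w - w2)) = ((2 * ε : ℝ) : ℂ) * (conj w2 * (w - w2)) := by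
          push_cast; ring
        rw [this, Complex.re_ofReal_mul]
      simp only [Complex.I_mul_im, Complex.add_re, Complex.ofReal_re, this]
    show (I * ((v w2 : ℂ) + 2 * ε * (conj w2 * (w - w2)))).im + ε * ‖w - w2‖ ^ 2 ≤ v w
    rw [h3]
    have h4 : ε * (‖w‖ ^ 2 - ‖w2‖ ^ 2) = ε * (2 * (conj w2 * (w - w2)).re + ‖w - w2‖ ^ 2) := by
      rw [h2]
    nlinarith [h1, h4]

end Crest.Agent.R102.Slope845
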