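import Crest.Agent.R102.SHtest_712

/-!
Row 102, T1-B (D2) (helper712): penalised heights of a set `Om ⊆ ℂ × ℂ` with the Levi property.
`P s lam t = t + i lam (t - s)²`, `Im P = y + lam ((x - s)² - y²)`.
`ht Om s lam w` = largest `c ≤ 1/(8 lam)` such that `{Im P < c}` (in the box
`|Re t - s| ≤ 1/(2 lam)`, `Im t ≤ 1/(4 lam)`) is in `Om` over `w`.
-/

set_option autoImplicit false
set_option linter.unusedSectionVars false
set_option linter.unusedVariables false

open Set Filter Topology Metric Complex MeasureTheory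
open scoped Real Interval

noncomputable section

namespace Crest.Agent.R102.HtLV712

open Crest.Agent.R102.SH712

/-- the penalised coordinate -/
def P (s lam : ℝ) (t : ℂ) : ℂ := t + I * lam * (t - s) ^ 2

theorem P_im (s lam : ℝ) (t : ℂ) :
    (P s lam t).im = t.im + lam * ((t.re - s) ^ 2 - t.im ^ 2) := by
  simp only [P, add_im, mul_im, mul_re, I_re, I_im, ofReal_re, ofReal_im, pow_two, sub_re, sub_im]
  ring

theorem P_differentiable (s lam : ℝ) : Differentiable ℂ (P s lam) := by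
  unfold P
  fun_prop

theorem P_analyticAt (s lam : ℝ) (t : ℂ) : AnalyticAt ℂ (P s lam) t :=
  (P_differentiable s lam).analyticAt t

theorem P_deriv (s lam : ℝ) (t : ℂ) : deriv (P s lam) t = 1 + I * lam * (2 * (t - s)) := by
  have h1 : HasDerivAt (fun t : ℂ => t - s) 1 t := (hasDerivAt_id t).sub_const _
  have h2 : HasDerivAt (fun t : ℂ => (t - s) ^ 2) (2 * (t - s)) t := by
    have h4 : HasDerivAt (fun t : ℂ => (t - s) ^ 2) _ t := h1.fun_pow 2
    refine h4.congr_deriv ?_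
    norm_num
  have h3 : HasDerivAt (P s lam) (1 + I * lam * (2 * (t - s))) t :=
    (hasDerivAt_id t).add (h2.const_mul (I * lam))
  exact h3.deriv

theorem P_deriv_re (s lam : ℝ) (t : ℂ) : (deriv (P s lam) t).re = 1 - 2 * lam * t.im := by
  rw [P_deriv]
  simp only [add_re, one_re, mul_re, mul_im, I_re, I_im, ofReal_re, ofReal_im, sub_re, sub_im]
  norm_num
  ring

/-- the big box (everything below is included) -/
def bx (s lam : ℝ) : Set ℂ := {t | |t.re - s| ≤ 1 / (2 * lam) ∧ t.im ≤ 1 / (4 * lam)}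

/-- the compact box -/
def kb (s lam : ℝ) : Set ℂ := {t | |t.re - s| ≤ 1 / (2 * lam) ∧ 0 ≤ t.im ∧ t.im ≤ 1 / (4 * lam)}

/-- admissible levels -/
def adm (Om : Set (ℂ × ℂ)) (s lam : ℝ) (w : ℂ) : Set ℝ :=
  {c | c ≤ 1 / (8 * lam) ∧ ∀ t ∈ bx s lam, (P s lam t).im < c → (t, w) ∈ Om}

/-- penalised height -/
def ht (Om : Set (ℂ × ℂ)) (s lam : ℝ) (w : ℂ) : ℝ := sSup (adm Om s lam w)

section
variable {Om : Set (ℂ × ℂ)} {W : Set ℂ} {s lam : ℝ} {w : ℂ}

theorem im_neg (hlam : 0 < lam) {t : ℂ} (ht : t ∈ bx s lam) (h : (P s lam t).im < 0) :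
    t.im < 0 := by
  by_contra hc
  push Not at hc
  rw [P_im] at h
  have h1 : lam * t.im ≤ 1 / 4 := by
    have := mul_le_mul_of_nonneg_left ht.2 hlam.le
    calc lam * t.im ≤ lam * (1 / (4 * lam)) := this
      _ = 1 / 4 := by field_simp
  have h2 : 0 ≤ lam * (t.re - s) ^ 2 := by positivity
  nlinarith [mul_nonneg hc (by linarith : (0:ℝ) ≤ 1 - lam * t.im)]

theorem adm_zero (hlam : 0 < lam) (hb : ∀ t : ℂ, t.im < 0 → (t, w) ∈ Om) :
    (0 : ℝ) ∈ adm Om s lam w :=
  ⟨by positivity, fun t ht h => hb t (im_neg hlam ht h)⟩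

theorem adm_bdd : BddAbove (adm Om s lam w) := ⟨1 / (8 * lam), fun c hc => hc.1⟩

theorem ht_nonneg (hlam : 0 < lam) (hb : ∀ t : ℂ, t.im < 0 → (t, w) ∈ Om) :
    0 ≤ ht Om s lam w := le_csSup adm_bdd (adm_zero hlam hb)

theorem ht_le (hlam : 0 < lam) (hb : ∀ t : ℂ, t.im < 0 → (t, w) ∈ Om) :
    ht Om s lam w ≤ 1 / (8 * lam) := csSup_le ⟨0, adm_zero hlam hb⟩ (fun c hc => hc.1)

/-- (H1) everything below the height is in `Om` -/
theorem mem_of_lt (hlam : 0 < lam) (hb : ∀ t : ℂ, t.im < 0 → (t, w) ∈ Om) {t : ℂ}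
    (htb : t ∈ bx s lam) (h : (P s lam t).im < ht Om s lam w) : (t, w) ∈ Om := by
  obtain ⟨c, hc, hlt⟩ := exists_lt_of_lt_csSup ⟨0, adm_zero hlam hb⟩ h
  exact hc.2 t htb hlt

theorem kb_sub : kb s lam ⊆ bx s lam := fun t ht => ⟨ht.1, ht.2.2⟩

theorem kb_compact (s lam : ℝ) : IsCompact (kb s lam) := by
  have h1 : IsClosed (kb s lam) := by
    have e : kb s lam = {t : ℂ | |t.re - s| ≤ 1 / (2 * lam)} ∩
        ({t : ℂ | 0 ≤ t.im} ∩ {t : ℂ | t.im ≤ 1 / (4 * lam)}) := rfl
    rw [e]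
    refine (isClosed_le (by fun_prop) continuous_const).inter
      ((isClosed_le continuous_const Complex.continuous_im).inter
        (isClosed_le Complex.continuous_im continuous_const))
  refine Metric.isCompact_of_isClosed_isBounded h1 ?_
  rw [isBounded_iff_forall_norm_le]
  refine ⟨(1 / (2 * lam) + |s|) + |1 / (4 * lam)|, fun t ht => ?_⟩
  refine (Complex.norm_le_abs_re_add_abs_im t).trans ?_
  have h2 : |t.re| ≤ 1 / (2 * lam) + |s| := by
    have := abs_sub_abs_le_abs_sub t.re s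
    linarith [ht.1]
  have h3 : |t.im| ≤ |1 / (4 * lam)| := by
    rw [abs_of_nonneg ht.2.1]
    exact ht.2.2.trans (le_abs_self _)
  linarith

/-- interior of the box from the level -/
theorem box_strict (hlam : 0 < lam) {t : ℂ} (htb : t ∈ kb s lam)
    (h : (P s lam t).im < 1 / (8 * lam)) : |t.re - s| < 1 / (2 * lam) ∧ t.im < 1 / (4 * lam) := by
  rw [P_im] at h
  obtain ⟨h1, h2, h3⟩ := htb
  have h4 : lam * t.im ≤ 1 / 4 := by
    calc lam * t.im ≤ lam * (1 / (4 * lam)) := mul_le_mul_of_nonneg_left h3 hlam.le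
      _ = 1 / 4 := by field_simp
  have h5 : (8 * lam) * (t.im + lam * ((t.re - s) ^ 2 - t.im ^ 2)) < 1 := by
    have := mul_lt_mul_of_pos_left h (by positivity : (0:ℝ) < 8 * lam)
    calc (8 * lam) * (t.im + lam * ((t.re - s) ^ 2 - t.im ^ 2)) < (8 * lam) * (1 / (8 * lam)) := this
      _ = 1 := by field_simp
  have h6 : 0 ≤ lam * t.im := by positivity
  constructor
  · by_contra hc
    push Not at hc
    have h7 : |t.re - s| = 1 / (2 * lam) := le_antisymm h1 hc
    have h8 : (t.re - s) ^ 2 = (1 / (2 * lam)) ^ 2 := by rw [← sq_abs, h7]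
    have h9 : lam ^ 2 * (t.re - s) ^ 2 = 1 / 4 := by
      rw [h8]; field_simp; norm_num
    nlinarith
  · by_contra hc
    push Not at hc
    have h7 : t.im = 1 / (4 * lam) := le_antisymm h3 hc
    have h8 : lam * t.im = 1 / 4 := by rw [h7]; field_simp
    have h9 : 0 ≤ lam ^ 2 * (t.re - s) ^ 2 := by positivity
    nlinarith

/-- (H2) the height is attained at a point outside `Om` -/
theorem exists_touch (hO : IsOpen Om) (hlam : 0 < lam)
    (hb : ∀ t : ℂ, t.im < 0 → (t, w) ∈ Om) (h : ht Om s lam w < 1 / (8 * lam)) :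
    ∃ t ∈ kb s lam, (t, w) ∉ Om ∧ (P s lam t).im = ht Om s lam w := by
  set C : Set ℂ := kb s lam ∩ {t | (t, w) ∉ Om} with hC
  have hCc : IsCompact C := by
    refine (kb_compact s lam).inter_right ?_
    have : IsOpen {t : ℂ | (t, w) ∈ Om} := hO.preimage (by fun_prop)
    exact this.isClosed_compl
  have hcont : Continuous fun t : ℂ => (P s lam t).im :=
    Complex.continuous_im.comp (P_differentiable s lam).continuous
  -- nonempty
  have hne : C.Nonempty := by
    by_contra hemp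
    rw [not_nonempty_iff_eq_empty] at hemp
    have : (1 / (8 * lam) : ℝ) ∈ adm Om s lam w := by
      refine ⟨le_rfl, fun t ht' hlt => ?_⟩
      by_cases him : t.im < 0
      · exact hb t him
      · push Not at him
        by_contra hnot
        have : t ∈ C := ⟨⟨ht'.1, him, ht'.2⟩, hnot⟩
        rw [hemp] at this
        exact this
    exact absurd (le_csSup adm_bdd this) (not_le.2 h)
  obtain ⟨t0, ht0, hmin⟩ := hCc.exists_isMinOn hne hcont.continuousOn
  refine ⟨t0, ht0.1, ht0.2, ?_⟩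
  refine le_antisymm ?_ ?_
  · -- `Im P t0 ≤ ht`: otherwise a bigger level is admissible
    by_contra hc
    push Not at hc
    set c := min (P s lam t0).im (1 / (8 * lam)) with hcdef
    have hc1 : ht Om s lam w < c := lt_min hc h
    have hc2 : c ∈ adm Om s lam w := by
      refine ⟨min_le_right _ _, fun t ht' hlt => ?_⟩
      by_cases him : t.im < 0
      · exact hb t him
      · push Not at him
        by_contra hnot
        have hmem : t ∈ C := ⟨⟨ht'.1, him, ht'.2⟩, hnot⟩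
        have h1 : (P s lam t0).im ≤ (P s lam t).im := hmin hmem
        have h2 : c ≤ (P s lam t0).im := min_le_left _ _
        linarith
    exact absurd (le_csSup adm_bdd hc2) (not_le.2 hc1)
  · by_contra hc
    push Not at hc
    exact ht0.2 (mem_of_lt hlam hb (kb_sub ht0.1) hc)

/-- (H5) monotone in `Om` -/
theorem ht_mono {Om' : Set (ℂ × ℂ)} (hlam : 0 < lam) (hb : ∀ t : ℂ, t.im < 0 → (t, w) ∈ Om)
    (hsub : ∀ t, (t, w) ∈ Om → (t, w) ∈ Om') : ht Om s lam w ≤ ht Om' s lam w :=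
  csSup_le_csSup adm_bdd ⟨0, adm_zero hlam hb⟩ (fun c hc => ⟨hc.1, fun t ht h => hsub t (hc.2 t ht h)⟩)

/-- (H3) joint lower semicontinuity in `(s, w)` -/
theorem ht_lsc (hO : IsOpen Om) (hW : IsOpen W) (hlam : 0 < lam)
    (hb : ∀ w ∈ W, ∀ t : ℂ, t.im < 0 → (t, w) ∈ Om) :
    LowerSemicontinuousOn (fun p : ℝ × ℂ => ht Om p.1 lam p.2) (univ ×ˢ W) := by
  rintro ⟨s0, w0⟩ ⟨-, hw0⟩ c hc
  refine Filter.Eventually.filter_mono nhdsWithin_le_nhds ?_
  simp only at hc
  obtain ⟨c', hcc', hc'⟩ := exists_between hc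
  have hc'8 : c' < 1 / (8 * lam) := hc'.trans_le (ht_le hlam (hb w0 hw0))
  -- the compact set of `t`
  set K : Set ℂ := {t | |t.re - s0| ≤ 1 / (2 * lam) + 1 ∧ 0 ≤ t.im ∧ t.im ≤ 1 / (4 * lam)} with hK
  have hKc : IsCompact K := by
    have h1 : IsClosed K := by
      have e : K = {t : ℂ | |t.re - s0| ≤ 1 / (2 * lam) + 1} ∩
          ({t : ℂ | 0 ≤ t.im} ∩ {t : ℂ | t.im ≤ 1 / (4 * lam)}) := rfl
      rw [e]
      refine (isClosed_le (by fun_prop) continuous_const).inter
        ((isClosed_le continuous_const Complex.continuous_im).inter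
          (isClosed_le Complex.continuous_im continuous_const))
    refine Metric.isCompact_of_isClosed_isBounded h1 ?_
    rw [isBounded_iff_forall_norm_le]
    refine ⟨(1 / (2 * lam) + 1 + |s0|) + |1 / (4 * lam)|, fun t ht => ?_⟩
    refine (Complex.norm_le_abs_re_add_abs_im t).trans ?_
    have h2 : |t.re| ≤ 1 / (2 * lam) + 1 + |s0| := by
      have := abs_sub_abs_le_abs_sub t.re s0
      linarith [ht.1]
    have h3 : |t.im| ≤ |1 / (4 * lam)| := by
      rw [abs_of_nonneg ht.2.1]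
      exact ht.2.2.trans (le_abs_self _)
    linarith
  have key : ∀ᶠ p : ℝ × ℂ in 𝓝 (s0, w0), ∀ t ∈ K,
      (|t.re - p.1| ≤ 1 / (2 * lam) → (P p.1 lam t).im < c' → (t, p.2) ∈ Om) := by
    refine hKc.eventually_forall_of_forall_eventually (fun t ht' => ?_)
    by_cases h1 : |t.re - s0| ≤ 1 / (2 * lam)
    · by_cases h2 : (P s0 lam t).im ≤ c'
      · have h3 : (t, w0) ∈ Om :=
          mem_of_lt hlam (hb w0 hw0) (s := s0) ⟨h1, ht'.2.2⟩ (h2.trans_lt hc')
        have h4 : ∀ᶠ q : (ℝ × ℂ) × ℂ in 𝓝 ((s0, w0), t), (q.2, q.1.2) ∈ Om :=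
          (by fun_prop : Continuous fun q : (ℝ × ℂ) × ℂ => (q.2, q.1.2)).continuousAt.eventually
            (hO.mem_nhds h3)
        filter_upwards [h4] with q hq _ _
        exact hq
      · push Not at h2
        have h4 : ∀ᶠ q : (ℝ × ℂ) × ℂ in 𝓝 ((s0, w0), t), c' < (P q.1.1 lam q.2).im := by
          have hc1 : Continuous fun q : (ℝ × ℂ) × ℂ => (P q.1.1 lam q.2).im := by
            unfold P
            fun_prop
          exact hc1.continuousAt.eventually (lt_mem_nhds h2)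
        filter_upwards [h4] with q hq _ h
        exact absurd h (not_lt.2 hq.le)
    · push Not at h1
      have h4 : ∀ᶠ q : (ℝ × ℂ) × ℂ in 𝓝 ((s0, w0), t), 1 / (2 * lam) < |q.2.re - q.1.1| := by
        have hc1 : Continuous fun q : (ℝ × ℂ) × ℂ => |q.2.re - q.1.1| := by fun_prop
        exact hc1.continuousAt.eventually (lt_mem_nhds h1)
      filter_upwards [h4] with q hq h _
      exact absurd h (not_le.2 hq)
  have hWev : ∀ᶠ p : ℝ × ℂ in 𝓝 (s0, w0), p.2 ∈ W :=
    continuous_snd.continuousAt.eventually (hW.mem_nhds hw0)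
  have hsev : ∀ᶠ p : ℝ × ℂ in 𝓝 (s0, w0), |p.1 - s0| < 1 := by
    have hc1 : Continuous fun p : ℝ × ℂ => |p.1 - s0| := by fun_prop
    exact hc1.continuousAt.eventually (gt_mem_nhds (by simp))
  filter_upwards [key, hWev, hsev] with p hp hpW hps
  refine hcc'.trans_le (le_csSup adm_bdd ⟨hc'8.le, fun t ht' hlt => ?_⟩)
  by_cases him : t.im < 0
  · exact hb p.2 hpW t him
  · push Not at him
    refine hp t ⟨?_, him, ht'.2⟩ ht'.1 hlt
    have h1 : |t.re - s0| ≤ |t.re - p.1| + |p.1 - s0| := by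
      have := abs_add_le (t.re - p.1) (p.1 - s0)
      simpa using this
    linarith [ht'.1]

/-- lower semicontinuity in `w` -/
theorem ht_lsc_w (hO : IsOpen Om) (hW : IsOpen W) (hlam : 0 < lam)
    (hb : ∀ w ∈ W, ∀ t : ℂ, t.im < 0 → (t, w) ∈ Om) (s : ℝ) :
    LowerSemicontinuousOn (fun w : ℂ => ht Om s lam w) W := by
  intro w hw c hc
  have h := ht_lsc hO hW hlam hb (s, w) ⟨mem_univ _, hw⟩ c hc
  have h2 : Tendsto (fun w : ℂ => (s, w)) (𝓝[W] w) (𝓝[univ ×ˢ W] (s, w)) := by
    refine tendsto_nhdsWithin_iff.2 ⟨?_, ?_⟩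
    · exact ((by fun_prop : Continuous fun w : ℂ => (s, w)).tendsto w).mono_left nhdsWithin_le_nhds
    · exact eventually_nhdsWithin_of_forall (fun w hw => ⟨mem_univ _, hw⟩)
  exact h2.eventually h

/-- no strict local maximum of an imaginary part -/
theorem no_max {H : ℂ → ℂ} {w2 : ℂ} (hH : AnalyticAt ℂ H w2) {δ : ℝ} (hδ : 0 < δ)
    (h : ∀ᶠ w in 𝓝 w2, (H w).im + δ * ‖w - w2‖ ^ 2 ≤ (H w2).im) : False := by
  obtain ⟨r, hr, hball⟩ := Metric.eventually_nhds_iff_ball.1
    (h.and hH.eventually_analyticAt)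
  set ρ := r / 2 with hρ
  have hρ0 : 0 < ρ := by positivity
  have hsub : closedBall w2 ρ ⊆ ball w2 r := closedBall_subset_ball (by rw [hρ]; linarith)
  have hd : DiffContOnCl ℂ H (ball w2 ρ) := by
    refine DifferentiableOn.diffContOnCl ?_
    rw [closure_ball w2 hρ0.ne']
    exact fun z hz => (hball z (hsub hz)).2.differentiableAt.differentiableWithinAt
  have hcont : Continuous fun θ : ℝ => (H (circleMap w2 ρ θ)).im := by
    refine Complex.continuous_im.comp ?_
    have h1 : ContinuousOn H (closedBall w2 ρ) :=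
      fun z hz => (hball z (hsub hz)).2.continuousAt.continuousWithinAt
    exact h1.comp_continuous (continuous_circleMap w2 ρ)
      (fun θ => sphere_subset_closedBall (circleMap_mem_sphere w2 hρ0.le θ))
  have hmean : (2 * π)⁻¹ * ∫ θ in (0:ℝ)..(2 * π), (H (circleMap w2 ρ θ)).im = (H w2).im := by
    have h1 : Real.circleAverage H w2 ρ = H w2 := by
      have : DiffContOnCl ℂ H (ball w2 |ρ|) := by rwa [abs_of_pos hρ0]
      exact this.circleAverage
    rw [Real.circleAverage_def] at h1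
    have h2 := congrArg Complex.im h1
    rw [← h2]
    have hcontH : Continuous fun θ : ℝ => H (circleMap w2 ρ θ) := by
      have h1 : ContinuousOn H (closedBall w2 ρ) :=
        fun z hz => (hball z (hsub hz)).2.continuousAt.continuousWithinAt
      exact h1.comp_continuous (continuous_circleMap w2 ρ)
        (fun θ => sphere_subset_closedBall (circleMap_mem_sphere w2 hρ0.le θ))
    have h3 : (∫ θ in (0:ℝ)..(2 * π), H (circleMap w2 ρ θ)).im =
        ∫ θ in (0:ℝ)..(2 * π), (H (circleMap w2 ρ θ)).im := by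
      have h4 : IntervalIntegrable (fun θ => H (circleMap w2 ρ θ)) volume 0 (2 * π) :=
        hcontH.intervalIntegrable _ _
      have := ContinuousLinearMap.intervalIntegral_comp_comm Complex.imCLM h4
      simpa using this.symm
    rw [← h3]
    simp
  have hle : ∫ θ in (0:ℝ)..(2 * π), (H (circleMap w2 ρ θ)).im ≤
      ∫ θ in (0:ℝ)..(2 * π), ((H w2).im - δ * ρ ^ 2) := by
    refine intervalIntegral.integral_mono_on (by positivity) (hcont.intervalIntegrable _ _)
      intervalIntegrable_const ?_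
    intro θ _
    have h1 := (hball _ (hsub (sphere_subset_closedBall
      (circleMap_mem_sphere w2 hρ0.le θ)))).1
    have h2 : ‖circleMap w2 ρ θ - w2‖ = ρ := by
      have := circleMap_mem_sphere w2 hρ0.le θ
      simpa [dist_eq_norm] using this
    rw [h2] at h1
    linarith
  have hcalc : (2 * π)⁻¹ * ∫ θ in (0:ℝ)..(2 * π), ((H w2).im - δ * ρ ^ 2) =
      (H w2).im - δ * ρ ^ 2 := by
    rw [intervalIntegral.integral_const, smul_eq_mul, sub_zero]
    field_simp
  have h5 : (H w2).im ≤ (H w2).im - δ * ρ ^ 2 := by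
    rw [← hcalc]
    conv_lhs => rw [← hmean]
    exact mul_le_mul_of_nonneg_left hle (by positivity)
  have : 0 < δ * ρ ^ 2 := by positivity
  linarith

/-- (H4) the penalised height satisfies the local test -/
theorem ht_NT (hO : IsOpen Om) (hlam : 0 < lam)
    (hb : ∀ w ∈ W, ∀ t : ℂ, t.im < 0 → (t, w) ∈ Om)
    (hlevi : ∀ (t0 w0 : ℂ) (Q H : ℂ → ℂ) (δ : ℝ), w0 ∈ W → AnalyticAt ℂ Q t0 →
      0 < (deriv Q t0).re → AnalyticAt ℂ H w0 → (Q t0).im = (H w0).im → 0 < δ →
      (∀ᶠ q : ℂ × ℂ in 𝓝 (t0, w0), (Q q.1).im < (H q.2).im + δ * ‖q.2 - w0‖ ^ 2 → q ∈ Om) →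
      (t0, w0) ∈ Om) (s : ℝ) (hW : IsOpen W) :
    NT (fun w => ht Om s lam w) W := by
  intro w2 hw2 H hH δ hδ
  rintro ⟨heq, hev⟩
  rcases (ht_le (s := s) hlam (hb w2 hw2)).lt_or_eq with hlt | heq8
  · obtain ⟨t0, ht0, hnot, him⟩ := exists_touch hO hlam (hb w2 hw2) hlt
    have hbs := box_strict hlam ht0 (him.trans_lt hlt)
    refine hnot (hlevi t0 w2 (P s lam) H δ hw2 (P_analyticAt s lam t0) ?_ hH
      (him.trans heq) hδ ?_)
    · rw [P_deriv_re]
      have h1 : lam * t0.im < 1 / 4 := by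
        calc lam * t0.im < lam * (1 / (4 * lam)) := mul_lt_mul_of_pos_left hbs.2 hlam
          _ = 1 / 4 := by field_simp
      linarith
    · have e1 : ∀ᶠ q : ℂ × ℂ in 𝓝 (t0, w2), |q.1.re - s| < 1 / (2 * lam) :=
        (by fun_prop : Continuous fun q : ℂ × ℂ => |q.1.re - s|).continuousAt.eventually
          (gt_mem_nhds hbs.1)
      have e2 : ∀ᶠ q : ℂ × ℂ in 𝓝 (t0, w2), q.1.im < 1 / (4 * lam) :=
        (by fun_prop : Continuous fun q : ℂ × ℂ => q.1.im).continuousAt.eventually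
          (gt_mem_nhds hbs.2)
      have e3 : ∀ᶠ q : ℂ × ℂ in 𝓝 (t0, w2), q.2 ∈ W :=
        continuous_snd.continuousAt.eventually (hW.mem_nhds hw2)
      have e4 : ∀ᶠ q : ℂ × ℂ in 𝓝 (t0, w2),
          (H q.2).im + δ * ‖q.2 - w2‖ ^ 2 ≤ ht Om s lam q.2 :=
        (continuous_snd.tendsto (t0, w2)).eventually hev
      filter_upwards [e1, e2, e3, e4] with q h1 h2 h3 h4 h5
      exact mem_of_lt hlam (hb q.2 h3) (s := s) ⟨h1.le, h2.le⟩ (h5.trans_le h4)
  · -- at the cap: strict local maximum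
    refine no_max hH hδ ?_
    filter_upwards [hev, hW.mem_nhds hw2] with w hw hwW
    have heq' : ht Om s lam w2 = (H w2).im := heq
    rw [← heq', heq8]
    exact hw.trans (ht_le hlam (hb w hwW))

end

end Crest.Agent.R102.HtLV712
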