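import Mathlib
import Crest.Agent.R102.SHtest_712
import Crest.Agent.R102.HtLV_712

/-!
# Row 102, T1-E, joint J1 (helper712): heights of a Levi set in window coordinates

`LS b W Om`: Levi set over `W` with base `Im t < b` (shear invariant form).  `Vh` = height of the set
(capped), `Rh` = penalised height over a window, with the parabola `P t = t + i λ t²`.
`LS.win`: window coordinates `t = tc + (τ + g ω) / N`, `w = s ω`.
-/

set_option autoImplicit false

open Set Filter Topology Metric Complex MeasureTheory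
open scoped Real

noncomputable section

namespace Crest.Agent.R102.T1EJ712

open Crest.Agent.R102.SH712 (NT sh1_re)
open Crest.Agent.R102.HtLV712 (no_max)

/-- Levi sets over `W` with base level `b` -/
structure LS (b : ℝ) (W : Set ℂ) (Om : Set (ℂ × ℂ)) : Prop where
  isOpen : IsOpen Om
  WO : IsOpen W
  base : ∀ w ∈ W, ∀ t : ℂ, t.im < b → (t, w) ∈ Om
  levi : ∀ (t0 w0 : ℂ) (Q sg H : ℂ → ℂ) (δ : ℝ), w0 ∈ W → AnalyticAt ℂ Q (t0 - sg w0) →
      0 < (deriv Q (t0 - sg w0)).re → AnalyticAt ℂ sg w0 → AnalyticAt ℂ H w0 →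
      (Q (t0 - sg w0)).im = (H w0).im → 0 < δ →
      (∀ᶠ q : ℂ × ℂ in 𝓝 (t0, w0), (Q (q.1 - sg q.2)).im < (H q.2).im + δ * ‖q.2 - w0‖ ^ 2 →
        q ∈ Om) → (t0, w0) ∈ Om

variable {Om : Set (ℂ × ℂ)} {W : Set ℂ} {b : ℝ}

theorem LS.mono (h : LS b W Om) {W' : Set ℂ} (hW' : IsOpen W') (hsub : W' ⊆ W) {b' : ℝ}
    (hb : ∀ w ∈ W', ∀ t : ℂ, t.im < b' → (t, w) ∈ Om) : LS b' W' Om :=
  ⟨h.isOpen, hW', hb, fun t0 w0 Q sg H δ hw0 => h.levi t0 w0 Q sg H δ (hsub hw0)⟩

/-- window coordinates -/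
def Win (Om : Set (ℂ × ℂ)) (W' : Set ℂ) (tc : ℂ) (N s : ℝ) (g : ℂ → ℂ) : Set (ℂ × ℂ) :=
  {q | q.2 ∈ W' ∧ (tc + (q.1 + g q.2) / N, s * q.2) ∈ Om}

theorem LS.win (h : LS b W Om) {tc : ℂ} {N s : ℝ} (hN : 0 < N) (hs : 0 < s) {g : ℂ → ℂ}
    {W' : Set ℂ} (hW' : IsOpen W') (hg : ∀ w ∈ W', AnalyticAt ℂ g w)
    (hsub : ∀ w ∈ W', (s : ℂ) * w ∈ W) {b' : ℝ}
    (hb : ∀ w ∈ W', ∀ t : ℂ, t.im < b' → (tc + (t + g w) / N, (s : ℂ) * w) ∈ Om) :
    LS b' W' (Win Om W' tc N s g) where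
  isOpen := by
    have hgc : ContinuousOn g W' := fun w hw => (hg w hw).continuousAt.continuousWithinAt
    rw [isOpen_iff_mem_nhds]
    rintro q ⟨hq1, hq2⟩
    have h1 : ∀ᶠ q' : ℂ × ℂ in 𝓝 q, q'.2 ∈ W' :=
      continuous_snd.continuousAt.eventually (hW'.mem_nhds hq1)
    have hgq : ContinuousAt (fun q' : ℂ × ℂ => g q'.2) q :=
      ContinuousAt.comp (hg q.2 hq1).continuousAt continuous_snd.continuousAt
    have h2 : ContinuousAt (fun q' : ℂ × ℂ => (tc + (q'.1 + g q'.2) / N, (s : ℂ) * q'.2)) q := by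
      have h3 : ContinuousAt (fun q' : ℂ × ℂ => tc + (q'.1 + g q'.2) / N) q :=
        continuousAt_const.add ((continuousAt_fst.add hgq).div_const _)
      exact h3.prodMk (continuousAt_const.mul continuousAt_snd)
    filter_upwards [h1, h2.eventually (h.isOpen.mem_nhds hq2)] with q' h3 h4
    exact ⟨h3, h4⟩
  WO := hW'
  base := fun w hw t ht => ⟨hw, hb w hw t ht⟩
  levi := by
    intro t0 w0 Q sg H δ hw0 hQ hQ' hsg hH heq hδ hev
    have hNC : (N : ℂ) ≠ 0 := by exact_mod_cast hN.ne'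
    have hsC : (s : ℂ) ≠ 0 := by exact_mod_cast hs.ne'
    refine ⟨hw0, ?_⟩
    set T0 : ℂ := tc + (t0 + g w0) / N with hT0
    set sg' : ℂ → ℂ := fun w => tc + (g (w / s) + sg (w / s)) / N with hsg'
    have hdiv : (s : ℂ) * w0 / s = w0 := by field_simp
    have hbase : T0 - sg' (s * w0) = (t0 - sg w0) / N := by
      simp only [hT0, hsg', hdiv]
      field_simp
      ring
    have hmul : (N : ℂ) * (T0 - sg' (s * w0)) = t0 - sg w0 := by
      rw [hbase]; field_simp
    have hdivan : AnalyticAt ℂ (fun w : ℂ => w / s) (s * w0) := by fun_prop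
    have han : ∀ f : ℂ → ℂ, AnalyticAt ℂ f w0 → AnalyticAt ℂ (fun w : ℂ => f (w / s)) (s * w0) := by
      intro f hf
      exact AnalyticAt.fun_comp (g := f) (by simpa only [hdiv] using hf) hdivan
    have hQa : AnalyticAt ℂ (fun u : ℂ => Q (N * u)) (T0 - sg' (s * w0)) :=
      AnalyticAt.fun_comp (g := Q) (by simpa only [hmul] using hQ) (by fun_prop)
    have hderiv : deriv (fun u : ℂ => Q (N * u)) (T0 - sg' (s * w0)) =
        N * deriv Q (t0 - sg w0) := by
      have h1 : HasDerivAt Q (deriv Q (t0 - sg w0)) ((N : ℂ) * (T0 - sg' (s * w0))) := by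
        rw [hmul]; exact hQ.differentiableAt.hasDerivAt
      have h2 : HasDerivAt (fun u : ℂ => (N : ℂ) * u) (N : ℂ) (T0 - sg' (s * w0)) := by
        simpa using (hasDerivAt_id (T0 - sg' (s * w0))).const_mul (N : ℂ)
      have h3 := HasDerivAt.comp (T0 - sg' (s * w0)) h1 h2
      have h4 := h3.deriv
      simp only [Function.comp_def] at h4
      rw [h4, mul_comm]
    refine h.levi T0 (s * w0) (fun u => Q (N * u)) sg' (fun w => H (w / s)) (δ / s ^ 2)
      (hsub w0 hw0) hQa ?_ ?_ (han H hH) ?_ (by positivity) ?_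
    · rw [hderiv, Complex.re_ofReal_mul]
      exact mul_pos hN hQ'
    · exact analyticAt_const.add (((han g (hg w0 hw0)).add (han sg hsg)).div_const)
    · simp only [hmul, hdiv]
      exact heq
    · -- the eventual condition
      set Ψ : ℂ × ℂ → ℂ × ℂ := fun q => (N * (q.1 - tc) - g (q.2 / s), q.2 / s) with hΨ
      have hΨ0 : Ψ (T0, s * w0) = (t0, w0) := by
        simp only [hΨ, hT0, hdiv]
        refine Prod.ext ?_ rfl
        simp only
        field_simp
        ring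
      have hΨc : ContinuousAt Ψ (T0, s * w0) := by
        have h1 : ContinuousAt (fun q : ℂ × ℂ => g (q.2 / s)) (T0, (s : ℂ) * w0) := by
          have h2 : ContinuousAt (fun q : ℂ × ℂ => q.2 / (s : ℂ)) (T0, (s : ℂ) * w0) := by fun_prop
          refine ContinuousAt.comp (g := g) ?_ h2
          simp only [hdiv]
          exact (hg w0 hw0).continuousAt
        refine ContinuousAt.prodMk (ContinuousAt.sub (by fun_prop) h1) (by fun_prop)
      have hev' := (hΨ0 ▸ hΨc.tendsto : Tendsto Ψ (𝓝 (T0, s * w0)) (𝓝 (t0, w0))).eventually hev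
      filter_upwards [hev'] with q hq hlt
      have e1 : (N : ℂ) * (q.1 - sg' q.2) = (Ψ q).1 - sg (Ψ q).2 := by
        simp only [hΨ, hsg']
        field_simp
        ring
      have e2 : ‖q.2 - s * w0‖ = s * ‖(Ψ q).2 - w0‖ := by
        have : q.2 - s * w0 = s * ((Ψ q).2 - w0) := by
          simp only [hΨ]
          field_simp
        rw [this, norm_mul, Complex.norm_real, Real.norm_eq_abs, abs_of_pos hs]
      rw [e1, e2] at hlt
      have e3 : δ / s ^ 2 * (s * ‖(Ψ q).2 - w0‖) ^ 2 = δ * ‖(Ψ q).2 - w0‖ ^ 2 := by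
        field_simp
      rw [e3] at hlt
      have hmem := (hq hlt).2
      have e4 : (tc + ((Ψ q).1 + g (Ψ q).2) / N, (s : ℂ) * (Ψ q).2) = q := by
        simp only [hΨ]
        refine Prod.ext ?_ ?_
        · simp only
          field_simp
          ring
        · simp only
          field_simp
      rwa [e4] at hmem

/-! ## the height -/

/-- admissible levels -/
def admV (Om : Set (ℂ × ℂ)) (cp : ℝ) (w : ℂ) : Set ℝ := {c | c ≤ cp ∧ ∀ t : ℂ, t.im < c → (t, w) ∈ Om}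

/-- height, capped at `cp` -/
def Vh (Om : Set (ℂ × ℂ)) (cp : ℝ) (w : ℂ) : ℝ := sSup (admV Om cp w)

/-- horizontal period -/
def Per (Om : Set (ℂ × ℂ)) (p : ℝ) : Prop :=
  ∀ (t w : ℂ) (n : ℤ), (t, w) ∈ Om → (t + n * p, w) ∈ Om

variable {w : ℂ} {p cp : ℝ}

theorem admV_bdd : BddAbove (admV Om cp w) := ⟨cp, fun _ hc => hc.1⟩

theorem admV_ne (hb : ∀ t : ℂ, t.im < b → (t, w) ∈ Om) : (admV Om cp w).Nonempty :=
  ⟨min b cp, min_le_right _ _, fun t ht => hb t (ht.trans_le (min_le_left _ _))⟩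

theorem Vh_le (hb : ∀ t : ℂ, t.im < b → (t, w) ∈ Om) : Vh Om cp w ≤ cp :=
  csSup_le (admV_ne hb) fun _ hc => hc.1

theorem le_Vh {c : ℝ} (hc : c ≤ cp) (hb : ∀ t : ℂ, t.im < c → (t, w) ∈ Om) : c ≤ Vh Om cp w :=
  le_csSup admV_bdd ⟨hc, hb⟩

theorem mem_of_lt_Vh (hb : ∀ t : ℂ, t.im < b → (t, w) ∈ Om) {t : ℂ} (h : t.im < Vh Om cp w) :
    (t, w) ∈ Om := by
  obtain ⟨c, hc, hlt⟩ := exists_lt_of_lt_csSup (admV_ne hb) h
  exact hc.2 t hlt

theorem Vh_le_of_notMem (hb : ∀ t : ℂ, t.im < b → (t, w) ∈ Om) {t : ℂ} (h : (t, w) ∉ Om) :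
    Vh Om cp w ≤ t.im := by
  by_contra hc
  push Not at hc
  exact h (mem_of_lt_Vh hb hc)

/-- shift into a fundamental domain -/
theorem exists_shift (hp : 0 < p) (t : ℂ) : ∃ n : ℤ, 0 ≤ (t + n * p).re ∧ (t + n * p).re ≤ p ∧
    (t + n * p).im = t.im := by
  refine ⟨-⌊t.re / p⌋, ?_, ?_, ?_⟩
  · have h1 := Int.floor_le (t.re / p)
    have h2 : (⌊t.re / p⌋ : ℝ) * p ≤ t.re := (le_div_iff₀ hp).1 h1
    simp
    linarith
  · have h1 := (Int.lt_floor_add_one (t.re / p)).le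
    have h2 : t.re ≤ ((⌊t.re / p⌋ : ℝ) + 1) * p := (div_le_iff₀ hp).1 h1
    simp
    nlinarith
  · simp

theorem of_shift (hper : Per Om p) {t : ℂ} {n : ℤ} (h : (t + n * p, w) ∈ Om) : (t, w) ∈ Om := by
  have h1 := hper (t + n * p) w (-n) h
  have h2 : t + n * p + ((-n : ℤ) : ℂ) * p = t := by push_cast; ring
  rwa [h2] at h1

theorem Vh_touch (hO : IsOpen Om) (hp : 0 < p) (hper : Per Om p)
    (hb : ∀ t : ℂ, t.im < b → (t, w) ∈ Om) (h : Vh Om cp w < cp) :
    ∃ t : ℂ, t.im = Vh Om cp w ∧ (t, w) ∉ Om := by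
  by_contra hcon
  push Not at hcon
  set V := Vh Om cp w with hV
  have key : ∀ᶠ y : ℝ in 𝓝 V, ∀ x ∈ Icc (0 : ℝ) p, ((x : ℂ) + y * I, w) ∈ Om := by
    refine isCompact_Icc.eventually_forall_of_forall_eventually (fun x _ => ?_)
    have h1 : ((x : ℂ) + V * I, w) ∈ Om := hcon _ (by simp)
    have h2 : Continuous fun q : ℝ × ℝ => ((q.2 : ℂ) + q.1 * I, w) := by fun_prop
    exact h2.continuousAt.eventually (hO.mem_nhds (x := ((x : ℂ) + V * I, w)) h1)
  obtain ⟨ε, hε, hball⟩ := Metric.eventually_nhds_iff_ball.1 key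
  have h1 : min (V + ε / 2) cp ∈ admV Om cp w := by
    refine ⟨min_le_right _ _, fun t ht => ?_⟩
    have ht1 : t.im < V + ε / 2 := ht.trans_le (min_le_left _ _)
    by_cases h2 : t.im < V
    · exact mem_of_lt_Vh hb h2
    · push Not at h2
      obtain ⟨n, h3, h4, h5⟩ := exists_shift hp t
      refine of_shift hper (n := n) ?_
      have h6 := hball t.im (by rw [mem_ball, Real.dist_eq, abs_of_nonneg (by linarith)]; linarith)
        (t + n * p).re ⟨h3, h4⟩
      rw [← h5, Complex.re_add_im] at h6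
      exact h6
  have h2 := le_csSup admV_bdd h1
  have h3 : V < min (V + ε / 2) cp := lt_min (by linarith) h
  exact absurd h2 (not_le.2 h3)

theorem Vh_lsc (h : LS b W Om) (hp : 0 < p) (hper : Per Om p) :
    LowerSemicontinuousOn (Vh Om cp) W := by
  intro w hw c hc
  refine Filter.Eventually.filter_mono nhdsWithin_le_nhds ?_
  obtain ⟨c', hcc', hc'⟩ := exists_between hc
  have key : ∀ᶠ w' : ℂ in 𝓝 w, ∀ x ∈ Icc (0 : ℝ) p ×ˢ Icc b c',
      ((x.1 : ℂ) + x.2 * I, w') ∈ Om := by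
    refine (isCompact_Icc.prod isCompact_Icc).eventually_forall_of_forall_eventually
      (fun x hx => ?_)
    have h1 : ((x.1 : ℂ) + x.2 * I, w) ∈ Om :=
      mem_of_lt_Vh (h.base w hw) (by simpa using hx.2.2.trans_lt hc')
    have h2 : Continuous fun q : ℂ × (ℝ × ℝ) => ((q.2.1 : ℂ) + q.2.2 * I, q.1) := by fun_prop
    exact h2.continuousAt.eventually (h.isOpen.mem_nhds (x := ((x.1 : ℂ) + x.2 * I, w)) h1)
  filter_upwards [key, h.WO.mem_nhds hw] with w' h1 h2
  refine hcc'.trans_le (le_Vh (hc'.le.trans (Vh_le (h.base w hw))) fun t ht => ?_)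
  by_cases h3 : t.im < b
  · exact h.base w' h2 t h3
  · push Not at h3
    obtain ⟨n, h4, h5, h6⟩ := exists_shift hp t
    refine of_shift hper (n := n) ?_
    have h7 := h1 ((t + n * p).re, (t + n * p).im) ⟨⟨h4, h5⟩, by
      rw [h6]; exact ⟨h3, ht.le⟩⟩
    simp only [Complex.re_add_im] at h7
    exact h7

theorem Vh_NT (h : LS b W Om) (hp : 0 < p) (hper : Per Om p) : NT (Vh Om cp) W := by
  intro w2 hw2 H hH δ hδ
  rintro ⟨heq, hev⟩
  rcases (Vh_le (cp := cp) (h.base w2 hw2)).lt_or_eq with hlt | heq1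
  · obtain ⟨t0, him, hnot⟩ := Vh_touch h.isOpen hp hper (h.base w2 hw2) hlt
    refine hnot (h.levi t0 w2 id (fun _ => 0) H δ hw2 analyticAt_id (by simp)
      analyticAt_const hH (by simpa using him.trans heq) hδ ?_)
    have e3 : ∀ᶠ q : ℂ × ℂ in 𝓝 (t0, w2), q.2 ∈ W :=
      continuous_snd.continuousAt.eventually (h.WO.mem_nhds hw2)
    have e4 : ∀ᶠ q : ℂ × ℂ in 𝓝 (t0, w2), (H q.2).im + δ * ‖q.2 - w2‖ ^ 2 ≤ Vh Om cp q.2 :=
      (continuous_snd.tendsto (t0, w2)).eventually hev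
    filter_upwards [e3, e4] with q h3 h4 h5
    exact mem_of_lt_Vh (h.base q.2 h3) (by simpa using h5.trans_le h4)
  · refine no_max hH hδ ?_
    filter_upwards [hev, h.WO.mem_nhds hw2] with w hw hwW
    rw [← heq, heq1]
    exact hw.trans (Vh_le (h.base w hwW))

/-! ## the penalised height -/

/-- the parabola -/
def P (lam : ℝ) (t : ℂ) : ℂ := t + lam * (I * t ^ 2)

variable {lam : ℝ}

theorem P_im (t : ℂ) : (P lam t).im = t.im + lam * (t.re ^ 2 - t.im ^ 2) := by
  simp only [P, Complex.add_im, sq, Complex.im_ofReal_mul]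
  simp

theorem P_diff : Differentiable ℂ (P lam) := by
  unfold P
  fun_prop

theorem P_deriv_re (t : ℂ) : (deriv (P lam) t).re = 1 - 2 * lam * t.im := by
  have h1 : HasDerivAt (P lam) (1 + lam * (I * (2 * t))) t := by
    have h2 : HasDerivAt (fun t : ℂ => t ^ 2) (2 * t) t := by simpa using hasDerivAt_pow 2 t
    exact (hasDerivAt_id t).add ((h2.const_mul I).const_mul (lam : ℂ))
  rw [h1.deriv]
  rw [Complex.add_re, Complex.re_ofReal_mul]
  simp
  ring

/-- parameters: half width, curvature, cap, top of the box, base -/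
structure Prm (X lam cp Y C : ℝ) : Prop where
  hC : 0 ≤ C
  hcp : 0 ≤ cp
  hlam : 0 < lam
  hY0 : 0 ≤ Y
  hY : cp ≤ Y - lam * Y ^ 2
  hlY : 2 * lam * Y < 1
  hX : cp + C + lam * C ^ 2 ≤ lam * X ^ 2

/-- the box above the level `-C` -/
def bx (X Y C : ℝ) : Set ℂ := {t | |t.re| ≤ X ∧ -C ≤ t.im ∧ t.im ≤ Y}

theorem bx_compact (X Y C : ℝ) : IsCompact (bx X Y C) := by
  have h1 : IsClosed (bx X Y C) := by
    have e : bx X Y C = {t : ℂ | |t.re| ≤ X} ∩ ({t : ℂ | -C ≤ t.im} ∩ {t : ℂ | t.im ≤ Y}) := rfl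
    rw [e]
    exact (isClosed_le (by fun_prop) continuous_const).inter
      ((isClosed_le continuous_const Complex.continuous_im).inter
        (isClosed_le Complex.continuous_im continuous_const))
  refine Metric.isCompact_of_isClosed_isBounded h1 ?_
  rw [isBounded_iff_forall_norm_le]
  refine ⟨X + (|C| + |Y|), fun t ht => ?_⟩
  refine (Complex.norm_le_abs_re_add_abs_im t).trans ?_
  have h3 : |t.im| ≤ |C| + |Y| := by
    rw [abs_le]
    have h4 := le_abs_self C
    have h5 := abs_nonneg C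
    have h6 := le_abs_self Y
    have h7 := abs_nonneg Y
    exact ⟨by linarith [ht.2.1], by linarith [ht.2.2]⟩
  linarith [ht.1]

variable {X Y C : ℝ}

/-- on the box `y - λ y²` is at least its value at `-C` -/
theorem low_quad (h : Prm X lam cp Y C) {y : ℝ} (h1 : -C ≤ y) (h2 : y ≤ Y) :
    -(C + lam * C ^ 2) ≤ y - lam * y ^ 2 := by
  have h3 : lam * y ≤ lam * Y := mul_le_mul_of_nonneg_left h2 h.hlam.le
  have h4 : 0 ≤ lam * C := mul_nonneg h.hlam.le h.hC
  have h5 := h.hlY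
  have h6 : 0 ≤ (y + C) * (1 - lam * (y - C)) :=
    mul_nonneg (by linarith) (by nlinarith)
  nlinarith

/-- interior of the box from the level -/
theorem box_strict (h : Prm X lam cp Y C) {t : ℂ} (ht : t ∈ bx X Y C) (h0 : (P lam t).im < cp) :
    |t.re| < X ∧ t.im < Y := by
  rw [P_im] at h0
  obtain ⟨h1, h2, h3⟩ := ht
  constructor
  · by_contra hc
    push Not at hc
    have h7 : |t.re| = X := le_antisymm h1 hc
    have h8 : t.re ^ 2 = X ^ 2 := by rw [← sq_abs, h7]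
    rw [h8] at h0
    have h9 := low_quad h h2 h3
    have h10 := h.hX
    nlinarith
  · by_contra hc
    push Not at hc
    have h7 : t.im = Y := le_antisymm h3 hc
    rw [h7] at h0
    have h8 := h.hY
    have h9 : 0 ≤ lam * t.re ^ 2 := mul_nonneg h.hlam.le (sq_nonneg _)
    nlinarith

/-- admissible levels -/
def admR (Om : Set (ℂ × ℂ)) (X lam cp Y C : ℝ) (w : ℂ) : Set ℝ :=
  {c | c ≤ cp ∧ ∀ t ∈ bx X Y C, (P lam t).im < c → (t, w) ∈ Om}

/-- penalised height -/
def Rh (Om : Set (ℂ × ℂ)) (X lam cp Y C : ℝ) (w : ℂ) : ℝ := sSup (admR Om X lam cp Y C w)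

theorem low_adm (h : Prm X lam cp Y C) : -(C + lam * C ^ 2) ∈ admR Om X lam cp Y C w := by
  have h4 : 0 ≤ lam * C ^ 2 := mul_nonneg h.hlam.le (sq_nonneg _)
  refine ⟨by linarith [h.hC, h.hcp], fun t ht h0 => ?_⟩
  exfalso
  rw [P_im] at h0
  have h1 := low_quad h ht.2.1 ht.2.2
  have h5 : 0 ≤ lam * t.re ^ 2 := mul_nonneg h.hlam.le (sq_nonneg _)
  nlinarith

theorem admR_bdd : BddAbove (admR Om X lam cp Y C w) := ⟨cp, fun _ hc => hc.1⟩

theorem low_Rh (h : Prm X lam cp Y C) : -(C + lam * C ^ 2) ≤ Rh Om X lam cp Y C w :=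
  le_csSup admR_bdd (low_adm h)

theorem Rh_le (h : Prm X lam cp Y C) : Rh Om X lam cp Y C w ≤ cp :=
  csSup_le ⟨_, low_adm h⟩ fun _ hc => hc.1

theorem le_Rh {c : ℝ} (hc : c ≤ cp) (h : ∀ t ∈ bx X Y C, (P lam t).im < c → (t, w) ∈ Om) :
    c ≤ Rh Om X lam cp Y C w :=
  le_csSup admR_bdd ⟨hc, h⟩

theorem mem_of_lt_Rh (h : Prm X lam cp Y C) {t : ℂ} (ht : t ∈ bx X Y C)
    (h0 : (P lam t).im < Rh Om X lam cp Y C w) : (t, w) ∈ Om := by
  obtain ⟨c, hc, hlt⟩ := exists_lt_of_lt_csSup ⟨_, low_adm h⟩ h0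
  exact hc.2 t ht hlt

theorem Rh_touch (hO : IsOpen Om) (hP : Prm X lam cp Y C) (h : Rh Om X lam cp Y C w < cp) :
    ∃ t ∈ bx X Y C, (t, w) ∉ Om ∧ (P lam t).im = Rh Om X lam cp Y C w := by
  set S : Set ℂ := bx X Y C ∩ {t | (t, w) ∉ Om} with hS
  have hSc : IsCompact S := by
    refine (bx_compact X Y C).inter_right ?_
    have : IsOpen {t : ℂ | (t, w) ∈ Om} := hO.preimage (by fun_prop)
    exact this.isClosed_compl
  have hcont : Continuous fun t : ℂ => (P lam t).im :=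
    Complex.continuous_im.comp P_diff.continuous
  have hne : S.Nonempty := by
    by_contra hemp
    rw [not_nonempty_iff_eq_empty] at hemp
    have h1 : cp ≤ Rh Om X lam cp Y C w := by
      refine le_Rh le_rfl fun t ht hlt => ?_
      by_contra hnot
      have : t ∈ S := ⟨ht, hnot⟩
      rw [hemp] at this
      exact this
    linarith
  obtain ⟨t0, ht0, hmin⟩ := hSc.exists_isMinOn hne hcont.continuousOn
  refine ⟨t0, ht0.1, ht0.2, ?_⟩
  refine le_antisymm ?_ ?_
  · by_contra hc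
    push Not at hc
    have hc1 : Rh Om X lam cp Y C w < min (P lam t0).im cp := lt_min hc h
    refine absurd (le_Rh (Om := Om) (X := X) (lam := lam) (Y := Y) (C := C) (w := w)
      (min_le_right (P lam t0).im cp) fun t ht hlt => ?_) (not_le.2 hc1)
    by_contra hnot
    have h1 : (P lam t0).im ≤ (P lam t).im := hmin (⟨ht, hnot⟩ : t ∈ S)
    have h2 := min_le_left (P lam t0).im cp
    linarith
  · by_contra hc
    push Not at hc
    exact ht0.2 (mem_of_lt_Rh hP ht0.1 hc)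

theorem Rh_lsc (hO : IsOpen Om) (hP : Prm X lam cp Y C) :
    LowerSemicontinuousOn (Rh Om X lam cp Y C) W := by
  intro w hw c hc
  refine Filter.Eventually.filter_mono nhdsWithin_le_nhds ?_
  obtain ⟨c', hcc', hc'⟩ := exists_between hc
  have key : ∀ᶠ w' : ℂ in 𝓝 w, ∀ t ∈ bx X Y C, ((P lam t).im < c' → (t, w') ∈ Om) := by
    refine (bx_compact X Y C).eventually_forall_of_forall_eventually (fun t ht => ?_)
    by_cases h2 : (P lam t).im ≤ c'
    · have h3 : (t, w) ∈ Om := mem_of_lt_Rh hP ht (h2.trans_lt hc')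
      have h4 : ∀ᶠ q : ℂ × ℂ in 𝓝 (w, t), (q.2, q.1) ∈ Om :=
        (by fun_prop : Continuous fun q : ℂ × ℂ => (q.2, q.1)).continuousAt.eventually
          (hO.mem_nhds h3)
      filter_upwards [h4] with q hq _
      exact hq
    · push Not at h2
      have h4 : ∀ᶠ q : ℂ × ℂ in 𝓝 (w, t), c' < (P lam q.2).im := by
        have hc1 : Continuous fun q : ℂ × ℂ => (P lam q.2).im := by
          have := (P_diff (lam := lam)).continuous
          fun_prop
        exact hc1.continuousAt.eventually (lt_mem_nhds h2)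
      filter_upwards [h4] with q hq h
      exact absurd h (not_lt.2 hq.le)
  filter_upwards [key] with w' hw'
  exact hcc'.trans_le (le_Rh (hc'.le.trans (Rh_le hP)) hw')

theorem Rh_NT (h : LS (-C) W Om) (hP : Prm X lam cp Y C) : NT (Rh Om X lam cp Y C) W := by
  intro w2 hw2 H hH δ hδ
  rintro ⟨heq, hev⟩
  rcases (Rh_le (Om := Om) (w := w2) hP).lt_or_eq with hlt | heq1
  · obtain ⟨t0, ht0, hnot, him⟩ := Rh_touch h.isOpen hP hlt
    have hbs := box_strict hP ht0 (him.trans_lt hlt)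
    refine hnot (h.levi t0 w2 (P lam) (fun _ => 0) H δ hw2 (P_diff.analyticAt _) ?_
      analyticAt_const hH (by simpa using him.trans heq) hδ ?_)
    · rw [P_deriv_re]
      simp only [sub_zero]
      have h1 : lam * t0.im ≤ lam * Y := mul_le_mul_of_nonneg_left hbs.2.le hP.hlam.le
      have h2 := hP.hlY
      nlinarith
    · have e1 : ∀ᶠ q : ℂ × ℂ in 𝓝 (t0, w2), |q.1.re| < X :=
        (by fun_prop : Continuous fun q : ℂ × ℂ => |q.1.re|).continuousAt.eventually
          (gt_mem_nhds hbs.1)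
      have e2 : ∀ᶠ q : ℂ × ℂ in 𝓝 (t0, w2), q.1.im < Y :=
        (by fun_prop : Continuous fun q : ℂ × ℂ => q.1.im).continuousAt.eventually
          (gt_mem_nhds hbs.2)
      have e3 : ∀ᶠ q : ℂ × ℂ in 𝓝 (t0, w2), q.2 ∈ W :=
        continuous_snd.continuousAt.eventually (h.WO.mem_nhds hw2)
      have e4 : ∀ᶠ q : ℂ × ℂ in 𝓝 (t0, w2),
          (H q.2).im + δ * ‖q.2 - w2‖ ^ 2 ≤ Rh Om X lam cp Y C q.2 :=
        (continuous_snd.tendsto (t0, w2)).eventually hev
      filter_upwards [e1, e2, e3, e4] with q h1 h2 h3 h4 h5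
      by_cases h6 : q.1.im < -C
      · exact h.base q.2 h3 q.1 h6
      · push Not at h6
        refine mem_of_lt_Rh hP (t := q.1) ⟨h1.le, h6, h2.le⟩ ?_
        simp only [sub_zero] at h5
        exact h5.trans_le h4
  · refine no_max hH hδ ?_
    filter_upwards [hev] with w hw
    rw [← heq, heq1]
    exact hw.trans (Rh_le hP)

/-- the point over the centre: `V < R` gives a finite top with a regular point at the centre -/
theorem top_of_lt (h : LS b W Om) (hp : 0 < p) (hper : Per Om p) (hP : Prm X lam cp Y C)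
    (hX : 0 ≤ X) (hw : w ∈ W) (hC : -C ≤ Vh Om cp w) (hlt : Vh Om cp w < Rh Om X lam cp Y C w) :
    (∀ t : ℂ, t.im < Vh Om cp w → (t, w) ∈ Om) ∧ (∃ t : ℂ, t.im = Vh Om cp w ∧ (t, w) ∉ Om) ∧
      ((Vh Om cp w : ℂ) * I, w) ∈ Om := by
  have hcp : Vh Om cp w < cp := hlt.trans_le (Rh_le hP)
  refine ⟨fun t ht => mem_of_lt_Vh (h.base w hw) ht,
    Vh_touch h.isOpen hp hper (h.base w hw) hcp, ?_⟩
  have hY : cp ≤ Y := by
    have h1 := hP.hY
    have h2 : 0 ≤ lam * Y ^ 2 := mul_nonneg hP.hlam.le (sq_nonneg _)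
    linarith
  refine mem_of_lt_Rh hP (t := (Vh Om cp w : ℂ) * I) ⟨by simpa using hX, by simpa using hC, ?_⟩ ?_
  · simpa using hcp.le.trans hY
  · rw [P_im]
    simp only [mul_re, ofReal_re, I_re, mul_zero, ofReal_im, I_im, mul_one, sub_self, mul_im,
      add_zero, ne_eq, OfNat.ofNat_ne_zero, not_false_eq_true, zero_pow, zero_sub]
    have h1 : 0 ≤ lam * Vh Om cp w ^ 2 := mul_nonneg hP.hlam.le (sq_nonneg _)
    linarith

end Crest.Agent.R102.T1EJ712
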