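import Mathlib
import Crest.Agent.R102.T1EJ1_712
import Crest.Agent.R102.SlopeA_845
import Crest.Agent.R102.E56_924

/-!
# Row 102, T1-E (516's good column), joint POT' (helper712)

* `half`: a superharmonic function `≥ m₀` in a disc and `≥ a` almost everywhere on the real diameter
  is `≥ m₀ + (a - m₀)/8` on the circle of one third of the radius;
* `mm Om r` = lower bound of the heights over `‖w‖ ≤ r`; `mm_circles` (three circles), `mm_concave`;
* `mm_gap`: the two together.
-/

set_option autoImplicit false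

open Set Filter Topology Metric Complex MeasureTheory
open scoped Real ComplexConjugate

noncomputable section

namespace Crest.Agent.R102.T1EJ712

open Crest.Agent.R102.SH712 (NT sh1_re)
open Crest.Agent.R102.HtLV712 (no_max)
open Crest.Agent.R102.LP472 (pk one_sub_pk_le)

/-! ## general lemmas on NT functions -/

theorem NT_add_re {V : ℂ → ℝ} {W : Set ℂ} (h : NT V W) {G : ℂ → ℂ}
    (hG : ∀ w ∈ W, AnalyticAt ℂ G w) : NT (fun z => V z - (G z).re) W := by
  intro w2 hw2 H hH δ hδ h1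
  refine h w2 hw2 (fun w => H w + I * G w) (hH.add (analyticAt_const.mul (hG w2 hw2))) δ hδ ⟨?_, ?_⟩
  · have := h1.1
    simp only [Complex.add_im, Complex.I_mul_im] at this ⊢; linarith
  · filter_upwards [h1.2] with w hw
    simp only [Complex.add_im, Complex.I_mul_im] at hw ⊢; linarith

theorem NT_add_log {V : ℂ → ℝ} {W : Set ℂ} (h : NT V W) (hW : ∀ w ∈ W, w ≠ 0) (β : ℝ) :
    NT (fun z => V z + β * Real.log ‖z‖) W := by
  intro w2 hw2 H hH δ hδ h1
  have hne := hW w2 hw2
  set G : ℂ → ℂ := fun w => Complex.log (w / w2) + Real.log ‖w2‖ with hG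
  have hGa : AnalyticAt ℂ G w2 := by
    refine AnalyticAt.add (AnalyticAt.clog (by fun_prop) ?_) analyticAt_const
    rw [div_self hne]; exact Complex.one_mem_slitPlane
  have hGr : ∀ w : ℂ, w ≠ 0 → (G w).re = Real.log ‖w‖ := by
    intro w hw
    have h2 : ‖w2‖ ≠ 0 := norm_ne_zero_iff.2 hne
    have h3 : ‖w‖ ≠ 0 := norm_ne_zero_iff.2 hw
    simp only [hG, Complex.add_re, Complex.log_re, Complex.ofReal_re, norm_div]
    rw [Real.log_div h3 h2]
    ring
  refine h w2 hw2 (fun w => H w - I * (β * G w)) (hH.sub (analyticAt_const.mul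
    (analyticAt_const.mul hGa))) δ hδ ⟨?_, ?_⟩
  · have h3 := h1.1
    simp only [Complex.sub_im, Complex.I_mul_im, Complex.re_ofReal_mul] at h3 ⊢
    rw [hGr w2 hne]; linarith
  · filter_upwards [h1.2, (isOpen_ne.mem_nhds hne : {w : ℂ | w ≠ 0} ∈ 𝓝 w2)] with w hw hw0
    simp only [Complex.sub_im, Complex.I_mul_im, Complex.re_ofReal_mul] at hw ⊢
    rw [hGr w hw0]; linarith

/-- the minimum principle with a continuous function `h`, `V - h` an NT function -/
theorem minp' {Ω W : Set ℂ} {B : ℝ} (hB : ∀ z ∈ Ω, ‖z‖ ≤ B) (hΩ : IsOpen Ω) (hcl : closure Ω ⊆ W)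
    {V h : ℂ → ℝ} (hl : LowerSemicontinuousOn V W) (hc : ContinuousOn h W)
    (hNT : NT (fun z => V z - h z) Ω) (hbd : ∀ ζ ∈ closure Ω, ζ ∉ Ω → h ζ ≤ V ζ) :
    ∀ z ∈ Ω, h z ≤ V z := by
  have hlsc : LowerSemicontinuousOn (fun z => V z - h z) W := by
    have h1 : LowerSemicontinuousOn (fun z => -h z) W := hc.neg.lowerSemicontinuousOn
    have := hl.add h1
    simpa [sub_eq_add_neg] using this
  have hΩW : Ω ⊆ W := subset_closure.trans hcl
  have key := Crest.Agent.R102.Slope845.minp hB hΩ (hlsc.mono hΩW) hNT (by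
    intro ζ hζ hζΩ ε hε
    have h1 := hlsc ζ (hcl hζ) (-ε) (by have := hbd ζ hζ hζΩ; simp only; linarith)
    exact h1.filter_mono (nhdsWithin_mono _ hΩW))
  intro z hz
  have := key z hz
  linarith

/-- a constant lower bound on a circle, except at the two real points -/
theorem two_pts {V : ℂ → ℝ} {W : Set ℂ} (hlsc : LowerSemicontinuousOn V W) (hNT : NT V W)
    {x0 : ℂ} (hx0 : x0.im = 0) {ρ m M : ℝ} (hρ : 0 < ρ) (hsub : closedBall x0 ρ ⊆ W)
    (hM : ∀ w ∈ W, -M ≤ V w) (hV : ∀ w ∈ sphere x0 ρ, w.im ≠ 0 → m ≤ V w) : m ≤ V x0 := by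
  refine le_of_forall_pos_le_add (fun κ hκ => ?_)
  -- the harmonic minorant
  set s : ℝ := 1 - min (1 / 2) (2 * Real.exp (-((M + |m| + 1) / κ))) with hs
  have hτ : 0 < min (1 / 2) (2 * Real.exp (-((M + |m| + 1) / κ))) :=
    lt_min (by norm_num) (by positivity)
  have hs1 : s < 1 := by linarith
  have hs0 : 1 / 2 ≤ s := by
    have := min_le_left (1 / 2) (2 * Real.exp (-((M + |m| + 1) / κ)))
    linarith
  set Fn : ℂ → ℂ := fun w => m + κ * (Complex.log (1 - s * ((w - x0) / ρ) ^ 2) - Real.log 2) with hFn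
  have hρC : (ρ : ℂ) ≠ 0 := by exact_mod_cast hρ.ne'
  have hz : ∀ w ∈ closedBall x0 ρ, ‖(w - x0) / ρ‖ ≤ 1 := by
    intro w hw
    rw [mem_closedBall, dist_eq_norm] at hw
    rw [norm_div, Complex.norm_real, Real.norm_eq_abs, abs_of_pos hρ, div_le_one hρ]
    exact hw
  have hns : ∀ w ∈ closedBall x0 ρ, ‖(s : ℂ) * ((w - x0) / ρ) ^ 2‖ ≤ s := by
    intro w hw
    rw [norm_mul, norm_pow, Complex.norm_real, Real.norm_eq_abs, abs_of_pos (by linarith)]
    have h2 := hz w hw
    have h3 : ‖(w - x0) / ρ‖ ^ 2 ≤ 1 := pow_le_one₀ (norm_nonneg _) h2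
    nlinarith [norm_nonneg ((w - x0) / ρ)]
  have hslit : ∀ w ∈ closedBall x0 ρ, 1 - s * ((w - x0) / ρ) ^ 2 ∈ slitPlane := by
    intro w hw
    rw [Complex.mem_slitPlane_iff]
    left
    have h4 := (Complex.abs_re_le_norm ((s : ℂ) * ((w - x0) / ρ) ^ 2)).trans (hns w hw)
    have h5 := (abs_le.1 h4).2
    rw [Complex.sub_re, Complex.one_re]
    linarith
  have hdiff : DifferentiableOn ℂ Fn (closedBall x0 ρ) := by
    intro w hw
    have h2 : DifferentiableAt ℂ (fun w : ℂ => Complex.log (1 - s * ((w - x0) / ρ) ^ 2)) w := by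
      refine DifferentiableAt.clog ?_ (hslit w hw)
      fun_prop
    exact (((h2.sub_const _).const_mul _).const_add _).differentiableWithinAt
  have hcl : DiffContOnCl ℂ Fn (ball x0 ρ) := by
    apply DifferentiableOn.diffContOnCl
    rw [closure_ball x0 hρ.ne']
    exact hdiff
  have hre : ∀ w, (Fn w).re = m + κ * (Real.log ‖1 - s * ((w - x0) / ρ) ^ 2‖ - Real.log 2) := by
    intro w
    simp only [hFn, Complex.add_re, Complex.ofReal_re, Complex.re_ofReal_mul, Complex.sub_re,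
      Complex.log_re]
  have hkey := sh1_re hlsc hNT hρ hsub hcl (by
    intro w hw
    have hwc : w ∈ closedBall x0 ρ := sphere_subset_closedBall hw
    have hpos : 0 < ‖1 - (s : ℂ) * ((w - x0) / ρ) ^ 2‖ := by
      rw [norm_pos_iff]
      exact slitPlane_ne_zero (hslit w hwc)
    have hle2 : ‖1 - (s : ℂ) * ((w - x0) / ρ) ^ 2‖ ≤ 2 := by
      refine (norm_sub_le _ _).trans ?_
      rw [norm_one]
      linarith [hns w hwc]
    rw [hre w]
    by_cases him : w.im = 0
    · -- the two real points: `((w - x0)/ρ)² = 1`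
      have h1 : ((w - x0) / ρ) ^ 2 = 1 := by
        have h2 : w - x0 = (((w - x0).re : ℝ) : ℂ) := by
          apply Complex.ext
          · simp
          · simp [him, hx0]
        have h3 : |(w - x0).re| = ρ := by
          rw [mem_sphere, dist_eq_norm, h2, Complex.norm_real, Real.norm_eq_abs] at hw
          simpa using hw
        rw [h2]
        have h4 : (w - x0).re ^ 2 = ρ ^ 2 := by rw [← sq_abs, h3]
        rw [div_pow]
        have h5 : (((w - x0).re : ℝ) : ℂ) ^ 2 = (ρ : ℂ) ^ 2 := by exact_mod_cast h4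
        rw [h5]
        field_simp
      rw [h1]
      have h6 : ‖1 - (s : ℂ) * 1‖ = 1 - s := by
        have : (1 : ℂ) - s * 1 = ((1 - s : ℝ) : ℂ) := by push_cast; ring
        rw [this, Complex.norm_real, Real.norm_eq_abs, abs_of_pos (by linarith)]
      rw [h6]
      have h7 : 1 - s ≤ 2 * Real.exp (-((M + |m| + 1) / κ)) := by
        have := min_le_right (1 / 2) (2 * Real.exp (-((M + |m| + 1) / κ)))
        linarith
      have h8 : Real.log (1 - s) ≤ Real.log 2 + -((M + |m| + 1) / κ) := by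
        have h9 := Real.log_le_log (by linarith : 0 < 1 - s) h7
        rwa [Real.log_mul (by norm_num) (by positivity), Real.log_exp] at h9
      have h9 : κ * (Real.log (1 - s) - Real.log 2) ≤ κ * (-((M + |m| + 1) / κ)) :=
        mul_le_mul_of_nonneg_left (by linarith) hκ.le
      have h10 : κ * (-((M + |m| + 1) / κ)) = -(M + |m| + 1) := by field_simp
      have h11 := hM w (hsub hwc)
      have h12 := le_abs_self m
      linarith
    · have h1 := hV w hw him
      have h2 := Real.log_le_log hpos hle2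
      have h3 : κ * (Real.log ‖1 - (s : ℂ) * ((w - x0) / ρ) ^ 2‖ - Real.log 2) ≤ 0 :=
        mul_nonpos_of_nonneg_of_nonpos hκ.le (by linarith)
      linarith) x0 (mem_closedBall_self hρ.le)
  rw [hre x0] at hkey
  simp only [sub_self, zero_div, ne_eq, OfNat.ofNat_ne_zero, not_false_eq_true, zero_pow, mul_zero,
    sub_zero, norm_one, Real.log_one, zero_sub] at hkey
  have hlog2 : Real.log 2 ≤ 1 := by
    have := Real.log_le_sub_one_of_pos (show (0:ℝ) < 2 by norm_num)
    linarith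
  nlinarith

/-! ## the half disc -/

theorem one_sub_arctan {b : ℝ} (hb : 8 ≤ b) : 1 - 2 / π * Real.arctan b ≤ 1 / 12 := by
  have hb0 : 0 < b := by linarith
  have h1 := Real.arctan_inv_of_pos hb0
  have h2 : Real.arctan b⁻¹ ≤ b⁻¹ := by
    have h3 : 0 ≤ b⁻¹ := by positivity
    have h4 : 0 ≤ Real.arctan b⁻¹ := Real.arctan_nonneg.2 h3
    by_contra hc
    push Not at hc
    have h5 : Real.arctan b⁻¹ < π / 2 := Real.arctan_lt_pi_div_two _
    have h6 := Real.le_tan h4 h5
    rw [Real.tan_arctan] at h6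
    linarith
  have h3 : b⁻¹ ≤ 1 / 8 := by
    rw [inv_eq_one_div]
    exact one_div_le_one_div_of_le (by norm_num) hb
  have hpi := Real.pi_gt_three
  have h4 : 2 / π * Real.arctan b = 1 - 2 / π * Real.arctan b⁻¹ := by
    rw [h1]
    have := Real.pi_ne_zero
    field_simp
    ring
  rw [h4]
  have h5 : 2 / π * Real.arctan b⁻¹ ≤ 2 / 3 * (1 / 8) := by
    refine mul_le_mul ?_ (h2.trans h3) (Real.arctan_nonneg.2 (by positivity)) (by norm_num)
    exact div_le_div_of_nonneg_left (by norm_num) (by norm_num) hpi.le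
  linarith

/-- points near the diameter -/
theorem near_diam {V : ℂ → ℝ} {ρ c M : ℝ} (hρ : 0 < ρ) (hc : 0 ≤ c)
    (hlsc : LowerSemicontinuousOn V (ball 0 ρ)) (hNT : NT V (ball 0 ρ))
    (h0 : ∀ w ∈ ball (0 : ℂ) ρ, 0 ≤ V w) (hM : ∀ w ∈ ball (0 : ℂ) ρ, V w ≤ M) {S : Set ℝ}
    (hS : volume S = 0) (hV : ∀ u : ℝ, |u| < ρ → u ∉ S → c ≤ V u) {x y : ℝ} (hx : |x| ≤ 3 * ρ / 4)
    (hy : 0 < y) (hy' : y ≤ ρ / 64) : c / 2 ≤ V (x + y * I) := by
  have hη : 0 < π * y / 20 := by positivity
  obtain ⟨K, hKc, hKS, hKm⟩ := E56.exists_compact x (r := ρ / 8) hη S (by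
    rw [hS]; simpa using hη)
  have hsub : closedBall (x : ℂ) (ρ / 8) ⊆ ball 0 ρ := by
    intro z hz
    rw [mem_closedBall, dist_eq_norm] at hz
    rw [mem_ball_zero_iff]
    have h1 : ‖z‖ ≤ ‖z - x‖ + ‖(x : ℂ)‖ := by
      have := norm_add_le (z - x) (x : ℂ)
      simpa using this
    rw [Complex.norm_real, Real.norm_eq_abs] at h1
    linarith
  have h1 := E56.inside (W := ball 0 ρ) isOpen_ball hlsc hNT (M := M)
    (fun w hw => by rw [abs_of_nonneg (h0 w hw)]; exact hM w hw) (x₀ := x) (r := ρ / 8)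
    (by positivity) hsub (L := fun _ => 0) (differentiableOn_const 0) (B := 0) (C := 0) (c₁ := c)
    le_rfl le_rfl hc (fun w _ => by simp) (fun w hw => by simpa using h0 w hw) hKc
    (fun u hu hux => by
      have h2 := hKS hu
      have h3 : |u| < ρ := by
        have h4 : |u| ≤ |u - x| + |x| := by
          have := abs_add_le (u - x) x
          simpa using this
        linarith
      simpa using hV u h3 h2.2) hy (by linarith)
  simp only [Complex.zero_re, zero_add] at h1
  have h2 := one_sub_pk_le hy (b := ρ / 8 / y) (by positivity) x hKc.measurableSet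
  have h3 : ρ / 8 / y * y = ρ / 8 := by field_simp
  rw [h3] at h2
  have h4 : (π * y)⁻¹ * volume.real (Icc (x - ρ / 8) (x + ρ / 8) \ K) ≤ 1 / 10 := by
    refine (mul_le_mul_of_nonneg_left hKm (by positivity)).trans (le_of_eq ?_)
    have := Real.pi_ne_zero
    field_simp
    norm_num
  have h5 : 1 - 2 / π * Real.arctan (ρ / 8 / y) ≤ 1 / 12 := by
    refine one_sub_arctan ?_
    rw [le_div_iff₀ hy]
    linarith
  have h6 : 2 * y / (ρ / 8) ≤ 1 / 4 := by
    rw [div_le_iff₀ (by positivity)]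
    linarith
  have h7 : c * (2 * y / (ρ / 8)) ≤ c * (1 / 4) := mul_le_mul_of_nonneg_left h6 hc
  have h8 : c * (1 - ∫ t in K, pk x y t) ≤ c * (1 / 10 + 1 / 12) :=
    mul_le_mul_of_nonneg_left (by linarith) hc
  nlinarith

/-- the upper half of the disc -/
theorem half_up {V : ℂ → ℝ} {ρ c M : ℝ} (hρ : 0 < ρ) (hc : 0 ≤ c)
    (hlsc : LowerSemicontinuousOn V (ball 0 ρ)) (hNT : NT V (ball 0 ρ))
    (h0 : ∀ w ∈ ball (0 : ℂ) ρ, 0 ≤ V w) (hM : ∀ w ∈ ball (0 : ℂ) ρ, V w ≤ M) {S : Set ℝ}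
    (hS : volume S = 0) (hV : ∀ u : ℝ, |u| < ρ → u ∉ S → c ≤ V u) {w : ℂ} (hw : ‖w‖ = ρ / 3)
    (him : 0 < w.im) : c / 8 ≤ V w := by
  set R : ℝ := 3 * ρ / 4 with hR
  have hR0 : 0 < R := by positivity
  have hwre : |w.re| ≤ ρ / 3 := hw ▸ Complex.abs_re_le_norm w
  by_cases hy : w.im ≤ ρ / 64
  · have h1 := near_diam hρ hc hlsc hNT h0 hM hS hV (x := w.re) (y := w.im) (by linarith) him hy
    rw [Complex.re_add_im] at h1
    linarith
  push Not at hy
  set Ω : Set ℂ := ball 0 R ∩ {z | ρ / 64 < z.im} with hΩ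
  have hΩo : IsOpen Ω := isOpen_ball.inter (isOpen_lt continuous_const Complex.continuous_im)
  have hcl : closure Ω ⊆ closedBall 0 R ∩ {z | ρ / 64 ≤ z.im} := by
    refine closure_minimal ?_ (isClosed_closedBall.inter
      (isClosed_le continuous_const Complex.continuous_im))
    rintro z ⟨h1, h2⟩
    exact ⟨ball_subset_closedBall h1, (show ρ / 64 < z.im from h2).le⟩
  have hclW : closure Ω ⊆ ball 0 ρ := by
    intro z hz
    exact closedBall_subset_ball (by rw [hR]; linarith) (hcl hz).1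
  set G : ℂ → ℂ := fun z => (c / 2 : ℝ) * (1 - (z / R) ^ 2 + 2 * I * (z / R)) with hG
  have hGd : Differentiable ℂ G := by
    simp only [hG]
    fun_prop
  have hGre : ∀ z : ℂ, (G z).re = c / 2 * (1 - (z.re ^ 2 - z.im ^ 2) / R ^ 2 - 2 * z.im / R) := by
    intro z
    have e1 : z / R = ((z.re / R : ℝ) : ℂ) + ((z.im / R : ℝ) : ℂ) * I := by
      have e2 : z / R = ((z.re : ℂ) + z.im * I) / R := by rw [Complex.re_add_im]
      rw [e2]
      push_cast
      ring
    simp only [hG, Complex.re_ofReal_mul]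
    rw [e1]
    congr 1
    simp [sq]
    field_simp
    ring
  have key := minp' (Ω := Ω) (W := ball 0 ρ) (B := R)
    (fun z hz => by have := hz.1; rw [mem_ball_zero_iff] at this; exact this.le) hΩo hclW
    (V := V) (h := fun z => (G z).re) hlsc
    (Complex.continuous_re.comp hGd.continuous).continuousOn
    (NT_add_re (fun z hz => hNT z (hclW (subset_closure hz))) (fun z _ => hGd.analyticAt z)) (by
      intro ζ hζ hζΩ
      have hζcl := hcl hζ
      have hn : ‖ζ‖ ≤ R := by simpa using hζcl.1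
      have hi : ρ / 64 ≤ ζ.im := hζcl.2
      have hsq : ζ.re ^ 2 + ζ.im ^ 2 = ‖ζ‖ ^ 2 := by
        rw [Complex.sq_norm, Complex.normSq_apply]; ring
      have hiR : ζ.im ≤ R := (Complex.im_le_norm ζ).trans hn
      rw [hGre ζ]
      by_cases h1 : ‖ζ‖ < R
      · -- bottom
        have h2 : ζ.im = ρ / 64 := by
          refine le_antisymm ?_ hi
          by_contra hc'
          push Not at hc'
          exact hζΩ ⟨by simpa using h1, hc'⟩
        have h3 : |ζ.re| ≤ 3 * ρ / 4 := ((Complex.abs_re_le_norm ζ).trans hn).trans_eq hR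
        have h4 := near_diam hρ hc hlsc hNT h0 hM hS hV (x := ζ.re) (y := ζ.im) h3
          (by linarith) h2.le
        rw [Complex.re_add_im] at h4
        refine le_trans ?_ h4
        have h5 : 1 - (ζ.re ^ 2 - ζ.im ^ 2) / R ^ 2 - 2 * ζ.im / R ≤ 1 := by
          have h6 : -(ζ.re ^ 2 - ζ.im ^ 2) / R ^ 2 ≤ ζ.im / R := by
            rw [div_le_div_iff₀ (by positivity) hR0]
            nlinarith [sq_nonneg ζ.re, mul_nonneg (by linarith : 0 ≤ ζ.im) (by linarith : 0 ≤ R - ζ.im)]
          have h7 : 0 ≤ ζ.im / R := by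
            have : 0 ≤ ζ.im := by linarith
            positivity
          have h8 : -(ζ.re ^ 2 - ζ.im ^ 2) / R ^ 2 = -((ζ.re ^ 2 - ζ.im ^ 2) / R ^ 2) := by ring
          have h9 : 2 * ζ.im / R = 2 * (ζ.im / R) := by ring
          rw [h8] at h6
          rw [h9]
          linarith
        nlinarith
      · -- the arc
        have h2 : ‖ζ‖ = R := le_antisymm hn (not_lt.1 h1)
        refine le_trans ?_ (h0 ζ (hclW hζ))
        refine mul_nonpos_of_nonneg_of_nonpos (by positivity) ?_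
        rw [h2] at hsq
        have h3 : ζ.re ^ 2 - ζ.im ^ 2 = R ^ 2 - 2 * ζ.im ^ 2 := by linarith
        rw [h3]
        have h4 : 1 - (R ^ 2 - 2 * ζ.im ^ 2) / R ^ 2 - 2 * ζ.im / R =
            -(2 * (ζ.im / R) * (1 - ζ.im / R)) := by
          field_simp
          ring
        rw [h4]
        have h5 : 0 ≤ ζ.im / R := by
          have : 0 ≤ ζ.im := by linarith
          positivity
        have h6 : ζ.im / R ≤ 1 := (div_le_one hR0).2 hiR
        have : 0 ≤ 2 * (ζ.im / R) * (1 - ζ.im / R) := mul_nonneg (by positivity) (by linarith)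
        linarith)
  have hwΩ : w ∈ Ω := ⟨by rw [mem_ball_zero_iff, hw, hR]; linarith, hy⟩
  refine le_trans ?_ (key w hwΩ)
  rw [hGre w]
  have hsq : w.re ^ 2 + w.im ^ 2 = (ρ / 3) ^ 2 := by
    rw [← hw, Complex.sq_norm, Complex.normSq_apply]; ring
  have h1 : w.re ^ 2 - w.im ^ 2 = (ρ / 3) ^ 2 - 2 * w.im ^ 2 := by linarith
  rw [h1]
  set q : ℝ := w.im / R with hq
  have hq0 : 0 ≤ q := by positivity
  have hq1 : q ≤ 4 / 9 := by
    rw [hq, div_le_iff₀ hR0, hR]
    have := (Complex.im_le_norm w).trans_eq hw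
    linarith
  have h2 : 1 - ((ρ / 3) ^ 2 - 2 * w.im ^ 2) / R ^ 2 - 2 * w.im / R =
      1 - (4 / 9) ^ 2 + 2 * q ^ 2 - 2 * q := by
    rw [hq, hR]
    field_simp
    ring
  rw [h2]
  have h3 : 1 / 4 ≤ 1 - (4 / 9) ^ 2 + 2 * q ^ 2 - 2 * q := by
    nlinarith [mul_nonneg (by linarith : 0 ≤ 4 / 9 - q) (by linarith : 0 ≤ 1 - 4 / 9 - q)]
  have h4 : c / 2 * (1 / 4) ≤ c / 2 * (1 - (4 / 9) ^ 2 + 2 * q ^ 2 - 2 * q) :=
    mul_le_mul_of_nonneg_left h3 (by linarith)
  linarith

/-- **half disc**: normalised form -/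
theorem half0 {V : ℂ → ℝ} {ρ c M : ℝ} (hρ : 0 < ρ) (hc : 0 ≤ c)
    (hlsc : LowerSemicontinuousOn V (ball 0 ρ)) (hNT : NT V (ball 0 ρ))
    (h0 : ∀ w ∈ ball (0 : ℂ) ρ, 0 ≤ V w) (hM : ∀ w ∈ ball (0 : ℂ) ρ, V w ≤ M) {S : Set ℝ}
    (hS : volume S = 0) (hV : ∀ u : ℝ, |u| < ρ → u ∉ S → c ≤ V u) {w : ℂ} (hw : ‖w‖ = ρ / 3) :
    c / 8 ≤ V w := by
  -- the reflected function
  have hset : {z : ℂ | conj z ∈ ball (0 : ℂ) ρ} = ball 0 ρ := by
    ext z
    simp
  have hNT' : NT (fun z => V (conj z)) (ball 0 ρ) := by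
    have := Crest.Agent.R102.Slope845.NT_conj hNT
    rwa [hset] at this
  have hmem : ∀ z ∈ ball (0 : ℂ) ρ, conj z ∈ ball (0 : ℂ) ρ := by
    intro z hz
    simpa [mem_ball_zero_iff] using hz
  have hlsc' : LowerSemicontinuousOn (fun z => V (conj z)) (ball 0 ρ) := by
    intro z hz y hy
    have h1 := hlsc (conj z) (hmem z hz) y hy
    have h2 : Tendsto (fun z : ℂ => conj z) (𝓝[ball 0 ρ] z) (𝓝[ball 0 ρ] (conj z)) :=
      tendsto_nhdsWithin_of_tendsto_nhds_of_eventually_within _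
        ((Complex.continuous_conj.tendsto z).mono_left nhdsWithin_le_nhds)
        (eventually_nhdsWithin_of_forall hmem)
    exact h2.eventually h1
  have hdown : ∀ z : ℂ, ‖z‖ = ρ / 3 → z.im < 0 → c / 8 ≤ V z := by
    intro z hz hzi
    have h1 := half_up hρ hc hlsc' hNT' (fun w hw => h0 _ (hmem w hw))
      (fun w hw => hM _ (hmem w hw)) hS (fun u hu huS => by simpa using hV u hu huS)
      (w := conj z) (by simpa using hz) (by simpa using hzi)
    simpa using h1
  rcases lt_trichotomy w.im 0 with him | him | him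
  · exact hdown w hw him
  · -- a real point
    have h1 : closedBall w (ρ / 128) ⊆ ball 0 ρ := by
      intro z hz
      rw [mem_closedBall, dist_eq_norm] at hz
      rw [mem_ball_zero_iff]
      have h1 : ‖z‖ ≤ ‖z - w‖ + ‖w‖ := by
        have := norm_add_le (z - w) w
        simpa using this
      linarith
    refine two_pts hlsc hNT him (ρ := ρ / 128) (by positivity) h1 (M := 0)
      (fun z hz => by simpa using h0 z hz) (fun z hz hzi => ?_)
    have hz' : ‖z - w‖ = ρ / 128 := by simpa [dist_eq_norm] using hz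
    have hzre : |z.re| ≤ 3 * ρ / 4 := by
      have h2 : |z.re| ≤ ‖z‖ := Complex.abs_re_le_norm z
      have h3 : ‖z‖ ≤ ‖z - w‖ + ‖w‖ := by
        have := norm_add_le (z - w) w
        simpa using this
      linarith
    have hzim : |z.im| ≤ ρ / 64 := by
      have h2 := Complex.abs_im_le_norm (z - w)
      rw [Complex.sub_im, him, sub_zero] at h2
      linarith
    rcases lt_or_gt_of_ne hzi with h2 | h2
    · have h3 := near_diam hρ hc hlsc' hNT' (fun w hw => h0 _ (hmem w hw))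
        (fun w hw => hM _ (hmem w hw)) hS (fun u hu huS => by simpa using hV u hu huS)
        (x := z.re) (y := -z.im) hzre (by linarith)
        (by rw [abs_of_neg h2] at hzim; exact hzim)
      have h4 : conj ((z.re : ℂ) + ((-z.im : ℝ) : ℂ) * I) = z := by
        apply Complex.ext <;> simp
      simp only [h4] at h3
      linarith
    · have h3 := near_diam hρ hc hlsc hNT h0 hM hS hV (x := z.re) (y := z.im) hzre h2
        (by rw [abs_of_pos h2] at hzim; exact hzim)
      rw [Complex.re_add_im] at h3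
      linarith
  · exact half_up hρ hc hlsc hNT h0 hM hS hV hw him

/-- **half disc** (516 (7)) -/
theorem half {V : ℂ → ℝ} {ρ m₀ a M : ℝ} (hρ : 0 < ρ) (ha : m₀ ≤ a)
    (hlsc : LowerSemicontinuousOn V (ball 0 ρ)) (hNT : NT V (ball 0 ρ))
    (h0 : ∀ w ∈ ball (0 : ℂ) ρ, m₀ ≤ V w) (hM : ∀ w ∈ ball (0 : ℂ) ρ, V w ≤ M) {S : Set ℝ}
    (hS : volume S = 0) (hV : ∀ u : ℝ, |u| < ρ → u ∉ S → a ≤ V u) {w : ℂ} (hw : ‖w‖ = ρ / 3) :
    m₀ + (a - m₀) / 8 ≤ V w := by
  have h1 : LowerSemicontinuousOn (fun z => V z - m₀) (ball 0 ρ) := by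
    have := hlsc.add (lowerSemicontinuousOn_const (s := ball (0 : ℂ) ρ) (z := -m₀))
    simpa [sub_eq_add_neg] using this
  have h2 : NT (fun z => V z - m₀) (ball 0 ρ) := by
    have := NT_add_re hNT (G := fun _ => (m₀ : ℂ)) (fun w _ => analyticAt_const)
    simpa using this
  have h3 := half0 hρ (c := a - m₀) (by linarith) h1 h2
    (fun w hw => by have := h0 w hw; linarith) (M := M - m₀)
    (fun w hw => by have := hM w hw; linarith) hS
    (fun u hu huS => by have := hV u hu huS; linarith) hw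
  linarith

end Crest.Agent.R102.T1EJ712
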