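import Mathlib
import Crest.Agent.R102.Pot_712
import Crest.Agent.R102.LVB_669

/-!
# Row 102, T1-E (516's good column), joint POT' (helper712): the function `m(r)`

`mm Om r` = lower bound of the heights over `‖w‖ ≤ r`.
* `mm_circles`: three circles; `mm_concave`: `M τ = mm Om (exp (-τ))` is concave; `mm_mono`;
* `mm_tendsto`: `M → ∞`;
* `mm_gap`: if `V ≥ a` at almost all real `u`, `|u| < ρ`, then `mm (ρ/3) ≥ m₀ + (a - m₀)/8`.
-/

set_option autoImplicit false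

open Set Filter Topology Metric Complex MeasureTheory
open scoped Real ComplexConjugate

noncomputable section

namespace Crest.Agent.R102.T1EJ712

open Crest.Agent.R102.SH712 (NT sh1_re)

theorem LS.of_LV {b : ℝ} {W : Set ℂ} {Om : Set (ℂ × ℂ)} (h : K669.LV b W Om) : LS b W Om :=
  ⟨h.isOpen, h.WO, h.base, fun t0 w0 Q sg H δ hw0 h1 h2 h3 h4 h5 h6 h7 =>
    h.levi t0 w0 hw0 Q sg H h1 h2 h3 h4 h5 δ h6 h7⟩

/-- admissible levels over `‖w‖ ≤ r` -/
def admM (Om : Set (ℂ × ℂ)) (r : ℝ) : Set ℝ :=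
  {c | ∀ w : ℂ, ‖w‖ ≤ r → ∀ t : ℂ, t.im < c → (t, w) ∈ Om}

/-- lower bound of the heights over `‖w‖ ≤ r` -/
def mm (Om : Set (ℂ × ℂ)) (r : ℝ) : ℝ := sSup (admM Om r)

/-- there is a singular point over `‖w‖ ≤ r` -/
def Fin' (Om : Set (ℂ × ℂ)) (r : ℝ) : Prop := ∃ w t : ℂ, ‖w‖ ≤ r ∧ (t, w) ∉ Om

variable {Om : Set (ℂ × ℂ)} {b r r0 : ℝ}

theorem Fin'.mono {r' : ℝ} (h : Fin' Om r) (hr : r ≤ r') : Fin' Om r' := by
  obtain ⟨w, t, h1, h2⟩ := h
  exact ⟨w, t, h1.trans hr, h2⟩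

theorem admM_bdd (h : Fin' Om r) : BddAbove (admM Om r) := by
  obtain ⟨w, t, h1, h2⟩ := h
  refine ⟨t.im, fun c hc => ?_⟩
  by_contra h3
  push Not at h3
  exact h2 (hc w h1 t h3)

theorem admM_base (h : LS b (ball 0 r0) Om) (hr : r < r0) : b ∈ admM Om r := by
  intro w hw t ht
  exact h.base w (by rw [mem_ball_zero_iff]; linarith) t ht

theorem base_le_mm (h : LS b (ball 0 r0) Om) (hr : r < r0) (hF : Fin' Om r) : b ≤ mm Om r :=
  le_csSup (admM_bdd hF) (admM_base h hr)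

theorem mem_of_lt_mm (h : LS b (ball 0 r0) Om) (hr : r < r0) {w t : ℂ}
    (hw : ‖w‖ ≤ r) (ht : t.im < mm Om r) : (t, w) ∈ Om := by
  obtain ⟨c, hc, hlt⟩ := exists_lt_of_lt_csSup ⟨b, admM_base h hr⟩ ht
  exact hc w hw t hlt

theorem le_mm (hF : Fin' Om r) {c : ℝ} (hc : ∀ w : ℂ, ‖w‖ ≤ r → ∀ t : ℂ, t.im < c → (t, w) ∈ Om) :
    c ≤ mm Om r := le_csSup (admM_bdd hF) hc

theorem mm_anti (h : LS b (ball 0 r0) Om) {r' : ℝ} (hr : r ≤ r') (hr' : r' < r0)
    (hF : Fin' Om r) : mm Om r' ≤ mm Om r :=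
  le_mm hF fun _ hw _ ht => mem_of_lt_mm h hr' (hw.trans hr) ht

/-- a singular point close to the level `mm` -/
theorem exists_notMem (hF : Fin' Om r) {ε : ℝ} (hε : 0 < ε) :
    ∃ w t : ℂ, ‖w‖ ≤ r ∧ t.im < mm Om r + ε ∧ (t, w) ∉ Om := by
  by_contra hc
  push Not at hc
  have := le_mm hF (c := mm Om r + ε) fun w hw t ht => hc w t hw ht
  linarith

/-- **three circles** -/
theorem mm_circles (h : LS b (ball 0 r0) Om) {p : ℝ} (hp : 0 < p) (hper : Per Om p)
    {r1 r2 : ℝ} (hr1 : 0 < r1) (h1r : r1 ≤ r) (h12 : r1 < r2) (hr2 : r ≤ r2) (h20 : r2 < r0)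
    (hF : Fin' Om r1) :
    mm Om r1 + (mm Om r2 - mm Om r1) * (Real.log (r / r1) / Real.log (r2 / r1)) ≤ mm Om r := by
  set m1 := mm Om r1 with hm1
  set m2 := mm Om r2 with hm2
  have hm : m2 ≤ m1 := mm_anti h h12.le h20 hF
  have hr0 : 0 < r := hr1.trans_le h1r
  have hlog : 0 < Real.log (r2 / r1) := Real.log_pos ((one_lt_div hr1).2 h12)
  set β : ℝ := (m1 - m2) / Real.log (r2 / r1) with hβ
  have hβ0 : 0 ≤ β := div_nonneg (by linarith) hlog.le
  set ℓ : ℂ → ℝ := fun w => m1 - β * (Real.log ‖w‖ - Real.log r1) with hℓ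
  have hval : ∀ x : ℝ, 0 < x → m1 - β * (Real.log x - Real.log r1) =
      m1 + (m2 - m1) * (Real.log (x / r1) / Real.log (r2 / r1)) := by
    intro x hx
    rw [Real.log_div hx.ne' hr1.ne', hβ]
    field_simp
    ring
  set Ω : Set ℂ := {w | r1 < ‖w‖ ∧ ‖w‖ < r2} with hΩ
  have hΩo : IsOpen Ω := (isOpen_lt continuous_const continuous_norm).inter
    (isOpen_lt continuous_norm continuous_const)
  have hcl : closure Ω ⊆ {w | r1 ≤ ‖w‖ ∧ ‖w‖ ≤ r2} := by
    refine closure_minimal (fun z hz => ⟨hz.1.le, hz.2.le⟩) ?_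
    exact (isClosed_le continuous_const continuous_norm).inter
      (isClosed_le continuous_norm continuous_const)
  set W : Set ℂ := ball 0 r0 ∩ {w | w ≠ 0} with hW
  have hclW : closure Ω ⊆ W := by
    intro z hz
    have h1 := hcl hz
    refine ⟨by rw [mem_ball_zero_iff]; linarith [h1.2], ?_⟩
    rintro rfl
    have h2 : r1 ≤ ‖(0 : ℂ)‖ := h1.1
    rw [norm_zero] at h2
    linarith
  have hlscV : LowerSemicontinuousOn (Vh Om m1) W :=
    (Vh_lsc h hp hper).mono inter_subset_left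
  have hℓc : ContinuousOn ℓ W := by
    intro z hz
    have hz0 : ‖z‖ ≠ 0 := norm_ne_zero_iff.2 hz.2
    have : ContinuousAt ℓ z := by
      simp only [hℓ]
      exact continuousAt_const.sub (continuousAt_const.mul
        ((continuous_norm.continuousAt.log hz0).sub continuousAt_const))
    exact this.continuousWithinAt
  have hNT : NT (fun z => Vh Om m1 z - ℓ z) Ω := by
    have h1 : NT (fun z => Vh Om m1 z + β * Real.log ‖z‖) Ω := by
      refine NT_add_log (fun z hz => Vh_NT h hp hper z (hclW (subset_closure hz)).1) ?_ β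
      exact fun z hz => (hclW (subset_closure hz)).2
    have h2 := NT_add_re h1 (G := fun _ => ((m1 + β * Real.log r1 : ℝ) : ℂ))
      (fun w _ => analyticAt_const)
    have e : (fun z => Vh Om m1 z - ℓ z) = fun z =>
        Vh Om m1 z + β * Real.log ‖z‖ - (((m1 + β * Real.log r1 : ℝ) : ℂ)).re := by
      funext z
      simp only [hℓ, Complex.ofReal_re]
      ring
    rw [e]
    exact h2
  have hVb : ∀ w ∈ ball (0 : ℂ) r0, ∀ t : ℂ, t.im < b → (t, w) ∈ Om := h.base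
  have hV1 : ∀ w : ℂ, ‖w‖ ≤ r1 → m1 ≤ Vh Om m1 w := fun w hw =>
    le_Vh le_rfl fun t ht => mem_of_lt_mm h (h12.trans h20) hw ht
  have hV2 : ∀ w : ℂ, ‖w‖ ≤ r2 → m2 ≤ Vh Om m1 w := fun w hw =>
    le_Vh hm fun t ht => mem_of_lt_mm h h20 hw ht
  have key := minp' (Ω := Ω) (W := W) (B := r2) (fun z hz => hz.2.le) hΩo hclW hlscV hℓc hNT (by
    intro ζ hζ hζΩ
    have h1 := hcl hζ
    by_cases h3 : r1 < ‖ζ‖
    · have h4 : ‖ζ‖ = r2 := by
        refine le_antisymm h1.2 ?_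
        by_contra hc
        push Not at hc
        exact hζΩ ⟨h3, hc⟩
      refine le_trans (le_of_eq ?_) (hV2 ζ h1.2)
      simp only [hℓ]
      rw [hval _ (by rw [h4]; linarith), h4, div_self hlog.ne']
      ring
    · have h4 : ‖ζ‖ = r1 := le_antisymm (not_lt.1 h3) h1.1
      refine le_trans (le_of_eq ?_) (hV1 ζ h4.le)
      simp only [hℓ]
      rw [h4]
      ring)
  -- the bound for all `‖w‖ ≤ r`
  rw [← hval r hr0]
  refine le_mm (hF.mono h1r) fun w hw t ht => ?_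
  have hwr0 : w ∈ ball (0 : ℂ) r0 := by rw [mem_ball_zero_iff]; linarith
  have hlr : Real.log r1 ≤ Real.log r := Real.log_le_log hr1 h1r
  have hle1 : m1 - β * (Real.log r - Real.log r1) ≤ m1 := by
    have := mul_nonneg hβ0 (by linarith : 0 ≤ Real.log r - Real.log r1)
    linarith
  refine mem_of_lt_Vh (cp := m1) (h.base w hwr0) (ht.trans_le ?_)
  by_cases h3 : ‖w‖ ≤ r1
  · exact hle1.trans (hV1 w h3)
  · push Not at h3
    have hw0 : 0 < ‖w‖ := hr1.trans h3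
    have hlw : Real.log ‖w‖ ≤ Real.log r := Real.log_le_log hw0 hw
    have h5 : m1 - β * (Real.log r - Real.log r1) ≤ m1 - β * (Real.log ‖w‖ - Real.log r1) := by
      have := mul_le_mul_of_nonneg_left (by linarith : Real.log ‖w‖ - Real.log r1 ≤
        Real.log r - Real.log r1) hβ0
      linarith
    refine h5.trans ?_
    rcases lt_or_eq_of_le (hw.trans hr2) with h6 | h6
    · exact key w ⟨h3, h6⟩
    · refine le_trans (le_of_eq ?_) (hV2 w h6.le)
      rw [hval _ hw0, h6, div_self hlog.ne']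
      ring

/-- `M τ = m (exp (-τ))` -/
def MM (Om : Set (ℂ × ℂ)) (τ : ℝ) : ℝ := mm Om (Real.exp (-τ))

theorem MM_mono (h : LS b (ball 0 r0) Om) (hF : ∀ r, 0 < r → Fin' Om r) {τ τ' : ℝ}
    (hτ : Real.exp (-τ) < r0) (h1 : τ ≤ τ') : MM Om τ ≤ MM Om τ' :=
  mm_anti h (Real.exp_le_exp.2 (by linarith)) hτ (hF _ (Real.exp_pos _))

/-- **`M` is concave** -/
theorem MM_concave (h : LS b (ball 0 r0) Om) {p : ℝ} (hp : 0 < p) (hper : Per Om p)
    (hF : ∀ r, 0 < r → Fin' Om r) {τ0 : ℝ} (hτ0 : Real.exp (-τ0) < r0) :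
    ConcaveOn ℝ (Ici τ0) (MM Om) := by
  refine LinearOrder.concaveOn_of_lt (convex_Ici τ0) ?_
  intro x hx y hy hxy a c ha hc hac
  have hx' : τ0 ≤ x := hx
  simp only [smul_eq_mul]
  have hx0 : Real.exp (-x) < r0 := (Real.exp_le_exp.2 (by linarith)).trans_lt hτ0
  have hcx : c = 1 - a := by linarith
  have h1 : x ≤ a * x + c * y := by
    have h3 := mul_pos hc (sub_pos.2 hxy)
    have h4 : a * x + c * y - x = c * (y - x) := by rw [hcx]; ring
    linarith
  have h2 : a * x + c * y ≤ y := by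
    have h3 := mul_pos ha (sub_pos.2 hxy)
    have h4 : y - (a * x + c * y) = a * (y - x) := by rw [hcx]; ring
    linarith
  have key := mm_circles h hp hper (r := Real.exp (-(a * x + c * y))) (r1 := Real.exp (-y))
    (r2 := Real.exp (-x)) (Real.exp_pos _) (Real.exp_le_exp.2 (by linarith))
    (Real.exp_lt_exp.2 (by linarith)) (Real.exp_le_exp.2 (by linarith)) hx0 (hF _ (Real.exp_pos _))
  rw [← Real.exp_sub, ← Real.exp_sub, Real.log_exp, Real.log_exp] at key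
  have h3 : (-(a * x + c * y) - -y) / (-x - -y) = a := by
    have : (-x - -y) ≠ 0 := by
      have : 0 < -x - -y := by linarith
      exact this.ne'
    rw [div_eq_iff this, hcx]
    ring
  rw [h3] at key
  show a * mm Om (Real.exp (-x)) + c * mm Om (Real.exp (-y)) ≤ mm Om (Real.exp (-(a * x + c * y)))
  refine le_trans (le_of_eq ?_) key
  rw [hcx]
  ring

/-- `M → ∞` -/
theorem MM_tendsto (hF : ∀ r, 0 < r → Fin' Om r)
    (hext : ∀ c : ℝ, ∃ δ > 0, ∀ w : ℂ, ‖w‖ < δ → ∀ t : ℂ, t.im < c → (t, w) ∈ Om) :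
    Tendsto (MM Om) atTop atTop := by
  refine tendsto_atTop.2 fun c => ?_
  obtain ⟨δ, hδ, h1⟩ := hext c
  filter_upwards [eventually_gt_atTop (-Real.log δ)] with τ hτ
  refine le_mm (hF _ (Real.exp_pos _)) fun w hw t ht => h1 w (hw.trans_lt ?_) t ht
  rw [← Real.lt_log_iff_exp_lt hδ]
  linarith

/-- **the gap** (516 (7)) -/
theorem mm_gap (h : LS b (ball 0 r0) Om) {p : ℝ} (hp : 0 < p) (hper : Per Om p)
    (hF : ∀ r, 0 < r → Fin' Om r) {ρ m₀ a : ℝ} (hρ : 0 < ρ) (hρ0 : ρ < r0) (ha : m₀ ≤ a)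
    (hm : ∀ w : ℂ, ‖w‖ ≤ ρ → ∀ t : ℂ, t.im < m₀ → (t, w) ∈ Om) {S : Set ℝ} (hS : volume S = 0)
    (hV : ∀ u : ℝ, |u| < ρ → u ∉ S → ∀ t : ℂ, t.im < a → (t, (u : ℂ)) ∈ Om) :
    m₀ + (a - m₀) / 8 ≤ mm Om (ρ / 3) := by
  have hsub : ball (0 : ℂ) ρ ⊆ ball 0 r0 := ball_subset_ball hρ0.le
  have hlsc : LowerSemicontinuousOn (Vh Om a) (ball 0 r0) := Vh_lsc h hp hper
  have hNT : NT (Vh Om a) (ball 0 r0) := Vh_NT h hp hper
  have key : ∀ w : ℂ, ‖w‖ = ρ / 3 → m₀ + (a - m₀) / 8 ≤ Vh Om a w := fun w hw =>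
    half hρ ha (hlsc.mono hsub) (fun z hz => hNT z (hsub hz))
      (fun z hz => le_Vh ha fun t ht => hm z (by rw [mem_ball_zero_iff] at hz; exact hz.le) t ht)
      (M := a) (fun z hz => Vh_le (h.base z (hsub hz))) hS
      (fun u hu huS => le_Vh le_rfl fun t ht => hV u hu huS t ht) hw
  -- min principle in the disc
  have hsub3 : closedBall (0 : ℂ) (ρ / 3) ⊆ ball 0 r0 := closedBall_subset_ball (by linarith)
  have h1 := sh1_re hlsc hNT (by positivity : 0 < ρ / 3) hsub3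
    (F := fun _ => ((m₀ + (a - m₀) / 8 : ℝ) : ℂ)) diffContOnCl_const (fun w hw => by
      rw [Complex.ofReal_re]
      exact key w (by simpa using hw))
  refine le_mm (hF _ (by positivity)) fun w hw t ht => ?_
  have h2 := h1 w (by simpa using hw)
  rw [Complex.ofReal_re] at h2
  exact mem_of_lt_Vh (h.base w (hsub3 (by simpa using hw))) (ht.trans_le h2)

end Crest.Agent.R102.T1EJ712
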