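import Mathlib

/-!
(W) of 516 #26578: windows of a concave function tending to infinity (records of `τ² S(τ)`).
-/

namespace Crest.Agent.R102.WinW486

open Set Filter Topology

/-- backward unit secant -/
noncomputable def S1 (M : ℝ → ℝ) (t : ℝ) : ℝ := M t - M (t - 1)

theorem sec {M : ℝ → ℝ} {a : ℝ} (hM : ConcaveOn ℝ (Ici a) M) {u v : ℝ} (ha : a + 1 ≤ u)
    (huv : u ≤ v) : M v - M u ≤ (v - u) * S1 M u := by
  rcases eq_or_lt_of_le huv with h | h
  · subst h; simp
  · have := hM.slope_anti_adjacent (x := u - 1) (y := u) (z := v) (by simp; linarith)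
      (by simp; linarith) (by linarith) h
    have h1 : 0 < v - u := by linarith
    have h2 : u - (u - 1) = 1 := by ring
    rw [h2, div_one, div_le_iff₀ h1] at this
    unfold S1; linarith [mul_comm (v - u) (M u - M (u - 1))]

theorem sec2 {M : ℝ → ℝ} {a : ℝ} (hM : ConcaveOn ℝ (Ici a) M) {u v : ℝ} (ha : a ≤ u)
    (huv : u ≤ v) : (v - u) * S1 M (v + 1) ≤ M v - M u := by
  rcases eq_or_lt_of_le huv with h | h
  · subst h; simp
  · have := hM.slope_anti_adjacent (x := u) (y := v) (z := v + 1) (by simp; linarith)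
      (by simp; linarith) h (by linarith)
    have h1 : 0 < v - u := by linarith
    have h2 : v + 1 - v = 1 := by ring
    rw [h2, div_one, le_div_iff₀ h1] at this
    unfold S1
    have h3 : v + 1 - 1 = v := by ring
    rw [h3]; linarith [mul_comm (v - u) (M (v + 1) - M v)]

theorem S1_anti {M : ℝ → ℝ} {a : ℝ} (hM : ConcaveOn ℝ (Ici a) M) {u v : ℝ} (ha : a + 1 ≤ u)
    (huv : u ≤ v) : S1 M v ≤ S1 M u := by
  set l : ℝ := 1 / (v - u + 1) with hl
  have hp : 0 < v - u + 1 := by linarith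
  have hl0 : 0 ≤ l := by positivity
  have hl1 : 0 ≤ 1 - l := by
    rw [hl, sub_nonneg, div_le_one hp]; linarith
  have hlm : l * (v - u + 1) = 1 := by rw [hl]; field_simp
  have hu1 : u - 1 ∈ Ici a := by simp; linarith
  have hv1 : v ∈ Ici a := by simp; linarith
  have h1 := hM.2 hu1 hv1 hl1 hl0 (by ring)
  have h2 := hM.2 hu1 hv1 hl0 hl1 (by ring)
  simp only [smul_eq_mul] at h1 h2
  have e1 : (1 - l) * (u - 1) + l * v = u := by linear_combination hlm
  have e2 : l * (u - 1) + (1 - l) * v = v - 1 := by linear_combination -hlm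
  rw [e1] at h1; rw [e2] at h2
  unfold S1; linarith

theorem unbdd {M : ℝ → ℝ} (hinf : Tendsto M atTop atTop) {b : ℝ} (hb : 1 ≤ b) (V : ℝ)
    (hV : 0 ≤ V) : ∃ t, b ≤ t ∧ V < t ^ 2 * S1 M t := by
  by_contra hcon
  push Not at hcon
  have key : ∀ n : ℕ, M (b + n) ≤ M b + V * (1 / b - 1 / (b + n)) := by
    intro n
    induction n with
    | zero => simp
    | succ n ih =>
      have hbn : 0 < b + (n : ℝ) := by positivity
      have hbn1 : 0 < b + (n : ℝ) + 1 := by positivity
      have h1 := hcon (b + (n + 1 : ℕ)) (by push_cast; linarith [Nat.cast_nonneg (α := ℝ) n])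
      have e0 : b + ((n + 1 : ℕ) : ℝ) - 1 = b + n := by push_cast; ring
      unfold S1 at h1
      rw [e0] at h1
      have e1 : b + ((n + 1 : ℕ) : ℝ) = b + n + 1 := by push_cast; ring
      rw [e1] at h1 ⊢
      have h2 : M (b + n + 1) - M (b + n) ≤ V / (b + n + 1) ^ 2 := by
        rw [le_div_iff₀ (by positivity)]; linarith [mul_comm ((b + (n : ℝ) + 1) ^ 2)
          (M (b + n + 1) - M (b + n))]
      have h3 : V / (b + n + 1) ^ 2 ≤ V * (1 / (b + n) - 1 / (b + n + 1)) := by
        rw [div_eq_mul_inv]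
        apply mul_le_mul_of_nonneg_left _ hV
        have : 1 / (b + (n : ℝ)) - 1 / (b + n + 1) = ((b + n) * (b + n + 1))⁻¹ := by
          field_simp; ring
        rw [this]
        apply inv_anti₀ (by positivity)
        nlinarith
      have : V * (1 / b - 1 / (b + n + 1)) = V * (1 / b - 1 / (b + n))
        + V * (1 / (b + n) - 1 / (b + n + 1)) := by ring
      linarith
  have hbd : ∀ n : ℕ, M (b + n) ≤ M b + V * (1 / b) := by
    intro n
    have hbn : 0 < b + (n : ℝ) := by positivity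
    have : V * (1 / b - 1 / (b + n)) ≤ V * (1 / b) := by
      apply mul_le_mul_of_nonneg_left _ hV
      have : 0 < 1 / (b + (n : ℝ)) := by positivity
      linarith
    linarith [key n]
  have ht : Tendsto (fun n : ℕ => M (b + n)) atTop atTop :=
    hinf.comp (tendsto_atTop_add_const_left _ _ tendsto_natCast_atTop_atTop)
  obtain ⟨n, hn⟩ := (ht.eventually (eventually_gt_atTop (M b + V * (1 / b)))).exists
  exact absurd (hbd n) (not_le.2 hn)

theorem record {M : ℝ → ℝ} {a : ℝ} (hM : ConcaveOn ℝ (Ici a) M) (hinf : Tendsto M atTop atTop)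
    {b : ℝ} (hb : 1 ≤ b) (hab : a + 1 < b) (T V : ℝ) :
    ∃ R, T ≤ R ∧ b ≤ R ∧ V < R ^ 2 * S1 M R ∧
      ∀ x, b ≤ x → x ≤ R → x ^ 2 * S1 M x ≤ R ^ 2 * S1 M R := by
  have hcM : ContinuousOn M (Ioi a) := by
    have : ConcaveOn ℝ (Ioi a) M := hM.subset Ioi_subset_Ici_self (convex_Ioi a)
    exact this.continuousOn isOpen_Ioi
  have hcg : ContinuousOn (fun x => x ^ 2 * S1 M x) (Ioi (a + 1)) := by
    apply ContinuousOn.mul (by fun_prop)
    unfold S1
    apply ContinuousOn.sub
    · exact hcM.mono (Ioi_subset_Ioi (by linarith))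
    · apply hcM.comp (by fun_prop)
      intro x hx
      simp only [mem_Ioi] at hx ⊢
      linarith
  have hc : ∀ T', ContinuousOn (fun x => x ^ 2 * S1 M x) (Icc b T') := fun T' =>
    hcg.mono (fun x hx => by
      simp only [mem_Ioi]
      exact lt_of_lt_of_le hab hx.1)
  -- bound on [b, max T b]
  obtain ⟨x0, hx0, hmax0⟩ := isCompact_Icc.exists_isMaxOn (nonempty_Icc.2 (le_max_right T b))
    (hc (max T b))
  set V1 := max (max V 0) (x0 ^ 2 * S1 M x0) with hV1
  obtain ⟨t, htb, ht⟩ := unbdd hinf hb V1 (le_trans (le_max_right _ _) (le_max_left _ _))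
  obtain ⟨R, hR, hmaxR⟩ := isCompact_Icc.exists_isMaxOn (nonempty_Icc.2 htb) (hc t)
  have hRt : t ^ 2 * S1 M t ≤ R ^ 2 * S1 M R := hmaxR (right_mem_Icc.2 htb)
  have hVR : V1 < R ^ 2 * S1 M R := lt_of_lt_of_le ht hRt
  refine ⟨R, ?_, hR.1, ?_, fun x h1 h2 => hmaxR ⟨h1, h2.trans hR.2⟩⟩
  · by_contra hlt
    push Not at hlt
    have : R ^ 2 * S1 M R ≤ x0 ^ 2 * S1 M x0 := hmax0 ⟨hR.1, hlt.le.trans (le_max_left _ _)⟩
    have h2 : x0 ^ 2 * S1 M x0 ≤ V1 := le_max_right _ _
    linarith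
  · exact lt_of_le_of_lt ((le_max_left _ _).trans (le_max_left _ _)) hVR

theorem eventually_polylog (C c : ℝ) (hc : 0 < c) :
    ∀ᶠ R : ℝ in atTop, 4 * (2 * (C * Real.log R) ^ 3 + 1) ^ 2 ≤ c * R := by
  have h : ∀ k : ℕ, Tendsto (fun R : ℝ => Real.log R ^ k / R) atTop (𝓝 0) := by
    intro k
    have := Real.tendsto_pow_log_div_mul_add_atTop 1 0 k one_ne_zero
    simpa using this
  have h0 : Tendsto (fun R : ℝ => 16 * C ^ 6 * (Real.log R ^ 6 / R)
      + 16 * C ^ 3 * (Real.log R ^ 3 / R) + 4 * (Real.log R ^ 0 / R)) atTop (𝓝 0) := by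
    have := (((h 6).const_mul (16 * C ^ 6)).add ((h 3).const_mul (16 * C ^ 3))).add
      ((h 0).const_mul 4)
    simpa using this
  filter_upwards [h0.eventually (ge_mem_nhds hc |> fun h => h), eventually_gt_atTop 0]
    with R hR hR0
  have e : 4 * (2 * (C * Real.log R) ^ 3 + 1) ^ 2 =
      (16 * C ^ 6 * (Real.log R ^ 6 / R) + 16 * C ^ 3 * (Real.log R ^ 3 / R)
        + 4 * (Real.log R ^ 0 / R)) * R := by
    field_simp; ring
  rw [e]
  exact mul_le_mul_of_nonneg_right hR hR0.le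

set_option maxHeartbeats 1000000 in
/-- **(W)**: arbitrarily late windows where a concave function `M → ∞` is affine up to `δ S` on
a length `(C' log τ)^3`, with slope `S ≥ τ^{-2}`, and the record inequality before `τ`. -/
theorem winW {M : ℝ → ℝ} {a : ℝ} (hM : ConcaveOn ℝ (Ici a) M) (hinf : Tendsto M atTop atTop)
    {C' δ : ℝ} (hC : 0 ≤ C') (hδ : 0 < δ) {b : ℝ} (hb : 1 ≤ b) (hab : a + 1 < b) (T0 : ℝ) :
    ∃ τ S : ℝ, T0 ≤ τ ∧ b ≤ τ ∧ a < τ - (C' * Real.log τ) ^ 3 ∧ (τ ^ 2)⁻¹ ≤ S ∧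
      (∀ β, |β| ≤ (C' * Real.log τ) ^ 3 → |M (τ + β) - M τ - S * β| ≤ δ * S) ∧
      (∀ t'' t', b ≤ t'' → t'' ≤ t' → t' ≤ τ →
        M t' - M t'' ≤ 2 * S * (τ / t'') ^ 2 * (t' - t'')) := by
  obtain ⟨T1, hT1⟩ := eventually_atTop.1 ((eventually_polylog C' δ hδ).and
    ((eventually_polylog C' 1 one_pos).and ((eventually_ge_atTop (16 : ℝ)).and
      ((eventually_ge_atTop (2 * T0)).and (eventually_ge_atTop (2 * b))))))
  obtain ⟨R, hTR, hbR, hVR, hrec⟩ := record hM hinf hb hab T1 4
  obtain ⟨h1, h2, h16, hT0, h2b⟩ := hT1 R hTR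
  set A := (C' * Real.log R) ^ 3 with hA
  have hR0 : 0 < R := by linarith
  have hlogR : 0 ≤ Real.log R := Real.log_nonneg (by linarith)
  have hA0 : 0 ≤ A := by positivity
  have hsq : (2 * A + 1) ≤ (2 * A + 1) ^ 2 := by nlinarith
  have hw4 : 2 * A + 1 ≤ R / 4 := by nlinarith
  set τ := R - A - 1 with hτ
  set S := S1 M R with hS
  have hτR : τ ≤ R := by rw [hτ]; linarith
  have hτ2 : R / 2 ≤ τ := by rw [hτ]; linarith
  have hτ34 : R * (3 / 4) ≤ τ := by rw [hτ]; linarith
  have hτ0 : 0 < τ := by linarith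
  have hbτ : b ≤ τ := by linarith
  have hτ1 : 1 ≤ τ := by linarith
  have hlogτ : 0 ≤ Real.log τ := Real.log_nonneg hτ1
  have hAτ : (C' * Real.log τ) ^ 3 ≤ A := by
    rw [hA]
    apply pow_le_pow_left₀ (by positivity)
    exact mul_le_mul_of_nonneg_left (Real.log_le_log hτ0 hτR) hC
  have hS4 : 4 / R ^ 2 < S := by
    rw [div_lt_iff₀ (by positivity)]
    linarith [mul_comm (R ^ 2) (S1 M R)]
  have hS0 : 0 < S := lt_trans (by positivity) hS4
  -- slopes before R
  have hslope : ∀ u, b ≤ u → u ≤ R → S1 M u ≤ S * (R / u) ^ 2 := by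
    intro u hu1 hu2
    have hu0 : 0 < u := by linarith
    have := hrec u hu1 hu2
    have e : S * (R / u) ^ 2 = (R ^ 2 * S) / u ^ 2 := by field_simp
    rw [e, le_div_iff₀ (by positivity)]
    linarith [mul_comm (S1 M u) (u ^ 2)]
  -- quantitative closeness
  have hclose : ∀ u, R - (2 * A + 1) ≤ u → u ≤ R → A * ((R / u) ^ 2 - 1) ≤ δ := by
    intro u hu1 hu2
    have hu34 : R * (3 / 4) ≤ u := by linarith
    have hu0 : 0 < u := by linarith
    have e : (R / u) ^ 2 - 1 = (R - u) * (R + u) / u ^ 2 := by field_simp; ring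
    have h3 : (R / u) ^ 2 - 1 ≤ 4 * (2 * A + 1) / R := by
      rw [e, div_le_div_iff₀ (by positivity) hR0]
      have h4 : (R - u) ≤ 2 * A + 1 := by linarith
      have h5 : 0 ≤ R - u := by linarith
      have h6 : (R + u) * R ≤ 4 * u ^ 2 := by nlinarith
      calc (R - u) * (R + u) * R = (R - u) * ((R + u) * R) := by ring
        _ ≤ (2 * A + 1) * (4 * u ^ 2) := by
            apply mul_le_mul h4 h6 (by positivity) (by positivity)
        _ = 4 * (2 * A + 1) * u ^ 2 := by ring
    calc A * ((R / u) ^ 2 - 1) ≤ A * (4 * (2 * A + 1) / R) := mul_le_mul_of_nonneg_left h3 hA0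
      _ = (4 * (2 * A + 1) * A) / R := by ring
      _ ≤ δ := by
          rw [div_le_iff₀ hR0]
          nlinarith
  refine ⟨τ, S, by linarith, hbτ, ?_, ?_, ?_, ?_⟩
  · have : R / 4 ≤ τ - A := by rw [hτ]; linarith
    linarith
  · have h3 : (τ ^ 2)⁻¹ ≤ 4 / R ^ 2 := by
      rw [inv_eq_one_div, div_le_div_iff₀ (by positivity) (by positivity)]
      nlinarith
    linarith
  · intro β hβ
    have hβA : |β| ≤ A := hβ.trans hAτ
    rcases le_total 0 β with h0 | h0
    · rw [abs_of_nonneg h0] at hβA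
      have hu : τ ≤ τ + β := by linarith
      have h3 : M (τ + β) - M τ ≤ (τ + β - τ) * S1 M τ := sec hM (by linarith) hu
      have h4 : (τ + β - τ) * S1 M (τ + β + 1) ≤ M (τ + β) - M τ := sec2 hM (by linarith) hu
      have h5 : S ≤ S1 M (τ + β + 1) := S1_anti hM (by linarith) (by rw [hτ]; linarith)
      have e : τ + β - τ = β := by ring
      rw [e] at h3 h4
      have h6 := hslope τ hbτ hτR
      have h7 := hclose τ (by rw [hτ]; linarith) hτR
      have h8 : β * S1 M τ ≤ β * (S * (R / τ) ^ 2) := mul_le_mul_of_nonneg_left h6 h0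
      have h9 : β * S ≤ β * S1 M (τ + β + 1) := mul_le_mul_of_nonneg_left h5 h0
      have hge : 0 ≤ (R / τ) ^ 2 - 1 := by
        have : 1 ≤ R / τ := by rw [le_div_iff₀ hτ0]; linarith
        have := one_le_pow₀ (n := 2) this
        linarith
      have h10 : β * ((R / τ) ^ 2 - 1) ≤ δ :=
        (mul_le_mul_of_nonneg_right hβA hge).trans h7
      have h11 : S * (β * ((R / τ) ^ 2 - 1)) ≤ S * δ := mul_le_mul_of_nonneg_left h10 hS0.le
      have e12 : S * (β * ((R / τ) ^ 2 - 1)) = β * (S * (R / τ) ^ 2) - β * S := by ring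
      rw [e12] at h11
      have hpos : 0 < δ * S := by positivity
      have hc1 : β * S = S * β := mul_comm _ _
      have hc2 : S * δ = δ * S := mul_comm _ _
      rw [abs_le]
      constructor
      · linarith
      · linarith
    · have hβ' : |β| = -β := abs_of_nonpos h0
      rw [hβ'] at hβA
      have hu : τ + β ≤ τ := by linarith
      have hub : R - (2 * A + 1) ≤ τ + β := by rw [hτ]; linarith
      have hbu : b ≤ τ + β := by linarith
      have h3 : M τ - M (τ + β) ≤ (τ - (τ + β)) * S1 M (τ + β) := sec hM (by linarith) hu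
      have h4 : (τ - (τ + β)) * S1 M (τ + 1) ≤ M τ - M (τ + β) := sec2 hM (by linarith) hu
      have h5 : S ≤ S1 M (τ + 1) := S1_anti hM (by linarith) (by rw [hτ]; linarith)
      have e : τ - (τ + β) = -β := by ring
      rw [e] at h3 h4
      have h6 := hslope (τ + β) hbu (by linarith)
      have h7 := hclose (τ + β) hub (by linarith)
      have hu0 : 0 < τ + β := by linarith
      have h8 : -β * S1 M (τ + β) ≤ -β * (S * (R / (τ + β)) ^ 2) :=
        mul_le_mul_of_nonneg_left h6 (by linarith)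
      have h9 : -β * S ≤ -β * S1 M (τ + 1) := mul_le_mul_of_nonneg_left h5 (by linarith)
      have hge : 0 ≤ (R / (τ + β)) ^ 2 - 1 := by
        have : 1 ≤ R / (τ + β) := by rw [le_div_iff₀ hu0]; linarith
        have := one_le_pow₀ (n := 2) this
        linarith
      have h10 : -β * ((R / (τ + β)) ^ 2 - 1) ≤ δ :=
        (mul_le_mul_of_nonneg_right hβA hge).trans h7
      have h11 : S * (-β * ((R / (τ + β)) ^ 2 - 1)) ≤ S * δ :=
        mul_le_mul_of_nonneg_left h10 hS0.le
      have e12 : S * (-β * ((R / (τ + β)) ^ 2 - 1)) = -β * (S * (R / (τ + β)) ^ 2) - -β * S := by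
        ring
      rw [e12] at h11
      have hpos : 0 < δ * S := by positivity
      have hc1 : -β * S = -(S * β) := by ring
      have hc2 : S * δ = δ * S := mul_comm _ _
      rw [abs_le]
      constructor
      · linarith
      · linarith
  · intro t'' t' ht'' htt ht'
    have h3 : M t' - M t'' ≤ (t' - t'') * S1 M t'' := sec hM (by linarith) htt
    have h6 := hslope t'' ht'' (by linarith)
    have ht0 : 0 < t'' := by linarith
    have h7 : S * (R / t'') ^ 2 ≤ 2 * S * (τ / t'') ^ 2 := by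
      have : R ^ 2 ≤ 2 * τ ^ 2 := by nlinarith
      have e1 : S * (R / t'') ^ 2 = S * R ^ 2 / t'' ^ 2 := by field_simp
      have e2 : 2 * S * (τ / t'') ^ 2 = S * (2 * τ ^ 2) / t'' ^ 2 := by field_simp
      rw [e1, e2]
      apply div_le_div_of_nonneg_right _ (by positivity)
      exact mul_le_mul_of_nonneg_left this hS0.le
    calc M t' - M t'' ≤ (t' - t'') * S1 M t'' := h3
      _ ≤ (t' - t'') * (2 * S * (τ / t'') ^ 2) :=
          mul_le_mul_of_nonneg_left (h6.trans h7) (by linarith)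
      _ = 2 * S * (τ / t'') ^ 2 * (t' - t'') := by ring

end Crest.Agent.R102.WinW486
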