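import Mathlib

/-!
Row 102, (T1-B), rule F1 (ii): **one-variable continuation lemma**.

`ψ, H` = tangent angle / support function of the curve in the label `z`, holomorphic on the strip
`S = {|Im z| < h}`, with `ψ' H'' - ψ'' H' + ψ'^3 H = c ≠ 0`, `ψ (z+1) = ψ z + 2π`, and every point
of the boundary of `S` singular.  If on the lower half of a disc the label `B` (values in `S`)
satisfies `ψ (B) = Ψ`, `H (B) = N / Dn` with `Ψ, N, Dn` holomorphic on the full disc, then `B`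
extends holomorphically to the centre, with values in `S`.
-/

set_option autoImplicit false

open Set Filter Topology Metric

noncomputable section

namespace Crest.Agent.R102.Rule982

/-- open strip -/
def Sg (h : ℝ) : Set ℂ := {z | |z.im| < h}

/-- left half plane -/
def HPl (a : ℝ) : Set ℂ := {z | z.re < a}

lemma isOpen_Sg (h : ℝ) : IsOpen (Sg h) :=
  isOpen_lt (continuous_abs.comp Complex.continuous_im) continuous_const

lemma isOpen_HPl (a : ℝ) : IsOpen (HPl a) := isOpen_lt Complex.continuous_re continuous_const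

lemma convex_HPl (a : ℝ) : Convex ℝ (HPl a) := convex_halfSpace_re_lt a

lemma convex_Sg (h : ℝ) : Convex ℝ (Sg h) := by
  have : Sg h = {z : ℂ | z.im < h} ∩ {z : ℂ | -h < z.im} := by
    ext z
    simp only [Sg, Set.mem_ofPred_eq, mem_inter_iff, abs_lt]
    tauto
  rw [this]
  exact (convex_halfSpace_im_lt h).inter (convex_halfSpace_im_gt (-h))

/-! ### primitives on a half plane -/

lemma ball_sub_HPl (a : ℝ) (n : ℕ) : ball ((a : ℂ) - n) n ⊆ HPl a := by
  intro z hz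
  rw [mem_ball, dist_eq_norm] at hz
  have h1 := (Complex.re_le_norm (z - ((a : ℂ) - n))).trans_lt hz
  simp only [Complex.sub_re, Complex.ofReal_re, Complex.natCast_re] at h1
  change z.re < a
  linarith

lemma mem_ball_of_HPl {a : ℝ} {z : ℂ} (hz : z ∈ HPl a) :
    ∀ᶠ n : ℕ in atTop, z ∈ ball ((a : ℂ) - n) n := by
  have h0 : 0 < a - z.re := sub_pos.2 hz
  filter_upwards [(tendsto_natCast_atTop_atTop (R := ℝ)).eventually_gt_atTop
    (‖z - a‖ ^ 2 / (2 * (a - z.re))), eventually_gt_atTop 0] with n hn hn0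
  rw [mem_ball, dist_eq_norm]
  have h1 : ‖z - ((a : ℂ) - n)‖ ^ 2 < (n : ℝ) ^ 2 := by
    rw [div_lt_iff₀ (by positivity)] at hn
    rw [Complex.sq_norm, Complex.normSq_apply] at hn ⊢
    simp only [Complex.sub_re, Complex.ofReal_re, Complex.natCast_re, Complex.sub_im,
      Complex.ofReal_im, Complex.natCast_im] at hn ⊢
    nlinarith
  exact lt_of_pow_lt_pow_left₀ 2 (Nat.cast_nonneg n) h1

lemma exists_prim {a : ℝ} {g : ℂ → ℂ} (hg : DifferentiableOn ℂ g (HPl a)) {z₀ : ℂ}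
    (hz₀ : z₀ ∈ HPl a) (v : ℂ) :
    ∃ F : ℂ → ℂ, F z₀ = v ∧ ∀ z ∈ HPl a, HasDerivAt F (g z) z := by
  have hG : ∀ n : ℕ, ∃ G : ℂ → ℂ, G z₀ = v ∧ ∀ z ∈ ball ((a : ℂ) - n) n, HasDerivAt G (g z) z :=
    fun n => ((hg.mono (ball_sub_HPl a n)).isExactOn_ball).with_val_at z₀ v
  choose G hG0 hG1 using hG
  obtain ⟨n₀, hn₀⟩ := (mem_ball_of_HPl hz₀).exists
  have hmono : ∀ m n : ℕ, m ≤ n → ball ((a : ℂ) - m) m ⊆ ball ((a : ℂ) - n) n := by
    intro m n hmn
    refine ball_subset_ball' ?_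
    have h1 : dist ((a : ℂ) - m) ((a : ℂ) - n) = (n : ℝ) - m := by
      rw [dist_eq_norm]
      have h2 : ((a : ℂ) - m) - ((a : ℂ) - n) = (((n : ℝ) - m : ℝ) : ℂ) := by push_cast; ring
      rw [h2, Complex.norm_real, Real.norm_eq_abs, abs_of_nonneg]
      exact sub_nonneg.2 (Nat.cast_le.2 hmn)
    rw [h1]
    linarith
  have huniq : ∀ m n : ℕ, n₀ ≤ m → m ≤ n → ∀ z ∈ ball ((a : ℂ) - m) m, G n z = G m z := by
    intro m n hm hmn z hz
    have h1 : ∀ z ∈ ball ((a : ℂ) - m) m, HasDerivAt (fun z => G n z - G m z) 0 z := by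
      intro z hz
      have h9 := (hG1 n z (hmono m n hmn hz)).sub (hG1 m z hz)
      rw [sub_self] at h9
      exact h9
    have h2 := (convex_ball ((a : ℂ) - m) m).is_const_of_fderivWithin_eq_zero (𝕜 := ℂ)
      (f := fun z => G n z - G m z)
      (fun z hz => (h1 z hz).differentiableAt.differentiableWithinAt)
      (fun z hz => by
        rw [fderivWithin_of_isOpen isOpen_ball hz]
        have := (h1 z hz).hasFDerivAt.fderiv
        rw [this]
        ext
        simp)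
      hz (hmono n₀ m hm hn₀)
    change G n z - G m z = G n z₀ - G m z₀ at h2
    rw [hG0, hG0, sub_self] at h2
    exact sub_eq_zero.1 h2
  have hN : ∀ z : ℂ, z ∈ HPl a → ∃ n : ℕ, n₀ ≤ n ∧ z ∈ ball ((a : ℂ) - n) n := by
    intro z hz
    obtain ⟨n, hn, hn'⟩ := ((mem_ball_of_HPl hz).and (eventually_ge_atTop n₀)).exists
    exact ⟨n, hn', hn⟩
  classical
  refine ⟨fun z => if hz : z ∈ HPl a then G (hN z hz).choose z else v, ?_, ?_⟩
  · change (if hz : z₀ ∈ HPl a then G (hN z₀ hz).choose z₀ else v) = v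
    rw [dif_pos hz₀]
    exact hG0 _
  · intro z hz
    obtain ⟨n, hn, hzn⟩ := hN z hz
    refine (hG1 n z hzn).congr_of_eventuallyEq ?_
    filter_upwards [isOpen_ball.mem_nhds hzn] with w hw
    have hwH : w ∈ HPl a := ball_sub_HPl a n hw
    rw [dif_pos hwH]
    have h3 := (hN w hwH).choose_spec
    set m := (hN w hwH).choose
    rcases le_total m n with h | h
    · exact (huniq m n h3.1 h w h3.2).symm
    · exact huniq n m hn h w hw

lemma const_of_deriv_zero {a : ℝ} {f : ℂ → ℂ} (h1 : ∀ z ∈ HPl a, HasDerivAt f 0 z) {z w : ℂ}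
    (hz : z ∈ HPl a) (hw : w ∈ HPl a) : f z = f w :=
  (convex_HPl a).is_const_of_fderivWithin_eq_zero (𝕜 := ℂ)
    (fun z hz => (h1 z hz).differentiableAt.differentiableWithinAt)
    (fun z hz => by
      rw [fderivWithin_of_isOpen (isOpen_HPl a) hz, (h1 z hz).hasFDerivAt.fderiv]
      ext
      simp) hz hw

/-- cube root of a nonvanishing holomorphic function on a half plane -/
lemma exists_cbrt {a : ℝ} {f : ℂ → ℂ} (hf : DifferentiableOn ℂ f (HPl a))
    (h0 : ∀ z ∈ HPl a, f z ≠ 0) :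
    ∃ g : ℂ → ℂ, DifferentiableOn ℂ g (HPl a) ∧ (∀ z ∈ HPl a, g z ≠ 0) ∧
      ∀ z ∈ HPl a, g z ^ 3 = f z := by
  have ho := isOpen_HPl a
  have hz₀ : ((a - 1 : ℝ) : ℂ) ∈ HPl a := by
    change ((a - 1 : ℝ) : ℂ).re < a
    simp
  set z₀ : ℂ := ((a - 1 : ℝ) : ℂ)
  obtain ⟨L, hL0, hL⟩ := exists_prim (g := fun z => deriv f z / f z)
    ((hf.deriv ho).div hf h0) hz₀ (Complex.log (f z₀))
  have hdf : ∀ z ∈ HPl a, HasDerivAt f (deriv f z) z := fun z hz =>
    (hf.differentiableAt (ho.mem_nhds hz)).hasDerivAt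
  have h1 : ∀ z ∈ HPl a, HasDerivAt (fun z => f z * Complex.exp (-L z)) 0 z := by
    intro z hz
    have h2 := (hdf z hz).mul ((hL z hz).neg.cexp)
    refine h2.congr_deriv ?_
    field_simp [h0 z hz]
    ring
  have h2 : ∀ z ∈ HPl a, f z = Complex.exp (L z) := by
    intro z hz
    have h3 := const_of_deriv_zero h1 hz hz₀
    rw [hL0, Complex.exp_neg, Complex.exp_neg, Complex.exp_log (h0 z₀ hz₀),
      mul_inv_cancel₀ (h0 z₀ hz₀)] at h3
    field_simp at h3
    exact h3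
  refine ⟨fun z => Complex.exp (L z / 3), ?_, fun z _ => Complex.exp_ne_zero _, ?_⟩
  · intro z hz
    exact ((hL z hz).div_const 3).cexp.differentiableAt.differentiableWithinAt
  · intro z hz
    simp only
    rw [← Complex.exp_nat_mul, h2 z hz]
    congr 1
    push_cast
    ring

/-! ### local inverse -/

lemma exists_local_inverse {f : ℂ → ℂ} {a : ℂ} (hf : AnalyticAt ℂ f a) (h0 : deriv f a ≠ 0)
    {U : Set ℂ} (hU : U ∈ 𝓝 a) :
    ∃ κ : ℂ → ℂ, AnalyticAt ℂ κ (f a) ∧ κ (f a) = a ∧ (∀ᶠ w in 𝓝 (f a), κ w ∈ U ∧ f (κ w) = w) ∧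
      ∀ᶠ z in 𝓝 a, κ (f z) = z := by
  have h1 : HasStrictDerivAt f (deriv f a) a := hf.hasStrictDerivAt
  have h2 := hf.analyticAt_localInverse h0
  have h3 := h1.eventually_left_inverse (hf' := h0)
  have h4 := h1.eventually_right_inverse (hf' := h0)
  refine ⟨_, h2, h3.self_of_nhds, ?_, h3⟩
  have h5 := h2.continuousAt.tendsto
  rw [h3.self_of_nhds] at h5
  filter_upwards [h5.eventually hU, h4] with w h6 h7
  exact ⟨h6, h7⟩

/-! ### the label never leaves the strip -/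

/-- every boundary point of the strip is singular for the pair `(ψ, H)` -/
def NB (h : ℝ) (ψ H : ℂ → ℂ) : Prop :=
  ∀ s : ℂ, |s.im| = h → ¬ ∃ r > 0, ∃ g₁ g₂ : ℂ → ℂ, DifferentiableOn ℂ g₁ (ball s r) ∧
    DifferentiableOn ℂ g₂ (ball s r) ∧ EqOn g₁ ψ (ball s r ∩ Sg h) ∧ EqOn g₂ H (ball s r ∩ Sg h)

lemma stays {h : ℝ} {ψ H : ℂ → ℂ} (hψ : DifferentiableOn ℂ ψ (Sg h))
    (hH : DifferentiableOn ℂ H (Sg h)) (hNB : NB h ψ H) {W : Set ℂ} (hW : IsOpen W)
    (hWc : IsPreconnected W) {Bh Ph Eh : ℂ → ℂ} (hB : DifferentiableOn ℂ Bh W)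
    (hB' : ∀ z ∈ W, deriv Bh z ≠ 0) (hP : DifferentiableOn ℂ Ph W)
    (hE : DifferentiableOn ℂ Eh W) {z₀ : ℂ} (hz₀ : z₀ ∈ W)
    (start : ∀ᶠ x in 𝓝 z₀, Bh x ∈ Sg h ∧ ψ (Bh x) = Ph x ∧ H (Bh x) = Eh x) :
    ∀ z ∈ W, Bh z ∈ Sg h ∧ ψ (Bh z) = Ph z ∧ H (Bh z) = Eh z := by
  set Λ : Set ℂ := {z | ∀ᶠ x in 𝓝 z, Bh x ∈ Sg h ∧ ψ (Bh x) = Ph x ∧ H (Bh x) = Eh x} with hΛ
  have hΛo : IsOpen Λ := isOpen_setOfPred_eventually_nhds
  have hSo := isOpen_Sg h
  have key : closure Λ ∩ W ⊆ Λ := by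
    rintro z ⟨hzc, hzW⟩
    have hBz : ContinuousAt Bh z := (hB.differentiableAt (hW.mem_nhds hzW)).continuousAt
    have hBan : AnalyticAt ℂ Bh z := hB.analyticAt (hW.mem_nhds hzW)
    -- `Bh z` is in the closed strip
    have hle : |(Bh z).im| ≤ h := by
      by_contra hcon
      push Not at hcon
      have h0 : ContinuousAt (fun x => |(Bh x).im|) z :=
        (continuous_abs.comp Complex.continuous_im).continuousAt.comp hBz
      have h1 : ∀ᶠ x in 𝓝 z, h < |(Bh x).im| := h0.eventually (lt_mem_nhds hcon)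
      obtain ⟨x, hx1, hx2⟩ := (mem_closure_iff_frequently.1 hzc).and_eventually h1 |>.exists
      have h3 : |(Bh x).im| < h := (hx1.self_of_nhds).1
      linarith
    rcases hle.lt_or_eq with hlt | heq
    · -- interior case
      have h1 : ∀ᶠ x in 𝓝 z, Bh x ∈ Sg h ∧ x ∈ W :=
        (hBz.eventually (hSo.mem_nhds hlt)).and (hW.mem_nhds hzW)
      obtain ⟨r, hr, hrr⟩ := Metric.eventually_nhds_iff_ball.1 h1
      obtain ⟨x₁, hx₁, hx₁r⟩ : ∃ x ∈ Λ, x ∈ ball z r :=
        ((mem_closure_iff_frequently.1 hzc).and_eventually (ball_mem_nhds z hr)).exists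
      have e1 : EqOn (fun x => ψ (Bh x)) Ph (ball z r) := by
        refine AnalyticOnNhd.eqOn_of_preconnected_of_eventuallyEq (𝕜 := ℂ) ?_ ?_
          (convex_ball z r).isPreconnected hx₁r ?_
        · refine DifferentiableOn.analyticOnNhd ?_ isOpen_ball
          exact hψ.comp (hB.mono fun x hx => (hrr x hx).2) fun x hx => (hrr x hx).1
        · exact (hP.mono fun x hx => (hrr x hx).2).analyticOnNhd isOpen_ball
        · exact hx₁.mono fun x hx => hx.2.1
      have e2 : EqOn (fun x => H (Bh x)) Eh (ball z r) := by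
        refine AnalyticOnNhd.eqOn_of_preconnected_of_eventuallyEq (𝕜 := ℂ) ?_ ?_
          (convex_ball z r).isPreconnected hx₁r ?_
        · refine DifferentiableOn.analyticOnNhd ?_ isOpen_ball
          exact hH.comp (hB.mono fun x hx => (hrr x hx).2) fun x hx => (hrr x hx).1
        · exact (hE.mono fun x hx => (hrr x hx).2).analyticOnNhd isOpen_ball
        · exact hx₁.mono fun x hx => hx.2.2
      filter_upwards [ball_mem_nhds z hr] with x hx
      exact ⟨(hrr x hx).1, e1 hx, e2 hx⟩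
    · -- boundary case: contradiction with the natural boundary
      exfalso
      obtain ⟨κ, hκ, hκz, hκr, hκl⟩ := exists_local_inverse hBan (hB' z hzW) (hW.mem_nhds hzW)
      have hκd : ∀ᶠ w in 𝓝 (Bh z), DifferentiableAt ℂ κ w :=
        hκ.eventually_analyticAt.mono fun w hw => hw.differentiableAt
      obtain ⟨r, hr, hrr⟩ := Metric.eventually_nhds_iff_ball.1 (hκr.and hκd)
      have hκdo : DifferentiableOn ℂ κ (ball (Bh z) r) := fun w hw =>
        (hrr w hw).2.differentiableWithinAt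
      -- a point of `Λ` near `z`
      obtain ⟨x₁, hx₁, hx₁b, hx₁l⟩ : ∃ x ∈ Λ, Bh x ∈ ball (Bh z) r ∧ ∀ᶠ y in 𝓝 x, κ (Bh y) = y :=
        ((mem_closure_iff_frequently.1 hzc).and_eventually
          ((hBz.eventually (ball_mem_nhds _ hr)).and hκl.eventually_nhds)).exists
      have hx₁S : Bh x₁ ∈ Sg h := hx₁.self_of_nhds.1
      have hcx : ContinuousAt κ (Bh x₁) := (hrr _ hx₁b).2.continuousAt
      have hκx : κ (Bh x₁) = x₁ := hx₁l.self_of_nhds
      have hconn : IsPreconnected (ball (Bh z) r ∩ Sg h) :=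
        ((convex_ball _ _).inter (convex_Sg h)).isPreconnected
      have hopen : IsOpen (ball (Bh z) r ∩ Sg h) := isOpen_ball.inter hSo
      have hev : ∀ᶠ w in 𝓝 (Bh x₁), ψ w = Ph (κ w) ∧ H w = Eh (κ w) := by
        have h5 : ∀ᶠ w in 𝓝 (Bh x₁), Bh (κ w) ∈ Sg h ∧ ψ (Bh (κ w)) = Ph (κ w) ∧
            H (Bh (κ w)) = Eh (κ w) := by
          have h6 : Tendsto κ (𝓝 (Bh x₁)) (𝓝 x₁) := by
            have := hcx.tendsto
            rwa [hκx] at this
          exact h6.eventually hx₁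
        filter_upwards [h5, isOpen_ball.mem_nhds hx₁b] with w hw hwb
        have h7 : Bh (κ w) = w := (hrr w hwb).1.2
        rw [h7] at hw
        exact ⟨hw.2.1, hw.2.2⟩
      refine hNB (Bh z) heq ⟨r, hr, fun w => Ph (κ w), fun w => Eh (κ w), ?_, ?_, ?_, ?_⟩
      · exact hP.comp hκdo fun w hw => (hrr w hw).1.1
      · exact hE.comp hκdo fun w hw => (hrr w hw).1.1
      · have h8 := AnalyticOnNhd.eqOn_of_preconnected_of_eventuallyEq (𝕜 := ℂ)
          (f := fun w => Ph (κ w)) (g := ψ) (U := ball (Bh z) r ∩ Sg h) (z₀ := Bh x₁)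
          ((hP.comp (hκdo.mono inter_subset_left) fun w hw => (hrr w hw.1).1.1).analyticOnNhd hopen)
          ((hψ.mono inter_subset_right).analyticOnNhd hopen) hconn ⟨hx₁b, hx₁S⟩
          (hev.mono fun w hw => hw.1.symm)
        exact h8
      · have h8 := AnalyticOnNhd.eqOn_of_preconnected_of_eventuallyEq (𝕜 := ℂ)
          (f := fun w => Eh (κ w)) (g := H) (U := ball (Bh z) r ∩ Sg h) (z₀ := Bh x₁)
          ((hE.comp (hκdo.mono inter_subset_left) fun w hw => (hrr w hw.1).1.1).analyticOnNhd hopen)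
          ((hH.mono inter_subset_right).analyticOnNhd hopen) hconn ⟨hx₁b, hx₁S⟩
          (hev.mono fun w hw => hw.2.symm)
        exact h8
  have hsub : W ⊆ Λ := by
    refine hWc.subset_of_closure_inter_subset hΛo ⟨z₀, hz₀, start⟩ key
  exact fun z hz => (hsub hz).self_of_nhds

/-! ### limits at the end of the half plane -/

/-- the end `Re z → -∞` -/
def LI : Filter ℂ := comap Complex.re atBot

lemma eventually_LI {p : ℂ → Prop} : (∀ᶠ z in LI, p z) ↔ ∃ b : ℝ, ∀ z : ℂ, z.re < b → p z := by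
  unfold LI
  rw [Filter.eventually_comap]
  constructor
  · intro h
    obtain ⟨b, hb⟩ := Filter.eventually_atBot.1 h
    exact ⟨b, fun z hz => hb z.re hz.le z rfl⟩
  · rintro ⟨b, hb⟩
    exact (Filter.eventually_lt_atBot b).mono fun x hx z hz => hb z (hz ▸ hx)

lemma LI_neBot : LI.NeBot := by
  unfold LI
  refine Filter.comap_neBot fun t ht => ?_
  obtain ⟨b, hb⟩ := Filter.mem_atBot_sets.1 ht
  exact ⟨(b : ℂ), hb _ (by simp)⟩

lemma tendsto_I_mul_LI : Tendsto (fun z : ℂ => -Complex.I * z) LI (comap Complex.im atTop) := by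
  rw [Filter.tendsto_comap_iff]
  have h1 : (Complex.im ∘ fun z : ℂ => -Complex.I * z) = fun z : ℂ => -z.re := by
    funext z
    simp [Complex.mul_im]
  rw [h1]
  exact tendsto_neg_atBot_atTop.comp tendsto_comap

lemma cusp_main {a C : ℝ} {G : ℂ → ℂ} (hG : DifferentiableOn ℂ G (HPl a))
    (hper : ∀ z ∈ HPl a, G (z + 6 * Real.pi * Complex.I) = G z)
    (hC : ∀ z ∈ HPl a, ‖G z‖ ≤ C) :
    ∃ F : ℂ → ℂ, (∀ᶠ q in 𝓝 (0 : ℂ), DifferentiableAt ℂ F q) ∧ Tendsto G LI (𝓝 (F 0)) ∧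
      ∀ᶠ q in 𝓝[≠] (0 : ℂ), ∃ z ∈ HPl a, F q = G z := by
  classical
  set f : ℂ → ℂ := fun z => if Complex.I * z ∈ HPl a then G (Complex.I * z) else 0 with hf
  have hmem : ∀ z : ℂ, Complex.I * z ∈ HPl a ↔ -a < z.im := by
    intro z
    change (Complex.I * z).re < a ↔ _
    rw [Complex.mul_re, Complex.I_re, Complex.I_im]
    constructor <;> intro h <;> linarith
  have hshift : ∀ z : ℂ, Complex.I * (z + (6 * Real.pi : ℝ)) =
      Complex.I * z + 6 * Real.pi * Complex.I := by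
    intro z
    push_cast
    ring
  have hfper : Function.Periodic f ((6 * Real.pi : ℝ) : ℂ) := by
    intro z
    simp only [hf]
    have h1 : Complex.I * (z + ((6 * Real.pi : ℝ) : ℂ)) ∈ HPl a ↔ Complex.I * z ∈ HPl a := by
      rw [hmem, hmem]
      simp
    by_cases h2 : Complex.I * z ∈ HPl a
    · rw [if_pos h2, if_pos (h1.2 h2), hshift, hper _ h2]
    · rw [if_neg h2, if_neg (fun h => h2 (h1.1 h))]
  have hfeq : ∀ z : ℂ, -a < z.im → f z = G (Complex.I * z) := by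
    intro z hz
    simp only [hf]
    rw [if_pos ((hmem z).2 hz)]
  have hop : IsOpen {z : ℂ | -a < z.im} := isOpen_lt continuous_const Complex.continuous_im
  have hev : ∀ᶠ z in comap Complex.im atTop, -a < z.im := by
    rw [Filter.eventually_comap]
    exact (Filter.eventually_gt_atTop (-a)).mono fun x hx z hz => hz ▸ hx
  have hhol : ∀ᶠ z in comap Complex.im atTop, DifferentiableAt ℂ f z := by
    filter_upwards [hev] with z hz
    have h1 : DifferentiableAt ℂ (fun z => G (Complex.I * z)) z := by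
      have h2 : DifferentiableAt ℂ G (Complex.I * z) :=
        hG.differentiableAt ((isOpen_HPl a).mem_nhds ((hmem z).2 hz))
      exact h2.comp z (by fun_prop)
    refine h1.congr_of_eventuallyEq ?_
    filter_upwards [hop.mem_nhds hz] with w hw
    exact hfeq w hw
  have hbd : BoundedAtFilter (comap Complex.im atTop) f := by
    refine Asymptotics.IsBigO.of_bound C ?_
    filter_upwards [hev] with z hz
    rw [hfeq z hz]
    simpa using hC _ ((hmem z).2 hz)
  have hpos : (0 : ℝ) < 6 * Real.pi := by positivity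
  refine ⟨Function.Periodic.cuspFunction (6 * Real.pi) f, ?_, ?_, ?_⟩
  · have h1 := Function.Periodic.eventually_differentiableAt_cuspFunction_nhds_ne_zero hpos hfper
      hhol
    have h2 := Function.Periodic.differentiableAt_cuspFunction_zero hpos hfper hhol hbd
    rw [eventually_nhdsWithin_iff] at h1
    filter_upwards [h1] with q hq
    by_cases h3 : q = 0
    · rw [h3]
      exact h2
    · exact hq h3
  · have h1 := Function.Periodic.tendsto_at_I_inf hpos hfper hhol hbd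
    refine (h1.comp tendsto_I_mul_LI).congr' ?_
    have h2 : ∀ᶠ z in LI, z.re < a := eventually_LI.2 ⟨a, fun z hz => hz⟩
    filter_upwards [h2] with z hz
    have h3 : Complex.I * (-Complex.I * z) = z := by
      rw [← mul_assoc, mul_neg, Complex.I_mul_I]
      ring
    rw [Function.comp_apply, hfeq, h3]
    rw [← hmem, h3]
    exact hz
  · have h1 := (Function.Periodic.invQParam_tendsto hpos).eventually hev
    filter_upwards [h1, self_mem_nhdsWithin] with q hq hq0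
    refine ⟨Complex.I * Function.Periodic.invQParam (6 * Real.pi) q, (hmem _).2 hq, ?_⟩
    rw [Function.Periodic.cuspFunction_eq_of_nonzero _ _ hq0]
    exact hfeq _ hq

/-- strictness of the bound at the puncture -/
lemma cusp_im_lt {a h : ℝ} {Bh : ℂ → ℂ} (hB : DifferentiableOn ℂ Bh (HPl a))
    (hper : ∀ z ∈ HPl a, Bh (z + 6 * Real.pi * Complex.I) = Bh z)
    (hlt : ∀ z ∈ HPl a, (Bh z).im < h) {d : ℂ} (hd : Tendsto Bh LI (𝓝 d)) : d.im < h := by
  have := LI_neBot
  set G : ℂ → ℂ := fun z => Complex.exp (-Complex.I * Bh z) with hG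
  have hn : ∀ z, ‖G z‖ = Real.exp (Bh z).im := by
    intro z
    simp only [hG]
    rw [Complex.norm_exp]
    congr 1
    simp [Complex.mul_re]
  obtain ⟨F, hF1, hF2, hF3⟩ := cusp_main (a := a) (C := Real.exp h) (G := G)
    (by
      intro z hz
      exact ((hB.differentiableAt ((isOpen_HPl a).mem_nhds hz)).const_mul
        (-Complex.I)).cexp.differentiableWithinAt)
    (by
      intro z hz
      simp only [hG]
      rw [hper z hz])
    (by
      intro z hz
      rw [hn]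
      exact Real.exp_le_exp.2 (hlt z hz).le)
  have h1 : Tendsto G LI (𝓝 (Complex.exp (-Complex.I * d))) :=
    (Complex.continuous_exp.tendsto _).comp (hd.const_mul _)
  have h2 : F 0 = Complex.exp (-Complex.I * d) := tendsto_nhds_unique hF2 h1
  have h3 : ‖F 0‖ = Real.exp d.im := by
    rw [h2, Complex.norm_exp]
    congr 1
    simp [Complex.mul_re]
  by_contra hcon
  push Not at hcon
  have h4 : ∀ᶠ q in 𝓝[≠] (0 : ℂ), ‖F q‖ < ‖F 0‖ := by
    filter_upwards [hF3] with q hq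
    obtain ⟨z, hz, hqz⟩ := hq
    rw [hqz, hn, h3]
    exact Real.exp_lt_exp.2 ((hlt z hz).trans_le hcon)
  have h5 : IsLocalMax (norm ∘ F) 0 := by
    have h6 := eventually_nhdsWithin_iff.1 h4
    filter_upwards [h6] with q hq
    by_cases h7 : q = 0
    · rw [h7]
    · exact (hq h7).le
  have h6 := Complex.eventually_eq_of_isLocalMax_norm hF1 h5
  have h7 : ∀ᶠ q in 𝓝[≠] (0 : ℂ), F q = F 0 := h6.filter_mono nhdsWithin_le_nhds
  obtain ⟨q, hq1, hq2⟩ := (h4.and h7).exists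
  rw [hq2] at hq1
  exact lt_irrefl _ hq1

/-- a periodic holomorphic map of the half plane to the strip has a limit in the strip -/
lemma cusp_strip {a h : ℝ} {Bh : ℂ → ℂ} (hB : DifferentiableOn ℂ Bh (HPl a))
    (hper : ∀ z ∈ HPl a, Bh (z + 6 * Real.pi * Complex.I) = Bh z)
    (hS : ∀ z ∈ HPl a, Bh z ∈ Sg h) : ∃ d ∈ Sg h, Tendsto Bh LI (𝓝 d) := by
  have := LI_neBot
  have hlim : ∃ d, Tendsto Bh LI (𝓝 d) := by
    set G : ℂ → ℂ := fun z => Complex.exp (Complex.I * Bh z) with hG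
    have hn : ∀ z, ‖G z‖ = Real.exp (-(Bh z).im) := by
      intro z
      simp only [hG]
      rw [Complex.norm_exp]
      congr 1
      simp [Complex.mul_re]
    have hGd : DifferentiableOn ℂ G (HPl a) := by
      intro z hz
      exact ((hB.differentiableAt ((isOpen_HPl a).mem_nhds hz)).const_mul
        (Complex.I)).cexp.differentiableWithinAt
    obtain ⟨F, hF1, hF2, hF3⟩ := cusp_main (a := a) (C := Real.exp h) (G := G) hGd
      (by
        intro z hz
        simp only [hG]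
        rw [hper z hz])
      (by
        intro z hz
        rw [hn]
        have h1 : |(Bh z).im| < h := hS z hz
        exact Real.exp_le_exp.2 (by linarith [neg_abs_le (Bh z).im]))
    have hev : ∀ᶠ z in LI, z ∈ HPl a := eventually_LI.2 ⟨a, fun z hz => hz⟩
    have h0 : F 0 ≠ 0 := by
      have h1 : Real.exp (-h) ≤ ‖F 0‖ := by
        refine ge_of_tendsto hF2.norm ?_
        filter_upwards [hev] with z hz
        rw [hn]
        have h1 : |(Bh z).im| < h := hS z hz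
        exact Real.exp_le_exp.2 (by linarith [le_abs_self (Bh z).im])
      intro h2
      rw [h2, norm_zero] at h1
      exact absurd h1 (not_le.2 (Real.exp_pos _))
    have h3 : Tendsto (fun z => G z / F 0) LI (𝓝 1) := by
      have := hF2.div_const (F 0)
      rwa [div_self h0] at this
    obtain ⟨b, hb⟩ := eventually_LI.1 ((h3.eventually
      (Complex.isOpen_slitPlane.mem_nhds Complex.one_mem_slitPlane)).and hev)
    have h4 : ∀ z ∈ HPl b, HasDerivAt (fun z => Bh z + Complex.I * Complex.log (G z / F 0)) 0 z := by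
      intro z hz
      obtain ⟨h5, h6⟩ := hb z hz
      have h7 : HasDerivAt Bh (deriv Bh z) z :=
        (hB.differentiableAt ((isOpen_HPl a).mem_nhds h6)).hasDerivAt
      have h8 : HasDerivAt G (Complex.exp (Complex.I * Bh z) * (Complex.I * deriv Bh z)) z :=
        (h7.const_mul Complex.I).cexp
      have h9 := h7.add ((h8.div_const (F 0)).clog h5 |>.const_mul Complex.I)
      refine h9.congr_deriv ?_
      have h10 : G z ≠ 0 := Complex.exp_ne_zero _
      have h11 : Complex.exp (Complex.I * Bh z) = G z := rfl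
      rw [h11]
      field_simp
      rw [Complex.I_sq]
      ring
    have h5 : ∃ d, ∀ z ∈ HPl b, Bh z = d - Complex.I * Complex.log (G z / F 0) := by
      have hz₀ : ((b - 1 : ℝ) : ℂ) ∈ HPl b := by
        change ((b - 1 : ℝ) : ℂ).re < b
        simp
      refine ⟨Bh ((b - 1 : ℝ) : ℂ) + Complex.I * Complex.log (G ((b - 1 : ℝ) : ℂ) / F 0),
        fun z hz => ?_⟩
      have h6 := const_of_deriv_zero h4 hz hz₀
      exact eq_sub_of_add_eq h6
    obtain ⟨d, hd⟩ := h5
    refine ⟨d, ?_⟩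
    have h6 : Tendsto (fun z => d - Complex.I * Complex.log (G z / F 0)) LI
        (𝓝 (d - Complex.I * Complex.log 1)) := by
      refine tendsto_const_nhds.sub (Tendsto.const_mul _ ?_)
      exact h3.clog Complex.one_mem_slitPlane
    rw [Complex.log_one, mul_zero, sub_zero] at h6
    refine h6.congr' ?_
    exact eventually_LI.2 ⟨b, fun z hz => (hd z hz).symm⟩
  obtain ⟨d, hd⟩ := hlim
  refine ⟨d, ?_, hd⟩
  have hS' : ∀ z ∈ HPl a, -h < (Bh z).im ∧ (Bh z).im < h := fun z hz => by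
    have h1 : |(Bh z).im| < h := hS z hz
    exact abs_lt.1 h1
  have h1 : d.im < h := cusp_im_lt hB hper (fun z hz => (hS' z hz).2) hd
  have h2 : (-d).im < h := cusp_im_lt (Bh := fun z => -Bh z) hB.neg
    (fun z hz => by simp only [hper z hz])
    (fun z hz => by
      rw [Complex.neg_im]
      linarith [(hS' z hz).1]) hd.neg
  rw [Complex.neg_im] at h2
  exact abs_lt.2 ⟨by linarith, h1⟩

/-! ### no period -/

lemma add_mem_HPl {a : ℝ} {z : ℂ} (hz : z ∈ HPl a) (x : ℝ) : z + x * Complex.I ∈ HPl a := by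
  change (z + x * Complex.I).re < a
  have : z.re < a := hz
  simpa using this

lemma period_zero {a h : ℝ} {ψ g Bh Ph : ℂ → ℂ} (hψ : ContinuousOn ψ (Sg h))
    (hψper : ∀ z ∈ Sg h, ψ (z + 1) = ψ z + 2 * Real.pi)
    (hB : ∀ z ∈ HPl a, HasDerivAt Bh (g z) z) (hg : DifferentiableOn ℂ g (HPl a))
    (hg0 : ∀ z ∈ HPl a, g z ≠ 0)
    (hg3 : ∀ z ∈ HPl a, g (z + (2 * Real.pi : ℝ) * Complex.I) ^ 3 = g z ^ 3)
    (hS : ∀ z ∈ HPl a, Bh z ∈ Sg h) (hP : ∀ z ∈ HPl a, ψ (Bh z) = Ph z)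
    (hPper : ∀ z ∈ HPl a, Ph (z + (2 * Real.pi : ℝ) * Complex.I) = Ph z) :
    ∀ z ∈ HPl a, Bh (z + 6 * Real.pi * Complex.I) = Bh z := by
  have ho := isOpen_HPl a
  set T : ℂ := (2 * Real.pi : ℝ) * Complex.I with hT
  have hsh : ∀ z ∈ HPl a, z + T ∈ HPl a := fun z hz => add_mem_HPl hz _
  have hz₀ : ((a - 1 : ℝ) : ℂ) ∈ HPl a := by
    change ((a - 1 : ℝ) : ℂ).re < a
    simp
  set z₀ : ℂ := ((a - 1 : ℝ) : ℂ)
  have hgd : ∀ z ∈ HPl a, HasDerivAt g (deriv g z) z := fun z hz =>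
    (hg.differentiableAt (ho.mem_nhds hz)).hasDerivAt
  -- the factor `ω`
  have hf : ∀ z ∈ HPl a, HasDerivAt (fun z => g (z + T) / g z) 0 z := by
    intro z hz
    have h1 : HasDerivAt (fun z => g (z + T)) (deriv g (z + T)) z :=
      (hgd _ (hsh z hz)).comp_add_const z T
    have h2 := h1.div (hgd z hz) (hg0 z hz)
    have h3 := h2.pow 3
    have h4 : (fun z => g (z + T) / g z) ^ 3 =ᶠ[𝓝 z] fun _ => 1 := by
      filter_upwards [ho.mem_nhds hz] with w hw
      change (g (w + T) / g w) ^ 3 = 1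
      rw [div_pow, hg3 w hw, div_self (pow_ne_zero 3 (hg0 w hw))]
    have h5 := h3.unique ((hasDerivAt_const z (1 : ℂ)).congr_of_eventuallyEq h4)
    have h6 : g (z + T) / g z ≠ 0 := div_ne_zero (hg0 _ (hsh z hz)) (hg0 z hz)
    have h7 : (deriv g (z + T) * g z - g (z + T) * deriv g z) / g z ^ 2 = 0 := by
      rcases mul_eq_zero.1 h5 with h8 | h8
      · exfalso
        have h9 : (3 : ℂ) ≠ 0 := by norm_num
        have h10 : ((fun z => g (z + T)) / g) z ≠ 0 := h6
        exact (mul_ne_zero (by exact_mod_cast h9) (pow_ne_zero _ h10)) h8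
      · exact h8
    rw [h7] at h2
    exact h2
  have hω : ∀ z ∈ HPl a, g (z + T) = g (z₀ + T) / g z₀ * g z := by
    intro z hz
    have h1 : g (z + T) / g z = g (z₀ + T) / g z₀ := const_of_deriv_zero hf hz hz₀
    rw [← h1, div_mul_cancel₀ _ (hg0 z hz)]
  set ω : ℂ := g (z₀ + T) / g z₀ with hωd
  have hω3 : ω ^ 3 = 1 := by
    rw [hωd, div_pow, hg3 z₀ hz₀, div_self (pow_ne_zero 3 (hg0 z₀ hz₀))]
  have hg6 : ∀ z ∈ HPl a, g (z + 6 * Real.pi * Complex.I) = g z := by
    intro z hz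
    have h1 : z + 6 * Real.pi * Complex.I = z + T + T + T := by
      rw [hT]; push_cast; ring
    rw [h1, hω _ (hsh _ (hsh z hz)), hω _ (hsh z hz), hω z hz]
    linear_combination g z * hω3
  have hsh6 : ∀ z ∈ HPl a, z + 6 * Real.pi * Complex.I ∈ HPl a := by
    intro z hz
    have := add_mem_HPl hz (6 * Real.pi)
    push_cast at this
    exact this
  have hc : ∀ z ∈ HPl a, HasDerivAt (fun z => Bh (z + 6 * Real.pi * Complex.I) - Bh z) 0 z := by
    intro z hz
    have h1 := ((hB _ (hsh6 z hz)).comp_add_const z (6 * Real.pi * Complex.I)).sub (hB z hz)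
    rw [hg6 z hz, sub_self] at h1
    exact h1
  set P : ℂ := Bh (z₀ + 6 * Real.pi * Complex.I) - Bh z₀ with hPd
  have hstep : ∀ z ∈ HPl a, Bh (z + 6 * Real.pi * Complex.I) = Bh z + P := by
    intro z hz
    have h1 : Bh (z + 6 * Real.pi * Complex.I) - Bh z = Bh (z₀ + 6 * Real.pi * Complex.I) - Bh z₀ :=
      const_of_deriv_zero hc hz hz₀
    rw [hPd, ← h1]
    ring
  have hiter : ∀ n : ℕ, z₀ + n * (6 * Real.pi * Complex.I) ∈ HPl a ∧
      Bh (z₀ + n * (6 * Real.pi * Complex.I)) = Bh z₀ + n * P := by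
    intro n
    induction n with
    | zero => simpa using hz₀
    | succ n ih =>
      have h1 : z₀ + ((n + 1 : ℕ) : ℂ) * (6 * Real.pi * Complex.I) =
          z₀ + n * (6 * Real.pi * Complex.I) + 6 * Real.pi * Complex.I := by
        push_cast; ring
      rw [h1]
      refine ⟨hsh6 _ ih.1, ?_⟩
      rw [hstep _ ih.1, ih.2]
      push_cast
      ring
  have hPh : ∀ z ∈ HPl a, Ph (z + 6 * Real.pi * Complex.I) = Ph z := by
    intro z hz
    have h1 : z + 6 * Real.pi * Complex.I = z + T + T + T := by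
      rw [hT]; push_cast; ring
    rw [h1, hPper _ (hsh _ (hsh z hz)), hPper _ (hsh z hz), hPper z hz]
  have hPhn : ∀ n : ℕ, Ph (z₀ + n * (6 * Real.pi * Complex.I)) = Ph z₀ := by
    intro n
    induction n with
    | zero => simp
    | succ n ih =>
      have h1 : z₀ + ((n + 1 : ℕ) : ℂ) * (6 * Real.pi * Complex.I) =
          z₀ + n * (6 * Real.pi * Complex.I) + 6 * Real.pi * Complex.I := by
        push_cast; ring
      rw [h1, hPh _ (hiter n).1, ih]
  have hψn : ∀ n : ℕ, ψ (Bh z₀ + n * P) = ψ (Bh z₀) := by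
    intro n
    rw [← (hiter n).2, hP _ (hiter n).1, hPhn, hP z₀ hz₀]
  -- `P` is real
  have hPim : P.im = 0 := by
    by_contra hne
    have h1 : ∀ n : ℕ, (n : ℝ) * |P.im| < 2 * h := by
      intro n
      have h2 : |(Bh z₀ + n * P).im| < h := by
        rw [← (hiter n).2]
        exact hS _ (hiter n).1
      have h3 : |(Bh z₀).im| < h := hS _ hz₀
      have h4 : (Bh z₀ + n * P).im = (Bh z₀).im + n * P.im := by simp
      rw [h4] at h2
      have h5 : |(n : ℝ) * P.im| ≤ |(Bh z₀).im + n * P.im| + |(Bh z₀).im| := by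
        have := abs_sub ((Bh z₀).im + n * P.im) (Bh z₀).im
        rwa [add_sub_cancel_left] at this
      rw [abs_mul, Nat.abs_cast] at h5
      linarith
    obtain ⟨n, hn⟩ := exists_nat_gt (2 * h / |P.im|)
    have h2 := h1 n
    rw [div_lt_iff₀ (abs_pos.2 hne)] at hn
    linarith
  have hPre : P = (P.re : ℂ) := by
    apply Complex.ext
    · simp
    · simp [hPim]
  -- `P = 0`
  have hP0 : P.re = 0 := by
    set k : ℝ → ℂ := fun x => ψ (Bh z₀ + x) - 2 * Real.pi * x with hk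
    have hmem : ∀ x : ℝ, Bh z₀ + x ∈ Sg h := by
      intro x
      have : |(Bh z₀).im| < h := hS _ hz₀
      change |(Bh z₀ + x).im| < h
      simpa using this
    have hkper : Function.Periodic k 1 := by
      intro x
      simp only [hk]
      have h1 : Bh z₀ + ((x + 1 : ℝ) : ℂ) = Bh z₀ + x + 1 := by push_cast; ring
      rw [h1, hψper _ (hmem x)]
      push_cast
      ring
    have hkc : Continuous k := by
      have h1 : Continuous fun x : ℝ => ψ (Bh z₀ + x) := by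
        rw [← continuousOn_univ]
        exact hψ.comp (by fun_prop) (fun x _ => hmem x)
      exact h1.sub (by fun_prop)
    obtain ⟨C, hC⟩ := (hkper.isBounded_of_continuous one_ne_zero hkc).exists_norm_le
    have hC' : ∀ x, ‖k x‖ ≤ C := fun x => hC _ (mem_range_self x)
    by_contra hne
    have h1 : ∀ n : ℕ, (n : ℝ) * (2 * Real.pi * |P.re|) ≤ ‖ψ (Bh z₀)‖ + C := by
      intro n
      have h2 : (2 * Real.pi * ((n * P.re : ℝ) : ℂ)) = ψ (Bh z₀) - k (n * P.re) := by
        simp only [hk]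
        have h3 : Bh z₀ + ((n * P.re : ℝ) : ℂ) = Bh z₀ + n * P := by
          rw [hPre]; push_cast; simp
        rw [h3, hψn n]
        ring
      have h3 : ‖(2 * Real.pi * ((n * P.re : ℝ) : ℂ))‖ = (n : ℝ) * (2 * Real.pi * |P.re|) := by
        rw [norm_mul, norm_mul, Complex.norm_real, Complex.norm_real, Real.norm_eq_abs,
          Real.norm_eq_abs, abs_mul, Nat.abs_cast, abs_of_pos Real.pi_pos, Complex.norm_ofNat]
        ring
      rw [← h3, h2]
      exact (norm_sub_le _ _).trans (by linarith [hC' (n * P.re)])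
    obtain ⟨n, hn⟩ := exists_nat_gt ((‖ψ (Bh z₀)‖ + C) / (2 * Real.pi * |P.re|))
    have h2 : 0 < 2 * Real.pi * |P.re| := by
      have := abs_pos.2 hne
      positivity
    rw [div_lt_iff₀ h2] at hn
    linarith [h1 n]
  intro z hz
  rw [hstep z hz, hPre, hP0]
  simp

/-! ### the cube of the derivative of the label -/

/-- `(μ' + η Ψ') Ψ'^2 / c`, `μ = η' / Ψ'`: the cube of the derivative of the label -/
def Mf (c : ℂ) (Ψ η : ℂ → ℂ) (t : ℂ) : ℂ :=
  (deriv (fun t => deriv η t / deriv Ψ t) t + η t * deriv Ψ t) * deriv Ψ t ^ 2 / c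

lemma cube {h : ℝ} {ψ H : ℂ → ℂ} (hψ : DifferentiableOn ℂ ψ (Sg h))
    (hH : DifferentiableOn ℂ H (Sg h)) {c : ℂ} (hc : c ≠ 0)
    (rel : ∀ z ∈ Sg h, deriv ψ z * deriv (deriv H) z - deriv (deriv ψ) z * deriv H z +
      deriv ψ z ^ 3 * H z = c)
    {D : Set ℂ} (hD : IsOpen D) {B Ψ η : ℂ → ℂ} (hB : DifferentiableOn ℂ B D)
    (hBS : ∀ t ∈ D, B t ∈ Sg h) (h1 : ∀ t ∈ D, ψ (B t) = Ψ t) (h2 : ∀ t ∈ D, H (B t) = η t)
    (h3 : ∀ t ∈ D, deriv Ψ t ≠ 0) : ∀ t ∈ D, Mf c Ψ η t = deriv B t ^ 3 := by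
  have hSo := isOpen_Sg h
  have hψ' : DifferentiableOn ℂ (deriv ψ) (Sg h) := hψ.deriv hSo
  have hH' : DifferentiableOn ℂ (deriv H) (Sg h) := hH.deriv hSo
  have hd : ∀ t ∈ D, HasDerivAt B (deriv B t) t := fun t ht =>
    (hB.differentiableAt (hD.mem_nhds ht)).hasDerivAt
  have hΨd : ∀ t ∈ D, deriv Ψ t = deriv ψ (B t) * deriv B t := by
    intro t ht
    have h4 : HasDerivAt (fun t => ψ (B t)) (deriv ψ (B t) * deriv B t) t :=
      ((hψ.differentiableAt (hSo.mem_nhds (hBS t ht))).hasDerivAt).comp t (hd t ht)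
    refine (h4.congr_of_eventuallyEq ?_).deriv
    filter_upwards [hD.mem_nhds ht] with s hs
    exact (h1 s hs).symm
  have hηd : ∀ t ∈ D, deriv η t = deriv H (B t) * deriv B t := by
    intro t ht
    have h4 : HasDerivAt (fun t => H (B t)) (deriv H (B t) * deriv B t) t :=
      ((hH.differentiableAt (hSo.mem_nhds (hBS t ht))).hasDerivAt).comp t (hd t ht)
    refine (h4.congr_of_eventuallyEq ?_).deriv
    filter_upwards [hD.mem_nhds ht] with s hs
    exact (h2 s hs).symm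
  have hne : ∀ t ∈ D, deriv ψ (B t) ≠ 0 ∧ deriv B t ≠ 0 := by
    intro t ht
    have := h3 t ht
    rw [hΨd t ht] at this
    exact ⟨left_ne_zero_of_mul this, right_ne_zero_of_mul this⟩
  intro t ht
  have hq : HasDerivAt (fun t => deriv H (B t) / deriv ψ (B t))
      ((deriv (deriv H) (B t) * deriv B t * deriv ψ (B t) -
        deriv H (B t) * (deriv (deriv ψ) (B t) * deriv B t)) / deriv ψ (B t) ^ 2) t := by
    have h4 : HasDerivAt (fun t => deriv H (B t)) (deriv (deriv H) (B t) * deriv B t) t :=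
      ((hH'.differentiableAt (hSo.mem_nhds (hBS t ht))).hasDerivAt).comp t (hd t ht)
    have h5 : HasDerivAt (fun t => deriv ψ (B t)) (deriv (deriv ψ) (B t) * deriv B t) t :=
      ((hψ'.differentiableAt (hSo.mem_nhds (hBS t ht))).hasDerivAt).comp t (hd t ht)
    exact h4.div h5 (hne t ht).1
  have hq' : deriv (fun t => deriv η t / deriv Ψ t) t =
      (deriv (deriv H) (B t) * deriv B t * deriv ψ (B t) -
        deriv H (B t) * (deriv (deriv ψ) (B t) * deriv B t)) / deriv ψ (B t) ^ 2 := by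
    refine (hq.congr_of_eventuallyEq ?_).deriv
    filter_upwards [hD.mem_nhds ht] with s hs
    rw [hΨd s hs, hηd s hs, mul_div_mul_right _ _ (hne s hs).2]
  have hr := rel (B t) (hBS t ht)
  unfold Mf
  rw [hq', hΨd t ht, ← h2 t ht]
  have h6 := (hne t ht).1
  rw [div_eq_iff hc]
  field_simp
  linear_combination deriv B t ^ 3 * hr

/-! ### the rule -/

/-- lower half of a disc -/
def LD (t₁ : ℂ) (ε : ℝ) : Set ℂ := ball t₁ ε ∩ {t | t.im < t₁.im}

lemma isOpen_LD (t₁ : ℂ) (ε : ℝ) : IsOpen (LD t₁ ε) :=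
  isOpen_ball.inter (isOpen_lt Complex.continuous_im continuous_const)

lemma convex_LD (t₁ : ℂ) (ε : ℝ) : Convex ℝ (LD t₁ ε) :=
  (convex_ball _ _).inter (convex_halfSpace_im_lt _)

lemma LD_mono {t₁ : ℂ} {ε ε' : ℝ} (h : ε ≤ ε') : LD t₁ ε ⊆ LD t₁ ε' :=
  inter_subset_inter_left _ (ball_subset_ball h)

lemma mem_LD_self {t₁ : ℂ} {ε x : ℝ} (hx : 0 < x) (hxε : x < ε) : t₁ - x * Complex.I ∈ LD t₁ ε := by
  constructor
  · rw [mem_ball, dist_eq_norm, sub_sub_cancel_left, norm_neg, norm_mul, Complex.norm_I, mul_one,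
      Complex.norm_real, Real.norm_eq_abs, abs_of_pos hx]
    exact hxε
  · change (t₁ - x * Complex.I).im < t₁.im
    simpa using hx

lemma LD_neBot {t₁ : ℂ} {ε : ℝ} (hε : 0 < ε) : (𝓝[LD t₁ ε] t₁).NeBot := by
  rw [← mem_closure_iff_nhdsWithin_neBot, Metric.mem_closure_iff]
  intro r hr
  have h1 : 0 < min ε r / 2 := by positivity
  refine ⟨t₁ - (min ε r / 2 : ℝ) * Complex.I, mem_LD_self h1 ?_, ?_⟩
  · linarith [min_le_left ε r]
  · rw [dist_eq_norm, sub_sub_cancel, norm_mul, Complex.norm_I, mul_one, Complex.norm_real,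
      Real.norm_eq_abs, abs_of_pos h1]
    linarith [min_le_right ε r]

lemma ne_of_mem_LD {t₁ : ℂ} {ε : ℝ} {t : ℂ} (ht : t ∈ LD t₁ ε) : t ≠ t₁ := by
  rintro rfl
  have h1 : t.im < t.im := ht.2
  exact lt_irrefl _ h1

/-- const lemma on an open convex set -/
lemma const_of_deriv_zero' {D : Set ℂ} (hD : IsOpen D) (hc : Convex ℝ D) {f : ℂ → ℂ}
    (h1 : ∀ z ∈ D, HasDerivAt f 0 z) {z w : ℂ} (hz : z ∈ D) (hw : w ∈ D) : f z = f w :=
  hc.is_const_of_fderivWithin_eq_zero (𝕜 := ℂ)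
    (fun z hz => (h1 z hz).differentiableAt.differentiableWithinAt)
    (fun z hz => by
      rw [fderivWithin_of_isOpen hD hz, (h1 z hz).hasFDerivAt.fderiv]
      ext
      simp) hz hw

/-- two functions with equal cubes differ by a constant factor -/
lemma cube_const {D : Set ℂ} (hD : IsOpen D) (hc : Convex ℝ D) {f g : ℂ → ℂ}
    (hf : DifferentiableOn ℂ f D) (hg : DifferentiableOn ℂ g D) (hg0 : ∀ z ∈ D, g z ≠ 0)
    (h3 : ∀ z ∈ D, f z ^ 3 = g z ^ 3) {z₀ : ℂ} (hz₀ : z₀ ∈ D) :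
    ∃ ω : ℂ, ω ^ 3 = 1 ∧ ∀ z ∈ D, f z = ω * g z := by
  have hfd : ∀ z ∈ D, HasDerivAt f (deriv f z) z := fun z hz =>
    (hf.differentiableAt (hD.mem_nhds hz)).hasDerivAt
  have hgd : ∀ z ∈ D, HasDerivAt g (deriv g z) z := fun z hz =>
    (hg.differentiableAt (hD.mem_nhds hz)).hasDerivAt
  have hf0 : ∀ z ∈ D, f z ≠ 0 := by
    intro z hz h0
    have h1 := h3 z hz
    rw [h0, zero_pow (by norm_num)] at h1
    exact pow_ne_zero 3 (hg0 z hz) h1.symm
  have hq : ∀ z ∈ D, HasDerivAt (fun z => f z / g z) 0 z := by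
    intro z hz
    have h2 := (hfd z hz).div (hgd z hz) (hg0 z hz)
    have h3' := h2.pow 3
    have h4 : (f / g) ^ 3 =ᶠ[𝓝 z] fun _ => 1 := by
      filter_upwards [hD.mem_nhds hz] with w hw
      change (f w / g w) ^ 3 = 1
      rw [div_pow, h3 w hw, div_self (pow_ne_zero 3 (hg0 w hw))]
    have h5 := h3'.unique ((hasDerivAt_const z (1 : ℂ)).congr_of_eventuallyEq h4)
    have h7 : (deriv f z * g z - f z * deriv g z) / g z ^ 2 = 0 := by
      rcases mul_eq_zero.1 h5 with h8 | h8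
      · exfalso
        have h9 : (3 : ℂ) ≠ 0 := by norm_num
        have h10 : (f / g) z ≠ 0 := div_ne_zero (hf0 z hz) (hg0 z hz)
        exact (mul_ne_zero (by exact_mod_cast h9) (pow_ne_zero _ h10)) h8
      · exact h8
    rw [h7] at h2
    exact h2
  refine ⟨f z₀ / g z₀, ?_, fun z hz => ?_⟩
  · rw [div_pow, h3 z₀ hz₀, div_self (pow_ne_zero 3 (hg0 z₀ hz₀))]
  · have h1 : f z / g z = f z₀ / g z₀ := const_of_deriv_zero' hD hc hq hz hz₀
    rw [← h1, div_mul_cancel₀ _ (hg0 z hz)]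

/-- Step 1: near `t₁` everything is fine off `t₁` -/
lemma good_punctured {h : ℝ} {ψ H : ℂ → ℂ} (hψ : DifferentiableOn ℂ ψ (Sg h))
    (hH : DifferentiableOn ℂ H (Sg h)) {c : ℂ} (hc : c ≠ 0)
    (rel : ∀ z ∈ Sg h, deriv ψ z * deriv (deriv H) z - deriv (deriv ψ) z * deriv H z +
      deriv ψ z ^ 3 * H z = c)
    {t₁ : ℂ} {ε : ℝ} (hε : 0 < ε) {Ψ N Dn B : ℂ → ℂ} (hΨ : DifferentiableOn ℂ Ψ (ball t₁ ε))
    (hN : DifferentiableOn ℂ N (ball t₁ ε)) (hDn : DifferentiableOn ℂ Dn (ball t₁ ε))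
    (hDn0 : ∃ t ∈ ball t₁ ε, Dn t ≠ 0) (hB : DifferentiableOn ℂ B (LD t₁ ε))
    (hBS : ∀ t ∈ LD t₁ ε, B t ∈ Sg h) (hBnc : ∃ t ∈ LD t₁ ε, deriv B t ≠ 0)
    (h1 : ∀ t ∈ LD t₁ ε, ψ (B t) = Ψ t) (h2 : ∀ t ∈ LD t₁ ε, Dn t * H (B t) = N t) :
    ∀ᶠ t in 𝓝[≠] t₁, Dn t ≠ 0 ∧ deriv Ψ t ≠ 0 ∧ Mf c Ψ (fun t => N t / Dn t) t ≠ 0 := by
  have hSo := isOpen_Sg h
  have hLo := isOpen_LD t₁ ε
  have hpre : IsPreconnected (ball t₁ ε) := (convex_ball t₁ ε).isPreconnected
  have ht₁ : t₁ ∈ ball t₁ ε := mem_ball_self hε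
  have hΨa : AnalyticOnNhd ℂ Ψ (ball t₁ ε) := hΨ.analyticOnNhd isOpen_ball
  have hNa : AnalyticOnNhd ℂ N (ball t₁ ε) := hN.analyticOnNhd isOpen_ball
  have hDa : AnalyticOnNhd ℂ Dn (ball t₁ ε) := hDn.analyticOnNhd isOpen_ball
  have e1 : ∀ᶠ t in 𝓝[≠] t₁, Dn t ≠ 0 := by
    rcases (hDa t₁ ht₁).eventually_eq_zero_or_eventually_ne_zero with h3 | h3
    · exfalso
      obtain ⟨t, ht, ht0⟩ := hDn0
      exact ht0 (hDa.eqOn_zero_of_preconnected_of_eventuallyEq_zero hpre ht₁ h3 ht)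
    · exact h3
  have hΨ'a : AnalyticOnNhd ℂ (deriv Ψ) (ball t₁ ε) := hΨa.deriv
  have e2 : ∀ᶠ t in 𝓝[≠] t₁, deriv Ψ t ≠ 0 := by
    rcases (hΨ'a t₁ ht₁).eventually_eq_zero_or_eventually_ne_zero with h3 | h3
    · exfalso
      have hz : ∀ t ∈ ball t₁ ε, deriv Ψ t = 0 := fun t ht =>
        hΨ'a.eqOn_zero_of_preconnected_of_eventuallyEq_zero hpre ht₁ h3 ht
      obtain ⟨t₀, ht₀, hB0⟩ := hBnc
      have hBd : ∀ t ∈ LD t₁ ε, HasDerivAt B (deriv B t) t := fun t ht =>
        (hB.differentiableAt (hLo.mem_nhds ht)).hasDerivAt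
      have hB'c : ContinuousAt (deriv B) t₀ :=
        ((hB.deriv hLo).differentiableAt (hLo.mem_nhds ht₀)).continuousAt
      have h4 : ∀ᶠ t in 𝓝 t₀, deriv ψ (B t) = 0 := by
        filter_upwards [hLo.mem_nhds ht₀, hB'c.eventually_ne hB0] with t ht ht'
        have h5 : HasDerivAt (fun t => ψ (B t)) (deriv ψ (B t) * deriv B t) t :=
          ((hψ.differentiableAt (hSo.mem_nhds (hBS t ht))).hasDerivAt).comp t (hBd t ht)
        have h6 : HasDerivAt Ψ (deriv ψ (B t) * deriv B t) t := by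
          refine h5.congr_of_eventuallyEq ?_
          filter_upwards [hLo.mem_nhds ht] with s hs
          exact (h1 s hs).symm
        have h7 := h6.deriv
        rw [hz t ht.1] at h7
        rcases mul_eq_zero.1 h7.symm with h8 | h8
        · exact h8
        · exact absurd h8 ht'
      have h5 : HasDerivAt (fun t => deriv ψ (B t)) (deriv (deriv ψ) (B t₀) * deriv B t₀) t₀ :=
        (((hψ.deriv hSo).differentiableAt (hSo.mem_nhds (hBS t₀ ht₀))).hasDerivAt).comp t₀
          (hBd t₀ ht₀)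
      have h6 := h5.unique ((hasDerivAt_const t₀ (0 : ℂ)).congr_of_eventuallyEq h4)
      have h7 : deriv (deriv ψ) (B t₀) = 0 := by
        rcases mul_eq_zero.1 h6 with h8 | h8
        · exact h8
        · exact absurd h8 hB0
      have h8 := rel (B t₀) (hBS t₀ ht₀)
      rw [h4.self_of_nhds, h7] at h8
      apply hc
      rw [← h8]
      ring
    · exact h3
  -- meromorphy of the cube
  have hMm : MeromorphicAt (Mf c Ψ (fun t => N t / Dn t)) t₁ := by
    have m1 : MeromorphicAt (fun t => N t / Dn t) t₁ :=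
      (hNa t₁ ht₁).meromorphicAt.div (hDa t₁ ht₁).meromorphicAt
    have m2 : MeromorphicAt (deriv Ψ) t₁ := (hΨ'a t₁ ht₁).meromorphicAt
    have m3 : MeromorphicAt (fun t => deriv (fun t => N t / Dn t) t / deriv Ψ t) t₁ :=
      m1.deriv.div m2
    exact ((m3.deriv.add (m1.mul m2)).mul (m2.pow 2)).div (MeromorphicAt.const c t₁)
  have e3 : ∀ᶠ t in 𝓝[≠] t₁, Mf c Ψ (fun t => N t / Dn t) t ≠ 0 := by
    rcases hMm.eventually_eq_zero_or_eventually_ne_zero with h3 | h3
    · exfalso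
      have h4 := (h3.and (e1.and e2))
      rw [eventually_nhdsWithin_iff, Metric.eventually_nhds_iff_ball] at h4
      obtain ⟨r, hr, hrr⟩ := h4
      set r' := min r ε with hr'
      have hr'0 : 0 < r' := lt_min hr hε
      have hsub : LD t₁ r' ⊆ LD t₁ ε := LD_mono (min_le_right _ _)
      have h5 : ∀ t ∈ LD t₁ r', Mf c Ψ (fun t => N t / Dn t) t = deriv B t ^ 3 := by
        refine cube hψ hH hc rel (isOpen_LD t₁ r') (hB.mono hsub) (fun t ht => hBS t (hsub ht))
          (fun t ht => h1 t (hsub ht)) (fun t ht => ?_) (fun t ht => ?_)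
        · have h6 := hrr t (ball_subset_ball (min_le_left _ _) ht.1) (ne_of_mem_LD ht)
          rw [eq_div_iff h6.2.1, mul_comm]
          exact h2 t (hsub ht)
        · exact (hrr t (ball_subset_ball (min_le_left _ _) ht.1) (ne_of_mem_LD ht)).2.2
      have h6 : ∀ t ∈ LD t₁ r', deriv B t = 0 := by
        intro t ht
        have h7 := (hrr t (ball_subset_ball (min_le_left _ _) ht.1) (ne_of_mem_LD ht)).1
        rw [h5 t ht] at h7
        exact pow_eq_zero_iff (by norm_num) |>.1 h7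
      have hBa : AnalyticOnNhd ℂ (deriv B) (LD t₁ ε) := (hB.deriv hLo).analyticOnNhd hLo
      have h7 : t₁ - (r' / 2 : ℝ) * Complex.I ∈ LD t₁ r' :=
        mem_LD_self (by positivity) (by linarith)
      obtain ⟨t₀, ht₀, hB0⟩ := hBnc
      refine hB0 (hBa.eqOn_zero_of_preconnected_of_eventuallyEq_zero
        (convex_LD t₁ ε).isPreconnected (hsub h7) ?_ ht₀)
      filter_upwards [(isOpen_LD t₁ r').mem_nhds h7] with s hs
      exact h6 s hs
    · exact h3
  filter_upwards [e1, e2, e3] with t a1 a2 a3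
  exact ⟨a1, a2, a3⟩

/-- Step 2: the label has a limit in the strip, and `η` has the corresponding limit -/
lemma label_limit {h : ℝ} {ψ H : ℂ → ℂ} (hψ : DifferentiableOn ℂ ψ (Sg h))
    (hH : DifferentiableOn ℂ H (Sg h)) {c : ℂ} (hc : c ≠ 0)
    (rel : ∀ z ∈ Sg h, deriv ψ z * deriv (deriv H) z - deriv (deriv ψ) z * deriv H z +
      deriv ψ z ^ 3 * H z = c)
    (hψper : ∀ z ∈ Sg h, ψ (z + 1) = ψ z + 2 * Real.pi) (hNB : NB h ψ H)
    {t₁ : ℂ} {ε : ℝ} (hε : 0 < ε) {Ψ N Dn B : ℂ → ℂ} (hΨ : DifferentiableOn ℂ Ψ (ball t₁ ε))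
    (hN : DifferentiableOn ℂ N (ball t₁ ε)) (hDn : DifferentiableOn ℂ Dn (ball t₁ ε))
    (hDn0 : ∃ t ∈ ball t₁ ε, Dn t ≠ 0) (hB : DifferentiableOn ℂ B (LD t₁ ε))
    (hBS : ∀ t ∈ LD t₁ ε, B t ∈ Sg h) (hBnc : ∃ t ∈ LD t₁ ε, deriv B t ≠ 0)
    (h1 : ∀ t ∈ LD t₁ ε, ψ (B t) = Ψ t) (h2 : ∀ t ∈ LD t₁ ε, Dn t * H (B t) = N t) :
    ∃ d ∈ Sg h, Tendsto B (𝓝[LD t₁ ε] t₁) (𝓝 d) ∧
      Tendsto (fun t => N t / Dn t) (𝓝[≠] t₁) (𝓝 (H d)) := by
  have hSo := isOpen_Sg h
  have hgood := good_punctured hψ hH hc rel hε hΨ hN hDn hDn0 hB hBS hBnc h1 h2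
  rw [eventually_nhdsWithin_iff, Metric.eventually_nhds_iff_ball] at hgood
  obtain ⟨r, hr, hrr⟩ := hgood
  set ε₁ := min r ε with hε₁
  have hε₁0 : 0 < ε₁ := lt_min hr hε
  set Wp : Set ℂ := ball t₁ ε₁ \ {t₁} with hWp
  have hWpo : IsOpen Wp := isOpen_ball.sdiff isClosed_singleton
  have hWpb : Wp ⊆ ball t₁ ε := fun t ht => ball_subset_ball (min_le_right _ _) ht.1
  have hW : ∀ t ∈ Wp, Dn t ≠ 0 ∧ deriv Ψ t ≠ 0 ∧ Mf c Ψ (fun t => N t / Dn t) t ≠ 0 :=
    fun t ht => hrr t (ball_subset_ball (min_le_left _ _) ht.1) ht.2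
  have hLsub : LD t₁ ε₁ ⊆ LD t₁ ε := LD_mono (min_le_right _ _)
  have hLW : LD t₁ ε₁ ⊆ Wp := fun t ht => ⟨ht.1, ne_of_mem_LD ht⟩
  set η : ℂ → ℂ := fun t => N t / Dn t with hη
  have hηd : DifferentiableOn ℂ η Wp := (hN.mono hWpb).div (hDn.mono hWpb) fun t ht => (hW t ht).1
  have hΨd : DifferentiableOn ℂ (deriv Ψ) Wp := (hΨ.deriv isOpen_ball).mono hWpb
  have hMd : DifferentiableOn ℂ (Mf c Ψ η) Wp := by
    have m1 : DifferentiableOn ℂ (fun t => deriv η t / deriv Ψ t) Wp :=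
      (hηd.deriv hWpo).div hΨd fun t ht => (hW t ht).2.1
    exact (((m1.deriv hWpo).add (hηd.mul hΨd)).mul (hΨd.pow 2)).div_const c
  have hη2 : ∀ t ∈ LD t₁ ε₁, H (B t) = η t := by
    intro t ht
    rw [hη]
    change H (B t) = N t / Dn t
    rw [eq_div_iff (hW t (hLW ht)).1, mul_comm]
    exact h2 t (hLsub ht)
  have hcube : ∀ t ∈ LD t₁ ε₁, Mf c Ψ η t = deriv B t ^ 3 :=
    cube hψ hH hc rel (isOpen_LD t₁ ε₁) (hB.mono hLsub) (fun t ht => hBS t (hLsub ht))
      (fun t ht => h1 t (hLsub ht)) hη2 (fun t ht => (hW t (hLW ht)).2.1)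
  -- logarithmic coordinate
  set a : ℝ := Real.log ε₁ with ha
  set E : ℂ → ℂ := fun z => t₁ + Complex.exp z with hE
  have hEd : ∀ z, HasDerivAt E (Complex.exp z) z := fun z =>
    (Complex.hasDerivAt_exp z).const_add t₁
  have hEW : MapsTo E (HPl a) Wp := by
    intro z hz
    refine ⟨?_, ?_⟩
    · rw [mem_ball, dist_eq_norm, hE]
      simp only [add_sub_cancel_left]
      rw [Complex.norm_exp]
      have : z.re < Real.log ε₁ := hz
      exact (Real.lt_log_iff_exp_lt hε₁0).1 this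
    · rw [mem_singleton_iff, hE]
      simp only [add_eq_left]
      exact Complex.exp_ne_zero z
  have ho := isOpen_HPl a
  have hEdo : DifferentiableOn ℂ E (HPl a) := fun z _ => (hEd z).differentiableAt.differentiableWithinAt
  set Gh : ℂ → ℂ := fun z => Mf c Ψ η (E z) * Complex.exp z ^ 3 with hGh
  have hGhd : DifferentiableOn ℂ Gh (HPl a) :=
    (hMd.comp hEdo hEW).mul ((Complex.differentiable_exp.pow 3).differentiableOn)
  have hGh0 : ∀ z ∈ HPl a, Gh z ≠ 0 := fun z hz =>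
    mul_ne_zero (hW _ (hEW hz)).2.2 (pow_ne_zero 3 (Complex.exp_ne_zero z))
  obtain ⟨g₀, hg₀d, hg₀0, hg₀3⟩ := exists_cbrt hGhd hGh0
  -- the start region
  set Z : Set ℂ := {z | z.re < a} ∩ ({z | -Real.pi < z.im} ∩ {z | z.im < 0}) with hZ
  have hZo : IsOpen Z := (isOpen_lt Complex.continuous_re continuous_const).inter
    ((isOpen_lt continuous_const Complex.continuous_im).inter
      (isOpen_lt Complex.continuous_im continuous_const))
  have hZc : Convex ℝ Z := (convex_halfSpace_re_lt a).inter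
    ((convex_halfSpace_im_gt _).inter (convex_halfSpace_im_lt _))
  have hZH : Z ⊆ HPl a := fun z hz => hz.1
  have hEZ : MapsTo E Z (LD t₁ ε₁) := by
    intro z hz
    refine ⟨(hEW (hZH hz)).1, ?_⟩
    change (t₁ + Complex.exp z).im < t₁.im
    rw [Complex.add_im, Complex.exp_im]
    have h3 : Real.sin z.im < 0 := Real.sin_neg_of_neg_of_neg_pi_lt hz.2.2 hz.2.1
    have h4 := mul_neg_of_pos_of_neg (Real.exp_pos z.re) h3
    linarith
  have hBZ : ∀ z ∈ Z, HasDerivAt (fun z => B (E z)) (deriv B (E z) * Complex.exp z) z := by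
    intro z hz
    have h3 : HasDerivAt B (deriv B (E z)) (E z) :=
      (hB.differentiableAt ((isOpen_LD t₁ ε).mem_nhds (hLsub (hEZ hz)))).hasDerivAt
    exact h3.comp z (hEd z)
  have hbd : DifferentiableOn ℂ (fun z => deriv B (E z) * Complex.exp z) Z := by
    refine DifferentiableOn.mul ?_ Complex.differentiable_exp.differentiableOn
    exact ((hB.deriv (isOpen_LD t₁ ε)).mono hLsub).comp (hEdo.mono hZH) hEZ
  set z₀ : ℂ := ((a - 1 : ℝ) : ℂ) + ((-(Real.pi / 2) : ℝ) : ℂ) * Complex.I with hz₀d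
  have hz₀ : z₀ ∈ Z := by
    have hpi := Real.pi_pos
    refine ⟨?_, ?_, ?_⟩
    · change z₀.re < a
      rw [hz₀d]
      simp
    · change -Real.pi < z₀.im
      rw [hz₀d]
      simp
      linarith
    · change z₀.im < 0
      rw [hz₀d]
      simp
      linarith
  obtain ⟨ω, hω3, hω⟩ := cube_const hZo hZc hbd (hg₀d.mono hZH) (fun z hz => hg₀0 z (hZH hz))
    (fun z hz => by
      rw [hg₀3 z (hZH hz), hGh]
      simp only
      rw [hcube _ (hEZ hz)]
      ring) hz₀
  have hω0 : ω ≠ 0 := by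
    rintro rfl
    norm_num at hω3
  set g : ℂ → ℂ := fun z => ω * g₀ z with hg
  have hgd : DifferentiableOn ℂ g (HPl a) := hg₀d.const_mul ω
  have hg0 : ∀ z ∈ HPl a, g z ≠ 0 := fun z hz => mul_ne_zero hω0 (hg₀0 z hz)
  obtain ⟨Bh, hBh0, hBh⟩ := exists_prim hgd (hZH hz₀) (B (E z₀))
  have hBhZ : ∀ z ∈ Z, Bh z = B (E z) := by
    intro z hz
    have h3 : ∀ z ∈ Z, HasDerivAt (fun z => Bh z - B (E z)) 0 z := by
      intro z hz
      have h4 := (hBh z (hZH hz)).sub (hBZ z hz)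
      rw [hω z hz] at h4
      change HasDerivAt _ (ω * g₀ z - ω * g₀ z) z at h4
      rw [sub_self] at h4
      exact h4
    have h5 : Bh z - B (E z) = Bh z₀ - B (E z₀) := const_of_deriv_zero' hZo hZc h3 hz hz₀
    rw [hBh0, sub_self] at h5
    exact sub_eq_zero.1 h5
  have hBhd : DifferentiableOn ℂ Bh (HPl a) := fun z hz =>
    (hBh z hz).differentiableAt.differentiableWithinAt
  have hall := stays hψ hH hNB ho (convex_HPl a).isPreconnected hBhd
    (fun z hz => by rw [(hBh z hz).deriv]; exact hg0 z hz)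
    (hΨ.comp hEdo fun z hz => hWpb (hEW hz)) (hηd.comp hEdo hEW) (hZH hz₀) (by
      filter_upwards [hZo.mem_nhds hz₀] with z hz
      rw [hBhZ z hz]
      exact ⟨hBS _ (hLsub (hEZ hz)), h1 _ (hLsub (hEZ hz)), hη2 _ (hEZ hz)⟩)
  have hEper : ∀ z, E (z + (2 * Real.pi : ℝ) * Complex.I) = E z := by
    intro z
    simp only [hE]
    congr 1
    have := Complex.exp_periodic z
    push_cast
    exact this
  have hper := period_zero (h := h) (ψ := ψ) (g := g) (Bh := Bh) (Ph := fun z => Ψ (E z))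
    hψ.continuousOn hψper hBh hgd hg0
    (fun z hz => by
      simp only [hg]
      rw [mul_pow, mul_pow, hg₀3 _ (add_mem_HPl hz _), hg₀3 z hz, hGh]
      simp only
      rw [hEper z]
      have := Complex.exp_periodic z
      push_cast
      rw [this])
    (fun z hz => (hall z hz).1) (fun z hz => (hall z hz).2.1) (fun z _ => by
      rw [hEper z])
  obtain ⟨d, hdS, hd⟩ := cusp_strip hBhd hper fun z hz => (hall z hz).1
  have hlog : Tendsto (fun t => Complex.log (t - t₁)) (𝓝[≠] t₁) LI := by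
    rw [LI, Filter.tendsto_comap_iff]
    have h3 : (Complex.re ∘ fun t => Complex.log (t - t₁)) = fun t => Real.log ‖t - t₁‖ := by
      funext t
      simp [Complex.log_re]
    rw [h3]
    have h4 : Tendsto (fun t : ℂ => t - t₁) (𝓝[≠] t₁) (𝓝[≠] 0) := by
      refine tendsto_nhdsWithin_of_tendsto_nhds_of_eventually_within _ ?_ ?_
      · have : Tendsto (fun t : ℂ => t - t₁) (𝓝 t₁) (𝓝 (t₁ - t₁)) :=
          (continuous_id.sub continuous_const).tendsto t₁
        rw [sub_self] at this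
        exact this.mono_left nhdsWithin_le_nhds
      · filter_upwards [self_mem_nhdsWithin] with t ht
        exact sub_ne_zero.2 ht
    exact Real.tendsto_log_nhdsGT_zero.comp (tendsto_norm_nhdsNE_zero.comp h4)
  have hElog : ∀ t : ℂ, t ≠ t₁ → E (Complex.log (t - t₁)) = t := by
    intro t ht
    simp only [hE]
    rw [Complex.exp_log (sub_ne_zero.2 ht)]
    ring
  refine ⟨d, hdS, ?_, ?_⟩
  · have h3 : Tendsto (fun t => Bh (Complex.log (t - t₁))) (𝓝[LD t₁ ε] t₁) (𝓝 d) :=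
      (hd.comp hlog).mono_left (nhdsWithin_mono _ fun t ht => ne_of_mem_LD ht)
    refine h3.congr' ?_
    have h4 : ∀ᶠ t in 𝓝[LD t₁ ε] t₁, t ∈ ball t₁ ε₁ :=
      nhdsWithin_le_nhds (ball_mem_nhds t₁ hε₁0)
    filter_upwards [h4, self_mem_nhdsWithin] with t ht htL
    have htn := ne_of_mem_LD htL
    have hz : Complex.log (t - t₁) ∈ Z := by
      refine ⟨?_, ?_, ?_⟩
      · change (Complex.log (t - t₁)).re < a
        rw [Complex.log_re, ha]
        rw [mem_ball, dist_eq_norm] at ht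
        exact Real.log_lt_log (norm_pos_iff.2 (sub_ne_zero.2 htn)) ht
      · exact Complex.neg_pi_lt_log_im _
      · change (Complex.log (t - t₁)).im < 0
        rw [Complex.log_im, Complex.arg_neg_iff, Complex.sub_im]
        have : t.im < t₁.im := htL.2
        linarith
    rw [hBhZ _ hz, hElog t htn]
  · have h3 : Tendsto (fun z => H (Bh z)) LI (𝓝 (H d)) :=
      ((hH.differentiableAt (hSo.mem_nhds hdS)).continuousAt.tendsto).comp hd
    refine (h3.comp hlog).congr' ?_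
    have h4 : ∀ᶠ t in 𝓝[≠] t₁, t ∈ ball t₁ ε₁ := nhdsWithin_le_nhds (ball_mem_nhds t₁ hε₁0)
    filter_upwards [h4, self_mem_nhdsWithin] with t ht htn
    have hz : Complex.log (t - t₁) ∈ HPl a := by
      change (Complex.log (t - t₁)).re < a
      rw [Complex.log_re, ha]
      rw [mem_ball, dist_eq_norm] at ht
      exact Real.log_lt_log (norm_pos_iff.2 (sub_ne_zero.2 htn)) ht
    change H (Bh (Complex.log (t - t₁))) = N t / Dn t
    rw [(hall _ hz).2.2]
    change N (E (Complex.log (t - t₁))) / Dn (E (Complex.log (t - t₁))) = N t / Dn t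
    rw [hElog t htn]

/-- **F1 (ii), one variable**: two regular lines `=>` the vertex is regular, with label in the
strip. -/
theorem rule1d {h : ℝ} {ψ H : ℂ → ℂ} (hψ : DifferentiableOn ℂ ψ (Sg h))
    (hH : DifferentiableOn ℂ H (Sg h)) {c : ℂ} (hc : c ≠ 0)
    (rel : ∀ z ∈ Sg h, deriv ψ z * deriv (deriv H) z - deriv (deriv ψ) z * deriv H z +
      deriv ψ z ^ 3 * H z = c)
    (hψper : ∀ z ∈ Sg h, ψ (z + 1) = ψ z + 2 * Real.pi) (hNB : NB h ψ H)
    {t₁ : ℂ} {ε : ℝ} (hε : 0 < ε) {Ψ N Dn B : ℂ → ℂ} (hΨ : DifferentiableOn ℂ Ψ (ball t₁ ε))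
    (hN : DifferentiableOn ℂ N (ball t₁ ε)) (hDn : DifferentiableOn ℂ Dn (ball t₁ ε))
    (hDn0 : ∃ t ∈ ball t₁ ε, Dn t ≠ 0) (hB : DifferentiableOn ℂ B (LD t₁ ε))
    (hBS : ∀ t ∈ LD t₁ ε, B t ∈ Sg h) (hBnc : ∃ t ∈ LD t₁ ε, deriv B t ≠ 0)
    (h1 : ∀ t ∈ LD t₁ ε, ψ (B t) = Ψ t) (h2 : ∀ t ∈ LD t₁ ε, Dn t * H (B t) = N t) :
    ∃ r : ℝ, 0 < r ∧ r ≤ ε ∧ ∃ Bt : ℂ → ℂ, DifferentiableOn ℂ Bt (ball t₁ r) ∧
      (∀ t ∈ ball t₁ r, Bt t ∈ Sg h ∧ ψ (Bt t) = Ψ t ∧ Dn t * H (Bt t) = N t) ∧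
      EqOn Bt B (LD t₁ r) := by
  have hSo := isOpen_Sg h
  obtain ⟨d, hdS, hd1, hd2⟩ := label_limit hψ hH hc rel hψper hNB hε hΨ hN hDn hDn0 hB hBS hBnc
    h1 h2
  have hne := LD_neBot (t₁ := t₁) hε
  have hΨa : AnalyticAt ℂ Ψ t₁ := hΨ.analyticAt (ball_mem_nhds t₁ hε)
  have hψa : AnalyticAt ℂ ψ d := hψ.analyticAt (hSo.mem_nhds hdS)
  have hHa : AnalyticAt ℂ H d := hH.analyticAt (hSo.mem_nhds hdS)
  have hdΨ : Ψ t₁ = ψ d := by
    have h3 : Tendsto Ψ (𝓝[LD t₁ ε] t₁) (𝓝 (Ψ t₁)) := hΨa.continuousAt.tendsto.mono_left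
      nhdsWithin_le_nhds
    have h4 : Tendsto (fun t => ψ (B t)) (𝓝[LD t₁ ε] t₁) (𝓝 (ψ d)) :=
      hψa.continuousAt.tendsto.comp hd1
    have h5 : Tendsto Ψ (𝓝[LD t₁ ε] t₁) (𝓝 (ψ d)) := by
      refine h4.congr' ?_
      filter_upwards [self_mem_nhdsWithin] with t ht
      exact h1 t ht
    exact tendsto_nhds_unique h3 h5
  -- the local extension
  have key : ∃ Bt : ℂ → ℂ, AnalyticAt ℂ Bt t₁ ∧ Bt t₁ = d ∧ ∀ᶠ t in 𝓝[LD t₁ ε] t₁, Bt t = B t := by
    by_cases hp : deriv ψ d = 0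
    · -- use `H`
      have hH0 : deriv H d ≠ 0 := by
        intro h0
        have := rel d hdS
        rw [hp, h0] at this
        apply hc
        rw [← this]
        ring
      obtain ⟨κ, hκa, hκd, -, hκl⟩ := exists_local_inverse hHa hH0 univ_mem
      set ηt : ℂ → ℂ := Function.update (fun t => N t / Dn t) t₁ (H d) with hηt
      have hηc : ContinuousAt ηt t₁ := continuousAt_update_same.2 hd2
      have hgood := good_punctured hψ hH hc rel hε hΨ hN hDn hDn0 hB hBS hBnc h1 h2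
      have hηdiff : ∀ᶠ t in 𝓝[≠] t₁, DifferentiableAt ℂ ηt t := by
        filter_upwards [hgood, self_mem_nhdsWithin,
          nhdsWithin_le_nhds (ball_mem_nhds t₁ hε)] with t ht htn htb
        have h3 : DifferentiableAt ℂ (fun t => N t / Dn t) t :=
          (hN.differentiableAt (isOpen_ball.mem_nhds htb)).div
            (hDn.differentiableAt (isOpen_ball.mem_nhds htb)) ht.1
        refine h3.congr_of_eventuallyEq ?_
        filter_upwards [isOpen_ne.mem_nhds htn] with s hs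
        rw [hηt, Function.update_of_ne hs]
      have hηa : AnalyticAt ℂ ηt t₁ :=
        Complex.analyticAt_of_differentiable_on_punctured_nhds_of_continuousAt hηdiff hηc
      have hηt₁ : ηt t₁ = H d := by rw [hηt, Function.update_self]
      refine ⟨fun t => κ (ηt t), ?_, ?_, ?_⟩
      · rw [← hηt₁] at hκa
        exact hκa.comp hηa
      · simp only [hηt₁, hκd]
      · have h3 := hd1.eventually hκl
        have hg2 : ∀ᶠ t in 𝓝[LD t₁ ε] t₁, Dn t ≠ 0 :=
          (hgood.mono fun t ht => ht.1).filter_mono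
            (nhdsWithin_mono _ fun t ht => ne_of_mem_LD ht)
        filter_upwards [h3, self_mem_nhdsWithin, hg2] with t ht htL htD
        have h4 : ηt t = H (B t) := by
          rw [hηt, Function.update_of_ne (ne_of_mem_LD htL), div_eq_iff htD, mul_comm]
          exact (h2 t htL).symm
        rw [h4, ht]
    · obtain ⟨κ, hκa, hκd, -, hκl⟩ := exists_local_inverse hψa hp univ_mem
      refine ⟨fun t => κ (Ψ t), ?_, ?_, ?_⟩
      · rw [← hdΨ] at hκa
        exact hκa.comp hΨa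
      · simp only [hdΨ, hκd]
      · have h3 := hd1.eventually hκl
        filter_upwards [h3, self_mem_nhdsWithin] with t ht htL
        rw [← h1 t htL, ht]
  obtain ⟨Bt, hBta, hBt₁, hBte⟩ := key
  have hBtS : ∀ᶠ t in 𝓝 t₁, Bt t ∈ Sg h ∧ DifferentiableAt ℂ Bt t := by
    refine (hBta.continuousAt.eventually (hSo.mem_nhds ?_)).and
      (hBta.eventually_analyticAt.mono fun t ht => ht.differentiableAt)
    rw [hBt₁]
    exact hdS
  rw [eventually_nhdsWithin_iff] at hBte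
  obtain ⟨r, hr, hrr⟩ := Metric.eventually_nhds_iff_ball.1 (hBtS.and hBte)
  set r' := min r ε with hr'
  have hr'0 : 0 < r' := lt_min hr hε
  have hb1 : ball t₁ r' ⊆ ball t₁ r := ball_subset_ball (min_le_left _ _)
  have hb2 : ball t₁ r' ⊆ ball t₁ ε := ball_subset_ball (min_le_right _ _)
  have hBtd : DifferentiableOn ℂ Bt (ball t₁ r') := fun t ht =>
    (hrr t (hb1 ht)).1.2.differentiableWithinAt
  have hmaps : MapsTo Bt (ball t₁ r') (Sg h) := fun t ht => (hrr t (hb1 ht)).1.1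
  have hEq : EqOn Bt B (LD t₁ r') := fun t ht =>
    (hrr t (hb1 ht.1)).2 ⟨hb2 ht.1, ht.2⟩
  have hx₀ : t₁ - (r' / 2 : ℝ) * Complex.I ∈ LD t₁ r' := mem_LD_self (by positivity) (by linarith)
  have hLsub : LD t₁ r' ⊆ LD t₁ ε := LD_mono (min_le_right _ _)
  have e1 : EqOn (fun t => ψ (Bt t)) Ψ (ball t₁ r') := by
    refine AnalyticOnNhd.eqOn_of_preconnected_of_eventuallyEq (𝕜 := ℂ)
      ((hψ.comp hBtd hmaps).analyticOnNhd isOpen_ball) ((hΨ.mono hb2).analyticOnNhd isOpen_ball)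
      (convex_ball t₁ r').isPreconnected hx₀.1 ?_
    filter_upwards [(isOpen_LD t₁ r').mem_nhds hx₀] with t ht
    rw [hEq ht]
    exact h1 t (hLsub ht)
  have e2 : EqOn (fun t => Dn t * H (Bt t)) N (ball t₁ r') := by
    refine AnalyticOnNhd.eqOn_of_preconnected_of_eventuallyEq (𝕜 := ℂ)
      (((hDn.mono hb2).mul (hH.comp hBtd hmaps)).analyticOnNhd isOpen_ball)
      ((hN.mono hb2).analyticOnNhd isOpen_ball)
      (convex_ball t₁ r').isPreconnected hx₀.1 ?_
    filter_upwards [(isOpen_LD t₁ r').mem_nhds hx₀] with t ht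
    rw [hEq ht]
    exact h2 t (hLsub ht)
  exact ⟨r', hr'0, min_le_right _ _, Bt, hBtd, fun t ht => ⟨hmaps ht, e1 ht, e2 ht⟩, hEq⟩

end Crest.Agent.R102.Rule982
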