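import Crest.Agent.R102.Face2_300

/-!
Row 102, T1-B (helper300): facts F1, F2 of R1_523.

* `refl_minus`: F1(i): vertex and outgoing line regular ⟹ incoming line regular.
* `F2`: a regular line through a regular vertex (with `y ≠ 0`) is not tangent there.
* `extend_of_cluster`: both lines regular at a boundary point `x` and the label has a cluster
  value in `S` there ⟹ the label extends analytically to `x`.
-/

set_option autoImplicit false

open Set Filter Topology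
open scoped ComplexConjugate

noncomputable section

namespace Crest.Agent.R102.F300

open Crest.Agent.R102.C0 Crest.Agent.R102.B821 Complex

lemma analyticAt_comp_label {S : Set ℂ} (hS : IsOpen S) {f : ℂ → ℂ} (hf : DifferentiableOn ℂ f S)
    {B : ℂ × ℂ → ℂ} {x : ℂ × ℂ} (hB : AnalyticAt ℂ B x) (hx : B x ∈ S) :
    AnalyticAt ℂ (fun y => f (B y)) x :=
  AnalyticAt.comp (g := f) (f := B) (hf.analyticAt (hS.mem_nhds hx)) hB

/-- F1(i): vertex and one line regular ⟹ the other line regular; it is given by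
`φ' = 2 ψ(B) - φ`, `p' = 2 H(B) cos (φ - ψ(B)) - p`. -/
theorem refl_analytic {S : Set ℂ} (hS : IsOpen S) {ψ H : ℂ → ℂ}
    (hψ : DifferentiableOn ℂ ψ S) (hH : DifferentiableOn ℂ H S)
    {φ p B : ℂ × ℂ → ℂ} {x : ℂ × ℂ} (hφ : AnalyticAt ℂ φ x) (hp : AnalyticAt ℂ p x)
    (hB : AnalyticAt ℂ B x) (hx : B x ∈ S) :
    AnalyticAt ℂ (fun y => 2 * ψ (B y) - φ y) x ∧
    AnalyticAt ℂ (fun y => 2 * H (B y) * cos (φ y - ψ (B y)) - p y) x := by
  have h1 := analyticAt_comp_label hS hψ hB hx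
  have h2 := analyticAt_comp_label hS hH hB hx
  have h3 : AnalyticAt ℂ (fun y => cos (φ y - ψ (B y))) x :=
    AnalyticAt.comp (g := cos) (f := fun y => φ y - ψ (B y))
      (Complex.differentiable_cos.analyticAt _) (hφ.sub h1)
  exact ⟨(analyticAt_const.mul h1).sub hφ, ((analyticAt_const.mul h2).mul h3).sub hp⟩

/-- the reflected line is incident with the vertex -/
theorem inc_refl {ψ H : ℂ → ℂ} {φ p b : ℂ} (h : Inc ψ H φ p b) :
    Inc ψ H (2 * ψ b - φ) (2 * H b * cos (φ - ψ b) - p) b := by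
  unfold Inc at *
  have e1 : 2 * ψ b - φ - ψ b = -(φ - ψ b) := by ring
  rw [e1, cos_neg, sin_neg]
  linear_combination -h

/-- two incident lines with `φ + φ' = 2 ψ(b)`: `p + p' = 2 H(b) cos (φ - ψ(b))` where `ψ' ≠ 0` -/
theorem sum_p {ψ H : ℂ → ℂ} {φ p φ' p' b : ℂ} (hb : deriv ψ b ≠ 0) (h : Inc ψ H φ p b)
    (h' : Inc ψ H φ' p' b) (hr : φ + φ' = 2 * ψ b) : p + p' = 2 * H b * cos (φ - ψ b) := by
  unfold Inc at *
  have e1 : φ' - ψ b = -(φ - ψ b) := by linear_combination hr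
  rw [e1, cos_neg, sin_neg] at h'
  refine mul_left_cancel₀ hb ?_
  linear_combination h + h'

/-- F2: a regular line through a regular vertex (with `ψ' ≠ 0`) is not tangent there. -/
theorem F2 {S : Set ℂ} (hS : IsOpen S) {ψ H : ℂ → ℂ}
    (hψ : DifferentiableOn ℂ ψ S) (hH : DifferentiableOn ℂ H S)
    {φ p B : ℂ × ℂ → ℂ} {x : ℂ × ℂ} (hφ : AnalyticAt ℂ φ x) (hp : AnalyticAt ℂ p x)
    (hB : AnalyticAt ℂ B x) (hx : B x ∈ S) (hy : deriv ψ (B x) ≠ 0)
    (hon : ∀ᶠ y in 𝓝 x, Inc ψ H (φ y) (p y) (B y))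
    (har : q1 φ x * q2 p x - q2 φ x * q1 p x ≠ 0) : sin (φ x - ψ (B x)) ≠ 0 := by
  intro hs
  have hψx : AnalyticAt ℂ ψ (B x) := hψ.analyticAt (hS.mem_nhds hx)
  have hHx : AnalyticAt ℂ H (B x) := hH.analyticAt (hS.mem_nhds hx)
  -- directional derivatives of the incidence relation
  have key : ∀ v : ℂ × ℂ, deriv ψ (B x) * fderiv ℂ p x v
      = deriv H (B x) * cos (φ x - ψ (B x)) * fderiv ℂ φ x v := by
    intro v
    have hc0 : HasDerivAt (fun s : ℂ => x + s • v) v 0 := by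
      have h1 : HasDerivAt (fun s : ℂ => s • v) ((1 : ℂ) • v) 0 :=
        (hasDerivAt_id (0 : ℂ)).smul_const v
      simpa using h1.const_add x
    have hx0 : x + (0 : ℂ) • v = x := by simp
    have hcomp : ∀ f : ℂ × ℂ → ℂ, DifferentiableAt ℂ f x →
        HasDerivAt (fun s : ℂ => f (x + s • v)) (fderiv ℂ f x v) 0 := by
      intro f hf
      have h1 : HasFDerivAt f (fderiv ℂ f x) (x + (0 : ℂ) • v) := by
        rw [hx0]; exact hf.hasFDerivAt
      exact h1.comp_hasDerivAt (0 : ℂ) hc0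
    have hφ' := hcomp φ hφ.differentiableAt
    have hp' := hcomp p hp.differentiableAt
    have hB' := hcomp B hB.differentiableAt
    have hcl : ∀ f : ℂ → ℂ, AnalyticAt ℂ f (B x) →
        HasDerivAt (fun s : ℂ => f (B (x + s • v))) (deriv f (B x) * fderiv ℂ B x v) 0 := by
      intro f hf
      have h1 : HasDerivAt f (deriv f (B x)) (B (x + (0 : ℂ) • v)) := by
        rw [hx0]; exact hf.differentiableAt.hasDerivAt
      exact h1.comp (0 : ℂ) hB'
    have k1 := hcl _ hψx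
    have k2 := hcl _ hψx.deriv
    have k3 := hcl _ hHx
    have k4 := hcl _ hHx.deriv
    have l1 := k2.mul hp'
    have l2 := (k2.mul k3).mul ((hφ'.sub k1).ccos)
    have l3 := k4.mul ((hφ'.sub k1).csin)
    have l4 := (l1.sub (l2.add l3))
    have hcont : Tendsto (fun s : ℂ => x + s • v) (𝓝 0) (𝓝 x) := by
      have := hc0.continuousAt.tendsto
      rwa [hx0] at this
    have hz : (fun s : ℂ => deriv ψ (B (x + s • v)) * p (x + s • v)
        - (deriv ψ (B (x + s • v)) * H (B (x + s • v)) * cos (φ (x + s • v) - ψ (B (x + s • v)))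
          + deriv H (B (x + s • v)) * sin (φ (x + s • v) - ψ (B (x + s • v)))))
        =ᶠ[𝓝 0] fun _ => (0 : ℂ) := by
      filter_upwards [hcont.eventually hon] with s hs
      unfold Inc at hs
      rw [hs]; ring
    have e4 := (l4.congr_of_eventuallyEq hz.symm).unique (hasDerivAt_const (0 : ℂ) (0 : ℂ))
    simp only [zero_smul, add_zero, Pi.sub_apply, Pi.mul_apply] at e4
    have hinc := hon.self_of_nhds
    unfold Inc at hinc
    rw [hs] at e4 hinc
    have hpe : p x = H (B x) * cos (φ x - ψ (B x)) := by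
      refine mul_left_cancel₀ hy ?_
      rw [hinc]; ring
    rw [hpe] at e4
    linear_combination e4
  have h1 := key (1, 0)
  have h2 := key (0, 1)
  have h3 : deriv ψ (B x) * (q1 φ x * q2 p x - q2 φ x * q1 p x) = 0 := by
    unfold q1 q2
    linear_combination (fderiv ℂ φ x (1, 0)) * h2 - (fderiv ℂ φ x (0, 1)) * h1
  rcases mul_eq_zero.1 h3 with h4 | h4
  · exact hy h4
  · exact har h4

/-- **the label extends where it has an interior cluster value** and both lines (i.e. the tangent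
line `(Ψ, Dn · H = N)` of the curve at the vertex) are analytic. -/
theorem extend_of_cluster {S : Set ℂ} (hS : IsOpen S) {ψ H : ℂ → ℂ} {c : ℂ} (hc : c ≠ 0)
    (hψ : DifferentiableOn ℂ ψ S) (hH : DifferentiableOn ℂ H S) (hrel : Rel S ψ H c)
    {D : Set (ℂ × ℂ)} (hD : IsOpen D) {B Ψ N Dn : ℂ × ℂ → ℂ} (hB : DifferentiableOn ℂ B D)
    {x : ℂ × ℂ} (hΨ : AnalyticAt ℂ Ψ x) (hN : AnalyticAt ℂ N x) (hDn : AnalyticAt ℂ Dn x)
    {b : ℂ} (hb : b ∈ S) (hDb : deriv ψ b = 0 → Dn x ≠ 0)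
    (h1 : ∀ᶠ y in 𝓝 x, y ∈ D → ψ (B y) = Ψ y) (h2 : ∀ᶠ y in 𝓝 x, y ∈ D → Dn y * H (B y) = N y)
    {u : ℕ → ℂ × ℂ} (hu : ∀ n, u n ∈ D) (hux : Tendsto u atTop (𝓝 x))
    (hub : Tendsto (fun n => B (u n)) atTop (𝓝 b))
    (hloc : ∀ U ∈ 𝓝 x, ∃ V ⊆ U, IsOpen V ∧ x ∈ V ∧ IsPreconnected (V ∩ D)) :
    ∃ Bt : ℂ × ℂ → ℂ, AnalyticAt ℂ Bt x ∧ Bt x = b ∧ ∀ᶠ y in 𝓝 x, y ∈ D → Bt y = B y := by
  -- a pair `(f, F)`: `f` with `f' b ≠ 0` and `f (B y) = F y`
  obtain ⟨f, F, hfS, hF, hfb, hfF⟩ : ∃ (f : ℂ → ℂ) (F : ℂ × ℂ → ℂ), DifferentiableOn ℂ f S ∧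
      AnalyticAt ℂ F x ∧ deriv f b ≠ 0 ∧ ∀ᶠ y in 𝓝 x, y ∈ D → f (B y) = F y := by
    by_cases hy : deriv ψ b = 0
    · have hd := hDb hy
      have hr := hrel b hb
      refine ⟨H, fun y => N y / Dn y, hH, hN.div hDn hd, ?_, ?_⟩
      · intro h0
        apply hc
        rw [← hr, hy, h0]; ring
      · filter_upwards [h2, hDn.continuousAt.eventually_ne hd] with y k1 k2 k3
        rw [← k1 k3, mul_div_cancel_left₀ _ k2]
    · exact ⟨ψ, Ψ, hψ, hΨ, hy, h1⟩
  have hfa : AnalyticAt ℂ f b := hfS.analyticAt (hS.mem_nhds hb)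
  set β := hfa.hasStrictDerivAt.localInverse _ _ _ hfb with hβ
  have hβa : AnalyticAt ℂ β (f b) := hfa.analyticAt_localInverse hfb
  have hβx : β (f b) = b := HasStrictFDerivAt.localInverse_apply_image ..
  have hβl : ∀ᶠ z in 𝓝 b, β (f z) = z := HasStrictDerivAt.eventually_left_inverse ..
  -- `F x = f b`
  have hFx : F x = f b := by
    have t1 : Tendsto (fun n => F (u n)) atTop (𝓝 (F x)) := hF.continuousAt.tendsto.comp hux
    have t2 : Tendsto (fun n => f (B (u n))) atTop (𝓝 (f b)) :=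
      hfa.continuousAt.tendsto.comp hub
    refine tendsto_nhds_unique t1 (t2.congr' ?_)
    filter_upwards [hux.eventually hfF] with n hn
    exact hn (hu n)
  have hBt : AnalyticAt ℂ (fun y => β (F y)) x := by
    have : AnalyticAt ℂ β (F x) := by rw [hFx]; exact hβa
    exact AnalyticAt.comp (g := β) (f := F) this hF
  refine ⟨fun y => β (F y), hBt, by simp [hFx, hβx], ?_⟩
  obtain ⟨V, hVU, hVo, hxV, hVc⟩ := hloc {y | AnalyticAt ℂ (fun y => β (F y)) y ∧
    (y ∈ D → f (B y) = F y)} (hBt.eventually_analyticAt.and hfF)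
  -- one point of `V ∩ D` near which the two functions agree
  have hex : ∃ n, u n ∈ V ∧ ∀ᶠ z in 𝓝 (B (u n)), β (f z) = z :=
    ((hux.eventually (hVo.mem_nhds hxV)).and (hub.eventually hβl.eventually_nhds)).exists
  obtain ⟨n, hn1, hn2⟩ := hex
  have hBn : ContinuousAt B (u n) := (hB.differentiableAt (hD.mem_nhds (hu n))).continuousAt
  have hag : (fun y => β (F y)) =ᶠ[𝓝 (u n)] B := by
    filter_upwards [hBn.eventually hn2, hVo.mem_nhds hn1, hD.mem_nhds (hu n)] with y k1 k2 k3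
    rw [← (hVU k2).2 k3, k1]
  have hBan : AnalyticOnNhd ℂ B (V ∩ D) := by
    have : DifferentiableOn ℂ B (V ∩ D) := hB.mono inter_subset_right
    exact Crest.Agent.R266.SCV.analyticOnNhd_of_differentiableOn (hVo.inter hD) this
  have hFan : AnalyticOnNhd ℂ (fun y => β (F y)) (V ∩ D) := fun y hy => (hVU hy.1).1
  have hEq := hFan.eqOn_of_preconnected_of_eventuallyEq hBan hVc ⟨hn1, hu n⟩ hag
  filter_upwards [hVo.mem_nhds hxV] with y k1 k2
  exact hEq ⟨k1, k2⟩

end Crest.Agent.R102.F300
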