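import Mathlib
import Crest.Agent.R102.C1Defs_821
import Crest.Agent.R102.Face2_300
import Crest.Agent.R102.Rule_300
import Crest.Agent.R102.Rule1D_982

/-!
Row 102 (T1-B), part I.0: the base relations of the family of lines in the coordinates
`(ψ, H)` = (tangent angle, support function), extended to the strip `Sg h`.
-/

set_option autoImplicit false

open Set Filter Topology Metric
open scoped ComplexConjugate

noncomputable section

namespace Crest.Agent.R102.Sh982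

open Crest.Agent.R102.T5 Crest.Agent.R102.G576 Crest.Agent.R102.A929 Crest.Agent.R102.B821
open Crest.Agent.R102.C0 Crest.Agent.R102.C1 Crest.Agent.R102.F300 Crest.Agent.R102.Rule982

/-- data of part (T1-B): a family of lines, and the holomorphic extension `(ψ, H)` of (tangent
angle, support function) to the strip `Sg h` -/
structure Dat (q : C(ℂ, ℂ)) (η ρ r Bc : ℝ) (b φ p : ℂ × ℂ → ℂ) (m₀ : ℂ → ℂ) (h : ℝ)
    (ψ H : ℂ → ℂ) : Prop where
  fam : LineFam q η ρ r Bc b φ p m₀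
  η_le : η ≤ h
  ψ_diff : DifferentiableOn ℂ ψ (Sg h)
  H_diff : DifferentiableOn ℂ H (Sg h)
  ψ_eq : ∀ z ∈ Str η, ψ z = Tc q z
  H_eq : ∀ z ∈ Str η, H z = Hc q z

variable {q : C(ℂ, ℂ)} {η ρ r Bc : ℝ} {b φ p : ℂ × ℂ → ℂ} {m₀ : ℂ → ℂ} {h : ℝ} {ψ H : ℂ → ℂ}

lemma Str_sub_Sg (hηh : η ≤ h) : Str η ⊆ Sg h := fun _ hz => lt_of_lt_of_le hz hηh

lemma add_one_mem_Sg {z : ℂ} (hz : z ∈ Sg h) : z + 1 ∈ Sg h := by
  change |(z + 1).im| < h
  have : |z.im| < h := hz
  simpa using this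

section Base

variable (D : Dat q η ρ r Bc b φ p m₀ h ψ H)
include D

lemma Dat.η_pos : 0 < η := D.fam.dat.η_pos

lemma Dat.h_pos : 0 < h := D.η_pos.trans_le D.η_le

lemma Dat.sub : Str η ⊆ Sg h := Str_sub_Sg D.η_le

lemma Dat.ψ_ev {z : ℂ} (hz : z ∈ Str η) : ψ =ᶠ[𝓝 z] Tc q := by
  filter_upwards [(isOpen_Str η).mem_nhds hz] with w hw
  exact D.ψ_eq w hw

lemma Dat.H_ev {z : ℂ} (hz : z ∈ Str η) : H =ᶠ[𝓝 z] Hc q := by
  filter_upwards [(isOpen_Str η).mem_nhds hz] with w hw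
  exact D.H_eq w hw

lemma Dat.deriv_ψ {z : ℂ} (hz : z ∈ Str η) : deriv ψ z = Complex.exp (q z) := by
  rw [(D.ψ_ev hz).deriv_eq]
  exact (D.fam.dat.hasDerivAt_Tc hz).deriv

lemma Dat.deriv_ψ_ne {z : ℂ} (hz : z ∈ Str η) : deriv ψ z ≠ 0 := by
  rw [D.deriv_ψ hz]
  exact Complex.exp_ne_zero _

/-- `Hc' = - (y / 2) (e^{-iT} Z + e^{iT} Zc)` -/
lemma Dat.hasDerivAt_Hc {z : ℂ} (hz : z ∈ Str η) :
    HasDerivAt (Hc q) (-(Complex.exp (q z) / 2) *
      (Complex.exp (-(Complex.I * Tc q z)) * Zs q 1 z +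
        Complex.exp (Complex.I * Tc q z) * Zs q (-1) z)) z := by
  have hT := D.fam.dat.hasDerivAt_Tc hz
  have h1 := D.fam.dat.hasDerivAt_Zs 1 hz
  have h2 := D.fam.dat.hasDerivAt_Zs (-1) hz
  have a1 : HasDerivAt (fun z => Complex.exp (-(Complex.I * Tc q z)))
      (Complex.exp (-(Complex.I * Tc q z)) * (-(Complex.I * Complex.exp (q z)))) z :=
    (hT.const_mul Complex.I).fun_neg.cexp
  have a2 : HasDerivAt (fun z => Complex.exp (Complex.I * Tc q z))
      (Complex.exp (Complex.I * Tc q z) * (Complex.I * Complex.exp (q z))) z :=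
    (hT.const_mul Complex.I).cexp
  have h3 := ((a1.fun_mul h1).fun_sub (a2.fun_mul h2)).div_const (2 * Complex.I)
  refine h3.congr_deriv ?_
  unfold C0.vel
  have e1 : Complex.exp (-(Complex.I * Tc q z)) *
      Complex.exp (-2 * q z + 1 * (Complex.I * Tc q z)) = Complex.exp (-2 * q z) := by
    rw [← Complex.exp_add]
    congr 1
    ring
  have e2 : Complex.exp (Complex.I * Tc q z) *
      Complex.exp (-2 * q z + -1 * (Complex.I * Tc q z)) = Complex.exp (-2 * q z) := by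
    rw [← Complex.exp_add]
    congr 1
    ring
  have hI0 : (2 * Complex.I) ≠ 0 := by simp [Complex.I_ne_zero]
  rw [e1, e2, div_eq_iff hI0]
  ring

lemma Dat.deriv_H {z : ℂ} (hz : z ∈ Str η) : deriv H z = -(Complex.exp (q z) / 2) *
      (Complex.exp (-(Complex.I * Tc q z)) * Zs q 1 z +
        Complex.exp (Complex.I * Tc q z) * Zs q (-1) z) := by
  rw [(D.H_ev hz).deriv_eq]
  exact (D.hasDerivAt_Hc hz).deriv

/-- the isotropic coordinates -/
lemma Dat.zz {z : ℂ} (hz : z ∈ Str η) : ZZ ψ H z = Zs q 1 z ∧ ZZc ψ H z = Zs q (-1) z := by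
  have e0 := Complex.exp_ne_zero (q z)
  have e1 : Complex.exp (Complex.I * Tc q z) * Complex.exp (-(Complex.I * Tc q z)) = 1 := by
    rw [← Complex.exp_add]
    simp
  have hI : Complex.I * Complex.I = -1 := Complex.I_mul_I
  unfold ZZ ZZc
  rw [D.ψ_eq z hz, D.H_eq z hz, D.deriv_ψ hz, D.deriv_H hz]
  have e2 : -(Complex.exp (q z) / 2) *
      (Complex.exp (-(Complex.I * Tc q z)) * Zs q 1 z +
        Complex.exp (Complex.I * Tc q z) * Zs q (-1) z) / Complex.exp (q z) =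
      -(1 / 2) * (Complex.exp (-(Complex.I * Tc q z)) * Zs q 1 z +
        Complex.exp (Complex.I * Tc q z) * Zs q (-1) z) := by
    field_simp
  have e3 : Complex.I * Hc q z = (Complex.exp (-(Complex.I * Tc q z)) * Zs q 1 z -
      Complex.exp (Complex.I * Tc q z) * Zs q (-1) z) / 2 := by
    unfold Hc
    field_simp
  rw [e2, e3]
  constructor
  · linear_combination Zs q 1 z * e1
  · linear_combination Zs q (-1) z * e1

lemma Dat.b_mem_Str {x : ℂ × ℂ} (hx : x ∈ PD ρ r) : b x ∈ Str η :=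
  (D.fam.b_mem x hx).trans D.fam.ρ_lt

lemma Dat.b_mem {x : ℂ × ℂ} (hx : x ∈ PD ρ r) : b x ∈ Sg h := D.sub (D.b_mem_Str hx)

/-- the vertex `b (t, w)` is incident with the line `t + s w/2`, `s = ± 1` -/
lemma Dat.base_onLine {s : ℂ} (hs : s = 1 ∨ s = -1) {t w : ℂ} (h1 : (t, w) ∈ PD ρ r)
    (h2 : (t + s * (w / 2), w) ∈ PD ρ r) :
    OnLine (φ (t + s * (w / 2), w)) (p (t + s * (w / 2), w)) (Zs q 1 (b (t, w)))
      (Zs q (-1) (b (t, w))) := by
  rcases hs with rfl | rfl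
  · have h3 := D.fam.inc' (t + 1 * (w / 2)) w h2 (by
      have : t + 1 * (w / 2) - w / 2 = t := by ring
      rw [this]
      exact h1)
    have e : t + 1 * (w / 2) - w / 2 = t := by ring
    rw [e] at h3
    exact h3
  · have h3 := D.fam.inc (t + -1 * (w / 2)) w h2 (by
      have : t + -1 * (w / 2) + w / 2 = t := by ring
      rw [this]
      exact h1)
    have e : t + -1 * (w / 2) + w / 2 = t := by ring
    rw [e] at h3
    exact h3

/-- incidence in the coordinates `(ψ, H)` -/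
lemma Dat.base_inc {s : ℂ} (hs : s = 1 ∨ s = -1) {t w : ℂ} (h1 : (t, w) ∈ PD ρ r)
    (h2 : (t + s * (w / 2), w) ∈ PD ρ r) :
    Inc ψ H (φ (t + s * (w / 2), w)) (p (t + s * (w / 2), w)) (b (t, w)) := by
  have hb := D.b_mem_Str h1
  rw [← onLine_iff ψ H (D.deriv_ψ_ne hb), (D.zz hb).1, (D.zz hb).2]
  exact D.base_onLine hs h1 h2

/-- reflection -/
lemma Dat.base_refl {s : ℂ} (hs : s = 1 ∨ s = -1) {t w : ℂ} (h1 : (t, w) ∈ PD ρ r)
    (h2 : (t + s * (w / 2), w) ∈ PD ρ r) (h3 : (t - s * (w / 2), w) ∈ PD ρ r) :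
    φ (t - s * (w / 2), w) + φ (t + s * (w / 2), w) = 2 * ψ (b (t, w)) := by
  rw [D.ψ_eq _ (D.b_mem_Str h1)]
  rcases hs with rfl | rfl
  · rw [one_mul] at h2 h3 ⊢
    exact D.fam.refl t w h1 h3 h2
  · have e1 : t + -1 * (w / 2) = t - w / 2 := by ring
    have e2 : t - -1 * (w / 2) = t + w / 2 := by ring
    rw [e1] at h2 ⊢
    rw [e2] at h3 ⊢
    rw [add_comm]
    exact D.fam.refl t w h1 h2 h3

/-- `p₋ + p₊ = 2 H(b) cos (φ₋ - ψ(b))` -/
lemma Dat.base_sum {s : ℂ} (hs : s = 1 ∨ s = -1) {t w : ℂ} (h1 : (t, w) ∈ PD ρ r)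
    (h2 : (t + s * (w / 2), w) ∈ PD ρ r) (h3 : (t - s * (w / 2), w) ∈ PD ρ r) :
    p (t - s * (w / 2), w) + p (t + s * (w / 2), w) =
      2 * H (b (t, w)) * Complex.cos (φ (t - s * (w / 2), w) - ψ (b (t, w))) := by
  have hs' : -s = 1 ∨ -s = -1 := by
    rcases hs with rfl | rfl
    · exact Or.inr rfl
    · exact Or.inl (neg_neg 1)
  have h3' : (t + -s * (w / 2), w) ∈ PD ρ r := by
    rw [neg_mul, ← sub_eq_add_neg]
    exact h3
  have i1 := D.base_inc hs h1 h2
  have i2 := D.base_inc hs' h1 h3'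
  rw [neg_mul, ← sub_eq_add_neg] at i2
  exact sum_p (D.deriv_ψ_ne (D.b_mem_Str h1)) i2 i1 (D.base_refl hs h1 h2 h3)

/-! ### relation and period on the strip -/

lemma Dat.rel_Str {z : ℂ} (hz : z ∈ Str η) : deriv ψ z * deriv (deriv H) z -
    deriv (deriv ψ) z * deriv H z + deriv ψ z ^ 3 * H z = -1 := by
  have hTe : deriv ψ =ᶠ[𝓝 z] fun z => Complex.exp (q z) := by
    filter_upwards [(isOpen_Str η).mem_nhds hz] with w hw
    exact D.deriv_ψ hw
  have hHe : deriv H =ᶠ[𝓝 z] fun z => -(Complex.exp (q z) / 2) *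
      (Complex.exp (-(Complex.I * Tc q z)) * Zs q 1 z +
        Complex.exp (Complex.I * Tc q z) * Zs q (-1) z) := by
    filter_upwards [(isOpen_Str η).mem_nhds hz] with w hw
    exact D.deriv_H hw
  have hq : HasDerivAt q (deriv q z) z :=
    (D.fam.dat.diff.differentiableAt ((isOpen_Str η).mem_nhds hz)).hasDerivAt
  have hT := D.fam.dat.hasDerivAt_Tc hz
  have h1 := D.fam.dat.hasDerivAt_Zs 1 hz
  have h2 := D.fam.dat.hasDerivAt_Zs (-1) hz
  have d1 : deriv (deriv ψ) z = Complex.exp (q z) * deriv q z := by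
    rw [hTe.deriv_eq]
    exact hq.cexp.deriv
  have a0 : HasDerivAt (fun z => -(Complex.exp (q z) / 2))
      (-(Complex.exp (q z) * deriv q z / 2)) z := (hq.cexp.div_const 2).fun_neg
  have a1 : HasDerivAt (fun z => Complex.exp (-(Complex.I * Tc q z)))
      (Complex.exp (-(Complex.I * Tc q z)) * (-(Complex.I * Complex.exp (q z)))) z :=
    (hT.const_mul Complex.I).fun_neg.cexp
  have a2 : HasDerivAt (fun z => Complex.exp (Complex.I * Tc q z))
      (Complex.exp (Complex.I * Tc q z) * (Complex.I * Complex.exp (q z))) z :=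
    (hT.const_mul Complex.I).cexp
  have d2 := a0.fun_mul ((a1.fun_mul h1).fun_add (a2.fun_mul h2))
  have e1 : Complex.exp (-(Complex.I * Tc q z)) *
      Complex.exp (-2 * q z + 1 * (Complex.I * Tc q z)) = Complex.exp (-2 * q z) := by
    rw [← Complex.exp_add]
    congr 1
    ring
  have e2 : Complex.exp (Complex.I * Tc q z) *
      Complex.exp (-2 * q z + -1 * (Complex.I * Tc q z)) = Complex.exp (-2 * q z) := by
    rw [← Complex.exp_add]
    congr 1
    ring
  have e3 : Complex.exp (q z) * Complex.exp (q z) * Complex.exp (-2 * q z) = 1 := by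
    rw [← Complex.exp_add, ← Complex.exp_add]
    have : q z + q z + -2 * q z = 0 := by ring
    rw [this, Complex.exp_zero]
  have hI : Complex.I * Complex.I = -1 := Complex.I_mul_I
  rw [hHe.deriv_eq, d2.deriv, d1, D.deriv_ψ hz, D.deriv_H hz, D.H_eq z hz]
  unfold C0.vel Hc
  have hI0 : (2 * Complex.I) ≠ 0 := by simp [Complex.I_ne_zero]
  have e4 : (Complex.exp (-(Complex.I * Tc q z)) * Zs q 1 z -
      Complex.exp (Complex.I * Tc q z) * Zs q (-1) z) / (2 * Complex.I) =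
      -(Complex.I / 2) * (Complex.exp (-(Complex.I * Tc q z)) * Zs q 1 z -
      Complex.exp (Complex.I * Tc q z) * Zs q (-1) z) := by
    rw [div_eq_iff hI0]
    linear_combination ((Complex.exp (-(Complex.I * Tc q z)) * Zs q 1 z -
      Complex.exp (Complex.I * Tc q z) * Zs q (-1) z)) * hI
  rw [e4]
  linear_combination (-(Complex.exp (q z) ^ 2 / 2)) * e1 + (-(Complex.exp (q z) ^ 2 / 2)) * e2 -
    e3

/-- the relation on the whole strip -/
lemma Dat.rel : Rel (Sg h) ψ H (-1) := by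
  have hSo := isOpen_Sg h
  have hψ' := D.ψ_diff.deriv hSo
  have hψ'' := hψ'.deriv hSo
  have hH' := D.H_diff.deriv hSo
  have hH'' := hH'.deriv hSo
  have h1 : DifferentiableOn ℂ (fun z => deriv ψ z * deriv (deriv H) z -
      deriv (deriv ψ) z * deriv H z + deriv ψ z ^ 3 * H z) (Sg h) :=
    ((hψ'.mul hH'').sub (hψ''.mul hH')).add ((hψ'.pow 3).mul D.H_diff)
  have h0 : (0 : ℂ) ∈ Str η := by
    change |(0 : ℂ).im| < η
    simpa using D.η_pos
  have h2 := AnalyticOnNhd.eqOn_of_preconnected_of_eventuallyEq (𝕜 := ℂ)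
    (h1.analyticOnNhd hSo) (g := fun _ => (-1 : ℂ)) analyticOnNhd_const
    (convex_Sg h).isPreconnected (D.sub h0) (by
      filter_upwards [(isOpen_Str η).mem_nhds h0] with z hz
      exact D.rel_Str hz)
  exact fun z hz => h2 hz

lemma Dat.ψ_per : ∀ z ∈ Sg h, ψ (z + 1) = ψ z + 2 * Real.pi := by
  have hSo := isOpen_Sg h
  have h0 : (0 : ℂ) ∈ Str η := by
    change |(0 : ℂ).im| < η
    simpa using D.η_pos
  have h2 := AnalyticOnNhd.eqOn_of_preconnected_of_eventuallyEq (𝕜 := ℂ)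
    (f := fun z => ψ (z + 1)) (g := fun z => ψ z + 2 * Real.pi)
    ((D.ψ_diff.comp (f := fun z : ℂ => z + 1) (by fun_prop)
      (fun z hz => add_one_mem_Sg hz)).analyticOnNhd hSo)
    ((D.ψ_diff.add_const _).analyticOnNhd hSo)
    (convex_Sg h).isPreconnected (D.sub h0) (by
      filter_upwards [(isOpen_Str η).mem_nhds h0] with z hz
      have h3 : z + 1 ∈ Str η := add_one_mem_Sg (h := η) hz
      rw [D.ψ_eq _ h3, D.ψ_eq _ hz]
      exact D.fam.dat.Tc_per hz)
  exact fun z hz => h2 hz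

end Base

end Crest.Agent.R102.Sh982
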