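import Mathlib

/-!
Row 102 (T1-B): **the maximal vertically convex domain of joint holomorphy.**

`f : ℂ × ℂ → E` analytic with values in `K` on the base `Bs ρ r = {|Im t| < ρ, ‖w‖ < r}`.
`Reg ρ r f K` = union of all vertically convex open domains `Ω ⊇ Bs ρ r` (`VDom ρ r Ω`) which carry
an analytic `K`-valued extension of `f`; `ext ρ r f K` = the (single valued) extension;
`hgt ρ r f K x w` = height of `Reg` over the abscissa `x`, `top ρ r f K w` = `inf_x hgt x w`.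
-/

set_option autoImplicit false

open Set Filter Topology Metric

noncomputable section

namespace Crest.Agent.R102.VH982

variable {E : Type*} [NormedAddCommGroup E] [NormedSpace ℂ E]

/-- the point `(x + i y, w)` -/
def pt (x y : ℝ) (w : ℂ) : ℂ × ℂ := ((x : ℂ) + y * Complex.I, w)

/-- base domain -/
def Bs (ρ r : ℝ) : Set (ℂ × ℂ) := {p | |p.1.im| < ρ ∧ ‖p.2‖ < r}

@[simp] lemma pt_snd (x y : ℝ) (w : ℂ) : (pt x y w).2 = w := rfl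
@[simp] lemma pt_re (x y : ℝ) (w : ℂ) : (pt x y w).1.re = x := by simp [pt]
@[simp] lemma pt_im (x y : ℝ) (w : ℂ) : (pt x y w).1.im = y := by simp [pt]

lemma pt_eta (p : ℂ × ℂ) : pt p.1.re p.1.im p.2 = p := by
  unfold pt
  rw [Complex.re_add_im]

lemma continuous_pt : Continuous fun q : ℝ × ℝ × ℂ => pt q.1 q.2.1 q.2.2 := by
  unfold pt
  fun_prop

lemma continuous_pt_y (x : ℝ) (w : ℂ) : Continuous fun y : ℝ => pt x y w := by
  unfold pt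
  fun_prop

lemma isOpen_im (ρ : ℝ) : IsOpen {p : ℂ × ℂ | |p.1.im| < ρ} :=
  isOpen_lt (continuous_abs.comp (Complex.continuous_im.comp continuous_fst)) continuous_const

lemma isOpen_nw (r : ℝ) : IsOpen {p : ℂ × ℂ | ‖p.2‖ < r} :=
  isOpen_lt (continuous_norm.comp continuous_snd) continuous_const

lemma isOpen_Bs (ρ r : ℝ) : IsOpen (Bs ρ r) := by
  have h : Bs ρ r = {p : ℂ × ℂ | |p.1.im| < ρ} ∩ {p : ℂ × ℂ | ‖p.2‖ < r} := by
    ext p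
    exact Iff.rfl
  rw [h]
  exact (isOpen_im ρ).inter (isOpen_nw r)

/-- vertically convex open domain over the base -/
structure VDom (ρ r : ℝ) (Ω : Set (ℂ × ℂ)) : Prop where
  isOpen : IsOpen Ω
  base : Bs ρ r ⊆ Ω
  sub : ∀ p ∈ Ω, ‖p.2‖ < r
  vert : ∀ (x y₁ y₂ y : ℝ) (w : ℂ), pt x y₁ w ∈ Ω → pt x y₂ w ∈ Ω → y₁ ≤ y → y ≤ y₂ →
    pt x y w ∈ Ω

lemma VDom.vert' {ρ r : ℝ} {Ω : Set (ℂ × ℂ)} (h : VDom ρ r Ω) {x y₁ y₂ y : ℝ} {w : ℂ}
    (h1 : pt x y₁ w ∈ Ω) (h2 : pt x y₂ w ∈ Ω) (hy : y ∈ uIcc y₁ y₂) : pt x y w ∈ Ω := by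
  rcases le_total y₁ y₂ with h3 | h3
  · rw [uIcc_of_le h3] at hy
    exact h.vert x y₁ y₂ y w h1 h2 hy.1 hy.2
  · rw [uIcc_of_ge h3] at hy
    exact h.vert x y₂ y₁ y w h2 h1 hy.1 hy.2

lemma VDom.base0 {ρ r : ℝ} (hρ : 0 < ρ) {Ω : Set (ℂ × ℂ)} (h : VDom ρ r Ω) {x : ℝ} {w : ℂ}
    (hw : ‖w‖ < r) : pt x 0 w ∈ Ω :=
  h.base ⟨by rw [pt_im, abs_zero]; exact hρ, hw⟩

lemma VDom.inter {ρ r : ℝ} {Ω Ω' : Set (ℂ × ℂ)} (h : VDom ρ r Ω) (h' : VDom ρ r Ω') :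
    VDom ρ r (Ω ∩ Ω') where
  isOpen := h.isOpen.inter h'.isOpen
  base := subset_inter h.base h'.base
  sub := fun p hp => h.sub p hp.1
  vert := fun x y₁ y₂ y w h1 h2 h3 h4 =>
    ⟨h.vert x y₁ y₂ y w h1.1 h2.1 h3 h4, h'.vert x y₁ y₂ y w h1.2 h2.2 h3 h4⟩

lemma VDom.union {ρ r : ℝ} (hρ : 0 < ρ) {Ω Ω' : Set (ℂ × ℂ)} (h : VDom ρ r Ω)
    (h' : VDom ρ r Ω') : VDom ρ r (Ω ∪ Ω') where
  isOpen := h.isOpen.union h'.isOpen
  base := h.base.trans subset_union_left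
  sub := fun p hp => hp.elim (h.sub p) (h'.sub p)
  vert := by
    intro x y₁ y₂ y w h1 h2 h3 h4
    have hw : ‖w‖ < r := by
      rcases h1 with h1 | h1
      · exact h.sub _ h1
      · exact h'.sub _ h1
    have hb := h.base0 (x := x) hρ hw
    have hb' := h'.base0 (x := x) hρ hw
    rcases le_total 0 y with h5 | h5
    · rcases h2 with h2 | h2
      · exact Or.inl (h.vert x 0 y₂ y w hb h2 h5 h4)
      · exact Or.inr (h'.vert x 0 y₂ y w hb' h2 h5 h4)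
    · rcases h1 with h1 | h1
      · exact Or.inl (h.vert x y₁ 0 y w h1 hb h3 h5)
      · exact Or.inr (h'.vert x y₁ 0 y w h1 hb' h3 h5)

/-- restriction of the parameter and shift `t ↦ t + a w` -/
lemma VDom.shift {ρ r : ℝ} {Ω : Set (ℂ × ℂ)} (h : VDom ρ r Ω) (a : ℂ) {ρ' r' : ℝ}
    (hr : r' ≤ r) (hρ : ρ' + ‖a‖ * r' ≤ ρ) :
    VDom ρ' r' {p : ℂ × ℂ | ‖p.2‖ < r' ∧ (p.1 + a * p.2, p.2) ∈ Ω} where
  isOpen := by
    have h1 : {p : ℂ × ℂ | ‖p.2‖ < r' ∧ (p.1 + a * p.2, p.2) ∈ Ω} =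
        {p : ℂ × ℂ | ‖p.2‖ < r'} ∩ (fun p : ℂ × ℂ => (p.1 + a * p.2, p.2)) ⁻¹' Ω := by
      ext p
      exact Iff.rfl
    rw [h1]
    exact (isOpen_nw r').inter (h.isOpen.preimage (by fun_prop))
  base := by
    rintro ⟨t, w⟩ ⟨h1, h2⟩
    refine ⟨h2, h.base ⟨?_, h2.trans_le hr⟩⟩
    simp only at h1 h2 ⊢
    have h3 : |(a * w).im| ≤ ‖a‖ * ‖w‖ := by
      rw [← norm_mul]
      exact Complex.abs_im_le_norm _
    have h4 : ‖a‖ * ‖w‖ ≤ ‖a‖ * r' := mul_le_mul_of_nonneg_left h2.le (norm_nonneg a)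
    rw [Complex.add_im]
    have h5 := abs_add_le t.im (a * w).im
    linarith
  sub := fun p hp => hp.1
  vert := by
    intro x y₁ y₂ y w h1 h2 h3 h4
    refine ⟨h1.1, ?_⟩
    have key : ∀ s : ℝ, ((pt x s w).1 + a * (pt x s w).2, (pt x s w).2) =
        pt (x + (a * w).re) (s + (a * w).im) w := by
      intro s
      unfold pt
      refine Prod.ext ?_ rfl
      apply Complex.ext <;> simp
    have h1' := h1.2
    have h2' := h2.2
    rw [key] at h1' h2' ⊢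
    exact h.vert _ _ _ _ w h1' h2' (by linarith) (by linarith)

lemma VDom.restrict {ρ r : ℝ} {Ω : Set (ℂ × ℂ)} (h : VDom ρ r Ω) {ρ' r' : ℝ}
    (hr : r' ≤ r) (hρ : ρ' ≤ ρ) : VDom ρ' r' (Ω ∩ {p : ℂ × ℂ | ‖p.2‖ < r'}) where
  isOpen := h.isOpen.inter (isOpen_nw r')
  base := fun p hp => ⟨h.base ⟨hp.1.trans_le hρ, hp.2.trans_le hr⟩, hp.2⟩
  sub := fun p hp => hp.2
  vert := fun x y₁ y₂ y w h1 h2 h3 h4 => ⟨h.vert x y₁ y₂ y w h1.1 h2.1 h3 h4, h1.2⟩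

/-! ### identity theorem -/

lemma isPreconnected_seg (x y₁ y₂ : ℝ) (w : ℂ) :
    IsPreconnected ((fun y : ℝ => pt x y w) '' uIcc y₁ y₂) :=
  isPreconnected_uIcc.image _ (continuous_pt_y x w).continuousOn

/-- identity theorem along vertical segments -/
lemma eq_along {Ω : Set (ℂ × ℂ)} {f g : ℂ × ℂ → E} (hf : AnalyticOnNhd ℂ f Ω)
    (hg : AnalyticOnNhd ℂ g Ω) {x y₁ y₂ : ℝ} {w : ℂ} (hseg : ∀ y ∈ uIcc y₁ y₂, pt x y w ∈ Ω)
    (h1 : f =ᶠ[𝓝 (pt x y₁ w)] g) : f (pt x y₂ w) = g (pt x y₂ w) := by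
  have hsub : (fun y : ℝ => pt x y w) '' uIcc y₁ y₂ ⊆ Ω := by
    rintro _ ⟨y, hy, rfl⟩
    exact hseg y hy
  exact (hf.mono hsub).eqOn_of_preconnected_of_eventuallyEq (hg.mono hsub)
    (isPreconnected_seg x y₁ y₂ w) ⟨y₁, left_mem_uIcc, rfl⟩ h1 ⟨y₂, right_mem_uIcc, rfl⟩

lemma VDom.unique {ρ r : ℝ} (hρ : 0 < ρ) {Ω : Set (ℂ × ℂ)} (h : VDom ρ r Ω) {f g : ℂ × ℂ → E}
    (hf : AnalyticOnNhd ℂ f Ω) (hg : AnalyticOnNhd ℂ g Ω) (hfg : EqOn f g (Bs ρ r)) :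
    EqOn f g Ω := by
  intro p hp
  have hw := h.sub _ hp
  rw [← pt_eta p] at hp ⊢
  have hb := h.base0 (x := p.1.re) hρ hw
  refine eq_along hf hg (y₁ := 0) (fun y hy => h.vert' hb hp hy) ?_
  have hmem : pt p.1.re 0 p.2 ∈ Bs ρ r := ⟨by rw [pt_im, abs_zero]; exact hρ, hw⟩
  filter_upwards [(isOpen_Bs ρ r).mem_nhds hmem] with q hq
  exact hfg hq

/-! ### the maximal domain -/

/-- `G` is an analytic `K`-valued extension of `f` to the vertically convex domain `Ω` -/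
structure IsExt (ρ r : ℝ) (f : ℂ × ℂ → E) (K : Set E) (Ω : Set (ℂ × ℂ)) (G : ℂ × ℂ → E) :
    Prop where
  dom : VDom ρ r Ω
  an : AnalyticOnNhd ℂ G Ω
  maps : MapsTo G Ω K
  eq : EqOn G f (Bs ρ r)

/-- the maximal domain -/
def Reg (ρ r : ℝ) (f : ℂ × ℂ → E) (K : Set E) : Set (ℂ × ℂ) :=
  {p | ∃ Ω G, IsExt ρ r f K Ω G ∧ p ∈ Ω}

open Classical in
/-- the extension -/
def ext (ρ r : ℝ) (f : ℂ × ℂ → E) (K : Set E) (p : ℂ × ℂ) : E :=
  if h : p ∈ Reg ρ r f K then h.choose_spec.choose p else 0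

variable {ρ r : ℝ} {f : ℂ × ℂ → E} {K : Set E}

lemma IsExt.subset_reg {Ω : Set (ℂ × ℂ)} {G : ℂ × ℂ → E} (h : IsExt ρ r f K Ω G) :
    Ω ⊆ Reg ρ r f K := fun _ hp => ⟨Ω, G, h, hp⟩

lemma IsExt.ext_eq (hρ : 0 < ρ) {Ω : Set (ℂ × ℂ)} {G : ℂ × ℂ → E} (h : IsExt ρ r f K Ω G) :
    EqOn (ext ρ r f K) G Ω := by
  intro p hp
  have hp' : p ∈ Reg ρ r f K := h.subset_reg hp
  unfold ext
  rw [dif_pos hp']
  obtain ⟨h1, h2⟩ := hp'.choose_spec.choose_spec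
  have h3 := (h1.dom.inter h.dom).unique hρ (h1.an.mono inter_subset_left)
    (h.an.mono inter_subset_right) (fun q hq => (h1.eq hq).trans (h.eq hq).symm)
  exact h3 ⟨h2, hp⟩

/-- base data: `f` is analytic with values in `K` on the base -/
structure Bd (ρ r : ℝ) (f : ℂ × ℂ → E) (K : Set E) : Prop where
  ρ_pos : 0 < ρ
  an : AnalyticOnNhd ℂ f (Bs ρ r)
  maps : MapsTo f (Bs ρ r) K

lemma vdom_Bs (ρ r : ℝ) : VDom ρ r (Bs ρ r) where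
  isOpen := isOpen_Bs ρ r
  base := Subset.rfl
  sub := fun p hp => hp.2
  vert := by
    intro x y₁ y₂ y w h1 h2 h3 h4
    refine ⟨?_, h1.2⟩
    have a1 : |y₁| < ρ := by simpa using h1.1
    have a2 : |y₂| < ρ := by simpa using h2.1
    rw [pt_im]
    exact abs_lt.2 ⟨by linarith [(abs_lt.1 a1).1], by linarith [(abs_lt.1 a2).2]⟩

lemma Bd.isExt (h : Bd ρ r f K) : IsExt ρ r f K (Bs ρ r) f where
  dom := vdom_Bs ρ r
  an := h.an
  maps := h.maps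
  eq := fun _ _ => rfl

lemma Bd.base_subset (h : Bd ρ r f K) : Bs ρ r ⊆ Reg ρ r f K := h.isExt.subset_reg

lemma Bd.reg_vdom (h : Bd ρ r f K) : VDom ρ r (Reg ρ r f K) where
  isOpen := by
    rw [isOpen_iff_mem_nhds]
    rintro p ⟨Ω, G, hG, hp⟩
    exact mem_of_superset (hG.dom.isOpen.mem_nhds hp) hG.subset_reg
  base := h.base_subset
  sub := by
    rintro p ⟨Ω, G, hG, hp⟩
    exact hG.dom.sub p hp
  vert := by
    rintro x y₁ y₂ y w ⟨Ω, G, hG, h1⟩ ⟨Ω', G', hG', h2⟩ h3 h4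
    have hw := hG.dom.sub _ h1
    rcases le_total 0 y with h5 | h5
    · exact hG'.subset_reg (hG'.dom.vert x 0 y₂ y w (hG'.dom.base0 h.ρ_pos hw) h2 h5 h4)
    · exact hG.subset_reg (hG.dom.vert x y₁ 0 y w h1 (hG.dom.base0 h.ρ_pos hw) h3 h5)

lemma Bd.ext_isExt (h : Bd ρ r f K) : IsExt ρ r f K (Reg ρ r f K) (ext ρ r f K) where
  dom := h.reg_vdom
  an := by
    rintro p ⟨Ω, G, hG, hp⟩
    refine (hG.an p hp).congr ?_
    filter_upwards [hG.dom.isOpen.mem_nhds hp] with q hq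
    exact (hG.ext_eq h.ρ_pos hq).symm
  maps := by
    rintro p ⟨Ω, G, hG, hp⟩
    rw [hG.ext_eq h.ρ_pos hp]
    exact hG.maps hp
  eq := fun p hp => h.isExt.ext_eq h.ρ_pos hp

lemma Bd.isOpen (h : Bd ρ r f K) : IsOpen (Reg ρ r f K) := h.reg_vdom.isOpen

lemma Bd.ext_analytic (h : Bd ρ r f K) : AnalyticOnNhd ℂ (ext ρ r f K) (Reg ρ r f K) :=
  h.ext_isExt.an

lemma Bd.ext_maps (h : Bd ρ r f K) : MapsTo (ext ρ r f K) (Reg ρ r f K) K := h.ext_isExt.maps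

lemma Bd.ext_base (h : Bd ρ r f K) : EqOn (ext ρ r f K) f (Bs ρ r) := h.ext_isExt.eq

/-- maximality -/
lemma Bd.maximal (h : Bd ρ r f K) {Ω : Set (ℂ × ℂ)} {G : ℂ × ℂ → E} (hΩ : IsExt ρ r f K Ω G) :
    Ω ⊆ Reg ρ r f K ∧ EqOn G (ext ρ r f K) Ω :=
  ⟨hΩ.subset_reg, fun _ hp => (hΩ.ext_eq h.ρ_pos hp).symm⟩

/-! ### gluing -/

lemma tube_mem {x₁ y₁ y₂ : ℝ} {w₁ : ℂ} {N : Set (ℂ × ℂ)} (hN : IsOpen N)
    (hseg : ∀ y ∈ uIcc y₁ y₂, pt x₁ y w₁ ∈ N) :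
    ∃ δ > 0, ∀ x y : ℝ, ∀ w : ℂ, |x - x₁| < δ → min y₁ y₂ - δ < y → y < max y₁ y₂ + δ →
      ‖w - w₁‖ < δ → pt x y w ∈ N := by
  have hcomp : IsCompact ((fun y : ℝ => pt x₁ y w₁) '' uIcc y₁ y₂) :=
    isCompact_uIcc.image (continuous_pt_y x₁ w₁)
  have hsub : (fun y : ℝ => pt x₁ y w₁) '' uIcc y₁ y₂ ⊆ N := by
    rintro _ ⟨y, hy, rfl⟩
    exact hseg y hy
  obtain ⟨δ, hδ, hδN⟩ := hcomp.exists_thickening_subset_open hN hsub
  refine ⟨δ / 2, by positivity, fun x y w hx hy1 hy2 hw => hδN ?_⟩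
  rw [mem_thickening_iff]
  set y' := max (min y₁ y₂) (min y (max y₁ y₂)) with hy'
  have hy'mem : y' ∈ uIcc y₁ y₂ := by
    rw [uIcc, mem_Icc]
    exact ⟨le_max_left _ _, max_le (min_le_max) (min_le_right _ _)⟩
  have hyy : |y - y'| < δ / 2 := by
    rw [hy', abs_lt]
    rcases le_total y (max y₁ y₂) with h1 | h1
    · rw [min_eq_left h1]
      rcases le_total (min y₁ y₂) y with h2 | h2
      · rw [max_eq_right h2]
        constructor <;> linarith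
      · rw [max_eq_left h2]
        constructor <;> linarith
    · rw [min_eq_right h1, max_eq_right min_le_max]
      constructor <;> linarith
  refine ⟨pt x₁ y' w₁, ⟨y', hy'mem, rfl⟩, ?_⟩
  rw [Prod.dist_eq, max_lt_iff]
  constructor
  · rw [dist_eq_norm]
    have h1 : (pt x y w).1 - (pt x₁ y' w₁).1 = ((x - x₁ : ℝ) : ℂ) + ((y - y' : ℝ) : ℂ) * Complex.I := by
      unfold pt
      push_cast
      ring
    rw [h1]
    refine (norm_add_le _ _).trans_lt ?_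
    rw [norm_mul, Complex.norm_I, mul_one, Complex.norm_real, Complex.norm_real, Real.norm_eq_abs,
      Real.norm_eq_abs]
    linarith
  · rw [dist_eq_norm]
    change ‖w - w₁‖ < δ
    linarith

/-- **gluing lemma** -/
theorem Bd.glue (h : Bd ρ r f K) {x₁ y₁ y₂ : ℝ} {w₁ : ℂ} (hw : ‖w₁‖ < r)
    (h2 : pt x₁ y₂ w₁ ∈ Reg ρ r f K) {N : Set (ℂ × ℂ)} (hN : IsOpen N)
    (hseg : ∀ y ∈ uIcc y₂ y₁, pt x₁ y w₁ ∈ N) {G : ℂ × ℂ → E} (hG : AnalyticOnNhd ℂ G N)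
    (hGK : MapsTo G N K) (hGe : G =ᶠ[𝓝 (pt x₁ y₂ w₁)] ext ρ r f K) :
    pt x₁ y₁ w₁ ∈ Reg ρ r f K ∧ ext ρ r f K =ᶠ[𝓝 (pt x₁ y₁ w₁)] G := by
  -- the tube
  have hNr : IsOpen (N ∩ {p : ℂ × ℂ | ‖p.2‖ < r}) := hN.inter (isOpen_nw r)
  obtain ⟨δ₁, hδ₁, hT₁⟩ := tube_mem (x₁ := x₁) (w₁ := w₁) hNr
    (fun y hy => ⟨hseg y hy, by simpa using hw⟩)
  have hgood : ∀ᶠ p in 𝓝 (pt x₁ y₂ w₁), G =ᶠ[𝓝 p] ext ρ r f K ∧ p ∈ Reg ρ r f K :=
    hGe.eventually_nhds.and (h.isOpen.mem_nhds h2)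
  obtain ⟨δ₂, hδ₂, hT₂⟩ := tube_mem (x₁ := x₁) (y₁ := y₂) (y₂ := y₂) (w₁ := w₁)
    (N := {p | ∀ᶠ q in 𝓝 p, G =ᶠ[𝓝 q] ext ρ r f K ∧ q ∈ Reg ρ r f K})
    isOpen_setOfPred_eventually_nhds
    (fun y hy => by
      rw [uIcc_self, mem_singleton_iff] at hy
      rw [hy]
      exact hgood)
  set δ := min δ₁ δ₂ with hδ
  have hδ0 : 0 < δ := lt_min hδ₁ hδ₂
  set T : Set (ℂ × ℂ) := {p | |p.1.re - x₁| < δ ∧ min y₂ y₁ - δ < p.1.im ∧
    p.1.im < max y₂ y₁ + δ ∧ ‖p.2 - w₁‖ < δ} with hT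
  have hTo : IsOpen T := by
    have c1 : Continuous fun p : ℂ × ℂ => |p.1.re - x₁| := by fun_prop
    have c2 : Continuous fun p : ℂ × ℂ => p.1.im := by fun_prop
    have c3 : Continuous fun p : ℂ × ℂ => ‖p.2 - w₁‖ := by fun_prop
    have h1 : T = {p : ℂ × ℂ | |p.1.re - x₁| < δ} ∩ ({p : ℂ × ℂ | min y₂ y₁ - δ < p.1.im} ∩
        ({p : ℂ × ℂ | p.1.im < max y₂ y₁ + δ} ∩ {p : ℂ × ℂ | ‖p.2 - w₁‖ < δ})) := by
      ext p
      exact Iff.rfl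
    rw [h1]
    exact (isOpen_lt c1 continuous_const).inter ((isOpen_lt continuous_const c2).inter
        ((isOpen_lt c2 continuous_const).inter (isOpen_lt c3 continuous_const)))
  have hTN : T ⊆ N ∩ {p : ℂ × ℂ | ‖p.2‖ < r} := by
    rintro p ⟨a1, a2, a3, a4⟩
    have := hT₁ p.1.re p.1.im p.2 (a1.trans_le (min_le_left _ _))
      (by linarith [min_le_left δ₁ δ₂]) (by linarith [min_le_left δ₁ δ₂])
      (a4.trans_le (min_le_left _ _))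
    rwa [pt_eta] at this
  have hTmid : ∀ (x : ℝ) (w : ℂ), |x - x₁| < δ → ‖w - w₁‖ < δ →
      pt x y₂ w ∈ Reg ρ r f K ∧ G =ᶠ[𝓝 (pt x y₂ w)] ext ρ r f K ∧ pt x y₂ w ∈ T := by
    intro x w hx hw'
    have h3 := (hT₂ x y₂ w (hx.trans_le (min_le_right _ _)) (by rw [min_self]; linarith)
      (by rw [max_self]; linarith) (hw'.trans_le (min_le_right _ _))).self_of_nhds
    refine ⟨h3.2, h3.1, ?_⟩
    refine ⟨by simpa using hx, ?_, ?_, by simpa using hw'⟩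
    · rw [pt_im]
      linarith [min_le_left y₂ y₁]
    · rw [pt_im]
      linarith [le_max_left y₂ y₁]
  have hTmem : ∀ (x y : ℝ) (w : ℂ), pt x y w ∈ T ↔ |x - x₁| < δ ∧ min y₂ y₁ - δ < y ∧
      y < max y₂ y₁ + δ ∧ ‖w - w₁‖ < δ := by
    intro x y w
    rw [hT, Set.mem_ofPred_eq, pt_re, pt_im, pt_snd]
  have hTvert : ∀ (x y₃ y₄ y : ℝ) (w : ℂ), pt x y₃ w ∈ T → pt x y₄ w ∈ T → y ∈ uIcc y₃ y₄ →
      pt x y w ∈ T := by
    intro x y₃ y₄ y w h3 h4 hy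
    rw [hTmem] at h3 h4 ⊢
    rw [uIcc, mem_Icc] at hy
    refine ⟨h3.1, ?_, ?_, h3.2.2.2⟩
    · rcases min_choice y₃ y₄ with h5 | h5
      · rw [h5] at hy; linarith [hy.1, h3.2.1]
      · rw [h5] at hy; linarith [hy.1, h4.2.1]
    · rcases max_choice y₃ y₄ with h5 | h5
      · rw [h5] at hy; linarith [hy.2, h3.2.2.1]
      · rw [h5] at hy; linarith [hy.2, h4.2.2.1]
  have hV := h.reg_vdom
  -- agreement on the overlap
  have hagree : ∀ p ∈ Reg ρ r f K ∩ T, ext ρ r f K p = G p := by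
    rintro p ⟨hp1, hp2⟩
    rw [← pt_eta p] at hp1 hp2 ⊢
    have hb := (hTmem _ _ _).1 hp2
    obtain ⟨m1, m2, m3⟩ := hTmid p.1.re p.2 hb.1 hb.2.2.2
    refine eq_along (Ω := Reg ρ r f K ∩ T) (y₁ := y₂) (h.ext_analytic.mono inter_subset_left)
      (hG.mono (inter_subset_right.trans (hTN.trans inter_subset_left)))
      (fun y hy => ⟨hV.vert' m1 hp1 hy, hTvert _ _ _ _ _ m3 hp2 hy⟩) m2.symm
  -- the new domain
  classical
  set G' : ℂ × ℂ → E := fun p => if p ∈ Reg ρ r f K then ext ρ r f K p else G p with hG'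
  have hG'1 : ∀ p ∈ Reg ρ r f K, G' p = ext ρ r f K p := fun p hp => by
    simp only [hG']
    rw [if_pos hp]
  have hG'2 : ∀ p ∈ T, G' p = G p := fun p hp => by
    by_cases h3 : p ∈ Reg ρ r f K
    · rw [hG'1 p h3, hagree p ⟨h3, hp⟩]
    · simp only [hG']
      rw [if_neg h3]
  have hext : IsExt ρ r f K (Reg ρ r f K ∪ T) G' := by
    refine ⟨⟨h.isOpen.union hTo, h.base_subset.trans subset_union_left, ?_, ?_⟩, ?_, ?_, ?_⟩
    · rintro p (hp | hp)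
      · exact hV.sub p hp
      · exact (hTN hp).2
    · intro x y₃ y₄ y w h3 h4 h5 h6
      have hy : y ∈ uIcc y₃ y₄ := by
        rw [uIcc_of_le (h5.trans h6)]
        exact ⟨h5, h6⟩
      rcases h3 with h3 | h3 <;> rcases h4 with h4 | h4
      · exact Or.inl (hV.vert' h3 h4 hy)
      · have hb := (hTmem _ _ _).1 h4
        obtain ⟨m1, m2, m3⟩ := hTmid x w hb.1 hb.2.2.2
        rcases uIcc_subset_uIcc_union_uIcc (b := y₂) hy with h7 | h7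
        · exact Or.inl (hV.vert' h3 m1 h7)
        · exact Or.inr (hTvert _ _ _ _ _ m3 h4 h7)
      · have hb := (hTmem _ _ _).1 h3
        obtain ⟨m1, m2, m3⟩ := hTmid x w hb.1 hb.2.2.2
        rcases uIcc_subset_uIcc_union_uIcc (b := y₂) hy with h7 | h7
        · exact Or.inr (hTvert _ _ _ _ _ h3 m3 h7)
        · exact Or.inl (hV.vert' m1 h4 h7)
      · exact Or.inr (hTvert _ _ _ _ _ h3 h4 hy)
    · rintro p (hp | hp)
      · refine (h.ext_analytic p hp).congr ?_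
        filter_upwards [h.isOpen.mem_nhds hp] with q hq
        exact (hG'1 q hq).symm
      · refine (hG p (hTN hp).1).congr ?_
        filter_upwards [hTo.mem_nhds hp] with q hq
        exact (hG'2 q hq).symm
    · rintro p (hp | hp)
      · rw [hG'1 p hp]
        exact h.ext_maps hp
      · rw [hG'2 p hp]
        exact hGK (hTN hp).1
    · intro p hp
      rw [hG'1 p (h.base_subset hp)]
      exact h.ext_base hp
  have hp₁ : pt x₁ y₁ w₁ ∈ T := by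
    rw [hTmem]
    refine ⟨by simpa using hδ0, ?_, ?_, by simpa using hδ0⟩
    · linarith [min_le_right y₂ y₁]
    · linarith [le_max_right y₂ y₁]
  refine ⟨hext.subset_reg (Or.inr hp₁), ?_⟩
  filter_upwards [hTo.mem_nhds hp₁] with q hq
  rw [hext.ext_eq h.ρ_pos (Or.inr hq), hG'2 q hq]

end Crest.Agent.R102.VH982
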