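import Mathlib
import Crest.Agent.R102.Sheet0_982
import Crest.Agent.R102.VH_982
import Crest.Agent.R102.KontB_669
import Crest.Agent.R102.Rule2_300

/-!
Row 102 (T1-B), part I.1: the main sheets of the lines and of the labels of a family of lines
(K669's maximal vertical-star domains), permanence of the base relations.
-/

set_option autoImplicit false

open Set Filter Topology Metric
open scoped ComplexConjugate

noncomputable section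

namespace Crest.Agent.R102.Sh982

open Crest.Agent.R102.T5 Crest.Agent.R102.G576 Crest.Agent.R102.A929 Crest.Agent.R102.B821
open Crest.Agent.R102.C0 Crest.Agent.R102.C1 Crest.Agent.R102.F300 Crest.Agent.R102.Rule982
open Crest.Agent.R102.VH982 (pt pt_eta pt_snd pt_re pt_im tube_mem eq_along continuous_pt_y)
open Crest.Agent.R102.K669 (Slab Tube IsReg isReg_of_slab isOpen_isReg ext_eq
  ext_differentiableAt ext_mem ext_slab isReg_of_local isOpen_slab)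

/-! ### general facts on sheets -/

section General

variable {E : Type*} [NormedAddCommGroup E] [NormedSpace ℂ E] [CompleteSpace E]

lemma pt_mk (x y : ℝ) (w : ℂ) : pt x y w = ((⟨x, y⟩ : ℂ), w) := by
  unfold VH982.pt
  rw [Complex.mk_eq_add_mul_I]

/-- eventual equality propagates along vertical segments -/
lemma ev_along {Ω : Set (ℂ × ℂ)} (hΩ : IsOpen Ω) {f g : ℂ × ℂ → E} (hf : AnalyticOnNhd ℂ f Ω)
    (hg : AnalyticOnNhd ℂ g Ω) {x y₁ y₂ : ℝ} {w : ℂ} (hseg : ∀ y ∈ uIcc y₁ y₂, pt x y w ∈ Ω)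
    (h1 : f =ᶠ[𝓝 (pt x y₁ w)] g) : f =ᶠ[𝓝 (pt x y₂ w)] g := by
  obtain ⟨δ, hδ, hδN⟩ := tube_mem hΩ hseg
  obtain ⟨δ', hδ', hδ'N⟩ := Metric.eventually_nhds_iff_ball.1 h1.eventuallyEq_nhds
  have hc : Continuous fun q : ℂ × ℂ => pt q.1.re y₁ q.2 := by
    unfold VH982.pt
    fun_prop
  have h2 : ∀ᶠ q in 𝓝 (pt x y₂ w), pt q.1.re y₁ q.2 ∈ ball (pt x y₁ w) δ' := by
    refine (hc.tendsto (pt x y₂ w)).eventually ?_
    have : pt (pt x y₂ w).1.re y₁ (pt x y₂ w).2 = pt x y₁ w := by rw [pt_re, pt_snd]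
    rw [this]
    exact ball_mem_nhds _ hδ'
  have h3 : ∀ᶠ q in 𝓝 (pt x y₂ w), |q.1.re - x| < δ ∧ |q.1.im - y₂| < δ ∧ ‖q.2 - w‖ < δ := by
    have c1 : Continuous fun q : ℂ × ℂ => |q.1.re - x| := by fun_prop
    have c2 : Continuous fun q : ℂ × ℂ => |q.1.im - y₂| := by fun_prop
    have c3 : Continuous fun q : ℂ × ℂ => ‖q.2 - w‖ := by fun_prop
    refine (c1.tendsto _ |>.eventually (gt_mem_nhds ?_)).and
      ((c2.tendsto _ |>.eventually (gt_mem_nhds ?_)).and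
        (c3.tendsto _ |>.eventually (gt_mem_nhds ?_)))
    · simpa using hδ
    · simpa using hδ
    · simpa using hδ
  filter_upwards [h2, h3] with q hq1 hq2
  have hq3 := hδ'N _ hq1
  rw [← pt_eta q]
  refine eq_along hf hg (y₁ := y₁) ?_ hq3
  intro y hy
  have hy1 : min y₁ q.1.im ≤ y := hy.1
  have hy2 : y ≤ max y₁ q.1.im := hy.2
  have h4 := abs_lt.1 hq2.2.1
  refine hδN _ _ _ hq2.1 ?_ ?_ hq2.2.2
  · refine lt_of_lt_of_le ?_ hy1
    rcases le_total y₁ y₂ with h5 | h5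
    · rw [min_eq_left h5]
      exact lt_min (by linarith) (by linarith)
    · rw [min_eq_right h5]
      exact lt_min (by linarith) (by linarith)
  · refine lt_of_le_of_lt hy2 ?_
    rcases le_total y₁ y₂ with h5 | h5
    · rw [max_eq_right h5]
      exact max_lt (by linarith) (by linarith)
    · rw [max_eq_left h5]
      exact max_lt (by linarith) (by linarith)

/-- the main sheet above the height `y1` -/
def Sht (F : ℂ × ℂ → E) (C : Set E) (y1 y0 : ℝ) (W : Set ℂ) : Set (ℂ × ℂ) :=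
  {x | x.2 ∈ W ∧ y1 < x.1.im ∧ IsReg F C y1 y0 W x}

variable {F : ℂ × ℂ → E} {C : Set E} {y1 y0 : ℝ} {W : Set ℂ}

lemma isOpen_Sht (hW : IsOpen W) : IsOpen (Sht F C y1 y0 W) := by
  have h1 : Sht F C y1 y0 W = {x : ℂ × ℂ | x.2 ∈ W} ∩ ({x : ℂ × ℂ | y1 < x.1.im} ∩
      {x | IsReg F C y1 y0 W x}) := by
    ext x
    exact Iff.rfl
  rw [h1]
  exact (hW.preimage continuous_snd).inter ((isOpen_lt continuous_const
    (Complex.continuous_im.comp continuous_fst)).inter isOpen_isReg)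

lemma ext_an (h10 : y1 < y0) (hW : IsOpen W) :
    AnalyticOnNhd ℂ (K669.ext F C y1 y0 W) (Sht F C y1 y0 W) :=
  Crest.Agent.R266.SCV.analyticOnNhd_of_differentiableOn (isOpen_Sht hW) (fun _ hx =>
    (ext_differentiableAt h10 hx.2.2 hx.2.1).differentiableWithinAt)

lemma ext_mem' (h10 : y1 < y0) {x : ℂ × ℂ} (hx : x ∈ Sht F C y1 y0 W) :
    K669.ext F C y1 y0 W x ∈ C := ext_mem h10 hx.2.2 hx.2.1

lemma slab_sub (hW : IsOpen W) (hF : DifferentiableOn ℂ F (Slab y1 y0 W))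
    (hC : ∀ q ∈ Slab y1 y0 W, F q ∈ C) : Slab y1 y0 W ⊆ Sht F C y1 y0 W := fun _ hx =>
  ⟨hx.2.2, hx.1, isReg_of_slab hW hF hC hx.2.1 hx.2.2⟩

lemma ext_slab' (h10 : y1 < y0) (hW : IsOpen W) (hF : DifferentiableOn ℂ F (Slab y1 y0 W))
    (hC : ∀ q ∈ Slab y1 y0 W, F q ∈ C) {x : ℂ × ℂ} (hx : x ∈ Slab y1 y0 W) :
    K669.ext F C y1 y0 W x = F x :=
  ext_slab h10 (slab_sub hW hF hC hx).2.2 hx.1 hx.2.1

/-- points below a point of the sheet -/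
lemma Sht_low (hW : IsOpen W) (hF : DifferentiableOn ℂ F (Slab y1 y0 W))
    (hC : ∀ q ∈ Slab y1 y0 W, F q ∈ C) {x z : ℂ × ℂ} (hx : x ∈ Sht F C y1 y0 W)
    (h1 : z.1.re = x.1.re) (h2 : z.2 = x.2) (h3 : y1 < z.1.im)
    (h4 : z.1.im ≤ x.1.im ∨ z.1.im < y0) : z ∈ Sht F C y1 y0 W := by
  refine ⟨by rw [h2]; exact hx.1, h3, ?_⟩
  rcases h4 with h4 | h4
  · exact hx.2.2.below h1 h2 h4
  · exact isReg_of_slab hW hF hC h4 (by rw [h2]; exact hx.1)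

/-- **continuous induction on the height** -/
lemma reg_up (hW : IsOpen W) (hF : DifferentiableOn ℂ F (Slab y1 y0 W))
    (hC : ∀ q ∈ Slab y1 y0 W, F q ∈ C) {x : ℂ × ℂ} (hx : x.2 ∈ W)
    (step : ∀ y, y0 ≤ y → y ≤ x.1.im → (∀ y' < y, IsReg F C y1 y0 W (pt x.1.re y' x.2)) →
      IsReg F C y1 y0 W (pt x.1.re y x.2)) : IsReg F C y1 y0 W x := by
  by_contra hcon
  set S : Set ℝ := {y | ¬ IsReg F C y1 y0 W (pt x.1.re y x.2)} with hS
  have hxS : x.1.im ∈ S := by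
    change ¬ IsReg F C y1 y0 W (pt x.1.re x.1.im x.2)
    rwa [pt_eta]
  have hSb : ∀ y ∈ S, y0 ≤ y := by
    intro y hy
    by_contra hlt
    push Not at hlt
    exact hy (isReg_of_slab hW hF hC (by rw [pt_im]; exact hlt) (by rw [pt_snd]; exact hx))
  have hSbb : BddBelow S := ⟨y0, hSb⟩
  have hSc : IsClosed S := by
    have h1 : IsOpen {y : ℝ | IsReg F C y1 y0 W (pt x.1.re y x.2)} :=
      (isOpen_isReg (F := F) (C := C) (y1 := y1) (y0 := y0) (W := W)).preimage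
        (continuous_pt_y x.1.re x.2)
    have h2 : S = {y : ℝ | IsReg F C y1 y0 W (pt x.1.re y x.2)}ᶜ := by
      ext y
      exact Iff.rfl
    rw [h2]
    exact h1.isClosed_compl
  have hY : sInf S ∈ S := hSc.csInf_mem ⟨_, hxS⟩ hSbb
  refine hY (step _ (hSb _ hY) (csInf_le hSbb hxS) ?_)
  intro y' hy'
  by_contra h
  exact absurd (csInf_le hSbb h) (not_le.2 hy')

end General

/-! ### the main sheets of a family of lines -/

/-- `(φ, p)` as one function -/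
def Fl (φ p : ℂ × ℂ → ℂ) (x : ℂ × ℂ) : ℂ × ℂ := (φ x, p x)

/-- main sheet of the lines (above the height `-ρ/2`) -/
def SL (φ p : ℂ × ℂ → ℂ) (ρ r : ℝ) : Set (ℂ × ℂ) :=
  Sht (Fl φ p) univ (-(ρ / 2)) (ρ / 2) (ball 0 r)

/-- main sheet of the labels (above the height `-ρ/2`) -/
def SB (b : ℂ × ℂ → ℂ) (h ρ r : ℝ) : Set (ℂ × ℂ) :=
  Sht b (Sg h) (-(ρ / 2)) (ρ / 2) (ball 0 r)

/-- the extended lines -/
def LE (φ p : ℂ × ℂ → ℂ) (ρ r : ℝ) : ℂ × ℂ → ℂ × ℂ :=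
  K669.ext (Fl φ p) univ (-(ρ / 2)) (ρ / 2) (ball 0 r)

/-- the extended angle -/
def φe (φ p : ℂ × ℂ → ℂ) (ρ r : ℝ) (x : ℂ × ℂ) : ℂ := (LE φ p ρ r x).1

/-- the extended support number -/
def pe (φ p : ℂ × ℂ → ℂ) (ρ r : ℝ) (x : ℂ × ℂ) : ℂ := (LE φ p ρ r x).2

/-- the extended label -/
def be (b : ℂ × ℂ → ℂ) (h ρ r : ℝ) : ℂ × ℂ → ℂ :=
  K669.ext b (Sg h) (-(ρ / 2)) (ρ / 2) (ball 0 r)

/-- the shift by `s w / 2` -/
def sh (s : ℂ) (x : ℂ × ℂ) : ℂ × ℂ := (x.1 + s * (x.2 / 2), x.2)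

@[simp] lemma sh_snd (s : ℂ) (x : ℂ × ℂ) : (sh s x).2 = x.2 := rfl
@[simp] lemma sh_fst (s : ℂ) (x : ℂ × ℂ) : (sh s x).1 = x.1 + s * (x.2 / 2) := rfl

lemma sh_cont (s : ℂ) : Continuous (sh s) := by
  unfold sh
  fun_prop

lemma sh_an (s : ℂ) (x : ℂ × ℂ) : AnalyticAt ℂ (sh s) x := by
  unfold sh
  exact (analyticAt_fst.add (analyticAt_const.mul (analyticAt_snd.div_const))).prod analyticAt_snd

lemma sh_sh (s s' : ℂ) (x : ℂ × ℂ) : sh s (sh s' x) = sh (s + s') x := by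
  unfold sh
  refine Prod.ext ?_ rfl
  simp only
  ring

lemma sh_zero (x : ℂ × ℂ) : sh 0 x = x := by
  unfold sh
  simp

variable {q : C(ℂ, ℂ)} {η ρ r Bc : ℝ} {b φ p : ℂ × ℂ → ℂ} {m₀ : ℂ → ℂ} {h : ℝ} {ψ H : ℂ → ℂ}

/-- vertical shift by `s w / 2` -/
lemma sh_im {s : ℂ} (hs : s = 1 ∨ s = -1) {x : ℂ × ℂ} (hx : ‖x.2‖ < r) (hr : 4 * r ≤ ρ) :
    |(s * (x.2 / 2)).im| < ρ / 8 := by
  have h1 : ‖s * (x.2 / 2)‖ = ‖x.2‖ / 2 := by
    rcases hs with rfl | rfl <;> simp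
  have h2 := Complex.abs_im_le_norm (s * (x.2 / 2))
  rw [h1] at h2
  linarith

section Sheets

variable (D : Dat q η ρ r Bc b φ p m₀ h ψ H)
include D

lemma Dat.ρ_pos : 0 < ρ := D.fam.ρ_pos

lemma Dat.r_le : 4 * r ≤ ρ := D.fam.r_le

lemma Dat.h10 : -(ρ / 2) < ρ / 2 := by
  have := D.ρ_pos
  linarith

omit D in
lemma slab_PD (hρ : 0 < ρ) : Slab (-(ρ / 2)) (ρ / 2) (ball 0 r) ⊆ PD ρ r := by
  rintro x ⟨h1, h2, h3⟩
  rw [mem_ball_zero_iff] at h3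
  exact ⟨abs_lt.2 ⟨by linarith, by linarith⟩, h3⟩

lemma Dat.Fl_diff : DifferentiableOn ℂ (Fl φ p) (Slab (-(ρ / 2)) (ρ / 2) (ball 0 r)) :=
  (D.fam.φ_diff.mono (slab_PD D.ρ_pos)).prodMk (D.fam.p_diff.mono (slab_PD D.ρ_pos))

lemma Dat.b_diff : DifferentiableOn ℂ b (Slab (-(ρ / 2)) (ρ / 2) (ball 0 r)) :=
  D.fam.b_diff.mono (slab_PD D.ρ_pos)

lemma Dat.b_maps : ∀ x ∈ Slab (-(ρ / 2)) (ρ / 2) (ball (0 : ℂ) r), b x ∈ Sg h := fun _ hx =>
  D.b_mem (slab_PD D.ρ_pos hx)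

omit D in
lemma Fl_maps : ∀ x ∈ Slab (-(ρ / 2)) (ρ / 2) (ball (0 : ℂ) r), Fl φ p x ∈ (univ : Set (ℂ × ℂ)) :=
  fun _ _ => mem_univ _

omit D in
lemma isOpen_SL : IsOpen (SL φ p ρ r) := isOpen_Sht isOpen_ball

omit D in
lemma isOpen_SB : IsOpen (SB b h ρ r) := isOpen_Sht isOpen_ball

lemma Dat.LE_an : AnalyticOnNhd ℂ (LE φ p ρ r) (SL φ p ρ r) := ext_an D.h10 isOpen_ball

lemma Dat.φe_an : AnalyticOnNhd ℂ (φe φ p ρ r) (SL φ p ρ r) := fun x hx =>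
  analyticAt_fst.comp (D.LE_an x hx)

lemma Dat.pe_an : AnalyticOnNhd ℂ (pe φ p ρ r) (SL φ p ρ r) := fun x hx =>
  analyticAt_snd.comp (D.LE_an x hx)

lemma Dat.be_an : AnalyticOnNhd ℂ (be b h ρ r) (SB b h ρ r) := ext_an D.h10 isOpen_ball

lemma Dat.be_mem {x : ℂ × ℂ} (hx : x ∈ SB b h ρ r) : be b h ρ r x ∈ Sg h := ext_mem' D.h10 hx

lemma Dat.slab_SL : Slab (-(ρ / 2)) (ρ / 2) (ball 0 r) ⊆ SL φ p ρ r :=
  slab_sub isOpen_ball D.Fl_diff Fl_maps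

lemma Dat.slab_SB : Slab (-(ρ / 2)) (ρ / 2) (ball 0 r) ⊆ SB b h ρ r :=
  slab_sub isOpen_ball D.b_diff D.b_maps

lemma Dat.LE_slab {x : ℂ × ℂ} (hx : x ∈ Slab (-(ρ / 2)) (ρ / 2) (ball 0 r)) :
    LE φ p ρ r x = (φ x, p x) := ext_slab' D.h10 isOpen_ball D.Fl_diff Fl_maps hx

lemma Dat.φe_slab {x : ℂ × ℂ} (hx : x ∈ Slab (-(ρ / 2)) (ρ / 2) (ball 0 r)) :
    φe φ p ρ r x = φ x := by
  unfold φe
  rw [D.LE_slab hx]

lemma Dat.pe_slab {x : ℂ × ℂ} (hx : x ∈ Slab (-(ρ / 2)) (ρ / 2) (ball 0 r)) :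
    pe φ p ρ r x = p x := by
  unfold pe
  rw [D.LE_slab hx]

lemma Dat.be_slab {x : ℂ × ℂ} (hx : x ∈ Slab (-(ρ / 2)) (ρ / 2) (ball 0 r)) :
    be b h ρ r x = b x := ext_slab' D.h10 isOpen_ball D.b_diff D.b_maps hx

/-- points near height `0`, with their shifts, are in the slab -/
lemma Dat.near0 {s : ℂ} (hs : s = 1 ∨ s = -1 ∨ s = 0) {z : ℂ × ℂ} (h1 : ‖z.2‖ < r)
    (h2 : |z.1.im| < ρ / 4) : sh s z ∈ Slab (-(ρ / 2)) (ρ / 2) (ball (0 : ℂ) r) := by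
  have hρ := D.ρ_pos
  have h3 : |(s * (z.2 / 2)).im| < ρ / 8 := by
    rcases hs with hs | hs | hs
    · exact sh_im (Or.inl hs) h1 D.r_le
    · exact sh_im (Or.inr hs) h1 D.r_le
    · rw [hs]
      simp only [zero_mul, Complex.zero_im, abs_zero]
      linarith
  obtain ⟨h4, h5⟩ := abs_lt.1 h2
  obtain ⟨h6, h7⟩ := abs_lt.1 h3
  refine ⟨?_, ?_, ?_⟩
  · rw [sh_fst, Complex.add_im]
    linarith
  · rw [sh_fst, Complex.add_im]
    linarith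
  · rw [sh_snd, mem_ball_zero_iff]
    exact h1

/-- vertical segments down to height `0` -/
lemma Dat.seg_SL {s : ℂ} (hs : s = 1 ∨ s = -1 ∨ s = 0) {x : ℂ × ℂ} (hx : sh s x ∈ SL φ p ρ r)
    (h1 : -(3 * ρ / 8) < x.1.im) :
    ∀ y ∈ uIcc 0 x.1.im, sh s (pt x.1.re y x.2) ∈ SL φ p ρ r := by
  intro y hy
  have hρ := D.ρ_pos
  have hx2 : ‖x.2‖ < r := by
    have := hx.1
    rwa [sh_snd, mem_ball_zero_iff] at this
  have h3 : |(s * (x.2 / 2)).im| < ρ / 8 := by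
    rcases hs with hs | hs | hs
    · exact sh_im (Or.inl hs) hx2 D.r_le
    · exact sh_im (Or.inr hs) hx2 D.r_le
    · rw [hs]
      simp only [zero_mul, Complex.zero_im, abs_zero]
      linarith
  obtain ⟨h6, h7⟩ := abs_lt.1 h3
  have hy1 : min 0 x.1.im ≤ y := hy.1
  have hy2 : y ≤ max 0 x.1.im := hy.2
  have hy3 : -(3 * ρ / 8) < y := lt_of_lt_of_le (lt_min (by linarith) h1) hy1
  refine Sht_low isOpen_ball D.Fl_diff Fl_maps hx ?_ rfl ?_ ?_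
  · rw [sh_fst, sh_fst, Complex.add_re, Complex.add_re, pt_re, pt_snd]
  · rw [sh_fst, Complex.add_im, pt_im, pt_snd]
    linarith
  · rw [sh_fst, sh_fst, Complex.add_im, Complex.add_im, pt_im, pt_snd]
    rcases le_max_iff.1 hy2 with h8 | h8
    · right
      linarith
    · left
      linarith

lemma Dat.seg_SB {x : ℂ × ℂ} (hx : x ∈ SB b h ρ r) :
    ∀ y ∈ uIcc 0 x.1.im, pt x.1.re y x.2 ∈ SB b h ρ r := by
  intro y hy
  have hρ := D.ρ_pos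
  have hy1 : min 0 x.1.im ≤ y := hy.1
  have hy2 : y ≤ max 0 x.1.im := hy.2
  have h1 : -(ρ / 2) < x.1.im := hx.2.1
  have hy3 : -(ρ / 2) < y := lt_of_lt_of_le (lt_min (by linarith) h1) hy1
  refine Sht_low isOpen_ball D.b_diff D.b_maps hx ?_ rfl ?_ ?_
  · rw [pt_re]
  · rw [pt_im]
    exact hy3
  · rw [pt_im]
    rcases le_max_iff.1 hy2 with h8 | h8
    · right
      linarith
    · left
      exact h8

/-- **permanence** -/
lemma Dat.perm {F : Type*} [NormedAddCommGroup F] [NormedSpace ℂ F] [CompleteSpace F]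
    {x : ℂ × ℂ} (hx : ‖x.2‖ < r) {Ω : Set (ℂ × ℂ)} (hΩ : IsOpen Ω)
    {f g : ℂ × ℂ → F} (hf : AnalyticOnNhd ℂ f Ω) (hg : AnalyticOnNhd ℂ g Ω)
    (hseg : ∀ y ∈ uIcc 0 x.1.im, pt x.1.re y x.2 ∈ Ω)
    (h0 : ∀ z : ℂ × ℂ, ‖z.2‖ < r → |z.1.im| < ρ / 4 → f z = g z) : f =ᶠ[𝓝 x] g := by
  have hρ := D.ρ_pos
  have h1 : f =ᶠ[𝓝 (pt x.1.re 0 x.2)] g := by
    have c1 : Continuous fun q : ℂ × ℂ => |q.1.im| := by fun_prop
    have c2 : Continuous fun q : ℂ × ℂ => ‖q.2‖ := by fun_prop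
    have e1 : |(pt x.1.re 0 x.2).1.im| < ρ / 4 := by
      rw [pt_im, abs_zero]
      linarith
    have e2 : ‖(pt x.1.re 0 x.2).2‖ < r := by
      rw [pt_snd]
      exact hx
    filter_upwards [(c1.tendsto (pt x.1.re 0 x.2)).eventually (Iio_mem_nhds e1),
      (c2.tendsto (pt x.1.re 0 x.2)).eventually (Iio_mem_nhds e2)] with z hz1 hz2
    exact h0 z hz2 hz1
  have h2 := ev_along hΩ hf hg hseg h1
  rwa [pt_eta] at h2

end Sheets

end Crest.Agent.R102.Sh982
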