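import Mathlib
import Crest.Agent.R102.SheetA_982

/-!
Row 102 (T1-B), part I.2: permanence of the relations of the family of lines on the main sheets
(incidence, reflection, area form, period, parity), non-degeneracy on slices.
-/

set_option autoImplicit false

open Set Filter Topology Metric
open scoped ComplexConjugate

noncomputable section

namespace Crest.Agent.R102.Sh982

open Crest.Agent.R102.T5 Crest.Agent.R102.G576 Crest.Agent.R102.A929 Crest.Agent.R102.B821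
open Crest.Agent.R102.C0 Crest.Agent.R102.C1 Crest.Agent.R102.F300 Crest.Agent.R102.Rule982
open Crest.Agent.R102.VH982 (pt pt_eta pt_snd pt_re pt_im tube_mem eq_along continuous_pt_y)
open Crest.Agent.R102.K669 (Slab Tube IsReg isReg_of_slab isOpen_isReg ext_eq
  ext_differentiableAt ext_mem ext_slab isReg_of_local isOpen_slab mem_tube_self isReg_of_tube)

/-! ### symmetries of a sheet -/

section Sym

variable {E : Type*} [NormedAddCommGroup E] [NormedSpace ℂ E] [CompleteSpace E]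
variable {F : ℂ × ℂ → E} {C : Set E} {y1 y0 : ℝ} {W : Set ℂ}

/-- symmetry `(t, w) ↦ (t + σ, κ w)`, `F ↦ F + c` -/
lemma sym_gen (h10 : y1 < y0) {σ κ : ℂ} {c : E} (hσ : σ.im = 0) (hκ : κ * κ = 1)
    (hκn : ‖κ‖ = 1) (hC : ∀ v ∈ C, v + c ∈ C) (hW : ∀ w ∈ W, κ * w ∈ W)
    (hF : ∀ z ∈ Slab y1 y0 W, F (z.1 + σ, κ * z.2) = F z + c) {x : ℂ × ℂ}
    (hx : IsReg F C y1 y0 W x) : IsReg F C y1 y0 W (x.1 + σ, κ * x.2) ∧
      (y1 < x.1.im → K669.ext F C y1 y0 W (x.1 + σ, κ * x.2) = K669.ext F C y1 y0 W x + c) := by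
  obtain ⟨ε, hε, hεW, G, hG, hGC, hGF⟩ := hx
  have hκκ : ∀ w : ℂ, κ * (κ * w) = w := fun w => by rw [← mul_assoc, hκ, one_mul]
  have hmap : ∀ z ∈ Tube y1 ((x.1 + σ, κ * x.2) : ℂ × ℂ) ε,
      ((z.1 - σ, κ * z.2) : ℂ × ℂ) ∈ Tube y1 x ε := by
    rintro z ⟨a1, a2, a3, a4⟩
    refine ⟨?_, ?_, ?_, ?_⟩
    · simp only [Complex.add_re, Complex.sub_re] at a1 ⊢
      have : z.1.re - σ.re - x.1.re = z.1.re - (x.1.re + σ.re) := by ring
      rw [this]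
      exact a1
    · simp only [Complex.sub_im, hσ, sub_zero]
      exact a2
    · simp only [Complex.sub_im, Complex.add_im, hσ, sub_zero, add_zero] at a3 ⊢
      exact a3
    · simp only at a4 ⊢
      have : κ * z.2 - x.2 = κ * (z.2 - κ * x.2) := by rw [mul_sub, hκκ]
      rw [this, norm_mul, hκn, one_mul]
      exact a4
  have hballW : ball (κ * x.2) ε ⊆ W := by
    intro w hw
    have h1 : κ * w ∈ ball x.2 ε := by
      rw [mem_ball, dist_eq_norm] at hw ⊢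
      have : κ * w - x.2 = κ * (w - κ * x.2) := by rw [mul_sub, hκκ]
      rw [this, norm_mul, hκn, one_mul]
      exact hw
    have h2 := hW _ (hεW h1)
    rwa [hκκ] at h2
  set G' : ℂ × ℂ → E := fun z => G (z.1 - σ, κ * z.2) + c with hG'
  have hG'd : DifferentiableOn ℂ G' (Tube y1 ((x.1 + σ, κ * x.2) : ℂ × ℂ) ε) := by
    refine DifferentiableOn.add_const c (hG.comp (f := fun z : ℂ × ℂ => (z.1 - σ, κ * z.2)) ?_ hmap)
    fun_prop
  have hG'C : ∀ z ∈ Tube y1 ((x.1 + σ, κ * x.2) : ℂ × ℂ) ε, G' z ∈ C := fun z hz =>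
    hC _ (hGC _ (hmap z hz))
  have hG'F : ∀ z ∈ Tube y1 ((x.1 + σ, κ * x.2) : ℂ × ℂ) ε, z.1.im < y0 → G' z = F z := by
    intro z hz hz0
    have h1 := hmap z hz
    have h2 : ((z.1 - σ, κ * z.2) : ℂ × ℂ).1.im < y0 := by
      simp only [Complex.sub_im, hσ, sub_zero]
      exact hz0
    have h3 : ((z.1 - σ, κ * z.2) : ℂ × ℂ) ∈ Slab y1 y0 W := by
      refine ⟨h1.2.1, h2, hεW ?_⟩
      rw [mem_ball, dist_eq_norm]
      exact h1.2.2.2
    have h4 := hF _ h3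
    simp only [hG']
    rw [hGF _ h1 h2, ← h4]
    simp only [sub_add_cancel, hκκ]
  refine ⟨⟨ε, hε, hballW, G', hG'd, hG'C, hG'F⟩, fun hy => ?_⟩
  have hy' : y1 < (x.1 + σ).im := by
    rw [Complex.add_im, hσ, add_zero]
    exact hy
  rw [ext_eq h10 hballW hG'd hG'C hG'F (mem_tube_self (p := ((x.1 + σ, κ * x.2) : ℂ × ℂ)) hy' hε),
    ext_eq h10 hεW hG hGC hGF (mem_tube_self hy hε)]
  simp only [hG', add_sub_cancel_right, hκκ]

end Sym

/-- if `f ≠ 0` somewhere on a vertical segment in the domain of analyticity then `f ≢ 0` on the slice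
near every point of it -/
lemma freq_ne {Ω : Set (ℂ × ℂ)} {f : ℂ × ℂ → ℂ} (hf : AnalyticOnNhd ℂ f Ω) {x y₁ y₂ : ℝ} {w : ℂ}
    (hseg : ∀ y ∈ uIcc y₁ y₂, pt x y w ∈ Ω) (h1 : f (pt x y₁ w) ≠ 0) :
    ∃ᶠ t in 𝓝 (pt x y₂ w).1, f (t, w) ≠ 0 := by
  by_contra hcon
  have hcon' : ∀ᶠ t in 𝓝 (pt x y₂ w).1, f (t, w) = 0 := by
    have := not_frequently.1 hcon
    filter_upwards [this] with t ht
    by_contra h2
    exact ht h2
  refine h1 ?_
  have hc : Continuous fun y : ℝ => (pt x y w).1 := continuous_fst.comp (continuous_pt_y x w)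
  have hpc : IsPreconnected ((fun y : ℝ => (pt x y w).1) '' uIcc y₁ y₂) :=
    isPreconnected_uIcc.image _ hc.continuousOn
  have hg : AnalyticOnNhd ℂ (fun t => f (t, w)) ((fun y : ℝ => (pt x y w).1) '' uIcc y₁ y₂) := by
    rintro _ ⟨y, hy, rfl⟩
    have h2 : AnalyticAt ℂ (fun t : ℂ => ((t, w) : ℂ × ℂ)) (pt x y w).1 :=
      analyticAt_id.prod analyticAt_const
    exact AnalyticAt.comp (g := f) (f := fun t : ℂ => ((t, w) : ℂ × ℂ)) (hf _ (hseg y hy)) h2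
  have h3 := hg.eqOn_zero_of_preconnected_of_eventuallyEq_zero hpc ⟨y₂, right_mem_uIcc, rfl⟩ hcon'
  exact h3 ⟨y₁, left_mem_uIcc, rfl⟩

variable {q : C(ℂ, ℂ)} {η ρ r Bc : ℝ} {b φ p : ℂ × ℂ → ℂ} {m₀ : ℂ → ℂ} {h : ℝ} {ψ H : ℂ → ℂ}

lemma an_cos {f : ℂ × ℂ → ℂ} {x : ℂ × ℂ} (hf : AnalyticAt ℂ f x) :
    AnalyticAt ℂ (fun z => Complex.cos (f z)) x :=
  AnalyticAt.comp (g := Complex.cos) (f := f) (Complex.differentiable_cos.analyticAt _) hf

lemma an_sin {f : ℂ × ℂ → ℂ} {x : ℂ × ℂ} (hf : AnalyticAt ℂ f x) :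
    AnalyticAt ℂ (fun z => Complex.sin (f z)) x :=
  AnalyticAt.comp (g := Complex.sin) (f := f) (Complex.differentiable_sin.analyticAt _) hf

section Relations

variable (D : Dat q η ρ r Bc b φ p m₀ h ψ H)
include D

lemma Dat.an_lab {f : ℂ → ℂ} (hf : DifferentiableOn ℂ f (Sg h)) {x : ℂ × ℂ}
    (hx : x ∈ SB b h ρ r) : AnalyticAt ℂ (fun z => f (be b h ρ r z)) x :=
  analyticAt_comp_label (isOpen_Sg h) hf (D.be_an x hx) (D.be_mem hx)

lemma Dat.an_φs {s : ℂ} {x : ℂ × ℂ} (hx : sh s x ∈ SL φ p ρ r) :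
    AnalyticAt ℂ (fun z => φe φ p ρ r (sh s z)) x :=
  AnalyticAt.comp (g := φe φ p ρ r) (f := sh s) (D.φe_an _ hx) (sh_an s x)

lemma Dat.an_ps {s : ℂ} {x : ℂ × ℂ} (hx : sh s x ∈ SL φ p ρ r) :
    AnalyticAt ℂ (fun z => pe φ p ρ r (sh s z)) x :=
  AnalyticAt.comp (g := pe φ p ρ r) (f := sh s) (D.pe_an _ hx) (sh_an s x)

omit D in
lemma isOpen_pre (s : ℂ) : IsOpen (sh s ⁻¹' SL φ p ρ r) := isOpen_SL.preimage (sh_cont s)

/-- **incidence** on the main sheets -/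
theorem Dat.inc_ev {s : ℂ} (hs : s = 1 ∨ s = -1) {x : ℂ × ℂ} (hx : x ∈ SB b h ρ r)
    (hx' : sh s x ∈ SL φ p ρ r) (h1 : -(3 * ρ / 8) < x.1.im) :
    ∀ᶠ z in 𝓝 x, Inc ψ H (φe φ p ρ r (sh s z)) (pe φ p ρ r (sh s z)) (be b h ρ r z) := by
  have hSo := isOpen_Sg h
  have hψ' := D.ψ_diff.deriv hSo
  have hH' := D.H_diff.deriv hSo
  have hs' : s = 1 ∨ s = -1 ∨ s = 0 := by tauto
  refine D.perm (x := x) (Ω := SB b h ρ r ∩ sh s ⁻¹' SL φ p ρ r)
    (by simpa using hx.1) (isOpen_SB.inter (isOpen_pre s))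
    (f := fun z => deriv ψ (be b h ρ r z) * pe φ p ρ r (sh s z))
    (g := fun z => deriv ψ (be b h ρ r z) * H (be b h ρ r z) *
      Complex.cos (φe φ p ρ r (sh s z) - ψ (be b h ρ r z)) + deriv H (be b h ρ r z) *
      Complex.sin (φe φ p ρ r (sh s z) - ψ (be b h ρ r z))) ?_ ?_ ?_ ?_
  · rintro z ⟨hz1, hz2⟩
    exact (D.an_lab hψ' hz1).mul (D.an_ps hz2)
  · rintro z ⟨hz1, hz2⟩
    have e1 := (D.an_φs hz2).fun_sub (D.an_lab D.ψ_diff hz1)
    exact (((D.an_lab hψ' hz1).mul (D.an_lab D.H_diff hz1)).mul (an_cos e1)).add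
      ((D.an_lab hH' hz1).mul (an_sin e1))
  · intro y hy
    exact ⟨D.seg_SB hx y hy, D.seg_SL hs' hx' h1 y hy⟩
  · intro z hz1 hz2
    have m0 := D.near0 (s := 0) (by tauto) hz1 hz2
    rw [sh_zero] at m0
    have m1 := D.near0 hs' hz1 hz2
    rw [D.be_slab m0, D.φe_slab m1, D.pe_slab m1]
    exact D.base_inc hs (slab_PD D.ρ_pos m0) (slab_PD D.ρ_pos m1)

omit D in
lemma neg_pm {s : ℂ} (hs : s = 1 ∨ s = -1) : -s = 1 ∨ -s = -1 := by
  rcases hs with rfl | rfl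
  · exact Or.inr rfl
  · exact Or.inl (neg_neg 1)

omit D in
lemma sh_neg (s : ℂ) (x : ℂ × ℂ) : sh (-s) x = (x.1 - s * (x.2 / 2), x.2) := by
  unfold sh
  rw [neg_mul, ← sub_eq_add_neg]

/-- **law of reflection** on the main sheets -/
theorem Dat.refl_ev {s : ℂ} (hs : s = 1 ∨ s = -1) {x : ℂ × ℂ} (hx : x ∈ SB b h ρ r)
    (hx' : sh s x ∈ SL φ p ρ r) (hx'' : sh (-s) x ∈ SL φ p ρ r) (h1 : -(3 * ρ / 8) < x.1.im) :
    ∀ᶠ z in 𝓝 x, φe φ p ρ r (sh (-s) z) + φe φ p ρ r (sh s z) = 2 * ψ (be b h ρ r z) := by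
  have hs' : s = 1 ∨ s = -1 ∨ s = 0 := by tauto
  have hn := neg_pm hs
  have hn' : -s = 1 ∨ -s = -1 ∨ -s = 0 := by tauto
  refine D.perm (x := x)
    (Ω := SB b h ρ r ∩ (sh s ⁻¹' SL φ p ρ r ∩ sh (-s) ⁻¹' SL φ p ρ r))
    (by simpa using hx.1) (isOpen_SB.inter ((isOpen_pre s).inter (isOpen_pre (-s))))
    (f := fun z => φe φ p ρ r (sh (-s) z) + φe φ p ρ r (sh s z))
    (g := fun z => 2 * ψ (be b h ρ r z)) ?_ ?_ ?_ ?_
  · rintro z ⟨hz1, hz2, hz3⟩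
    exact (D.an_φs hz3).add (D.an_φs hz2)
  · rintro z ⟨hz1, hz2, hz3⟩
    exact analyticAt_const.mul (D.an_lab D.ψ_diff hz1)
  · intro y hy
    exact ⟨D.seg_SB hx y hy, D.seg_SL hs' hx' h1 y hy, D.seg_SL hn' hx'' h1 y hy⟩
  · intro z hz1 hz2
    have m0 := D.near0 (s := 0) (by tauto) hz1 hz2
    rw [sh_zero] at m0
    have m1 := D.near0 hs' hz1 hz2
    have m2 := D.near0 hn' hz1 hz2
    rw [D.be_slab m0, D.φe_slab m1, D.φe_slab m2]
    rw [sh_neg] at m2 ⊢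
    exact D.base_refl hs (slab_PD D.ρ_pos m0) (slab_PD D.ρ_pos m1) (slab_PD D.ρ_pos m2)

/-- `p₋ + p₊ = 2 H(b) cos (φ₋ - ψ(b))` on the main sheets -/
theorem Dat.sum_ev {s : ℂ} (hs : s = 1 ∨ s = -1) {x : ℂ × ℂ} (hx : x ∈ SB b h ρ r)
    (hx' : sh s x ∈ SL φ p ρ r) (hx'' : sh (-s) x ∈ SL φ p ρ r) (h1 : -(3 * ρ / 8) < x.1.im) :
    ∀ᶠ z in 𝓝 x, pe φ p ρ r (sh (-s) z) + pe φ p ρ r (sh s z) = 2 * H (be b h ρ r z) *
      Complex.cos (φe φ p ρ r (sh (-s) z) - ψ (be b h ρ r z)) := by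
  have hs' : s = 1 ∨ s = -1 ∨ s = 0 := by tauto
  have hn := neg_pm hs
  have hn' : -s = 1 ∨ -s = -1 ∨ -s = 0 := by tauto
  refine D.perm (x := x)
    (Ω := SB b h ρ r ∩ (sh s ⁻¹' SL φ p ρ r ∩ sh (-s) ⁻¹' SL φ p ρ r))
    (by simpa using hx.1) (isOpen_SB.inter ((isOpen_pre s).inter (isOpen_pre (-s))))
    (f := fun z => pe φ p ρ r (sh (-s) z) + pe φ p ρ r (sh s z))
    (g := fun z => 2 * H (be b h ρ r z) *
      Complex.cos (φe φ p ρ r (sh (-s) z) - ψ (be b h ρ r z))) ?_ ?_ ?_ ?_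
  · rintro z ⟨hz1, hz2, hz3⟩
    exact (D.an_ps hz3).add (D.an_ps hz2)
  · rintro z ⟨hz1, hz2, hz3⟩
    have e1 := (D.an_φs hz3).fun_sub (D.an_lab D.ψ_diff hz1)
    exact (analyticAt_const.mul (D.an_lab D.H_diff hz1)).mul (an_cos e1)
  · intro y hy
    exact ⟨D.seg_SB hx y hy, D.seg_SL hs' hx' h1 y hy, D.seg_SL hn' hx'' h1 y hy⟩
  · intro z hz1 hz2
    have m0 := D.near0 (s := 0) (by tauto) hz1 hz2
    rw [sh_zero] at m0
    have m1 := D.near0 hs' hz1 hz2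
    have m2 := D.near0 hn' hz1 hz2
    rw [D.be_slab m0, D.pe_slab m1, D.pe_slab m2, D.φe_slab m2]
    rw [sh_neg] at m2 ⊢
    exact D.base_sum hs (slab_PD D.ρ_pos m0) (slab_PD D.ρ_pos m1) (slab_PD D.ρ_pos m2)

/-- vertical segments in the sheet of lines -/
lemma Dat.seg_SL0 {x : ℂ × ℂ} (hx : x ∈ SL φ p ρ r) :
    ∀ y ∈ uIcc 0 x.1.im, pt x.1.re y x.2 ∈ SL φ p ρ r := by
  intro y hy
  have hρ := D.ρ_pos
  have hy1 : min 0 x.1.im ≤ y := hy.1
  have hy2 : y ≤ max 0 x.1.im := hy.2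
  have h1 : -(ρ / 2) < x.1.im := hx.2.1
  have hy3 : -(ρ / 2) < y := lt_of_lt_of_le (lt_min (by linarith) h1) hy1
  refine Sht_low isOpen_ball D.Fl_diff Fl_maps hx ?_ rfl ?_ ?_
  · rw [pt_re]
  · rw [pt_im]
    exact hy3
  · rw [pt_im]
    rcases le_max_iff.1 hy2 with h8 | h8
    · right
      linarith
    · left
      exact h8

omit D in
lemma an_q1 {f : ℂ × ℂ → ℂ} {x : ℂ × ℂ} (hf : AnalyticAt ℂ f x) : AnalyticAt ℂ (q1 f) x := by
  have h1 := (ContinuousLinearMap.apply ℂ ℂ ((1, 0) : ℂ × ℂ)).analyticAt (fderiv ℂ f x)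
  exact AnalyticAt.comp (g := fun L : ℂ × ℂ →L[ℂ] ℂ => L (1, 0)) (f := fderiv ℂ f) h1 hf.fderiv

omit D in
lemma an_q2 {f : ℂ × ℂ → ℂ} {x : ℂ × ℂ} (hf : AnalyticAt ℂ f x) : AnalyticAt ℂ (q2 f) x := by
  have h1 := (ContinuousLinearMap.apply ℂ ℂ ((0, 1) : ℂ × ℂ)).analyticAt (fderiv ℂ f x)
  exact AnalyticAt.comp (g := fun L : ℂ × ℂ →L[ℂ] ℂ => L (0, 1)) (f := fderiv ℂ f) h1 hf.fderiv

lemma Dat.m_diff : DifferentiableOn ℂ m₀ (ball 0 r) := D.fam.m_diff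

/-- **area form** on the sheet of lines -/
theorem Dat.area_ev {x : ℂ × ℂ} (hx : x ∈ SL φ p ρ r) :
    ∀ᶠ z in 𝓝 x, q1 (φe φ p ρ r) z * q2 (pe φ p ρ r) z - q2 (φe φ p ρ r) z * q1 (pe φ p ρ r) z =
      z.2 / 4 * m₀ z.2 := by
  refine D.perm (x := x) (Ω := SL φ p ρ r)
    (by simpa using hx.1) isOpen_SL
    (f := fun z => q1 (φe φ p ρ r) z * q2 (pe φ p ρ r) z -
      q2 (φe φ p ρ r) z * q1 (pe φ p ρ r) z)
    (g := fun z => z.2 / 4 * m₀ z.2) ?_ ?_ ?_ ?_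
  · intro z hz
    exact ((an_q1 (D.φe_an z hz)).mul (an_q2 (D.pe_an z hz))).sub
      ((an_q2 (D.φe_an z hz)).mul (an_q1 (D.pe_an z hz)))
  · intro z hz
    have h2 : AnalyticAt ℂ m₀ z.2 := D.m_diff.analyticAt (isOpen_ball.mem_nhds hz.1)
    exact (analyticAt_snd.div_const).mul
      (AnalyticAt.comp (g := m₀) (f := fun z : ℂ × ℂ => z.2) h2 analyticAt_snd)
  · exact D.seg_SL0 hx
  · intro z hz1 hz2
    have m0 := D.near0 (s := 0) (by tauto) hz1 hz2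
    rw [sh_zero] at m0
    have e1 : φe φ p ρ r =ᶠ[𝓝 z] φ := by
      filter_upwards [(isOpen_slab isOpen_ball).mem_nhds m0] with y hy
      exact D.φe_slab hy
    have e2 : pe φ p ρ r =ᶠ[𝓝 z] p := by
      filter_upwards [(isOpen_slab isOpen_ball).mem_nhds m0] with y hy
      exact D.pe_slab hy
    unfold B821.q1 B821.q2
    rw [e1.fderiv_eq, e2.fderiv_eq]
    exact D.fam.area z.1 z.2 (slab_PD D.ρ_pos m0)

/-- the area form does not vanish for `w ≠ 0` -/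
theorem Dat.area_ne {x : ℂ × ℂ} (hx : x ∈ SL φ p ρ r) (hw : x.2 ≠ 0) :
    q1 (φe φ p ρ r) x * q2 (pe φ p ρ r) x - q2 (φe φ p ρ r) x * q1 (pe φ p ρ r) x ≠ 0 := by
  rw [(D.area_ev hx).self_of_nhds]
  have h1 : ‖m₀ x.2 - 1‖ ≤ 1 / 8 := D.fam.m_near _ (by simpa using hx.1)
  have h2 : m₀ x.2 ≠ 0 := by
    intro h0
    rw [h0] at h1
    norm_num at h1
  exact mul_ne_zero (div_ne_zero hw (by norm_num)) h2

/-- periodicity and parity of the sheet of lines -/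
theorem Dat.per_SL {σ : ℝ} (hσ : σ = 1 ∨ σ = -1) {κ : ℂ} (hκ : κ = 1 ∨ κ = -1) {x : ℂ × ℂ}
    (hx : x ∈ SL φ p ρ r) : ((x.1 + σ, κ * x.2) : ℂ × ℂ) ∈ SL φ p ρ r ∧
      φe φ p ρ r (x.1 + σ, κ * x.2) = φe φ p ρ r x + σ * (2 * Real.pi) ∧
      pe φ p ρ r (x.1 + σ, κ * x.2) = pe φ p ρ r x := by
  have hκκ : κ * κ = 1 := by rcases hκ with rfl | rfl <;> norm_num
  have hκn : ‖κ‖ = 1 := by rcases hκ with rfl | rfl <;> simp
  have hF : ∀ z ∈ Slab (-(ρ / 2)) (ρ / 2) (ball (0 : ℂ) r), Fl φ p (z.1 + (σ : ℂ), κ * z.2) =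
      Fl φ p z + ((σ : ℂ) * (2 * Real.pi), 0) := by
    intro z hz
    have hz' : ((z.1 + (σ : ℂ), z.2) : ℂ × ℂ) ∈ PD ρ r := by
      have := slab_PD D.ρ_pos hz
      refine ⟨?_, this.2⟩
      simp only [Complex.add_im, Complex.ofReal_im, add_zero]
      exact this.1
    have e1 : Fl φ p (z.1 + (σ : ℂ), κ * z.2) = Fl φ p (z.1 + (σ : ℂ), z.2) := by
      rcases hκ with rfl | rfl
      · rw [one_mul]
      · unfold Fl
        rw [neg_one_mul, D.fam.φ_even _ _ hz', D.fam.p_even _ _ hz']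
    rw [e1]
    unfold Fl
    rcases hσ with rfl | rfl
    · have hz0 : ((z.1, z.2) : ℂ × ℂ) ∈ PD ρ r := slab_PD D.ρ_pos hz
      have e2 := D.fam.φ_per z.1 z.2 hz0
      have e3 := D.fam.p_per z.1 z.2 hz0
      refine Prod.ext ?_ ?_
      · simp only [Complex.ofReal_one, Prod.fst_add, one_mul]
        exact e2
      · simp only [Complex.ofReal_one, Prod.snd_add, add_zero]
        exact e3
    · have e2 := D.fam.φ_per _ _ hz'
      have e3 := D.fam.p_per _ _ hz'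
      have e4 : z.1 + ((-1 : ℝ) : ℂ) + 1 = z.1 := by
        push_cast
        ring
      rw [e4] at e2 e3
      refine Prod.ext ?_ ?_
      · simp only [Prod.fst_add]
        have : φ z = φ (z.1, z.2) := rfl
        rw [this, e2]
        push_cast
        ring
      · simp only [Prod.snd_add, add_zero]
        have : p z = p (z.1, z.2) := rfl
        rw [this, e3]
  obtain ⟨h1, h2⟩ := sym_gen (F := Fl φ p) (C := univ) D.h10 (σ := (σ : ℂ)) (κ := κ)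
    (c := (((σ : ℂ) * (2 * Real.pi), 0) : ℂ × ℂ)) (Complex.ofReal_im σ) hκκ hκn
    (fun _ _ => mem_univ _) (fun w hw => by
      rw [mem_ball_zero_iff] at hw ⊢
      rw [norm_mul, hκn, one_mul]
      exact hw) hF hx.2.2
  have h3 := h2 hx.2.1
  refine ⟨⟨?_, ?_, h1⟩, ?_, ?_⟩
  · have := hx.1
    rw [mem_ball_zero_iff] at this ⊢
    rw [norm_mul, hκn, one_mul]
    exact this
  · simp only [Complex.add_im, Complex.ofReal_im, add_zero]
    exact hx.2.1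
  · have := congrArg Prod.fst h3
    simpa [φe, LE] using this
  · have := congrArg Prod.snd h3
    simpa [pe, LE] using this

/-- periodicity and parity of the sheet of labels -/
theorem Dat.per_SB {σ : ℝ} (hσ : σ = 1 ∨ σ = -1) {κ : ℂ} (hκ : κ = 1 ∨ κ = -1) {x : ℂ × ℂ}
    (hx : x ∈ SB b h ρ r) : ((x.1 + σ, κ * x.2) : ℂ × ℂ) ∈ SB b h ρ r ∧
      be b h ρ r (x.1 + σ, κ * x.2) = be b h ρ r x + σ := by
  have hκκ : κ * κ = 1 := by rcases hκ with rfl | rfl <;> norm_num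
  have hκn : ‖κ‖ = 1 := by rcases hκ with rfl | rfl <;> simp
  have hF : ∀ z ∈ Slab (-(ρ / 2)) (ρ / 2) (ball (0 : ℂ) r), b (z.1 + (σ : ℂ), κ * z.2) =
      b z + (σ : ℂ) := by
    intro z hz
    have hz' : ((z.1 + (σ : ℂ), z.2) : ℂ × ℂ) ∈ PD ρ r := by
      have := slab_PD D.ρ_pos hz
      refine ⟨?_, this.2⟩
      simp only [Complex.add_im, Complex.ofReal_im, add_zero]
      exact this.1
    have e1 : b (z.1 + (σ : ℂ), κ * z.2) = b (z.1 + (σ : ℂ), z.2) := by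
      rcases hκ with rfl | rfl
      · rw [one_mul]
      · rw [neg_one_mul, D.fam.b_even _ _ hz']
    rw [e1]
    rcases hσ with rfl | rfl
    · have hz0 : ((z.1, z.2) : ℂ × ℂ) ∈ PD ρ r := slab_PD D.ρ_pos hz
      have e2 := D.fam.b_per z.1 z.2 hz0
      rw [Complex.ofReal_one]
      exact e2
    · have e2 := D.fam.b_per _ _ hz'
      have e4 : z.1 + ((-1 : ℝ) : ℂ) + 1 = z.1 := by
        push_cast
        ring
      rw [e4] at e2
      have : b z = b (z.1, z.2) := rfl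
      rw [this, e2]
      push_cast
      ring
  obtain ⟨h1, h2⟩ := sym_gen (F := b) (C := Sg h) D.h10 (σ := (σ : ℂ)) (κ := κ)
    (c := (σ : ℂ)) (Complex.ofReal_im σ) hκκ hκn
    (fun v hv => by
      change |(v + (σ : ℂ)).im| < h
      rw [Complex.add_im, Complex.ofReal_im, add_zero]
      exact hv) (fun w hw => by
      rw [mem_ball_zero_iff] at hw ⊢
      rw [norm_mul, hκn, one_mul]
      exact hw) hF hx.2.2
  have h3 := h2 hx.2.1
  refine ⟨⟨?_, ?_, h1⟩, h3⟩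
  · have := hx.1
    rw [mem_ball_zero_iff] at this ⊢
    rw [norm_mul, hκn, one_mul]
    exact this
  · simp only [Complex.add_im, Complex.ofReal_im, add_zero]
    exact hx.2.1

end Relations

end Crest.Agent.R102.Sh982
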