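import Mathlib
import Crest.Agent.R102.SheetB_982

/-!
Row 102 (T1-B), part I.3: the RULE of the main sheets.
* lines from vertex + the other line (`Dat.rule_line`),
* vertex from both lines (`Dat.rule_vertex`, uses the natural boundary `NB`).
`rule3` is helper300's `rule2'` with weaker hypotheses (same proof).
-/

set_option autoImplicit false

open Set Filter Topology Metric
open scoped ComplexConjugate

noncomputable section

namespace Crest.Agent.R102.Sh982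

open Crest.Agent.R102.T5 Crest.Agent.R102.G576 Crest.Agent.R102.A929 Crest.Agent.R102.B821
open Crest.Agent.R102.C0 Crest.Agent.R102.C1 Crest.Agent.R102.F300 Crest.Agent.R102.Rule982
open Crest.Agent.R102.VH982 (pt pt_eta pt_snd pt_re pt_im tube_mem eq_along continuous_pt_y)
open Crest.Agent.R102.K669 (Slab Tube IsReg isReg_of_slab isOpen_isReg ext_eq
  ext_differentiableAt ext_mem ext_slab isReg_of_local isOpen_slab mem_tube_self isReg_of_tube)

/-- helper300's `rule2'` with weaker non-degeneracy hypotheses -/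
theorem rule3 {h : ℝ} {ψ H : ℂ → ℂ} (hψ : DifferentiableOn ℂ ψ (Sg h))
    (hH : DifferentiableOn ℂ H (Sg h)) {c : ℂ} (hc : c ≠ 0)
    (rel : ∀ z ∈ Sg h, deriv ψ z * deriv (deriv H) z - deriv (deriv ψ) z * deriv H z +
      deriv ψ z ^ 3 * H z = c)
    (hψper : ∀ z ∈ Sg h, ψ (z + 1) = ψ z + 2 * Real.pi) (hNB : NB h ψ H)
    {D : Set (ℂ × ℂ)} (hD : IsOpen D) {B Ψ N Dn : ℂ × ℂ → ℂ} (hB : DifferentiableOn ℂ B D)
    (hBS : ∀ y ∈ D, B y ∈ Sg h)
    {t1 w1 : ℂ} (hΨ : AnalyticAt ℂ Ψ (t1, w1)) (hN : AnalyticAt ℂ N (t1, w1))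
    (hDn : AnalyticAt ℂ Dn (t1, w1)) (hDnf : ∃ᶠ t in 𝓝 t1, Dn (t, w1) ≠ 0)
    (hDb : ∀ z ∈ Sg h, ∀ u : ℕ → ℂ × ℂ, (∀ n, u n ∈ D) → Tendsto u atTop (𝓝 (t1, w1)) →
      Tendsto (fun n => B (u n)) atTop (𝓝 z) → deriv ψ z = 0 → Dn (t1, w1) ≠ 0)
    (h1 : ∀ᶠ y in 𝓝 (t1, w1), y ∈ D → ψ (B y) = Ψ y)
    (h2 : ∀ᶠ y in 𝓝 (t1, w1), y ∈ D → Dn y * H (B y) = N y)
    {r0 : ℝ} (hr0 : 0 < r0) (hseg : ∀ s : ℝ, 0 < s → s < r0 → (t1 - s * Complex.I, w1) ∈ D)
    (hnc : ∀ s : ℝ, 0 < s → s < r0 →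
      ∃ᶠ t in 𝓝 (t1 - s * Complex.I), deriv (fun t => B (t, w1)) t ≠ 0) :
    ∃ G : ℂ × ℂ → ℂ, AnalyticAt ℂ G (t1, w1) ∧ G (t1, w1) ∈ Sg h ∧
      ∀ᶠ s : ℝ in 𝓝[>] 0, G =ᶠ[𝓝 (t1 - s * Complex.I, w1)] B := by
  -- slices
  have hsl : ∀ F : ℂ × ℂ → ℂ, ∀ t : ℂ, AnalyticAt ℂ F (t, w1) →
      AnalyticAt ℂ (fun t => F (t, w1)) t := by
    intro F t hF
    have h3 : AnalyticAt ℂ (fun t : ℂ => ((t, w1) : ℂ × ℂ)) t := analyticAt_id.prod analyticAt_const
    exact AnalyticAt.comp (g := F) (f := fun t : ℂ => ((t, w1) : ℂ × ℂ)) hF h3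
  have hslc : Tendsto (fun t : ℂ => ((t, w1) : ℂ × ℂ)) (𝓝 t1) (𝓝 (t1, w1)) :=
    (Continuous.prodMk continuous_id continuous_const).tendsto t1
  obtain ⟨ε, hε, hball⟩ := Metric.eventually_nhds_iff_ball.1 (hslc.eventually
    (hΨ.eventually_analyticAt.and (hN.eventually_analyticAt.and
      (hDn.eventually_analyticAt.and (h1.eventually_nhds.and h2.eventually_nhds)))))
  set s0 : ℝ := min r0 ε / 2 with hs0
  have hs0p : 0 < s0 := by positivity
  have hs0r : s0 < r0 := by have := min_le_left r0 ε; rw [hs0]; linarith [lt_min hr0 hε]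
  have hs0ε : s0 < ε := by have := min_le_right r0 ε; rw [hs0]; linarith [lt_min hr0 hε]
  have hmem : ∀ s : ℝ, 0 < s → s < ε → t1 - s * Complex.I ∈ ball t1 ε := by
    intro s hs hsε
    rw [mem_ball, dist_eq_norm, sub_sub_cancel_left, norm_neg, norm_mul, Complex.norm_I, mul_one,
      Complex.norm_real, Real.norm_eq_abs, abs_of_pos hs]
    exact hsε
  -- `B` analytic on the slice near the segment
  have hBan : ∀ t : ℂ, (t, w1) ∈ D → AnalyticAt ℂ (fun t => B (t, w1)) t := by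
    intro t ht
    have := Crest.Agent.R266.SCV.analyticOnNhd_of_differentiableOn hD hB (t, w1) ht
    exact hsl B t this
  have hDev : ∀ t : ℂ, (t, w1) ∈ D → ∀ᶠ t' in 𝓝 t, (t', w1) ∈ D := by
    intro t ht
    have hc1 : Tendsto (fun t : ℂ => ((t, w1) : ℂ × ℂ)) (𝓝 t) (𝓝 (t, w1)) :=
      (Continuous.prodMk continuous_id continuous_const).tendsto t
    exact hc1.eventually (hD.mem_nhds ht)
  have hPV : ∀ t ∈ ball t1 ε, (t, w1) ∈ D →
      PV h ψ H (fun t => Ψ (t, w1)) (fun t => N (t, w1)) (fun t => Dn (t, w1)) t (B (t, w1)) := by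
    intro t ht htD
    obtain ⟨-, -, -, a5, a6⟩ := hball t ht
    exact ⟨hBS _ htD, a5.self_of_nhds htD, a6.self_of_nhds htD⟩
  have hDnx : ∃ t ∈ ball t1 ε, Dn (t, w1) ≠ 0 := by
    obtain ⟨t, k1, k2⟩ := (hDnf.and_eventually (ball_mem_nhds t1 hε)).exists
    exact ⟨t, k2, k1⟩
  obtain ⟨Bt, b1, b2, b3⟩ := rule1g hψ hH hc rel hψper hNB (t1 := t1)
    (t0 := t1 - s0 * Complex.I) (ε := ε) (Ψ := fun t => Ψ (t, w1)) (N := fun t => N (t, w1))
    (Dn := fun t => Dn (t, w1))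
    (fun t ht => (hsl Ψ t (hball t ht).1).differentiableAt.differentiableWithinAt)
    (fun t ht => (hsl N t (hball t ht).2.1).differentiableAt.differentiableWithinAt)
    (fun t ht => (hsl Dn t (hball t ht).2.2.1).differentiableAt.differentiableWithinAt)
    hDnx (hmem s0 hs0p hs0ε)
    (B := fun t => B (t, w1)) (hBan _ (hseg s0 hs0p hs0r))
    (by
      filter_upwards [hDev _ (hseg s0 hs0p hs0r), isOpen_ball.mem_nhds (hmem s0 hs0p hs0ε)]
        with t k1 k2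
      exact hPV t k2 k1)
    (hnc s0 hs0p hs0r)
  -- `Bt = B` along the segment
  have hEqseg : ∀ s : ℝ, 0 < s → s ≤ s0 → Bt (t1 - s * Complex.I) = B (t1 - s * Complex.I, w1) := by
    -- identity theorem along the segment: the set of good `s` is clopen in `(0, s0]`
    set γ : ℝ → ℂ := fun s => t1 - s * Complex.I with hγ
    set V : Set ℂ := {t | t ∈ ball t1 ε ∧ (t, w1) ∈ D} with hV
    have hVo : IsOpen V := by
      rw [isOpen_iff_mem_nhds]
      rintro t ⟨k1, k2⟩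
      filter_upwards [isOpen_ball.mem_nhds k1, hDev t k2] with y l1 l2
      exact ⟨l1, l2⟩
    intro s hs hss
    -- preconnected component: the set of points of `V` near which the two agree is clopen in `V`
    set T : Set ℂ := {t | Bt =ᶠ[𝓝 t] fun t => B (t, w1)} with hT
    have hTo : IsOpen T := isOpen_setOfPred_eventually_nhds
    have hTcl : ∀ t ∈ V, t ∈ closure T → t ∈ T := by
      intro t ht htc
      have a1 : AnalyticAt ℂ Bt t := b1.analyticAt (isOpen_ball.mem_nhds ht.1)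
      have a2 : AnalyticAt ℂ (fun t => B (t, w1)) t := hBan t ht.2
      have a3 : ∃ᶠ y in 𝓝 t, y ∈ T := mem_closure_iff_frequently.1 htc
      rcases (a1.eventually_eq_or_eventually_ne a2) with a4 | a4
      · exact a4
      · exfalso
        have a5 : ∀ᶠ y in 𝓝 t, y ≠ t → Bt y ≠ B (y, w1) := eventually_nhdsWithin_iff.1 a4
        obtain ⟨y, hy, hy2⟩ := (a3.and_eventually a5.eventually_nhds).exists
        have a6 : ∀ᶠ z in 𝓝 y, z = t := by
          filter_upwards [hy2, hy] with z l1 l2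
          by_contra l3
          exact l1 l3 l2
        have a7 : ∀ᶠ z in 𝓝[≠] y, z = t := a6.filter_mono nhdsWithin_le_nhds
        have a8 : ∀ᶠ z in 𝓝[≠] y, z ≠ y := eventually_mem_nhdsWithin
        obtain ⟨z, hz1, hz2⟩ := (a7.and a8).exists
        exact hz2 (hz1.trans a6.self_of_nhds.symm)
    have hγc : Continuous γ := by rw [hγ]; fun_prop
    have hIcc : IsPreconnected (γ '' Icc s s0) := isPreconnected_Icc.image _ hγc.continuousOn
    have hsubV : γ '' Icc s s0 ⊆ V := by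
      rintro _ ⟨σ, hσ, rfl⟩
      exact ⟨hmem σ (hs.trans_le hσ.1) (hσ.2.trans_lt hs0ε),
        hseg σ (hs.trans_le hσ.1) (hσ.2.trans_lt hs0r)⟩
    have hsubT : γ '' Icc s s0 ⊆ T := by
      refine hIcc.subset_of_closure_inter_subset hTo ⟨γ s0, ⟨s0, ⟨hss, le_rfl⟩, rfl⟩, b3⟩ ?_
      rintro z ⟨hz1, hz2⟩
      exact hTcl z (hsubV hz2) hz1
    have : γ s ∈ T := hsubT ⟨s, ⟨le_rfl, hss⟩, rfl⟩
    exact (show Bt =ᶠ[𝓝 (γ s)] fun t => B (t, w1) from this).self_of_nhds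
  -- cluster value
  set u : ℕ → ℂ × ℂ := fun n => (t1 - ((s0 / (n + 1 : ℝ) : ℝ) : ℂ) * Complex.I, w1) with hu
  have hsn : ∀ n : ℕ, 0 < s0 / (n + 1 : ℝ) ∧ s0 / (n + 1 : ℝ) ≤ s0 := by
    intro n
    have hn : (1 : ℝ) ≤ (n : ℝ) + 1 := by linarith [Nat.cast_nonneg (α := ℝ) n]
    exact ⟨by positivity, div_le_self hs0p.le hn⟩
  have hlim0 : Tendsto (fun n : ℕ => s0 / (n + 1 : ℝ)) atTop (𝓝 0) :=
    tendsto_const_nhds.div_atTop (tendsto_atTop_add_const_right _ _ tendsto_natCast_atTop_atTop)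
  have hlim1 : Tendsto (fun n : ℕ => t1 - ((s0 / (n + 1 : ℝ) : ℝ) : ℂ) * Complex.I) atTop (𝓝 t1) := by
    have hcc : ContinuousAt (fun s : ℝ => t1 - (s : ℂ) * Complex.I) 0 := by fun_prop
    have := hcc.tendsto.comp hlim0
    simpa [Function.comp_def] using this
  have hux : Tendsto u atTop (𝓝 (t1, w1)) := hlim1.prodMk_nhds tendsto_const_nhds
  have hBtc : ContinuousAt Bt t1 := (b1.differentiableAt (ball_mem_nhds t1 hε)).continuousAt
  have hub : Tendsto (fun n => B (u n)) atTop (𝓝 (Bt t1)) := by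
    refine (hBtc.tendsto.comp hlim1).congr fun n => ?_
    exact hEqseg _ (hsn n).1 (hsn n).2
  have huD : ∀ n, u n ∈ D := fun n => hseg _ (hsn n).1 ((hsn n).2.trans_lt hs0r)
  obtain ⟨G, g1, g2, g3⟩ := extend_of_cluster' (isOpen_Sg h) hc hψ hH rel hD hB hΨ hN hDn
    (b2 t1 (mem_ball_self hε)).1
    (fun h0 => hDb _ (b2 t1 (mem_ball_self hε)).1 u huD hux hub h0)
    h1 h2 huD hux hub
  refine ⟨G, g1, ?_, ?_⟩
  · rw [g2]; exact (b2 t1 (mem_ball_self hε)).1
  · -- propagate along the segment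
    obtain ⟨V, hV1, hV2⟩ : ∃ e : ℝ, 0 < e ∧ ∀ s : ℝ, 0 < s → s < e →
        AnalyticAt ℂ G (t1 - s * Complex.I, w1) := by
      have hcc : Tendsto (fun s : ℝ => ((t1 - (s : ℂ) * Complex.I, w1) : ℂ × ℂ)) (𝓝 0)
          (𝓝 (t1, w1)) := by
        have hcc : ContinuousAt (fun s : ℝ => ((t1 - (s : ℂ) * Complex.I, w1) : ℂ × ℂ)) 0 := by
          fun_prop
        simpa using hcc.tendsto
      obtain ⟨e, he, heb⟩ := Metric.eventually_nhds_iff_ball.1
        (hcc.eventually g1.eventually_analyticAt)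
      refine ⟨e, he, fun s hs hse => heb s ?_⟩
      rw [mem_ball, dist_zero_right, Real.norm_eq_abs, abs_of_pos hs]
      exact hse
    have hev : ∀ᶠ s : ℝ in 𝓝[>] 0, s ∈ Ioo (0 : ℝ) (min V r0) := Ioo_mem_nhdsGT (lt_min hV1 hr0)
    filter_upwards [hev] with s hs
    obtain ⟨n, hn1, hn2⟩ := (g3.and (hlim0.eventually (gt_mem_nhds hs.1))).exists
    -- both analytic on the segment from `s0/(n+1)` to `s`
    set T : Set (ℂ × ℂ) := {y | G =ᶠ[𝓝 y] B} with hT
    have hTo : IsOpen T := isOpen_setOfPred_eventually_nhds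
    set γ : ℝ → ℂ × ℂ := fun σ => (t1 - (σ : ℂ) * Complex.I, w1) with hγ
    have hγc : Continuous γ := by rw [hγ]; fun_prop
    have hIcc : IsPreconnected (γ '' Icc (s0 / (n + 1 : ℝ)) s) :=
      isPreconnected_Icc.image _ hγc.continuousOn
    have hcl : closure T ∩ (γ '' Icc (s0 / (n + 1 : ℝ)) s) ⊆ T := by
      rintro y ⟨hy1, σ, hσ, rfl⟩
      have hσ0 : 0 < σ := (hsn n).1.trans_le hσ.1
      have hσV : σ < V := hσ.2.trans_lt (hs.2.trans_le (min_le_left _ _))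
      have hσr : σ < r0 := hσ.2.trans_lt (hs.2.trans_le (min_le_right _ _))
      have a1 : AnalyticAt ℂ G (γ σ) := hV2 σ hσ0 hσV
      have a2 : AnalyticAt ℂ B (γ σ) :=
        Crest.Agent.R266.SCV.analyticOnNhd_of_differentiableOn hD hB _ (hseg σ hσ0 hσr)
      obtain ⟨e, he, heb⟩ := Metric.eventually_nhds_iff_ball.1
        (a1.eventually_analyticAt.and a2.eventually_analyticAt)
      obtain ⟨y, hyT, hyb⟩ := ((mem_closure_iff_frequently.1 hy1).and_eventually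
        (ball_mem_nhds (γ σ) he)).exists
      have hEq := AnalyticOnNhd.eqOn_of_preconnected_of_eventuallyEq (f := G) (g := B)
        (U := ball (γ σ) e) (fun z hz => (heb z hz).1) (fun z hz => (heb z hz).2)
        (convex_ball _ _).isPreconnected hyb hyT
      change G =ᶠ[𝓝 (γ σ)] B
      filter_upwards [ball_mem_nhds (γ σ) he] with z hz
      exact hEq hz
    have hsubT : γ '' Icc (s0 / (n + 1 : ℝ)) s ⊆ T :=
      hIcc.subset_of_closure_inter_subset hTo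
        ⟨γ (s0 / (n + 1 : ℝ)), ⟨_, ⟨le_rfl, hn2.le⟩, rfl⟩, hn1⟩ hcl
    exact hsubT ⟨s, ⟨hn2.le, le_rfl⟩, rfl⟩


variable {q : C(ℂ, ℂ)} {η ρ r Bc : ℝ} {b φ p : ℂ × ℂ → ℂ} {m₀ : ℂ → ℂ} {h : ℝ} {ψ H : ℂ → ℂ}

section Rule

variable (D : Dat q η ρ r Bc b φ p m₀ h ψ H)
include D

/-- **RULE, lines**: the vertex and one line are regular, then the other line is regular -/
theorem Dat.rule_line {s : ℂ} (hs : s = 1 ∨ s = -1) {x : ℂ × ℂ} (hx : x ∈ SB b h ρ r)
    (hx' : sh (-s) x ∈ SL φ p ρ r) (h1 : -(3 * ρ / 8) < x.1.im) : sh s x ∈ SL φ p ρ r := by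
  have hρ := D.ρ_pos
  have hxr : ‖x.2‖ < r := by simpa using hx.1
  have him := abs_lt.1 (sh_im hs hxr D.r_le)
  have hn := neg_pm hs
  refine ⟨hx.1, ?_, ?_⟩
  · rw [sh_fst, Complex.add_im]
    linarith [him.1]
  refine reg_up isOpen_ball D.Fl_diff Fl_maps (x := sh s x) hx.1 ?_
  intro y hy0 hyx hlow
  rw [sh_snd] at hlow ⊢
  rw [sh_fst, Complex.add_im] at hyx
  -- the vertex and the other line at lower heights
  have hV : ∀ y', ρ / 4 < y' → y' ≤ y → sh (-s) (pt (sh s x).1.re y' x.2) ∈ SB b h ρ r ∧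
      sh (-s) (sh (-s) (pt (sh s x).1.re y' x.2)) ∈ SL φ p ρ r ∧
      -(3 * ρ / 8) < (sh (-s) (pt (sh s x).1.re y' x.2)).1.im := by
    intro y' h2 h3
    have e1 : (sh (-s) (pt (sh s x).1.re y' x.2)).1.re = x.1.re := by
      rw [sh_fst, pt_snd, Complex.add_re, pt_re, sh_fst, Complex.add_re, neg_mul, Complex.neg_re]
      ring
    have e2 : (sh (-s) (pt (sh s x).1.re y' x.2)).1.im = y' - (s * (x.2 / 2)).im := by
      rw [sh_fst, pt_snd, Complex.add_im, pt_im, neg_mul, Complex.neg_im]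
      ring
    refine ⟨Sht_low isOpen_ball D.b_diff D.b_maps hx e1 rfl ?_ (Or.inl ?_), ?_, ?_⟩
    · rw [e2]
      linarith [him.2]
    · rw [e2]
      linarith
    · refine Sht_low isOpen_ball D.Fl_diff Fl_maps hx' ?_ rfl ?_ (Or.inl ?_)
      · rw [sh_fst, Complex.add_re, e1, sh_fst (-s) x, Complex.add_re, sh_snd, pt_snd]
      · rw [sh_fst, Complex.add_im, e2, sh_snd, pt_snd, neg_mul, Complex.neg_im]
        linarith [him.2]
      · rw [sh_fst, Complex.add_im, e2, sh_fst (-s) x, Complex.add_im, sh_snd, pt_snd]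
        linarith
    · rw [e2]
      linarith [him.2]
  obtain ⟨hv1, hv2, hv3⟩ := hV y (by linarith) le_rfl
  set Y : ℂ × ℂ := pt (sh s x).1.re y x.2 with hY
  set G₀ : ℂ × ℂ → ℂ × ℂ := fun v => (2 * ψ (be b h ρ r v) - φe φ p ρ r (sh (-s) v),
    2 * H (be b h ρ r v) * Complex.cos (φe φ p ρ r (sh (-s) v) - ψ (be b h ρ r v)) -
      pe φ p ρ r (sh (-s) v)) with hG₀
  have hG₀a : AnalyticAt ℂ G₀ (sh (-s) Y) := by
    have a1 := D.an_lab D.ψ_diff hv1
    have a2 := D.an_lab D.H_diff hv1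
    have a3 := D.an_φs hv2
    have a4 := D.an_ps hv2
    exact ((analyticAt_const.mul a1).sub a3).prod
      (((analyticAt_const.mul a2).mul (an_cos (a3.fun_sub a1))).sub a4)
  set G : ℂ × ℂ → ℂ × ℂ := fun z => G₀ (sh (-s) z) with hG
  have hGa : AnalyticAt ℂ G Y := AnalyticAt.comp (g := G₀) (f := sh (-s)) hG₀a (sh_an (-s) Y)
  have hY1 : Y.1.im = y := by rw [hY, pt_im]
  refine isReg_of_local D.h10 isOpen_ball D.Fl_diff Fl_maps (p := Y) (N := {z | AnalyticAt ℂ G z})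
    (by rw [hY1]; linarith) (isOpen_analyticAt ℂ G) hGa (G := G)
    (fun z hz => (show AnalyticAt ℂ G z from hz).differentiableAt.differentiableWithinAt)
    (fun _ _ => mem_univ _) hx.1 ?_
  intro ε hε
  rw [hY1]
  refine ⟨max (y - ε / 2) (ρ / 3), ?_, ?_, ?_⟩
  · exact lt_of_lt_of_le (by linarith) (le_max_left _ _)
  · exact max_lt (by linarith) (by linarith)
  set y2 := max (y - ε / 2) (ρ / 3) with hy2
  have hy2y : y2 < y := max_lt (by linarith) (by linarith)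
  have hy2ρ : ρ / 4 < y2 := lt_of_lt_of_le (by linarith) (le_max_right _ _)
  have e3 : (((⟨Y.1.re, y2⟩ : ℂ), Y.2) : ℂ × ℂ) = pt (sh s x).1.re y2 x.2 := by
    rw [pt_mk, hY, pt_re, pt_snd]
  rw [e3]
  obtain ⟨hw1, hw2, hw3⟩ := hV y2 hy2ρ hy2y.le
  set Q : ℂ × ℂ := pt (sh s x).1.re y2 x.2 with hQ
  have hQL : Q ∈ SL φ p ρ r := ⟨hx.1, by rw [hQ, pt_im]; linarith, hlow y2 hy2y⟩
  have e4 : ∀ z : ℂ × ℂ, sh s (sh (-s) z) = z := by
    intro z
    rw [sh_sh, add_neg_cancel, sh_zero]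
  have r1 := D.refl_ev hs hw1 (by rw [e4]; exact hQL) hw2 hw3
  have r2 := D.sum_ev hs hw1 (by rw [e4]; exact hQL) hw2 hw3
  have r1' := ((sh_cont (-s)).tendsto Q).eventually r1
  have r2' := ((sh_cont (-s)).tendsto Q).eventually r2
  filter_upwards [r1', r2', isOpen_SL.mem_nhds hQL] with z hz1 hz2 hz3
  rw [e4] at hz1 hz2
  refine ⟨hz3.2.2, ?_⟩
  change G z = LE φ p ρ r z
  refine Prod.ext ?_ ?_
  · change 2 * ψ (be b h ρ r (sh (-s) z)) - φe φ p ρ r (sh (-s) (sh (-s) z)) = φe φ p ρ r z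
    rw [← hz1]
    ring
  · change 2 * H (be b h ρ r (sh (-s) z)) * Complex.cos (φe φ p ρ r (sh (-s) (sh (-s) z)) -
      ψ (be b h ρ r (sh (-s) z))) - pe φ p ρ r (sh (-s) (sh (-s) z)) = pe φ p ρ r z
    rw [← hz2]
    ring

/-- the slice derivative of the label -/
lemma Dat.deriv_slice {t w : ℂ} (hx : (t, w) ∈ SB b h ρ r) :
    deriv (fun t => be b h ρ r (t, w)) t = q1 (be b h ρ r) (t, w) := by
  have h1 : HasDerivAt (fun s : ℂ => ((s, w) : ℂ × ℂ)) ((1, 0) : ℂ × ℂ) t :=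
    (hasDerivAt_id t).prodMk (hasDerivAt_const t w)
  exact ((D.be_an _ hx).differentiableAt.hasFDerivAt.comp_hasDerivAt t h1).deriv

/-- the label is not constant on any slice of the sheet -/
theorem Dat.be_nc {x : ℂ × ℂ} (hx : x ∈ SB b h ρ r) :
    ∃ᶠ t in 𝓝 x.1, deriv (fun t => be b h ρ r (t, x.2)) t ≠ 0 := by
  have hρ := D.ρ_pos
  have hxr : ‖x.2‖ < r := by simpa using hx.1
  have h0 : q1 (be b h ρ r) (pt x.1.re 0 x.2) ≠ 0 := by
    have m0 := D.near0 (s := 0) (by tauto) (z := pt x.1.re 0 x.2) (by rw [pt_snd]; exact hxr)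
      (by rw [pt_im, abs_zero]; linarith)
    rw [sh_zero] at m0
    have e1 : be b h ρ r =ᶠ[𝓝 (pt x.1.re 0 x.2)] b := by
      filter_upwards [(isOpen_slab isOpen_ball).mem_nhds m0] with y hy
      exact D.be_slab hy
    have e2 : q1 (be b h ρ r) (pt x.1.re 0 x.2) = q1 b (pt x.1.re 0 x.2) := by
      unfold B821.q1
      rw [e1.fderiv_eq]
    rw [e2]
    intro h3
    have h4 := D.fam.b_t _ (slab_PD D.ρ_pos m0)
    rw [h3] at h4
    norm_num at h4
  have h1 := freq_ne (Ω := SB b h ρ r) (f := q1 (be b h ρ r)) (fun z hz => an_q1 (D.be_an z hz))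
    (D.seg_SB hx) h0
  have e3 : pt x.1.re x.1.im x.2 = x := pt_eta x
  rw [e3] at h1
  have h2 : ∀ᶠ t in 𝓝 x.1, ((t, x.2) : ℂ × ℂ) ∈ SB b h ρ r := by
    have hc : Continuous fun t : ℂ => ((t, x.2) : ℂ × ℂ) := by fun_prop
    exact (hc.tendsto x.1).eventually (isOpen_SB.mem_nhds hx)
  refine (h1.and_eventually h2).mono ?_
  rintro t ⟨ht1, ht2⟩
  rw [D.deriv_slice ht2]
  exact ht1

/-- the half angle of reflection is not `π/2` identically -/
theorem Dat.cos_nz {x : ℂ × ℂ} (hx1 : sh 1 x ∈ SL φ p ρ r) (hx2 : sh (-1) x ∈ SL φ p ρ r)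
    (h1 : -(3 * ρ / 8) < x.1.im) : ∃ᶠ t in 𝓝 x.1, 2 * Complex.cos ((φe φ p ρ r (sh (-1) (t, x.2)) -
      φe φ p ρ r (sh 1 (t, x.2))) / 2) ≠ 0 := by
  have hρ := D.ρ_pos
  have hxr : ‖x.2‖ < r := by simpa using hx1.1
  have hp := freq_ne (Ω := sh 1 ⁻¹' SL φ p ρ r ∩ sh (-1) ⁻¹' SL φ p ρ r)
    (f := fun z => 2 * Complex.cos ((φe φ p ρ r (sh (-1) z) - φe φ p ρ r (sh 1 z)) / 2))
    (x := x.1.re) (y₁ := 0) (y₂ := x.1.im) (w := x.2) ?_ ?_ ?_
  · have e3 : pt x.1.re x.1.im x.2 = x := pt_eta x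
    rw [e3] at hp
    exact hp
  · rintro z ⟨hz1, hz2⟩
    exact analyticAt_const.mul (an_cos (((D.an_φs hz2).fun_sub (D.an_φs hz1)).div_const))
  · intro y hy
    exact ⟨D.seg_SL (by tauto) hx1 h1 y hy, D.seg_SL (by tauto) hx2 h1 y hy⟩
  · set z := pt x.1.re 0 x.2 with hz
    have hz1 : ‖z.2‖ < r := by rw [hz, pt_snd]; exact hxr
    have hz2 : |z.1.im| < ρ / 4 := by rw [hz, pt_im, abs_zero]; linarith
    have m0 := D.near0 (s := 0) (by tauto) hz1 hz2
    rw [sh_zero] at m0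
    have m1 := D.near0 (s := 1) (by tauto) hz1 hz2
    have m2 := D.near0 (s := -1) (by tauto) hz1 hz2
    rw [D.φe_slab m1, D.φe_slab m2]
    have k1 := D.base_refl (s := 1) (Or.inl rfl) (t := z.1) (w := z.2) (slab_PD D.ρ_pos m0)
      (slab_PD D.ρ_pos m1) (by rw [← sh_neg 1 z]; exact slab_PD D.ρ_pos m2)
    rw [D.ψ_eq _ (D.b_mem_Str (slab_PD D.ρ_pos m0))] at k1
    have k2 := D.fam.δ_small z.1 z.2 (slab_PD D.ρ_pos m0) (by
      have := slab_PD D.ρ_pos m1
      unfold sh at this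
      rwa [one_mul] at this)
    have e5 : sh 1 z = (z.1 + z.2 / 2, z.2) := by
      unfold sh
      rw [one_mul]
    have e6 : (z.1 + 1 * (z.2 / 2), z.2) = sh 1 z := rfl
    rw [e6, e5, ← sh_neg 1 z] at k1
    rw [e5]
    set A := φ (sh (-1) z) with hA
    set A' := φ (z.1 + z.2 / 2, z.2) with hA'
    set T := Tc q (b (z.1, z.2)) with hT
    have e7 : (A - A') / 2 = -(A' - T) := by linear_combination (1 / 2) * k1
    rw [e7, Complex.cos_neg]
    intro h8
    have h9 : Complex.cos (A' - T) = 0 := by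
      rcases mul_eq_zero.1 h8 with h10 | h10
      · norm_num at h10
      · exact h10
    rw [Complex.cos_eq_zero_iff] at h9
    obtain ⟨k, hk⟩ := h9
    rw [hk] at k2
    have h11 : ‖((2 * (k : ℂ) + 1) * Real.pi / 2)‖ = |(2 * (k : ℝ) + 1)| * Real.pi / 2 := by
      have : ((2 * (k : ℂ) + 1) * Real.pi / 2) = (((2 * (k : ℝ) + 1) * Real.pi / 2 : ℝ) : ℂ) := by
        push_cast
        ring
      rw [this, Complex.norm_real, Real.norm_eq_abs, abs_div, abs_mul, abs_of_pos Real.pi_pos,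
        abs_two]
    rw [h11] at k2
    have h12 : (1 : ℝ) ≤ |(2 * (k : ℝ) + 1)| := by
      have : (1 : ℤ) ≤ |2 * k + 1| := by
        apply Int.one_le_abs
        omega
      exact_mod_cast this
    have h13 := Real.pi_gt_three
    nlinarith

/-- **RULE, vertex**: both lines are regular, then the vertex is regular (natural boundary) -/
theorem Dat.rule_vertex (hNB : Rule982.NB h ψ H) {x : ℂ × ℂ} (hx1 : sh 1 x ∈ SL φ p ρ r)
    (hx2 : sh (-1) x ∈ SL φ p ρ r) (h1 : -(3 * ρ / 8) < x.1.im) : x ∈ SB b h ρ r := by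
  have hρ := D.ρ_pos
  have hxr : ‖x.2‖ < r := by simpa using hx1.1
  have hx1W : x.2 ∈ ball (0 : ℂ) r := hx1.1
  refine ⟨hx1W, by linarith, ?_⟩
  refine reg_up isOpen_ball D.b_diff D.b_maps (x := x) hx1W ?_
  intro y hy0 hyx hlow
  set Y : ℂ × ℂ := pt x.1.re y x.2 with hY
  have hY1 : Y.1.im = y := by rw [hY, pt_im]
  have hY2 : Y.2 = x.2 := rfl
  have hYre : Y.1.re = x.1.re := by rw [hY, pt_re]
  have hYL : ∀ s : ℂ, (s = 1 ∨ s = -1) → sh s x ∈ SL φ p ρ r → sh s Y ∈ SL φ p ρ r := by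
    intro s hs hsx
    have him := abs_lt.1 (sh_im hs hxr D.r_le)
    refine Sht_low isOpen_ball D.Fl_diff Fl_maps hsx ?_ rfl ?_ (Or.inl ?_)
    · rw [sh_fst, sh_fst, Complex.add_re, Complex.add_re, hYre, hY2]
    · rw [sh_fst, Complex.add_im, hY1, hY2]
      linarith [him.1]
    · rw [sh_fst, sh_fst, Complex.add_im, Complex.add_im, hY1, hY2]
      linarith
  have hY1L := hYL 1 (Or.inl rfl) hx1
  have hY2L := hYL (-1) (Or.inr rfl) hx2
  have hseg : ∀ s : ℝ, 0 < s → s < y + ρ / 4 → ((Y.1 - s * Complex.I, Y.2) : ℂ × ℂ) ∈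
      SB b h ρ r := by
    intro s hs1 hs2
    have e1 : ((Y.1 - s * Complex.I, Y.2) : ℂ × ℂ) = pt x.1.re (y - s) x.2 := by
      rw [hY]
      unfold VH982.pt
      refine Prod.ext ?_ rfl
      simp only
      push_cast
      ring
    rw [e1]
    refine ⟨hx1W, by rw [pt_im]; linarith, hlow _ (by linarith)⟩
  have hev : ∀ᶠ z in 𝓝 Y, sh 1 z ∈ SL φ p ρ r ∧ sh (-1) z ∈ SL φ p ρ r ∧
      -(3 * ρ / 8) < z.1.im := by
    have c1 : Continuous fun z : ℂ × ℂ => z.1.im := by fun_prop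
    filter_upwards [(isOpen_pre 1).mem_nhds hY1L, (isOpen_pre (-1)).mem_nhds hY2L,
      (c1.tendsto Y).eventually (Ioi_mem_nhds (show -(3 * ρ / 8) < Y.1.im by
        rw [hY1]; linarith))] with z a1 a2 a3
    exact ⟨a1, a2, a3⟩
  have hψe : ∀ᶠ z in 𝓝 Y, z ∈ SB b h ρ r → ψ (be b h ρ r z) =
      (φe φ p ρ r (sh 1 z) + φe φ p ρ r (sh (-1) z)) / 2 := by
    filter_upwards [hev] with z hz hzB
    have := (D.refl_ev (Or.inl rfl) hzB hz.1 hz.2.1 hz.2.2).self_of_nhds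
    linear_combination (-1 / 2) * this
  have hDb : ∀ z ∈ Sg h, ∀ u : ℕ → ℂ × ℂ, (∀ n, u n ∈ SB b h ρ r) →
      Tendsto u atTop (𝓝 ((Y.1, Y.2) : ℂ × ℂ)) →
      Tendsto (fun n => be b h ρ r (u n)) atTop (𝓝 z) → deriv ψ z = 0 →
      2 * Complex.cos ((φe φ p ρ r (sh (-1) (Y.1, Y.2)) -
        φe φ p ρ r (sh 1 (Y.1, Y.2))) / 2) ≠ 0 := by
    intro z hz u hu hux hub hz0 hcon
    have hux' : Tendsto u atTop (𝓝 Y) := hux
    have c1 : ContinuousAt (fun z => φe φ p ρ r (sh 1 z)) Y := (D.an_φs hY1L).continuousAt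
    have c2 : ContinuousAt (fun z => φe φ p ρ r (sh (-1) z)) Y := (D.an_φs hY2L).continuousAt
    have c3 : ContinuousAt (fun z => pe φ p ρ r (sh 1 z)) Y := (D.an_ps hY1L).continuousAt
    have hSo := isOpen_Sg h
    have hzn := hSo.mem_nhds hz
    have c4 : ContinuousAt ψ z := (D.ψ_diff.differentiableAt hzn).continuousAt
    have c5 : ContinuousAt H z := (D.H_diff.differentiableAt hzn).continuousAt
    have c6 : ContinuousAt (deriv ψ) z := ((D.ψ_diff.deriv hSo).differentiableAt hzn).continuousAt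
    have c7 : ContinuousAt (deriv H) z := ((D.H_diff.deriv hSo).differentiableAt hzn).continuousAt
    have l1 := c1.tendsto.comp hux'
    have l2 := c2.tendsto.comp hux'
    have l3 := c3.tendsto.comp hux'
    have l4 := c4.tendsto.comp hub
    have l5 := c5.tendsto.comp hub
    have l6 := c6.tendsto.comp hub
    have l7 := c7.tendsto.comp hub
    have hψz : ψ z = (φe φ p ρ r (sh 1 Y) + φe φ p ρ r (sh (-1) Y)) / 2 := by
      have l8 := (l1.add l2).div_const 2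
      refine tendsto_nhds_unique l4 (l8.congr' ?_)
      filter_upwards [hux'.eventually hψe] with n hn
      exact (hn (hu n)).symm
    have hinc : Inc ψ H (φe φ p ρ r (sh 1 Y)) (pe φ p ρ r (sh 1 Y)) z := by
      unfold F300.Inc
      have l9 := l6.mul l3
      have l10 := ((l6.mul l5).mul ((Complex.continuous_cos.tendsto _).comp (l1.sub l4))).add
        (l7.mul ((Complex.continuous_sin.tendsto _).comp (l1.sub l4)))
      refine tendsto_nhds_unique l9 (l10.congr' ?_)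
      filter_upwards [hux'.eventually hev] with n hn
      have := (D.inc_ev (Or.inl rfl) (hu n) hn.1 hn.2.2).self_of_nhds
      exact this.symm
    unfold F300.Inc at hinc
    rw [hz0] at hinc
    have hrel := D.rel z hz
    rw [hz0] at hrel
    have hH' : deriv H z ≠ 0 := by
      intro h3
      rw [h3] at hrel
      norm_num at hrel
    have hsin : Complex.sin (φe φ p ρ r (sh 1 Y) - ψ z) = 0 := by
      have : deriv H z * Complex.sin (φe φ p ρ r (sh 1 Y) - ψ z) = 0 := by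
        linear_combination -hinc
      rcases mul_eq_zero.1 this with h3 | h3
      · exact absurd h3 hH'
      · exact h3
    have hcos : Complex.cos (φe φ p ρ r (sh 1 Y) - ψ z) = 0 := by
      have e1 : φe φ p ρ r (sh 1 Y) - ψ z = -((φe φ p ρ r (sh (-1) Y) -
          φe φ p ρ r (sh 1 Y)) / 2) := by
        rw [hψz]
        ring
      rw [e1, Complex.cos_neg]
      have : 2 * Complex.cos ((φe φ p ρ r (sh (-1) (Y.1, Y.2)) -
        φe φ p ρ r (sh 1 (Y.1, Y.2))) / 2) = 0 := hcon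
      rcases mul_eq_zero.1 this with h3 | h3
      · norm_num at h3
      · exact h3
    have := Complex.sin_sq_add_cos_sq (φe φ p ρ r (sh 1 Y) - ψ z)
    rw [hsin, hcos] at this
    norm_num at this
  have h2 : ∀ᶠ z in 𝓝 Y, z ∈ SB b h ρ r →
      2 * Complex.cos ((φe φ p ρ r (sh (-1) z) - φe φ p ρ r (sh 1 z)) / 2) * H (be b h ρ r z) =
        pe φ p ρ r (sh (-1) z) + pe φ p ρ r (sh 1 z) := by
    filter_upwards [hev, hψe] with z hz hz' hzB
    have h3 := (D.sum_ev (Or.inl rfl) hzB hz.1 hz.2.1 hz.2.2).self_of_nhds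
    have h4 := hz' hzB
    rw [h3]
    have e1 : φe φ p ρ r (sh (-1) z) - ψ (be b h ρ r z) =
        (φe φ p ρ r (sh (-1) z) - φe φ p ρ r (sh 1 z)) / 2 := by
      rw [h4]
      ring
    rw [e1]
    ring
  obtain ⟨G, hGa, hGm, hGe⟩ := rule3 (h := h) D.ψ_diff D.H_diff (c := -1) (by norm_num) D.rel
    D.ψ_per hNB (D := SB b h ρ r) isOpen_SB (B := be b h ρ r)
    (Ψ := fun z => (φe φ p ρ r (sh 1 z) + φe φ p ρ r (sh (-1) z)) / 2)
    (N := fun z => pe φ p ρ r (sh (-1) z) + pe φ p ρ r (sh 1 z))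
    (Dn := fun z => 2 * Complex.cos ((φe φ p ρ r (sh (-1) z) - φe φ p ρ r (sh 1 z)) / 2))
    D.be_an.differentiableOn (fun z hz => D.be_mem hz) (t1 := Y.1) (w1 := Y.2)
    (((D.an_φs hY1L).add (D.an_φs hY2L)).div_const) ((D.an_ps hY2L).add (D.an_ps hY1L))
    (analyticAt_const.mul (an_cos (((D.an_φs hY2L).fun_sub (D.an_φs hY1L)).div_const)))
    (D.cos_nz hY1L hY2L (by rw [hY1]; linarith)) hDb hψe h2 (r0 := y + ρ / 4) (by linarith) hseg
    (fun s hs1 hs2 => D.be_nc (hseg s hs1 hs2))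
  -- regularity at `Y`
  set N' : Set (ℂ × ℂ) := {z | AnalyticAt ℂ G z} ∩ G ⁻¹' Sg h with hN'
  have hN'o : IsOpen N' := by
    refine ContinuousOn.isOpen_inter_preimage ?_ (isOpen_analyticAt ℂ G) (isOpen_Sg h)
    intro z hz
    exact (show AnalyticAt ℂ G z from hz).continuousAt.continuousWithinAt
  refine isReg_of_local D.h10 isOpen_ball D.b_diff D.b_maps (p := Y) (N := N')
    (by rw [hY1]; linarith) hN'o ⟨hGa, hGm⟩ (G := G)
    (fun z hz => (show AnalyticAt ℂ G z from hz.1).differentiableAt.differentiableWithinAt)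
    (fun z hz => hz.2) hx1W ?_
  intro ε hε
  have h3 : ∀ᶠ s : ℝ in 𝓝[>] 0, s ∈ Ioo (0 : ℝ) (min ε (y + ρ / 4)) :=
    Ioo_mem_nhdsGT (lt_min hε (by linarith))
  obtain ⟨s, hs1, hs2⟩ := (h3.and hGe).exists
  have hsε : s < ε := hs1.2.trans_le (min_le_left _ _)
  have hsy : s < y + ρ / 4 := hs1.2.trans_le (min_le_right _ _)
  refine ⟨y - s, by rw [hY1]; linarith, by rw [hY1]; linarith [hs1.1], ?_⟩
  have e1 : (((⟨Y.1.re, y - s⟩ : ℂ), Y.2) : ℂ × ℂ) = (Y.1 - s * Complex.I, Y.2) := by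
    refine Prod.ext ?_ rfl
    simp only
    apply Complex.ext
    · simp
    · simp [hY1]
  rw [e1]
  filter_upwards [hs2, isOpen_SB.mem_nhds (hseg s hs1.1 hsy)] with z hz1 hz2
  exact ⟨hz2.2.2, hz1⟩

end Rule

end Crest.Agent.R102.Sh982
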