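import Crest.Agent.R102.Step7_559
import Crest.Agent.R102.KontB_669

/-!
Row 102, T1-B, steps 6 + 7 on the official main sheets `K669.IsReg` (helper559): maximality of the
main sheet of the label, star property, step 7 for the sheets.
-/

set_option autoImplicit false
set_option linter.unusedSectionVars false

open Set Filter Topology Metric Complex
open scoped Real

noncomputable section

namespace Crest.Agent.R102.Step7559

open Crest.Agent.R102.B821 Crest.Agent.R102.F300 Crest.Agent.R102.K669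

section
variable {E : Type*} [NormedAddCommGroup E] [NormedSpace ℂ E] [CompleteSpace E]

/-- the main sheet above the level `y1` -/
def Sh (F : ℂ × ℂ → E) (C : Set E) (y1 y0 : ℝ) (W : Set ℂ) : Set (ℂ × ℂ) :=
  {p | IsReg F C y1 y0 W p ∧ y1 < p.1.im}

variable {F : ℂ × ℂ → E} {C : Set E} {y1 y0 : ℝ} {W : Set ℂ}

theorem isOpen_Sh : IsOpen (Sh F C y1 y0 W) := by
  have h2 : Continuous (fun q : ℂ × ℂ => q.1.im) := by fun_prop
  exact isOpen_isReg.inter (isOpen_lt continuous_const h2)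

theorem mem_W_of_Sh {p : ℂ × ℂ} (hp : p ∈ Sh F C y1 y0 W) : p.2 ∈ W := by
  obtain ⟨⟨ε, hε, hW, -⟩, -⟩ := hp
  exact hW (mem_ball_self hε)

theorem star_Sh {q : ℂ × ℂ} (hq : q ∈ Sh F C y1 y0 W) {τ : ℝ} (hτ : 0 ≤ τ)
    (h : y1 < q.1.im - τ) : dn q τ ∈ Sh F C y1 y0 W := by
  have him : (dn q τ).1.im = q.1.im - τ := by unfold dn; simp
  refine ⟨hq.1.below ?_ ?_ ?_, by rw [him]; exact h⟩
  · unfold dn; simp
  · rfl
  · rw [him]; linarith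

theorem analytic_Sh (h10 : y1 < y0) : AnalyticOnNhd ℂ (ext F C y1 y0 W) (Sh F C y1 y0 W) := by
  refine Crest.Agent.R266.SCV.analyticOnNhd_of_differentiableOn isOpen_Sh ?_
  intro p hp
  exact (ext_differentiableAt h10 hp.1 hp.2).differentiableWithinAt

/-- **maximality** (values in an open set `C`) -/
theorem maximal_Sh (h10 : y1 < y0) (hW : IsOpen W) (hF : DifferentiableOn ℂ F (Slab y1 y0 W))
    (hCo : IsOpen C) (hC : ∀ q ∈ Slab y1 y0 W, F q ∈ C) {q : ℂ × ℂ} (hq1 : y1 < q.1.im)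
    (hqW : q.2 ∈ W) {G : ℂ × ℂ → E} (hG : AnalyticAt ℂ G q) (hGC : G q ∈ C)
    (hlow : ∀ᶠ τ : ℝ in 𝓝[>] 0, dn q τ ∈ Sh F C y1 y0 W ∧
      G =ᶠ[𝓝 (dn q τ)] ext F C y1 y0 W) :
    q ∈ Sh F C y1 y0 W ∧ G =ᶠ[𝓝 q] ext F C y1 y0 W := by
  -- a ball on which `G` is holomorphic with values in `C`
  obtain ⟨N, hN, hNo, hqN⟩ : ∃ N : Set (ℂ × ℂ), (∀ z ∈ N, AnalyticAt ℂ G z ∧ G z ∈ C) ∧
      IsOpen N ∧ q ∈ N := by
    have h1 : ∀ᶠ z in 𝓝 q, AnalyticAt ℂ G z ∧ G z ∈ C :=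
      hG.eventually_analyticAt.and (hG.continuousAt.eventually (hCo.mem_nhds hGC))
    obtain ⟨N, h2, h3, h4⟩ := _root_.eventually_nhds_iff.1 h1
    exact ⟨N, h2, h3, h4⟩
  have hreg : IsReg F C y1 y0 W q := by
    refine isReg_of_local h10 hW hF hC hq1 hNo hqN
      (fun z hz => (hN z hz).1.differentiableAt.differentiableWithinAt) (fun z hz => (hN z hz).2)
      hqW ?_
    intro η hη
    have h1 : ∀ᶠ τ : ℝ in 𝓝[>] 0, τ ∈ Ioo (0 : ℝ) η := Ioo_mem_nhdsGT hη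
    obtain ⟨τ, h2, h3, h4⟩ := (h1.and hlow).exists
    refine ⟨q.1.im - τ, by linarith [h2.2], by linarith [h2.1], ?_⟩
    have h5 : ((⟨q.1.re, q.1.im - τ⟩ : ℂ), q.2) = dn q τ := by
      unfold dn; ext
      · apply Complex.ext <;> simp
      · rfl
    rw [h5]
    have h6 : ∀ᶠ z in 𝓝 (dn q τ), z ∈ Sh F C y1 y0 W := isOpen_Sh.mem_nhds h3
    filter_upwards [h6, h4] with z h7 h8
    exact ⟨h7.1, h8⟩
  refine ⟨⟨hreg, hq1⟩, ?_⟩
  -- identity theorem on a ball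
  have hSh : q ∈ Sh F C y1 y0 W := ⟨hreg, hq1⟩
  obtain ⟨ρ, hρ, hρN⟩ := Metric.isOpen_iff.1 (hNo.inter (isOpen_Sh (F := F) (C := C) (y1 := y1)
    (y0 := y0) (W := W))) q ⟨hqN, hSh⟩
  have h1 : ∀ᶠ τ : ℝ in 𝓝[>] 0, τ ∈ Ioo (0 : ℝ) ρ := Ioo_mem_nhdsGT hρ
  obtain ⟨τ, h2, h3, h4⟩ := (h1.and hlow).exists
  have h5 : dn q τ ∈ ball q ρ := by
    rw [mem_ball, Prod.dist_eq, max_lt_iff]
    unfold dn
    refine ⟨?_, by simpa using hρ⟩
    simp only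
    rw [dist_eq_norm, show q.1 - τ * I - q.1 = -((τ : ℂ) * I) by ring, norm_neg, norm_mul,
      Complex.norm_I, mul_one, Complex.norm_real, Real.norm_eq_abs, abs_of_pos h2.1]
    exact h2.2
  have h6 : EqOn G (ext F C y1 y0 W) (ball q ρ) := by
    refine AnalyticOnNhd.eqOn_of_preconnected_of_eventuallyEq (fun z hz => (hN z (hρN hz).1).1)
      (fun z hz => analytic_Sh h10 z (hρN hz).2) (convex_ball q ρ).isPreconnected h5 h4
  filter_upwards [ball_mem_nhds q hρ] with z hz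
  exact h6 hz

end

/-- maximality in the form of step 7 -/
theorem maxi_Sh {F : ℂ × ℂ → ℂ} {h0 y1 y0 : ℝ} {W : Set ℂ} (h10 : y1 < y0) (hW : IsOpen W)
    (hF : DifferentiableOn ℂ F (Slab y1 y0 W)) (hC : ∀ q ∈ Slab y1 y0 W, |(F q).im| < h0)
    {q : ℂ × ℂ} {Bt : ℂ × ℂ → ℂ} (hBt : AnalyticAt ℂ Bt q) (hq : |(Bt q).im| < h0)
    (hlow : ∀ᶠ τ : ℝ in 𝓝[>] 0, dn q τ ∈ Gd (Sh F {z : ℂ | |z.im| < h0} y1 y0 W)
      (ext F {z : ℂ | |z.im| < h0} y1 y0 W) Bt) (hq1 : y1 < q.1.im) :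
    q ∈ Gd (Sh F {z : ℂ | |z.im| < h0} y1 y0 W) (ext F {z : ℂ | |z.im| < h0} y1 y0 W) Bt := by
  have hCo : IsOpen {z : ℂ | |z.im| < h0} :=
    isOpen_lt (continuous_abs.comp Complex.continuous_im) continuous_const
  have hqW : q.2 ∈ W := by
    obtain ⟨τ, hτ⟩ := hlow.exists
    exact mem_W_of_Sh (p := dn q τ) hτ.1
  exact maximal_Sh h10 hW hF hCo hC hq1 hqW hBt hq hlow

theorem Maxi_Sh {F : ℂ × ℂ → ℂ} {h0 y1 y0 : ℝ} {W : Set ℂ} (h10 : y1 < y0) (hW : IsOpen W)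
    (hF : DifferentiableOn ℂ F (Slab y1 y0 W)) (hC : ∀ q ∈ Slab y1 y0 W, |(F q).im| < h0) :
    Maxi h0 (Sh F {z : ℂ | |z.im| < h0} y1 y0 W) (ext F {z : ℂ | |z.im| < h0} y1 y0 W) := by
  intro q Bt hBt hq hlow
  refine maxi_Sh h10 hW hF hC hBt hq hlow ?_
  have h0' : ∀ᶠ τ : ℝ in 𝓝[>] 0, τ ∈ Ioi (0 : ℝ) := self_mem_nhdsWithin
  obtain ⟨τ, h1, h2⟩ := (h0'.and hlow).exists
  have h3 := h2.1.2
  have h4 : (dn q τ).1.im = q.1.im - τ := by unfold dn; simp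
  rw [h4] at h3
  have h5 : 0 < τ := h1
  linarith

end Crest.Agent.R102.Step7559
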