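import Crest.Agent.R102.KontC_669
import Crest.Agent.R102.SHtest_712

/-!
Row 102, T1-B (b): Kontinuitaetssatz, part D: superharmonicity of the penalised heights (NT form,
comparison, mean value), independence of the base level, shears `t' = t - g w`, and the concrete
penalised heights (window penalty `y + p(x) - (c/2) y²`, and `y` for periodic data) (helper669).
-/

set_option autoImplicit false
set_option linter.unusedSectionVars false

open Set Filter Topology Metric Complex MeasureTheory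
open scoped Real

noncomputable section

namespace Crest.Agent.R102.K669

variable {E : Type*} [NormedAddCommGroup E] [NormedSpace ℂ E] [CompleteSpace E]

section SH

variable {F : ℂ × ℂ → E} {C : Set E} {y1 y0 : ℝ} {W : Set ℂ} {Φ : ℂ → ℝ} {m M : ℝ} {Q : Set ℂ}

/-- **superharmonicity of the penalised height, local test form** -/
theorem Pen.nt (h : Pen F C y1 y0 W Φ m M Q) : SH712.NT (hgt F C y1 y0 W Φ m M) W := by
  intro w hw H hH δ hδ hcon
  exact h.no_touch hw hH hδ hcon.1 hcon.2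

lemma Pen.abs_le (h : Pen F C y1 y0 W Φ m M Q) {w : ℂ} (hw : w ∈ W) :
    |hgt F C y1 y0 W Φ m M w| ≤ max |m| |M| := by
  have h1 := h.m_le hw
  have h2 := h.le_M hw
  rw [_root_.abs_le]
  constructor
  · have := neg_abs_le m
    have := le_max_left |m| |M|
    linarith
  · have := le_abs_self M
    have := le_max_right |m| |M|
    linarith

/-- comparison with harmonic functions on closed discs -/
theorem Pen.sh1 (h : Pen F C y1 y0 W Φ m M Q) {w0 : ℂ} {ρ : ℝ} (hρ : 0 < ρ)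
    (hsub : closedBall w0 ρ ⊆ W) {H : ℂ → ℂ} (hH : DiffContOnCl ℂ H (ball w0 ρ))
    (hb : ∀ w ∈ sphere w0 ρ, (H w).im ≤ hgt F C y1 y0 W Φ m M w) :
    ∀ w ∈ closedBall w0 ρ, (H w).im ≤ hgt F C y1 y0 W Φ m M w :=
  SH712.sh1 h.lsc h.nt hρ hsub hH hb

/-- the super mean value inequality -/
theorem Pen.sh2 (h : Pen F C y1 y0 W Φ m M Q) {w0 : ℂ} {ρ : ℝ} (hρ : 0 < ρ)
    (hsub : closedBall w0 ρ ⊆ W) :
    CircleIntegrable (hgt F C y1 y0 W Φ m M) w0 ρ ∧
      Real.circleAverage (hgt F C y1 y0 W Φ m M) w0 ρ ≤ hgt F C y1 y0 W Φ m M w0 :=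
  SH712.sh2_avg h.lsc h.nt (fun w hw => h.abs_le hw) hρ hsub

end SH

section Tools

variable {F : ℂ × ℂ → E} {C : Set E} {y1 y0 : ℝ} {W : Set ℂ}

/-- agreement with `F` on a thin slab propagates to the whole slab -/
lemma agree_up {y' : ℝ} (h1' : y1 < y') (hW : IsOpen W)
    (hF : DifferentiableOn ℂ F (Slab y1 y0 W)) {p : ℂ × ℂ} {ε : ℝ} (hεW : ball p.2 ε ⊆ W)
    {G : ℂ × ℂ → E} (hG : DifferentiableOn ℂ G (Tube y1 p ε))
    (hGF : ∀ q ∈ Tube y1 p ε, q.1.im < y' → G q = F q) :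
    ∀ q ∈ Tube y1 p ε, q.1.im < y0 → G q = F q := by
  intro q hq hq0
  have hqW : q.2 ∈ W := hεW (by rw [mem_ball, dist_eq_norm]; exact hq.2.2.2)
  obtain ⟨δ, hδ, hδW⟩ := Metric.isOpen_iff.1 hW q.2 hqW
  set η := min δ (y0 - q.1.im) with hη
  have hη0 : 0 < η := lt_min hδ (by linarith)
  have hsub : Tube y1 q η ⊆ Slab y1 y0 W := by
    rintro z ⟨a1, a2, a3, a4⟩
    refine ⟨a2, ?_, hδW ?_⟩
    · have : η ≤ y0 - q.1.im := min_le_right _ _
      linarith
    · rw [mem_ball, dist_eq_norm]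
      exact a4.trans_le (min_le_left _ _)
  exact eq_of_tubes h1' hG (hF.mono hsub) hGF (fun _ _ _ => rfl) hq
    (mem_tube_self hq.2.1 hη0)

/-- **independence of the base slab** -/
lemma isReg_base (hW : IsOpen W) (hF : DifferentiableOn ℂ F (Slab y1 y0 W))
    (hC : ∀ q ∈ Slab y1 y0 W, F q ∈ C) {y1' y0' : ℝ} (h1 : y1 ≤ y1') (h2 : y1' < y0')
    (h3 : y0' ≤ y0) {p : ℂ × ℂ} :
    IsReg F C y1 y0 W p ↔ IsReg F C y1' y0' W p := by
  constructor
  · rintro ⟨ε, hε, hεW, G, hG, hGC, hGF⟩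
    have hsub : Tube y1' p ε ⊆ Tube y1 p ε := by
      rintro z ⟨a1, a2, a3, a4⟩
      exact ⟨a1, lt_of_le_of_lt h1 a2, a3, a4⟩
    exact ⟨ε, hε, hεW, G, hG.mono hsub, fun q hq => hGC q (hsub hq),
      fun q hq hq0 => hGF q (hsub hq) (hq0.trans_le h3)⟩
  · rintro ⟨ε, hε, hεW, G, hG, hGC, hGF⟩
    classical
    set y2 : ℝ := (y1' + y0') / 2 with hy2
    have e1 : y1' < y2 := by rw [hy2]; linarith
    have e2 : y2 < y0' := by rw [hy2]; linarith
    set Gt : ℂ × ℂ → E := fun q => if q.1.im < y2 then F q else G q with hGt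
    have hslab : ∀ q ∈ Tube y1 p ε, q.1.im < y0 → q ∈ Slab y1 y0 W := by
      rintro q ⟨a1, a2, a3, a4⟩ h
      exact ⟨a2, h, hεW (by rw [mem_ball, dist_eq_norm]; exact a4)⟩
    have hup : ∀ q ∈ Tube y1 p ε, y1' < q.1.im → q ∈ Tube y1' p ε := by
      rintro q ⟨a1, a2, a3, a4⟩ h
      exact ⟨a1, h, a3, a4⟩
    have c1 : Continuous (fun z : ℂ × ℂ => z.1.im) := by fun_prop
    have hGtd : DifferentiableOn ℂ Gt (Tube y1 p ε) := by
      intro q hq
      refine DifferentiableAt.differentiableWithinAt ?_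
      have hto := (isOpen_tube y1 p ε).mem_nhds hq
      rcases lt_or_ge q.1.im y2 with hlt2 | hge2
      · have h5 : DifferentiableAt ℂ F q :=
          hF.differentiableAt ((isOpen_slab hW).mem_nhds (hslab q hq (by linarith)))
        refine h5.congr_of_eventuallyEq ?_
        filter_upwards [(isOpen_lt c1 continuous_const).mem_nhds hlt2] with z hz
        simp only [hGt]
        rw [if_pos hz]
      · have h5 : DifferentiableAt ℂ G q :=
          hG.differentiableAt ((isOpen_tube y1' p ε).mem_nhds (hup q hq (by linarith)))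
        refine h5.congr_of_eventuallyEq ?_
        filter_upwards [(isOpen_lt continuous_const c1).mem_nhds
          (show y1' < q.1.im by linarith), hto] with z hz hzt
        simp only [hGt]
        split_ifs with h7
        · exact (hGF z (hup z hzt hz) (by linarith)).symm
        · rfl
    refine ⟨ε, hε, hεW, Gt, hGtd, ?_, ?_⟩
    · intro q hq
      simp only [hGt]
      split_ifs with h7
      · exact hC q (hslab q hq (by linarith))
      · exact hGC q (hup q hq (by linarith [not_lt.1 h7]))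
    · refine agree_up (y' := y2) (lt_of_le_of_lt h1 e1) hW hF hεW hGtd ?_
      intro q hq hq2
      simp only [hGt]
      rw [if_pos hq2]

/-- restriction of the parameter domain -/
lemma isReg_restrict {W' : Set ℂ} (hW' : IsOpen W') {p : ℂ × ℂ}
    (hp : p.2 ∈ W') (h : IsReg F C y1 y0 W p) : IsReg F C y1 y0 W' p := by
  obtain ⟨ε, hε, hεW, G, hG, hGC, hGF⟩ := h
  obtain ⟨δ, hδ, hδW⟩ := Metric.isOpen_iff.1 hW' p.2 hp
  have hsub : Tube y1 p (min ε δ) ⊆ Tube y1 p ε := tube_mono (min_le_left _ _)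
  exact ⟨min ε δ, lt_min hε hδ, (ball_subset_ball (min_le_right _ _)).trans hδW, G,
    hG.mono hsub, fun q hq => hGC q (hsub hq), fun q hq => hGF q (hsub hq)⟩

lemma isReg_enlarge {W' : Set ℂ} (hWW : W' ⊆ W) {p : ℂ × ℂ}
    (h : IsReg F C y1 y0 W' p) : IsReg F C y1 y0 W p := by
  obtain ⟨ε, hε, hεW, G, hG, hGC, hGF⟩ := h
  exact ⟨ε, hε, hεW.trans hWW, G, hG, hGC, hGF⟩

/-- **shears**: in the coordinate `t' = t - g w` the function `F' (t', w) = ext F (t' + g w, w)`
has the same regular points. -/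
theorem isReg_shear (h10 : y1 < y0) (hW : IsOpen W) (hF : DifferentiableOn ℂ F (Slab y1 y0 W))
    {W' : Set ℂ} (hW' : IsOpen W') (hWW : W' ⊆ W)
    {g : ℂ → ℂ} (hg : DifferentiableOn ℂ g W') {y1' y0' : ℝ} (h10' : y1' < y0')
    (hlow : ∀ w ∈ W', y1 ≤ y1' + (g w).im)
    (hreg : ∀ w ∈ W', ∀ t : ℂ, y1 < t.im → t.im < y0' + (g w).im →
      IsReg F C y1 y0 W (t, w)) {t' w0 : ℂ} (hw0 : w0 ∈ W') :
    IsReg (fun q : ℂ × ℂ => ext F C y1 y0 W (q.1 + g q.2, q.2)) C y1' y0' W' (t', w0) ↔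
      IsReg F C y1 y0 W (t' + g w0, w0) := by
  have hgc : ContinuousAt g w0 := (hg.differentiableAt (hW'.mem_nhds hw0)).continuousAt
  constructor
  · rintro ⟨ε, hε, hεW, G, hG, hGC, hGF⟩
    classical
    -- the middle level
    set y2 : ℝ := (y1' + y0') / 2 + (g w0).im with hy2
    set κ : ℝ := (y0' - y1') / 2 with hκ
    have hκ0 : 0 < κ := by rw [hκ]; linarith
    obtain ⟨δ, hδ, hδg⟩ := Metric.continuousAt_iff.1 hgc (min (ε / 2) (κ / 2))
      (lt_min (by positivity) (by positivity))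
    set η := min δ (ε / 2) with hη
    have hη0 : 0 < η := lt_min hδ (by positivity)
    have hηW : ball w0 η ⊆ W' := by
      refine (ball_subset_ball ?_).trans hεW
      exact (min_le_right _ _).trans (by linarith)
    have hgd : ∀ w ∈ ball w0 η, ‖g w - g w0‖ < ε / 2 ∧ ‖g w - g w0‖ < κ / 2 := by
      intro w hw
      have h1 := hδg ((mem_ball.1 hw).trans_le (min_le_left _ _))
      rw [dist_eq_norm, lt_min_iff] at h1
      exact h1
    -- `G'` in the original coordinates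
    set G' : ℂ × ℂ → E := fun q => G (q.1 - g q.2, q.2) with hG'
    set Gt : ℂ × ℂ → E := fun q => if q.1.im < y2 then ext F C y1 y0 W q else G' q with hGt
    set p : ℂ × ℂ := (t' + g w0, w0) with hp
    have hball : ∀ q ∈ Tube y1 p η, q.2 ∈ ball w0 η := by
      rintro q ⟨a1, a2, a3, a4⟩
      rw [mem_ball, dist_eq_norm]; exact a4
    have hup : ∀ q ∈ Tube y1 p η, y2 - κ / 2 ≤ q.1.im →
        ((q.1 - g q.2, q.2) : ℂ × ℂ) ∈ Tube y1' (t', w0) ε := by
      rintro q hq h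
      have hqb := hball q hq
      obtain ⟨b1, b2⟩ := hgd q.2 hqb
      obtain ⟨a1, a2, a3, a4⟩ := hq
      have r1 := Complex.abs_re_le_norm (g q.2 - g w0)
      have r2 := Complex.abs_im_le_norm (g q.2 - g w0)
      rw [sub_re] at r1
      rw [sub_im] at r2
      obtain ⟨r3, r4⟩ := abs_le.1 (r1.trans b1.le)
      obtain ⟨r5, r6⟩ := abs_lt.1 (lt_of_le_of_lt r2 b1)
      obtain ⟨r7, r8⟩ := abs_lt.1 (lt_of_le_of_lt r2 b2)
      have hη1 : η ≤ ε / 2 := min_le_right _ _
      simp only [hp, add_re, add_im] at a1 a3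
      obtain ⟨a5, a6⟩ := abs_lt.1 a1
      refine ⟨?_, ?_, ?_, ?_⟩
      · simp only [sub_re]
        rw [abs_lt]; constructor <;> linarith
      · simp only [sub_im]
        rw [hy2, hκ] at h
        rw [hκ] at r7 r8
        linarith
      · simp only [sub_im]; linarith
      · simp only [hp] at a4
        simp only
        linarith
    have hlo : ∀ q ∈ Tube y1 p η, q.1.im < y2 + κ / 2 → IsReg F C y1 y0 W q := by
      rintro q hq h
      have hqb := hball q hq
      obtain ⟨b1, b2⟩ := hgd q.2 hqb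
      have r2 := Complex.abs_im_le_norm (g q.2 - g w0)
      rw [sub_im] at r2
      obtain ⟨r7, r8⟩ := abs_lt.1 (lt_of_le_of_lt r2 b2)
      refine hreg q.2 (hηW hqb) q.1 hq.2.1 ?_
      rw [hy2, hκ] at h
      rw [hκ] at r7 r8
      linarith
    have hmid : ∀ q ∈ Tube y1 p η, |q.1.im - y2| < κ / 2 → G' q = ext F C y1 y0 W q := by
      rintro q hq h
      obtain ⟨h1, h2⟩ := abs_lt.1 h
      have h3 := hup q hq (by linarith)
      have hqb := hball q hq
      obtain ⟨b1, b2⟩ := hgd q.2 hqb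
      have r2 := Complex.abs_im_le_norm (g q.2 - g w0)
      rw [sub_im] at r2
      obtain ⟨r7, r8⟩ := abs_lt.1 (lt_of_le_of_lt r2 b2)
      have h4 := hGF _ h3 (by
        simp only [sub_im]
        rw [hy2, hκ] at h2
        rw [hκ] at r7 r8
        linarith)
      simp only [hG']
      rw [h4]
      simp
    have hGd : ∀ q ∈ Tube y1 p η, y2 - κ / 2 ≤ q.1.im → DifferentiableAt ℂ G' q := by
      intro q hq h
      have h1 := hG.differentiableAt ((isOpen_tube y1' (t', w0) ε).mem_nhds (hup q hq h))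
      have h2 : DifferentiableAt ℂ g q.2 := hg.differentiableAt (hW'.mem_nhds (hηW (hball q hq)))
      have h3 : DifferentiableAt ℂ (fun q : ℂ × ℂ => g q.2) q :=
        DifferentiableAt.comp (g := g) (f := fun q : ℂ × ℂ => q.2) q h2 differentiableAt_snd
      have h4 : DifferentiableAt ℂ (fun q : ℂ × ℂ => ((q.1 - g q.2, q.2) : ℂ × ℂ)) q :=
        (differentiableAt_fst.sub h3).prodMk differentiableAt_snd
      exact DifferentiableAt.comp (g := G) (f := fun q : ℂ × ℂ => ((q.1 - g q.2, q.2) : ℂ × ℂ))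
        q h1 h4
    have c1 : Continuous (fun z : ℂ × ℂ => z.1.im) := by fun_prop
    have hGtd : DifferentiableOn ℂ Gt (Tube y1 p η) := by
      intro q hq
      refine DifferentiableAt.differentiableWithinAt ?_
      have hto := (isOpen_tube y1 p η).mem_nhds hq
      rcases lt_or_ge q.1.im y2 with hlt2 | hge2
      · have h5 := ext_differentiableAt h10 (hlo q hq (by linarith)) hq.2.1
        refine h5.congr_of_eventuallyEq ?_
        filter_upwards [(isOpen_lt c1 continuous_const).mem_nhds hlt2] with z hz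
        simp only [hGt]
        rw [if_pos hz]
      · have h5 := hGd q hq (by linarith)
        refine h5.congr_of_eventuallyEq ?_
        filter_upwards [(isOpen_lt continuous_const c1).mem_nhds
          (show y2 - κ / 2 < q.1.im by linarith), hto] with z hz hzt
        simp only [hGt]
        have hz' : y2 - κ / 2 < z.1.im := hz
        split_ifs with h7
        · refine (hmid z hzt ?_).symm
          rw [abs_lt]; constructor <;> linarith
        · rfl
    refine ⟨η, hη0, hηW.trans hWW, Gt, hGtd, ?_, ?_⟩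
    · intro q hq
      simp only [hGt]
      split_ifs with h7
      · exact ext_mem h10 (hlo q hq (by linarith)) hq.2.1
      · exact hGC _ (hup q hq (by linarith [not_lt.1 h7]))
    · have hw0' := hlow w0 hw0
      refine agree_up (y' := min y0 y2) ?_ hW hF (hηW.trans hWW) hGtd ?_
      · refine lt_min h10 ?_
        rw [hy2]; linarith
      · intro q hq hq2
        simp only [hGt]
        rw [if_pos (hq2.trans_le (min_le_right _ _))]
        exact ext_slab h10 (hlo q hq (by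
          have := hq2.trans_le (min_le_right y0 y2); linarith)) hq.2.1
          (hq2.trans_le (min_le_left _ _))
  · rintro ⟨ε, hε, hεW, G, hG, hGC, hGF⟩
    obtain ⟨δ, hδ, hδg⟩ := Metric.continuousAt_iff.1 hgc (ε / 2) (by positivity)
    obtain ⟨δ', hδ', hδW⟩ := Metric.isOpen_iff.1 hW' w0 hw0
    set η := min (min δ (ε / 2)) δ' with hη
    have hη0 : 0 < η := lt_min (lt_min hδ (by positivity)) hδ'
    have hη1 : η ≤ ε / 2 := (min_le_left _ _).trans (min_le_right _ _)
    have hη2 : η ≤ δ := (min_le_left _ _).trans (min_le_left _ _)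
    have hηW : ball w0 η ⊆ W' := (ball_subset_ball (min_le_right _ _)).trans hδW
    have hin : ∀ q ∈ Tube y1' (t', w0) η,
        ((q.1 + g q.2, q.2) : ℂ × ℂ) ∈ Tube y1 (t' + g w0, w0) ε := by
      rintro q ⟨a1, a2, a3, a4⟩
      have hqb : q.2 ∈ ball w0 η := by rw [mem_ball, dist_eq_norm]; exact a4
      have b1 := hδg ((mem_ball.1 hqb).trans_le hη2)
      rw [dist_eq_norm] at b1
      have r1 := Complex.abs_re_le_norm (g q.2 - g w0)
      have r2 := Complex.abs_im_le_norm (g q.2 - g w0)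
      rw [sub_re] at r1
      rw [sub_im] at r2
      obtain ⟨r3, r4⟩ := abs_le.1 (r1.trans b1.le)
      obtain ⟨r5, r6⟩ := abs_lt.1 (lt_of_le_of_lt r2 b1)
      obtain ⟨a5, a6⟩ := abs_lt.1 a1
      have h5 := hlow q.2 (hηW hqb)
      simp only at a3 a4 a5 a6
      refine ⟨?_, ?_, ?_, ?_⟩
      · simp only [add_re]
        rw [abs_lt]; constructor <;> linarith
      · simp only [add_im]; linarith
      · simp only [add_im]; linarith
      · simp only; linarith
    refine ⟨η, hη0, hηW, fun q => G (q.1 + g q.2, q.2), ?_, fun q hq => hGC _ (hin q hq), ?_⟩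
    · intro q hq
      refine DifferentiableAt.differentiableWithinAt ?_
      have hqb : q.2 ∈ ball w0 η := by rw [mem_ball, dist_eq_norm]; exact hq.2.2.2
      have h1 := hG.differentiableAt ((isOpen_tube y1 (t' + g w0, w0) ε).mem_nhds (hin q hq))
      have h2 : DifferentiableAt ℂ g q.2 := hg.differentiableAt (hW'.mem_nhds (hηW hqb))
      have h3 : DifferentiableAt ℂ (fun q : ℂ × ℂ => g q.2) q :=
        DifferentiableAt.comp (g := g) (f := fun q : ℂ × ℂ => q.2) q h2 differentiableAt_snd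
      have h4 : DifferentiableAt ℂ (fun q : ℂ × ℂ => ((q.1 + g q.2, q.2) : ℂ × ℂ)) q :=
        (differentiableAt_fst.add h3).prodMk differentiableAt_snd
      exact DifferentiableAt.comp (g := G) (f := fun q : ℂ × ℂ => ((q.1 + g q.2, q.2) : ℂ × ℂ))
        q h1 h4
    · intro q hq _
      exact (ext_eq h10 hεW hG hGC hGF (hin q hq)).symm

end Tools

section Window

variable {F : ℂ × ℂ → E} {C : Set E} {y1 y0 : ℝ} {W : Set ℂ} {m M : ℝ}

/-- penalised height function of a window -/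
def PhiW (p : ℝ → ℝ) (c Y : ℝ) (t : ℂ) : ℝ := t.im + p t.re - c / 2 * (min t.im Y) ^ 2

lemma PhiW_eq {p : ℝ → ℝ} {c Y : ℝ} {t : ℂ} (h : t.im ≤ Y) :
    PhiW p c Y t = t.im + p t.re - c / 2 * t.im ^ 2 := by
  rw [PhiW, min_eq_left h]

lemma PhiW_lower {p : ℝ → ℝ} {c Y : ℝ} (hc : 0 ≤ c) (hY : c * Y < 1) {y0 : ℝ} (hy0 : y0 ≤ Y)
    {t : ℂ} (h : y0 ≤ t.im) : y0 - c / 2 * y0 ^ 2 + p t.re ≤ PhiW p c Y t := by
  have key : ∀ y, y0 ≤ y → y ≤ Y → y0 - c / 2 * y0 ^ 2 ≤ y - c / 2 * y ^ 2 := by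
    intro y h1 h2
    have h3 : y - c / 2 * y ^ 2 - (y0 - c / 2 * y0 ^ 2) = (y - y0) * (1 - c * ((y + y0) / 2)) := by
      ring
    have h4 : c * ((y + y0) / 2) ≤ c * Y := mul_le_mul_of_nonneg_left (by linarith) hc
    have h5 : 0 ≤ (y - y0) * (1 - c * ((y + y0) / 2)) :=
      mul_nonneg (by linarith) (by linarith)
    linarith
  rcases le_or_gt t.im Y with h1 | h1
  · rw [PhiW_eq h1]
    have := key t.im h h1
    linarith
  · rw [PhiW, min_eq_right h1.le]
    have := key Y hy0 le_rfl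
    linarith

/-- **window penalties give admissible data** -/
theorem pen_window (h10 : y1 < y0) (hW : IsOpen W) (hF : DifferentiableOn ℂ F (Slab y1 y0 W))
    (hC : ∀ q ∈ Slab y1 y0 W, F q ∈ C) (hCo : IsOpen C) (hCc : Convex ℝ C) (hmM : m ≤ M)
    {p : ℝ → ℝ} {c Y L : ℝ} (hc : 0 ≤ c) (hY : c * Y < 1) (hp : Continuous p)
    (hp0 : ∀ x, 0 ≤ p x)
    (hpc : ∀ x, ∃ q : ℝ, ∀ᶠ x' in 𝓝 x, p x' ≤ p x + q * (x' - x) + c / 2 * (x' - x) ^ 2)
    (hpL : ∀ x, L < |x| → M - m < p x) (hm : m ≤ y0 - c / 2 * y0 ^ 2) (hy0 : y0 ≤ Y)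
    (hM : M < Y - c / 2 * Y ^ 2) :
    Pen F C y1 y0 W (PhiW p c Y) m M {t | |t.re| ≤ L ∧ y0 ≤ t.im ∧ t.im ≤ Y} := by
  have hle : ∀ t : ℂ, y0 ≤ t.im → PhiW p c Y t ≤ M → t.im < Y := by
    intro t h1 h2
    by_contra hcon
    push Not at hcon
    have h3 := PhiW_lower (p := p) hc hY le_rfl hcon
    have := hp0 t.re
    linarith
  have hle' : ∀ t : ℂ, PhiW p c Y t ≤ M → t.im < Y := by
    intro t h2
    rcases lt_or_ge t.im y0 with h | h
    · exact h.trans_le hy0
    · exact hle t h h2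
  refine ⟨h10, hW, hF, hC, hCo, hCc, hmM, ?_, ?_, ?_, ?_, ?_, ?_⟩
  · intro t h1 h2
    by_contra hcon
    push Not at hcon
    have h3 := PhiW_lower (p := p) hc hY hy0 hcon
    have := hp0 t.re
    linarith
  · have : Continuous (PhiW p c Y) := by
      unfold PhiW
      fun_prop
    exact this.continuousOn
  · intro t h1 h2 h3
    have hYt := hle' t h3
    obtain ⟨q, hq⟩ := hpc t.re
    have hd : ∀ s : ℂ, HasDerivAt (fun s : ℂ => I * (PhiW p c Y t : ℂ) +
        ((1 - c * t.im : ℝ) + q * I) * (s - t) + I * (c / 2) * (s - t) ^ 2)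
        (((1 - c * t.im : ℝ) + q * I) + I * (c / 2) * (2 * (s - t))) s := by
      intro s
      have e1 := ((hasDerivAt_id s).sub_const t).const_mul (((1 - c * t.im : ℝ) : ℂ) + q * I)
      have e2 := (((hasDerivAt_id s).sub_const t).pow 2).const_mul (I * ((c : ℂ) / 2))
      have e3 := (e1.const_add (I * (PhiW p c Y t : ℂ))).add e2
      refine e3.congr_deriv ?_
      simp
    refine ⟨fun s => I * (PhiW p c Y t : ℂ) + ((1 - c * t.im : ℝ) + q * I) * (s - t) +
      I * (c / 2) * (s - t) ^ 2, ?_, ?_, ?_, ?_⟩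
    · exact (Differentiable.analyticAt (fun s => (hd s).differentiableAt) t)
    · rw [(hd t).deriv]
      simp only [sub_self, mul_zero, add_zero, add_re, ofReal_re, mul_re, ofReal_im, I_re, I_im]
      have : c * t.im ≤ c * Y := mul_le_mul_of_nonneg_left hYt.le hc
      linarith
    · simp
    · have e1 : ∀ᶠ s : ℂ in 𝓝 t, p s.re ≤ p t.re + q * (s.re - t.re) + c / 2 * (s.re - t.re) ^ 2 :=
        Complex.continuous_re.continuousAt.eventually hq
      have e2 : ∀ᶠ s : ℂ in 𝓝 t, s.im < Y :=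
        (isOpen_lt Complex.continuous_im continuous_const).mem_nhds hYt
      filter_upwards [e1, e2] with s hs1 hs2
      rw [PhiW_eq hs2.le, PhiW_eq hYt.le]
      have e3 : (I * ((t.im + p t.re - c / 2 * t.im ^ 2 : ℝ) : ℂ) +
          ((1 - c * t.im : ℝ) + q * I) * (s - t) + I * (c / 2) * (s - t) ^ 2 : ℂ).im =
          (t.im + p t.re - c / 2 * t.im ^ 2) + (1 - c * t.im) * (s.im - t.im) +
          q * (s.re - t.re) + c / 2 * ((s.re - t.re) ^ 2 - (s.im - t.im) ^ 2) := by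
        have e4 : ((c : ℂ) / 2) = ((c / 2 : ℝ) : ℂ) := by push_cast; ring
        rw [e4]
        simp only [add_im, mul_im, mul_re, I_re, I_im, ofReal_re, ofReal_im, add_re, sub_re,
          sub_im, pow_two]
        ring
      rw [e3]
      nlinarith [hs1]
  · have h1 : {t : ℂ | |t.re| ≤ L ∧ y0 ≤ t.im ∧ t.im ≤ Y} = Icc (-L) L ×ℂ Icc y0 Y := by
      ext t
      simp only [Set.mem_ofPred_eq, Complex.mem_reProdIm, mem_Icc, _root_.abs_le]
    rw [h1]
    exact isCompact_Icc.reProdIm isCompact_Icc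
  · rintro t ⟨-, h1, -⟩
    linarith
  · intro w hw t h1 h2 h3
    have hge : y0 ≤ t.im := by
      by_contra hcon
      push Not at hcon
      exact h3 (isReg_of_slab hW hF hC hcon hw)
    refine ⟨t, ⟨?_, hge, (hle' t h2).le⟩, le_rfl, h3⟩
    by_contra hcon
    push Not at hcon
    have h4 := hpL t.re hcon
    have h5 := PhiW_lower (p := p) hc hY hy0 hge
    linarith

/-- the quadratic penalty of the interval `[a, b]` -/
def dp (a b c : ℝ) (x : ℝ) : ℝ := c / 2 * (max (max (a - x) (x - b)) 0) ^ 2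

lemma dp_nonneg {a b c : ℝ} (hc : 0 ≤ c) (x : ℝ) : 0 ≤ dp a b c x := by
  unfold dp; positivity

lemma dp_zero {a b c x : ℝ} (h : x ∈ Icc a b) : dp a b c x = 0 := by
  unfold dp
  rw [max_eq_right]
  · simp
  · exact max_le (by linarith [h.1]) (by linarith [h.2])

lemma dp_cont (a b c : ℝ) : Continuous (dp a b c) := by
  unfold dp; fun_prop

lemma dp_semi {a b c : ℝ} (hab : a ≤ b) (hc : 0 ≤ c) (x : ℝ) : ∃ q : ℝ, ∀ x' : ℝ,
    dp a b c x' ≤ dp a b c x + q * (x' - x) + c / 2 * (x' - x) ^ 2 := by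
  -- nearest point
  obtain ⟨y, hy1, hy2, hy3⟩ : ∃ y, a ≤ y ∧ y ≤ b ∧
      (max (max (a - x) (x - b)) 0) ^ 2 = (x - y) ^ 2 := by
    rcases lt_or_ge x a with h | h
    · refine ⟨a, le_rfl, hab, ?_⟩
      rw [max_eq_left (a := a - x) (b := x - b) (by linarith), max_eq_left (by linarith)]
      ring
    · rcases lt_or_ge b x with h' | h'
      · refine ⟨b, hab, le_rfl, ?_⟩
        rw [max_eq_right (a := a - x) (b := x - b) (by linarith), max_eq_left (by linarith)]
      · refine ⟨x, h, h', ?_⟩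
        rw [max_eq_right (max_le (by linarith) (by linarith))]
        simp
  refine ⟨c * (x - y), fun x' => ?_⟩
  have h1 : (max (max (a - x') (x' - b)) 0) ^ 2 ≤ (x' - y) ^ 2 := by
    rw [sq_le_sq, abs_of_nonneg (le_max_right _ _)]
    refine max_le (max_le ?_ ?_) (abs_nonneg _)
    · rw [abs_sub_comm]
      exact (by linarith : a - x' ≤ y - x').trans (le_abs_self _)
    · exact (by linarith : x' - b ≤ x' - y).trans (le_abs_self _)
  unfold dp
  rw [hy3]
  nlinarith [mul_le_mul_of_nonneg_left h1 (by linarith : (0 : ℝ) ≤ c / 2)]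

lemma dp_large {a b c K : ℝ} (hc : 0 < c) (hK : 0 ≤ K) {x : ℝ}
    (hx : |a| + |b| + Real.sqrt (2 * K / c) < |x|) : K < dp a b c x := by
  have h0 : 0 ≤ Real.sqrt (2 * K / c) := Real.sqrt_nonneg _
  have h1 : Real.sqrt (2 * K / c) < max (max (a - x) (x - b)) 0 := by
    rcases le_or_gt 0 x with h | h
    · rw [abs_of_nonneg h] at hx
      refine lt_of_lt_of_le ?_ ((le_max_right (a - x) (x - b)).trans (le_max_left _ _))
      have := le_abs_self b
      have := abs_nonneg a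
      linarith
    · rw [abs_of_neg h] at hx
      refine lt_of_lt_of_le ?_ ((le_max_left (a - x) (x - b)).trans (le_max_left _ _))
      have := neg_abs_le a
      have := abs_nonneg b
      linarith
  have h2 : 2 * K / c < (max (max (a - x) (x - b)) 0) ^ 2 := by
    have h3 := Real.sq_sqrt (by positivity : 0 ≤ 2 * K / c)
    rw [← h3]
    exact pow_lt_pow_left₀ h1 h0 two_ne_zero
  unfold dp
  rw [div_lt_iff₀ hc] at h2
  nlinarith

/-- **the height over the interval `[a, b]`** (penalty `(c/2) dist(x,[a,b])² - (c/2) y²`) -/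
theorem pen_interval (h10 : y1 < y0) (hW : IsOpen W) (hF : DifferentiableOn ℂ F (Slab y1 y0 W))
    (hC : ∀ q ∈ Slab y1 y0 W, F q ∈ C) (hCo : IsOpen C) (hCc : Convex ℝ C) (hmM : m ≤ M)
    {a b c Y : ℝ} (hab : a ≤ b) (hc : 0 < c) (hY : c * Y < 1) (hm : m ≤ y0 - c / 2 * y0 ^ 2)
    (hy0 : y0 ≤ Y) (hM : M < Y - c / 2 * Y ^ 2) :
    Pen F C y1 y0 W (PhiW (dp a b c) c Y) m M
      {t | |t.re| ≤ |a| + |b| + Real.sqrt (2 * (M - m) / c) ∧ y0 ≤ t.im ∧ t.im ≤ Y} := by
  refine pen_window h10 hW hF hC hCo hCc hmM hc.le hY (dp_cont a b c) (dp_nonneg hc.le) ?_ ?_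
    hm hy0 hM
  · intro x
    obtain ⟨q, hq⟩ := dp_semi hab hc.le x
    exact ⟨q, Eventually.of_forall hq⟩
  · intro x hx
    exact dp_large hc (by linarith) hx

end Window

section Periodic

variable {F : ℂ × ℂ → E} {C : Set E} {y1 y0 : ℝ} {W : Set ℂ} {m M : ℝ}

lemma tube_add {ε : ℝ} {t w : ℂ} {q : ℂ × ℂ} (a : ℝ) :
    ((q.1 + a, q.2) : ℂ × ℂ) ∈ Tube y1 (t + a, w) ε ↔ q ∈ Tube y1 (t, w) ε := by
  simp only [Tube, Set.mem_ofPred_eq, add_re, ofReal_re, add_im, ofReal_im, add_zero]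
  have : q.1.re + a - (t.re + a) = q.1.re - t.re := by ring
  rw [this]

/-- regularity is invariant under a translation symmetry of the data -/
lemma isReg_add {a : ℝ} {v : E} (hv : ∀ e ∈ C, e - v ∈ C)
    (hper : ∀ q ∈ Slab y1 y0 W, F (q.1 + a, q.2) = F q + v) {t w : ℂ}
    (h : IsReg F C y1 y0 W (t + a, w)) : IsReg F C y1 y0 W (t, w) := by
  obtain ⟨ε, hε, hεW, G, hG, hGC, hGF⟩ := h
  refine ⟨ε, hε, hεW, fun q => G (q.1 + a, q.2) - v, ?_, ?_, ?_⟩
  · intro q hq
    refine DifferentiableAt.differentiableWithinAt ?_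
    have h1 := hG.differentiableAt ((isOpen_tube y1 (t + a, w) ε).mem_nhds ((tube_add a).2 hq))
    have h2 : DifferentiableAt ℂ (fun q : ℂ × ℂ => ((q.1 + a, q.2) : ℂ × ℂ)) q := by fun_prop
    exact (DifferentiableAt.comp (g := G) (f := fun q : ℂ × ℂ => ((q.1 + a, q.2) : ℂ × ℂ))
      q h1 h2).sub_const v
  · intro q hq
    exact hv _ (hGC _ ((tube_add a).2 hq))
  · intro q hq hq0
    have h1 := hGF _ ((tube_add a).2 hq) (by simpa using hq0)
    have h2 : q ∈ Slab y1 y0 W :=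
      ⟨hq.2.1, hq0, hεW (by rw [mem_ball, dist_eq_norm]; exact hq.2.2.2)⟩
    simp only
    rw [h1, hper q h2]
    abel

lemma isReg_add_int {v : E} (hv : ∀ e, e ∈ C ↔ e + v ∈ C)
    (hper : ∀ q ∈ Slab y1 y0 W, F (q.1 + 1, q.2) = F q + v) {t w : ℂ} (n : ℤ) :
    IsReg F C y1 y0 W (t + n, w) ↔ IsReg F C y1 y0 W (t, w) := by
  have hv1 : ∀ e ∈ C, e - v ∈ C := by
    intro e he
    rw [hv (e - v)]; simpa using he
  have hv2 : ∀ e ∈ C, e - (-v) ∈ C := by
    intro e he
    simpa using (hv e).1 he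
  have hper1 : ∀ q ∈ Slab y1 y0 W, F (q.1 + ((1 : ℝ) : ℂ), q.2) = F q + v := by
    intro q hq; simpa using hper q hq
  have hper2 : ∀ q ∈ Slab y1 y0 W, F (q.1 + ((-1 : ℝ) : ℂ), q.2) = F q + (-v) := by
    intro q hq
    have hq' : ((q.1 - 1, q.2) : ℂ × ℂ) ∈ Slab y1 y0 W := by
      obtain ⟨a1, a2, a3⟩ := hq
      exact ⟨by simpa using a1, by simpa using a2, a3⟩
    have h1 := hper _ hq'
    simp only [sub_add_cancel] at h1
    have h2 : (q.1 + ((-1 : ℝ) : ℂ)) = q.1 - 1 := by push_cast; ring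
    rw [h2]
    have h3 : F (q.1, q.2) = F q := rfl
    rw [h3] at h1
    rw [h1]; abel
  have step : ∀ t : ℂ, IsReg F C y1 y0 W (t + 1, w) ↔ IsReg F C y1 y0 W (t, w) := by
    intro t
    constructor
    · intro h
      refine isReg_add (a := 1) hv1 hper1 ?_
      simpa using h
    · intro h
      refine isReg_add (a := -1) hv2 hper2 ?_
      simpa using h
  induction n using Int.induction_on with
  | zero => simp
  | succ n ih =>
    refine Iff.trans ?_ ih
    have := step (t + ((n : ℤ) : ℂ))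
    rw [← this]
    have h5 : t + (((n : ℤ) + 1 : ℤ) : ℂ) = t + ((n : ℤ) : ℂ) + 1 := by push_cast; ring
    rw [h5]
  | pred n ih =>
    refine Iff.trans ?_ ih
    have := step (t + ((-n - 1 : ℤ) : ℂ))
    rw [← this]
    have h5 : t + ((-n - 1 : ℤ) : ℂ) + 1 = t + ((-n : ℤ) : ℂ) := by push_cast; ring
    rw [h5]

/-- **the height itself, for periodic data** -/
theorem pen_periodic (h10 : y1 < y0) (hW : IsOpen W) (hF : DifferentiableOn ℂ F (Slab y1 y0 W))
    (hC : ∀ q ∈ Slab y1 y0 W, F q ∈ C) (hCo : IsOpen C) (hCc : Convex ℝ C) (hmM : m ≤ M)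
    (hm : m ≤ y0) {v : E} (hv : ∀ e, e ∈ C ↔ e + v ∈ C)
    (hper : ∀ q ∈ Slab y1 y0 W, F (q.1 + 1, q.2) = F q + v) :
    Pen F C y1 y0 W Complex.im m M {t | 0 ≤ t.re ∧ t.re ≤ 1 ∧ y0 ≤ t.im ∧ t.im ≤ M} := by
  refine ⟨h10, hW, hF, hC, hCo, hCc, hmM, ?_, Complex.continuous_im.continuousOn, ?_, ?_, ?_, ?_⟩
  · intro t _ h2
    exact h2.trans_le hm
  · intro t _ _ _
    exact ⟨fun s => s, analyticAt_id, by simp, rfl, Eventually.of_forall (fun s => le_rfl)⟩
  · have h1 : {t : ℂ | 0 ≤ t.re ∧ t.re ≤ 1 ∧ y0 ≤ t.im ∧ t.im ≤ M} =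
        Icc 0 1 ×ℂ Icc y0 M := by
      ext t
      simp only [Set.mem_ofPred_eq, Complex.mem_reProdIm, mem_Icc]
      tauto
    rw [h1]
    exact isCompact_Icc.reProdIm isCompact_Icc
  · rintro t ⟨-, -, h1, -⟩
    linarith
  · intro w hw t h1 h2 h3
    have hge : y0 ≤ t.im := by
      by_contra hcon
      push Not at hcon
      exact h3 (isReg_of_slab hW hF hC hcon hw)
    have him : (t + ((-⌊t.re⌋ : ℤ) : ℂ)).im = t.im := by simp
    have hre : (t + ((-⌊t.re⌋ : ℤ) : ℂ)).re = t.re - ⌊t.re⌋ := by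
      simp [sub_eq_add_neg]
    refine ⟨t + ((-⌊t.re⌋ : ℤ) : ℂ), ⟨?_, ?_, ?_, ?_⟩, ?_, ?_⟩
    · rw [hre]; linarith [Int.floor_le t.re]
    · rw [hre]; linarith [Int.lt_floor_add_one t.re]
    · rw [him]; exact hge
    · rw [him]; exact h2
    · rw [him]
    · rw [isReg_add_int hv hper]
      exact h3

end Periodic

section Mono

variable {E' : Type*} [NormedAddCommGroup E'] [NormedSpace ℂ E'] [CompleteSpace E']
variable {F : ℂ × ℂ → E} {C : Set E} {F' : ℂ × ℂ → E'} {C' : Set E'} {y1 y0 : ℝ} {W : Set ℂ}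
  {Φ Φ' : ℂ → ℝ} {m M : ℝ} {Q Q' : Set ℂ}

/-- monotonicity in the penalty and in the data -/
lemma hgt_mono (h : Pen F C y1 y0 W Φ m M Q) {w : ℂ} (hw : w ∈ W)
    (hΦ : ∀ t : ℂ, y1 < t.im → Φ' t < M → Φ t ≤ Φ' t)
    (hR : ∀ t : ℂ, y1 < t.im → Φ' t < M → IsReg F C y1 y0 W (t, w) →
      IsReg F' C' y1 y0 W (t, w)) :
    hgt F C y1 y0 W Φ m M w ≤ hgt F' C' y1 y0 W Φ' m M w := by
  refine csSup_le ⟨m, h.m_mem hw⟩ (fun r hr => le_csSup (Lev_bdd w) ⟨hr.1, hr.2.1, ?_⟩)
  intro t ht hlt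
  have h1 : Φ' t < M := hlt.trans_le hr.2.1
  exact hR t ht h1 (hr.2.2 t ht (lt_of_le_of_lt (hΦ t ht h1) hlt))

/-- if a height is smaller than `r ≤ M` there is a singular point at level `< r` -/
lemma exists_sing (h : Pen F C y1 y0 W Φ m M Q) {w : ℂ} (hw : w ∈ W) {r : ℝ} (hr : r ≤ M)
    (hlt : hgt F C y1 y0 W Φ m M w < r) : ∃ t : ℂ, y1 < t.im ∧ Φ t < r ∧
      ¬ IsReg F C y1 y0 W (t, w) := by
  by_contra hcon
  push Not at hcon
  exact absurd (h.le_hgt hw hr hcon) (not_le.2 hlt)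

/-- **the height is attained**: a singular point in `Q` exactly at the level of the height -/
theorem Pen.attained (h : Pen F C y1 y0 W Φ m M Q) {w : ℂ} (hw : w ∈ W)
    (hlt : hgt F C y1 y0 W Φ m M w < M) : ∃ t ∈ Q, Φ t = hgt F C y1 y0 W Φ m M w ∧
      ¬ IsReg F C y1 y0 W (t, w) := by
  set R := hgt F C y1 y0 W Φ m M w with hR
  set u : ℕ → ℝ := fun n => R + (M - R) / (n + 1) with hu
  have hu1 : ∀ n, R < u n := by
    intro n
    have : 0 < (M - R) / ((n : ℝ) + 1) := div_pos (by linarith) (by positivity)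
    simp only [hu]; linarith
  have hu2 : ∀ n, u n ≤ M := by
    intro n
    have : (M - R) / ((n : ℝ) + 1) ≤ M - R :=
      div_le_self (by linarith) (by linarith [(Nat.cast_nonneg n : (0 : ℝ) ≤ n)])
    simp only [hu]; linarith
  have hu3 : Tendsto u atTop (𝓝 R) := by
    have h1 : Tendsto (fun n : ℕ => (M - R) / ((n : ℝ) + 1)) atTop (𝓝 0) :=
      tendsto_const_div_atTop_nhds_zero_nat (M - R) |>.comp (tendsto_add_atTop_nat 1)
        |>.congr (fun n => by simp [Function.comp])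
    simpa [hu] using h1.const_add R
  have hex : ∀ n, ∃ t ∈ Q, Φ t ≤ u n ∧ ¬ IsReg F C y1 y0 W (t, w) := by
    intro n
    by_contra hcon
    push Not at hcon
    exact absurd (h.le_hgt_Q hw (hu2 n) hcon) (not_le.2 (hu1 n))
  choose t htQ htΦ htn using hex
  obtain ⟨a, haQ, φ, hφ, hlim⟩ := h.Qc.tendsto_subseq htQ
  have hac : ContinuousAt Φ a :=
    h.cont.continuousAt ((isOpen_lt continuous_const Complex.continuous_im).mem_nhds
      (h.Qy a haQ))
  have h1 : Φ a ≤ R :=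
    le_of_tendsto_of_tendsto (hac.tendsto.comp hlim) (hu3.comp hφ.tendsto_atTop)
      (Eventually.of_forall (fun n => htΦ (φ n)))
  have hnr : ¬ IsReg F C y1 y0 W (a, w) := by
    intro h2
    have h3 : {p : ℂ × ℂ | IsReg F C y1 y0 W p} ∈ 𝓝 (a, w) := isOpen_isReg.mem_nhds h2
    have h4 : Tendsto (fun n => ((t (φ n), w) : ℂ × ℂ)) atTop (𝓝 (a, w)) :=
      hlim.prodMk_nhds tendsto_const_nhds
    obtain ⟨n, hn⟩ := (h4.eventually h3).exists
    exact htn (φ n) hn
  refine ⟨a, haQ, le_antisymm h1 ?_, hnr⟩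
  by_contra hcon
  push Not at hcon
  exact hnr (h.reg hw (h.Qy a haQ) hcon)

end Mono

end Crest.Agent.R102.K669
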