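import Mathlib

/-!
Row 102, part (C) (helper88): junk-proof meromorphic functions of several variables.

* `NZ D c`       : `D` is analytic at `c` and not identically zero near `c`;
* `Rep f P Q c`  : `Q f = P` near `c`, off a thin analytic set `{D = 0}`;
* `MerAt f c`    : `f = P / Q` near `c` in this sense;
* `Rep.unique`, `Rep.transfer`, `rep_of_preconnected` : identity theorem for representations.
-/

set_option autoImplicit false

open Set Filter Topology Metric

noncomputable section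

namespace Crest.Agent.R102.Mer88

variable {E : Type*} [NormedAddCommGroup E] [NormedSpace ℂ E]

/-- `D` is analytic at `c` and not identically zero near `c` -/
def NZ (D : E → ℂ) (c : E) : Prop := AnalyticAt ℂ D c ∧ ∃ᶠ x in 𝓝 c, D x ≠ 0

/-- `Q f = P` near `c` off a thin analytic set -/
def Rep (f P Q : E → ℂ) (c : E) : Prop :=
  ∃ D : E → ℂ, NZ D c ∧ ∀ᶠ x in 𝓝 c, D x ≠ 0 → Q x * f x = P x

/-- `f` is meromorphic at `c` (arbitrary values on a thin analytic set) -/
def MerAt (f : E → ℂ) (c : E) : Prop :=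
  ∃ P Q : E → ℂ, AnalyticAt ℂ P c ∧ NZ Q c ∧ Rep f P Q c

/-- a good ball around a point where two functions are analytic -/
theorem exists_ball_analytic {f : E → ℂ} {c : E} (hf : AnalyticAt ℂ f c) :
    ∃ r > 0, AnalyticOnNhd ℂ f (ball c r) := by
  obtain ⟨r, hr, h⟩ := Metric.eventually_nhds_iff_ball.1 hf.eventually_analyticAt
  exact ⟨r, hr, fun x hx => h x hx⟩

/-- an analytic function on a ball which is not locally zero at one point of the ball is not
locally zero at any point of the ball -/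
theorem nz_of_ball {D : E → ℂ} {c : E} {r : ℝ} (hD : AnalyticOnNhd ℂ D (ball c r)) {x y : E}
    (hx : x ∈ ball c r) (hy : y ∈ ball c r) (h : ∃ᶠ z in 𝓝 x, D z ≠ 0) : NZ D y := by
  refine ⟨hD y hy, fun hcon => ?_⟩
  have h0 : D =ᶠ[𝓝 y] 0 := by
    filter_upwards [hcon] with z hz
    by_contra h1
    exact hz h1
  have h1 : EqOn D 0 (ball c r) :=
    hD.eqOn_zero_of_preconnected_of_eventuallyEq_zero (convex_ball c r).isPreconnected hy h0
  refine h ?_
  filter_upwards [isOpen_ball.mem_nhds hx] with z hz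
  exact not_not.2 (h1 hz)

theorem NZ.eventually {D : E → ℂ} {c : E} (h : NZ D c) : ∀ᶠ y in 𝓝 c, NZ D y := by
  obtain ⟨r, hr, hD⟩ := exists_ball_analytic h.1
  filter_upwards [ball_mem_nhds c hr] with y hy
  exact nz_of_ball hD (mem_ball_self hr) hy h.2

theorem NZ.mul {D D' : E → ℂ} {c : E} (h : NZ D c) (h' : NZ D' c) : NZ (fun x => D x * D' x) c := by
  refine ⟨h.1.mul h'.1, fun hcon => ?_⟩
  obtain ⟨r, hr, hrr⟩ := Metric.eventually_nhds_iff_ball.1
    (hcon.and (h'.eventually.and h.1.eventually_analyticAt))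
  -- a point where `D ≠ 0`
  obtain ⟨x, hx, hxr⟩ := (h.2.and_eventually (ball_mem_nhds c hr)).exists
  have h1 : ∀ᶠ z in 𝓝 x, D z ≠ 0 := (hrr x hxr).2.2.continuousAt.eventually_ne hx
  obtain ⟨z, hz1, hz2, hz3⟩ := ((hrr x hxr).2.1.2.and_eventually
    (h1.and (isOpen_ball.mem_nhds hxr))).exists
  exact (hrr z hz3).1 (mul_ne_zero hz2 hz1)

theorem NZ.of_ne {D : E → ℂ} {c : E} (h : AnalyticAt ℂ D c) (h0 : D c ≠ 0) : NZ D c :=
  ⟨h, (h.continuousAt.eventually_ne h0).frequently⟩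

theorem nz_one (c : E) : NZ (fun _ : E => (1 : ℂ)) c := NZ.of_ne analyticAt_const one_ne_zero

/-- an analytic function vanishing off a thin set vanishes -/
theorem eventually_zero_of_nz {F D : E → ℂ} {c : E} (hF : AnalyticAt ℂ F c) (hD : NZ D c)
    (h : ∀ᶠ x in 𝓝 c, D x ≠ 0 → F x = 0) : ∀ᶠ x in 𝓝 c, F x = 0 := by
  by_contra hcon
  rw [not_eventually] at hcon
  have h1 : NZ (fun x => D x * F x) c := hD.mul ⟨hF, hcon⟩
  refine h1.2 ?_
  filter_upwards [h] with x hx
  by_cases hx0 : D x = 0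
  · simp [hx0]
  · simp [hx hx0]

theorem Rep.eventually {f P Q : E → ℂ} {c : E} (h : Rep f P Q c) : ∀ᶠ y in 𝓝 c, Rep f P Q y := by
  obtain ⟨D, hD, h1⟩ := h
  filter_upwards [hD.eventually, h1.eventually_nhds] with y hy1 hy2
  exact ⟨D, hy1, hy2⟩

theorem MerAt.eventually {f : E → ℂ} {c : E} (h : MerAt f c) : ∀ᶠ y in 𝓝 c, MerAt f y := by
  obtain ⟨P, Q, hP, hQ, hR⟩ := h
  filter_upwards [hP.eventually_analyticAt, hQ.eventually, hR.eventually] with y h1 h2 h3
  exact ⟨P, Q, h1, h2, h3⟩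

theorem rep_of_analytic {f P Q : E → ℂ} {c : E} (h : ∀ᶠ x in 𝓝 c, Q x * f x = P x) :
    Rep f P Q c := ⟨fun _ => 1, nz_one c, by filter_upwards [h] with x hx _ using hx⟩

theorem merAt_of_analyticAt {f : E → ℂ} {c : E} (h : AnalyticAt ℂ f c) : MerAt f c :=
  ⟨f, fun _ => 1, h, nz_one c, rep_of_analytic (Eventually.of_forall fun x => one_mul _)⟩

/-- a meromorphic function given as a quotient -/
theorem merAt_div {P Q : E → ℂ} {f : E → ℂ} {c : E} (hP : AnalyticAt ℂ P c) (hQ : NZ Q c)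
    (h : ∀ᶠ x in 𝓝 c, Q x ≠ 0 → f x = P x / Q x) : MerAt f c := by
  refine ⟨P, Q, hP, hQ, Q, hQ, ?_⟩
  filter_upwards [h] with x hx h0
  rw [hx h0]; field_simp

/-- two representations agree -/
theorem Rep.unique {f P Q P' Q' : E → ℂ} {c : E} (hP : AnalyticAt ℂ P c) (hQ : AnalyticAt ℂ Q c)
    (hP' : AnalyticAt ℂ P' c) (hQ' : AnalyticAt ℂ Q' c) (h : Rep f P Q c) (h' : Rep f P' Q' c) :
    ∀ᶠ x in 𝓝 c, P x * Q' x - P' x * Q x = 0 := by
  obtain ⟨D, hD, h1⟩ := h
  obtain ⟨D', hD', h1'⟩ := h'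
  refine eventually_zero_of_nz ((hP.mul hQ').sub (hP'.mul hQ)) (hD.mul hD') ?_
  filter_upwards [h1, h1'] with x hx hx' h0
  have h2 := hx (left_ne_zero_of_mul h0)
  have h3 := hx' (right_ne_zero_of_mul h0)
  rw [← h2, ← h3]; ring

/-- a proportional pair is a representation too -/
theorem Rep.transfer {f P Q P' Q' : E → ℂ} {c : E} (hQ : NZ Q c) (h : Rep f P Q c)
    (hpp : ∀ᶠ x in 𝓝 c, P x * Q' x - P' x * Q x = 0) : Rep f P' Q' c := by
  obtain ⟨D, hD, h1⟩ := h
  refine ⟨fun x => D x * Q x, hD.mul hQ, ?_⟩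
  filter_upwards [h1, hpp] with x hx hx' h0
  have h2 := hx (left_ne_zero_of_mul h0)
  have h3 : Q x ≠ 0 := right_ne_zero_of_mul h0
  have h4 : Q x * (Q' x * f x - P' x) = 0 := by
    rw [← h2] at hx'
    linear_combination hx'
  rcases mul_eq_zero.1 h4 with h5 | h5
  · exact absurd h5 h3
  · exact sub_eq_zero.1 h5

/-- at a point where `f` is analytic a representation is an identity -/
theorem Rep.eq_of_analytic {f P Q : E → ℂ} {c : E} (hf : AnalyticAt ℂ f c)
    (hP : AnalyticAt ℂ P c) (hQ : AnalyticAt ℂ Q c) (h : Rep f P Q c) :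
    ∀ᶠ x in 𝓝 c, Q x * f x = P x := by
  obtain ⟨D, hD, h1⟩ := h
  have h2 := eventually_zero_of_nz ((hQ.mul hf).sub hP) hD (by
    filter_upwards [h1] with x hx h0
    show Q x * f x - P x = 0
    rw [hx h0, sub_self])
  filter_upwards [h2] with x hx
  exact sub_eq_zero.1 hx

/-- **identity theorem for representations** along a preconnected set of meromorphic points -/
theorem rep_of_preconnected {f P Q : E → ℂ} {S : Set E} (hS : IsPreconnected S)
    (hf : ∀ c ∈ S, MerAt f c) (hP : ∀ c ∈ S, AnalyticAt ℂ P c) (hQ : ∀ c ∈ S, AnalyticAt ℂ Q c)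
    {c0 : E} (hc0 : c0 ∈ S) (h0 : Rep f P Q c0) : ∀ c ∈ S, Rep f P Q c := by
  set u : Set E := {c | Rep f P Q c} with hu
  have huo : IsOpen u := isOpen_iff_mem_nhds.2 fun c hc => Rep.eventually hc
  set v : Set E := interior {c | ¬ Rep f P Q c} with hv
  have huv : Disjoint u v := by
    rw [Set.disjoint_left]
    intro c hc hcv
    exact (interior_subset hcv) hc
  have hcov : S ⊆ u ∪ v := by
    intro c hc
    by_cases hcr : Rep f P Q c
    · exact Or.inl hcr
    right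
    rw [mem_interior_iff_mem_nhds]
    obtain ⟨P1, Q1, hP1, hQ1, hR1⟩ := hf c hc
    obtain ⟨r, hr, hb⟩ := Metric.eventually_nhds_iff_ball.1
      ((hP c hc).eventually_analyticAt.and ((hQ c hc).eventually_analyticAt.and
      (hP1.eventually_analyticAt.and (hQ1.eventually.and hR1.eventually))))
    refine mem_of_superset (ball_mem_nhds c hr) (fun c' hc' hR => hcr ?_)
    obtain ⟨a1, a2, a3, a4, a5⟩ := hb c' hc'
    -- `P1 Q - P Q1` vanishes near `c'`, hence on the ball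
    have h2 := Rep.unique a3 a4.1 a1 a2 a5 hR
    have hF : AnalyticOnNhd ℂ (fun x => P1 x * Q x - P x * Q1 x) (ball c r) := by
      intro x hx
      obtain ⟨b1, b2, b3, b4, -⟩ := hb x hx
      exact (b3.mul b2).sub (b1.mul b4.1)
    have h3 : EqOn (fun x => P1 x * Q x - P x * Q1 x) 0 (ball c r) :=
      hF.eqOn_zero_of_preconnected_of_eventuallyEq_zero (convex_ball c r).isPreconnected hc' h2
    refine Rep.transfer hQ1 hR1 ?_
    filter_upwards [ball_mem_nhds c hr] with x hx using h3 hx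
  have := hS.subset_left_of_subset_union huo isOpen_interior huv hcov ⟨c0, hc0, h0⟩
  exact fun c hc => this hc

/-! ### change of variables -/

variable {E' : Type*} [NormedAddCommGroup E'] [NormedSpace ℂ E']

/-- `Φ` is a local biholomorphism at `c` with inverse `Ψ` -/
structure LBih (Φ : E' → E) (Ψ : E → E') (c : E') : Prop where
  an : AnalyticAt ℂ Φ c
  cont : ContinuousAt Ψ (Φ c)
  left : Ψ (Φ c) = c
  right : ∀ᶠ y in 𝓝 (Φ c), Φ (Ψ y) = y

theorem NZ.comp {Φ : E' → E} {Ψ : E → E'} {c : E'} (hΦ : LBih Φ Ψ c) {D : E → ℂ}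
    (h : NZ D (Φ c)) : NZ (fun x => D (Φ x)) c := by
  refine ⟨h.1.comp hΦ.an, fun hcon => h.2 ?_⟩
  have h1 : Tendsto Ψ (𝓝 (Φ c)) (𝓝 c) := by
    have := hΦ.cont
    rw [ContinuousAt, hΦ.left] at this
    exact this
  filter_upwards [h1.eventually hcon, hΦ.right] with y hy1 hy2
  rw [hy2] at hy1
  exact hy1

theorem Rep.comp {Φ : E' → E} {Ψ : E → E'} {c : E'} (hΦ : LBih Φ Ψ c) {f P Q : E → ℂ}
    (h : Rep f P Q (Φ c)) : Rep (fun x => f (Φ x)) (fun x => P (Φ x)) (fun x => Q (Φ x)) c := by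
  obtain ⟨D, hD, h1⟩ := h
  exact ⟨fun x => D (Φ x), hD.comp hΦ, hΦ.an.continuousAt.eventually h1⟩

theorem MerAt.comp {Φ : E' → E} {Ψ : E → E'} {c : E'} (hΦ : LBih Φ Ψ c) {f : E → ℂ}
    (h : MerAt f (Φ c)) : MerAt (fun x => f (Φ x)) c := by
  obtain ⟨P, Q, hP, hQ, hR⟩ := h
  exact ⟨fun x => P (Φ x), fun x => Q (Φ x), hP.comp hΦ.an, hQ.comp hΦ, hR.comp hΦ⟩

end Crest.Agent.R102.Mer88
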