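import Mathlib
import Crest.Agent.R102.C1Defs_821
import Crest.Agent.R102.C0_821

/-!
Row 102, part (C): the spine, level 0.  `PartCL` from the three cases

* A: `(θ, H)` has a maximal strip of finite height `h0`, some point of the top line is regular;
* B: all points of the top line are singular;
* E: `(θ, H)` is entire.
-/

set_option autoImplicit false

open Set Filter Topology Metric
open scoped ComplexConjugate

noncomputable section

namespace Crest.Agent.R102.Spine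

open Crest.Agent.R102.T5 Crest.Agent.R102.G576 Crest.Agent.R102.A929 Crest.Agent.R102.B821
open Crest.Agent.R102.C0 Crest.Agent.R102.C1

/-- the conclusion of `PartCL` -/
def Concl (q : C(ℂ, ℂ)) : Prop :=
  ∃ K : ℝ, ∀ x : ℝ, deriv (deriv (fun x => Real.exp (qr q x))) x =
    (K - 2 * Real.exp (qr q x) ^ 2) * Real.exp (qr q x)

/-- the boundary point `s` of the strip `Str h0` is regular for `(θ, H)` -/
def RegB (h0 : ℝ) (θ H : ℂ → ℂ) (s : ℂ) : Prop :=
  ∃ c > 0, ∃ θ' H' : ℂ → ℂ, DifferentiableOn ℂ θ' (ball s c) ∧ DifferentiableOn ℂ H' (ball s c) ∧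
    ∀ z ∈ ball s c, |z.im| < h0 → θ' z = θ z ∧ H' z = H z

/-- common data of the cases -/
def CaseStr (concl : (q : C(ℂ, ℂ)) → (θ H : ℂ → ℂ) → (h0 : ℝ) → Prop) : Prop :=
  ∀ (q : C(ℂ, ℂ)) (η ρ r B : ℝ) (b φ p : ℂ × ℂ → ℂ) (m₀ : ℂ → ℂ), LineFam q η ρ r B b φ p m₀ →
    ∀ (θ H : ℂ → ℂ) (h0 : ℝ), η ≤ h0 → VExt q η (Str h0) θ H → concl q θ H h0

/-- **Case A** -/
def CaseA : Prop :=
  CaseStr fun q θ H h0 => (∃ s : ℂ, s.im = h0 ∧ ¬ RegB h0 θ H s) →
    (∃ s : ℂ, s.im = h0 ∧ RegB h0 θ H s) → Concl q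

/-- **Case B** -/
def CaseB : Prop :=
  CaseStr fun _ θ H h0 => (∀ s : ℂ, s.im = h0 → ¬ RegB h0 θ H s) → False

/-- **Case E** -/
def CaseE : Prop :=
  ∀ (q : C(ℂ, ℂ)) (η ρ r B : ℝ) (b φ p : ℂ × ℂ → ℂ) (m₀ : ℂ → ℂ), LineFam q η ρ r B b φ p m₀ →
    ∀ (θ H : ℂ → ℂ), VExt q η univ θ H → Concl q

section glue

variable {q : C(ℂ, ℂ)} {η : ℝ}

lemma str_conv (h : ℝ) : Convex ℝ (Str h) := by
  have : Str h = Complex.imLm ⁻¹' (Ioo (-h) h) := by
    ext z; simp [Str, abs_lt]
  rw [this]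
  exact (convex_Ioo (-h) h).linear_preimage Complex.imLm

lemma str_mono {h h' : ℝ} (hh : h ≤ h') : Str h ⊆ Str h' := fun _ hz => lt_of_lt_of_le hz hh

/-- two extensions agree on a connected open set -/
lemma ext_eqOn {V : Set ℂ} (hη : 0 < η) (hV : IsOpen V) (hc : IsPreconnected V) (hs : Str η ⊆ V)
    {f g F : ℂ → ℂ} (hf : DifferentiableOn ℂ f V) (hg : DifferentiableOn ℂ g V)
    (hfF : ∀ z ∈ Str η, f z = F z) (hgF : ∀ z ∈ Str η, g z = F z) : EqOn f g V := by
  have h0 : (0 : ℂ) ∈ Str η := by simp [Str, hη]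
  refine (hf.analyticOnNhd hV).eqOn_of_preconnected_of_eventuallyEq (hg.analyticOnNhd hV) hc
    (hs h0) ?_
  filter_upwards [(isOpen_Str η).mem_nhds h0] with z hz
  rw [hfF z hz, hgF z hz]

/-- heights to which `(θ, H)` extends -/
def Hts (q : C(ℂ, ℂ)) (η : ℝ) : Set ℝ := {h | η ≤ h ∧ ∃ θ H, VExt q η (Str h) θ H}

lemma eta_mem (hD : Datum q η) : η ∈ Hts q η := by
  refine ⟨le_rfl, Tc q, Hc q, isOpen_Str η, (str_conv η).isPreconnected, subset_rfl, hD.Tc_diff, ?_,
    fun _ _ => rfl, fun _ _ => rfl⟩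
  unfold Hc
  exact (((hD.Tc_diff.const_mul Complex.I).neg.cexp.mul (hD.Zs_diff 1)).sub
    ((hD.Tc_diff.const_mul Complex.I).cexp.mul (hD.Zs_diff (-1)))).div_const _

/-- gluing of the extensions -/
lemma glue_ext (hD : Datum q η) {V : Set ℂ} (hV : IsOpen V) (hVc : IsPreconnected V)
    (hsV : Str η ⊆ V) (hcov : ∀ z ∈ V, ∃ h ∈ Hts q η, z ∈ Str h) : ∃ θ H, VExt q η V θ H := by
  classical
  have key : ∀ h ∈ Hts q η, ∃ θ H, VExt q η (Str h) θ H := fun h hh => hh.2
  choose! Θ Η hE using key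
  choose! hz hzH hzm using hcov
  have ag : ∀ h ∈ Hts q η, ∀ h' ∈ Hts q η, ∀ z, z ∈ Str h → z ∈ Str h' →
      Θ h z = Θ h' z ∧ Η h z = Η h' z := by
    intro h hh h' hh' z h1 h2
    have hm : η ≤ min h h' := le_min hh.1 hh'.1
    have hz' : z ∈ Str (min h h') := by
      show |z.im| < min h h'
      exact lt_min h1 h2
    have e1 := hE h hh
    have e2 := hE h' hh'
    refine ⟨?_, ?_⟩
    · exact ext_eqOn hD.η_pos (isOpen_Str _) (str_conv _).isPreconnected (str_mono hm)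
        (e1.θ_diff.mono (str_mono (min_le_left _ _))) (e2.θ_diff.mono (str_mono (min_le_right _ _)))
        e1.θ_eq e2.θ_eq hz'
    · exact ext_eqOn hD.η_pos (isOpen_Str _) (str_conv _).isPreconnected (str_mono hm)
        (e1.H_diff.mono (str_mono (min_le_left _ _))) (e2.H_diff.mono (str_mono (min_le_right _ _)))
        e1.H_eq e2.H_eq hz'
  refine ⟨fun z => Θ (hz z) z, fun z => Η (hz z) z, hV, hVc, hsV, ?_, ?_, ?_, ?_⟩
  · intro z hzV
    have h1 := hzH z hzV
    have h2 := hzm z hzV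
    have h3 : DifferentiableAt ℂ (Θ (hz z)) z :=
      ((hE _ h1).θ_diff).differentiableAt ((isOpen_Str _).mem_nhds h2)
    refine (h3.congr_of_eventuallyEq ?_).differentiableWithinAt
    filter_upwards [(isOpen_Str (hz z)).mem_nhds h2, hV.mem_nhds hzV] with x hx hxV
    exact (ag _ (hzH x hxV) _ h1 x (hzm x hxV) hx).1
  · intro z hzV
    have h1 := hzH z hzV
    have h2 := hzm z hzV
    have h3 : DifferentiableAt ℂ (Η (hz z)) z :=
      ((hE _ h1).H_diff).differentiableAt ((isOpen_Str _).mem_nhds h2)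
    refine (h3.congr_of_eventuallyEq ?_).differentiableWithinAt
    filter_upwards [(isOpen_Str (hz z)).mem_nhds h2, hV.mem_nhds hzV] with x hx hxV
    exact (ag _ (hzH x hxV) _ h1 x (hzm x hxV) hx).2
  · intro z hzη
    have hzV := hsV hzη
    have h1 := (ag _ (hzH z hzV) η (eta_mem hD) z (hzm z hzV) hzη).1
    rw [h1]
    exact (hE η (eta_mem hD)).θ_eq z hzη
  · intro z hzη
    have hzV := hsV hzη
    have h1 := (ag _ (hzH z hzV) η (eta_mem hD) z (hzm z hzV) hzη).2
    rw [h1]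
    exact (hE η (eta_mem hD)).H_eq z hzη

/-- symmetries of the extension on a strip -/
lemma Hc_per (hD : Datum q η) {z : ℂ} (hz : z ∈ Str η) : Hc q (z + 1) = Hc q z := by
  have e1 : Complex.exp (-(Complex.I * Tc q (z + 1))) = Complex.exp (-(Complex.I * Tc q z)) := by
    rw [hD.Tc_per hz, Complex.exp_eq_exp_iff_exists_int]
    exact ⟨-1, by push_cast; ring⟩
  have e2 : Complex.exp (Complex.I * Tc q (z + 1)) = Complex.exp (Complex.I * Tc q z) := by
    rw [hD.Tc_per hz, Complex.exp_eq_exp_iff_exists_int]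
    exact ⟨1, by push_cast; ring⟩
  unfold Hc
  rw [e1, e2, hD.Zs_per hz (Or.inl rfl), hD.Zs_per hz (Or.inr rfl)]

lemma Hc_conj (hD : Datum q η) {z : ℂ} (hz : z ∈ Str η) : Hc q (conj z) = conj (Hc q z) := by
  have hz' := conj_mem_Str hz
  have e1 : Zs q (-1) (conj z) = conj (Zs q 1 z) := hD.Zs_conj hz
  have e2 : Zs q 1 (conj z) = conj (Zs q (-1) z) := by
    have := hD.Zs_conj hz'
    rw [starRingEnd_self_apply] at this
    rw [this, starRingEnd_self_apply]
  unfold Hc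
  rw [e1, e2, hD.Tc_conj hz, map_div₀, map_sub, map_mul, map_mul, ← Complex.exp_conj,
    ← Complex.exp_conj, map_neg, map_mul, Complex.conj_I, map_mul, Complex.conj_I]
  simp only [map_ofNat, neg_mul, neg_neg]
  rw [mul_neg, div_neg, ← neg_div]
  congr 1
  ring

variable {θ H : ℂ → ℂ} {h0 : ℝ}

lemma ext_per (hD : Datum q η) (hη : η ≤ h0) (hE : VExt q η (Str h0) θ H) {z : ℂ}
    (hz : z ∈ Str h0) : θ (z + 1) = θ z + 2 * Real.pi ∧ H (z + 1) = H z := by
  have hm : ∀ z ∈ Str h0, z + 1 ∈ Str h0 := fun z hz => add_one_mem_Str hz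
  constructor
  · refine ext_eqOn hD.η_pos (isOpen_Str h0) (str_conv h0).isPreconnected (str_mono hη)
      (f := fun z => θ (z + 1)) (g := fun z => θ z + 2 * Real.pi)
      (F := fun z => Tc q z + 2 * Real.pi) ?_ ?_ ?_ ?_ hz
    · exact hE.θ_diff.comp (by fun_prop) hm
    · exact hE.θ_diff.add_const _
    · intro z hz
      show θ (z + 1) = _
      rw [hE.θ_eq _ (add_one_mem_Str hz), hD.Tc_per hz]
    · intro z hz
      show θ z + _ = _
      rw [hE.θ_eq _ hz]
  · refine ext_eqOn hD.η_pos (isOpen_Str h0) (str_conv h0).isPreconnected (str_mono hη)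
      (f := fun z => H (z + 1)) (g := H) (F := Hc q) ?_ hE.H_diff ?_ hE.H_eq hz
    · exact hE.H_diff.comp (by fun_prop) hm
    · intro z hz
      show H (z + 1) = _
      rw [hE.H_eq _ (add_one_mem_Str hz), Hc_per hD hz]

lemma ext_conj (hD : Datum q η) (hη : η ≤ h0) (hE : VExt q η (Str h0) θ H) {z : ℂ}
    (hz : z ∈ Str h0) : θ (conj z) = conj (θ z) ∧ H (conj z) = conj (H z) := by
  have hm : ∀ z ∈ Str h0, conj z ∈ Str h0 := fun z hz => conj_mem_Str hz
  constructor
  · have := ext_eqOn hD.η_pos (isOpen_Str h0) (str_conv h0).isPreconnected (str_mono hη)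
      (f := fun z => conj (θ (conj z))) (g := θ)
      (F := Tc q) (differentiableOn_reflect (isOpen_Str h0) hE.θ_diff hm) hE.θ_diff ?_ hE.θ_eq hz
    · simp only at this
      rw [← this, starRingEnd_self_apply]
    · intro z hz
      show conj (θ (conj z)) = _
      rw [hE.θ_eq _ (conj_mem_Str hz), hD.Tc_conj hz, starRingEnd_self_apply]
  · have := ext_eqOn hD.η_pos (isOpen_Str h0) (str_conv h0).isPreconnected (str_mono hη)
      (f := fun z => conj (H (conj z))) (g := H)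
      (F := Hc q) (differentiableOn_reflect (isOpen_Str h0) hE.H_diff hm) hE.H_diff ?_ hE.H_eq hz
    · simp only at this
      rw [← this, starRingEnd_self_apply]
    · intro z hz
      show conj (H (conj z)) = _
      rw [hE.H_eq _ (conj_mem_Str hz), Hc_conj hD hz, starRingEnd_self_apply]

/-- regular boundary point with a given radius -/
def RegR (h0 : ℝ) (θ H : ℂ → ℂ) (s : ℂ) (c : ℝ) : Prop :=
  ∃ θ' H' : ℂ → ℂ, DifferentiableOn ℂ θ' (ball s c) ∧ DifferentiableOn ℂ H' (ball s c) ∧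
    ∀ z ∈ ball s c, |z.im| < h0 → θ' z = θ z ∧ H' z = H z

lemma RegR.mono {s s' : ℂ} {c c' : ℝ} (h : RegR h0 θ H s c) (hs : ball s' c' ⊆ ball s c) :
    RegR h0 θ H s' c' := by
  obtain ⟨θ', H', h1, h2, h3⟩ := h
  exact ⟨θ', H', h1.mono hs, h2.mono hs, fun z hz => h3 z (hs hz)⟩

lemma RegR.add_one (hD : Datum q η) (hη : η ≤ h0) (hE : VExt q η (Str h0) θ H) {s : ℂ} {c : ℝ}
    (h : RegR h0 θ H s c) : RegR h0 θ H (s + 1) c := by
  obtain ⟨θ', H', h1, h2, h3⟩ := h
  have hm : ∀ z ∈ ball (s + 1) c, z - 1 ∈ ball s c := by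
    intro z hz
    rw [mem_ball, dist_eq_norm] at hz ⊢
    rwa [show z - 1 - s = z - (s + 1) by ring]
  refine ⟨fun z => θ' (z - 1) + 2 * Real.pi, fun z => H' (z - 1), ?_, ?_, ?_⟩
  · exact (h1.comp (by fun_prop) hm).add_const _
  · exact h2.comp (by fun_prop) hm
  · intro z hz hzi
    have h4 := h3 (z - 1) (hm z hz) (by simpa using hzi)
    have h5 : z - 1 ∈ Str h0 := by
      show |(z - 1).im| < h0
      simpa using hzi
    have h6 := ext_per hD hη hE h5
    rw [sub_add_cancel] at h6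
    exact ⟨by show θ' (z - 1) + 2 * Real.pi = θ z; rw [h4.1, h6.1],
      by show H' (z - 1) = H z; rw [h4.2, h6.2]⟩

lemma RegR.sub_one (hD : Datum q η) (hη : η ≤ h0) (hE : VExt q η (Str h0) θ H) {s : ℂ} {c : ℝ}
    (h : RegR h0 θ H s c) : RegR h0 θ H (s - 1) c := by
  obtain ⟨θ', H', h1, h2, h3⟩ := h
  have hm : ∀ z ∈ ball (s - 1) c, z + 1 ∈ ball s c := by
    intro z hz
    rw [mem_ball, dist_eq_norm] at hz ⊢
    rwa [show z + 1 - s = z - (s - 1) by ring]
  refine ⟨fun z => θ' (z + 1) - 2 * Real.pi, fun z => H' (z + 1), ?_, ?_, ?_⟩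
  · exact (h1.comp (by fun_prop) hm).sub_const _
  · exact h2.comp (by fun_prop) hm
  · intro z hz hzi
    have h4 := h3 (z + 1) (hm z hz) (by simpa using hzi)
    have h6 := ext_per hD hη hE (z := z) hzi
    exact ⟨by show θ' (z + 1) - 2 * Real.pi = θ z; rw [h4.1, h6.1]; ring,
      by show H' (z + 1) = H z; rw [h4.2, h6.2]⟩

lemma RegR.shift (hD : Datum q η) (hη : η ≤ h0) (hE : VExt q η (Str h0) θ H) {s : ℂ} {c : ℝ}
    (h : RegR h0 θ H s c) (n : ℤ) : RegR h0 θ H (s + n) c := by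
  induction n with
  | zero => simpa using h
  | succ k ih =>
    have := ih.add_one hD hη hE
    push_cast at this ⊢
    rwa [add_assoc] at this
  | pred k ih =>
    have := ih.sub_one hD hη hE
    push_cast at this ⊢
    rwa [add_sub_assoc] at this

lemma RegR.conj' (hD : Datum q η) (hη : η ≤ h0) (hE : VExt q η (Str h0) θ H) {s : ℂ} {c : ℝ}
    (h : RegR h0 θ H s c) : RegR h0 θ H (conj s) c := by
  obtain ⟨θ', H', h1, h2, h3⟩ := h
  have hm : ∀ z ∈ ball (conj s) c, conj z ∈ ball s c := by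
    intro z hz
    rw [mem_ball, dist_eq_norm] at hz ⊢
    rw [← Complex.norm_conj, map_sub, starRingEnd_self_apply]
    exact hz
  have hd : ∀ F : ℂ → ℂ, DifferentiableOn ℂ F (ball s c) →
      DifferentiableOn ℂ (fun z => conj (F (conj z))) (ball (conj s) c) := by
    intro F hF z hz
    have h4 := hF.differentiableAt (isOpen_ball.mem_nhds (hm z hz))
    have h5 := h4.conj_conj
    rw [starRingEnd_self_apply] at h5
    exact h5.differentiableWithinAt
  refine ⟨fun z => conj (θ' (conj z)), fun z => conj (H' (conj z)), hd _ h1, hd _ h2, ?_⟩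
  intro z hz hzi
  have h4 := h3 (conj z) (hm z hz) (by simpa using hzi)
  have h6 := ext_conj hD hη hE (z := z) hzi
  simp only
  rw [h4.1, h4.2, h6.1, h6.2]
  simp

/-- all boundary points regular: a uniform radius -/
lemma unif_radius (hD : Datum q η) (hη : η ≤ h0) (hE : VExt q η (Str h0) θ H)
    (hr : ∀ s : ℂ, s.im = h0 → RegB h0 θ H s) :
    ∃ c > 0, ∀ s : ℂ, s.im = h0 ∨ s.im = -h0 → RegR h0 θ H s c := by
  have hh0 : 0 < h0 := lt_of_lt_of_le hD.η_pos hη
  have hK : IsCompact (Icc (0 : ℝ) 1 ×ℂ {h0}) := isCompact_Icc.reProdIm isCompact_singleton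
  have hcov : ∀ s : {s : ℂ // s.im = h0}, ∃ c > 0, RegR h0 θ H s c := fun s => hr s s.2
  choose C hC hreg using hcov
  obtain ⟨δ, hδ, hL⟩ := lebesgue_number_lemma_of_metric hK
    (c := fun s : {s : ℂ // s.im = h0} => ball (s : ℂ) (C s))
    (fun s => isOpen_ball) (fun s hs => mem_iUnion.2 ⟨⟨s, by
      rw [Complex.mem_reProdIm] at hs; exact hs.2⟩, mem_ball_self (hC _)⟩)
  have hbase : ∀ s : ℂ, 0 ≤ s.re → s.re ≤ 1 → s.im = h0 → RegR h0 θ H s δ := by
    intro s h1 h2 h3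
    obtain ⟨s', hs'⟩ := hL s (by rw [Complex.mem_reProdIm]; exact ⟨⟨h1, h2⟩, h3⟩)
    exact (hreg s').mono hs'
  have htop : ∀ s : ℂ, s.im = h0 → RegR h0 θ H s δ := by
    intro s hs
    have h1 := hbase (s - (⌊s.re⌋ : ℂ)) (by
      rw [Complex.sub_re, Complex.intCast_re]
      linarith [Int.floor_le s.re]) (by
      rw [Complex.sub_re, Complex.intCast_re]
      linarith [Int.lt_floor_add_one s.re]) (by
      rw [Complex.sub_im, Complex.intCast_im, hs, sub_zero])
    have h2 := h1.shift hD hη hE ⌊s.re⌋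
    rwa [sub_add_cancel] at h2
  refine ⟨δ, hδ, ?_⟩
  rintro s (hs | hs)
  · exact htop s hs
  · have := (htop (conj s) (by simp [hs])).conj' hD hη hE
    rwa [starRingEnd_self_apply] at this

/-- gluing of holomorphic functions -/
lemma glue_hol {ι : Type*} (U : ι → Set ℂ) (f : ι → ℂ → ℂ) (hU : ∀ i, IsOpen (U i))
    (hf : ∀ i, DifferentiableOn ℂ (f i) (U i))
    (hag : ∀ i j z, z ∈ U i → z ∈ U j → f i z = f j z) :
    ∃ F : ℂ → ℂ, DifferentiableOn ℂ F (⋃ i, U i) ∧ ∀ i, ∀ z ∈ U i, F z = f i z := by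
  classical
  let F : ℂ → ℂ := fun z => if h : ∃ i, z ∈ U i then f h.choose z else 0
  have hF : ∀ i, ∀ z ∈ U i, F z = f i z := by
    intro i z hz
    have h : ∃ i, z ∈ U i := ⟨i, hz⟩
    show (if h : ∃ i, z ∈ U i then f h.choose z else 0) = _
    rw [dif_pos h]
    exact hag _ _ _ h.choose_spec hz
  refine ⟨F, ?_, hF⟩
  intro z hz
  obtain ⟨i, hi⟩ := mem_iUnion.1 hz
  have h1 := (hf i).differentiableAt ((hU i).mem_nhds hi)
  refine (h1.congr_of_eventuallyEq ?_).differentiableWithinAt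
  filter_upwards [(hU i).mem_nhds hi] with x hx
  exact hF i x hx

/-- two balls with centres on the top line that meet, meet below the line -/
lemma balls_below_up {h0 c : ℝ} (hc : c ≤ h0) {s s' z : ℂ} (hs : s.im = h0) (hs' : s'.im = h0)
    (hz : z ∈ ball s c) (hz' : z ∈ ball s' c) :
    ∃ x : ℂ, x ∈ ball s c ∧ x ∈ ball s' c ∧ |x.im| < h0 := by
  by_cases h1 : |z.im| < h0
  · exact ⟨z, hz, hz', h1⟩
  have him : ∀ w : ℂ, w ∈ ball s c → 0 < w.im := by
    intro w hw
    have h2 : |(w - s).im| ≤ ‖w - s‖ := Complex.abs_im_le_norm _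
    rw [mem_ball, dist_eq_norm] at hw
    rw [Complex.sub_im, hs] at h2
    have := (abs_lt.1 (lt_of_le_of_lt h2 hw)).1
    linarith
  have h2 : h0 ≤ z.im := by
    rw [not_lt, abs_of_pos (him z hz)] at h1
    exact h1
  have hopen : IsOpen (ball s c ∩ ball s' c) := isOpen_ball.inter isOpen_ball
  have hcont : Continuous fun ε : ℝ => z + ε * Complex.I := by fun_prop
  have h3 : ∀ᶠ ε : ℝ in 𝓝 0, z + ε * Complex.I ∈ ball s c ∩ ball s' c := by
    have h4 : (ball s c ∩ ball s' c) ∈ 𝓝 (z + ((0 : ℝ) : ℂ) * Complex.I) := by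
      rw [Complex.ofReal_zero, zero_mul, add_zero]
      exact hopen.mem_nhds ⟨hz, hz'⟩
    exact hcont.continuousAt h4
  obtain ⟨ε, hε, hε2⟩ := ((h3.filter_mono nhdsWithin_le_nhds).and
    (self_mem_nhdsWithin : Ioi (0 : ℝ) ∈ 𝓝[>] 0)).exists
  set z' : ℂ := z + ε * Complex.I with hz'def
  have h4 : h0 < z'.im := by
    have : z'.im = z.im + ε := by simp [hz'def]
    have h5 : (0 : ℝ) < ε := hε2
    rw [this]; linarith
  have hrefl : ∀ w : ℂ, w.im = h0 → z' ∈ ball w c → (⟨z'.re, 2 * h0 - z'.im⟩ : ℂ) ∈ ball w c := by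
    intro w hw hz2
    rw [mem_ball, dist_eq_norm] at hz2 ⊢
    have e1 : (⟨z'.re, 2 * h0 - z'.im⟩ : ℂ) - w = conj (z' - w) := by
      apply Complex.ext
      · simp
      · simp [hw]; ring
    rw [e1, Complex.norm_conj]
    exact hz2
  refine ⟨⟨z'.re, 2 * h0 - z'.im⟩, hrefl s hs hε.1, hrefl s' hs' hε.2, ?_⟩
  have h6 := him _ (hrefl s hs hε.1)
  rw [abs_of_pos h6]
  show 2 * h0 - z'.im < h0
  linarith

lemma balls_below {h0 c : ℝ} (hc : c ≤ h0) {s s' z : ℂ}
    (hs : (s.im = h0 ∧ s'.im = h0) ∨ (s.im = -h0 ∧ s'.im = -h0))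
    (hz : z ∈ ball s c) (hz' : z ∈ ball s' c) :
    ∃ x : ℂ, x ∈ ball s c ∧ x ∈ ball s' c ∧ |x.im| < h0 := by
  rcases hs with ⟨h1, h2⟩ | ⟨h1, h2⟩
  · exact balls_below_up hc h1 h2 hz hz'
  · have hb : ∀ u w : ℂ, u ∈ ball w c → conj u ∈ ball (conj w) c := by
      intro u w hu
      rw [mem_ball, dist_eq_norm] at hu ⊢
      rw [← map_sub, Complex.norm_conj]
      exact hu
    obtain ⟨x, hx1, hx2, hx3⟩ := balls_below_up hc (s := conj s) (s' := conj s') (z := conj z)
      (by simp [h1]) (by simp [h2]) (hb _ _ hz) (hb _ _ hz')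
    refine ⟨conj x, ?_, ?_, by simpa using hx3⟩
    · have := hb _ _ hx1
      rwa [starRingEnd_self_apply] at this
    · have := hb _ _ hx2
      rwa [starRingEnd_self_apply] at this

/-- if all points of the top line are regular, `(θ, H)` extends to a larger strip -/
lemma extend_of_regular (hD : Datum q η) (hη : η ≤ h0) (hE : VExt q η (Str h0) θ H)
    (hr : ∀ s : ℂ, s.im = h0 → RegB h0 θ H s) : ∃ h ∈ Hts q η, h0 < h := by
  have hh0 : 0 < h0 := lt_of_lt_of_le hD.η_pos hη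
  obtain ⟨c0, hc0, hreg0⟩ := unif_radius hD hη hE hr
  set c : ℝ := min c0 (h0 / 2) with hcdef
  have hc : 0 < c := lt_min hc0 (by positivity)
  have hch : c ≤ h0 / 2 := min_le_right _ _
  have hreg : ∀ s : {s : ℂ // s.im = h0 ∨ s.im = -h0}, RegR h0 θ H s c := fun s =>
    (hreg0 s s.2).mono (ball_subset_ball (min_le_left _ _))
  choose Θ Η h1 h2 h3 using hreg
  have hcomp : ∀ s s' : {s : ℂ // s.im = h0 ∨ s.im = -h0}, ∀ z, z ∈ ball (s : ℂ) c →
      z ∈ ball (s' : ℂ) c → Θ s z = Θ s' z ∧ Η s z = Η s' z := by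
    intro s s' z hz hz'
    have hside : ((s : ℂ).im = h0 ∧ (s' : ℂ).im = h0) ∨ ((s : ℂ).im = -h0 ∧ (s' : ℂ).im = -h0) := by
      have a1 : |(z - s).im| < c := lt_of_le_of_lt (Complex.abs_im_le_norm _)
        (by rwa [mem_ball, dist_eq_norm] at hz)
      have a2 : |(z - s').im| < c := lt_of_le_of_lt (Complex.abs_im_le_norm _)
        (by rwa [mem_ball, dist_eq_norm] at hz')
      rw [Complex.sub_im, abs_lt] at a1 a2
      rcases s.2 with e | e <;> rcases s'.2 with e' | e'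
      · exact Or.inl ⟨e, e'⟩
      · exfalso; rw [e] at a1; rw [e'] at a2; linarith [a1.1, a2.2]
      · exfalso; rw [e] at a1; rw [e'] at a2; linarith [a1.2, a2.1]
      · exact Or.inr ⟨e, e'⟩
    obtain ⟨x, hx1, hx2, hx3⟩ := balls_below (by linarith) hside hz hz'
    have hconv : IsPreconnected (ball (s : ℂ) c ∩ ball (s' : ℂ) c) :=
      ((convex_ball _ _).inter (convex_ball _ _)).isPreconnected
    have hop : IsOpen (ball (s : ℂ) c ∩ ball (s' : ℂ) c) := isOpen_ball.inter isOpen_ball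
    have hnear : ∀ᶠ y in 𝓝 x, y ∈ ball (s : ℂ) c ∧ y ∈ ball (s' : ℂ) c ∧ |y.im| < h0 := by
      have : IsOpen {y : ℂ | |y.im| < h0} := isOpen_Str h0
      filter_upwards [isOpen_ball.mem_nhds hx1, isOpen_ball.mem_nhds hx2, this.mem_nhds hx3]
        with y a b d using ⟨a, b, d⟩
    constructor
    · refine (((h1 s).mono inter_subset_left).analyticOnNhd hop).eqOn_of_preconnected_of_eventuallyEq
        (((h1 s').mono inter_subset_right).analyticOnNhd hop) hconv ⟨hx1, hx2⟩ ?_ ⟨hz, hz'⟩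
      filter_upwards [hnear] with y hy
      rw [(h3 s y hy.1 hy.2.2).1, (h3 s' y hy.2.1 hy.2.2).1]
    · refine (((h2 s).mono inter_subset_left).analyticOnNhd hop).eqOn_of_preconnected_of_eventuallyEq
        (((h2 s').mono inter_subset_right).analyticOnNhd hop) hconv ⟨hx1, hx2⟩ ?_ ⟨hz, hz'⟩
      filter_upwards [hnear] with y hy
      rw [(h3 s y hy.1 hy.2.2).2, (h3 s' y hy.2.1 hy.2.2).2]
  let U : Option {s : ℂ // s.im = h0 ∨ s.im = -h0} → Set ℂ := fun o =>
    o.elim (Str h0) (fun s => ball (s : ℂ) c)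
  have hUo : ∀ i, IsOpen (U i) := by
    rintro (_ | s)
    · exact isOpen_Str h0
    · exact isOpen_ball
  have hsub : Str (h0 + c) ⊆ ⋃ i, U i := by
    intro z hz
    by_cases hz0 : |z.im| < h0
    · exact mem_iUnion.2 ⟨none, hz0⟩
    · rw [not_lt] at hz0
      have hz1 : |z.im| < h0 + c := hz
      rcases le_total 0 z.im with hpos | hneg
      · rw [abs_of_nonneg hpos] at hz0 hz1
        refine mem_iUnion.2 ⟨some ⟨⟨z.re, h0⟩, Or.inl rfl⟩, ?_⟩
        show z ∈ ball _ c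
        rw [mem_ball, dist_eq_norm]
        have : z - ⟨z.re, h0⟩ = ((z.im - h0 : ℝ) : ℂ) * Complex.I := by
          apply Complex.ext <;> simp
        rw [this, norm_mul, Complex.norm_I, mul_one, Complex.norm_real, Real.norm_eq_abs, abs_lt]
        constructor <;> linarith
      · rw [abs_of_nonpos hneg] at hz0 hz1
        refine mem_iUnion.2 ⟨some ⟨⟨z.re, -h0⟩, Or.inr rfl⟩, ?_⟩
        show z ∈ ball _ c
        rw [mem_ball, dist_eq_norm]
        have : z - ⟨z.re, -h0⟩ = ((z.im + h0 : ℝ) : ℂ) * Complex.I := by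
          apply Complex.ext <;> simp
        rw [this, norm_mul, Complex.norm_I, mul_one, Complex.norm_real, Real.norm_eq_abs, abs_lt]
        constructor <;> linarith
  obtain ⟨F, hF, hF2⟩ := glue_hol U (fun o => o.elim θ Θ) hUo (by
      rintro (_ | s)
      · exact hE.θ_diff
      · exact h1 s) (by
      rintro (_ | s) (_ | s') z hz hz'
      · rfl
      · exact ((h3 s' z hz' hz).1).symm
      · exact (h3 s z hz hz').1
      · exact (hcomp s s' z hz hz').1)
  obtain ⟨G, hG, hG2⟩ := glue_hol U (fun o => o.elim H Η) hUo (by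
      rintro (_ | s)
      · exact hE.H_diff
      · exact h2 s) (by
      rintro (_ | s) (_ | s') z hz hz'
      · rfl
      · exact ((h3 s' z hz' hz).2).symm
      · exact (h3 s z hz hz').2
      · exact (hcomp s s' z hz hz').2)
  refine ⟨h0 + c, ⟨by linarith, F, G, isOpen_Str _, (str_conv _).isPreconnected,
    str_mono (by linarith), hF.mono hsub, hG.mono hsub, ?_, ?_⟩, by linarith⟩
  · intro z hz
    rw [hF2 none z (str_mono hη hz)]
    exact hE.θ_eq z hz
  · intro z hz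
    rw [hG2 none z (str_mono hη hz)]
    exact hE.H_eq z hz

end glue

/-- **level 0 of the spine** -/
theorem partCL_of_cases (hA : CaseA) (hB : CaseB) (hE : CaseE) : PartCL := by
  intro q η ρ r B b φ p m₀ hL
  have hD := hL.dat
  by_cases hb : BddAbove (Hts q η)
  · have hne : (Hts q η).Nonempty := ⟨η, eta_mem hD⟩
    set h0 : ℝ := sSup (Hts q η) with hh0
    have hη : η ≤ h0 := le_csSup hb (eta_mem hD)
    obtain ⟨θ, H, hV⟩ := glue_ext hD (V := Str h0) (isOpen_Str h0) (str_conv h0).isPreconnected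
      (str_mono hη) (fun z hz => by
        obtain ⟨h, hh, hlt⟩ := exists_lt_of_lt_csSup hne (show |z.im| < sSup (Hts q η) from hz)
        exact ⟨h, hh, hlt⟩)
    have hsing : ∃ s : ℂ, s.im = h0 ∧ ¬ RegB h0 θ H s := by
      by_contra hcon
      push Not at hcon
      obtain ⟨h, hh, hlt⟩ := extend_of_regular hD hη hV hcon
      exact absurd (le_csSup hb hh) (not_le.2 hlt)
    by_cases hreg : ∃ s : ℂ, s.im = h0 ∧ RegB h0 θ H s
    · exact hA q η ρ r B b φ p m₀ hL θ H h0 hη hV hsing hreg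
    · push Not at hreg
      exact (hB q η ρ r B b φ p m₀ hL θ H h0 hη hV hreg).elim
  · obtain ⟨θ, H, hV⟩ := glue_ext hD (V := univ) isOpen_univ isPreconnected_univ
      (subset_univ _) (fun z _ => by
        rw [not_bddAbove_iff] at hb
        obtain ⟨h, hh, hlt⟩ := hb |z.im|
        exact ⟨h, hh, hlt⟩)
    exact hE q η ρ r B b φ p m₀ hL θ H hV

end Crest.Agent.R102.Spine
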