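import Mathlib

/-!
Row 102, part (C), T7: the maximum principle of the endgame.

A 1-periodic real holomorphic function on the strip `|Im z| < h0` which extends analytically near
every point of the line `Im z = h0` and is even about one point of this line is constant.
-/

set_option autoImplicit false

namespace Crest.Agent.R102.T7M

open Complex Metric Set Filter Topology
open scoped ComplexConjugate

/-- the strip -/
def Sg (h0 : ℝ) : Set ℂ := {z | |z.im| < h0}

lemma isOpen_Sg (h0 : ℝ) : IsOpen (Sg h0) :=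
  isOpen_lt (continuous_abs.comp Complex.continuous_im) continuous_const

/-- `g` continues `K` analytically over `s` -/
def Ext (h0 : ℝ) (K : ℂ → ℂ) (s : ℂ) (r : ℝ) (g : ℂ → ℂ) : Prop :=
  0 < r ∧ DifferentiableOn ℂ g (ball s r) ∧ ∀ z ∈ ball s r, |z.im| < h0 → g z = K z

/-- the points of a ball centred on the line just below the centre -/
lemma below_mem {h0 : ℝ} (hh : 0 < h0) {s : ℂ} (hs : s.im = h0) {r : ℝ} (hr : 0 < r) :
    ∃ t : ℝ, 0 < t ∧ ∀ t' : ℝ, 0 < t' → t' ≤ t →
      s - t' * I ∈ ball s r ∧ |(s - t' * I).im| < h0 := by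
  refine ⟨min (r / 2) (h0 / 2), by positivity, ?_⟩
  intro t' h1 h2
  have h3 : t' ≤ r / 2 := h2.trans (min_le_left _ _)
  have h4 : t' ≤ h0 / 2 := h2.trans (min_le_right _ _)
  constructor
  · rw [mem_ball, dist_eq_norm]
    have : s - t' * I - s = -(t' * I) := by ring
    rw [this, norm_neg, norm_mul, Complex.norm_I, mul_one, Complex.norm_real,
      Real.norm_of_nonneg h1.le]
    linarith
  · have : (s - t' * I).im = h0 - t' := by simp [hs]
    rw [this, abs_lt]
    constructor <;> linarith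

/-- two analytic functions on a ball centred on the line which agree below the line (near one
point of the intersection of the two balls) agree -/
lemma eq_of_ext {h0 : ℝ} (hh : 0 < h0) {K : ℂ → ℂ} {s s' : ℂ} (hs : s.im = h0) (hs' : s'.im = h0)
    {r r' : ℝ} {g g' : ℂ → ℂ} (hg : Ext h0 K s r g) (hg' : Ext h0 K s' r' g') :
    EqOn g g' (ball s r ∩ ball s' r') := by
  intro z hz
  set U := ball s r ∩ ball s' r' with hU
  have hUo : IsOpen U := isOpen_ball.inter isOpen_ball
  have hUc : Convex ℝ U := (convex_ball s r).inter (convex_ball s' r')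
  -- the projection of `z` to the line lies in `U`
  have hpr : ∀ (c : ℂ) (ρ : ℝ), c.im = h0 → z ∈ ball c ρ → ((z.re : ℂ) + h0 * I) ∈ ball c ρ := by
    intro c ρ hc hzc
    rw [mem_ball, dist_eq_norm] at hzc ⊢
    refine lt_of_le_of_lt ?_ hzc
    have h1 : ((z.re : ℂ) + h0 * I) - c = ((z.re - c.re : ℝ) : ℂ) := by
      apply Complex.ext
      · simp
      · simp [hc]
    rw [h1, Complex.norm_real, Real.norm_eq_abs]
    have := Complex.abs_re_le_norm (z - c)
    simpa using this
  set p : ℂ := (z.re : ℂ) + h0 * I with hp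
  have hpU : p ∈ U := ⟨hpr s r hs hz.1, hpr s' r' hs' hz.2⟩
  have hpim : p.im = h0 := by simp [hp]
  obtain ⟨ρ, hρ, hball⟩ := Metric.isOpen_iff.1 hUo p hpU
  -- a point below
  obtain ⟨t, ht, htt⟩ := below_mem hh hpim hρ
  have hq := htt t ht le_rfl
  set q : ℂ := p - t * I with hqdef
  have hqU : q ∈ U := hball hq.1
  have hev : g =ᶠ[𝓝 q] g' := by
    have hopen : IsOpen (U ∩ Sg h0) := hUo.inter (isOpen_Sg h0)
    filter_upwards [hopen.mem_nhds ⟨hqU, hq.2⟩] with x hx
    rw [hg.2.2 x hx.1.1 hx.2, hg'.2.2 x hx.1.2 hx.2]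
  have ha : AnalyticOnNhd ℂ g U :=
    (hg.2.1.mono inter_subset_left).analyticOnNhd hUo
  have ha' : AnalyticOnNhd ℂ g' U :=
    (hg'.2.1.mono inter_subset_right).analyticOnNhd hUo
  exact ha.eqOn_of_preconnected_of_eventuallyEq ha' hUc.isPreconnected hqU hev hz

/-- the double strip -/
def Dd (h0 : ℝ) : Set ℂ := {z | -h0 < z.im ∧ z.im < 3 * h0}

lemma isOpen_Dd (h0 : ℝ) : IsOpen (Dd h0) :=
  (isOpen_lt continuous_const Complex.continuous_im).inter
    (isOpen_lt Complex.continuous_im continuous_const)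

lemma convex_Dd (h0 : ℝ) : Convex ℝ (Dd h0) := by
  have h1 : Convex ℝ {z : ℂ | -h0 < z.im} := convex_halfSpace_im_gt _
  have h2 : Convex ℝ {z : ℂ | z.im < 3 * h0} := convex_halfSpace_im_lt _
  exact h1.inter h2

/-- **T7, maximum principle** -/
theorem const_of_even {h0 : ℝ} (hh : 0 < h0) {K : ℂ → ℂ}
    (hK : DifferentiableOn ℂ K (Sg h0))
    (hper : ∀ z ∈ Sg h0, K (z + 1) = K z)
    (hcj : ∀ z ∈ Sg h0, K (conj z) = conj (K z))
    (hloc : ∀ s : ℂ, s.im = h0 → ∃ r g, Ext h0 K s r g)
    {b : ℂ} (hb : b.im = h0) {rb : ℝ} {gb : ℂ → ℂ} (hgb : Ext h0 K b rb gb)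
    (heven : ∀ ζ : ℂ, ‖ζ‖ < rb → gb (b + ζ) = gb (b - ζ)) :
    ∃ c : ℝ, ∀ z ∈ Sg h0, K z = c := by
  classical
  choose! r g hrg using hloc
  have h2b : ∀ s : ℂ, s.im = h0 → (2 * b - s).im = h0 := by
    intro s hs
    simp [hb, hs]; ring
  -- the symmetry near the line
  let σ : ℝ → ℂ := fun x => (x : ℂ) + h0 * I
  have hσ : ∀ x, (σ x).im = h0 := by intro x; simp [σ]
  let ρ : ℝ → ℝ := fun x => min (r (σ x)) (r (2 * b - σ x))
  have hρ : ∀ x, 0 < ρ x := fun x =>
    lt_min (hrg _ (hσ x)).1 (hrg _ (h2b _ (hσ x))).1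
  let P : ℝ → Prop := fun x => ∀ z ∈ ball (σ x) (ρ x), g (σ x) z = g (2 * b - σ x) (2 * b - z)
  have hrefl : ∀ (x : ℝ) (z : ℂ), z ∈ ball (σ x) (ρ x) →
      2 * b - z ∈ ball (2 * b - σ x) (r (2 * b - σ x)) := by
    intro x z hz
    rw [mem_ball, dist_eq_norm] at hz ⊢
    have : 2 * b - z - (2 * b - σ x) = -(z - σ x) := by ring
    rw [this, norm_neg]
    exact lt_of_lt_of_le hz (min_le_right _ _)
  have hleft : ∀ (x : ℝ) (z : ℂ), z ∈ ball (σ x) (ρ x) → z ∈ ball (σ x) (r (σ x)) :=
    fun x z hz => ball_subset_ball (min_le_left _ _) hz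
  have hφ : ∀ x, AnalyticOnNhd ℂ (g (σ x)) (ball (σ x) (ρ x)) := fun x =>
    ((hrg _ (hσ x)).2.1.mono (ball_subset_ball (min_le_left _ _))).analyticOnNhd isOpen_ball
  have hψ : ∀ x, AnalyticOnNhd ℂ (fun z => g (2 * b - σ x) (2 * b - z)) (ball (σ x) (ρ x)) := by
    intro x
    refine DifferentiableOn.analyticOnNhd ?_ isOpen_ball
    exact (hrg _ (h2b _ (hσ x))).2.1.comp
      ((differentiable_const _).sub differentiable_id).differentiableOn (hrefl x)
  have hstep : ∀ x x' : ℝ, (ball (σ x) (ρ x) ∩ ball (σ x') (ρ x')).Nonempty → P x → P x' := by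
    rintro x x' ⟨p, hp, hp'⟩ hP
    have hev : g (σ x') =ᶠ[𝓝 p] fun z => g (2 * b - σ x') (2 * b - z) := by
      filter_upwards [(isOpen_ball.inter isOpen_ball).mem_nhds
        (show p ∈ ball (σ x) (ρ x) ∩ ball (σ x') (ρ x') from ⟨hp, hp'⟩)] with z hz
      have e1 : g (σ x) z = g (σ x') z :=
        eq_of_ext hh (hσ x) (hσ x') (hrg _ (hσ x)) (hrg _ (hσ x'))
          ⟨hleft x z hz.1, hleft x' z hz.2⟩
      have e2 : g (2 * b - σ x) (2 * b - z) = g (2 * b - σ x') (2 * b - z) :=
        eq_of_ext hh (h2b _ (hσ x)) (h2b _ (hσ x')) (hrg _ (h2b _ (hσ x))) (hrg _ (h2b _ (hσ x')))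
          ⟨hrefl x z hz.1, hrefl x' z hz.2⟩
      rw [← e1, hP z hz.1, e2]
    intro z hz
    exact (hφ x').eqOn_of_preconnected_of_eventuallyEq (hψ x')
      (convex_ball _ _).isPreconnected hp' hev hz
  have hcontσ : Continuous σ := by fun_prop
  have hnear : ∀ x : ℝ, ∀ᶠ x' in 𝓝 x, (ball (σ x) (ρ x) ∩ ball (σ x') (ρ x')).Nonempty := by
    intro x
    filter_upwards [hcontσ.continuousAt.preimage_mem_nhds (ball_mem_nhds (σ x) (hρ x))] with x' hx'
    exact ⟨σ x', hx', mem_ball_self (hρ x')⟩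
  have hclopen : IsClopen {x : ℝ | P x} := by
    constructor
    · rw [← isOpen_compl_iff, isOpen_iff_mem_nhds]
      intro x hx
      filter_upwards [hnear x] with x' hx' hP
      exact hx (hstep x' x (by rwa [inter_comm]) hP)
    · rw [isOpen_iff_mem_nhds]
      intro x hx
      filter_upwards [hnear x] with x' hx'
      exact hstep x x' hx' hx
  have hσb : σ b.re = b := by
    apply Complex.ext
    · simp [σ]
    · simp [σ, hb]
  have hPb : P b.re := by
    have hev : g (σ b.re) =ᶠ[𝓝 (σ b.re)] fun z => g (2 * b - σ b.re) (2 * b - z) := by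
      rw [hσb, show 2 * b - b = b by ring]
      have hm : min (r b) rb > 0 := lt_min (hrg _ hb).1 hgb.1
      filter_upwards [ball_mem_nhds b hm] with z hz
      have hz1 : z ∈ ball b (r b) := ball_subset_ball (min_le_left _ _) hz
      have hz2 : z ∈ ball b rb := ball_subset_ball (min_le_right _ _) hz
      have hr : ∀ ρ', z ∈ ball b ρ' → 2 * b - z ∈ ball b ρ' := by
        intro ρ' hz
        rw [mem_ball, dist_eq_norm] at hz ⊢
        rwa [show 2 * b - z - b = -(z - b) by ring, norm_neg]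
      have e1 : g b z = gb z := eq_of_ext hh hb hb (hrg _ hb) hgb ⟨hz1, hz2⟩
      have e2 : g b (2 * b - z) = gb (2 * b - z) :=
        eq_of_ext hh hb hb (hrg _ hb) hgb ⟨hr _ hz1, hr _ hz2⟩
      have e3 := heven (z - b) (by rwa [mem_ball, dist_eq_norm] at hz2)
      rw [show b + (z - b) = z by ring, show b - (z - b) = 2 * b - z by ring] at e3
      rw [e1, e2, e3]
    intro z hz
    exact (hφ b.re).eqOn_of_preconnected_of_eventuallyEq (hψ b.re)
      (convex_ball _ _).isPreconnected (mem_ball_self (hρ _)) hev hz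
  have hall : ∀ x, P x := by
    have : {x : ℝ | P x} = univ := hclopen.eq_univ ⟨b.re, hPb⟩
    intro x
    have hx : x ∈ {x : ℝ | P x} := by rw [this]; trivial
    exact hx
  -- the function on the double strip
  let F : ℂ → ℂ := fun z => if z.im < h0 then K z else if z.im = h0 then g z z else K (2 * b - z)
  have hmem2 : ∀ z : ℂ, h0 < z.im → z.im < 3 * h0 → 2 * b - z ∈ Sg h0 := by
    intro z h1 h2
    have : (2 * b - z).im = 2 * h0 - z.im := by simp [hb]
    show |(2 * b - z).im| < h0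
    rw [this, abs_lt]
    constructor <;> linarith
  have hmem1 : ∀ z : ℂ, -h0 < z.im → z.im < h0 → z ∈ Sg h0 := fun z h1 h2 => abs_lt.2 ⟨h1, h2⟩
  have hσre : ∀ s : ℂ, s.im = h0 → σ s.re = s := by
    intro s hs
    apply Complex.ext
    · simp [σ]
    · simp [σ, hs]
  have hline : ∀ s : ℂ, s.im = h0 → F =ᶠ[𝓝 s] g s := by
    intro s hs
    have hP := hall s.re
    simp only [P, hσre s hs] at hP
    have hρs := hρ s.re
    have hleft' := hleft s.re
    have hrefl' := hrefl s.re
    rw [hσre s hs] at hleft' hrefl'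
    have hpos : -h0 < s.im := by rw [hs]; linarith
    have hpos' : s.im < 3 * h0 := by rw [hs]; linarith
    filter_upwards [ball_mem_nhds s hρs, (isOpen_Dd h0).mem_nhds ⟨hpos, hpos'⟩] with z hz hzD
    show (if z.im < h0 then K z else if z.im = h0 then g z z else K (2 * b - z)) = g s z
    split_ifs with c1 c2
    · exact ((hrg _ hs).2.2 z (hleft' z hz) (hmem1 z hzD.1 c1)).symm
    · exact eq_of_ext hh c2 hs (hrg _ c2) (hrg _ hs)
        ⟨mem_ball_self (hrg _ c2).1, hleft' z hz⟩
    · have c3 : h0 < z.im := lt_of_le_of_ne (not_lt.1 c1) (fun h => c2 h.symm)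
      rw [hP z hz, (hrg _ (h2b _ hs)).2.2 _ (hrefl' z hz) (hmem2 z c3 hzD.2)]
  have hFd : DifferentiableOn ℂ F (Dd h0) := by
    intro z hz
    refine DifferentiableAt.differentiableWithinAt ?_
    rcases lt_trichotomy z.im h0 with h | h | h
    · have hKz : DifferentiableAt ℂ K z :=
        (hK z (hmem1 z hz.1 h)).differentiableAt ((isOpen_Sg h0).mem_nhds (hmem1 z hz.1 h))
      refine hKz.congr_of_eventuallyEq ?_
      filter_upwards [(isOpen_lt Complex.continuous_im continuous_const).mem_nhds h] with x hx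
      show (if x.im < h0 then K x else if x.im = h0 then g x x else K (2 * b - x)) = K x
      rw [if_pos hx]
    · have := (hrg _ h).2.1 z (mem_ball_self (hrg _ h).1)
      exact (this.differentiableAt (ball_mem_nhds _ (hrg _ h).1)).congr_of_eventuallyEq
        (hline z h)
    · have hm := hmem2 z h hz.2
      have hKz : DifferentiableAt ℂ K (2 * b - z) :=
        (hK _ hm).differentiableAt ((isOpen_Sg h0).mem_nhds hm)
      have h3 : DifferentiableAt ℂ (fun x => K (2 * b - x)) z :=
        DifferentiableAt.comp z hKz ((differentiableAt_const _).sub differentiableAt_id)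
      refine h3.congr_of_eventuallyEq ?_
      filter_upwards [(isOpen_lt continuous_const Complex.continuous_im).mem_nhds h] with x hx
      show (if x.im < h0 then K x else if x.im = h0 then g x x else K (2 * b - x)) = _
      rw [if_neg (not_lt.2 (le_of_lt hx)), if_neg (ne_of_gt hx)]
  have hSD : Sg h0 ⊆ Dd h0 := by
    intro z hz
    have := abs_lt.1 (show |z.im| < h0 from hz)
    exact ⟨this.1, by linarith [this.2]⟩
  have hFK : ∀ z ∈ Sg h0, F z = K z := by
    intro z hz
    have := abs_lt.1 (show |z.im| < h0 from hz)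
    show (if z.im < h0 then K z else if z.im = h0 then g z z else K (2 * b - z)) = K z
    rw [if_pos this.2]
  have h0D : (0 : ℂ) ∈ Dd h0 := ⟨by simp [hh], by simp [hh]⟩
  have h0S : (0 : ℂ) ∈ Sg h0 := by simp [Sg, hh]
  have hDpre : IsPreconnected (Dd h0) := (convex_Dd h0).isPreconnected
  have hFan : AnalyticOnNhd ℂ F (Dd h0) := hFd.analyticOnNhd (isOpen_Dd h0)
  have hFper : ∀ z ∈ Dd h0, F (z + 1) = F z := by
    have h1 : AnalyticOnNhd ℂ (fun z => F (z + 1)) (Dd h0) := by
      refine DifferentiableOn.analyticOnNhd ?_ (isOpen_Dd h0)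
      refine hFd.comp (differentiable_id.add (differentiable_const _)).differentiableOn ?_
      intro z hz
      simpa [Dd] using hz
    have hev : (fun z => F (z + 1)) =ᶠ[𝓝 (0 : ℂ)] F := by
      filter_upwards [(isOpen_Sg h0).mem_nhds h0S] with z hz
      have hz1 : z + 1 ∈ Sg h0 := by simpa [Sg] using hz
      rw [hFK z hz, hFK _ hz1, hper z hz]
    exact fun z hz => h1.eqOn_of_preconnected_of_eventuallyEq hFan hDpre h0D hev hz
  have hFperZ : ∀ (n : ℤ) (z : ℂ), z ∈ Dd h0 → F (z + n) = F z := by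
    intro n
    induction n using Int.induction_on with
    | zero => intro z _; simp
    | succ n ih =>
      intro z hz
      have hz' : z + (n : ℂ) ∈ Dd h0 := by simpa [Dd] using hz
      have := hFper (z + n) hz'
      push_cast
      rw [← add_assoc, this]
      exact_mod_cast ih z hz
    | pred n ih =>
      intro z hz
      have hz' : z + ((-n - 1 : ℤ) : ℂ) ∈ Dd h0 := by simpa [Dd] using hz
      have := hFper _ hz'
      rw [← this, ← ih z hz]
      congr 1
      push_cast
      ring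
  -- the maximum over a rectangle
  let Q : Set ℂ := Icc (0 : ℝ) 1 ×ℂ Icc (0 : ℝ) h0
  have hQc : IsCompact Q := isCompact_Icc.reProdIm isCompact_Icc
  have hQne : Q.Nonempty := ⟨0, by simp [Q, mem_reProdIm, hh.le]⟩
  have hQD : Q ⊆ Dd h0 := by
    intro z hz
    rw [mem_reProdIm] at hz
    exact ⟨by linarith [hz.2.1], by linarith [hz.2.2]⟩
  obtain ⟨p, hpQ, hpmax⟩ := hQc.exists_isMaxOn hQne
    ((hFd.continuousOn.mono hQD).norm)
  have hpD := hQD hpQ
  have hb1 : ∀ z : ℂ, 0 ≤ z.im → z.im ≤ h0 → ‖F z‖ ≤ ‖F p‖ := by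
    intro z h1 h2
    have hzD : z ∈ Dd h0 := ⟨by linarith, by linarith⟩
    have hz' : z + ((-⌊z.re⌋ : ℤ) : ℂ) ∈ Q := by
      rw [mem_reProdIm]
      refine ⟨⟨?_, ?_⟩, ?_, ?_⟩
      · have := Int.floor_le z.re
        simp; linarith
      · have := Int.lt_floor_add_one z.re
        simp; linarith
      · simpa using h1
      · simpa using h2
    have := hpmax hz'
    simp only [mem_ofPred_eq] at this
    rwa [hFperZ _ z hzD] at this
  have hb2 : ∀ z ∈ Sg h0, ‖K z‖ ≤ ‖F p‖ := by
    intro z hz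
    have h1 := abs_lt.1 (show |z.im| < h0 from hz)
    rcases le_total 0 z.im with h | h
    · rw [← hFK z hz]
      exact hb1 z h h1.2.le
    · have hz' : conj z ∈ Sg h0 := by simpa [Sg] using hz
      have h2 : ‖K z‖ = ‖K (conj z)‖ := by rw [hcj z hz, RCLike.norm_conj]
      rw [h2, ← hFK _ hz']
      exact hb1 _ (by simpa using h) (by simp; linarith)
  have hmaxD : IsMaxOn (norm ∘ F) (Dd h0) p := by
    intro z hz
    simp only [mem_ofPred_eq, Function.comp]
    rcases lt_trichotomy z.im h0 with h | h | h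
    · rw [hFK z (hmem1 z hz.1 h)]
      exact hb2 z (hmem1 z hz.1 h)
    · exact hb1 z (by rw [h]; exact hh.le) h.le
    · have : F z = K (2 * b - z) := by
        show (if z.im < h0 then K z else if z.im = h0 then g z z else K (2 * b - z)) = _
        rw [if_neg (not_lt.2 (le_of_lt h)), if_neg (ne_of_gt h)]
      rw [this]
      exact hb2 _ (hmem2 z h hz.2)
  have hconst := Complex.eqOn_of_isPreconnected_of_isMaxOn_norm hDpre (isOpen_Dd h0) hFd hpD hmaxD
  have hKc : ∀ z ∈ Sg h0, K z = F p := by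
    intro z hz
    rw [← hFK z hz]
    exact hconst (hSD hz)
  refine ⟨(F p).re, fun z hz => ?_⟩
  have h1 := hcj 0 h0S
  rw [map_zero, hKc 0 h0S] at h1
  have h2 : ((F p).re : ℂ) = F p := Complex.conj_eq_iff_re.1 h1.symm
  rw [hKc z hz, h2]

end Crest.Agent.R102.T7M
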