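import Mathlib
import Crest.Agent.R102.T7Max_416

/-!
Row 102, part (C), T7 (finite height): the invariant `K = y''/y + 2 y^2` in the line category.

* `exists_K` : `y, H` holomorphic with `y H'' - y' H' + y^3 H = c ≠ 0` : `K` is holomorphic
  (also at the zeros of `y`, where the curve goes through the line at infinity).
* `nice_K` : at an isotropic tangency `y = a F'/F`, `a^2 = -1`, `F` odd with simple zero,
  `K = F'''/F' - 3 F''/F` is analytic and even.
* `T7_fin` : if every point of the top line is regular or nice, and one is nice, `K` is constant.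
-/

set_option autoImplicit false

namespace Crest.Agent.R102.T7M

open Complex Metric Set Filter Topology
open scoped ComplexConjugate

/-- second derivative -/
noncomputable abbrev d2 (f : ℂ → ℂ) : ℂ → ℂ := deriv (deriv f)

lemma diffOn_deriv {Ω : Set ℂ} (hΩ : IsOpen Ω) {f : ℂ → ℂ} (hf : DifferentiableOn ℂ f Ω) :
    DifferentiableOn ℂ (deriv f) Ω := hf.deriv hΩ

lemma diffAt_of {Ω : Set ℂ} (hΩ : IsOpen Ω) {f : ℂ → ℂ} (hf : DifferentiableOn ℂ f Ω) {z : ℂ}
    (hz : z ∈ Ω) : DifferentiableAt ℂ f z := (hf z hz).differentiableAt (hΩ.mem_nhds hz)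

/-- the derivative of the normalisation `y H'' - y' H' + y^3 H = c` -/
lemma rel_deriv {Ω : Set ℂ} (hΩ : IsOpen Ω) {y H : ℂ → ℂ} {c : ℂ}
    (hy : DifferentiableOn ℂ y Ω) (hH : DifferentiableOn ℂ H Ω)
    (hrel : ∀ z ∈ Ω, y z * d2 H z - deriv y z * deriv H z + y z ^ 3 * H z = c) :
    ∀ z ∈ Ω, y z * deriv (d2 H) z - d2 y z * deriv H z + 3 * y z ^ 2 * deriv y z * H z +
      y z ^ 3 * deriv H z = 0 := by
  intro z hz
  have h0 := (diffAt_of hΩ hy hz).hasDerivAt
  have h1 := (diffAt_of hΩ (diffOn_deriv hΩ hy) hz).hasDerivAt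
  have g0 := (diffAt_of hΩ hH hz).hasDerivAt
  have g1 := (diffAt_of hΩ (diffOn_deriv hΩ hH) hz).hasDerivAt
  have g2 := (diffAt_of hΩ (diffOn_deriv hΩ (diffOn_deriv hΩ hH)) hz).hasDerivAt
  have hd := ((h0.mul g2).sub (h1.mul g1)).add ((h0.pow 3).mul g0)
  have hc : (fun z => y z * d2 H z - deriv y z * deriv H z + y z ^ 3 * H z) =ᶠ[𝓝 z]
      fun _ => c := by
    filter_upwards [hΩ.mem_nhds hz] with x hx
    exact hrel x hx
  have h3 : HasDerivAt (fun z => y z * d2 H z - deriv y z * deriv H z + y z ^ 3 * H z) 0 z :=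
    (hasDerivAt_const z c).congr_of_eventuallyEq hc
  have h4 := hd.unique h3
  simp only [Nat.cast_ofNat, Nat.add_one_sub_one, Pi.pow_apply] at h4
  linear_combination h4

/-- **(K-HOL)** -/
theorem exists_K {Ω : Set ℂ} (hΩ : IsOpen Ω) {y H : ℂ → ℂ} {c : ℂ} (hc : c ≠ 0)
    (hy : DifferentiableOn ℂ y Ω) (hH : DifferentiableOn ℂ H Ω)
    (hrel : ∀ z ∈ Ω, y z * d2 H z - deriv y z * deriv H z + y z ^ 3 * H z = c) :
    ∃ K : ℂ → ℂ, DifferentiableOn ℂ K Ω ∧ ∀ z ∈ Ω, K z * y z = d2 y z + 2 * y z ^ 3 := by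
  classical
  have hrd := rel_deriv hΩ hy hH hrel
  let K1 : ℂ → ℂ := fun z => (d2 y z + 2 * y z ^ 3) / y z
  let K2 : ℂ → ℂ := fun z => (deriv (d2 H) z + 3 * y z * deriv y z * H z) / deriv H z +
    3 * y z ^ 2
  have hK12 : ∀ z ∈ Ω, y z ≠ 0 → deriv H z ≠ 0 → K1 z = K2 z := by
    intro z hz h1 h2
    have := hrd z hz
    simp only [K1, K2]
    field_simp
    linear_combination -this
  have hH0 : ∀ z ∈ Ω, y z = 0 → deriv H z ≠ 0 := by
    intro z hz h0 h1
    have := hrel z hz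
    rw [h0, h1] at this
    simp at this
    exact hc this.symm
  have hK1d : ∀ z ∈ Ω, y z ≠ 0 → DifferentiableAt ℂ K1 z := by
    intro z hz h0
    have h2 := diffAt_of hΩ (diffOn_deriv hΩ (diffOn_deriv hΩ hy)) hz
    have h1 := diffAt_of hΩ hy hz
    exact (h2.add ((differentiableAt_const _).mul (h1.pow 3))).div h1 h0
  have hK2d : ∀ z ∈ Ω, deriv H z ≠ 0 → DifferentiableAt ℂ K2 z := by
    intro z hz h0
    have g3 := diffAt_of hΩ (diffOn_deriv hΩ (diffOn_deriv hΩ (diffOn_deriv hΩ hH))) hz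
    have g1 := diffAt_of hΩ (diffOn_deriv hΩ hH) hz
    have g0 := diffAt_of hΩ hH hz
    have f0 := diffAt_of hΩ hy hz
    have f1 := diffAt_of hΩ (diffOn_deriv hΩ hy) hz
    exact ((g3.add ((((differentiableAt_const _).mul f0).mul f1).mul g0)).div g1 h0).add
      ((differentiableAt_const _).mul (f0.pow 2))
  refine ⟨fun z => if y z = 0 then K2 z else K1 z, ?_, ?_⟩
  · intro z hz
    refine DifferentiableAt.differentiableWithinAt ?_
    by_cases h0 : y z = 0
    · have hne := hH0 z hz h0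
      have hev : ∀ᶠ x in 𝓝 z, deriv H x ≠ 0 :=
        (diffAt_of hΩ (diffOn_deriv hΩ hH) hz).continuousAt.eventually_ne hne
      refine (hK2d z hz hne).congr_of_eventuallyEq ?_
      filter_upwards [hev, hΩ.mem_nhds hz] with x hx hxΩ
      by_cases hx0 : y x = 0
      · simp [hx0]
      · simp only [if_neg hx0]
        exact hK12 x hxΩ hx0 hx
    · have hev : ∀ᶠ x in 𝓝 z, y x ≠ 0 := (diffAt_of hΩ hy hz).continuousAt.eventually_ne h0
      refine (hK1d z hz h0).congr_of_eventuallyEq ?_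
      filter_upwards [hev] with x hx
      simp only [if_neg hx]
  · intro z hz
    by_cases h0 : y z = 0
    · have h1 := hrd z hz
      rw [h0] at h1 ⊢
      have h2 := hH0 z hz h0
      have h3 : d2 y z = 0 := by
        have : d2 y z * deriv H z = 0 := by linear_combination -h1
        exact (mul_eq_zero.1 this).resolve_right h2
      rw [h3]; ring
    · simp only [if_neg h0, K1]
      field_simp

/-- local form of `y` at an isotropic tangency -/
structure Nice (h0 : ℝ) (y : ℂ → ℂ) (s : ℂ) (r : ℝ) (a : ℂ) (F : ℂ → ℂ) : Prop where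
  r_pos : 0 < r
  a_sq : a ^ 2 = -1
  diff : DifferentiableOn ℂ F (ball s r)
  odd : ∀ ζ : ℂ, ‖ζ‖ < r → F (s + ζ) = -F (s - ζ)
  simple : deriv F s ≠ 0
  eq : ∀ z ∈ ball s r, |z.im| < h0 → y z * F z = a * deriv F z

lemma deriv_odd {F : ℂ → ℂ} {s : ℂ} {r : ℝ} {ε : ℂ}
    (ho : ∀ ζ : ℂ, ‖ζ‖ < r → F (s + ζ) = ε * F (s - ζ)) :
    ∀ ζ : ℂ, ‖ζ‖ < r → deriv F (s + ζ) = (-ε) * deriv F (s - ζ) := by
  intro ζ hζ
  have h1 : (fun x => F (s + x)) =ᶠ[𝓝 ζ] fun x => ε * F (s - x) := by
    have : {x : ℂ | ‖x‖ < r} ∈ 𝓝 ζ := (isOpen_lt continuous_norm continuous_const).mem_nhds hζ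
    filter_upwards [this] with x hx
    exact ho x hx
  have h2 := h1.deriv_eq
  rw [deriv_comp_const_add, deriv_const_mul_field, deriv_comp_const_sub] at h2
  rw [h2]; ring

/-- **(NICE)** `K` at an isotropic tangency -/
theorem nice_K {h0 : ℝ} {y K : ℂ → ℂ}
    (hK : ∀ z ∈ Sg h0, K z * y z = d2 y z + 2 * y z ^ 3) {s : ℂ} (hs : s.im = h0)
    {r : ℝ} {a : ℂ} {F : ℂ → ℂ} (hN : Nice h0 y s r a F) :
    ∃ r' g, Ext h0 K s r' g ∧ ∀ ζ : ℂ, ‖ζ‖ < r' → g (s + ζ) = g (s - ζ) := by
  have hB : IsOpen (ball s r) := isOpen_ball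
  have hsB : s ∈ ball s r := mem_ball_self hN.r_pos
  have F0 := hN.diff
  have F1 := diffOn_deriv hB F0
  have F2 := diffOn_deriv hB F1
  have F3 := diffOn_deriv hB F2
  have o0 : ∀ ζ : ℂ, ‖ζ‖ < r → F (s + ζ) = (-1) * F (s - ζ) := by
    intro ζ hζ; rw [hN.odd ζ hζ]; ring
  have o1 := deriv_odd o0
  have o2 := deriv_odd o1
  have o3 := deriv_odd o2
  have hFs : F s = 0 := by
    have := o0 0 (by simpa using hN.r_pos)
    simp at this
    have h2 : (2 : ℂ) * F s = 0 := by linear_combination this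
    simpa using h2
  have hF2s : deriv (deriv F) s = 0 := by
    have := o2 0 (by simpa using hN.r_pos)
    simp at this
    have h2 : (2 : ℂ) * deriv (deriv F) s = 0 := by linear_combination this
    simpa using h2
  -- the quotients
  let D0 : ℂ → ℂ := dslope F s
  let D2 : ℂ → ℂ := dslope (deriv (deriv F)) s
  have hD0 : DifferentiableOn ℂ D0 (ball s r) :=
    (Complex.differentiableOn_dslope (hB.mem_nhds hsB)).2 F0
  have hD2 : DifferentiableOn ℂ D2 (ball s r) :=
    (Complex.differentiableOn_dslope (hB.mem_nhds hsB)).2 F2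
  have hD0s : D0 s = deriv F s := dslope_same _ _
  have c1 : ∀ᶠ z in 𝓝 s, deriv F z ≠ 0 :=
    (diffAt_of hB F1 hsB).continuousAt.eventually_ne hN.simple
  have c2 : ∀ᶠ z in 𝓝 s, D0 z ≠ 0 :=
    (diffAt_of hB hD0 hsB).continuousAt.eventually_ne (by rw [hD0s]; exact hN.simple)
  obtain ⟨r1, hr1, hr1'⟩ := Metric.eventually_nhds_iff_ball.1 (c1.and c2)
  set r' := min r r1 with hr'
  have hr'pos : 0 < r' := lt_min hN.r_pos hr1
  have sub1 : ball s r' ⊆ ball s r := ball_subset_ball (min_le_left _ _)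
  have sub2 : ∀ z ∈ ball s r', deriv F z ≠ 0 ∧ D0 z ≠ 0 := fun z hz =>
    hr1' z (ball_subset_ball (min_le_right _ _) hz)
  have e0 : ∀ z, F z = (z - s) * D0 z := by
    intro z
    have := sub_smul_dslope F s z
    rw [hFs, sub_zero] at this
    rw [← this, smul_eq_mul]
  have e2 : ∀ z, deriv (deriv F) z = (z - s) * D2 z := by
    intro z
    have := sub_smul_dslope (deriv (deriv F)) s z
    rw [hF2s, sub_zero] at this
    rw [← this, smul_eq_mul]
  let g : ℂ → ℂ := fun z => deriv (deriv (deriv F)) z / deriv F z - 3 * (D2 z / D0 z)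
  have hg : DifferentiableOn ℂ g (ball s r') :=
    ((F3.mono sub1).div (F1.mono sub1) (fun z hz => (sub2 z hz).1)).sub
      ((differentiableOn_const _).mul
        ((hD2.mono sub1).div (hD0.mono sub1) (fun z hz => (sub2 z hz).2)))
  refine ⟨r', g, ⟨hr'pos, hg, ?_⟩, ?_⟩
  · intro z hz hzS
    have hzs : z ≠ s := by
      rintro rfl
      rw [hs] at hzS
      have := abs_lt.1 hzS
      linarith [this.2]
    have hzs' : z - s ≠ 0 := sub_ne_zero.2 hzs
    obtain ⟨n1, n2⟩ := sub2 z hz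
    have hFz : F z ≠ 0 := by rw [e0]; exact mul_ne_zero hzs' n2
    -- `y = a F'/F` near `z`
    have hev : y =ᶠ[𝓝 z] fun x => a * deriv F x / F x := by
      have hFc : ∀ᶠ x in 𝓝 z, F x ≠ 0 :=
        (diffAt_of hB F0 (sub1 hz)).continuousAt.eventually_ne hFz
      filter_upwards [hFc, (isOpen_Sg h0).mem_nhds (show z ∈ Sg h0 from hzS),
        hB.mem_nhds (sub1 hz)] with x hx1 hx2 hx3
      rw [eq_div_iff hx1]
      exact hN.eq x hx3 hx2
    -- derivatives
    have hnb : ∀ᶠ x in 𝓝 z, F x ≠ 0 ∧ x ∈ ball s r :=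
      ((diffAt_of hB F0 (sub1 hz)).continuousAt.eventually_ne hFz).and (hB.mem_nhds (sub1 hz))
    have hd1 : deriv y =ᶠ[𝓝 z] fun x => a * (deriv (deriv F) x / F x -
        deriv F x ^ 2 / F x ^ 2) := by
      have := hev.deriv
      refine this.trans ?_
      filter_upwards [hnb] with x hx
      have q0 := (diffAt_of hB F0 hx.2).hasDerivAt
      have q1 := (diffAt_of hB F1 hx.2).hasDerivAt
      have q2 := ((q1.const_mul a).div q0 hx.1).deriv
      rw [show (fun x => a * deriv F x / F x) = (fun x => a * deriv F x) / F from rfl, q2]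
      have := hx.1
      field_simp
    have hd2 : d2 y z = a * (deriv (deriv (deriv F)) z / F z - 3 * deriv (deriv F) z *
        deriv F z / F z ^ 2 + 2 * deriv F z ^ 3 / F z ^ 3) := by
      show deriv (deriv y) z = _
      rw [hd1.deriv_eq]
      have q0 := (diffAt_of hB F0 (sub1 hz)).hasDerivAt
      have q1 := (diffAt_of hB F1 (sub1 hz)).hasDerivAt
      have q2 := (diffAt_of hB F2 (sub1 hz)).hasDerivAt
      have q3 := (((q2.div q0 hFz).sub ((q1.pow 2).div (q0.pow 2)
        (pow_ne_zero 2 hFz))).const_mul a)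
      have q4 := q3.deriv
      have q5 : (fun x => a * (deriv (deriv F) x / F x - deriv F x ^ 2 / F x ^ 2)) =
        (fun x => a * ((deriv (deriv F) / F - deriv F ^ 2 / F ^ 2) x)) := rfl
      rw [q5, q4]
      simp only [Pi.pow_apply]
      field_simp
      ring
    have hyz : y z = a * deriv F z / F z := hev.eq_of_nhds
    have ha0 : a ≠ 0 := by
      intro h; have := hN.a_sq; rw [h] at this; norm_num at this
    have hyne : y z ≠ 0 := by
      rw [hyz]; exact div_ne_zero (mul_ne_zero ha0 n1) hFz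
    have hKz := hK z hzS
    have hgz : g z * y z = d2 y z + 2 * y z ^ 3 := by
      have hq : D2 z / D0 z = deriv (deriv F) z / F z := by
        rw [e0 z, e2 z, mul_div_mul_left _ _ hzs']
      simp only [g]
      rw [hq, hd2, hyz]
      have ha3 : a ^ 3 = -a := by
        have := hN.a_sq
        calc a ^ 3 = a ^ 2 * a := by ring
          _ = -a := by rw [this]; ring
      have : 2 * (a * deriv F z / F z) ^ 3 = -2 * a * deriv F z ^ 3 / F z ^ 3 := by
        rw [div_pow, mul_pow, ha3]; ring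
      rw [this]
      field_simp
      ring
    exact mul_right_cancel₀ hyne (hgz.trans hKz.symm)
  · intro ζ hζ
    have hζr : ‖ζ‖ < r := lt_of_lt_of_le hζ (min_le_left _ _)
    by_cases h0 : ζ = 0
    · simp [h0]
    · have hp : s + ζ ∈ ball s r' := by simpa [mem_ball, dist_eq_norm] using hζ
      have hm : s - ζ ∈ ball s r' := by simpa [mem_ball, dist_eq_norm] using hζ
      have a1 := o1 ζ hζr
      have a3 := o3 ζ hζr
      have a0 := o0 ζ hζr
      have a2 := o2 ζ hζr
      have b0 : D0 (s + ζ) = D0 (s - ζ) := by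
        have k1 := e0 (s + ζ)
        have k2 := e0 (s - ζ)
        rw [k1, k2] at a0
        have : ζ * D0 (s + ζ) = ζ * D0 (s - ζ) := by linear_combination a0
        exact mul_left_cancel₀ h0 this
      have b2 : D2 (s + ζ) = D2 (s - ζ) := by
        have k1 := e2 (s + ζ)
        have k2 := e2 (s - ζ)
        rw [k1, k2] at a2
        have : ζ * D2 (s + ζ) = ζ * D2 (s - ζ) := by linear_combination a2
        exact mul_left_cancel₀ h0 this
      simp only [g]
      rw [b0, b2, a1, a3]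
      simp

/-- `(y, H)` extends analytically over `s` -/
def Reg (h0 : ℝ) (y H : ℂ → ℂ) (s : ℂ) : Prop :=
  ∃ r > 0, ∃ y1 H1 : ℂ → ℂ, DifferentiableOn ℂ y1 (ball s r) ∧ DifferentiableOn ℂ H1 (ball s r) ∧
    ∀ z ∈ ball s r, |z.im| < h0 → y1 z = y z ∧ H1 z = H z

lemma reg_K {h0 : ℝ} (hh : 0 < h0) {y H K : ℂ → ℂ} {c : ℂ} (hc : c ≠ 0)
    (hy : DifferentiableOn ℂ y (Sg h0))
    (hrel : ∀ z ∈ Sg h0, y z * d2 H z - deriv y z * deriv H z + y z ^ 3 * H z = c)
    (hKd : DifferentiableOn ℂ K (Sg h0))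
    (hK : ∀ z ∈ Sg h0, K z * y z = d2 y z + 2 * y z ^ 3) {s : ℂ} (hs : s.im = h0)
    (hR : Reg h0 y H s) : ∃ r g, Ext h0 K s r g := by
  obtain ⟨r, hr, y1, H1, hy1, hH1, heq⟩ := hR
  have hB : IsOpen (ball s r) := isOpen_ball
  -- the relation on the ball
  have hloc : ∀ x ∈ ball s r ∩ Sg h0, y1 =ᶠ[𝓝 x] y ∧ H1 =ᶠ[𝓝 x] H := by
    intro x hx
    constructor <;> filter_upwards [(hB.inter (isOpen_Sg h0)).mem_nhds hx] with z hz
    · exact (heq z hz.1 hz.2).1
    · exact (heq z hz.1 hz.2).2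
  have hrelS : ∀ x ∈ ball s r ∩ Sg h0,
      y1 x * d2 H1 x - deriv y1 x * deriv H1 x + y1 x ^ 3 * H1 x = c := by
    intro x hx
    obtain ⟨h1, h2⟩ := hloc x hx
    have e1 : deriv y1 x = deriv y x := h1.deriv_eq
    have e2 : deriv H1 x = deriv H x := h2.deriv_eq
    have e3 : d2 H1 x = d2 H x := h2.deriv.deriv_eq
    rw [e1, e2, e3, h1.eq_of_nhds, h2.eq_of_nhds]
    exact hrel x hx.2
  obtain ⟨t, ht, htt⟩ := below_mem hh hs hr
  have hq := htt t ht le_rfl
  have hW : AnalyticOnNhd ℂ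
      (fun x => y1 x * d2 H1 x - deriv y1 x * deriv H1 x + y1 x ^ 3 * H1 x) (ball s r) := by
    refine DifferentiableOn.analyticOnNhd ?_ hB
    exact ((hy1.mul (diffOn_deriv hB (diffOn_deriv hB hH1))).sub
      ((diffOn_deriv hB hy1).mul (diffOn_deriv hB hH1))).add ((hy1.pow 3).mul hH1)
  have hrelB : ∀ x ∈ ball s r,
      y1 x * d2 H1 x - deriv y1 x * deriv H1 x + y1 x ^ 3 * H1 x = c := by
    have hev : (fun x => y1 x * d2 H1 x - deriv y1 x * deriv H1 x + y1 x ^ 3 * H1 x)
        =ᶠ[𝓝 (s - t * I)] fun _ => c := by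
      filter_upwards [(hB.inter (isOpen_Sg h0)).mem_nhds ⟨hq.1, hq.2⟩] with z hz
      exact hrelS z hz
    exact hW.eqOn_of_preconnected_of_eventuallyEq analyticOnNhd_const
      (convex_ball _ _).isPreconnected hq.1 hev
  obtain ⟨K1, hK1d, hK1⟩ := exists_K hB hc hy1 hH1 hrelB
  refine ⟨r, K1, hr, hK1d, ?_⟩
  intro z hz hzS
  -- agreement: where `y ≠ 0`, and by continuity elsewhere
  have hU : IsOpen (ball s r ∩ Sg h0) := hB.inter (isOpen_Sg h0)
  have hzU : z ∈ ball s r ∩ Sg h0 := ⟨hz, hzS⟩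
  have hyan : AnalyticAt ℂ y z := hy.analyticAt ((isOpen_Sg h0).mem_nhds hzS)
  have hne : ∀ᶠ x in 𝓝[≠] z, y x ≠ 0 := by
    rcases hyan.eventually_eq_zero_or_eventually_ne_zero with h | h
    · exfalso
      have h1 : y =ᶠ[𝓝 z] fun _ => 0 := h
      have e1 : deriv y z = 0 := by rw [h1.deriv_eq]; simp
      have := hrel z hzS
      rw [h.self_of_nhds, e1] at this
      simp at this
      exact hc this.symm
    · exact h
  have hev : K1 =ᶠ[𝓝[≠] z] K := by
    filter_upwards [hne, mem_nhdsWithin_of_mem_nhds (hU.mem_nhds hzU)] with x hx hxU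
    obtain ⟨h1, h2⟩ := hloc x hxU
    have e1 : y1 x = y x := h1.eq_of_nhds
    have e2 : d2 y1 x = d2 y x := h1.deriv.deriv_eq
    have k1 := hK1 x hxU.1
    rw [e1, e2, ← hK x hxU.2] at k1
    exact mul_right_cancel₀ hx k1
  have hc1 : ContinuousAt K1 z := (diffAt_of hB hK1d hz).continuousAt
  have hc2 : ContinuousAt K z := (diffAt_of (isOpen_Sg h0) hKd hzS).continuousAt
  have t1 : Tendsto K1 (𝓝[≠] z) (𝓝 (K1 z)) := hc1.tendsto.mono_left nhdsWithin_le_nhds
  have t2 : Tendsto K (𝓝[≠] z) (𝓝 (K z)) := hc2.tendsto.mono_left nhdsWithin_le_nhds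
  exact tendsto_nhds_unique t1 (t2.congr' hev.symm)

/-- **T7, finite height**: every point of the top line is regular or an isotropic tangency, and
there is one isotropic tangency: `K` is constant. -/
theorem T7_fin {h0 : ℝ} (hh : 0 < h0) {y H : ℂ → ℂ} {c : ℂ} (hc : c ≠ 0)
    (hy : DifferentiableOn ℂ y (Sg h0)) (hH : DifferentiableOn ℂ H (Sg h0))
    (hrel : ∀ z ∈ Sg h0, y z * d2 H z - deriv y z * deriv H z + y z ^ 3 * H z = c)
    (hper : ∀ z ∈ Sg h0, y (z + 1) = y z)
    (hcj : ∀ z ∈ Sg h0, y (conj z) = conj (y z))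
    (htop : ∀ s : ℂ, s.im = h0 → Reg h0 y H s ∨ ∃ r a F, Nice h0 y s r a F)
    {b : ℂ} (hb : b.im = h0) {rb : ℝ} {ab : ℂ} {Fb : ℂ → ℂ} (hnb : Nice h0 y b rb ab Fb) :
    ∃ k : ℝ, ∀ z ∈ Sg h0, d2 y z = (k - 2 * y z ^ 2) * y z := by
  have hSo := isOpen_Sg h0
  obtain ⟨K, hKd, hK⟩ := exists_K hSo hc hy hH hrel
  have hyne : ∀ z ∈ Sg h0, ∀ᶠ x in 𝓝[≠] z, y x ≠ 0 := by
    intro z hz
    have hyan : AnalyticAt ℂ y z := hy.analyticAt (hSo.mem_nhds hz)
    rcases hyan.eventually_eq_zero_or_eventually_ne_zero with h | h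
    · exfalso
      have h1 : y =ᶠ[𝓝 z] fun _ => 0 := h
      have e1 : deriv y z = 0 := by rw [h1.deriv_eq]; simp
      have := hrel z hz
      rw [h.self_of_nhds, e1] at this
      simp at this
      exact hc this.symm
    · exact h
  -- a principle: an identity for K follows from the identity multiplied by y
  have huniq : ∀ {K' : ℂ → ℂ}, ContinuousOn K' (Sg h0) →
      (∀ z ∈ Sg h0, K' z * y z = d2 y z + 2 * y z ^ 3) → ∀ z ∈ Sg h0, K' z = K z := by
    intro K' hK' he z hz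
    have hev : K' =ᶠ[𝓝[≠] z] K := by
      filter_upwards [hyne z hz, mem_nhdsWithin_of_mem_nhds (hSo.mem_nhds hz)] with x hx hxS
      have := he x hxS
      rw [← hK x hxS] at this
      exact mul_right_cancel₀ hx this
    have t1 : Tendsto K' (𝓝[≠] z) (𝓝 (K' z)) :=
      (hK'.continuousAt (hSo.mem_nhds hz)).tendsto.mono_left nhdsWithin_le_nhds
    have t2 : Tendsto K (𝓝[≠] z) (𝓝 (K z)) :=
      ((hKd.continuousOn).continuousAt (hSo.mem_nhds hz)).tendsto.mono_left nhdsWithin_le_nhds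
    exact tendsto_nhds_unique t1 (t2.congr' hev.symm)
  have hS1 : ∀ z ∈ Sg h0, z + 1 ∈ Sg h0 := fun z hz => by simpa [Sg] using hz
  have hSc : ∀ z ∈ Sg h0, conj z ∈ Sg h0 := fun z hz => by simpa [Sg] using hz
  have hyper : ∀ z ∈ Sg h0, d2 y (z + 1) = d2 y z := by
    intro z hz
    have h1 : (fun x => y (x + 1)) =ᶠ[𝓝 z] y := by
      filter_upwards [hSo.mem_nhds hz] with x hx
      exact hper x hx
    have h2 := h1.deriv.deriv_eq
    have e1 : deriv (fun x => y (x + 1)) = fun x => deriv y (x + 1) := by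
      funext x; exact deriv_comp_add_const y 1 x
    rw [e1, deriv_comp_add_const (deriv y) 1 z] at h2
    exact h2
  have hycj : ∀ z ∈ Sg h0, d2 y (conj z) = conj (d2 y z) := by
    intro z hz
    have h1 : (fun x => conj (y (conj x))) =ᶠ[𝓝 z] y := by
      filter_upwards [hSo.mem_nhds hz] with x hx
      rw [hcj x hx, Complex.conj_conj]
    have h2 := h1.deriv.deriv_eq
    have e1 : ∀ f : ℂ → ℂ, deriv (fun x => conj (f (conj x))) = fun x => conj (deriv f (conj x)) := by
      intro f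
      exact deriv_conj_conj (f := f)
    rw [e1, e1] at h2
    show deriv (deriv y) (conj z) = conj (deriv (deriv y) z)
    rw [← h2, Complex.conj_conj]
  have hKper : ∀ z ∈ Sg h0, K (z + 1) = K z := by
    refine huniq (K' := fun z => K (z + 1)) ?_ ?_
    · exact hKd.continuousOn.comp (by fun_prop) hS1
    · intro z hz
      have := hK (z + 1) (hS1 z hz)
      rw [hper z hz, hyper z hz] at this
      exact this
  have hKcj : ∀ z ∈ Sg h0, K (conj z) = conj (K z) := by
    have h1 : ∀ z ∈ Sg h0, conj (K (conj z)) = K z := by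
      refine huniq (K' := fun z => conj (K (conj z))) ?_ ?_
      · exact Complex.continuous_conj.comp_continuousOn
          (hKd.continuousOn.comp Complex.continuous_conj.continuousOn hSc)
      · intro z hz
        have := congrArg conj (hK (conj z) (hSc z hz))
        rw [map_mul, map_add, map_mul, map_pow, hycj z hz, hcj z hz, Complex.conj_conj,
          Complex.conj_conj, map_ofNat] at this
        exact this
    intro z hz
    rw [← h1 z hz, Complex.conj_conj]
  have hloc : ∀ s : ℂ, s.im = h0 → ∃ r g, Ext h0 K s r g := by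
    intro s hs
    rcases htop s hs with h | ⟨r, a, F, h⟩
    · exact reg_K hh hc hy hrel hKd hK hs h
    · obtain ⟨r', g, h1, _⟩ := nice_K hK hs h
      exact ⟨r', g, h1⟩
  obtain ⟨r', g, h1, h2⟩ := nice_K hK hb hnb
  obtain ⟨k, hk⟩ := const_of_even hh hKd hKper hKcj hloc hb h1 h2
  refine ⟨k, fun z hz => ?_⟩
  have := hK z hz
  rw [hk z hz] at this
  linear_combination -this

end Crest.Agent.R102.T7M
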