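import Mathlib
import Crest.Agent.R102.Spine_478
import Crest.Agent.R102.Mer_88
import Crest.Agent.R102.T7K_416

/-!
Row 102, part (C): literal statements of the blocks (spine, level 1).

* `AlgC q`    : the complexified curve is algebraic;
* `MeroB`, `PuisB`, `NiceB` : `(e^{iθ}, H)` is meromorphic / Puiseux / nice at a top line point;
* `RatCont`   : (RAT) in (t, w) coordinates (926, 217);
* `AMer`      : Case A, not algebraic: `(e^{iθ}, H)` is meromorphic at every top line point (88);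
* `Pui`       : algebraic: Puiseux at every top line point (151);
* `T5`        : a Puiseux top line point is regular or nice (160, 490);
* `T1B`, `T1E`: good real irrational `w0` (547/812, 758);
* `BEnd`, `EEnd` : the end of Cases B, E (312, 798);
* `EAlg`      : `(θ, H)` entire and algebraic (151).
-/

set_option autoImplicit false

open Set Filter Topology Metric
open scoped ComplexConjugate

noncomputable section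

namespace Crest.Agent.R102.Spine

open Crest.Agent.R102.T5 Crest.Agent.R102.G576 Crest.Agent.R102.A929 Crest.Agent.R102.B821
open Crest.Agent.R102.C0 Crest.Agent.R102.C1 Crest.Agent.R102.Mer88

/-- the complexified curve `z ↦ (Zs q (-1) z, Zs q 1 z)` is algebraic -/
def AlgC (q : C(ℂ, ℂ)) : Prop :=
  ∃ P : MvPolynomial (Fin 2) ℂ, P ≠ 0 ∧
    ∀ᶠ z in 𝓝 (0 : ℂ), MvPolynomial.eval ![Zs q (-1) z, Zs q 1 z] P = 0

/-- `(e^{iθ}, H)` is meromorphic at the boundary point `s` of `Str h0` -/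
def MeroB (h0 : ℝ) (θ H : ℂ → ℂ) (s : ℂ) : Prop :=
  ∃ E F : ℂ → ℂ, MeromorphicAt E s ∧ MeromorphicAt F s ∧
    ∀ᶠ z in 𝓝 s, |z.im| < h0 → E z = Complex.exp (Complex.I * θ z) ∧ F z = H z

/-- `(e^{iθ}, H)` is a Puiseux germ at the boundary point `s` (`s.im = h0`) of `Str h0`;
`u = (i (z - s))^(1/n)`, principal branch (`re (i (z - s)) > 0` for `z.im < h0`) -/
def PuisB (h0 : ℝ) (θ H : ℂ → ℂ) (s : ℂ) : Prop :=
  ∃ n : ℕ, 0 < n ∧ ∃ E F : ℂ → ℂ, MeromorphicAt E 0 ∧ MeromorphicAt F 0 ∧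
    ∀ᶠ z in 𝓝 s, |z.im| < h0 →
      E ((Complex.I * (z - s)) ^ (1 / (n : ℂ))) = Complex.exp (Complex.I * θ z) ∧
      F ((Complex.I * (z - s)) ^ (1 / (n : ℂ))) = H z

/-- the boundary point `s` is a nice (simple isotropic) tangency -/
def NiceB (h0 : ℝ) (θ : ℂ → ℂ) (s : ℂ) : Prop :=
  ∃ (r : ℝ) (a : ℂ) (F : ℂ → ℂ), T7M.Nice h0 (deriv θ) s r a F

/-- all data of Cases A, B -/
structure DataS (q : C(ℂ, ℂ)) (η ρ r B : ℝ) (b φ p : ℂ × ℂ → ℂ) (m₀ : ℂ → ℂ) (θ H : ℂ → ℂ)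
    (h0 : ℝ) : Prop where
  fam : LineFam q η ρ r B b φ p m₀
  le : η ≤ h0
  ext : VExt q η (Str h0) θ H

/-- all data of Case E -/
structure DataE (q : C(ℂ, ℂ)) (η ρ r B : ℝ) (b φ p : ℂ × ℂ → ℂ) (m₀ : ℂ → ℂ) (θ H : ℂ → ℂ) :
    Prop where
  fam : LineFam q η ρ r B b φ p m₀
  ext : VExt q η univ θ H

/-- **(RAT)** in the coordinates `(t, w)` -/
def RatCont : Prop :=
  ∀ (q : C(ℂ, ℂ)) (η ρ r B : ℝ) (b φ p : ℂ × ℂ → ℂ) (m₀ : ℂ → ℂ),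
    LineFam q η ρ r B b φ p m₀ → ¬ AlgC q →
    ∀ (N : ℕ) (Ω : Set (ℂ × ℂ)) (x0 : ℂ × ℂ) (G : Fin 4 → ℂ × ℂ → ℂ),
      IsOpen Ω → IsPreconnected Ω → x0 ∈ Ω → x0 ∈ PD ρ r → (x0.1 + N * x0.2, x0.2) ∈ PD ρ r →
      (∀ i, ∀ c ∈ Ω, MerAt (G i) c) →
      (∀ᶠ x in 𝓝 x0, G 0 x = Complex.exp (Complex.I * φ x) ∧ G 1 x = p x ∧
        G 2 x = Complex.exp (Complex.I * φ (x.1 + N * x.2, x.2)) ∧
        G 3 x = p (x.1 + N * x.2, x.2)) →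
      ∀ j ≤ N, ∃ E P : ℂ × ℂ → ℂ, (∀ c ∈ Ω, MerAt E c ∧ MerAt P c) ∧
        ∀ᶠ x in 𝓝 x0, E x = Complex.exp (Complex.I * φ (x.1 + j * x.2, x.2)) ∧
          P x = p (x.1 + j * x.2, x.2)

/-- **Case A, not algebraic** -/
def AMer : Prop :=
  ∀ (q : C(ℂ, ℂ)) (η ρ r B : ℝ) (b φ p : ℂ × ℂ → ℂ) (m₀ : ℂ → ℂ) (θ H : ℂ → ℂ) (h0 : ℝ),
    DataS q η ρ r B b φ p m₀ θ H h0 → ¬ AlgC q → (∃ s : ℂ, s.im = h0 ∧ RegB h0 θ H s) →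
    ∀ s : ℂ, s.im = h0 → MeroB h0 θ H s

/-- **algebraic curves**: Puiseux at every point of the top line -/
def Pui : Prop :=
  ∀ (q : C(ℂ, ℂ)) (η ρ r B : ℝ) (b φ p : ℂ × ℂ → ℂ) (m₀ : ℂ → ℂ) (θ H : ℂ → ℂ) (h0 : ℝ),
    DataS q η ρ r B b φ p m₀ θ H h0 → AlgC q → ∀ s : ℂ, s.im = h0 → PuisB h0 θ H s

/-- **T5** -/
def T5S : Prop :=
  ∀ (q : C(ℂ, ℂ)) (η ρ r B : ℝ) (b φ p : ℂ × ℂ → ℂ) (m₀ : ℂ → ℂ) (θ H : ℂ → ℂ) (h0 : ℝ),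
    DataS q η ρ r B b φ p m₀ θ H h0 → (∀ s : ℂ, s.im = h0 → PuisB h0 θ H s) →
    ∀ s : ℂ, s.im = h0 → RegB h0 θ H s ∨ NiceB h0 θ s

/-- vertical tube from the real line up to the point `(s, w0)` -/
def Tube (s w0 : ℂ) (e : ℝ) : Set (ℂ × ℂ) :=
  {x | |x.1.re - s.re| < e ∧ -e < x.1.im ∧ x.1.im < s.im + e ∧ ‖x.2 - w0‖ < e}

/-- `f`, given on `PD ρ r`, continues holomorphically along a vertical tube up to `(s, w0)`,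
with values in `V` -/
def RegAt (ρ r : ℝ) (f : ℂ × ℂ → ℂ) (V : Set ℂ) (s w0 : ℂ) : Prop :=
  ∃ e > 0, ∃ G : ℂ × ℂ → ℂ, DifferentiableOn ℂ G (Tube s w0 e) ∧ (∀ x ∈ Tube s w0 e, G x ∈ V) ∧
    ∀ x ∈ Tube s w0 e, x ∈ PD ρ r → G x = f x

/-- the line `l` is regular at `(s, w0)` -/
def RegL (ρ r : ℝ) (φ p : ℂ × ℂ → ℂ) (s w0 : ℂ) : Prop :=
  RegAt ρ r φ univ s w0 ∧ RegAt ρ r p univ s w0

/-- `w0` is real irrational, `0 < w0 < r`; `U` = height of the first singular line of `l(·, w0)`;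
below `U` the lines and the labels (with values in `S`) are regular, and some point at height `U`
is regular for the lines. -/
def GoodW (ρ r : ℝ) (b φ p : ℂ × ℂ → ℂ) (S : Set ℂ) (w0 : ℝ) : Prop :=
  Irrational w0 ∧ 0 < w0 ∧ w0 < r ∧ ∃ U : ℝ, 0 < U ∧
    (∀ s : ℂ, 0 ≤ s.im → s.im < U → RegL ρ r φ p s w0 ∧ RegAt ρ r b S s w0) ∧
    (∃ s : ℂ, s.im = U ∧ ¬ RegL ρ r φ p s w0) ∧ (∃ s : ℂ, s.im = U ∧ RegL ρ r φ p s w0)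

/-- **T1-B** -/
def T1B : Prop :=
  ∀ (q : C(ℂ, ℂ)) (η ρ r B : ℝ) (b φ p : ℂ × ℂ → ℂ) (m₀ : ℂ → ℂ) (θ H : ℂ → ℂ) (h0 : ℝ),
    DataS q η ρ r B b φ p m₀ θ H h0 → (∀ s : ℂ, s.im = h0 → ¬ RegB h0 θ H s) →
    ¬ {w0 : ℝ | GoodW ρ r b φ p (Str h0) w0}.Countable

/-- **end of Case B** -/
def BEnd : Prop :=
  ∀ (q : C(ℂ, ℂ)) (η ρ r B : ℝ) (b φ p : ℂ × ℂ → ℂ) (m₀ : ℂ → ℂ) (θ H : ℂ → ℂ) (h0 : ℝ),
    DataS q η ρ r B b φ p m₀ θ H h0 → (∀ s : ℂ, s.im = h0 → ¬ RegB h0 θ H s) → ¬ AlgC q →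
    {w0 : ℝ | GoodW ρ r b φ p (Str h0) w0}.Countable

/-- **T1-E** -/
def T1E : Prop :=
  ∀ (q : C(ℂ, ℂ)) (η ρ r B : ℝ) (b φ p : ℂ × ℂ → ℂ) (m₀ : ℂ → ℂ) (θ H : ℂ → ℂ),
    DataE q η ρ r B b φ p m₀ θ H → ¬ Concl q → ¬ {w0 : ℝ | GoodW ρ r b φ p univ w0}.Countable

/-- **end of Case E** -/
def EEnd : Prop :=
  ∀ (q : C(ℂ, ℂ)) (η ρ r B : ℝ) (b φ p : ℂ × ℂ → ℂ) (m₀ : ℂ → ℂ) (θ H : ℂ → ℂ),
    DataE q η ρ r B b φ p m₀ θ H → ¬ AlgC q → ¬ Concl q →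
    {w0 : ℝ | GoodW ρ r b φ p univ w0}.Countable

/-- **Case E, algebraic** -/
def EAlg : Prop :=
  ∀ (q : C(ℂ, ℂ)) (η ρ r B : ℝ) (b φ p : ℂ × ℂ → ℂ) (m₀ : ℂ → ℂ) (θ H : ℂ → ℂ),
    DataE q η ρ r B b φ p m₀ θ H → AlgC q → Concl q

/-- Case E from its blocks -/
theorem caseE_of (h1 : T1E) (h2 : EEnd) (h3 : EAlg) : CaseE := by
  intro q η ρ r B b φ p m₀ hL θ H hV
  have hD : DataE q η ρ r B b φ p m₀ θ H := ⟨hL, hV⟩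
  by_cases ha : AlgC q
  · exact h3 q η ρ r B b φ p m₀ θ H hD ha
  · by_contra hc
    exact h1 q η ρ r B b φ p m₀ θ H hD hc (h2 q η ρ r B b φ p m₀ θ H hD ha hc)

end Crest.Agent.R102.Spine
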