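import Mathlib
import Crest.Agent.R102.SpineDefs_478
import Crest.Agent.R102.KontD_669

/-!
Row 102, T1-B, outer joint, part A (helper559): the bridge between the regularity of the spine
(`Spine.RegAt`, vertical tubes from the real line) and the official sheets (`K669.IsReg`).
-/

set_option autoImplicit false

open Set Filter Topology Metric
open scoped ComplexConjugate

noncomputable section

namespace Crest.Agent.R102.Out559

open Crest.Agent.R102.T5 Crest.Agent.R102.C0 Crest.Agent.R102.C1 Crest.Agent.R102.K669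

variable {ρ r y1 y0 r' : ℝ}

/-- the sheet of the lines -/
def OmL (φ p : ℂ × ℂ → ℂ) (y1 y0 r' : ℝ) : Set (ℂ × ℂ) :=
  {x | IsReg (fun x => (φ x, p x)) (univ : Set (ℂ × ℂ)) y1 y0 (ball 0 r') x}

/-- the sheet of the labels -/
def OmX (b : ℂ × ℂ → ℂ) (S : Set ℂ) (y1 y0 r' : ℝ) : Set (ℂ × ℂ) :=
  {x | IsReg b S y1 y0 (ball 0 r') x}

lemma isOpen_OmL {φ p : ℂ × ℂ → ℂ} : IsOpen (OmL φ p y1 y0 r') := isOpen_isReg

lemma isOpen_OmX {b : ℂ × ℂ → ℂ} {S : Set ℂ} : IsOpen (OmX b S y1 y0 r') := isOpen_isReg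

lemma slab_sub (h1 : -ρ ≤ y1) (h0 : y0 ≤ ρ) (hr : r' ≤ r) :
    Slab y1 y0 (ball 0 r') ⊆ PD ρ r := by
  rintro ⟨t, w⟩ ⟨a1, a2, a3⟩
  refine ⟨abs_lt.2 ⟨lt_of_le_of_lt h1 a1, lt_of_lt_of_le a2 h0⟩, ?_⟩
  rw [mem_ball_zero_iff] at a3
  exact lt_of_lt_of_le a3 hr

lemma isOpen_PD : IsOpen (PD ρ r) := by
  have h1 : Continuous (fun q : ℂ × ℂ => |q.1.im|) := by fun_prop
  have h2 : Continuous (fun q : ℂ × ℂ => ‖q.2‖) := by fun_prop
  exact (isOpen_lt h1 continuous_const).inter (isOpen_lt h2 continuous_const)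

lemma isOpen_STube {s w0 : ℂ} {e : ℝ} : IsOpen (Spine.Tube s w0 e) := by
  have h1 : Continuous (fun q : ℂ × ℂ => |q.1.re - s.re|) := by fun_prop
  have h2 : Continuous (fun q : ℂ × ℂ => q.1.im) := by fun_prop
  have h3 : Continuous (fun q : ℂ × ℂ => ‖q.2 - w0‖) := by fun_prop
  exact IsOpen.inter (isOpen_lt h1 continuous_const) (IsOpen.inter
    (isOpen_lt continuous_const h2) (IsOpen.inter
    (isOpen_lt h2 continuous_const) (isOpen_lt h3 continuous_const)))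

/-- from the spine to the sheet -/
lemma isReg_of_regAt {f : ℂ × ℂ → ℂ} {V : Set ℂ} (hf : DifferentiableOn ℂ f (PD ρ r))
    (hV : ∀ x ∈ PD ρ r, f x ∈ V) (hρ : 0 < ρ) (h1 : -ρ ≤ y1) (h0 : y0 ≤ ρ) (hr : r' ≤ r)
    {s w0 : ℂ} (hw : ‖w0‖ < r') (h : Spine.RegAt ρ r f V s w0) :
    IsReg f V y1 y0 (ball 0 r') (s, w0) := by
  obtain ⟨e, he, G, hG, hGV, hGf⟩ := h
  classical
  set ε := min e (r' - ‖w0‖) with hε
  have hε0 : 0 < ε := lt_min he (by linarith)
  have hεe : ε ≤ e := min_le_left _ _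
  have hεr : ε ≤ r' - ‖w0‖ := min_le_right _ _
  have hball : ball w0 ε ⊆ ball 0 r' := by
    intro z hz
    rw [mem_ball, dist_eq_norm] at hz
    rw [mem_ball_zero_iff]
    have := norm_add_le (z - w0) w0
    rw [sub_add_cancel] at this
    linarith
  -- points of the tube
  have hT : ∀ x ∈ K669.Tube y1 (s, w0) ε, -e < x.1.im → x ∈ Spine.Tube s w0 e := by
    rintro x ⟨a1, a2, a3, a4⟩ h
    exact ⟨a1.trans_le hεe, h, lt_of_lt_of_le a3 (by simpa using hεe), a4.trans_le hεe⟩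
  have hn : ∀ x ∈ K669.Tube y1 (s, w0) ε, ‖x.2‖ < r := by
    rintro x ⟨a1, a2, a3, a4⟩
    have h2 : x.2 ∈ ball w0 ε := by rw [mem_ball, dist_eq_norm]; exact a4
    have h3 := hball h2
    rw [mem_ball_zero_iff] at h3
    exact lt_of_lt_of_le h3 hr
  have hP : ∀ x ∈ K669.Tube y1 (s, w0) ε, x.1.im < ρ → x ∈ PD ρ r := by
    intro x hx h
    exact ⟨abs_lt.2 ⟨lt_of_le_of_lt h1 hx.2.1, h⟩, hn x hx⟩
  refine ⟨ε, hε0, hball, fun x => if x.1.im < 0 then f x else G x, ?_, ?_, ?_⟩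
  · intro x hx
    refine DifferentiableAt.differentiableWithinAt ?_
    have hto := (isOpen_tube y1 (s, w0) ε).mem_nhds hx
    have hc : Continuous (fun z : ℂ × ℂ => z.1.im) := by fun_prop
    rcases lt_or_ge x.1.im 0 with hneg | hpos
    · have h2 : DifferentiableAt ℂ f x :=
        hf.differentiableAt (isOpen_PD.mem_nhds (hP x hx (by linarith)))
      refine h2.congr_of_eventuallyEq ?_
      filter_upwards [(isOpen_lt hc continuous_const).mem_nhds hneg] with z hz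
      have hz' : z.1.im < 0 := hz
      simp only [if_pos hz']
    · have h2 : DifferentiableAt ℂ G x :=
        hG.differentiableAt (isOpen_STube.mem_nhds (hT x hx (by linarith)))
      refine h2.congr_of_eventuallyEq ?_
      have h3 : {z : ℂ × ℂ | -e < z.1.im} ∈ 𝓝 x :=
        (isOpen_lt continuous_const hc).mem_nhds (by change -e < x.1.im; linarith)
      filter_upwards [h3, hto] with z hz hzt
      split_ifs with h4
      · exact (hGf z (hT z hzt hz) (hP z hzt (by linarith))).symm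
      · rfl
  · intro x hx
    by_cases h4 : x.1.im < 0
    · simp only [if_pos h4]
      exact hV x (hP x hx (by linarith))
    · simp only [if_neg h4]
      exact hGV x (hT x hx (by push Not at h4; linarith))
  · intro x hx hx0
    by_cases h4 : x.1.im < 0
    · simp only [if_pos h4]
    · simp only [if_neg h4]
      exact hGf x (hT x hx (by push Not at h4; linarith)) (hP x hx (lt_of_lt_of_le hx0 h0))

/-- a thin rectangle is convex -/
lemma convex_rect (a b c d : ℝ) : Convex ℝ {t : ℂ | a < t.re ∧ t.re < b ∧ c < t.im ∧ t.im < d} := by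
  have : {t : ℂ | a < t.re ∧ t.re < b ∧ c < t.im ∧ t.im < d} =
      ({t : ℂ | a < t.re} ∩ {t : ℂ | t.re < b}) ∩ ({t : ℂ | c < t.im} ∩ {t : ℂ | t.im < d}) := by
    ext t
    simp only [mem_inter_iff, Set.mem_ofPred_eq]
    tauto
  rw [this]
  exact ((convex_halfSpace_re_gt _).inter (convex_halfSpace_re_lt _)).inter
    ((convex_halfSpace_im_gt _).inter (convex_halfSpace_im_lt _))

lemma isOpen_rect (a b c d : ℝ) : IsOpen {t : ℂ | a < t.re ∧ t.re < b ∧ c < t.im ∧ t.im < d} :=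
  (isOpen_lt continuous_const Complex.continuous_re).inter
    ((isOpen_lt Complex.continuous_re continuous_const).inter
      ((isOpen_lt continuous_const Complex.continuous_im).inter
        (isOpen_lt Complex.continuous_im continuous_const)))

/-- from the sheet to the spine -/
lemma regAt_of_isReg {f : ℂ × ℂ → ℂ} {V : Set ℂ} (hf : DifferentiableOn ℂ f (PD ρ r))
    (hy1 : y1 < 0) (hy0 : 0 < y0) {s w0 : ℂ}
    (h : IsReg f V y1 y0 (ball 0 r') (s, w0)) : Spine.RegAt ρ r f V s w0 := by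
  obtain ⟨ε, hε, hball, G, hG, hGV, hGf⟩ := h
  set e := min ε (-y1) with he
  have he0 : 0 < e := lt_min hε (by linarith)
  have heε : e ≤ ε := min_le_left _ _
  have hey : e ≤ -y1 := min_le_right _ _
  have hT : ∀ x ∈ Spine.Tube s w0 e, x ∈ K669.Tube y1 (s, w0) ε := by
    rintro x ⟨a1, a2, a3, a4⟩
    exact ⟨a1.trans_le heε, by linarith, by simp only; linarith, a4.trans_le heε⟩
  refine ⟨e, he0, G, hG.mono hT, fun x hx => hGV x (hT x hx), ?_⟩
  intro x hx hxP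
  rcases lt_or_ge x.1.im y0 with hlt | hge
  · exact hGf x (hT x hx) hlt
  -- identity theorem on the vertical slice
  set A : Set ℂ := {t | s.re - e < t.re ∧ t.re < s.re + e ∧ -e < t.im ∧ t.im < s.im + e} ∩
    {t | s.re - e < t.re ∧ t.re < s.re + e ∧ -ρ < t.im ∧ t.im < ρ} with hA
  have hAc : Convex ℝ A := (convex_rect _ _ _ _).inter (convex_rect _ _ _ _)
  have hAo : IsOpen A := (isOpen_rect _ _ _ _).inter (isOpen_rect _ _ _ _)
  have hAT : ∀ t ∈ A, ((t, x.2) : ℂ × ℂ) ∈ Spine.Tube s w0 e := by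
    rintro t ⟨⟨a1, a2, a3, a4⟩, -⟩
    exact ⟨abs_lt.2 ⟨by simp only; linarith, by simp only; linarith⟩, a3, a4, hx.2.2.2⟩
  have hAP : ∀ t ∈ A, ((t, x.2) : ℂ × ℂ) ∈ PD ρ r := by
    rintro t ⟨-, ⟨a1, a2, a3, a4⟩⟩
    exact ⟨abs_lt.2 ⟨a3, a4⟩, hxP.2⟩
  have hx1 := abs_lt.1 hx.1
  have hxP1 := abs_lt.1 hxP.1
  have hxA : x.1 ∈ A := ⟨⟨by linarith, by linarith, hx.2.1, hx.2.2.1⟩,
    ⟨by linarith, by linarith, hxP1.1, hxP1.2⟩⟩
  set tb : ℂ := ⟨x.1.re, y0 / 2⟩ with htb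
  have htbA : tb ∈ A := by
    refine ⟨⟨?_, ?_, ?_, ?_⟩, ⟨?_, ?_, ?_, ?_⟩⟩
    · simp only [htb]; linarith
    · simp only [htb]; linarith
    · simp only [htb]; linarith
    · have := hx.2.2.1
      simp only [htb]; linarith
    · simp only [htb]; linarith
    · simp only [htb]; linarith
    · simp only [htb]; linarith
    · simp only [htb]; linarith
  have hs1 : AnalyticOnNhd ℂ (fun t => G (t, x.2)) A := by
    refine DifferentiableOn.analyticOnNhd ?_ hAo
    intro t ht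
    exact (DifferentiableAt.comp (g := G) (f := fun t : ℂ => ((t, x.2) : ℂ × ℂ)) t
      (hG.differentiableAt ((isOpen_tube y1 (s, w0) ε).mem_nhds (hT _ (hAT t ht))))
      (by fun_prop)).differentiableWithinAt
  have hs2 : AnalyticOnNhd ℂ (fun t => f (t, x.2)) A := by
    refine DifferentiableOn.analyticOnNhd ?_ hAo
    intro t ht
    exact (DifferentiableAt.comp (g := f) (f := fun t : ℂ => ((t, x.2) : ℂ × ℂ)) t
      (hf.differentiableAt (isOpen_PD.mem_nhds (hAP t ht)))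
      (by fun_prop)).differentiableWithinAt
  have hev : (fun t => G (t, x.2)) =ᶠ[𝓝 tb] (fun t => f (t, x.2)) := by
    have h3 : {t : ℂ | t.im < y0} ∈ 𝓝 tb :=
      (isOpen_lt Complex.continuous_im continuous_const).mem_nhds (by
        change y0 / 2 < y0; linarith)
    filter_upwards [h3, hAo.mem_nhds htbA] with t ht htA
    exact hGf _ (hT _ (hAT t htA)) ht
  exact hs1.eqOn_of_preconnected_of_eventuallyEq hs2 hAc.isPreconnected htbA hev hxA

/-- **the bridge** -/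
theorem regAt_iff {f : ℂ × ℂ → ℂ} {V : Set ℂ} (hf : DifferentiableOn ℂ f (PD ρ r))
    (hV : ∀ x ∈ PD ρ r, f x ∈ V) (hρ : 0 < ρ) (h1 : -ρ ≤ y1) (hy1 : y1 < 0) (hy0 : 0 < y0)
    (h0 : y0 ≤ ρ) (hr : r' ≤ r) {s w0 : ℂ} (hw : ‖w0‖ < r') :
    Spine.RegAt ρ r f V s w0 ↔ IsReg f V y1 y0 (ball 0 r') (s, w0) :=
  ⟨isReg_of_regAt hf hV hρ h1 h0 hr hw, regAt_of_isReg hf hy1 hy0⟩

/-- pairs -/
lemma isReg_pair {f g : ℂ × ℂ → ℂ} {W : Set ℂ} {x : ℂ × ℂ} :
    IsReg (fun x => (f x, g x)) (univ : Set (ℂ × ℂ)) y1 y0 W x ↔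
      IsReg f univ y1 y0 W x ∧ IsReg g univ y1 y0 W x := by
  constructor
  · rintro ⟨ε, hε, hW, G, hG, -, hGF⟩
    refine ⟨⟨ε, hε, hW, fun z => (G z).1, fun z hz => (hG z hz).fst, fun _ _ => mem_univ _, ?_⟩,
      ⟨ε, hε, hW, fun z => (G z).2, fun z hz => (hG z hz).snd, fun _ _ => mem_univ _, ?_⟩⟩
    · intro z hz h
      have := hGF z hz h
      simp only at this ⊢
      rw [this]
    · intro z hz h
      have := hGF z hz h
      simp only at this ⊢
      rw [this]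
  · rintro ⟨⟨ε, hε, hW, G, hG, -, hGF⟩, ⟨ε', hε', hW', G', hG', -, hGF'⟩⟩
    have s1 : K669.Tube y1 x (min ε ε') ⊆ K669.Tube y1 x ε := tube_mono (min_le_left _ _)
    have s2 : K669.Tube y1 x (min ε ε') ⊆ K669.Tube y1 x ε' := tube_mono (min_le_right _ _)
    refine ⟨min ε ε', lt_min hε hε', (ball_subset_ball (min_le_left _ _)).trans hW,
      fun z => (G z, G' z), (hG.mono s1).prodMk (hG'.mono s2), fun _ _ => mem_univ _, ?_⟩
    intro z hz h
    have e1 := hGF z (s1 hz) h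
    have e2 := hGF' z (s2 hz) h
    simp only
    rw [e1, e2]

/-- **the bridge for the lines** -/
theorem regL_iff {φ p : ℂ × ℂ → ℂ} (hφ : DifferentiableOn ℂ φ (PD ρ r))
    (hp : DifferentiableOn ℂ p (PD ρ r)) (hρ : 0 < ρ) (h1 : -ρ ≤ y1) (hy1 : y1 < 0) (hy0 : 0 < y0)
    (h0 : y0 ≤ ρ) (hr : r' ≤ r) {s w0 : ℂ} (hw : ‖w0‖ < r') :
    Spine.RegL ρ r φ p s w0 ↔ (s, w0) ∈ OmL φ p y1 y0 r' := by
  unfold Spine.RegL OmL
  rw [regAt_iff hφ (fun _ _ => mem_univ _) hρ h1 hy1 hy0 h0 hr hw,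
    regAt_iff hp (fun _ _ => mem_univ _) hρ h1 hy1 hy0 h0 hr hw]
  exact isReg_pair.symm

end Crest.Agent.R102.Out559
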