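import Mathlib
import Crest.Agent.R102.T1BOutA_559

/-!
Row 102, T1-B, outer joint, part B (helper559): heights.  A label function `β` on a strip
`a < Im < h` with `β(z+1) = β(z)+1`, real on the real line and `Im β < h0` has `h ≤ h0`.
-/

set_option autoImplicit false

open Set Filter Topology Metric MeasureTheory
open scoped ComplexConjugate

noncomputable section

namespace Crest.Agent.R102.Out559

open Crest.Agent.R102.T5 Crest.Agent.R102.C0 Crest.Agent.R102.C1 Crest.Agent.R102.K669

/-- periodic functions on a strip: the integral over a period does not depend on the line -/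
theorem strip_mean {g : ℂ → ℂ} {a b : ℝ} (hg : DifferentiableOn ℂ g {z | a < z.im ∧ z.im < b})
    (hper : ∀ z : ℂ, a < z.im → z.im < b → g (z + 1) = g z) {s s' : ℂ} (hs : a < s.im)
    (hs1 : s.im < b) (hs' : a < s'.im) (hs1' : s'.im < b) :
    ∫ x in (0 : ℝ)..1, g (x + s) = ∫ x in (0 : ℝ)..1, g (x + s') := by
  set c : ℂ := ((a + b) / 2 : ℝ) * Complex.I with hc
  have hcim : c.im = (a + b) / 2 := by rw [hc]; simp
  set g1 : ℂ → ℂ := fun z => g (z + c) with hg1
  have hd : DifferentiableOn ℂ g1 {z | |z.im| < (b - a) / 2} := by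
    intro z hz
    have hz' := abs_lt.1 (show |z.im| < (b - a) / 2 from hz)
    refine DifferentiableAt.differentiableWithinAt ?_
    have hm : z + c ∈ {z : ℂ | a < z.im ∧ z.im < b} := by
      constructor
      · simp only [Complex.add_im, hcim]; linarith
      · simp only [Complex.add_im, hcim]; linarith
    have ho : IsOpen {z : ℂ | a < z.im ∧ z.im < b} :=
      (isOpen_lt continuous_const Complex.continuous_im).inter
        (isOpen_lt Complex.continuous_im continuous_const)
    exact DifferentiableAt.comp (g := g) (f := fun z => z + c) z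
      (hg.differentiableAt (ho.mem_nhds hm)) (by fun_prop)
  have hp : ∀ z : ℂ, |z.im| < (b - a) / 2 → g1 (z + 1) = g1 z := by
    intro z hz
    have hz' := abs_lt.1 hz
    simp only [hg1]
    rw [show z + 1 + c = (z + c) + 1 by ring]
    exact hper _ (by simp only [Complex.add_im, hcim]; linarith)
      (by simp only [Complex.add_im, hcim]; linarith)
  have key : ∀ s : ℂ, a < s.im → s.im < b →
      ∫ x in (0 : ℝ)..1, g (x + s) = ∫ x in (0 : ℝ)..1, g1 x := by
    intro s h1 h2
    rw [← B821.strip_shift hd hp (s := s - c) (by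
      rw [Complex.sub_im, hcim, abs_lt]; constructor <;> linarith)]
    refine intervalIntegral.integral_congr (fun x _ => ?_)
    simp only [hg1]
    congr 1
    ring
  rw [key s hs hs1, key s' hs' hs1']

/-- **the height of the label sheet is at most `h0`** -/
theorem height_le {β : ℂ → ℂ} {a h h0 : ℝ} (ha : a < 0)
    (hd : DifferentiableOn ℂ β {z | a < z.im ∧ z.im < h})
    (hper : ∀ z : ℂ, a < z.im → z.im < h → β (z + 1) = β z + 1)
    (hreal : ∀ x : ℝ, (β x).im = 0)
    (hb : ∀ z : ℂ, a < z.im → z.im < h → (β z).im < h0) (h0p : 0 < h0) : h ≤ h0 := by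
  by_contra hcon
  push Not at hcon
  have hS : IsOpen {z : ℂ | a < z.im ∧ z.im < h} :=
    (isOpen_lt continuous_const Complex.continuous_im).inter
      (isOpen_lt Complex.continuous_im continuous_const)
  set s : ℂ := (h0 : ℂ) * Complex.I with hs
  have hsim : s.im = h0 := by rw [hs]; simp
  have h1 := strip_mean (g := fun z => β z - z) (a := a) (b := h) (hd.sub differentiableOn_id)
    (by
      intro z h1 h2
      rw [hper z h1 h2]; ring) (s := s) (s' := 0) (by rw [hsim]; linarith) (by rw [hsim]; exact hcon)
    (by simpa using ha) (by simp; linarith)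
  -- continuity on horizontal lines
  have hcont : ∀ s : ℂ, a < s.im → s.im < h → Continuous (fun x : ℝ => β (x + s)) := by
    intro s h2 h3
    rw [continuous_iff_continuousAt]
    intro x
    have hm : (x : ℂ) + s ∈ {z : ℂ | a < z.im ∧ z.im < h} := by
      constructor
      · simpa using h2
      · simpa using h3
    exact ContinuousAt.comp (g := β) (f := fun x : ℝ => (x : ℂ) + s)
      (hd.differentiableAt (hS.mem_nhds hm)).continuousAt (by fun_prop)
  have him : ∀ s : ℂ, a < s.im → s.im < h →
      (∫ x in (0 : ℝ)..1, (β (x + s) - (x + s))).im =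
        (∫ x in (0 : ℝ)..1, (β (x + s)).im) - s.im := by
    intro s h2 h3
    have hc2 : Continuous (fun x : ℝ => β (x + s) - ((x : ℂ) + s)) :=
      (hcont s h2 h3).sub (by fun_prop)
    have e1 : (∫ x in (0 : ℝ)..1, (β (x + s) - (x + s))).im =
        ∫ x in (0 : ℝ)..1, (β (x + s) - (x + s)).im := by
      have := Complex.imCLM.intervalIntegral_comp_comm (hc2.intervalIntegrable (μ := volume) 0 1)
      simpa using this.symm
    rw [e1]
    have e2 : (∫ x in (0 : ℝ)..1, (β (x + s) - (x + s)).im) =
        ∫ x in (0 : ℝ)..1, ((β (x + s)).im - s.im) := by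
      refine intervalIntegral.integral_congr (fun x _ => ?_)
      simp
    have hci : Continuous (fun x : ℝ => (β (x + s)).im) :=
      Complex.continuous_im.comp (hcont s h2 h3)
    rw [e2, intervalIntegral.integral_sub (hci.intervalIntegrable 0 1)
      (continuous_const.intervalIntegrable 0 1)]
    simp
  have h2 := congrArg Complex.im h1
  rw [him s (by rw [hsim]; linarith) (by rw [hsim]; exact hcon),
    him 0 (by simpa using ha) (by simp; linarith), hsim] at h2
  have h3 : (∫ x in (0 : ℝ)..1, (β (x + (0 : ℂ))).im) = 0 := by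
    have : ∀ x : ℝ, (β (x + (0 : ℂ))).im = 0 := by
      intro x
      rw [add_zero]; exact hreal x
    simp only [this, intervalIntegral.integral_zero]
  rw [h3] at h2
  have h4 : (∫ x in (0 : ℝ)..1, (β (x + s)).im) < ∫ _x in (0 : ℝ)..1, h0 := by
    have hlt : ∀ x : ℝ, (β (x + s)).im < h0 := by
      intro x
      refine hb _ ?_ ?_
      · rw [Complex.add_im, hsim]; simp; linarith
      · rw [Complex.add_im, hsim]; simpa using hcon
    refine intervalIntegral.integral_lt_integral_of_continuousOn_of_le_of_exists_lt one_pos
      (Complex.continuous_im.comp (hcont s (by rw [hsim]; linarith)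
        (by rw [hsim]; exact hcon))).continuousOn continuousOn_const (fun x _ => (hlt x).le)
      ⟨0, by simp, hlt 0⟩
  simp at h4 h2
  linarith

end Crest.Agent.R102.Out559
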