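import Mathlib
import Crest.Agent.R102.T1BOutB_559

/-!
Row 102, T1-B, **the outer joint** (helper559): `Spine.T1B` from the statement

  not (for a.e. real `u ∈ (0, r')`: no point at the height `U(u)` of the first singular line is
  regular for the lines `l(·, u)`)

on the official sheets `OmL`, `OmX` (`K669.IsReg`), plus rule 3 (lines at `t ∓ u/2` regular
⟹ label at `t` regular).
-/

set_option autoImplicit false

open Set Filter Topology Metric MeasureTheory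
open scoped ComplexConjugate

noncomputable section

namespace Crest.Agent.R102.Out559

open Crest.Agent.R102.T5 Crest.Agent.R102.C0 Crest.Agent.R102.C1 Crest.Agent.R102.K669

/-- `u` is nice: below some height `0 < U ≤ h0` the lines and the labels are regular, and no point
at height `U` is regular for the lines -/
def Nn (b φ p : ℂ × ℂ → ℂ) (S : Set ℂ) (y1 y0 r' h0 : ℝ) (u : ℝ) : Prop :=
  ∃ U : ℝ, 0 < U ∧ U ≤ h0 ∧
    (∀ s : ℂ, 0 ≤ s.im → s.im < U →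
      (s, (u : ℂ)) ∈ OmL φ p y1 y0 r' ∧ (s, (u : ℂ)) ∈ OmX b S y1 y0 r') ∧
    ∀ s : ℂ, s.im = U → (s, (u : ℂ)) ∉ OmL φ p y1 y0 r'

/-- rule 3 at the real width `u` (weak form) -/
def Rule3 (b φ p : ℂ × ℂ → ℂ) (S : Set ℂ) (y1 y0 r' : ℝ) (u : ℝ) : Prop :=
  ∀ t : ℂ, 0 < t.im →
    (∀ t' : ℂ, t'.re = t.re → t'.im < t.im → (t', (u : ℂ)) ∈ OmX b S y1 y0 r') →
    (t - u / 2, (u : ℂ)) ∈ OmL φ p y1 y0 r' → (t + u / 2, (u : ℂ)) ∈ OmL φ p y1 y0 r' →
    (t, (u : ℂ)) ∈ OmX b S y1 y0 r'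

section

variable {q : C(ℂ, ℂ)} {η ρ r B : ℝ} {b φ p : ℂ × ℂ → ℂ} {m₀ : ℂ → ℂ} {h0 y1 y0 r' : ℝ}

lemma b_mem_Str (hL : LineFam q η ρ r B b φ p m₀) (hle : η ≤ h0) :
    ∀ x ∈ PD ρ r, b x ∈ Str h0 := by
  intro x hx
  have h1 := hL.b_mem x hx
  have h2 := hL.ρ_lt
  change |(b x).im| < h0
  linarith

lemma slab_OmL (hL : LineFam q η ρ r B b φ p m₀) (h1 : -ρ ≤ y1) (h0' : y0 ≤ ρ) (hr : r' ≤ r)
    {s w : ℂ} (hs : s.im < y0) (hw : ‖w‖ < r') : (s, w) ∈ OmL φ p y1 y0 r' := by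
  refine isReg_of_slab isOpen_ball ?_ (fun _ _ => mem_univ _) hs (by simpa using hw)
  have hsub := slab_sub (y1 := y1) (y0 := y0) h1 h0' hr
  exact (hL.φ_diff.mono hsub).prodMk (hL.p_diff.mono hsub)

lemma slab_OmX (hL : LineFam q η ρ r B b φ p m₀) (hle : η ≤ h0) (h1 : -ρ ≤ y1) (h0' : y0 ≤ ρ)
    (hr : r' ≤ r) {s w : ℂ} (hs : s.im < y0) (hw : ‖w‖ < r') :
    (s, w) ∈ OmX b (Str h0) y1 y0 r' := by
  have hsub := slab_sub (y1 := y1) (y0 := y0) h1 h0' hr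
  exact isReg_of_slab isOpen_ball (hL.b_diff.mono hsub)
    (fun x hx => b_mem_Str hL hle x (hsub hx)) hs (by simpa using hw)

lemma OmL_add_int (hL : LineFam q η ρ r B b φ p m₀) (h1 : -ρ ≤ y1) (h0' : y0 ≤ ρ) (hr : r' ≤ r)
    {t w : ℂ} (n : ℤ) : (t + n, w) ∈ OmL φ p y1 y0 r' ↔ (t, w) ∈ OmL φ p y1 y0 r' := by
  have hsub := slab_sub (y1 := y1) (y0 := y0) h1 h0' hr
  refine isReg_add_int (v := ((2 * Real.pi : ℂ), (0 : ℂ))) (by simp) ?_ n
  rintro ⟨t, w⟩ hx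
  have e1 := hL.φ_per t w (hsub hx)
  have e2 := hL.p_per t w (hsub hx)
  simp only [e1, e2, Prod.mk_add_mk, add_zero]

lemma OmX_add_int (hL : LineFam q η ρ r B b φ p m₀) (h1 : -ρ ≤ y1) (h0' : y0 ≤ ρ) (hr : r' ≤ r)
    {t w : ℂ} (n : ℤ) :
    (t + n, w) ∈ OmX b (Str h0) y1 y0 r' ↔ (t, w) ∈ OmX b (Str h0) y1 y0 r' := by
  have hsub := slab_sub (y1 := y1) (y0 := y0) h1 h0' hr
  refine isReg_add_int (v := (1 : ℂ)) ?_ ?_ n
  · intro e
    change |e.im| < h0 ↔ |(e + 1).im| < h0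
    simp
  · rintro ⟨t, w⟩ hx
    exact hL.b_per t w (hsub hx)

/-- the labels on a horizontal strip -/
lemma label_strip (hL : LineFam q η ρ r B b φ p m₀) (hle : η ≤ h0) (h1 : -ρ ≤ y1) (hy1 : y1 < 0)
    (hy0 : 0 < y0) (h0' : y0 ≤ ρ) (hr : r' ≤ r) {u : ℝ} (hu : |u| < r') {h : ℝ} (hh : 0 < h)
    (hX : ∀ s : ℂ, 0 ≤ s.im → s.im < h → (s, (u : ℂ)) ∈ OmX b (Str h0) y1 y0 r') : h ≤ h0 := by
  have hu' : ‖(u : ℂ)‖ < r' := by simpa using hu
  have h10 : y1 < y0 := by linarith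
  set β : ℂ → ℂ := fun t => ext b (Str h0) y1 y0 (ball 0 r') (t, (u : ℂ)) with hβ
  have hreg : ∀ t : ℂ, t.im < h → IsReg b (Str h0) y1 y0 (ball 0 r') (t, (u : ℂ)) := by
    intro t ht
    rcases lt_or_ge t.im 0 with hn | hp
    · exact slab_OmX hL hle h1 h0' hr (by linarith) hu'
    · exact hX t hp ht
  have hS : IsOpen {z : ℂ | y1 < z.im ∧ z.im < h} :=
    (isOpen_lt continuous_const Complex.continuous_im).inter
      (isOpen_lt Complex.continuous_im continuous_const)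
  have hSc : Convex ℝ {z : ℂ | y1 < z.im ∧ z.im < h} :=
    (convex_halfSpace_im_gt _).inter (convex_halfSpace_im_lt _)
  have hdiffAt : ∀ z : ℂ, y1 < z.im → z.im < h → DifferentiableAt ℂ β z := by
    intro z hz1 hz2
    exact DifferentiableAt.comp (g := ext b (Str h0) y1 y0 (ball 0 r'))
      (f := fun t : ℂ => ((t, (u : ℂ)) : ℂ × ℂ)) z
      (ext_differentiableAt h10 (hreg z hz2) hz1) (by fun_prop)
  have hd : DifferentiableOn ℂ β {z | y1 < z.im ∧ z.im < h} := fun z hz =>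
    (hdiffAt z hz.1 hz.2).differentiableWithinAt
  have hslab : ∀ z : ℂ, y1 < z.im → z.im < h → z.im < y0 → β z = b (z, (u : ℂ)) := by
    intro z hz1 hz2 hz3
    exact ext_slab h10 (hreg z hz2) hz1 hz3
  have hPD : ∀ z : ℂ, y1 < z.im → z.im < y0 → (z, (u : ℂ)) ∈ PD ρ r := by
    intro z hz1 hz2
    exact slab_sub (y1 := y1) (y0 := y0) h1 h0' hr ⟨hz1, hz2, by simpa using hu⟩
  have hper : ∀ z : ℂ, y1 < z.im → z.im < h → β (z + 1) = β z + 1 := by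
    have ha1 : AnalyticOnNhd ℂ (fun z => β (z + 1)) {z | y1 < z.im ∧ z.im < h} := by
      refine DifferentiableOn.analyticOnNhd ?_ hS
      rintro z ⟨hz1, hz2⟩
      refine DifferentiableAt.differentiableWithinAt ?_
      exact DifferentiableAt.comp (g := β) (f := fun z => z + 1) z
        (hdiffAt (z + 1) (by simpa using hz1) (by simpa using hz2)) (by fun_prop)
    have ha2 : AnalyticOnNhd ℂ (fun z => β z + 1) {z | y1 < z.im ∧ z.im < h} :=
      (hd.add_const 1).analyticOnNhd hS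
    have h00 : (0 : ℂ) ∈ {z : ℂ | y1 < z.im ∧ z.im < h} := ⟨by simpa using hy1, by simpa using hh⟩
    have hev : (fun z => β (z + 1)) =ᶠ[𝓝 (0 : ℂ)] (fun z => β z + 1) := by
      have h3 : {t : ℂ | t.im < y0} ∈ 𝓝 (0 : ℂ) :=
        (isOpen_lt Complex.continuous_im continuous_const).mem_nhds (by simpa using hy0)
      filter_upwards [h3, hS.mem_nhds h00] with t ht htA
      have ht' : t.im < y0 := ht
      rw [hslab t htA.1 htA.2 ht', hslab (t + 1) (by simpa using htA.1) (by simpa using htA.2)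
        (by simpa using ht')]
      exact hL.b_per t u (hPD t htA.1 ht')
    intro z hz1 hz2
    exact ha1.eqOn_of_preconnected_of_eventuallyEq ha2 hSc.isPreconnected h00 hev ⟨hz1, hz2⟩
  refine height_le hy1 hd hper ?_ ?_ (by have := hL.dat; have h3 := hL.ρ_lt; have := hL.ρ_pos; linarith)
  · intro x
    have hx : ((x : ℂ), (u : ℂ)) ∈ PD ρ r := hPD x (by simpa using hy1) (by simpa using hy0)
    rw [hslab x (by simpa using hy1) (by simpa using hh) (by simpa using hy0)]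
    have := hL.b_conj x u hx
    rw [Complex.conj_ofReal, Complex.conj_ofReal] at this
    exact Complex.conj_eq_iff_im.1 this.symm
  · intro z hz1 hz2
    have := ext_mem h10 (hreg z hz2) hz1
    have h3 : |(β z).im| < h0 := this
    exact (abs_lt.1 h3).2

/-- **the height of the first singular line** -/
theorem exists_height (hL : LineFam q η ρ r B b φ p m₀) (hle : η ≤ h0) (h1 : -ρ ≤ y1)
    (hy1 : y1 < 0) (hy0 : 0 < y0) (h0' : y0 ≤ ρ) (hr : r' ≤ r) {u : ℝ} (hu : |u| < r')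
    (hR : Rule3 b φ p (Str h0) y1 y0 r' u) :
    ∃ U : ℝ, 0 < U ∧ U ≤ h0 ∧
      (∀ s : ℂ, 0 ≤ s.im → s.im < U →
        (s, (u : ℂ)) ∈ OmL φ p y1 y0 r' ∧ (s, (u : ℂ)) ∈ OmX b (Str h0) y1 y0 r') ∧
      ∃ s : ℂ, s.im = U ∧ (s, (u : ℂ)) ∉ OmL φ p y1 y0 r' := by
  have hu' : ‖(u : ℂ)‖ < r' := by simpa using hu
  set P : ℝ → Prop := fun h => ∀ s : ℂ, 0 ≤ s.im → s.im < h →
    (s, (u : ℂ)) ∈ OmL φ p y1 y0 r' ∧ (s, (u : ℂ)) ∈ OmX b (Str h0) y1 y0 r' with hP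
  set Hs : Set ℝ := {h | 0 < h ∧ P h} with hHs
  have hy0m : y0 ∈ Hs := by
    refine ⟨hy0, fun s _ hs => ⟨slab_OmL hL h1 h0' hr hs hu', slab_OmX hL hle h1 h0' hr hs hu'⟩⟩
  have hbdd : ∀ h ∈ Hs, h ≤ h0 := by
    rintro h ⟨hh, hPh⟩
    exact label_strip hL hle h1 hy1 hy0 h0' hr hu hh (fun s a1 a2 => (hPh s a1 a2).2)
  have hB : BddAbove Hs := ⟨h0, hbdd⟩
  set U := sSup Hs with hU
  have hUpos : 0 < U := lt_of_lt_of_le hy0 (le_csSup hB hy0m)
  have hUle : U ≤ h0 := csSup_le ⟨y0, hy0m⟩ hbdd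
  have hPU : P U := by
    intro s hs1 hs2
    obtain ⟨h, hh, hlt⟩ := exists_lt_of_lt_csSup ⟨y0, hy0m⟩ hs2
    exact hh.2 s hs1 hlt
  refine ⟨U, hUpos, hUle, hPU, ?_⟩
  by_contra hcon
  push Not at hcon
  have hX : ∀ s : ℂ, s.im = U → (s, (u : ℂ)) ∈ OmX b (Str h0) y1 y0 r' := by
    intro s hs
    refine hR s (by linarith) ?_ (hcon _ ?_) (hcon _ ?_)
    · intro t' _ ht'
      rcases lt_or_ge t'.im 0 with hn | hp
      · exact slab_OmX hL hle h1 h0' hr (by linarith) hu'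
      · exact (hPU t' hp (by linarith)).2
    · simpa using hs
    · simpa using hs
  set O : Set ℂ := {t | (t, (u : ℂ)) ∈ OmL φ p y1 y0 r' ∧ (t, (u : ℂ)) ∈ OmX b (Str h0) y1 y0 r'}
    with hO
  have hOo : IsOpen O :=
    (isOpen_OmL.preimage (by fun_prop : Continuous (fun t : ℂ => ((t, (u : ℂ)) : ℂ × ℂ)))).inter
      (isOpen_OmX.preimage (by fun_prop : Continuous (fun t : ℂ => ((t, (u : ℂ)) : ℂ × ℂ))))
  set K : Set ℂ := (fun x : ℝ => (x : ℂ) + U * Complex.I) '' Icc 0 1 with hK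
  have hKc : IsCompact K := isCompact_Icc.image (by fun_prop)
  have hKO : K ⊆ O := by
    rintro _ ⟨x, _, rfl⟩
    exact ⟨hcon _ (by simp), hX _ (by simp)⟩
  obtain ⟨ε, hε, hth⟩ := hKc.exists_thickening_subset_open hOo hKO
  have hmem : U + ε / 2 ∈ Hs := by
    refine ⟨by linarith, fun s hs1 hs2 => ?_⟩
    rcases lt_or_ge s.im U with hlt | hge
    · exact hPU s hs1 hlt
    · have hs' : s - (⌊s.re⌋ : ℤ) ∈ O := by
        refine hth ?_
        rw [Metric.mem_thickening_iff]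
        refine ⟨((Int.fract s.re : ℝ) : ℂ) + U * Complex.I,
          ⟨Int.fract s.re, ⟨Int.fract_nonneg _, (Int.fract_lt_one _).le⟩, rfl⟩, ?_⟩
        rw [dist_eq_norm]
        have e : s - (⌊s.re⌋ : ℤ) - (((Int.fract s.re : ℝ) : ℂ) + U * Complex.I) =
            ((s.im - U : ℝ) : ℂ) * Complex.I := by
          apply Complex.ext
          · simp
          · simp
        rw [e, norm_mul, Complex.norm_I, mul_one, Complex.norm_real, Real.norm_eq_abs,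
          abs_of_nonneg (by linarith)]
        linarith
      have e2 : s = (s - (⌊s.re⌋ : ℤ)) + (⌊s.re⌋ : ℤ) := by ring
      obtain ⟨a1, a2⟩ := hs'
      constructor
      · rw [e2]; exact (OmL_add_int hL h1 h0' hr _).2 a1
      · rw [e2]; exact (OmX_add_int hL h1 h0' hr _).2 a2
  have := le_csSup hB hmem
  linarith

end

/-- **THE OUTER JOINT OF T1-B** -/
theorem T1B_of
    (hcore : ∀ (q : C(ℂ, ℂ)) (η ρ r B : ℝ) (b φ p : ℂ × ℂ → ℂ) (m₀ : ℂ → ℂ) (θ H : ℂ → ℂ)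
      (h0 : ℝ), Spine.DataS q η ρ r B b φ p m₀ θ H h0 →
      (∀ s : ℂ, s.im = h0 → ¬ Spine.RegB h0 θ H s) →
      ∃ y1 y0 r' : ℝ, -ρ ≤ y1 ∧ y1 < 0 ∧ 0 < y0 ∧ y0 ≤ ρ ∧ 0 < r' ∧ r' ≤ r ∧
        (∀ u : ℝ, u ∈ Ioo 0 r' → Rule3 b φ p (Str h0) y1 y0 r' u) ∧
        ¬ ∀ᵐ u : ℝ, u ∈ Ioo 0 r' → Nn b φ p (Str h0) y1 y0 r' h0 u) : Spine.T1B := by
  intro q η ρ r B b φ p m₀ θ H h0 hD hsing hcount
  obtain ⟨y1, y0, r', h1, hy1, hy0, h0', hr'0, hr, hR, hnot⟩ :=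
    hcore q η ρ r B b φ p m₀ θ H h0 hD hsing
  apply hnot
  have hL := hD.fam
  have hrat : (range ((↑) : ℚ → ℝ)).Countable := countable_range _
  filter_upwards [hcount.ae_notMem volume, hrat.ae_notMem volume] with u hgood hirr hu
  have huabs : |u| < r' := by rw [abs_of_pos hu.1]; exact hu.2
  have hu' : ‖(u : ℂ)‖ < r' := by simpa using huabs
  obtain ⟨U, hU, hUle, hreg, s0, hs0, hsing0⟩ :=
    exists_height hL hD.le h1 hy1 hy0 h0' hr huabs (hR u hu)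
  refine ⟨U, hU, hUle, hreg, ?_⟩
  by_contra hcon
  push Not at hcon
  obtain ⟨s1, hs1, hs1r⟩ := hcon
  apply hgood
  refine ⟨hirr, hu.1, lt_of_lt_of_le hu.2 hr, U, hU, ?_, ⟨s0, hs0, ?_⟩, ⟨s1, hs1, ?_⟩⟩
  · intro s hs hsU
    obtain ⟨a1, a2⟩ := hreg s hs hsU
    exact ⟨(regL_iff hL.φ_diff hL.p_diff hL.ρ_pos h1 hy1 hy0 h0' hr hu').2 a1,
      regAt_of_isReg hL.b_diff hy1 hy0 a2⟩
  · intro h
    exact hsing0 ((regL_iff hL.φ_diff hL.p_diff hL.ρ_pos h1 hy1 hy0 h0' hr hu').1 h)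
  · exact (regL_iff hL.φ_diff hL.p_diff hL.ρ_pos h1 hy1 hy0 h0' hr hu').2 hs1r

end Crest.Agent.R102.Out559
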