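import Mathlib
import Crest.Agent.R102.SheetC_982
import Crest.Agent.R102.T1BOut_559
import Crest.Agent.R102.Step7B_559
import Crest.Agent.R102.LVB_669

/-!
Row 102 (T1-B), part I.4: the sheets in the form of the outer joint (`Out559.OmL`, `Out559.OmX`)
and of step 7 (`Step7559.Sh`).
* `dat_of`, `NB_of` : from `Spine.DataS` with singular top line;
* `Dat.rule3_real`  : `Out559.Rule3` at every real width;
* `Dat.ruleL`, `Dat.ruleX` : the RULE for the star-shaped sets `OmL`, `OmX` (all heights);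
* `Dat.lvL`, `Dat.lvX` : the sheets are LV sets (helper669's Levi property);
* `Dat.inc_all`, `Dat.refl_all`, `Dat.sum_all`, ... : the relations at all points.
-/

set_option autoImplicit false

open Set Filter Topology Metric
open scoped ComplexConjugate

noncomputable section

namespace Crest.Agent.R102.Sh982

open Crest.Agent.R102.T5 Crest.Agent.R102.G576 Crest.Agent.R102.A929 Crest.Agent.R102.B821
open Crest.Agent.R102.C0 Crest.Agent.R102.C1 Crest.Agent.R102.F300 Crest.Agent.R102.Rule982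
open Crest.Agent.R102.VH982 (pt pt_eta pt_snd pt_re pt_im tube_mem eq_along continuous_pt_y)
open Crest.Agent.R102.K669 (Slab Tube IsReg isReg_of_slab isOpen_isReg ext_eq LV lv_isReg
  ext_differentiableAt ext_mem ext_slab isReg_of_local isOpen_slab mem_tube_self isReg_of_tube)
open Crest.Agent.R102.Out559 (OmL OmX)

variable {q : C(ℂ, ℂ)} {η ρ r Bc : ℝ} {b φ p : ℂ × ℂ → ℂ} {m₀ : ℂ → ℂ} {h : ℝ} {ψ H : ℂ → ℂ}

/-- the data of part I from the data of Case B -/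
lemma dat_of (hD : Spine.DataS q η ρ r Bc b φ p m₀ ψ H h) : Dat q η ρ r Bc b φ p m₀ h ψ H :=
  ⟨hD.fam, hD.le, hD.ext.θ_diff, hD.ext.H_diff, hD.ext.θ_eq, hD.ext.H_eq⟩

/-- singular top line: natural boundary on both sides -/
lemma NB_of (hD : Spine.DataS q η ρ r Bc b φ p m₀ ψ H h)
    (hs : ∀ s : ℂ, s.im = h → ¬ Spine.RegB h ψ H s) : Rule982.NB h ψ H := by
  intro s hsh hcon
  obtain ⟨c, hc, g₁, g₂, h1, h2, h3, h4⟩ := hcon
  have hh : 0 < h := (dat_of hD).h_pos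
  have hR : Spine.RegR h ψ H s c := ⟨g₁, g₂, h1, h2, fun z hz hzi =>
    ⟨h3 ⟨hz, hzi⟩, h4 ⟨hz, hzi⟩⟩⟩
  rcases abs_eq hh.le |>.1 hsh with h5 | h5
  · exact hs s h5 ⟨c, hc, g₁, g₂, h1, h2, fun z hz hzi => ⟨h3 ⟨hz, hzi⟩, h4 ⟨hz, hzi⟩⟩⟩
  · obtain ⟨θ', H', a1, a2, a3⟩ := Spine.RegR.conj' hD.fam.dat hD.le hD.ext hR
    exact hs (conj s) (by rw [Complex.conj_im, h5, neg_neg]) ⟨c, hc, θ', H', a1, a2, a3⟩

section All

variable (D : Dat q η ρ r Bc b φ p m₀ h ψ H)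
include D

omit D in
lemma mem_W {E : Type*} [NormedAddCommGroup E] [NormedSpace ℂ E] [CompleteSpace E]
    {F : ℂ × ℂ → E} {C : Set E} {y1 y0 : ℝ} {W : Set ℂ} {x : ℂ × ℂ} (hx : IsReg F C y1 y0 W x) :
    x.2 ∈ W := by
  obtain ⟨ε, hε, hW, -⟩ := hx
  exact hW (mem_ball_self hε)

omit D in
lemma SL_iff {x : ℂ × ℂ} : x ∈ SL φ p ρ r ↔
    x ∈ OmL φ p (-(ρ / 2)) (ρ / 2) r ∧ -(ρ / 2) < x.1.im :=
  ⟨fun hx => ⟨hx.2.2, hx.2.1⟩, fun hx => ⟨mem_W hx.1, hx.2, hx.1⟩⟩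

omit D in
lemma SB_iff {x : ℂ × ℂ} : x ∈ SB b h ρ r ↔
    x ∈ OmX b (Str h) (-(ρ / 2)) (ρ / 2) r ∧ -(ρ / 2) < x.1.im :=
  ⟨fun hx => ⟨hx.2.2, hx.2.1⟩, fun hx => ⟨mem_W hx.1, hx.2, hx.1⟩⟩

lemma Dat.low_L {x : ℂ × ℂ} (h1 : x.1.im < ρ / 2) (h2 : ‖x.2‖ < r) :
    x ∈ OmL φ p (-(ρ / 2)) (ρ / 2) r :=
  isReg_of_slab isOpen_ball D.Fl_diff Fl_maps h1 (by simpa using h2)

lemma Dat.low_X {x : ℂ × ℂ} (h1 : x.1.im < ρ / 2) (h2 : ‖x.2‖ < r) :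
    x ∈ OmX b (Str h) (-(ρ / 2)) (ρ / 2) r :=
  isReg_of_slab isOpen_ball D.b_diff D.b_maps h1 (by simpa using h2)

/-- **RULE (lines)** on the star-shaped sets -/
theorem Dat.ruleL {s : ℂ} (hs : s = 1 ∨ s = -1) {x : ℂ × ℂ}
    (hx : x ∈ OmX b (Str h) (-(ρ / 2)) (ρ / 2) r)
    (hx' : sh (-s) x ∈ OmL φ p (-(ρ / 2)) (ρ / 2) r) :
    sh s x ∈ OmL φ p (-(ρ / 2)) (ρ / 2) r := by
  have hρ := D.ρ_pos
  have hxW : ‖x.2‖ < r := by simpa using mem_W hx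
  have him := abs_lt.1 (sh_im hs hxW D.r_le)
  have him' := abs_lt.1 (sh_im (neg_pm hs) hxW D.r_le)
  rcases le_or_gt x.1.im (-(3 * ρ / 8)) with h1 | h1
  · refine D.low_L ?_ hxW
    rw [sh_fst, Complex.add_im]
    linarith [him.2]
  · have h2 : x ∈ SB b h ρ r := SB_iff.2 ⟨hx, by linarith⟩
    have h3 : sh (-s) x ∈ SL φ p ρ r := by
      refine SL_iff.2 ⟨hx', ?_⟩
      rw [sh_fst, Complex.add_im]
      linarith [him'.1]
    exact (SL_iff.1 (D.rule_line hs h2 h3 h1)).1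

/-- **RULE (vertex)** on the star-shaped sets -/
theorem Dat.ruleX (hNB : Rule982.NB h ψ H) {x : ℂ × ℂ}
    (hx1 : sh 1 x ∈ OmL φ p (-(ρ / 2)) (ρ / 2) r)
    (hx2 : sh (-1) x ∈ OmL φ p (-(ρ / 2)) (ρ / 2) r) :
    x ∈ OmX b (Str h) (-(ρ / 2)) (ρ / 2) r := by
  have hρ := D.ρ_pos
  have hxW : ‖x.2‖ < r := by simpa using mem_W hx1
  have him := abs_lt.1 (sh_im (s := 1) (Or.inl rfl) hxW D.r_le)
  have him' := abs_lt.1 (sh_im (s := -1) (Or.inr rfl) hxW D.r_le)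
  rcases le_or_gt x.1.im (-(3 * ρ / 8)) with h1 | h1
  · exact D.low_X (by linarith) hxW
  · have h2 : sh 1 x ∈ SL φ p ρ r := by
      refine SL_iff.2 ⟨hx1, ?_⟩
      rw [sh_fst, Complex.add_im]
      linarith [him.1]
    have h3 : sh (-1) x ∈ SL φ p ρ r := by
      refine SL_iff.2 ⟨hx2, ?_⟩
      rw [sh_fst, Complex.add_im]
      linarith [him'.1]
    exact (SB_iff.1 (D.rule_vertex hNB h2 h3 h1)).1

/-- 559's `Rule3` at every real width -/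
theorem Dat.rule3_real (hNB : Rule982.NB h ψ H) (u : ℝ) :
    Out559.Rule3 b φ p (Str h) (-(ρ / 2)) (ρ / 2) r u := by
  intro t _ _ h2 h3
  refine D.ruleX hNB (x := (t, (u : ℂ))) ?_ ?_
  · unfold sh
    rw [one_mul]
    exact h3
  · unfold sh
    rw [neg_one_mul, ← sub_eq_add_neg]
    exact h2

/-- the sheet of lines is an LV set -/
theorem Dat.lvL : LV (ρ / 2) (ball 0 r) {x | x.2 ∈ ball (0 : ℂ) r ∧
    x ∈ OmL φ p (-(ρ / 2)) (ρ / 2) r} :=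
  lv_isReg D.h10 isOpen_ball D.Fl_diff Fl_maps isOpen_univ convex_univ

/-- the sheet of labels is an LV set -/
theorem Dat.lvX : LV (ρ / 2) (ball 0 r) {x | x.2 ∈ ball (0 : ℂ) r ∧
    x ∈ OmX b (Str h) (-(ρ / 2)) (ρ / 2) r} :=
  lv_isReg D.h10 isOpen_ball D.b_diff D.b_maps (isOpen_Sg h) (convex_Sg h)

omit D in
lemma OmL_eq : {x | x.2 ∈ ball (0 : ℂ) r ∧ x ∈ OmL φ p (-(ρ / 2)) (ρ / 2) r} =
    OmL φ p (-(ρ / 2)) (ρ / 2) r := by
  ext x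
  exact ⟨fun hx => hx.2, fun hx => ⟨mem_W hx, hx⟩⟩

omit D in
lemma OmX_eq : {x | x.2 ∈ ball (0 : ℂ) r ∧ x ∈ OmX b (Str h) (-(ρ / 2)) (ρ / 2) r} =
    OmX b (Str h) (-(ρ / 2)) (ρ / 2) r := by
  ext x
  exact ⟨fun hx => hx.2, fun hx => ⟨mem_W hx, hx⟩⟩

theorem Dat.lvL' : LV (ρ / 2) (ball 0 r) (OmL φ p (-(ρ / 2)) (ρ / 2) r) := by
  have := D.lvL
  rwa [OmL_eq] at this

theorem Dat.lvX' : LV (ρ / 2) (ball 0 r) (OmX b (Str h) (-(ρ / 2)) (ρ / 2) r) := by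
  have := D.lvX
  rwa [OmX_eq] at this

/-! ### the relations at all points of the sheets -/

/-- low points of the sheets are in the slab -/
lemma Dat.low_slab {s : ℂ} (hs : s = 1 ∨ s = -1) {x : ℂ × ℂ} (h1 : x.1.im ≤ -(3 * ρ / 8))
    (hx : sh s x ∈ SL φ p ρ r) : sh s x ∈ Slab (-(ρ / 2)) (ρ / 2) (ball (0 : ℂ) r) := by
  have hρ := D.ρ_pos
  have hxW : ‖x.2‖ < r := by simpa using hx.1
  have him := abs_lt.1 (sh_im hs hxW D.r_le)
  refine ⟨hx.2.1, ?_, hx.1⟩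
  rw [sh_fst, Complex.add_im]
  linarith [him.2]

lemma Dat.low_slab0 {x : ℂ × ℂ} (h1 : x.1.im ≤ -(3 * ρ / 8))
    (hx : x ∈ SB b h ρ r) : x ∈ Slab (-(ρ / 2)) (ρ / 2) (ball (0 : ℂ) r) := by
  have hρ := D.ρ_pos
  exact ⟨hx.2.1, by linarith, hx.1⟩

theorem Dat.inc_all {s : ℂ} (hs : s = 1 ∨ s = -1) {x : ℂ × ℂ} (hx : x ∈ SB b h ρ r)
    (hx' : sh s x ∈ SL φ p ρ r) :
    Inc ψ H (φe φ p ρ r (sh s x)) (pe φ p ρ r (sh s x)) (be b h ρ r x) := by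
  rcases le_or_gt x.1.im (-(3 * ρ / 8)) with h1 | h1
  · have m0 := D.low_slab0 h1 hx
    have m1 := D.low_slab hs h1 hx'
    rw [D.be_slab m0, D.φe_slab m1, D.pe_slab m1]
    exact D.base_inc hs (slab_PD D.ρ_pos m0) (slab_PD D.ρ_pos m1)
  · exact (D.inc_ev hs hx hx' h1).self_of_nhds

theorem Dat.refl_all {s : ℂ} (hs : s = 1 ∨ s = -1) {x : ℂ × ℂ} (hx : x ∈ SB b h ρ r)
    (hx' : sh s x ∈ SL φ p ρ r) (hx'' : sh (-s) x ∈ SL φ p ρ r) :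
    φe φ p ρ r (sh (-s) x) + φe φ p ρ r (sh s x) = 2 * ψ (be b h ρ r x) := by
  rcases le_or_gt x.1.im (-(3 * ρ / 8)) with h1 | h1
  · have m0 := D.low_slab0 h1 hx
    have m1 := D.low_slab hs h1 hx'
    have m2 := D.low_slab (neg_pm hs) h1 hx''
    rw [D.be_slab m0, D.φe_slab m1, D.φe_slab m2]
    rw [sh_neg] at m2 ⊢
    exact D.base_refl hs (slab_PD D.ρ_pos m0) (slab_PD D.ρ_pos m1) (slab_PD D.ρ_pos m2)
  · exact (D.refl_ev hs hx hx' hx'' h1).self_of_nhds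

theorem Dat.sum_all {s : ℂ} (hs : s = 1 ∨ s = -1) {x : ℂ × ℂ} (hx : x ∈ SB b h ρ r)
    (hx' : sh s x ∈ SL φ p ρ r) (hx'' : sh (-s) x ∈ SL φ p ρ r) :
    pe φ p ρ r (sh (-s) x) + pe φ p ρ r (sh s x) = 2 * H (be b h ρ r x) *
      Complex.cos (φe φ p ρ r (sh (-s) x) - ψ (be b h ρ r x)) := by
  rcases le_or_gt x.1.im (-(3 * ρ / 8)) with h1 | h1
  · have m0 := D.low_slab0 h1 hx
    have m1 := D.low_slab hs h1 hx'
    have m2 := D.low_slab (neg_pm hs) h1 hx''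
    rw [D.be_slab m0, D.pe_slab m1, D.pe_slab m2, D.φe_slab m2]
    rw [sh_neg] at m2 ⊢
    exact D.base_sum hs (slab_PD D.ρ_pos m0) (slab_PD D.ρ_pos m1) (slab_PD D.ρ_pos m2)
  · exact (D.sum_ev hs hx hx' hx'' h1).self_of_nhds

/-- **F2**: at a regular vertex with `ψ' ≠ 0`, `w ≠ 0` a regular line through it is not tangent -/
theorem Dat.sin_ne {s : ℂ} (hs : s = 1 ∨ s = -1) {x : ℂ × ℂ} (hx : x ∈ SB b h ρ r)
    (hx' : sh s x ∈ SL φ p ρ r) (hw : x.2 ≠ 0) (hy : deriv ψ (be b h ρ r x) ≠ 0) :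
    Complex.sin (φe φ p ρ r (sh s x) - ψ (be b h ρ r x)) ≠ 0 := by
  have hon : ∀ᶠ y in 𝓝 x, Inc ψ H (φe φ p ρ r (sh s y)) (pe φ p ρ r (sh s y))
      (be b h ρ r y) := by
    filter_upwards [isOpen_SB.mem_nhds hx, (isOpen_pre s).mem_nhds hx'] with y hy1 hy2
    exact D.inc_all hs hy1 hy2
  -- area form of the shifted line
  have hsd : HasFDerivAt (sh s) ((ContinuousLinearMap.fst ℂ ℂ ℂ +
      (s / 2) • ContinuousLinearMap.snd ℂ ℂ ℂ).prod (ContinuousLinearMap.snd ℂ ℂ ℂ)) x := by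
    have h1 : HasFDerivAt (fun y : ℂ × ℂ => y.1 + s * (y.2 / 2))
        (ContinuousLinearMap.fst ℂ ℂ ℂ + (s / 2) • ContinuousLinearMap.snd ℂ ℂ ℂ) x := by
      have h2 : HasFDerivAt (fun y : ℂ × ℂ => y.1) (ContinuousLinearMap.fst ℂ ℂ ℂ) x :=
        hasFDerivAt_fst
      have h3 : HasFDerivAt (fun y : ℂ × ℂ => (s / 2) • y.2)
          ((s / 2) • ContinuousLinearMap.snd ℂ ℂ ℂ) x :=
        ((s / 2) • ContinuousLinearMap.snd ℂ ℂ ℂ).hasFDerivAt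
      refine (h2.add h3).congr_of_eventuallyEq (Eventually.of_forall fun y => ?_)
      simp only [Pi.add_apply, smul_eq_mul]
      ring
    exact h1.prodMk hasFDerivAt_snd
  have hq12 : ∀ f : ℂ × ℂ → ℂ, AnalyticAt ℂ f (sh s x) →
      q1 (fun y => f (sh s y)) x = q1 f (sh s x) ∧
      q2 (fun y => f (sh s y)) x = (s / 2) * q1 f (sh s x) + q2 f (sh s x) := by
    intro f hf
    have h1' : fderiv ℂ (fun y => f (sh s y)) x = (fderiv ℂ f (sh s x)).comp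
        ((ContinuousLinearMap.fst ℂ ℂ ℂ +
        (s / 2) • ContinuousLinearMap.snd ℂ ℂ ℂ).prod (ContinuousLinearMap.snd ℂ ℂ ℂ)) :=
      (hf.differentiableAt.hasFDerivAt.comp x hsd).fderiv
    unfold B821.q1 B821.q2
    rw [h1']
    refine ⟨by simp, ?_⟩
    have h2 : ((s / 2 : ℂ), (1 : ℂ)) = (s / 2) • ((1 : ℂ), (0 : ℂ)) + ((0 : ℂ), (1 : ℂ)) := by
      simp
    have h3 : fderiv ℂ f (sh s x) ((s / 2 : ℂ), (1 : ℂ)) =
        (s / 2) * fderiv ℂ f (sh s x) (1, 0) + fderiv ℂ f (sh s x) (0, 1) := by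
      rw [h2, map_add, map_smul, smul_eq_mul]
    simpa using h3
  refine F2 (isOpen_Sg h) D.ψ_diff D.H_diff (φ := fun z => φe φ p ρ r (sh s z))
    (p := fun z => pe φ p ρ r (sh s z)) (B := be b h ρ r) (x := x) (D.an_φs hx') (D.an_ps hx')
    (D.be_an x hx) (D.be_mem hx) hy hon ?_
  obtain ⟨e1, e2⟩ := hq12 _ (D.φe_an _ hx')
  obtain ⟨e3, e4⟩ := hq12 _ (D.pe_an _ hx')
  rw [e1, e2, e3, e4]
  have := D.area_ne hx' (by rw [sh_snd]; exact hw)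
  intro h0
  apply this
  linear_combination h0

end All

end Crest.Agent.R102.Sh982
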