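import Crest.Agent.R102.SpineDefs_478
import Crest.Agent.R102.StepE_599
import Crest.Agent.R102.SheetD_982
import Crest.Agent.R102.EndE_712

/-!
Row 102, T1-B, block **GROWTH** (helper314, after helper712 / helper971 / helper516):
in Case B, if `{w0 | GoodW}` is countable, then the curve grows slower than `exp (C d^{-1/(k+1)})`
at distance `d` from the top line, for every `k`.
-/

set_option autoImplicit false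

open Set Filter Topology Metric
open scoped ComplexConjugate

noncomputable section

namespace Crest.Agent.R102.Growth

open Crest.Agent.R102.T5 Crest.Agent.R102.A929 Crest.Agent.R102.B821
open Crest.Agent.R102.C0 Crest.Agent.R102.C1 Crest.Agent.R102.Spine

/-- `StepE599.Ent` on an open set `V` -/
structure EntOn (θ H K : ℂ → ℂ) (V : Set ℂ) : Prop where
  Vo : IsOpen V
  dθ : DifferentiableOn ℂ θ V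
  dH : DifferentiableOn ℂ H V
  dK : DifferentiableOn ℂ K V
  relH : ∀ z ∈ V, deriv θ z * deriv (deriv H) z - deriv (deriv θ) z * deriv H z
    + (deriv θ z) ^ 3 * H z = -1
  relK : ∀ z ∈ V, deriv (deriv (deriv θ)) z = (K z - 2 * (deriv θ z) ^ 2) * deriv θ z

/-- `StepE599.Good` on `V` -/
structure GoodOn (θ K : ℂ → ℂ) (V : Set ℂ) (z : ℂ) (ρ : ℝ) : Prop where
  pos : 0 < ρ
  sub : closedBall z ρ ⊆ V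
  y_le : ∀ s, ‖s - z‖ ≤ ρ → ‖deriv θ s‖ * ρ ≤ 1 / 200
  K_le : ∀ s, ‖s - z‖ ≤ ρ → ‖K s‖ * ρ ^ 2 ≤ 1 / 200

/-- the mirror of Case B and its symmetries (151) -/
structure MirS (q : C(ℂ, ℂ)) (η h0 : ℝ) (θ H K G : ℂ → ℂ) : Prop where
  ent : EntOn θ H K (Str h0)
  Gd : DifferentiableOn ℂ G (Str h0)
  G_eq : ∀ z, G z = K z - 2 * deriv θ z ^ 2
  hG : ∀ z ∈ Str h0, deriv (deriv (deriv θ)) z = G z * deriv θ z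
  θper : ∀ z ∈ Str h0, θ (z + 1) = θ z + 2 * Real.pi
  Hper : ∀ z ∈ Str h0, H (z + 1) = H z
  yper : ∀ z ∈ Str h0, deriv θ (z + 1) = deriv θ z
  Kper : ∀ z ∈ Str h0, K (z + 1) = K z
  Gper : ∀ z ∈ Str h0, G (z + 1) = G z
  yconj : ∀ z ∈ Str h0, deriv θ (conj z) = conj (deriv θ z)
  Kconj : ∀ z ∈ Str h0, K (conj z) = conj (K z)
  Gconj : ∀ z ∈ Str h0, G (conj z) = conj (G z)
  y_pos : ∀ x : ℝ, 0 < (deriv θ x).re ∧ (deriv θ x).im = 0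

/-- **(MIRS)** [151] -/
def MIRS : Prop :=
  ∀ (q : C(ℂ, ℂ)) (η ρ r B : ℝ) (b φ p : ℂ × ℂ → ℂ) (m₀ : ℂ → ℂ) (θ H : ℂ → ℂ) (h0 : ℝ),
    DataS q η ρ r B b φ p m₀ θ H h0 → ∃ K G : ℂ → ℂ, MirS q η h0 θ H K G

/-- **(GROWTH)** -/
def GrowthP : Prop :=
  ∀ (q : C(ℂ, ℂ)) (η ρ r B : ℝ) (b φ p : ℂ × ℂ → ℂ) (m₀ : ℂ → ℂ) (θ H K G : ℂ → ℂ) (h0 : ℝ),
    DataS q η ρ r B b φ p m₀ θ H h0 → MirS q η h0 θ H K G →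
    (∀ s : ℂ, s.im = h0 → ¬ RegB h0 θ H s) →
    {w0 : ℝ | GoodW ρ r b φ p (Str h0) w0}.Countable →
    ∀ k : ℕ, ∃ C : ℝ, 0 < C ∧ ∀ d : ℝ, 0 < d → d < h0 → ∀ z : ℂ, |z.im| ≤ h0 - d →
      Real.log (1 + ‖deriv θ z‖ + ‖G z‖) ≤ C * d ^ (-(1 / ((k : ℝ) + 1)))

/-- window of order `k` of a concave function `M` -/
structure WdwK (M : ℝ → ℝ) (k : ℕ) (C' δ b τ S : ℝ) : Prop where
  hb : b ≤ τ
  hS : (τ ^ k)⁻¹ ≤ S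
  lin : ∀ β : ℝ, |β| ≤ (C' * Real.log τ) ^ 3 → |M (τ + β) - M τ - S * β| ≤ δ * S
  rcd : ∀ t'' t' : ℝ, b ≤ t'' → t'' ≤ t' → t' ≤ τ →
    M t' - M t'' ≤ 2 * S * (τ / t'') ^ k * (t' - t'')

/-- **(W_k)** [486] windows of order `k` -/
def WINK : Prop :=
  ∀ (k : ℕ) (M : ℝ → ℝ) (a b C' δ : ℝ), 2 ≤ k → ConcaveOn ℝ (Ici a) M → 0 ≤ C' → 0 < δ → 1 ≤ b →
    a + 1 < b → (∀ V : ℝ, ∃ τ ≥ b, V ≤ τ ^ k * (M τ - M (τ - 1))) → ∀ T0 : ℝ,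
    ∃ τ S : ℝ, T0 ≤ τ ∧ a < τ - (C' * Real.log τ) ^ 3 ∧ WdwK M k C' δ b τ S

/-- **(D_k)** [486] the complementary case -/
def DECK : Prop :=
  ∀ (k : ℕ) (M : ℝ → ℝ) (b l V : ℝ), 2 ≤ k → 1 ≤ b → Tendsto M atTop (𝓝 l) →
    (∀ τ ≥ b, τ ^ k * (M τ - M (τ - 1)) ≤ V) →
    ∃ C : ℝ, 0 < C ∧ ∀ τ ≥ b, l - M τ ≤ C * (τ ^ (k - 1))⁻¹

/-- **(COL_k)** [516] the good column on the strip -/
def COLK : Prop :=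
  ∀ (k : ℕ) (h0 : ℝ) (y G : ℂ → ℂ), 2 ≤ k → 0 < h0 → DifferentiableOn ℂ y (Str h0) →
    DifferentiableOn ℂ G (Str h0) → (∀ z ∈ Str h0, deriv (deriv y) z = G z * y z) →
    (∀ z ∈ Str h0, y (z + 1) = y z) → (∀ x : ℝ, (y x).im = 0 ∧ 0 < (y x).re) →
    ∀ C' C1 κ : ℝ, 1 ≤ C' → 0 < C1 → 0 < κ → ∃ L0 : ℝ, ∀ L ≥ L0, ∀ m S : ℝ, 1 / L ^ k ≤ S →
      S * L / 2 ≤ m → m + S * (C' * Real.log L) ^ 3 < h0 →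
      (∀ β : ℝ, |β| ≤ (C' * Real.log L) ^ 3 → ∀ z : ℂ, |z.im| ≤ m + S * β →
        ‖y z‖ ≤ C1 * √L * Real.exp (L + β)) →
      ∃ x : ℝ, ∀ z ∈ closedBall ((x : ℂ) + m * Complex.I) (C' * Real.log L * S),
        ‖y z‖ ≤ κ * Real.exp L ∧ ‖G z‖ ≤ κ ^ 2 * Real.exp (2 * L)

/-- **(CCOL_k)** the good column for windows of order `k` -/
def CColK (k : ℕ) (Om : Set (ℂ × ℂ)) : Prop :=
  ∃ B0 : ℝ, ∀ K b : ℝ, B0 ≤ b → ∃ C' δ T0 : ℝ, 0 ≤ C' ∧ 0 < δ ∧ ∀ τ S : ℝ, T0 ≤ τ →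
    WdwK (T1EJ712.MM Om) k C' δ b τ S → ∃ x : ℝ, ∀ t w : ℂ, |t.re - x| < K * S →
      t.im < T1EJ712.mm Om (2 * Real.exp (-τ)) + K * S → ‖w‖ < 2 * Real.exp (-τ) →
      ‖w‖ ≤ 30 * |w.im| → (t, w) ∈ Om

/-- **(END_k)** [712] -/
def ENDK : Prop :=
  ∀ (k : ℕ) (b r0 : ℝ) (Om : Set (ℂ × ℂ)), 2 ≤ k → K669.LV b (ball 0 r0) Om → 0 < r0 →
    T1EJ712.Per Om 1 → (∀ t w : ℂ, (t, w) ∈ Om → (t, -w) ∈ Om) →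
    (∀ r, 0 < r → T1EJ712.Fin' Om r) → CColK k Om →
    (∀ B V : ℝ, ∃ τ ≥ B, V ≤ τ ^ k * (T1EJ712.MM Om τ - T1EJ712.MM Om (τ - 1))) →
    ∀ δ₀ : ℝ, 0 < δ₀ → ¬ {u : ℝ | Irrational u ∧ 0 < u ∧ u < δ₀ ∧ T1EJ712.Gd Om u}.Countable

end Crest.Agent.R102.Growth
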