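import Crest.Agent.R102.StepL_599
import Crest.Agent.R102.StepEV_599

/-!
Row 102, T1-B, block GROWTH: the lines of the label chain on an open set `V`
(`StepL_599` with `Ent -> EntOn .. V`, `Good -> GoodOn .. V ..`; same names, namespace `StepV599`;
the functions `tau ph pp Inc` are those of `StepE599`).
-/

set_option autoImplicit false
open Complex Metric Set Filter Topology

noncomputable section
namespace Crest.Agent.R102.StepV599

open Crest.Agent.R102.StepE599 Crest.Agent.R102.Growth

section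
variable {θ H K : ℂ → ℂ} {V : Set ℂ} {z : ℂ} {ρ : ℝ}

lemma tau_le (h : EntOn θ H K V) (g : GoodOn θ K V z ρ) {e : ℂ} (he : ‖e‖ ≤ ρ) :
    ‖tau θ H z e‖ ≤ 1 / 300 := by
  have hp := g.pos
  have h1 := g.y' (s := z) (by simpa using hp.le)
  have h2 := R_near h g he
  have h3 := cube_le hp he
  have h4 : ‖R θ H z e‖ ≤ 523 / 1000 * ‖e‖ := by
    have := norm_add_le (R θ H z e - e / 2) (e / 2)
    rw [sub_add_cancel, norm_div_two] at this
    linarith
  unfold tau
  rw [norm_mul]
  have h5 : ‖deriv θ z‖ * ‖R θ H z e‖ ≤ 1 / 200 / ρ * (523 / 1000 * ρ) :=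
    mul_le_mul h1 (by linarith) (norm_nonneg _) (by positivity)
  refine h5.trans ?_
  have : 1 / 200 / ρ * (523 / 1000 * ρ) = 523 / 200000 := by field_simp; norm_num
  rw [this]; norm_num

lemma tau_le8 (h : EntOn θ H K V) (g : GoodOn θ K V z ρ) {e : ℂ} (he : ‖e‖ ≤ ρ) :
    ‖tau θ H z e‖ ≤ 1 / 8 := (tau_le h g he).trans (by norm_num)

lemma alp_le (h : EntOn θ H K V) (g : GoodOn θ K V z ρ) {e : ℂ} (he : ‖e‖ ≤ ρ) :
    ‖arctan (tau θ H z e)‖ ≤ 1 / 100 := by
  have h1 := tau_le h g he
  have h2 := arctan_le (h1.trans (by norm_num))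
  linarith

lemma u_mul_tau (h : EntOn θ H K V) (g : GoodOn θ K V z ρ) {e : ℂ} (he0 : e ≠ 0) (he : ‖e‖ ≤ ρ) :
    u θ H z e * tau θ H z e = deriv θ z * v θ H z e := by
  have := u_ne h g he he0
  unfold tau R
  field_simp

/-- `exp (2 i α) (u - i y v) = u + i y v` -/
lemma exp_two_alp (h : EntOn θ H K V) (g : GoodOn θ K V z ρ) {e : ℂ} (he0 : e ≠ 0) (he : ‖e‖ ≤ ρ) :
    u θ H z e - I * deriv θ z * v θ H z e ≠ 0 ∧
    exp (2 * (I * arctan (tau θ H z e))) * (u θ H z e - I * deriv θ z * v θ H z e)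
      = u θ H z e + I * deriv θ z * v θ H z e := by
  have hu := u_ne h g he he0
  have ht := tau_le8 h g he
  have h1 := u_mul_tau h g he0 he
  have h2 := exp_two_arctan ht
  have h3 : (1 - I * tau θ H z e) ≠ 0 := by
    intro h4
    have : ‖I * tau θ H z e‖ = 1 := by
      have : I * tau θ H z e = 1 := by linear_combination -h4
      rw [this]; simp
    rw [norm_mul, norm_I, one_mul] at this
    linarith
  have e1 : u θ H z e - I * deriv θ z * v θ H z e = u θ H z e * (1 - I * tau θ H z e) := by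
    linear_combination I * h1
  have e2 : u θ H z e + I * deriv θ z * v θ H z e = u θ H z e * (1 + I * tau θ H z e) := by
    linear_combination -I * h1
  rw [e1, e2]
  refine ⟨mul_ne_zero hu h3, ?_⟩
  rw [h2]
  field_simp

/-- the line seen from its two ends: direction -/
lemma alp_symm (h : EntOn θ H K V) (g : GoodOn θ K V z ρ) {e : ℂ} (g' : GoodOn θ K V (z + e) ρ)
    (he0 : e ≠ 0) (he : ‖e‖ ≤ ρ) :
    arctan (tau θ H z e) = chi θ z e + arctan (tau θ H (z + e) (-e)) := by
  have he' : ‖-e‖ ≤ ρ := by simpa using he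
  obtain ⟨n1, x1⟩ := exp_two_alp h g he0 he
  obtain ⟨n2, x2⟩ := exp_two_alp h g' (neg_ne_zero.mpr he0) he'
  have p1 := uv_plus (θ := θ) (H := H) z e
  have p2 := uv_minus (θ := θ) (H := H) z e
  refine eq_of_exp ?_ ?_
  · have a1 := alp_le h g he
    have a2 := alp_le h g' he'
    have a3 := chi_le_one h g he
    have := norm_sub_le (arctan (tau θ H z e)) (chi θ z e + arctan (tau θ H (z + e) (-e)))
    have := norm_add_le (chi θ z e) (arctan (tau θ H (z + e) (-e)))
    linarith
  · have e1 : 2 * (I * (chi θ z e + arctan (tau θ H (z + e) (-e))))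
        = I * chi θ z e + I * chi θ z e + 2 * (I * arctan (tau θ H (z + e) (-e))) := by ring
    rw [e1, exp_add, exp_add]
    have e2 : exp (I * chi θ z e) * exp (-(I * chi θ z e)) = 1 := by
      rw [← exp_add, add_neg_cancel, exp_zero]
    apply mul_right_cancel₀ n1
    rw [x1, p1, p2, ← x2]
    linear_combination (-(exp (I * chi θ z e)) * exp (2 * (I * arctan (tau θ H (z + e) (-e))))
      * (u θ H (z + e) (-e) - I * deriv θ (z + e) * v θ H (z + e) (-e))) * (-e2)

theorem ph_symm (h : EntOn θ H K V) (g : GoodOn θ K V z ρ) {e : ℂ} (g' : GoodOn θ K V (z + e) ρ)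
    (he0 : e ≠ 0) (he : ‖e‖ ≤ ρ) : ph θ H z e = ph θ H (z + e) (-e) := by
  unfold ph
  rw [alp_symm h g g' he0 he]
  simp only [chi]
  ring

lemma exp_alp {e : ℂ} (ht : ‖tau θ H z e‖ ≤ 1 / 8) :
    exp (I * arctan (tau θ H z e)) = cos (arctan (tau θ H z e)) * (1 + I * tau θ H z e) := by
  rw [exp_eq_E, sin_arctan ht]; ring

theorem pp_symm (h : EntOn θ H K V) (g : GoodOn θ K V z ρ) {e : ℂ} (g' : GoodOn θ K V (z + e) ρ)
    (he0 : e ≠ 0) (he : ‖e‖ ≤ ρ) : pp θ H z e = pp θ H (z + e) (-e) := by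
  have he' : ‖-e‖ ≤ ρ := by simpa using he
  have hu := u_ne h g he he0
  have hu' := u_ne h g' he' (neg_ne_zero.mpr he0)
  have t1 := tau_le8 h g he
  have t2 := tau_le8 h g' he'
  have a := alp_symm h g g' he0 he
  have p1 := uv_plus (θ := θ) (H := H) z e
  have pH := uv_H (θ := θ) (H := H) z e
  have m1 := u_mul_tau h g he0 he
  have m2 := u_mul_tau h g' (neg_ne_zero.mpr he0) he'
  have x1 := exp_alp t1
  have x2 := exp_alp t2
  have epp : pp θ H z e = cos (arctan (tau θ H z e)) * (H z + deriv H z * R θ H z e) := rfl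
  have epp' : pp θ H (z + e) (-e) = cos (arctan (tau θ H (z + e) (-e)))
    * (H (z + e) + deriv H (z + e) * R θ H (z + e) (-e)) := rfl
  generalize arctan (tau θ H z e) = α at *
  generalize arctan (tau θ H (z + e) (-e)) = α' at *
  have x3 : exp (I * α) = exp (I * chi θ z e) * exp (I * α') := by
    rw [a, mul_add, exp_add]
  -- `cos α' u = - cos α u'`
  have key : cos α' * u θ H z e = -(cos α * u θ H (z + e) (-e)) := by
    apply mul_right_cancel₀ (exp_ne_zero (I * α))
    have y1 : u θ H z e * exp (I * α) = cos α * (u θ H z e + I * deriv θ z * v θ H z e) := by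
      rw [x1]; linear_combination cos α * I * m1
    have y2 : u θ H (z + e) (-e) * exp (I * α')
        = cos α' * (u θ H (z + e) (-e) + I * deriv θ (z + e) * v θ H (z + e) (-e)) := by
      rw [x2]; linear_combination cos α' * I * m2
    have y3 : u θ H (z + e) (-e) * exp (I * α)
        = exp (I * chi θ z e) * (cos α' * (u θ H (z + e) (-e)
          + I * deriv θ (z + e) * v θ H (z + e) (-e))) := by
      rw [x3, ← y2]; ring
    calc cos α' * u θ H z e * exp (I * α) = cos α' * (u θ H z e * exp (I * α)) := by ring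
      _ = cos α' * (cos α * (u θ H z e + I * deriv θ z * v θ H z e)) := by rw [y1]
      _ = -(cos α * (u θ H (z + e) (-e) * exp (I * α))) := by rw [y3, p1]; ring
      _ = -(cos α * u θ H (z + e) (-e)) * exp (I * α) := by ring
  have e1 : pp θ H z e = cos α * (u θ H z e * H z + v θ H z e * deriv H z) / u θ H z e := by
    rw [epp]
    unfold R
    field_simp
  have e2 : pp θ H (z + e) (-e) = cos α' * (u θ H (z + e) (-e) * H (z + e)
      + v θ H (z + e) (-e) * deriv H (z + e)) / u θ H (z + e) (-e) := by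
    rw [epp']
    unfold R
    field_simp
  rw [e1, e2, pH, div_eq_div_iff hu hu']
  linear_combination (-(u θ H (z + e) (-e) * H (z + e)
      + v θ H (z + e) (-e) * deriv H (z + e))) * key

/-- law of reflection -/
theorem ph_refl (h : EntOn θ H K V) (g : GoodOn θ K V z ρ) {e : ℂ} (he : ‖e‖ ≤ ρ / 2) :
    ph θ H z (-e) + ph θ H z (st θ H z e) = 2 * θ z := by
  have hp := g.pos
  have hs := st_spec h g he
  have hl := st_le h g he
  have t1 := tau_le8 h g (e := -e) (by rw [norm_neg]; linarith)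
  have ht : tau θ H z (st θ H z e) = -tau θ H z (-e) := by
    unfold tau; rw [hs.2]; ring
  unfold ph
  rw [ht, arctan_neg_small t1]
  ring

/-- incidence at the first end -/
theorem inc_left (h : EntOn θ H K V) (g : GoodOn θ K V z ρ) {e : ℂ} (he : ‖e‖ ≤ ρ) :
    Inc θ H z (ph θ H z e) (pp θ H z e) := by
  have t1 := tau_le8 h g he
  unfold Inc
  have e1 : ph θ H z e - θ z = arctan (tau θ H z e) := by unfold ph; ring
  rw [e1, sin_arctan t1]
  unfold pp
  have e2 : tau θ H z e = deriv θ z * R θ H z e := rfl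
  rw [← sub_eq_zero]
  have : deriv H z * (tau θ H z e * cos (arctan (tau θ H z e)))
      = deriv H z * ((deriv θ z * R θ H z e) * cos (arctan (tau θ H z e))) := by rw [e2]
  rw [this]; ring

/-- incidence at the second end -/
theorem inc_right (h : EntOn θ H K V) (g : GoodOn θ K V z ρ) {e : ℂ} (g' : GoodOn θ K V (z + e) ρ)
    (he0 : e ≠ 0) (he : ‖e‖ ≤ ρ) : Inc θ H (z + e) (ph θ H z e) (pp θ H z e) := by
  rw [ph_symm h g g' he0 he, pp_symm h g g' he0 he]
  exact inc_left h g' (by simpa using he)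

/-- a line near the tangent at `z` through the vertices `z`, `z + e` is `(ph z e, pp z e)` -/
theorem line_unique (h : EntOn θ H K V) (g : GoodOn θ K V z ρ) {e : ℂ} (he0 : e ≠ 0) (he : ‖e‖ ≤ ρ)
    (hy : deriv θ z ≠ 0) {φ p : ℂ} (hφ : ‖φ - θ z‖ ≤ 1) (i1 : Inc θ H z φ p)
    (i2 : Inc θ H (z + e) φ p) : φ = ph θ H z e ∧ p = pp θ H z e := by
  have hu := u_ne h g he he0
  have t1 := tau_le8 h g he
  obtain ⟨α, hα⟩ : ∃ α, α = φ - θ z := ⟨_, rfl⟩
  have hαχ : φ - θ (z + e) = α - chi θ z e := by simp only [hα, chi]; ring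
  have i1' : deriv θ z * p = deriv θ z * H z * cos α + deriv H z * sin α := by
    rw [hα]; exact i1
  rw [← hα] at hφ
  have i2' : deriv θ (z + e) * p = deriv θ (z + e) * H (z + e) * cos (α - chi θ z e)
      + deriv H (z + e) * sin (α - chi θ z e) := by
    have := i2
    unfold Inc at this
    rwa [hαχ] at this
  rw [cos_sub α, sin_sub α] at i2'
  -- `u sin α = y v cos α`
  have key : u θ H z e * sin α = deriv θ z * v θ H z e * cos α := by
    unfold u v
    linear_combination deriv θ z * i2' - deriv θ (z + e) * i1'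
  have m1 := u_mul_tau h g he0 he
  have key2 : sin α = tau θ H z e * cos α := by
    apply mul_left_cancel₀ hu
    rw [key]
    linear_combination -cos α * m1
  have hαe : α = arctan (tau θ H z e) := by
    refine eq_of_exp ?_ ?_
    · have := alp_le h g he
      have := norm_sub_le α (arctan (tau θ H z e))
      linarith
    · have hc : cos α ≠ 0 := by
        intro hc
        rw [hc, mul_zero] at key2
        have := sin_sq_add_cos_sq α
        rw [hc, key2] at this
        norm_num at this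
      have e3 : exp (I * α) = cos α * (1 + I * tau θ H z e) := by
        rw [exp_eq_E, key2]; ring
      have e4 : exp (-(I * α)) = cos α * (1 - I * tau θ H z e) := by
        rw [exp_eq_E', key2]; ring
      have e5 : (2 : ℂ) * (I * α) = I * α - -(I * α) := by ring
      have h4 : (1 - I * tau θ H z e) ≠ 0 := by
        intro h; rw [h, mul_zero] at e4; exact exp_ne_zero _ e4
      rw [exp_two_arctan t1, e5, exp_sub, e3, e4]
      field_simp
  have hφe : φ = ph θ H z e := by
    unfold ph
    rw [← hαe, hα]; ring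
  refine ⟨hφe, ?_⟩
  apply mul_left_cancel₀ hy
  have j := inc_left h g he
  unfold Inc at j
  rw [← hφe, ← hα] at j
  rw [i1', j]

/-- three consecutive labels of a billiard chain: the last step is `st` -/
theorem st_of_refl (h : EntOn θ H K V) (g : GoodOn θ K V z ρ) {e x : ℂ} (he : ‖e‖ ≤ ρ / 2)
    (hx : ‖x‖ ≤ ρ) (hy : deriv θ z ≠ 0) (hr : ph θ H z (-e) + ph θ H z x = 2 * θ z) :
    x = st θ H z e := by
  have hp := g.pos
  refine st_unique h g he hx ?_
  have t1 := tau_le8 h g (e := -e) (by rw [norm_neg]; linarith)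
  have t2 := tau_le8 h g hx
  have h1 : arctan (tau θ H z x) = -arctan (tau θ H z (-e)) := by
    unfold ph at hr
    linear_combination hr
  have h2 : tau θ H z x = -tau θ H z (-e) := by
    have h3 := tan_arctan_small t2
    rw [h1, tan_neg, tan_arctan_small t1] at h3
    exact h3.symm
  unfold tau at h2
  apply mul_left_cancel₀ hy
  linear_combination h2

/-! ## holomorphy of the lines -/

lemma tau_differentiableAt (h : EntOn θ H K V) (g : GoodOn θ K V z ρ) {e : ℂ} (he0 : e ≠ 0)
    (he : ‖e‖ ≤ ρ) : DifferentiableAt ℂ (fun q : ℂ × ℂ => tau θ H q.1 q.2) (z, e) := by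
  have h1 : DifferentiableAt ℂ (fun q : ℂ × ℂ => R θ H q.1 q.2) (z, e) :=
    (R_contDiffAt h (p := (z, e)) g.memz (g.mem he) (u_ne h g he he0)).differentiableAt (by norm_num)
  have h2 : DifferentiableAt ℂ (fun q : ℂ × ℂ => deriv θ q.1) (z, e) :=
    DifferentiableAt.comp (g := deriv θ) (f := fun q : ℂ × ℂ => q.1) (z, e) (h.dθ1 g.memz)
      differentiableAt_fst
  exact h2.mul h1

theorem ph_differentiableAt (h : EntOn θ H K V) (g : GoodOn θ K V z ρ) {e : ℂ} (he0 : e ≠ 0)
    (he : ‖e‖ ≤ ρ) : DifferentiableAt ℂ (fun q : ℂ × ℂ => ph θ H q.1 q.2) (z, e) := by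
  have h1 := tau_differentiableAt h g he0 he
  have h2 : DifferentiableAt ℂ (fun q : ℂ × ℂ => arctan (tau θ H q.1 q.2)) (z, e) :=
    DifferentiableAt.comp (f := fun q : ℂ × ℂ => tau θ H q.1 q.2) (z, e)
      (arctan_differentiableAt (tau_le8 h g he)) h1
  have h3 : DifferentiableAt ℂ (fun q : ℂ × ℂ => θ q.1) (z, e) :=
    (h.dθ0 g.memz).comp (z, e) differentiableAt_fst
  exact h3.add h2

theorem pp_differentiableAt (h : EntOn θ H K V) (g : GoodOn θ K V z ρ) {e : ℂ} (he0 : e ≠ 0)
    (he : ‖e‖ ≤ ρ) : DifferentiableAt ℂ (fun q : ℂ × ℂ => pp θ H q.1 q.2) (z, e) := by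
  have h1 := tau_differentiableAt h g he0 he
  have h2 : DifferentiableAt ℂ (fun q : ℂ × ℂ => arctan (tau θ H q.1 q.2)) (z, e) :=
    DifferentiableAt.comp (f := fun q : ℂ × ℂ => tau θ H q.1 q.2) (z, e)
      (arctan_differentiableAt (tau_le8 h g he)) h1
  have h3 : DifferentiableAt ℂ (fun q : ℂ × ℂ => H q.1) (z, e) :=
    (h.dH0 g.memz).comp (z, e) differentiableAt_fst
  have h4 : DifferentiableAt ℂ (fun q : ℂ × ℂ => deriv H q.1) (z, e) :=
    DifferentiableAt.comp (g := deriv H) (f := fun q : ℂ × ℂ => q.1) (z, e) (h.dH1 g.memz)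
      differentiableAt_fst
  have h5 : DifferentiableAt ℂ (fun q : ℂ × ℂ => R θ H q.1 q.2) (z, e) :=
    (R_contDiffAt h (p := (z, e)) g.memz (g.mem he) (u_ne h g he he0)).differentiableAt (by norm_num)
  exact h2.ccos.mul (h3.add (h4.mul h5))

end

end Crest.Agent.R102.StepV599
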