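import Crest.Agent.R102.AP3B_599
import Crest.Agent.R102.StepLV_599

/-!
Row 102, T1-B, block GROWTH: (AP3) on an open set `V`
(`AP3_599`, `AP3B_599` with `Ent -> EntOn .. V`, `Good -> GoodOn .. V ..`; same names, namespace
`StepV599`; the functions `gK u2 u3 u4 v2 .. v5 nl LB c3 SS` are those of `StepE599`).
-/

set_option autoImplicit false
open Complex Metric Set Filter Topology Asymptotics

noncomputable section
namespace Crest.Agent.R102.StepV599

open Crest.Agent.R102.StepE599 Crest.Agent.R102.Growth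

lemma cont_add {f : ℂ → ℂ} {t : ℂ} (hf : ContinuousAt f t) :
    ContinuousAt (fun p : ℂ × ℂ => f (p.1 + p.2)) (t, 0) := by
  have h2 : ContinuousAt f ((fun p : ℂ × ℂ => p.1 + p.2) (t, 0)) := by simpa using hf
  exact ContinuousAt.comp (f := fun p : ℂ × ℂ => p.1 + p.2) h2 (by fun_prop)

lemma cont_fst {f : ℂ → ℂ} {t : ℂ} (hf : ContinuousAt f t) :
    ContinuousAt (fun p : ℂ × ℂ => f p.1) (t, 0) :=
  ContinuousAt.comp (f := fun p : ℂ × ℂ => p.1) (x := ((t, 0) : ℂ × ℂ)) hf (by fun_prop)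

section
variable {θ H K : ℂ → ℂ} {V : Set ℂ}
variable (h : EntOn θ H K V)
include h

lemma _root_.Crest.Agent.R102.Growth.EntOn.ag {z : ℂ} (hz : z ∈ V) : AnalyticAt ℂ (gK θ K) z :=
  (h.aK hz).sub (analyticAt_const.mul ((h.aθ hz).deriv.pow 2))
lemma _root_.Crest.Agent.R102.Growth.EntOn.dg {z : ℂ} (hz : z ∈ V) :
    DifferentiableAt ℂ (gK θ K) z := (h.ag hz).differentiableAt
lemma _root_.Crest.Agent.R102.Growth.EntOn.dg1 {z : ℂ} (hz : z ∈ V) :
    DifferentiableAt ℂ (deriv (gK θ K)) z := (h.ag hz).deriv.differentiableAt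
lemma _root_.Crest.Agent.R102.Growth.EntOn.dg2 {z : ℂ} (hz : z ∈ V) :
    DifferentiableAt ℂ (deriv (deriv (gK θ K))) z := (h.ag hz).deriv.deriv.differentiableAt
lemma _root_.Crest.Agent.R102.Growth.EntOn.dg3 {z : ℂ} (hz : z ∈ V) :
    DifferentiableAt ℂ (deriv (deriv (deriv (gK θ K)))) z :=
  (h.ag hz).deriv.deriv.deriv.differentiableAt

lemma _root_.Crest.Agent.R102.Growth.EntOn.deriv_g {z : ℂ} (hz : z ∈ V) :
    deriv (gK θ K) z = deriv K z - 4 * deriv θ z * deriv (deriv θ) z := by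
  have h1 : HasDerivAt (gK θ K) (deriv K z - 2 * ((2 : ℕ) * (deriv θ z) ^ (2 - 1)
      * deriv (deriv θ) z)) z := by
    exact (h.dK0 hz).hasDerivAt.sub ((((h.dθ1 hz).hasDerivAt).pow 2).const_mul 2)
  rw [h1.deriv]
  push_cast
  ring

lemma _root_.Crest.Agent.R102.Growth.EntOn.u_d1 {z e : ℂ} (hz : z + e ∈ V) :
    HasDerivAt (u1 θ H z) (u2 θ H K z e) e := h.u1_deriv hz
lemma _root_.Crest.Agent.R102.Growth.EntOn.v_d1 {z e : ℂ} (hz : z + e ∈ V) :
    HasDerivAt (v1 θ H z) (v2 θ H K z e) e := h.v1_deriv hz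

lemma _root_.Crest.Agent.R102.Growth.EntOn.u_d2 {z e : ℂ} (hz : z + e ∈ V) :
    HasDerivAt (u2 θ H K z) (u3 θ H K z e) e := by
  have hc := h.chi_deriv hz
  have hg := (h.dg hz).hasDerivAt.comp_const_add z e
  have := (hg.mul (h.u_deriv hz)).sub (hc.csin.const_mul (deriv θ z))
  refine this.congr_deriv ?_
  unfold u3
  ring

lemma _root_.Crest.Agent.R102.Growth.EntOn.u_d3 {z e : ℂ} (hz : z + e ∈ V) :
    HasDerivAt (u3 θ H K z) (u4 θ H K z e) e := by
  have hc := h.chi_deriv hz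
  have hg := (h.dg hz).hasDerivAt.comp_const_add z e
  have hg1 := (h.dg1 hz).hasDerivAt.comp_const_add z e
  have ht1 := ((h.dθ1 hz).hasDerivAt.comp_const_add z e)
  have := ((hg1.mul (h.u_deriv hz)).add (hg.mul (h.u_d1 hz))).sub
    ((hc.ccos.mul ht1).const_mul (deriv θ z))
  refine this.congr_deriv ?_
  unfold u4
  ring

lemma _root_.Crest.Agent.R102.Growth.EntOn.v_d2 {z e : ℂ} (hz : z + e ∈ V) :
    HasDerivAt (v2 θ H K z) (v3 θ H K z e) e := by
  have hc := h.chi_deriv hz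
  have hg := (h.dg hz).hasDerivAt.comp_const_add z e
  have := (hg.mul (h.v_deriv hz)).add hc.ccos
  refine this.congr_deriv ?_
  unfold v3
  ring

lemma _root_.Crest.Agent.R102.Growth.EntOn.v_d3 {z e : ℂ} (hz : z + e ∈ V) :
    HasDerivAt (v3 θ H K z) (v4 θ H K z e) e := by
  have hc := h.chi_deriv hz
  have hg := (h.dg hz).hasDerivAt.comp_const_add z e
  have hg1 := (h.dg1 hz).hasDerivAt.comp_const_add z e
  have ht1 := ((h.dθ1 hz).hasDerivAt.comp_const_add z e)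
  have := ((hg1.mul (h.v_deriv hz)).add (hg.mul (h.v_d1 hz))).sub (hc.csin.mul ht1)
  refine this.congr_deriv ?_
  unfold v4
  ring

lemma _root_.Crest.Agent.R102.Growth.EntOn.v_d4 {z e : ℂ} (hz : z + e ∈ V) :
    HasDerivAt (v4 θ H K z) (v5 θ H K z e) e := by
  have hc := h.chi_deriv hz
  have hg := (h.dg hz).hasDerivAt.comp_const_add z e
  have hg1 := (h.dg1 hz).hasDerivAt.comp_const_add z e
  have hg2 := (h.dg2 hz).hasDerivAt.comp_const_add z e
  have ht1 := ((h.dθ1 hz).hasDerivAt.comp_const_add z e)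
  have ht2 := ((h.dθ2 hz).hasDerivAt.comp_const_add z e)
  have := ((((hg2.mul (h.v_deriv hz)).add ((hg1.const_mul 2).mul (h.v_d1 hz))).add
    (hg.mul (h.v_d2 hz))).sub (hc.ccos.mul (ht1.pow 2))).sub (hc.csin.mul ht2)
  refine this.congr_deriv ?_
  unfold v5
  simp only [Pi.pow_apply]
  push_cast
  ring

lemma _root_.Crest.Agent.R102.Growth.EntOn.u3_zero {z : ℂ} (hz : z ∈ V) :
    u3 θ H K z 0 = gK θ K z - (deriv θ z) ^ 2 := by
  simp only [u3, u_zero, chi_zero, h.u1_zero hz, cos_zero, add_zero]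
  ring

lemma _root_.Crest.Agent.R102.Growth.EntOn.u4_zero {z : ℂ} (hz : z ∈ V) :
    u4 θ H K z 0 = 2 * deriv (gK θ K) z - deriv θ z * deriv (deriv θ) z := by
  simp only [u4, u_zero, u2_zero, chi_zero, h.u1_zero hz, cos_zero, sin_zero, add_zero]
  ring

/-- near `(t, 0)` both labels are in `V` -/
lemma _root_.Crest.Agent.R102.Growth.EntOn.ev {t : ℂ} (ht : t ∈ V) :
    ∀ᶠ p : ℂ × ℂ in 𝓝 (t, 0), p.1 ∈ V ∧ p.1 + p.2 ∈ V := by
  have c1 : ContinuousAt (fun p : ℂ × ℂ => p.1) (t, 0) := by fun_prop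
  have c2 : Tendsto (fun p : ℂ × ℂ => p.1 + p.2) (𝓝 (t, 0)) (𝓝 t) := by
    have : ContinuousAt (fun p : ℂ × ℂ => p.1 + p.2) (t, 0) := by fun_prop
    simpa using this.tendsto
  filter_upwards [c1.eventually (h.Vo.mem_nhds ht), c2.eventually (h.Vo.mem_nhds ht)] with p a b
  exact ⟨a, b⟩

lemma _root_.Crest.Agent.R102.Growth.EntOn.u_cont {t : ℂ} (ht : t ∈ V) :
    ContinuousAt (fun p : ℂ × ℂ => u θ H p.1 p.2) (t, 0) :=
  (u_contDiffAt h (p := (t, 0)) ht (by simpa using ht)).continuousAt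
lemma _root_.Crest.Agent.R102.Growth.EntOn.v_cont {t : ℂ} (ht : t ∈ V) :
    ContinuousAt (fun p : ℂ × ℂ => v θ H p.1 p.2) (t, 0) :=
  (v_contDiffAt h (p := (t, 0)) ht (by simpa using ht)).continuousAt
lemma _root_.Crest.Agent.R102.Growth.EntOn.chi_cont {t : ℂ} (ht : t ∈ V) :
    ContinuousAt (fun p : ℂ × ℂ => chi θ p.1 p.2) (t, 0) :=
  (cont_add (h.aθ ht).continuousAt).sub (cont_fst (h.aθ ht).continuousAt)
lemma _root_.Crest.Agent.R102.Growth.EntOn.sin_cont {t : ℂ} (ht : t ∈ V) :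
    ContinuousAt (fun p : ℂ × ℂ => sin (chi θ p.1 p.2)) (t, 0) :=
  ContinuousAt.comp (f := fun p : ℂ × ℂ => chi θ p.1 p.2) (x := ((t, 0) : ℂ × ℂ))
    continuous_sin.continuousAt (h.chi_cont ht)
lemma _root_.Crest.Agent.R102.Growth.EntOn.cos_cont {t : ℂ} (ht : t ∈ V) :
    ContinuousAt (fun p : ℂ × ℂ => cos (chi θ p.1 p.2)) (t, 0) :=
  ContinuousAt.comp (f := fun p : ℂ × ℂ => chi θ p.1 p.2) (x := ((t, 0) : ℂ × ℂ))
    continuous_cos.continuousAt (h.chi_cont ht)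

lemma _root_.Crest.Agent.R102.Growth.EntOn.u1_cont {t : ℂ} (ht : t ∈ V) :
    ContinuousAt (fun p : ℂ × ℂ => u1 θ H p.1 p.2) (t, 0) := by
  have a1 := cont_add (h.aθ ht).deriv.continuousAt
  have a2 := cont_add (h.aθ ht).deriv.deriv.continuousAt
  have b0 := cont_add (h.aH ht).continuousAt
  have b2 := cont_add (h.aH ht).deriv.deriv.continuousAt
  have f1 := cont_fst (h.aθ ht).deriv.continuousAt
  have k1 := cont_fst (h.aH ht).deriv.continuousAt
  have s := h.sin_cont ht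
  have c := h.cos_cont ht
  exact (k1.mul a2).sub (f1.mul (((a2.mul b0).mul s).add ((((a1.pow 2).mul b0).add b2).mul c)))

lemma _root_.Crest.Agent.R102.Growth.EntOn.v1_cont {t : ℂ} (ht : t ∈ V) :
    ContinuousAt (fun p : ℂ × ℂ => v1 θ H p.1 p.2) (t, 0) := by
  have a1 := cont_add (h.aθ ht).deriv.continuousAt
  have a2 := cont_add (h.aθ ht).deriv.deriv.continuousAt
  have b0 := cont_add (h.aH ht).continuousAt
  have b2 := cont_add (h.aH ht).deriv.deriv.continuousAt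
  have f0 := cont_fst (h.aH ht).continuousAt
  have s := h.sin_cont ht
  have c := h.cos_cont ht
  exact (a2.mul ((b0.mul c).sub f0)).sub ((((a1.pow 2).mul b0).add b2).mul s)

lemma _root_.Crest.Agent.R102.Growth.EntOn.u2_cont {t : ℂ} (ht : t ∈ V) :
    ContinuousAt (fun p : ℂ × ℂ => u2 θ H K p.1 p.2) (t, 0) :=
  ((cont_add (h.ag ht).continuousAt).mul (h.u_cont ht)).sub
    ((cont_fst (h.aθ ht).deriv.continuousAt).mul (h.sin_cont ht))

lemma _root_.Crest.Agent.R102.Growth.EntOn.v2_cont {t : ℂ} (ht : t ∈ V) :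
    ContinuousAt (fun p : ℂ × ℂ => v2 θ H K p.1 p.2) (t, 0) :=
  ((cont_add (h.ag ht).continuousAt).mul (h.v_cont ht)).add (h.cos_cont ht)

lemma _root_.Crest.Agent.R102.Growth.EntOn.v3_cont {t : ℂ} (ht : t ∈ V) :
    ContinuousAt (fun p : ℂ × ℂ => v3 θ H K p.1 p.2) (t, 0) :=
  (((cont_add (h.ag ht).deriv.continuousAt).mul (h.v_cont ht)).add
    ((cont_add (h.ag ht).continuousAt).mul (h.v1_cont ht))).sub
    ((h.sin_cont ht).mul (cont_add (h.aθ ht).deriv.continuousAt))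

lemma _root_.Crest.Agent.R102.Growth.EntOn.u4_cont {t : ℂ} (ht : t ∈ V) :
    ContinuousAt (fun p : ℂ × ℂ => u4 θ H K p.1 p.2) (t, 0) := by
  have a1 := cont_add (h.aθ ht).deriv.continuousAt
  have a2 := cont_add (h.aθ ht).deriv.deriv.continuousAt
  have g0 := cont_add (h.ag ht).continuousAt
  have g1 := cont_add (h.ag ht).deriv.continuousAt
  have g2 := cont_add (h.ag ht).deriv.deriv.continuousAt
  have f1 := cont_fst (h.aθ ht).deriv.continuousAt
  have s := h.sin_cont ht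
  have c := h.cos_cont ht
  have u0 := h.u_cont ht
  have u1 := h.u1_cont ht
  have u2 := h.u2_cont ht
  exact (((g2.mul u0).add ((continuousAt_const.mul g1).mul u1)).add (g0.mul u2)).sub
    (f1.mul ((s.neg.mul (a1.pow 2)).add (c.mul a2)))

lemma _root_.Crest.Agent.R102.Growth.EntOn.v5_cont {t : ℂ} (ht : t ∈ V) :
    ContinuousAt (fun p : ℂ × ℂ => v5 θ H K p.1 p.2) (t, 0) := by
  have a1 := cont_add (h.aθ ht).deriv.continuousAt
  have a2 := cont_add (h.aθ ht).deriv.deriv.continuousAt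
  have a3 := cont_add (h.aθ ht).deriv.deriv.deriv.continuousAt
  have g0 := cont_add (h.ag ht).continuousAt
  have g1 := cont_add (h.ag ht).deriv.continuousAt
  have g2 := cont_add (h.ag ht).deriv.deriv.continuousAt
  have g3 := cont_add (h.ag ht).deriv.deriv.deriv.continuousAt
  have s := h.sin_cont ht
  have c := h.cos_cont ht
  have v0 := h.v_cont ht
  have v1 := h.v1_cont ht
  have v2 := h.v2_cont ht
  have v3 := h.v3_cont ht
  exact ((((((g3.mul v0).add ((continuousAt_const.mul g2).mul v1)).add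
    ((continuousAt_const.mul g1).mul v2)).add (g0.mul v3)).add (s.mul (a1.pow 3))).sub
    (((continuousAt_const.mul c).mul a1).mul a2)).sub (s.mul a3)

end

/-! ### limits -/

section
variable {θ H K : ℂ → ℂ} {V : Set ℂ} (h : EntOn θ H K V) {t : ℂ} (ht : t ∈ V)
include h ht

lemma u_even_o : (fun p : ℂ × ℂ => (u θ H p.1 p.2 + u θ H p.1 (-p.2))
    - (2 * deriv (gK θ K) t - deriv θ t * deriv (deriv θ) t) / 12 * p.2 ^ 4)
    =o[𝓝 ((t, 0) : ℂ × ℂ)] fun p : ℂ × ℂ => p.2 ^ 4 := by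
  have h1 := taylor_loc 4 (fun k => match k with
    | 0 => fun p => u θ H p.1 p.2
    | 1 => fun p => u1 θ H p.1 p.2
    | 2 => fun p => u2 θ H K p.1 p.2
    | 3 => fun p => u3 θ H K p.1 p.2
    | _ => fun p => u4 θ H K p.1 p.2) t
    (by
      intro k hk
      filter_upwards [h.ev ht] with p hp
      interval_cases k
      · exact h.u_deriv hp.2
      · exact h.u_d1 hp.2
      · exact h.u_d2 hp.2
      · exact h.u_d3 hp.2)
    (h.u4_cont ht)
  have h2 := h1.comp_tendsto (neg_tendsto t)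
  have h3 : ((fun p : ℂ × ℂ => p.2 ^ 4) ∘ fun p : ℂ × ℂ => ((p.1, -p.2) : ℂ × ℂ))
      = fun p : ℂ × ℂ => p.2 ^ 4 := by
    ext p
    simp only [Function.comp_apply]
    ring
  rw [h3] at h2
  refine (h1.add h2).congr' ?_ (EventuallyEq.refl _ _)
  filter_upwards [h.ev ht] with p hp
  simp only [Function.comp_apply, Finset.sum_range_succ, Finset.range_zero, Finset.sum_empty,
    Nat.factorial, u_zero, h.u1_zero hp.1, u2_zero, h.u3_zero hp.1, h.u4_zero ht]
  push_cast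
  ring

lemma v_odd_o : (fun p : ℂ × ℂ => (v θ H p.1 p.2 - v θ H p.1 (-p.2))
    - (deriv (gK θ K) t - deriv θ t * deriv (deriv θ) t) / 20 * p.2 ^ 5)
    =o[𝓝 ((t, 0) : ℂ × ℂ)] fun p : ℂ × ℂ => p.2 ^ 5 := by
  have h1 := taylor_loc 5 (fun k => match k with
    | 0 => fun p => v θ H p.1 p.2
    | 1 => fun p => v1 θ H p.1 p.2
    | 2 => fun p => v2 θ H K p.1 p.2
    | 3 => fun p => v3 θ H K p.1 p.2
    | 4 => fun p => v4 θ H K p.1 p.2
    | _ => fun p => v5 θ H K p.1 p.2) t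
    (by
      intro k hk
      filter_upwards [h.ev ht] with p hp
      interval_cases k
      · exact h.v_deriv hp.2
      · exact h.v_d1 hp.2
      · exact h.v_d2 hp.2
      · exact h.v_d3 hp.2
      · exact h.v_d4 hp.2)
    (h.v5_cont ht)
  have h2 := h1.comp_tendsto (neg_tendsto t)
  have h3 : ((fun p : ℂ × ℂ => p.2 ^ 5) ∘ fun p : ℂ × ℂ => ((p.1, -p.2) : ℂ × ℂ))
      = fun p : ℂ × ℂ => -(p.2 ^ 5) := by
    ext p
    simp only [Function.comp_apply]
    ring
  rw [h3, isLittleO_neg_right] at h2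
  refine (h1.sub h2).congr_left ?_
  intro p
  simp only [Function.comp_apply, Finset.sum_range_succ, Finset.range_zero, Finset.sum_empty,
    Nat.factorial, v_zero, v1_zero, v2_zero, v3_zero, v4_zero, v5_zero]
  push_cast
  ring

lemma u_o : Tendsto (fun p : ℂ × ℂ => u θ H p.1 p.2 / p.2) (nl t) (𝓝 1) := by
  have h1 := taylor_loc 1 (fun k => match k with
    | 0 => fun p => u θ H p.1 p.2
    | _ => fun p => u1 θ H p.1 p.2) t
    (by
      intro k hk
      filter_upwards [h.ev ht] with p hp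
      interval_cases k
      exact h.u_deriv hp.2)
    (h.u1_cont ht)
  have h2 : Tendsto (fun p : ℂ × ℂ => u θ H p.1 p.2 / p.2 ^ 1) (nl t) (𝓝 1) := by
    refine tendsto_of_o (h1.congr' ?_ (EventuallyEq.refl _ _))
    filter_upwards [h.ev ht] with p hp
    simp [u_zero, h.u1_zero ht]
  simpa using h2

lemma v_o : Tendsto (fun p : ℂ × ℂ => v θ H p.1 p.2 / p.2 ^ 2) (nl t) (𝓝 (1 / 2)) := by
  have h1 := taylor_loc 2 (fun k => match k with
    | 0 => fun p => v θ H p.1 p.2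
    | 1 => fun p => v1 θ H p.1 p.2
    | _ => fun p => v2 θ H K p.1 p.2) t
    (by
      intro k hk
      filter_upwards [h.ev ht] with p hp
      interval_cases k
      · exact h.v_deriv hp.2
      · exact h.v_d1 hp.2)
    (h.v2_cont ht)
  refine tendsto_of_o (h1.congr_left ?_)
  intro p
  simp [v_zero, v1_zero, v2_zero, Finset.sum_range_succ]

/-- oddness defect of `R` -/
theorem R_even_lim : Tendsto (fun p : ℂ × ℂ => (R θ H p.1 p.2 + R θ H p.1 (-p.2)) / p.2 ^ 4) (nl t)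
    (𝓝 (deriv θ t * deriv (deriv θ) t / 8 - deriv K t / 30)) := by
  have a1 := tendsto_of_o (u_even_o h ht)
  have a2 := tendsto_of_o (v_odd_o h ht)
  have a3 := u_o h ht
  have a4 := v_o h ht
  have a5 := a3.comp (neg_tendsto' t)
  have e1 := a3.eventually_ne one_ne_zero
  have e2 := a5.eventually_ne one_ne_zero
  have a6 := ((a4.mul a1).sub (a2.mul a3)).div (a3.mul a5.neg) (by norm_num)
  have e3 : ((1 / 2 : ℂ) * ((2 * deriv (gK θ K) t - deriv θ t * deriv (deriv θ) t) / 12)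
      - (deriv (gK θ K) t - deriv θ t * deriv (deriv θ) t) / 20 * 1) / (1 * -1)
      = deriv θ t * deriv (deriv θ) t / 8 - deriv K t / 30 := by
    rw [h.deriv_g ht]
    ring
  rw [e3] at a6
  refine a6.congr' ?_
  filter_upwards [e1, e2, nl_ne t] with p h1 h2 h3
  have hu : u θ H p.1 p.2 ≠ 0 := fun h0 => h1 (by rw [h0, zero_div])
  have hu' : u θ H p.1 (-p.2) ≠ 0 := fun h0 => h2 (by simp only [Function.comp_apply]; rw [h0, zero_div])
  simp only [Function.comp_apply, Pi.div_apply]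
  unfold R
  field_simp
  ring

end

/-! ### the step -/

section
variable {θ H K : ℂ → ℂ} {V : Set ℂ}

lemma _root_.Crest.Agent.R102.Growth.EntOn.exists_good (h : EntOn θ H K V) {t : ℂ} (ht : t ∈ V) :
    ∃ ρ, GoodOn θ K V t ρ := by
  obtain ⟨δ, hδ, hδV⟩ := Metric.isOpen_iff.mp h.Vo t ht
  have hsub : closedBall t (δ / 2) ⊆ V := (closedBall_subset_ball (by linarith)).trans hδV
  obtain ⟨M1, hM1⟩ := (isCompact_closedBall t (δ / 2)).exists_bound_of_continuousOn (f := deriv θ)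
    (fun s hs => (h.dθ1 (hsub hs)).continuousAt.continuousWithinAt)
  obtain ⟨M2, hM2⟩ := (isCompact_closedBall t (δ / 2)).exists_bound_of_continuousOn (f := K)
    (fun s hs => (h.dK0 (hsub hs)).continuousAt.continuousWithinAt)
  have htm : t ∈ closedBall t (δ / 2) := mem_closedBall_self (by positivity)
  have m1 : 0 ≤ M1 := (norm_nonneg _).trans (hM1 t htm)
  have m2 : 0 ≤ M2 := (norm_nonneg _).trans (hM2 t htm)
  set M := M1 + M2 + 1 with hM
  have hM0 : 1 ≤ M := by linarith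
  set σ := min (δ / 2) (1 / (200 * M)) with hσ
  have hσ0 : 0 < σ := lt_min (by positivity) (by positivity)
  have hσ1 : σ ≤ δ / 2 := min_le_left _ _
  have hσ2 : σ ≤ 1 / (200 * M) := min_le_right _ _
  have hσ3 : σ * (200 * M) ≤ 1 := by
    rwa [le_div_iff₀ (by positivity)] at hσ2
  have hσ4 : σ ≤ 1 := by nlinarith
  refine ⟨σ, hσ0, (closedBall_subset_closedBall hσ1).trans hsub, ?_, ?_⟩
  · intro s hs
    have h1 := hM1 s (by rw [mem_closedBall, dist_eq_norm]; linarith)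
    have h2 : ‖deriv θ s‖ * σ ≤ M * σ := mul_le_mul_of_nonneg_right (by linarith) hσ0.le
    linarith
  · intro s hs
    have h1 := hM2 s (by rw [mem_closedBall, dist_eq_norm]; linarith)
    have h2 : ‖K s‖ * σ ^ 2 ≤ M * σ ^ 2 := mul_le_mul_of_nonneg_right (by linarith) (by positivity)
    have h3 : σ ^ 2 ≤ σ := by nlinarith
    have h4 : M * σ ^ 2 ≤ M * σ := mul_le_mul_of_nonneg_left h3 (by linarith)
    linarith

variable {z : ℂ} {ρ : ℝ}

lemma R_lip2 (h : EntOn θ H K V) (g : GoodOn θ K V z ρ) {r : ℝ} (hr : 0 < r) (hr2 : 2 * r ≤ ρ) {s t : ℂ}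
    (hs : ‖s‖ ≤ r) (ht : ‖t‖ ≤ r) :
    ‖(R θ H z s - R θ H z t) - (s - t) / 2‖ ≤ r ^ 2 / ρ ^ 2 * ‖s - t‖ := by
  have hp := g.pos
  have key : ∀ x ∈ closedBall (0 : ℂ) r, HasDerivWithinAt (fun x => R θ H z x - x / 2)
      (deriv (fun x => R θ H z x - x / 2) x) (closedBall (0 : ℂ) r) x ∧
      ‖deriv (fun x => R θ H z x - x / 2) x‖ ≤ r ^ 2 / ρ ^ 2 := by
    intro x hx
    have hx' : ‖x‖ ≤ r := by simpa using hx
    have hd : ∀ y, ‖y‖ ≤ ρ → DifferentiableAt ℂ (fun x => R θ H z x - x / 2) y := by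
      intro y hy
      obtain ⟨d, hd, -⟩ := R_deriv h g hy
      exact hd.differentiableAt.sub (by fun_prop)
    refine ⟨(hd x (by linarith)).hasDerivAt.hasDerivWithinAt, ?_⟩
    have hcl : ∀ y ∈ closedBall x r, ‖y‖ ≤ 2 * r := by
      intro y hy
      rw [mem_closedBall, dist_eq_norm] at hy
      have := norm_add_le (y - x) x
      rw [sub_add_cancel] at this
      linarith
    have := Complex.norm_deriv_le_of_forall_mem_sphere_norm_le (c := x) (R := r) (C := r ^ 3 / ρ ^ 2)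
      (f := fun x => R θ H z x - x / 2) hr
      (by
        refine DifferentiableOn.diffContOnCl ?_
        rw [closure_ball x hr.ne']
        intro y hy
        exact (hd y ((hcl y hy).trans hr2)).differentiableWithinAt)
      (by
        intro y hy
        have h1 := hcl y (sphere_subset_closedBall hy)
        have h2 := R_near h g (s := y) (by linarith)
        refine h2.trans ?_
        have h3 : ‖y‖ ^ 3 ≤ (2 * r) ^ 3 := pow_le_pow_left₀ (norm_nonneg _) h1 3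
        rw [mul_div_assoc', div_le_div_iff_of_pos_right (by positivity)]
        nlinarith [pow_pos hr 3])
    refine this.trans (le_of_eq ?_)
    field_simp
  have := (convex_closedBall (0 : ℂ) r).norm_image_sub_le_of_norm_hasDerivWithin_le
      (f := fun x => R θ H z x - x / 2) (C := r ^ 2 / ρ ^ 2)
      (fun x hx => (key x hx).1) (fun x hx => (key x hx).2)
      (x := t) (y := s) (by simpa using ht) (by simpa using hs)
  have e : (R θ H z s - R θ H z t) - (s - t) / 2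
      = (R θ H z s - s / 2) - (R θ H z t - t / 2) := by ring
  rw [e]
  exact this

/-- **the fourth order coefficient of the step** -/
theorem st_lim (h : EntOn θ H K V) {t : ℂ} (ht : t ∈ V) :
    Tendsto (fun p : ℂ × ℂ => (st θ H p.1 p.2 - p.2) / p.2 ^ 4) (nl t)
      (𝓝 (deriv K t / 15 - deriv θ t * deriv (deriv θ) t / 4)) := by
  obtain ⟨ρ, g⟩ := h.exists_good ht
  have hp := g.pos
  have hQ := R_even_lim h ht
  -- error term
  have ev : ∀ᶠ p in nl t, ‖(st θ H p.1 p.2 - p.2) / p.2 ^ 4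
      - (-2) * ((R θ H p.1 p.2 + R θ H p.1 (-p.2)) / p.2 ^ 4)‖
      ≤ 45 / ρ ^ 2 * ‖p.2‖ ^ 2 * ‖(R θ H p.1 p.2 + R θ H p.1 (-p.2)) / p.2 ^ 4‖ := by
    have c1 : ∀ᶠ p : ℂ × ℂ in nl t, ‖p.1 - t‖ < ρ / 2 := by
      have : ContinuousAt (fun p : ℂ × ℂ => ‖p.1 - t‖) (t, 0) := by fun_prop
      exact (this.eventually_lt continuousAt_const (by simpa using hp)).filter_mono
        nhdsWithin_le_nhds
    have c2 : ∀ᶠ p : ℂ × ℂ in nl t, ‖p.2‖ < ρ / 8 := by
      have : ContinuousAt (fun p : ℂ × ℂ => ‖p.2‖) (t, 0) := by fun_prop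
      exact (this.eventually_lt continuousAt_const (by simpa using hp)).filter_mono
        nhdsWithin_le_nhds
    filter_upwards [c1, c2, nl_ne t] with p h1 h2 h3
    have g' : GoodOn θ K V p.1 (ρ / 2) := g.mono (by linarith) (by linarith)
    set z := p.1
    set e := p.2
    have he0 : 0 < ‖e‖ := norm_pos_iff.mpr h3
    have s1 := st_spec h g' (e := e) (by linarith)
    have s2 := st_le h g' (e := e) (by linarith)
    set s := st θ H z e
    set Q := R θ H z e + R θ H z (-e) with hQd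
    have s3 : R θ H z s - R θ H z e = -Q := by rw [s1.2, hQd]; ring
    have s4 := R_expand h g' (s := s) (t := e) (by linarith) (by linarith)
    rw [s3, norm_neg] at s4
    have s5 := R_lip2 h g' (r := 3 / 2 * ‖e‖) (by positivity) (by linarith) (s := s) (t := e)
      s2 (by linarith)
    rw [s3] at s5
    have s6 : ‖(s - e) - (-2) * Q‖ ≤ 45 / ρ ^ 2 * ‖e‖ ^ 2 * ‖Q‖ := by
      have e1 : (s - e) - (-2) * Q = (-2) * (-Q - (s - e) / 2) := by ring
      rw [e1, norm_mul, norm_neg, Complex.norm_ofNat]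
      have e2 : (3 / 2 * ‖e‖) ^ 2 / (ρ / 2) ^ 2 = 9 / ρ ^ 2 * ‖e‖ ^ 2 := by
        field_simp
        ring
      rw [e2] at s5
      have e3 : 9 / ρ ^ 2 * ‖e‖ ^ 2 * ‖s - e‖ ≤ 9 / ρ ^ 2 * ‖e‖ ^ 2 * (5 / 2 * ‖Q‖) :=
        mul_le_mul_of_nonneg_left (by linarith) (by positivity)
      calc 2 * ‖-Q - (s - e) / 2‖ ≤ 2 * (9 / ρ ^ 2 * ‖e‖ ^ 2 * (5 / 2 * ‖Q‖)) := by linarith
        _ = 45 / ρ ^ 2 * ‖e‖ ^ 2 * ‖Q‖ := by ring
    have e4 : (s - e) / e ^ 4 - (-2) * (Q / e ^ 4) = ((s - e) - (-2) * Q) / e ^ 4 := by ring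
    rw [e4, norm_div, norm_div]
    have h4 : 0 < ‖e ^ 4‖ := norm_pos_iff.mpr (pow_ne_zero 4 h3)
    rw [div_le_iff₀ h4]
    refine s6.trans (le_of_eq ?_)
    field_simp
  have z1 : Tendsto (fun p : ℂ × ℂ => 45 / ρ ^ 2 * ‖p.2‖ ^ 2
      * ‖(R θ H p.1 p.2 + R θ H p.1 (-p.2)) / p.2 ^ 4‖) (nl t) (𝓝 0) := by
    have z2 : Tendsto (fun p : ℂ × ℂ => 45 / ρ ^ 2 * ‖p.2‖ ^ 2) (nl t) (𝓝 0) := by
      have : ContinuousAt (fun p : ℂ × ℂ => 45 / ρ ^ 2 * ‖p.2‖ ^ 2) (t, 0) := by fun_prop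
      have h2 : Tendsto (fun p : ℂ × ℂ => 45 / ρ ^ 2 * ‖p.2‖ ^ 2) (𝓝 (t, 0)) (𝓝 0) := by
        simpa using this.tendsto
      exact h2.mono_left nhdsWithin_le_nhds
    have := z2.mul hQ.norm
    rwa [zero_mul] at this
  have z3 : Tendsto (fun p : ℂ × ℂ => (st θ H p.1 p.2 - p.2) / p.2 ^ 4
      - (-2) * ((R θ H p.1 p.2 + R θ H p.1 (-p.2)) / p.2 ^ 4)) (nl t) (𝓝 0) :=
    squeeze_zero_norm' ev z1
  have z4 := z3.add (hQ.const_mul (-2))
  have e5 : (0 : ℂ) + -2 * (deriv θ t * deriv (deriv θ) t / 8 - deriv K t / 30)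
      = deriv K t / 15 - deriv θ t * deriv (deriv θ) t / 4 := by ring
  rw [e5] at z4
  refine z4.congr ?_
  intro p
  ring

end

/-- local form with little-o hypotheses -/
theorem coeff_local2 {θ H K : ℂ → ℂ} {V : Set ℂ} (h : EntOn θ H K V) {X : ℂ × ℂ → ℂ}
    {c : ℂ → ℂ} {t c' : ℂ} (ht : t ∈ V)
    (hX : Tendsto (fun w : ℂ => X (t, w)) (𝓝[≠] 0) (𝓝 t))
    (h1 : (fun w : ℂ => X (t, w) - X (t - w, w) - (w + w ^ 3 * c (t - w / 2)))
      =o[𝓝[≠] 0] fun w => w ^ 4)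
    (h2 : (fun w : ℂ => X (t + w, w) - X (t, w) - (w + w ^ 3 * c (t + w / 2)))
      =o[𝓝[≠] 0] fun w => w ^ 4)
    (hlaw : ∀ᶠ w in 𝓝[≠] (0 : ℂ),
      X (t + w, w) = X (t, w) + st θ H (X (t, w)) (X (t, w) - X (t - w, w)))
    (hc : HasStrictDerivAt c c' t) :
    c' = deriv K t / 15 - deriv θ t * deriv (deriv θ) t / 4 := by
  have hne : ∀ᶠ w in 𝓝[≠] (0 : ℂ), w ≠ 0 := self_mem_nhdsWithin
  have hw0 : Tendsto (fun w : ℂ => w) (𝓝[≠] 0) (𝓝 0) := tendsto_id.mono_left nhdsWithin_le_nhds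
  have k1 : Tendsto (fun w : ℂ => t - w / 2) (𝓝[≠] 0) (𝓝 t) := by
    have : ContinuousAt (fun w : ℂ => t - w / 2) 0 := by fun_prop
    have h3 : Tendsto (fun w : ℂ => t - w / 2) (𝓝 0) (𝓝 t) := by simpa using this.tendsto
    exact h3.mono_left nhdsWithin_le_nhds
  have k2 : Tendsto (fun w : ℂ => t + w / 2) (𝓝[≠] 0) (𝓝 t) := by
    have : ContinuousAt (fun w : ℂ => t + w / 2) 0 := by fun_prop
    have h3 : Tendsto (fun w : ℂ => t + w / 2) (𝓝 0) (𝓝 t) := by simpa using this.tendsto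
    exact h3.mono_left nhdsWithin_le_nhds
  have a1 := h1.tendsto_div_nhds_zero
  have a2 := h2.tendsto_div_nhds_zero
  -- `e / w → 1`
  have e1 : Tendsto (fun w : ℂ => (X (t, w) - X (t - w, w)) / w) (𝓝[≠] 0) (𝓝 1) := by
    have b1 := (a1.mul (hw0.pow 3)).add
      (((hw0.pow 2).mul (hc.hasDerivAt.continuousAt.tendsto.comp k1)).const_add 1)
    have e : (0 : ℂ) * 0 ^ 3 + (1 + 0 ^ 2 * c t) = 1 := by ring
    rw [e] at b1
    refine b1.congr' ?_
    filter_upwards [hne] with w hw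
    simp only [Function.comp_apply]
    field_simp
    ring
  have e2 : Tendsto (fun w : ℂ => X (t, w) - X (t - w, w)) (𝓝[≠] 0) (𝓝 0) := by
    have := hw0.mul e1
    rw [zero_mul] at this
    refine this.congr' ?_
    filter_upwards [hne] with w hw
    field_simp
  have e3 : ∀ᶠ w in 𝓝[≠] (0 : ℂ), X (t, w) - X (t - w, w) ≠ 0 := by
    filter_upwards [e1.eventually_ne one_ne_zero] with w b h0
    rw [h0, zero_div] at b
    exact b rfl
  have e4 : Tendsto (fun w : ℂ => ((X (t, w), X (t, w) - X (t - w, w)) : ℂ × ℂ)) (𝓝[≠] 0) (nl t) := by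
    refine tendsto_nhdsWithin_iff.mpr ⟨?_, e3⟩
    exact hX.prodMk_nhds e2
  have e5 := (st_lim h ht).comp e4
  have e6 := e5.mul (e1.pow 4)
  rw [one_pow, mul_one] at e6
  -- the other side
  have f1 : Tendsto (fun w : ℂ => (c (t + w / 2) - c (t - w / 2)) / w) (𝓝[≠] 0) (𝓝 c') := by
    have f3 := hc.isLittleO.comp_tendsto (k2.prodMk_nhds k1)
    have f4 : ((fun p : ℂ × ℂ => p.1 - p.2) ∘ fun w : ℂ => ((t + w / 2, t - w / 2) : ℂ × ℂ))
        =O[𝓝[≠] (0 : ℂ)] fun w : ℂ => w := by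
      refine IsBigO.of_bound 1 (Eventually.of_forall fun w => le_of_eq ?_)
      simp only [Function.comp_apply, one_mul]
      congr 1
      ring
    have f5 := (f3.trans_isBigO f4).tendsto_div_nhds_zero.add_const c'
    rw [zero_add] at f5
    refine f5.congr' ?_
    filter_upwards [hne] with w hw
    simp only [Function.comp_apply, ContinuousLinearMap.toSpanSingleton_apply, smul_eq_mul]
    field_simp
    ring
  have f2 := (f1.add a2).sub a1
  have e : c' + 0 - 0 = c' := by ring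
  rw [e] at f2
  refine tendsto_nhds_unique (f2.congr' ?_) e6
  filter_upwards [hlaw, e3, hne] with w cc d f
  simp only [Function.comp_apply]
  have c' : st θ H (X (t, w)) (X (t, w) - X (t - w, w)) = X (t + w, w) - X (t, w) := by
    linear_combination -cc
  rw [c', div_pow, div_mul_div_comm, mul_comm ((X (t, w) - X (t - w, w)) ^ 4),
    mul_div_mul_right _ _ (pow_ne_zero 4 d)]
  field_simp
  ring

section

variable {θ H K : ℂ → ℂ} {V : Set ℂ} {ρ r : ℝ} {b : ℂ × ℂ → ℂ}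

lemma LB_mono (L : LB ρ r b) {ρ' r' : ℝ} (hρ : ρ' ≤ ρ) (hr0 : 0 < r') (hr : r' ≤ r) : LB ρ' r' b :=
  ⟨hr0, L.diff.mono (fun _ hp => ⟨lt_of_lt_of_le hp.1 hρ, lt_of_lt_of_le hp.2 hr⟩),
    fun t ht => L.zero t (lt_of_lt_of_le ht hρ),
    fun t w ht hw => L.even t w (lt_of_lt_of_le ht hρ) (lt_of_lt_of_le hw hr)⟩

/-- derivative of the coefficient -/
theorem c3_deriv (h : EntOn θ H K V) (L : LB ρ r b) {t : ℂ} (ht : |t.im| < ρ) (htV : t ∈ V)
    (hlaw : ∀ᶠ w in 𝓝[≠] (0 : ℂ),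
      b (t + w, w) = b (t, w) + st θ H (b (t, w)) (b (t, w) - b (t - w, w))) :
    HasDerivAt (c3 b) (6 * (deriv K t / 15 - deriv θ t * deriv (deriv θ) t / 4)) t := by
  have hc3a := L.c3_an ht
  have hT2 := L.expand ht
  have k1 : Tendsto (fun w : ℂ => ((t - w / 2, w) : ℂ × ℂ)) (𝓝[≠] 0) (𝓝 (t, 0)) := by
    have : ContinuousAt (fun w : ℂ => ((t - w / 2, w) : ℂ × ℂ)) 0 := by fun_prop
    have h3 : Tendsto (fun w : ℂ => ((t - w / 2, w) : ℂ × ℂ)) (𝓝 0) (𝓝 (t, 0)) := by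
      simpa using this.tendsto
    exact h3.mono_left nhdsWithin_le_nhds
  have k2 : Tendsto (fun w : ℂ => ((t + w / 2, w) : ℂ × ℂ)) (𝓝[≠] 0) (𝓝 (t, 0)) := by
    have : ContinuousAt (fun w : ℂ => ((t + w / 2, w) : ℂ × ℂ)) 0 := by fun_prop
    have h3 : Tendsto (fun w : ℂ => ((t + w / 2, w) : ℂ × ℂ)) (𝓝 0) (𝓝 (t, 0)) := by
      simpa using this.tendsto
    exact h3.mono_left nhdsWithin_le_nhds
  have o1 := hT2.comp_tendsto k1
  have o2 := hT2.comp_tendsto k2
  have p1 : (fun w : ℂ => b (t, w) - b (t - w, w) - (w + w ^ 3 * (c3 b (t - w / 2) / 6)))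
      =o[𝓝[≠] 0] fun w => w ^ 4 := by
    refine o1.congr (fun w => ?_) (fun w => rfl)
    simp only [Function.comp_apply, SS]
    have e1 : t - w / 2 + w / 2 = t := by ring
    have e2 : t - w / 2 - w / 2 = t - w := by ring
    rw [e1, e2]
  have p2 : (fun w : ℂ => b (t + w, w) - b (t, w) - (w + w ^ 3 * (c3 b (t + w / 2) / 6)))
      =o[𝓝[≠] 0] fun w => w ^ 4 := by
    refine o2.congr (fun w => ?_) (fun w => rfl)
    simp only [Function.comp_apply, SS]
    have e1 : t + w / 2 + w / 2 = t + w := by ring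
    have e2 : t + w / 2 - w / 2 = t := by ring
    rw [e1, e2]
  have hfin := coeff_local2 h (X := b) (c := fun z => c3 b z / 6) (c' := deriv (c3 b) t / 6) htV
    (L.tendsto ht) p1 p2 hlaw (hc3a.hasStrictDerivAt.div_const 6)
  have e6 : deriv (c3 b) t = 6 * (deriv K t / 15 - deriv θ t * deriv (deriv θ) t / 4) := by
    linear_combination 6 * hfin
  rw [← e6]
  exact hc3a.differentiableAt.hasDerivAt

/-- **(AP3)** near the real axis -/
theorem coeff_strip (h : EntOn θ H K V) (L : LB ρ r b) (hV : ∀ t : ℂ, |t.im| < ρ → t ∈ V)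
    (hlaw : ∀ t : ℂ, |t.im| < ρ → ∀ᶠ w in 𝓝[≠] (0 : ℂ),
      b (t + w, w) = b (t, w) + st θ H (b (t, w)) (b (t, w) - b (t - w, w))) :
    ∃ c : ℂ, ∀ t : ℂ, |t.im| < ρ →
      iteratedDeriv 3 (fun w => b (t + w / 2, w) - b (t - w / 2, w)) 0 =
        2 / 5 * ((K t - 2 * (deriv θ t) ^ 2) + (deriv θ t) ^ 2 / 8) + c := by
  set T : Set ℂ := {t : ℂ | |t.im| < ρ} with hT
  have hTo : IsOpen T := isOpen_lt (by fun_prop) continuous_const
  have hTc : IsPreconnected T := by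
    have : T = Complex.imLm ⁻¹' (Ioo (-ρ) ρ) := by
      ext w
      simp [hT, abs_lt]
    rw [this]
    exact ((convex_Ioo _ _).linear_preimage _).isPreconnected
  set Φ : ℂ → ℂ := fun t => c3 b t
    - 2 / 5 * ((K t - 2 * (deriv θ t) ^ 2) + (deriv θ t) ^ 2 / 8) with hΦ
  have hΦd : ∀ t ∈ T, HasDerivAt Φ 0 t := by
    intro t ht
    have h1 := c3_deriv h L ht (hV t ht) (hlaw t ht)
    have h2 := ((h.dθ1 (hV t ht)).hasDerivAt.pow 2)
    have h3 := (((h.dK0 (hV t ht)).hasDerivAt.sub (h2.const_mul 2)).add (h2.div_const 8)).const_mul (2 / 5 : ℂ)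
    refine (h1.sub h3).congr_deriv ?_
    push_cast
    ring
  obtain ⟨c, hc⟩ := hTo.exists_is_const_of_deriv_eq_zero hTc
    (fun t ht => (hΦd t ht).differentiableAt.differentiableWithinAt) (fun t ht => (hΦd t ht).deriv)
  refine ⟨c, fun t ht => ?_⟩
  have := hc t ht
  simp only [hΦ, c3] at this
  linear_combination this

end

end Crest.Agent.R102.StepV599
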