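import Crest.Agent.R102.APJ_628
import Crest.Agent.R102.GrowthDefs_314

/-!
Row 102, block GROWTH, **(AP): a priori bounds, labels in a strip** (helper628): the Case B version
of `APJ_628`.
-/

set_option autoImplicit false

open Set Filter Topology Metric
open scoped ComplexConjugate

noncomputable section

namespace Crest.Agent.R102.APJ628

open Crest.Agent.R102.B821 Crest.Agent.R102.C1 Crest.Agent.R102.StepT628
  Crest.Agent.R102.Pick628
open Crest.Agent.R102.T5 (Str)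

/-- **(1b) picking on a strip** -/
theorem pickingS {y G : ℂ → ℂ} {h₁ h₂ Γ : ℝ} (hΓ : 0 < Γ) (h12 : h₁ < h₂)
    (hy : DifferentiableOn ℂ y (Str h₂))
    (hper : ∀ z ∈ Str h₂, y (z + 1) = y z)
    (hyG : ∀ z : ℂ, |z.im| < h₁ → deriv (deriv y) z = G z * y z)
    (hJ : ∀ z : ℂ, |z.im| < h₁ → ‖G z + y z ^ 2 / 8‖ ≤ 2 * Γ ^ 2) :
    ∀ z : ℂ, |z.im| ≤ h₁ - 1 / Γ → ‖y z‖ ≤ 18 * Γ ∧ ‖G z‖ ≤ 43 * Γ ^ 2 := by
  -- weight
  set lam : ℂ → ℝ := fun z => min 1 (Γ * (h₁ - |z.im|)) with hlam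
  have hlamc : Continuous lam := by
    rw [hlam]; fun_prop
  have key : ∀ z, |z.im| ≤ h₁ → ‖y z‖ * lam z ≤ 18 * Γ := by
    by_contra hcon
    push Not at hcon
    obtain ⟨z₀, hz₀, hlt⟩ := hcon
    -- maximum on the closed strip
    set Kc : Set ℂ := (Icc (0 : ℝ) 1 ×ℂ Icc (-h₁) h₁) with hKc
    have hKcomp : IsCompact Kc := isCompact_Icc.reProdIm isCompact_Icc
    have hKsub : Kc ⊆ Str h₂ := by
      intro z hz
      rw [hKc, Complex.mem_reProdIm] at hz
      exact (abs_le.2 hz.2).trans_lt h12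
    have hperZ : ∀ (n : ℤ) (z : ℂ), |z.im| < h₂ → y (z + n) = y z := by
      intro n z hz
      induction n using Int.induction_on with
      | zero => simp
      | succ i ih =>
        have e : z + ((i : ℤ) + 1 : ℤ) = (z + ((i : ℤ) : ℂ)) + 1 := by push_cast; ring
        rw [e, hper _ (by show |(z + ((i : ℤ) : ℂ)).im| < h₂; simpa using hz), ih]
      | pred i ih =>
        have e : z + (-(i : ℤ) : ℤ) = (z + (-(i : ℤ) - 1 : ℤ)) + 1 := by push_cast; ring
        rw [e, hper _ (by show |(z + ((-(i : ℤ) - 1 : ℤ) : ℂ)).im| < h₂; simpa using hz)] at ih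
        exact ih
    have hshift : ∀ z : ℂ, |z.im| ≤ h₁ → ∃ z' ∈ Kc, ‖y z'‖ * lam z' = ‖y z‖ * lam z := by
      intro z hz
      refine ⟨z + ((-⌊z.re⌋ : ℤ) : ℂ), ?_, ?_⟩
      · rw [hKc, Complex.mem_reProdIm]
        have h1 := Int.floor_le z.re
        have h2 := (Int.lt_floor_add_one z.re).le
        refine ⟨?_, ?_⟩
        · simp only [Complex.add_re, Int.cast_neg, Complex.neg_re, Complex.intCast_re]
          exact ⟨by linarith, by linarith⟩
        · simp only [Complex.add_im, Complex.intCast_im, add_zero]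
          exact abs_le.1 hz
      · rw [hperZ _ z (hz.trans_lt h12), hlam]
        simp
    have hKne : Kc.Nonempty := by
      obtain ⟨z', hz', _⟩ := hshift z₀ hz₀
      exact ⟨z', hz'⟩
    obtain ⟨zs, hzs, hmax⟩ := hKcomp.exists_isMaxOn hKne
      ((hy.continuousOn.mono hKsub).norm.mul (hlamc.continuousOn (s := Kc)))
    have hmax' : ∀ z : ℂ, |z.im| ≤ h₁ → ‖y z‖ * lam z ≤ ‖y zs‖ * lam zs := by
      intro z hz
      obtain ⟨z', hz', he⟩ := hshift z hz
      rw [← he]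
      exact hmax hz'
    set η : ℝ := ‖y zs‖ with hη
    have hbig : 18 * Γ < η * lam zs := hlt.trans_le (hmax' z₀ hz₀)
    have hlam1 : ∀ z, lam z ≤ 1 := fun z => min_le_left _ _
    have hη0 : 0 ≤ η := norm_nonneg _
    have hlampos : 0 < lam zs := by
      by_contra h
      push Not at h
      nlinarith
    have hηpos : 0 < η := by
      rcases hη0.eq_or_lt with h | h
      · rw [← h, zero_mul] at hbig; linarith
      · exact h
    have hη18 : 18 * Γ < η := by
      have := mul_le_mul_of_nonneg_left (hlam1 zs) hη0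
      linarith
    -- the rescaled function
    have hLip : ∀ z, lam zs - Γ * ‖z - zs‖ ≤ lam z := by
      intro z
      have h1 : |z.im| ≤ |zs.im| + ‖z - zs‖ := by
        have h2 := Complex.abs_im_le_norm (z - zs)
        rw [Complex.sub_im] at h2
        have h3 := abs_sub_abs_le_abs_sub z.im zs.im
        linarith
      have h4 : 0 ≤ Γ * ‖z - zs‖ := by positivity
      rw [hlam]
      simp only
      refine le_min ?_ ?_
      · have := min_le_left (1 : ℝ) (Γ * (h₁ - |zs.im|))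
        linarith
      · have := min_le_right (1 : ℝ) (Γ * (h₁ - |zs.im|))
        nlinarith
    have h9 : ∀ z, ‖z - zs‖ ≤ 9 / η → |z.im| < h₁ ∧ ‖y z‖ ≤ 2 * η := by
      intro z hz
      have h1 := hLip z
      have h2 : Γ * ‖z - zs‖ ≤ lam zs / 2 := by
        have h3 : Γ * ‖z - zs‖ ≤ Γ * (9 / η) := by gcongr
        have h4 : Γ * (9 / η) ≤ lam zs / 2 := by
          rw [← mul_div_assoc, div_le_iff₀ hηpos]
          nlinarith
        linarith
      have h3 : lam zs / 2 ≤ lam z := by linarith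
      have h4 : 0 < lam z := by linarith
      have h5 : |z.im| < h₁ := by
        have h6 : lam z ≤ Γ * (h₁ - |z.im|) := min_le_right _ _
        have h7 : 0 < Γ * (h₁ - |z.im|) := lt_of_lt_of_le h4 h6
        have h8 := pos_of_mul_pos_right h7 hΓ.le
        linarith
      refine ⟨h5, ?_⟩
      have h6 := hmax' z h5.le
      have h7 : ‖y z‖ * (lam zs / 2) ≤ η * lam zs :=
        (mul_le_mul_of_nonneg_left h3 (norm_nonneg _)).trans h6
      have h8 : ‖y z‖ * lam zs ≤ (2 * η) * lam zs := by linarith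
      exact le_of_mul_le_mul_right h8 hlampos
    -- Cauchy for the second derivative
    have hdc : DiffContOnCl ℂ y (ball zs (9 / η)) := by
      refine DifferentiableOn.diffContOnCl (hy.mono ?_)
      rw [closure_ball _ (by positivity)]
      intro z hz
      rw [mem_closedBall, dist_eq_norm] at hz
      exact (h9 z hz).1.trans h12
    have hcau := Complex.norm_iteratedDeriv_le_of_forall_mem_sphere_norm_le 2 (c := zs)
      (R := 9 / η) (C := 2 * η) (by positivity) hdc (fun z hz => by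
        have : ‖z - zs‖ = 9 / η := by rwa [mem_sphere, dist_eq_norm] at hz
        exact (h9 z this.le).2)
    have e2 : iteratedDeriv 2 y zs = deriv (deriv y) zs := by
      rw [iteratedDeriv_succ, iteratedDeriv_one]
    have hin := (h9 zs (by rw [sub_self, norm_zero]; positivity)).1
    rw [e2, hyG zs hin] at hcau
    have hJs := hJ zs hin
    have h10 : ‖G zs‖ ≤ 4 / 81 * η ^ 2 := by
      have h11 : ‖G zs * y zs‖ = ‖G zs‖ * η := norm_mul _ _
      rw [h11] at hcau
      have h12 : ((Nat.factorial 2 : ℕ) : ℝ) * (2 * η) / (9 / η) ^ 2 = 4 / 81 * η ^ 2 * η := by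
        have : ((Nat.factorial 2 : ℕ) : ℝ) = 2 := by norm_num [Nat.factorial]
        rw [this]; field_simp; ring
      rw [h12] at hcau
      exact le_of_mul_le_mul_right hcau hηpos
    have h13 : ‖y zs ^ 2 / 8‖ = η ^ 2 / 8 := by
      rw [norm_div, norm_pow]; simp [hη]
    have h14 : ‖y zs ^ 2 / 8‖ ≤ ‖G zs + y zs ^ 2 / 8‖ + ‖G zs‖ := by
      have := norm_sub_le (G zs + y zs ^ 2 / 8) (G zs)
      simpa using this
    rw [h13] at h14
    nlinarith
  intro z hz
  have hz' : |z.im| ≤ h₁ := by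
    have : 0 < 1 / Γ := by positivity
    linarith
  have hl1 : lam z = 1 := by
    rw [hlam]
    simp only
    refine min_eq_left ?_
    have h1 : 1 / Γ ≤ h₁ - |z.im| := by linarith
    rw [div_le_iff₀ hΓ] at h1
    linarith
  have h1 := key z hz'
  rw [hl1, mul_one] at h1
  refine ⟨h1, ?_⟩
  have hlt : |z.im| < h₁ := by
    have : 0 < 1 / Γ := by positivity
    linarith
  have h2 := hJ z hlt
  have h3 : ‖G z‖ ≤ ‖G z + y z ^ 2 / 8‖ + ‖y z ^ 2 / 8‖ := by
    have := norm_sub_le (G z + y z ^ 2 / 8) (y z ^ 2 / 8)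
    simpa using this
  have h4 : ‖y z ^ 2 / 8‖ = ‖y z‖ ^ 2 / 8 := by
    rw [norm_div, norm_pow]; simp
  rw [h4] at h3
  have h5 : ‖y z‖ ^ 2 ≤ (18 * Γ) ^ 2 := by gcongr
  nlinarith

/-- the labels of the box are in `V` -/
def BoxV (V : Set ℂ) (a h r : ℝ) (B : ℂ × ℂ → ℂ) : Prop :=
  ∀ x ∈ Sab (a + r / 2) (h - r / 2) ×ˢ ball (0 : ℂ) r, B x ∈ V

namespace Box

variable {θ H : ℂ → ℂ} {V : Set ℂ} {a h r : ℝ} {φ p B : ℂ × ℂ → ℂ} (X : Box θ H a h r φ p B)
include X

/-- **the label step omits the integers** -/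
lemma stp_not_intV (hLab : Lab θ H V) (hV : BoxV V a h r B) {t w : ℂ}
    (ht : t ∈ Sab (a + r) (h - r)) (hw : ‖w‖ < r) (hw0 : w ≠ 0) (k : ℤ) : stp B (t, w) ≠ k := by
  have hr := X.r_pos
  have ha := X.a_lt
  have hh := X.h_gt
  set D : Set (ℂ × ℂ) := Sab (a + r) (h - r) ×ˢ (ball (0 : ℂ) r \ {0}) with hD
  have hDo : IsOpen D := (isOpen_Sab _ _).prod (isOpen_ball.sdiff isClosed_singleton)
  have hDc : IsPreconnected D :=
    (convex_Sab _ _).isPreconnected.prod (preconnected_punctured hr)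
  have hsub : D ⊆ Sab (a + r) (h - r) ×ˢ ball (0 : ℂ) r := prod_mono Subset.rfl sdiff_subset
  have hsub2 : Sab (a + r) (h - r) ×ˢ ball (0 : ℂ) r ⊆ Sab a h ×ˢ ball (0 : ℂ) r := by
    rintro x ⟨⟨h1, h2⟩, h3⟩
    exact ⟨⟨by linarith, by linarith⟩, h3⟩
  have h0mem : (0 : ℂ) ∈ Sab (a + r) (h - r) := by
    constructor
    · simp only [Complex.zero_im]; linarith
    · simp only [Complex.zero_im]; linarith
  -- a good base point
  have hlim : Tendsto (fun w : ℂ => stp B (0, w) / w) (𝓝[≠] 0) (𝓝 1) := by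
    have h1 : HasDerivAt (fun w => stp B (0, w)) 1 0 := by
      have h2 := ((X.slice_diff h0mem).differentiableAt (ball_mem_nhds _ hr)).hasDerivAt
      rwa [X.slice_deriv h0mem] at h2
    have h2 := hasDerivAt_iff_tendsto_slope.1 h1
    refine h2.congr' ?_
    filter_upwards [self_mem_nhdsWithin] with w _
    rw [slope_def_field, stp_zero, sub_zero, sub_zero]
  have hex : ∃ w : ℂ, w ≠ 0 ∧ ‖w‖ < r ∧ ∀ k : ℤ, stp B (0, w) ≠ k := by
    have e1 : ∀ᶠ w in 𝓝[≠] (0 : ℂ), ‖stp B (0, w) / w - 1‖ < 1 / 2 := by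
      have := hlim.eventually (Metric.ball_mem_nhds (1 : ℂ) (show (0 : ℝ) < 1 / 2 by norm_num))
      filter_upwards [this] with w hw
      rwa [dist_eq_norm] at hw
    have e2 : ∀ᶠ w in 𝓝[≠] (0 : ℂ), ‖w‖ < min r (1 / 2) := by
      have : ∀ᶠ w in 𝓝 (0 : ℂ), ‖w‖ < min r (1 / 2) := by
        have h3 : Tendsto (fun w : ℂ => ‖w‖) (𝓝 0) (𝓝 ‖(0 : ℂ)‖) := continuous_norm.tendsto 0
        rw [norm_zero] at h3
        exact h3.eventually (Iio_mem_nhds (lt_min hr (by norm_num)))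
      exact this.filter_mono nhdsWithin_le_nhds
    obtain ⟨w, ⟨h1, h2⟩, h3⟩ := ((e1.and e2).and self_mem_nhdsWithin).exists
    have hw0 : w ≠ 0 := h3
    have hwn : 0 < ‖w‖ := norm_pos_iff.2 hw0
    refine ⟨w, hw0, h2.trans_le (min_le_left _ _), fun k hk => ?_⟩
    have h4 : stp B (0, w) - w = (stp B (0, w) / w - 1) * w := by field_simp
    have h5 : ‖stp B (0, w) - w‖ < ‖w‖ / 2 := by
      rw [h4, norm_mul]; nlinarith
    have h6 : ‖w‖ < 1 / 2 := h2.trans_le (min_le_right _ _)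
    rw [hk] at h5
    have h7 : ‖(k : ℂ)‖ < 1 := by
      have := norm_add_le ((k : ℂ) - w) w
      rw [sub_add_cancel] at this
      linarith
    have h8 : 0 < ‖(k : ℂ)‖ := by
      have := norm_sub_le (k : ℂ) ((k : ℂ) - w)
      rw [sub_sub_cancel] at this
      linarith
    rw [Complex.norm_intCast] at h7 h8
    have h9 : |k| < 1 := by exact_mod_cast h7
    have h10 : 0 < |k| := by exact_mod_cast h8
    omega
  obtain ⟨w₀, hw₀0, hw₀r, hw₀k⟩ := hex
  refine step_not_int hLab hDo hDc (φ := φ) (p := p) (B0 := fun x => B (x.1 - x.2 / 2, x.2))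
    (B1 := fun x => B (x.1 + x.2 / 2, x.2)) (X.φ_diff.mono (hsub.trans hsub2))
    (X.p_diff.mono (hsub.trans hsub2)) ?_ ?_
    (fun x hx => hV _ ⟨(shift_mem hx.1 (by simpa using hx.2.1)).2, hx.2.1⟩)
    (fun x hx => hV _ ⟨(shift_mem hx.1 (by simpa using hx.2.1)).1, hx.2.1⟩)
    ?_ ?_ ?_ (x₀ := (0, w₀)) ⟨h0mem, by simpa using hw₀r, hw₀0⟩ hw₀k k (t, w)
    ⟨ht, by simpa using hw, hw0⟩
  · exact X.B_diff.comp (by fun_prop)
      (fun x hx => ⟨(shift_mem hx.1 (by simpa using hx.2.1)).2, hx.2.1⟩)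
  · exact X.B_diff.comp (by fun_prop)
      (fun x hx => ⟨(shift_mem hx.1 (by simpa using hx.2.1)).1, hx.2.1⟩)
  · intro x hx
    exact X.inc' x.1 x.2 hx.1 (by simpa using hx.2.1)
  · intro x hx
    exact X.inc x.1 x.2 hx.1 (by simpa using hx.2.1)
  · intro x hx
    exact X.area x.1 x.2 hx.1 (by simpa using hx.2.1) hx.2.2

/-- **(AP), steps** -/
theorem stepV (hLab : Lab θ H V) (hV : BoxV V a h r B) {t : ℂ} (ht : t ∈ Sab (a + r) (h - r)) :
    (∀ w ∈ ball (0 : ℂ) (r / 8), 128 * Real.log (8 * K0 / r) * (‖w‖ / r) ^ 2 ≤ 1 →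
      ‖stp B (t, w) - w‖ ≤ 256 * Real.log (8 * K0 / r) * (‖w‖ / r) ^ 2 * ‖w‖) ∧
    ‖iteratedDeriv 3 (fun w => stp B (t, w)) 0‖ ≤ 1536 * Real.log (8 * K0 / r) / r ^ 2 :=
  step_est X.r_pos X.r_le (X.slice_diff ht) (stp_zero t) (X.slice_deriv ht)
    (fun w hw => X.stp_odd ht (by simpa using hw))
    (fun w hw hw0 k => X.stp_not_intV hLab hV ht (by simpa using hw) hw0 k)

/-- **(AP), the curve**, in the strip `Str h₀`, `h ≤ h₀` -/
theorem curveV {h₀ : ℝ} (hLab : Lab θ H (Str h₀)) (hV : BoxV (Str h₀) a h r B) (hh0 : h ≤ h₀)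
    (ha0 : -h₀ ≤ a) {G : ℂ → ℂ} (hG : DifferentiableOn ℂ G (Str h₀))
    (hyG : ∀ z ∈ Str h₀, deriv (deriv (deriv θ)) z = G z * deriv θ z)
    (yper : ∀ z ∈ Str h₀, deriv θ (z + 1) = deriv θ z)
    (yconj : ∀ z ∈ Str h₀, deriv θ (conj z) = conj (deriv θ z))
    (Gconj : ∀ z ∈ Str h₀, G (conj z) = conj (G z)) {c₀ : ℂ}
    (hAP3 : ∀ x : ℝ, iteratedDeriv 3 (fun w => stp B (x, w)) 0 =
      2 / 5 * (G x + deriv θ x ^ 2 / 8) + c₀) :
    ∀ z : ℂ, |z.im| ≤ h - 2 * r →
      ‖deriv θ z‖ ≤ 18 * (Real.sqrt ((1920 + 2 * ‖c₀‖) * Real.log (8 * K0 / r)) / r) ∧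
      ‖G z‖ ≤ 43 * ((1920 + 2 * ‖c₀‖) * Real.log (8 * K0 / r) / r ^ 2) := by
  have hr := X.r_pos
  have hr1 := X.r_le
  have ha := X.a_lt
  have hh := X.h_gt
  have hK := K0_ge
  have hθ : DifferentiableOn ℂ θ (Str h₀) := hLab.θ_diff
  have hSo : IsOpen (Str h₀) := hLab.open'
  have hy : DifferentiableOn ℂ (deriv θ) (Str h₀) := hLab.θ_diff.deriv hSo
  set M : ℝ := Real.log (8 * K0 / r) with hM
  have hM1 : 1 ≤ M := by
    rw [hM, Real.le_log_iff_exp_le (by positivity)]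
    have h2 : Real.exp 1 ≤ 8 := by
      have := Real.exp_one_lt_d9
      linarith
    refine h2.trans ?_
    rw [le_div_iff₀ hr]; nlinarith
  have hsubS : Sab (a + r) (h - r) ⊆ Str h₀ := by
    rintro z ⟨h1, h2⟩
    show |z.im| < h₀
    exact abs_lt.2 ⟨by linarith, by linarith⟩
  -- the identity extends to the box
  have hid : ∀ t ∈ Sab (a + r) (h - r), iteratedDeriv 3 (fun w => stp B (t, w)) 0 =
      2 / 5 * (G t + deriv θ t ^ 2 / 8) + c₀ := by
    have hc := M948.differentiableOn_coefT (isOpen_Sab (a + r) (h - r)) hr X.stp_diff 3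
    have h1 : AnalyticOnNhd ℂ (M948.coefT (stp B) 0 3) (Sab (a + r) (h - r)) :=
      hc.analyticOnNhd (isOpen_Sab _ _)
    have h2 : AnalyticOnNhd ℂ (fun t => ((3).factorial : ℂ)⁻¹ *
        (2 / 5 * (G t + deriv θ t ^ 2 / 8) + c₀)) (Sab (a + r) (h - r)) := by
      have h3 : DifferentiableOn ℂ (fun t => ((3).factorial : ℂ)⁻¹ *
        (2 / 5 * (G t + deriv θ t ^ 2 / 8) + c₀)) (Sab (a + r) (h - r)) := by
        have k1 := hG.mono hsubS
        have k2 := hy.mono hsubS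
        fun_prop
      exact h3.analyticOnNhd (isOpen_Sab _ _)
    have h0mem : (0 : ℂ) ∈ Sab (a + r) (h - r) := by
      constructor
      · simp only [Complex.zero_im]; linarith
      · simp only [Complex.zero_im]; linarith
    have hfreq : ∃ᶠ t in 𝓝[≠] (0 : ℂ), M948.coefT (stp B) 0 3 t =
        ((3).factorial : ℂ)⁻¹ * (2 / 5 * (G t + deriv θ t ^ 2 / 8) + c₀) := by
      have hseq : Tendsto (fun n : ℕ => ((((1 : ℝ) / (n + 1) : ℝ)) : ℂ)) atTop (𝓝[≠] 0) := by
        refine tendsto_nhdsWithin_iff.2 ⟨?_, ?_⟩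
        · have h3 := tendsto_one_div_add_atTop_nhds_zero_nat (𝕜 := ℝ)
          have h4 := (Complex.continuous_ofReal.tendsto 0).comp h3
          exact h4
        · refine Eventually.of_forall fun n => ?_
          have : (0 : ℝ) < 1 / ((n : ℝ) + 1) := by positivity
          exact Complex.ofReal_ne_zero.2 this.ne'
      refine hseq.frequently (Eventually.frequently (Eventually.of_forall fun n => ?_))
      unfold M948.coefT
      rw [hAP3]
    have h4 := h1.eqOn_of_preconnected_of_frequently_eq h2 (convex_Sab _ _).isPreconnected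
      h0mem hfreq
    intro t ht
    have h5 := h4 ht
    unfold M948.coefT at h5
    have h6 : ((3).factorial : ℂ)⁻¹ ≠ 0 := by
      simp [Nat.factorial]
    exact mul_left_cancel₀ h6 h5
  -- bound of `J`
  set A : ℝ := (1920 + 2 * ‖c₀‖) * M with hA
  have hA1 : 1 ≤ A := by
    have := norm_nonneg c₀
    rw [hA]; nlinarith
  have hJup : ∀ t ∈ Sab (a + r) (h - r), ‖G t + deriv θ t ^ 2 / 8‖ ≤ 2 * (A / r ^ 2) := by
    intro t ht
    have h1 := (X.stepV hLab hV ht).2
    rw [← hM] at h1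
    have h2 := hid t ht
    have h3 : G t + deriv θ t ^ 2 / 8 =
        5 / 2 * (iteratedDeriv 3 (fun w => stp B (t, w)) 0 - c₀) := by
      rw [h2]; ring
    rw [h3, norm_mul]
    have h4 : ‖(5 / 2 : ℂ)‖ = 5 / 2 := by
      rw [norm_div]; simp
    rw [h4]
    have h5 := norm_sub_le (iteratedDeriv 3 (fun w => stp B (t, w)) 0) c₀
    have h6 : ‖c₀‖ ≤ ‖c₀‖ * M / r ^ 2 := by
      rw [le_div_iff₀ (by positivity)]
      have : r ^ 2 ≤ 1 := by nlinarith
      have := norm_nonneg c₀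
      nlinarith
    have h7 : 2 * (A / r ^ 2) = 5 / 2 * (1536 * M / r ^ 2) + 4 * (‖c₀‖ * M / r ^ 2) := by
      rw [hA]; ring
    rw [h7]
    have h8 : 0 ≤ ‖c₀‖ * M / r ^ 2 := by positivity
    nlinarith
  set Γ : ℝ := Real.sqrt A / r with hΓ
  have hsA : 1 ≤ Real.sqrt A := by
    rw [Real.one_le_sqrt]; exact hA1
  have hΓpos : 0 < Γ := by rw [hΓ]; positivity
  have hΓ2 : Γ ^ 2 = A / r ^ 2 := by
    rw [hΓ, div_pow, Real.sq_sqrt (by linarith)]
  have hΓ1 : 1 / Γ ≤ r := by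
    rw [hΓ, one_div, inv_div, div_le_iff₀ (by positivity)]
    nlinarith
  have hJ : ∀ z : ℂ, |z.im| < h - r → ‖G z + deriv θ z ^ 2 / 8‖ ≤ 2 * Γ ^ 2 := by
    intro z hz
    rw [hΓ2]
    obtain ⟨h1, h2⟩ := abs_lt.1 hz
    have hzS : z ∈ Str h₀ := by
      show |z.im| < h₀
      linarith
    rcases le_total 0 z.im with h3 | h3
    · exact hJup z ⟨by linarith, h2⟩
    · have h4 := hJup (conj z) ⟨by rw [Complex.conj_im]; linarith,
        by rw [Complex.conj_im]; linarith⟩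
      rw [Gconj z hzS, yconj z hzS] at h4
      have h5 : conj (G z) + conj (deriv θ z) ^ 2 / 8 = conj (G z + deriv θ z ^ 2 / 8) := by
        rw [map_add, map_div₀, map_pow]
        congr 2
        exact (Complex.conj_ofNat 8).symm
      rw [h5, RCLike.norm_conj] at h4
      exact h4
  have h9 := pickingS (y := deriv θ) (G := G) (h₁ := h - r) (h₂ := h₀) hΓpos (by linarith) hy yper
    (fun z hz => hyG z (by show |z.im| < h₀; linarith)) hJ
  intro z hz
  have h10 := h9 z (by linarith)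
  refine ⟨h10.1, ?_⟩
  have h11 := h10.2
  rw [hΓ2] at h11
  exact h11

end Box

end Crest.Agent.R102.APJ628
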