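import Crest.Agent.R102.Schottky_948

/-!
Row 102, part (C), T1-E, (AP): the one-variable parts (helper628, after helper516).

* `step_log` (1a): an odd step function `s(w) = w + O(w³)` on `|w| < r` which omits the integers
  for `w ≠ 0` satisfies `s = w exp g`, `|g| ≤ 128 log (K / r) (|w| / r)²` for `|w| < r / 8`;
* `picking` (1b): `y'' = G y`, `|G + y² / 8| ≤ 2 Γ²` on a strip ⇒ `|y| ≤ 18 Γ`, `|G| ≤ 43 Γ²`.
-/

set_option autoImplicit false

open Set Filter Metric Topology
open Crest.Agent.R102.M948 (schottky Psi Psi_pos exists_log)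

noncomputable section

namespace Crest.Agent.R102.Pick628

/-- a constant (huge) -/
def K0 : ℝ := Real.exp (Real.pi * (3 + 2 * 1 + 128 * (1 / 2) / (1 - 1 / 2)))

lemma K0_ge : 8 ≤ K0 := by
  unfold K0
  have h1 : (8 : ℝ) ≤ Real.pi * (3 + 2 * 1 + 128 * (1 / 2) / (1 - 1 / 2)) := by
    have := Real.pi_gt_three
    norm_num
    nlinarith
  have h2 := Real.add_one_le_exp (Real.pi * (3 + 2 * 1 + 128 * (1 / 2) / (1 - 1 / 2)))
  linarith

lemma Psi_half : Psi 1 (1 / 2) = Real.exp (Real.pi * K0) := rfl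

lemma exp_pi_I_eq_one {s : ℂ} (h : Complex.exp (Complex.I * Real.pi * s) = 1) :
    ∃ k : ℤ, s = k := by
  rw [Complex.exp_eq_one_iff] at h
  obtain ⟨n, hn⟩ := h
  refine ⟨2 * n, ?_⟩
  have hpi : (Real.pi : ℂ) ≠ 0 := by exact_mod_cast Real.pi_ne_zero
  have h1 : (Complex.I * Real.pi) * s = (Complex.I * Real.pi) * (2 * n) := by
    rw [hn]; ring
  have h2 := mul_left_cancel₀ (mul_ne_zero Complex.I_ne_zero hpi) h1
  rw [h2]; push_cast; ring

lemma exp_pi_I_eq_neg_one {s : ℂ} (h : Complex.exp (Complex.I * Real.pi * s) = -1) :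
    ∃ k : ℤ, s = k := by
  have h1 : Complex.exp (Complex.I * Real.pi * (s + 1)) = 1 := by
    rw [mul_add, Complex.exp_add, h, mul_one, mul_comm Complex.I (Real.pi : ℂ),
      Complex.exp_pi_mul_I]
    norm_num
  obtain ⟨k, hk⟩ := exp_pi_I_eq_one h1
  exact ⟨k - 1, by push_cast; rw [← hk]; ring⟩

/-- the step is bounded -/
theorem step_bound {r : ℝ} (hr : 0 < r) {s : ℂ → ℂ} (hs : DifferentiableOn ℂ s (ball 0 r))
    (h0 : s 0 = 0)
    (hZ : ∀ w ∈ ball (0 : ℂ) r, w ≠ 0 → ∀ k : ℤ, s w ≠ k) {w : ℂ} (hw : ‖w‖ ≤ r / 4) :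
    ‖s w‖ ≤ 8 * K0 * ‖w‖ / r := by
  have hK := K0_ge
  have him : ∀ w : ℂ, ‖w‖ ≤ r / 2 → -(s w).im ≤ K0 := by
    intro w hw
    set h : ℂ → ℂ := fun w => -Complex.exp (Complex.I * Real.pi * s w) with hh
    have hd : DifferentiableOn ℂ h (ball 0 r) := (hs.const_mul _).cexp.neg
    have hn0 : ∀ z ∈ ball (0 : ℂ) r, h z ≠ 0 := fun z _ =>
      neg_ne_zero.2 (Complex.exp_ne_zero _)
    have hn1 : ∀ z ∈ ball (0 : ℂ) r, h z ≠ 1 := by
      intro z hz h1
      rw [hh] at h1
      have h2 : Complex.exp (Complex.I * Real.pi * s z) = -1 := by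
        simp only at h1
        linear_combination -h1
      by_cases hz0 : z = 0
      · rw [hz0, h0, mul_zero, Complex.exp_zero] at h2
        norm_num at h2
      · obtain ⟨k, hk⟩ := exp_pi_I_eq_neg_one h2
        exact hZ z hz hz0 k hk
    have hc : ‖h 0‖ ≤ 1 := by
      rw [hh]; simp [h0]
    have h3 := schottky hr hd hn0 hn1 hc (θ := 1 / 2) (by norm_num) (by norm_num) w (by
      rw [mem_closedBall, dist_zero_right]; linarith)
    rw [Psi_half, hh] at h3
    simp only at h3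
    rw [norm_neg, Complex.norm_exp, Real.exp_le_exp] at h3
    have h4 : (Complex.I * Real.pi * s w).re = Real.pi * (-(s w).im) := by
      simp [Complex.mul_re, Complex.mul_im]
    rw [h4] at h3
    exact le_of_mul_le_mul_left h3 Real.pi_pos
  have hw4 : ‖w‖ < r / 2 := by linarith
  have h1 := Complex.borelCaratheodory_zero (f := fun w => Complex.I * s w) (R := r / 2)
    (M := K0) (by linarith)
    ((hs.mono (ball_subset_ball (by linarith))).const_mul _) (fun z hz => by
      have hz' : ‖z‖ < r / 2 := by simpa using hz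
      change (Complex.I * s z).re ≤ K0
      have : (Complex.I * s z).re = -(s z).im := by simp
      rw [this]; exact him z hz'.le) (by linarith) (z := w) (by simpa using hw4) (by simp [h0])
  simp only [norm_mul, Complex.norm_I, one_mul] at h1
  refine h1.trans ?_
  have h2 : 0 < r / 2 - ‖w‖ := by linarith
  rw [div_le_div_iff₀ h2 hr]
  have : r ≤ 4 * (r / 2 - ‖w‖) := by linarith
  nlinarith [mul_nonneg (show (0:ℝ) ≤ 2 * K0 by linarith) (norm_nonneg w)]

/-- **(1a)** -/
theorem step_log {r : ℝ} (hr : 0 < r) (hr1 : r ≤ 1) {s : ℂ → ℂ}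
    (hs : DifferentiableOn ℂ s (ball 0 r)) (h0 : s 0 = 0) (h1 : deriv s 0 = 1)
    (hodd : ∀ w ∈ ball (0 : ℂ) r, s (-w) = -s w)
    (hZ : ∀ w ∈ ball (0 : ℂ) r, w ≠ 0 → ∀ k : ℤ, s w ≠ k) :
    ∃ g : ℂ → ℂ, DifferentiableOn ℂ g (ball 0 (r / 4)) ∧
      (∀ w ∈ ball (0 : ℂ) (r / 4), s w = w * Complex.exp (g w)) ∧
      ∀ w ∈ ball (0 : ℂ) (r / 8), ‖g w‖ ≤ 128 * Real.log (8 * K0 / r) * (‖w‖ / r) ^ 2 := by
  have hK := K0_ge
  set q : ℂ → ℂ := dslope s 0 with hq
  have hr4 : 0 < r / 4 := by linarith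
  have hsub : ball (0 : ℂ) (r / 4) ⊆ ball 0 r := ball_subset_ball (by linarith)
  have hqd : DifferentiableOn ℂ q (ball 0 (r / 4)) :=
    (Complex.differentiableOn_dslope (ball_mem_nhds _ hr4)).2 (hs.mono hsub)
  have hsq : ∀ w, s w = w * q w := by
    intro w
    have := sub_smul_dslope s 0 w
    rw [h0, sub_zero, sub_zero, smul_eq_mul] at this
    exact this.symm
  have hq0 : q 0 = 1 := by rw [hq, dslope_same, h1]
  have hqn : ∀ w ∈ ball (0 : ℂ) (r / 4), q w ≠ 0 := by
    intro w hw h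
    by_cases hw0 : w = 0
    · rw [hw0, hq0] at h; exact one_ne_zero h
    · have h2 := hsq w
      rw [h, mul_zero] at h2
      exact hZ w (hsub hw) hw0 0 (by rw [h2]; simp)
  have hqb : ∀ w ∈ ball (0 : ℂ) (r / 4), ‖q w‖ ≤ 8 * K0 / r := by
    intro w hw
    have hw' : ‖w‖ < r / 4 := by simpa using hw
    by_cases hw0 : w = 0
    · rw [hw0, hq0, norm_one, le_div_iff₀ hr]; linarith
    · have h2 := step_bound hr hs h0 hZ hw'.le
      rw [hsq w, norm_mul] at h2
      have h3 : 0 < ‖w‖ := norm_pos_iff.2 hw0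
      have h4 : 8 * K0 * ‖w‖ / r = ‖w‖ * (8 * K0 / r) := by ring
      rw [h4] at h2
      exact le_of_mul_le_mul_left h2 h3
  obtain ⟨L, hL, hLe⟩ := exists_log hqd hqn
  set g : ℂ → ℂ := fun w => L w - L 0 with hg
  have hge : ∀ w ∈ ball (0 : ℂ) (r / 4), Complex.exp (g w) = q w := by
    intro w hw
    have h2 := hLe 0 (mem_ball_self hr4)
    rw [hg]
    simp only
    rw [Complex.exp_sub, hLe w hw, h2, hq0, div_one]
  have hgd : DifferentiableOn ℂ g (ball 0 (r / 4)) := hL.sub_const _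
  have hg0 : g 0 = 0 := by rw [hg]; simp
  set M : ℝ := Real.log (8 * K0 / r) with hM
  have hKr : 8 ≤ 8 * K0 / r := by
    rw [le_div_iff₀ hr]; nlinarith
  have hMpos : 0 < M := Real.log_pos (by linarith)
  have hgre : ∀ w ∈ ball (0 : ℂ) (r / 4), (g w).re ≤ M := by
    intro w hw
    have h2 : Real.exp (g w).re ≤ 8 * K0 / r := by
      rw [← Complex.norm_exp, hge w hw]; exact hqb w hw
    rw [hM, Real.le_log_iff_exp_le (by linarith)]
    exact h2
  have hgb : ∀ w ∈ ball (0 : ℂ) (r / 8), ‖g w‖ ≤ 2 * M := by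
    intro w hw
    have hw' : ‖w‖ < r / 8 := by simpa using hw
    have h2 := Complex.borelCaratheodory_zero hMpos hgd (fun z hz => hgre z hz) hr4
      (z := w) (by rw [mem_ball_zero_iff]; linarith) hg0
    refine h2.trans ?_
    rw [div_le_iff₀ (by linarith)]
    nlinarith
  -- `g` is even
  have hneg : ∀ w ∈ ball (0 : ℂ) (r / 4), -w ∈ ball (0 : ℂ) (r / 4) := by
    intro w hw; simpa using hw
  have hqeven : ∀ w ∈ ball (0 : ℂ) (r / 4), q (-w) = q w := by
    intro w hw
    by_cases hw0 : w = 0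
    · rw [hw0, neg_zero]
    · have h2 := hodd w (hsub hw)
      rw [hsq w, hsq (-w)] at h2
      have h3 : w * (q (-w) - q w) = 0 := by linear_combination -h2
      rcases mul_eq_zero.1 h3 with h | h
      · exact absurd h hw0
      · exact sub_eq_zero.1 h
  have heven : ∀ w ∈ ball (0 : ℂ) (r / 4), g (-w) = g w := by
    set d : ℂ → ℂ := fun w => g (-w) - g w with hd
    have hdd : DifferentiableOn ℂ d (ball 0 (r / 4)) :=
      (hgd.comp differentiable_neg.differentiableOn hneg).sub hgd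
    have hde : ∀ w ∈ ball (0 : ℂ) (r / 4), Complex.exp (d w) = 1 := by
      intro w hw
      rw [hd]
      simp only
      rw [Complex.exp_sub, hge _ (hneg w hw), hge w hw, hqeven w hw, div_self (hqn w hw)]
    have hd' : ∀ w ∈ ball (0 : ℂ) (r / 4), deriv d w = 0 := by
      intro w hw
      have hwn := isOpen_ball.mem_nhds hw
      have h2 := ((hdd.differentiableAt hwn).hasDerivAt).cexp
      have h3 : HasDerivAt (fun x => Complex.exp (d x)) 0 w := by
        refine (hasDerivAt_const w (1 : ℂ)).congr_of_eventuallyEq ?_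
        filter_upwards [hwn] with x hx
        exact hde x hx
      have h4 := h2.unique h3
      rw [hde w hw, one_mul] at h4
      exact h4
    intro w hw
    have h5 := Convex.norm_image_sub_le_of_norm_deriv_le (𝕜 := ℂ) (f := d) (C := 0)
      (s := ball 0 (r / 4)) (fun x hx => hdd.differentiableAt (isOpen_ball.mem_nhds hx))
      (fun x hx => by rw [hd' x hx]; simp) (convex_ball _ _) (mem_ball_self hr4) hw
    rw [zero_mul] at h5
    have h6 : d w - d 0 = 0 := norm_le_zero_iff.1 h5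
    have h7 : d 0 = 0 := by rw [hd]; simp
    rw [h7, sub_zero] at h6
    exact sub_eq_zero.1 h6
  have hg1 : deriv g 0 = 0 := by
    have h2 : (fun w => g (-w)) =ᶠ[𝓝 0] g := by
      filter_upwards [ball_mem_nhds (0 : ℂ) hr4] with w hw
      exact heven w hw
    have h3 := h2.deriv_eq
    rw [deriv_comp_neg, neg_zero] at h3
    have h4 : (2 : ℂ) * deriv g 0 = 0 := by linear_combination -h3
    simpa using h4
  refine ⟨g, hgd, fun w hw => by rw [hge w hw]; exact hsq w, fun w hw => ?_⟩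
  have hlo : (fun w => g w - g 0) =o[𝓝 0] (fun w : ℂ => ‖w - 0‖ ^ 1) := by
    have h2 : HasDerivAt g 0 0 := by
      have h2' := (hgd.differentiableAt (ball_mem_nhds _ hr4)).hasDerivAt
      rwa [hg1] at h2'
    have h3 := h2.isLittleO
    simp only [smul_zero, sub_zero] at h3 ⊢
    simpa using h3.norm_right
  have h8 := Complex.dist_le_mul_div_pow_of_mapsTo_ball_of_isLittleO (f := g) (c := 0) (z := w)
    (R₁ := r / 8) (R₂ := 2 * M) (n := 1) (hgd.mono (ball_subset_ball (by linarith)))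
    (fun z hz => by rw [hg0, mem_closedBall, dist_zero_right]; exact hgb z hz) hlo hw
  rw [hg0, dist_zero_right, dist_zero_right] at h8
  refine h8.trans (le_of_eq ?_)
  have h9 : ‖w‖ / (r / 8) = 8 * (‖w‖ / r) := by field_simp
  rw [h9]
  ring

/-- consequences: `s / w` and the third derivative -/
theorem step_est {r : ℝ} (hr : 0 < r) (hr1 : r ≤ 1) {s : ℂ → ℂ}
    (hs : DifferentiableOn ℂ s (ball 0 r)) (h0 : s 0 = 0) (h1 : deriv s 0 = 1)
    (hodd : ∀ w ∈ ball (0 : ℂ) r, s (-w) = -s w)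
    (hZ : ∀ w ∈ ball (0 : ℂ) r, w ≠ 0 → ∀ k : ℤ, s w ≠ k) :
    (∀ w ∈ ball (0 : ℂ) (r / 8), 128 * Real.log (8 * K0 / r) * (‖w‖ / r) ^ 2 ≤ 1 →
      ‖s w - w‖ ≤ 256 * Real.log (8 * K0 / r) * (‖w‖ / r) ^ 2 * ‖w‖) ∧
    ‖iteratedDeriv 3 s 0‖ ≤ 1536 * Real.log (8 * K0 / r) / r ^ 2 := by
  have hK := K0_ge
  obtain ⟨g, hgd, hsg, hgb⟩ := step_log hr hr1 hs h0 h1 hodd hZ
  set M : ℝ := Real.log (8 * K0 / r) with hM
  have hM1 : 1 ≤ M := by
    rw [hM, Real.le_log_iff_exp_le (by positivity)]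
    have h2 : Real.exp 1 ≤ 8 := by
      have := Real.exp_one_lt_d9
      linarith
    refine h2.trans ?_
    rw [le_div_iff₀ hr]; nlinarith
  have key : ∀ w ∈ ball (0 : ℂ) (r / 8), 128 * M * (‖w‖ / r) ^ 2 ≤ 1 →
      ‖s w - w‖ ≤ 256 * M * (‖w‖ / r) ^ 2 * ‖w‖ := by
    intro w hw hle
    have hgw := hgb w hw
    have hw4 : w ∈ ball (0 : ℂ) (r / 4) := ball_subset_ball (by linarith) hw
    have h3 := Complex.norm_exp_sub_one_le (hgw.trans hle)
    have h4 : s w - w = (Complex.exp (g w) - 1) * w := by rw [hsg w hw4]; ring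
    rw [h4, norm_mul]
    have h5 : ‖Complex.exp (g w) - 1‖ ≤ 256 * M * (‖w‖ / r) ^ 2 := by
      refine h3.trans ?_
      linarith
    exact mul_le_mul_of_nonneg_right h5 (norm_nonneg _)
  refine ⟨key, ?_⟩
  -- Cauchy on the circle `128 M (ρ / r)² = 1`
  set ρ : ℝ := r / Real.sqrt (128 * M) with hρ
  have hsq : 0 < Real.sqrt (128 * M) := Real.sqrt_pos.2 (by linarith)
  have hsq8 : 8 < Real.sqrt (128 * M) := by
    rw [Real.lt_sqrt (by norm_num)]; nlinarith
  have hρ0 : 0 < ρ := div_pos hr hsq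
  have hρ8 : ρ < r / 8 := by
    rw [hρ]; exact div_lt_div_of_pos_left hr (by norm_num) hsq8
  have hρ2 : 128 * M * (ρ / r) ^ 2 = 1 := by
    have h2 : ρ / r = 1 / Real.sqrt (128 * M) := by
      rw [hρ]; field_simp
    rw [h2, div_pow, one_pow, Real.sq_sqrt (by linarith)]
    field_simp
  have hdc : DiffContOnCl ℂ (fun w => s w - w) (ball 0 ρ) := by
    have h2 : DifferentiableOn ℂ (fun w => s w - w) (ball 0 r) :=
      DifferentiableOn.fun_sub hs differentiableOn_id
    refine DifferentiableOn.diffContOnCl (h2.mono ?_)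
    refine closure_ball_subset_closedBall.trans (closedBall_subset_ball ?_)
    linarith
  have hC : ∀ z ∈ sphere (0 : ℂ) ρ, ‖s z - z‖ ≤ 2 * ρ := by
    intro z hz
    have hz' : ‖z‖ = ρ := by simpa using hz
    have h2 := key z (by rw [mem_ball_zero_iff, hz']; exact hρ8) (by rw [hz', hρ2])
    rw [hz'] at h2
    refine h2.trans (le_of_eq ?_)
    linear_combination 2 * ρ * hρ2
  have h3 := Complex.norm_iteratedDeriv_le_of_forall_mem_sphere_norm_le 3 hρ0 hdc hC
  have h4 : iteratedDeriv 3 (fun w => s w - w) 0 = iteratedDeriv 3 s 0 := by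
    have h5 : ContDiffAt ℂ 3 s 0 :=
      ((hs.analyticAt (ball_mem_nhds _ hr)).contDiffAt)
    have h6 : ContDiffAt ℂ 3 (fun w : ℂ => w) 0 := contDiffAt_id
    rw [iteratedDeriv_fun_sub h5 h6]
    have h7 : iteratedDeriv 3 (fun w : ℂ => w) 0 = 0 := by
      rw [iteratedDeriv_succ', iteratedDeriv_succ']
      simp
    rw [h7, sub_zero]
  rw [h4] at h3
  refine h3.trans (le_of_eq ?_)
  have h8 : ρ ^ 2 = r ^ 2 / (128 * M) := by
    rw [hρ, div_pow, Real.sq_sqrt (by linarith)]
  have h9 : ρ ^ 3 = r ^ 2 / (128 * M) * ρ := by rw [← h8]; ring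
  rw [h9]
  have : (Nat.factorial 3 : ℝ) = 6 := by norm_num [Nat.factorial]
  rw [this]
  field_simp
  ring

/-- **(1b) picking** -/
theorem picking {y G : ℂ → ℂ} {h₁ Γ : ℝ} (hΓ : 0 < Γ) (hy : Differentiable ℂ y)
    (hper : ∀ z, y (z + 1) = y z) (hyG : ∀ z, |z.im| < h₁ → deriv (deriv y) z = G z * y z)
    (hJ : ∀ z, |z.im| < h₁ → ‖G z + y z ^ 2 / 8‖ ≤ 2 * Γ ^ 2) :
    ∀ z, |z.im| ≤ h₁ - 1 / Γ → ‖y z‖ ≤ 18 * Γ ∧ ‖G z‖ ≤ 43 * Γ ^ 2 := by
  -- weight
  set lam : ℂ → ℝ := fun z => min 1 (Γ * (h₁ - |z.im|)) with hlam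
  have hlamc : Continuous lam := by
    rw [hlam]; fun_prop
  have key : ∀ z, |z.im| ≤ h₁ → ‖y z‖ * lam z ≤ 18 * Γ := by
    by_contra hcon
    push Not at hcon
    obtain ⟨z₀, hz₀, hlt⟩ := hcon
    -- maximum on the closed strip
    set Kc : Set ℂ := (Icc (0 : ℝ) 1 ×ℂ Icc (-h₁) h₁) with hKc
    have hKcomp : IsCompact Kc := isCompact_Icc.reProdIm isCompact_Icc
    have hperZ : ∀ (n : ℤ) (z : ℂ), y (z + n) = y z := by
      intro n z
      induction n using Int.induction_on with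
      | zero => simp
      | succ i ih =>
        have e : z + ((i : ℤ) + 1 : ℤ) = (z + ((i : ℤ) : ℂ)) + 1 := by push_cast; ring
        rw [e, hper, ih]
      | pred i ih =>
        have e : z + (-(i : ℤ) : ℤ) = (z + (-(i : ℤ) - 1 : ℤ)) + 1 := by push_cast; ring
        rw [e, hper] at ih
        exact ih
    have hshift : ∀ z : ℂ, |z.im| ≤ h₁ → ∃ z' ∈ Kc, ‖y z'‖ * lam z' = ‖y z‖ * lam z := by
      intro z hz
      refine ⟨z + ((-⌊z.re⌋ : ℤ) : ℂ), ?_, ?_⟩
      · rw [hKc, Complex.mem_reProdIm]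
        have h1 := Int.floor_le z.re
        have h2 := (Int.lt_floor_add_one z.re).le
        refine ⟨?_, ?_⟩
        · simp only [Complex.add_re, Int.cast_neg, Complex.neg_re, Complex.intCast_re]
          exact ⟨by linarith, by linarith⟩
        · simp only [Complex.add_im, Complex.intCast_im, add_zero]
          exact abs_le.1 hz
      · rw [hperZ, hlam]
        simp
    have hKne : Kc.Nonempty := by
      obtain ⟨z', hz', _⟩ := hshift z₀ hz₀
      exact ⟨z', hz'⟩
    obtain ⟨zs, hzs, hmax⟩ := hKcomp.exists_isMaxOn hKne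
      ((hy.continuous.norm.mul hlamc).continuousOn (s := Kc))
    have hmax' : ∀ z : ℂ, |z.im| ≤ h₁ → ‖y z‖ * lam z ≤ ‖y zs‖ * lam zs := by
      intro z hz
      obtain ⟨z', hz', he⟩ := hshift z hz
      rw [← he]
      exact hmax hz'
    set η : ℝ := ‖y zs‖ with hη
    have hbig : 18 * Γ < η * lam zs := hlt.trans_le (hmax' z₀ hz₀)
    have hlam1 : ∀ z, lam z ≤ 1 := fun z => min_le_left _ _
    have hη0 : 0 ≤ η := norm_nonneg _
    have hlampos : 0 < lam zs := by
      by_contra h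
      push Not at h
      nlinarith
    have hηpos : 0 < η := by
      rcases hη0.eq_or_lt with h | h
      · rw [← h, zero_mul] at hbig; linarith
      · exact h
    have hη18 : 18 * Γ < η := by
      have := mul_le_mul_of_nonneg_left (hlam1 zs) hη0
      linarith
    -- the rescaled function
    have hLip : ∀ z, lam zs - Γ * ‖z - zs‖ ≤ lam z := by
      intro z
      have h1 : |z.im| ≤ |zs.im| + ‖z - zs‖ := by
        have h2 := Complex.abs_im_le_norm (z - zs)
        rw [Complex.sub_im] at h2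
        have h3 := abs_sub_abs_le_abs_sub z.im zs.im
        linarith
      have h4 : 0 ≤ Γ * ‖z - zs‖ := by positivity
      rw [hlam]
      simp only
      refine le_min ?_ ?_
      · have := min_le_left (1 : ℝ) (Γ * (h₁ - |zs.im|))
        linarith
      · have := min_le_right (1 : ℝ) (Γ * (h₁ - |zs.im|))
        nlinarith
    have h9 : ∀ z, ‖z - zs‖ ≤ 9 / η → |z.im| < h₁ ∧ ‖y z‖ ≤ 2 * η := by
      intro z hz
      have h1 := hLip z
      have h2 : Γ * ‖z - zs‖ ≤ lam zs / 2 := by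
        have h3 : Γ * ‖z - zs‖ ≤ Γ * (9 / η) := by gcongr
        have h4 : Γ * (9 / η) ≤ lam zs / 2 := by
          rw [← mul_div_assoc, div_le_iff₀ hηpos]
          nlinarith
        linarith
      have h3 : lam zs / 2 ≤ lam z := by linarith
      have h4 : 0 < lam z := by linarith
      have h5 : |z.im| < h₁ := by
        have h6 : lam z ≤ Γ * (h₁ - |z.im|) := min_le_right _ _
        have h7 : 0 < Γ * (h₁ - |z.im|) := lt_of_lt_of_le h4 h6
        have h8 := pos_of_mul_pos_right h7 hΓ.le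
        linarith
      refine ⟨h5, ?_⟩
      have h6 := hmax' z h5.le
      have h7 : ‖y z‖ * (lam zs / 2) ≤ η * lam zs :=
        (mul_le_mul_of_nonneg_left h3 (norm_nonneg _)).trans h6
      have h8 : ‖y z‖ * lam zs ≤ (2 * η) * lam zs := by linarith
      exact le_of_mul_le_mul_right h8 hlampos
    -- Cauchy for the second derivative
    have hcau := Complex.norm_iteratedDeriv_le_of_forall_mem_sphere_norm_le 2 (c := zs)
      (R := 9 / η) (C := 2 * η) (by positivity) hy.diffContOnCl (fun z hz => by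
        have : ‖z - zs‖ = 9 / η := by rwa [mem_sphere, dist_eq_norm] at hz
        exact (h9 z this.le).2)
    have e2 : iteratedDeriv 2 y zs = deriv (deriv y) zs := by
      rw [iteratedDeriv_succ, iteratedDeriv_one]
    have hin := (h9 zs (by rw [sub_self, norm_zero]; positivity)).1
    rw [e2, hyG zs hin] at hcau
    have hJs := hJ zs hin
    have h10 : ‖G zs‖ ≤ 4 / 81 * η ^ 2 := by
      have h11 : ‖G zs * y zs‖ = ‖G zs‖ * η := norm_mul _ _
      rw [h11] at hcau
      have h12 : ((Nat.factorial 2 : ℕ) : ℝ) * (2 * η) / (9 / η) ^ 2 = 4 / 81 * η ^ 2 * η := by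
        have : ((Nat.factorial 2 : ℕ) : ℝ) = 2 := by norm_num [Nat.factorial]
        rw [this]; field_simp; ring
      rw [h12] at hcau
      exact le_of_mul_le_mul_right hcau hηpos
    have h13 : ‖y zs ^ 2 / 8‖ = η ^ 2 / 8 := by
      rw [norm_div, norm_pow]; simp [hη]
    have h14 : ‖y zs ^ 2 / 8‖ ≤ ‖G zs + y zs ^ 2 / 8‖ + ‖G zs‖ := by
      have := norm_sub_le (G zs + y zs ^ 2 / 8) (G zs)
      simpa using this
    rw [h13] at h14
    nlinarith
  intro z hz
  have hz' : |z.im| ≤ h₁ := by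
    have : 0 < 1 / Γ := by positivity
    linarith
  have hl1 : lam z = 1 := by
    rw [hlam]
    simp only
    refine min_eq_left ?_
    have h1 : 1 / Γ ≤ h₁ - |z.im| := by linarith
    rw [div_le_iff₀ hΓ] at h1
    linarith
  have h1 := key z hz'
  rw [hl1, mul_one] at h1
  refine ⟨h1, ?_⟩
  have hlt : |z.im| < h₁ := by
    have : 0 < 1 / Γ := by positivity
    linarith
  have h2 := hJ z hlt
  have h3 : ‖G z‖ ≤ ‖G z + y z ^ 2 / 8‖ + ‖y z ^ 2 / 8‖ := by
    have := norm_sub_le (G z + y z ^ 2 / 8) (y z ^ 2 / 8)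
    simpa using this
  have h4 : ‖y z ^ 2 / 8‖ = ‖y z‖ ^ 2 / 8 := by
    rw [norm_div, norm_pow]; simp
  rw [h4] at h3
  have h5 : ‖y z‖ ^ 2 ≤ (18 * Γ) ^ 2 := by gcongr
  nlinarith

end Crest.Agent.R102.Pick628
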