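import Crest.Agent.R102.C1Defs_821

/-!
Row 102, part (C): **the label step omits all integers** (tool of helper877, typed by helper628).

`l = (φ, p)` a holomorphic family of lines, `B0`, `B1` two holomorphic labels on `l`
(`IncS θ H φ p Bᵢ`), `dφ ∧ dp ≠ 0`.  Then for every integer `k` either `B1 - B0 = k` identically or
`B1 - B0 ≠ k` everywhere.  Zeros of `θ'` are allowed.
-/

set_option autoImplicit false

open Set Filter Topology

noncomputable section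

namespace Crest.Agent.R102.StepT628

open Crest.Agent.R102.B821 Crest.Agent.R102.C1

/-- incidence function of `(label, φ, p)` -/
def Fi (θ H : ℂ → ℂ) (y : ℂ × ℂ × ℂ) : ℂ :=
  deriv θ y.1 * (y.2.2 - H y.1 * Complex.cos (y.2.1 - θ y.1)) -
    deriv H y.1 * Complex.sin (y.2.1 - θ y.1)

variable {θ H : ℂ → ℂ}

lemma incS_iff {φ p β : ℂ} : IncS θ H φ p β ↔ Fi θ H (β, φ, p) = 0 := by
  unfold IncS Fi
  exact sub_eq_zero.symm

lemma analyticAt_Fi {y : ℂ × ℂ × ℂ} (hθ : AnalyticAt ℂ θ y.1) (hH : AnalyticAt ℂ H y.1) :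
    AnalyticAt ℂ (Fi θ H) y := by
  have e1 : AnalyticAt ℂ (fun y : ℂ × ℂ × ℂ => y.1) y := analyticAt_fst
  have e2 : AnalyticAt ℂ (fun y : ℂ × ℂ × ℂ => y.2.1) y := analyticAt_fst.comp analyticAt_snd
  have e3 : AnalyticAt ℂ (fun y : ℂ × ℂ × ℂ => y.2.2) y := analyticAt_snd.comp analyticAt_snd
  have t0 : AnalyticAt ℂ (fun y : ℂ × ℂ × ℂ => θ y.1) y := hθ.comp e1
  have t1 : AnalyticAt ℂ (fun y : ℂ × ℂ × ℂ => deriv θ y.1) y := hθ.deriv.comp e1
  have g0 : AnalyticAt ℂ (fun y : ℂ × ℂ × ℂ => H y.1) y := hH.comp e1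
  have g1 : AnalyticAt ℂ (fun y : ℂ × ℂ × ℂ => deriv H y.1) y := hH.deriv.comp e1
  have c0 : AnalyticAt ℂ (fun y : ℂ × ℂ × ℂ => Complex.cos (y.2.1 - θ y.1)) y :=
    Complex.analyticAt_cos.comp (e2.sub t0)
  have s0 : AnalyticAt ℂ (fun y : ℂ × ℂ × ℂ => Complex.sin (y.2.1 - θ y.1)) y :=
    Complex.analyticAt_sin.comp (e2.sub t0)
  exact (t1.mul (e3.sub (g0.mul c0))).sub (g1.mul s0)

lemma fderiv_Fi_phi {z φ p : ℂ} (hθ : AnalyticAt ℂ θ z) (hH : AnalyticAt ℂ H z) :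
    fderiv ℂ (Fi θ H) (z, φ, p) (0, 1, 0) =
      deriv θ z * H z * Complex.sin (φ - θ z) - deriv H z * Complex.cos (φ - θ z) := by
  have h1 : HasFDerivAt (Fi θ H) (fderiv ℂ (Fi θ H) (z, φ, p)) (z, φ, p) :=
    (analyticAt_Fi (y := (z, φ, p)) hθ hH).differentiableAt.hasFDerivAt
  have h2 : HasDerivAt (fun s : ℂ => ((z, s, p) : ℂ × ℂ × ℂ)) (0, 1, 0) φ :=
    (hasDerivAt_const _ _).prodMk ((hasDerivAt_id _).prodMk (hasDerivAt_const _ _))
  have h3 := h1.comp_hasDerivAt φ h2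
  have c : HasDerivAt (fun s : ℂ => Complex.cos (s - θ z)) (-Complex.sin (φ - θ z)) φ := by
    simpa using ((hasDerivAt_id φ).sub_const (θ z)).ccos
  have d : HasDerivAt (fun s : ℂ => Complex.sin (s - θ z)) (Complex.cos (φ - θ z)) φ := by
    simpa using ((hasDerivAt_id φ).sub_const (θ z)).csin
  have h4 : HasDerivAt (fun s : ℂ => deriv θ z * (p - H z * Complex.cos (s - θ z)) -
      deriv H z * Complex.sin (s - θ z))
      (deriv θ z * (-(H z * -Complex.sin (φ - θ z))) -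
        deriv H z * Complex.cos (φ - θ z)) φ :=
    (((c.const_mul (H z)).const_sub p).const_mul (deriv θ z)).sub (d.const_mul (deriv H z))
  have h5 := h3.unique h4
  rw [h5]; ring

lemma fderiv_Fi_p {z φ p : ℂ} (hθ : AnalyticAt ℂ θ z) (hH : AnalyticAt ℂ H z) :
    fderiv ℂ (Fi θ H) (z, φ, p) (0, 0, 1) = deriv θ z := by
  have h1 : HasFDerivAt (Fi θ H) (fderiv ℂ (Fi θ H) (z, φ, p)) (z, φ, p) :=
    (analyticAt_Fi (y := (z, φ, p)) hθ hH).differentiableAt.hasFDerivAt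
  have h2 : HasDerivAt (fun s : ℂ => ((z, φ, s) : ℂ × ℂ × ℂ)) (0, 0, 1) p :=
    (hasDerivAt_const _ _).prodMk ((hasDerivAt_const _ _).prodMk (hasDerivAt_id _))
  have h3 := h1.comp_hasDerivAt p h2
  have h4 : HasDerivAt (fun s : ℂ => deriv θ z * (s - H z * Complex.cos (φ - θ z)) -
      deriv H z * Complex.sin (φ - θ z)) (deriv θ z * 1) p :=
    (((hasDerivAt_id p).sub_const _).const_mul (deriv θ z)).sub_const _
  have h5 := h3.unique h4
  rw [h5]; ring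

/-- **simple root**: a regular label on a regular line (`dφ ∧ dp ≠ 0`) is a simple root of the
incidence function -/
theorem simple_root {φ p b : ℂ × ℂ → ℂ} {x : ℂ × ℂ} (hφ : DifferentiableAt ℂ φ x)
    (hp : DifferentiableAt ℂ p x) (hb : DifferentiableAt ℂ b x) (hθ : AnalyticAt ℂ θ (b x))
    (hH : AnalyticAt ℂ H (b x))
    (hWR : deriv θ (b x) * deriv (deriv H) (b x) - deriv (deriv θ) (b x) * deriv H (b x) +
      deriv θ (b x) ^ 3 * H (b x) = -1)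
    (hinc : ∀ᶠ y in 𝓝 x, IncS θ H (φ y) (p y) (b y))
    (harea : q1 φ x * q2 p x - q2 φ x * q1 p x ≠ 0) :
    fderiv ℂ (Fi θ H) (b x, φ x, p x) (1, 0, 0) ≠ 0 := by
  intro hA
  set L := fderiv ℂ (Fi θ H) (b x, φ x, p x) with hL
  have h1 : HasFDerivAt (Fi θ H) L (b x, φ x, p x) :=
    (analyticAt_Fi (y := (b x, φ x, p x)) hθ hH).differentiableAt.hasFDerivAt
  have h2 : HasFDerivAt (fun y : ℂ × ℂ => ((b y, φ y, p y) : ℂ × ℂ × ℂ))
      ((fderiv ℂ b x).prod ((fderiv ℂ φ x).prod (fderiv ℂ p x))) x :=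
    hb.hasFDerivAt.prodMk (hφ.hasFDerivAt.prodMk hp.hasFDerivAt)
  have h3 := h1.comp x h2
  have h4 : HasFDerivAt (Fi θ H ∘ fun y : ℂ × ℂ => ((b y, φ y, p y) : ℂ × ℂ × ℂ))
      (0 : ℂ × ℂ →L[ℂ] ℂ) x := by
    refine (hasFDerivAt_const (0 : ℂ) x).congr_of_eventuallyEq ?_
    filter_upwards [hinc] with y hy
    exact incS_iff.1 hy
  have h5 := h3.unique h4
  have hdec : ∀ u v w : ℂ, L (u, v, w) = u * L (1, 0, 0) + v * L (0, 1, 0) + w * L (0, 0, 1) := by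
    intro u v w
    have : ((u, v, w) : ℂ × ℂ × ℂ) = u • (1, 0, 0) + v • (0, 1, 0) + w • (0, 0, 1) := by
      simp
    rw [this, map_add, map_add, map_smul, map_smul, map_smul]
    simp
  have h6 : ∀ v : ℂ × ℂ, fderiv ℂ φ x v * L (0, 1, 0) + fderiv ℂ p x v * L (0, 0, 1) = 0 := by
    intro v
    have h7 := congrArg (fun M : ℂ × ℂ →L[ℂ] ℂ => M v) h5
    simp only [ContinuousLinearMap.comp_apply, ContinuousLinearMap.prod_apply,
      zero_apply] at h7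
    rw [hdec, hA, mul_zero, zero_add] at h7
    exact h7
  have h7 := h6 (1, 0)
  have h8 := h6 (0, 1)
  have e1 : q1 φ x = fderiv ℂ φ x (1, 0) := rfl
  have e2 : q2 φ x = fderiv ℂ φ x (0, 1) := rfl
  have e3 : q1 p x = fderiv ℂ p x (1, 0) := rfl
  have e4 : q2 p x = fderiv ℂ p x (0, 1) := rfl
  rw [← e1, ← e3] at h7
  rw [← e2, ← e4] at h8
  have h9 : (q1 φ x * q2 p x - q2 φ x * q1 p x) * L (0, 1, 0) = 0 := by
    linear_combination q2 p x * h7 - q1 p x * h8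
  have h10 : (q1 φ x * q2 p x - q2 φ x * q1 p x) * L (0, 0, 1) = 0 := by
    linear_combination q1 φ x * h8 - q2 φ x * h7
  have h11 : L (0, 1, 0) = 0 := by
    rcases mul_eq_zero.1 h9 with h | h
    · exact absurd h harea
    · exact h
  have h12 : L (0, 0, 1) = 0 := by
    rcases mul_eq_zero.1 h10 with h | h
    · exact absurd h harea
    · exact h
  rw [hL, fderiv_Fi_p hθ hH] at h12
  rw [hL, fderiv_Fi_phi hθ hH, h12] at h11
  have h13 := incS_iff.1 hinc.self_of_nhds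
  unfold Fi at h13
  simp only [h12] at h13
  have hsc := Complex.sin_sq_add_cos_sq (φ x - θ (b x))
  have h14 : deriv H (b x) = 0 := by
    linear_combination (-deriv H (b x)) * hsc - Complex.sin (φ x - θ (b x)) * h13 -
      Complex.cos (φ x - θ (b x)) * h11
  rw [h12, h14] at hWR
  norm_num at hWR

/-- local uniqueness of the root of the incidence function -/
theorem root_unique {z₁ φ₁ p₁ : ℂ} (hθ : AnalyticAt ℂ θ z₁) (hH : AnalyticAt ℂ H z₁)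
    (hA : fderiv ℂ (Fi θ H) (z₁, φ₁, p₁) (1, 0, 0) ≠ 0) :
    ∀ᶠ y : ℂ × ℂ × (ℂ × ℂ) in 𝓝 (z₁, z₁, (φ₁, p₁)),
      Fi θ H (y.1, y.2.2.1, y.2.2.2) = 0 → Fi θ H (y.2.1, y.2.2.1, y.2.2.2) = 0 → y.1 = y.2.1 := by
  set L := fderiv ℂ (Fi θ H) (z₁, φ₁, p₁) with hL
  have h1 : HasStrictFDerivAt (Fi θ H) L (z₁, φ₁, p₁) :=
    (analyticAt_Fi (y := (z₁, φ₁, p₁)) hθ hH).hasStrictFDerivAt
  have h2 := h1.isLittleO.def (half_pos (norm_pos_iff.2 hA))
  have h3 : Tendsto (fun y : ℂ × ℂ × (ℂ × ℂ) =>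
      (((y.1, y.2.2.1, y.2.2.2) : ℂ × ℂ × ℂ), ((y.2.1, y.2.2.1, y.2.2.2) : ℂ × ℂ × ℂ)))
      (𝓝 (z₁, z₁, (φ₁, p₁))) (𝓝 ((z₁, φ₁, p₁), (z₁, φ₁, p₁))) := by
    have : Continuous (fun y : ℂ × ℂ × (ℂ × ℂ) =>
      (((y.1, y.2.2.1, y.2.2.2) : ℂ × ℂ × ℂ), ((y.2.1, y.2.2.1, y.2.2.2) : ℂ × ℂ × ℂ))) := by
      fun_prop
    exact this.tendsto (z₁, z₁, (φ₁, p₁))
  filter_upwards [h3.eventually h2] with y hy e1 e2
  simp only [e1, e2, sub_self, zero_sub, norm_neg] at hy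
  have e3 : ((y.1, y.2.2.1, y.2.2.2) : ℂ × ℂ × ℂ) - (y.2.1, y.2.2.1, y.2.2.2) =
      (y.1 - y.2.1) • ((1, 0, 0) : ℂ × ℂ × ℂ) := by
    refine Prod.ext ?_ (Prod.ext ?_ ?_) <;> simp
  rw [e3, map_smul, norm_smul, norm_smul] at hy
  have e4 : ‖((1, 0, 0) : ℂ × ℂ × ℂ)‖ = 1 := by
    simp [Prod.norm_def]
  rw [e4, mul_one] at hy
  by_contra hne
  have h5 : 0 < ‖y.1 - y.2.1‖ := norm_pos_iff.2 (sub_ne_zero.2 hne)
  have h6 : 0 < ‖L (1, 0, 0)‖ := norm_pos_iff.2 hA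
  nlinarith

/-- the data of a table, extended to the label domain `V` -/
structure Lab (θ H : ℂ → ℂ) (V : Set ℂ) : Prop where
  open' : IsOpen V
  sh : ∀ z, z + 1 ∈ V ↔ z ∈ V
  θ_diff : DifferentiableOn ℂ θ V
  H_diff : DifferentiableOn ℂ H V
  θ_per : ∀ z ∈ V, θ (z + 1) = θ z + 2 * Real.pi
  H_per : ∀ z ∈ V, H (z + 1) = H z
  wr : ∀ z ∈ V, deriv θ z * deriv (deriv H) z - deriv (deriv θ) z * deriv H z +
      deriv θ z ^ 3 * H z = -1

namespace Lab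

variable {V : Set ℂ} (h : Lab θ H V)

include h

lemma θ_an {z : ℂ} (hz : z ∈ V) : AnalyticAt ℂ θ z := h.θ_diff.analyticAt (h.open'.mem_nhds hz)

lemma H_an {z : ℂ} (hz : z ∈ V) : AnalyticAt ℂ H z := h.H_diff.analyticAt (h.open'.mem_nhds hz)

lemma Fi_one {z φ p : ℂ} (hz : z ∈ V) : Fi θ H (z + 1, φ, p) = Fi θ H (z, φ, p) := by
  have h1 : deriv θ (z + 1) = deriv θ z := by
    have h2 : (fun w => θ (w + 1)) =ᶠ[𝓝 z] fun w => θ w + 2 * Real.pi := by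
      filter_upwards [h.open'.mem_nhds hz] with w hw
      exact h.θ_per w hw
    rw [← deriv_comp_add_const θ 1 z, h2.deriv_eq, deriv_add_const]
  have h3 : deriv H (z + 1) = deriv H z := by
    have h2 : (fun w => H (w + 1)) =ᶠ[𝓝 z] H := by
      filter_upwards [h.open'.mem_nhds hz] with w hw
      exact h.H_per w hw
    rw [← deriv_comp_add_const H 1 z, h2.deriv_eq]
  unfold Fi
  simp only [h1, h3, h.θ_per z hz, h.H_per z hz]
  have e1 : φ - (θ z + 2 * Real.pi) = (φ - θ z) - 2 * Real.pi := by ring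
  rw [e1, Complex.cos_sub_two_pi, Complex.sin_sub_two_pi]

lemma Fi_int (k : ℤ) {z φ p : ℂ} (hz : z ∈ V) :
    z + k ∈ V ∧ Fi θ H (z + k, φ, p) = Fi θ H (z, φ, p) := by
  induction k using Int.induction_on with
  | zero => simp [hz]
  | succ i ih =>
    obtain ⟨h1, h2⟩ := ih
    have e : z + ((i : ℤ) + 1 : ℤ) = (z + ((i : ℤ) : ℂ)) + 1 := by push_cast; ring
    rw [e]
    exact ⟨(h.sh _).2 h1, by rw [h.Fi_one h1, h2]⟩
  | pred i ih =>
    obtain ⟨h1, h2⟩ := ih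
    have e : z + (-(i : ℤ) : ℤ) = (z + (-(i : ℤ) - 1 : ℤ)) + 1 := by push_cast; ring
    rw [e] at h1 h2
    have h3 := (h.sh _).1 h1
    exact ⟨h3, by rw [← h2, h.Fi_one h3]⟩

end Lab

/-- **the label step**: `B1 - B0 = k` identically or nowhere -/
theorem step_dich {V : Set ℂ} (h : Lab θ H V) {D : Set (ℂ × ℂ)} (hD : IsOpen D)
    (hDc : IsPreconnected D) {φ p B0 B1 : ℂ × ℂ → ℂ} (hφ : DifferentiableOn ℂ φ D)
    (hp : DifferentiableOn ℂ p D) (hB0 : DifferentiableOn ℂ B0 D)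
    (hB1 : DifferentiableOn ℂ B1 D) (hV0 : ∀ x ∈ D, B0 x ∈ V) (hV1 : ∀ x ∈ D, B1 x ∈ V)
    (hi0 : ∀ x ∈ D, IncS θ H (φ x) (p x) (B0 x)) (hi1 : ∀ x ∈ D, IncS θ H (φ x) (p x) (B1 x))
    (harea : ∀ x ∈ D, q1 φ x * q2 p x - q2 φ x * q1 p x ≠ 0) (k : ℤ) :
    (∀ x ∈ D, B1 x - B0 x ≠ k) ∨ (∀ x ∈ D, B1 x - B0 x = k) := by
  by_cases hex : ∃ x ∈ D, B1 x - B0 x = k
  swap
  · left
    intro x hx he
    exact hex ⟨x, hx, he⟩
  right
  obtain ⟨x, hx, he⟩ := hex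
  have hxn := hD.mem_nhds hx
  have hA := simple_root (hφ.differentiableAt hxn) (hp.differentiableAt hxn)
    (hB0.differentiableAt hxn) (h.θ_an (hV0 x hx)) (h.H_an (hV0 x hx)) (h.wr _ (hV0 x hx))
    (by filter_upwards [hxn] with y hy; exact hi0 y hy) (harea x hx)
  have hR := root_unique (h.θ_an (hV0 x hx)) (h.H_an (hV0 x hx)) hA
  have hlim : Tendsto (fun y : ℂ × ℂ => ((B0 y, B1 y - k, (φ y, p y)) : ℂ × ℂ × (ℂ × ℂ)))
      (𝓝 x) (𝓝 (B0 x, B0 x, (φ x, p x))) := by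
    have e : B0 x = B1 x - k := by linear_combination -he
    nth_rewrite 2 [e]
    exact ((hB0.differentiableAt hxn).continuousAt.tendsto).prodMk_nhds
      ((((hB1.differentiableAt hxn).continuousAt.tendsto).sub_const _).prodMk_nhds
      (((hφ.differentiableAt hxn).continuousAt.tendsto).prodMk_nhds
      ((hp.differentiableAt hxn).continuousAt.tendsto)))
  have hev : ∀ᶠ y in 𝓝 x, B1 y - B0 y - k = 0 := by
    filter_upwards [hlim.eventually hR, hxn] with y hy hyD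
    have h1 := hy (incS_iff.1 (hi0 y hyD)) (by
      have h2 := (h.Fi_int (-k) (φ := φ y) (p := p y) (hV1 y hyD)).2
      have e : B1 y + ((-k : ℤ) : ℂ) = B1 y - k := by push_cast; ring
      rw [e] at h2
      rw [h2]
      exact incS_iff.1 (hi1 y hyD))
    have h1' : B0 y = B1 y - k := h1
    linear_combination -h1'
  have hd : DifferentiableOn ℂ (fun y => B1 y - B0 y - k) D :=
    DifferentiableOn.sub_const (DifferentiableOn.fun_sub hB1 hB0) _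
  have han : AnalyticOnNhd ℂ (fun y => B1 y - B0 y - k) D :=
    Crest.Agent.R266.SCV.analyticOnNhd_of_differentiableOn hD hd
  have h2 := han.eqOn_zero_of_preconnected_of_eventuallyEq_zero hDc hx hev
  intro y hy
  have h3 := h2 hy
  simp only [Pi.zero_apply] at h3
  linear_combination h3

/-- **the label step omits all integers** -/
theorem step_not_int {V : Set ℂ} (h : Lab θ H V) {D : Set (ℂ × ℂ)} (hD : IsOpen D)
    (hDc : IsPreconnected D) {φ p B0 B1 : ℂ × ℂ → ℂ} (hφ : DifferentiableOn ℂ φ D)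
    (hp : DifferentiableOn ℂ p D) (hB0 : DifferentiableOn ℂ B0 D)
    (hB1 : DifferentiableOn ℂ B1 D) (hV0 : ∀ x ∈ D, B0 x ∈ V) (hV1 : ∀ x ∈ D, B1 x ∈ V)
    (hi0 : ∀ x ∈ D, IncS θ H (φ x) (p x) (B0 x)) (hi1 : ∀ x ∈ D, IncS θ H (φ x) (p x) (B1 x))
    (harea : ∀ x ∈ D, q1 φ x * q2 p x - q2 φ x * q1 p x ≠ 0) {x₀ : ℂ × ℂ} (hx₀ : x₀ ∈ D)
    (h₀ : ∀ k : ℤ, B1 x₀ - B0 x₀ ≠ k) (k : ℤ) : ∀ x ∈ D, B1 x - B0 x ≠ k := by
  rcases step_dich h hD hDc hφ hp hB0 hB1 hV0 hV1 hi0 hi1 harea k with h1 | h1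
  · exact h1
  · exact absurd (h1 x₀ hx₀) (h₀ k)

end Crest.Agent.R102.StepT628
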