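import Crest.Agent.R102.HartR_948
import Crest.Agent.R102.StepT_628
import Crest.Agent.R102.Pick_628

/-!
Row 102, part (C), T1-E, **(AP): a priori bounds** (helper628, after helper516, helper877).

`φ, p` (lines) and `B` (labels) holomorphic on a box `{a < Im t < h} × {|w| < r}`: then the label
steps are `w (1 + O(L (|w| / r)²))`, `L = log (8 K₀ / r)`, and `|y|, |G|^{1/2} ≤ C L^{1/2} / r` on
`|Im z| ≤ h - 2 r`.
-/

set_option autoImplicit false

open Set Filter Topology Metric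
open scoped ComplexConjugate

noncomputable section

namespace Crest.Agent.R102.APJ628

open Crest.Agent.R102.B821 Crest.Agent.R102.C1 Crest.Agent.R102.StepT628
  Crest.Agent.R102.Pick628

/-- horizontal strip `a < Im t < b` -/
def Sab (a b : ℝ) : Set ℂ := {t | a < t.im ∧ t.im < b}

lemma isOpen_Sab (a b : ℝ) : IsOpen (Sab a b) :=
  (isOpen_lt continuous_const Complex.continuous_im).inter
    (isOpen_lt Complex.continuous_im continuous_const)

lemma convex_Sab (a b : ℝ) : Convex ℝ (Sab a b) := by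
  have h1 : Sab a b = Complex.im ⁻¹' (Ioo a b) := by
    ext z
    exact Iff.rfl
  rw [h1]
  exact (convex_Ioo a b).is_linear_preimage ⟨Complex.add_im, fun r z => by simp⟩

lemma preconnected_punctured {r : ℝ} (hr : 0 < r) :
    IsPreconnected (ball (0 : ℂ) r \ {0}) := by
  have h1 : ball (0 : ℂ) r \ {0} = Complex.exp '' {z | z.re < Real.log r} := by
    ext w
    constructor
    · rintro ⟨h1, h2⟩
      have h3 : w ≠ 0 := h2
      refine ⟨Complex.log w, ?_, Complex.exp_log h3⟩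
      change (Complex.log w).re < Real.log r
      rw [Complex.log_re]
      rw [mem_ball_zero_iff] at h1
      exact Real.log_lt_log (norm_pos_iff.2 h3) h1
    · rintro ⟨z, hz, rfl⟩
      refine ⟨?_, Complex.exp_ne_zero z⟩
      rw [mem_ball_zero_iff, Complex.norm_exp]
      have hz' : z.re < Real.log r := hz
      calc Real.exp z.re < Real.exp (Real.log r) := Real.exp_lt_exp.2 hz'
        _ = r := Real.exp_log hr
  rw [h1]
  have h2 : Convex ℝ {z : ℂ | z.re < Real.log r} := convex_halfSpace_re_lt _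
  exact h2.isPreconnected.image _ Complex.continuous_exp.continuousOn

/-- the step function -/
def stp (B : ℂ × ℂ → ℂ) (x : ℂ × ℂ) : ℂ := B (x.1 + x.2 / 2, x.2) - B (x.1 - x.2 / 2, x.2)

/-- lines and labels on a box -/
structure Box (θ H : ℂ → ℂ) (a h r : ℝ) (φ p B : ℂ × ℂ → ℂ) : Prop where
  r_pos : 0 < r
  r_le : r ≤ 1
  a_lt : a < -r
  h_gt : r < h
  φ_diff : DifferentiableOn ℂ φ (Sab a h ×ˢ ball 0 r)
  p_diff : DifferentiableOn ℂ p (Sab a h ×ˢ ball 0 r)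
  B_diff : DifferentiableOn ℂ B (Sab (a + r / 2) (h - r / 2) ×ˢ ball 0 r)
  inc : ∀ t w : ℂ, t ∈ Sab (a + r) (h - r) → ‖w‖ < r →
    IncS θ H (φ (t, w)) (p (t, w)) (B (t + w / 2, w))
  inc' : ∀ t w : ℂ, t ∈ Sab (a + r) (h - r) → ‖w‖ < r →
    IncS θ H (φ (t, w)) (p (t, w)) (B (t - w / 2, w))
  area : ∀ t w : ℂ, t ∈ Sab (a + r) (h - r) → ‖w‖ < r → w ≠ 0 →
    q1 φ (t, w) * q2 p (t, w) - q2 φ (t, w) * q1 p (t, w) ≠ 0
  B_zero : ∀ t ∈ Sab (a + r / 2) (h - r / 2), B (t, 0) = t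
  B_even : ∀ t w : ℂ, t ∈ Sab (a + r / 2) (h - r / 2) → ‖w‖ < r → B (t, -w) = B (t, w)

namespace Box

variable {θ H : ℂ → ℂ} {a h r : ℝ} {φ p B : ℂ × ℂ → ℂ} (X : Box θ H a h r φ p B)
include X

omit X in
lemma shift_mem {a h r : ℝ} {t w : ℂ} (ht : t ∈ Sab (a + r) (h - r)) (hw : ‖w‖ < r) :
    t + w / 2 ∈ Sab (a + r / 2) (h - r / 2) ∧ t - w / 2 ∈ Sab (a + r / 2) (h - r / 2) := by
  have h1 : |(w / 2).im| < r / 2 := by
    refine (Complex.abs_im_le_norm _).trans_lt ?_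
    rw [norm_div]; simp only [Complex.norm_ofNat]; linarith
  obtain ⟨h2, h3⟩ := abs_lt.1 h1
  obtain ⟨h4, h5⟩ := ht
  refine ⟨⟨?_, ?_⟩, ⟨?_, ?_⟩⟩
  · rw [Complex.add_im]; linarith
  · rw [Complex.add_im]; linarith
  · rw [Complex.sub_im]; linarith
  · rw [Complex.sub_im]; linarith

lemma stp_diff : DifferentiableOn ℂ (stp B) (Sab (a + r) (h - r) ×ˢ ball 0 r) := by
  have h1 : DifferentiableOn ℂ (fun x : ℂ × ℂ => B (x.1 + x.2 / 2, x.2))
      (Sab (a + r) (h - r) ×ˢ ball 0 r) :=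
    X.B_diff.comp (by fun_prop) (fun x hx => ⟨(shift_mem hx.1 (by simpa using hx.2)).1, hx.2⟩)
  have h2 : DifferentiableOn ℂ (fun x : ℂ × ℂ => B (x.1 - x.2 / 2, x.2))
      (Sab (a + r) (h - r) ×ˢ ball 0 r) :=
    X.B_diff.comp (by fun_prop) (fun x hx => ⟨(shift_mem hx.1 (by simpa using hx.2)).2, hx.2⟩)
  exact DifferentiableOn.fun_sub h1 h2

lemma slice_diff {t : ℂ} (ht : t ∈ Sab (a + r) (h - r)) :
    DifferentiableOn ℂ (fun w => stp B (t, w)) (ball 0 r) :=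
  X.stp_diff.comp (by fun_prop) (fun w hw => ⟨ht, hw⟩)

omit X in
lemma stp_zero (t : ℂ) : stp B (t, 0) = 0 := by
  unfold stp; simp

lemma stp_odd {t w : ℂ} (ht : t ∈ Sab (a + r) (h - r)) (hw : ‖w‖ < r) :
    stp B (t, -w) = -stp B (t, w) := by
  unfold stp
  simp only
  have e1 : t + -w / 2 = t - w / 2 := by ring
  have e2 : t - -w / 2 = t + w / 2 := by ring
  rw [e1, e2, X.B_even _ _ (shift_mem ht hw).1 hw, X.B_even _ _ (shift_mem ht hw).2 hw]
  ring

lemma slice_deriv {t : ℂ} (ht : t ∈ Sab (a + r) (h - r)) :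
    deriv (fun w => stp B (t, w)) 0 = 1 := by
  have hr := X.r_pos
  have ht' : t ∈ Sab (a + r / 2) (h - r / 2) := by
    have := (shift_mem (w := 0) ht (by simpa using hr)).1
    simpa using this
  have hO : IsOpen (Sab (a + r / 2) (h - r / 2) ×ˢ ball (0 : ℂ) r) :=
    (isOpen_Sab _ _).prod isOpen_ball
  have hB : HasFDerivAt B (fderiv ℂ B (t, 0)) (t, 0) :=
    (X.B_diff.differentiableAt (hO.mem_nhds ⟨ht', mem_ball_self hr⟩)).hasFDerivAt
  set L := fderiv ℂ B (t, 0) with hL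
  have c1 : HasDerivAt (fun w : ℂ => ((t + w / 2, w) : ℂ × ℂ)) (1 / 2, 1) 0 :=
    (((hasDerivAt_id (0 : ℂ)).div_const 2).const_add t).prodMk (hasDerivAt_id 0)
  have c2 : HasDerivAt (fun w : ℂ => ((t - w / 2, w) : ℂ × ℂ)) (-(1 / 2), 1) 0 :=
    (((hasDerivAt_id (0 : ℂ)).div_const 2).const_sub t).prodMk (hasDerivAt_id 0)
  have hB1 : HasFDerivAt B L ((fun w : ℂ => ((t + w / 2, w) : ℂ × ℂ)) 0) := by simpa using hB
  have hB2 : HasFDerivAt B L ((fun w : ℂ => ((t - w / 2, w) : ℂ × ℂ)) 0) := by simpa using hB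
  have d1 : HasDerivAt (fun w : ℂ => B (t + w / 2, w)) (L (1 / 2, 1)) 0 :=
    HasFDerivAt.comp_hasDerivAt (0 : ℂ) hB1 c1
  have d2 : HasDerivAt (fun w : ℂ => B (t - w / 2, w)) (L (-(1 / 2), 1)) 0 :=
    HasFDerivAt.comp_hasDerivAt (0 : ℂ) hB2 c2
  have d3 := d1.fun_sub d2
  have e1 : deriv (fun w => stp B (t, w)) 0 = L (1 / 2, 1) - L (-(1 / 2), 1) := d3.deriv
  rw [e1, ← map_sub]
  have e2 : ((1 / 2 : ℂ), (1 : ℂ)) - (-(1 / 2), 1) = (1, 0) := by
    refine Prod.ext ?_ ?_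
    · simp; norm_num
    · simp
  rw [e2]
  have c3 : HasDerivAt (fun z : ℂ => ((z, 0) : ℂ × ℂ)) (1, 0) t :=
    (hasDerivAt_id t).prodMk (hasDerivAt_const _ _)
  have d4 := hB.comp_hasDerivAt t c3
  have d5 : HasDerivAt (B ∘ fun z : ℂ => ((z, 0) : ℂ × ℂ)) 1 t := by
    refine (hasDerivAt_id t).congr_of_eventuallyEq ?_
    filter_upwards [(isOpen_Sab _ _).mem_nhds ht'] with z hz
    exact X.B_zero z hz
  exact d4.unique d5

/-- **the label step omits the integers** -/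
lemma stp_not_int (hLab : Lab θ H univ) {t w : ℂ} (ht : t ∈ Sab (a + r) (h - r)) (hw : ‖w‖ < r)
    (hw0 : w ≠ 0) (k : ℤ) : stp B (t, w) ≠ k := by
  have hr := X.r_pos
  have ha := X.a_lt
  have hh := X.h_gt
  set D : Set (ℂ × ℂ) := Sab (a + r) (h - r) ×ˢ (ball (0 : ℂ) r \ {0}) with hD
  have hDo : IsOpen D := (isOpen_Sab _ _).prod (isOpen_ball.sdiff isClosed_singleton)
  have hDc : IsPreconnected D :=
    (convex_Sab _ _).isPreconnected.prod (preconnected_punctured hr)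
  have hsub : D ⊆ Sab (a + r) (h - r) ×ˢ ball (0 : ℂ) r := prod_mono Subset.rfl sdiff_subset
  have hsub2 : Sab (a + r) (h - r) ×ˢ ball (0 : ℂ) r ⊆ Sab a h ×ˢ ball (0 : ℂ) r := by
    rintro x ⟨⟨h1, h2⟩, h3⟩
    exact ⟨⟨by linarith, by linarith⟩, h3⟩
  have h0mem : (0 : ℂ) ∈ Sab (a + r) (h - r) := by
    constructor
    · simp only [Complex.zero_im]; linarith
    · simp only [Complex.zero_im]; linarith
  -- a good base point
  have hlim : Tendsto (fun w : ℂ => stp B (0, w) / w) (𝓝[≠] 0) (𝓝 1) := by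
    have h1 : HasDerivAt (fun w => stp B (0, w)) 1 0 := by
      have h2 := ((X.slice_diff h0mem).differentiableAt (ball_mem_nhds _ hr)).hasDerivAt
      rwa [X.slice_deriv h0mem] at h2
    have h2 := hasDerivAt_iff_tendsto_slope.1 h1
    refine h2.congr' ?_
    filter_upwards [self_mem_nhdsWithin] with w _
    rw [slope_def_field, stp_zero, sub_zero, sub_zero]
  have hex : ∃ w : ℂ, w ≠ 0 ∧ ‖w‖ < r ∧ ∀ k : ℤ, stp B (0, w) ≠ k := by
    have e1 : ∀ᶠ w in 𝓝[≠] (0 : ℂ), ‖stp B (0, w) / w - 1‖ < 1 / 2 := by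
      have := hlim.eventually (Metric.ball_mem_nhds (1 : ℂ) (show (0 : ℝ) < 1 / 2 by norm_num))
      filter_upwards [this] with w hw
      rwa [dist_eq_norm] at hw
    have e2 : ∀ᶠ w in 𝓝[≠] (0 : ℂ), ‖w‖ < min r (1 / 2) := by
      have : ∀ᶠ w in 𝓝 (0 : ℂ), ‖w‖ < min r (1 / 2) := by
        have h3 : Tendsto (fun w : ℂ => ‖w‖) (𝓝 0) (𝓝 ‖(0 : ℂ)‖) := continuous_norm.tendsto 0
        rw [norm_zero] at h3
        exact h3.eventually (Iio_mem_nhds (lt_min hr (by norm_num)))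
      exact this.filter_mono nhdsWithin_le_nhds
    obtain ⟨w, ⟨h1, h2⟩, h3⟩ := ((e1.and e2).and self_mem_nhdsWithin).exists
    have hw0 : w ≠ 0 := h3
    have hwn : 0 < ‖w‖ := norm_pos_iff.2 hw0
    refine ⟨w, hw0, h2.trans_le (min_le_left _ _), fun k hk => ?_⟩
    have h4 : stp B (0, w) - w = (stp B (0, w) / w - 1) * w := by field_simp
    have h5 : ‖stp B (0, w) - w‖ < ‖w‖ / 2 := by
      rw [h4, norm_mul]; nlinarith
    have h6 : ‖w‖ < 1 / 2 := h2.trans_le (min_le_right _ _)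
    rw [hk] at h5
    have h7 : ‖(k : ℂ)‖ < 1 := by
      have := norm_add_le ((k : ℂ) - w) w
      rw [sub_add_cancel] at this
      linarith
    have h8 : 0 < ‖(k : ℂ)‖ := by
      have := norm_sub_le (k : ℂ) ((k : ℂ) - w)
      rw [sub_sub_cancel] at this
      linarith
    rw [Complex.norm_intCast] at h7 h8
    have h9 : |k| < 1 := by exact_mod_cast h7
    have h10 : 0 < |k| := by exact_mod_cast h8
    omega
  obtain ⟨w₀, hw₀0, hw₀r, hw₀k⟩ := hex
  refine step_not_int hLab hDo hDc (φ := φ) (p := p) (B0 := fun x => B (x.1 - x.2 / 2, x.2))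
    (B1 := fun x => B (x.1 + x.2 / 2, x.2)) (X.φ_diff.mono (hsub.trans hsub2))
    (X.p_diff.mono (hsub.trans hsub2)) ?_ ?_ (fun _ _ => mem_univ _) (fun _ _ => mem_univ _)
    ?_ ?_ ?_ (x₀ := (0, w₀)) ⟨h0mem, by simpa using hw₀r, hw₀0⟩ hw₀k k (t, w)
    ⟨ht, by simpa using hw, hw0⟩
  · exact X.B_diff.comp (by fun_prop)
      (fun x hx => ⟨(shift_mem hx.1 (by simpa using hx.2.1)).2, hx.2.1⟩)
  · exact X.B_diff.comp (by fun_prop)
      (fun x hx => ⟨(shift_mem hx.1 (by simpa using hx.2.1)).1, hx.2.1⟩)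
  · intro x hx
    exact X.inc' x.1 x.2 hx.1 (by simpa using hx.2.1)
  · intro x hx
    exact X.inc x.1 x.2 hx.1 (by simpa using hx.2.1)
  · intro x hx
    exact X.area x.1 x.2 hx.1 (by simpa using hx.2.1) hx.2.2

/-- **(AP), steps** -/
theorem step (hLab : Lab θ H univ) {t : ℂ} (ht : t ∈ Sab (a + r) (h - r)) :
    (∀ w ∈ ball (0 : ℂ) (r / 8), 128 * Real.log (8 * K0 / r) * (‖w‖ / r) ^ 2 ≤ 1 →
      ‖stp B (t, w) - w‖ ≤ 256 * Real.log (8 * K0 / r) * (‖w‖ / r) ^ 2 * ‖w‖) ∧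
    ‖iteratedDeriv 3 (fun w => stp B (t, w)) 0‖ ≤ 1536 * Real.log (8 * K0 / r) / r ^ 2 :=
  step_est X.r_pos X.r_le (X.slice_diff ht) (stp_zero t) (X.slice_deriv ht)
    (fun w hw => X.stp_odd ht (by simpa using hw))
    (fun w hw hw0 k => X.stp_not_int hLab ht (by simpa using hw) hw0 k)

/-- **(AP), the curve** -/
theorem curve (hLab : Lab θ H univ) {G : ℂ → ℂ} (hG : Differentiable ℂ G)
    (hyG : ∀ z, deriv (deriv (deriv θ)) z = G z * deriv θ z)
    (yper : ∀ z, deriv θ (z + 1) = deriv θ z) (yconj : ∀ z, deriv θ (conj z) = conj (deriv θ z))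
    (Gconj : ∀ z, G (conj z) = conj (G z)) {c₀ : ℂ}
    (hAP3 : ∀ x : ℝ, iteratedDeriv 3 (fun w => stp B (x, w)) 0 =
      2 / 5 * (G x + deriv θ x ^ 2 / 8) + c₀) :
    ∀ z : ℂ, |z.im| ≤ h - 2 * r →
      ‖deriv θ z‖ ≤ 18 * (Real.sqrt ((1920 + 2 * ‖c₀‖) * Real.log (8 * K0 / r)) / r) ∧
      ‖G z‖ ≤ 43 * ((1920 + 2 * ‖c₀‖) * Real.log (8 * K0 / r) / r ^ 2) := by
  have hr := X.r_pos
  have hr1 := X.r_le
  have ha := X.a_lt
  have hh := X.h_gt
  have hK := K0_ge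
  have hθ : Differentiable ℂ θ := differentiableOn_univ.1 hLab.θ_diff
  have hy : Differentiable ℂ (deriv θ) := by
    have := hLab.θ_diff.deriv isOpen_univ
    exact differentiableOn_univ.1 this
  set M : ℝ := Real.log (8 * K0 / r) with hM
  have hM1 : 1 ≤ M := by
    rw [hM, Real.le_log_iff_exp_le (by positivity)]
    have h2 : Real.exp 1 ≤ 8 := by
      have := Real.exp_one_lt_d9
      linarith
    refine h2.trans ?_
    rw [le_div_iff₀ hr]; nlinarith
  -- the identity extends to the box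
  have hid : ∀ t ∈ Sab (a + r) (h - r), iteratedDeriv 3 (fun w => stp B (t, w)) 0 =
      2 / 5 * (G t + deriv θ t ^ 2 / 8) + c₀ := by
    have hc := M948.differentiableOn_coefT (isOpen_Sab (a + r) (h - r)) hr X.stp_diff 3
    have h1 : AnalyticOnNhd ℂ (M948.coefT (stp B) 0 3) (Sab (a + r) (h - r)) :=
      hc.analyticOnNhd (isOpen_Sab _ _)
    have h2 : AnalyticOnNhd ℂ (fun t => ((3).factorial : ℂ)⁻¹ *
        (2 / 5 * (G t + deriv θ t ^ 2 / 8) + c₀)) (Sab (a + r) (h - r)) := by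
      have h3 : Differentiable ℂ (fun t => ((3).factorial : ℂ)⁻¹ *
        (2 / 5 * (G t + deriv θ t ^ 2 / 8) + c₀)) := by fun_prop
      exact fun t _ => h3.analyticAt t
    have h0mem : (0 : ℂ) ∈ Sab (a + r) (h - r) := by
      constructor
      · simp only [Complex.zero_im]; linarith
      · simp only [Complex.zero_im]; linarith
    have hfreq : ∃ᶠ t in 𝓝[≠] (0 : ℂ), M948.coefT (stp B) 0 3 t =
        ((3).factorial : ℂ)⁻¹ * (2 / 5 * (G t + deriv θ t ^ 2 / 8) + c₀) := by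
      have hseq : Tendsto (fun n : ℕ => ((((1 : ℝ) / (n + 1) : ℝ)) : ℂ)) atTop (𝓝[≠] 0) := by
        refine tendsto_nhdsWithin_iff.2 ⟨?_, ?_⟩
        · have h3 := tendsto_one_div_add_atTop_nhds_zero_nat (𝕜 := ℝ)
          have h4 := (Complex.continuous_ofReal.tendsto 0).comp h3
          exact h4
        · refine Eventually.of_forall fun n => ?_
          have : (0 : ℝ) < 1 / ((n : ℝ) + 1) := by positivity
          exact Complex.ofReal_ne_zero.2 this.ne'
      refine hseq.frequently (Eventually.frequently (Eventually.of_forall fun n => ?_))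
      unfold M948.coefT
      rw [hAP3]
    have h4 := h1.eqOn_of_preconnected_of_frequently_eq h2 (convex_Sab _ _).isPreconnected
      h0mem hfreq
    intro t ht
    have h5 := h4 ht
    unfold M948.coefT at h5
    have h6 : ((3).factorial : ℂ)⁻¹ ≠ 0 := by
      simp [Nat.factorial]
    exact mul_left_cancel₀ h6 h5
  -- bound of `J`
  set A : ℝ := (1920 + 2 * ‖c₀‖) * M with hA
  have hA1 : 1 ≤ A := by
    have := norm_nonneg c₀
    rw [hA]; nlinarith
  have hJup : ∀ t ∈ Sab (a + r) (h - r), ‖G t + deriv θ t ^ 2 / 8‖ ≤ 2 * (A / r ^ 2) := by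
    intro t ht
    have h1 := (X.step hLab ht).2
    rw [← hM] at h1
    have h2 := hid t ht
    have h3 : G t + deriv θ t ^ 2 / 8 =
        5 / 2 * (iteratedDeriv 3 (fun w => stp B (t, w)) 0 - c₀) := by
      rw [h2]; ring
    rw [h3, norm_mul]
    have h4 : ‖(5 / 2 : ℂ)‖ = 5 / 2 := by
      rw [norm_div]; simp
    rw [h4]
    have h5 := norm_sub_le (iteratedDeriv 3 (fun w => stp B (t, w)) 0) c₀
    have h6 : ‖c₀‖ ≤ ‖c₀‖ * M / r ^ 2 := by
      rw [le_div_iff₀ (by positivity)]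
      have : r ^ 2 ≤ 1 := by nlinarith
      have := norm_nonneg c₀
      nlinarith
    have h7 : 2 * (A / r ^ 2) = 5 / 2 * (1536 * M / r ^ 2) + 4 * (‖c₀‖ * M / r ^ 2) := by
      rw [hA]; ring
    rw [h7]
    have h8 : 0 ≤ ‖c₀‖ * M / r ^ 2 := by positivity
    nlinarith
  set Γ : ℝ := Real.sqrt A / r with hΓ
  have hsA : 1 ≤ Real.sqrt A := by
    rw [Real.one_le_sqrt]; exact hA1
  have hΓpos : 0 < Γ := by rw [hΓ]; positivity
  have hΓ2 : Γ ^ 2 = A / r ^ 2 := by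
    rw [hΓ, div_pow, Real.sq_sqrt (by linarith)]
  have hΓ1 : 1 / Γ ≤ r := by
    rw [hΓ, one_div, inv_div, div_le_iff₀ (by positivity)]
    nlinarith
  have hJ : ∀ z : ℂ, |z.im| < h - r → ‖G z + deriv θ z ^ 2 / 8‖ ≤ 2 * Γ ^ 2 := by
    intro z hz
    rw [hΓ2]
    obtain ⟨h1, h2⟩ := abs_lt.1 hz
    rcases le_total 0 z.im with h3 | h3
    · exact hJup z ⟨by linarith, h2⟩
    · have h4 := hJup (conj z) ⟨by rw [Complex.conj_im]; linarith,
        by rw [Complex.conj_im]; linarith⟩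
      rw [Gconj, yconj] at h4
      have h5 : conj (G z) + conj (deriv θ z) ^ 2 / 8 = conj (G z + deriv θ z ^ 2 / 8) := by
        rw [map_add, map_div₀, map_pow]
        congr 2
        exact (Complex.conj_ofNat 8).symm
      rw [h5, RCLike.norm_conj] at h4
      exact h4
  have h9 := picking (y := deriv θ) (G := G) (h₁ := h - r) hΓpos hy yper
    (fun z _ => hyG z) hJ
  intro z hz
  have h10 := h9 z (by linarith)
  refine ⟨h10.1, ?_⟩
  have h11 := h10.2
  rw [hΓ2] at h11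
  exact h11

end Box

end Crest.Agent.R102.APJ628
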