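import Mathlib

/-!
Row 102, T1-E, (E3), part 1: the linear ODE of the projective lift of the mirror and the third
order estimate.

`θ`, `H` entire, `y = θ'`, `y H'' - y' H' + y³ H = -1`, `y'' = (K - 2 y²) y`.
`G_s = exp (i s θ) (- H' + i s y H)` (`s = ± 1`) and `y` solve
`g''' = (K - 3 y²) g' + (K' - 3 y y') g`, and `y G_s' - y' G_s = exp (i s θ)`.
-/

set_option autoImplicit false
set_option linter.unusedSimpArgs false
set_option linter.unusedVariables false

open Set Filter Topology Metric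

noncomputable section

namespace Crest.Agent.R102.OS350

/-- an entire mirror -/
structure Mir (θ H K : ℂ → ℂ) : Prop where
  θd : Differentiable ℂ θ
  Hd : Differentiable ℂ H
  Kd : Differentiable ℂ K
  rel : ∀ z, deriv θ z * deriv (deriv H) z - deriv (deriv θ) z * deriv H z +
    deriv θ z ^ 3 * H z = -1
  hK : ∀ z, deriv (deriv (deriv θ)) z = (K z - 2 * deriv θ z ^ 2) * deriv θ z

variable {θ H K : ℂ → ℂ}

lemma diff_deriv {f : ℂ → ℂ} (hf : Differentiable ℂ f) : Differentiable ℂ (deriv f) := by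
  rw [← differentiableOn_univ] at hf ⊢
  exact hf.deriv isOpen_univ

/-- a triple `(g, g', g'')` solving the third order equation -/
structure Sol (θ K : ℂ → ℂ) (g g1 g2 : ℂ → ℂ) : Prop where
  d0 : ∀ z, HasDerivAt g (g1 z) z
  d1 : ∀ z, HasDerivAt g1 (g2 z) z
  d2 : ∀ z, HasDerivAt g2 ((K z - 3 * deriv θ z ^ 2) * g1 z +
    (deriv K z - 3 * deriv θ z * deriv (deriv θ) z) * g z) z

lemma Mir.dy (h : Mir θ H K) (z : ℂ) : HasDerivAt (deriv θ) (deriv (deriv θ) z) z :=
  (diff_deriv h.θd z).hasDerivAt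

lemma Mir.dy1 (h : Mir θ H K) (z : ℂ) :
    HasDerivAt (deriv (deriv θ)) ((K z - 2 * deriv θ z ^ 2) * deriv θ z) z := by
  rw [← h.hK z]; exact (diff_deriv (diff_deriv h.θd) z).hasDerivAt

lemma Mir.dH (h : Mir θ H K) (z : ℂ) : HasDerivAt H (deriv H z) z := (h.Hd z).hasDerivAt

lemma Mir.dH1 (h : Mir θ H K) (z : ℂ) : HasDerivAt (deriv H) (deriv (deriv H) z) z :=
  (diff_deriv h.Hd z).hasDerivAt

lemma Mir.dKK (h : Mir θ H K) (z : ℂ) : HasDerivAt K (deriv K z) z := (h.Kd z).hasDerivAt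

/-- cancellation of `y` -/
lemma Mir.cancel (h : Mir θ H K) {F : ℂ → ℂ} (hF : Continuous F)
    (h0 : ∀ z, deriv θ z * F z = 0) (z : ℂ) : F z = 0 := by
  by_cases hy : deriv θ z = 0
  · have h1 : deriv (deriv θ) z ≠ 0 := by
      intro h2
      have := h.rel z
      rw [hy, h2] at this
      norm_num at this
    have h2 : ∀ᶠ x in 𝓝[≠] z, deriv θ x ≠ 0 := by
      have h3 := (h.dy z).eventually_ne h1 (c := 0)
      exact h3
    have h4 : ∀ᶠ x in 𝓝[≠] z, F x = 0 := by
      filter_upwards [h2] with x hx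
      exact (mul_eq_zero.1 (h0 x)).resolve_left hx
    have h5 : Tendsto F (𝓝[≠] z) (𝓝 (F z)) := hF.continuousAt.tendsto.mono_left nhdsWithin_le_nhds
    have h6 : Tendsto F (𝓝[≠] z) (𝓝 0) := by
      refine (tendsto_const_nhds (x := (0 : ℂ))).congr' ?_
      filter_upwards [h4] with x hx
      exact hx.symm
    exact tendsto_nhds_unique h5 h6
  · exact (mul_eq_zero.1 (h0 z)).resolve_left hy

/-- `H''' = (K - 3 y²) H' - 3 y y' H` -/
lemma Mir.H3 (h : Mir θ H K) (z : ℂ) : HasDerivAt (deriv (deriv H))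
    ((K z - 3 * deriv θ z ^ 2) * deriv H z - 3 * deriv θ z * deriv (deriv θ) z * H z) z := by
  have hd := diff_deriv (diff_deriv h.Hd)
  have key : ∀ z, deriv (deriv (deriv H)) z - ((K z - 3 * deriv θ z ^ 2) * deriv H z -
      3 * deriv θ z * deriv (deriv θ) z * H z) = 0 := by
    refine h.cancel ?_ ?_
    · have c1 := (diff_deriv hd).continuous
      have c2 := (diff_deriv h.θd).continuous
      have c3 := (diff_deriv (diff_deriv h.θd)).continuous
      have c4 := (diff_deriv h.Hd).continuous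
      have c5 := h.Hd.continuous
      have c6 := h.Kd.continuous
      fun_prop
    · intro z
      have h1 : HasDerivAt (fun z => deriv θ z * deriv (deriv H) z -
          deriv (deriv θ) z * deriv H z + deriv θ z ^ 3 * H z)
          ((deriv (deriv θ) z * deriv (deriv H) z + deriv θ z * deriv (deriv (deriv H)) z) -
          (((K z - 2 * deriv θ z ^ 2) * deriv θ z) * deriv H z +
            deriv (deriv θ) z * deriv (deriv H) z) +
          ((3 * deriv θ z ^ 2 * deriv (deriv θ) z) * H z + deriv θ z ^ 3 * deriv H z)) z := by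
        have a1 := (h.dy z).mul (hd z).hasDerivAt
        have a2 := (h.dy1 z).mul (h.dH1 z)
        have a3 := ((h.dy z).pow 3).mul (h.dH z)
        have := (a1.sub a2).add a3
        refine this.congr_deriv ?_
        try simp only [Pi.add_apply, Pi.neg_apply, Pi.mul_apply, Pi.sub_apply, Pi.pow_apply]
        push_cast
        ring
      have h2 : (fun z => deriv θ z * deriv (deriv H) z -
          deriv (deriv θ) z * deriv H z + deriv θ z ^ 3 * H z) = fun _ => -1 := funext h.rel
      rw [h2] at h1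
      have h3 := h1.unique (hasDerivAt_const z (-1 : ℂ))
      linear_combination h3
  have := (hd z).hasDerivAt
  rw [sub_eq_zero.1 (key z)] at this
  exact this

/-- `y` is a solution -/
lemma Mir.sol_y (h : Mir θ H K) : Sol θ K (deriv θ) (deriv (deriv θ))
    (fun z => (K z - 2 * deriv θ z ^ 2) * deriv θ z) := by
  refine ⟨h.dy, h.dy1, fun z => ?_⟩
  have := ((h.dKK z).sub (((h.dy z).pow 2).const_mul 2)).mul (h.dy z)
  refine this.congr_deriv ?_
  try simp only [Pi.add_apply, Pi.neg_apply, Pi.mul_apply, Pi.sub_apply, Pi.pow_apply]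
  push_cast
  ring

/-- the lift -/
def Gs (θ H : ℂ → ℂ) (s z : ℂ) : ℂ :=
  Complex.exp (Complex.I * s * θ z) * (-deriv H z + Complex.I * s * deriv θ z * H z)

def Gs1 (θ H : ℂ → ℂ) (s z : ℂ) : ℂ :=
  Complex.exp (Complex.I * s * θ z) * (-deriv θ z ^ 2 * H z - deriv (deriv H) z +
    Complex.I * s * deriv (deriv θ) z * H z)

def Gs2 (θ H K : ℂ → ℂ) (s z : ℂ) : ℂ :=
  Complex.exp (Complex.I * s * θ z) * (-(Complex.I * s * deriv θ z * deriv (deriv H) z) +
    (-K z + 2 * deriv θ z ^ 2 + Complex.I * s * deriv (deriv θ) z) * deriv H z +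
    Complex.I * s * (K z - 3 * deriv θ z ^ 2) * deriv θ z * H z)

lemma Mir.dexp (h : Mir θ H K) (s z : ℂ) : HasDerivAt (fun z => Complex.exp (Complex.I * s * θ z))
    (Complex.exp (Complex.I * s * θ z) * (Complex.I * s * deriv θ z)) z :=
  (((h.θd z).hasDerivAt).const_mul (Complex.I * s)).cexp

lemma Mir.sol_G (h : Mir θ H K) {s : ℂ} (hs : s ^ 2 = 1) :
    Sol θ K (Gs θ H s) (Gs1 θ H s) (Gs2 θ H K s) := by
  have hI : Complex.I ^ 2 = -1 := Complex.I_sq
  refine ⟨fun z => ?_, fun z => ?_, fun z => ?_⟩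
  · have a := (h.dexp s z).mul ((h.dH1 z).neg.add (((h.dy z).const_mul (Complex.I * s)).mul (h.dH z)))
    unfold Gs Gs1
    refine a.congr_deriv ?_
    try simp only [Pi.add_apply, Pi.neg_apply, Pi.mul_apply, Pi.sub_apply, Pi.pow_apply]
    push_cast
    linear_combination (Complex.exp (Complex.I * s * θ z) * (deriv θ z ^ 2 * H z)) *
      ((s ^ 2) * hI - hs)
  · have a := (h.dexp s z).mul (((((h.dy z).pow 2).neg.mul (h.dH z)).sub (h.H3 z)).add
      (((h.dy1 z).const_mul (Complex.I * s)).mul (h.dH z)))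
    unfold Gs1 Gs2
    refine a.congr_deriv ?_
    try simp only [Pi.add_apply, Pi.neg_apply, Pi.mul_apply, Pi.sub_apply, Pi.pow_apply]
    push_cast
    linear_combination (Complex.exp (Complex.I * s * θ z) *
      (deriv θ z * deriv (deriv θ) z * H z)) * ((s ^ 2) * hI - hs)
  · have b1 := ((h.dy z).const_mul (Complex.I * s)).mul (h.H3 z)
    have b2 := (((h.dKK z).neg.add (((h.dy z).pow 2).const_mul 2)).add
      ((h.dy1 z).const_mul (Complex.I * s))).mul (h.dH1 z)
    have b3 := ((((h.dKK z).sub (((h.dy z).pow 2).const_mul 3)).const_mul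
      (Complex.I * s)).mul (h.dy z)).mul (h.dH z)
    have a := (h.dexp s z).mul ((b1.neg.add b2).add b3)
    unfold Gs2 Gs1 Gs
    refine a.congr_deriv ?_
    try simp only [Pi.add_apply, Pi.neg_apply, Pi.mul_apply, Pi.sub_apply, Pi.pow_apply]
    push_cast
    linear_combination (Complex.exp (Complex.I * s * θ z) *
      (-(deriv θ z ^ 2 * deriv (deriv H) z) + deriv θ z * deriv (deriv θ) z * deriv H z +
        deriv θ z ^ 2 * (K z - 3 * deriv θ z ^ 2) * H z)) * ((s ^ 2) * hI - hs)

/-- `y G_s' - y' G_s = exp (i s θ)` -/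
lemma Mir.wr (h : Mir θ H K) {s : ℂ} (hs : s ^ 2 = 1) (z : ℂ) :
    deriv θ z * Gs1 θ H s z - deriv (deriv θ) z * Gs θ H s z =
      Complex.exp (Complex.I * s * θ z) := by
  unfold Gs Gs1
  linear_combination (-Complex.exp (Complex.I * s * θ z)) * h.rel z

/-- `y G_s'' - y'' G_s = i s y exp (i s θ)` -/
lemma Mir.wr2 (h : Mir θ H K) {s : ℂ} (hs : s ^ 2 = 1) (z : ℂ) :
    deriv θ z * Gs2 θ H K s z - (K z - 2 * deriv θ z ^ 2) * deriv θ z * Gs θ H s z =
      Complex.I * s * deriv θ z * Complex.exp (Complex.I * s * θ z) := by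
  unfold Gs Gs2
  linear_combination (-(Complex.I * s * deriv θ z) * Complex.exp (Complex.I * s * θ z)) * h.rel z

end Crest.Agent.R102.OS350
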