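import Mathlib
import Crest.Agent.R102.SpineDefs_478

/-!
Row 102, part (C): Cases A and B from their blocks, `partCL_of_blocks`.
-/

set_option autoImplicit false

open Set Filter Topology Metric
open scoped ComplexConjugate

noncomputable section

namespace Crest.Agent.R102.Spine

open Crest.Agent.R102.T5 Crest.Agent.R102.G576 Crest.Agent.R102.A929 Crest.Agent.R102.B821
open Crest.Agent.R102.C0 Crest.Agent.R102.C1 Crest.Agent.R102.Mer88

variable {q : C(ℂ, ℂ)} {η h0 : ℝ} {θ H : ℂ → ℂ}

/-! #### real form of the conclusion -/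

lemma concl_of (hD : Datum q η) {V : Set ℂ} (hsV : Str η ⊆ V)
    (hθ : ∀ z ∈ Str η, θ z = Tc q z) {k : ℝ}
    (hk : ∀ z ∈ V, T7M.d2 (deriv θ) z = (k - 2 * deriv θ z ^ 2) * deriv θ z) : Concl q := by
  have hy : ∀ z ∈ Str η, deriv θ z = Complex.exp (q z) := by
    intro z hz
    have h1 : θ =ᶠ[𝓝 z] Tc q := by
      filter_upwards [(isOpen_Str η).mem_nhds hz] with x hx using hθ x hx
    rw [h1.deriv_eq]
    exact (hD.hasDerivAt_Tc hz).deriv
  have hyd : DifferentiableOn ℂ (deriv θ) (Str η) := by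
    refine (hD.exp_diff).congr (fun z hz => hy z hz)
  have hreal : ∀ x : ℝ, Real.exp (qr q x) = (deriv θ x).re := by
    intro x
    rw [hy x (real_mem_Str hD.η_pos x), hD.q_real, ← Complex.ofReal_exp, Complex.ofReal_re]
  have hreal2 : ∀ x : ℝ, deriv θ x = ((Real.exp (qr q x) : ℝ) : ℂ) := by
    intro x
    rw [hy x (real_mem_Str hD.η_pos x), hD.q_real, ← Complex.ofReal_exp]
  have hf : (fun x : ℝ => Real.exp (qr q x)) = fun x : ℝ => (deriv θ x).re := funext hreal
  have hat : ∀ x : ℝ, (x : ℂ) ∈ Str η := fun x => real_mem_Str hD.η_pos x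
  have d1 : ∀ x : ℝ, HasDerivAt (fun x : ℝ => (deriv θ x).re) (deriv (deriv θ) x).re x := by
    intro x
    exact (((hyd).differentiableAt ((isOpen_Str η).mem_nhds (hat x))).hasDerivAt).real_of_complex
  have hyd2 : DifferentiableOn ℂ (deriv (deriv θ)) (Str η) := hyd.deriv (isOpen_Str η)
  have d2' : ∀ x : ℝ, HasDerivAt (fun x : ℝ => (deriv (deriv θ) x).re)
      (deriv (deriv (deriv θ)) x).re x := by
    intro x
    exact (((hyd2).differentiableAt ((isOpen_Str η).mem_nhds (hat x))).hasDerivAt).real_of_complex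
  refine ⟨k, fun x => ?_⟩
  have e1 : deriv (fun x : ℝ => Real.exp (qr q x)) = fun x : ℝ => (deriv (deriv θ) x).re := by
    rw [hf]; funext x; exact (d1 x).deriv
  rw [e1, (d2' x).deriv]
  have h3 := hk x (hsV (hat x))
  have h4 : T7M.d2 (deriv θ) (x : ℂ) = deriv (deriv (deriv θ)) x := rfl
  rw [h4, hreal2 x] at h3
  rw [h3]
  have : ((k : ℂ) - 2 * ((Real.exp (qr q x) : ℝ) : ℂ) ^ 2) * ((Real.exp (qr q x) : ℝ) : ℂ) =
      (((k - 2 * Real.exp (qr q x) ^ 2) * Real.exp (qr q x) : ℝ) : ℂ) := by push_cast; ring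
  rw [this, Complex.ofReal_re]

/-! #### Case A -/

lemma reg_of_regB {s : ℂ} (h : RegB h0 θ H s) :
    T7M.Reg h0 (deriv θ) H s := by
  obtain ⟨c, hc, θ', H', h1, h2, h3⟩ := h
  refine ⟨c, hc, deriv θ', H', h1.deriv isOpen_ball, h2, fun z hz hzi => ⟨?_, (h3 z hz hzi).2⟩⟩
  have h4 : θ' =ᶠ[𝓝 z] θ := by
    filter_upwards [isOpen_ball.mem_nhds hz, (isOpen_Str h0).mem_nhds (show z ∈ Str h0 from hzi)]
      with x hx hx2 using (h3 x hx hx2).1
  exact h4.deriv_eq

theorem caseA_of (hZ : ZeroY) (hA : AMer) (hP : Pui) (hT : T5S) : CaseA := by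
  intro q η ρ r B b φ p m₀ hL θ H h0 hη hV hs hr
  have hD := hL.dat
  have hdat : DataS q η ρ r B b φ p m₀ θ H h0 := ⟨hL, hη, hV⟩
  have hh0 : 0 < h0 := lt_of_lt_of_le hD.η_pos hη
  -- Puiseux at every top line point
  have hpui : ∀ s : ℂ, s.im = h0 → PuisB h0 θ H s := by
    by_cases ha : AlgC q
    · exact hP q η ρ r B b φ p m₀ θ H h0 hdat ha
    · intro s hs'
      obtain ⟨E, F, hE, hF, hEF⟩ := hA q η ρ r B b φ p m₀ θ H h0 hdat ha hr s hs'
      have ha1 : AnalyticAt ℂ (fun u : ℂ => s - Complex.I * u) 0 := by fun_prop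
      have hmap : (fun u : ℂ => s - Complex.I * u) 0 = s := by simp
      have hcomp : ∀ G : ℂ → ℂ, MeromorphicAt G s →
          MeromorphicAt (fun u => G (s - Complex.I * u)) 0 := by
        intro G hG
        have hG' : MeromorphicAt G ((fun u : ℂ => s - Complex.I * u) 0) := by rwa [hmap]
        exact MeromorphicAt.comp_analyticAt (f := G) (g := fun u : ℂ => s - Complex.I * u) hG' ha1
      refine ⟨1, one_pos, fun u => E (s - Complex.I * u), fun u => F (s - Complex.I * u),
        hcomp E hE, hcomp F hF, ?_⟩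
      filter_upwards [hEF] with z hz hzi
      have h1 : (Complex.I * (z - s)) ^ (1 / ((1 : ℕ) : ℂ)) = Complex.I * (z - s) := by
        rw [Nat.cast_one, div_one, Complex.cpow_one]
      have h2 : s - Complex.I * (Complex.I * (z - s)) = z := by
        rw [← mul_assoc, Complex.I_mul_I]; ring
      simp only [h1, h2]
      exact hz hzi
  have htop := hT q η ρ r B b φ p m₀ θ H h0 hdat hpui
  obtain ⟨s1, hs1, hs1n⟩ := hs
  have hnice : NiceB h0 θ s1 := (htop s1 hs1).resolve_left hs1n
  obtain ⟨rb, ab, Fb, hnb⟩ := hnice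
  obtain ⟨hrel, -⟩ := hZ q η (Str h0) θ H hD hV
  have hyd : DifferentiableOn ℂ (deriv θ) (Str h0) := hV.θ_diff.deriv (isOpen_Str h0)
  obtain ⟨k, hk⟩ := T7M.T7_fin hh0 (c := -1) (by norm_num) (y := deriv θ) (H := H) hyd hV.H_diff
    (fun z hz => by
      have := hrel z hz
      linear_combination this)
    (fun z hz => by
      have h1 : (fun z => θ (z + 1)) =ᶠ[𝓝 z] fun z => θ z + 2 * Real.pi := by
        filter_upwards [(isOpen_Str h0).mem_nhds (show z ∈ Str h0 from hz)] with x hx
        exact (ext_per hD hη hV hx).1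
      have h2 := h1.deriv_eq
      rw [deriv_comp_add_const, deriv_add_const] at h2
      exact h2)
    (fun z hz => by
      have h1 : (fun z => conj (θ (conj z))) =ᶠ[𝓝 z] θ := by
        filter_upwards [(isOpen_Str h0).mem_nhds (show z ∈ Str h0 from hz)] with x hx
        rw [(ext_conj hD hη hV hx).1, starRingEnd_self_apply]
      have hz' : conj z ∈ Str h0 := conj_mem_Str hz
      have h2 : HasDerivAt θ (deriv θ (conj z)) (conj z) :=
        (hV.θ_diff.differentiableAt ((isOpen_Str h0).mem_nhds hz')).hasDerivAt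
      have h3 := h2.conj_conj
      rw [starRingEnd_self_apply] at h3
      have h4 : HasDerivAt θ (conj (deriv θ (conj z))) z := h3.congr_of_eventuallyEq h1.symm
      rw [h4.deriv, starRingEnd_self_apply])
    (fun s hs' => (htop s hs').imp reg_of_regB id) hs1 hnb
  exact concl_of hD (str_mono hη) hV.θ_eq (k := k) hk

/-! #### Case B -/

/-- a Puiseux point has regular neighbours on the top line -/
lemma regB_of_puis (hh0 : 0 < h0) (hV : VExt q η (Str h0) θ H) {s : ℂ} (hs : s.im = h0)
    (h : PuisB h0 θ H s) : ∃ s' : ℂ, s'.im = h0 ∧ RegB h0 θ H s' := by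
  obtain ⟨n, hn, E, F, hE, hF, hEF⟩ := h
  have hn0 : (n : ℝ) ≠ 0 := by exact_mod_cast hn.ne'
  set u : ℂ → ℂ := fun z => (Complex.I * (z - s)) ^ (1 / (n : ℂ)) with hu
  have hnorm : ∀ z, ‖u z‖ = ‖z - s‖ ^ (((n : ℝ))⁻¹) := by
    intro z
    rw [hu]
    simp only [one_div]
    rw [Complex.norm_cpow_inv_nat, norm_mul, Complex.norm_I, one_mul]
  have hune : ∀ z, z ≠ s → u z ≠ 0 := by
    intro z hz
    rw [← norm_pos_iff, hnorm]
    exact Real.rpow_pos_of_pos (norm_pos_iff.2 (sub_ne_zero.2 hz)) _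
  have htend : Tendsto u (𝓝[≠] s) (𝓝[≠] 0) := by
    refine tendsto_nhdsWithin_iff.2 ⟨?_, ?_⟩
    · rw [tendsto_zero_iff_norm_tendsto_zero]
      have h1 : Tendsto (fun z : ℂ => ‖z - s‖ ^ (((n : ℝ))⁻¹)) (𝓝[≠] s) (𝓝 (0 ^ (((n : ℝ))⁻¹))) := by
        have h2 : Tendsto (fun z : ℂ => ‖z - s‖) (𝓝[≠] s) (𝓝 0) := by
          have h3 : Tendsto (fun z : ℂ => ‖z - s‖) (𝓝 s) (𝓝 ‖s - s‖) := by
            have : Continuous (fun z : ℂ => ‖z - s‖) := by fun_prop
            exact this.tendsto s
          rw [sub_self, norm_zero] at h3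
          exact h3.mono_left nhdsWithin_le_nhds
        exact h2.rpow_const (Or.inr (by positivity))
      rw [Real.zero_rpow (inv_ne_zero hn0)] at h1
      exact h1.congr (fun z => (hnorm z).symm)
    · filter_upwards [self_mem_nhdsWithin] with z hz using hune z hz
  -- `E` is not identically zero
  have hEne : ∀ᶠ w in 𝓝[≠] (0 : ℂ), E w ≠ 0 := by
    rcases hE.eventually_eq_zero_or_eventually_ne_zero with h1 | h1
    · exfalso
      have h2 := htend.eventually h1
      -- points below `s`
      have h3 : Tendsto (fun ε : ℝ => s - (ε : ℂ) * Complex.I) (𝓝[>] 0) (𝓝[≠] s) := by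
        refine tendsto_nhdsWithin_iff.2 ⟨?_, ?_⟩
        · have : Continuous (fun ε : ℝ => s - (ε : ℂ) * Complex.I) := by fun_prop
          have h4 := this.tendsto 0
          simp only [Complex.ofReal_zero, zero_mul, sub_zero] at h4
          exact h4.mono_left nhdsWithin_le_nhds
        · filter_upwards [self_mem_nhdsWithin] with ε hε
          intro hcon
          have h5 : (ε : ℂ) * Complex.I = 0 := by
            have h6 : s - (ε : ℂ) * Complex.I = s := hcon
            linear_combination -h6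
          have h7 : (0 : ℝ) < ε := hε
          simp [h7.ne'] at h5
      have h4 := h3.eventually h2
      have h5 := (h3.mono_right nhdsWithin_le_nhds).eventually hEF
      have h6 : ∀ᶠ ε : ℝ in 𝓝[>] 0, ε < h0 := by
        filter_upwards [Ioo_mem_nhdsGT hh0] with ε hε using hε.2
      obtain ⟨ε, h7, h8, h9, h10⟩ := (h4.and (h5.and (h6.and
        (self_mem_nhdsWithin : Ioi (0 : ℝ) ∈ 𝓝[>] 0)))).exists
      have hεp : (0 : ℝ) < ε := h10
      have h11 : |(s - (ε : ℂ) * Complex.I).im| < h0 := by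
        have : (s - (ε : ℂ) * Complex.I).im = h0 - ε := by simp [hs]
        rw [this, abs_of_pos (by linarith)]
        linarith
      have h12 := (h8 h11).1
      have h13 : E (u (s - (ε : ℂ) * Complex.I)) = 0 := h7
      rw [hu] at h13
      simp only at h13
      rw [h13] at h12
      exact Complex.exp_ne_zero _ h12.symm
    · exact h1
  -- a good real shift
  have h3 : Tendsto (fun x : ℝ => s + (x : ℂ)) (𝓝[>] 0) (𝓝[≠] s) := by
    refine tendsto_nhdsWithin_iff.2 ⟨?_, ?_⟩
    · have : Continuous (fun x : ℝ => s + (x : ℂ)) := by fun_prop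
      have h4 := this.tendsto 0
      simp only [Complex.ofReal_zero, add_zero] at h4
      exact h4.mono_left nhdsWithin_le_nhds
    · filter_upwards [self_mem_nhdsWithin] with x hx
      intro hcon
      have h6 : s + (x : ℂ) = s := hcon
      have h5 : (x : ℂ) = 0 := by linear_combination h6
      have h7 : (0 : ℝ) < x := hx
      exact h7.ne' (by exact_mod_cast h5)
  have hEa := hE.eventually_analyticAt
  have hFa := hF.eventually_analyticAt
  obtain ⟨x, h4, h5, h6, h7, h8⟩ := ((h3.eventually (htend.eventually hEne)).and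
    ((h3.eventually (htend.eventually hEa)).and ((h3.eventually (htend.eventually hFa)).and
    (((h3.mono_right nhdsWithin_le_nhds).eventually hEF.eventually_nhds).and
    (self_mem_nhdsWithin : Ioi (0 : ℝ) ∈ 𝓝[>] 0))))).exists
  have hx : (0 : ℝ) < x := h8
  set s' : ℂ := s + (x : ℂ) with hs'
  have hs'im : s'.im = h0 := by simp [hs', hs]
  have huan : AnalyticAt ℂ u s' := by
    refine AnalyticAt.cpow (by fun_prop) analyticAt_const ?_
    have : Complex.I * (s' - s) = (x : ℂ) * Complex.I := by rw [hs']; ring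
    rw [this, Complex.mem_slitPlane_iff]
    right
    simp [hx.ne']
  have hEu : AnalyticAt ℂ (fun z => E (u z)) s' := h5.comp huan
  have hFu : AnalyticAt ℂ (fun z => F (u z)) s' := h6.comp huan
  have hev : ∀ᶠ z in 𝓝 s', AnalyticAt ℂ (fun z => E (u z)) z ∧ AnalyticAt ℂ (fun z => F (u z)) z ∧
      E (u z) ≠ 0 ∧ (|z.im| < h0 → E (u z) = Complex.exp (Complex.I * θ z) ∧ F (u z) = H z) := by
    filter_upwards [hEu.eventually_analyticAt, hFu.eventually_analyticAt,
      hEu.continuousAt.eventually_ne h4, h7] with z a b c d using ⟨a, b, c, d⟩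
  obtain ⟨c0, hc0, hball⟩ := Metric.eventually_nhds_iff_ball.1 hev
  set c : ℝ := min c0 h0 with hcdef
  have hc : 0 < c := lt_min hc0 hh0
  have hcb : ball s' c ⊆ ball s' c0 := ball_subset_ball (min_le_left _ _)
  have hEd : DifferentiableOn ℂ (fun z => E (u z)) (ball s' c) := fun z hz =>
    (hball z (hcb hz)).1.differentiableAt.differentiableWithinAt
  have hFd : DifferentiableOn ℂ (fun z => F (u z)) (ball s' c) := fun z hz =>
    (hball z (hcb hz)).2.1.differentiableAt.differentiableWithinAt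
  have hld : DifferentiableOn ℂ (fun z => deriv (fun z => E (u z)) z / (Complex.I * E (u z)))
      (ball s' c) := by
    refine (hEd.deriv isOpen_ball).div (hEd.const_mul _) (fun z hz => ?_)
    exact mul_ne_zero Complex.I_ne_zero (hball z (hcb hz)).2.2.1
  obtain ⟨g, hg⟩ := hld.isExactOn_ball
  set zs : ℂ := s' - ((c / 2 : ℝ) : ℂ) * Complex.I with hzs
  have hzsb : zs ∈ ball s' c := by
    rw [mem_ball, dist_eq_norm, hzs]
    have : s' - ((c / 2 : ℝ) : ℂ) * Complex.I - s' = -(((c / 2 : ℝ) : ℂ) * Complex.I) := by ring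
    rw [this, norm_neg, norm_mul, Complex.norm_I, mul_one, Complex.norm_real,
      Real.norm_of_nonneg (by positivity)]
    linarith
  have hzsi : zs ∈ Str h0 := by
    show |zs.im| < h0
    have h9 : zs.im = h0 - c / 2 := by simp [hzs, hs'im]
    have h10 : c ≤ h0 := min_le_right _ _
    rw [h9, abs_of_pos (by linarith)]
    linarith
  refine ⟨s', hs'im, c, hc, fun z => g z - g zs + θ zs, fun z => F (u z), ?_, hFd, ?_⟩
  · intro z hz
    exact ((((hg z hz).differentiableAt).sub_const _).add_const _).differentiableWithinAt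
  · intro z hz hzi
    refine ⟨?_, ((hball z (hcb hz)).2.2.2 hzi).2⟩
    have hWo : IsOpen (ball s' c ∩ Str h0) := isOpen_ball.inter (isOpen_Str h0)
    have hWc : IsPreconnected (ball s' c ∩ Str h0) :=
      ((convex_ball _ _).inter (str_conv h0)).isPreconnected
    have key : EqOn (fun z => g z - g zs + θ zs) θ (ball s' c ∩ Str h0) := by
      refine hWo.eqOn_of_deriv_eq hWc ?_ (hV.θ_diff.mono inter_subset_right) ?_
        (x := zs) ⟨hzsb, hzsi⟩ (by simp)
      · intro w hw
        exact ((((hg w hw.1).differentiableAt).sub_const _).add_const _).differentiableWithinAt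
      · intro w hw
        have e1 : deriv (fun z => g z - g zs + θ zs) w =
            deriv (fun z => E (u z)) w / (Complex.I * E (u w)) := by
          rw [deriv_add_const, deriv_sub_const]
          exact (hg w hw.1).deriv
        have e2 : (fun z => E (u z)) =ᶠ[𝓝 w] fun z => Complex.exp (Complex.I * θ z) := by
          filter_upwards [hWo.mem_nhds hw] with v hv
          exact ((hball v (hcb hv.1)).2.2.2 hv.2).1
        have e3 : HasDerivAt θ (deriv θ w) w :=
          (hV.θ_diff.differentiableAt ((isOpen_Str h0).mem_nhds hw.2)).hasDerivAt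
        have e4 : deriv (fun z => E (u z)) w =
            Complex.exp (Complex.I * θ w) * (Complex.I * deriv θ w) := by
          rw [e2.deriv_eq]
          exact ((e3.const_mul Complex.I).cexp).deriv
        have e5 : E (u w) = Complex.exp (Complex.I * θ w) := e2.self_of_nhds
        rw [e1, e4, e5]
        have := Complex.exp_ne_zero (Complex.I * θ w)
        field_simp
    exact key ⟨hz, hzi⟩

theorem caseB_of (hP : Pui) (hT : T1B) (hB : BEnd) : CaseB := by
  intro q η ρ r B b φ p m₀ hL θ H h0 hη hV hs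
  have hD := hL.dat
  have hdat : DataS q η ρ r B b φ p m₀ θ H h0 := ⟨hL, hη, hV⟩
  have hh0 : 0 < h0 := lt_of_lt_of_le hD.η_pos hη
  by_cases ha : AlgC q
  · have h1 : (⟨0, h0⟩ : ℂ).im = h0 := rfl
    obtain ⟨s', hs', hr⟩ := regB_of_puis hh0 hV h1
      (hP q η ρ r B b φ p m₀ θ H h0 hdat ha _ h1)
    exact hs s' hs' hr
  · exact hT q η ρ r B b φ p m₀ θ H h0 hdat hs (hB q η ρ r B b φ p m₀ θ H h0 hdat hs ha)

/-- **level 1 of the spine** -/
theorem partCL_of_blocks (hZ : ZeroY) (hA : AMer) (hP : Pui) (hT5 : T5S) (hTB : T1B) (hBE : BEnd)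
    (hTE : T1E) (hEE : EEnd) (hEA : EAlg) : PartCL :=
  partCL_of_cases (caseA_of hZ hA hP hT5) (caseB_of hP hTB hBE) (caseE_of hTE hEE hEA)

end Crest.Agent.R102.Spine
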