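import Mathlib
import Crest.Agent.R102.C1Defs_821
import Crest.Agent.R102.T7K_416
import Crest.Agent.R102.Spine_478

/-!
Row 102, part (C): `C1.ZeroY`: the normalisation `θ' H'' - θ'' H' + θ'^3 H = -1` and the zeros of
`θ'`.
-/

set_option autoImplicit false

open Set Filter Topology Metric

noncomputable section

namespace Crest.Agent.R102.ZeroY478

open Crest.Agent.R102.T5 Crest.Agent.R102.A929 Crest.Agent.R102.B821
open Crest.Agent.R102.C0 Crest.Agent.R102.C1

variable {q : C(ℂ, ℂ)} {η : ℝ}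

/-- `(e^{-iθ} Z + e^{iθ} Z̄) / 2` -/
def Gf (q : C(ℂ, ℂ)) (z : ℂ) : ℂ :=
  (Complex.exp (-(Complex.I * Tc q z)) * Zs q 1 z + Complex.exp (Complex.I * Tc q z) *
    Zs q (-1) z) / 2

lemma vel_mul (q : C(ℂ, ℂ)) (z : ℂ) :
    Complex.exp (-(Complex.I * Tc q z)) * C0.vel q 1 z = Complex.exp (-2 * q z) ∧
    Complex.exp (Complex.I * Tc q z) * C0.vel q (-1) z = Complex.exp (-2 * q z) := by
  unfold C0.vel
  constructor
  · rw [← Complex.exp_add]; congr 1; ring
  · rw [← Complex.exp_add]; congr 1; ring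

lemma hasDerivAt_exps (hD : Datum q η) {z : ℂ} (hz : z ∈ Str η) :
    HasDerivAt (fun z => Complex.exp (-(Complex.I * Tc q z)))
      (Complex.exp (-(Complex.I * Tc q z)) * (-(Complex.I * Complex.exp (q z)))) z ∧
    HasDerivAt (fun z => Complex.exp (Complex.I * Tc q z))
      (Complex.exp (Complex.I * Tc q z) * (Complex.I * Complex.exp (q z))) z := by
  have h1 := hD.hasDerivAt_Tc hz
  exact ⟨((h1.const_mul Complex.I).neg).cexp, (h1.const_mul Complex.I).cexp⟩

lemma hasDerivAt_Hc (hD : Datum q η) {z : ℂ} (hz : z ∈ Str η) :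
    HasDerivAt (Hc q) (-(Complex.exp (q z) * Gf q z)) z := by
  obtain ⟨e1, e2⟩ := hasDerivAt_exps hD hz
  obtain ⟨v1, v2⟩ := vel_mul q z
  have z1 := hD.hasDerivAt_Zs 1 hz
  have z2 := hD.hasDerivAt_Zs (-1) hz
  have h := ((e1.mul z1).sub (e2.mul z2)).div_const (2 * Complex.I)
  refine h.congr_deriv ?_
  rw [v1, v2]
  unfold Gf
  have hI : Complex.I ≠ 0 := Complex.I_ne_zero
  have hII := Complex.I_mul_I
  field_simp
  ring_nf

lemma hasDerivAt_Gf (hD : Datum q η) {z : ℂ} (hz : z ∈ Str η) :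
    HasDerivAt (Gf q) (Complex.exp (q z) * Hc q z + Complex.exp (-2 * q z)) z := by
  obtain ⟨e1, e2⟩ := hasDerivAt_exps hD hz
  obtain ⟨v1, v2⟩ := vel_mul q z
  have z1 := hD.hasDerivAt_Zs 1 hz
  have z2 := hD.hasDerivAt_Zs (-1) hz
  have h := ((e1.mul z1).add (e2.mul z2)).div_const 2
  refine h.congr_deriv ?_
  rw [v1, v2]
  unfold Hc
  have hI : Complex.I ≠ 0 := Complex.I_ne_zero
  have hII := Complex.I_sq
  field_simp
  ring_nf
  rw [hII]
  ring

/-- the normalisation on the strip -/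
lemma rel_str (hD : Datum q η) {z : ℂ} (hz : z ∈ Str η) :
    deriv (Tc q) z * deriv (deriv (Hc q)) z - deriv (deriv (Tc q)) z * deriv (Hc q) z +
      deriv (Tc q) z ^ 3 * Hc q z = -1 := by
  have hT : ∀ x ∈ Str η, deriv (Tc q) x = Complex.exp (q x) := fun x hx =>
    (hD.hasDerivAt_Tc hx).deriv
  have hH : ∀ x ∈ Str η, deriv (Hc q) x = -(Complex.exp (q x) * Gf q x) := fun x hx =>
    (hasDerivAt_Hc hD hx).deriv
  have hyd : HasDerivAt (fun x => Complex.exp (q x)) (deriv (fun x => Complex.exp (q x)) z) z :=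
    ((hD.exp_diff).differentiableAt ((isOpen_Str η).mem_nhds hz)).hasDerivAt
  have hT2 : deriv (deriv (Tc q)) z = deriv (fun x => Complex.exp (q x)) z := by
    refine Filter.EventuallyEq.deriv_eq ?_
    filter_upwards [(isOpen_Str η).mem_nhds hz] with x hx using hT x hx
  have hH2 : deriv (deriv (Hc q)) z = -(deriv (fun x => Complex.exp (q x)) z * Gf q z +
      Complex.exp (q z) * (Complex.exp (q z) * Hc q z + Complex.exp (-2 * q z))) := by
    have h1 : deriv (Hc q) =ᶠ[𝓝 z] fun x => -(Complex.exp (q x) * Gf q x) := by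
      filter_upwards [(isOpen_Str η).mem_nhds hz] with x hx using hH x hx
    rw [h1.deriv_eq]
    exact ((hyd.mul (hasDerivAt_Gf hD hz)).neg).deriv
  rw [hT z hz, hT2, hH z hz, hH2]
  have h3 : Complex.exp (q z) * (Complex.exp (q z) * Complex.exp (-2 * q z)) = 1 := by
    rw [← Complex.exp_add, ← Complex.exp_add]
    rw [show q z + (q z + -2 * q z) = 0 by ring, Complex.exp_zero]
  linear_combination -h3

theorem zeroY : ZeroY := by
  intro q η V θ H hD hE
  have hV := hE.open'
  have h0 : (0 : ℂ) ∈ Str η := by simp [Str, hD.η_pos]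
  have hθd : DifferentiableOn ℂ (deriv θ) V := hE.θ_diff.deriv hV
  have hHd : DifferentiableOn ℂ (deriv H) V := hE.H_diff.deriv hV
  have hrel : ∀ z ∈ V, deriv θ z * deriv (deriv H) z - deriv (deriv θ) z * deriv H z +
      deriv θ z ^ 3 * H z = -1 := by
    have hd : DifferentiableOn ℂ (fun z => deriv θ z * deriv (deriv H) z -
        deriv (deriv θ) z * deriv H z + deriv θ z ^ 3 * H z) V :=
      ((hθd.mul (hHd.deriv hV)).sub ((hθd.deriv hV).mul hHd)).add ((hθd.pow 3).mul hE.H_diff)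
    have h1 := (hd.analyticOnNhd hV).eqOn_of_preconnected_of_eventuallyEq
      (g := fun _ => (-1 : ℂ)) (analyticOnNhd_const) hE.conn (hE.sub h0) ?_
    · intro z hz; exact h1 hz
    · filter_upwards [(isOpen_Str η).mem_nhds h0] with z hz
      have e1 : θ =ᶠ[𝓝 z] Tc q := by
        filter_upwards [(isOpen_Str η).mem_nhds hz] with x hx using hE.θ_eq x hx
      have e2 : H =ᶠ[𝓝 z] Hc q := by
        filter_upwards [(isOpen_Str η).mem_nhds hz] with x hx using hE.H_eq x hx
      have e3 := e1.deriv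
      have e4 := e2.deriv
      rw [e3.eq_of_nhds, e4.eq_of_nhds, e3.deriv_eq, e4.deriv_eq, e2.eq_of_nhds]
      exact rel_str hD hz
  refine ⟨hrel, fun z hz hz0 => ?_⟩
  have h1 := hrel z hz
  have h2 := T7M.rel_deriv hV hθd hE.H_diff (c := -1) (fun x hx => by
    have := hrel x hx
    linear_combination this) z hz
  rw [hz0] at h1 h2
  have h3 : deriv (deriv θ) z * deriv H z = 1 := by linear_combination -h1
  have hH0 : deriv H z ≠ 0 := by
    intro h; rw [h, mul_zero] at h3; exact zero_ne_one h3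
  have hθ0 : deriv (deriv θ) z ≠ 0 := by
    intro h; rw [h, zero_mul] at h3; exact zero_ne_one h3
  refine ⟨hθ0, ?_, hH0⟩
  have h4 : deriv (deriv (deriv θ)) z * deriv H z = 0 := by
    have : T7M.d2 (deriv θ) z = deriv (deriv (deriv θ)) z := rfl
    rw [← this]
    linear_combination -h2
  exact (mul_eq_zero.1 h4).resolve_right hH0

end Crest.Agent.R102.ZeroY478
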