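import Mathlib
import Crest.Agent.R102.SpineG_478
import Crest.Agent.R102.ZeroY_478
import Crest.Agent.R102.OneStepA_350

/-!
# Row 102, T1-E, leaf MIR (helper151)

`DataE` and `¬ Concl` give an entire mirror `OS350.Mir θ H K` with all its symmetries,
`G = K - 2 y²` entire with `y'' = G y`, `y > 0` on the real line, `K` not constant.
-/

set_option autoImplicit false

noncomputable section

open Filter Topology Set
open scoped ComplexConjugate

namespace Crest.Agent.R102.Mir151

open Crest.Agent.R102.T5 Crest.Agent.R102.G576 Crest.Agent.R102.A929 Crest.Agent.R102.B821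
open Crest.Agent.R102.C0 Crest.Agent.R102.C1 Crest.Agent.R102.Spine

variable {q : C(ℂ, ℂ)} {η : ℝ} {θ H : ℂ → ℂ}

/-- the entire mirror of Case E and its symmetries -/
structure MirE (q : C(ℂ, ℂ)) (η : ℝ) (θ H K G : ℂ → ℂ) : Prop where
  mir : OS350.Mir θ H K
  Gd : Differentiable ℂ G
  G_eq : ∀ z, G z = K z - 2 * deriv θ z ^ 2
  hG : ∀ z, deriv (deriv (deriv θ)) z = G z * deriv θ z
  θper : ∀ z, θ (z + 1) = θ z + 2 * Real.pi
  Hper : ∀ z, H (z + 1) = H z
  yper : ∀ z, deriv θ (z + 1) = deriv θ z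
  Kper : ∀ z, K (z + 1) = K z
  Gper : ∀ z, G (z + 1) = G z
  θconj : ∀ z, θ (conj z) = conj (θ z)
  Hconj : ∀ z, H (conj z) = conj (H z)
  yconj : ∀ z, deriv θ (conj z) = conj (deriv θ z)
  Kconj : ∀ z, K (conj z) = conj (K z)
  Gconj : ∀ z, G (conj z) = conj (G z)
  y_str : ∀ z ∈ Str η, deriv θ z = Complex.exp (q z)
  y_real : ∀ x : ℝ, deriv θ x = ((Real.exp (qr q x) : ℝ) : ℂ)
  y_pos : ∀ x : ℝ, 0 < (deriv θ x).re ∧ (deriv θ x).im = 0
  simple : ∀ z, deriv θ z = 0 → deriv (deriv θ) z ≠ 0 ∧ deriv H z ≠ 0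
  K_nc : ¬ ∃ c : ℂ, ∀ z, K z = c

lemma ext_strip (hE : VExt q η univ θ H) {h : ℝ} (hη : η ≤ h) : VExt q η (Str h) θ H :=
  ⟨isOpen_Str h, (str_conv h).isPreconnected, str_mono hη, hE.θ_diff.mono (subset_univ _),
    hE.H_diff.mono (subset_univ _), hE.θ_eq, hE.H_eq⟩

lemma mem_big (η : ℝ) (z : ℂ) : z ∈ Str (max η (|z.im| + 1)) := by
  have : |z.im| < max η (|z.im| + 1) := lt_of_lt_of_le (lt_add_one _) (le_max_right _ _)
  exact this

lemma per (hD : Datum q η) (hE : VExt q η univ θ H) (z : ℂ) :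
    θ (z + 1) = θ z + 2 * Real.pi ∧ H (z + 1) = H z :=
  ext_per hD (le_max_left _ _) (ext_strip hE (le_max_left _ _)) (mem_big η z)

lemma cj (hD : Datum q η) (hE : VExt q η univ θ H) (z : ℂ) :
    θ (conj z) = conj (θ z) ∧ H (conj z) = conj (H z) :=
  ext_conj hD (le_max_left _ _) (ext_strip hE (le_max_left _ _)) (mem_big η z)

/-- derivative of a real function is real -/
lemma deriv_conj_of {f : ℂ → ℂ} (hf : Differentiable ℂ f) (h : ∀ z, f (conj z) = conj (f z))
    (z : ℂ) : deriv f (conj z) = conj (deriv f z) := by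
  have h1 : HasDerivAt f (deriv f z) z := (hf z).hasDerivAt
  have h3 := h1.conj_conj
  have h4 : (fun w => conj (f (conj w))) = f := by
    funext w
    rw [h, starRingEnd_self_apply]
  have h5 : HasDerivAt f (conj (deriv f z)) (conj z) := by
    have h6 : (starRingEnd ℂ ∘ f ∘ starRingEnd ℂ) = f := by
      funext w
      simp only [Function.comp_apply]
      rw [h, starRingEnd_self_apply]
    rw [h6] at h3
    exact h3
  exact h5.deriv

/-- derivative of a function with `f (z + 1) = f z + c` -/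
lemma deriv_per_of {f : ℂ → ℂ} {c : ℂ} (h : ∀ z, f (z + 1) = f z + c) (z : ℂ) :
    deriv f (z + 1) = deriv f z := by
  have h1 : (fun z => f (z + 1)) = fun z => f z + c := funext h
  have h2 : deriv (fun z => f (z + 1)) z = deriv (fun z => f z + c) z := by rw [h1]
  rwa [deriv_comp_add_const, deriv_add_const] at h2

/-- `G = y''/y` -/
def Gq (θ H : ℂ → ℂ) (z : ℂ) : ℂ := by
  classical
  exact if deriv θ z = 0 then (deriv (deriv (deriv H)) z +
    3 * deriv θ z * deriv (deriv θ) z * H z + deriv θ z ^ 2 * deriv H z) / deriv H z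
  else deriv (deriv (deriv θ)) z / deriv θ z

/-- **MIR** -/
theorem mirE (hD : Datum q η) (hE : VExt q η univ θ H) (hc : ¬ Concl q) :
    ∃ K G : ℂ → ℂ, MirE q η θ H K G := by
  have hθ : Differentiable ℂ θ := differentiableOn_univ.1 hE.θ_diff
  have hH : Differentiable ℂ H := differentiableOn_univ.1 hE.H_diff
  have hy := OS350.diff_deriv hθ
  have hy1 := OS350.diff_deriv hy
  have hy2 := OS350.diff_deriv hy1
  have hH1 := OS350.diff_deriv hH
  have hH2 := OS350.diff_deriv hH1
  have hH3 := OS350.diff_deriv hH2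
  obtain ⟨hrel, hzero⟩ := ZeroY478.zeroY q η univ θ H hD hE
  have hrel' : ∀ z, deriv θ z * (deriv (deriv (deriv H)) z +
      3 * deriv θ z * deriv (deriv θ) z * H z + deriv θ z ^ 2 * deriv H z) =
      deriv (deriv (deriv θ)) z * deriv H z := by
    intro z
    have h := T7M.rel_deriv isOpen_univ hy.differentiableOn hE.H_diff (c := -1) (fun x hx => by
      have := hrel x hx
      linear_combination this) z (mem_univ z)
    have e1 : T7M.d2 (deriv θ) z = deriv (deriv (deriv θ)) z := rfl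
    have e2 : deriv (T7M.d2 H) z = deriv (deriv (deriv H)) z := rfl
    rw [e1, e2] at h
    linear_combination h
  set G : ℂ → ℂ := Gq θ H with hGdef
  have hG0 : ∀ z, deriv θ z ≠ 0 → G z = deriv (deriv (deriv θ)) z / deriv θ z := by
    intro z hz
    simp only [hGdef, Gq, if_neg hz]
  have hG1 : ∀ z, deriv H z ≠ 0 → G z = (deriv (deriv (deriv H)) z +
      3 * deriv θ z * deriv (deriv θ) z * H z + deriv θ z ^ 2 * deriv H z) / deriv H z := by
    intro z hz
    by_cases h : deriv θ z = 0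
    · simp only [hGdef, Gq, if_pos h]
    · rw [hG0 z h, div_eq_div_iff h hz]
      linear_combination -hrel' z
  have hGd : Differentiable ℂ G := by
    intro z
    by_cases h : deriv θ z = 0
    · have h1 := (hzero z (mem_univ z) h).2.2
      have h2 : ∀ᶠ x in 𝓝 z, deriv H x ≠ 0 := hH1.continuous.continuousAt.eventually_ne h1
      have h3 : G =ᶠ[𝓝 z] fun z => (deriv (deriv (deriv H)) z +
          3 * deriv θ z * deriv (deriv θ) z * H z + deriv θ z ^ 2 * deriv H z) / deriv H z := by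
        filter_upwards [h2] with x hx using hG1 x hx
      refine DifferentiableAt.congr_of_eventuallyEq ?_ h3
      refine DifferentiableAt.div ?_ (hH1 z) h1
      exact ((hH3 z).add ((((hy z).const_mul 3).mul (hy1 z)).mul (hH z))).add
        (((hy z).pow 2).mul (hH1 z))
    · have h2 : ∀ᶠ x in 𝓝 z, deriv θ x ≠ 0 := hy.continuous.continuousAt.eventually_ne h
      have h3 : G =ᶠ[𝓝 z] fun z => deriv (deriv (deriv θ)) z / deriv θ z := by
        filter_upwards [h2] with x hx using hG0 x hx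
      exact DifferentiableAt.congr_of_eventuallyEq ((hy2 z).div (hy z) h) h3
  have hGy : ∀ z, deriv (deriv (deriv θ)) z = G z * deriv θ z := by
    intro z
    by_cases h : deriv θ z = 0
    · rw [h, mul_zero]
      exact (hzero z (mem_univ z) h).2.1
    · rw [hG0 z h, div_mul_cancel₀ _ h]
  set K : ℂ → ℂ := fun z => G z + 2 * deriv θ z ^ 2 with hKdef
  have hKd : Differentiable ℂ K := hGd.add ((hy.pow 2).const_mul 2)
  have hθp : ∀ z, θ (z + 1) = θ z + 2 * Real.pi := fun z => (per hD hE z).1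
  have hHp : ∀ z, H (z + 1) = H z := fun z => (per hD hE z).2
  have hyp : ∀ z, deriv θ (z + 1) = deriv θ z := fun z => deriv_per_of hθp z
  have hy1p : ∀ z, deriv (deriv θ) (z + 1) = deriv (deriv θ) z := fun z =>
    deriv_per_of (c := 0) (fun z => by rw [hyp z, add_zero]) z
  have hy2p : ∀ z, deriv (deriv (deriv θ)) (z + 1) = deriv (deriv (deriv θ)) z := fun z =>
    deriv_per_of (c := 0) (fun z => by rw [hy1p z, add_zero]) z
  have hH1p : ∀ z, deriv H (z + 1) = deriv H z := fun z =>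
    deriv_per_of (c := 0) (fun z => by rw [hHp z, add_zero]) z
  have hH2p : ∀ z, deriv (deriv H) (z + 1) = deriv (deriv H) z := fun z =>
    deriv_per_of (c := 0) (fun z => by rw [hH1p z, add_zero]) z
  have hH3p : ∀ z, deriv (deriv (deriv H)) (z + 1) = deriv (deriv (deriv H)) z := fun z =>
    deriv_per_of (c := 0) (fun z => by rw [hH2p z, add_zero]) z
  have hGp : ∀ z, G (z + 1) = G z := by
    intro z
    simp only [hGdef, Gq, hyp, hy1p, hy2p, hH1p, hH3p, hHp]
  have hθc : ∀ z, θ (conj z) = conj (θ z) := fun z => (cj hD hE z).1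
  have hHc : ∀ z, H (conj z) = conj (H z) := fun z => (cj hD hE z).2
  have hyc := deriv_conj_of hθ hθc
  have hy1c := deriv_conj_of hy hyc
  have hy2c := deriv_conj_of hy1 hy1c
  have hH1c := deriv_conj_of hH hHc
  have hH2c := deriv_conj_of hH1 hH1c
  have hH3c := deriv_conj_of hH2 hH2c
  have hGc : ∀ z, G (conj z) = conj (G z) := by
    intro z
    by_cases h : deriv θ z = 0
    · have h1 := (hzero z (mem_univ z) h).2.2
      have h2 : deriv H (conj z) ≠ 0 := by
        rw [hH1c]
        exact (map_ne_zero _).2 h1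
      rw [hG1 z h1, hG1 _ h2, hyc, hy1c, hH1c, hH3c, hHc]
      simp only [map_div₀, map_add, map_mul, map_pow, map_ofNat]
    · have h2 : deriv θ (conj z) ≠ 0 := by
        rw [hyc]
        exact (map_ne_zero _).2 h
      rw [hG0 z h, hG0 _ h2, hyc, hy2c, map_div₀]
  have hystr : ∀ z ∈ Str η, deriv θ z = Complex.exp (q z) := by
    intro z hz
    have h1 : θ =ᶠ[𝓝 z] Tc q := by
      filter_upwards [(isOpen_Str η).mem_nhds hz] with x hx using hE.θ_eq x hx
    rw [h1.deriv_eq]
    exact (hD.hasDerivAt_Tc hz).deriv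
  have hyr : ∀ x : ℝ, deriv θ x = ((Real.exp (qr q x) : ℝ) : ℂ) := by
    intro x
    rw [hystr x (real_mem_Str hD.η_pos x), hD.q_real, ← Complex.ofReal_exp]
  have hKc : ∀ z, K (conj z) = conj (K z) := by
    intro z
    simp only [hKdef, hGc, hyc, map_add, map_mul, map_pow, map_ofNat]
  refine ⟨K, G, ⟨⟨hθ, hH, hKd, fun z => hrel z (mem_univ z), fun z => ?_⟩, hGd, fun z => ?_, hGy,
    hθp, hHp, hyp, fun z => ?_, hGp, hθc, hHc, hyc, hKc, hGc, hystr, hyr, fun x => ?_,
    fun z hz => ⟨(hzero z (mem_univ z) hz).1, (hzero z (mem_univ z) hz).2.2⟩, ?_⟩⟩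
  · rw [hGy z]
    simp only [hKdef]
    ring
  · simp only [hKdef]
    ring
  · simp only [hKdef, hGp, hyp]
  · rw [hyr x, Complex.ofReal_re, Complex.ofReal_im]
    exact ⟨Real.exp_pos _, rfl⟩
  · rintro ⟨c, hcc⟩
    apply hc
    have h1 : conj c = c := by
      have h2 := hKc 0
      rw [hcc, hcc] at h2
      exact h2.symm
    have h3 : ((c.re : ℝ) : ℂ) = c := Complex.conj_eq_iff_re.1 h1
    refine concl_of hD (subset_univ _) hE.θ_eq (k := c.re) ?_
    intro z _
    have e1 : T7M.d2 (deriv θ) z = deriv (deriv (deriv θ)) z := rfl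
    rw [e1, hGy z, h3, ← hcc z]
    simp only [hKdef]
    ring

/-- **MIR**, for the data of Case E -/
theorem mir {ρ r B : ℝ} {b φ p : ℂ × ℂ → ℂ} {m₀ : ℂ → ℂ}
    (h : DataE q η ρ r B b φ p m₀ θ H) (hc : ¬ Concl q) : ∃ K G : ℂ → ℂ, MirE q η θ H K G :=
  mirE h.fam.dat h.ext hc

end Crest.Agent.R102.Mir151
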