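import Mathlib
import Crest.Agent.R102.SheetD_982
import Crest.Agent.R102.APJ_628

/-!
Row 102, part (C), T1-E: **the main sheets in Case E** (helper628, after helper982).

The sheet of lines `SL` is helper982's; the sheet of labels is `SBE` (labels with values in `ℂ`).
A label regular along a vertical segment is bounded there, so `SBE` is the union of helper982's `SB`
over all heights, and all his relations transfer.
-/

set_option autoImplicit false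

open Set Filter Topology Metric
open scoped ComplexConjugate

noncomputable section

namespace Crest.Agent.R102.ShE628

open Crest.Agent.R102.T5 Crest.Agent.R102.G576 Crest.Agent.R102.A929 Crest.Agent.R102.B821
open Crest.Agent.R102.C0 Crest.Agent.R102.C1 Crest.Agent.R102.F300 Crest.Agent.R102.Rule982
open Crest.Agent.R102.VH982 (pt pt_eta pt_snd pt_re pt_im tube_mem eq_along continuous_pt_y)
open Crest.Agent.R102.K669 (Slab Tube IsReg isReg_of_slab isOpen_isReg ext_eq LV lv_isReg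
  ext_differentiableAt ext_mem ext_slab isReg_of_local isOpen_slab mem_tube_self isReg_of_tube
  tube_subset)
open Crest.Agent.R102.Sh982 Crest.Agent.R102.APJ628 Crest.Agent.R102.StepT628

variable {q : C(ℂ, ℂ)} {η ρ r Bc : ℝ} {b φ p : ℂ × ℂ → ℂ} {m₀ : ℂ → ℂ} {h : ℝ} {θ H : ℂ → ℂ}

/-- main sheet of the labels in Case E -/
def SBE (b : ℂ × ℂ → ℂ) (ρ r : ℝ) : Set (ℂ × ℂ) :=
  Sht b univ (-(ρ / 2)) (ρ / 2) (ball 0 r)

/-- the extended label -/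
def beE (b : ℂ × ℂ → ℂ) (ρ r : ℝ) : ℂ × ℂ → ℂ :=
  K669.ext b univ (-(ρ / 2)) (ρ / 2) (ball 0 r)

/-- Case E: helper982's data at every height -/
lemma datE (hD : Spine.DataE q η ρ r Bc b φ p m₀ θ H) (hh : η ≤ h) :
    Dat q η ρ r Bc b φ p m₀ h θ H :=
  ⟨hD.fam, hh, hD.ext.θ_diff.mono (subset_univ _), hD.ext.H_diff.mono (subset_univ _),
    hD.ext.θ_eq, hD.ext.H_eq⟩

lemma isOpen_SBE : IsOpen (SBE b ρ r) := isOpen_Sht isOpen_ball

lemma SB_sub : SB b h ρ r ⊆ SBE b ρ r := by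
  rintro x ⟨h1, h2, ε, hε, hW, G, hG, -, hGF⟩
  exact ⟨h1, h2, ε, hε, hW, G, hG, fun _ _ => mem_univ _, hGF⟩

section Sheet

variable (hD : Spine.DataE q η ρ r Bc b φ p m₀ θ H)
include hD

lemma ρp : 0 < ρ := hD.fam.ρ_pos

lemma h10E : -(ρ / 2) < ρ / 2 := by
  have := ρp hD
  linarith

lemma be_eq {x : ℂ × ℂ} (hx : x ∈ SB b h ρ r) : be b h ρ r x = beE b ρ r x := by
  obtain ⟨h1, h2, ε, hε, hW, G, hG, hGC, hGF⟩ := hx
  unfold be beE
  rw [ext_eq (h10E hD) hW hG hGC hGF (mem_tube_self h2 hε),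
    ext_eq (h10E hD) hW hG (fun _ _ => mem_univ _) hGF (mem_tube_self h2 hε)]

lemma be_ev {x : ℂ × ℂ} (hx : x ∈ SB b h ρ r) : be b h ρ r =ᶠ[𝓝 x] beE b ρ r := by
  filter_upwards [isOpen_SB.mem_nhds hx] with z hz
  exact be_eq hD hz

lemma bE_diff : DifferentiableOn ℂ b (Slab (-(ρ / 2)) (ρ / 2) (ball 0 r)) :=
  (datE hD le_rfl).b_diff

omit hD in
lemma b_mapsE : ∀ x ∈ Slab (-(ρ / 2)) (ρ / 2) (ball (0 : ℂ) r), b x ∈ (univ : Set ℂ) :=
  fun _ _ => mem_univ _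

/-- **a regular label is bounded**: `SBE` is the union of the `SB` -/
theorem SBE_fin {x : ℂ × ℂ} (hx : x ∈ SBE b ρ r) :
    ∃ h0 : ℝ, η ≤ h0 ∧ ∀ h ≥ h0, x ∈ SB b h ρ r := by
  have hρ := ρp hD
  obtain ⟨h1, h2, ε, hε, hW, G, hG, -, hGF⟩ := hx
  set K : Set (ℂ × ℂ) := {z | |z.1.re - x.1.re| ≤ ε / 2 ∧ 0 ≤ z.1.im ∧
    z.1.im ≤ x.1.im + ε / 2 ∧ ‖z.2 - x.2‖ ≤ ε / 2} with hK
  have c1 : Continuous fun z : ℂ × ℂ => |z.1.re - x.1.re| := by fun_prop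
  have c2 : Continuous fun z : ℂ × ℂ => z.1.im := by fun_prop
  have c3 : Continuous fun z : ℂ × ℂ => ‖z.2 - x.2‖ := by fun_prop
  have hKc : IsClosed K := (isClosed_le c1 continuous_const).inter
    ((isClosed_le continuous_const c2).inter
      ((isClosed_le c2 continuous_const).inter (isClosed_le c3 continuous_const)))
  have hKb : Bornology.IsBounded K := by
    refine (Metric.isBounded_closedBall (x := (0 : ℂ × ℂ))
      (r := |x.1.re| + |x.1.im| + ‖x.2‖ + ε)).subset ?_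
    rintro z ⟨a1, a2, a3, a4⟩
    rw [mem_closedBall_zero_iff, Prod.norm_def, max_le_iff]
    constructor
    · have b1 : |z.1.re| ≤ |x.1.re| + ε / 2 := by
        have := abs_sub_abs_le_abs_sub z.1.re x.1.re
        linarith
      have b2 : |z.1.im| ≤ |x.1.im| + ε / 2 := by
        rw [abs_of_nonneg a2]
        have := le_abs_self x.1.im
        linarith
      have b3 := Complex.norm_le_abs_re_add_abs_im z.1
      have := norm_nonneg x.2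
      linarith
    · have b1 := norm_sub_norm_le z.2 x.2
      have b2 := abs_nonneg x.1.re
      have b3 := abs_nonneg x.1.im
      linarith
  have hKcomp : IsCompact K := Metric.isCompact_of_isClosed_isBounded hKc hKb
  have hKT : K ⊆ Tube (-(ρ / 2)) x ε := by
    rintro z ⟨a1, a2, a3, a4⟩
    exact ⟨by linarith, by linarith, by linarith, by linarith⟩
  obtain ⟨M, hM⟩ := hKcomp.exists_bound_of_continuousOn (hG.continuousOn.mono hKT)
  refine ⟨max (M + 1) η, le_max_right _ _, fun h hh => ?_⟩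
  have hM1 : M + 1 ≤ h := (le_max_left _ _).trans hh
  have hηh : η ≤ h := (le_max_right _ _).trans hh
  have D := datE hD hηh
  have hsub : Tube (-(ρ / 2)) x (ε / 2) ⊆ Tube (-(ρ / 2)) x ε := by
    rintro z ⟨a1, a2, a3, a4⟩
    exact ⟨by linarith, a2, by linarith, by linarith⟩
  refine ⟨h1, h2, ε / 2, by positivity, (ball_subset_ball (by linarith)).trans hW, G,
    hG.mono hsub, ?_, fun z hz => hGF z (hsub hz)⟩
  intro z hz
  rcases lt_or_ge z.1.im 0 with h3 | h3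
  · rw [hGF z (hsub hz) (by linarith)]
    refine D.b_maps z ⟨hz.2.1, by linarith, hW ?_⟩
    rw [mem_ball, dist_eq_norm]
    linarith [hz.2.2.2]
  · have h4 := hM z ⟨hz.1.le, h3, hz.2.2.1.le, hz.2.2.2.le⟩
    change |(G z).im| < h
    linarith [Complex.abs_im_le_norm (G z)]

lemma beE_an : AnalyticOnNhd ℂ (beE b ρ r) (SBE b ρ r) := ext_an (h10E hD) isOpen_ball

lemma φe_anE : AnalyticOnNhd ℂ (φe φ p ρ r) (SL φ p ρ r) := (datE hD le_rfl).φe_an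

lemma pe_anE : AnalyticOnNhd ℂ (pe φ p ρ r) (SL φ p ρ r) := (datE hD le_rfl).pe_an

lemma slab_SBE : Slab (-(ρ / 2)) (ρ / 2) (ball 0 r) ⊆ SBE b ρ r :=
  slab_sub isOpen_ball (bE_diff hD) b_mapsE

lemma beE_slab {x : ℂ × ℂ} (hx : x ∈ Slab (-(ρ / 2)) (ρ / 2) (ball (0 : ℂ) r)) :
    beE b ρ r x = b x := ext_slab' (h10E hD) isOpen_ball (bE_diff hD) b_mapsE hx

/-- vertical segments in the sheet of labels -/
lemma seg_SBE {x : ℂ × ℂ} (hx : x ∈ SBE b ρ r) :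
    ∀ y ∈ uIcc 0 x.1.im, pt x.1.re y x.2 ∈ SBE b ρ r := by
  obtain ⟨h0, -, h2⟩ := SBE_fin hD hx
  intro y hy
  exact SB_sub ((datE hD (le_max_right h0 η)).seg_SB (h2 _ (le_max_left _ _)) y hy)

/-- points below a point of the sheet of labels -/
lemma SBE_low {x z : ℂ × ℂ} (hx : x ∈ SBE b ρ r) (h1 : z.1.re = x.1.re) (h2 : z.2 = x.2)
    (h3 : -(ρ / 2) < z.1.im) (h4 : z.1.im ≤ x.1.im ∨ z.1.im < ρ / 2) : z ∈ SBE b ρ r :=
  Sht_low isOpen_ball (bE_diff hD) b_mapsE hx h1 h2 h3 h4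

/-- **incidence** -/
theorem inc_allE {s : ℂ} (hs : s = 1 ∨ s = -1) {x : ℂ × ℂ} (hx : x ∈ SBE b ρ r)
    (hx' : sh s x ∈ SL φ p ρ r) :
    Inc θ H (φe φ p ρ r (sh s x)) (pe φ p ρ r (sh s x)) (beE b ρ r x) := by
  obtain ⟨h0, h1, h2⟩ := SBE_fin hD hx
  rw [← be_eq hD (h2 h0 le_rfl)]
  exact (datE hD h1).inc_all hs (h2 h0 le_rfl) hx'

/-- **reflection** -/
theorem refl_allE {s : ℂ} (hs : s = 1 ∨ s = -1) {x : ℂ × ℂ} (hx : x ∈ SBE b ρ r)
    (hx' : sh s x ∈ SL φ p ρ r) (hx'' : sh (-s) x ∈ SL φ p ρ r) :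
    φe φ p ρ r (sh (-s) x) + φe φ p ρ r (sh s x) = 2 * θ (beE b ρ r x) := by
  obtain ⟨h0, h1, h2⟩ := SBE_fin hD hx
  rw [← be_eq hD (h2 h0 le_rfl)]
  exact (datE hD h1).refl_all hs (h2 h0 le_rfl) hx' hx''

theorem sum_allE {s : ℂ} (hs : s = 1 ∨ s = -1) {x : ℂ × ℂ} (hx : x ∈ SBE b ρ r)
    (hx' : sh s x ∈ SL φ p ρ r) (hx'' : sh (-s) x ∈ SL φ p ρ r) :
    pe φ p ρ r (sh (-s) x) + pe φ p ρ r (sh s x) = 2 * H (beE b ρ r x) *
      Complex.cos (φe φ p ρ r (sh (-s) x) - θ (beE b ρ r x)) := by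
  obtain ⟨h0, h1, h2⟩ := SBE_fin hD hx
  rw [← be_eq hD (h2 h0 le_rfl)]
  exact (datE hD h1).sum_all hs (h2 h0 le_rfl) hx' hx''

/-- the area form does not vanish for `w ≠ 0` -/
theorem area_neE {x : ℂ × ℂ} (hx : x ∈ SL φ p ρ r) (hw : x.2 ≠ 0) :
    q1 (φe φ p ρ r) x * q2 (pe φ p ρ r) x - q2 (φe φ p ρ r) x * q1 (pe φ p ρ r) x ≠ 0 :=
  (datE hD le_rfl).area_ne hx hw

/-- the label is not constant on any slice -/
theorem beE_nc {x : ℂ × ℂ} (hx : x ∈ SBE b ρ r) :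
    ∃ᶠ t in 𝓝 x.1, deriv (fun t => beE b ρ r (t, x.2)) t ≠ 0 := by
  obtain ⟨h0, h1, h2⟩ := SBE_fin hD hx
  have hx0 := h2 h0 le_rfl
  have h3 := (datE hD h1).be_nc hx0
  have hc : Continuous fun t : ℂ => ((t, x.2) : ℂ × ℂ) := by fun_prop
  have h4 : ∀ᶠ t in 𝓝 x.1, ((t, x.2) : ℂ × ℂ) ∈ SB b h0 ρ r :=
    (hc.tendsto x.1).eventually (isOpen_SB.mem_nhds hx0)
  refine (h3.and_eventually h4.eventually_nhds).mono ?_
  rintro t ⟨ht1, ht2⟩
  have h5 : (fun t => be b h0 ρ r (t, x.2)) =ᶠ[𝓝 t] fun t => beE b ρ r (t, x.2) := by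
    filter_upwards [ht2] with z hz
    exact be_eq hD hz
  rwa [h5.deriv_eq] at ht1

/-- **RULE, lines** -/
theorem rule_lineE {s : ℂ} (hs : s = 1 ∨ s = -1) {x : ℂ × ℂ} (hx : x ∈ SBE b ρ r)
    (hx' : sh (-s) x ∈ SL φ p ρ r) (h1 : -(3 * ρ / 8) < x.1.im) : sh s x ∈ SL φ p ρ r := by
  obtain ⟨h0, h3, h2⟩ := SBE_fin hD hx
  exact (datE hD h3).rule_line hs (h2 h0 le_rfl) hx' h1

/-- periodicity and parity of the labels -/
theorem per_SBE {σ : ℝ} (hσ : σ = 1 ∨ σ = -1) {κ : ℂ} (hκ : κ = 1 ∨ κ = -1) {x : ℂ × ℂ}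
    (hx : x ∈ SBE b ρ r) : ((x.1 + σ, κ * x.2) : ℂ × ℂ) ∈ SBE b ρ r ∧
      beE b ρ r (x.1 + σ, κ * x.2) = beE b ρ r x + σ := by
  obtain ⟨h0, h3, h2⟩ := SBE_fin hD hx
  obtain ⟨h4, h5⟩ := (datE hD h3).per_SB hσ hκ (h2 h0 le_rfl)
  rw [← be_eq hD (h2 h0 le_rfl), ← be_eq hD h4]
  exact ⟨SB_sub h4, h5⟩

/-- parity of the labels -/
theorem evenE {t w : ℂ} (hx : (t, w) ∈ SBE b ρ r) : (t, -w) ∈ SBE b ρ r ∧
    beE b ρ r (t, -w) = beE b ρ r (t, w) := by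
  obtain ⟨h1, h2⟩ := per_SBE hD (σ := 1) (Or.inl rfl) (κ := -1) (Or.inr rfl) hx
  obtain ⟨h3, h4⟩ := per_SBE hD (σ := -1) (Or.inr rfl) (κ := 1) (Or.inl rfl) h1
  have e1 : ((t + (1 : ℝ) + (-1 : ℝ), 1 * (-1 * w)) : ℂ × ℂ) = (t, -w) := by
    refine Prod.ext ?_ ?_
    · push_cast; ring
    · simp
  simp only at h3 h4 h2
  rw [e1] at h3 h4
  refine ⟨h3, ?_⟩
  rw [h4, h2]
  push_cast
  ring

/-- the label at `w = 0` -/
theorem beE_zero {t : ℂ} (hx : (t, (0 : ℂ)) ∈ SBE b ρ r) : beE b ρ r (t, 0) = t := by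
  have hρ := ρp hD
  have hr : 0 < r := hD.fam.r_pos
  have D := datE hD le_rfl
  have hc : Continuous fun z : ℂ × ℂ => ((z.1, 0) : ℂ × ℂ) := by fun_prop
  have h1 := D.perm (x := (t, (0 : ℂ))) (by simpa using hr)
    (Ω := (fun z : ℂ × ℂ => ((z.1, 0) : ℂ × ℂ)) ⁻¹' SBE b ρ r) (isOpen_SBE.preimage hc)
    (f := fun z => beE b ρ r (z.1, 0)) (g := fun z => z.1) ?_ (fun z _ => analyticAt_fst) ?_ ?_
  · exact h1.self_of_nhds
  · intro z hz
    have h2 : AnalyticAt ℂ (fun z : ℂ × ℂ => ((z.1, 0) : ℂ × ℂ)) z :=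
      analyticAt_fst.prod analyticAt_const
    exact AnalyticAt.comp (g := beE b ρ r) (f := fun z : ℂ × ℂ => ((z.1, 0) : ℂ × ℂ))
      (beE_an hD _ hz) h2
  · intro y hy
    have := seg_SBE hD hx y hy
    have e1 : ((fun z : ℂ × ℂ => ((z.1, 0) : ℂ × ℂ)) (pt (t, (0 : ℂ)).1.re y (t, (0 : ℂ)).2)) =
        pt (t, (0 : ℂ)).1.re y (t, (0 : ℂ)).2 := rfl
    change (fun z : ℂ × ℂ => ((z.1, 0) : ℂ × ℂ)) (pt (t, (0 : ℂ)).1.re y (t, (0 : ℂ)).2) ∈ SBE b ρ r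
    rw [e1]
    exact this
  · intro z _ hz2
    have hs : ((z.1, 0) : ℂ × ℂ) ∈ Slab (-(ρ / 2)) (ρ / 2) (ball (0 : ℂ) r) := by
      obtain ⟨h3, h4⟩ := abs_lt.1 hz2
      exact ⟨by simp only; linarith, by simp only; linarith, by simpa using hr⟩
    rw [beE_slab hD hs]
    have h5 := hD.fam.b_near _ (slab_PD hρ hs)
    simp only [norm_zero, ne_eq, OfNat.ofNat_ne_zero, not_false_eq_true, zero_pow,
      mul_zero] at h5
    exact sub_eq_zero.1 (norm_le_zero_iff.1 h5)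

end Sheet

end Crest.Agent.R102.ShE628
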