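import Mathlib
import Crest.Agent.R102.BoxM_628
import Crest.Agent.R102.APJS_628
import Crest.Agent.R102.AP3V_599
import Crest.Agent.R102.StepLV_599

/-!
Row 102, block GROWTH, **(AP) for the main sheet, labels in `Str h0`** (helper628): the Case B
version of `BoxM_628`.
-/

set_option autoImplicit false

open Set Filter Topology Metric
open scoped ComplexConjugate

noncomputable section

namespace Crest.Agent.R102.ShS628

open Crest.Agent.R102.T5 Crest.Agent.R102.G576 Crest.Agent.R102.A929 Crest.Agent.R102.B821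
open Crest.Agent.R102.C0 Crest.Agent.R102.C1 Crest.Agent.R102.Rule982
open Crest.Agent.R102.VH982 (pt pt_eta pt_snd pt_re pt_im tube_mem eq_along continuous_pt_y)
open Crest.Agent.R102.K669 (Slab Tube IsReg)
open Crest.Agent.R102.Sh982 Crest.Agent.R102.APJ628 Crest.Agent.R102.StepT628
open Crest.Agent.R102.StepE599 (st ph)
open Crest.Agent.R102.StepV599 (line_unique st_of_refl)
open Crest.Agent.R102.Growth (EntOn GoodOn MirS)
open Crest.Agent.R102.Pick628 (K0)
open Crest.Agent.R102.ShE628 (incS_of)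

variable {q : C(ℂ, ℂ)} {η ρ r Bc h0 : ℝ} {b φ p : ℂ × ℂ → ℂ} {m₀ : ℂ → ℂ} {θ H K G : ℂ → ℂ}

/-- `(θ, H)` is a labelled curve in the sense of `StepT_628` -/
lemma lab_ofS (hD : Spine.DataS q η ρ r Bc b φ p m₀ θ H h0) (hM : MirS q η h0 θ H K G) :
    Lab θ H (Str h0) := by
  refine ⟨isOpen_Str h0, fun z => ?_, hD.ext.θ_diff, hD.ext.H_diff, hM.θper, hM.Hper,
    hM.ent.relH⟩
  show |(z + 1).im| < h0 ↔ |z.im| < h0
  simp

/-- the labels are 1-Lipschitz near in `w` -/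
lemma b_tendS (F : LineFam q η ρ r Bc b φ p m₀) {t : ℂ} (ht : |t.im| < ρ) (c : ℂ) :
    Tendsto (fun w : ℂ => b (t + c * w, w)) (𝓝 0) (𝓝 t) := by
  have hO : IsOpen (PD ρ r) := StepE599.isOpen_PDm ρ r
  have hr := F.r_pos
  have hm : ((t, 0) : ℂ × ℂ) ∈ PD ρ r := ⟨ht, by simpa using hr⟩
  have h1 : ContinuousAt b (t, 0) :=
    (F.b_diff.differentiableAt (hO.mem_nhds hm)).continuousAt
  have h2 : b (t, 0) = t := by
    have h5 := F.b_near _ hm
    simp only [norm_zero, ne_eq, OfNat.ofNat_ne_zero, not_false_eq_true, zero_pow,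
      mul_zero] at h5
    exact sub_eq_zero.1 (norm_le_zero_iff.1 h5)
  have h3 : Tendsto (fun w : ℂ => ((t + c * w, w) : ℂ × ℂ)) (𝓝 0) (𝓝 (t, 0)) := by
    have : Continuous fun w : ℂ => ((t + c * w, w) : ℂ × ℂ) := by fun_prop
    simpa using this.tendsto 0
  have h4 := h1.tendsto.comp h3
  rw [h2] at h4
  exact h4

/-- **the law of the step near the real axis** -/
theorem lawS (hD : Spine.DataS q η ρ r Bc b φ p m₀ θ H h0) (hE : EntOn θ H K (Str h0)) {t : ℂ}
    (ht : |t.im| < ρ) : ∀ᶠ w in 𝓝[≠] (0 : ℂ),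
      b (t + w, w) = b (t, w) + st θ H (b (t, w)) (b (t, w) - b (t - w, w)) := by
  have D := dat_of hD
  have hr := hD.fam.r_pos
  have htS : t ∈ Str h0 := by
    show |t.im| < h0
    have := hD.fam.ρ_pos
    have := hD.fam.ρ_lt
    have := hD.le
    linarith
  obtain ⟨κ, g⟩ := hE.exists_good htS
  have hκ := g.pos
  have c0 := b_tendS hD.fam ht (-1)
  have c1 := b_tendS hD.fam ht 0
  have c2 := b_tendS hD.fam ht 1
  have e0 : ∀ᶠ w in 𝓝 (0 : ℂ), ‖b (t + -1 * w, w) - t‖ < κ / 8 := by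
    have := c0.eventually (ball_mem_nhds t (show 0 < κ / 8 by positivity))
    filter_upwards [this] with w hw
    rwa [dist_eq_norm] at hw
  have e1 : ∀ᶠ w in 𝓝 (0 : ℂ), ‖b (t + 0 * w, w) - t‖ < κ / 8 := by
    have := c1.eventually (ball_mem_nhds t (show 0 < κ / 8 by positivity))
    filter_upwards [this] with w hw
    rwa [dist_eq_norm] at hw
  have e2 : ∀ᶠ w in 𝓝 (0 : ℂ), ‖b (t + 1 * w, w) - t‖ < κ / 8 := by
    have := c2.eventually (ball_mem_nhds t (show 0 < κ / 8 by positivity))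
    filter_upwards [this] with w hw
    rwa [dist_eq_norm] at hw
  have e3 : ∀ᶠ w in 𝓝 (0 : ℂ), ‖w‖ < min r (ρ - |t.im|) := by
    have h3 : Tendsto (fun w : ℂ => ‖w‖) (𝓝 0) (𝓝 ‖(0 : ℂ)‖) := continuous_norm.tendsto 0
    rw [norm_zero] at h3
    exact h3.eventually (Iio_mem_nhds (lt_min hr (by linarith)))
  have e4 : ∀ᶠ w in 𝓝 (0 : ℂ), 4 * |Bc| * ‖w‖ < 1 := by
    have h3 : Tendsto (fun w : ℂ => 4 * |Bc| * ‖w‖) (𝓝 0) (𝓝 (4 * |Bc| * ‖(0 : ℂ)‖)) :=
      (continuous_const.mul continuous_norm).tendsto 0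
    rw [norm_zero, mul_zero] at h3
    exact h3.eventually (Iio_mem_nhds one_pos)
  filter_upwards [e0.filter_mono nhdsWithin_le_nhds, e1.filter_mono nhdsWithin_le_nhds,
    e2.filter_mono nhdsWithin_le_nhds, e3.filter_mono nhdsWithin_le_nhds,
    e4.filter_mono nhdsWithin_le_nhds, self_mem_nhdsWithin] with w f0 f1 f2 f3 f4 hw
  have hw0 : w ≠ 0 := hw
  have hwn : 0 < ‖w‖ := norm_pos_iff.2 hw0
  have s0 : t + -1 * w = t - w := by ring
  have s1 : t + 0 * w = t := by ring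
  have s2 : t + 1 * w = t + w := by ring
  rw [s0] at f0
  rw [s1] at f1
  rw [s2] at f2
  have hwr : ‖w‖ < r := f3.trans_le (min_le_left _ _)
  have hwρ : ‖w‖ < ρ - |t.im| := f3.trans_le (min_le_right _ _)
  have hPD : ∀ c : ℂ, ‖c‖ ≤ 1 → (t + c * w, w) ∈ PD ρ r := by
    intro c hc
    refine ⟨?_, hwr⟩
    have h1 : |(c * w).im| ≤ ‖w‖ := by
      refine (Complex.abs_im_le_norm _).trans ?_
      rw [norm_mul]
      nlinarith [norm_nonneg w]
    simp only [Complex.add_im]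
    have := abs_add_le t.im (c * w).im
    linarith
  have m0 : (t - w, w) ∈ PD ρ r := by
    have := hPD (-1) (by simp)
    rwa [s0] at this
  have m1 : (t, w) ∈ PD ρ r := by
    have := hPD 0 (by simp)
    rwa [s1] at this
  have m2 : (t + w, w) ∈ PD ρ r := by
    have := hPD 1 (by simp)
    rwa [s2] at this
  have n1 : (t + w / 2, w) ∈ PD ρ r := by
    have := hPD (1 / 2) (by rw [norm_div]; norm_num)
    have e : t + 1 / 2 * w = t + w / 2 := by ring
    rwa [e] at this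
  have n2 : (t - w / 2, w) ∈ PD ρ r := by
    have := hPD (-(1 / 2)) (by rw [norm_neg, norm_div]; norm_num)
    have e : t + -(1 / 2) * w = t - w / 2 := by ring
    rwa [e] at this
  -- incidences
  have i1 : StepE599.Inc θ H (b (t, w)) (φ (t + w / 2, w)) (p (t + w / 2, w)) := by
    have := D.base_inc (s := 1) (Or.inl rfl) m1 (by rw [one_mul]; exact n1)
    rw [one_mul] at this
    exact this
  have i1' : StepE599.Inc θ H (b (t, w)) (φ (t - w / 2, w)) (p (t - w / 2, w)) := by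
    have e : t + -1 * (w / 2) = t - w / 2 := by ring
    have := D.base_inc (s := -1) (Or.inr rfl) m1 (by rw [e]; exact n2)
    rw [e] at this
    exact this
  have i2 : StepE599.Inc θ H (b (t + w, w)) (φ (t + w / 2, w)) (p (t + w / 2, w)) := by
    have e : t + w + -1 * (w / 2) = t + w / 2 := by ring
    have := D.base_inc (s := -1) (Or.inr rfl) m2 (by rw [e]; exact n1)
    rw [e] at this
    exact this
  have i0 : StepE599.Inc θ H (b (t - w, w)) (φ (t - w / 2, w)) (p (t - w / 2, w)) := by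
    have e : t - w + 1 * (w / 2) = t - w / 2 := by ring
    have := D.base_inc (s := 1) (Or.inl rfl) m0 (by rw [e]; exact n2)
    rw [e] at this
    exact this
  have hrf := hD.fam.refl t w m1 n2 n1
  have hθ1 : θ (b (t, w)) = Tc q (b (t, w)) := D.ψ_eq _ (D.b_mem_Str m1)
  rw [← hθ1] at hrf
  have hδ := hD.fam.δ_small t w m1 n1
  rw [← hθ1] at hδ
  have hδ' : ‖φ (t - w / 2, w) - θ (b (t, w))‖ ≤ 1 := by
    have e : φ (t - w / 2, w) - θ (b (t, w)) = -(φ (t + w / 2, w) - θ (b (t, w))) := by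
      linear_combination hrf
    rw [e, norm_neg]
    linarith
  have hy : deriv θ (b (t, w)) ≠ 0 := D.deriv_ψ_ne (D.b_mem_Str m1)
  -- steps
  have k0 := hD.fam.b_near _ m0
  have k1 := hD.fam.b_near _ m1
  have k2 := hD.fam.b_near _ m2
  simp only at k0 k1 k2
  have hB : Bc * ‖w‖ ^ 2 < ‖w‖ / 4 := by
    have h1 : Bc * ‖w‖ ^ 2 ≤ |Bc| * ‖w‖ ^ 2 :=
      mul_le_mul_of_nonneg_right (le_abs_self _) (by positivity)
    have h2 : |Bc| * ‖w‖ ^ 2 = (4 * |Bc| * ‖w‖) * (‖w‖ / 4) := by ring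
    nlinarith
  have hne2 : b (t + w, w) - b (t, w) ≠ 0 := by
    intro h0
    have e : w = (b (t + w, w) - b (t, w)) - (b (t + w, w) - (t + w)) + (b (t, w) - t) := by ring
    have h1 : ‖w‖ ≤ 0 + Bc * ‖w‖ ^ 2 + Bc * ‖w‖ ^ 2 := by
      calc ‖w‖ = ‖(b (t + w, w) - b (t, w)) - (b (t + w, w) - (t + w)) + (b (t, w) - t)‖ := by
            rw [← e]
        _ ≤ ‖(b (t + w, w) - b (t, w)) - (b (t + w, w) - (t + w))‖ + ‖b (t, w) - t‖ :=
            norm_add_le _ _
        _ ≤ (‖b (t + w, w) - b (t, w)‖ + ‖b (t + w, w) - (t + w)‖) + ‖b (t, w) - t‖ := by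
            gcongr; exact norm_sub_le _ _
        _ ≤ 0 + Bc * ‖w‖ ^ 2 + Bc * ‖w‖ ^ 2 := by
            rw [h0, norm_zero]
            linarith
    linarith
  have hne0 : b (t - w, w) - b (t, w) ≠ 0 := by
    intro h0
    have e : w = (b (t - w, w) - (t - w)) - (b (t - w, w) - b (t, w)) - (b (t, w) - t) := by ring
    have h1 : ‖w‖ ≤ Bc * ‖w‖ ^ 2 + 0 + Bc * ‖w‖ ^ 2 := by
      calc ‖w‖ = ‖(b (t - w, w) - (t - w)) - (b (t - w, w) - b (t, w)) - (b (t, w) - t)‖ := by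
            rw [← e]
        _ ≤ ‖(b (t - w, w) - (t - w)) - (b (t - w, w) - b (t, w))‖ + ‖b (t, w) - t‖ :=
            norm_sub_le _ _
        _ ≤ (‖b (t - w, w) - (t - w)‖ + ‖b (t - w, w) - b (t, w)‖) + ‖b (t, w) - t‖ := by
            gcongr; exact norm_sub_le _ _
        _ ≤ Bc * ‖w‖ ^ 2 + 0 + Bc * ‖w‖ ^ 2 := by
            rw [h0, norm_zero]
            linarith
    linarith
  have g1 : GoodOn θ K (Str h0) (b (t, w)) (κ / 2) := g.mono (by positivity) (by linarith)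
  have d2 : ‖b (t + w, w) - b (t, w)‖ ≤ κ / 4 := by
    have e : b (t + w, w) - b (t, w) = (b (t + w, w) - t) - (b (t, w) - t) := by ring
    rw [e]
    have := norm_sub_le (b (t + w, w) - t) (b (t, w) - t)
    linarith
  have d0 : ‖b (t - w, w) - b (t, w)‖ ≤ κ / 4 := by
    have e : b (t - w, w) - b (t, w) = (b (t - w, w) - t) - (b (t, w) - t) := by ring
    rw [e]
    have := norm_sub_le (b (t - w, w) - t) (b (t, w) - t)
    linarith
  have l2 := (line_unique hE g1 hne2 (by linarith) hy (by linarith) i1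
    (by rw [add_sub_cancel]; exact i2)).1
  have l0 := (line_unique hE g1 hne0 (by linarith) hy hδ' i1'
    (by rw [add_sub_cancel]; exact i0)).1
  have e5 : -(b (t, w) - b (t - w, w)) = b (t - w, w) - b (t, w) := by ring
  have h9 := st_of_refl hE g1 (e := b (t, w) - b (t - w, w)) (x := b (t + w, w) - b (t, w))
    (by rw [← norm_neg, e5]; linarith) (by linarith) hy (by
      rw [e5, ← l0, ← l2]
      exact hrf)
  linear_combination h9

/-- **(AP3) on the strip** -/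
theorem ap3S (hD : Spine.DataS q η ρ r Bc b φ p m₀ θ H h0) (hM : MirS q η h0 θ H K G) :
    ∃ c₀ : ℂ, ∀ t : ℂ, |t.im| < ρ →
      iteratedDeriv 3 (fun w => b (t + w / 2, w) - b (t - w / 2, w)) 0 =
        2 / 5 * (G t + deriv θ t ^ 2 / 8) + c₀ := by
  have hE := hM.ent
  have L : StepE599.LB ρ r b := by
    refine ⟨hD.fam.r_pos, hD.fam.b_diff, fun t ht => ?_, fun t w ht hw => hD.fam.b_even t w ⟨ht, hw⟩⟩
    have h5 := hD.fam.b_near (t, 0) ⟨ht, by simpa using hD.fam.r_pos⟩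
    simp only [norm_zero, ne_eq, OfNat.ofNat_ne_zero, not_false_eq_true, zero_pow,
      mul_zero] at h5
    exact sub_eq_zero.1 (norm_le_zero_iff.1 h5)
  obtain ⟨c, hc⟩ := StepV599.coeff_strip hE L (fun t ht => by
      show |t.im| < h0
      have := hD.fam.ρ_pos
      have := hD.fam.ρ_lt
      have := hD.le
      linarith) (fun t ht => lawS hD hE ht)
  refine ⟨c, fun t ht => ?_⟩
  rw [hc t ht, hM.G_eq t]

/-- parity of the labels -/
theorem evenS (D : Dat q η ρ r Bc b φ p m₀ h0 θ H) {t w : ℂ} (hx : (t, w) ∈ SB b h0 ρ r) :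
    (t, -w) ∈ SB b h0 ρ r ∧ be b h0 ρ r (t, -w) = be b h0 ρ r (t, w) := by
  obtain ⟨h1, h2⟩ := D.per_SB (σ := 1) (Or.inl rfl) (κ := -1) (Or.inr rfl) hx
  obtain ⟨h3, h4⟩ := D.per_SB (σ := -1) (Or.inr rfl) (κ := 1) (Or.inl rfl) h1
  have e1 : ((t + (1 : ℝ) + (-1 : ℝ), 1 * (-1 * w)) : ℂ × ℂ) = (t, -w) := by
    refine Prod.ext ?_ ?_
    · push_cast; ring
    · simp
  simp only at h3 h4 h2
  rw [e1] at h3 h4
  refine ⟨h3, ?_⟩
  rw [h4, h2]
  push_cast
  ring

/-- the label at `w = 0` -/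
theorem be_zeroS (D : Dat q η ρ r Bc b φ p m₀ h0 θ H) {t : ℂ} (hx : (t, (0 : ℂ)) ∈ SB b h0 ρ r) :
    be b h0 ρ r (t, 0) = t := by
  have hρ := D.ρ_pos
  have hr : 0 < r := D.fam.r_pos
  have hc : Continuous fun z : ℂ × ℂ => ((z.1, 0) : ℂ × ℂ) := by fun_prop
  have h1 := D.perm (x := (t, (0 : ℂ))) (by simpa using hr)
    (Ω := (fun z : ℂ × ℂ => ((z.1, 0) : ℂ × ℂ)) ⁻¹' SB b h0 ρ r) (isOpen_SB.preimage hc)
    (f := fun z => be b h0 ρ r (z.1, 0)) (g := fun z => z.1) ?_ (fun z _ => analyticAt_fst) ?_ ?_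
  · exact h1.self_of_nhds
  · intro z hz
    have h2 : AnalyticAt ℂ (fun z : ℂ × ℂ => ((z.1, 0) : ℂ × ℂ)) z :=
      analyticAt_fst.prod analyticAt_const
    exact AnalyticAt.comp (g := be b h0 ρ r) (f := fun z : ℂ × ℂ => ((z.1, 0) : ℂ × ℂ))
      (D.be_an _ hz) h2
  · intro y hy
    have := D.seg_SB hx y hy
    change (fun z : ℂ × ℂ => ((z.1, 0) : ℂ × ℂ)) (pt (t, (0 : ℂ)).1.re y (t, (0 : ℂ)).2) ∈
      SB b h0 ρ r
    exact this
  · intro z _ hz2
    have hs : ((z.1, 0) : ℂ × ℂ) ∈ Slab (-(ρ / 2)) (ρ / 2) (ball (0 : ℂ) r) := by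
      obtain ⟨h3, h4⟩ := abs_lt.1 hz2
      exact ⟨by simp only; linarith, by simp only; linarith, by simpa using hr⟩
    rw [D.be_slab hs]
    have h5 := D.fam.b_near _ (slab_PD hρ hs)
    simp only [norm_zero, ne_eq, OfNat.ofNat_ne_zero, not_false_eq_true, zero_pow,
      mul_zero] at h5
    exact sub_eq_zero.1 (norm_le_zero_iff.1 h5)

/-- near the real axis the step of `be` is the step of `b` -/
lemma stp_realS (D : Dat q η ρ r Bc b φ p m₀ h0 θ H) (x : ℝ) :
    (fun w => stp (be b h0 ρ r) ((x : ℂ), w)) =ᶠ[𝓝 0]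
      fun w => b ((x : ℂ) + w / 2, w) - b ((x : ℂ) - w / 2, w) := by
  have hρ := D.ρ_pos
  filter_upwards [ball_mem_nhds (0 : ℂ) (lt_min D.fam.r_pos hρ)] with w hw
  rw [mem_ball_zero_iff] at hw
  have hwr := hw.trans_le (min_le_left _ _)
  have hwρ := hw.trans_le (min_le_right _ _)
  have h1 : |(w / 2).im| < ρ / 2 := by
    refine (Complex.abs_im_le_norm _).trans_lt ?_
    rw [norm_div]; simp only [Complex.norm_ofNat]; linarith
  obtain ⟨h2, h3⟩ := abs_lt.1 h1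
  unfold stp
  simp only
  rw [D.be_slab, D.be_slab]
  · refine ⟨?_, ?_, by simpa using hwr⟩
    · simp only [Complex.sub_im, Complex.ofReal_im]; linarith
    · simp only [Complex.sub_im, Complex.ofReal_im]; linarith
  · refine ⟨?_, ?_, by simpa using hwr⟩
    · simp only [Complex.add_im, Complex.ofReal_im]; linarith
    · simp only [Complex.add_im, Complex.ofReal_im]; linarith

/-- the vertex rule of Case B: both lines regular, then the label is regular -/
def RuleVS (b φ p : ℂ × ℂ → ℂ) (ρ r h0 : ℝ) : Prop :=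
  ∀ x : ℂ × ℂ, sh 1 x ∈ SL φ p ρ r → sh (-1) x ∈ SL φ p ρ r → -(3 * ρ / 8) < x.1.im →
    x ∈ SB b h0 ρ r

/-- **the vertex rule of Case B** (982) -/
theorem rule_vertexS (hD : Spine.DataS q η ρ r Bc b φ p m₀ θ H h0)
    (hnb : ∀ s : ℂ, s.im = h0 → ¬ Spine.RegB h0 θ H s) : RuleVS b φ p ρ r h0 :=
  fun _ h1 h2 h3 => (dat_of hD).rule_vertex (NB_of hD hnb) h1 h2 h3

/-- labels of a box of the sheet of lines -/
lemma box_SBS (hV : RuleVS b φ p ρ r h0) {h r' : ℝ}
    (hr' : 0 < r') (hsub : Sab (-(3 * ρ / 8)) h ×ˢ ball (0 : ℂ) r' ⊆ SL φ p ρ r) {t w : ℂ}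
    (ht : t ∈ Sab (-(3 * ρ / 8) + r' / 2) (h - r' / 2)) (hw : ‖w‖ < r') :
    (t, w) ∈ SB b h0 ρ r := by
  have h1 : |(w / 2).im| < r' / 2 := by
    refine (Complex.abs_im_le_norm _).trans_lt ?_
    rw [norm_div]; simp only [Complex.norm_ofNat]; linarith
  obtain ⟨h2, h3⟩ := abs_lt.1 h1
  obtain ⟨h4, h5⟩ := ht
  refine hV (t, w) (hsub ⟨⟨?_, ?_⟩, by simpa using hw⟩) (hsub ⟨⟨?_, ?_⟩, by simpa using hw⟩) ?_
  · rw [sh_fst, one_mul, Complex.add_im]; simp only; linarith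
  · rw [sh_fst, one_mul, Complex.add_im]; simp only; linarith
  · rw [sh_fst, neg_one_mul, Complex.add_im, Complex.neg_im]; simp only; linarith
  · rw [sh_fst, neg_one_mul, Complex.add_im, Complex.neg_im]; simp only; linarith
  · simp only; linarith

/-- **the main sheet gives boxes** -/
theorem boxMS (hD : Spine.DataS q η ρ r Bc b φ p m₀ θ H h0) (hV : RuleVS b φ p ρ r h0) {h r' : ℝ}
    (hr' : 0 < r') (hr1 : r' ≤ 1) (hrr : r' ≤ r) (hh : r' < h)
    (hsub : Sab (-(3 * ρ / 8)) h ×ˢ ball (0 : ℂ) r' ⊆ SL φ p ρ r) :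
    Box θ H (-(3 * ρ / 8)) h r' (φe φ p ρ r) (pe φ p ρ r) (be b h0 ρ r) ∧
      BoxV (Str h0) (-(3 * ρ / 8)) h r' (be b h0 ρ r) := by
  have D := dat_of hD
  have hρ := hD.fam.ρ_pos
  have hrρ := hD.fam.r_le
  have hin : ∀ s : ℂ, (s = 1 ∨ s = -1) → ∀ t w : ℂ, t ∈ Sab (-(3 * ρ / 8) + r') (h - r') →
      ‖w‖ < r' → IncS θ H (φe φ p ρ r (t, w)) (pe φ p ρ r (t, w))
        (be b h0 ρ r (sh (-s) (t, w))) := by
    intro s hs t w ht hw
    have h1 : |(w / 2).im| < r' / 2 := by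
      refine (Complex.abs_im_le_norm _).trans_lt ?_
      rw [norm_div]; simp only [Complex.norm_ofNat]; linarith
    obtain ⟨h2, h3⟩ := abs_lt.1 h1
    obtain ⟨h4, h5⟩ := ht
    have hB : sh (-s) (t, w) ∈ SB b h0 ρ r := by
      refine box_SBS hV hr' hsub (t := (sh (-s) (t, w)).1) (w := w) ?_ hw
      rcases hs with rfl | rfl
      · constructor
        · rw [sh_fst, neg_one_mul, Complex.add_im, Complex.neg_im]; simp only; linarith
        · rw [sh_fst, neg_one_mul, Complex.add_im, Complex.neg_im]; simp only; linarith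
      · constructor
        · rw [sh_fst, neg_neg, one_mul, Complex.add_im]; simp only; linarith
        · rw [sh_fst, neg_neg, one_mul, Complex.add_im]; simp only; linarith
    have e1 : sh s (sh (-s) (t, w)) = (t, w) := by
      rw [sh_sh, add_neg_cancel, sh_zero]
    have hL : sh s (sh (-s) (t, w)) ∈ SL φ p ρ r := by
      rw [e1]
      exact hsub ⟨⟨by linarith, by linarith⟩, by simpa using hw⟩
    have := D.inc_all hs hB hL
    rw [e1] at this
    exact incS_of this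
  refine ⟨⟨hr', hr1, by linarith, hh, ?_, ?_, ?_, ?_, ?_, ?_, ?_, ?_⟩, ?_⟩
  · exact D.φe_an.differentiableOn.mono hsub
  · exact D.pe_an.differentiableOn.mono hsub
  · refine D.be_an.differentiableOn.mono ?_
    rintro x ⟨h1, h2⟩
    exact box_SBS hV hr' hsub (t := x.1) (w := x.2) h1 (by simpa using h2)
  · intro t w ht hw
    have := hin (-1) (Or.inr rfl) t w ht hw
    unfold sh at this
    rw [neg_neg, one_mul] at this
    exact this
  · intro t w ht hw
    have := hin 1 (Or.inl rfl) t w ht hw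
    unfold sh at this
    rw [neg_one_mul, ← sub_eq_add_neg] at this
    exact this
  · intro t w ht hw hw0
    obtain ⟨h4, h5⟩ := ht
    exact D.area_ne (hsub ⟨⟨by linarith, by linarith⟩, by simpa using hw⟩) hw0
  · intro t ht
    exact be_zeroS D (box_SBS hV hr' hsub ht (by simpa using hr'))
  · intro t w ht hw
    exact (evenS D (box_SBS hV hr' hsub ht hw)).2
  · rintro x ⟨h1, h2⟩
    exact D.be_mem (box_SBS hV hr' hsub (t := x.1) (w := x.2) h1 (by simpa using h2))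

/-- **(AP)**: a priori bounds from a box of the sheet of lines, `h ≤ h0`. -/
theorem APS (hD : Spine.DataS q η ρ r Bc b φ p m₀ θ H h0) (hM : MirS q η h0 θ H K G)
    (hV : RuleVS b φ p ρ r h0) : ∃ C : ℝ, 1 ≤ C ∧ ∀ h r' : ℝ, 0 < r' → r' ≤ 1 → r' ≤ r →
      r' < h → h ≤ h0 → Sab (-(3 * ρ / 8)) h ×ˢ ball (0 : ℂ) r' ⊆ SL φ p ρ r →
      (∀ z : ℂ, |z.im| ≤ h - 2 * r' →
        ‖deriv θ z‖ ≤ C * (Real.sqrt (Real.log (8 * K0 / r')) / r') ∧
        ‖G z‖ ≤ C ^ 2 * (Real.log (8 * K0 / r') / r' ^ 2)) ∧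
      (∀ t w : ℂ, t ∈ Sab (-(3 * ρ / 8) + r' / 2) (h - r' / 2) → ‖w‖ < r' →
        (t, w) ∈ SB b h0 ρ r) ∧
      (∀ t w : ℂ, t ∈ Sab (-(3 * ρ / 8) + r') (h - r') → ‖w‖ < r' → w ≠ 0 →
        ∀ k : ℤ, be b h0 ρ r (t + w / 2, w) - be b h0 ρ r (t - w / 2, w) ≠ k) ∧
      (∀ t w : ℂ, t ∈ Sab (-(3 * ρ / 8) + r') (h - r') → ‖w‖ < r' / 8 →
        128 * Real.log (8 * K0 / r') * (‖w‖ / r') ^ 2 ≤ 1 →
        ‖be b h0 ρ r (t + w / 2, w) - be b h0 ρ r (t - w / 2, w) - w‖ ≤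
          256 * Real.log (8 * K0 / r') * (‖w‖ / r') ^ 2 * ‖w‖) := by
  obtain ⟨c₀, hc₀⟩ := ap3S hD hM
  have D := dat_of hD
  have hLab := lab_ofS hD hM
  have hρ := hD.fam.ρ_pos
  set A : ℝ := 1920 + 2 * ‖c₀‖ with hA
  have hA1 : 1 ≤ A := by
    have := norm_nonneg c₀
    rw [hA]; linarith
  have hsA : 1 ≤ Real.sqrt A := by
    rw [Real.one_le_sqrt]; exact hA1
  refine ⟨18 * Real.sqrt A, by linarith, fun h r' hr' hr1 hrr hh hhh hsub => ?_⟩
  obtain ⟨X, XV⟩ := boxMS hD hV hr' hr1 hrr hh hsub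
  have hAP3 : ∀ x : ℝ, iteratedDeriv 3 (fun w => stp (be b h0 ρ r) (x, w)) 0 =
      2 / 5 * (G x + deriv θ x ^ 2 / 8) + c₀ := by
    intro x
    rw [(stp_realS D x).iteratedDeriv_eq 3]
    exact hc₀ x (by simpa using hρ)
  refine ⟨?_, fun t w ht hw => box_SBS hV hr' hsub ht hw, ?_, ?_⟩
  · intro z hz
    have hρh : -h0 ≤ -(3 * ρ / 8) := by
      have := hD.fam.ρ_lt
      have := hD.le
      linarith
    obtain ⟨h1, h2⟩ := X.curveV hLab XV hhh hρh hM.Gd hM.hG hM.yper hM.yconj hM.Gconj hAP3 z hz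
    rw [← hA] at h1 h2
    refine ⟨h1.trans (le_of_eq ?_), h2.trans ?_⟩
    · rw [Real.sqrt_mul (by linarith)]
      ring
    · have hL : 0 ≤ Real.log (8 * K0 / r') / r' ^ 2 := by
        refine div_nonneg (Real.log_nonneg ?_) (by positivity)
        rw [le_div_iff₀ hr']
        have := Pick628.K0_ge
        linarith
      have e1 : (18 * Real.sqrt A) ^ 2 = 324 * A := by
        rw [mul_pow, Real.sq_sqrt (by linarith)]
        norm_num
      rw [e1]
      have e2 : 43 * (A * Real.log (8 * K0 / r') / r' ^ 2) =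
          43 * A * (Real.log (8 * K0 / r') / r' ^ 2) := by ring
      rw [e2]
      nlinarith
  · intro t w ht hw hw0 k
    exact X.stp_not_intV hLab XV ht hw hw0 k
  · intro t w ht hw h1
    exact (X.stepV hLab XV ht).1 w (by simpa using hw) h1

end Crest.Agent.R102.ShS628
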