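import Crest.Agent.R102.RuleS_300

/-!
Row 102, T1-E (helper300): RULE-E: two regular lines `⟹` the vertex is regular, for an entire
curve `(ψ, H)`.  The one-variable rule `r1dE : R1D univ ψ H`, and the joint version `rule2E`.
(The lemmas `cubeS`, `good_puncturedS`, `label_limitE`, `r1dE` follow helper982's `Rule1D_982`.)
-/

set_option autoImplicit false

open Set Filter Topology Metric

noncomputable section

namespace Crest.Agent.R102.F300

open Crest.Agent.R102.Rule982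

lemma cubeS {S : Set ℂ} (hSo : IsOpen S) {ψ H : ℂ → ℂ} (hψ : DifferentiableOn ℂ ψ S)
    (hH : DifferentiableOn ℂ H S) {c : ℂ} (hc : c ≠ 0)
    (rel : ∀ z ∈ S, deriv ψ z * deriv (deriv H) z - deriv (deriv ψ) z * deriv H z +
      deriv ψ z ^ 3 * H z = c)
    {D : Set ℂ} (hD : IsOpen D) {B Ψ η : ℂ → ℂ} (hB : DifferentiableOn ℂ B D)
    (hBS : ∀ t ∈ D, B t ∈ S) (h1 : ∀ t ∈ D, ψ (B t) = Ψ t) (h2 : ∀ t ∈ D, H (B t) = η t)
    (h3 : ∀ t ∈ D, deriv Ψ t ≠ 0) : ∀ t ∈ D, Mf c Ψ η t = deriv B t ^ 3 := by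
  have hSo := hSo
  have hψ' : DifferentiableOn ℂ (deriv ψ) S := hψ.deriv hSo
  have hH' : DifferentiableOn ℂ (deriv H) S := hH.deriv hSo
  have hd : ∀ t ∈ D, HasDerivAt B (deriv B t) t := fun t ht =>
    (hB.differentiableAt (hD.mem_nhds ht)).hasDerivAt
  have hΨd : ∀ t ∈ D, deriv Ψ t = deriv ψ (B t) * deriv B t := by
    intro t ht
    have h4 : HasDerivAt (fun t => ψ (B t)) (deriv ψ (B t) * deriv B t) t :=
      ((hψ.differentiableAt (hSo.mem_nhds (hBS t ht))).hasDerivAt).comp t (hd t ht)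
    refine (h4.congr_of_eventuallyEq ?_).deriv
    filter_upwards [hD.mem_nhds ht] with s hs
    exact (h1 s hs).symm
  have hηd : ∀ t ∈ D, deriv η t = deriv H (B t) * deriv B t := by
    intro t ht
    have h4 : HasDerivAt (fun t => H (B t)) (deriv H (B t) * deriv B t) t :=
      ((hH.differentiableAt (hSo.mem_nhds (hBS t ht))).hasDerivAt).comp t (hd t ht)
    refine (h4.congr_of_eventuallyEq ?_).deriv
    filter_upwards [hD.mem_nhds ht] with s hs
    exact (h2 s hs).symm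
  have hne : ∀ t ∈ D, deriv ψ (B t) ≠ 0 ∧ deriv B t ≠ 0 := by
    intro t ht
    have := h3 t ht
    rw [hΨd t ht] at this
    exact ⟨left_ne_zero_of_mul this, right_ne_zero_of_mul this⟩
  intro t ht
  have hq : HasDerivAt (fun t => deriv H (B t) / deriv ψ (B t))
      ((deriv (deriv H) (B t) * deriv B t * deriv ψ (B t) -
        deriv H (B t) * (deriv (deriv ψ) (B t) * deriv B t)) / deriv ψ (B t) ^ 2) t := by
    have h4 : HasDerivAt (fun t => deriv H (B t)) (deriv (deriv H) (B t) * deriv B t) t :=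
      ((hH'.differentiableAt (hSo.mem_nhds (hBS t ht))).hasDerivAt).comp t (hd t ht)
    have h5 : HasDerivAt (fun t => deriv ψ (B t)) (deriv (deriv ψ) (B t) * deriv B t) t :=
      ((hψ'.differentiableAt (hSo.mem_nhds (hBS t ht))).hasDerivAt).comp t (hd t ht)
    exact h4.div h5 (hne t ht).1
  have hq' : deriv (fun t => deriv η t / deriv Ψ t) t =
      (deriv (deriv H) (B t) * deriv B t * deriv ψ (B t) -
        deriv H (B t) * (deriv (deriv ψ) (B t) * deriv B t)) / deriv ψ (B t) ^ 2 := by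
    refine (hq.congr_of_eventuallyEq ?_).deriv
    filter_upwards [hD.mem_nhds ht] with s hs
    rw [hΨd s hs, hηd s hs, mul_div_mul_right _ _ (hne s hs).2]
  have hr := rel (B t) (hBS t ht)
  unfold Mf
  rw [hq', hΨd t ht, ← h2 t ht]
  have h6 := (hne t ht).1
  rw [div_eq_iff hc]
  field_simp
  linear_combination deriv B t ^ 3 * hr

/-- Step 1: near `t₁` everything is fine off `t₁` -/
lemma good_puncturedS {S : Set ℂ} (hSo : IsOpen S) {ψ H : ℂ → ℂ} (hψ : DifferentiableOn ℂ ψ S)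
    (hH : DifferentiableOn ℂ H S) {c : ℂ} (hc : c ≠ 0)
    (rel : ∀ z ∈ S, deriv ψ z * deriv (deriv H) z - deriv (deriv ψ) z * deriv H z +
      deriv ψ z ^ 3 * H z = c)
    {t₁ : ℂ} {ε : ℝ} (hε : 0 < ε) {Ψ N Dn B : ℂ → ℂ} (hΨ : DifferentiableOn ℂ Ψ (ball t₁ ε))
    (hN : DifferentiableOn ℂ N (ball t₁ ε)) (hDn : DifferentiableOn ℂ Dn (ball t₁ ε))
    (hDn0 : ∃ t ∈ ball t₁ ε, Dn t ≠ 0) (hB : DifferentiableOn ℂ B (LD t₁ ε))
    (hBS : ∀ t ∈ LD t₁ ε, B t ∈ S) (hBnc : ∃ t ∈ LD t₁ ε, deriv B t ≠ 0)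
    (h1 : ∀ t ∈ LD t₁ ε, ψ (B t) = Ψ t) (h2 : ∀ t ∈ LD t₁ ε, Dn t * H (B t) = N t) :
    ∀ᶠ t in 𝓝[≠] t₁, Dn t ≠ 0 ∧ deriv Ψ t ≠ 0 ∧ Mf c Ψ (fun t => N t / Dn t) t ≠ 0 := by
  have hSo := hSo
  have hLo := isOpen_LD t₁ ε
  have hpre : IsPreconnected (ball t₁ ε) := (convex_ball t₁ ε).isPreconnected
  have ht₁ : t₁ ∈ ball t₁ ε := mem_ball_self hε
  have hΨa : AnalyticOnNhd ℂ Ψ (ball t₁ ε) := hΨ.analyticOnNhd isOpen_ball
  have hNa : AnalyticOnNhd ℂ N (ball t₁ ε) := hN.analyticOnNhd isOpen_ball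
  have hDa : AnalyticOnNhd ℂ Dn (ball t₁ ε) := hDn.analyticOnNhd isOpen_ball
  have e1 : ∀ᶠ t in 𝓝[≠] t₁, Dn t ≠ 0 := by
    rcases (hDa t₁ ht₁).eventually_eq_zero_or_eventually_ne_zero with h3 | h3
    · exfalso
      obtain ⟨t, ht, ht0⟩ := hDn0
      exact ht0 (hDa.eqOn_zero_of_preconnected_of_eventuallyEq_zero hpre ht₁ h3 ht)
    · exact h3
  have hΨ'a : AnalyticOnNhd ℂ (deriv Ψ) (ball t₁ ε) := hΨa.deriv
  have e2 : ∀ᶠ t in 𝓝[≠] t₁, deriv Ψ t ≠ 0 := by
    rcases (hΨ'a t₁ ht₁).eventually_eq_zero_or_eventually_ne_zero with h3 | h3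
    · exfalso
      have hz : ∀ t ∈ ball t₁ ε, deriv Ψ t = 0 := fun t ht =>
        hΨ'a.eqOn_zero_of_preconnected_of_eventuallyEq_zero hpre ht₁ h3 ht
      obtain ⟨t₀, ht₀, hB0⟩ := hBnc
      have hBd : ∀ t ∈ LD t₁ ε, HasDerivAt B (deriv B t) t := fun t ht =>
        (hB.differentiableAt (hLo.mem_nhds ht)).hasDerivAt
      have hB'c : ContinuousAt (deriv B) t₀ :=
        ((hB.deriv hLo).differentiableAt (hLo.mem_nhds ht₀)).continuousAt
      have h4 : ∀ᶠ t in 𝓝 t₀, deriv ψ (B t) = 0 := by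
        filter_upwards [hLo.mem_nhds ht₀, hB'c.eventually_ne hB0] with t ht ht'
        have h5 : HasDerivAt (fun t => ψ (B t)) (deriv ψ (B t) * deriv B t) t :=
          ((hψ.differentiableAt (hSo.mem_nhds (hBS t ht))).hasDerivAt).comp t (hBd t ht)
        have h6 : HasDerivAt Ψ (deriv ψ (B t) * deriv B t) t := by
          refine h5.congr_of_eventuallyEq ?_
          filter_upwards [hLo.mem_nhds ht] with s hs
          exact (h1 s hs).symm
        have h7 := h6.deriv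
        rw [hz t ht.1] at h7
        rcases mul_eq_zero.1 h7.symm with h8 | h8
        · exact h8
        · exact absurd h8 ht'
      have h5 : HasDerivAt (fun t => deriv ψ (B t)) (deriv (deriv ψ) (B t₀) * deriv B t₀) t₀ :=
        (((hψ.deriv hSo).differentiableAt (hSo.mem_nhds (hBS t₀ ht₀))).hasDerivAt).comp t₀
          (hBd t₀ ht₀)
      have h6 := h5.unique ((hasDerivAt_const t₀ (0 : ℂ)).congr_of_eventuallyEq h4)
      have h7 : deriv (deriv ψ) (B t₀) = 0 := by
        rcases mul_eq_zero.1 h6 with h8 | h8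
        · exact h8
        · exact absurd h8 hB0
      have h8 := rel (B t₀) (hBS t₀ ht₀)
      rw [h4.self_of_nhds, h7] at h8
      apply hc
      rw [← h8]
      ring
    · exact h3
  -- meromorphy of the cube
  have hMm : MeromorphicAt (Mf c Ψ (fun t => N t / Dn t)) t₁ := by
    have m1 : MeromorphicAt (fun t => N t / Dn t) t₁ :=
      (hNa t₁ ht₁).meromorphicAt.div (hDa t₁ ht₁).meromorphicAt
    have m2 : MeromorphicAt (deriv Ψ) t₁ := (hΨ'a t₁ ht₁).meromorphicAt
    have m3 : MeromorphicAt (fun t => deriv (fun t => N t / Dn t) t / deriv Ψ t) t₁ :=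
      m1.deriv.div m2
    exact ((m3.deriv.add (m1.mul m2)).mul (m2.pow 2)).div (MeromorphicAt.const c t₁)
  have e3 : ∀ᶠ t in 𝓝[≠] t₁, Mf c Ψ (fun t => N t / Dn t) t ≠ 0 := by
    rcases hMm.eventually_eq_zero_or_eventually_ne_zero with h3 | h3
    · exfalso
      have h4 := (h3.and (e1.and e2))
      rw [eventually_nhdsWithin_iff, Metric.eventually_nhds_iff_ball] at h4
      obtain ⟨r, hr, hrr⟩ := h4
      set r' := min r ε with hr'
      have hr'0 : 0 < r' := lt_min hr hε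
      have hsub : LD t₁ r' ⊆ LD t₁ ε := LD_mono (min_le_right _ _)
      have h5 : ∀ t ∈ LD t₁ r', Mf c Ψ (fun t => N t / Dn t) t = deriv B t ^ 3 := by
        refine cubeS hSo hψ hH hc rel (isOpen_LD t₁ r') (hB.mono hsub) (fun t ht => hBS t (hsub ht))
          (fun t ht => h1 t (hsub ht)) (fun t ht => ?_) (fun t ht => ?_)
        · have h6 := hrr t (ball_subset_ball (min_le_left _ _) ht.1) (ne_of_mem_LD ht)
          rw [eq_div_iff h6.2.1, mul_comm]
          exact h2 t (hsub ht)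
        · exact (hrr t (ball_subset_ball (min_le_left _ _) ht.1) (ne_of_mem_LD ht)).2.2
      have h6 : ∀ t ∈ LD t₁ r', deriv B t = 0 := by
        intro t ht
        have h7 := (hrr t (ball_subset_ball (min_le_left _ _) ht.1) (ne_of_mem_LD ht)).1
        rw [h5 t ht] at h7
        exact pow_eq_zero_iff (by norm_num) |>.1 h7
      have hBa : AnalyticOnNhd ℂ (deriv B) (LD t₁ ε) := (hB.deriv hLo).analyticOnNhd hLo
      have h7 : t₁ - (r' / 2 : ℝ) * Complex.I ∈ LD t₁ r' :=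
        mem_LD_self (by positivity) (by linarith)
      obtain ⟨t₀, ht₀, hB0⟩ := hBnc
      refine hB0 (hBa.eqOn_zero_of_preconnected_of_eventuallyEq_zero
        (convex_LD t₁ ε).isPreconnected (hsub h7) ?_ ht₀)
      filter_upwards [(isOpen_LD t₁ r').mem_nhds h7] with s hs
      exact h6 s hs
    · exact h3
  filter_upwards [e1, e2, e3] with t a1 a2 a3
  exact ⟨a1, a2, a3⟩

/-! ### no period, limit at the puncture, for an entire curve -/

/-- an entire tangent angle `ψ`, `ψ (z + 1) = ψ z + 2π`, has no period -/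
lemma no_period {ψ : ℂ → ℂ} (hψ : Differentiable ℂ ψ) (hper : ∀ z, ψ (z + 1) = ψ z + 2 * Real.pi)
    {P : ℂ} (hP : ∀ z, ψ (z + P) = ψ z) : P = 0 := by
  have hPn : ∀ n : ℕ, ∀ z, ψ (z + n * P) = ψ z := by
    intro n
    induction n with
    | zero => intro z; simp
    | succ n ih =>
      intro z
      have h1 : z + ((n + 1 : ℕ) : ℂ) * P = (z + n * P) + P := by push_cast; ring
      rw [h1, hP, ih]
  by_cases him : P.im = 0
  · have hPre : P = (P.re : ℂ) := by
      apply Complex.ext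
      · simp
      · simp [him]
    have hP0 : P.re = 0 := by
      set k : ℝ → ℂ := fun x => ψ x - 2 * Real.pi * x with hk
      have hkper : Function.Periodic k 1 := by
        intro x
        simp only [hk]
        have h1 : ((x + 1 : ℝ) : ℂ) = (x : ℂ) + 1 := by push_cast; ring
        rw [h1, hper]
        ring
      have hkc : Continuous k := by
        have h1 : Continuous fun x : ℝ => ψ x := hψ.continuous.comp Complex.continuous_ofReal
        exact h1.sub (by fun_prop)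
      obtain ⟨C, hC⟩ := (hkper.isBounded_of_continuous one_ne_zero hkc).exists_norm_le
      have hC' : ∀ x, ‖k x‖ ≤ C := fun x => hC _ (mem_range_self x)
      by_contra hne
      have h1 : ∀ n : ℕ, (n : ℝ) * (2 * Real.pi * |P.re|) ≤ ‖ψ 0‖ + C := by
        intro n
        have h2 : (2 * Real.pi * ((n * P.re : ℝ) : ℂ)) = ψ 0 - k (n * P.re) := by
          simp only [hk]
          have h3 : ((n * P.re : ℝ) : ℂ) = 0 + n * P := by
            rw [hPre]; push_cast; simp
          have h4 : ψ ((n * P.re : ℝ) : ℂ) = ψ 0 := by rw [h3]; exact hPn n 0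
          rw [h4]
          ring
        have h3 : ‖(2 * Real.pi * ((n * P.re : ℝ) : ℂ))‖ = (n : ℝ) * (2 * Real.pi * |P.re|) := by
          rw [norm_mul, norm_mul, Complex.norm_real, Complex.norm_real, Real.norm_eq_abs,
            Real.norm_eq_abs, abs_mul, Nat.abs_cast, abs_of_pos Real.pi_pos, Complex.norm_ofNat]
          ring
        rw [← h3, h2]
        exact (norm_sub_le _ _).trans (by linarith [hC' (n * P.re)])
      obtain ⟨n, hn⟩ := exists_nat_gt ((‖ψ 0‖ + C) / (2 * Real.pi * |P.re|))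
      have h2 : 0 < 2 * Real.pi * |P.re| := by
        have := abs_pos.2 hne
        positivity
      rw [div_lt_iff₀ h2] at hn
      linarith [h1 n]
    rw [hPre, hP0]
    simp
  · exfalso
    set f : ℂ → ℂ := deriv ψ with hf
    have hfd : Differentiable ℂ f := hψ.deriv
    have hf1 : Function.Periodic f 1 := by
      intro z
      have h1 : deriv (fun z => ψ (z + 1)) z = deriv ψ (z + 1) := deriv_comp_add_const _ _ _
      have h2 : (fun z => ψ (z + 1)) = fun z => ψ z + 2 * Real.pi := funext hper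
      rw [h2, deriv_add_const] at h1
      exact h1.symm
    have hf2 : Function.Periodic f P := by
      intro z
      have h1 : deriv (fun z => ψ (z + P)) z = deriv ψ (z + P) := deriv_comp_add_const _ _ _
      have h2 : (fun z => ψ (z + P)) = fun z => ψ z := funext hP
      rw [h2] at h1
      exact h1.symm
    have hbd : Bornology.IsBounded (range f) := by
      have hcomp : IsCompact (f '' closedBall 0 (1 + |P.im|)) :=
        (isCompact_closedBall _ _).image hfd.continuous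
      refine hcomp.isBounded.subset ?_
      rintro _ ⟨z, rfl⟩
      set n : ℤ := ⌊z.im / P.im⌋ with hn
      set z' : ℂ := z - n * P with hz'
      set m : ℤ := ⌊z'.re⌋ with hm
      set z'' : ℂ := z' - m * 1 with hz''
      have e1 : f z'' = f z := by
        have a1 : f z' = f z := by
          rw [hz']
          rw [← zsmul_eq_mul]
          exact Function.Periodic.sub_zsmul_eq (f := f) hf2 n
        have a2 : f z'' = f z' := by
          rw [hz'']
          rw [← zsmul_eq_mul]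
          exact Function.Periodic.sub_zsmul_eq (f := f) hf1 m
        rw [a2, a1]
      refine ⟨z'', ?_, e1⟩
      rw [mem_closedBall, dist_zero_right]
      have b1 : z''.re = Int.fract z'.re := by
        rw [hz'', ← Int.self_sub_floor, ← hm]
        simp only [mul_one, Complex.sub_re, Complex.intCast_re]
      have b2 : z''.im = Int.fract (z.im / P.im) * P.im := by
        rw [hz'', hz']
        simp only [mul_one, Complex.sub_im, Complex.mul_im, Complex.intCast_re, Complex.intCast_im,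
          zero_mul, add_zero, sub_zero]
        rw [← Int.self_sub_floor, ← hn, sub_mul, div_mul_cancel₀ _ him]
      refine (Complex.norm_le_abs_re_add_abs_im z'').trans ?_
      rw [b1, b2, abs_mul, abs_of_nonneg (Int.fract_nonneg _), abs_of_nonneg (Int.fract_nonneg _)]
      have c1 := (Int.fract_lt_one z'.re).le
      have c2 := (Int.fract_lt_one (z.im / P.im)).le
      have c3 : Int.fract (z.im / P.im) * |P.im| ≤ 1 * |P.im| :=
        mul_le_mul_of_nonneg_right c2 (abs_nonneg _)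
      linarith
    have hconst : ∀ z, f z = f 0 := fun z => hfd.apply_eq_apply_of_bounded hbd z 0
    have hlin : ∀ z, ψ z = ψ 0 + f 0 * z := by
      intro z
      have h1 : ∀ w, HasDerivAt (fun z => ψ z - f 0 * z) 0 w := by
        intro w
        have h2 := (hψ w).hasDerivAt.sub ((hasDerivAt_id w).const_mul (f 0))
        refine h2.congr_deriv ?_
        change f w - f 0 * 1 = 0
        rw [hconst w]
        ring
      have h2 : Differentiable ℂ (fun z => ψ z - f 0 * z) := fun w => (h1 w).differentiableAt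
      have h3 := is_const_of_deriv_eq_zero h2 (fun w => (h1 w).deriv) z 0
      simp only [mul_zero, sub_zero] at h3
      linear_combination h3
    have hP0 : P ≠ 0 := by
      rintro rfl
      exact him (by simp)
    have h1 := hP 0
    rw [zero_add, hlin P] at h1
    have h2 : f 0 = 0 := by
      have : f 0 * P = 0 := by linear_combination h1
      rcases mul_eq_zero.1 this with h | h
      · exact h
      · exact absurd h hP0
    have h3 := hper 0
    rw [zero_add, hlin 1, h2] at h3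
    have h4 : (2 * Real.pi : ℂ) = 0 := by linear_combination -h3
    have h5 : (Real.pi : ℂ) ≠ 0 := Complex.ofReal_ne_zero.2 Real.pi_ne_zero
    exact (mul_ne_zero two_ne_zero h5) h4

/-- a periodic holomorphic label on the half plane whose tangent angle is bounded has a limit -/
lemma cuspE {a : ℝ} {ψ Bh Ph : ℂ → ℂ} (hψ : Differentiable ℂ ψ)
    (hψper : ∀ z, ψ (z + 1) = ψ z + 2 * Real.pi)
    (hB : DifferentiableOn ℂ Bh (HPl a))
    (hper : ∀ z ∈ HPl a, Bh (z + 6 * Real.pi * Complex.I) = Bh z)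
    (hP : ∀ z ∈ HPl a, ψ (Bh z) = Ph z) {K : ℝ} (hK : ∀ z ∈ HPl a, ‖Ph z‖ ≤ K) :
    ∃ d, Tendsto Bh LI (𝓝 d) := by
  have := LI_neBot
  have hψn : ∀ (z : ℂ) (n : ℕ), ψ (z + n) = ψ z + 2 * Real.pi * n := by
    intro z n
    induction n with
    | zero => simp
    | succ n ih =>
      have h1 : z + ((n + 1 : ℕ) : ℂ) = (z + n) + 1 := by push_cast; ring
      rw [h1, hψper, ih]
      push_cast
      ring
  have hbig : ∀ z : ℂ, ∀ n : ℕ, 2 * Real.pi * n - ‖ψ z‖ ≤ ‖ψ (z + n)‖ := by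
    intro z n
    rw [hψn]
    have h1 : ‖(2 * Real.pi * n : ℂ)‖ = 2 * Real.pi * n := by
      rw [norm_mul, norm_mul, Complex.norm_natCast, Complex.norm_real, Real.norm_eq_abs,
        abs_of_pos Real.pi_pos, Complex.norm_ofNat]
    have h2 := norm_sub_norm_le (2 * Real.pi * n : ℂ) (-ψ z)
    rw [norm_neg, h1, sub_neg_eq_add, add_comm (2 * Real.pi * n : ℂ)] at h2
    exact h2
  -- a forbidden point
  obtain ⟨zs, hzs⟩ : ∃ zs : ℂ, K < ‖ψ zs‖ := by
    obtain ⟨n, hn⟩ := exists_nat_gt ((K + ‖ψ 0‖) / (2 * Real.pi))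
    rw [div_lt_iff₀ (by positivity)] at hn
    refine ⟨0 + n, ?_⟩
    have := hbig 0 n
    linarith
  obtain ⟨r, hr, hrr⟩ := Metric.eventually_nhds_iff_ball.1
    ((hψ.continuous.norm.tendsto zs).eventually (lt_mem_nhds hzs))
  have hfar : ∀ z ∈ HPl a, r ≤ ‖Bh z - zs‖ := by
    intro z hz
    by_contra hcon
    push Not at hcon
    have h1 := hrr (Bh z) (by rw [mem_ball, dist_eq_norm]; exact hcon)
    rw [hP z hz] at h1
    exact absurd (hK z hz) (not_le.2 h1)
  have hne : ∀ z ∈ HPl a, Bh z - zs ≠ 0 := by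
    intro z hz h0
    have := hfar z hz
    rw [h0, norm_zero] at this
    linarith
  obtain ⟨F, hF1, hF2, hF3⟩ := cusp_main (a := a) (C := r⁻¹) (G := fun z => (Bh z - zs)⁻¹)
    ((hB.sub_const zs).inv hne)
    (fun z hz => by simp only [hper z hz])
    (fun z hz => by
      rw [norm_inv]
      exact inv_anti₀ hr (hfar z hz))
  have hF0 : F 0 ≠ 0 := by
    intro h0
    have hFa : AnalyticAt ℂ F 0 :=
      (Complex.analyticAt_iff_eventually_differentiableAt).2 hF1
    rcases hFa.eventually_constant_or_nhds_le_map_nhds with h1 | h1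
    · have h2 : ∀ᶠ q in 𝓝[≠] (0 : ℂ), F q = F 0 := h1.filter_mono nhdsWithin_le_nhds
      obtain ⟨q, hq1, z, hz, hq2⟩ := (h2.and hF3).exists
      rw [hq1, h0] at hq2
      exact (inv_ne_zero (hne z hz)) hq2.symm
    · rw [h0] at h1
      have h3 : ∀ᶠ q in 𝓝 (0 : ℂ), q ≠ 0 → ∃ z ∈ HPl a, F q = (Bh z - zs)⁻¹ :=
        eventually_nhdsWithin_iff.1 hF3
      have h4 : {v : ℂ | v ≠ 0 → ∃ z ∈ HPl a, v = (Bh z - zs)⁻¹} ∈ 𝓝 (0 : ℂ) := by
        apply h1
        rw [mem_map]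
        filter_upwards [h3] with q hq hq0
        refine hq ?_
        rintro rfl
        exact hq0 h0
      have h5 : Tendsto (fun n : ℕ => ((n : ℂ))⁻¹) atTop (𝓝 0) := by
        exact tendsto_inv₀_cobounded.comp tendsto_natCast_atTop_cobounded
      obtain ⟨N0, hN0⟩ := exists_nat_gt ((K + ‖ψ zs‖) / (2 * Real.pi))
      rw [div_lt_iff₀ (by positivity)] at hN0
      obtain ⟨n, hn1, hn2, hn3⟩ := ((h5.eventually h4).and
        ((eventually_ge_atTop N0).and (eventually_gt_atTop 0))).exists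
      have hn0 : (n : ℂ) ≠ 0 := Nat.cast_ne_zero.2 hn3.ne'
      obtain ⟨z, hz, hzn⟩ := hn1 (inv_ne_zero hn0)
      have h6 : Bh z = zs + n := by
        have := inv_injective hzn
        rw [this]; ring
      have h7 := hbig zs n
      rw [← h6, hP z hz] at h7
      have h8 := hK z hz
      have h9 : (N0 : ℝ) ≤ n := by exact_mod_cast hn2
      have h10 : (N0 : ℝ) * (2 * Real.pi) ≤ n * (2 * Real.pi) :=
        mul_le_mul_of_nonneg_right h9 (by positivity)
      linarith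
  refine ⟨zs + (F 0)⁻¹, ?_⟩
  have h1 : Tendsto (fun z => zs + ((Bh z - zs)⁻¹)⁻¹) LI (𝓝 (zs + (F 0)⁻¹)) :=
    (hF2.inv₀ hF0).const_add zs
  refine h1.congr fun z => ?_
  rw [inv_inv]
  ring

lemma period_zeroE {a : ℝ} {ψ g Bh Ph : ℂ → ℂ} (hψ : Differentiable ℂ ψ)
    (hψper : ∀ z, ψ (z + 1) = ψ z + 2 * Real.pi)
    (hB : ∀ z ∈ HPl a, HasDerivAt Bh (g z) z) (hg : DifferentiableOn ℂ g (HPl a))
    (hg0 : ∀ z ∈ HPl a, g z ≠ 0)
    (hg3 : ∀ z ∈ HPl a, g (z + (2 * Real.pi : ℝ) * Complex.I) ^ 3 = g z ^ 3)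
    (hP : ∀ z ∈ HPl a, ψ (Bh z) = Ph z)
    (hPper : ∀ z ∈ HPl a, Ph (z + (2 * Real.pi : ℝ) * Complex.I) = Ph z) :
    ∀ z ∈ HPl a, Bh (z + 6 * Real.pi * Complex.I) = Bh z := by
  have ho := isOpen_HPl a
  set T : ℂ := (2 * Real.pi : ℝ) * Complex.I with hT
  have hsh : ∀ z ∈ HPl a, z + T ∈ HPl a := fun z hz => add_mem_HPl hz _
  have hz₀ : ((a - 1 : ℝ) : ℂ) ∈ HPl a := by
    change ((a - 1 : ℝ) : ℂ).re < a
    simp
  set z₀ : ℂ := ((a - 1 : ℝ) : ℂ)
  have hgd : ∀ z ∈ HPl a, HasDerivAt g (deriv g z) z := fun z hz =>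
    (hg.differentiableAt (ho.mem_nhds hz)).hasDerivAt
  -- the factor `ω`
  obtain ⟨ω, hω3, hω⟩ := cube_const ho (convex_HPl a) (f := fun z => g (z + T)) (g := g)
    (by
      intro z hz
      exact ((hgd _ (hsh z hz)).comp_add_const z T).differentiableAt.differentiableWithinAt)
    hg hg0 hg3 hz₀
  have hg6 : ∀ z ∈ HPl a, g (z + 6 * Real.pi * Complex.I) = g z := by
    intro z hz
    have h1 : z + 6 * Real.pi * Complex.I = z + T + T + T := by
      rw [hT]; push_cast; ring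
    rw [h1, hω _ (hsh _ (hsh z hz)), hω _ (hsh z hz), hω z hz]
    linear_combination g z * hω3
  have hsh6 : ∀ z ∈ HPl a, z + 6 * Real.pi * Complex.I ∈ HPl a := by
    intro z hz
    have := add_mem_HPl hz (6 * Real.pi)
    push_cast at this
    exact this
  have hc : ∀ z ∈ HPl a, HasDerivAt (fun z => Bh (z + 6 * Real.pi * Complex.I) - Bh z) 0 z := by
    intro z hz
    have h1 := ((hB _ (hsh6 z hz)).comp_add_const z (6 * Real.pi * Complex.I)).sub (hB z hz)
    rw [hg6 z hz, sub_self] at h1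
    exact h1
  set P : ℂ := Bh (z₀ + 6 * Real.pi * Complex.I) - Bh z₀ with hPd
  have hstep : ∀ z ∈ HPl a, Bh (z + 6 * Real.pi * Complex.I) = Bh z + P := by
    intro z hz
    have h1 : Bh (z + 6 * Real.pi * Complex.I) - Bh z = Bh (z₀ + 6 * Real.pi * Complex.I) - Bh z₀ :=
      const_of_deriv_zero hc hz hz₀
    rw [hPd, ← h1]
    ring
  have hPh : ∀ z ∈ HPl a, Ph (z + 6 * Real.pi * Complex.I) = Ph z := by
    intro z hz
    have h1 : z + 6 * Real.pi * Complex.I = z + T + T + T := by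
      rw [hT]; push_cast; ring
    rw [h1, hPper _ (hsh _ (hsh z hz)), hPper _ (hsh z hz), hPper z hz]
  -- `P` is a period of `ψ` near `Bh z₀`
  have hopen : map Bh (𝓝 z₀) = 𝓝 (Bh z₀) := by
    have h2 : AnalyticAt ℂ Bh z₀ := by
      have h3 : DifferentiableOn ℂ Bh (HPl a) := fun z hz =>
        (hB z hz).differentiableAt.differentiableWithinAt
      exact h3.analyticAt (ho.mem_nhds hz₀)
    have h4 := h2.hasStrictDerivAt
    rw [(hB z₀ hz₀).deriv] at h4
    exact h4.map_nhds_eq (hg0 z₀ hz₀)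
  have hloc : (fun w => ψ (w + P)) =ᶠ[𝓝 (Bh z₀)] ψ := by
    rw [← hopen]
    change ∀ᶠ w in map Bh (𝓝 z₀), ψ (w + P) = ψ w
    rw [eventually_map]
    filter_upwards [ho.mem_nhds hz₀] with z hz
    rw [← hstep z hz, hP _ (hsh6 z hz), hPh z hz, hP z hz]
  have hall : (fun w => ψ (w + P)) = ψ := by
    have h1 : Differentiable ℂ fun w => ψ (w + P) := hψ.comp (by fun_prop)
    exact AnalyticOnNhd.eq_of_eventuallyEq (fun z _ => h1.analyticAt z)
      (fun z _ => hψ.analyticAt z) hloc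
  have hP0 : P = 0 := no_period hψ hψper fun z => congrFun hall z
  intro z hz
  rw [hstep z hz, hP0, add_zero]

/-- Step 2: the label has a limit in the strip, and `η` has the corresponding limit -/
lemma label_limitE {ψ H : ℂ → ℂ} (hψ : Differentiable ℂ ψ)
    (hH : Differentiable ℂ H) {c : ℂ} (hc : c ≠ 0)
    (rel : ∀ z, deriv ψ z * deriv (deriv H) z - deriv (deriv ψ) z * deriv H z +
      deriv ψ z ^ 3 * H z = c)
    (hψper : ∀ z, ψ (z + 1) = ψ z + 2 * Real.pi)
    {t₁ : ℂ} {ε : ℝ} (hε : 0 < ε) {Ψ N Dn B : ℂ → ℂ} (hΨ : DifferentiableOn ℂ Ψ (ball t₁ ε))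
    (hN : DifferentiableOn ℂ N (ball t₁ ε)) (hDn : DifferentiableOn ℂ Dn (ball t₁ ε))
    (hDn0 : ∃ t ∈ ball t₁ ε, Dn t ≠ 0) (hB : DifferentiableOn ℂ B (LD t₁ ε))
    (hBnc : ∃ t ∈ LD t₁ ε, deriv B t ≠ 0)
    (h1 : ∀ t ∈ LD t₁ ε, ψ (B t) = Ψ t) (h2 : ∀ t ∈ LD t₁ ε, Dn t * H (B t) = N t) :
    ∃ d, Tendsto B (𝓝[LD t₁ ε] t₁) (𝓝 d) ∧
      Tendsto (fun t => N t / Dn t) (𝓝[≠] t₁) (𝓝 (H d)) := by
  have hgood := good_puncturedS isOpen_univ hψ.differentiableOn hH.differentiableOn hc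
    (fun z _ => rel z) hε hΨ hN hDn hDn0 hB (fun t _ => mem_univ _) hBnc h1 h2
  have hΨb : ∀ᶠ t in 𝓝[≠] t₁, ‖Ψ t‖ ≤ ‖Ψ t₁‖ + 1 := by
    refine nhdsWithin_le_nhds ?_
    have h3 : ContinuousAt Ψ t₁ := (hΨ.differentiableAt (ball_mem_nhds t₁ hε)).continuousAt
    filter_upwards [h3.norm.eventually (gt_mem_nhds (lt_add_one ‖Ψ t₁‖))] with t ht
    exact ht.le
  replace hgood := hgood.and hΨb
  rw [eventually_nhdsWithin_iff, Metric.eventually_nhds_iff_ball] at hgood
  obtain ⟨r, hr, hrr⟩ := hgood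
  set ε₁ := min r ε with hε₁
  have hε₁0 : 0 < ε₁ := lt_min hr hε
  set Wp : Set ℂ := ball t₁ ε₁ \ {t₁} with hWp
  have hWpo : IsOpen Wp := isOpen_ball.sdiff isClosed_singleton
  have hWpb : Wp ⊆ ball t₁ ε := fun t ht => ball_subset_ball (min_le_right _ _) ht.1
  have hW : ∀ t ∈ Wp, Dn t ≠ 0 ∧ deriv Ψ t ≠ 0 ∧ Mf c Ψ (fun t => N t / Dn t) t ≠ 0 :=
    fun t ht => (hrr t (ball_subset_ball (min_le_left _ _) ht.1) ht.2).1
  have hΨK : ∀ t ∈ Wp, ‖Ψ t‖ ≤ ‖Ψ t₁‖ + 1 :=
    fun t ht => (hrr t (ball_subset_ball (min_le_left _ _) ht.1) ht.2).2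
  have hLsub : LD t₁ ε₁ ⊆ LD t₁ ε := LD_mono (min_le_right _ _)
  have hLW : LD t₁ ε₁ ⊆ Wp := fun t ht => ⟨ht.1, ne_of_mem_LD ht⟩
  set η : ℂ → ℂ := fun t => N t / Dn t with hη
  have hηd : DifferentiableOn ℂ η Wp := (hN.mono hWpb).div (hDn.mono hWpb) fun t ht => (hW t ht).1
  have hΨd : DifferentiableOn ℂ (deriv Ψ) Wp := (hΨ.deriv isOpen_ball).mono hWpb
  have hMd : DifferentiableOn ℂ (Mf c Ψ η) Wp := by
    have m1 : DifferentiableOn ℂ (fun t => deriv η t / deriv Ψ t) Wp :=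
      (hηd.deriv hWpo).div hΨd fun t ht => (hW t ht).2.1
    exact (((m1.deriv hWpo).add (hηd.mul hΨd)).mul (hΨd.pow 2)).div_const c
  have hη2 : ∀ t ∈ LD t₁ ε₁, H (B t) = η t := by
    intro t ht
    rw [hη]
    change H (B t) = N t / Dn t
    rw [eq_div_iff (hW t (hLW ht)).1, mul_comm]
    exact h2 t (hLsub ht)
  have hcube : ∀ t ∈ LD t₁ ε₁, Mf c Ψ η t = deriv B t ^ 3 :=
    cubeS isOpen_univ hψ.differentiableOn hH.differentiableOn hc (fun z _ => rel z)
      (isOpen_LD t₁ ε₁) (hB.mono hLsub) (fun t _ => mem_univ _)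
      (fun t ht => h1 t (hLsub ht)) hη2 (fun t ht => (hW t (hLW ht)).2.1)
  -- logarithmic coordinate
  set a : ℝ := Real.log ε₁ with ha
  set E : ℂ → ℂ := fun z => t₁ + Complex.exp z with hE
  have hEd : ∀ z, HasDerivAt E (Complex.exp z) z := fun z =>
    (Complex.hasDerivAt_exp z).const_add t₁
  have hEW : MapsTo E (HPl a) Wp := by
    intro z hz
    refine ⟨?_, ?_⟩
    · rw [mem_ball, dist_eq_norm, hE]
      simp only [add_sub_cancel_left]
      rw [Complex.norm_exp]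
      have : z.re < Real.log ε₁ := hz
      exact (Real.lt_log_iff_exp_lt hε₁0).1 this
    · rw [mem_singleton_iff, hE]
      simp only [add_eq_left]
      exact Complex.exp_ne_zero z
  have ho := isOpen_HPl a
  have hEdo : DifferentiableOn ℂ E (HPl a) := fun z _ => (hEd z).differentiableAt.differentiableWithinAt
  set Gh : ℂ → ℂ := fun z => Mf c Ψ η (E z) * Complex.exp z ^ 3 with hGh
  have hGhd : DifferentiableOn ℂ Gh (HPl a) :=
    (hMd.comp hEdo hEW).mul ((Complex.differentiable_exp.pow 3).differentiableOn)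
  have hGh0 : ∀ z ∈ HPl a, Gh z ≠ 0 := fun z hz =>
    mul_ne_zero (hW _ (hEW hz)).2.2 (pow_ne_zero 3 (Complex.exp_ne_zero z))
  obtain ⟨g₀, hg₀d, hg₀0, hg₀3⟩ := exists_cbrt hGhd hGh0
  -- the start region
  set Z : Set ℂ := {z | z.re < a} ∩ ({z | -Real.pi < z.im} ∩ {z | z.im < 0}) with hZ
  have hZo : IsOpen Z := (isOpen_lt Complex.continuous_re continuous_const).inter
    ((isOpen_lt continuous_const Complex.continuous_im).inter
      (isOpen_lt Complex.continuous_im continuous_const))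
  have hZc : Convex ℝ Z := (convex_halfSpace_re_lt a).inter
    ((convex_halfSpace_im_gt _).inter (convex_halfSpace_im_lt _))
  have hZH : Z ⊆ HPl a := fun z hz => hz.1
  have hEZ : MapsTo E Z (LD t₁ ε₁) := by
    intro z hz
    refine ⟨(hEW (hZH hz)).1, ?_⟩
    change (t₁ + Complex.exp z).im < t₁.im
    rw [Complex.add_im, Complex.exp_im]
    have h3 : Real.sin z.im < 0 := Real.sin_neg_of_neg_of_neg_pi_lt hz.2.2 hz.2.1
    have h4 := mul_neg_of_pos_of_neg (Real.exp_pos z.re) h3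
    linarith
  have hBZ : ∀ z ∈ Z, HasDerivAt (fun z => B (E z)) (deriv B (E z) * Complex.exp z) z := by
    intro z hz
    have h3 : HasDerivAt B (deriv B (E z)) (E z) :=
      (hB.differentiableAt ((isOpen_LD t₁ ε).mem_nhds (hLsub (hEZ hz)))).hasDerivAt
    exact h3.comp z (hEd z)
  have hbd : DifferentiableOn ℂ (fun z => deriv B (E z) * Complex.exp z) Z := by
    refine DifferentiableOn.mul ?_ Complex.differentiable_exp.differentiableOn
    exact ((hB.deriv (isOpen_LD t₁ ε)).mono hLsub).comp (hEdo.mono hZH) hEZ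
  set z₀ : ℂ := ((a - 1 : ℝ) : ℂ) + ((-(Real.pi / 2) : ℝ) : ℂ) * Complex.I with hz₀d
  have hz₀ : z₀ ∈ Z := by
    have hpi := Real.pi_pos
    refine ⟨?_, ?_, ?_⟩
    · change z₀.re < a
      rw [hz₀d]
      simp
    · change -Real.pi < z₀.im
      rw [hz₀d]
      simp
      linarith
    · change z₀.im < 0
      rw [hz₀d]
      simp
      linarith
  obtain ⟨ω, hω3, hω⟩ := cube_const hZo hZc hbd (hg₀d.mono hZH) (fun z hz => hg₀0 z (hZH hz))
    (fun z hz => by
      rw [hg₀3 z (hZH hz), hGh]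
      simp only
      rw [hcube _ (hEZ hz)]
      ring) hz₀
  have hω0 : ω ≠ 0 := by
    rintro rfl
    norm_num at hω3
  set g : ℂ → ℂ := fun z => ω * g₀ z with hg
  have hgd : DifferentiableOn ℂ g (HPl a) := hg₀d.const_mul ω
  have hg0 : ∀ z ∈ HPl a, g z ≠ 0 := fun z hz => mul_ne_zero hω0 (hg₀0 z hz)
  obtain ⟨Bh, hBh0, hBh⟩ := exists_prim hgd (hZH hz₀) (B (E z₀))
  have hBhZ : ∀ z ∈ Z, Bh z = B (E z) := by
    intro z hz
    have h3 : ∀ z ∈ Z, HasDerivAt (fun z => Bh z - B (E z)) 0 z := by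
      intro z hz
      have h4 := (hBh z (hZH hz)).sub (hBZ z hz)
      rw [hω z hz] at h4
      change HasDerivAt _ (ω * g₀ z - ω * g₀ z) z at h4
      rw [sub_self] at h4
      exact h4
    have h5 : Bh z - B (E z) = Bh z₀ - B (E z₀) := const_of_deriv_zero' hZo hZc h3 hz hz₀
    rw [hBh0, sub_self] at h5
    exact sub_eq_zero.1 h5
  have hBhd : DifferentiableOn ℂ Bh (HPl a) := fun z hz =>
    (hBh z hz).differentiableAt.differentiableWithinAt
  have hall1 : EqOn (fun z => ψ (Bh z)) (fun z => Ψ (E z)) (HPl a) := by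
    refine AnalyticOnNhd.eqOn_of_preconnected_of_eventuallyEq (𝕜 := ℂ)
      ((hψ.comp_differentiableOn hBhd).analyticOnNhd ho)
      ((hΨ.comp hEdo fun z hz => hWpb (hEW hz)).analyticOnNhd ho)
      (convex_HPl a).isPreconnected (hZH hz₀) ?_
    filter_upwards [hZo.mem_nhds hz₀] with z hz
    rw [hBhZ z hz]
    exact h1 _ (hLsub (hEZ hz))
  have hall2 : EqOn (fun z => H (Bh z)) (fun z => η (E z)) (HPl a) := by
    refine AnalyticOnNhd.eqOn_of_preconnected_of_eventuallyEq (𝕜 := ℂ)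
      ((hH.comp_differentiableOn hBhd).analyticOnNhd ho)
      ((hηd.comp hEdo hEW).analyticOnNhd ho)
      (convex_HPl a).isPreconnected (hZH hz₀) ?_
    filter_upwards [hZo.mem_nhds hz₀] with z hz
    rw [hBhZ z hz]
    exact hη2 _ (hEZ hz)
  have hEper : ∀ z, E (z + (2 * Real.pi : ℝ) * Complex.I) = E z := by
    intro z
    simp only [hE]
    congr 1
    have := Complex.exp_periodic z
    push_cast
    exact this
  have hper := period_zeroE (ψ := ψ) (g := g) (Bh := Bh) (Ph := fun z => Ψ (E z))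
    hψ hψper hBh hgd hg0
    (fun z hz => by
      simp only [hg]
      rw [mul_pow, mul_pow, hg₀3 _ (add_mem_HPl hz _), hg₀3 z hz, hGh]
      simp only
      rw [hEper z]
      have := Complex.exp_periodic z
      push_cast
      rw [this])
    (fun z hz => hall1 hz) (fun z _ => by
      rw [hEper z])
  obtain ⟨d, hd⟩ := cuspE (Ph := fun z => Ψ (E z)) hψ hψper hBhd hper (fun z hz => hall1 hz)
    (fun z hz => hΨK _ (hEW hz))
  have hlog : Tendsto (fun t => Complex.log (t - t₁)) (𝓝[≠] t₁) LI := by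
    rw [LI, Filter.tendsto_comap_iff]
    have h3 : (Complex.re ∘ fun t => Complex.log (t - t₁)) = fun t => Real.log ‖t - t₁‖ := by
      funext t
      simp [Complex.log_re]
    rw [h3]
    have h4 : Tendsto (fun t : ℂ => t - t₁) (𝓝[≠] t₁) (𝓝[≠] 0) := by
      refine tendsto_nhdsWithin_of_tendsto_nhds_of_eventually_within _ ?_ ?_
      · have : Tendsto (fun t : ℂ => t - t₁) (𝓝 t₁) (𝓝 (t₁ - t₁)) :=
          (continuous_id.sub continuous_const).tendsto t₁
        rw [sub_self] at this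
        exact this.mono_left nhdsWithin_le_nhds
      · filter_upwards [self_mem_nhdsWithin] with t ht
        exact sub_ne_zero.2 ht
    exact Real.tendsto_log_nhdsGT_zero.comp (tendsto_norm_nhdsNE_zero.comp h4)
  have hElog : ∀ t : ℂ, t ≠ t₁ → E (Complex.log (t - t₁)) = t := by
    intro t ht
    simp only [hE]
    rw [Complex.exp_log (sub_ne_zero.2 ht)]
    ring
  refine ⟨d, ?_, ?_⟩
  · have h3 : Tendsto (fun t => Bh (Complex.log (t - t₁))) (𝓝[LD t₁ ε] t₁) (𝓝 d) :=
      (hd.comp hlog).mono_left (nhdsWithin_mono _ fun t ht => ne_of_mem_LD ht)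
    refine h3.congr' ?_
    have h4 : ∀ᶠ t in 𝓝[LD t₁ ε] t₁, t ∈ ball t₁ ε₁ :=
      nhdsWithin_le_nhds (ball_mem_nhds t₁ hε₁0)
    filter_upwards [h4, self_mem_nhdsWithin] with t ht htL
    have htn := ne_of_mem_LD htL
    have hz : Complex.log (t - t₁) ∈ Z := by
      refine ⟨?_, ?_, ?_⟩
      · change (Complex.log (t - t₁)).re < a
        rw [Complex.log_re, ha]
        rw [mem_ball, dist_eq_norm] at ht
        exact Real.log_lt_log (norm_pos_iff.2 (sub_ne_zero.2 htn)) ht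
      · exact Complex.neg_pi_lt_log_im _
      · change (Complex.log (t - t₁)).im < 0
        rw [Complex.log_im, Complex.arg_neg_iff, Complex.sub_im]
        have : t.im < t₁.im := htL.2
        linarith
    rw [hBhZ _ hz, hElog t htn]
  · have h3 : Tendsto (fun z => H (Bh z)) LI (𝓝 (H d)) :=
      (hH.continuous.tendsto d).comp hd
    refine (h3.comp hlog).congr' ?_
    have h4 : ∀ᶠ t in 𝓝[≠] t₁, t ∈ ball t₁ ε₁ := nhdsWithin_le_nhds (ball_mem_nhds t₁ hε₁0)
    filter_upwards [h4, self_mem_nhdsWithin] with t ht htn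
    have hz : Complex.log (t - t₁) ∈ HPl a := by
      change (Complex.log (t - t₁)).re < a
      rw [Complex.log_re, ha]
      rw [mem_ball, dist_eq_norm] at ht
      exact Real.log_lt_log (norm_pos_iff.2 (sub_ne_zero.2 htn)) ht
    have h5 := hall2 hz
    change H (Bh (Complex.log (t - t₁))) = N t / Dn t
    change H (Bh (Complex.log (t - t₁))) = _ at h5
    rw [h5]
    change N (E (Complex.log (t - t₁))) / Dn (E (Complex.log (t - t₁))) = N t / Dn t
    rw [hElog t htn]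

/-- **F1 (ii), one variable**: two regular lines `=>` the vertex is regular, with label in the
strip. -/
theorem r1dE {ψ H : ℂ → ℂ} (hψ : Differentiable ℂ ψ)
    (hH : Differentiable ℂ H) {c : ℂ} (hc : c ≠ 0)
    (rel : ∀ z, deriv ψ z * deriv (deriv H) z - deriv (deriv ψ) z * deriv H z +
      deriv ψ z ^ 3 * H z = c)
    (hψper : ∀ z, ψ (z + 1) = ψ z + 2 * Real.pi) : R1D univ ψ H := by
  intro t₁ ε hε Ψ N Dn B hΨ hN hDn hDn0 hB _ hBnc h1 h2
  obtain ⟨d, hd1, hd2⟩ := label_limitE hψ hH hc rel hψper hε hΨ hN hDn hDn0 hB hBnc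
    h1 h2
  have hne := LD_neBot (t₁ := t₁) hε
  have hΨa : AnalyticAt ℂ Ψ t₁ := hΨ.analyticAt (ball_mem_nhds t₁ hε)
  have hψa : AnalyticAt ℂ ψ d := hψ.analyticAt d
  have hHa : AnalyticAt ℂ H d := hH.analyticAt d
  have hdΨ : Ψ t₁ = ψ d := by
    have h3 : Tendsto Ψ (𝓝[LD t₁ ε] t₁) (𝓝 (Ψ t₁)) := hΨa.continuousAt.tendsto.mono_left
      nhdsWithin_le_nhds
    have h4 : Tendsto (fun t => ψ (B t)) (𝓝[LD t₁ ε] t₁) (𝓝 (ψ d)) :=
      hψa.continuousAt.tendsto.comp hd1
    have h5 : Tendsto Ψ (𝓝[LD t₁ ε] t₁) (𝓝 (ψ d)) := by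
      refine h4.congr' ?_
      filter_upwards [self_mem_nhdsWithin] with t ht
      exact h1 t ht
    exact tendsto_nhds_unique h3 h5
  -- the local extension
  have key : ∃ Bt : ℂ → ℂ, AnalyticAt ℂ Bt t₁ ∧ Bt t₁ = d ∧ ∀ᶠ t in 𝓝[LD t₁ ε] t₁, Bt t = B t := by
    by_cases hp : deriv ψ d = 0
    · -- use `H`
      have hH0 : deriv H d ≠ 0 := by
        intro h0
        have := rel d
        rw [hp, h0] at this
        apply hc
        rw [← this]
        ring
      obtain ⟨κ, hκa, hκd, -, hκl⟩ := exists_local_inverse hHa hH0 univ_mem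
      set ηt : ℂ → ℂ := Function.update (fun t => N t / Dn t) t₁ (H d) with hηt
      have hηc : ContinuousAt ηt t₁ := continuousAt_update_same.2 hd2
      have hgood := good_puncturedS isOpen_univ hψ.differentiableOn hH.differentiableOn hc
        (fun z _ => rel z) hε hΨ hN hDn hDn0 hB (fun t _ => mem_univ _) hBnc h1 h2
      have hηdiff : ∀ᶠ t in 𝓝[≠] t₁, DifferentiableAt ℂ ηt t := by
        filter_upwards [hgood, self_mem_nhdsWithin,
          nhdsWithin_le_nhds (ball_mem_nhds t₁ hε)] with t ht htn htb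
        have h3 : DifferentiableAt ℂ (fun t => N t / Dn t) t :=
          (hN.differentiableAt (isOpen_ball.mem_nhds htb)).div
            (hDn.differentiableAt (isOpen_ball.mem_nhds htb)) ht.1
        refine h3.congr_of_eventuallyEq ?_
        filter_upwards [isOpen_ne.mem_nhds htn] with s hs
        rw [hηt, Function.update_of_ne hs]
      have hηa : AnalyticAt ℂ ηt t₁ :=
        Complex.analyticAt_of_differentiable_on_punctured_nhds_of_continuousAt hηdiff hηc
      have hηt₁ : ηt t₁ = H d := by rw [hηt, Function.update_self]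
      refine ⟨fun t => κ (ηt t), ?_, ?_, ?_⟩
      · rw [← hηt₁] at hκa
        exact hκa.comp hηa
      · simp only [hηt₁, hκd]
      · have h3 := hd1.eventually hκl
        have hg2 : ∀ᶠ t in 𝓝[LD t₁ ε] t₁, Dn t ≠ 0 :=
          (hgood.mono fun t ht => ht.1).filter_mono
            (nhdsWithin_mono _ fun t ht => ne_of_mem_LD ht)
        filter_upwards [h3, self_mem_nhdsWithin, hg2] with t ht htL htD
        have h4 : ηt t = H (B t) := by
          rw [hηt, Function.update_of_ne (ne_of_mem_LD htL), div_eq_iff htD, mul_comm]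
          exact (h2 t htL).symm
        rw [h4, ht]
    · obtain ⟨κ, hκa, hκd, -, hκl⟩ := exists_local_inverse hψa hp univ_mem
      refine ⟨fun t => κ (Ψ t), ?_, ?_, ?_⟩
      · rw [← hdΨ] at hκa
        exact hκa.comp hΨa
      · simp only [hdΨ, hκd]
      · have h3 := hd1.eventually hκl
        filter_upwards [h3, self_mem_nhdsWithin] with t ht htL
        rw [← h1 t htL, ht]
  obtain ⟨Bt, hBta, hBt₁, hBte⟩ := key
  have hBtS : ∀ᶠ t in 𝓝 t₁, DifferentiableAt ℂ Bt t :=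
    hBta.eventually_analyticAt.mono fun t ht => ht.differentiableAt
  rw [eventually_nhdsWithin_iff] at hBte
  obtain ⟨r, hr, hrr⟩ := Metric.eventually_nhds_iff_ball.1 (hBtS.and hBte)
  set r' := min r ε with hr'
  have hr'0 : 0 < r' := lt_min hr hε
  have hb1 : ball t₁ r' ⊆ ball t₁ r := ball_subset_ball (min_le_left _ _)
  have hb2 : ball t₁ r' ⊆ ball t₁ ε := ball_subset_ball (min_le_right _ _)
  have hBtd : DifferentiableOn ℂ Bt (ball t₁ r') := fun t ht =>
    (hrr t (hb1 ht)).1.differentiableWithinAt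
  have hEq : EqOn Bt B (LD t₁ r') := fun t ht =>
    (hrr t (hb1 ht.1)).2 ⟨hb2 ht.1, ht.2⟩
  have hx₀ : t₁ - (r' / 2 : ℝ) * Complex.I ∈ LD t₁ r' := mem_LD_self (by positivity) (by linarith)
  have hLsub : LD t₁ r' ⊆ LD t₁ ε := LD_mono (min_le_right _ _)
  have e1 : EqOn (fun t => ψ (Bt t)) Ψ (ball t₁ r') := by
    refine AnalyticOnNhd.eqOn_of_preconnected_of_eventuallyEq (𝕜 := ℂ)
      ((hψ.comp_differentiableOn hBtd).analyticOnNhd isOpen_ball) ((hΨ.mono hb2).analyticOnNhd isOpen_ball)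
      (convex_ball t₁ r').isPreconnected hx₀.1 ?_
    filter_upwards [(isOpen_LD t₁ r').mem_nhds hx₀] with t ht
    rw [hEq ht]
    exact h1 t (hLsub ht)
  have e2 : EqOn (fun t => Dn t * H (Bt t)) N (ball t₁ r') := by
    refine AnalyticOnNhd.eqOn_of_preconnected_of_eventuallyEq (𝕜 := ℂ)
      (((hDn.mono hb2).mul (hH.comp_differentiableOn hBtd)).analyticOnNhd isOpen_ball)
      ((hN.mono hb2).analyticOnNhd isOpen_ball)
      (convex_ball t₁ r').isPreconnected hx₀.1 ?_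
    filter_upwards [(isOpen_LD t₁ r').mem_nhds hx₀] with t ht
    rw [hEq ht]
    exact h2 t (hLsub ht)
  exact ⟨r', hr'0, min_le_right _ _, Bt, hBtd, fun t ht => ⟨mem_univ _, e1 ht, e2 ht⟩, hEq⟩


/-- **RULE-E, joint form** (entire curve; retro-reflection allowed: `Dn` may vanish at `x`, but not
identically on the slice). -/
theorem rule2E {ψ H : ℂ → ℂ} (hψ : Differentiable ℂ ψ)
    (hH : Differentiable ℂ H) {c : ℂ} (hc : c ≠ 0)
    (rel : ∀ z, deriv ψ z * deriv (deriv H) z - deriv (deriv ψ) z * deriv H z +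
      deriv ψ z ^ 3 * H z = c)
    (hψper : ∀ z, ψ (z + 1) = ψ z + 2 * Real.pi)
    {D : Set (ℂ × ℂ)} (hD : IsOpen D) {B Ψ N Dn : ℂ × ℂ → ℂ} (hB : DifferentiableOn ℂ B D)
    {t1 w1 : ℂ} (hΨ : AnalyticAt ℂ Ψ (t1, w1)) (hN : AnalyticAt ℂ N (t1, w1))
    (hDn : AnalyticAt ℂ Dn (t1, w1)) (hDnf : ∃ᶠ t in 𝓝 t1, Dn (t, w1) ≠ 0)
    (hDb : ∀ b, deriv ψ b = 0 → ψ b = Ψ (t1, w1) → Dn (t1, w1) ≠ 0)
    (h1 : ∀ᶠ y in 𝓝 (t1, w1), y ∈ D → ψ (B y) = Ψ y)
    (h2 : ∀ᶠ y in 𝓝 (t1, w1), y ∈ D → Dn y * H (B y) = N y)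
    {r0 : ℝ} (hr0 : 0 < r0) (hseg : ∀ s : ℝ, 0 < s → s < r0 → (t1 - s * Complex.I, w1) ∈ D)
    (hnc : ∀ s : ℝ, 0 < s → s < r0 → deriv (fun t => B (t, w1)) (t1 - s * Complex.I) ≠ 0) :
    ∃ G : ℂ × ℂ → ℂ, AnalyticAt ℂ G (t1, w1) ∧
      ∀ᶠ s : ℝ in 𝓝[>] 0, G =ᶠ[𝓝 (t1 - s * Complex.I, w1)] B := by
  obtain ⟨G, g1, -, g3⟩ := rule2S isOpen_univ hψ.differentiableOn hH.differentiableOn hc
    (fun z _ => rel z) (r1dE hψ hH hc rel hψper) hD hB (fun _ _ => mem_univ _) hΨ hN hDn hDnf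
    (fun b _ => hDb b) h1 h2 hr0 hseg hnc
  exact ⟨G, g1, g3⟩

/-- **RULE-E, germ form on a disc**: the tangent-line data `Ψ, N, Dn` are holomorphic on
`ball t1 ε`, a non-constant germ of the label is given at one point `t0` of the disc; then the label
continues to the whole disc. -/
theorem rule1E {ψ H : ℂ → ℂ} (hψ : Differentiable ℂ ψ)
    (hH : Differentiable ℂ H) {c : ℂ} (hc : c ≠ 0)
    (rel : ∀ z, deriv ψ z * deriv (deriv H) z - deriv (deriv ψ) z * deriv H z +
      deriv ψ z ^ 3 * H z = c)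
    (hψper : ∀ z, ψ (z + 1) = ψ z + 2 * Real.pi)
    {t1 t0 : ℂ} {ε : ℝ} {Ψ N Dn : ℂ → ℂ}
    (hΨ : DifferentiableOn ℂ Ψ (ball t1 ε)) (hN : DifferentiableOn ℂ N (ball t1 ε))
    (hDn : DifferentiableOn ℂ Dn (ball t1 ε)) (hDn0 : ∃ t ∈ ball t1 ε, Dn t ≠ 0)
    (ht0 : t0 ∈ ball t1 ε) {B : ℂ → ℂ} (hB : AnalyticAt ℂ B t0)
    (h1 : ∀ᶠ t in 𝓝 t0, ψ (B t) = Ψ t) (h2 : ∀ᶠ t in 𝓝 t0, Dn t * H (B t) = N t)
    (hnc : ∃ᶠ t in 𝓝 t0, deriv B t ≠ 0) :
    ∃ Bt : ℂ → ℂ, DifferentiableOn ℂ Bt (ball t1 ε) ∧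
      (∀ t ∈ ball t1 ε, ψ (Bt t) = Ψ t ∧ Dn t * H (Bt t) = N t) ∧ Bt =ᶠ[𝓝 t0] B := by
  obtain ⟨Bt, b1, b2, b3⟩ := rule1gS (r1dE hψ hH hc rel hψper) hΨ hN hDn hDn0 ht0 hB
    (by filter_upwards [h1, h2] with t k1 k2 using ⟨mem_univ _, k1, k2⟩) hnc
  exact ⟨Bt, b1, fun t ht => (b2 t ht).2, b3⟩

end Crest.Agent.R102.F300
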