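import Mathlib
import Crest.Agent.R102.BoxM_628
import Crest.Agent.R102.RuleE_300

/-!
Row 102, part (C), T1-E: **RULE, vertex, in Case E** (helper628; proof of helper982's `rule_vertex`
with helper300's RULE-E in place of the natural boundary): two regular lines give a regular label.
-/

set_option autoImplicit false

open Set Filter Topology Metric
open scoped ComplexConjugate

noncomputable section

namespace Crest.Agent.R102.ShE628

open Crest.Agent.R102.T5 Crest.Agent.R102.G576 Crest.Agent.R102.A929 Crest.Agent.R102.B821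
open Crest.Agent.R102.C0 Crest.Agent.R102.C1 Crest.Agent.R102.Rule982
open Crest.Agent.R102.F300 (rule1E extend_of_cluster' Inc)
open Crest.Agent.R102.VH982 (pt pt_eta pt_snd pt_re pt_im tube_mem eq_along continuous_pt_y)
open Crest.Agent.R102.K669 (Slab Tube IsReg isReg_of_slab isOpen_isReg ext_eq
  ext_differentiableAt ext_mem ext_slab isReg_of_local isOpen_slab mem_tube_self isReg_of_tube)
open Crest.Agent.R102.Sh982
open Crest.Agent.R102.Mir151 (MirE)

/-- `rule3` for an entire curve -/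
theorem rule3E {ψ H : ℂ → ℂ} (hψ : Differentiable ℂ ψ)
    (hH : Differentiable ℂ H) {c : ℂ} (hc : c ≠ 0)
    (rel : ∀ z, deriv ψ z * deriv (deriv H) z - deriv (deriv ψ) z * deriv H z +
      deriv ψ z ^ 3 * H z = c)
    (hψper : ∀ z, ψ (z + 1) = ψ z + 2 * Real.pi)
    {D : Set (ℂ × ℂ)} (hD : IsOpen D) {B Ψ N Dn : ℂ × ℂ → ℂ} (hB : DifferentiableOn ℂ B D)
    {t1 w1 : ℂ} (hΨ : AnalyticAt ℂ Ψ (t1, w1)) (hN : AnalyticAt ℂ N (t1, w1))
    (hDn : AnalyticAt ℂ Dn (t1, w1)) (hDnf : ∃ᶠ t in 𝓝 t1, Dn (t, w1) ≠ 0)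
    (hDb : ∀ z : ℂ, ∀ u : ℕ → ℂ × ℂ, (∀ n, u n ∈ D) → Tendsto u atTop (𝓝 (t1, w1)) →
      Tendsto (fun n => B (u n)) atTop (𝓝 z) → deriv ψ z = 0 → Dn (t1, w1) ≠ 0)
    (h1 : ∀ᶠ y in 𝓝 (t1, w1), y ∈ D → ψ (B y) = Ψ y)
    (h2 : ∀ᶠ y in 𝓝 (t1, w1), y ∈ D → Dn y * H (B y) = N y)
    {r0 : ℝ} (hr0 : 0 < r0) (hseg : ∀ s : ℝ, 0 < s → s < r0 → (t1 - s * Complex.I, w1) ∈ D)
    (hnc : ∀ s : ℝ, 0 < s → s < r0 →
      ∃ᶠ t in 𝓝 (t1 - s * Complex.I), deriv (fun t => B (t, w1)) t ≠ 0) :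
    ∃ G : ℂ × ℂ → ℂ, AnalyticAt ℂ G (t1, w1) ∧
      ∀ᶠ s : ℝ in 𝓝[>] 0, G =ᶠ[𝓝 (t1 - s * Complex.I, w1)] B := by
  -- slices
  have hsl : ∀ F : ℂ × ℂ → ℂ, ∀ t : ℂ, AnalyticAt ℂ F (t, w1) →
      AnalyticAt ℂ (fun t => F (t, w1)) t := by
    intro F t hF
    have h3 : AnalyticAt ℂ (fun t : ℂ => ((t, w1) : ℂ × ℂ)) t := analyticAt_id.prod analyticAt_const
    exact AnalyticAt.comp (g := F) (f := fun t : ℂ => ((t, w1) : ℂ × ℂ)) hF h3
  have hslc : Tendsto (fun t : ℂ => ((t, w1) : ℂ × ℂ)) (𝓝 t1) (𝓝 (t1, w1)) :=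
    (Continuous.prodMk continuous_id continuous_const).tendsto t1
  obtain ⟨ε, hε, hball⟩ := Metric.eventually_nhds_iff_ball.1 (hslc.eventually
    (hΨ.eventually_analyticAt.and (hN.eventually_analyticAt.and
      (hDn.eventually_analyticAt.and (h1.eventually_nhds.and h2.eventually_nhds)))))
  set s0 : ℝ := min r0 ε / 2 with hs0
  have hs0p : 0 < s0 := by positivity
  have hs0r : s0 < r0 := by have := min_le_left r0 ε; rw [hs0]; linarith [lt_min hr0 hε]
  have hs0ε : s0 < ε := by have := min_le_right r0 ε; rw [hs0]; linarith [lt_min hr0 hε]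
  have hmem : ∀ s : ℝ, 0 < s → s < ε → t1 - s * Complex.I ∈ ball t1 ε := by
    intro s hs hsε
    rw [mem_ball, dist_eq_norm, sub_sub_cancel_left, norm_neg, norm_mul, Complex.norm_I, mul_one,
      Complex.norm_real, Real.norm_eq_abs, abs_of_pos hs]
    exact hsε
  -- `B` analytic on the slice near the segment
  have hBan : ∀ t : ℂ, (t, w1) ∈ D → AnalyticAt ℂ (fun t => B (t, w1)) t := by
    intro t ht
    have := Crest.Agent.R266.SCV.analyticOnNhd_of_differentiableOn hD hB (t, w1) ht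
    exact hsl B t this
  have hDev : ∀ t : ℂ, (t, w1) ∈ D → ∀ᶠ t' in 𝓝 t, (t', w1) ∈ D := by
    intro t ht
    have hc1 : Tendsto (fun t : ℂ => ((t, w1) : ℂ × ℂ)) (𝓝 t) (𝓝 (t, w1)) :=
      (Continuous.prodMk continuous_id continuous_const).tendsto t
    exact hc1.eventually (hD.mem_nhds ht)
  have hPV : ∀ t ∈ ball t1 ε, (t, w1) ∈ D →
      ψ (B (t, w1)) = Ψ (t, w1) ∧ Dn (t, w1) * H (B (t, w1)) = N (t, w1) := by
    intro t ht htD
    obtain ⟨-, -, -, a5, a6⟩ := hball t ht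
    exact ⟨a5.self_of_nhds htD, a6.self_of_nhds htD⟩
  have hDnx : ∃ t ∈ ball t1 ε, Dn (t, w1) ≠ 0 := by
    obtain ⟨t, k1, k2⟩ := (hDnf.and_eventually (ball_mem_nhds t1 hε)).exists
    exact ⟨t, k2, k1⟩
  obtain ⟨Bt, b1, b2, b3⟩ := rule1E hψ hH hc rel hψper (t1 := t1)
    (t0 := t1 - s0 * Complex.I) (ε := ε) (Ψ := fun t => Ψ (t, w1)) (N := fun t => N (t, w1))
    (Dn := fun t => Dn (t, w1))
    (fun t ht => (hsl Ψ t (hball t ht).1).differentiableAt.differentiableWithinAt)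
    (fun t ht => (hsl N t (hball t ht).2.1).differentiableAt.differentiableWithinAt)
    (fun t ht => (hsl Dn t (hball t ht).2.2.1).differentiableAt.differentiableWithinAt)
    hDnx (hmem s0 hs0p hs0ε)
    (B := fun t => B (t, w1)) (hBan _ (hseg s0 hs0p hs0r))
    (by
      filter_upwards [hDev _ (hseg s0 hs0p hs0r), isOpen_ball.mem_nhds (hmem s0 hs0p hs0ε)]
        with t k1 k2
      exact (hPV t k2 k1).1)
    (by
      filter_upwards [hDev _ (hseg s0 hs0p hs0r), isOpen_ball.mem_nhds (hmem s0 hs0p hs0ε)]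
        with t k1 k2
      exact (hPV t k2 k1).2)
    (hnc s0 hs0p hs0r)
  -- `Bt = B` along the segment
  have hEqseg : ∀ s : ℝ, 0 < s → s ≤ s0 → Bt (t1 - s * Complex.I) = B (t1 - s * Complex.I, w1) := by
    -- identity theorem along the segment: the set of good `s` is clopen in `(0, s0]`
    set γ : ℝ → ℂ := fun s => t1 - s * Complex.I with hγ
    set V : Set ℂ := {t | t ∈ ball t1 ε ∧ (t, w1) ∈ D} with hV
    have hVo : IsOpen V := by
      rw [isOpen_iff_mem_nhds]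
      rintro t ⟨k1, k2⟩
      filter_upwards [isOpen_ball.mem_nhds k1, hDev t k2] with y l1 l2
      exact ⟨l1, l2⟩
    intro s hs hss
    -- preconnected component: the set of points of `V` near which the two agree is clopen in `V`
    set T : Set ℂ := {t | Bt =ᶠ[𝓝 t] fun t => B (t, w1)} with hT
    have hTo : IsOpen T := isOpen_setOfPred_eventually_nhds
    have hTcl : ∀ t ∈ V, t ∈ closure T → t ∈ T := by
      intro t ht htc
      have a1 : AnalyticAt ℂ Bt t := b1.analyticAt (isOpen_ball.mem_nhds ht.1)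
      have a2 : AnalyticAt ℂ (fun t => B (t, w1)) t := hBan t ht.2
      have a3 : ∃ᶠ y in 𝓝 t, y ∈ T := mem_closure_iff_frequently.1 htc
      rcases (a1.eventually_eq_or_eventually_ne a2) with a4 | a4
      · exact a4
      · exfalso
        have a5 : ∀ᶠ y in 𝓝 t, y ≠ t → Bt y ≠ B (y, w1) := eventually_nhdsWithin_iff.1 a4
        obtain ⟨y, hy, hy2⟩ := (a3.and_eventually a5.eventually_nhds).exists
        have a6 : ∀ᶠ z in 𝓝 y, z = t := by
          filter_upwards [hy2, hy] with z l1 l2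
          by_contra l3
          exact l1 l3 l2
        have a7 : ∀ᶠ z in 𝓝[≠] y, z = t := a6.filter_mono nhdsWithin_le_nhds
        have a8 : ∀ᶠ z in 𝓝[≠] y, z ≠ y := eventually_mem_nhdsWithin
        obtain ⟨z, hz1, hz2⟩ := (a7.and a8).exists
        exact hz2 (hz1.trans a6.self_of_nhds.symm)
    have hγc : Continuous γ := by rw [hγ]; fun_prop
    have hIcc : IsPreconnected (γ '' Icc s s0) := isPreconnected_Icc.image _ hγc.continuousOn
    have hsubV : γ '' Icc s s0 ⊆ V := by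
      rintro _ ⟨σ, hσ, rfl⟩
      exact ⟨hmem σ (hs.trans_le hσ.1) (hσ.2.trans_lt hs0ε),
        hseg σ (hs.trans_le hσ.1) (hσ.2.trans_lt hs0r)⟩
    have hsubT : γ '' Icc s s0 ⊆ T := by
      refine hIcc.subset_of_closure_inter_subset hTo ⟨γ s0, ⟨s0, ⟨hss, le_rfl⟩, rfl⟩, b3⟩ ?_
      rintro z ⟨hz1, hz2⟩
      exact hTcl z (hsubV hz2) hz1
    have : γ s ∈ T := hsubT ⟨s, ⟨le_rfl, hss⟩, rfl⟩
    exact (show Bt =ᶠ[𝓝 (γ s)] fun t => B (t, w1) from this).self_of_nhds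
  -- cluster value
  set u : ℕ → ℂ × ℂ := fun n => (t1 - ((s0 / (n + 1 : ℝ) : ℝ) : ℂ) * Complex.I, w1) with hu
  have hsn : ∀ n : ℕ, 0 < s0 / (n + 1 : ℝ) ∧ s0 / (n + 1 : ℝ) ≤ s0 := by
    intro n
    have hn : (1 : ℝ) ≤ (n : ℝ) + 1 := by linarith [Nat.cast_nonneg (α := ℝ) n]
    exact ⟨by positivity, div_le_self hs0p.le hn⟩
  have hlim0 : Tendsto (fun n : ℕ => s0 / (n + 1 : ℝ)) atTop (𝓝 0) :=
    tendsto_const_nhds.div_atTop (tendsto_atTop_add_const_right _ _ tendsto_natCast_atTop_atTop)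
  have hlim1 : Tendsto (fun n : ℕ => t1 - ((s0 / (n + 1 : ℝ) : ℝ) : ℂ) * Complex.I) atTop (𝓝 t1) := by
    have hcc : ContinuousAt (fun s : ℝ => t1 - (s : ℂ) * Complex.I) 0 := by fun_prop
    have := hcc.tendsto.comp hlim0
    simpa [Function.comp_def] using this
  have hux : Tendsto u atTop (𝓝 (t1, w1)) := hlim1.prodMk_nhds tendsto_const_nhds
  have hBtc : ContinuousAt Bt t1 := (b1.differentiableAt (ball_mem_nhds t1 hε)).continuousAt
  have hub : Tendsto (fun n => B (u n)) atTop (𝓝 (Bt t1)) := by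
    refine (hBtc.tendsto.comp hlim1).congr fun n => ?_
    exact hEqseg _ (hsn n).1 (hsn n).2
  have huD : ∀ n, u n ∈ D := fun n => hseg _ (hsn n).1 ((hsn n).2.trans_lt hs0r)
  obtain ⟨G, g1, g2, g3⟩ := extend_of_cluster' isOpen_univ hc hψ.differentiableOn
    hH.differentiableOn (fun z _ => rel z) hD hB hΨ hN hDn (mem_univ _)
    (fun h0 => hDb _ u huD hux hub h0)
    h1 h2 huD hux hub
  refine ⟨G, g1, ?_⟩
  · -- propagate along the segment
    obtain ⟨V, hV1, hV2⟩ : ∃ e : ℝ, 0 < e ∧ ∀ s : ℝ, 0 < s → s < e →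
        AnalyticAt ℂ G (t1 - s * Complex.I, w1) := by
      have hcc : Tendsto (fun s : ℝ => ((t1 - (s : ℂ) * Complex.I, w1) : ℂ × ℂ)) (𝓝 0)
          (𝓝 (t1, w1)) := by
        have hcc : ContinuousAt (fun s : ℝ => ((t1 - (s : ℂ) * Complex.I, w1) : ℂ × ℂ)) 0 := by
          fun_prop
        simpa using hcc.tendsto
      obtain ⟨e, he, heb⟩ := Metric.eventually_nhds_iff_ball.1
        (hcc.eventually g1.eventually_analyticAt)
      refine ⟨e, he, fun s hs hse => heb s ?_⟩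
      rw [mem_ball, dist_zero_right, Real.norm_eq_abs, abs_of_pos hs]
      exact hse
    have hev : ∀ᶠ s : ℝ in 𝓝[>] 0, s ∈ Ioo (0 : ℝ) (min V r0) := Ioo_mem_nhdsGT (lt_min hV1 hr0)
    filter_upwards [hev] with s hs
    obtain ⟨n, hn1, hn2⟩ := (g3.and (hlim0.eventually (gt_mem_nhds hs.1))).exists
    -- both analytic on the segment from `s0/(n+1)` to `s`
    set T : Set (ℂ × ℂ) := {y | G =ᶠ[𝓝 y] B} with hT
    have hTo : IsOpen T := isOpen_setOfPred_eventually_nhds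
    set γ : ℝ → ℂ × ℂ := fun σ => (t1 - (σ : ℂ) * Complex.I, w1) with hγ
    have hγc : Continuous γ := by rw [hγ]; fun_prop
    have hIcc : IsPreconnected (γ '' Icc (s0 / (n + 1 : ℝ)) s) :=
      isPreconnected_Icc.image _ hγc.continuousOn
    have hcl : closure T ∩ (γ '' Icc (s0 / (n + 1 : ℝ)) s) ⊆ T := by
      rintro y ⟨hy1, σ, hσ, rfl⟩
      have hσ0 : 0 < σ := (hsn n).1.trans_le hσ.1
      have hσV : σ < V := hσ.2.trans_lt (hs.2.trans_le (min_le_left _ _))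
      have hσr : σ < r0 := hσ.2.trans_lt (hs.2.trans_le (min_le_right _ _))
      have a1 : AnalyticAt ℂ G (γ σ) := hV2 σ hσ0 hσV
      have a2 : AnalyticAt ℂ B (γ σ) :=
        Crest.Agent.R266.SCV.analyticOnNhd_of_differentiableOn hD hB _ (hseg σ hσ0 hσr)
      obtain ⟨e, he, heb⟩ := Metric.eventually_nhds_iff_ball.1
        (a1.eventually_analyticAt.and a2.eventually_analyticAt)
      obtain ⟨y, hyT, hyb⟩ := ((mem_closure_iff_frequently.1 hy1).and_eventually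
        (ball_mem_nhds (γ σ) he)).exists
      have hEq := AnalyticOnNhd.eqOn_of_preconnected_of_eventuallyEq (f := G) (g := B)
        (U := ball (γ σ) e) (fun z hz => (heb z hz).1) (fun z hz => (heb z hz).2)
        (convex_ball _ _).isPreconnected hyb hyT
      change G =ᶠ[𝓝 (γ σ)] B
      filter_upwards [ball_mem_nhds (γ σ) he] with z hz
      exact hEq hz
    have hsubT : γ '' Icc (s0 / (n + 1 : ℝ)) s ⊆ T :=
      hIcc.subset_of_closure_inter_subset hTo
        ⟨γ (s0 / (n + 1 : ℝ)), ⟨_, ⟨le_rfl, hn2.le⟩, rfl⟩, hn1⟩ hcl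
    exact hsubT ⟨s, ⟨hn2.le, le_rfl⟩, rfl⟩


variable {q : C(ℂ, ℂ)} {η ρ r Bc : ℝ} {b φ p : ℂ × ℂ → ℂ} {m₀ : ℂ → ℂ} {θ H K G₀ : ℂ → ℂ}

/-- **RULE, vertex (Case E)** -/
theorem rule_vertexE (hD : Spine.DataE q η ρ r Bc b φ p m₀ θ H) (hM : MirE q η θ H K G₀) :
    RuleV b φ p ρ r := by
  intro x hx1 hx2 h1
  have D := datE hD (h := η) le_rfl

  have hρ := D.ρ_pos
  have hxr : ‖x.2‖ < r := by simpa using hx1.1
  have hx1W : x.2 ∈ ball (0 : ℂ) r := hx1.1
  refine ⟨hx1W, by linarith, ?_⟩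
  refine reg_up isOpen_ball (bE_diff hD) b_mapsE (x := x) hx1W ?_
  intro y hy0 hyx hlow
  set Y : ℂ × ℂ := pt x.1.re y x.2 with hY
  have hY1 : Y.1.im = y := by rw [hY, pt_im]
  have hY2 : Y.2 = x.2 := rfl
  have hYre : Y.1.re = x.1.re := by rw [hY, pt_re]
  have hYL : ∀ s : ℂ, (s = 1 ∨ s = -1) → sh s x ∈ SL φ p ρ r → sh s Y ∈ SL φ p ρ r := by
    intro s hs hsx
    have him := abs_lt.1 (sh_im hs hxr D.r_le)
    refine Sht_low isOpen_ball D.Fl_diff Fl_maps hsx ?_ rfl ?_ (Or.inl ?_)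
    · rw [sh_fst, sh_fst, Complex.add_re, Complex.add_re, hYre, hY2]
    · rw [sh_fst, Complex.add_im, hY1, hY2]
      linarith [him.1]
    · rw [sh_fst, sh_fst, Complex.add_im, Complex.add_im, hY1, hY2]
      linarith
  have hY1L := hYL 1 (Or.inl rfl) hx1
  have hY2L := hYL (-1) (Or.inr rfl) hx2
  have hseg : ∀ s : ℝ, 0 < s → s < y + ρ / 4 → ((Y.1 - s * Complex.I, Y.2) : ℂ × ℂ) ∈
      SBE b ρ r := by
    intro s hs1 hs2
    have e1 : ((Y.1 - s * Complex.I, Y.2) : ℂ × ℂ) = pt x.1.re (y - s) x.2 := by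
      rw [hY]
      unfold VH982.pt
      refine Prod.ext ?_ rfl
      simp only
      push_cast
      ring
    rw [e1]
    refine ⟨hx1W, by rw [pt_im]; linarith, hlow _ (by linarith)⟩
  have hev : ∀ᶠ z in 𝓝 Y, sh 1 z ∈ SL φ p ρ r ∧ sh (-1) z ∈ SL φ p ρ r ∧
      -(3 * ρ / 8) < z.1.im := by
    have c1 : Continuous fun z : ℂ × ℂ => z.1.im := by fun_prop
    filter_upwards [(isOpen_pre 1).mem_nhds hY1L, (isOpen_pre (-1)).mem_nhds hY2L,
      (c1.tendsto Y).eventually (Ioi_mem_nhds (show -(3 * ρ / 8) < Y.1.im by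
        rw [hY1]; linarith))] with z a1 a2 a3
    exact ⟨a1, a2, a3⟩
  have hθe : ∀ᶠ z in 𝓝 Y, z ∈ SBE b ρ r → θ (beE b ρ r z) =
      (φe φ p ρ r (sh 1 z) + φe φ p ρ r (sh (-1) z)) / 2 := by
    filter_upwards [hev] with z hz hzB
    have := refl_allE hD (Or.inl rfl) hzB hz.1 hz.2.1
    linear_combination (-1 / 2) * this
  have hDb : ∀ z : ℂ, ∀ u : ℕ → ℂ × ℂ, (∀ n, u n ∈ SBE b ρ r) →
      Tendsto u atTop (𝓝 ((Y.1, Y.2) : ℂ × ℂ)) →
      Tendsto (fun n => beE b ρ r (u n)) atTop (𝓝 z) → deriv θ z = 0 →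
      2 * Complex.cos ((φe φ p ρ r (sh (-1) (Y.1, Y.2)) -
        φe φ p ρ r (sh 1 (Y.1, Y.2))) / 2) ≠ 0 := by
    intro z u hu hux hub hz0 hcon
    have hux' : Tendsto u atTop (𝓝 Y) := hux
    have c1 : ContinuousAt (fun z => φe φ p ρ r (sh 1 z)) Y := (D.an_φs hY1L).continuousAt
    have c2 : ContinuousAt (fun z => φe φ p ρ r (sh (-1) z)) Y := (D.an_φs hY2L).continuousAt
    have c3 : ContinuousAt (fun z => pe φ p ρ r (sh 1 z)) Y := (D.an_ps hY1L).continuousAt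
    have c4 : ContinuousAt θ z := (hM.mir.θd z).continuousAt
    have c5 : ContinuousAt H z := (hM.mir.Hd z).continuousAt
    have c6 : ContinuousAt (deriv θ) z := (OS350.diff_deriv hM.mir.θd z).continuousAt
    have c7 : ContinuousAt (deriv H) z := (OS350.diff_deriv hM.mir.Hd z).continuousAt
    have l1 := c1.tendsto.comp hux'
    have l2 := c2.tendsto.comp hux'
    have l3 := c3.tendsto.comp hux'
    have l4 := c4.tendsto.comp hub
    have l5 := c5.tendsto.comp hub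
    have l6 := c6.tendsto.comp hub
    have l7 := c7.tendsto.comp hub
    have hθz : θ z = (φe φ p ρ r (sh 1 Y) + φe φ p ρ r (sh (-1) Y)) / 2 := by
      have l8 := (l1.add l2).div_const 2
      refine tendsto_nhds_unique l4 (l8.congr' ?_)
      filter_upwards [hux'.eventually hθe] with n hn
      exact (hn (hu n)).symm
    have hinc : Inc θ H (φe φ p ρ r (sh 1 Y)) (pe φ p ρ r (sh 1 Y)) z := by
      unfold F300.Inc
      have l9 := l6.mul l3
      have l10 := ((l6.mul l5).mul ((Complex.continuous_cos.tendsto _).comp (l1.sub l4))).add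
        (l7.mul ((Complex.continuous_sin.tendsto _).comp (l1.sub l4)))
      refine tendsto_nhds_unique l9 (l10.congr' ?_)
      filter_upwards [hux'.eventually hev] with n hn
      have := inc_allE hD (Or.inl rfl) (hu n) hn.1
      exact this.symm
    unfold F300.Inc at hinc
    rw [hz0] at hinc
    have hrel := hM.mir.rel z
    rw [hz0] at hrel
    have hH' : deriv H z ≠ 0 := by
      intro h3
      rw [h3] at hrel
      norm_num at hrel
    have hsin : Complex.sin (φe φ p ρ r (sh 1 Y) - θ z) = 0 := by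
      have : deriv H z * Complex.sin (φe φ p ρ r (sh 1 Y) - θ z) = 0 := by
        linear_combination -hinc
      rcases mul_eq_zero.1 this with h3 | h3
      · exact absurd h3 hH'
      · exact h3
    have hcos : Complex.cos (φe φ p ρ r (sh 1 Y) - θ z) = 0 := by
      have e1 : φe φ p ρ r (sh 1 Y) - θ z = -((φe φ p ρ r (sh (-1) Y) -
          φe φ p ρ r (sh 1 Y)) / 2) := by
        rw [hθz]
        ring
      rw [e1, Complex.cos_neg]
      have : 2 * Complex.cos ((φe φ p ρ r (sh (-1) (Y.1, Y.2)) -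
        φe φ p ρ r (sh 1 (Y.1, Y.2))) / 2) = 0 := hcon
      rcases mul_eq_zero.1 this with h3 | h3
      · norm_num at h3
      · exact h3
    have := Complex.sin_sq_add_cos_sq (φe φ p ρ r (sh 1 Y) - θ z)
    rw [hsin, hcos] at this
    norm_num at this
  have h2 : ∀ᶠ z in 𝓝 Y, z ∈ SBE b ρ r →
      2 * Complex.cos ((φe φ p ρ r (sh (-1) z) - φe φ p ρ r (sh 1 z)) / 2) * H (beE b ρ r z) =
        pe φ p ρ r (sh (-1) z) + pe φ p ρ r (sh 1 z) := by
    filter_upwards [hev, hθe] with z hz hz' hzB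
    have h3 := sum_allE hD (Or.inl rfl) hzB hz.1 hz.2.1
    have h4 := hz' hzB
    rw [h3]
    have e1 : φe φ p ρ r (sh (-1) z) - θ (beE b ρ r z) =
        (φe φ p ρ r (sh (-1) z) - φe φ p ρ r (sh 1 z)) / 2 := by
      rw [h4]
      ring
    rw [e1]
    ring
  obtain ⟨G, hGa, hGe⟩ := rule3E hM.mir.θd hM.mir.Hd (c := -1) (by norm_num) hM.mir.rel
    hM.θper (D := SBE b ρ r) isOpen_SBE (B := beE b ρ r)
    (Ψ := fun z => (φe φ p ρ r (sh 1 z) + φe φ p ρ r (sh (-1) z)) / 2)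
    (N := fun z => pe φ p ρ r (sh (-1) z) + pe φ p ρ r (sh 1 z))
    (Dn := fun z => 2 * Complex.cos ((φe φ p ρ r (sh (-1) z) - φe φ p ρ r (sh 1 z)) / 2))
    (beE_an hD).differentiableOn (t1 := Y.1) (w1 := Y.2)
    (((D.an_φs hY1L).add (D.an_φs hY2L)).div_const) ((D.an_ps hY2L).add (D.an_ps hY1L))
    (analyticAt_const.mul (an_cos (((D.an_φs hY2L).fun_sub (D.an_φs hY1L)).div_const)))
    (D.cos_nz hY1L hY2L (by rw [hY1]; linarith)) hDb hθe h2 (r0 := y + ρ / 4) (by linarith) hseg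
    (fun s hs1 hs2 => beE_nc hD (hseg s hs1 hs2))
  -- regularity at `Y`
  set N' : Set (ℂ × ℂ) := {z | AnalyticAt ℂ G z} with hN'
  have hN'o : IsOpen N' := isOpen_analyticAt ℂ G
  refine isReg_of_local D.h10 isOpen_ball (bE_diff hD) b_mapsE (p := Y) (N := N')
    (by rw [hY1]; linarith) hN'o hGa (G := G)
    (fun z hz => (show AnalyticAt ℂ G z from hz).differentiableAt.differentiableWithinAt)
    (fun z _ => mem_univ _) hx1W ?_
  intro ε hε
  have h3 : ∀ᶠ s : ℝ in 𝓝[>] 0, s ∈ Ioo (0 : ℝ) (min ε (y + ρ / 4)) :=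
    Ioo_mem_nhdsGT (lt_min hε (by linarith))
  obtain ⟨s, hs1, hs2⟩ := (h3.and hGe).exists
  have hsε : s < ε := hs1.2.trans_le (min_le_left _ _)
  have hsy : s < y + ρ / 4 := hs1.2.trans_le (min_le_right _ _)
  refine ⟨y - s, by rw [hY1]; linarith, by rw [hY1]; linarith [hs1.1], ?_⟩
  have e1 : (((⟨Y.1.re, y - s⟩ : ℂ), Y.2) : ℂ × ℂ) = (Y.1 - s * Complex.I, Y.2) := by
    refine Prod.ext ?_ rfl
    simp only
    apply Complex.ext
    · simp
    · simp [hY1]
  rw [e1]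
  filter_upwards [hs2, isOpen_SBE.mem_nhds (hseg s hs1.1 hsy)] with z hz1 hz2
  exact ⟨hz2.2.2, hz1⟩

end Crest.Agent.R102.ShE628
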