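import Mathlib
import Crest.Agent.R102.RuleVE_628

/-!
Row 102, part (C), T1-E, **(AP), final form** (helper628), for helper314's joint and helper942's
start: `r' = e^{-τ'}`, `Om = Out559.OmL φ p (-(ρ/2)) (ρ/2) r`.
-/

set_option autoImplicit false

open Set Filter Topology Metric
open scoped ComplexConjugate

noncomputable section

namespace Crest.Agent.R102.ShE628

open Crest.Agent.R102.K669 (Slab)
open Crest.Agent.R102.Sh982 Crest.Agent.R102.APJ628 Crest.Agent.R102.StepT628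
open Crest.Agent.R102.Out559 (OmL OmX)
open Crest.Agent.R102.Mir151 (MirE)
open Crest.Agent.R102.Pick628 (K0)

variable {q : C(ℂ, ℂ)} {η ρ r Bc : ℝ} {b φ p : ℂ × ℂ → ℂ} {m₀ : ℂ → ℂ} {θ H K G : ℂ → ℂ}

/-- **(AP)** -/
theorem APL (hD : Spine.DataE q η ρ r Bc b φ p m₀ θ H) (hM : MirE q η θ H K G) :
    ∃ C1 T1 : ℝ, 1 ≤ C1 ∧ 1 ≤ T1 ∧ Real.exp (-T1) ≤ r ∧ ∀ τ ≥ T1, ∀ h : ℝ,
      (∀ t w : ℂ, t.im < h → ‖w‖ < Real.exp (-τ) → (t, w) ∈ OmL φ p (-(ρ / 2)) (ρ / 2) r) →
      (∀ z : ℂ, |z.im| ≤ h - 2 * Real.exp (-τ) →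
        ‖deriv θ z‖ ≤ C1 * (Real.sqrt τ * Real.exp τ) ∧
        ‖G z‖ ≤ C1 * (τ * Real.exp (2 * τ))) ∧
      (∀ t w : ℂ, -(3 * ρ / 8) + Real.exp (-τ) / 2 < t.im → t.im < h - Real.exp (-τ) / 2 →
        ‖w‖ < Real.exp (-τ) → (t, w) ∈ SBE b ρ r) ∧
      (∀ t w : ℂ, -(3 * ρ / 8) + Real.exp (-τ) < t.im → t.im < h - Real.exp (-τ) →
        ‖w‖ < Real.exp (-τ) / 8 → 256 * τ * (‖w‖ * Real.exp τ) ^ 2 ≤ 1 →
        ‖beE b ρ r (t + w / 2, w) - beE b ρ r (t - w / 2, w) - w‖ ≤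
          512 * τ * Real.exp (2 * τ) * ‖w‖ ^ 3) := by
  have hV := rule_vertexE hD hM
  obtain ⟨C, hC1, hC⟩ := AP hD hM hV
  have hρ := hD.fam.ρ_pos
  have hr := hD.fam.r_pos
  have hrρ := hD.fam.r_le
  have hK0 := Pick628.K0_ge
  refine ⟨2 * C ^ 2, max 1 (max (Real.log (8 * K0)) (-Real.log r)), by nlinarith,
    le_max_left _ _, ?_, fun τ hτ h hOm => ?_⟩
  · have h1 : -Real.log r ≤ max 1 (max (Real.log (8 * K0)) (-Real.log r)) :=
      (le_max_right _ _).trans (le_max_right _ _)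
    calc Real.exp (-max 1 (max (Real.log (8 * K0)) (-Real.log r))) ≤ Real.exp (Real.log r) :=
          Real.exp_le_exp.2 (by linarith)
      _ = r := Real.exp_log hr
  have hτ1 : 1 ≤ τ := (le_max_left _ _).trans hτ
  have hτ2 : Real.log (8 * K0) ≤ τ :=
    ((le_max_left _ _).trans (le_max_right _ _)).trans hτ
  have hτ3 : -Real.log r ≤ τ := ((le_max_right _ _).trans (le_max_right _ _)).trans hτ
  set r' : ℝ := Real.exp (-τ) with hr'
  have hr'0 : 0 < r' := Real.exp_pos _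
  have hr'1 : r' ≤ 1 := by
    rw [hr', Real.exp_le_one_iff]; linarith
  have hr'r : r' ≤ r := by
    calc r' ≤ Real.exp (Real.log r) := Real.exp_le_exp.2 (by linarith)
      _ = r := Real.exp_log hr
  set h' : ℝ := max h (ρ / 2) with hh'
  have hhr : r' < h' := lt_of_lt_of_le (by linarith) (le_max_right _ _)
  have hhh : h ≤ h' := le_max_left _ _
  have hsub : Sab (-(3 * ρ / 8)) h' ×ˢ ball (0 : ℂ) r' ⊆ SL φ p ρ r := by
    rintro x ⟨⟨h1, h2⟩, h3⟩
    rw [mem_ball_zero_iff] at h3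
    rcases lt_max_iff.1 h2 with h4 | h4
    · exact SL_iff.2 ⟨hOm x.1 x.2 h4 h3, by linarith⟩
    · exact (datE hD le_rfl).slab_SL ⟨by linarith, h4, by
        rw [mem_ball_zero_iff]; linarith⟩
  obtain ⟨a1, a2, -, a4⟩ := hC h' r' hr'0 hr'1 hr'r hhr hsub
  have hLe : Real.log (8 * K0 / r') = Real.log (8 * K0) + τ := by
    rw [Real.log_div (by linarith) hr'0.ne', hr', Real.log_exp]
    ring
  have hL2 : Real.log (8 * K0 / r') ≤ 2 * τ := by rw [hLe]; linarith
  have hL0 : 0 ≤ Real.log (8 * K0 / r') := by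
    rw [hLe]
    have := Real.log_nonneg (show (1 : ℝ) ≤ 8 * K0 by linarith)
    linarith
  have e1 : 1 / r' = Real.exp τ := by
    rw [hr', Real.exp_neg, one_div, inv_inv]
  have e2 : Real.exp (2 * τ) = Real.exp τ ^ 2 := by
    rw [← Real.exp_nat_mul]; norm_num
  refine ⟨?_, ?_, ?_⟩
  · intro z hz
    obtain ⟨b1, b2⟩ := a1 z (by linarith)
    constructor
    · refine b1.trans ?_
      have h5 : Real.sqrt (Real.log (8 * K0 / r')) ≤ 2 * Real.sqrt τ := by
        rw [Real.sqrt_le_left (by positivity), mul_pow, Real.sq_sqrt (by linarith)]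
        linarith
      have h6 : Real.sqrt (Real.log (8 * K0 / r')) / r' =
          Real.sqrt (Real.log (8 * K0 / r')) * Real.exp τ := by
        rw [← e1]; ring
      rw [h6]
      have h7 : Real.sqrt (Real.log (8 * K0 / r')) * Real.exp τ ≤
          2 * Real.sqrt τ * Real.exp τ := mul_le_mul_of_nonneg_right h5 (Real.exp_pos _).le
      have h8 : 0 ≤ Real.sqrt τ * Real.exp τ := by positivity
      calc C * (Real.sqrt (Real.log (8 * K0 / r')) * Real.exp τ) ≤
          C * (2 * Real.sqrt τ * Real.exp τ) := mul_le_mul_of_nonneg_left h7 (by linarith)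
        _ = 2 * C * (Real.sqrt τ * Real.exp τ) := by ring
        _ ≤ 2 * C ^ 2 * (Real.sqrt τ * Real.exp τ) := by
          refine mul_le_mul_of_nonneg_right ?_ h8
          nlinarith
    · refine b2.trans ?_
      have h6 : Real.log (8 * K0 / r') / r' ^ 2 = Real.log (8 * K0 / r') * Real.exp (2 * τ) := by
        rw [e2, ← e1]; ring
      rw [h6]
      calc C ^ 2 * (Real.log (8 * K0 / r') * Real.exp (2 * τ)) ≤
          C ^ 2 * (2 * τ * Real.exp (2 * τ)) := by
            refine mul_le_mul_of_nonneg_left ?_ (by positivity)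
            exact mul_le_mul_of_nonneg_right hL2 (Real.exp_pos _).le
        _ = 2 * C ^ 2 * (τ * Real.exp (2 * τ)) := by ring
  · intro t w h1 h2 h3
    exact a2 t w ⟨h1, by linarith⟩ h3
  · intro t w h1 h2 h3 h4
    have e3 : ‖w‖ / r' = ‖w‖ * Real.exp τ := by rw [← e1]; ring
    have h5 : 128 * Real.log (8 * K0 / r') * (‖w‖ / r') ^ 2 ≤ 1 := by
      rw [e3]
      refine le_trans ?_ h4
      refine mul_le_mul_of_nonneg_right ?_ (by positivity)
      linarith
    refine (a4 t w ⟨h1, by linarith⟩ h3 h5).trans ?_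
    rw [e3]
    have e4 : 512 * τ * Real.exp (2 * τ) * ‖w‖ ^ 3 =
        256 * (2 * τ) * (‖w‖ * Real.exp τ) ^ 2 * ‖w‖ := by
      rw [e2]; ring
    rw [e4]
    refine mul_le_mul_of_nonneg_right ?_ (norm_nonneg _)
    refine mul_le_mul_of_nonneg_right ?_ (by positivity)
    linarith

end Crest.Agent.R102.ShE628
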