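import Crest.Agent.R102.BishopDefs_120

/-!
# R102, T1-B, step 5 (Bishop): leaf AeDeriv

`b` continuous, 1-periodic, `∫₀¹ ‖b (r+h) - b r‖² ≤ (K h)²` for all `h`: then `b` is differentiable a.e.
(bounded variation: the averages `b_h r = (1/h) ∫_r^{r+h} b` have variation `≤ (1+K²)/2`, lower
semicontinuity of the variation) and `|{‖b'‖ > c}| ≤ (K/c)²` (Fatou + Chebyshev).
-/

open MeasureTheory Metric Set Filter Topology

namespace Crest.Agent.R102.Bishop532

/-- variation of a `C¹` function on `[0,1]`. -/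
theorem evar_le {F f : ℝ → ℂ} (hf : Continuous f) (hF : ∀ x, HasDerivAt F (f x) x) {M : ℝ}
    (hM : ∫ r in (0:ℝ)..1, ‖f r‖ ≤ M) : eVariationOn F (Icc 0 1) ≤ ENNReal.ofReal M := by
  set G : ℝ → ℝ := fun x => ∫ r in (0:ℝ)..x, ‖f r‖ with hG
  have hint : ∀ a b : ℝ, IntervalIntegrable (fun r => ‖f r‖) volume a b :=
    fun a b => hf.norm.intervalIntegrable a b
  have hsub : ∀ x y : ℝ, G y - G x = ∫ r in x..y, ‖f r‖ := fun x y => by
    simp only [hG]
    exact intervalIntegral.integral_interval_sub_left (hint _ _) (hint _ _)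
  have hmono : Monotone G := by
    intro x y hxy
    have h1 := hsub x y
    have h2 : 0 ≤ ∫ r in x..y, ‖f r‖ :=
      intervalIntegral.integral_nonneg hxy (fun _ _ => norm_nonneg _)
    linarith
  have key : ∀ x y : ℝ, x ≤ y → edist (F y) (F x) ≤ edist (G y) (G x) := by
    intro x y hxy
    rw [edist_dist, edist_dist]
    apply ENNReal.ofReal_le_ofReal
    rw [dist_eq_norm, Real.dist_eq, abs_of_nonneg (sub_nonneg.2 (hmono hxy)), hsub,
      ← intervalIntegral.integral_eq_sub_of_hasDerivAt (fun t _ => hF t)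
        (hf.intervalIntegrable x y)]
    exact intervalIntegral.norm_integral_le_integral_norm hxy
  calc eVariationOn F (Icc 0 1) ≤ eVariationOn G (Icc 0 1) := by
        apply iSup_le
        rintro ⟨n, u, hu, us⟩
        exact (Finset.sum_le_sum fun i _ => key _ _ (hu (Nat.le_succ i))).trans
          (eVariationOn.sum_le hu us)
    _ = eVariationOn G (Icc 0 1 ∩ Icc 0 1) := by rw [inter_self]
    _ ≤ ENNReal.ofReal (G 1 - G 0) :=
        ((hmono.monotoneOn _).eVariationOn_eq (left_mem_Icc.2 zero_le_one)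
          (right_mem_Icc.2 zero_le_one)).le
    _ ≤ ENNReal.ofReal M := ENNReal.ofReal_le_ofReal (by rw [hsub]; exact hM)

/-- the averages converge. -/
theorem tendsto_avg {b : ℝ → ℂ} (hb : Continuous b) (x : ℝ) :
    Tendsto (fun h : ℝ => ((h⁻¹ : ℝ) : ℂ) * ∫ r in x..(x + h), b r) (𝓝[>] 0) (𝓝 (b x)) := by
  have h1 : HasDerivAt (fun y => ∫ r in x..y, b r) (b x) x :=
    intervalIntegral.integral_hasDerivAt_right (hb.intervalIntegrable x x)
      (hb.stronglyMeasurableAtFilter _ _) hb.continuousAt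
  have h2 := h1.tendsto_slope_zero_right
  refine h2.congr fun h => ?_
  simp

/-- the L² difference quotient bound gives bounded variation. -/
theorem bv {b : ℝ → ℂ} (hb : Continuous b) {K : ℝ}
    (hK : ∀ h : ℝ, ∫ r in (0 : ℝ)..1, ‖b (r + h) - b r‖ ^ 2 ≤ (K * h) ^ 2) :
    BoundedVariationOn b (Icc 0 1) := by
  set v : ENNReal := ENNReal.ofReal ((1 + K ^ 2) / 2) with hv
  suffices h : eVariationOn b (Icc 0 1) ≤ v by
    exact ne_top_of_le_ne_top ENNReal.ofReal_ne_top h
  by_contra hcon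
  rw [not_le] at hcon
  have hev := eVariationOn.lowerSemicontinuous_aux
    (F := fun (h : ℝ) (x : ℝ) => ((h⁻¹ : ℝ) : ℂ) * ∫ r in x..(x + h), b r)
    (p := 𝓝[>] (0:ℝ)) (f := b) (s := Icc 0 1) (fun x _ => tendsto_avg hb x) hcon
  obtain ⟨h, hh, hpos⟩ := (hev.and self_mem_nhdsWithin).exists
  have hpos' : 0 < h := hpos
  apply absurd hh
  rw [not_lt]
  -- the average is C¹ with derivative (b (x+h) - b x)/h
  have hder : ∀ x, HasDerivAt (fun x : ℝ => ((h⁻¹ : ℝ) : ℂ) * ∫ r in x..(x + h), b r)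
      (((h⁻¹ : ℝ) : ℂ) * (b (x + h) - b x)) x := by
    intro x
    apply HasDerivAt.const_mul
    have e : (fun x : ℝ => ∫ r in x..(x + h), b r)
        = fun x : ℝ => (∫ r in (0:ℝ)..(x + h), b r) - ∫ r in (0:ℝ)..x, b r := by
      funext x
      rw [intervalIntegral.integral_interval_sub_left (hb.intervalIntegrable _ _)
        (hb.intervalIntegrable _ _)]
    rw [e]
    apply HasDerivAt.sub
    · have h1 : HasDerivAt (fun y => ∫ r in (0:ℝ)..y, b r) (b (x + h)) (x + h) :=
        intervalIntegral.integral_hasDerivAt_right (hb.intervalIntegrable _ _)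
          (hb.stronglyMeasurableAtFilter _ _) hb.continuousAt
      exact h1.comp_add_const x h
    · exact intervalIntegral.integral_hasDerivAt_right (hb.intervalIntegrable _ _)
          (hb.stronglyMeasurableAtFilter _ _) hb.continuousAt
  have hbh : Continuous fun x => b (x + h) := hb.comp (continuous_id.add continuous_const)
  refine evar_le (f := fun x => ((h⁻¹ : ℝ) : ℂ) * (b (x + h) - b x))
    (continuous_const.mul (hbh.sub hb)) hder ?_
  have hc2 : Continuous fun r => (1 + (h⁻¹) ^ 2 * ‖b (r + h) - b r‖ ^ 2) / 2 := by fun_prop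
  calc ∫ r in (0:ℝ)..1, ‖((h⁻¹ : ℝ) : ℂ) * (b (r + h) - b r)‖
      ≤ ∫ r in (0:ℝ)..1, (1 + (h⁻¹) ^ 2 * ‖b (r + h) - b r‖ ^ 2) / 2 := by
        apply intervalIntegral.integral_mono_on zero_le_one
        · exact (continuous_const.mul (hbh.sub hb)).norm.intervalIntegrable _ _
        · exact hc2.intervalIntegrable _ _
        · intro r _
          rw [norm_mul, Complex.norm_real, Real.norm_eq_abs, abs_of_pos (inv_pos.2 hpos')]
          nlinarith [sq_nonneg (h⁻¹ * ‖b (r + h) - b r‖ - 1)]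
    _ = (1 + (h⁻¹) ^ 2 * ∫ r in (0:ℝ)..1, ‖b (r + h) - b r‖ ^ 2) / 2 := by
        rw [intervalIntegral.integral_div, intervalIntegral.integral_add,
          intervalIntegral.integral_const_mul]
        · simp
        · exact continuous_const.intervalIntegrable _ _
        · exact (Continuous.intervalIntegrable (by fun_prop) _ _)
    _ ≤ (1 + (h⁻¹) ^ 2 * (K * h) ^ 2) / 2 := by
        have := hK h
        gcongr
    _ = (1 + K ^ 2) / 2 := by
        field_simp

theorem aeDeriv : Bishop120.AeDeriv := by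
  intro b hb _ K hK0 hK c hc
  have hdiff : ∀ᵐ x, x ∈ Icc (0:ℝ) 1 → DifferentiableAt ℝ b x := by
    have h1 : BoundedVariationOn b (uIcc 0 1) := by
      rw [uIcc_of_le zero_le_one]; exact bv hb hK
    have := h1.ae_differentiableAt_of_mem_uIcc
    rwa [uIcc_of_le zero_le_one] at this
  -- the difference quotients
  set d : ℕ → ℝ := fun n => ((n : ℝ) + 1)⁻¹ with hd
  have hdpos : ∀ n, 0 < d n := fun n => by positivity
  set f : ℕ → ℝ → ENNReal := fun n r => ENNReal.ofReal ((d n)⁻¹ ^ 2 * ‖b (r + d n) - b r‖ ^ 2)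
    with hf
  have hcont : ∀ n, Continuous fun r => (d n)⁻¹ ^ 2 * ‖b (r + d n) - b r‖ ^ 2 := fun n => by
    fun_prop
  have hfm : ∀ n, Measurable (f n) := fun n =>
    ENNReal.measurable_ofReal.comp (hcont n).measurable
  have hfi : ∀ n, ∫⁻ r in Icc (0:ℝ) 1, f n r ≤ ENNReal.ofReal (K ^ 2) := by
    intro n
    have e1 : ∫⁻ r in Icc (0:ℝ) 1, f n r
        = ENNReal.ofReal (∫ r in Icc (0:ℝ) 1, (d n)⁻¹ ^ 2 * ‖b (r + d n) - b r‖ ^ 2) := by
      rw [ofReal_integral_eq_lintegral_ofReal]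
      · exact (hcont n).continuousOn.integrableOn_compact isCompact_Icc
      · exact Eventually.of_forall fun r => by positivity
    rw [e1]
    apply ENNReal.ofReal_le_ofReal
    rw [integral_Icc_eq_integral_Ioc, ← intervalIntegral.integral_of_le zero_le_one,
      intervalIntegral.integral_const_mul]
    calc (d n)⁻¹ ^ 2 * ∫ r in (0:ℝ)..1, ‖b (r + d n) - b r‖ ^ 2
        ≤ (d n)⁻¹ ^ 2 * (K * d n) ^ 2 := by
          have := hK (d n)
          gcongr
      _ = K ^ 2 := by
          have := (hdpos n).ne'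
          field_simp
  have hlim : ∀ r, DifferentiableAt ℝ b r →
      Tendsto (fun n => f n r) atTop (𝓝 (ENNReal.ofReal (‖deriv b r‖ ^ 2))) := by
    intro r hr
    have h1 := hr.hasDerivAt.tendsto_slope_zero_right
    have h2 : Tendsto d atTop (𝓝[>] 0) := by
      rw [tendsto_nhdsWithin_iff]
      exact ⟨by simpa [hd] using tendsto_one_div_add_atTop_nhds_zero_nat (𝕜 := ℝ),
        Eventually.of_forall fun n => hdpos n⟩
    have h3 := (h1.comp h2).norm.pow 2
    have h4 := (ENNReal.continuous_ofReal.tendsto _).comp h3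
    refine h4.congr fun n => ?_
    simp only [Function.comp, hf, norm_smul, norm_inv, Real.norm_eq_abs, abs_of_pos (hdpos n),
      mul_pow]
  -- Fatou and Chebyshev
  set F : ℝ → ENNReal := fun r => liminf (fun n => f n r) atTop with hF
  have hFm : Measurable F := Measurable.liminf hfm
  have hFi : ∫⁻ r in Icc (0:ℝ) 1, F r ≤ ENNReal.ofReal (K ^ 2) := by
    refine (lintegral_liminf_le hfm).trans ?_
    refine (liminf_le_liminf (v := fun _ => ENNReal.ofReal (K ^ 2))
      (Eventually.of_forall hfi)).trans ?_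
    simp
  have hcheb := mul_meas_ge_le_lintegral (μ := volume.restrict (Icc (0:ℝ) 1)) hFm
    (ENNReal.ofReal (c ^ 2))
  rw [Measure.restrict_apply' measurableSet_Icc] at hcheb
  have hsub : {r : ℝ | r ∈ Icc (0 : ℝ) 1 ∧ ¬ (DifferentiableAt ℝ b r ∧ ‖deriv b r‖ ≤ c)}
      ⊆ {r | ¬ (r ∈ Icc (0:ℝ) 1 → DifferentiableAt ℝ b r)} ∪
        ({r | ENNReal.ofReal (c ^ 2) ≤ F r} ∩ Icc 0 1) := by
    rintro r ⟨hr, hn⟩
    by_cases hdr : DifferentiableAt ℝ b r
    · right
      refine ⟨?_, hr⟩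
      have h1 : ¬ ‖deriv b r‖ ≤ c := fun h => hn ⟨hdr, h⟩
      rw [not_le] at h1
      show ENNReal.ofReal (c ^ 2) ≤ F r
      rw [hF]
      simp only
      rw [(hlim r hdr).liminf_eq]
      exact ENNReal.ofReal_le_ofReal (by gcongr)
    · left
      exact fun h => hdr (h hr)
  refine (measure_mono hsub).trans ((measure_union_le _ _).trans ?_)
  rw [show volume {r | ¬ (r ∈ Icc (0:ℝ) 1 → DifferentiableAt ℝ b r)} = 0 from hdiff, zero_add]
  have hc2 : 0 < c ^ 2 := by positivity
  have h5 : ENNReal.ofReal (c ^ 2) * volume ({r | ENNReal.ofReal (c ^ 2) ≤ F r} ∩ Icc 0 1)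
      ≤ ENNReal.ofReal (K ^ 2) := hcheb.trans hFi
  have h6 : ENNReal.ofReal ((K / c) ^ 2) = ENNReal.ofReal (K ^ 2) / ENNReal.ofReal (c ^ 2) := by
    rw [← ENNReal.ofReal_div_of_pos hc2, div_pow]
  rw [h6, ENNReal.le_div_iff_mul_le (Or.inl (ENNReal.ofReal_pos.2 hc2).ne') (Or.inl ENNReal.ofReal_ne_top),
    mul_comm]
  exact h5

end Crest.Agent.R102.Bishop532

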