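import Mathlib

/-!
Row 102, part (C), (RAT) section 6, leaf RAT-3a, algebraic part: a primitive element with all
denominators cleared.
-/

set_option linter.unusedSectionVars false
set_option linter.unusedVariables false

namespace Crest.Agent.R102.Alg985

open Polynomial

section abs

variable {k R : Type*} [Field k] [CommRing R] [IsDomain R] [CharZero R] [Algebra k R]
  (B A : Subalgebra k R)
  (K M : Type*) [Field K] [Field M] [Algebra B K] [IsFractionRing B K] [Algebra R M]
  [IsFractionRing R M] [Algebra K M] [IsScalarTower B K M]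

theorem hBM : Function.Injective (algebraMap B M) := by
  rw [IsScalarTower.algebraMap_eq B R M]
  exact (IsFractionRing.injective R M).comp Subtype.val_injective

/-- denominators cleared -/
theorem clear_poly (p : K[X]) :
    ∃ b : B, b ≠ 0 ∧ ∃ q : B[X], q.map (algebraMap B K) = C (algebraMap B K b) * p := by
  obtain ⟨b, hb, h⟩ := IsLocalization.integerNormalization_spec (nonZeroDivisors B) p
  refine ⟨b, nonZeroDivisors.ne_zero hb, IsLocalization.integerNormalization (nonZeroDivisors B) p,
    ?_⟩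
  rw [h]
  ext i
  simp [Algebra.smul_def]

/-- elements algebraic over `B` are integral over `K` -/
theorem int_of_alg (a : R) (ha : IsAlgebraic B a) : IsIntegral K (algebraMap R M a) := by
  have h1 : IsAlgebraic B (algebraMap R M a) := ha.algebraMap
  exact (h1.extendScalars (IsFractionRing.injective B K)).isIntegral

theorem frac_of_adjoin (hBA : B ≤ A) (s : Set R) (hs : s ⊆ A) (z : M)
    (hz : z ∈ Algebra.adjoin K (algebraMap R M '' s)) :
    ∃ b : B, b ≠ 0 ∧ ∃ a ∈ A, algebraMap B M b * z = algebraMap R M a := by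
  have hBMi := hBM B M
  have e0 : ∀ b : B, algebraMap R M (b : R) = algebraMap B M b := fun b =>
    (IsScalarTower.algebraMap_apply B R M b).symm
  refine Algebra.adjoin_induction
    (p := fun z _ => ∃ b : B, b ≠ 0 ∧ ∃ a ∈ A, algebraMap B M b * z = algebraMap R M a)
    ?_ ?_ ?_ ?_ hz
  · rintro _ ⟨a, ha, rfl⟩
    exact ⟨1, one_ne_zero, a, hs ha, by simp⟩
  · intro c
    obtain ⟨b, b', hb', rfl⟩ := IsFractionRing.div_surjective (A := B) c
    refine ⟨b', nonZeroDivisors.ne_zero hb', b, hBA b.2, ?_⟩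
    have hne : algebraMap B M b' ≠ 0 := by
      rw [Ne, map_eq_zero_iff _ hBMi]
      exact nonZeroDivisors.ne_zero hb'
    rw [map_div₀, ← IsScalarTower.algebraMap_apply B K M, ← IsScalarTower.algebraMap_apply B K M,
      mul_div_cancel₀ _ hne, e0]
  · rintro z z' _ _ ⟨b, hb, a, ha, h1⟩ ⟨b', hb', a', ha', h2⟩
    refine ⟨b * b', mul_ne_zero hb hb', b' * a + b * a',
      A.add_mem (A.mul_mem (hBA b'.2) ha) (A.mul_mem (hBA b.2) ha'), ?_⟩
    rw [map_add, map_mul, map_mul, map_mul, ← h1, ← h2, e0, e0]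
    ring
  · rintro z z' _ _ ⟨b, hb, a, ha, h1⟩ ⟨b', hb', a', ha', h2⟩
    refine ⟨b * b', mul_ne_zero hb hb', a * a', A.mul_mem ha ha', ?_⟩
    rw [map_mul, map_mul, ← h1, ← h2]
    ring

theorem exists_theta (hBA : B ≤ A) (hA : A.FG) (halg : ∀ a ∈ A, IsAlgebraic B a) :
    ∃ θ ∈ A, (∀ a ∈ A, algebraMap R M a ∈ Algebra.adjoin K {algebraMap R M θ}) := by
  classical
  have hRM : Function.Injective (algebraMap R M) := IsFractionRing.injective R M
  have hBMi := hBM B M
  have hcB : CharZero B := ⟨fun m n h => by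
    have := congrArg (Subtype.val : B → R) h
    exact_mod_cast this⟩
  have hcK : CharZero K :=
    charZero_of_injective_algebraMap (IsFractionRing.injective B K)
  obtain ⟨s, hs⟩ := hA
  let S : Set M := algebraMap R M '' (s : Set R)
  have hSfin : S.Finite := s.finite_toSet.image _
  have hsA : ∀ a ∈ s, a ∈ A := fun a ha => by
    rw [← hs]
    exact Algebra.subset_adjoin ha
  have hSint : ∀ z ∈ S, IsIntegral K z := by
    rintro _ ⟨a, ha, rfl⟩
    exact int_of_alg B K M a (halg a (hsA a ha))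
  let L : IntermediateField K M := IntermediateField.adjoin K S
  have hfS : Finite S := hSfin
  have hfd : FiniteDimensional K L := IntermediateField.finiteDimensional_adjoin hSint
  have hLS : L.toSubalgebra = Algebra.adjoin K S :=
    IntermediateField.adjoin_toSubalgebra_of_isAlgebraic fun z hz => (hSint z hz).isAlgebraic
  have hAL : ∀ a ∈ A, algebraMap R M a ∈ L := by
    intro a ha
    rw [← hs] at ha
    refine Algebra.adjoin_induction (p := fun a _ => algebraMap R M a ∈ L) ?_ ?_ ?_ ?_ ha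
    · intro a ha
      exact IntermediateField.subset_adjoin K S ⟨a, ha, rfl⟩
    · intro c
      have hc : algebraMap k R c ∈ B := B.algebraMap_mem c
      have : algebraMap R M (algebraMap k R c) =
          algebraMap K M (algebraMap B K ⟨_, hc⟩) := by
        rw [← IsScalarTower.algebraMap_apply B K M, IsScalarTower.algebraMap_apply B R M]
        rfl
      rw [this]
      exact L.algebraMap_mem _
    · intro a b _ _ h1 h2
      rw [map_add]
      exact L.add_mem h1 h2
    · intro a b _ _ h1 h2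
      rw [map_mul]
      exact L.mul_mem h1 h2
  have : Algebra.IsSeparable K L := Algebra.IsAlgebraic.isSeparable_of_perfectField
  obtain ⟨α, hα⟩ := Field.exists_primitive_element K L
  obtain ⟨bα, hbα, θ, hθ, hθα⟩ := frac_of_adjoin B A K M hBA (s : Set R) (fun a ha => hsA a ha)
    (α : M) (by
      have := α.2
      rw [← IntermediateField.mem_toSubalgebra, hLS] at this
      exact this)
  refine ⟨θ, hθ, ?_⟩
  set t : M := algebraMap R M θ with ht
  have htint : IsIntegral K t := int_of_alg B K M θ (halg θ hθ)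
  have hne : algebraMap B K bα ≠ 0 := by
    rw [Ne, map_eq_zero_iff _ (IsFractionRing.injective B K)]
    exact hbα
  have htα : (α : M) = algebraMap K M (algebraMap B K bα)⁻¹ * t := by
    rw [← hθα, ← mul_assoc, IsScalarTower.algebraMap_apply B K M, ← map_mul,
      inv_mul_cancel₀ hne, map_one, one_mul]
  have hgen : ∀ z ∈ L, z ∈ Algebra.adjoin K {t} := by
    intro z hz
    have h1 : (⟨z, hz⟩ : L) ∈ IntermediateField.adjoin K {α} := by
      rw [hα]
      trivial
    have h2 : (⟨z, hz⟩ : L) ∈ Algebra.adjoin K {α} := by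
      have h3 := IntermediateField.adjoin_simple_toSubalgebra_of_isAlgebraic
        (IsAlgebraic.of_finite K α)
      rw [← IntermediateField.mem_toSubalgebra, h3] at h1
      exact h1
    have h4 : z ∈ (Algebra.adjoin K {α}).map L.val := ⟨⟨z, hz⟩, h2, rfl⟩
    rw [← Algebra.adjoin_image] at h4
    refine Algebra.adjoin_le ?_ h4
    rintro _ ⟨y, hy, rfl⟩
    rw [Set.mem_singleton_iff.mp hy]
    change (α : M) ∈ _
    rw [htα]
    exact (Algebra.adjoin K {t}).mul_mem ((Algebra.adjoin K {t}).algebraMap_mem _)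
      (Algebra.subset_adjoin rfl)
  exact fun a ha => hgen _ (hAL a ha)

/-- primitive data: `θ` generates `Frac A` over `Frac B`, denominators cleared -/
structure PD (B A : Subalgebra k R) (θ : R) (P : B[X]) (b0 : B) : Prop where
  deg : 1 ≤ P.natDegree
  root : aeval θ P = 0
  b0_ne : b0 ≠ 0
  lead : P.leadingCoeff ∣ b0
  sep : ∃ U V : B[X], U * P + V * derivative P = C b0
  ker : ∀ f : B[X], aeval θ f = 0 → ∃ b : B, b ≠ 0 ∧ ∃ g : B[X], C b * f = P * g
  exp : ∀ a ∈ A, ∃ (n : ℕ) (f : B[X]), (b0 : R) ^ n * a = aeval θ f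

include K M in
theorem pd_core (θ : R) (hθ : IsAlgebraic B θ) :
    ∃ P : B[X], 1 ≤ P.natDegree ∧ aeval θ P = 0 ∧
      (P.natDegree = 1 → ∃ b b' : R, b ∈ B ∧ b' ∈ B ∧ b ≠ 0 ∧ b * θ = b') ∧
      ∃ b0 : B, b0 ≠ 0 ∧ P.leadingCoeff ∣ b0 ∧
      (∃ U V : B[X], U * P + V * derivative P = C b0) ∧
      (∀ f : B[X], aeval θ f = 0 → ∃ b : B, b ≠ 0 ∧ ∃ g : B[X], C b * f = P * g) := by
  classical
  have hRM : Function.Injective (algebraMap R M) := IsFractionRing.injective R M
  have hBMi := hBM B M
  have hBK : Function.Injective (algebraMap B K) := IsFractionRing.injective B K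
  have hKM : Function.Injective (algebraMap K M) := (algebraMap K M).injective
  have hcB : CharZero B := ⟨fun m n h => by
    have := congrArg (Subtype.val : B → R) h
    exact_mod_cast this⟩
  have hcK : CharZero K := charZero_of_injective_algebraMap hBK
  have e0 : ∀ b : B, algebraMap R M (b : R) = algebraMap B M b := fun b =>
    (IsScalarTower.algebraMap_apply B R M b).symm
  have hmapinj : Function.Injective (Polynomial.map (algebraMap B K)) :=
    Polynomial.map_injective _ hBK
  set t : M := algebraMap R M θ with ht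
  have htint : IsIntegral K t := int_of_alg B K M θ hθ
  have haeval : ∀ f : B[X], algebraMap R M (aeval θ f) = aeval t (f.map (algebraMap B K)) := by
    intro f
    rw [Polynomial.aeval_map_algebraMap, ht, Polynomial.aeval_algebraMap_apply]
  set P1 := minpoly K t with hP1
  have hP1m : P1.Monic := minpoly.monic htint
  have hdeg1 : 1 ≤ P1.natDegree := by
    have := minpoly.natDegree_pos htint
    rw [← hP1] at this
    omega
  obtain ⟨b, hb, P, hP⟩ := clear_poly B K P1
  have hbK : algebraMap B K b ≠ 0 := by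
    rw [Ne, map_eq_zero_iff _ hBK]
    exact hb
  have hPdeg : P.natDegree = P1.natDegree := by
    rw [← Polynomial.natDegree_map_eq_of_injective hBK P, hP,
      Polynomial.natDegree_C_mul hbK]
  have hPlead : P.leadingCoeff = b := by
    apply hBK
    rw [← Polynomial.leadingCoeff_map_of_injective hBK, hP, Polynomial.leadingCoeff_mul,
      hP1m.leadingCoeff, Polynomial.leadingCoeff_C, mul_one]
  have hPθ : aeval θ P = 0 := by
    apply hRM
    rw [haeval, hP, map_mul, minpoly.aeval, mul_zero, map_zero]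
  -- separability
  have hsep : P1.Separable := (minpoly.irreducible htint).separable
  obtain ⟨U1, V1, hUV⟩ := hsep
  obtain ⟨u, hu, U, hU⟩ := clear_poly B K U1
  obtain ⟨v, hv, V, hV⟩ := clear_poly B K V1
  have hsep2 : (C v * U) * P + (C u * V) * derivative P = C (u * v * b) := by
    apply hmapinj
    rw [Polynomial.map_add, Polynomial.map_mul, Polynomial.map_mul, Polynomial.map_mul,
      Polynomial.map_mul, ← Polynomial.derivative_map, hP, hU, hV, Polynomial.map_C,
      Polynomial.map_C, Polynomial.map_C, Polynomial.derivative_C_mul, map_mul, map_mul, map_mul,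
      map_mul]
    linear_combination (C (algebraMap B K u) * C (algebraMap B K v) * C (algebraMap B K b)) * hUV
  -- kernel
  have hker : ∀ f : B[X], aeval θ f = 0 → ∃ b : B, b ≠ 0 ∧ ∃ g : B[X], C b * f = P * g := by
    intro f hf
    have h1 : aeval t (f.map (algebraMap B K)) = 0 := by
      rw [← haeval, hf, map_zero]
    obtain ⟨g1, hg1⟩ := minpoly.dvd K t h1
    obtain ⟨c, hc, g, hg⟩ := clear_poly B K g1
    refine ⟨b * c, mul_ne_zero hb hc, g, hmapinj ?_⟩
    rw [Polynomial.map_mul, Polynomial.map_mul, hP, hg, Polynomial.map_C, hg1, map_mul, map_mul]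
    ring
  refine ⟨P, by omega, hPθ, ?_, u * v * b, mul_ne_zero (mul_ne_zero hu hv) hb, ?_,
    ⟨_, _, hsep2⟩, hker⟩
  · intro h1
    refine ⟨(P.coeff 1 : B), (-P.coeff 0 : B), (P.coeff 1).2, (-P.coeff 0).2, ?_, ?_⟩
    · intro h2
      have h3 : P.coeff 1 = 0 := Subtype.ext h2
      have h4 : P.leadingCoeff = P.coeff 1 := by rw [leadingCoeff, h1]
      rw [← h4, hPlead] at h3
      exact hb h3
    · have h2 := hPθ
      rw [Polynomial.aeval_eq_sum_range, h1, Finset.sum_range_succ, Finset.sum_range_one] at h2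
      simp only [pow_zero, pow_one] at h2
      have e1 : P.coeff 0 • (1 : R) = (P.coeff 0 : R) := by
        rw [Algebra.smul_def, mul_one]; rfl
      have e2 : P.coeff 1 • θ = (P.coeff 1 : R) * θ := by
        rw [Algebra.smul_def]; rfl
      rw [e1, e2] at h2
      push_cast
      linear_combination h2
  · rw [hPlead]
    exact ⟨u * v, by ring⟩

include K M in
/-- **primitive element with cleared denominators.** -/
theorem exists_pd_aux (hBA : B ≤ A) (hA : A.FG) (halg : ∀ a ∈ A, IsAlgebraic B a) :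
    ∃ θ ∈ A, ∃ (P : B[X]) (b0 : B), PD B A θ P b0 := by
  classical
  have hRM : Function.Injective (algebraMap R M) := IsFractionRing.injective R M
  have e0 : ∀ b : B, algebraMap R M (b : R) = algebraMap B M b := fun b =>
    (IsScalarTower.algebraMap_apply B R M b).symm
  obtain ⟨θ, hθ, hgen⟩ := exists_theta B A K M hBA hA halg
  obtain ⟨P, hdeg, hroot, -, b1, hb1, hlead, ⟨U, V, hUV⟩, hker⟩ :=
    pd_core B K M θ (halg θ hθ)
  have haeval : ∀ f : B[X], algebraMap R M (aeval θ f) =
      aeval (algebraMap R M θ) (f.map (algebraMap B K)) := by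
    intro f
    rw [Polynomial.aeval_map_algebraMap, Polynomial.aeval_algebraMap_apply]
  -- expressions of elements of `A`
  have hexp : ∀ a ∈ A, ∃ c : B, c ≠ 0 ∧ ∃ f : B[X], (c : R) * a = aeval θ f := by
    intro a ha
    have h1 := hgen a ha
    rw [Algebra.adjoin_singleton_eq_range_aeval] at h1
    obtain ⟨f1, hf1⟩ := h1
    obtain ⟨c, hc, f, hf⟩ := clear_poly B K f1
    refine ⟨c, hc, f, hRM ?_⟩
    rw [haeval, hf, map_mul, map_mul, aeval_C, e0, IsScalarTower.algebraMap_apply B K M]
    congr 1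
    exact hf1.symm
  obtain ⟨s, hs⟩ := hA
  have hsA : ∀ a ∈ s, a ∈ A := fun a ha => by
    rw [← hs]
    exact Algebra.subset_adjoin ha
  choose! c hc0 f hf using hexp
  obtain ⟨b0, hb0def⟩ : ∃ b0 : B, b0 = b1 * ∏ a ∈ s, c a := ⟨_, rfl⟩
  have hb0 : b0 ≠ 0 := by
    rw [hb0def]
    refine mul_ne_zero hb1 ?_
    exact Finset.prod_ne_zero_iff.mpr fun a ha => hc0 a (hsA a ha)
  refine ⟨θ, hθ, P, b0, hdeg, hroot, hb0, ?_, ?_, hker, ?_⟩
  · rw [hb0def]
    exact hlead.mul_right _
  · refine ⟨C (∏ a ∈ s, c a) * U, C (∏ a ∈ s, c a) * V, ?_⟩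
    have : C b0 = C (∏ a ∈ s, c a) * C b1 := by
      rw [← C_mul]
      congr 1
      rw [hb0def]
      ring
    rw [this, ← hUV]
    ring
  · intro a ha
    rw [← hs] at ha
    refine Algebra.adjoin_induction
      (p := fun a _ => ∃ (n : ℕ) (f : B[X]), (b0 : R) ^ n * a = aeval θ f) ?_ ?_ ?_ ?_ ha
    · intro a ha
      have hdvd : c a ∣ b0 := (Finset.dvd_prod_of_mem c ha).trans ⟨b1, by
        rw [hb0def]; ring⟩
      obtain ⟨e, he⟩ := hdvd
      refine ⟨1, C e * f a, ?_⟩
      rw [map_mul, ← hf a (hsA a ha), aeval_C, pow_one, he]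
      change (c a : R) * (e : R) * a = (e : R) * _
      ring
    · intro r
      refine ⟨0, C ⟨algebraMap k R r, B.algebraMap_mem r⟩, ?_⟩
      rw [aeval_C, pow_zero, one_mul]
      rfl
    · rintro a a' _ _ ⟨n, f, h1⟩ ⟨n', f', h2⟩
      refine ⟨n + n', C b0 ^ n' * f + C b0 ^ n * f', ?_⟩
      rw [map_add, map_mul, map_mul, ← h1, ← h2, map_pow, map_pow, aeval_C]
      change _ = (b0 : R) ^ n' * _ + (b0 : R) ^ n * _
      ring
    · rintro a a' _ _ ⟨n, f, h1⟩ ⟨n', f', h2⟩
      refine ⟨n + n', f * f', ?_⟩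
      rw [map_mul, ← h1, ← h2]
      ring

end abs

section main

variable {k R : Type*} [Field k] [CommRing R] [IsDomain R] [CharZero R] [Algebra k R]
  (B A : Subalgebra k R)

theorem exists_pd (hBA : B ≤ A) (hA : A.FG) (halg : ∀ a ∈ A, IsAlgebraic B a) :
    ∃ θ ∈ A, ∃ (P : B[X]) (b0 : B), PD B A θ P b0 := by
  let K := FractionRing B
  let M := FractionRing R
  have hBM : Function.Injective (algebraMap B M) := by
    rw [IsScalarTower.algebraMap_eq B R M]
    exact (IsFractionRing.injective R M).comp Subtype.val_injective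
  have : FaithfulSMul B M := (faithfulSMul_iff_algebraMap_injective B M).mpr hBM
  let _ : Algebra K M := FractionRing.liftAlgebra B M
  have : IsScalarTower B K M := FractionRing.isScalarTower_liftAlgebra B M
  exact exists_pd_aux B A K M hBA hA halg

/-- `B[f]` as a subalgebra over `k` -/
def adj (f : R) : Subalgebra k R where
  carrier := {a | ∃ g : B[X], a = aeval f g}
  mul_mem' := by
    rintro _ _ ⟨g, rfl⟩ ⟨h, rfl⟩
    exact ⟨g * h, (map_mul _ _ _).symm⟩
  add_mem' := by
    rintro _ _ ⟨g, rfl⟩ ⟨h, rfl⟩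
    exact ⟨g + h, (map_add _ _ _).symm⟩
  algebraMap_mem' := fun r => ⟨C ⟨algebraMap k R r, B.algebraMap_mem r⟩, by
    rw [aeval_C]; rfl⟩

theorem le_adj (f : R) : B ≤ adj B f := fun b hb => ⟨C ⟨b, hb⟩, by rw [aeval_C]; rfl⟩

theorem mem_adj (f : R) : f ∈ adj B f := ⟨X, by rw [aeval_X]⟩

theorem pd_core' (θ : R) (hθ : IsAlgebraic B θ) :
    ∃ P : B[X], 1 ≤ P.natDegree ∧ aeval θ P = 0 ∧
      (P.natDegree = 1 → ∃ b b' : R, b ∈ B ∧ b' ∈ B ∧ b ≠ 0 ∧ b * θ = b') ∧
      ∃ b0 : B, b0 ≠ 0 ∧ P.leadingCoeff ∣ b0 ∧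
      (∃ U V : B[X], U * P + V * derivative P = C b0) ∧
      (∀ f : B[X], aeval θ f = 0 → ∃ b : B, b ≠ 0 ∧ ∃ g : B[X], C b * f = P * g) := by
  let K := FractionRing B
  let M := FractionRing R
  have hBM : Function.Injective (algebraMap B M) := by
    rw [IsScalarTower.algebraMap_eq B R M]
    exact (IsFractionRing.injective R M).comp Subtype.val_injective
  have : FaithfulSMul B M := (faithfulSMul_iff_algebraMap_injective B M).mpr hBM
  let _ : Algebra K M := FractionRing.liftAlgebra B M
  have : IsScalarTower B K M := FractionRing.isScalarTower_liftAlgebra B M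
  exact pd_core B K M θ hθ

/-- primitive data of `B[f]` over `B`, of degree `≥ 2` if `f` is not a fraction -/
theorem exists_pd_adj (f : R) (hf : IsAlgebraic B f)
    (hx : ∀ b b' : R, b ∈ B → b' ∈ B → b ≠ 0 → b * f ≠ b') :
    ∃ (P : B[X]) (b0 : B), PD B (adj B f) f P b0 ∧ 2 ≤ P.natDegree := by
  obtain ⟨P, hdeg, hroot, h1, b1, hb1, hlead, hsep, hker⟩ := pd_core' B f hf
  have h2 : 2 ≤ P.natDegree := by
    by_contra hlt
    obtain ⟨b, b', hb, hb', hne, h3⟩ := h1 (by omega)
    exact hx b b' hb hb' hne h3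
  have hexp : ∀ a ∈ adj B f, ∃ (n : ℕ) (g : B[X]), (b1 : R) ^ n * a = aeval f g := by
    rintro a ⟨g, hg⟩
    exact ⟨0, g, by rw [pow_zero, one_mul, hg]⟩
  exact ⟨P, b1, ⟨hdeg, hroot, hb1, hlead, hsep, hker, hexp⟩, h2⟩

end main

end Crest.Agent.R102.Alg985
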