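import Crest.Agent.R102.Alg_985

/-!
Row 102, (RAT), leaf R1 = ALG, analytic part: extension of embeddings.
-/

set_option linter.unusedSectionVars false
set_option linter.unusedVariables false

namespace Crest.Agent.R102.Alg985

open Set Topology TopologicalSpace Polynomial H3
open scoped ContDiff

variable {E : Type*} [NormedAddCommGroup E] [NormedSpace ℂ E]

theorem res_injective {W W' : Opens E} (hW : IsPreconnected (W : Set E)) (hle : W' ≤ W)
    (hne : (W' : Set E).Nonempty) : Function.Injective (Hol.res hle) := by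
  rw [injective_iff_map_eq_zero]
  intro f hf
  obtain ⟨w, hw⟩ := hne
  refine Hol.eq_zero_of_eventually hW f ⟨w, hle hw⟩ ?_
  filter_upwards [W'.isOpen.mem_nhds hw] with y hy
  rw [ext0_of_mem _ (hle hy)]
  have := congrArg (fun F : Hol W' => (F : W' → ℂ) ⟨y, hy⟩) hf
  simpa using this

/-- a nonzero function is nonzero at some point of every nonempty open subset -/
theorem exists_ne {W U : Opens E} (hW : IsPreconnected (W : Set E)) (hle : U ≤ W)
    (hne : (U : Set E).Nonempty) (f : Hol W) (hf : f ≠ 0) :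
    ∃ w : E, ∃ h : w ∈ U, (f : W → ℂ) ⟨w, hle h⟩ ≠ 0 := by
  by_contra hcon
  push Not at hcon
  apply hf
  apply res_injective hW hle hne
  rw [map_zero]
  ext w
  exact hcon w w.2

theorem isUnit_of_root {p : ℂ[X]} {c y : ℂ} {U V : ℂ[X]} (h : U * p + V * derivative p = C c)
    (hc : c ≠ 0) (hy : p.eval y = 0) : (derivative p).eval y ≠ 0 := by
  intro h0
  have := congrArg (Polynomial.eval y) h
  rw [eval_add, eval_mul, eval_mul, hy, h0, mul_zero, mul_zero, add_zero, eval_C] at this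
  exact hc this.symm

/-- choice of a root -/
theorem exists_root' (p : ℂ[X]) (hdeg : 1 ≤ p.natDegree) (c : ℂ) (U V : ℂ[X])
    (h : U * p + V * derivative p = C c) (hc : c ≠ 0) (g : ℂ) :
    ∃ y : ℂ, p.eval y = 0 ∧ (derivative p).eval y ≠ 0 ∧ (2 ≤ p.natDegree → y ≠ g) := by
  have hex : ∀ q : ℂ[X], 1 ≤ q.natDegree → ∃ y, q.eval y = 0 := by
    intro q hq
    obtain ⟨y, hy⟩ := IsAlgClosed.exists_root q (by
      have h3 : q.degree ≠ ((0 : ℕ) : WithBot ℕ) :=
        Polynomial.degree_ne_of_natDegree_ne (by omega)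
      exact h3)
    exact ⟨y, hy⟩
  obtain ⟨y1, hy1⟩ := hex p hdeg
  by_cases h2 : 2 ≤ p.natDegree
  · obtain ⟨q, hq⟩ := Polynomial.dvd_iff_isRoot.mpr hy1
    have hp0 : p ≠ 0 := by
      rintro rfl
      simp at hdeg
    have hq0 : q ≠ 0 := by
      rintro rfl
      rw [mul_zero] at hq
      exact hp0 hq
    have hdq : 1 ≤ q.natDegree := by
      have h3 : p.natDegree = 1 + q.natDegree := by
        conv_lhs => rw [hq]
        rw [Polynomial.natDegree_mul (Polynomial.X_sub_C_ne_zero y1) hq0,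
          Polynomial.natDegree_X_sub_C]
      omega
    obtain ⟨y2, hy2⟩ := hex q hdq
    have hpy2 : p.eval y2 = 0 := by rw [hq, eval_mul, hy2, mul_zero]
    have h12 : y2 ≠ y1 := by
      rintro rfl
      refine isUnit_of_root h hc hy1 ?_
      rw [hq, derivative_mul, eval_add, eval_mul, eval_mul, hy2]
      simp
    by_cases hg : y1 = g
    · exact ⟨y2, hpy2, isUnit_of_root h hc hpy2, fun _ => hg ▸ h12⟩
    · exact ⟨y1, hy1, isUnit_of_root h hc hy1, fun _ => hg⟩
  · exact ⟨y1, hy1, isUnit_of_root h hc hy1, fun h3 => absurd h3 h2⟩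

variable [CompleteSpace E]

/-- the analytic implicit function theorem for a polynomial with analytic coefficients -/
theorem exists_chi (d : ℕ) (c : ℕ → E → ℂ) (w0 : E) (hc : ∀ i, i ≤ d → AnalyticAt ℂ (c i) w0)
    (p : ℂ[X]) (hp : p = ∑ i ∈ Finset.range (d + 1), C (c i w0) * X ^ i) (y0 : ℂ)
    (h0 : p.eval y0 = 0) (h1 : (derivative p).eval y0 ≠ 0) :
    ∃ χ : E → ℂ, AnalyticAt ℂ χ w0 ∧ χ w0 = y0 ∧
      ∀ᶠ w in 𝓝 w0, ∑ i ∈ Finset.range (d + 1), c i w * χ w ^ i = 0 := by
  let n : E × ℂ → ℂ := fun v => ∑ i ∈ Finset.range (d + 1), c i v.1 * v.2 ^ i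
  have han : AnalyticAt ℂ n (w0, y0) := by
    have : n = ∑ i ∈ Finset.range (d + 1), fun v : E × ℂ => c i v.1 * v.2 ^ i := by
      funext v
      simp [n, Finset.sum_apply]
    rw [this]
    refine Finset.analyticAt_sum _ fun i hi => ?_
    have hi' : i ≤ d := by
      have := Finset.mem_range.mp hi
      omega
    exact ((hc i hi').fun_comp_of_eq analyticAt_fst rfl).mul (analyticAt_snd.pow i)
  have hcd : ContDiffAt ℂ ω n (w0, y0) := han.contDiffAt
  have hline : ∀ y, n (w0, y) = p.eval y := by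
    intro y
    rw [hp, eval_finsetSum]
    simp [n]
  have hder : fderiv ℂ n (w0, y0) (0, 1) = (derivative p).eval y0 := by
    have e1 : HasDerivAt (fun y : ℂ => n (w0, y)) (fderiv ℂ n (w0, y0) (0, 1)) y0 := by
      have e2 : HasDerivAt (fun y : ℂ => (w0, y)) ((0 : E), (1 : ℂ)) y0 :=
        (hasDerivAt_const y0 w0).prodMk (hasDerivAt_id y0)
      exact (han.differentiableAt.hasFDerivAt).comp_hasDerivAt y0 e2
    have e3 : HasDerivAt (fun y : ℂ => n (w0, y)) ((derivative p).eval y0) y0 := by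
      simp only [hline]
      exact p.hasDerivAt y0
    exact e1.unique e3
  have hinv : (fderiv ℂ n (w0, y0) ∘L ContinuousLinearMap.inr ℂ E ℂ).IsInvertible := by
    refine ⟨ContinuousLinearEquiv.unitsEquivAut ℂ (Units.mk0 _ (hder ▸ h1)), ?_⟩
    ext
    simp
  have hω : (ω : WithTop ℕ∞) ≠ 0 := by simp
  refine ⟨hcd.implicitFunction hω hinv, ?_, ?_, ?_⟩
  · exact (hcd.contDiffAt_implicitFunction hω hinv).analyticAt
  · exact hcd.implicitFunction_apply_self hω hinv
  · have := hcd.eventually_apply_implicitFunction hω hinv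
    filter_upwards [this] with w hw
    rw [hline, h0] at hw
    exact hw

/-- **extension of an embedding to a primitive extension**, at a generic point -/
theorem ext_step {R : Type*} [CommRing R] [IsDomain R] [Algebra ℂ R] (B A : Subalgebra ℂ R)
    (hBA : B ≤ A) (θ : R) (hθ : θ ∈ A) (P : B[X]) (b0 : B) (hpd : PD B A θ P b0)
    {W : Opens E} (hW : IsPreconnected (W : Set E)) (hne : (W : Set E).Nonempty)
    (σ : B →ₐ[ℂ] Hol W) (hσ : Function.Injective σ) (g : Hol W) :
    ∃ (W' : Opens E) (hle : W' ≤ W), (W' : Set E).Nonempty ∧ IsPreconnected (W' : Set E) ∧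
      ∃ τ : A →ₐ[ℂ] Hol W', (∀ b : B, τ ⟨b, hBA b.2⟩ = Hol.res hle (σ b)) ∧
        (2 ≤ P.natDegree → τ ⟨θ, hθ⟩ ≠ Hol.res hle g) := by
  classical
  have hWne : Nonempty W := hne.to_subtype
  have hdomW : IsDomain (Hol W) := Hol.isDomain hW
  -- a good point
  have hb0 : σ b0 ≠ 0 := by
    rw [Ne, map_eq_zero_iff _ hσ]
    exact hpd.b0_ne
  obtain ⟨w0, hw0, hval⟩ := exists_ne hW le_rfl hne _ hb0
  set s0 : B →+* ℂ := (evH (⟨w0, hw0⟩ : W)).toRingHom.comp σ.toRingHom with hs0
  have hs0b : ∀ b : B, s0 b = ext0 (σ b : W → ℂ) w0 := by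
    intro b
    rw [ext0_of_mem _ hw0]
    rfl
  have hs0b0 : s0 b0 ≠ 0 := hval
  set p : ℂ[X] := P.map s0 with hp
  obtain ⟨U, V, hUV⟩ := hpd.sep
  have hUV' : U.map s0 * p + V.map s0 * derivative p = C (s0 b0) := by
    have := congrArg (Polynomial.map s0) hUV
    rw [Polynomial.map_add, Polynomial.map_mul, Polynomial.map_mul, Polynomial.map_C,
      ← Polynomial.derivative_map] at this
    exact this
  have hlead : s0 P.leadingCoeff ≠ 0 := by
    obtain ⟨c, hc⟩ := hpd.lead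
    intro h0
    apply hs0b0
    rw [hc, map_mul, h0, zero_mul]
  have hdeg : p.natDegree = P.natDegree := Polynomial.natDegree_map_of_leadingCoeff_ne_zero _ hlead
  obtain ⟨y0, hy0, hy0', hy0g⟩ := exists_root' p (hdeg ▸ hpd.deg) (s0 b0) _ _ hUV' hs0b0
    ((g : W → ℂ) ⟨w0, hw0⟩)
  -- the implicit function
  obtain ⟨χ, hχ, hχ0, hχn⟩ := exists_chi P.natDegree (fun i => ext0 (σ (P.coeff i) : W → ℂ)) w0
    (fun i _ => Hol.an _ w0 hw0) p (by
      rw [hp]
      conv_lhs => rw [P.as_sum_range_C_mul_X_pow]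
      rw [Polynomial.map_sum]
      refine Finset.sum_congr rfl fun i _ => ?_
      rw [Polynomial.map_mul, Polynomial.map_C, Polynomial.map_pow, Polynomial.map_X, hs0b])
    y0 hy0 hy0'
  have hcont : ContinuousAt (ext0 (σ b0 : W → ℂ)) w0 := (Hol.an (σ b0) w0 hw0).continuousAt
  have hb0w : ext0 (σ b0 : W → ℂ) w0 ≠ 0 := by
    rw [← hs0b]
    exact hs0b0
  have hev : ∀ᶠ w in 𝓝 w0, w ∈ W ∧ AnalyticAt ℂ χ w ∧
      (∑ i ∈ Finset.range (P.natDegree + 1), ext0 (σ (P.coeff i) : W → ℂ) w * χ w ^ i = 0) ∧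
      ext0 (σ b0 : W → ℂ) w ≠ 0 := by
    filter_upwards [W.isOpen.mem_nhds hw0, hχ.eventually_analyticAt, hχn, hcont.eventually_ne hb0w]
      with w h1 h2 h3 h4 using ⟨h1, h2, h3, h4⟩
  obtain ⟨r, hr, hball⟩ := Metric.eventually_nhds_iff_ball.mp hev
  let W' : Opens E := ⟨Metric.ball w0 r, Metric.isOpen_ball⟩
  have hmem : ∀ w : E, w ∈ W' ↔ w ∈ Metric.ball w0 r := fun w => Iff.rfl
  have hle : W' ≤ W := fun w hw => (hball w hw).1
  have hne' : (W' : Set E).Nonempty := ⟨w0, Metric.mem_ball_self hr⟩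
  have hpre : IsPreconnected (W' : Set E) := by
    have h1 : Convex ℝ (Metric.ball w0 r) := by
      let _ : NormedSpace ℝ E := NormedSpace.restrictScalars ℝ ℂ E
      exact convex_ball w0 r
    exact h1.isPreconnected
  have hW'ne : Nonempty W' := hne'.to_subtype
  have hdomW' : IsDomain (Hol W') := Hol.isDomain hpre
  let χH : Hol W' := Hol.ofFun χ (fun w hw => (hball w hw).2.1)
  let ρ : B →+* Hol W' := (Hol.res hle).toRingHom.comp σ.toRingHom
  have hρinj : Function.Injective ρ := (res_injective hW hle hne').comp hσ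
  let ev : B[X] →+* Hol W' := Polynomial.eval₂RingHom ρ χH
  have hevC : ∀ b, ev (C b) = ρ b := fun b => Polynomial.eval₂_C _ _
  have hevX : ev X = χH := Polynomial.eval₂_X _ _
  have hevP : ev P = 0 := by
    change Polynomial.eval₂ ρ χH P = 0
    rw [Polynomial.eval₂_eq_sum_range]
    ext w
    have h3 := (hball w w.2).2.2.1
    have h4 : ((∑ i ∈ Finset.range (P.natDegree + 1), ρ (P.coeff i) * χH ^ i : Hol W') : W' → ℂ) w
        = ∑ i ∈ Finset.range (P.natDegree + 1), ext0 (σ (P.coeff i) : W → ℂ) w * χ w ^ i := by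
      have h5 : ((∑ i ∈ Finset.range (P.natDegree + 1), ρ (P.coeff i) * χH ^ i : Hol W') :
          W' → ℂ) w = evH w (∑ i ∈ Finset.range (P.natDegree + 1), ρ (P.coeff i) * χH ^ i) := rfl
      rw [h5, map_sum]
      refine Finset.sum_congr rfl fun i _ => ?_
      rw [map_mul, map_pow, ext0_of_mem _ (hle w.2)]
      rfl
    rw [h4, h3]
    rfl
  have hker : ∀ f : B[X], aeval θ f = 0 → ev f = 0 := by
    intro f hf
    obtain ⟨b, hb, g, hg⟩ := hpd.ker f hf
    have h1 := congrArg ev hg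
    rw [map_mul, map_mul, hevP, zero_mul, hevC] at h1
    refine (mul_eq_zero.mp h1).resolve_left ?_
    rw [map_eq_zero_iff _ hρinj]
    exact hb
  have hunit : IsUnit (ρ b0) := by
    refine Hol.isUnit _ fun w => ?_
    have h3 := (hball w w.2).2.2.2
    rw [ext0_of_mem _ (hle w.2)] at h3
    exact h3
  obtain ⟨β, hβ⟩ := hunit.exists_right_inv
  -- the extension
  have hchoice : ∀ a : A, ∃ nf : ℕ × B[X], (b0 : R) ^ nf.1 * a = aeval θ nf.2 := fun a => by
    obtain ⟨n, f, h⟩ := hpd.exp a a.2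
    exact ⟨(n, f), h⟩
  choose nf hnf using hchoice
  let τ0 : A → Hol W' := fun a => β ^ (nf a).1 * ev (nf a).2
  have hτ0 : ∀ (a : A) (n : ℕ) (f : B[X]), (b0 : R) ^ n * a = aeval θ f →
      τ0 a = β ^ n * ev f := by
    intro a n f h
    have h1 := hker (C b0 ^ n * (nf a).2 - C b0 ^ (nf a).1 * f) (by
      rw [map_sub, map_mul, map_mul, ← hnf a, ← h, map_pow, map_pow, aeval_C]
      change (b0 : R) ^ n * _ - (b0 : R) ^ (nf a).1 * _ = 0
      ring)
    rw [map_sub, map_mul, map_mul, map_pow, map_pow, hevC, sub_eq_zero] at h1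
    have h2 : β ^ n * (ρ b0) ^ n = 1 := by rw [← mul_pow, mul_comm, hβ, one_pow]
    have h3 : β ^ (nf a).1 * (ρ b0) ^ (nf a).1 = 1 := by rw [← mul_pow, mul_comm, hβ, one_pow]
    change β ^ (nf a).1 * ev (nf a).2 = _
    calc β ^ (nf a).1 * ev (nf a).2
        = (β ^ n * (ρ b0) ^ n) * (β ^ (nf a).1 * ev (nf a).2) := by rw [h2, one_mul]
      _ = β ^ n * β ^ (nf a).1 * ((ρ b0) ^ n * ev (nf a).2) := by ring
      _ = β ^ n * (β ^ (nf a).1 * (ρ b0) ^ (nf a).1) * ev f := by rw [h1]; ring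
      _ = β ^ n * ev f := by rw [h3, mul_one]
  have hτC : ∀ b : B, τ0 ⟨b, hBA b.2⟩ = ρ b := by
    intro b
    rw [hτ0 ⟨b, hBA b.2⟩ 0 (C b) (by rw [pow_zero, one_mul, aeval_C]; rfl), pow_zero, one_mul, hevC]
  let τ : A →ₐ[ℂ] Hol W' :=
    { toFun := τ0
      map_one' := by
        rw [hτ0 1 0 1 (by simp), pow_zero, one_mul, map_one]
      map_mul' := fun a a' => by
        rw [hτ0 (a * a') ((nf a).1 + (nf a').1) ((nf a).2 * (nf a').2) (by
          rw [map_mul, ← hnf, ← hnf]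
          push_cast
          ring), map_mul]
        change _ = (β ^ (nf a).1 * ev (nf a).2) * (β ^ (nf a').1 * ev (nf a').2)
        ring
      map_zero' := by
        rw [hτ0 0 0 0 (by simp), map_zero, mul_zero]
      map_add' := fun a a' => by
        rw [hτ0 (a + a') ((nf a).1 + (nf a').1)
          (C b0 ^ (nf a').1 * (nf a).2 + C b0 ^ (nf a).1 * (nf a').2) (by
          rw [map_add, map_mul, map_mul, ← hnf, ← hnf, map_pow, map_pow, aeval_C]
          change _ = (b0 : R) ^ _ * _ + (b0 : R) ^ _ * _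
          push_cast
          ring), map_add, map_mul, map_mul, map_pow, map_pow, hevC]
        have h2 : ∀ n, β ^ n * (ρ b0) ^ n = 1 := fun n => by
          rw [← mul_pow, mul_comm, hβ, one_pow]
        change _ = (β ^ (nf a).1 * ev (nf a).2) + (β ^ (nf a').1 * ev (nf a').2)
        rw [pow_add]
        linear_combination (β ^ (nf a).1 * ev (nf a).2) * h2 (nf a').1 +
          (β ^ (nf a').1 * ev (nf a').2) * h2 (nf a).1
      commutes' := fun r => by
        have h1 := hτC ⟨algebraMap ℂ R r, B.algebraMap_mem r⟩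
        have h2 : (algebraMap ℂ A r) = ⟨algebraMap ℂ R r, hBA (B.algebraMap_mem r)⟩ := rfl
        rw [h2, h1]
        change Hol.res hle (σ (algebraMap ℂ B r)) = _
        rw [AlgHom.commutes, AlgHom.commutes] }
  refine ⟨W', hle, hne', hpre, τ, hτC, fun h2 heq => ?_⟩
  have h3 : τ ⟨θ, hθ⟩ = χH := by
    change τ0 _ = _
    rw [hτ0 ⟨θ, hθ⟩ 0 X (by rw [pow_zero, one_mul, aeval_X]), pow_zero, one_mul, hevX]
  rw [h3] at heq
  have h4 := congrArg (fun F : Hol W' => (F : W' → ℂ) ⟨w0, Metric.mem_ball_self hr⟩) heq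
  have h5 : χ w0 = (g : W → ℂ) ⟨w0, hw0⟩ := h4
  rw [hχ0] at h5
  exact hy0g (hdeg ▸ h2) h5

end Crest.Agent.R102.Alg985
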