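import Crest.Agent.R102.AlgB_985

/-!
Row 102, (RAT), leaf R1 = ALG, field form.
-/

set_option linter.unusedSectionVars false
set_option linter.unusedVariables false

namespace Crest.Agent.R102.Alg985

open Set Topology TopologicalSpace Polynomial H3

variable {E : Type*} [NormedAddCommGroup E] [NormedSpace ℂ E]

section fields

variable {M : Type*} [Field M] [Algebra ℂ M]

/-- algebraic over `ℂ(S)` implies algebraic over `ℂ[S]` -/
theorem alg_of_alg_adjoin (S : Set M) (a : M)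
    (h : IsAlgebraic (IntermediateField.adjoin ℂ S) a) : IsAlgebraic (Algebra.adjoin ℂ S) a := by
  open IntermediateField.algebraAdjoinAdjoin in
  exact (IsFractionRing.isAlgebraic_iff (Algebra.adjoin ℂ S) (IntermediateField.adjoin ℂ S) M).mpr h

/-- extension of an injective homomorphism to the fraction field -/
theorem exists_field_hom {M' : Type*} [Field M'] [Algebra ℂ M'] (T : Set M)
    (τ : Algebra.adjoin ℂ T →ₐ[ℂ] M') (hτ : Function.Injective τ) :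
    ∃ τ' : IntermediateField.adjoin ℂ T →ₐ[ℂ] M', ∀ a (ha : a ∈ Algebra.adjoin ℂ T),
      τ' ⟨a, IntermediateField.algebra_adjoin_le_adjoin ℂ T ha⟩ = τ ⟨a, ha⟩ := by
  open IntermediateField.algebraAdjoinAdjoin in
  refine ⟨IsFractionRing.liftAlgHom (K := IntermediateField.adjoin ℂ T) (g := τ) hτ,
    fun a ha => ?_⟩
  have := IsFractionRing.lift_algebraMap (K := IntermediateField.adjoin ℂ T) (g := τ.toRingHom) hτ
    ⟨a, ha⟩
  exact this

end fields

/-- the map induced on fraction fields -/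
theorem exists_rho {W W' : Opens E} [IsDomain (Hol W)] [IsDomain (Hol W')]
    (hW : IsPreconnected (W : Set E)) (hle : W' ≤ W) (hne : (W' : Set E).Nonempty) :
    ∃ ρ : FractionRing (Hol W) →ₐ[ℂ] FractionRing (Hol W'), ∀ g : Hol W,
      ρ (algebraMap _ _ g) = algebraMap _ _ (Hol.res hle g) := by
  let φ : Hol W →ₐ[ℂ] FractionRing (Hol W') :=
    (IsScalarTower.toAlgHom ℂ (Hol W') (FractionRing (Hol W'))).comp (Hol.res hle)
  have hφ : Function.Injective φ :=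
    (IsFractionRing.injective (Hol W') (FractionRing (Hol W'))).comp (res_injective hW hle hne)
  refine ⟨IsFractionRing.liftAlgHom (K := FractionRing (Hol W)) (g := φ) hφ, fun g => ?_⟩
  exact IsFractionRing.lift_algebraMap (K := FractionRing (Hol W)) (g := φ.toRingHom) hφ g

/-- elements whose image under `ρ` is holomorphic -/
theorem exists_sigma {M : Type*} [Field M] [Algebra ℂ M] {W' : Opens E} [IsDomain (Hol W')]
    (ρ : M →ₐ[ℂ] FractionRing (Hol W')) (C : Subalgebra ℂ M)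
    (hC : ∀ c ∈ C, ∃ h : Hol W', ρ c = algebraMap _ _ h) :
    ∃ σ : C →ₐ[ℂ] Hol W', ∀ c : C, algebraMap (Hol W') (FractionRing (Hol W')) (σ c) = ρ c := by
  choose f hf using fun c : C => hC c c.2
  have hinj := IsFractionRing.injective (Hol W') (FractionRing (Hol W'))
  exact ⟨{
    toFun := f
    map_one' := hinj (by rw [← hf]; simp)
    map_mul' := fun a b => hinj (by rw [← hf, map_mul, ← hf, ← hf]; simp)
    map_zero' := hinj (by rw [← hf]; simp)
    map_add' := fun a b => hinj (by rw [← hf, map_add, ← hf, ← hf]; simp)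
    commutes' := fun r => hinj (by
      rw [← hf, ← IsScalarTower.algebraMap_apply]
      exact ρ.commutes r) }, fun c => (hf c).symm⟩

/-- the derivations, field form -/
theorem comm_field {M M' : Type*} [Field M] [Field M'] [Algebra ℂ M] [Algebra ℂ M']
    (K L : IntermediateField ℂ M) (hKL : K ≤ L) (halg : ∀ f ∈ L, IsAlgebraic K f)
    (ρ : M →ₐ[ℂ] M') (τ : L →ₐ[ℂ] M') (hτK : ∀ (f : M) (hf : f ∈ K), τ ⟨f, hKL hf⟩ = ρ f)
    (D : Derivation ℂ M M) (D' : Derivation ℂ M' M') (hDL : ∀ f ∈ L, D f ∈ L)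
    (hDK : ∀ f ∈ K, D f ∈ K) (hDρ : ∀ f ∈ L, D' (ρ f) = ρ (D f)) (f : M) (hf : f ∈ L) :
    τ ⟨D f, hDL f hf⟩ = D' (τ ⟨f, hf⟩) := by
  have hcM : CharZero M := charZero_of_injective_algebraMap (algebraMap ℂ M).injective
  let τ' : L.toSubalgebra →+* M' := τ.toRingHom
  have h := tau_comm (R := M) (R' := M') K.toSubalgebra L.toSubalgebra hKL
    (fun a ha => halg a ha) τ' τ.toRingHom.injective D D' hDL (fun b hb => by
      have h1 : τ ⟨b, hKL hb⟩ = ρ b := hτK b hb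
      have h2 : τ ⟨D b, hKL (hDK b hb)⟩ = ρ (D b) := hτK (D b) (hDK b hb)
      change τ ⟨D b, _⟩ = D' (τ ⟨b, _⟩)
      rw [h1, hDρ b b.2]
      exact h2)
  exact h ⟨f, hf⟩

variable [CompleteSpace E]

/-- core of ALG -/
theorem alg_core {R : Type*} [CommRing R] [IsDomain R] [CharZero R] [Algebra ℂ R]
    (B A : Subalgebra ℂ R) (hBA : B ≤ A) (hA : A.FG) (halgB : ∀ a ∈ A, IsAlgebraic B a)
    (f0 : R) (hf0 : f0 ∈ A) (hx : ∀ b b' : R, b ∈ B → b' ∈ B → b ≠ 0 → b * f0 ≠ b')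
    {W1 : Opens E} (hW1p : IsPreconnected (W1 : Set E)) (hW1ne : (W1 : Set E).Nonempty)
    (σA : A →ₐ[ℂ] Hol W1) (hσA : Function.Injective σA) :
    ∃ (W3 : Opens E) (hle : W3 ≤ W1), (W3 : Set E).Nonempty ∧
      IsPreconnected (W3 : Set E) ∧ ∃ τ : A →ₐ[ℂ] Hol W3, Function.Injective τ ∧
      (∀ (b : R) (hb : b ∈ B), τ ⟨b, hBA hb⟩ = Hol.res hle (σA ⟨b, hBA hb⟩)) ∧
      τ ⟨f0, hf0⟩ ≠ Hol.res hle (σA ⟨f0, hf0⟩) := by
  classical
  have hn1 : Nonempty W1 := hW1ne.to_subtype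
  have hdom1 : IsDomain (Hol W1) := Hol.isDomain hW1p
  let σ : B →ₐ[ℂ] Hol W1 := σA.comp (Subalgebra.inclusion hBA)
  have hσ : ∀ b : B, σ b = σA ⟨b, hBA b.2⟩ := fun b => rfl
  have hσinj : Function.Injective σ := hσA.comp (Subalgebra.inclusion_injective hBA)
  clear_value σ
  -- first step
  obtain ⟨P, b0, hpd, hP2⟩ := exists_pd_adj B f0 (halgB f0 hf0) hx
  obtain ⟨W2, hle2, hW2ne, hW2p, τ1, hτ1, hτ1f⟩ := ext_step B (adj B f0) (le_adj B f0) f0
    (mem_adj B f0) P b0 hpd hW1p hW1ne σ hσinj (σA ⟨f0, hf0⟩)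
  have hn2 : Nonempty W2 := hW2ne.to_subtype
  have hdom2 : IsDomain (Hol W2) := Hol.isDomain hW2p
  have hadjA : adj B f0 ≤ A := by
    rintro _ ⟨g, rfl⟩
    induction g using Polynomial.induction_on' with
    | add p q hp hq =>
      rw [map_add]
      exact A.add_mem hp hq
    | monomial m b =>
      rw [aeval_monomial]
      exact A.mul_mem (hBA b.2) (A.pow_mem hf0 m)
  have hτ1inj : Function.Injective τ1 := by
    refine tau_injective B (adj B f0) (le_adj B f0) (fun a ha => halgB a (hadjA ha))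
      τ1.toRingHom ?_
    intro b hb h0
    have h1 : τ1 b = Hol.res hle2 (σ ⟨b, hb⟩) := hτ1 ⟨b, hb⟩
    have h2 : Hol.res hle2 (σ ⟨b, hb⟩) = 0 := by
      rw [← h1]
      exact h0
    have h3 := (injective_iff_map_eq_zero _).mp (res_injective hW1p hle2 hW2ne) _ h2
    have h4 := (injective_iff_map_eq_zero σ).mp hσinj _ h3
    have h5 : (b : R) = 0 := congrArg Subtype.val h4
    exact Subtype.ext h5
  -- second step
  have halg1 : ∀ a ∈ A, IsAlgebraic (adj B f0) a := by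
    intro a ha
    obtain ⟨p, hp, hpa⟩ := halgB a ha
    refine ⟨p.map (Subalgebra.inclusion (le_adj B f0)).toRingHom, ?_, ?_⟩
    · rw [Ne, Polynomial.map_eq_zero_iff (Subalgebra.inclusion_injective (le_adj B f0))]
      exact hp
    · rw [Polynomial.aeval_def, Polynomial.eval₂_map]
      exact hpa
  obtain ⟨θ, hθ, P', b0', hpd'⟩ := exists_pd (adj B f0) A hadjA hA halg1
  obtain ⟨W3, hle3, hW3ne, hW3p, τ2, hτ2, -⟩ := ext_step (adj B f0) A hadjA θ hθ P' b0' hpd'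
    hW2p hW2ne τ1 hτ1inj 0
  have hn3 : Nonempty W3 := hW3ne.to_subtype
  have hdom3 : IsDomain (Hol W3) := Hol.isDomain hW3p
  have hle31 : W3 ≤ W1 := hle3.trans hle2
  have hτ2B : ∀ (b : R) (hb : b ∈ B), τ2 ⟨b, hBA hb⟩ = Hol.res hle31 (σ ⟨b, hb⟩) := by
    intro b hb
    have h1 := hτ2 ⟨b, le_adj B f0 hb⟩
    have h2 := hτ1 ⟨b, hb⟩
    rw [h2] at h1
    exact h1
  have hτ2inj : Function.Injective τ2 := by
    refine tau_injective B A hBA halgB τ2.toRingHom ?_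
    intro b hb h0
    have h1 : τ2 b = Hol.res hle31 (σ ⟨b, hb⟩) := hτ2B b hb
    have h2 : Hol.res hle31 (σ ⟨b, hb⟩) = 0 := by
      rw [← h1]
      exact h0
    have h3 := (injective_iff_map_eq_zero _).mp (res_injective hW1p hle31 hW3ne) _ h2
    have h4 := (injective_iff_map_eq_zero σ).mp hσinj _ h3
    have h5 : (b : R) = 0 := congrArg Subtype.val h4
    exact Subtype.ext h5
  refine ⟨W3, hle31, hW3ne, hW3p, τ2, hτ2inj, ?_, ?_⟩
  · intro b hb
    rw [hτ2B b hb, hσ]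
  · intro heq
    have h3 : τ2 ⟨f0, hf0⟩ = Hol.res hle3 (τ1 ⟨f0, mem_adj B f0⟩) := hτ2 ⟨f0, mem_adj B f0⟩
    apply hτ1f hP2
    apply res_injective hW2p hle3 hW3ne
    rw [← h3]
    exact heq

section top

variable {M M1 M3 R1 R3 : Type*} [Field M] [Field M1] [Field M3] [Algebra ℂ M] [Algebra ℂ M1]
  [Algebra ℂ M3] [CommRing R1] [CommRing R3] [Algebra ℂ R1] [Algebra ℂ R3] [Algebra R1 M1]
  [Algebra R3 M3] [IsScalarTower ℂ R1 M1] [IsScalarTower ℂ R3 M3]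

/-- the subalgebra of elements with regular image -/
theorem reg_adjoin (T : Set M) (ρ1 : M →ₐ[ℂ] M1) (hT : ∀ t ∈ T, ∃ h : R1, ρ1 t = algebraMap _ _ h)
    (a : M) (ha : a ∈ Algebra.adjoin ℂ T) : ∃ h : R1, ρ1 a = algebraMap _ _ h := by
  refine Algebra.adjoin_induction (p := fun a _ => ∃ h : R1, ρ1 a = algebraMap _ _ h)
    ?_ ?_ ?_ ?_ ha
  · intro t ht
    exact hT t ht
  · intro c
    exact ⟨algebraMap ℂ R1 c, by rw [ρ1.commutes, ← IsScalarTower.algebraMap_apply]⟩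
  · rintro a b _ _ ⟨h, hh⟩ ⟨h', hh'⟩
    exact ⟨h + h', by rw [map_add, map_add, hh, hh']⟩
  · rintro a b _ _ ⟨h, hh⟩ ⟨h', hh'⟩
    exact ⟨h * h', by rw [map_mul, map_mul, hh, hh']⟩

/-- elements whose image under `ρ` is regular, abstract form -/
theorem exists_sigma' (hinj : Function.Injective (algebraMap R1 M1))
    (ρ : M →ₐ[ℂ] M1) (C : Subalgebra ℂ M)
    (hC : ∀ c ∈ C, ∃ h : R1, ρ c = algebraMap _ _ h) :
    ∃ σ : C →ₐ[ℂ] R1, Function.Injective σ ∧ ∀ c : C, algebraMap R1 M1 (σ c) = ρ c := by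
  choose f hf using fun c : C => hC c c.2
  refine ⟨{
    toFun := f
    map_one' := hinj (by rw [← hf]; simp)
    map_mul' := fun a b => hinj (by rw [← hf, map_mul, ← hf, ← hf]; simp)
    map_zero' := hinj (by rw [← hf]; simp)
    map_add' := fun a b => hinj (by rw [← hf, map_add, ← hf, ← hf]; simp)
    commutes' := fun r => hinj (by
      rw [← hf, ← IsScalarTower.algebraMap_apply]
      exact ρ.commutes r) }, ?_, fun c => (hf c).symm⟩
  intro a b hab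
  have h1 : f a = f b := hab
  have h2 : ρ a = ρ b := by rw [hf a, hf b, h1]
  exact Subtype.ext (ρ.toRingHom.injective h2)

/-- passing to fields of fractions -/
theorem alg_top (hinj3 : Function.Injective (algebraMap R3 M3)) (SK T : Set M)
    (hSKT : SK ⊆ T) (f0 : M) (hf0 : f0 ∈ T) (ρ1 : M →ₐ[ℂ] M1)
    (σA : Algebra.adjoin ℂ T →ₐ[ℂ] R1) (hσA : ∀ c, algebraMap R1 M1 (σA c) = ρ1 c)
    (res : R1 →ₐ[ℂ] R3) (ρ13 : M1 →ₐ[ℂ] M3)
    (hρ13 : ∀ g : R1, ρ13 (algebraMap _ _ g) = algebraMap _ _ (res g))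
    (τ2 : Algebra.adjoin ℂ T →ₐ[ℂ] R3) (hτ2inj : Function.Injective τ2)
    (hBA : Algebra.adjoin ℂ SK ≤ Algebra.adjoin ℂ T)
    (hτ2B : ∀ (b : M) (hb : b ∈ Algebra.adjoin ℂ SK), τ2 ⟨b, hBA hb⟩ = res (σA ⟨b, hBA hb⟩))
    (hf0A : f0 ∈ Algebra.adjoin ℂ T) (hτ2f : τ2 ⟨f0, hf0A⟩ ≠ res (σA ⟨f0, hf0A⟩)) :
    ∃ τ : IntermediateField.adjoin ℂ T →ₐ[ℂ] M3,
      (∀ (f : M) (hf : f ∈ IntermediateField.adjoin ℂ SK)
        (hf' : f ∈ IntermediateField.adjoin ℂ T), τ ⟨f, hf'⟩ = ρ13 (ρ1 f)) ∧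
      (∀ (hf' : f0 ∈ IntermediateField.adjoin ℂ T), τ ⟨f0, hf'⟩ ≠ ρ13 (ρ1 f0)) ∧
      (∀ (t : M) (ht : t ∈ T) (ht' : t ∈ IntermediateField.adjoin ℂ T), ∃ h : R3,
        τ ⟨t, ht'⟩ = algebraMap _ _ h) := by
  have hAL := IntermediateField.algebra_adjoin_le_adjoin ℂ T
  let τ3 : Algebra.adjoin ℂ T →ₐ[ℂ] M3 := (IsScalarTower.toAlgHom ℂ R3 M3).comp τ2
  have hτ3 : ∀ a, τ3 a = algebraMap _ _ (τ2 a) := fun a => rfl
  obtain ⟨τ, hτ⟩ := exists_field_hom T τ3 (hinj3.comp hτ2inj)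
  refine ⟨τ, ?_, ?_, ?_⟩
  · intro f hf hf'
    obtain ⟨r, hr, s, hs, hfrs⟩ := IntermediateField.mem_adjoin_iff_div.mp hf
    have key : ∀ (b : M) (hb : b ∈ Algebra.adjoin ℂ SK),
        τ ⟨b, hAL (hBA hb)⟩ = ρ13 (ρ1 b) := by
      intro b hb
      rw [hτ b (hBA hb), hτ3, hτ2B b hb, ← hρ13, hσA]
    by_cases hs0 : s = 0
    · have h0 : f = 0 := by rw [hfrs, hs0, div_zero]
      subst h0
      rw [map_zero, map_zero]
      exact map_zero τ
    · have h1 : (⟨s, hAL (hBA hs)⟩ : IntermediateField.adjoin ℂ T) * ⟨f, hf'⟩ =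
          ⟨r, hAL (hBA hr)⟩ := by
        apply Subtype.ext
        change s * f = r
        rw [hfrs, mul_div_cancel₀ _ hs0]
      have h2 := congrArg τ h1
      rw [map_mul, key s hs, key r hr] at h2
      have h3 : s * f = r := congrArg Subtype.val h1
      rw [← h3, map_mul, map_mul] at h2
      have hne : ρ13 (ρ1 s) ≠ 0 := by
        rw [_root_.map_ne_zero, _root_.map_ne_zero]
        exact hs0
      exact mul_left_cancel₀ hne h2
  · intro hf' heq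
    rw [hτ f0 hf0A, hτ3] at heq
    apply hτ2f
    apply hinj3
    rw [heq, ← hρ13, hσA]
  · intro t ht ht'
    exact ⟨τ2 ⟨t, Algebra.subset_adjoin ht⟩, hτ t (Algebra.subset_adjoin ht)⟩

end top

/-- ALG for abstract fields -/
theorem alg_mid {M M1 : Type*} [Field M] [Algebra ℂ M] [Field M1] [Algebra ℂ M1] (SK T : Set M)
    (hTfin : T.Finite)
    (hSKT : SK ⊆ T) (f0 : M) (hf0 : f0 ∈ T) (hf0K : f0 ∉ IntermediateField.adjoin ℂ SK)
    (halg : ∀ f ∈ IntermediateField.adjoin ℂ T, IsAlgebraic (IntermediateField.adjoin ℂ SK) f)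
    {W1 : Opens E} (hW1p : IsPreconnected (W1 : Set E)) (hW1ne : (W1 : Set E).Nonempty)
    [Algebra (Hol W1) M1] [IsScalarTower ℂ (Hol W1) M1]
    (hinj1 : Function.Injective (algebraMap (Hol W1) M1)) (ρ1 : M →ₐ[ℂ] M1)
    (hT : ∀ t ∈ T, ∃ h : Hol W1, ρ1 t = algebraMap _ _ h) :
    ∃ (σA : Algebra.adjoin ℂ T →ₐ[ℂ] Hol W1) (_ : ∀ c, algebraMap (Hol W1) M1 (σA c) = ρ1 c)
      (W3 : Opens E) (hle : W3 ≤ W1), (W3 : Set E).Nonempty ∧
      IsPreconnected (W3 : Set E) ∧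
      ∃ (τ2 : Algebra.adjoin ℂ T →ₐ[ℂ] Hol W3), Function.Injective τ2 ∧
      ∃ (hBA : Algebra.adjoin ℂ SK ≤ Algebra.adjoin ℂ T), 
      (∀ (b : M) (hb : b ∈ Algebra.adjoin ℂ SK),
        τ2 ⟨b, hBA hb⟩ = Hol.res hle (σA ⟨b, hBA hb⟩)) ∧
      ∃ (hf0A : f0 ∈ Algebra.adjoin ℂ T), τ2 ⟨f0, hf0A⟩ ≠ Hol.res hle (σA ⟨f0, hf0A⟩) := by
  have hcM : CharZero M := charZero_of_injective_algebraMap (algebraMap ℂ M).injective
  have hAL := IntermediateField.algebra_adjoin_le_adjoin ℂ T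
  obtain ⟨σA, hσAinj, hσA⟩ := exists_sigma' hinj1 ρ1 (Algebra.adjoin ℂ T)
    (reg_adjoin T ρ1 hT)
  have hBA : Algebra.adjoin ℂ SK ≤ Algebra.adjoin ℂ T := Algebra.adjoin_mono hSKT
  have halgB : ∀ a ∈ Algebra.adjoin ℂ T, IsAlgebraic (Algebra.adjoin ℂ SK) a := fun a ha =>
    alg_of_alg_adjoin SK a (halg a (hAL ha))
  have hf0A : f0 ∈ Algebra.adjoin ℂ T := Algebra.subset_adjoin hf0
  have hx : ∀ b b' : M, b ∈ Algebra.adjoin ℂ SK → b' ∈ Algebra.adjoin ℂ SK → b ≠ 0 →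
      b * f0 ≠ b' := by
    intro b b' hb hb' hne h
    apply hf0K
    have h1 : f0 = b' / b := by
      rw [← h, mul_div_cancel_left₀ _ hne]
    rw [h1]
    exact IntermediateField.mem_adjoin_iff_div.mpr ⟨b', hb', b, hb, rfl⟩
  have hAfg : (Algebra.adjoin ℂ T).FG := by
    have h := Subalgebra.fg_adjoin_finset (R := ℂ) hTfin.toFinset
    rwa [Set.Finite.coe_toFinset] at h
  obtain ⟨W3, hle, hW3ne, hW3p, τ2, hτ2inj, hτ2B, hτ2f⟩ := alg_core (Algebra.adjoin ℂ SK)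
    (Algebra.adjoin ℂ T) hBA hAfg halgB f0 hf0A hx hW1p hW1ne σA hσAinj
  exact ⟨σA, hσA, W3, hle, hW3ne, hW3p, τ2, hτ2inj, hBA, hτ2B, hf0A, hτ2f⟩

/-- choice of the first ball -/
theorem exists_W1 {W : Opens E} (hW : IsPreconnected (W : Set E)) [IsDomain (Hol W)]
    (T : Set (FractionRing (Hol W))) (hT : T.Finite)
    (U : Opens E) (hUne : (U : Set E).Nonempty) (hUW : U ≤ W) :
    ∃ (W1 : Opens E) (hle : W1 ≤ W) (_ : IsDomain (Hol W1)), W1 ≤ U ∧ (W1 : Set E).Nonempty ∧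
      IsPreconnected (W1 : Set E) ∧
      ∃ ρ1 : FractionRing (Hol W) →ₐ[ℂ] FractionRing (Hol W1),
        (∀ g : Hol W, ρ1 (algebraMap _ _ g) = algebraMap _ _ (Hol.res hle g)) ∧
        ∀ t ∈ T, ∃ h : Hol W1, ρ1 t = algebraMap _ _ h := by
  classical
  obtain ⟨b, hb⟩ := IsLocalization.exist_integer_multiples_of_finset (nonZeroDivisors (Hol W))
    hT.toFinset
  obtain ⟨z, hzU, hz⟩ := exists_ne hW hUW hUne (b : Hol W) (nonZeroDivisors.ne_zero b.2)
  have hcont : ContinuousAt (ext0 ((b : Hol W) : W → ℂ)) z :=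
    (Hol.an (b : Hol W) z (hUW hzU)).continuousAt
  have hz' : ext0 ((b : Hol W) : W → ℂ) z ≠ 0 := by
    rw [ext0_of_mem _ (hUW hzU)]
    exact hz
  obtain ⟨r, hr, hball⟩ := Metric.mem_nhds_iff.mp
    (Filter.inter_mem (hcont.eventually_ne hz') (U.isOpen.mem_nhds hzU))
  let W1 : Opens E := ⟨Metric.ball z r, Metric.isOpen_ball⟩
  have hW1U : W1 ≤ U := fun w hw => (hball hw).2
  have hle : W1 ≤ W := hW1U.trans hUW
  have hW1ne : (W1 : Set E).Nonempty := ⟨z, Metric.mem_ball_self hr⟩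
  have hW1p : IsPreconnected (W1 : Set E) := (convex_ball z r).isPreconnected
  have hn1 : Nonempty W1 := hW1ne.to_subtype
  have hdom1 : IsDomain (Hol W1) := Hol.isDomain hW1p
  obtain ⟨ρ1, hρ1⟩ := exists_rho hW hle hW1ne
  refine ⟨W1, hle, hdom1, hW1U, hW1ne, hW1p, ρ1, hρ1, ?_⟩
  intro t ht
  obtain ⟨g, hg⟩ := hb t (by simpa using ht)
  have hunit : IsUnit (Hol.res hle (b : Hol W)) := by
    apply Hol.isUnit
    intro x
    have h1 := (hball x.2).1
    have h2 : ext0 ((b : Hol W) : W → ℂ) (x : E) ≠ 0 := h1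
    rw [ext0_of_mem _ (hle x.2)] at h2
    exact h2
  obtain ⟨u, hu⟩ := hunit
  refine ⟨Hol.res hle g * ((u⁻¹ : (Hol W1)ˣ) : Hol W1), ?_⟩
  have h3 : algebraMap (Hol W) (FractionRing (Hol W)) (b : Hol W) * t =
      algebraMap _ _ g := by
    rw [hg]
    exact (Algebra.smul_def (b : Hol W) t).symm
  have h4 := congrArg ρ1 h3
  rw [map_mul, hρ1, hρ1] at h4
  have h5 : Hol.res hle (b : Hol W) * (Hol.res hle g * ((u⁻¹ : (Hol W1)ˣ) : Hol W1)) =
      Hol.res hle g := by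
    rw [← hu, mul_left_comm, Units.mul_inv, mul_one]
  have h6 := congrArg (algebraMap (Hol W1) (FractionRing (Hol W1))) h5
  rw [map_mul] at h6
  have hne : algebraMap (Hol W1) (FractionRing (Hol W1)) (Hol.res hle (b : Hol W)) ≠ 0 := by
    rw [Ne, IsFractionRing.to_map_eq_zero_iff, ← hu]
    exact u.ne_zero
  exact mul_left_cancel₀ hne (h4.trans h6.symm)

set_option maxHeartbeats 2000000 in
/-- **ALG** (leaf R1 of theorem RAT) -/
theorem alg_main {W : Opens E} (hW : IsPreconnected (W : Set E)) [IsDomain (Hol W)]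
    (K L : IntermediateField ℂ (FractionRing (Hol W))) (hKL : K ≤ L) (hK : K.FG) (hL : L.FG)
    (halg : ∀ f ∈ L, IsAlgebraic K f) (f0 : FractionRing (Hol W)) (hf0L : f0 ∈ L)
    (hf0K : f0 ∉ K) (S : Set (FractionRing (Hol W))) (hSfin : S.Finite)
    (hS : S ⊆ (L : Set (FractionRing (Hol W))))
    (U : Opens E) (hUne : (U : Set E).Nonempty) (hUW : U ≤ W) :
    ∃ (W' : Opens E) (hle : W' ≤ W) (_ : IsDomain (Hol W')), W' ≤ U ∧
      (W' : Set E).Nonempty ∧ IsPreconnected (W' : Set E) ∧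
      ∃ (ρ : FractionRing (Hol W) →ₐ[ℂ] FractionRing (Hol W'))
        (τ : L →ₐ[ℂ] FractionRing (Hol W')),
      (∀ g : Hol W, ρ (algebraMap _ _ g) = algebraMap _ _ (Hol.res hle g)) ∧
      (∀ (f : FractionRing (Hol W)) (hf : f ∈ K), τ ⟨f, hKL hf⟩ = ρ f) ∧
      τ ⟨f0, hf0L⟩ ≠ ρ f0 ∧
      (∀ (s : FractionRing (Hol W)) (hs : s ∈ S), (∃ h : Hol W', ρ s = algebraMap _ _ h) ∧
        ∃ h : Hol W', τ ⟨s, hS hs⟩ = algebraMap _ _ h) ∧
      (∀ (D : Derivation ℂ (FractionRing (Hol W)) (FractionRing (Hol W)))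
        (D' : Derivation ℂ (FractionRing (Hol W')) (FractionRing (Hol W')))
        (hDL : ∀ f ∈ L, D f ∈ L), (∀ f ∈ K, D f ∈ K) → (∀ f ∈ L, D' (ρ f) = ρ (D f)) →
        ∀ (f : FractionRing (Hol W)) (hf : f ∈ L), τ ⟨D f, hDL f hf⟩ = D' (τ ⟨f, hf⟩)) := by
  classical
  obtain ⟨SK, hSK⟩ := hK
  obtain ⟨SL, hSL⟩ := hL
  obtain ⟨T, hT⟩ : ∃ T : Set (FractionRing (Hol W)), T = (SK : Set (FractionRing (Hol W))) ∪
    (SL : Set (FractionRing (Hol W))) ∪ S ∪ {f0} := ⟨_, rfl⟩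
  have hTfin : T.Finite := by
    rw [hT]
    exact (((SK.finite_toSet.union SL.finite_toSet).union hSfin).union (Set.finite_singleton f0))
  have hSKT : (SK : Set (FractionRing (Hol W))) ⊆ T := by
    rw [hT]
    exact fun x hx => Or.inl (Or.inl (Or.inl hx))
  have hSLT : (SL : Set (FractionRing (Hol W))) ⊆ T := by
    rw [hT]
    exact fun x hx => Or.inl (Or.inl (Or.inr hx))
  have hST : S ⊆ T := by
    rw [hT]
    exact fun x hx => Or.inl (Or.inr hx)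
  have hf0T : f0 ∈ T := by
    rw [hT]
    exact Or.inr rfl
  have hSKL : (SK : Set (FractionRing (Hol W))) ⊆ L := by
    intro x hx
    apply hKL
    rw [← hSK]
    exact IntermediateField.subset_adjoin ℂ _ hx
  have hTL : T ⊆ (L : Set (FractionRing (Hol W))) := by
    rw [hT]
    rintro x (((hx | hx) | hx) | hx)
    · exact hSKL hx
    · have h1 : x ∈ IntermediateField.adjoin ℂ (SL : Set (FractionRing (Hol W))) :=
        IntermediateField.subset_adjoin ℂ _ hx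
      rwa [hSL] at h1
    · exact hS hx
    · have h1 : x = f0 := hx
      rw [h1]
      exact hf0L
  have hLT : L = IntermediateField.adjoin ℂ T := by
    apply le_antisymm
    · rw [← hSL]
      exact IntermediateField.adjoin.mono ℂ _ _ hSLT
    · exact IntermediateField.adjoin_le_iff.mpr hTL
  subst hLT
  subst hSK
  clear hT hSL
  obtain ⟨W1, hle1, hdom1, hW1U, hW1ne, hW1p, ρ1, hρ1, hreg1⟩ :=
    exists_W1 hW T hTfin U hUne hUW
  have hinj1 := IsFractionRing.injective (Hol W1) (FractionRing (Hol W1))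
  obtain ⟨σA, hσA, W3, hle3, hW3ne, hW3p, τ2, hτ2inj, hBA, hτ2B, hf0A, hτ2f⟩ :=
    alg_mid (SK : Set (FractionRing (Hol W))) T hTfin hSKT f0 hf0T hf0K halg hW1p hW1ne hinj1
      ρ1 hreg1
  have hn3 : Nonempty W3 := hW3ne.to_subtype
  have hdom3 : IsDomain (Hol W3) := Hol.isDomain hW3p
  have hinj3 := IsFractionRing.injective (Hol W3) (FractionRing (Hol W3))
  obtain ⟨ρ13, hρ13⟩ := exists_rho hW1p hle3 hW3ne
  obtain ⟨τ, hτK, hτf, hτT⟩ := alg_top hinj3 (SK : Set (FractionRing (Hol W))) T hSKT f0 hf0T ρ1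
    σA hσA (Hol.res hle3) ρ13 hρ13 τ2 hτ2inj hBA hτ2B hf0A hτ2f
  refine ⟨W3, hle3.trans hle1, hdom3, hle3.trans hW1U, hW3ne, hW3p, ρ13.comp ρ1, τ, ?_, ?_, ?_,
    ?_, ?_⟩
  · intro g
    rw [AlgHom.comp_apply, hρ1, hρ13]
    rfl
  · intro f hf
    exact hτK f hf (hKL hf)
  · exact hτf hf0L
  · intro s hs
    refine ⟨?_, hτT s (hST hs) (hS hs)⟩
    obtain ⟨h, hh⟩ := hreg1 s (hST hs)
    exact ⟨Hol.res hle3 h, by rw [AlgHom.comp_apply, hh, hρ13]⟩
  · intro D D' hDL hDK hDρ f hf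
    exact comm_field (IntermediateField.adjoin ℂ (SK : Set (FractionRing (Hol W))))
      (IntermediateField.adjoin ℂ T) hKL halg (ρ13.comp ρ1) τ
      (fun f hf => hτK f hf (hKL hf)) D D' hDL hDK hDρ f hf

end Crest.Agent.R102.Alg985
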