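import Mathlib

/-!
# Row 102: algebraicity and derivations (helper151)

`k ⊆ K` fields, `D` a `k`-derivation of `K`, `cl k f` = elements of `K` algebraic over `k(f)`.

* `mem_of_rel`, `cl_trans`, `rel_of_mem` : matroid calculus for one transcendental
* `der_mem` : `x ∈ cl k f`, `D f ≠ 0` ⟹ `D x / D f ∈ cl k f`  (characteristic 0)
* `curve_rel` : a relation between the isotropic coordinates of a curve gives one between `E`, `y`
* `supp_rel` : the same from the support function
-/

set_option autoImplicit false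

noncomputable section

open Polynomial IntermediateField

namespace Crest.Agent.R102.AlgD151

variable {k K : Type*} [Field k] [Field K] [Algebra k K]

/-- elements algebraic over `k(f)` -/
def cl (k : Type*) {K : Type*} [Field k] [Field K] [Algebra k K] (f : K) :
    IntermediateField k⟮f⟯ K := algebraicClosure k⟮f⟯ K

lemma mem_cl {f x : K} : x ∈ cl k f ↔ IsAlgebraic k⟮f⟯ x := mem_algebraicClosure_iff

lemma base_mem {f x : K} (hx : x ∈ k⟮f⟯) : x ∈ cl k f :=
  mem_cl.2 (isAlgebraic_algebraMap (⟨x, hx⟩ : k⟮f⟯))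

lemma self_mem (f : K) : f ∈ cl k f := base_mem (mem_adjoin_simple_self k f)

lemma const_mem (f : K) (a : k) : algebraMap k K a ∈ cl k f :=
  base_mem (IntermediateField.algebraMap_mem _ a)

lemma mem_of_pow {f x : K} {n : ℕ} (hn : 0 < n) (h : x ^ n ∈ cl k f) : x ∈ cl k f := by
  rw [mem_cl] at h ⊢
  exact IsAlgebraic.of_pow hn h

lemma mem_cl_iff {f x : K} :
    x ∈ cl k f ↔ x ∈ (AlgebraicIndependent.matroid k K).closure {f} := by
  rw [AlgebraicIndependent.matroid_closure_eq, SetLike.mem_coe,
    Subalgebra.mem_algebraicClosure, mem_cl]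
  exact IntermediateField.isAlgebraic_adjoin_iff

lemma cl_trans {f g h : K} (hg : g ∈ cl k f) (hh : h ∈ cl k g) : h ∈ cl k f := by
  rw [mem_cl_iff] at *
  exact (Matroid.closure_subset_closure_of_subset_closure
    (Set.singleton_subset_iff.2 hg)) hh

/-- two elements of `cl k f` are algebraically dependent over `k` -/
lemma rel_of_mem {f x₁ x₂ : K} (h₁ : x₁ ∈ cl k f) (h₂ : x₂ ∈ cl k f) :
    ∃ P : MvPolynomial (Fin 2) k, P ≠ 0 ∧ MvPolynomial.aeval ![x₁, x₂] P = 0 := by
  by_contra! hcon
  have hind : AlgebraicIndependent k ![x₁, x₂] := by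
    rw [algebraicIndependent_iff]
    intro p hp
    by_contra h
    exact hcon p h hp
  have hne : x₁ ≠ x₂ := by
    intro h
    have := hind.injective (a₁ := (0 : Fin 2)) (a₂ := 1) (by simpa using h)
    exact absurd this (by decide)
  have hI : (AlgebraicIndependent.matroid k K).Indep {x₁, x₂} := by
    rw [AlgebraicIndependent.matroid_indep_iff]
    have h3 := hind.to_subtype_range
    have h4 : Set.range ![x₁, x₂] = {x₁, x₂} := by
      simp [Set.pair_comm]
    rw [h4] at h3
    exact h3
  rw [mem_cl_iff] at h₁ h₂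
  have hsub : ({x₁, x₂} : Set K) ⊆ (AlgebraicIndependent.matroid k K).closure {f} := by
    intro z hz
    rcases hz with rfl | hz
    · exact h₁
    · rw [Set.mem_singleton_iff] at hz
      rw [hz]; exact h₂
  have h5 := hI.encard_le_eRk_of_subset hsub
  rw [Matroid.eRk_closure_eq, Set.encard_pair hne] at h5
  have h6 : (AlgebraicIndependent.matroid k K).eRk {f} ≤ 1 := by
    refine (Matroid.eRk_le_encard _ _).trans ?_
    rw [Set.encard_singleton]
  have h7 := h5.trans h6
  norm_num at h7

/-- a relation gives membership -/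
lemma mem_of_rel {f x : K} (hf : Transcendental k f) {P : MvPolynomial (Fin 2) k} (hP : P ≠ 0)
    (h : MvPolynomial.aeval ![f, x] P = 0) : x ∈ cl k f := by
  rw [mem_cl_iff]
  have hI : (AlgebraicIndependent.matroid k K).Indep {f} := by
    rw [AlgebraicIndependent.matroid_indep_iff]
    exact (algebraicIndependent_singleton_iff (⟨f, rfl⟩ : ({f} : Set K))).2 hf
  by_contra hcon
  have hxf : x ≠ f := by
    rintro rfl
    exact hcon (Matroid.mem_closure_of_mem _ rfl)
  have h1 : (AlgebraicIndependent.matroid k K).Indep (insert x {f}) := by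
    rw [hI.insert_indep_iff]
    left
    exact ⟨Set.mem_univ _, hcon⟩
  rw [AlgebraicIndependent.matroid_indep_iff] at h1
  -- transport to `![f, x]`
  let e : Fin 2 → (insert x {f} : Set K) := ![⟨f, by simp⟩, ⟨x, by simp⟩]
  have he : Function.Injective e := by
    intro i j hij
    fin_cases i <;> fin_cases j <;> simp [e, Subtype.ext_iff, hxf, hxf.symm] at hij ⊢
  have h2 := AlgebraicIndependent.comp h1 e he
  have h3 : (fun i : Fin 2 => id ((e i : (insert x {f} : Set K)) : K)) = ![f, x] := by
    funext i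
    fin_cases i <;> simp [e]
  have h4 : AlgebraicIndependent k ![f, x] := by
    rw [← h3]; exact h2
  rw [algebraicIndependent_iff] at h4
  exact hP (h4 P h)

/-- derivations kill algebraic elements -/
lemma transcendental_of_der [CharZero k] (D : Derivation k K K) {f : K} (hf : D f ≠ 0) :
    Transcendental k f := by
  intro h
  have hs := (minpoly.irreducible h.isIntegral).separable
  have h1 := hs.aeval_derivative_ne_zero (minpoly.aeval k f)
  have h2 : D (aeval f (minpoly k f)) = aeval f (derivative (minpoly k f)) • D f :=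
    Derivation.map_aeval D (minpoly k f) f
  rw [minpoly.aeval, map_zero, smul_eq_mul] at h2
  rcases mul_eq_zero.1 h2.symm with h3 | h3
  · exact h1 h3
  · exact hf h3

/-- Leibniz for `aeval` with non-constant coefficients -/
lemma der_aeval (D : Derivation k K K) (F : IntermediateField k K) (x : K) (p : F[X]) :
    D (aeval x p) = p.sum (fun i c => D (algebraMap F K c) * x ^ i) +
      aeval x (derivative p) * D x := by
  induction p using Polynomial.induction_on' with
  | add p q hp hq =>
    rw [map_add, map_add, hp, hq, derivative_add, map_add,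
      Polynomial.sum_add_index p q _ (by simp) (by intro a b c; simp [add_mul])]
    ring
  | monomial n a =>
    rw [Polynomial.sum_monomial_index _ _ (by simp), aeval_monomial, Derivation.leibniz,
      Derivation.leibniz_pow, derivative_monomial, aeval_monomial]
    simp only [smul_eq_mul, nsmul_eq_mul, map_mul, map_natCast]
    ring

/-- the derivation `D / D f` preserves `k(f)` -/
lemma der_base (D : Derivation k K K) {f x : K} (hf : D f ≠ 0) (hx : x ∈ k⟮f⟯) :
    D x / D f ∈ k⟮f⟯ := by
  induction hx using IntermediateField.adjoin_induction with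
  | mem x hx =>
    rw [Set.mem_singleton_iff] at hx
    rw [hx, div_self hf]
    exact one_mem _
  | algebraMap a => simp
  | add x y hx hy h1 h2 =>
    rw [map_add, add_div]; exact add_mem h1 h2
  | inv x hx h1 =>
    rw [Derivation.leibniz_inv, smul_eq_mul]
    have h2 : -x⁻¹ ^ 2 * D x / D f = -(x⁻¹ ^ 2 * (D x / D f)) := by ring
    rw [h2]
    exact neg_mem (mul_mem (pow_mem (inv_mem hx) 2) h1)
  | mul x y hx hy h1 h2 =>
    rw [Derivation.leibniz, smul_eq_mul, smul_eq_mul]
    have h3 : (x * D y + y * D x) / D f = x * (D y / D f) + y * (D x / D f) := by ring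
    rw [h3]
    exact add_mem (mul_mem hx h2) (mul_mem hy h1)

/-- **`D / D f` preserves the algebraic closure of `k(f)`** -/
theorem der_mem [CharZero k] (D : Derivation k K K) {f x : K} (hf : D f ≠ 0)
    (hx : x ∈ cl k f) : D x / D f ∈ cl k f := by
  have hx' := mem_cl.1 hx
  have : CharZero k⟮f⟯ := charZero_of_injective_algebraMap (algebraMap k k⟮f⟯).injective
  set p := minpoly k⟮f⟯ x with hp
  have hs : p.Separable := (minpoly.irreducible hx'.isIntegral).separable
  have h1 : aeval x (derivative p) ≠ 0 := hs.aeval_derivative_ne_zero (minpoly.aeval _ x)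
  have h2 := der_aeval D k⟮f⟯ x p
  rw [hp, minpoly.aeval, map_zero, ← hp] at h2
  have h3 : D x / D f = -(p.sum (fun i c => D (algebraMap k⟮f⟯ K c) / D f * x ^ i)) /
      aeval x (derivative p) := by
    rw [eq_div_iff h1]
    have h4 : p.sum (fun i c => D (algebraMap k⟮f⟯ K c) / D f * x ^ i) =
        p.sum (fun i c => D (algebraMap k⟮f⟯ K c) * x ^ i) / D f := by
      rw [Polynomial.sum_def, Polynomial.sum_def, Finset.sum_div]
      exact Finset.sum_congr rfl fun i _ => by ring
    rw [h4]
    field_simp
    linear_combination -h2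
  rw [h3]
  refine div_mem (neg_mem ?_) ?_
  · rw [Polynomial.sum_def]
    refine sum_mem fun i _ => mul_mem ?_ (pow_mem hx i)
    exact base_mem (der_base D hf (p.coeff i).2)
  · rw [aeval_eq_sum_range]
    refine sum_mem fun i _ => ?_
    rw [Algebra.smul_def]
    exact mul_mem (base_mem ((derivative p).coeff i).2) (pow_mem hx i)

/-- **curve form**: `D Z = E / y²`, `D Zc = 1 / (E y²)`, `D E = i y E`, and a relation between
`Z`, `Zc` : then `E`, `y` are algebraic over `k(Z)` and satisfy a relation -/
theorem curve_rel [CharZero k] (D : Derivation k K K) {Z Zc E y : K} {i : k} (hi : i ≠ 0)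
    (hE0 : E ≠ 0) (hy0 : y ≠ 0) (hZ : D Z = E / y ^ 2) (hZc : D Zc = 1 / (E * y ^ 2))
    (hE : D E = algebraMap k K i * y * E) {P : MvPolynomial (Fin 2) k} (hP : P ≠ 0)
    (h : MvPolynomial.aeval ![Z, Zc] P = 0) :
    E ∈ cl k Z ∧ y ∈ cl k Z ∧
      ∃ Q : MvPolynomial (Fin 2) k, Q ≠ 0 ∧ MvPolynomial.aeval ![E, y] Q = 0 := by
  have hDZ : D Z ≠ 0 := by rw [hZ]; exact div_ne_zero hE0 (pow_ne_zero 2 hy0)
  have h1 : Zc ∈ cl k Z := mem_of_rel (transcendental_of_der D hDZ) hP h
  have h2 := der_mem D hDZ h1
  have h3 : D Zc / D Z = (E ^ 2)⁻¹ := by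
    rw [hZ, hZc]; field_simp
  rw [h3] at h2
  have h4 : E ∈ cl k Z := by
    have := inv_mem h2
    rw [inv_inv] at this
    exact mem_of_pow two_pos this
  have h5 := der_mem D hDZ h4
  have hi' : algebraMap k K i ≠ 0 := by
    simpa using hi
  have h6 : D E / D Z = algebraMap k K i * y ^ 3 := by
    rw [hE, hZ]; field_simp
  rw [h6] at h5
  have h7 : y ∈ cl k Z := by
    have := mul_mem (inv_mem (const_mem (k := k) Z i)) h5
    rw [← mul_assoc, inv_mul_cancel₀ hi', one_mul] at this
    exact mem_of_pow (by norm_num : 0 < 3) this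
  exact ⟨h4, h7, rel_of_mem h4 h7⟩

/-- **support function form**: lines `(E, H)`, `D E = i y E`, radius of curvature
`H + H_θθ = c y⁻³`, and a relation between `E`, `H` -/
theorem supp_rel [CharZero k] (D : Derivation k K K) {H E y : K} {i c : k} (hi : i ≠ 0)
    (hE0 : E ≠ 0) (hy0 : y ≠ 0) (hc : c ≠ 0) (hE : D E = algebraMap k K i * y * E)
    (hH : H + D (D H / y) / y = algebraMap k K c * (y ^ 3)⁻¹)
    {P : MvPolynomial (Fin 2) k} (hP : P ≠ 0) (h : MvPolynomial.aeval ![E, H] P = 0) :
    y ∈ cl k E ∧ ∃ Q : MvPolynomial (Fin 2) k, Q ≠ 0 ∧ MvPolynomial.aeval ![E, y] Q = 0 := by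
  have hi' : algebraMap k K i ≠ 0 := by simpa using hi
  have hc' : algebraMap k K c ≠ 0 := by simpa using hc
  have hDE : D E ≠ 0 := by rw [hE]; exact mul_ne_zero (mul_ne_zero hi' hy0) hE0
  have hEm : E ∈ cl k E := self_mem E
  have h1 : H ∈ cl k E := mem_of_rel (transcendental_of_der D hDE) hP h
  have hstep : ∀ x : K, x ∈ cl k E → D x / y ∈ cl k E := by
    intro x hx
    have h2 := mul_mem (mul_mem (der_mem D hDE hx) (const_mem (k := k) E i)) hEm
    have h3 : D x / D E * algebraMap k K i * E = D x / y := by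
      rw [hE]; field_simp
    rwa [h3] at h2
  have h4 := add_mem h1 (hstep _ (hstep _ h1))
  rw [hH] at h4
  have h5 : y ∈ cl k E := by
    have := inv_mem (mul_mem (inv_mem (const_mem (k := k) E c)) h4)
    rw [← mul_assoc, inv_mul_cancel₀ hc', one_mul, inv_inv] at this
    exact mem_of_pow (by norm_num : 0 < 3) this
  exact ⟨h5, rel_of_mem hEm h5⟩

end Crest.Agent.R102.AlgD151
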