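import Mathlib

/-!
# Row 102, T7, case `h₀ = ∞` (helper151)

`θ` entire, `y = θ'`, `E = exp (i θ)`; an algebraic relation `P (E, y) = 0`, `P ≠ 0`, forces `y` to be
constant (so the table is a circle).

* `doubling` : the doubling (Brody / Zalcman) lemma for a continuous unbounded function
* `est` : at a doubling point `y` is almost constant and `E` is almost `E₀ e^{i ζ}` at scale `1 / y₀`
* `core`, `t7inf`, `t7inf_mv`
-/

set_option autoImplicit false

noncomputable section

open Complex Filter Topology Metric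

namespace Crest.Agent.R102.T7151

/-- **doubling lemma** -/
lemma doubling {y : ℂ → ℂ} (hy : Continuous y) (hu : ∀ M : ℝ, ∃ z, M < ‖y z‖) (N : ℝ)
    (hN : 0 < N) :
    ∃ z, N ≤ ‖y z‖ ∧ ∀ z', ‖z' - z‖ ≤ N / ‖y z‖ → ‖y z'‖ ≤ 2 * ‖y z‖ := by
  by_contra! hcon
  obtain ⟨z0, hz0⟩ := hu N
  choose! g hg1 hg2 using hcon
  set s : ℕ → ℂ := fun k => g^[k] z0 with hs
  have hsucc : ∀ k, s (k + 1) = g (s k) := fun k => Function.iterate_succ_apply' g k z0
  have hb : ∀ k : ℕ, 2 ^ k * N ≤ ‖y (s k)‖ := by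
    intro k
    induction k with
    | zero => simpa [hs] using hz0.le
    | succ k ih =>
      have h0 : (1 : ℝ) ≤ 2 ^ k := one_le_pow₀ (by norm_num)
      have h1 : N ≤ ‖y (s k)‖ := le_trans (by nlinarith) ih
      have h2 := hg2 (s k) h1
      rw [hsucc, pow_succ]
      linarith
  have hpos : ∀ k : ℕ, 0 < 2 ^ k * N := fun k => by positivity
  have hd : ∀ k : ℕ, dist (s k) (s (k + 1)) ≤ 1 * (1 / 2) ^ k := by
    intro k
    have h0 : (1 : ℝ) ≤ 2 ^ k := one_le_pow₀ (by norm_num)
    have h1 : N ≤ ‖y (s k)‖ := le_trans (by nlinarith) (hb k)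
    have h2 := hg1 (s k) h1
    rw [dist_comm, dist_eq_norm, hsucc]
    refine h2.trans ?_
    rw [div_le_iff₀ (lt_of_lt_of_le (hpos k) (hb k))]
    calc N = 1 * (1 / 2) ^ k * (2 ^ k * N) := by
          rw [one_mul, ← mul_assoc, ← mul_pow]; norm_num
      _ ≤ 1 * (1 / 2) ^ k * ‖y (s k)‖ := by gcongr; exact hb k
  obtain ⟨z, hz⟩ := cauchySeq_tendsto_of_complete
    (cauchySeq_of_le_geometric (1 / 2) 1 (by norm_num) hd)
  have h3 : Tendsto (fun k => ‖y (s k)‖) atTop (𝓝 ‖y z‖) := (hy.norm.tendsto z).comp hz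
  have h4 : Tendsto (fun k => ‖y (s k)‖) atTop atTop :=
    tendsto_atTop_mono hb ((tendsto_pow_atTop_atTop_of_one_lt (by norm_num)).atTop_mul_const hN)
  exact not_tendsto_nhds_of_tendsto_atTop h4 _ h3

lemma est {th : ℂ → ℂ} (hth : Differentiable ℂ th) {z0 : ℂ} {N : ℝ} (hN : 0 < N)
    (h0 : N ≤ ‖deriv th z0‖)
    (h1 : ∀ z, ‖z - z0‖ ≤ N / ‖deriv th z0‖ → ‖deriv th z‖ ≤ 2 * ‖deriv th z0‖)
    {R : ℝ} (hR : 0 < R) (hRN : 2 * R ≤ N) {ζ : ℂ} (hζ : ‖ζ‖ ≤ R) :
    ‖deriv th (z0 + ζ / deriv th z0) / deriv th z0 - 1‖ ≤ 4 * R / N ∧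
      ‖th (z0 + ζ / deriv th z0) - th z0 - ζ‖ ≤ 4 * R ^ 2 / N := by
  set y : ℂ → ℂ := deriv th with hydef
  have hy : Differentiable ℂ y := by
    intro z
    exact (hth.analyticAt z).deriv.differentiableAt
  set a : ℝ := ‖y z0‖ with ha
  have ha0 : 0 < a := lt_of_lt_of_le hN h0
  have hy0 : y z0 ≠ 0 := norm_pos_iff.1 ha0
  set ρ : ℝ := N / (2 * a) with hρ
  have hρ0 : 0 < ρ := by positivity
  have e2 : 2 * ρ = N / a := by rw [hρ]; field_simp
  have hder : ∀ z ∈ closedBall z0 ρ, ‖deriv y z‖ ≤ 4 * a ^ 2 / N := by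
    intro z hz
    rw [mem_closedBall, dist_eq_norm] at hz
    have h3 := Complex.norm_deriv_le_of_forall_mem_sphere_norm_le (c := z) (f := y) (C := 2 * a) hρ0
      hy.diffContOnCl (by
        intro w hw
        rw [mem_sphere, dist_eq_norm] at hw
        refine h1 w ?_
        rw [← e2]
        calc ‖w - z0‖ = ‖(w - z) + (z - z0)‖ := by ring_nf
          _ ≤ ‖w - z‖ + ‖z - z0‖ := norm_add_le _ _
          _ ≤ 2 * ρ := by linarith)
    refine h3.trans (le_of_eq ?_)
    rw [hρ]
    field_simp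
    ring
  have key : ∀ t : ℂ, ‖t‖ ≤ R → ‖y (z0 + t / y z0) / y z0 - 1‖ ≤ 4 * R / N := by
    intro t ht
    have hm : z0 + t / y z0 ∈ closedBall z0 ρ := by
      rw [mem_closedBall, dist_eq_norm, add_sub_cancel_left, norm_div, ← ha, hρ,
        div_le_div_iff₀ ha0 (by positivity)]
      nlinarith
    have h4 := (convex_closedBall z0 ρ).norm_image_sub_le_of_norm_deriv_le
      (fun z _ => hy z) hder (mem_closedBall_self hρ0.le) hm
    rw [add_sub_cancel_left, norm_div, ← ha] at h4
    have h5 : y (z0 + t / y z0) / y z0 - 1 = (y (z0 + t / y z0) - y z0) / y z0 := by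
      field_simp
    rw [h5, norm_div, ← ha, div_le_iff₀ ha0]
    refine h4.trans ?_
    calc 4 * a ^ 2 / N * (‖t‖ / a) ≤ 4 * a ^ 2 / N * (R / a) := by gcongr
      _ = 4 * R / N * a := by field_simp
  refine ⟨key ζ hζ, ?_⟩
  set g : ℂ → ℂ := fun t => th (z0 + t / y z0) - t with hg
  have hgd : ∀ t, HasDerivAt g (y (z0 + t / y z0) / y z0 - 1) t := by
    intro t
    have h6 : HasDerivAt (fun t : ℂ => z0 + t / y z0) (1 / y z0) t := by
      simpa using ((hasDerivAt_id t).div_const (y z0)).const_add z0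
    have h7 := ((hth (z0 + t / y z0)).hasDerivAt.comp t h6).sub (hasDerivAt_id t)
    refine h7.congr_deriv ?_
    rw [← hydef]
    ring
  have h8 := (convex_closedBall (0 : ℂ) R).norm_image_sub_le_of_norm_deriv_le (f := g)
    (C := 4 * R / N) (x := 0) (y := ζ) (fun t _ => (hgd t).differentiableAt) (by
      intro t ht
      rw [(hgd t).deriv]
      exact key t (by simpa using ht)) (mem_closedBall_self hR.le) (by simpa using hζ)
  have h9 : g ζ - g 0 = th (z0 + ζ / y z0) - th z0 - ζ := by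
    simp only [hg, zero_div, add_zero, sub_zero]
    ring
  rw [h9, sub_zero] at h8
  refine h8.trans ?_
  calc 4 * R / N * ‖ζ‖ ≤ 4 * R / N * R := by gcongr
    _ = 4 * R ^ 2 / N := by ring

theorem core {σ : Type*} (S : Finset σ) (kk jj : σ → ℕ)
    (hinj : ∀ s ∈ S, ∀ s' ∈ S, kk s = kk s' → jj s = jj s' → s = s')
    (c : σ → ℂ) (hS : S.Nonempty) (hc : ∀ s ∈ S, c s ≠ 0) (th : ℂ → ℂ)
    (hth : Differentiable ℂ th)
    (h : ∀ z, ∑ s ∈ S, c s * Complex.exp (I * th z) ^ kk s * deriv th z ^ jj s = 0) :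
    ∀ z, deriv th z = deriv th 0 := by
  classical
  set y : ℂ → ℂ := deriv th with hydef
  have hy : Differentiable ℂ y := fun z => (hth.analyticAt z).deriv.differentiableAt
  by_contra! hne
  obtain ⟨z1, hz1⟩ := hne
  -- `y` is unbounded
  have hu : ∀ M : ℝ, ∃ z, M < ‖y z‖ := by
    by_contra! hb
    obtain ⟨M, hM⟩ := hb
    refine hz1 (hy.apply_eq_apply_of_bounded ?_ z1 0)
    exact (isBounded_iff_forall_norm_le.2 ⟨M, by rintro _ ⟨z, rfl⟩; exact hM z⟩)
  -- doubling points
  have hdb : ∀ n : ℕ, ∃ z, (n : ℝ) + 1 ≤ ‖y z‖ ∧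
      ∀ z', ‖z' - z‖ ≤ ((n : ℝ) + 1) / ‖y z‖ → ‖y z'‖ ≤ 2 * ‖y z‖ :=
    fun n => doubling hy.continuous hu _ (by positivity)
  choose zs hzs1 hzs2 using hdb
  set E : ℂ → ℂ := fun z => Complex.exp (I * th z) with hE
  have hEne : ∀ z, E z ≠ 0 := fun z => Complex.exp_ne_zero _
  have hyne : ∀ n, y (zs n) ≠ 0 := fun n => by
    rw [← norm_pos_iff]
    exact lt_of_lt_of_le (by positivity) (hzs1 n)
  have hynlim : Tendsto (fun n => ‖y (zs n)‖) atTop atTop :=
    tendsto_atTop_mono hzs1 (tendsto_atTop_add_const_right _ _ tendsto_natCast_atTop_atTop)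
  -- largest monomial
  set m : ℕ → σ → ℂ := fun n s => E (zs n) ^ kk s * y (zs n) ^ jj s with hm
  have hmne : ∀ n s, m n s ≠ 0 := fun n s =>
    mul_ne_zero (pow_ne_zero _ (hEne _)) (pow_ne_zero _ (hyne n))
  have hmax : ∀ n, ∃ s : S, ∀ s' ∈ S, ‖m n s'‖ ≤ ‖m n s‖ := by
    intro n
    obtain ⟨s, hs, hs'⟩ := S.exists_max_image (fun s => ‖m n s‖) hS
    exact ⟨⟨s, hs⟩, hs'⟩
  choose f hf using hmax
  obtain ⟨s0, hs0⟩ := Finite.exists_infinite_fiber f
  have hfreq : ∃ᶠ n in atTop, f n = s0 := by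
    rw [Nat.frequently_atTop_iff_infinite]
    exact Set.infinite_coe_iff.1 hs0
  obtain ⟨φ, hφ, hφs⟩ := extraction_of_frequently_atTop hfreq
  -- limits of the ratios
  set r : ℕ → (S → ℂ) := fun n s => m (φ n) s / m (φ n) s0 with hr
  have hrb : ∀ n, r n ∈ closedBall (0 : S → ℂ) 1 := by
    intro n
    rw [mem_closedBall, dist_zero_right, pi_norm_le_iff_of_nonneg zero_le_one]
    intro s
    simp only [hr]
    rw [norm_div, div_le_one (norm_pos_iff.2 (hmne _ _))]
    have := hf (φ n) s s.2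
    rwa [hφs n] at this
  obtain ⟨ρ, -, ψ, hψ, hρ⟩ := tendsto_subseq_of_bounded isBounded_closedBall hrb
  have hρs : ∀ s : S, Tendsto (fun n => m (φ (ψ n)) s / m (φ (ψ n)) s0) atTop (𝓝 (ρ s)) :=
    fun s => (tendsto_pi_nhds.1 hρ) s
  set ν : ℕ → ℕ := fun n => φ (ψ n) with hν
  have hνm : StrictMono ν := hφ.comp hψ
  have hνt : Tendsto ν atTop atTop := hνm.tendsto_atTop
  -- the limit relation
  have hlim : ∀ ζ : ℂ, ∑ s : S, c s * ρ s * Complex.exp (I * ζ) ^ kk s = 0 := by
    intro ζ
    set R : ℝ := ‖ζ‖ + 1 with hR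
    have hR0 : 0 < R := by positivity
    set a : ℕ → ℂ := fun n => zs n + ζ / y (zs n) with hadef
    have hev : ∀ᶠ n : ℕ in atTop,
        ‖y (a n) / y (zs n) - 1‖ ≤ 4 * R / ((n : ℝ) + 1) ∧
          ‖th (a n) - th (zs n) - ζ‖ ≤ 4 * R ^ 2 / ((n : ℝ) + 1) := by
      obtain ⟨n0, hn0⟩ := exists_nat_ge (2 * R)
      filter_upwards [eventually_ge_atTop n0] with n hn
      have h2 : 2 * R ≤ (n : ℝ) + 1 := by
        have : (n0 : ℝ) ≤ n := by exact_mod_cast hn
        linarith
      exact est hth (by positivity) (hzs1 n) (hzs2 n) hR0 h2 (by linarith)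
    have hz : ∀ C : ℝ, Tendsto (fun n : ℕ => C / ((n : ℝ) + 1)) atTop (𝓝 0) := fun C =>
      tendsto_const_nhds.div_atTop
        (tendsto_atTop_add_const_right _ _ tendsto_natCast_atTop_atTop)
    have hY : Tendsto (fun n => y (a n) / y (zs n)) atTop (𝓝 1) := by
      rw [tendsto_iff_norm_sub_tendsto_zero]
      exact squeeze_zero' (Eventually.of_forall fun _ => norm_nonneg _)
        (hev.mono fun n hn => hn.1) (hz _)
    have hT : Tendsto (fun n => th (a n) - th (zs n)) atTop (𝓝 ζ) := by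
      rw [tendsto_iff_norm_sub_tendsto_zero]
      exact squeeze_zero' (Eventually.of_forall fun _ => norm_nonneg _)
        (hev.mono fun n hn => hn.2) (hz _)
    have hEE : Tendsto (fun n => E (a n) / E (zs n)) atTop (𝓝 (Complex.exp (I * ζ))) := by
      have h3 : ∀ n, E (a n) / E (zs n) = Complex.exp (I * (th (a n) - th (zs n))) := by
        intro n
        rw [hE, ← Complex.exp_sub]
        congr 1
        ring
      simp_rw [h3]
      exact (Complex.continuous_exp.tendsto _).comp (hT.const_mul I)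
    have hsum : ∀ n, ∑ s : S, c s * (m (ν n) s / m (ν n) s0) *
        ((E (a (ν n)) / E (zs (ν n))) ^ kk s * (y (a (ν n)) / y (zs (ν n))) ^ jj s) = 0 := by
      intro n
      have h4 := h (a (ν n))
      rw [← Finset.sum_coe_sort] at h4
      have h5 : ∑ s : S, c s * (m (ν n) s / m (ν n) s0) *
          ((E (a (ν n)) / E (zs (ν n))) ^ kk s * (y (a (ν n)) / y (zs (ν n))) ^ jj s) =
          (∑ s : S, c s * E (a (ν n)) ^ kk s * y (a (ν n)) ^ jj s) / m (ν n) s0 := by
        rw [Finset.sum_div]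
        refine Finset.sum_congr rfl fun s _ => ?_
        have e1 := hEne (zs (ν n))
        have e2 := hyne (ν n)
        have e3 := hmne (ν n) s0
        simp only [hm] at e3 ⊢
        rw [div_pow, div_pow]
        field_simp
      rw [h5, h4, zero_div]
    have hlim2 : Tendsto (fun n => ∑ s : S, c s * (m (ν n) s / m (ν n) s0) *
        ((E (a (ν n)) / E (zs (ν n))) ^ kk s * (y (a (ν n)) / y (zs (ν n))) ^ jj s)) atTop
        (𝓝 (∑ s : S, c s * ρ s * (Complex.exp (I * ζ) ^ kk s * 1 ^ jj s))) := by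
      refine tendsto_finsetSum _ fun s _ => ?_
      exact ((hρs s).const_mul _).mul
        (((hEE.comp hνt).pow _).mul ((hY.comp hνt).pow _))
    simp_rw [hsum] at hlim2
    have h6 := tendsto_nhds_unique hlim2 tendsto_const_nhds
    simpa using h6
  -- the polynomial in `w = exp (i ζ)`
  set Q : Polynomial ℂ := ∑ s : S, Polynomial.monomial (kk s) (c s * ρ s) with hQ
  have hQ0 : Q = 0 := by
    refine Polynomial.eq_zero_of_infinite_isRoot Q ?_
    have h7 : {w : ℂ | w ≠ 0} ⊆ {x | Polynomial.IsRoot Q x} := by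
      intro w hw
      have h8 := hlim (-I * Complex.log w)
      have h9 : I * (-I * Complex.log w) = Complex.log w := by
        rw [← mul_assoc]; simp
      rw [h9, Complex.exp_log hw] at h8
      simp only [Set.mem_ofPred_eq, Polynomial.IsRoot.def, hQ, Polynomial.eval_finsetSum,
        Polynomial.eval_monomial]
      exact h8
    exact (Set.Infinite.mono h7 (Set.finite_singleton (0 : ℂ)).infinite_compl)
  have hcoef : Q.coeff (kk s0) = c s0 := by
    rw [hQ, Polynomial.finsetSum_coeff, Finset.sum_eq_single s0]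
    · rw [Polynomial.coeff_monomial, if_pos rfl]
      have h10 : Tendsto (fun n => m (ν n) s0 / m (ν n) s0) atTop (𝓝 (ρ s0)) := hρs s0
      have h11 : ρ s0 = 1 := by
        refine tendsto_nhds_unique h10 ?_
        simp_rw [div_self (hmne _ _)]
        exact tendsto_const_nhds
      rw [h11, mul_one]
    · intro s _ hs
      rw [Polynomial.coeff_monomial]
      split_ifs with hk
      · -- same `E`-degree, different `y`-degree
        have hjne : jj s ≠ jj s0 := fun hj =>
          hs (Subtype.ext (hinj s s.2 s0 s0.2 hk hj))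
        have hratio : ∀ n, m (ν n) s / m (ν n) s0 =
            y (zs (ν n)) ^ jj s / y (zs (ν n)) ^ jj s0 := by
          intro n
          simp only [hm, hk]
          exact mul_div_mul_left _ _ (pow_ne_zero _ (hEne _))
        have hle : ∀ n, ‖m (ν n) s / m (ν n) s0‖ ≤ 1 := by
          intro n
          have := hrb (ψ n)
          rw [mem_closedBall, dist_zero_right, pi_norm_le_iff_of_nonneg zero_le_one] at this
          exact this s
        have hlt : jj s < jj s0 := by
          by_contra hge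
          have hgt : jj s0 < jj s := lt_of_le_of_ne (not_lt.1 hge) (Ne.symm hjne)
          obtain ⟨n, hn⟩ := ((hynlim.comp hνt).eventually_gt_atTop 1).exists
          have h12 := hle n
          rw [hratio n, ← Nat.add_sub_of_le hgt.le, pow_add,
            mul_div_cancel_left₀ _ (pow_ne_zero _ (hyne _)), norm_pow] at h12
          exact absurd h12 (not_le.2 (one_lt_pow₀ hn (Nat.sub_ne_zero_of_lt hgt)))
        have h13 : ρ s = 0 := by
          refine tendsto_nhds_unique (hρs s) ?_
          have h14 : ∀ n, m (ν n) s / m (ν n) s0 = (y (zs (ν n)) ^ (jj s0 - jj s))⁻¹ := by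
            intro n
            rw [hratio n]
            conv_lhs => rw [← Nat.add_sub_of_le hlt.le]
            rw [pow_add]
            have := pow_ne_zero (jj s) (hyne (ν n))
            rw [div_mul_eq_div_div, div_self this, one_div]
          have h15 : Tendsto (fun n => (y (zs (ν n)) ^ (jj s0 - jj s))⁻¹) atTop (𝓝 0) := by
            rw [tendsto_zero_iff_norm_tendsto_zero]
            have h16 : Tendsto (fun n => ‖y (zs (ν n))‖ ^ (jj s0 - jj s)) atTop atTop :=
              (tendsto_pow_atTop (Nat.sub_ne_zero_of_lt hlt)).comp (hynlim.comp hνt)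
            refine (h16.inv_tendsto_atTop).congr fun n => ?_
            simp [norm_pow]
          exact h15.congr fun n => (h14 n).symm
        rw [h13, mul_zero]
      · rfl
    · intro h17
      exact absurd (Finset.mem_univ _) h17
  rw [hQ0, Polynomial.coeff_zero] at hcoef
  exact hc s0 s0.2 hcoef.symm

/-- **T7, `h₀ = ∞`**: a polynomial relation between `E = exp (i θ)` and `y = θ'`, `θ` entire, forces
`y` to be constant -/
theorem t7inf_mv (th : ℂ → ℂ) (hth : Differentiable ℂ th) (P : MvPolynomial (Fin 2) ℂ)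
    (hP : P ≠ 0)
    (h : ∀ z, MvPolynomial.eval ![Complex.exp (I * th z), deriv th z] P = 0) :
    ∀ z, deriv th z = deriv th 0 := by
  classical
  refine core P.support (fun d => d 0) (fun d => d 1) ?_ (fun d => P.coeff d)
    (by
      rw [Finset.nonempty_iff_ne_empty]
      intro he
      exact hP (MvPolynomial.support_eq_empty.1 he))
    (fun d hd => MvPolynomial.mem_support_iff.1 hd) th hth ?_
  · intro d _ d' _ h0 h1
    ext i
    fin_cases i
    · exact h0
    · exact h1
  · intro z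
    have := h z
    rw [MvPolynomial.eval_eq'] at this
    rw [← this]
    refine Finset.sum_congr rfl fun d _ => ?_
    rw [Fin.prod_univ_two]
    simp [mul_assoc]

end Crest.Agent.R102.T7151
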