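import Mathlib
import Crest.Agent.R102.AlgD_151
import Crest.Agent.R102.T7inf_151

/-!
# Row 102: the field of meromorphic germs, transfer of algebraic relations (helper151)

* `MG z₀` : the differential field of germs of meromorphic functions at `z₀`
* `curve_fun` : for functions meromorphic at `z₀` with `Z' = E/y²`, `Zc' = 1/(E y²)`,
  `E' = i y E` : a relation `P(Z, Zc) = 0` near `z₀` gives a relation `Q(E, y) = 0` near `z₀`
* `supp_fun` : the same from a relation between `E` and the support function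
* `entire_const`, `entire_const'` : case `h₀ = ∞` of T7 in both forms
-/

set_option autoImplicit false

noncomputable section

open Filter Topology

namespace Crest.Agent.R102.MGerm151

/-- ring of germs of meromorphic functions -/
def mgr (z₀ : ℂ) : Subring (Germ (𝓝[≠] z₀) ℂ) where
  carrier := {g | ∃ f : ℂ → ℂ, MeromorphicAt f z₀ ∧ (f : Germ (𝓝[≠] z₀) ℂ) = g}
  mul_mem' := by
    rintro _ _ ⟨f, hf, rfl⟩ ⟨g, hg, rfl⟩
    exact ⟨f * g, hf.mul hg, rfl⟩
  one_mem' := ⟨fun _ => 1, MeromorphicAt.const 1 z₀, rfl⟩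
  add_mem' := by
    rintro _ _ ⟨f, hf, rfl⟩ ⟨g, hg, rfl⟩
    exact ⟨f + g, hf.add hg, rfl⟩
  zero_mem' := ⟨fun _ => 0, MeromorphicAt.const 0 z₀, rfl⟩
  neg_mem' := by
    rintro _ ⟨f, hf, rfl⟩
    exact ⟨-f, hf.neg, rfl⟩

/-- field of germs of meromorphic functions -/
def MG (z₀ : ℂ) : Type := mgr z₀

variable {z₀ : ℂ}

instance instCR : CommRing (MG z₀) := inferInstanceAs (CommRing (mgr z₀))

/-- the germ of a function -/
def mk (f : ℂ → ℂ) (hf : MeromorphicAt f z₀) : MG z₀ := ⟨(f : Germ (𝓝[≠] z₀) ℂ), f, hf, rfl⟩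

lemma mk_eq {f g : ℂ → ℂ} {hf : MeromorphicAt f z₀} {hg : MeromorphicAt g z₀} :
    mk f hf = mk g hg ↔ f =ᶠ[𝓝[≠] z₀] g := by
  constructor
  · intro h
    exact Germ.coe_eq.1 (congrArg (Subtype.val : mgr z₀ → Germ (𝓝[≠] z₀) ℂ) h)
  · intro h
    exact Subtype.ext (Germ.coe_eq.2 h)

lemma exists_mk (x : MG z₀) : ∃ f, ∃ hf : MeromorphicAt f z₀, x = mk f hf := by
  obtain ⟨_, f, hf, rfl⟩ := x
  exact ⟨f, hf, rfl⟩

lemma mk_mul {f g : ℂ → ℂ} (hf : MeromorphicAt f z₀) (hg : MeromorphicAt g z₀) :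
    mk f hf * mk g hg = mk (f * g) (hf.mul hg) := rfl

lemma mk_add {f g : ℂ → ℂ} (hf : MeromorphicAt f z₀) (hg : MeromorphicAt g z₀) :
    mk f hf + mk g hg = mk (f + g) (hf.add hg) := rfl

lemma mk_one : (1 : MG z₀) = mk (fun _ => 1) (MeromorphicAt.const 1 z₀) := rfl

lemma mk_zero : (0 : MG z₀) = mk (fun _ => 0) (MeromorphicAt.const 0 z₀) := rfl

lemma unit_or_zero (x : MG z₀) : IsUnit x ∨ x = 0 := by
  obtain ⟨f, hf, rfl⟩ := exists_mk x
  rcases hf.eventually_eq_zero_or_eventually_ne_zero with h | h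
  · right
    rw [mk_zero, mk_eq]
    exact h
  · left
    refine IsUnit.of_mul_eq_one (mk f⁻¹ hf.inv) ?_
    rw [mk_mul, mk_one, mk_eq]
    filter_upwards [h] with z hz
    simp [hz]

instance instNT : Nontrivial (MG z₀) := by
  refine ⟨⟨1, 0, ?_⟩⟩
  rw [mk_one, mk_zero, Ne, mk_eq]
  intro h
  obtain ⟨z, hz⟩ := h.exists
  exact one_ne_zero hz

instance instField : Field (MG z₀) := Field.ofIsUnitOrEqZero unit_or_zero

/-- constants -/
def constHom : ℂ →+* MG z₀ where
  toFun c := mk (fun _ => c) (MeromorphicAt.const c z₀)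
  map_one' := rfl
  map_zero' := rfl
  map_mul' _ _ := rfl
  map_add' _ _ := rfl

instance instAlg : Algebra ℂ (MG z₀) := (constHom (z₀ := z₀)).toAlgebra

lemma algebraMap_eq (c : ℂ) :
    algebraMap ℂ (MG z₀) c = mk (fun _ => c) (MeromorphicAt.const c z₀) := rfl

lemma mk_inv {f : ℂ → ℂ} (hf : MeromorphicAt f z₀) : (mk f hf)⁻¹ = mk f⁻¹ hf.inv := by
  rcases hf.eventually_eq_zero_or_eventually_ne_zero with h | h
  · have h1 : mk f hf = 0 := by
      rw [mk_zero, mk_eq]; exact h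
    have h2 : mk f⁻¹ hf.inv = 0 := by
      rw [mk_zero, mk_eq]
      filter_upwards [h] with z hz
      simp [hz]
    rw [h1, h2, inv_zero]
  · refine inv_eq_of_mul_eq_one_right ?_
    rw [mk_mul, mk_one, mk_eq]
    filter_upwards [h] with z hz
    simp [hz]

/-- derivative of a germ -/
def dg (x : MG z₀) : MG z₀ :=
  mk (deriv (exists_mk x).choose) (exists_mk x).choose_spec.choose.deriv

lemma dg_mk {f : ℂ → ℂ} (hf : MeromorphicAt f z₀) : dg (mk f hf) = mk (deriv f) hf.deriv := by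
  unfold dg
  rw [mk_eq]
  have h := (exists_mk (mk f hf)).choose_spec.choose_spec
  rw [mk_eq] at h
  exact h.symm.nhdsNE_deriv

/-- the derivation -/
def D : Derivation ℂ (MG z₀) (MG z₀) where
  toFun := dg
  map_add' := by
    intro x y
    obtain ⟨f, hf, rfl⟩ := exists_mk x
    obtain ⟨g, hg, rfl⟩ := exists_mk y
    rw [mk_add, dg_mk, dg_mk, dg_mk, mk_add, mk_eq]
    filter_upwards [hf.eventually_analyticAt, hg.eventually_analyticAt] with z h1 h2
    exact deriv_add h1.differentiableAt h2.differentiableAt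
  map_smul' := by
    intro c x
    obtain ⟨f, hf, rfl⟩ := exists_mk x
    rw [RingHom.id_apply, Algebra.smul_def, Algebra.smul_def, algebraMap_eq, dg_mk, mk_mul, mk_mul,
      dg_mk, mk_eq]
    filter_upwards [hf.eventually_analyticAt] with z h1
    exact deriv_const_mul c h1.differentiableAt
  map_one_eq_zero' := by
    change dg (1 : MG z₀) = 0
    rw [mk_one, dg_mk, mk_zero, mk_eq]
    exact Filter.Eventually.of_forall fun z => by simp
  leibniz' := by
    intro x y
    change dg (x * y) = x • dg y + y • dg x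
    obtain ⟨f, hf, rfl⟩ := exists_mk x
    obtain ⟨g, hg, rfl⟩ := exists_mk y
    rw [smul_eq_mul, smul_eq_mul, mk_mul, dg_mk, dg_mk, dg_mk, mk_mul, mk_mul, mk_add, mk_eq]
    filter_upwards [hf.eventually_analyticAt, hg.eventually_analyticAt] with z h1 h2
    rw [deriv_mul h1.differentiableAt h2.differentiableAt]
    simp only [Pi.add_apply, Pi.mul_apply]
    ring

lemma D_mk {f : ℂ → ℂ} (hf : MeromorphicAt f z₀) : D (mk f hf) = mk (deriv f) hf.deriv :=
  dg_mk hf

lemma mk_pow {f : ℂ → ℂ} (hf : MeromorphicAt f z₀) (n : ℕ) :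
    mk f hf ^ n = mk (f ^ n) (hf.pow n) := by
  induction n with
  | zero =>
    rw [pow_zero, mk_one, mk_eq]
    exact Filter.Eventually.of_forall fun z => by simp
  | succ n ih =>
    rw [pow_succ, ih, mk_mul, mk_eq]
    exact Filter.Eventually.of_forall fun z => by simp [pow_succ]

lemma mero_eval {f g : ℂ → ℂ} (hf : MeromorphicAt f z₀) (hg : MeromorphicAt g z₀)
    (P : MvPolynomial (Fin 2) ℂ) :
    ∃ h : MeromorphicAt (fun z => MvPolynomial.eval ![f z, g z] P) z₀,
      MvPolynomial.aeval ![mk f hf, mk g hg] P = mk _ h := by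
  induction P using MvPolynomial.induction_on with
  | C a =>
    refine ⟨by simp, ?_⟩
    rw [MvPolynomial.aeval_C, algebraMap_eq, mk_eq]
    exact Filter.Eventually.of_forall fun z => by simp
  | add p q hp hq =>
    obtain ⟨h1, h2⟩ := hp
    obtain ⟨h3, h4⟩ := hq
    refine ⟨by simp only [map_add]; exact h1.add h3, ?_⟩
    rw [map_add, h2, h4, mk_add, mk_eq]
    exact Filter.Eventually.of_forall fun z => by simp
  | mul_X p i hp =>
    obtain ⟨h1, h2⟩ := hp
    fin_cases i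
    · refine ⟨by simp only [map_mul, MvPolynomial.eval_X]; exact h1.mul hf, ?_⟩
      rw [map_mul, h2, MvPolynomial.aeval_X]
      simp only [Fin.zero_eta, Fin.isValue, Matrix.cons_val_zero]
      rw [mk_mul, mk_eq]
      exact Filter.Eventually.of_forall fun z => by simp
    · refine ⟨by simp only [map_mul, MvPolynomial.eval_X]; exact h1.mul hg, ?_⟩
      rw [map_mul, h2, MvPolynomial.aeval_X]
      simp only [Fin.mk_one, Fin.isValue, Matrix.cons_val_one, Matrix.cons_val_fin_one]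
      rw [mk_mul, mk_eq]
      exact Filter.Eventually.of_forall fun z => by simp

lemma aeval_eq_zero {f g : ℂ → ℂ} (hf : MeromorphicAt f z₀) (hg : MeromorphicAt g z₀)
    (P : MvPolynomial (Fin 2) ℂ) :
    MvPolynomial.aeval ![mk f hf, mk g hg] P = 0 ↔
      ∀ᶠ z in 𝓝[≠] z₀, MvPolynomial.eval ![f z, g z] P = 0 := by
  obtain ⟨h, h1⟩ := mero_eval hf hg P
  rw [h1, mk_zero, mk_eq]
  exact Iff.rfl

/-- **curve form for functions** -/
theorem curve_fun {Z Zc E y : ℂ → ℂ} (hZm : MeromorphicAt Z z₀) (hZcm : MeromorphicAt Zc z₀)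
    (hEm : MeromorphicAt E z₀) (hym : MeromorphicAt y z₀)
    (hE0 : ∃ᶠ z in 𝓝[≠] z₀, E z ≠ 0) (hy0 : ∃ᶠ z in 𝓝[≠] z₀, y z ≠ 0)
    (hZ : ∀ᶠ z in 𝓝[≠] z₀, deriv Z z = E z / y z ^ 2)
    (hZc : ∀ᶠ z in 𝓝[≠] z₀, deriv Zc z = 1 / (E z * y z ^ 2))
    (hE : ∀ᶠ z in 𝓝[≠] z₀, deriv E z = Complex.I * y z * E z)
    {P : MvPolynomial (Fin 2) ℂ} (hP : P ≠ 0)
    (h : ∀ᶠ z in 𝓝[≠] z₀, MvPolynomial.eval ![Z z, Zc z] P = 0) :
    ∃ Q : MvPolynomial (Fin 2) ℂ, Q ≠ 0 ∧
      ∀ᶠ z in 𝓝[≠] z₀, MvPolynomial.eval ![E z, y z] Q = 0 := by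
  have hE0' : mk E hEm ≠ 0 := by
    rw [mk_zero, Ne, mk_eq]
    intro h1
    exact hE0 (h1.mono fun z hz hn => hn hz)
  have hy0' : mk y hym ≠ 0 := by
    rw [mk_zero, Ne, mk_eq]
    intro h1
    exact hy0 (h1.mono fun z hz hn => hn hz)
  obtain ⟨-, -, Q, hQ, hQ0⟩ := AlgD151.curve_rel (k := ℂ) D (Z := mk Z hZm) (Zc := mk Zc hZcm)
    (E := mk E hEm) (y := mk y hym) (i := Complex.I) Complex.I_ne_zero hE0' hy0'
    (by
      rw [D_mk, div_eq_mul_inv, mk_pow, mk_inv, mk_mul, mk_eq]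
      filter_upwards [hZ] with z hz
      simp [hz, div_eq_mul_inv])
    (by
      rw [D_mk, one_div, mk_pow, mk_mul, mk_inv, mk_eq]
      filter_upwards [hZc] with z hz
      simp [hz])
    (by
      rw [D_mk, algebraMap_eq, mk_mul, mk_mul, mk_eq]
      filter_upwards [hE] with z hz
      simp [hz]) hP ((aeval_eq_zero hZm hZcm P).2 h)
  exact ⟨Q, hQ, (aeval_eq_zero hEm hym Q).1 hQ0⟩

/-- **support function form for functions** -/
theorem supp_fun {H E y : ℂ → ℂ} {c : ℂ} (hc : c ≠ 0) (hHm : MeromorphicAt H z₀)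
    (hEm : MeromorphicAt E z₀) (hym : MeromorphicAt y z₀)
    (hE0 : ∃ᶠ z in 𝓝[≠] z₀, E z ≠ 0) (hy0 : ∃ᶠ z in 𝓝[≠] z₀, y z ≠ 0)
    (hE : ∀ᶠ z in 𝓝[≠] z₀, deriv E z = Complex.I * y z * E z)
    (hH : ∀ᶠ z in 𝓝[≠] z₀,
      H z + deriv (fun s => deriv H s / y s) z / y z = c * (y z ^ 3)⁻¹)
    {P : MvPolynomial (Fin 2) ℂ} (hP : P ≠ 0)
    (h : ∀ᶠ z in 𝓝[≠] z₀, MvPolynomial.eval ![E z, H z] P = 0) :
    ∃ Q : MvPolynomial (Fin 2) ℂ, Q ≠ 0 ∧
      ∀ᶠ z in 𝓝[≠] z₀, MvPolynomial.eval ![E z, y z] Q = 0 := by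
  have hE0' : mk E hEm ≠ 0 := by
    rw [mk_zero, Ne, mk_eq]
    intro h1
    exact hE0 (h1.mono fun z hz hn => hn hz)
  have hy0' : mk y hym ≠ 0 := by
    rw [mk_zero, Ne, mk_eq]
    intro h1
    exact hy0 (h1.mono fun z hz hn => hn hz)
  obtain ⟨-, Q, hQ, hQ0⟩ := AlgD151.supp_rel (k := ℂ) D (H := mk H hHm)
    (E := mk E hEm) (y := mk y hym) (i := Complex.I) (c := c) Complex.I_ne_zero hE0' hy0' hc
    (by
      rw [D_mk, algebraMap_eq, mk_mul, mk_mul, mk_eq]
      filter_upwards [hE] with z hz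
      simp [hz])
    (by
      have h1 : D (mk H hHm) / mk y hym = mk (fun s => deriv H s / y s) (hHm.deriv.div hym) := by
        rw [D_mk, div_eq_mul_inv, mk_inv, mk_mul, mk_eq]
        exact Filter.Eventually.of_forall fun z => by simp [div_eq_mul_inv]
      rw [h1, D_mk, div_eq_mul_inv, mk_inv, mk_mul, mk_add, algebraMap_eq, mk_pow, mk_inv, mk_mul,
        mk_eq]
      filter_upwards [hH] with z hz
      simpa [div_eq_mul_inv] using hz) hP ((aeval_eq_zero hEm hHm P).2 h)
  exact ⟨Q, hQ, (aeval_eq_zero hEm hym Q).1 hQ0⟩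

lemma diff_eval {f g : ℂ → ℂ} (hf : Differentiable ℂ f) (hg : Differentiable ℂ g)
    (Q : MvPolynomial (Fin 2) ℂ) :
    Differentiable ℂ (fun z => MvPolynomial.eval ![f z, g z] Q) := by
  induction Q using MvPolynomial.induction_on with
  | C a => simp
  | add p q hp hq =>
    simp only [map_add]
    exact hp.add hq
  | mul_X p i hp =>
    fin_cases i
    · simp only [map_mul, MvPolynomial.eval_X]
      exact hp.mul hf
    · simp only [map_mul, MvPolynomial.eval_X]
      exact hp.mul hg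

/-- identity theorem for polynomial relations between entire functions -/
lemma entire_rel {f g : ℂ → ℂ} (hf : Differentiable ℂ f) (hg : Differentiable ℂ g)
    {Q : MvPolynomial (Fin 2) ℂ}
    (h : ∀ᶠ z in 𝓝[≠] z₀, MvPolynomial.eval ![f z, g z] Q = 0) (z : ℂ) :
    MvPolynomial.eval ![f z, g z] Q = 0 := by
  have h1 : AnalyticOnNhd ℂ (fun z => MvPolynomial.eval ![f z, g z] Q) Set.univ :=
    (diff_eval hf hg Q).differentiableOn.analyticOnNhd isOpen_univ
  exact h1.eqOn_zero_of_preconnected_of_frequently_eq_zero isPreconnected_univ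
    (Set.mem_univ z₀) h.frequently (Set.mem_univ z)

/-- **case `h₀ = ∞` of T7, curve form**: `θ` entire, the isotropic coordinates of the curve
satisfy a polynomial relation near one point: then `θ'` is constant. -/
theorem entire_curve {th Z Zc : ℂ → ℂ} (hth : Differentiable ℂ th) (hZm : MeromorphicAt Z z₀)
    (hZcm : MeromorphicAt Zc z₀)
    (hZ : ∀ᶠ z in 𝓝[≠] z₀, deriv Z z = Complex.exp (Complex.I * th z) / deriv th z ^ 2)
    (hZc : ∀ᶠ z in 𝓝[≠] z₀, deriv Zc z = 1 / (Complex.exp (Complex.I * th z) * deriv th z ^ 2))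
    {P : MvPolynomial (Fin 2) ℂ} (hP : P ≠ 0)
    (h : ∀ᶠ z in 𝓝[≠] z₀, MvPolynomial.eval ![Z z, Zc z] P = 0) (z : ℂ) :
    deriv th z = deriv th 0 := by
  have hd : Differentiable ℂ (deriv th) := by
    have h1 := (hth.differentiableOn (s := Set.univ)).deriv isOpen_univ
    exact differentiableOn_univ.1 h1
  have hE : Differentiable ℂ (fun z => Complex.exp (Complex.I * th z)) := by fun_prop
  by_cases hy : ∃ᶠ z in 𝓝[≠] z₀, deriv th z ≠ 0
  · obtain ⟨Q, hQ, hQ0⟩ := curve_fun (E := fun z => Complex.exp (Complex.I * th z))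
      (y := deriv th) hZm hZcm (hE.analyticAt z₀).meromorphicAt
      (hd.analyticAt z₀).meromorphicAt
      (Filter.Eventually.frequently (Filter.Eventually.of_forall fun z => Complex.exp_ne_zero _))
      hy hZ hZc
      (Filter.Eventually.of_forall fun z => by
        have h1 : HasDerivAt (fun z => Complex.exp (Complex.I * th z))
            (Complex.exp (Complex.I * th z) * (Complex.I * deriv th z)) z :=
          ((hth z).hasDerivAt.const_mul Complex.I).cexp
        rw [h1.deriv]; ring) hP h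
    exact T7151.t7inf_mv th hth Q hQ (entire_rel hE hd hQ0) z
  · have h1 : ∀ᶠ z in 𝓝[≠] z₀, deriv th z = 0 := by
      rw [Filter.not_frequently] at hy
      simpa using hy
    have h2 : AnalyticOnNhd ℂ (deriv th) Set.univ :=
      hd.differentiableOn.analyticOnNhd isOpen_univ
    have h3 := h2.eqOn_zero_of_preconnected_of_frequently_eq_zero isPreconnected_univ
      (Set.mem_univ z₀) h1.frequently
    rw [h3 (Set.mem_univ z), h3 (Set.mem_univ 0)]
    rfl

/-- **case `h₀ = ∞` of T7, support function form** -/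
theorem entire_supp {th H : ℂ → ℂ} {c : ℂ} (hc : c ≠ 0) (hth : Differentiable ℂ th)
    (hHm : MeromorphicAt H z₀)
    (hH : ∀ᶠ z in 𝓝[≠] z₀, H z + deriv (fun s => deriv H s / deriv th s) z / deriv th z =
      c * (deriv th z ^ 3)⁻¹)
    {P : MvPolynomial (Fin 2) ℂ} (hP : P ≠ 0)
    (h : ∀ᶠ z in 𝓝[≠] z₀, MvPolynomial.eval ![Complex.exp (Complex.I * th z), H z] P = 0)
    (z : ℂ) : deriv th z = deriv th 0 := by
  have hd : Differentiable ℂ (deriv th) := by
    have h1 := (hth.differentiableOn (s := Set.univ)).deriv isOpen_univ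
    exact differentiableOn_univ.1 h1
  have hE : Differentiable ℂ (fun z => Complex.exp (Complex.I * th z)) := by fun_prop
  by_cases hy : ∃ᶠ z in 𝓝[≠] z₀, deriv th z ≠ 0
  · obtain ⟨Q, hQ, hQ0⟩ := supp_fun (E := fun z => Complex.exp (Complex.I * th z))
      (y := deriv th) hc hHm (hE.analyticAt z₀).meromorphicAt
      (hd.analyticAt z₀).meromorphicAt
      (Filter.Eventually.frequently (Filter.Eventually.of_forall fun z => Complex.exp_ne_zero _))
      hy
      (Filter.Eventually.of_forall fun z => by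
        have h1 : HasDerivAt (fun z => Complex.exp (Complex.I * th z))
            (Complex.exp (Complex.I * th z) * (Complex.I * deriv th z)) z :=
          ((hth z).hasDerivAt.const_mul Complex.I).cexp
        rw [h1.deriv]; ring) hH hP h
    exact T7151.t7inf_mv th hth Q hQ (entire_rel hE hd hQ0) z
  · have h1 : ∀ᶠ z in 𝓝[≠] z₀, deriv th z = 0 := by
      rw [Filter.not_frequently] at hy
      simpa using hy
    have h2 : AnalyticOnNhd ℂ (deriv th) Set.univ :=
      hd.differentiableOn.analyticOnNhd isOpen_univ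
    have h3 := h2.eqOn_zero_of_preconnected_of_frequently_eq_zero isPreconnected_univ
      (Set.mem_univ z₀) h1.frequently
    rw [h3 (Set.mem_univ z), h3 (Set.mem_univ 0)]
    rfl

end Crest.Agent.R102.MGerm151
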