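import Mathlib
import Crest.Agent.R102.MGerm_151

/-!
# Row 102: the isotropic coordinates of an algebraic curve are rational in `E`, `y` (helper151)

* `int_mem` : an algebraic primitive of an element of a differential field lies in the field, up to
  a constant of derivation
* `const_of_D` : constants of the field of meromorphic germs
* `coord_mem` : `Z`, `Zc ∈ ℂ(E, y)`
* `rat_fun` : `B(E, y) H = A(E, y)`
-/

set_option autoImplicit false

noncomputable section

open Polynomial IntermediateField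

namespace Crest.Agent.R102.AlgR151

open Crest.Agent.R102.AlgD151

section field

variable {k K : Type*} [Field k] [Field K] [Algebra k K]

lemma alg_mono {F M : IntermediateField k K} (h : F ≤ M) {x : K} (hx : IsAlgebraic F x) :
    IsAlgebraic M x := by
  obtain ⟨p, hp, hp0⟩ := hx
  refine ⟨p.map (IntermediateField.inclusion h).toRingHom, ?_, ?_⟩
  · exact (Polynomial.map_ne_zero_iff (IntermediateField.inclusion h).toRingHom.injective).2 hp
  · rw [Polynomial.aeval_def, Polynomial.eval₂_map, ← hp0, Polynomial.aeval_def]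
    rfl

/-- the derivation of an algebraic element -/
theorem der_alg [CharZero k] (D : Derivation k K K) {F M : IntermediateField k K} (hFM : F ≤ M)
    (hD : ∀ a ∈ F, D a ∈ M) {x : K} (hxM : x ∈ M) (hx : IsAlgebraic F x) : D x ∈ M := by
  have : CharZero F := charZero_of_injective_algebraMap (algebraMap k F).injective
  set p := minpoly F x with hp
  have hs : p.Separable := (minpoly.irreducible hx.isIntegral).separable
  have h1 : aeval x (derivative p) ≠ 0 := hs.aeval_derivative_ne_zero (minpoly.aeval _ x)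
  have h2 := der_aeval D F x p
  rw [hp, minpoly.aeval, map_zero, ← hp] at h2
  have h3 : D x = -(p.sum (fun i c => D (algebraMap F K c) * x ^ i)) /
      aeval x (derivative p) := by
    rw [eq_div_iff h1]
    linear_combination -h2
  rw [h3]
  refine div_mem (neg_mem ?_) ?_
  · rw [Polynomial.sum_def]
    exact sum_mem fun i _ => mul_mem (hD _ (p.coeff i).2) (pow_mem hxM i)
  · rw [aeval_eq_sum_range]
    refine sum_mem fun i _ => ?_
    rw [Algebra.smul_def]
    exact mul_mem (hFM ((derivative p).coeff i).2) (pow_mem hxM i)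

/-- an algebraic primitive lies in the field up to a constant -/
theorem int_mem [CharZero k] (D : Derivation k K K) (L : IntermediateField k K)
    (hL : ∀ x ∈ L, D x ∈ L) {x : K} (hx : IsAlgebraic L x) (hDx : D x ∈ L) :
    ∃ c : K, D c = 0 ∧ x - c ∈ L := by
  have : CharZero L := charZero_of_injective_algebraMap (algebraMap k L).injective
  set p := minpoly L x with hp
  have hmon : p.Monic := minpoly.monic hx.isIntegral
  have hdeg : 0 < p.natDegree := minpoly.natDegree_pos hx.isIntegral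
  set m := p.natDegree with hm
  -- the derived polynomial
  let r : L[X] := ∑ i ∈ Finset.range m, C (⟨D (algebraMap L K (p.coeff i)),
    hL _ (p.coeff i).2⟩ : L) * X ^ i + derivative p * C (⟨D x, hDx⟩ : L)
  have hr0 : aeval x r = 0 := by
    have h2 := der_aeval D L x p
    rw [hp, minpoly.aeval, map_zero, ← hp] at h2
    simp only [r, map_add, map_sum, map_mul, aeval_C, map_pow, aeval_X]
    rw [h2]
    congr 1
    rw [Polynomial.sum_over_range _ (by intro i; simp), Finset.sum_range_succ]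
    have h3 : p.coeff p.natDegree = 1 := hmon.coeff_natDegree
    rw [h3]
    simp only [map_one, Derivation.map_one_eq_zero, zero_mul, add_zero]
    rfl
  have hrdeg : r.degree < p.degree := by
    have hpd : p.degree = (m : WithBot ℕ) := degree_eq_natDegree hmon.ne_zero
    refine lt_of_le_of_lt (degree_add_le _ _) (max_lt ?_ ?_)
    · rw [hpd]
      refine lt_of_le_of_lt (degree_sum_le _ _) ?_
      rw [Finset.sup_lt_iff (by exact WithBot.bot_lt_coe m)]
      intro i hi
      refine lt_of_le_of_lt (degree_C_mul_X_pow_le _ _) ?_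
      exact_mod_cast Finset.mem_range.1 hi
    · refine lt_of_le_of_lt (degree_mul_le _ _) ?_
      have h4 : (C (⟨D x, hDx⟩ : L)).degree ≤ 0 := degree_C_le
      have h5 : (derivative p).degree < p.degree := degree_derivative_lt hmon.ne_zero
      calc (derivative p).degree + (C (⟨D x, hDx⟩ : L)).degree ≤ (derivative p).degree + 0 := by
            gcongr
        _ < p.degree := by rwa [add_zero]
  have hr : r = 0 := by
    by_contra hne
    exact absurd (minpoly.degree_le_of_ne_zero L x hne hr0) (not_le.2 hrdeg)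
  have hc : (r.coeff (m - 1) : K) = 0 := by rw [hr]; simp
  have hc2 : (r.coeff (m - 1) : K) = D (algebraMap L K (p.coeff (m - 1))) + (m : K) * D x := by
    simp only [r, coeff_add, finsetSum_coeff, coeff_C_mul, coeff_X_pow, coeff_mul_C,
      coeff_derivative]
    rw [Finset.sum_eq_single (m - 1)]
    · have h6 : m - 1 + 1 = m := by omega
      have h7 : p.coeff m = 1 := hmon.coeff_natDegree
      rw [h6, h7]
      push_cast
      have h8 : ((m - 1 : ℕ) : K) + 1 = (m : K) := by
        have : ((m - 1 + 1 : ℕ) : K) = (m : K) := by rw [h6]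
        push_cast at this
        exact this
      simp only [if_true, one_mul]
      rw [h8, OneMemClass.coe_one, mul_one]
    · intro b _ hb
      rw [if_neg (Ne.symm hb), mul_zero]
    · intro h9
      exact absurd (Finset.mem_range.2 (by omega)) h9
  rw [hc2] at hc
  have hmK : (m : K) ≠ 0 := by
    have : CharZero K := charZero_of_injective_algebraMap (algebraMap k K).injective
    exact_mod_cast hdeg.ne'
  set a : K := algebraMap L K (p.coeff (m - 1)) with ha
  have haL : a ∈ L := (p.coeff (m - 1)).2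
  have hDm : D ((m : K)⁻¹) = 0 := by
    have h10 : (m : K)⁻¹ = algebraMap k K ((m : k)⁻¹) := by
      rw [map_inv₀, map_natCast]
    rw [h10, Derivation.map_algebraMap]
  refine ⟨x + (m : K)⁻¹ * a, ?_, ?_⟩
  · rw [map_add, Derivation.leibniz, smul_eq_mul, smul_eq_mul, hDm, mul_zero, add_zero]
    field_simp
    linear_combination hc
  · have h11 : x - (x + (m : K)⁻¹ * a) = -((m : K)⁻¹ * a) := by ring
    rw [h11]
    refine neg_mem (mul_mem (inv_mem ?_) haL)
    exact _root_.natCast_mem L m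

/-- `ℂ(E, y)` is stable under the derivation -/
theorem stable [CharZero k] (D : Derivation k K K) {E y : K} {i : k} (hi : i ≠ 0) (hE0 : E ≠ 0)
    (hy0 : y ≠ 0) (hE : D E = algebraMap k K i * y * E) (hyc : y ∈ cl k E) :
    ∀ x ∈ adjoin k {E, y}, D x ∈ adjoin k {E, y} := by
  have hi' : algebraMap k K i ≠ 0 := by simpa using hi
  have hDE : D E ≠ 0 := by rw [hE]; exact mul_ne_zero (mul_ne_zero hi' hy0) hE0
  set M := adjoin k {E, y} with hM
  have hEM : E ∈ M := subset_adjoin _ _ (by simp)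
  have hyM : y ∈ M := subset_adjoin _ _ (by simp)
  have hDEM : D E ∈ M := by
    rw [hE]
    exact mul_mem (mul_mem (M.algebraMap_mem i) hyM) hEM
  have hFM : k⟮E⟯ ≤ M := by
    rw [adjoin_simple_le_iff]
    exact hEM
  have hDy : D y ∈ M := by
    refine der_alg D hFM ?_ hyM (mem_cl.1 hyc)
    intro a ha
    have h1 := der_base D hDE ha
    have h2 : D a = D a / D E * D E := by field_simp
    rw [h2]
    exact mul_mem (hFM h1) hDEM
  intro x hx
  induction hx using IntermediateField.adjoin_induction with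
  | mem x hx =>
    rcases hx with rfl | hx
    · exact hDEM
    · rw [Set.mem_singleton_iff] at hx
      rw [hx]; exact hDy
  | algebraMap a => simp
  | add x y hx hy h1 h2 => rw [map_add]; exact add_mem h1 h2
  | inv x hx h1 =>
    rw [Derivation.leibniz_inv, smul_eq_mul]
    have h2 : -x⁻¹ ^ 2 * D x = -(x⁻¹ ^ 2 * D x) := by ring
    rw [h2]
    exact neg_mem (mul_mem (pow_mem (inv_mem hx) 2) h1)
  | mul x y hx hy h1 h2 =>
    rw [Derivation.leibniz, smul_eq_mul, smul_eq_mul]
    exact add_mem (mul_mem hx h2) (mul_mem hy h1)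

/-- **the coordinates are rational in `E`, `y` up to constants** -/
theorem coord [CharZero k] (D : Derivation k K K) {Z Zc E y : K} {i : k} (hi : i ≠ 0)
    (hE0 : E ≠ 0) (hy0 : y ≠ 0) (hZ : D Z = E / y ^ 2) (hZc : D Zc = 1 / (E * y ^ 2))
    (hE : D E = algebraMap k K i * y * E) {P : MvPolynomial (Fin 2) k} (hP : P ≠ 0)
    (h : MvPolynomial.aeval ![Z, Zc] P = 0) :
    (∃ c : K, D c = 0 ∧ Z - c ∈ adjoin k {E, y}) ∧ ∃ c : K, D c = 0 ∧ Zc - c ∈ adjoin k {E, y} := by
  have hi' : algebraMap k K i ≠ 0 := by simpa using hi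
  have hDE : D E ≠ 0 := by rw [hE]; exact mul_ne_zero (mul_ne_zero hi' hy0) hE0
  have hDZ : D Z ≠ 0 := by rw [hZ]; exact div_ne_zero hE0 (pow_ne_zero 2 hy0)
  obtain ⟨h4, h7, -⟩ := curve_rel D hi hE0 hy0 hZ hZc hE hP h
  have hZcm : Zc ∈ cl k Z := mem_of_rel (transcendental_of_der D hDZ) hP h
  have hEt := transcendental_of_der D hDE
  have tr : ∀ x : K, x ∈ cl k Z → x ∈ cl k E := by
    intro x hx
    obtain ⟨Q, hQ, hQ0⟩ := rel_of_mem h4 hx
    exact mem_of_rel hEt hQ hQ0
  have hyE := tr y h7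
  have hst := stable D hi hE0 hy0 hE hyE
  have hFM : k⟮E⟯ ≤ adjoin k {E, y} := by
    rw [adjoin_simple_le_iff]
    exact subset_adjoin _ _ (by simp)
  have hEM : E ∈ adjoin k {E, y} := subset_adjoin _ _ (by simp)
  have hyM : y ∈ adjoin k {E, y} := subset_adjoin _ _ (by simp)
  refine ⟨int_mem D _ hst (alg_mono hFM (mem_cl.1 (tr Z (self_mem Z)))) ?_,
    int_mem D _ hst (alg_mono hFM (mem_cl.1 (tr Zc hZcm))) ?_⟩
  · rw [hZ]; exact div_mem hEM (pow_mem hyM 2)
  · rw [hZc]; exact div_mem (one_mem _) (mul_mem hEM (pow_mem hyM 2))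

end field

open Crest.Agent.R102.MGerm151 Filter Topology

variable {z₀ : ℂ}

/-- constants of the field of meromorphic germs -/
theorem const_of_D {c : MG z₀} (hc : MGerm151.D c = 0) : ∃ a : ℂ, c = algebraMap ℂ (MG z₀) a := by
  obtain ⟨f, hf, rfl⟩ := exists_mk c
  rw [D_mk, mk_zero, mk_eq] at hc
  by_cases ht : meromorphicOrderAt f z₀ = ⊤
  · refine ⟨0, ?_⟩
    rw [map_zero, mk_zero, mk_eq]
    exact meromorphicOrderAt_eq_top_iff.1 ht
  · obtain ⟨n, hn⟩ := WithTop.ne_top_iff_exists.1 ht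
    obtain ⟨g, hg, hg0, hfg⟩ := (meromorphicOrderAt_eq_int_iff hf).1 hn.symm
    have h1 : ∀ᶠ z in 𝓝[≠] z₀, (n : ℂ) * g z + (z - z₀) * deriv g z = 0 := by
      have h2 : deriv f =ᶠ[𝓝[≠] z₀] deriv (fun z => (z - z₀) ^ n * g z) := by
        refine Filter.EventuallyEq.nhdsNE_deriv ?_
        filter_upwards [hfg] with z hz
        rw [hz, smul_eq_mul]
      have h3 : ∀ᶠ z in 𝓝[≠] z₀, AnalyticAt ℂ g z :=
        hg.eventually_analyticAt.filter_mono nhdsWithin_le_nhds
      filter_upwards [hc, h2, h3, self_mem_nhdsWithin] with z e1 e2 e3 e4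
      have hz : z - z₀ ≠ 0 := sub_ne_zero.2 e4
      have h5 : HasDerivAt (fun z => (z - z₀) ^ n * g z)
          ((n : ℂ) * (z - z₀) ^ (n - 1) * g z + (z - z₀) ^ n * deriv g z) z := by
        have h6 : HasDerivAt (fun z : ℂ => (z - z₀) ^ n) ((n : ℂ) * (z - z₀) ^ (n - 1)) z := by
          exact (hasDerivAt_zpow n (z - z₀) (Or.inl hz)).comp_sub_const z z₀
        exact h6.mul e3.differentiableAt.hasDerivAt
      rw [h5.deriv] at e2
      rw [e2] at e1
      have h7 : (z - z₀) ^ n = (z - z₀) ^ (n - 1) * (z - z₀) := by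
        rw [← zpow_add_one₀ hz, sub_add_cancel]
      rw [h7] at e1
      have h8 : (z - z₀) ^ (n - 1) ≠ 0 := zpow_ne_zero _ hz
      have h9 : (z - z₀) ^ (n - 1) * ((n : ℂ) * g z + (z - z₀) * deriv g z) = 0 := by
        linear_combination e1
      exact (mul_eq_zero.1 h9).resolve_left h8
    have h10 : Tendsto (fun z => (n : ℂ) * g z + (z - z₀) * deriv g z) (𝓝[≠] z₀)
        (𝓝 ((n : ℂ) * g z₀ + (z₀ - z₀) * deriv g z₀)) := by
      have : ContinuousAt (fun z => (n : ℂ) * g z + (z - z₀) * deriv g z) z₀ := by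
        have e1 := hg.continuousAt
        have e2 := hg.deriv.continuousAt
        fun_prop
      exact this.tendsto.mono_left nhdsWithin_le_nhds
    have h11 : (n : ℂ) * g z₀ + (z₀ - z₀) * deriv g z₀ = 0 := by
      refine tendsto_nhds_unique h10 ?_
      exact tendsto_const_nhds.congr' (by filter_upwards [h1] with z hz; exact hz.symm)
    rw [sub_self, zero_mul, add_zero] at h11
    have hn0 : n = 0 := by
      rcases mul_eq_zero.1 h11 with h | h
      · exact_mod_cast h
      · exact absurd h hg0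
    subst hn0
    have hfg' : f =ᶠ[𝓝[≠] z₀] g := by
      filter_upwards [hfg] with z hz
      rw [hz]; simp
    have h12 : ∀ᶠ z in 𝓝[≠] z₀, deriv g z = 0 := by
      filter_upwards [h1, self_mem_nhdsWithin] with z e1 e2
      have hz : z - z₀ ≠ 0 := sub_ne_zero.2 e2
      rw [Int.cast_zero, zero_mul, zero_add] at e1
      exact (mul_eq_zero.1 e1).resolve_left hz
    have h13 : ∀ᶠ z in 𝓝 z₀, deriv g z = 0 :=
      hg.deriv.frequently_zero_iff_eventually_zero.1 h12.frequently
    obtain ⟨ε, hε, hball⟩ := Metric.eventually_nhds_iff_ball.1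
      (h13.and hg.eventually_analyticAt)
    refine ⟨g z₀, ?_⟩
    rw [MGerm151.algebraMap_eq, mk_eq]
    have h14 : ∀ᶠ z in 𝓝[≠] z₀, z ∈ Metric.ball z₀ ε :=
      (Metric.ball_mem_nhds z₀ hε : _) |> fun h => nhdsWithin_le_nhds h
    filter_upwards [hfg', h14] with z e1 e2
    rw [e1]
    exact Metric.isOpen_ball.is_const_of_deriv_eq_zero (convex_ball z₀ ε).isPreconnected
      (fun x hx => (hball x hx).2.differentiableAt.differentiableWithinAt)
      (fun x hx => (hball x hx).1) e2 (Metric.mem_ball_self hε)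

/-- a germ in `ℂ(E, y)` is a quotient of two polynomials in `E`, `y` -/
lemma quot_of_mem {E y H : MG z₀} (h : H ∈ IntermediateField.adjoin ℂ {E, y}) :
    ∃ A B : MvPolynomial (Fin 2) ℂ, MvPolynomial.aeval ![E, y] B ≠ 0 ∧
      MvPolynomial.aeval ![E, y] B * H = MvPolynomial.aeval ![E, y] A := by
  have h1 : ({E, y} : Set (MG z₀)) = Set.range ![E, y] := by
    simp [Set.pair_comm]
  rw [h1, IntermediateField.mem_adjoin_range_iff] at h
  obtain ⟨r, s, hrs⟩ := h
  by_cases hs : MvPolynomial.aeval ![E, y] s = 0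
  · refine ⟨0, 1, by simp, ?_⟩
    rw [hs, div_zero] at hrs
    rw [hrs]; simp
  · refine ⟨r, s, hs, ?_⟩
    rw [hrs]; field_simp

/-- **the support function of an algebraic curve is rational in `E`, `y`** -/
theorem rat_fun {Z Zc E y : ℂ → ℂ} (hZm : MeromorphicAt Z z₀) (hZcm : MeromorphicAt Zc z₀)
    (hEm : MeromorphicAt E z₀) (hym : MeromorphicAt y z₀)
    (hE0 : ∃ᶠ z in 𝓝[≠] z₀, E z ≠ 0) (hy0 : ∃ᶠ z in 𝓝[≠] z₀, y z ≠ 0)
    (hZ : ∀ᶠ z in 𝓝[≠] z₀, deriv Z z = E z / y z ^ 2)
    (hZc : ∀ᶠ z in 𝓝[≠] z₀, deriv Zc z = 1 / (E z * y z ^ 2))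
    (hE : ∀ᶠ z in 𝓝[≠] z₀, deriv E z = Complex.I * y z * E z)
    {P : MvPolynomial (Fin 2) ℂ} (hP : P ≠ 0)
    (h : ∀ᶠ z in 𝓝[≠] z₀, MvPolynomial.eval ![Z z, Zc z] P = 0) :
    ∃ A B : MvPolynomial (Fin 2) ℂ, (∃ᶠ z in 𝓝[≠] z₀, MvPolynomial.eval ![E z, y z] B ≠ 0) ∧
      ∀ᶠ z in 𝓝[≠] z₀, MvPolynomial.eval ![E z, y z] B *
        (((E z)⁻¹ * Z z - E z * Zc z) / (2 * Complex.I)) = MvPolynomial.eval ![E z, y z] A := by
  have hE0' : mk E hEm ≠ 0 := by
    rw [mk_zero, Ne, mk_eq]
    intro h1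
    exact hE0 (h1.mono fun z hz hn => hn hz)
  have hy0' : mk y hym ≠ 0 := by
    rw [mk_zero, Ne, mk_eq]
    intro h1
    exact hy0 (h1.mono fun z hz hn => hn hz)
  obtain ⟨⟨c1, hc1, h1⟩, c2, hc2, h2⟩ := coord (k := ℂ) MGerm151.D (Z := mk Z hZm)
    (Zc := mk Zc hZcm) (E := mk E hEm) (y := mk y hym) (i := Complex.I) Complex.I_ne_zero hE0' hy0'
    (by
      rw [D_mk, div_eq_mul_inv, mk_pow, mk_inv, mk_mul, mk_eq]
      filter_upwards [hZ] with z hz
      simp [hz, div_eq_mul_inv])
    (by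
      rw [D_mk, one_div, mk_pow, mk_mul, mk_inv, mk_eq]
      filter_upwards [hZc] with z hz
      simp [hz])
    (by
      rw [D_mk, MGerm151.algebraMap_eq, mk_mul, mk_mul, mk_eq]
      filter_upwards [hE] with z hz
      simp [hz]) hP ((aeval_eq_zero hZm hZcm P).2 h)
  obtain ⟨a1, rfl⟩ := const_of_D hc1
  obtain ⟨a2, rfl⟩ := const_of_D hc2
  set M := IntermediateField.adjoin ℂ {mk E hEm, mk y hym} with hM
  have hZM : mk Z hZm ∈ M := by
    have := add_mem h1 (M.algebraMap_mem a1)
    rwa [sub_add_cancel] at this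
  have hZcM : mk Zc hZcm ∈ M := by
    have := add_mem h2 (M.algebraMap_mem a2)
    rwa [sub_add_cancel] at this
  have hEM : mk E hEm ∈ M := subset_adjoin _ _ (by simp)
  have hHM : ((mk E hEm)⁻¹ * mk Z hZm - mk E hEm * mk Zc hZcm) *
      algebraMap ℂ (MG z₀) ((2 * Complex.I)⁻¹) ∈ M :=
    mul_mem (sub_mem (mul_mem (inv_mem hEM) hZM) (mul_mem hEM hZcM)) (M.algebraMap_mem _)
  obtain ⟨A, B, hB, hAB⟩ := quot_of_mem hHM
  obtain ⟨mA, hA1⟩ := mero_eval hEm hym A
  obtain ⟨mB, hB1⟩ := mero_eval hEm hym B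
  refine ⟨A, B, ?_, ?_⟩
  · intro hcon
    refine hB ?_
    rw [aeval_eq_zero]
    filter_upwards [hcon] with z hz
    simpa using hz
  · have hneg : (mk E hEm)⁻¹ * mk Z hZm - mk E hEm * mk Zc hZcm =
        mk (fun z => (E z)⁻¹ * Z z - E z * Zc z)
          ((hEm.inv.mul hZm).sub (hEm.mul hZcm)) := by
      rw [mk_inv, mk_mul, mk_mul, sub_eq_iff_eq_add, mk_add, mk_eq]
      exact Filter.Eventually.of_forall fun z => by simp
    rw [hneg, MGerm151.algebraMap_eq, mk_mul, hB1, mk_mul, hA1, mk_eq] at hAB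
    filter_upwards [hAB] with z hz
    simp only [Pi.mul_apply] at hz
    rw [div_eq_mul_inv]
    exact hz

end Crest.Agent.R102.AlgR151
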