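import Mathlib
import Crest.Agent.R102.MGerm_151
import Crest.Agent.R102.C0Defs_821

/-!
# Row 102, T7 for `h₀ = ∞` in the language of `C0Defs_821` (helper151)
-/

set_option autoImplicit false

noncomputable section

open Filter Topology

namespace Crest.Agent.R102.T7C151

open Crest.Agent.R102.C0 Crest.Agent.R102.T5 Crest.Agent.R102.G576 Crest.Agent.R102.A929
  Crest.Agent.R102.B821

lemma zero_mem_Str {η : ℝ} (hη : 0 < η) : (0 : ℂ) ∈ Str η := by
  change |(0 : ℂ).im| < η
  simpa using hη

lemma isOpen_Str (η : ℝ) : IsOpen (Str η) := by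
  have : Continuous fun z : ℂ => |z.im| := by fun_prop
  exact isOpen_lt this continuous_const

/-- **T7, case `h₀ = ∞`** : the tangent angle `Tc q` extends to an entire function, and the two
isotropic coordinates of the curve satisfy a polynomial relation near `0`.  Then the conclusion of
`PartCL` holds. -/
theorem t7inf {q : C(ℂ, ℂ)} {η : ℝ} (D : Datum q η) {th : ℂ → ℂ} (hth : Differentiable ℂ th)
    (hext : ∀ᶠ z in 𝓝 (0 : ℂ), th z = Tc q z) {P : MvPolynomial (Fin 2) ℂ} (hP : P ≠ 0)
    (hrel : ∀ᶠ z in 𝓝 (0 : ℂ), MvPolynomial.eval ![Zs q 1 z, Zs q (-1) z] P = 0) :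
    ∃ K : ℝ, ∀ x : ℝ, deriv (deriv (fun x => Real.exp (qr q x))) x =
      (K - 2 * Real.exp (qr q x) ^ 2) * Real.exp (qr q x) := by
  have hS : ∀ᶠ z in 𝓝 (0 : ℂ), z ∈ Str η := (isOpen_Str η).mem_nhds (zero_mem_Str D.η_pos)
  have hderiv : ∀ᶠ z in 𝓝 (0 : ℂ), deriv th z = Complex.exp (q z) := by
    filter_upwards [hext.eventually_nhds, hS] with z hz hzS
    have h1 : th =ᶠ[𝓝 z] Tc q := hz
    rw [h1.deriv_eq]
    exact (D.hasDerivAt_Tc hzS).deriv
  have han : ∀ s : ℂ, MeromorphicAt (Zs q s) 0 := fun s =>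
    ((D.Zs_diff s).analyticAt ((isOpen_Str η).mem_nhds (zero_mem_Str D.η_pos))).meromorphicAt
  have hconst : ∀ z, deriv th z = deriv th 0 := by
    refine MGerm151.entire_curve (z₀ := 0) hth (han 1) (han (-1)) ?_ ?_ hP
      (hrel.filter_mono nhdsWithin_le_nhds)
    · refine Filter.Eventually.filter_mono nhdsWithin_le_nhds ?_
      filter_upwards [hext, hderiv, hS] with z h1 h2 h3
      rw [(D.hasDerivAt_Zs 1 h3).deriv, h1, h2, C0.vel, ← Complex.exp_nat_mul, ← Complex.exp_sub]
      congr 1
      push_cast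
      ring
    · refine Filter.Eventually.filter_mono nhdsWithin_le_nhds ?_
      filter_upwards [hext, hderiv, hS] with z h1 h2 h3
      rw [(D.hasDerivAt_Zs (-1) h3).deriv, h1, h2, C0.vel, ← Complex.exp_nat_mul, ← Complex.exp_add,
        one_div, ← Complex.exp_neg]
      congr 1
      push_cast
      ring
  -- `exp q` is constant on the strip by the identity theorem
  have hq : Set.EqOn (fun z => Complex.exp (q z)) (fun _ => deriv th 0) (Str η) := by
    have h1 : AnalyticOnNhd ℂ (fun z => Complex.exp (q z)) (Str η) :=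
      D.exp_diff.analyticOnNhd (isOpen_Str η)
    have hc : Convex ℝ (Str η) := by
      have : Str η = Complex.im ⁻¹' (Set.Ioo (-η) η) := by
        ext z
        simp [Str, abs_lt]
      rw [this]
      exact (convex_Ioo _ _).is_linear_preimage ⟨Complex.add_im, fun r z => by simp⟩
    refine h1.eqOn_of_preconnected_of_eventuallyEq analyticOnNhd_const
      hc.isPreconnected (zero_mem_Str D.η_pos) ?_
    filter_upwards [hderiv] with z hz
    rw [← hz, hconst z]
  set c : ℝ := Real.exp (qr q 0) with hc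
  have hre : ∀ x : ℝ, (x : ℂ) ∈ Str η := fun x => by
    change |(x : ℂ).im| < η
    simpa using D.η_pos
  have hy : ∀ x : ℝ, Real.exp (qr q x) = c := by
    intro x
    have h1 := hq (hre x)
    have h2 := hq (hre 0)
    simp only at h1 h2
    rw [D.q_real] at h1 h2
    rw [hc]
    apply Complex.ofReal_injective
    push_cast
    rw [h1, h2]
  refine ⟨2 * c ^ 2, fun x => ?_⟩
  have h1 : (fun x => Real.exp (qr q x)) = fun _ => c := funext hy
  rw [h1, hy x]
  simp

end Crest.Agent.R102.T7C151
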