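import Mathlib
import Crest.Agent.R102.MGerm_151
import Crest.Agent.R102.T7infC_151

/-!
# Row 102: from one relation between the isotropic coordinates to `Q (E, y) = 0` on a connected
open set (helper151)

* `eval_diffOn`, `rel_on` : identity theorem for polynomial relations on a connected open set
* `alg_on` : relation `P (Z, Zc) = 0` near `z₀` gives `Q (E, y) = 0` on all of `U`
* `alg_datum` : the same in the language of `C0Defs_821`
-/

set_option autoImplicit false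

noncomputable section

open Filter Topology

namespace Crest.Agent.R102.AlgS151

open Crest.Agent.R102.MGerm151

lemma eval_diffOn {U : Set ℂ} {f g : ℂ → ℂ} (hf : DifferentiableOn ℂ f U)
    (hg : DifferentiableOn ℂ g U) (Q : MvPolynomial (Fin 2) ℂ) :
    DifferentiableOn ℂ (fun z => MvPolynomial.eval ![f z, g z] Q) U := by
  induction Q using MvPolynomial.induction_on with
  | C a => simp
  | add p q hp hq =>
    simp only [map_add]
    exact hp.add hq
  | mul_X p i hp =>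
    fin_cases i
    · simp only [map_mul, MvPolynomial.eval_X]
      exact hp.mul hf
    · simp only [map_mul, MvPolynomial.eval_X]
      exact hp.mul hg

/-- identity theorem for polynomial relations -/
lemma rel_on {U : Set ℂ} (hU : IsOpen U) (hc : IsPreconnected U) {z₀ : ℂ} (h₀ : z₀ ∈ U)
    {f g : ℂ → ℂ} (hf : DifferentiableOn ℂ f U) (hg : DifferentiableOn ℂ g U)
    {Q : MvPolynomial (Fin 2) ℂ}
    (h : ∀ᶠ z in 𝓝[≠] z₀, MvPolynomial.eval ![f z, g z] Q = 0) :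
    ∀ z ∈ U, MvPolynomial.eval ![f z, g z] Q = 0 := fun _ hz =>
  ((eval_diffOn hf hg Q).analyticOnNhd hU).eqOn_zero_of_preconnected_of_frequently_eq_zero hc
    h₀ h.frequently hz

/-- **a relation between the isotropic coordinates near one point gives a relation between `E`
and `y` on a connected open set** -/
theorem alg_on {U : Set ℂ} (hU : IsOpen U) (hc : IsPreconnected U) {z₀ : ℂ} (h₀ : z₀ ∈ U)
    {E y Z Zc : ℂ → ℂ} (hE : DifferentiableOn ℂ E U) (hy : DifferentiableOn ℂ y U)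
    (hE0 : E z₀ ≠ 0) (hEd : ∀ᶠ z in 𝓝 z₀, deriv E z = Complex.I * y z * E z)
    (hZm : MeromorphicAt Z z₀) (hZcm : MeromorphicAt Zc z₀)
    (hZ : ∀ᶠ z in 𝓝 z₀, deriv Z z = E z / y z ^ 2)
    (hZc : ∀ᶠ z in 𝓝 z₀, deriv Zc z = 1 / (E z * y z ^ 2))
    {P : MvPolynomial (Fin 2) ℂ} (hP : P ≠ 0)
    (h : ∀ᶠ z in 𝓝 z₀, MvPolynomial.eval ![Z z, Zc z] P = 0) :
    ∃ Q : MvPolynomial (Fin 2) ℂ, Q ≠ 0 ∧ ∀ z ∈ U, MvPolynomial.eval ![E z, y z] Q = 0 := by
  have hUn : U ∈ 𝓝 z₀ := hU.mem_nhds h₀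
  have hEa : AnalyticAt ℂ E z₀ := hE.analyticAt hUn
  have hya : AnalyticAt ℂ y z₀ := hy.analyticAt hUn
  by_cases hyf : ∃ᶠ z in 𝓝[≠] z₀, y z ≠ 0
  · have hEne : ∀ᶠ z in 𝓝[≠] z₀, E z ≠ 0 :=
      (hEa.continuousAt.eventually_ne hE0).filter_mono nhdsWithin_le_nhds
    obtain ⟨Q, hQ, hQ0⟩ := curve_fun hZm hZcm hEa.meromorphicAt hya.meromorphicAt
      hEne.frequently hyf (hZ.filter_mono nhdsWithin_le_nhds)
      (hZc.filter_mono nhdsWithin_le_nhds) (hEd.filter_mono nhdsWithin_le_nhds) hP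
      (h.filter_mono nhdsWithin_le_nhds)
    exact ⟨Q, hQ, rel_on hU hc h₀ hE hy hQ0⟩
  · refine ⟨MvPolynomial.X 1, MvPolynomial.X_ne_zero 1, rel_on hU hc h₀ hE hy ?_⟩
    rw [Filter.not_frequently] at hyf
    filter_upwards [hyf] with z hz
    simpa using hz

open Crest.Agent.R102.C0 Crest.Agent.R102.T5 Crest.Agent.R102.G576 Crest.Agent.R102.A929
  Crest.Agent.R102.B821

/-- **the same for a datum**: `E`, `y` are continuations of `exp (i Tc q)`, `exp q` to a connected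
open set `U ∋ 0` -/
theorem alg_datum {q : C(ℂ, ℂ)} {η : ℝ} (D : Datum q η) {U : Set ℂ} (hU : IsOpen U)
    (hc : IsPreconnected U) (h₀ : (0 : ℂ) ∈ U) {E y : ℂ → ℂ} (hE : DifferentiableOn ℂ E U)
    (hy : DifferentiableOn ℂ y U)
    (hEq : ∀ᶠ z in 𝓝 (0 : ℂ), E z = Complex.exp (Complex.I * Tc q z))
    (hyq : ∀ᶠ z in 𝓝 (0 : ℂ), y z = Complex.exp (q z))
    {P : MvPolynomial (Fin 2) ℂ} (hP : P ≠ 0)
    (hrel : ∀ᶠ z in 𝓝 (0 : ℂ), MvPolynomial.eval ![Zs q 1 z, Zs q (-1) z] P = 0) :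
    ∃ Q : MvPolynomial (Fin 2) ℂ, Q ≠ 0 ∧ ∀ z ∈ U, MvPolynomial.eval ![E z, y z] Q = 0 := by
  have hS : ∀ᶠ z in 𝓝 (0 : ℂ), z ∈ Str η :=
    (T7C151.isOpen_Str η).mem_nhds (T7C151.zero_mem_Str D.η_pos)
  have han : ∀ s : ℂ, MeromorphicAt (Zs q s) 0 := fun s =>
    ((D.Zs_diff s).analyticAt
      ((T7C151.isOpen_Str η).mem_nhds (T7C151.zero_mem_Str D.η_pos))).meromorphicAt
  refine alg_on hU hc h₀ hE hy ?_ ?_ (han 1) (han (-1)) ?_ ?_ hP hrel
  · rw [hEq.self_of_nhds]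
    exact Complex.exp_ne_zero _
  · filter_upwards [hEq.eventually_nhds, hEq, hyq, hS] with z h1 h2 h3 h4
    have h5 : E =ᶠ[𝓝 z] fun z => Complex.exp (Complex.I * Tc q z) := h1
    have h6 : HasDerivAt (fun z => Complex.exp (Complex.I * Tc q z))
        (Complex.exp (Complex.I * Tc q z) * (Complex.I * Complex.exp (q z))) z :=
      ((D.hasDerivAt_Tc h4).const_mul Complex.I).cexp
    rw [h5.deriv_eq, h6.deriv, h2, h3]
    ring
  · filter_upwards [hEq, hyq, hS] with z h1 h2 h3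
    rw [(D.hasDerivAt_Zs 1 h3).deriv, h1, h2, C0.vel, ← Complex.exp_nat_mul, ← Complex.exp_sub]
    congr 1
    push_cast
    ring
  · filter_upwards [hEq, hyq, hS] with z h1 h2 h3
    rw [(D.hasDerivAt_Zs (-1) h3).deriv, h1, h2, C0.vel, ← Complex.exp_nat_mul,
      ← Complex.exp_add, one_div, ← Complex.exp_neg]
    congr 1
    push_cast
    ring

end Crest.Agent.R102.AlgS151
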