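import Crest.Agent.R102.Hol_575
import Crest.Agent.R102.AlgA_985

/-!
Row 102, part (C), (RAT) section 6, leaf RAT-3a = (ALG): a non trivial algebraic extension of
algebras of holomorphic functions has a non trivial embedding at a generic point, and this
embedding commutes with the derivations.
-/

set_option linter.unusedSectionVars false
set_option linter.unusedVariables false

namespace Crest.Agent.R102.Alg985

open Set Topology TopologicalSpace Polynomial H3

section comm

/-- algebraic homs injective on the base are injective -/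
theorem tau_injective {R R' : Type*} [CommRing R] [IsDomain R] [CommRing R'] [IsDomain R']
    [Algebra ℂ R] [Algebra ℂ R'] (B A : Subalgebra ℂ R) (hBA : B ≤ A)
    (halg : ∀ a ∈ A, IsAlgebraic B a) (τ : A →+* R')
    (hτ : ∀ b : A, (b : R) ∈ B → τ b = 0 → b = 0) : Function.Injective τ := by
  rw [injective_iff_map_eq_zero]
  intro a ha
  by_contra hne
  have hneR : (a : R) ≠ 0 := fun h => hne (Subtype.ext h)
  -- a relation with nonzero constant term
  have key : ∀ n : ℕ, ∀ P : B[X], P ≠ 0 → P.natDegree ≤ n → aeval (a : R) P = 0 → False := by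
    intro n
    induction n with
    | zero =>
      intro P hP hn h0
      rw [Polynomial.eq_C_of_natDegree_le_zero hn, aeval_C] at h0
      apply hP
      rw [Polynomial.eq_C_of_natDegree_le_zero hn]
      have : P.coeff 0 = 0 := Subtype.ext h0
      rw [this, C_0]
    | succ n ih =>
      intro P hP hn h0
      have hc : P.coeff 0 = 0 := by
        have h1 : aeval (a : R) P = (a : R) * aeval (a : R) P.divX + (P.coeff 0 : R) := by
          conv_lhs => rw [← P.divX_mul_X_add]
          rw [map_add, map_mul, aeval_X, aeval_C, mul_comm]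
          rfl
        have hmem : aeval (a : R) P.divX ∈ A := by
          have : ∀ Q : B[X], aeval (a : R) Q ∈ A := by
            intro Q
            induction Q using Polynomial.induction_on' with
            | add p q hp hq =>
              rw [map_add]
              exact A.add_mem hp hq
            | monomial m b =>
              rw [aeval_monomial]
              exact A.mul_mem (hBA b.2) (A.pow_mem a.2 m)
          exact this _
        have hA2 : (⟨(P.coeff 0 : R), hBA (P.coeff 0).2⟩ : A) = - (a * ⟨_, hmem⟩) := by
          apply Subtype.ext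
          change (P.coeff 0 : R) = - ((a : R) * aeval (a : R) P.divX)
          rw [h0] at h1
          linear_combination -h1
        have h2 : τ ⟨(P.coeff 0 : R), hBA (P.coeff 0).2⟩ = 0 := by
          rw [hA2, map_neg, map_mul, ha, zero_mul, neg_zero]
        have h3 := hτ _ (P.coeff 0).2 h2
        have h3' : (P.coeff 0 : R) = 0 := congrArg Subtype.val h3
        exact Subtype.ext h3'
      have h4 : P = P.divX * X := by
        conv_lhs => rw [← P.divX_mul_X_add, hc, C_0, add_zero]
      refine ih P.divX ?_ ?_ ?_
      · intro h5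
        rw [h5, zero_mul] at h4
        exact hP h4
      · rw [natDegree_divX_eq_natDegree_tsub_one]
        omega
      · rw [h4, map_mul, aeval_X] at h0
        exact (mul_eq_zero.mp h0).resolve_right hneR
  obtain ⟨P, hP, h0⟩ := halg a a.2
  exact key _ P hP le_rfl h0

/-- an algebraic embedding commutes with the derivations as soon as it does so on the base -/
theorem tau_comm {R R' : Type*} [CommRing R] [IsDomain R] [CommRing R'] [IsDomain R']
    [CharZero R] [Algebra ℂ R] [Algebra ℂ R'] (B A : Subalgebra ℂ R) (hBA : B ≤ A)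
    (halg : ∀ a ∈ A, IsAlgebraic B a) (τ : A →+* R') (hτ : Function.Injective τ)
    (D : Derivation ℂ R R) (D' : Derivation ℂ R' R') (hDA : ∀ a ∈ A, D a ∈ A)
    (hB : ∀ b : A, (b : R) ∈ B → τ ⟨D b, hDA b b.2⟩ = D' (τ b)) :
    ∀ a : A, τ ⟨D a, hDA a a.2⟩ = D' (τ a) := by
  intro a
  have hmem : ∀ Q : B[X], aeval (a : R) Q ∈ A := by
    intro Q
    induction Q using Polynomial.induction_on' with
    | add p q hp hq =>
      rw [map_add]
      exact A.add_mem hp hq
    | monomial m b =>
      rw [aeval_monomial]
      exact A.mul_mem (hBA b.2) (A.pow_mem a.2 m)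
  have key : ∀ P : B[X], ∃ q : A,
      D (aeval (a : R) P) = q + aeval (a : R) (derivative P) * D a ∧
      D' (τ ⟨_, hmem P⟩) = τ q + τ ⟨_, hmem (derivative P)⟩ * D' (τ a) := by
    intro P
    induction P using Polynomial.induction_on with
    | C b =>
      refine ⟨⟨D (b : R), hDA _ (hBA b.2)⟩, ?_, ?_⟩
      · rw [aeval_C, derivative_C, map_zero, zero_mul, add_zero]
        rfl
      · have h1 := hB ⟨(b : R), hBA b.2⟩ b.2
        rw [h1]
        have h2 : (⟨aeval (a : R) (derivative (C b)), hmem (derivative (C b))⟩ : A) = 0 := by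
          apply Subtype.ext
          change aeval (a : R) (derivative (C b)) = 0
          rw [derivative_C, map_zero]
        rw [h2, map_zero, zero_mul, add_zero]
        congr 2
        apply Subtype.ext
        change aeval (a : R) (C b) = b
        rw [aeval_C]
        rfl
    | add p q hp hq =>
      obtain ⟨u, h1, h2⟩ := hp
      obtain ⟨v, h3, h4⟩ := hq
      refine ⟨u + v, ?_, ?_⟩
      · rw [map_add, map_add, h1, h3, derivative_add, map_add]
        push_cast
        ring
      · have e1 : (⟨aeval (a : R) (p + q), hmem (p + q)⟩ : A) =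
            ⟨_, hmem p⟩ + ⟨_, hmem q⟩ := Subtype.ext (map_add _ _ _)
        have e2 : (⟨aeval (a : R) (derivative (p + q)), hmem (derivative (p + q))⟩ : A) =
            ⟨_, hmem (derivative p)⟩ + ⟨_, hmem (derivative q)⟩ := Subtype.ext (by
          change aeval (a : R) (derivative (p + q)) = _
          rw [derivative_add, map_add]
          rfl)
        rw [e1, e2, map_add, map_add, h2, h4, map_add, map_add]
        ring
    | monomial n b ih =>
      obtain ⟨u, h1, h2⟩ := ih
      have e0 : (C b * X ^ (n + 1) : B[X]) = (C b * X ^ n) * X := by ring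
      rw [e0]
      obtain ⟨Q, hQ⟩ : ∃ Q : B[X], Q = C b * X ^ n := ⟨_, rfl⟩
      revert h1 h2
      rw [← hQ]
      intro h1 h2
      refine ⟨u * a, ?_, ?_⟩
      · have e3 : derivative (Q * X) = derivative Q * X + Q := by
          rw [derivative_mul, derivative_X, mul_one]
        rw [e3, map_mul, aeval_X, D.leibniz, h1, map_add, map_mul, aeval_X]
        simp only [smul_eq_mul]
        push_cast
        ring
      · have e1 : (⟨aeval (a : R) (Q * X), hmem (Q * X)⟩ : A) = ⟨_, hmem Q⟩ * a :=
          Subtype.ext (by
            change aeval (a : R) (Q * X) = _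
            rw [map_mul, aeval_X]
            rfl)
        have e2 : (⟨aeval (a : R) (derivative (Q * X)), hmem (derivative (Q * X))⟩ : A) =
            ⟨_, hmem (derivative Q)⟩ * a + ⟨_, hmem Q⟩ := Subtype.ext (by
          change aeval (a : R) (derivative (Q * X)) = _
          rw [derivative_mul, derivative_X, mul_one, map_add, map_mul, aeval_X]
          rfl)
        rw [e1, e2, map_mul τ, D'.leibniz, h2, map_add τ, map_mul τ, map_mul τ]
        simp only [smul_eq_mul]
        ring
  -- a relation of minimal degree
  obtain ⟨P, hP, h0, hmin⟩ : ∃ P : B[X], P ≠ 0 ∧ aeval (a : R) P = 0 ∧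
      aeval (a : R) (derivative P) ≠ 0 := by
    have hcB : CharZero B := ⟨fun m n h => by
      have := congrArg (Subtype.val : B → R) h
      exact_mod_cast this⟩
    obtain ⟨P0, hP0, hP00⟩ := halg a a.2
    classical
    have hex : ∃ n, ∃ P : B[X], P ≠ 0 ∧ aeval (a : R) P = 0 ∧ P.natDegree = n :=
      ⟨_, P0, hP0, hP00, rfl⟩
    obtain ⟨P, hP, h0, hn⟩ := Nat.find_spec hex
    refine ⟨P, hP, h0, fun hd => ?_⟩
    have hdeg : P.natDegree ≠ 0 := by
      intro h1
      rw [Polynomial.eq_C_of_natDegree_eq_zero h1, aeval_C] at h0
      apply hP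
      rw [Polynomial.eq_C_of_natDegree_eq_zero h1]
      have : P.coeff 0 = 0 := Subtype.ext h0
      rw [this, C_0]
    have hd0 : derivative P ≠ 0 := by
      intro h2
      exact hdeg (Polynomial.derivative_eq_zero.mp h2)
    have hlt : (derivative P).natDegree < Nat.find hex := by
      rw [← hn]
      exact Polynomial.natDegree_derivative_lt hdeg
    exact Nat.find_min hex hlt ⟨_, hd0, hd, rfl⟩
  obtain ⟨q, h1, h2⟩ := key P
  rw [h0, map_zero] at h1
  have e1 : (⟨aeval (a : R) P, hmem P⟩ : A) = 0 := Subtype.ext h0
  rw [e1, map_zero, map_zero] at h2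
  have h3 : q + ⟨_, hmem (derivative P)⟩ * (⟨D a, hDA a a.2⟩ : A) = 0 := Subtype.ext h1.symm
  have h4 := congrArg τ h3
  rw [map_add, map_mul, map_zero] at h4
  have hne : τ ⟨_, hmem (derivative P)⟩ ≠ 0 := by
    intro h5
    have := (injective_iff_map_eq_zero τ).mp hτ _ h5
    exact hmin (congrArg Subtype.val this)
  have h6 : τ ⟨_, hmem (derivative P)⟩ * (τ ⟨D a, hDA a a.2⟩ - D' (τ a)) = 0 := by
    linear_combination h4 + h2
  exact sub_eq_zero.mp ((mul_eq_zero.mp h6).resolve_left hne)

end comm

end Crest.Agent.R102.Alg985
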