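import Mathlib
import Crest.Agent.R102.HartR_948

/-!
# Row 102, T1-B (f): constant blow-ups (helper971)

`F : ℂ → ℂ → E` (variables `t`, `w`), for real `w = u` the slice is considered below the height `U u`.
At almost every point `(x,u)` of the set where `F` has a nontangential limit `b`, the blow-ups
`F (x + i U u + η T) (u + η ζ)` converge to the constant `b`:
* for most real `ζ` and `T` below the line `Im T = al ζ` (`blow_real`);
* locally uniformly on every connected complex domain of normality (`blow_complex`).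
No measurability is used.
-/

set_option autoImplicit false

namespace Crest.Agent.R102.Blow971

open MeasureTheory Set Filter Topology Metric Complex
open scoped ENNReal NNReal

/-! ### density points in the plane -/

theorem ae_density2 (S : Set (ℝ × ℝ)) : ∀ᵐ p : ℝ × ℝ, p ∈ S →
    ∀ κ > 0, ∀ᶠ s in 𝓝[>] (0 : ℝ),
      ENNReal.ofReal ((1 - κ) * (2 * s) ^ 2) ≤ volume (S ∩ closedBall p s) := by
  have h := ae_imp_of_ae_restrict (IsUnifLocDoublingMeasure.ae_tendsto_measure_inter_div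
    (μ := (volume : Measure (ℝ × ℝ))) S 1)
  filter_upwards [h] with p hp hpS κ hκ
  have h1 := hp hpS (fun s : ℝ => p) (fun s : ℝ => s) (l := 𝓝[>] 0) tendsto_id
    (by
      filter_upwards [self_mem_nhdsWithin] with s hs
      rw [one_mul]
      exact mem_closedBall_self (le_of_lt hs))
  have hlt : ENNReal.ofReal (1 - κ) < 1 := by
    rw [ENNReal.ofReal_lt_one]
    linarith
  have h2 : ∀ᶠ s in 𝓝[>] (0 : ℝ), ENNReal.ofReal (1 - κ) <
      volume (S ∩ closedBall p s) / volume (closedBall p s) :=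
    h1.eventually (lt_mem_nhds hlt)
  filter_upwards [h2, self_mem_nhdsWithin] with s hs hs0
  rw [mem_Ioi] at hs0
  have hvol : volume (closedBall p s) = ENNReal.ofReal ((2 * s) ^ 2) := by
    obtain ⟨x, u⟩ := p
    rw [← closedBall_prod_same, Measure.volume_eq_prod, Measure.prod_prod, Real.volume_closedBall,
      Real.volume_closedBall, ← ENNReal.ofReal_mul (by positivity)]
    congr 1
    ring
  rw [hvol] at hs
  have h3 : ENNReal.ofReal ((2 * s) ^ 2) ≠ 0 := by
    rw [Ne, ENNReal.ofReal_eq_zero, not_le]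
    positivity
  rw [ENNReal.lt_div_iff_mul_lt (Or.inl h3) (Or.inl ENNReal.ofReal_ne_top)] at hs
  refine le_trans ?_ hs.le
  rw [ENNReal.ofReal_mul' (by positivity)]

/-- most horizontal slices meet the thin strip -/
theorem slices {S : Set (ℝ × ℝ)} {p : ℝ × ℝ} {s δ κ : ℝ} (hs : 0 < s) (hδ : 0 < δ) (hδs : δ ≤ s)
    (h : ENNReal.ofReal ((1 - κ) * (2 * s) ^ 2) ≤ volume (S ∩ closedBall p s)) :
    ENNReal.ofReal (2 * s - 2 * κ * s ^ 2 / δ) ≤
      volume {v | v ∈ Icc (p.2 - s) (p.2 + s) ∧ ∃ y, |y - p.1| ≤ δ ∧ (y, v) ∈ S} := by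
  set Z : Set ℝ := {v | v ∈ Icc (p.2 - s) (p.2 + s) ∧ ∃ y, |y - p.1| ≤ δ ∧ (y, v) ∈ S} with hZ
  have hZfin : volume Z ≠ ⊤ := by
    refine ne_top_of_le_ne_top ?_ (measure_mono (show Z ⊆ Icc (p.2 - s) (p.2 + s) from
      fun v hv => hv.1))
    rw [Real.volume_Icc]
    exact ENNReal.ofReal_ne_top
  have hsub : S ∩ closedBall p s ⊆
      ((Icc (p.1 - s) (p.1 + s) \ Icc (p.1 - δ) (p.1 + δ)) ×ˢ Icc (p.2 - s) (p.2 + s)) ∪
        (Icc (p.1 - δ) (p.1 + δ) ×ˢ Z) := by
    rintro ⟨y, v⟩ ⟨hyS, hyb⟩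
    rw [← closedBall_prod_same (p.1) (p.2) s, mem_prod, Real.closedBall_eq_Icc,
      Real.closedBall_eq_Icc] at hyb
    by_cases hy : y ∈ Icc (p.1 - δ) (p.1 + δ)
    · right
      refine ⟨hy, hyb.2, y, ?_, hyS⟩
      rw [abs_le]
      constructor <;> [linarith [hy.1]; linarith [hy.2]]
    · left
      exact ⟨⟨hyb.1, hy⟩, hyb.2⟩
  have h1 : volume (S ∩ closedBall p s) ≤
      ENNReal.ofReal ((2 * s - 2 * δ) * (2 * s)) + ENNReal.ofReal (2 * δ) * volume Z := by
    refine (measure_mono hsub).trans ((measure_union_le _ _).trans ?_)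
    rw [Measure.volume_eq_prod, Measure.prod_prod, Measure.prod_prod, Real.volume_Icc,
      Real.volume_Icc, measure_sdiff (by
        intro y hy
        exact ⟨by linarith [hy.1], by linarith [hy.2]⟩) measurableSet_Icc.nullMeasurableSet (by
        rw [Real.volume_Icc]; exact ENNReal.ofReal_ne_top), Real.volume_Icc, Real.volume_Icc,
      ← ENNReal.ofReal_sub _ (by linarith), ← ENNReal.ofReal_mul (by linarith)]
    refine add_le_add (le_of_eq ?_) (le_of_eq ?_)
    · congr 1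
      ring
    · congr 2
      ring
  have h2 : volume Z = ENNReal.ofReal (volume Z).toReal := (ENNReal.ofReal_toReal hZfin).symm
  set z : ℝ := (volume Z).toReal with hz
  have hz0 : 0 ≤ z := ENNReal.toReal_nonneg
  rw [h2] at h1 ⊢
  rw [← ENNReal.ofReal_mul (by positivity), ← ENNReal.ofReal_add (by nlinarith) (by positivity)]
    at h1
  have h3 := h.trans h1
  rw [ENNReal.ofReal_le_ofReal_iff (by nlinarith [mul_nonneg hδ.le hz0])] at h3
  apply ENNReal.ofReal_le_ofReal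
  have h4 : 2 * κ * s ^ 2 / δ * δ = 2 * κ * s ^ 2 := by field_simp
  nlinarith [h4]

/-! ### nontangential limits -/

/-- cone of aperture `A` and depth `δ` below the point `x + i h` -/
def DCone (A δ h x : ℝ) : Set ℂ := {t | t.im < h ∧ h - δ < t.im ∧ |t.re - x| ≤ A * (h - t.im)}

theorem DCone_mono {A A' δ δ' h x : ℝ} (hA : A ≤ A') (hδ : δ ≤ δ') :
    DCone A δ h x ⊆ DCone A' δ' h x := by
  rintro t ⟨h1, h2, h3⟩
  refine ⟨h1, by linarith, h3.trans ?_⟩
  have : 0 < h - t.im := by linarith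
  gcongr

/-- nontangential limit at `p = (x, u)`; the slice at the real parameter `u` ends at height `U u` -/
def NT {E : Type*} [PseudoMetricSpace E] (F : ℂ → ℂ → E) (U : ℝ → ℝ) (p : ℝ × ℝ) (b : E) : Prop :=
  ∀ A > 0, ∀ ε > 0, ∃ δ > 0, ∀ t ∈ DCone A δ (U p.2) p.1, dist (F t p.2) b ≤ ε

section real

variable {E : Type*} [PseudoMetricSpace E] [TopologicalSpace.SeparableSpace E]

set_option maxHeartbeats 2000000 in
/-- **constant blow-ups, real slices**: for a.e. point with a nontangential limit `b`, and most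
real `ζ`, the blow-up is `ε`-close to `b` below the line `Im T = al ζ - c`. -/
theorem blow_real (F : ℂ → ℂ → E) (U : ℝ → ℝ) (P : Set (ℝ × ℝ)) (b : ℝ × ℝ → E)
    (hP : ∀ p ∈ P, NT F U p (b p)) :
    ∀ᵐ p : ℝ × ℝ, p ∈ P → ∀ al : ℝ,
      (∀ ε : ℝ, 0 < ε → ∀ᶠ z : ℝ in 𝓝 (0 : ℝ), U p.2 + al * z - ε * |z| ≤ U (p.2 + z)) →
      ∀ M : ℝ, 0 < M → ∀ c : ℝ, 0 < c → ∀ ε : ℝ, 0 < ε → ∀ᶠ η : ℝ in 𝓝[>] (0 : ℝ),
        ∃ Z : Set ℝ, Z ⊆ Icc (-M) M ∧ ENNReal.ofReal (2 * M - ε) ≤ volume Z ∧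
          ∀ ζ : ℝ, ζ ∈ Z → ∀ T : ℂ, |T.re| ≤ M → -M ≤ T.im → T.im ≤ al * ζ - c →
            dist (F (p.1 + I * U p.2 + η * T) (p.2 + η * ζ)) (b p) ≤ ε := by
  rcases P.eq_empty_or_nonempty with hPe | ⟨p0, hp0⟩
  · refine Eventually.of_forall fun p hp => ?_
    rw [hPe] at hp
    exact absurd hp (notMem_empty _)
  have : Nonempty E := ⟨b p0⟩
  set dq : ℕ → E := TopologicalSpace.denseSeq E with hdq
  set S : ℕ → ℕ → ℕ → ℕ → ℚ → Set (ℝ × ℝ) := fun n A m j l =>
    {p | p ∈ P ∧ (∀ t ∈ DCone A (1 / ((m : ℝ) + 1)) (U p.2) p.1,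
        dist (F t p.2) (b p) ≤ 1 / ((n : ℝ) + 1)) ∧ dist (b p) (dq j) ≤ 1 / ((n : ℝ) + 1) ∧
        |U p.2 - l| ≤ 1 / (4 * ((m : ℝ) + 1))} with hS
  have h0 : ∀ᵐ p : ℝ × ℝ, ∀ n A m j l, p ∈ S n A m j l →
      ∀ κ > 0, ∀ᶠ s in 𝓝[>] (0 : ℝ),
        ENNReal.ofReal ((1 - κ) * (2 * s) ^ 2) ≤ volume (S n A m j l ∩ closedBall p s) := by
    refine ae_all_iff.2 fun n => ae_all_iff.2 fun A => ae_all_iff.2 fun m => ae_all_iff.2 fun j =>
      ae_all_iff.2 fun l => ae_density2 _
  filter_upwards [h0] with p hp hpP al hal M hM c hc ε hε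
  -- constants
  obtain ⟨n, hn⟩ := exists_nat_one_div_lt (show (0 : ℝ) < ε / 3 by positivity)
  obtain ⟨A, hA⟩ := exists_nat_ge (2 * (M + 1) / c)
  have hA0 : (0 : ℝ) < A := lt_of_lt_of_le (by positivity) hA
  obtain ⟨δ0, hδ0, hcone⟩ := hP p hpP A hA0 (1 / ((n : ℝ) + 1)) (by positivity)
  obtain ⟨m, hm⟩ := exists_nat_one_div_lt hδ0
  have hm0 : (0 : ℝ) < 1 / ((m : ℝ) + 1) := by positivity
  obtain ⟨j, hj⟩ : ∃ j, dist (b p) (dq j) < 1 / ((n : ℝ) + 1) :=
    (TopologicalSpace.denseRange_denseSeq E).exists_dist_lt (b p) (by positivity)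
  obtain ⟨l, hl⟩ : ∃ l : ℚ, |U p.2 - l| < 1 / (4 * ((m : ℝ) + 1)) :=
    exists_rat_near _ (by positivity)
  have hpS : p ∈ S n A m j l :=
    ⟨hpP, fun t ht => hcone t (DCone_mono le_rfl hm.le ht), hj.le, hl.le⟩
  set δ : ℝ := min 1 M with hδ
  have hδpos : 0 < δ := lt_min one_pos hM
  set κ : ℝ := ε * δ / (2 * M ^ 2) with hκ
  have hκpos : 0 < κ := by positivity
  have hdens := hp n A m j l hpS κ hκpos
  -- eventually in `η`
  have e1 : ∀ᶠ η in 𝓝[>] (0 : ℝ),
      ENNReal.ofReal ((1 - κ) * (2 * (M * η)) ^ 2) ≤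
        volume (S n A m j l ∩ closedBall p (M * η)) := by
    have ht : Tendsto (fun η : ℝ => M * η) (𝓝[>] 0) (𝓝[>] 0) := by
      refine tendsto_nhdsWithin_iff.2 ⟨?_, ?_⟩
      · have : Tendsto (fun η : ℝ => M * η) (𝓝 0) (𝓝 (M * 0)) := tendsto_id.const_mul M
        rw [mul_zero] at this
        exact this.mono_left nhdsWithin_le_nhds
      · filter_upwards [self_mem_nhdsWithin] with η hη
        exact mul_pos hM hη
    exact ht.eventually hdens
  have hslope := hal (c / (2 * M)) (by positivity)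
  obtain ⟨r, hr, hslope'⟩ := Metric.eventually_nhds_iff.1 hslope
  have e2 : ∀ᶠ η in 𝓝[>] (0 : ℝ), M * η < r := by
    have : Tendsto (fun η : ℝ => M * η) (𝓝[>] 0) (𝓝 (M * 0)) :=
      (tendsto_id.const_mul M).mono_left nhdsWithin_le_nhds
    rw [mul_zero] at this
    exact this.eventually (gt_mem_nhds hr)
  have e3 : ∀ᶠ η in 𝓝[>] (0 : ℝ), M * η < 1 / (2 * ((m : ℝ) + 1)) := by
    have : Tendsto (fun η : ℝ => M * η) (𝓝[>] 0) (𝓝 (M * 0)) :=
      (tendsto_id.const_mul M).mono_left nhdsWithin_le_nhds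
    rw [mul_zero] at this
    exact this.eventually (gt_mem_nhds (by positivity))
  filter_upwards [e1, e2, e3, self_mem_nhdsWithin] with η h1 h2 h3 hη0
  rw [mem_Ioi] at hη0
  set Z' : Set ℝ := {v | v ∈ Icc (p.2 - M * η) (p.2 + M * η) ∧
    ∃ y, |y - p.1| ≤ δ * η ∧ (y, v) ∈ S n A m j l} with hZ'
  have hsl := slices (S := S n A m j l) (p := p) (s := M * η) (δ := δ * η) (κ := κ)
    (by positivity) (by positivity) (by
      have := min_le_right 1 M
      exact mul_le_mul_of_nonneg_right this hη0.le) h1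
  refine ⟨(fun ζ : ℝ => p.2 + η * ζ) ⁻¹' Z', ?_, ?_, ?_⟩
  · rintro ζ ⟨⟨h4, h5⟩, _⟩
    constructor
    · have : M * η * (-1) ≤ η * ζ := by linarith
      nlinarith
    · have : η * ζ ≤ M * η := by linarith
      nlinarith
  · have hvol : volume ((fun ζ : ℝ => p.2 + η * ζ) ⁻¹' Z') =
        ENNReal.ofReal (η⁻¹) * volume Z' := by
      have e4 : (fun ζ : ℝ => p.2 + η * ζ) ⁻¹' Z' =
          (fun ζ : ℝ => η * ζ) ⁻¹' ((fun v : ℝ => p.2 + v) ⁻¹' Z') := rfl
      rw [e4, Real.volume_preimage_mul_left hη0.ne', measure_preimage_add,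
        abs_of_pos (inv_pos.2 hη0)]
    rw [hvol]
    refine le_trans ?_ (mul_le_mul_right (a := ENNReal.ofReal (η⁻¹)) hsl)
    rw [← ENNReal.ofReal_mul (by positivity)]
    apply ENNReal.ofReal_le_ofReal
    have hδne : δ ≠ 0 := hδpos.ne'
    have e5 : 2 * κ * (M * η) ^ 2 / (δ * η) = ε * η := by
      rw [hκ]
      field_simp
    rw [e5]
    apply le_of_eq
    field_simp
  · rintro ζ ⟨⟨h4, h5⟩, y, hy, hyS⟩ T hT1 hT2 hT3
    obtain ⟨_, hyc, hyd, hyl⟩ := hyS
    set v : ℝ := p.2 + η * ζ with hv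
    have hζ : |ζ| ≤ M := by
      rw [abs_le]
      constructor
      · have : M * η * (-1) ≤ η * ζ := by linarith
        nlinarith
      · have : η * ζ ≤ M * η := by linarith
        nlinarith
    -- heights
    have hUlow : U p.2 + al * (η * ζ) - c / 2 * η ≤ U v := by
      have h6 : |η * ζ| ≤ M * η := by
        rw [abs_mul, abs_of_pos hη0, mul_comm]
        exact mul_le_mul_of_nonneg_right hζ hη0.le
      have h7 := hslope' (y := η * ζ) (by
        rw [dist_zero_right, Real.norm_eq_abs]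
        exact lt_of_le_of_lt h6 h2)
      have h8 : c / (2 * M) * |η * ζ| ≤ c / 2 * η := by
        calc c / (2 * M) * |η * ζ| ≤ c / (2 * M) * (M * η) := by gcongr
          _ = c / 2 * η := by field_simp
      linarith
    have hUclose : |U v - U p.2| ≤ 1 / (2 * ((m : ℝ) + 1)) := by
      have h6 : U v - U p.2 = (U v - l) - (U p.2 - l) := by ring
      rw [h6]
      refine (abs_sub _ _).trans ?_
      have h7 : 1 / (4 * ((m : ℝ) + 1)) + 1 / (4 * ((m : ℝ) + 1)) = 1 / (2 * ((m : ℝ) + 1)) := by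
        field_simp
        norm_num
      rw [← h7]
      exact add_le_add hyl hl.le
    set t : ℂ := p.1 + I * U p.2 + η * T with ht
    have htre : t.re = p.1 + η * T.re := by simp [ht]
    have htim : t.im = U p.2 + η * T.im := by simp [ht]
    have hdepth : c / 2 * η ≤ U v - t.im := by
      rw [htim]
      have : η * T.im ≤ η * (al * ζ - c) := mul_le_mul_of_nonneg_left hT3 hη0.le
      nlinarith
    have hcpos : 0 < c / 2 * η := by positivity
    have htc : t ∈ DCone A (1 / ((m : ℝ) + 1)) (U v) y := by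
      refine ⟨by linarith, ?_, ?_⟩
      · rw [htim]
        have h6 : -(M * η) ≤ η * T.im := by nlinarith
        have h7 := (abs_le.1 hUclose).2
        have h8 : 1 / (2 * ((m : ℝ) + 1)) + 1 / (2 * ((m : ℝ) + 1)) = 1 / ((m : ℝ) + 1) := by
          field_simp
          norm_num
        linarith
      · have h6 : |t.re - y| ≤ (M + 1) * η := by
          rw [htre]
          have h7 : p.1 + η * T.re - y = η * T.re - (y - p.1) := by ring
          rw [h7]
          refine (abs_sub _ _).trans ?_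
          rw [abs_mul, abs_of_pos hη0]
          have h8 : η * |T.re| ≤ η * M := mul_le_mul_of_nonneg_left hT1 hη0.le
          have h9 : δ * η ≤ 1 * η := mul_le_mul_of_nonneg_right (min_le_left _ _) hη0.le
          linarith
        refine h6.trans ?_
        have h7 : (M + 1) * η ≤ A * (c / 2 * η) := by
          rw [div_le_iff₀ hc] at hA
          nlinarith
        refine h7.trans ?_
        gcongr
    have hvv : ((v : ℝ) : ℂ) = (p.2 : ℂ) + η * ζ := by
      rw [hv]
      push_cast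
      ring
    have h6 := hyc t htc
    simp only at h6
    rw [hvv] at h6
    have h7 : dist (b (y, v)) (b p) ≤ 2 * (1 / ((n : ℝ) + 1)) := by
      calc dist (b (y, v)) (b p) ≤ dist (b (y, v)) (dq j) + dist (b p) (dq j) :=
            dist_triangle_right _ _ _
        _ ≤ 1 / ((n : ℝ) + 1) + 1 / ((n : ℝ) + 1) := add_le_add hyd hj.le
        _ = _ := by ring
    calc dist (F t (p.2 + η * ζ)) (b p)
        ≤ dist (F t (p.2 + η * ζ)) (b (y, v)) + dist (b (y, v)) (b p) := dist_triangle _ _ _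
      _ ≤ 1 / ((n : ℝ) + 1) + 2 * (1 / ((n : ℝ) + 1)) := add_le_add h6 h7
      _ ≤ ε := by linarith

end real

/-! ### propagation of smallness (Vitali) -/

section vitali

variable {V W : Type*} [NormedAddCommGroup V] [NormedSpace ℂ V] [NormedAddCommGroup W]
  [NormedSpace ℂ W]

/-- three circles (integer exponents), by the maximum modulus principle for `f z / (z - c) ^ p` -/
theorem three_circle {f : ℂ → W} {c : ℂ} {r0 r R m M : ℝ} (h0 : 0 < r0) (h1 : r0 ≤ r) (h2 : r < R)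
    (hf : DifferentiableOn ℂ f (ball c R)) (hM : ∀ z ∈ ball c R, ‖f z‖ ≤ M)
    (hm : ∀ z ∈ closedBall c r0, ‖f z‖ ≤ m) (p : ℕ) {z : ℂ} (hz : ‖z - c‖ ≤ r) :
    ‖f z‖ ≤ max (m * (r / r0) ^ p) (M * (2 * r / (r + R)) ^ p) := by
  have hr : 0 < r := h0.trans_le h1
  have hm0 : 0 ≤ m := (norm_nonneg _).trans (hm c (mem_closedBall_self h0.le))
  have hM0 : 0 ≤ M := (norm_nonneg _).trans (hM c (mem_ball_self (hr.trans h2)))
  set R' : ℝ := (r + R) / 2 with hR'
  have hrR' : r < R' := by rw [hR']; linarith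
  have hR'R : R' < R := by rw [hR']; linarith
  have hR'0 : 0 < R' := hr.trans hrR'
  have hq : 2 * r / (r + R) = r / R' := by
    rw [hR']
    field_simp
  rw [hq]
  by_cases hzr : ‖z - c‖ < r0
  · refine le_trans (hm z ?_) (le_trans ?_ (le_max_left _ _))
    · rw [mem_closedBall, dist_eq_norm]
      exact hzr.le
    · have : (1 : ℝ) ≤ (r / r0) ^ p := one_le_pow₀ ((one_le_div h0).2 h1)
      nlinarith
  push Not at hzr
  set g : ℂ → W := fun y => ((y - c) ^ p)⁻¹ • f y with hg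
  set C : ℝ := max (m / r0 ^ p) (M / R' ^ p) with hC
  have hne : ∀ y ∈ closedBall c R' \ ball c r0, y - c ≠ 0 := by
    intro y hy h
    apply hy.2
    rw [mem_ball, dist_eq_norm, h, norm_zero]
    exact h0
  have hgd : ∀ y ∈ closedBall c R' \ ball c r0, DifferentiableAt ℂ g y := by
    intro y hy
    have h3 : DifferentiableAt ℂ f y := (hf y (closedBall_subset_ball hR'R hy.1)).differentiableAt
      (isOpen_ball.mem_nhds (closedBall_subset_ball hR'R hy.1))
    refine DifferentiableAt.smul ?_ h3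
    refine DifferentiableAt.inv ?_ (pow_ne_zero _ (hne y hy))
    fun_prop
  have hcl : closure (ball c R' \ closedBall c r0) ⊆ closedBall c R' \ ball c r0 := by
    apply closure_minimal
    · rintro y ⟨hy1, hy2⟩
      exact ⟨ball_subset_closedBall hy1, fun h => hy2 (ball_subset_closedBall h)⟩
    · exact isClosed_closedBall.sdiff isOpen_ball
  have hdc : DiffContOnCl ℂ g (ball c R' \ closedBall c r0) :=
    ⟨fun y hy => (hgd y (hcl (subset_closure hy))).differentiableWithinAt,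
      fun y hy => (hgd y (hcl hy)).continuousAt.continuousWithinAt⟩
  have hnorm : ∀ y, ‖g y‖ = ‖f y‖ / ‖y - c‖ ^ p := by
    intro y
    rw [hg]
    simp only [norm_smul, norm_inv, norm_pow]
    rw [div_eq_inv_mul]
  have hfr : ∀ y ∈ frontier (ball c R' \ closedBall c r0), ‖g y‖ ≤ C := by
    intro y hy
    have h3 := hcl (frontier_subset_closure hy)
    have hopen : IsOpen (ball c R' \ closedBall c r0) := isOpen_ball.sdiff isClosed_closedBall
    rw [hopen.frontier_eq] at hy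
    have h4 : ¬ (y ∈ ball c R' ∧ y ∉ closedBall c r0) := hy.2
    rw [hnorm]
    by_cases h5 : y ∈ ball c R'
    · have h6 : y ∈ closedBall c r0 := by
        by_contra h7
        exact h4 ⟨h5, h7⟩
      have h7 : ‖y - c‖ = r0 := by
        have h8 := h3.2
        rw [mem_ball, dist_eq_norm, not_lt] at h8
        rw [mem_closedBall, dist_eq_norm] at h6
        exact le_antisymm h6 h8
      rw [h7]
      refine le_trans ?_ (le_max_left _ _)
      exact div_le_div_of_nonneg_right (hm y h6) (by positivity)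
    · have h7 : ‖y - c‖ = R' := by
        have h8 := h3.1
        rw [mem_ball, dist_eq_norm, not_lt] at h5
        rw [mem_closedBall, dist_eq_norm] at h8
        exact le_antisymm h8 h5
      rw [h7]
      refine le_trans ?_ (le_max_right _ _)
      exact div_le_div_of_nonneg_right (hM y (closedBall_subset_ball hR'R h3.1)) (by positivity)
  have hzcl : z ∈ closure (ball c R' \ closedBall c r0) := by
    have h3 : z ∈ ball c R' := by
      rw [mem_ball, dist_eq_norm]
      linarith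
    rcases hzr.lt_or_eq with h4 | h4
    · apply subset_closure
      refine ⟨h3, ?_⟩
      rw [mem_closedBall, dist_eq_norm, not_le]
      exact h4
    · -- `z` on the inner circle: approximate along the ray
      have h5 : Tendsto (fun s : ℝ => c + ((1 : ℂ) + s) * (z - c)) (𝓝[>] 0) (𝓝 z) := by
        have h6 : Tendsto (fun s : ℝ => c + ((1 : ℂ) + s) * (z - c)) (𝓝 0)
            (𝓝 (c + ((1 : ℂ) + (0 : ℝ)) * (z - c))) := by
          apply Continuous.tendsto
          fun_prop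
        simp only [ofReal_zero, add_zero, one_mul, add_sub_cancel] at h6
        exact h6.mono_left nhdsWithin_le_nhds
      refine mem_closure_of_tendsto h5 ?_
      have h7 : ∀ᶠ s : ℝ in 𝓝[>] 0, c + ((1 : ℂ) + s) * (z - c) ∈ ball c R' :=
        h5.eventually (isOpen_ball.mem_nhds h3)
      filter_upwards [h7, self_mem_nhdsWithin] with s hs hs0
      refine ⟨hs, ?_⟩
      rw [mem_closedBall, dist_eq_norm, not_le, add_sub_cancel_left, norm_mul, ← h4]
      rw [mem_Ioi] at hs0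
      have h8 : ‖(1 : ℂ) + s‖ = 1 + s := by
        rw [← ofReal_one, ← ofReal_add, norm_real, Real.norm_of_nonneg (by linarith)]
      rw [h8]
      nlinarith
  have hmain := Complex.norm_le_of_forall_mem_frontier_norm_le
    (isBounded_ball.subset sdiff_subset) hdc hfr hzcl
  rw [hnorm] at hmain
  have hzp : 0 < ‖z - c‖ ^ p := pow_pos (h0.trans_le hzr) _
  rw [div_le_iff₀ hzp] at hmain
  refine hmain.trans ?_
  have hC0 : 0 ≤ C := le_trans (by positivity) (le_max_left _ _)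
  have h9 : C * ‖z - c‖ ^ p ≤ C * r ^ p := by gcongr
  refine h9.trans ?_
  have e1 : m / r0 ^ p * r ^ p = m * (r / r0) ^ p := by
    rw [div_pow, div_mul_eq_mul_div, mul_div_assoc]
  have e2 : M / R' ^ p * r ^ p = M * (r / R') ^ p := by
    rw [div_pow r R' p, div_mul_eq_mul_div, mul_div_assoc]
  rw [hC, max_mul_of_nonneg _ _ (by positivity), e1, e2]

/-- smallness spreads from a ball to a concentric larger ball, quantitatively uniform -/
theorem spread {r0 R M ε : ℝ} (h0 : 0 < r0) (hR : 2 * r0 ≤ R) (hε : 0 < ε) :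
    ∃ m > 0, ∀ (f : V → W) (q : V), DifferentiableOn ℂ f (ball q R) →
      (∀ y ∈ ball q R, ‖f y‖ ≤ M) → (∀ y ∈ closedBall q r0, ‖f y‖ ≤ m) →
      ∀ y ∈ closedBall q (R / 2), ‖f y‖ ≤ ε := by
  have hR0 : 0 < R := by linarith
  have hq : 2 * (R / 2) / (R / 2 + R) = 2 / 3 := by
    field_simp
    norm_num
  have ht : Tendsto (fun p : ℕ => M * (2 / 3 : ℝ) ^ p) atTop (𝓝 (M * 0)) :=
    (tendsto_pow_atTop_nhds_zero_of_lt_one (by norm_num) (by norm_num)).const_mul M
  rw [mul_zero] at ht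
  obtain ⟨p, hp⟩ := (ht.eventually (gt_mem_nhds hε)).exists
  have hpos : 0 < (R / 2 / r0) ^ p := by positivity
  refine ⟨ε / (R / 2 / r0) ^ p, by positivity, fun f q hf hM hm y hy => ?_⟩
  by_cases hyq : y = q
  · have h1 := hm q (mem_closedBall_self h0.le)
    rw [hyq]
    refine h1.trans ?_
    apply div_le_self hε.le
    apply one_le_pow₀
    rw [one_le_div h0]
    linarith
  set v : V := y - q with hv
  have hv0 : v ≠ 0 := sub_ne_zero.2 hyq
  have hvn : 0 < ‖v‖ := norm_pos_iff.2 hv0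
  set e : V := ((‖v‖ : ℝ) : ℂ)⁻¹ • v with he
  have hen : ‖e‖ = 1 := by
    rw [he, norm_smul, norm_inv, norm_real, Real.norm_of_nonneg hvn.le, inv_mul_cancel₀ hvn.ne']
  have hmaps : ∀ r : ℝ, ∀ z ∈ ball (0 : ℂ) r, q + z • e ∈ ball q r := by
    intro r z hz
    rw [mem_ball, dist_eq_norm, add_sub_cancel_left, norm_smul, hen, mul_one]
    rwa [mem_ball_zero_iff] at hz
  have hmaps' : ∀ r : ℝ, ∀ z ∈ closedBall (0 : ℂ) r, q + z • e ∈ closedBall q r := by
    intro r z hz
    rw [mem_closedBall, dist_eq_norm, add_sub_cancel_left, norm_smul, hen, mul_one]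
    rwa [mem_closedBall_zero_iff] at hz
  have hd : DifferentiableOn ℂ (fun z : ℂ => f (q + z • e)) (ball 0 R) := by
    refine hf.comp ?_ (fun z hz => hmaps R z hz)
    fun_prop
  have key := three_circle (f := fun z : ℂ => f (q + z • e)) (c := 0) (r0 := r0) (r := R / 2)
    (R := R) (m := ε / (R / 2 / r0) ^ p) (M := M) h0 (by linarith) (by linarith) hd
    (fun z hz => hM _ (hmaps R z hz)) (fun z hz => hm _ (hmaps' r0 z hz)) p
    (z := ((‖v‖ : ℝ) : ℂ)) (by
      rw [sub_zero, norm_real, Real.norm_of_nonneg hvn.le]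
      rw [mem_closedBall, dist_eq_norm] at hy
      exact hy)
  have hye : q + ((‖v‖ : ℝ) : ℂ) • e = y := by
    rw [he, smul_smul, mul_inv_cancel₀ (by exact_mod_cast hvn.ne'), one_smul, hv]
    abel
  simp only [hye] at key
  refine key.trans (max_le ?_ ?_)
  · apply le_of_eq
    field_simp
  · rw [hq]
    exact hp.le

/-- **Vitali**: locally uniformly bounded holomorphic functions which are close to the constant `b`
near one point are close to `b` uniformly on compacts of a connected open set. -/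
theorem vitali {ι : Type*} {l : Filter ι} {f : ι → V → W} {b : W} {Ω : Set V}
    (hc : IsPreconnected Ω)
    (hb : ∀ q ∈ Ω, ∃ r > 0, ∃ C : ℝ, ∀ᶠ i in l, DifferentiableOn ℂ (f i) (ball q r) ∧
      ∀ y ∈ ball q r, ‖f i y‖ ≤ C)
    {q1 : V} (hq1 : q1 ∈ Ω) {r1 : ℝ} (hr1 : 0 < r1)
    (h1 : ∀ ε > 0, ∀ᶠ i in l, ∀ y ∈ ball q1 r1, ‖f i y - b‖ ≤ ε)
    {K : Set V} (hK : IsCompact K) (hKΩ : K ⊆ Ω) :
    ∀ ε > 0, ∀ᶠ i in l, ∀ y ∈ K, ‖f i y - b‖ ≤ ε := by
  set G : Set V := {q | ∃ r > 0, ∀ ε > 0, ∀ᶠ i in l, ∀ y ∈ ball q r, ‖f i y - b‖ ≤ ε} with hG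
  have hGo : IsOpen G := by
    rw [Metric.isOpen_iff]
    rintro q ⟨r, hr, hq⟩
    refine ⟨r / 2, by positivity, fun q' hq' => ⟨r / 2, by positivity, fun ε hε => ?_⟩⟩
    filter_upwards [hq ε hε] with i hi y hy
    apply hi
    rw [mem_ball] at hy hq' ⊢
    linarith [dist_triangle y q' q]
  have hGΩ : Ω ⊆ G := by
    refine hc.subset_of_closure_inter_subset hGo ⟨q1, hq1, r1, hr1, h1⟩ ?_
    rintro q ⟨hqcl, hqΩ⟩
    obtain ⟨r, hr, C, hrC⟩ := hb q hqΩ
    obtain ⟨q', hq'G, hqq'⟩ := Metric.mem_closure_iff.1 hqcl (r / 8) (by positivity)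
    obtain ⟨r', hr', hq'⟩ := hq'G
    have hsub : ball q' (r / 2) ⊆ ball q r := by
      intro y hy
      rw [mem_ball] at hy ⊢
      rw [dist_comm] at hqq'
      linarith [dist_triangle y q' q]
    have hsub2 : ball q (r / 8) ⊆ closedBall q' (r / 2 / 2) := by
      intro y hy
      rw [mem_ball] at hy
      rw [mem_closedBall]
      linarith [dist_triangle y q q']
    refine ⟨r / 8, by positivity, fun ε hε => ?_⟩
    set r0 : ℝ := min (r' / 2) (r / 8) with hr0
    have hr0pos : 0 < r0 := lt_min (by positivity) (by positivity)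
    obtain ⟨m, hm, hspread⟩ := spread (V := V) (W := W) (r0 := r0) (R := r / 2)
      (M := C + ‖b‖) (ε := ε) hr0pos (by
        have := min_le_right (r' / 2) (r / 8)
        rw [← hr0] at this
        linarith) hε
    filter_upwards [hrC, hq' m hm] with i hi1 hi2 y hy
    refine hspread (fun y => f i y - b) q' ?_ ?_ ?_ y (hsub2 hy)
    · exact (hi1.1.mono hsub).sub_const b
    · intro z hz
      exact (norm_sub_le _ _).trans (add_le_add (hi1.2 z (hsub hz)) le_rfl)
    · intro z hz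
      apply hi2
      rw [mem_closedBall] at hz
      rw [mem_ball]
      have := min_le_left (r' / 2) (r / 8)
      rw [← hr0] at this
      linarith
  intro ε hε
  have hloc : ∀ q ∈ K, ∃ t ∈ 𝓝[K] q, ∀ᶠ i in l, ∀ y ∈ t, ‖f i y - b‖ ≤ ε := by
    intro q hq
    obtain ⟨r, hr, hq'⟩ := hGΩ (hKΩ hq)
    exact ⟨ball q r, mem_nhdsWithin_of_mem_nhds (ball_mem_nhds q hr), hq' ε hε⟩
  refine hK.induction_on (p := fun t => ∀ᶠ i in l, ∀ y ∈ t, ‖f i y - b‖ ≤ ε) ?_ ?_ ?_ hloc
  · exact Eventually.of_forall fun i y hy => absurd hy (notMem_empty y)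
  · intro s t hst ht
    filter_upwards [ht] with i hi y hy
    exact hi y (hst hy)
  · intro s t hs ht
    filter_upwards [hs, ht] with i hi1 hi2 y hy
    rcases hy with hy | hy
    · exact hi1 y hy
    · exact hi2 y hy

end vitali

/-! ### the complex blow-up -/

section cplx

/-- the blow-up of `F` at the top point `x + i U u` over `u`, scale `η` -/
noncomputable def blw (F : ℂ → ℂ → ℂ) (U : ℝ → ℝ) (p : ℝ × ℝ) (η : ℝ) (y : ℂ × ℂ) : ℂ :=
  F (p.1 + I * U p.2 + η * y.1) (p.2 + η * y.2)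

/-- smallness for most real `ζ` propagates to a polydisc -/
theorem real_to_complex {F : ℝ → ℂ × ℂ → ℂ} {b T1 : ℂ} {ζ1 ρ C : ℝ} (hρ : 0 < ρ)
    (hC : ∀ᶠ η in 𝓝[>] (0 : ℝ), DifferentiableOn ℂ (F η) (ball (T1, (ζ1 : ℂ)) ρ) ∧
      ∀ y ∈ ball (T1, (ζ1 : ℂ)) ρ, ‖F η y‖ ≤ C)
    (h : ∀ ε : ℝ, 0 < ε → ∀ᶠ η in 𝓝[>] (0 : ℝ), ∃ Z : Set ℝ, Z ⊆ Icc (ζ1 - ρ / 100) (ζ1 + ρ / 100) ∧
      ENNReal.ofReal (ρ / 100) ≤ volume Z ∧ ∀ ζ : ℝ, ζ ∈ Z → ∀ T ∈ ball T1 (ρ / 100),
        ‖F η (T, (ζ : ℂ)) - b‖ ≤ ε) :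
    ∀ ε : ℝ, 0 < ε → ∀ᶠ η in 𝓝[>] (0 : ℝ), ∀ y ∈ ball (T1, (ζ1 : ℂ)) (ρ / 100),
      ‖F η y - b‖ ≤ ε := by
  intro ε hε
  have ht : Tendsto (fun d : ℕ => 12 * (C + ‖b‖) * (1 / 50) * ((24 : ℝ) / 50) ^ d) atTop
      (𝓝 (12 * (C + ‖b‖) * (1 / 50) * 0)) :=
    (tendsto_pow_atTop_nhds_zero_of_lt_one (by norm_num) (by norm_num)).const_mul _
  rw [mul_zero] at ht
  obtain ⟨d, hd⟩ := (ht.eventually (gt_mem_nhds (half_pos hε))).exists
  have hm : 0 < ε / 2 / (3 * 24 ^ d) := by positivity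
  filter_upwards [hC, h _ hm] with η hη1 hη2 y hy
  obtain ⟨Z, hZ1, hZ2, hZ3⟩ := hη2
  obtain ⟨T, ζ⟩ := y
  rw [← ball_prod_same, mem_prod] at hy
  have hT : T ∈ ball T1 (ρ / 100) := hy.1
  have hζ : ζ ∈ ball (ζ1 : ℂ) (ρ / 100) := hy.2
  have hTρ : T ∈ ball T1 ρ := ball_subset_ball (by linarith) hT
  have hmaps : ∀ z ∈ ball (ζ1 : ℂ) ρ, (T, z) ∈ ball (T1, (ζ1 : ℂ)) ρ := by
    intro z hz
    rw [← ball_prod_same, mem_prod]
    exact ⟨hTρ, hz⟩
  have hdiff : DifferentiableOn ℂ (fun z : ℂ => F η (T, z) - b) (ball (ζ1 : ℂ) ρ) := by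
    refine DifferentiableOn.sub_const ?_ b
    refine hη1.1.comp ?_ hmaps
    fun_prop
  have hbd : ∀ z ∈ ball (ζ1 : ℂ) ρ, ‖F η (T, z) - b‖ ≤ C + ‖b‖ := fun z hz =>
    (norm_sub_le _ _).trans (add_le_add (hη1.2 _ (hmaps z hz)) le_rfl)
  have key := M948.small_propagation (b := fun z : ℂ => F η (T, z) - b) (c := ζ1) hρ hdiff hbd
    (s := ρ / 100) (by positivity) (by linarith) hZ1 hZ2 (m := ε / 2 / (3 * 24 ^ d))
    (fun x hx => hZ3 x hx T hT) d (z := ζ) (by
      rw [mem_ball, dist_eq_norm] at hζ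
      exact hζ.le)
  refine key.trans ?_
  have e1 : 2 * (ρ / 100) / ρ = 1 / 50 := by field_simp; norm_num
  rw [e1]
  have e2 : 3 * 24 ^ d * (ε / 2 / (3 * 24 ^ d) + 4 * (C + ‖b‖) * (1 / 50) ^ (d + 1)) =
      ε / 2 + 12 * (C + ‖b‖) * (1 / 50) * ((24 : ℝ) / 50) ^ d := by
    rw [pow_succ, div_pow 24 50 d, div_pow 1 50 d, one_pow]
    field_simp
    ring
  rw [e2]
  linarith

/-- **constant blow-ups.** At almost every point `p = (x,u)` of the set `P` where `F` has a
nontangential limit `b p`: if the height satisfies the lower bound with slope `al` at `u`, then on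
every connected open set `Ω` of normality of the blow-ups which contains a point `(T1, ζ1)` with
`ζ1` real and `Im T1 < al ζ1`, the blow-ups converge to the constant `b p`, uniformly on compacts. -/
theorem blow_complex (F : ℂ → ℂ → ℂ) (U : ℝ → ℝ) (P : Set (ℝ × ℝ)) (b : ℝ × ℝ → ℂ)
    (hP : ∀ p ∈ P, NT F U p (b p)) :
    ∀ᵐ p : ℝ × ℝ, p ∈ P → ∀ al : ℝ,
      (∀ ε : ℝ, 0 < ε → ∀ᶠ z : ℝ in 𝓝 (0 : ℝ), U p.2 + al * z - ε * |z| ≤ U (p.2 + z)) →
      ∀ Ω : Set (ℂ × ℂ), IsPreconnected Ω →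
      (∀ q ∈ Ω, ∃ r > 0, ∃ C : ℝ, ∀ᶠ η in 𝓝[>] (0 : ℝ),
        DifferentiableOn ℂ (blw F U p η) (ball q r) ∧ ∀ y ∈ ball q r, ‖blw F U p η y‖ ≤ C) →
      ∀ (T1 : ℂ) (ζ1 : ℝ), (T1, (ζ1 : ℂ)) ∈ Ω → T1.im < al * ζ1 →
      ∀ K : Set (ℂ × ℂ), IsCompact K → K ⊆ Ω →
      ∀ ε > 0, ∀ᶠ η in 𝓝[>] (0 : ℝ), ∀ y ∈ K, ‖blw F U p η y - b p‖ ≤ ε := by
  filter_upwards [blow_real F U P b hP] with p hp hpP al hal Ω hΩ hloc T1 ζ1 hmem him K hK hKΩ
  obtain ⟨r, hr, C, hrC⟩ := hloc _ hmem
  -- choice of the radius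
  set g : ℝ := al * ζ1 - T1.im with hg
  have hg0 : 0 < g := by rw [hg]; linarith
  set ρ : ℝ := min r (g / (4 * (|al| + 1))) with hρ
  have hρ0 : 0 < ρ := lt_min hr (by positivity)
  have hρr : ρ ≤ r := min_le_left _ _
  have hρg : ρ * (|al| + 1) ≤ g / 4 := by
    have h1 : ρ ≤ g / (4 * (|al| + 1)) := min_le_right _ _
    have h2 : 0 < |al| + 1 := by positivity
    calc ρ * (|al| + 1) ≤ g / (4 * (|al| + 1)) * (|al| + 1) := by gcongr
      _ = g / 4 := by field_simp
  set M : ℝ := |ζ1| + ‖T1‖ + ρ + 1 with hM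
  have hM0 : 0 < M := by positivity
  have hsmall : ∀ ε : ℝ, 0 < ε → ∀ᶠ η in 𝓝[>] (0 : ℝ), ∀ y ∈ ball (T1, (ζ1 : ℂ)) (ρ / 100),
      ‖blw F U p η y - b p‖ ≤ ε := by
    apply real_to_complex (F := blw F U p) (C := C) hρ0
    · filter_upwards [hrC] with η hη
      exact ⟨hη.1.mono (ball_subset_ball hρr), fun y hy => hη.2 y (ball_subset_ball hρr hy)⟩
    · intro ε hε
      set ε' : ℝ := min ε (ρ / 100) with hε'
      have hε'0 : 0 < ε' := lt_min hε (by positivity)
      filter_upwards [hp hpP al hal M hM0 (g / 2) (by positivity) ε' hε'0] with η hη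
      obtain ⟨Z, hZ1, hZ2, hZ3⟩ := hη
      refine ⟨Z ∩ Icc (ζ1 - ρ / 100) (ζ1 + ρ / 100), inter_subset_right, ?_, ?_⟩
      · -- measure
        set J : Set ℝ := Icc (ζ1 - ρ / 100) (ζ1 + ρ / 100) with hJ
        have hJM : J ⊆ Icc (-M) M := by
          intro v hv
          have h1 := abs_le.1 (le_refl |ζ1|)
          have h2 : 0 ≤ ‖T1‖ := norm_nonneg _
          constructor
          · linarith [hv.1, h1.1]
          · linarith [hv.2, h1.2]
        have hsub : Z ⊆ (Z ∩ J) ∪ (Icc (-M) M \ J) := by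
          intro v hv
          by_cases hvJ : v ∈ J
          · exact Or.inl ⟨hv, hvJ⟩
          · exact Or.inr ⟨hZ1 hv, hvJ⟩
        have h1 := hZ2.trans ((measure_mono hsub).trans (measure_union_le _ _))
        have h2 : volume (Icc (-M) M \ J) = ENNReal.ofReal (2 * M - ρ / 50) := by
          rw [measure_sdiff hJM measurableSet_Icc.nullMeasurableSet (by
            rw [hJ, Real.volume_Icc]; exact ENNReal.ofReal_ne_top), hJ, Real.volume_Icc,
            Real.volume_Icc, ← ENNReal.ofReal_sub _ (by linarith)]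
          congr 1
          ring
        have hfin : volume (Z ∩ J) ≠ ⊤ := by
          refine ne_top_of_le_ne_top ?_ (measure_mono (inter_subset_right (s := Z) (t := J)))
          rw [hJ, Real.volume_Icc]
          exact ENNReal.ofReal_ne_top
        have hMρ : 0 ≤ 2 * M - ρ / 50 := by
          have : 0 ≤ |ζ1| := abs_nonneg _
          have : 0 ≤ ‖T1‖ := norm_nonneg _
          linarith
        rw [h2, ← ENNReal.ofReal_toReal hfin,
          ← ENNReal.ofReal_add ENNReal.toReal_nonneg hMρ,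
          ENNReal.ofReal_le_ofReal_iff (add_nonneg ENNReal.toReal_nonneg hMρ)] at h1
        rw [← ENNReal.ofReal_toReal hfin]
        apply ENNReal.ofReal_le_ofReal
        have h3 : ε' ≤ ρ / 100 := min_le_right _ _
        linarith
      · rintro ζ ⟨hζZ, hζJ⟩ T hT
        have hTn : ‖T - T1‖ < ρ / 100 := by rwa [mem_ball, dist_eq_norm] at hT
        have hTre : |T.re - T1.re| ≤ ρ / 100 := by
          rw [← sub_re]; exact (abs_re_le_norm _).trans hTn.le
        have hTim : |T.im - T1.im| ≤ ρ / 100 := by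
          rw [← sub_im]; exact (abs_im_le_norm _).trans hTn.le
        have h1 := abs_re_le_norm T1
        have h2 := abs_im_le_norm T1
        have hzz : |ζ - ζ1| ≤ ρ / 100 := by
          rw [abs_le]; constructor <;> [linarith [hζJ.1]; linarith [hζJ.2]]
        have h4 : 0 ≤ |ζ1| := abs_nonneg _
        have key := hZ3 ζ hζZ T (by
          rw [abs_le] at hTre h1 ⊢
          constructor <;> linarith [hTre.1, hTre.2, h1.1, h1.2]) (by
          rw [abs_le] at hTim h2
          linarith [hTim.1, hTim.2, h2.1, h2.2]) (by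
          have h5 : al * ζ1 - al * ζ ≤ |al| * (ρ / 100) := by
            calc al * ζ1 - al * ζ = al * (ζ1 - ζ) := by ring
              _ ≤ |al * (ζ1 - ζ)| := le_abs_self _
              _ = |al| * |ζ - ζ1| := by rw [abs_mul, abs_sub_comm]
              _ ≤ |al| * (ρ / 100) := by gcongr
          have h6 := (abs_le.1 hTim).2
          have h7 : |al| * (ρ / 100) + ρ / 100 = ρ * (|al| + 1) / 100 := by ring
          have h8 : T1.im = al * ζ1 - g := by rw [hg]; ring
          linarith)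
        rw [dist_eq_norm] at key
        exact key.trans (min_le_left _ _)
  exact vitali hΩ hloc hmem (by positivity : (0 : ℝ) < ρ / 100) hsmall hK hKΩ

end cplx

end Crest.Agent.R102.Blow971
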