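import Mathlib

/-!
# R102, T1-B, step 5: the Bishop disc attached to the sawtooth over a closed set (literal statements)

`Local` is what the consumers get.  `Disc`, `Contact`, `AeDeriv`, `Angular` are the four leaves
(pure Mathlib statements), `local_of` (file `BishopAsm_120`) is the assembly.
-/

open MeasureTheory Metric Set

namespace Crest.Agent.R102.Bishop120

/-- closed upper half plane -/
def HC : Set ℂ := {z | 0 ≤ z.im}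

/-- open upper half plane -/
def HO : Set ℂ := {z | 0 < z.im}

/-- absolutely convergent Fourier series, holomorphic in the upper half plane -/
noncomputable def FS (g : ℕ → ℂ) (z : ℂ) : ℂ :=
  ∑' n : ℕ, g n * Complex.exp (2 * Real.pi * Complex.I * n * z)

/-- THE RESULT.  For every slope `σ` and every tolerated loss `c₁` there is an aperture `lam` such
that over every closed plane set `P` of positive measure there are a base point `p ∈ P` and a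
holomorphic `G` in the upper half plane, `Im G ≤ 0`, with `G 0 = 0`, derivative `κ` at `0` in the
closed half plane (so `|Im G (i η)| ≤ (c₁ + o(1)) η` and `|G x| ≤ (c₁ + o(1)) |x|`), and whose real
side is under the sawtooth: depth `≥ lam * dist to P` at the point over which the disc lies. -/
def Local : Prop :=
  ∀ σ c₁ : ℝ, 0 < c₁ → ∃ lam : ℝ, 0 < lam ∧ ∀ P : Set (ℝ × ℝ), IsClosed P → 0 < volume P →
    ∃ p ∈ P, ∃ rho : ℝ, 0 < rho ∧ ∃ κ : ℝ, |κ| ≤ c₁ ∧ ∃ G : ℂ → ℂ,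
      ContinuousOn G HC ∧ DifferentiableOn ℂ G HO ∧ G 0 = 0 ∧
      (∀ z ∈ HC, (G z).im ≤ 0) ∧
      HasDerivWithinAt G (κ : ℂ) HC 0 ∧
      ∀ x : ℝ, |x| ≤ rho →
        lam * infDist (p.1 + σ * x + (G x).re, p.2 + x) P ≤ -(G x).im

/-- LEAF 1 (Bishop equation, L² contraction). -/
def Disc : Prop :=
  ∃ C : ℝ, 0 < C ∧ ∀ lam : ℝ, 0 < lam → lam ≤ 1 / 16 → ∀ Φ : ℝ → ℝ → ℝ,
    (∀ ξ r, 0 ≤ Φ ξ r ∧ Φ ξ r ≤ lam) →
    (∀ ξ ξ' r r', |Φ ξ r - Φ ξ' r'| ≤ lam * (|ξ - ξ'| + |r - r'|)) →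
    (∀ ξ r, Φ ξ (r + 1) = Φ ξ r) →
    ∃ g : ℝ → ℕ → ℂ,
      (∀ ξ, Summable fun n => ‖g ξ n‖) ∧
      (∀ ξ, ∑' n, ‖g ξ n‖ ≤ C * lam) ∧
      (∀ ξ (r : ℝ), (FS (g ξ) r).im = - Φ (ξ + (FS (g ξ) r).re) r) ∧
      (∀ ξ (h : ℝ), ∫ r in (0 : ℝ)..1, ‖FS (g ξ) (r + h : ℝ) - FS (g ξ) r‖ ^ 2 ≤ (C * lam * h) ^ 2) ∧
      (∀ ξ ξ' : ℝ, ∫ r in (0 : ℝ)..1, ‖FS (g ξ) r - FS (g ξ') r‖ ^ 2 ≤ (C * lam * (ξ - ξ')) ^ 2)

/-- LEAF 2 (contact). -/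
def Contact : Prop :=
  ∀ k : ℝ → ℝ → ℝ, (∀ ξ, Continuous (k ξ)) → (∀ ξ r, |k ξ r| ≤ 1 / 100) →
    (∀ ξ ξ' : ℝ, ∫ r in (0 : ℝ)..1, (k ξ r - k ξ' r) ^ 2 ≤ ((ξ - ξ') / 10) ^ 2) →
    ∀ P : Set (ℝ × ℝ), IsClosed P →
      ENNReal.ofReal (9 / 10) ≤ volume (P ∩ Icc (0 : ℝ) 1 ×ˢ Icc (0 : ℝ) 1) →
      ∃ ξ ∈ Icc (0 : ℝ) 1,
        ENNReal.ofReal (3 / 4) ≤ volume {r : ℝ | r ∈ Icc (0 : ℝ) 1 ∧ (ξ + k ξ r, r) ∈ P}

/-- LEAF 3 (a.e. differentiability with a Chebyshev bound). -/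
def AeDeriv : Prop :=
  ∀ b : ℝ → ℂ, Continuous b → (∀ r, b (r + 1) = b r) → ∀ K : ℝ, 0 ≤ K →
    (∀ h : ℝ, ∫ r in (0 : ℝ)..1, ‖b (r + h) - b r‖ ^ 2 ≤ (K * h) ^ 2) →
    ∀ c : ℝ, 0 < c →
      volume {r : ℝ | r ∈ Icc (0 : ℝ) 1 ∧ ¬ (DifferentiableAt ℝ b r ∧ ‖deriv b r‖ ≤ c)}
        ≤ ENNReal.ofReal ((K / c) ^ 2)

/-- LEAF 4 (angular derivative from the boundary derivative). -/
def Angular : Prop :=
  ∀ G : ℂ → ℂ, ContinuousOn G HC → DifferentiableOn ℂ G HO → ∀ (x : ℝ) (κ : ℂ),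
    HasDerivAt (fun r : ℝ => G r) κ x → HasDerivWithinAt G κ HC (x : ℂ)

end Crest.Agent.R102.Bishop120
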