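import Mathlib
import Crest.Agent.R102.End_613

/-!
Row 102, T1-B, end of step 5 (638 #23556 (3)), second half: `ε → 0`.

* `face_unique` : a real hyperplane `Im T = Im (μ ζ)` is a uniqueness set for holomorphic functions;
* `end2` : functions `R_k`, bounded above and below on compacts uniformly in `k`, whose `1`-points
  become dense on the face, tend to `1` everywhere;
* `end_main` : the final contradiction of step 5.
-/

set_option autoImplicit false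
set_option linter.unusedSectionVars false
set_option linter.unusedVariables false

open Set Filter Topology Metric Complex

noncomputable section

namespace Crest.Agent.R102.End613

open Crest.Agent.R102.M948 Crest.Agent.R264 Crest.Agent.R266.SCV

/-- a real hyperplane is a uniqueness set -/
theorem face_unique {Gam : Set (ℂ × ℂ)} (hG : IsOpen Gam) (hGc : IsPreconnected Gam) {μ : ℂ}
    {f : ℂ × ℂ → ℂ} (hf : DifferentiableOn ℂ f Gam) {q₀ : ℂ × ℂ} (hq₀ : q₀ ∈ Gam)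
    (hq₀' : q₀.1.im = (μ * q₀.2).im)
    (h0 : ∀ᶠ q in 𝓝 q₀, q.1.im = (μ * q.2).im → f q = 0) : ∀ x ∈ Gam, f x = 0 := by
  obtain ⟨r, hr, hball⟩ := Metric.eventually_nhds_iff.1 (h0.and (hG.mem_nhds hq₀))
  refine fun x hx => (analyticOnNhd_of_differentiableOn hG hf).eqOn_zero_of_preconnected_of_eventuallyEq_zero
    hGc hq₀ ?_ hx
  -- the shear
  obtain ⟨δ, hδ, hδr⟩ : ∃ δ > 0, (1 + ‖μ‖) * δ + δ < r := by
    refine ⟨r / (2 * (2 + ‖μ‖)), by positivity, ?_⟩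
    have : (1 + ‖μ‖) * (r / (2 * (2 + ‖μ‖))) + r / (2 * (2 + ‖μ‖)) = r / 2 := by
      field_simp
      ring
    rw [this]
    linarith
  set s₀ : ℂ := q₀.1 - μ * q₀.2 with hs₀
  have hs₀' : s₀ = (s₀.re : ℂ) := by
    apply Complex.ext
    · simp
    · rw [Complex.ofReal_im, hs₀, Complex.sub_im, hq₀', sub_self]
  have key : ∀ ζ : ℂ, dist ζ q₀.2 < δ → ∀ s : ℂ, dist s s₀ < δ → f (s + μ * ζ, ζ) = 0 := by
    intro ζ hζ
    have hmem : ∀ s : ℂ, dist s s₀ < δ → dist (s + μ * ζ, ζ) q₀ < r := by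
      intro s hs
      rw [Prod.dist_eq, max_lt_iff]
      constructor
      · have h1 : (s + μ * ζ) - q₀.1 = (s - s₀) + μ * (ζ - q₀.2) := by rw [hs₀]; ring
        show dist (s + μ * ζ) q₀.1 < r
        rw [dist_eq_norm, h1]
        rw [dist_eq_norm] at hs hζ
        calc ‖(s - s₀) + μ * (ζ - q₀.2)‖ ≤ ‖s - s₀‖ + ‖μ * (ζ - q₀.2)‖ := norm_add_le _ _
          _ ≤ δ + ‖μ‖ * δ := by
            rw [norm_mul]
            gcongr
          _ < r := by linarith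
      · show dist ζ q₀.2 < r
        have : 0 ≤ ‖μ‖ * δ := by positivity
        nlinarith
    have hg : DifferentiableOn ℂ (fun s : ℂ => f (s + μ * ζ, ζ)) (ball s₀ δ) := by
      refine hf.comp (g := f) (f := fun s : ℂ => (s + μ * ζ, ζ)) (by fun_prop) (fun s hs => ?_)
      exact (hball (hmem s hs)).2
    have hz : (fun s : ℂ => f (s + μ * ζ, ζ)) =ᶠ[𝓝[≠] s₀] 0 ∨ True := Or.inr trivial
    have hfreq : ∃ᶠ s in 𝓝[≠] s₀, f (s + μ * ζ, ζ) = 0 := by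
      have ht : Tendsto (fun t : ℝ => (t : ℂ)) (𝓝[≠] s₀.re) (𝓝[≠] s₀) := by
        refine tendsto_nhdsWithin_of_tendsto_nhds_of_eventually_within _ ?_ ?_
        · rw [hs₀']
          simp only [Complex.ofReal_re]
          exact (Complex.continuous_ofReal.tendsto _).mono_left nhdsWithin_le_nhds
        · filter_upwards [self_mem_nhdsWithin] with t ht h
          refine ht ?_
          rw [mem_singleton_iff] at h ⊢
          rw [← h, Complex.ofReal_re]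
      refine ht.frequently ?_
      refine Eventually.frequently ?_
      have hnear : ∀ᶠ t : ℝ in 𝓝[≠] s₀.re, dist (t : ℂ) s₀ < δ := by
        have := (Metric.tendsto_nhds.1 (ht.mono_right nhdsWithin_le_nhds)) δ hδ
        exact this
      filter_upwards [hnear] with t ht'
      refine (hball (hmem _ ht')).1 ?_
      show ((t : ℂ) + μ * ζ).im = (μ * ζ).im
      simp
    have := (analyticOnNhd_of_differentiableOn isOpen_ball hg).eqOn_zero_of_preconnected_of_frequently_eq_zero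
      (convex_ball s₀ δ).isPreconnected (mem_ball_self hδ) hfreq
    exact fun s hs => this hs
  rw [Filter.EventuallyEq, Metric.eventually_nhds_iff]
  refine ⟨δ / (1 + ‖μ‖), by positivity, fun q hq => ?_⟩
  rw [Prod.dist_eq, max_lt_iff] at hq
  have hδ1 : δ / (1 + ‖μ‖) ≤ δ := div_le_self hδ.le (by linarith [norm_nonneg μ])
  have h2 : dist q.2 q₀.2 < δ := hq.2.trans_le hδ1
  have h1 : dist (q.1 - μ * q.2) s₀ < δ := by
    have e : (q.1 - μ * q.2) - s₀ = (q.1 - q₀.1) - μ * (q.2 - q₀.2) := by rw [hs₀]; ring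
    rw [dist_eq_norm, e]
    have a1 := hq.1
    have a2 := hq.2
    rw [dist_eq_norm] at a1 a2
    calc ‖(q.1 - q₀.1) - μ * (q.2 - q₀.2)‖ ≤ ‖q.1 - q₀.1‖ + ‖μ * (q.2 - q₀.2)‖ := norm_sub_le _ _
      _ < δ / (1 + ‖μ‖) + ‖μ‖ * (δ / (1 + ‖μ‖)) := by
        rw [norm_mul]
        refine add_lt_add_of_lt_of_le a1 ?_
        gcongr
      _ = δ := by field_simp
  have := key q.2 h2 (q.1 - μ * q.2) h1
  simpa using this

section E2

variable {ι : Type*}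

/-- **END2**: `1`-points dense on the face. -/
theorem end2 (l : Filter ι) [l.NeBot] {Gam : Set (ℂ × ℂ)} (hG : IsOpen Gam)
    (hGc : IsPreconnected Gam) {R : ι → ℂ × ℂ → ℂ}
    (hreg : ∀ x ∈ Gam, ∃ r > 0, ball x r ⊆ Gam ∧ ∃ C : ℝ, ∀ᶠ k in l,
      DifferentiableOn ℂ (R k) (ball x r) ∧ ∀ y ∈ ball x r, ‖R k y‖ ≤ C)
    {base : ℂ × ℂ} (hb : base ∈ Gam) {κ : ℝ} (hκ : 0 < κ) (hR : ∀ᶠ k in l, κ ≤ ‖R k base - 1‖)
    {μ : ℂ} {q₀ : ℂ × ℂ} (hq₀ : q₀ ∈ Gam) (hq₀' : q₀.1.im = (μ * q₀.2).im)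
    (h1 : ∀ᶠ q in 𝓝 q₀, q.1.im = (μ * q.2).im → ∀ δ > 0, ∀ᶠ k in l, ∃ x ∈ ball q δ, R k x = 1) :
    False := by
  classical
  obtain ⟨g, hg, hgl⟩ := montel_ev (Ultrafilter.of l) hG (f := R) (fun x hx => by
    obtain ⟨r, hr, hrG, C, hC⟩ := hreg x hx
    exact ⟨r, hr, C, hrG, Ultrafilter.of_le l hC⟩)
  have hne : ((Ultrafilter.of l : Ultrafilter ι) : Filter ι).NeBot := Ultrafilter.neBot _
  have hface : ∀ᶠ q in 𝓝 q₀, q.1.im = (μ * q.2).im → g q = 1 := by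
    filter_upwards [h1, hG.mem_nhds hq₀] with q hq hqG hqim
    by_contra hne1
    have hpos : 0 < ‖g q - 1‖ := norm_pos_iff.2 (sub_ne_zero.2 hne1)
    -- uniform convergence near `q`, continuity of `g`
    obtain ⟨t, ht, htk⟩ := Metric.tendstoLocallyUniformlyOn_iff.1 hgl (‖g q - 1‖ / 2) (by positivity)
      q hqG
    rw [hG.nhdsWithin_eq hqG] at ht
    have hgc : ∀ᶠ x in 𝓝 q, dist (g x) (g q) < ‖g q - 1‖ / 2 :=
      Metric.tendsto_nhds.1 ((hg.differentiableAt (hG.mem_nhds hqG)).continuousAt) _ (by positivity)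
    obtain ⟨δ, hδ, hball⟩ := Metric.eventually_nhds_iff.1 (hgc.and ht)
    have hk := hq hqim δ hδ
    have hk' : ∀ᶠ k in ((Ultrafilter.of l : Ultrafilter ι) : Filter ι), ∃ x ∈ ball q δ, R k x = 1 :=
      Ultrafilter.of_le l hk
    obtain ⟨k, hk1, hk2⟩ := (htk.and hk').exists
    obtain ⟨x, hx, hx1⟩ := hk2
    have a1 := hk1 x (hball hx).2
    have a2 := (hball hx).1
    rw [hx1] at a1
    have a3 : dist (g q) 1 ≤ dist (g q) (g x) + dist (g x) 1 := dist_triangle _ _ _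
    rw [dist_comm (g q) (g x)] at a3
    rw [← dist_eq_norm] at a1 a2
    linarith
  have hz := face_unique hG hGc (μ := μ) (f := fun x => g x - 1) (hg.sub (differentiableOn_const _))
    hq₀ hq₀' (by
      filter_upwards [hface] with q hq hqim
      rw [hq hqim, sub_self])
  have hb1 : g base = 1 := sub_eq_zero.1 (hz base hb)
  have hlim : Tendsto (fun k => ‖R k base - 1‖) (Ultrafilter.of l : Filter ι) (𝓝 ‖g base - 1‖) :=
    ((hgl.tendsto_at hb).sub tendsto_const_nhds).norm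
  have h2 : κ ≤ ‖g base - 1‖ := ge_of_tendsto hlim (Ultrafilter.of_le l hR)
  rw [hb1, sub_self, norm_zero] at h2
  linarith

/-- the data of one limit world (fixed `ε`): functions `φ, p, B` indexed by `n` along `l` -/
structure World (Gam Low : Set (ℂ × ℂ)) (S : Set ℂ) (Z Zc T c : ℂ → ℂ) (l : Filter ι)
    (φ p B : ι → ℂ × ℂ → ℂ) (b₀ : ℂ) : Prop where
  b₀_mem : b₀ ∈ S
  c_ne : c b₀ ≠ 0
  reg : ∀ x ∈ Gam, ∃ r > 0, ball x r ⊆ Gam ∧ ∃ C : ℝ, ∀ᶠ n in l,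
      DifferentiableOn ℂ (φ n) (ball x r) ∧ DifferentiableOn ℂ (p n) (ball x r) ∧
      ∀ y ∈ ball x r, |(φ n y - T b₀).im| ≤ C ∧ ‖Inc (φ n y) (p n y) (Z b₀) (Zc b₀)‖ ≤ C
  low : ∀ K ⊆ Low, IsCompact K → ∀ ε > 0, ∀ᶠ n in l, ∀ x ∈ K, ‖B n x - b₀‖ < ε ∧
      Inc (φ n x) (p n x) (Z (B n x)) (Zc (B n x)) = 0

/-- one world: the limit `R` has a `1`-point in `Q` if `B` does not extend over `Q` -/
theorem world_limit {Gam Low : Set (ℂ × ℂ)} (hG : IsOpen Gam) (hGc : IsPreconnected Gam)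
    (hL : IsOpen Low) (hLG : Low ⊆ Gam) (hLn : Low.Nonempty)
    {S : Set ℂ} (hS : IsOpen S) {Z Zc T c : ℂ → ℂ}
    (hZ : ∀ b ∈ S, HasDerivAt Z (c b * cexp (I * T b)) b)
    (hZc : ∀ b ∈ S, HasDerivAt Zc (c b * cexp (-(I * T b))) b)
    (hT : ContinuousOn T S) (hcc : ContinuousOn c S) {l : Filter ι} [l.NeBot]
    {φ p B : ι → ℂ × ℂ → ℂ} {b₀ : ℂ} (W : World Gam Low S Z Zc T c l φ p B b₀)
    {rad Cb : ℂ × ℂ → ℝ}
    (hCb : ∀ x ∈ Gam, ∀ᶠ n in l, ∀ y ∈ ball x (rad x), |(φ n y - T b₀).im| ≤ Cb x)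
    {base : ℂ × ℂ} (hb : base ∈ Gam) {κ : ℝ}
    (hκ : ∀ᶠ n in l, κ ≤ ‖cexp (2 * I * (T b₀ - φ n base)) - 1‖) :
    ∃ R : ℂ × ℂ → ℂ, DifferentiableOn ℂ R Gam ∧ κ ≤ ‖R base - 1‖ ∧
      (∀ x ∈ Gam, ∀ y ∈ ball x (rad x) ∩ Gam, ‖R y‖ ≤ Real.exp (2 * Cb x)) ∧
      ∀ Q ⊆ Gam, IsCompact Q → ∀ K ⊆ Low, IsCompact K →
        (∀ᶠ n in l, ¬ ∃ (G : ℂ × ℂ → ℂ) (V : Set (ℂ × ℂ)), IsOpen V ∧ Q ⊆ V ∧ V ⊆ Gam ∧
          DifferentiableOn ℂ G V ∧
          (∀ x ∈ V, G x ∈ S ∧ Inc (φ n x) (p n x) (Z (G x)) (Zc (G x)) = 0) ∧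
          ∀ x ∈ K ∩ V, G x = B n x) →
        ∃ x ∈ Q, R x = 1 := by
  classical
  set u : Ultrafilter ι := Ultrafilter.of l with hu
  have hul : (u : Filter ι) ≤ l := Ultrafilter.of_le l
  have hne : (u : Filter ι).NeBot := u.neBot
  have hSn := hS.mem_nhds W.b₀_mem
  have hB : ∀ x ∈ Low, Tendsto (fun n => B n x) u (𝓝 b₀) := by
    intro x hx
    rw [Metric.tendsto_nhds]
    intro ε hε
    have := hul (W.low {x} (singleton_subset_iff.2 hx) isCompact_singleton ε hε)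
    filter_upwards [this] with n hn
    rw [dist_eq_norm]
    exact (hn x rfl).1
  have hI : ∀ x ∈ Low, ∀ᶠ n in (u : Filter ι),
      Inc (φ n x) (p n x) (Z (B n x)) (Zc (B n x)) = 0 := by
    intro x hx
    have := hul (W.low {x} (singleton_subset_iff.2 hx) isCompact_singleton 1 one_pos)
    filter_upwards [this] with n hn
    exact (hn x rfl).2
  obtain ⟨R, hR, -, hRl, hmain⟩ := end1 u hG hGc hL hLG hLn hS hZ hZc W.b₀_mem
    (hT.continuousAt hSn) (hcc.continuousAt hSn) W.c_ne (φ := φ) (p := p) (B := B)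
    (fun x hx => by
      obtain ⟨r, hr, hrG, C, hC⟩ := W.reg x hx
      exact ⟨r, hr, hrG, C, hul hC⟩) hB hI
  refine ⟨R, hR, ?_, ?_, ?_⟩
  · have hlim : Tendsto (fun n => ‖cexp (2 * I * (T b₀ - φ n base)) - 1‖) u (𝓝 ‖R base - 1‖) :=
      ((hRl.tendsto_at hb).sub tendsto_const_nhds).norm
    exact ge_of_tendsto hlim (hul hκ)
  · intro x hx y hy
    have hlim : Tendsto (fun n => ‖cexp (2 * I * (T b₀ - φ n y))‖) u (𝓝 ‖R y‖) :=
      (hRl.tendsto_at hy.2).norm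
    refine le_of_tendsto hlim ?_
    filter_upwards [hul (hCb x hx)] with n hn
    have h1 := hn y hy.1
    rw [Complex.norm_exp]
    refine Real.exp_le_exp.2 ?_
    have h2 : (2 * I * (T b₀ - φ n y)).re = 2 * (φ n y - T b₀).im := by
      simp
      ring
    rw [h2]
    have := le_abs_self (φ n y - T b₀).im
    linarith
  · intro Q hQ hQc K hK hKc hbirth
    by_contra hcon
    push Not at hcon
    obtain ⟨ρ, hρ, -, hρS, V, hV, hQV, hVG, hev⟩ := hmain Q hQ hQc hcon 1 one_pos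
    obtain ⟨n, ⟨⟨G, hG1, hG2, hG3⟩, hn2⟩, hn3⟩ :=
      ((hev.and (hul hbirth)).and (hul (W.low K hK hKc ρ hρ))).exists
    refine hn2 ⟨G, V, hV, hQV, hVG, hG1, fun x hx => ⟨hρS (hG2 x hx).1, (hG2 x hx).2⟩,
      fun x hx => ?_⟩
    refine (hG3 x hx.2 (B n x) ?_ (hn3 x hx.1).2).symm
    rw [mem_closedBall, dist_eq_norm]
    exact (hn3 x hx.1).1.le

/-- **the end of step 5**: worlds with births `r`-dense on the face for every `r > 0`, and bounds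
independent of `r`, do not exist. -/
theorem end_main {Gam Low : Set (ℂ × ℂ)} (hG : IsOpen Gam) (hGc : IsPreconnected Gam)
    (hL : IsOpen Low) (hLG : Low ⊆ Gam) (hLn : Low.Nonempty)
    {S : Set ℂ} (hS : IsOpen S) {Z Zc T c : ℂ → ℂ}
    (hZ : ∀ b ∈ S, HasDerivAt Z (c b * cexp (I * T b)) b)
    (hZc : ∀ b ∈ S, HasDerivAt Zc (c b * cexp (-(I * T b))) b)
    (hT : ContinuousOn T S) (hcc : ContinuousOn c S)
    {rad Cb : ℂ × ℂ → ℝ} (hrad : ∀ x ∈ Gam, 0 < rad x)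
    {base : ℂ × ℂ} (hb : base ∈ Gam) {κ : ℝ} (hκ : 0 < κ)
    {μ : ℂ} {q₀ : ℂ × ℂ} (hq₀ : q₀ ∈ Gam) (hq₀' : q₀.1.im = (μ * q₀.2).im) {δ₀ : ℝ} (hδ₀ : 0 < δ₀)
    (hw : ∀ r > 0, ∃ (ι : Type) (l : Filter ι) (φ p B : ι → ℂ × ℂ → ℂ) (b₀ : ℂ), l.NeBot ∧
      World Gam Low S Z Zc T c l φ p B b₀ ∧
      (∀ x ∈ Gam, ∀ᶠ n in l, ∀ y ∈ ball x (rad x), |(φ n y - T b₀).im| ≤ Cb x) ∧
      (∀ᶠ n in l, κ ≤ ‖cexp (2 * I * (T b₀ - φ n base)) - 1‖) ∧
      ∀ q ∈ ball q₀ δ₀, q.1.im = (μ * q.2).im → closedBall q r ⊆ Gam →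
        ∃ K ⊆ Low, IsCompact K ∧ ∀ᶠ n in l, ¬ ∃ (G : ℂ × ℂ → ℂ) (V : Set (ℂ × ℂ)), IsOpen V ∧
          closedBall q r ⊆ V ∧ V ⊆ Gam ∧ DifferentiableOn ℂ G V ∧
          (∀ x ∈ V, G x ∈ S ∧ Inc (φ n x) (p n x) (Z (G x)) (Zc (G x)) = 0) ∧
          ∀ x ∈ K ∩ V, G x = B n x) : False := by
  classical
  have hex : ∀ k : ℕ, ∃ R : ℂ × ℂ → ℂ, DifferentiableOn ℂ R Gam ∧ κ ≤ ‖R base - 1‖ ∧
      (∀ x ∈ Gam, ∀ y ∈ ball x (rad x) ∩ Gam, ‖R y‖ ≤ Real.exp (2 * Cb x)) ∧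
      ∀ q ∈ ball q₀ δ₀, q.1.im = (μ * q.2).im → closedBall q (1 / ((k : ℝ) + 1)) ⊆ Gam →
        ∃ x ∈ closedBall q (1 / ((k : ℝ) + 1)), R x = 1 := by
    intro k
    obtain ⟨ι, l, φ, p, B, b₀, hne, W, hCb, hκ', hbirth⟩ := hw (1 / ((k : ℝ) + 1)) (by positivity)
    obtain ⟨R, h1, h2, h3, h4⟩ := world_limit hG hGc hL hLG hLn hS hZ hZc hT hcc W hCb hb hκ'
    refine ⟨R, h1, h2, h3, fun q hq hqim hqG => ?_⟩
    obtain ⟨K, hK, hKc, hev⟩ := hbirth q hq hqim hqG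
    exact h4 _ hqG (isCompact_closedBall _ _) K hK hKc hev
  choose R h1 h2 h3 h4 using hex
  refine end2 atTop hG hGc (R := R) (fun x hx => ?_) hb hκ (Eventually.of_forall h2) hq₀ hq₀' ?_
  · obtain ⟨r, hr, hrG⟩ := Metric.isOpen_iff.1 hG x hx
    refine ⟨min r (rad x), lt_min hr (hrad x hx), (ball_subset_ball (min_le_left _ _)).trans hrG,
      Real.exp (2 * Cb x), Eventually.of_forall fun k => ⟨(h1 k).mono
        ((ball_subset_ball (min_le_left _ _)).trans hrG), fun y hy => h3 k x hx y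
          ⟨ball_subset_ball (min_le_right _ _) hy, hrG (ball_subset_ball (min_le_left _ _) hy)⟩⟩⟩
  · filter_upwards [ball_mem_nhds q₀ hδ₀, hG.mem_nhds hq₀] with q hq hqG hqim δ hδ
    obtain ⟨r, hr, hrG⟩ := Metric.isOpen_iff.1 hG q hqG
    have hlim : Tendsto (fun k : ℕ => 1 / ((k : ℝ) + 1)) atTop (𝓝 0) :=
      tendsto_one_div_add_atTop_nhds_zero_nat
    filter_upwards [hlim.eventually_lt_const (lt_min hr hδ)] with k hk
    obtain ⟨x, hx, hx1⟩ := h4 k q hq hqim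
      ((closedBall_subset_ball (hk.trans_le (min_le_left _ _))).trans hrG)
    exact ⟨x, closedBall_subset_ball (hk.trans_le (min_le_right _ _)) hx, hx1⟩

end E2

end Crest.Agent.R102.End613
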