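import Mathlib
import Crest.Agent.R102.End2_613
import Crest.Agent.R102.BishopDefs_120

/-!
Row 102, T1-B, STEP 5: literal interfaces (helper613).

Exact coordinates `q = (t', w)`, `t' = t - Hol w`; `w` is absolute. TILTED form (620 #26995): the
sawtooth is made of PRODUCT cones only (`Im w > lam * depth`), nothing is asked at real or tangential
`w`; the vertical ray is `s ↦ (e.1 - s i, e.2 + (s/4) i)`.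
`φ p B : ℂ × ℂ → ℂ` are `φ_{-1/2}, p_{-1/2}, B_0` in exact coordinates (junk outside their sheets).

* `DiscEst`  : III.3 + III.4 (669 / 300 / 115 / 864), from `Tilt620.LocalTilt` (a theorem).
* `In5`      : what Parts II, III.2, Lemma G and the blow-ups have to deliver over ONE closed set `P`.
* `Step5`    : the conclusion.
-/

set_option autoImplicit false

open Set Filter Topology Metric Complex MeasureTheory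

noncomputable section

namespace Crest.Agent.R102.S5

open Crest.Agent.R102.End613

/-- sawtooth over `P`, downwards, of aperture `1 / lam` and depth `d`; union of product cones -/
def Saw (P : Set (ℝ × ℝ)) (lam d : ℝ) : Set (ℂ × ℂ) :=
  {q | q.1.im < 0 ∧ -d < q.1.im ∧ lam * (-q.1.im) < q.2.im ∧
    ∃ e ∈ P, lam * (|q.1.re - e.1| + ‖q.2 - (e.2 : ℂ)‖) < -q.1.im}

/-- the half (in `w`) neighbourhood of `e` below level `m` -/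
def Half (e : ℝ × ℝ) (η m : ℝ) : Set (ℂ × ℂ) :=
  {q | |q.1.re - e.1| < η ∧ -η < q.1.im ∧ ‖q.2 - (e.2 : ℂ)‖ < η ∧ 0 < q.2.im ∧
    q.1.im < m * q.2.im}

/-- blow-up at `e` with scale `s` -/
def bl (e : ℝ × ℝ) (s : ℝ) (x : ℂ × ℂ) : ℂ × ℂ := ((e.1 : ℂ) + s * x.1, (e.2 : ℂ) + s * x.2)

/-- the ray at `e` -/
def ray (e : ℝ × ℝ) (s : ℝ) : ℂ × ℂ := bl e s (-I, I / 4)

/-- the product cone at `e` (aperture `M`) -/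
def Cn (e : ℝ × ℝ) (M : ℝ) : Set (ℂ × ℂ) :=
  {q | q.1.im < 0 ∧ -q.1.im ≤ M * q.2.im ∧ |q.1.re - e.1| + ‖q.2 - (e.2 : ℂ)‖ ≤ M * (-q.1.im)}

/-- **III.3 + III.4** (one abstract theorem; `lam`, `e` do not depend on `F, f, N, Cs`; the bound is
linear in `N * Cs`, so it is world independent). -/
def DiscEst : Prop :=
  ∀ σ c A c₂ : ℝ, 0 ≤ σ → 0 < c → 0 < A → 0 < c₂ → ∃ lam : ℝ, 0 < lam ∧ ∃ C : ℝ, 0 < C ∧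
    ∀ P : Set (ℝ × ℝ), IsClosed P → 0 < volume P → ∃ e ∈ P, ∀ ρ₀ : ℝ, 0 < ρ₀ →
    ∀ F : ℂ × ℂ → ℂ, DifferentiableOn ℂ F (Saw P lam ρ₀) →
      (∀ q ∈ Saw P lam ρ₀, F q ≠ 0 ∧ F q ≠ 1) →
    ∀ f : ℂ × ℂ → ℂ, DifferentiableOn ℂ f (Half e ρ₀ σ) →
    ∀ N Cs : ℝ, 1 ≤ N → 1 ≤ Cs →
      (∀ q ∈ Saw P lam ρ₀ ∩ Half e ρ₀ σ, ‖f q‖ ≤ Real.exp (N * (1 + |Real.log ‖F q‖|))) →
    ∀ᶠ s : ℝ in 𝓝[>] 0,
      (∀ s' : ℝ, s ≤ s' → s' < ρ₀ →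
        1 + |Real.log ‖F (ray e s')‖| ≤ Cs * (s' / s) ^ (1 / 2 : ℝ)) →
      ∀ x : ℂ × ℂ, ‖x.1‖ ≤ A → ‖x.2‖ ≤ A → c₂ ≤ x.2.im → x.1.im ≤ (σ - c) * x.2.im →
        ‖f (bl e s x)‖ ≤ Real.exp (C * N * Cs)

/-- the limit world domain -/
def Gam (a g : ℝ) : Set (ℂ × ℂ) :=
  {x | ‖x.1‖ < a + 4 ∧ ‖x.2‖ < a + 4 ∧ 1 / 8 < x.2.im ∧ x.1.im < (a + g / 2) * x.2.im}

/-- below the face, margin `ρ` -/
def Low (a g ρ : ℝ) : Set (ℂ × ℂ) := {x | x ∈ Gam a g ∧ x.1.im < (a - ρ) * x.2.im}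

/-- **input of step 5 over one closed set `P`** (level `a` of the births, gap `g` to the line,
aperture `1 / lam`, births `r`-dense) -/
structure In5 (S : Set ℂ) (Z Zc T c : ℂ → ℂ) (φ p B : ℂ × ℂ → ℂ) (h a g T0 e0 Cs : ℝ)
    (lam r ρ : ℝ) (P : Set (ℝ × ℝ)) (z₀ : ℂ) (r₀ : ℝ) : Prop where
  closed : IsClosed P
  pos : 0 < volume P
  disc : closedBall z₀ r₀ ⊆ S
  osc : ∀ b ∈ closedBall z₀ r₀, ∀ b' ∈ closedBall z₀ r₀, ‖T b - T b'‖ ≤ 1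
  c_ne : ∀ b ∈ closedBall z₀ r₀, c b ≠ 0
  /- (SAW) -/
  saw : ∃ d > 0, ∀ q ∈ Saw P lam d, DifferentiableAt ℂ φ q ∧ DifferentiableAt ℂ p q ∧
    DifferentiableAt ℂ B q ∧ B q ∈ closedBall z₀ r₀ ∧
    Inc (φ q) (p q) (Z (B q)) (Zc (B q)) = 0 ∧ cexp (2 * I * (T (B q) - φ q)) ≠ 1
  /- Part II, below the births -/
  low : ∀ e ∈ P, ∃ η > 0, ∀ q ∈ Half e η (a - ρ), DifferentiableAt ℂ φ q ∧
    DifferentiableAt ℂ p q ∧ DifferentiableAt ℂ B q ∧ |(B q).im| ≤ h ∧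
    (B q ∈ S → Inc (φ q) (p q) (Z (B q)) (Zc (B q)) = 0)
  /- Part II, the incoming line -/
  line : ∀ e ∈ P, ∃ η > 0, ∀ q ∈ Half e η (a + g), DifferentiableAt ℂ φ q ∧ DifferentiableAt ℂ p q
  /- constant blow-ups (step 4) -/
  lim : ∀ e ∈ P, ∃ b₀ ∈ closedBall z₀ r₀, ∀ M : ℝ,
    Tendsto B (𝓝[Cn e M] ((e.1 : ℂ), (e.2 : ℂ))) (𝓝 b₀)
  /- Lemma G / n.t. case -/
  alt : ∀ e ∈ P,
    (∃ r₁ : ℂ, r₁ ≠ 0 ∧ r₁ ≠ 1 ∧ ∀ M : ℝ,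
      Tendsto (fun q => cexp (2 * I * (T (B q) - φ q))) (𝓝[Cn e M] ((e.1 : ℂ), (e.2 : ℂ)))
        (𝓝 r₁)) ∨
    ∃ h₁ > 0, ∃ᶠ s : ℝ in 𝓝[>] 0,
      |Real.log ‖cexp (2 * I * (T (B (ray e s)) - φ (ray e s)))‖| ≤ T0 ∧
      e0 ≤ ‖cexp (2 * I * (T (B (ray e s)) - φ (ray e s))) - 1‖ ∧
      ∀ s' : ℝ, s ≤ s' → s' < h₁ →
        1 + |Real.log ‖cexp (2 * I * (T (B (ray e s')) - φ (ray e s')))‖| ≤
          Cs * (s' / s) ^ (1 / 2 : ℝ)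
  /- births `r`-dense on the face -/
  births : ∀ e ∈ P, ∀ q : ℂ × ℂ, q.1.im = a * q.2.im → closedBall q r ⊆ Gam a g →
    ∃ K ⊆ Low a g ρ, IsCompact K ∧ ∀ᶠ s : ℝ in 𝓝[>] 0,
      ¬ ∃ (G : ℂ × ℂ → ℂ) (V : Set (ℂ × ℂ)), IsOpen V ∧ closedBall q r ⊆ V ∧ V ⊆ Gam a g ∧
        DifferentiableOn ℂ G V ∧
        (∀ x ∈ V, G x ∈ S ∧ Inc (φ (bl e s x)) (p (bl e s x)) (Z (G x)) (Zc (G x)) = 0) ∧
        ∀ x ∈ K ∩ V, G x = B (bl e s x)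

/-- **STEP 5** -/
def Step5 : Prop :=
  ∀ (S : Set ℂ) (Z Zc T c : ℂ → ℂ) (φ p B : ℂ × ℂ → ℂ) (h a g T0 e0 Cs : ℝ),
    IsOpen S → (∀ b ∈ S, HasDerivAt Z (c b * cexp (I * T b)) b) →
    (∀ b ∈ S, HasDerivAt Zc (c b * cexp (-(I * T b))) b) → ContinuousOn T S → ContinuousOn c S →
    0 ≤ a → 0 < g → 0 < e0 → 1 ≤ Cs →
    ¬ ∀ lam > 0, ∀ r > 0, ∃ (ρ : ℝ) (P : Set (ℝ × ℝ)) (z₀ : ℂ) (r₀ : ℝ),
      0 < ρ ∧ ρ ≤ 1 ∧ In5 S Z Zc T c φ p B h a g T0 e0 Cs lam r ρ P z₀ r₀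

end Crest.Agent.R102.S5
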