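import Crest.Agent.R102.FatouC_472

/-!
# Local Fatou theorem (Privalov's form, all apertures)

`fatou_local`: `f` holomorphic on the open set `V`; if at every point `x` of an arbitrary set
`E ⊆ ℝ` some truncated cone of the fixed aperture `a` lies in `V` and `f` is bounded on it, then
for almost every `x ∈ E` and EVERY aperture `b` a truncated cone lies in `V` and `f` has a limit
along it (the same limit for all apertures).
-/

namespace Crest.Agent.R102.LP472

open MeasureTheory Set Filter Topology Complex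
open scoped Real

theorem Cone_subset_ball {b δ x r : ℝ} (hb : 0 < b) (hδ : (b + 1) * δ ≤ r) :
    Cone b δ x ⊆ Metric.ball (x : ℂ) r := by
  intro z hz
  rw [Metric.mem_ball, dist_eq_norm]
  have e1 : ‖z - x‖ ≤ |(z - x).re| + |(z - x).im| := Complex.norm_le_abs_re_add_abs_im _
  simp only [sub_re, ofReal_re, sub_im, ofReal_im, sub_zero] at e1
  rw [abs_of_pos hz.1] at e1
  have e2 := hz.2.1
  have e3 := hz.2.2
  nlinarith

theorem eventually_Cone {b h x : ℝ} (hb : 0 < b) (hh : 0 < h) {p : ℂ → Prop}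
    (hp : ∀ᶠ z in 𝓝[Cone b h x] (x : ℂ), p z) : ∃ δ > 0, δ ≤ h ∧ ∀ z ∈ Cone b δ x, p z := by
  rw [Filter.Eventually, Metric.mem_nhdsWithin_iff] at hp
  obtain ⟨r, hr, hsub⟩ := hp
  refine ⟨min h (r / (b + 1)), by positivity, min_le_left _ _, fun z hz => ?_⟩
  apply hsub
  refine ⟨Cone_subset_ball hb ?_ hz, Cone_mono (min_le_left _ _) hz⟩
  calc (b + 1) * min h (r / (b + 1)) ≤ (b + 1) * (r / (b + 1)) := by
        gcongr; exact min_le_right _ _
    _ = r := by field_simp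

theorem memLp_pk {v : ℝ} (hv : 0 < v) (u : ℝ) : MemLp (pk u v) 2 volume := by
  rw [memLp_two_iff_integrable_sq (continuous_pk hv u).aestronglyMeasurable]
  refine ((integrable_pk hv u).mul_const (π * v)⁻¹).mono'
    ((continuous_pk hv u).pow 2).aestronglyMeasurable (ae_of_all _ fun t => ?_)
  rw [norm_pow, Real.norm_of_nonneg (pk_nonneg hv u t), sq]
  exact mul_le_mul_of_nonneg_left (pk_le hv u t) (pk_nonneg hv u t)

theorem core_fatou {V : Set ℂ} (hV : IsOpen V) {f : ℂ → ℂ} (hf : DifferentiableOn ℂ f V)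
    {a h : ℝ} (ha : 0 < a) (hh : 0 < h) {K : Set ℝ} (hK : IsCompact K) {M : ℝ} (hM0 : 0 ≤ M)
    (hV1 : ∀ x ∈ K, Cone a h x ⊆ V) (hb : ∀ x ∈ K, ∀ z ∈ Cone a h x, ‖f z‖ ≤ M) :
    ∀ᵐ x : ℝ, x ∈ K → ∃ l : ℂ, ∀ b > 0, ∃ δ > 0, Cone b δ x ⊆ V ∧
      Tendsto f (𝓝[Cone b δ x] (x : ℂ)) (𝓝 l) := by
  classical
  have hpi := Real.pi_pos
  set h' : ℝ := h / 2 with hh'
  have hh'0 : 0 < h' := by positivity
  set c : ℝ := 2 / π * Real.arctan (a / 2) with hcdef
  have hc : 0 < c := by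
    have := Real.arctan_pos.2 (show 0 < a / 2 by positivity)
    positivity
  have hSV : Saw a h K ⊆ V := by
    intro z hz
    obtain ⟨x, hx, h1⟩ := mem_Saw.1 hz
    exact hV1 x hx h1
  have hSM : ∀ z ∈ Saw a h K, ‖f z‖ ≤ M := by
    intro z hz
    obtain ⟨x, hx, h1⟩ := mem_Saw.1 hz
    exact hb x hx z h1
  -- boundary functions
  set φ : ℝ → ℝ → ℂ := fun s => K.indicator (fun t => f (t + s * I)) with hφ
  have imS : ∀ (w : ℂ) (s : ℝ), (w + s * I).im = w.im + s := fun w s => by simp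
  have reS : ∀ (w : ℂ) (s : ℝ), (w + s * I).re = w.re := fun w s => by simp
  have hup : ∀ w ∈ Hull a h' K, ∀ s : ℝ, 0 < s → s < h / 2 → w + s * I ∈ Saw a h K := by
    rintro w ⟨h1, h2, x, hx, h3⟩ s hs1 hs2
    refine mem_Saw.2 ⟨x, hx, ?_, ?_, ?_⟩
    · rw [imS]; linarith
    · rw [imS]; rw [hh'] at h2; linarith
    · rw [imS, reS]; nlinarith
  have hKH : ∀ x ∈ K, (x : ℂ) ∈ Hull a h' K := fun x hx =>
    ⟨by simp, by simpa using hh'0.le, x, hx, by simp⟩
  have hφm : ∀ s : ℝ, 0 < s → s < h / 4 → AEStronglyMeasurable (φ s) volume := by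
    intro s hs1 hs2
    simp only [hφ]
    rw [aestronglyMeasurable_indicator_iff hK.measurableSet]
    apply ContinuousOn.aestronglyMeasurable _ hK.measurableSet
    intro t ht
    have h1 : (t : ℂ) + s * I ∈ V := hSV (hup _ (hKH t ht) s hs1 (by linarith))
    have h2 : ContinuousAt f ((t : ℂ) + s * I) := (hf.differentiableAt (hV.mem_nhds h1)).continuousAt
    have h3 : ContinuousAt (fun t : ℝ => (t : ℂ) + s * I) t := by fun_prop
    exact (ContinuousAt.comp (f := fun t : ℝ => (t : ℂ) + s * I) h2 h3).continuousWithinAt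
  have hφM : ∀ s : ℝ, 0 < s → s < h / 4 → ∀ t, ‖φ s t‖ ≤ M := by
    intro s hs1 hs2 t
    by_cases ht : t ∈ K
    · simp only [hφ, indicator_of_mem ht]
      exact hSM _ (hup _ (hKH t ht) s hs1 (by linarith))
    · simp only [hφ, indicator_of_notMem ht, norm_zero]; exact hM0
  -- comparison for the shifted functions
  have hcmp : ∀ s : ℝ, 0 < s → s < h / 4 → ∀ z ∈ Saw a h' K,
      ‖f (z + s * I) - PI (φ s) z‖ ≤ 2 * M * (1 - (G K c h' z).re) := by
    intro s hs1 hs2 z hz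
    have hzim : 0 < z.im := by
      obtain ⟨x, hx, h1⟩ := mem_Saw.1 hz; exact h1.1
    set w := f (z + s * I) - PI (φ s) z with hw
    obtain ⟨e, he, hew⟩ : ∃ e : ℂ, ‖e‖ = 1 ∧ e * w = ‖w‖ := by
      by_cases hw0 : w = 0
      · exact ⟨1, by simp, by simp [hw0]⟩
      · have hn : ‖w‖ ≠ 0 := norm_ne_zero_iff.2 hw0
        refine ⟨(starRingEnd ℂ) w / ‖w‖, ?_, ?_⟩
        · rw [norm_div, RCLike.norm_conj, Complex.norm_real, norm_norm, div_self hn]
        · rw [div_mul_eq_mul_div, mul_comm, Complex.mul_conj, Complex.normSq_eq_norm_sq]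
          push_cast
          have : (‖w‖ : ℂ) ≠ 0 := by exact_mod_cast hn
          field_simp
    set U : Set ℂ := {z | z + s * I ∈ Saw a h K} with hUdef
    have hU : IsOpen U := (isOpen_Saw a h K).preimage (by fun_prop)
    have hgd : DifferentiableOn ℂ (fun z => e * f (z + s * I)) U := by
      intro z hz
      have h1 := hf.differentiableAt (hV.mem_nhds (hSV hz))
      have hsh : DifferentiableAt ℂ (fun w : ℂ => w + s * I) z := by fun_prop
      have e1 : DifferentiableAt ℂ (fun w : ℂ => f (w + s * I)) z :=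
        DifferentiableAt.comp (g := f) (f := fun w : ℂ => w + s * I) z h1 hsh
      exact (e1.const_mul e).differentiableWithinAt
    have hgM : ∀ z ∈ U, ‖e * f (z + s * I)‖ ≤ M := by
      intro z hz
      rw [norm_mul, he, one_mul]
      exact hSM _ hz
    have hsub : ∀ z ∈ Hull a h' K, ∀ σ ∈ Icc 0 (h / 8), z + (σ : ℂ) * I ∈ U := by
      intro z hz σ hσ
      have e1 : z + (σ : ℂ) * I + s * I = z + ((σ + s : ℝ) : ℂ) * I := by push_cast; ring
      simp only [hUdef, mem_ofPred_eq]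
      rw [e1]
      exact hup z hz (σ + s) (by linarith [hσ.1]) (by linarith [hσ.2])
    have hmain := comparison hU hgd hgM hM0 ha hh'0 (show 0 < h / 8 by positivity) hK hsub z hz
    have e1 : (∫ t, pk z.re z.im t * K.indicator (fun t : ℝ => (e * f (t + s * I)).re) t) =
        (e * PI (φ s) z).re := by
      unfold PI
      rw [← integral_const_mul]
      have hi : Integrable fun t => e * ((pk z.re z.im t : ℂ) * φ s t) :=
        (integrable_pk_mul (hφm s hs1 hs2) (hφM s hs1 hs2) hzim z.re).const_mul e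
      have h1 : (∫ t, e * ((pk z.re z.im t : ℂ) * φ s t)).re =
          ∫ t, (e * ((pk z.re z.im t : ℂ) * φ s t)).re := by
        have := Complex.reCLM.integral_comp_comm hi
        simpa using this.symm
      rw [h1]
      congr 1
      ext t
      by_cases ht : t ∈ K
      · simp only [hφ, indicator_of_mem ht]
        rw [mul_left_comm, Complex.re_ofReal_mul]
      · simp only [hφ, indicator_of_notMem ht]; simp
    rw [e1, ← Complex.sub_re, ← mul_sub, ← hw, hew, Complex.ofReal_re] at hmain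
    exact hmain
  -- the weak limit
  set 𝒰 : Ultrafilter ℝ := Ultrafilter.of (𝓝[>] (0 : ℝ)) with h𝒰
  have hUle : (𝒰 : Filter ℝ) ≤ 𝓝[>] (0 : ℝ) := Ultrafilter.of_le _
  have hev : ∀ᶠ s in (𝒰 : Filter ℝ), s ∈ Ioo 0 (h / 4) :=
    hUle (Ioo_mem_nhdsGT (by positivity))
  obtain ⟨ψ, hψm, hψM, hψlim⟩ := exists_weak_limit hK.measurableSet hK.measure_lt_top.ne hM0 φ 𝒰
    (by
      filter_upwards [hev] with s hs
      refine ⟨hφm s hs.1 hs.2, hφM s hs.1 hs.2, fun t ht => ?_⟩
      simp only [hφ, indicator_of_notMem ht])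
  have hfin : ∀ z ∈ Saw a h' K, ‖f z - PI ψ z‖ ≤ 2 * M * (1 - (G K c h' z).re) := by
    intro z hz
    have hzim : 0 < z.im := by
      obtain ⟨x, hx, h1⟩ := mem_Saw.1 hz; exact h1.1
    have hzV : z ∈ V := hSV (Saw_mono (by rw [hh']; linarith) hz)
    have h1 : Tendsto (fun s : ℝ => f (z + s * I)) 𝒰 (𝓝 (f z)) := by
      have hsh : ContinuousAt (fun s : ℝ => z + (s : ℂ) * I) 0 := by fun_prop
      have hz0 : z + ((0 : ℝ) : ℂ) * I = z := by simp
      have hfc : ContinuousAt f (z + ((0 : ℝ) : ℂ) * I) := by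
        rw [hz0]; exact (hf.differentiableAt (hV.mem_nhds hzV)).continuousAt
      have e1 : ContinuousAt (fun s : ℝ => f (z + (s : ℂ) * I)) 0 :=
        ContinuousAt.comp (f := fun s : ℝ => z + (s : ℂ) * I) hfc hsh
      have := e1.tendsto
      simp only [Complex.ofReal_zero, zero_mul, add_zero] at this
      exact this.mono_left (hUle.trans nhdsWithin_le_nhds)
    have h2 : Tendsto (fun s : ℝ => PI (φ s) z) 𝒰 (𝓝 (PI ψ z)) :=
      hψlim _ (memLp_pk hzim z.re)
    apply le_of_tendsto (h1.sub h2).norm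
    filter_upwards [hev] with s hs
    exact hcmp s hs.1 hs.2 z hz
  -- a.e. statements
  have hae1 := ae_PI_tendsto hψm hψM
  have hae2 := ae_PI_tendsto (φ := K.indicator (fun _ => (1 : ℂ))) (M := 1)
    ((aestronglyMeasurable_indicator_iff hK.measurableSet).2 aestronglyMeasurable_const) (by
      intro t
      by_cases ht : t ∈ K
      · simp [ht]
      · simp [ht])
  filter_upwards [hae1, hae2] with x hx1 hx2 hxK
  refine ⟨ψ x, fun b hb0 => ?_⟩
  -- B tends to 0 in the cone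
  have hB : Tendsto (fun z => 1 - (G K c h' z).re) (𝓝[Cone b 1 x] (x : ℂ)) (𝓝 0) := by
    have h1 := (Complex.continuous_re.tendsto _).comp (hx2 b 1)
    rw [indicator_of_mem hxK, Complex.one_re] at h1
    have h2 : Tendsto (fun z : ℂ => z.im) (𝓝[Cone b 1 x] (x : ℂ)) (𝓝 0) := by
      have := (Complex.continuous_im.tendsto (x : ℂ)).mono_left
        (nhdsWithin_le_nhds (s := Cone b 1 x))
      simpa using this
    have h3 : Tendsto (fun z : ℂ => c⁻¹ * (1 - (PI (K.indicator (fun _ => (1 : ℂ))) z).re) +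
        z.im / h') (𝓝[Cone b 1 x] (x : ℂ)) (𝓝 (c⁻¹ * (1 - 1) + 0 / h')) :=
      ((h1.const_sub 1).const_mul _).add (h2.div_const _)
    rw [sub_self, mul_zero, zero_div, add_zero] at h3
    refine h3.congr' ?_
    filter_upwards [self_mem_nhdsWithin] with z hz
    rw [G_re hK c hz.1]
    have e1 : (PI (K.indicator (fun _ => (1 : ℂ))) z).re = ∫ t in K, pk z.re z.im t := by
      unfold PI
      have e2 : (fun t => (pk z.re z.im t : ℂ) * K.indicator (fun _ => (1 : ℂ)) t) =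
          fun t => ((K.indicator (pk z.re z.im) t : ℝ) : ℂ) := by
        ext t
        by_cases ht : t ∈ K
        · simp [ht]
        · simp [ht]
      rw [e2, integral_complex_ofReal, Complex.ofReal_re, integral_indicator hK.measurableSet]
    rw [e1]
    ring
  have hinSaw : ∀ᶠ z in 𝓝[Cone b 1 x] (x : ℂ), z ∈ Saw a h' K := by
    have h2 : Tendsto (fun z : ℂ => z.im) (𝓝[Cone b 1 x] (x : ℂ)) (𝓝 0) := by
      have := (Complex.continuous_im.tendsto (x : ℂ)).mono_left
        (nhdsWithin_le_nhds (s := Cone b 1 x))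
      simpa using this
    filter_upwards [hB.eventually (gt_mem_nhds (show (0 : ℝ) < 1 by norm_num)),
      h2.eventually (gt_mem_nhds hh'0), self_mem_nhdsWithin] with z hz1 hz2 hz3
    by_contra hcon
    have hG1 : (G K c h' z).re ≤ 0 := by
      apply G_re_nonpos_side hK (by positivity) hh'0 hz3.1
      intro t ht
      have h6 : z ∉ Cone a h' t := fun hc => hcon (mem_Saw.2 ⟨t, ht, hc⟩)
      have h7 : a * z.im ≤ |z.re - t| := by
        by_contra hcon2
        push Not at hcon2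
        exact h6 ⟨hz3.1, hz2, hcon2⟩
      have := hz3.1
      nlinarith
    linarith
  obtain ⟨δ, hδ, hδ1, hδS⟩ := eventually_Cone hb0 one_pos hinSaw
  refine ⟨δ, hδ, fun z hz => hSV (Saw_mono (by rw [hh']; linarith) (hδS z hz)), ?_⟩
  have hmono : 𝓝[Cone b δ x] (x : ℂ) ≤ 𝓝[Cone b 1 x] (x : ℂ) :=
    nhdsWithin_mono _ (Cone_mono hδ1)
  have hd : Tendsto (fun z => f z - PI ψ z) (𝓝[Cone b δ x] (x : ℂ)) (𝓝 0) := by
    have h1 := (hB.mono_left hmono).const_mul (2 * M)
    rw [mul_zero] at h1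
    refine squeeze_zero_norm' ?_ h1
    filter_upwards [self_mem_nhdsWithin] with z hz
    exact hfin z (hδS z hz)
  have h2 := hd.add ((hx1 b 1).mono_left hmono)
  rw [zero_add] at h2
  refine h2.congr fun z => ?_
  ring

/-- **Local Fatou theorem** (Privalov). -/
theorem fatou_local {V : Set ℂ} (hV : IsOpen V) {f : ℂ → ℂ} (hf : DifferentiableOn ℂ f V)
    {a : ℝ} (ha : 0 < a) {E : Set ℝ}
    (hE : ∀ x ∈ E, ∃ h > 0, ∃ M : ℝ, Cone a h x ⊆ V ∧ ∀ z ∈ Cone a h x, ‖f z‖ ≤ M) :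
    ∀ᵐ x : ℝ, x ∈ E → ∃ l : ℂ, ∀ b > 0, ∃ h > 0, Cone b h x ⊆ V ∧
      Tendsto f (𝓝[Cone b h x] (x : ℂ)) (𝓝 l) := by
  set F : ℕ → Set ℝ := fun k =>
    {x | ∀ z ∈ Cone a (1 / (k + 1)) x, z ∈ V ∧ ‖f z‖ ≤ k} with hF
  have hFcl : ∀ k, IsClosed (F k) := by
    intro k
    apply IsSeqClosed.isClosed
    intro xs x hxs hx z hz
    have h1 : ∀ᶠ n in atTop, z ∈ Cone a (1 / (k + 1)) (xs n) := by
      have h2 : Tendsto (fun n => |z.re - xs n|) atTop (𝓝 |z.re - x|) :=
        (tendsto_const_nhds.sub hx).abs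
      filter_upwards [h2.eventually (gt_mem_nhds hz.2.2)] with n hn
      exact ⟨hz.1, hz.2.1, hn⟩
    obtain ⟨n, hn⟩ := h1.exists
    exact hxs n z hn
  have hEF : ∀ x ∈ E, ∃ k, x ∈ F k := by
    intro x hx
    obtain ⟨h, hh, M, hcV, hcM⟩ := hE x hx
    obtain ⟨k1, hk1⟩ := exists_nat_one_div_lt hh
    obtain ⟨k2, hk2⟩ := exists_nat_ge M
    refine ⟨max k1 k2, fun z hz => ?_⟩
    have hzc : z ∈ Cone a h x := by
      refine Cone_mono ?_ hz
      refine le_trans ?_ hk1.le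
      apply one_div_le_one_div_of_le (by positivity)
      have : (k1 : ℝ) ≤ (max k1 k2 : ℕ) := by exact_mod_cast le_max_left _ _
      linarith
    refine ⟨hcV hzc, (hcM z hzc).trans (hk2.trans ?_)⟩
    exact_mod_cast le_max_right _ _
  have hcore : ∀ k R : ℕ, ∀ᵐ x : ℝ, x ∈ F k ∩ Icc (-(R : ℝ)) R → ∃ l : ℂ, ∀ b > 0, ∃ h > 0,
      Cone b h x ⊆ V ∧ Tendsto f (𝓝[Cone b h x] (x : ℂ)) (𝓝 l) := by
    intro k R
    have hKc : IsCompact (F k ∩ Icc (-(R : ℝ)) R) := isCompact_Icc.inter_left (hFcl k)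
    exact core_fatou hV hf ha (h := 1 / (k + 1)) (by positivity) hKc (M := k) (Nat.cast_nonneg k)
      (fun x hx z hz => (hx.1 z hz).1) (fun x hx z hz => (hx.1 z hz).2)
  have hall := ae_all_iff.2 fun k => ae_all_iff.2 fun R => hcore k R
  filter_upwards [hall] with x hx hxE
  obtain ⟨k, hk⟩ := hEF x hxE
  obtain ⟨R, hR⟩ := exists_nat_ge |x|
  exact hx k R ⟨hk, (abs_le.1 hR).1, (abs_le.1 hR).2⟩

/-- **Fatou's theorem** for a bounded holomorphic function in a region containing truncated cones. -/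
theorem fatou_bounded {V : Set ℂ} (hV : IsOpen V) {f : ℂ → ℂ} (hf : DifferentiableOn ℂ f V)
    {M : ℝ} (hM : ∀ z ∈ V, ‖f z‖ ≤ M) {a : ℝ} (ha : 0 < a) {E : Set ℝ}
    (hE : ∀ x ∈ E, ∃ h > 0, Cone a h x ⊆ V) :
    ∀ᵐ x : ℝ, x ∈ E → ∃ l : ℂ, ∀ b > 0, ∃ h > 0, Cone b h x ⊆ V ∧
      Tendsto f (𝓝[Cone b h x] (x : ℂ)) (𝓝 l) :=
  fatou_local hV hf ha fun x hx => by
    obtain ⟨h, hh, hc⟩ := hE x hx
    exact ⟨h, hh, M, hc, fun z hz => hM z (hc hz)⟩

end Crest.Agent.R102.LP472
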