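import Crest.Agent.R102.LemGAsm_672
import Crest.Agent.R102.Fatou_472
import Crest.Agent.R102.Schottky_948

/-! # LEMMA G (a): infinitely many thick boxes, or a limit different from `0`, `1` -/

open Set Filter Metric MeasureTheory
open scoped Topology ENNReal

namespace Crest.Agent.R102.InfThick239

open LemG672 LP472

/-- a point of the narrow cone at `x` is in the large closed ball of the dyadic box over `x` -/
theorem mem_closedBall_zp {x : ℝ} {z : ℂ} {n : ℕ} (h1 : 1 / 2 * (1 / 2 ^ n : ℝ) ≤ z.im)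
    (h2 : z.im ≤ 1 / 2 ^ n) (h3 : |z.re - x| ≤ 1 / 100 * z.im) :
    z ∈ closedBall (zp n (bx n x)) (98 / 100 * (3 / 4 * (1 / 2 ^ n))) := by
  have hp : (0 : ℝ) < 1 / 2 ^ n := by positivity
  set p : ℝ := 1 / 2 ^ n with hpdef
  have hre : |z.re - (zp n (bx n x)).re| ≤ 51 / 100 * p := by
    have e1 := zp_bx n x
    have e2 : z.re - (zp n (bx n x)).re = (z.re - x) - ((zp n (bx n x)).re - x) := by ring
    rw [e2]
    refine (abs_sub _ _).trans ?_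
    rw [← hpdef] at e1
    nlinarith
  have him : |z.im - (zp n (bx n x)).im| ≤ 1 / 2 * p := by
    rw [zp_im, ← hpdef, abs_le]
    constructor <;> linarith
  rw [mem_closedBall, dist_eq_norm]
  have hsq : ‖z - zp n (bx n x)‖ ^ 2 ≤ (98 / 100 * (3 / 4 * p)) ^ 2 := by
    rw [← Complex.normSq_eq_norm_sq, Complex.normSq_apply, Complex.sub_re, Complex.sub_im]
    have a1 := abs_le.1 hre
    have a2 := abs_le.1 him
    nlinarith [abs_le.1 hre, abs_le.1 him]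
  exact abs_le_of_sq_le_sq' hsq (by positivity) |>.2

/-- height of a point is in a dyadic window -/
theorem exists_dyadic {N : ℕ} {y : ℝ} (h0 : 0 < y) (h1 : y < 1 / 2 ^ N) :
    ∃ n, N ≤ n ∧ 1 / 2 * (1 / 2 ^ n : ℝ) ≤ y ∧ y ≤ 1 / 2 ^ n := by
  obtain ⟨m, hm⟩ : ∃ m : ℕ, (1 / 2 : ℝ) ^ m < y := exists_pow_lt_of_lt_one h0 (by norm_num)
  classical
  have hex : ∃ m : ℕ, (1 / 2 : ℝ) ^ m ≤ y := ⟨m, hm.le⟩
  set k := Nat.find hex with hk
  have hk1 : (1 / 2 : ℝ) ^ k ≤ y := Nat.find_spec hex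
  have hk0 : N < k := by
    by_contra hcon
    push Not at hcon
    have : (1 / 2 : ℝ) ^ N ≤ (1 / 2 : ℝ) ^ k := pow_le_pow_of_le_one (by norm_num) (by norm_num) hcon
    rw [← one_div_pow] at h1
    linarith
  have hk2 : y < (1 / 2 : ℝ) ^ (k - 1) := by
    have := Nat.find_min hex (m := k - 1) (by omega)
    push Not at this
    exact this
  refine ⟨k - 1, by omega, ?_, ?_⟩
  · have : (1 / 2 : ℝ) ^ k = 1 / 2 * (1 / 2 ^ (k - 1)) := by
      rw [← one_div_pow, ← pow_succ']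
      congr 1; omega
    linarith
  · rw [← one_div_pow]; exact hk2.le

theorem bounded_cone {W : Set ℂ} {F : ℂ → ℂ} (hF : Omit W F) {x : ℝ} {N : ℕ}
    (hA : ∀ n, N ≤ n → Av W n (bx n x)) {M : ℝ} (hM : ∀ n, N ≤ n → ‖F (zp n (bx n x))‖ ≤ M) :
    ∀ z ∈ Cone (1 / 100) (1 / 2 ^ N) x, z ∈ W ∧ ‖F z‖ ≤ M948.Psi M (98 / 100) := by
  intro z hz
  obtain ⟨n, hn, h1, h2⟩ := exists_dyadic hz.1 hz.2.1
  have h3 := mem_closedBall_zp h1 h2 hz.2.2.le
  have hp : (0 : ℝ) < 1 / 2 ^ n := by positivity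
  have hb := hA n hn
  refine ⟨hb (closedBall_subset_ball (by nlinarith) h3), ?_⟩
  exact M948.schottky (by positivity) (hF.2.1.mono hb) (fun z hz => (hF.2.2 z (hb hz)).1)
    (fun z hz => (hF.2.2 z (hb hz)).2) (hM n hn) (by norm_num) (by norm_num) z h3

theorem bx_div (n : ℕ) (x : ℝ) : bx n x = bx (n + 1) x / 2 := by
  unfold bx
  rw [pow_succ', mul_assoc]
  set y : ℝ := (2 : ℝ) ^ n * x
  rw [Int.floor_eq_iff]
  have h1 := Int.floor_le (2 * y)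
  have h2 := Int.lt_floor_add_one (2 * y)
  have h3 : 2 * (⌊2 * y⌋ / 2) ≤ ⌊2 * y⌋ := by omega
  have h4 : ⌊2 * y⌋ ≤ 2 * (⌊2 * y⌋ / 2) + 1 := by omega
  have h3' : (2 : ℝ) * ((⌊2 * y⌋ / 2 : ℤ) : ℝ) ≤ (⌊2 * y⌋ : ℝ) := by exact_mod_cast h3
  have h4' : (⌊2 * y⌋ : ℝ) ≤ 2 * ((⌊2 * y⌋ / 2 : ℤ) : ℝ) + 1 := by exact_mod_cast h4
  constructor <;> linarith

theorem omit_inv {W : Set ℂ} {F : ℂ → ℂ} (hF : Omit W F) : Omit W (fun z => (F z)⁻¹) := by
  refine ⟨hF.1, ?_, fun z hz => ⟨inv_ne_zero (hF.2.2 z hz).1, ?_⟩⟩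
  · exact hF.2.1.inv fun z hz => (hF.2.2 z hz).1
  · intro h
    exact (hF.2.2 z hz).2 (inv_eq_one.1 h)

/-- Privalov: a zero free function has a.e. no limit `0` -/
theorem ae_not_tendsto_zero {W : Set ℂ} (hW : IsOpen W) {f : ℂ → ℂ} (hf : DifferentiableOn ℂ f W)
    (h0 : ∀ z ∈ W, f z ≠ 0) {a : ℝ} (ha : 0 < a) :
    ∀ᵐ x : ℝ, ¬ ∃ h > 0, Cone a h x ⊆ W ∧ Tendsto f (𝓝[Cone a h x] (x : ℂ)) (𝓝 0) := by
  by_contra hcon
  have hE : volume {x : ℝ | ∃ h > 0, Cone a h x ⊆ W ∧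
      Tendsto f (𝓝[Cone a h x] (x : ℂ)) (𝓝 0)} ≠ 0 := by
    intro h
    apply hcon
    rw [ae_iff]
    simpa using h
  obtain ⟨z, hz, he⟩ := lusin_privalov hW hf ha hE (fun x hx => hx)
  exact h0 z hz he.self_of_nhds

/-- limits of `F` are a.e. different from `0` and `1` -/
theorem ae_limit {W : Set ℂ} {F : ℂ → ℂ} (hF : Omit W F) {E : Set ℝ}
    (hE : ∀ x ∈ E, ∃ h > 0, ∃ M : ℝ, Cone (1 / 100) h x ⊆ W ∧
      ∀ z ∈ Cone (1 / 100) h x, ‖F z‖ ≤ M) :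
    ∀ᵐ x : ℝ, x ∈ E → ∃ l : ℂ, l ≠ 0 ∧ l ≠ 1 ∧ ∀ b > 0, ∃ h > 0, Cone b h x ⊆ W ∧
      Tendsto F (𝓝[Cone b h x] (x : ℂ)) (𝓝 l) := by
  have h1 := fatou_local hF.1 hF.2.1 (a := 1 / 100) (by norm_num) hE
  have h2 := ae_not_tendsto_zero hF.1 hF.2.1 (fun z hz => (hF.2.2 z hz).1) (a := 1) one_pos
  have h3 := ae_not_tendsto_zero hF.1 (f := fun z => F z - 1) (hF.2.1.sub_const 1)
    (fun z hz => sub_ne_zero.2 (hF.2.2 z hz).2) (a := 1) one_pos
  filter_upwards [h1, h2, h3] with x hx1 hx2 hx3 hxE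
  obtain ⟨l, hl⟩ := hx1 hxE
  obtain ⟨h, hh, hc, ht⟩ := hl 1 one_pos
  refine ⟨l, ?_, ?_, hl⟩
  · rintro rfl
    exact hx2 ⟨h, hh, hc, ht⟩
  · rintro rfl
    exact hx3 ⟨h, hh, hc, by simpa using ht.sub_const 1⟩

theorem nhdsWithin_Cone {b h h' x : ℝ} (hh : 0 < h) (hh' : 0 < h') :
    𝓝[Cone b h x] (x : ℂ) = 𝓝[Cone b h' x] (x : ℂ) := by
  have key : ∀ {h h' : ℝ}, 0 < h → 0 < h' →
      𝓝[Cone b h x] (x : ℂ) ≤ 𝓝[Cone b h' x] (x : ℂ) := by
    intro h h' hh hh'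
    rw [nhdsWithin, nhdsWithin, le_inf_iff]
    refine ⟨inf_le_left, ?_⟩
    rw [le_principal_iff, mem_inf_principal]
    have : {z : ℂ | z.im < h'} ∈ 𝓝 (x : ℂ) :=
      (isOpen_lt Complex.continuous_im continuous_const).mem_nhds (by simpa using hh')
    filter_upwards [this] with z hz hzc
    exact ⟨hzc.1, hz, hzc.2.2⟩
  exact le_antisymm (key hh hh') (key hh' hh)

theorem infThick : InfThick := by
  set Q : ℝ := M948.Psi 2 (98 / 100) with hQ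
  have hQ0 : 0 < Q := M948.Psi_pos _ _
  refine ⟨max 2 (1 + Real.log Q), 1, le_trans (by norm_num) (le_max_left _ _), one_pos, ?_⟩
  intro T e hT he he1 W F hF a h P ha hh hP
  have hT2 : 2 ≤ T := (le_max_left _ _).trans hT
  have hTQ : 1 + Real.log Q ≤ T := (le_max_right _ _).trans hT
  -- heights
  obtain ⟨N0, hN0⟩ : ∃ N0 : ℕ, ∀ n, N0 ≤ n → 7 / 4 * (1 / 2 ^ n : ℝ) ≤ h := by
    obtain ⟨m, hm⟩ : ∃ m : ℕ, (1 / 2 : ℝ) ^ m < h / 2 :=
      exists_pow_lt_of_lt_one (by positivity) (by norm_num)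
    refine ⟨m, fun n hn => ?_⟩
    have h1 : (1 / 2 : ℝ) ^ n ≤ (1 / 2 : ℝ) ^ m :=
      pow_le_pow_of_le_one (by norm_num) (by norm_num) hn
    rw [← one_div_pow]
    linarith
  have hAv : ∀ x ∈ P, ∀ n, N0 ≤ n → Av W n (bx n x) := fun x hx n hn =>
    av_of_cone ha (hP x hx) (hN0 n hn)
  -- the two bounded classes
  set E1 : Set ℝ := {x | x ∈ P ∧ ∃ N, N0 ≤ N ∧ ∀ n, N ≤ n → ‖F (zp n (bx n x))‖ ≤ 2} with hE1
  set E2 : Set ℝ := {x | x ∈ P ∧ ∃ N, N0 ≤ N ∧ ∀ n, N ≤ n → ‖(F (zp n (bx n x)))⁻¹‖ ≤ 2} with hE2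
  have hF' := omit_inv hF
  have k1 := ae_limit hF (E := E1) (by
    rintro x ⟨hx, N, hN, hb⟩
    have := bounded_cone hF (fun n hn => hAv x hx n (hN.trans hn)) hb
    exact ⟨1 / 2 ^ N, by positivity, _, fun z hz => (this z hz).1, fun z hz => (this z hz).2⟩)
  have k2 := ae_limit hF' (E := E2) (by
    rintro x ⟨hx, N, hN, hb⟩
    have := bounded_cone hF' (fun n hn => hAv x hx n (hN.trans hn)) hb
    exact ⟨1 / 2 ^ N, by positivity, _, fun z hz => (this z hz).1, fun z hz => (this z hz).2⟩)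
  filter_upwards [k1, k2] with x hx1 hx2 hxP
  by_cases hfr : ∃ᶠ n in atTop, Th F T e n (bx n x)
  · exact Or.inl hfr
  right
  rw [not_frequently, eventually_atTop] at hfr
  obtain ⟨N1, hN1⟩ := hfr
  set N := max N0 N1 with hNdef
  have hnt : ∀ n, N ≤ n → ‖F (zp n (bx n x))‖ ≤ 2 ∨ Q < ‖F (zp n (bx n x))‖ := by
    intro n hn
    have h1 := hN1 n ((le_max_right _ _).trans hn)
    by_contra hcon
    push Not at hcon
    obtain ⟨h2, h3⟩ := hcon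
    apply h1
    have hpos : 0 < ‖F (zp n (bx n x))‖ := by linarith
    constructor
    · unfold Hf
      have hl : 0 ≤ Real.log ‖F (zp n (bx n x))‖ := Real.log_nonneg (by linarith)
      rw [abs_of_nonneg hl]
      have := Real.log_le_log hpos h3
      linarith
    · have := norm_sub_norm_le (F (zp n (bx n x))) 1
      rw [norm_one] at this
      linarith
  have hstep : ∀ n, N ≤ n → ‖F (zp n (bx n x))‖ ≤ 2 → ‖F (zp (n + 1) (bx (n + 1) x))‖ ≤ 2 := by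
    intro n hn h2
    rcases hnt (n + 1) (by omega) with h3 | h3
    · exact h3
    exfalso
    have hb : Av W n (bx n x) := hAv x hxP n ((le_max_left _ _).trans hn)
    have hp : (0 : ℝ) < 1 / 2 ^ n := by positivity
    have hmem : zp (n + 1) (bx (n + 1) x) ∈
        closedBall (zp n (bx n x)) (98 / 100 * (3 / 4 * (1 / 2 ^ n))) := by
      have e1 : bx n x = bx (n + 1) x / 2 := bx_div n x
      rw [mem_closedBall, dist_eq_norm, e1]
      have := zp_child n (bx (n + 1) x)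
      linarith
    have := M948.schottky (by positivity) (hF.2.1.mono hb) (fun z hz => (hF.2.2 z (hb hz)).1)
      (fun z hz => (hF.2.2 z (hb hz)).2) h2 (by norm_num) (by norm_num) _ hmem
    linarith
  have hb0 : 0 < a := by linarith
  by_cases hsm : ∃ n, N ≤ n ∧ ‖F (zp n (bx n x))‖ ≤ 2
  · obtain ⟨n0, hn0, hs⟩ := hsm
    have hall : ∀ n, n0 ≤ n → ‖F (zp n (bx n x))‖ ≤ 2 := by
      intro n hn
      induction n, hn using Nat.le_induction with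
      | base => exact hs
      | succ m hm ih => exact hstep m (hn0.trans hm) ih
    obtain ⟨l, hl0, hl1, hl⟩ := hx1 ⟨hxP, n0, (le_max_left _ _).trans hn0, hall⟩
    obtain ⟨h', hh', _, ht⟩ := hl a hb0
    rw [nhdsWithin_Cone hh' hh] at ht
    exact ⟨l, hl0, hl1, ht⟩
  · push Not at hsm
    obtain ⟨l, hl0, hl1, hl⟩ := hx2 ⟨hxP, N, le_max_left _ _, fun n hn => by
      have := hsm n hn
      rw [norm_inv]
      calc ‖F (zp n (bx n x))‖⁻¹ ≤ 2⁻¹ := by gcongr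
        _ ≤ 2 := by norm_num⟩
    obtain ⟨h', hh', _, ht⟩ := hl a hb0
    rw [nhdsWithin_Cone hh' hh] at ht
    refine ⟨l⁻¹, inv_ne_zero hl0, fun h => hl1 (inv_eq_one.1 h), ?_⟩
    simpa using ht.inv₀ hl0

end Crest.Agent.R102.InfThick239
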