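import Crest.Agent.R102.LP_472

/-! # LEMMA G (thick scales): definitions and the four literal interfaces

Row 102, [H1], step 5 of R1_523 (638 #23556 (2), 864 #24037/#24086, 196 #24124, 872 #24370).

* `bx n x`, `Iv n k`, `zp n k`: dyadic boxes of the upper half plane;
* `Hf F n k = 1 + |log |F (zp n k)||`;
* `Av W n k`: the box is available;
* `Th F T e n k`: the box is thick;
* `T2`, `T3` (864), `Tree` (196), `InfThick` (239), `LemmaG` (assembly, 672).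
-/

open Set Filter Metric MeasureTheory
open scoped Topology ENNReal

namespace Crest.Agent.R102.LemG672

/-- index of the dyadic interval of generation `n` containing `x` -/
noncomputable def bx (n : ℕ) (x : ℝ) : ℤ := ⌊(2 : ℝ) ^ n * x⌋

/-- dyadic interval -/
def Iv (n : ℕ) (k : ℤ) : Set ℝ := Ico ((k : ℝ) / 2 ^ n) (((k : ℝ) + 1) / 2 ^ n)

/-- the point of the box `(n,k)`: over the mid point, at height `2^-n` -/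
noncomputable def zp (n : ℕ) (k : ℤ) : ℂ := ⟨((k : ℝ) + 1 / 2) / 2 ^ n, 1 / 2 ^ n⟩

/-- `1 + |log |F||` at the point of the box -/
noncomputable def Hf (F : ℂ → ℂ) (n : ℕ) (k : ℤ) : ℝ := 1 + |Real.log ‖F (zp n k)‖|

/-- `F` is holomorphic on the open set `W` and omits `0` and `1` there -/
def Omit (W : Set ℂ) (F : ℂ → ℂ) : Prop :=
  IsOpen W ∧ DifferentiableOn ℂ F W ∧ ∀ z ∈ W, F z ≠ 0 ∧ F z ≠ 1

/-- the box `(n,k)` is available -/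
def Av (W : Set ℂ) (n : ℕ) (k : ℤ) : Prop := ball (zp n k) (3 / 4 * (1 / 2 ^ n)) ⊆ W

/-- the box `(n,k)` is thick -/
def Th (F : ℂ → ℂ) (T e : ℝ) (n : ℕ) (k : ℤ) : Prop := Hf F n k ≤ T ∧ e ≤ ‖F (zp n k) - 1‖

/-- (S) sharp Schottky (864) -/
def SharpSchottky : Prop :=
  ∀ θ : ℝ, 0 ≤ θ → θ < 1 → ∃ C : ℝ, 1 ≤ C ∧ ∀ (c : ℂ) (R : ℝ), 0 < R → ∀ F : ℂ → ℂ,
    DifferentiableOn ℂ F (ball c R) → (∀ z ∈ ball c R, F z ≠ 0 ∧ F z ≠ 1) →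
    ∀ z ∈ closedBall c (θ * R), |Real.log ‖F z‖| ≤ C * (1 + |Real.log ‖F c‖|)

/-- (T2) parent / child comparison (864; a corollary of (S)) -/
def T2 (K : ℝ) : Prop :=
  ∀ (W : Set ℂ) (F : ℂ → ℂ), Omit W F → ∀ (n : ℕ) (k : ℤ),
    (Av W n (k / 2) → Hf F (n + 1) k ≤ K * Hf F n (k / 2)) ∧
    (Av W (n + 1) k → Av W n (k / 2) → Hf F n (k / 2) ≤ K * Hf F (n + 1) k)

/-- the set of weak type estimate: points of `Iv n k` over which a run of available non thick boxes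
reaches height `max (l * H) H1` -/
def RunSet (H : ℕ → ℤ → ℝ) (A T : ℕ → ℤ → Prop) (H1 l : ℝ) (n : ℕ) (k : ℤ) : Set ℝ :=
  {x | x ∈ Iv n k ∧ ∃ m, n ≤ m ∧ (∀ j, n ≤ j → j ≤ m → A j (bx j x) ∧ ¬ T j (bx j x)) ∧
    max (l * H n k) H1 ≤ H m (bx m x)}

/-- (T3) the weak type estimate (864) -/
def T3 (T e C θ H1 : ℝ) : Prop :=
  ∀ (W : Set ℂ) (F : ℂ → ℂ), Omit W F → ∀ (n : ℕ) (k : ℤ), Av W n k → ∀ l : ℝ, 1 ≤ l →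
    volume (RunSet (Hf F) (Av W) (Th F T e) H1 l n k) ≤
      ENNReal.ofReal (C * l ^ (-θ) / 2 ^ n)

/-- (T3) with the quantifiers -/
def T3All : Prop :=
  ∃ T0 e0 : ℝ, 1 ≤ T0 ∧ 0 < e0 ∧ ∀ T e : ℝ, T0 ≤ T → 0 < e → e ≤ e0 →
    ∃ C θ H1 : ℝ, 0 < θ ∧ T3 T e C θ H1

/-- (tree) the pure tree lemma (196) -/
def Tree : Prop :=
  ∀ K H0 H1 C θ : ℝ, 0 < θ → ∃ Cs : ℝ, ∀ (H : ℕ → ℤ → ℝ) (A T : ℕ → ℤ → Prop),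
    (∀ n k, 1 ≤ H n k) → (∀ n k, T n k → H n k ≤ H0) →
    (∀ n k, A n (k / 2) → A (n + 1) k → H (n + 1) k ≤ K * H n (k / 2) ∧
      H n (k / 2) ≤ K * H (n + 1) k) →
    (∀ n k, A n k → ∀ l : ℝ, 1 ≤ l →
      volume (RunSet H A T H1 l n k) ≤ ENNReal.ofReal (C * l ^ (-θ) / 2 ^ n)) →
    ∀ n0 : ℕ, ∀ᵐ x : ℝ, (∀ n, n0 ≤ n → A n (bx n x)) → (∃ᶠ n in atTop, T n (bx n x)) →
      ∃ᶠ n in atTop, T n (bx n x) ∧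
        ∀ j, n0 ≤ j → j ≤ n → H j (bx j x) ≤ Cs * 2 ^ (((n : ℝ) - j) / 2)

/-- (a) infinitely many thick boxes (239) -/
def InfThick : Prop :=
  ∃ T1 e1 : ℝ, 1 ≤ T1 ∧ 0 < e1 ∧ ∀ T e : ℝ, T1 ≤ T → 0 < e → e ≤ e1 →
    ∀ (W : Set ℂ) (F : ℂ → ℂ), Omit W F → ∀ (a h : ℝ) (P : Set ℝ), 6 ≤ a → 0 < h →
      (∀ x ∈ P, LP472.Cone a h x ⊆ W) → ∀ᵐ x : ℝ, x ∈ P →
        (∃ᶠ n in atTop, Th F T e n (bx n x)) ∨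
        (∃ r : ℂ, r ≠ 0 ∧ r ≠ 1 ∧ Tendsto F (𝓝[LP472.Cone a h x] (x : ℂ)) (𝓝 r))

/-- LEMMA G, final form -/
def LemmaG : Prop :=
  ∃ Cs T e : ℝ, 0 < e ∧ ∀ (W : Set ℂ) (F : ℂ → ℂ), Omit W F → ∀ (a h : ℝ) (P : Set ℝ),
    6 ≤ a → 0 < h → h ≤ 1 → (∀ x ∈ P, LP472.Cone a h x ⊆ W) → ∀ᵐ x : ℝ, x ∈ P →
      (∃ r : ℂ, r ≠ 0 ∧ r ≠ 1 ∧ Tendsto F (𝓝[LP472.Cone a h x] (x : ℂ)) (𝓝 r)) ∨
      (∃ᶠ s : ℝ in 𝓝[>] 0, |Real.log ‖F (⟨x, s⟩ : ℂ)‖| ≤ T ∧ e ≤ ‖F (⟨x, s⟩ : ℂ) - 1‖ ∧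
        ∀ s' : ℝ, s ≤ s' → s' ≤ h / 2 →
          1 + |Real.log ‖F (⟨x, s'⟩ : ℂ)‖| ≤ Cs * (s' / s) ^ (1 / 2 : ℝ))

end Crest.Agent.R102.LemG672
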