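import Crest.Agent.R102.SchL_864
import Crest.Agent.R102.LemGDefs_672

/-! # `SharpSchottky` -/

namespace Crest.Agent.R102.G864

theorem sharpSchottky : LemG672.SharpSchottky := by
  intro θ h0 h1
  refine ⟨1 + KS θ, by linarith [KS_pos θ], ?_⟩
  intro c R hR F hF hne z hz
  have h := schottky_log hR hF (fun z hz => (hne z hz).1) (fun z hz => (hne z hz).2) h0 h1 z hz
  have h2 := abs_nonneg (Real.log ‖F c‖)
  nlinarith [KS_pos θ]

end Crest.Agent.R102.G864
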