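import Crest.Agent.R102.LemG7_864
import Crest.Agent.R102.LemGDefs_672

/-! # `T3All`: the weak type estimate in the literal form of `LemGDefs_672` -/

open Set Filter Metric Complex Topology MeasureTheory

namespace Crest.Agent.R102.G864

theorem bx_672 (n : ℕ) (x : ℝ) : LemG672.bx n x = bx n x := by
  unfold LemG672.bx bx; rw [mul_comm]

theorem zp_672 (n : ℕ) (k : ℤ) : LemG672.zp n k = zc n k := rfl

theorem Hf_672 (F : ℂ → ℂ) (n : ℕ) (k : ℤ) : LemG672.Hf F n k = HH F (zc n k) := rfl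

theorem Om_672 {W : Set ℂ} {F : ℂ → ℂ} (h : LemG672.Omit W F) : Om W F :=
  ⟨h.1, h.2.1, fun z hz => (h.2.2 z hz).1, fun z hz => (h.2.2 z hz).2⟩

theorem Av_672 {W : Set ℂ} {n : ℕ} {k : ℤ} (h : LemG672.Av W n k) : Avl W n k := by
  intro w hw
  refine (ball_subset_ball' ?_).trans h
  rw [zp_672, dist_eq_norm]
  obtain ⟨w1, w2, w3, w4⟩ := hw
  have hp : (0 : ℝ) < 2 ^ n := by positivity
  have e1 : (w - zc n k).re * 2 ^ n = w.re * 2 ^ n - (k + 1 / 2) := by
    unfold zc; rw [Complex.sub_re]; simp only; field_simp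
  have e2 : (w - zc n k).im * 2 ^ n = w.im * 2 ^ n - 1 := by
    unfold zc; rw [Complex.sub_im]; simp only; field_simp
  have h1 : (‖w - zc n k‖ * 2 ^ n) ^ 2 ≤ (71 / 100) ^ 2 := by
    rw [mul_pow, Complex.sq_norm, Complex.normSq_apply]
    have : ((w - zc n k).re * (w - zc n k).re + (w - zc n k).im * (w - zc n k).im) * (2 ^ n) ^ 2 =
        ((w - zc n k).re * 2 ^ n) ^ 2 + ((w - zc n k).im * 2 ^ n) ^ 2 := by ring
    rw [this, e1, e2]
    nlinarith
  have h2 : ‖w - zc n k‖ * 2 ^ n ≤ 71 / 100 := by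
    apply le_of_sq_le_sq h1 (by norm_num) |> fun h => h
  have h3 : ‖w - zc n k‖ ≤ (71 / 100) / 2 ^ n := by rw [le_div_iff₀ hp]; exact h2
  calc 1 / 32 / 2 ^ n + ‖w - zc n k‖ ≤ 1 / 32 / 2 ^ n + (71 / 100) / 2 ^ n := by linarith
    _ = (1 / 32 + 71 / 100) * (1 / 2 ^ n) := by ring
    _ ≤ 3 / 4 * (1 / 2 ^ n) := by gcongr; norm_num

theorem near_one {w : ℂ} {e : ℝ} (he : e ≤ 1 / 2) (h : ‖w - 1‖ < e) :
    1 + |Real.log ‖w‖| ≤ 2 := by
  have h1 : ‖w‖ ≤ 3 / 2 := by
    have := norm_add_le (w - 1) 1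
    rw [sub_add_cancel, norm_one] at this
    linarith
  have h2 : 1 / 2 ≤ ‖w‖ := by
    have := norm_sub_norm_le (1 : ℂ) w
    rw [norm_one, norm_sub_rev] at this
    linarith
  have h0 : 0 < ‖w‖ := by linarith
  have h3 : |Real.log ‖w‖| ≤ 1 := by
    rw [abs_le]
    constructor
    · have h4 := Real.log_le_sub_one_of_pos (inv_pos.mpr h0)
      rw [Real.log_inv] at h4
      have h5 : ‖w‖⁻¹ ≤ 2 := by
        rw [inv_le_comm₀ h0 (by norm_num)]; linarith
      linarith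
    · have := Real.log_le_sub_one_of_pos h0
      linarith
  linarith

theorem HH_succ {Ω : Set ℂ} {F : ℂ → ℂ} (h : Om Ω F) {n : ℕ} {x : ℝ} (h1 : Avl Ω n (bx n x))
    (h2 : Avl Ω (n + 1) (bx (n + 1) x)) :
    HH F (zc (n + 1) (bx (n + 1) x)) ≤ K2 ^ 2 * HH F (zc n (bx n x)) := by
  obtain ⟨w1, w2⟩ := TB_succ n x
  have a := HH_box h h1 (zc_mem _ _) w1
  have b := HH_box h h2 w2 (zc_mem _ _)
  have hK := one_le_K2
  calc _ ≤ K2 * HH F (⟨x, 1 / 2 ^ (n + 1)⟩ : ℂ) := b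
    _ ≤ K2 * (K2 * HH F (zc n (bx n x))) := by
        apply mul_le_mul_of_nonneg_left a; linarith
    _ = _ := by ring

/-- along a tall run starting in the cusp at infinity everything is in the cusp at infinity -/
theorem allUp {Ω : Set ℂ} {F : ℂ → ℂ} (h : Om Ω F) {n m : ℕ} {x : ℝ} 
    (hav : ∀ j, n ≤ j → j ≤ m → Avl Ω j (bx j x))
    (ht : ∀ j, n ≤ j → j ≤ m → KK ≤ |Real.log ‖F (zc j (bx j x))‖|)
    (h0 : 0 ≤ Real.log ‖F (zc n (bx n x))‖) : ∀ j, n ≤ j → j ≤ m → Up Ω F j (bx j x) := by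
  intro j hj
  induction j, hj using Nat.le_induction with
  | base =>
    intro hm
    refine ⟨hav n le_rfl hm, ?_⟩
    have := ht n le_rfl hm
    rwa [abs_of_nonneg h0] at this
  | succ j hj ih =>
    intro hm
    have hup := ih (by omega)
    have hav' := hav (j + 1) (by omega) hm
    refine ⟨hav', ?_⟩
    rcases le_total 0 (Real.log ‖F (zc (j + 1) (bx (j + 1) x))‖) with h1 | h1
    · have := ht (j + 1) (by omega) hm
      rwa [abs_of_nonneg h1] at this
    · exfalso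
      have h2 : Up Ω (fun z => (F z)⁻¹) (j + 1) (bx (j + 1) x) := by
        refine ⟨hav', ?_⟩
        have := ht (j + 1) (by omega) hm
        rw [abs_of_nonpos h1] at this
        unfold UU
        simp only
        rw [norm_inv, Real.log_inv]
        exact this
      obtain ⟨w1, w2⟩ := TB_succ j x
      have h3 := hup.pos h w1
      have h4 := h2.pos h.inv w2
      rw [norm_inv, Real.log_inv] at h4
      linarith

theorem tall_run {Ω : Set ℂ} {F : ℂ → ℂ} (h : Om Ω F) {T e l : ℝ} (hT : 1 + KK + 2 * K2 ^ 2 ≤ T)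
    (he : e ≤ 1 / 2) {n : ℕ} {k : ℤ} {x : ℝ} {m : ℕ}
    (hav : ∀ j, n ≤ j → j ≤ m → Avl Ω j (bx j x))
    (hth : ∀ j, n ≤ j → j ≤ m → ¬ (HH F (zc j (bx j x)) ≤ T ∧ e ≤ ‖F (zc j (bx j x)) - 1‖))
    (hmax : max (l * HH F (zc n k)) 3 ≤ HH F (zc m (bx m x))) :
    ∀ j, n ≤ j → j ≤ m → KK ≤ |Real.log ‖F (zc j (bx j x))‖| := by
  have hK := one_le_K2
  have hKK := one_le_KK
  have hnear : ∀ i, n ≤ i → i ≤ m → HH F (zc i (bx i x)) ≤ T → HH F (zc i (bx i x)) ≤ 2 := by
    intro i hi hi' hT'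
    have h1 := hth i hi hi'
    push Not at h1
    exact near_one he (h1 hT')
  have htall : ∀ j, n ≤ j → j ≤ m → T < HH F (zc j (bx j x)) := by
    intro j hj hj'
    by_contra hcon
    push Not at hcon
    have hall : ∀ i, j ≤ i → i ≤ m → HH F (zc i (bx i x)) ≤ 2 := by
      intro i hi
      induction i, hi using Nat.le_induction with
      | base => intro _; exact hnear j hj hj' hcon
      | succ i hi ih =>
        intro him
        have h1 := ih (by omega)
        have h2 := HH_succ h (hav i (by omega) (by omega)) (hav (i + 1) (by omega) him)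
        apply hnear (i + 1) (by omega) him
        have h3 : K2 ^ 2 * HH F (zc i (bx i x)) ≤ K2 ^ 2 * 2 := by
          apply mul_le_mul_of_nonneg_left h1; positivity
        linarith
    have h1 := hall m hj' le_rfl
    have h2 := le_of_max_le_right hmax
    linarith
  intro j hj hj'
  have h1 := htall j hj hj'
  unfold HH at h1
  have : 0 ≤ K2 ^ 2 := by positivity
  linarith

theorem run_up {Ω : Set ℂ} {F : ℂ → ℂ} (h : Om Ω F) {l : ℝ} (hl : 1 ≤ l)
    {n : ℕ} {k : ℤ} {x : ℝ} {m : ℕ} (hx : bx n x = k) (hm : n ≤ m)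
    (hav : ∀ j, n ≤ j → j ≤ m → Avl Ω j (bx j x))
    (habs : ∀ j, n ≤ j → j ≤ m → KK ≤ |Real.log ‖F (zc j (bx j x))‖|)
    (hmax : max (l * HH F (zc n k)) 3 ≤ HH F (zc m (bx m x)))
    (h0 : 0 ≤ Real.log ‖F (zc n k)‖) :
    (∀ j, n ≤ j → j ≤ m → Up Ω F j (bx j x)) ∧ l * UU F n k ≤ UU F m (bx m x) := by
  have hK := one_le_K2
  have hKK := one_le_KK
  have hup := allUp h hav habs (by rw [hx]; exact h0)
  refine ⟨hup, ?_⟩
  have h1 := le_of_max_le_left hmax
  have hn := (hup n le_rfl hm).2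
  have hm' := (hup m hm le_rfl).2
  rw [hx] at hn
  unfold UU at hn hm' ⊢
  unfold HH at h1
  rw [abs_of_nonneg (by linarith), abs_of_nonneg (by linarith)] at h1
  nlinarith

/-- the case distinction is on the sign at the root; `G = F` or `G = 1/F` -/
theorem t3_aux {W : Set ℂ} {F G : ℂ → ℂ} (hF : Om W F) (hG : Om W G)
    (hGl : ∀ z, |Real.log ‖G z‖| = |Real.log ‖F z‖|) {T e l : ℝ}
    (hT : 1 + KK + 2 * K2 ^ 2 ≤ T) (he : e ≤ 1 / 2) (hl : 1 ≤ l) {n : ℕ} {k : ℤ}
    (h0 : 0 ≤ Real.log ‖G (zc n k)‖) :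
    volume (LemG672.RunSet (LemG672.Hf F) (LemG672.Av W) (LemG672.Th F T e) 3 l n k) ≤
      ENNReal.ofReal ((2 * KK ^ 34) ^ TH * l ^ (-TH) / 2 ^ n) := by
  have hGH : ∀ z, HH G z = HH F z := by
    intro z; unfold HH; rw [hGl]
  by_cases hne : (LemG672.RunSet (LemG672.Hf F) (LemG672.Av W) (LemG672.Th F T e) 3 l n k).Nonempty
  · have hsub : ∀ x ∈ LemG672.RunSet (LemG672.Hf F) (LemG672.Av W) (LemG672.Th F T e) 3 l n k,
        bx n x = k ∧ ∃ m, n ≤ m ∧ (∀ j, n ≤ j → j ≤ m → Up W G j (bx j x)) ∧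
          l * UU G n k ≤ UU G m (bx m x) := by
      rintro x ⟨hx, m, hm, hrun, hmax⟩
      have hxk : bx n x = k := by
        have : x ∈ JJ n k := by rw [JJ_eq]; exact hx
        exact this
      simp only [bx_672] at hrun hmax
      have hav : ∀ j, n ≤ j → j ≤ m → Avl W j (bx j x) := fun j hj hj' => Av_672 (hrun j hj hj').1
      have hab := tall_run hF hT he hav (fun j hj hj' => (hrun j hj hj').2) hmax
      obtain ⟨c1, c2⟩ := run_up hG hl hxk hm hav
        (fun j hj hj' => by rw [hGl]; exact hab j hj hj')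
        (by rw [hGH, hGH]; exact hmax) h0
      exact ⟨hxk, m, hm, c1, c2⟩
    obtain ⟨x, hx⟩ := hne
    obtain ⟨e1, m, e2, e3, _⟩ := hsub x hx
    have hroot : Up W G n k := by
      have := e3 n le_rfl e2
      rwa [e1] at this
    exact (measure_mono hsub).trans (weak hG hroot hl)
  · rw [not_nonempty_iff_eq_empty] at hne
    rw [hne, measure_empty]
    exact bot_le

/-- **T3** -/
theorem t3All : LemG672.T3All := by
  have hK := one_le_K2
  have hKK := one_le_KK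
  refine ⟨1 + KK + 2 * K2 ^ 2, 1 / 2, by nlinarith, by norm_num, ?_⟩
  intro T e hT he0 he
  refine ⟨(2 * KK ^ 34) ^ TH, TH, 3, TH_pos, ?_⟩
  intro W F hF n k hAv l hl
  have h := Om_672 hF
  rcases le_total 0 (Real.log ‖F (zc n k)‖) with h0 | h0
  · exact t3_aux h h (fun _ => rfl) hT he hl h0
  · refine t3_aux h h.inv (fun z => ?_) hT he hl (n := n) (k := k) ?_
    · rw [norm_inv, Real.log_inv, abs_neg]
    · rw [norm_inv, Real.log_inv]; linarith

end Crest.Agent.R102.G864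

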