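import Mathlib

/-!
# LEMMA G, parts (b), (d) as a pure dyadic tree lemma (helper196)

No function theory.  `H` is the height `1 + |log|F||` at the Whitney box `(n,k)`, `Av` says that the
box is available (inside the sawtooth domain), `Th` that it is thick.  Input: thick boxes have
bounded height, children do not grow by more than `K`, and the weak type estimate for excursions
which start at a non thick box.
-/

open MeasureTheory Set Filter Topology
open scoped ENNReal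

namespace Crest.Agent.R102.TreeG196

/-- dyadic index of `x` at generation `n` -/
noncomputable def bx (n : ℕ) (x : ℝ) : ℤ := ⌊(2:ℝ)^n * x⌋

theorem bx_succ (n : ℕ) (x : ℝ) : bx n x = bx (n+1) x / 2 := by
  unfold bx
  have : (2:ℝ)^(n+1) * x = ((2:ℕ):ℝ) * ((2:ℝ)^n * x) := by push_cast; ring
  rw [this]
  exact (Int.natCast_mul_floor_div_cancel (by norm_num) _).symm

theorem bx_mono {n m : ℕ} (h : n ≤ m) {x y : ℝ} (hxy : bx m x = bx m y) : bx n x = bx n y := by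
  induction h with
  | refl => exact hxy
  | step h ih => exact ih (by rw [bx_succ, bx_succ _ y, hxy])

/-- the dyadic interval -/
def I (n : ℕ) (k : ℤ) : Set ℝ := {x | bx n x = k}

theorem mem_I {n : ℕ} {k : ℤ} {x : ℝ} : x ∈ I n k ↔ bx n x = k := Iff.rfl

theorem self_mem (n : ℕ) (x : ℝ) : x ∈ I n (bx n x) := rfl

theorem I_eq (n : ℕ) (k : ℤ) : I n k = Ico ((k:ℝ)/2^n) (((k:ℝ)+1)/2^n) := by
  ext x
  simp only [I, bx, mem_ofPred_eq, mem_Ico, Int.floor_eq_iff]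
  have h2 : (0:ℝ) < 2^n := by positivity
  rw [div_le_iff₀ h2, lt_div_iff₀ h2, mul_comm x]

theorem meas_I (n : ℕ) (k : ℤ) : MeasurableSet (I n k) := by
  rw [I_eq]; exact measurableSet_Ico

theorem vol_I (n : ℕ) (k : ℤ) : volume (I n k) = ENNReal.ofReal (1/2^n) := by
  rw [I_eq, Real.volume_Ico]
  congr 1
  ring

/-- selection of first boxes -/
theorem sel (X : Set ℝ) (Q : ℕ → ℤ → Prop) (p : ℝ≥0∞) (n : ℕ) (k : ℤ)
    (h : ∀ m, n ≤ m → ∀ x, bx n x = k → Q m (bx m x) →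
      volume (I m (bx m x) ∩ X) ≤ p * volume (I m (bx m x))) :
    volume (I n k ∩ X ∩ {x | ∃ m, n ≤ m ∧ Q m (bx m x)}) ≤ p * volume (I n k) := by
  classical
  set F : Set (ℕ × ℤ) := {q | n ≤ q.1 ∧ ∃ x, bx n x = k ∧ bx q.1 x = q.2 ∧ Q q.1 (bx q.1 x) ∧
    ∀ j, n ≤ j → j < q.1 → ¬ Q j (bx j x)} with hF
  have hFc : F.Countable := F.to_countable
  have hsub : I n k ∩ X ∩ {x | ∃ m, n ≤ m ∧ Q m (bx m x)} ⊆ ⋃ q ∈ F, (I q.1 q.2 ∩ X) := by
    rintro x ⟨⟨hxk, hxX⟩, hx⟩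
    have hx' : ∃ m, n ≤ m ∧ Q m (bx m x) := hx
    have hs := Nat.find_spec hx'
    have hm := fun j (hj : j < Nat.find hx') => Nat.find_min hx' hj
    refine mem_biUnion (x := (Nat.find hx', bx (Nat.find hx') x)) ?_ ⟨rfl, hxX⟩
    refine ⟨hs.1, x, hxk, rfl, hs.2, ?_⟩
    intro j hnj hj hQ
    exact hm j hj ⟨hnj, hQ⟩
  have hdisj : F.PairwiseDisjoint (fun q => I q.1 q.2) := by
    have key : ∀ q ∈ F, ∀ q' ∈ F, q.1 ≤ q'.1 → ∀ z, z ∈ I q.1 q.2 → z ∈ I q'.1 q'.2 → q = q' := by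
      rintro ⟨m, l⟩ ⟨hm, x, hxk, hxl, hQ, hmin⟩ ⟨m', l'⟩ ⟨hm', x', hxk', hxl', hQ', hmin'⟩ hle z hz hz'
      simp only [mem_I] at hz hz' hxl hxl' hle hm hm' hQ hmin hQ' hmin'
      rcases hle.lt_or_eq with hlt | heq
      · exfalso
        apply hmin' m hm hlt
        have : bx m x' = bx m z := bx_mono hle (by rw [hxl', hz'])
        rw [this, hz, ← hxl]; exact hQ
      · subst heq
        rw [Prod.mk.injEq]
        exact ⟨rfl, by rw [← hz, ← hz']⟩
    intro q hq q' hq' hne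
    rw [Function.onFun, Set.disjoint_left]
    intro z hz hz'
    rcases le_total q.1 q'.1 with hle | hle
    · exact hne (key q hq q' hq' hle z hz hz')
    · exact hne (key q' hq' q hq hle z hz' hz).symm
  calc volume (I n k ∩ X ∩ {x | ∃ m, n ≤ m ∧ Q m (bx m x)})
      ≤ volume (⋃ q ∈ F, (I q.1 q.2 ∩ X)) := measure_mono hsub
    _ ≤ ∑' q : F, volume (I q.1.1 q.1.2 ∩ X) := measure_biUnion_le _ hFc _
    _ ≤ ∑' q : F, p * volume (I q.1.1 q.1.2) := by
        refine ENNReal.tsum_le_tsum ?_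
        rintro ⟨⟨m, l⟩, hm, x, hxk, hxl, hQ, hmin⟩
        simp only at hm hxl hQ ⊢
        rw [← hxl]
        exact h m hm x hxk hQ
    _ = p * ∑' q : F, volume (I q.1.1 q.1.2) := ENNReal.tsum_mul_left
    _ = p * volume (⋃ q ∈ F, I q.1 q.2) := by
        rw [measure_biUnion hFc hdisj (fun q _ => meas_I _ _)]
    _ ≤ p * volume (I n k) := by
        gcongr
        refine iUnion₂_subset ?_
        rintro ⟨m, l⟩ ⟨hm, x, hxk, hxl, hQ, hmin⟩ z hz
        simp only [mem_I] at hz hxl hm ⊢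
        rw [← hxk]
        exact bx_mono hm (by rw [hz, hxl])

/-- the data of the tree -/
structure Data (K H0 C θ : ℝ) (N0 : ℕ) (H : ℕ → ℤ → ℝ) (Av Th : ℕ → ℤ → Prop) : Prop where
  thick : ∀ n k, N0 ≤ n → Av n k → Th n k → H n k ≤ H0
  child : ∀ n x, N0 ≤ n → Av n (bx n x) → Av (n+1) (bx (n+1) x) →
    H (n+1) (bx (n+1) x) ≤ K * H n (bx n x)
  weak : ∀ n k l, N0 ≤ n → Av n k → ¬ Th n k → 1 ≤ l →
    volume {x | bx n x = k ∧ ∃ m, n ≤ m ∧ (∀ j, n ≤ j → j ≤ m → Av j (bx j x) ∧ ¬ Th j (bx j x)) ∧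
      l * H n k ≤ H m (bx m x)} ≤ ENNReal.ofReal (C * l^(-θ)) * volume (I n k)

/-- `b = 2^{1/16}` -/
noncomputable def b : ℝ := (2:ℝ)^((1:ℝ)/16)

theorem b_pos : 0 < b := by unfold b; positivity
theorem one_lt_b : 1 < b := by
  unfold b
  exact Real.one_lt_rpow (by norm_num) (by norm_num)
theorem b_le_two : b ≤ 2 := by
  unfold b
  calc (2:ℝ)^((1:ℝ)/16) ≤ (2:ℝ)^(1:ℝ) :=
        Real.rpow_le_rpow_of_exponent_le (by norm_num) (by norm_num)
    _ = 2 := Real.rpow_one _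
theorem b_pow_sixteen : b^16 = 2 := by
  unfold b
  rw [← Real.rpow_natCast, ← Real.rpow_mul (by norm_num)]
  norm_num

theorem lastThick {P : ℕ → Prop} {n : ℕ} (hn : P n) (m : ℕ) (hm : n ≤ m) :
    ∃ j, n ≤ j ∧ j ≤ m ∧ P j ∧ ∀ i, j < i → i ≤ m → ¬ P i := by
  induction m, hm using Nat.le_induction with
  | base => exact ⟨n, le_rfl, le_rfl, hn, fun i h1 h2 => absurd h2 (not_le.2 h1)⟩
  | succ m hm ih =>
    by_cases h : P (m+1)
    · exact ⟨m+1, by omega, le_rfl, h, fun i h1 h2 => absurd h2 (not_le.2 h1)⟩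
    · obtain ⟨j, h1, h2, h3, h4⟩ := ih
      refine ⟨j, h1, by omega, h3, fun i hi hi' => ?_⟩
      rcases Nat.lt_or_ge i (m+1) with h5 | h5
      · exact h4 i hi (by omega)
      · have : i = m+1 := le_antisymm hi' h5
        rw [this]; exact h

section
variable {K H0 C θ : ℝ} {N0 : ℕ} {H : ℕ → ℤ → ℝ} {Av Th : ℕ → ℤ → Prop}

/-- part (b): growth at rate `b^{m-n}` below a thick box -/
theorem stepb (hK : 1 ≤ K) (hH0 : 1 ≤ H0) (hC : 0 ≤ C) (hθ : 0 < θ)
    (D : Data K H0 C θ N0 H Av Th) {n : ℕ} {k : ℤ} (hn : N0 ≤ n) (hth : Th n k)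
    {l : ℝ} (hl : K * H0 ≤ l) :
    volume {x | bx n x = k ∧ ∃ m, n ≤ m ∧ (∀ j, n ≤ j → j ≤ m → Av j (bx j x)) ∧
      l * b^(m-n) < H m (bx m x)} ≤
      ENNReal.ofReal (C * (K*H0)^θ / (1 - b^(-θ)) * l^(-θ)) * volume (I n k) := by
  have hKH : 1 ≤ K * H0 := by nlinarith
  have hKH0 : 0 < K * H0 := by linarith
  have hl1 : 1 ≤ l := le_trans hKH hl
  have hl0 : 0 < l := by linarith
  have hb := one_lt_b
  have hr0 : 0 ≤ b^(-θ) := (Real.rpow_pos_of_pos b_pos _).le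
  have hr1 : b^(-θ) < 1 := Real.rpow_lt_one_of_one_lt_of_neg hb (by linarith)
  set X : ℕ → Set ℝ := fun i => {x | ∃ m, n+i+1 ≤ m ∧
    (∀ j, n+i+1 ≤ j → j ≤ m → Av j (bx j x) ∧ ¬ Th j (bx j x)) ∧
      (l * b^i / (K*H0)) * H (n+i+1) (bx (n+i+1) x) ≤ H m (bx m x)} with hX
  set Q : ℕ → ℕ → ℤ → Prop := fun i m a => m = n+i+1 ∧ Av m a ∧ ¬ Th m a with hQ
  have hsub : {x | bx n x = k ∧ ∃ m, n ≤ m ∧ (∀ j, n ≤ j → j ≤ m → Av j (bx j x)) ∧
      l * b^(m-n) < H m (bx m x)} ⊆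
      ⋃ i : ℕ, (I n k ∩ X i ∩ {x | ∃ m, n ≤ m ∧ Q i m (bx m x)}) := by
    rintro x ⟨hxk, m, hm, hav, hH⟩
    obtain ⟨j, hj1, hj2, hj3, hj4⟩ :=
      lastThick (P := fun j => Th j (bx j x)) (by simpa [hxk] using hth) m hm
    have hbm : (1:ℝ) ≤ b^(m-n) := one_le_pow₀ hb.le
    have hHj : H j (bx j x) ≤ H0 := D.thick j _ (by omega) (hav j hj1 hj2) hj3
    have hjm : j < m := by
      rcases hj2.lt_or_eq with h | h
      · exact h
      · exfalso
        rw [h] at hHj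
        have : H0 ≤ K * H0 := by nlinarith
        nlinarith
    have hH1 : H (j+1) (bx (j+1) x) ≤ K * H0 := by
      have := D.child j x (by omega) (hav j hj1 hj2) (hav (j+1) (by omega) (by omega))
      nlinarith
    obtain ⟨i, rfl⟩ : ∃ i, j = n + i := ⟨j - n, by omega⟩
    refine mem_iUnion.2 ⟨i, ⟨hxk, ?_⟩, ?_⟩
    · refine ⟨m, by omega, fun a ha ha' => ⟨hav a (by omega) ha', hj4 a (by omega) ha'⟩, ?_⟩
      have h1 : (l * b^i / (K*H0)) * H (n+i+1) (bx (n+i+1) x) ≤ (l * b^i / (K*H0)) * (K*H0) := by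
        have : 0 ≤ l * b^i / (K*H0) := by have := b_pos; positivity
        exact mul_le_mul_of_nonneg_left hH1 this
      have h2 : (l * b^i / (K*H0)) * (K*H0) = l * b^i := by field_simp
      have h3 : l * b^i ≤ l * b^(m-n) := by
        apply mul_le_mul_of_nonneg_left _ hl0.le
        exact pow_le_pow_right₀ hb.le (by omega)
      linarith
    · exact ⟨n+i+1, by omega, rfl, hav _ (by omega) (by omega), hj4 _ (by omega) (by omega)⟩
  have hW : ∀ i : ℕ, volume (I n k ∩ X i ∩ {x | ∃ m, n ≤ m ∧ Q i m (bx m x)}) ≤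
      ENNReal.ofReal (C * (K*H0)^θ * l^(-θ) * (b^(-θ))^i) * volume (I n k) := by
    intro i
    refine sel (X i) (Q i) _ n k ?_
    rintro m hm x hxk ⟨rfl, hav, hnt⟩
    have hbi : (1:ℝ) ≤ b^i := one_le_pow₀ hb.le
    have hle : 1 ≤ l * b^i / (K*H0) := by
      rw [le_div_iff₀ hKH0]
      nlinarith
    have := D.weak (n+i+1) (bx (n+i+1) x) (l * b^i / (K*H0)) (by omega) hav hnt hle
    have hpow : (l * b^i / (K*H0))^(-θ) = (K*H0)^θ * l^(-θ) * (b^(-θ))^i := by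
      rw [Real.div_rpow (by have := b_pos; positivity) hKH0.le,
        Real.mul_rpow hl0.le (by have := b_pos; positivity), Real.rpow_neg hKH0.le θ]
      rw [← Real.rpow_natCast b i, ← Real.rpow_natCast (b^(-θ)) i, ← Real.rpow_mul b_pos.le,
        ← Real.rpow_mul b_pos.le]
      rw [div_inv_eq_mul, mul_comm (i:ℝ) (-θ)]
      ring
    calc volume (I (n+i+1) (bx (n+i+1) x) ∩ X i)
        ≤ volume {y | bx (n+i+1) y = bx (n+i+1) x ∧ ∃ m, n+i+1 ≤ m ∧
            (∀ j, n+i+1 ≤ j → j ≤ m → Av j (bx j y) ∧ ¬ Th j (bx j y)) ∧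
            (l * b^i / (K*H0)) * H (n+i+1) (bx (n+i+1) x) ≤ H m (bx m y)} := by
          apply measure_mono
          rintro y ⟨hy1, m, hm, hy2, hy3⟩
          rw [mem_I] at hy1
          rw [hy1] at hy3
          exact ⟨hy1, m, hm, hy2, hy3⟩
      _ ≤ _ := this
      _ = _ := by rw [hpow]; congr 2; ring
  calc volume _ ≤ volume (⋃ i : ℕ, (I n k ∩ X i ∩ {x | ∃ m, n ≤ m ∧ Q i m (bx m x)})) :=
        measure_mono hsub
    _ ≤ ∑' i : ℕ, volume (I n k ∩ X i ∩ {x | ∃ m, n ≤ m ∧ Q i m (bx m x)}) := measure_iUnion_le _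
    _ ≤ ∑' i : ℕ, ENNReal.ofReal (C * (K*H0)^θ * l^(-θ) * (b^(-θ))^i) * volume (I n k) :=
        ENNReal.tsum_le_tsum hW
    _ = (∑' i : ℕ, ENNReal.ofReal (C * (K*H0)^θ * l^(-θ) * (b^(-θ))^i)) * volume (I n k) :=
        ENNReal.tsum_mul_right
    _ = ENNReal.ofReal (∑' i : ℕ, C * (K*H0)^θ * l^(-θ) * (b^(-θ))^i) * volume (I n k) := by
        rw [ENNReal.ofReal_tsum_of_nonneg]
        · intro i; positivity
        · exact (summable_geometric_of_lt_one hr0 hr1).mul_left _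
    _ = _ := by
        rw [tsum_mul_left, tsum_geometric_of_lt_one hr0 hr1]
        congr 2
        field_simp

/-- `S ≤ L`: the height at the ancestors is at most `L * 2^{(n-j)/2}`; `b^8 = √2`. -/
def SLe (N0 : ℕ) (H : ℕ → ℤ → ℝ) (L : ℝ) (n : ℕ) (x : ℝ) : Prop :=
  ∀ j, N0 ≤ j → j ≤ n → H j (bx j x) ≤ L * (b^8)^(n-j)

theorem SLe_congr {L : ℝ} {n : ℕ} {x y : ℝ} (h : bx n x = bx n y) (hx : SLe N0 H L n x) :
    SLe N0 H L n y := by
  intro j h1 h2
  rw [← bx_mono h2 h]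
  exact hx j h1 h2

theorem SLe_mono {L L' : ℝ} {n : ℕ} {x : ℝ} (h : L ≤ L') (hx : SLe N0 H L n x) :
    SLe N0 H L' n x := by
  intro j h1 h2
  refine (hx j h1 h2).trans ?_
  have := b_pos
  gcongr

/-- the points to which the statement applies -/
def B (N0 : ℕ) (Av Th : ℕ → ℤ → Prop) : Set ℝ :=
  {x | (∀ n, N0 ≤ n → Av n (bx n x)) ∧ ∀ N, ∃ n, N ≤ n ∧ Th n (bx n x)}

/-- part (d1): one step of the descent -/
theorem stepd (hK : 1 ≤ K) (hH0 : 1 ≤ H0) (hC : 0 ≤ C) (hθ : 0 < θ)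
    (D : Data K H0 C θ N0 H Av Th) {n : ℕ} {k : ℤ} (hn : N0 ≤ n) (hth : Th n k)
    {M : ℝ} (hM : K * H0 ≤ M) (hM2 : 2 ≤ M) (hS : ∀ x, bx n x = k → SLe N0 H (M^8) n x) :
    volume (I n k ∩ B N0 Av Th ∩ {x | ∀ m, n ≤ m → Th m (bx m x) → ¬ SLe N0 H (M^4) m x}) ≤
      ENNReal.ofReal ((C * (K*H0)^θ / (1 - b^(-θ)) + C) * M^(-θ)) * volume (I n k) := by
  have hKH : 1 ≤ K * H0 := by nlinarith
  have hH0M : H0 ≤ M := by nlinarith
  have hM1 : 1 ≤ M := by linarith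
  have hM0 : 0 < M := by linarith
  have hb := one_lt_b
  have hb0 := b_pos
  -- choice of r
  obtain ⟨r, hr1, hr2⟩ : ∃ r : ℕ, M ≤ b^r ∧ b^r ≤ 2 * M := by
    have hex : ∃ r : ℕ, M ≤ b^r := by
      obtain ⟨r, hr⟩ := pow_unbounded_of_one_lt M hb
      exact ⟨r, hr.le⟩
    classical
    refine ⟨Nat.find hex, Nat.find_spec hex, ?_⟩
    rcases Nat.eq_zero_or_pos (Nat.find hex) with h | h
    · rw [h, pow_zero]; linarith
    · obtain ⟨q, hq⟩ : ∃ q, Nat.find hex = q + 1 := ⟨Nat.find hex - 1, by omega⟩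
      have := Nat.find_min hex (m := q) (by omega)
      rw [hq, pow_succ]
      have hb2 := b_le_two
      push Not at this
      have hq0 : 0 < b^q := by positivity
      nlinarith
  have hs1 : (1:ℝ) ≤ b^8 := one_le_pow₀ hb.le
  set X : Set ℝ := {x | ∃ m, n+r ≤ m ∧
    (∀ j, n+r ≤ j → j ≤ m → Av j (bx j x) ∧ ¬ Th j (bx j x)) ∧
      M * H (n+r) (bx (n+r) x) ≤ H m (bx m x)} with hX
  set Q : ℕ → ℤ → Prop := fun m a => m = n+r ∧ Av m a ∧ ¬ Th m a with hQ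
  have hsub : I n k ∩ B N0 Av Th ∩ {x | ∀ m, n ≤ m → Th m (bx m x) → ¬ SLe N0 H (M^4) m x} ⊆
      {x | bx n x = k ∧ ∃ m, n ≤ m ∧ (∀ j, n ≤ j → j ≤ m → Av j (bx j x)) ∧
      M * b^(m-n) < H m (bx m x)} ∪ (I n k ∩ X ∩ {x | ∃ m, n ≤ m ∧ Q m (bx m x)}) := by
    rintro x ⟨⟨hxk, hxB⟩, hbad⟩
    by_contra hcon
    rw [mem_union, not_or] at hcon
    obtain ⟨hc1, hc2⟩ := hcon
    have hav : ∀ j, n ≤ j → Av j (bx j x) := fun j hj => hxB.1 j (by omega)
    have hgr : ∀ m, n ≤ m → H m (bx m x) ≤ M * b^(m-n) := by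
      intro m hm
      by_contra h
      exact hc1 ⟨hxk, m, hm, fun j hj _ => hav j hj, not_le.1 h⟩
    -- bound at generation n+r
    have hS1 : SLe N0 H (2*M^2) (n+r) x := by
      intro j hj1 hj2
      rcases le_total j n with hjn | hjn
      · have h1 := hS x hxk j hj1 hjn
        have h2 : (b^8)^(n+r-j) = (b^8)^(n-j) * (b^r)^8 := by
          rw [show n+r-j = (n-j) + r by omega, pow_add, ← pow_mul, ← pow_mul, ← pow_mul,
            mul_comm r 8]
        have h3 : M^8 ≤ (b^r)^8 := by gcongr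
        have h4 : 0 ≤ (b^8)^(n-j) := by positivity
        calc H j (bx j x) ≤ M^8 * (b^8)^(n-j) := h1
          _ ≤ (b^r)^8 * (b^8)^(n-j) := by gcongr
          _ = 1 * (b^8)^(n+r-j) := by rw [h2]; ring
          _ ≤ 2*M^2 * (b^8)^(n+r-j) := by
              have : (1:ℝ) ≤ 2*M^2 := by nlinarith
              gcongr
      · have h1 := hgr j hjn
        have h2 : b^(j-n) ≤ b^r := pow_le_pow_right₀ hb.le (by omega)
        have h3 : (1:ℝ) ≤ (b^8)^(n+r-j) := one_le_pow₀ hs1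
        calc H j (bx j x) ≤ M * b^(j-n) := h1
          _ ≤ M * (2*M) := by gcongr; exact h2.trans hr2
          _ = 2*M^2 * 1 := by ring
          _ ≤ 2*M^2 * (b^8)^(n+r-j) := by gcongr
    -- first thick after n+r
    classical
    have hex : ∃ m, n+r ≤ m ∧ Th m (bx m x) := hxB.2 (n+r)
    set m := Nat.find hex with hmdef
    obtain ⟨hm1, hm2⟩ := Nat.find_spec hex
    have hm3 : ∀ j, n+r ≤ j → j < m → ¬ Th j (bx j x) := fun j hj1 hj2 hj3 =>
      Nat.find_min hex hj2 ⟨hj1, hj3⟩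
    rw [← hmdef] at hm1 hm2
    refine hbad m (by omega) hm2 ?_
    rcases hm1.eq_or_lt with heq | hlt
    · rw [← heq]
      refine SLe_mono ?_ hS1
      nlinarith [mul_nonneg hM0.le hM0.le, sq_nonneg (M^2-2), pow_pos hM0 2]
    · -- the run n+r..m-1 is non thick
      have hrun : ∀ i, n+r ≤ i → i < m → H i (bx i x) ≤ M * (2*M^2) := by
        intro i hi1 hi2
        have hbase : H (n+r) (bx (n+r) x) ≤ 2*M^2 := by
          have := hS1 (n+r) (by omega) le_rfl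
          simpa using this
        by_contra hcon
        push Not at hcon
        apply hc2
        refine ⟨⟨hxk, i, hi1, fun j hj1 hj2 => ⟨hav j (by omega), hm3 j hj1 (by omega)⟩, ?_⟩,
          n+r, by omega, rfl, hav _ (by omega), hm3 _ le_rfl hlt⟩
        nlinarith
      intro j hj1 hj2
      rcases le_total j (n+r) with hjn | hjn
      · have h1 := hS1 j hj1 hjn
        have h2 : (b^8)^(n+r-j) ≤ (b^8)^(m-j) := pow_le_pow_right₀ hs1 (by omega)
        have h3 : 2*M^2 ≤ M^4 := by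
          nlinarith [mul_nonneg hM0.le hM0.le, sq_nonneg (M^2-2), pow_pos hM0 2]
        calc H j (bx j x) ≤ 2*M^2 * (b^8)^(n+r-j) := h1
          _ ≤ M^4 * (b^8)^(m-j) := by gcongr
      · have h3 : (1:ℝ) ≤ (b^8)^(m-j) := one_le_pow₀ hs1
        rcases hj2.lt_or_eq with hjm | hjm
        · have h1 := hrun j hjn hjm
          have h4 : M * (2*M^2) ≤ M^4 := by nlinarith [pow_pos hM0 3]
          calc H j (bx j x) ≤ M^4 * 1 := by linarith
            _ ≤ M^4 * (b^8)^(m-j) := by gcongr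
        · have h1 : H j (bx j x) ≤ H0 := D.thick j _ (by omega) (hav j (by omega))
            (by rw [hjm]; exact hm2)
          have h4 : M ≤ M^4 := by
            calc M = M^1 := (pow_one M).symm
              _ ≤ M^4 := pow_le_pow_right₀ hM1 (by norm_num)
          calc H j (bx j x) ≤ M^4 * 1 := by linarith
            _ ≤ M^4 * (b^8)^(m-j) := by gcongr
  have hW : volume (I n k ∩ X ∩ {x | ∃ m, n ≤ m ∧ Q m (bx m x)}) ≤
      ENNReal.ofReal (C * M^(-θ)) * volume (I n k) := by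
    refine sel X Q _ n k ?_
    rintro m hm x hxk ⟨rfl, hav, hnt⟩
    refine le_trans (measure_mono ?_)
      (D.weak (n+r) (bx (n+r) x) M (by omega) hav hnt hM1)
    rintro y ⟨hy1, m, hm, hy2, hy3⟩
    rw [mem_I] at hy1
    rw [hy1] at hy3
    exact ⟨hy1, m, hm, hy2, hy3⟩
  have hr1' : b^(-θ) < 1 := Real.rpow_lt_one_of_one_lt_of_neg hb (by linarith)
  have hden : 0 < 1 - b^(-θ) := by linarith
  have hKHt : 0 ≤ (K*H0)^θ := Real.rpow_nonneg (by linarith) _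
  have hMt : 0 ≤ M^(-θ) := Real.rpow_nonneg hM0.le _
  calc _ ≤ volume ({x | bx n x = k ∧ ∃ m, n ≤ m ∧ (∀ j, n ≤ j → j ≤ m → Av j (bx j x)) ∧
      M * b^(m-n) < H m (bx m x)} ∪ (I n k ∩ X ∩ {x | ∃ m, n ≤ m ∧ Q m (bx m x)})) :=
        measure_mono hsub
    _ ≤ _ := measure_union_le _ _
    _ ≤ ENNReal.ofReal (C * (K*H0)^θ / (1 - b^(-θ)) * M^(-θ)) * volume (I n k) +
        ENNReal.ofReal (C * M^(-θ)) * volume (I n k) :=
        add_le_add (stepb hK hH0 hC hθ D hn hth hM) hW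
    _ = _ := by
        rw [← add_mul, ← ENNReal.ofReal_add (by positivity) (by positivity)]
        congr 2; ring

/-- part (d2): the iteration -/
theorem iter (hK : 1 ≤ K) (hH0 : 1 ≤ H0) (hC : 0 ≤ C) (hθ : 0 < θ)
    (D : Data K H0 C θ N0 H Av Th) {m : ℝ} (hm : K * H0 ≤ m) (hm2 : 2 ≤ m)
    (hq : m^(-θ) ≤ 1/2) (hq2 : (C * (K*H0)^θ / (1 - b^(-θ)) + C) * m^(-θ) ≤ 1/4) (i : ℕ) :
    ∀ {n : ℕ} {k : ℤ}, N0 ≤ n → Th n k →
      (∀ x, bx n x = k → SLe N0 H ((m^(2^i))^4) n x) →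
      volume (I n k ∩ (B N0 Av Th ∩ {x | ∀ j, n ≤ j → Th j (bx j x) → ¬ SLe N0 H (m^4) j x})) ≤
        ENNReal.ofReal (1/2 - 1/2 * (1/2)^i) * volume (I n k) := by
  have hm1 : 1 ≤ m := by linarith
  have hm0 : 0 < m := by linarith
  induction i with
  | zero =>
    intro n k hn hth hS
    have : I n k ∩ (B N0 Av Th ∩ {x | ∀ j, n ≤ j → Th j (bx j x) → ¬ SLe N0 H (m^4) j x}) = ∅ := by
      rw [eq_empty_iff_forall_notMem]
      rintro x ⟨hxk, hxB, hbad⟩
      rw [mem_I] at hxk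
      refine hbad n le_rfl (by rw [hxk]; exact hth) ?_
      have := hS x hxk
      simpa using this
    rw [this]
    simp
  | succ i ih =>
    intro n k hn hth hS
    set M : ℝ := m^(2^i) with hM
    have hmM : m ≤ M := by
      rw [hM]
      exact le_self_pow₀ hm1 (by positivity)
    have hS' : ∀ x, bx n x = k → SLe N0 H (M^8) n x := by
      intro x hx
      have := hS x hx
      have h2 : (m^(2^(i+1)))^4 = M^8 := by
        rw [hM, ← pow_mul, ← pow_mul]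
        congr 1
        ring
      rwa [h2] at this
    have hd := stepd hK hH0 hC hθ D hn hth (hm.trans hmM) (hm2.trans hmM) hS'
    set Q : ℕ → ℤ → Prop := fun j a => Th j a ∧ ∀ y, bx j y = a → SLe N0 H (M^4) j y with hQ
    set Bad : Set ℝ := {x | ∀ j, n ≤ j → Th j (bx j x) → ¬ SLe N0 H (m^4) j x} with hBad
    have hsub : I n k ∩ (B N0 Av Th ∩ Bad) ⊆
        (I n k ∩ B N0 Av Th ∩ {x | ∀ m, n ≤ m → Th m (bx m x) → ¬ SLe N0 H (M^4) m x}) ∪
        (I n k ∩ (B N0 Av Th ∩ Bad) ∩ {x | ∃ j, n ≤ j ∧ Q j (bx j x)}) := by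
      rintro x ⟨hxk, hxB, hbad⟩
      by_cases h : ∃ j, n ≤ j ∧ Q j (bx j x)
      · exact Or.inr ⟨⟨hxk, hxB, hbad⟩, h⟩
      · left
        refine ⟨⟨hxk, hxB⟩, ?_⟩
        intro j hj hthj hSj
        exact h ⟨j, hj, hthj, fun y hy => SLe_congr hy.symm hSj⟩
    have hsel : volume (I n k ∩ (B N0 Av Th ∩ Bad) ∩ {x | ∃ j, n ≤ j ∧ Q j (bx j x)}) ≤
        ENNReal.ofReal (1/2 - 1/2 * (1/2)^i) * volume (I n k) := by
      refine sel _ Q _ n k ?_
      rintro j hj x hxk ⟨hthj, hSj⟩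
      refine le_trans (measure_mono ?_) (ih (by omega) hthj hSj)
      rintro y ⟨hy, hyB, hybad⟩
      exact ⟨hy, hyB, fun a ha => hybad a (by omega)⟩
    have hr1' : b^(-θ) < 1 := Real.rpow_lt_one_of_one_lt_of_neg one_lt_b (by linarith)
    have hden : 0 < 1 - b^(-θ) := by linarith
    have hKHt : 0 ≤ (K*H0)^θ := Real.rpow_nonneg (by nlinarith) _
    set A : ℝ := C * (K*H0)^θ / (1 - b^(-θ)) + C with hA
    have hA0 : 0 ≤ A := by positivity
    set q : ℝ := m^(-θ) with hqdef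
    have hq0 : 0 ≤ q := Real.rpow_nonneg hm0.le _
    have hMq : M^(-θ) = q^(2^i) := by
      rw [hM, hqdef, ← Real.rpow_natCast, ← Real.rpow_natCast, ← Real.rpow_mul hm0.le,
        ← Real.rpow_mul hm0.le, mul_comm]
    have hpw : q^(2^i) ≤ q * (1/2)^i := by
      have h1 : q^(2^i) ≤ q^(i+1) :=
        pow_le_pow_of_le_one hq0 (by linarith) (Nat.lt_two_pow_self)
      have h2 : q^i ≤ (1/2)^i := pow_le_pow_left₀ hq0 hq i
      calc q^(2^i) ≤ q^(i+1) := h1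
        _ = q * q^i := by ring
        _ ≤ q * (1/2)^i := by gcongr
    have hfin : A * M^(-θ) ≤ 1/4 * (1/2)^i := by
      rw [hMq]
      calc A * q^(2^i) ≤ A * (q * (1/2)^i) := by gcongr
        _ = (A * q) * (1/2)^i := by ring
        _ ≤ 1/4 * (1/2)^i := by gcongr
    have hhalf : ((1:ℝ)/2)^i ≤ 1 := pow_le_one₀ (by norm_num) (by norm_num)
    calc _ ≤ _ := measure_mono hsub
      _ ≤ _ := measure_union_le _ _
      _ ≤ ENNReal.ofReal (A * M^(-θ)) * volume (I n k) +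
          ENNReal.ofReal (1/2 - 1/2 * (1/2)^i) * volume (I n k) := add_le_add hd hsel
      _ = ENNReal.ofReal (A * M^(-θ) + (1/2 - 1/2 * (1/2)^i)) * volume (I n k) := by
          rw [← add_mul, ← ENNReal.ofReal_add]
          · rw [hMq]; positivity
          · linarith
      _ ≤ _ := by
          gcongr
          rw [pow_succ]
          linarith

/-- density step: the bad set is null -/
theorem null (hK : 1 ≤ K) (hH0 : 1 ≤ H0) (hC : 0 ≤ C) (hθ : 0 < θ)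
    (D : Data K H0 C θ N0 H Av Th) {m : ℝ} (hm : K * H0 ≤ m) (hm2 : 2 ≤ m)
    (hq : m^(-θ) ≤ 1/2) (hq2 : (C * (K*H0)^θ / (1 - b^(-θ)) + C) * m^(-θ) ≤ 1/4) (N : ℕ) :
    volume (B N0 Av Th ∩ {x | ∀ j, N ≤ j → Th j (bx j x) → ¬ SLe N0 H (m^4) j x}) = 0 := by
  set E : Set ℝ := B N0 Av Th ∩ {x | ∀ j, N ≤ j → Th j (bx j x) → ¬ SLe N0 H (m^4) j x} with hE
  by_contra hne
  have hm1 : 1 ≤ m := by linarith
  -- a density point
  have hae := IsUnifLocDoublingMeasure.ae_tendsto_measure_inter_div (volume : Measure ℝ) E 1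
  have hmem : ∃ x ∈ E, ∀ {ι : Type} {l : Filter ι} (w : ι → ℝ) (δ : ι → ℝ),
      Tendsto δ l (𝓝[>] 0) → (∀ᶠ j in l, x ∈ Metric.closedBall (w j) (1 * δ j)) →
      Tendsto (fun j => volume (E ∩ Metric.closedBall (w j) (δ j)) /
        volume (Metric.closedBall (w j) (δ j))) l (𝓝 1) := by
    by_contra hcon
    push Not at hcon
    apply hne
    rw [ae_iff] at hae
    have h1 : E ⊆ E ∩ {a | ¬∀ {ι : Type} {l : Filter ι} (w : ι → ℝ) (δ : ι → ℝ),
      Tendsto δ l (𝓝[>] 0) → (∀ᶠ j in l, a ∈ Metric.closedBall (w j) (1 * δ j)) →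
      Tendsto (fun j => volume (E ∩ Metric.closedBall (w j) (δ j)) /
        volume (Metric.closedBall (w j) (δ j))) l (𝓝 1)} := by
      intro x hx
      refine ⟨hx, ?_⟩
      obtain ⟨ι, l, w, δ, h1, h2, h3⟩ := hcon x hx
      intro h
      exact h3 (h w δ h1 h2)
    have h2 := Measure.le_restrict_apply (μ := volume) E
      {a | ¬∀ {ι : Type} {l : Filter ι} (w : ι → ℝ) (δ : ι → ℝ),
      Tendsto δ l (𝓝[>] 0) → (∀ᶠ j in l, a ∈ Metric.closedBall (w j) (1 * δ j)) →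
      Tendsto (fun j => volume (E ∩ Metric.closedBall (w j) (δ j)) /
        volume (Metric.closedBall (w j) (δ j))) l (𝓝 1)}
    rw [hae, inter_comm] at h2
    exact le_antisymm ((measure_mono h1).trans h2) bot_le
  obtain ⟨x, hxE, hx⟩ := hmem
  set w : ℕ → ℝ := fun n => ((bx n x : ℝ) + 1/2) / 2^n with hw
  set δ : ℕ → ℝ := fun n => (1/2) / 2^n with hδ
  have hball : ∀ n, Metric.closedBall (w n) (δ n) = Icc ((bx n x : ℝ)/2^n) (((bx n x : ℝ)+1)/2^n) := by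
    intro n
    rw [Real.closedBall_eq_Icc, hw, hδ]
    congr 1
    · simp only; ring
    · simp only; ring
  have hIx : ∀ n, x ∈ I n (bx n x) := fun n => rfl
  have hlim := hx w δ (l := atTop) (by
    rw [tendsto_nhdsWithin_iff]
    constructor
    · have h1 : Tendsto (fun n : ℕ => (1/2:ℝ) * (1/2)^n) atTop (𝓝 ((1/2) * 0)) :=
        (tendsto_pow_atTop_nhds_zero_of_lt_one (by norm_num) (by norm_num)).const_mul _
      rw [mul_zero] at h1
      refine h1.congr (fun n => ?_)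
      rw [hδ]; simp only
      rw [one_div, inv_pow]; ring
    · filter_upwards with n
      rw [hδ]; simp only [mem_Ioi]; positivity) (by
    filter_upwards with n
    rw [one_mul, hball]
    have := hIx n
    rw [I_eq] at this
    exact ⟨this.1, this.2.le⟩)
  have hev : ∀ᶠ n in atTop, ENNReal.ofReal (1/2) < volume (E ∩ Metric.closedBall (w n) (δ n)) /
        volume (Metric.closedBall (w n) (δ n)) := by
    refine hlim.eventually_const_lt ?_
    rw [← ENNReal.ofReal_one]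
    exact (ENNReal.ofReal_lt_ofReal_iff (by norm_num)).2 (by norm_num)
  obtain ⟨N1, hN1⟩ := eventually_atTop.1 hev
  obtain ⟨n, hn, hth⟩ := hxE.1.2 (max N1 (max N N0))
  have hnN1 : N1 ≤ n := le_trans (le_max_left _ _) hn
  have hnN : N ≤ n := le_trans ((le_max_left _ _).trans (le_max_right _ _)) hn
  have hnN0 : N0 ≤ n := le_trans ((le_max_right _ _).trans (le_max_right _ _)) hn
  have h1 := hN1 n hnN1
  -- finite S
  obtain ⟨i, hi⟩ : ∃ i : ℕ, ∑ j ∈ Finset.range (n+1), |H j (bx j x)| ≤ (i:ℝ) := exists_nat_ge _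
  have hSx : SLe N0 H ((m^(2^i))^4) n x := by
    intro j hj1 hj2
    have h2 : |H j (bx j x)| ≤ ∑ j ∈ Finset.range (n+1), |H j (bx j x)| :=
      Finset.single_le_sum (f := fun j => |H j (bx j x)|) (fun _ _ => abs_nonneg _)
        (Finset.mem_range.2 (by omega))
    have h3 : (i:ℝ) ≤ m^(2^i) := by
      have h4 : (i:ℝ) ≤ ((2^i : ℕ) : ℝ) := by exact_mod_cast (Nat.lt_two_pow_self).le
      have h5 : (((2^i : ℕ) : ℕ) : ℝ) ≤ ((2^(2^i) : ℕ) : ℝ) := by
        exact_mod_cast (Nat.lt_two_pow_self).le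
      have h6 : ((2^(2^i) : ℕ) : ℝ) ≤ m^(2^i) := by
        push_cast
        exact pow_le_pow_left₀ (by norm_num) hm2 _
      linarith
    have h7 : (1:ℝ) ≤ m^(2^i) := one_le_pow₀ hm1
    have h8 : m^(2^i) ≤ (m^(2^i))^4 := le_self_pow₀ h7 (by norm_num)
    have h9 : (1:ℝ) ≤ (b^8)^(n-j) := one_le_pow₀ (one_le_pow₀ one_lt_b.le)
    have h10 : 0 ≤ (m^(2^i))^4 := by linarith
    have h11 := le_abs_self (H j (bx j x))
    nlinarith
  have h2 := iter hK hH0 hC hθ D hm hm2 hq hq2 i (k := bx n x) hnN0 hth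
    (fun y hy => SLe_congr hy.symm hSx)
  have hvolball : volume (Metric.closedBall (w n) (δ n)) = volume (I n (bx n x)) := by
    rw [hball, I_eq, Real.volume_Icc, Real.volume_Ico]
  have hvolI : volume (I n (bx n x)) ≠ 0 := by
    rw [vol_I]
    exact (ENNReal.ofReal_pos.2 (by positivity)).ne'
  have hvolI' : volume (I n (bx n x)) ≠ ⊤ := by
    rw [vol_I]
    exact ENNReal.ofReal_ne_top
  have h3 : volume (E ∩ Metric.closedBall (w n) (δ n)) ≤
      ENNReal.ofReal (1/2) * volume (I n (bx n x)) := by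
    have hsub : E ∩ Metric.closedBall (w n) (δ n) ⊆
        (I n (bx n x) ∩ (B N0 Av Th ∩ {x | ∀ j, n ≤ j → Th j (bx j x) → ¬ SLe N0 H (m^4) j x})) ∪
        {(((bx n x : ℝ)+1)/2^n)} := by
      rintro y ⟨hyE, hyb⟩
      rw [hball] at hyb
      rcases hyb.2.lt_or_eq with h | h
      · left
        refine ⟨by rw [I_eq]; exact ⟨hyb.1, h⟩, hyE.1, fun j hj => hyE.2 j (by omega)⟩
      · right; exact h
    calc _ ≤ _ := measure_mono hsub
      _ ≤ _ := measure_union_le _ _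
      _ ≤ ENNReal.ofReal (1/2 - 1/2 * (1/2)^i) * volume (I n (bx n x)) + 0 := by
          refine add_le_add h2 ?_
          rw [Real.volume_singleton]
      _ ≤ _ := by
          rw [add_zero]
          gcongr
          have : (0:ℝ) ≤ 1/2 * (1/2)^i := by positivity
          linarith
  rw [hvolball] at h1
  have h4 : volume (E ∩ Metric.closedBall (w n) (δ n)) / volume (I n (bx n x)) ≤
      ENNReal.ofReal (1/2) := by
    exact ENNReal.div_le_of_le_mul h3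
  exact absurd h1 (not_lt.2 h4)

end

/-- **LEMMA G, tree part** ((b) + (d)).  The constant depends only on `K, H0, C, θ`. -/
theorem tree {K H0 C θ : ℝ} (hK : 1 ≤ K) (hH0 : 1 ≤ H0) (hC : 0 ≤ C) (hθ : 0 < θ) :
    ∃ Cs : ℝ, 1 ≤ Cs ∧ ∀ (N0 : ℕ) (H : ℕ → ℤ → ℝ) (Av Th : ℕ → ℤ → Prop),
      Data K H0 C θ N0 H Av Th →
      ∀ᵐ x : ℝ, (∀ n, N0 ≤ n → Av n (bx n x)) → (∀ N, ∃ n, N ≤ n ∧ Th n (bx n x)) →
        ∀ N, ∃ n, N ≤ n ∧ Th n (bx n x) ∧
          ∀ j, N0 ≤ j → j ≤ n → H j (bx j x) ≤ Cs * (2:ℝ)^(((n:ℝ)-j)/2) := by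
  -- choice of m
  have hr1' : b^(-θ) < 1 := Real.rpow_lt_one_of_one_lt_of_neg one_lt_b (by linarith)
  have hden : 0 < 1 - b^(-θ) := by linarith
  have hKHt : 0 ≤ (K*H0)^θ := Real.rpow_nonneg (by nlinarith) _
  obtain ⟨A, hA⟩ : ∃ A, A = C * (K*H0)^θ / (1 - b^(-θ)) + C := ⟨_, rfl⟩
  have hA0 : 0 ≤ A := by rw [hA]; positivity
  have ht := tendsto_rpow_neg_atTop hθ
  have h1 : ∀ᶠ m : ℝ in atTop, m^(-θ) ≤ 1/2 := (ht.eventually_le_const (by norm_num))
  have h2 : ∀ᶠ m : ℝ in atTop, A * m^(-θ) ≤ 1/4 := by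
    have := ht.const_mul A
    rw [mul_zero] at this
    exact this.eventually_le_const (by norm_num)
  obtain ⟨m, ⟨⟨hm1, hm2⟩, hm3⟩, hm4⟩ := (((h1.and h2).and (eventually_ge_atTop (2:ℝ))).and
    (eventually_ge_atTop (K*H0))).exists
  refine ⟨m^4, one_le_pow₀ (by linarith), ?_⟩
  intro N0 H Av Th D
  have hall : ∀ᵐ x : ℝ, ∀ N : ℕ,
      x ∉ B N0 Av Th ∩ {x | ∀ j, N ≤ j → Th j (bx j x) → ¬ SLe N0 H (m^4) j x} := by
    rw [ae_all_iff]
    intro N
    have := null hK hH0 hC hθ D hm4 hm3 hm1 (by rw [← hA]; exact hm2) N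
    exact measure_eq_zero_iff_ae_notMem.1 this
  filter_upwards [hall] with x hx hav hth N
  have h3 := hx N
  by_contra hcon
  push Not at hcon
  apply h3
  refine ⟨⟨hav, hth⟩, ?_⟩
  intro j hj hthj hS
  obtain ⟨a, ha1, ha2, ha3⟩ := hcon j hj hthj
  have h4 := hS a ha1 ha2
  have h5 : ((b^8)^(j-a) : ℝ) = (2:ℝ)^(((j:ℝ)-a)/2) := by
    rw [← pow_mul, ← Real.rpow_natCast b]
    unfold b
    rw [← Real.rpow_mul (by norm_num)]
    congr 1
    push_cast [Nat.cast_sub ha2]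
    ring
  rw [h5] at h4
  exact absurd h4 (not_le.2 ha3)

/-- the form of 672 #24574: the weak type estimate is only known above a level `H1`. -/
theorem tree_H1 {K H0 H1 C θ : ℝ} (hK : 1 ≤ K) (hH0 : 1 ≤ H0) (hθ : 0 < θ) :
    ∃ Cs : ℝ, 1 ≤ Cs ∧ ∀ (N0 : ℕ) (H : ℕ → ℤ → ℝ) (Av Th : ℕ → ℤ → Prop),
      (∀ n k, 1 ≤ H n k) →
      (∀ n k, N0 ≤ n → Av n k → Th n k → H n k ≤ H0) →
      (∀ n x, N0 ≤ n → Av n (bx n x) → Av (n+1) (bx (n+1) x) →
        H (n+1) (bx (n+1) x) ≤ K * H n (bx n x)) →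
      (∀ n k l, N0 ≤ n → Av n k → 1 ≤ l →
        volume {x | x ∈ I n k ∧ ∃ m, n ≤ m ∧
          (∀ j, n ≤ j → j ≤ m → Av j (bx j x) ∧ ¬ Th j (bx j x)) ∧
          max (l * H n k) H1 ≤ H m (bx m x)} ≤ ENNReal.ofReal (C * l^(-θ) / 2^n)) →
      ∀ᵐ x : ℝ, (∀ n, N0 ≤ n → Av n (bx n x)) → (∀ N, ∃ n, N ≤ n ∧ Th n (bx n x)) →
        ∀ N, ∃ n, N ≤ n ∧ Th n (bx n x) ∧
          ∀ j, N0 ≤ j → j ≤ n → H j (bx j x) ≤ Cs * (2:ℝ)^(((n:ℝ)-j)/2) := by
  set H1' : ℝ := max H1 1 with hH1'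
  have hH1'1 : 1 ≤ H1' := le_max_right _ _
  set C' : ℝ := max C (H1'^θ) with hC'
  have hC'0 : 0 ≤ C' := le_trans (Real.rpow_nonneg (by linarith) _) (le_max_right _ _)
  obtain ⟨Cs, hCs, h⟩ := tree (C := C') hK hH0 hC'0 hθ
  refine ⟨Cs, hCs, ?_⟩
  intro N0 H Av Th h1 hT1 hT2 hT3
  refine h N0 H Av Th ⟨hT1, hT2, ?_⟩
  intro n k l hn hav hnt hl
  have hl0 : 0 < l := by linarith
  rw [vol_I, ← ENNReal.ofReal_mul (by positivity)]
  rcases le_or_gt H1 (l * H n k) with hle | hlt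
  · have h2 := hT3 n k l hn hav hl
    rw [max_eq_left hle] at h2
    refine h2.trans (ENNReal.ofReal_le_ofReal ?_)
    rw [div_eq_mul_one_div]
    gcongr
    exact le_max_left _ _
  · have h3 : l ≤ H1' := by
      have := h1 n k
      have h4 : H1 ≤ H1' := le_max_left _ _
      nlinarith
    have h4 : 1 ≤ C' * l^(-θ) := by
      have h5 : H1'^θ * H1'^(-θ) = 1 := by
        rw [← Real.rpow_add (by linarith)]; simp
      have h6 : H1'^(-θ) ≤ l^(-θ) := Real.rpow_le_rpow_of_nonpos hl0 h3 (by linarith)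
      have h7 : 0 ≤ H1'^θ := Real.rpow_nonneg (by linarith) _
      calc 1 = H1'^θ * H1'^(-θ) := h5.symm
        _ ≤ C' * l^(-θ) := by
          gcongr
          exact le_max_right _ _
    calc _ ≤ volume (I n k) := measure_mono (fun x hx => hx.1)
      _ = ENNReal.ofReal (1/2^n) := vol_I n k
      _ ≤ _ := by
        apply ENNReal.ofReal_le_ofReal
        have : (0:ℝ) ≤ 1/2^n := by positivity
        nlinarith

end Crest.Agent.R102.TreeG196
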