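import Crest.Agent.R102.LemGDefs_672
import Crest.Agent.R102.TreeG_196

/-! # The literal `Tree` of LemGDefs_672 (helper196) -/

open Set Filter Metric MeasureTheory
open scoped Topology ENNReal

namespace Crest.Agent.R102.Tree196

open LemG672 in
theorem bx_eq (n : ℕ) (x : ℝ) : LemG672.bx n x = TreeG196.bx n x := rfl

theorem Iv_eq (n : ℕ) (k : ℤ) : LemG672.Iv n k = TreeG196.I n k := (TreeG196.I_eq n k).symm

/-- the pure tree lemma, literally -/
theorem tree : LemG672.Tree := by
  intro K H0 H1 C θ hθ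
  obtain ⟨Cs, -, h⟩ := TreeG196.tree_H1 (K := max K 1) (H0 := max H0 1) (H1 := H1) (C := C) (θ := θ)
    (le_max_right _ _) (le_max_right _ _) hθ
  refine ⟨Cs, ?_⟩
  intro H A T h1 hT1 hT2 hT3 n0
  have key := h n0 H A T h1 (fun n k _ _ hth => (hT1 n k hth).trans (le_max_left _ _)) ?_ ?_
  · filter_upwards [key] with x hx hav hth
    rw [frequently_atTop] at hth ⊢
    intro N
    obtain ⟨n, hn, hthn, hj⟩ := hx hav (fun N => by
      obtain ⟨n, hn, h⟩ := hth N
      exact ⟨n, hn, h⟩) N
    exact ⟨n, hn, hthn, hj⟩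
  · intro n x hn hav hav'
    have hp : TreeG196.bx n x = TreeG196.bx (n+1) x / 2 := TreeG196.bx_succ n x
    rw [hp] at hav ⊢
    have h2 := (hT2 n (TreeG196.bx (n+1) x) hav hav').1
    have h3 := h1 n (TreeG196.bx (n+1) x / 2)
    have h4 : K ≤ max K 1 := le_max_left _ _
    nlinarith
  · intro n k l hn hav hl
    have h2 := hT3 n k hav l hl
    unfold LemG672.RunSet at h2
    simp only [Iv_eq, bx_eq] at h2
    exact h2

end Crest.Agent.R102.Tree196
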