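import Crest.Agent.R102.LemGAsm_672
import Crest.Agent.R102.SharpS_864
import Crest.Agent.R102.T3All_864
import Crest.Agent.R102.Tree_196
import Crest.Agent.R102.InfThick_239

/-! # LEMMA G (thick scales), complete

Leaves: `G864.sharpSchottky`, `G864.t3All` (864), `Tree196.tree` (196), `InfThick239.infThick`
(239), assembly `LemG672.asm` (672). -/

namespace Crest.Agent.R102.LemG672

theorem lemmaG : LemmaG :=
  asm Crest.Agent.R102.G864.sharpSchottky Crest.Agent.R102.G864.t3All
    Crest.Agent.R102.Tree196.tree Crest.Agent.R102.InfThick239.infThick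

end Crest.Agent.R102.LemG672
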