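import Crest.Agent.R102.SupDefs_115
import Crest.Agent.R102.LemG_672
import Crest.Agent.R102.BigMontel_948
import Crest.Agent.R102.Blow_971
import Crest.Agent.R102.Chain_864

/-!
Row 102, T1-B, III.2, leaf 3 `AltAe` (helper613), first half: one point, one slice, measurability.
-/

set_option autoImplicit false
set_option linter.unusedVariables false

open Set Filter Topology Metric Complex MeasureTheory

noncomputable section

namespace Crest.Agent.R102.Alt613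

open Crest.Agent.R102.S5 Crest.Agent.R102.Sup115

/-- radial limit different from `0, 1` -/
def Rad (F : ℂ × ℂ → ℂ) (e : ℝ × ℝ) : Prop :=
  ∃ r : ℂ, r ≠ 0 ∧ r ≠ 1 ∧ Tendsto (fun s : ℝ => F (ray e s)) (𝓝[>] 0) (𝓝 r)

/-- thick control (second alternative), up to height `h` -/
def Thk (T e0 Cs h : ℝ) (F : ℂ × ℂ → ℂ) (e : ℝ × ℝ) : Prop :=
  ∃ᶠ s : ℝ in 𝓝[>] 0, |Real.log ‖F (ray e s)‖| ≤ T ∧ e0 ≤ ‖F (ray e s) - 1‖ ∧
      ∀ s' : ℝ, s ≤ s' → s' < h →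
        1 + |Real.log ‖F (ray e s')‖| ≤ Cs * (s' / s) ^ (1 / 2 : ℝ)

/-- the same with rational numbers -/
def ThkQ (T e0 Cs h : ℝ) (F : ℂ × ℂ → ℂ) (e : ℝ × ℝ) : Prop :=
  ∀ n : ℕ, ∃ s : ℚ, (0 : ℝ) < s ∧ (s : ℝ) < 1 / ((n : ℝ) + 1) ∧ (s : ℝ) < h ∧
    |Real.log ‖F (ray e s)‖| ≤ T ∧ e0 ≤ ‖F (ray e s) - 1‖ ∧
      ∀ s' : ℚ, (s : ℝ) ≤ s' → (s' : ℝ) < h →
        1 + |Real.log ‖F (ray e s')‖| ≤ Cs * ((s' : ℝ) / s) ^ (1 / 2 : ℝ)

theorem thkQ_of_thk {T e0 Cs h : ℝ} {F : ℂ × ℂ → ℂ} {e : ℝ × ℝ} (he0 : 0 < e0) (hh : 0 < h)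
    (hc : ContinuousOn (fun s : ℝ => F (ray e s)) (Ioo 0 h))
    (h0 : ∀ s ∈ Ioo 0 h, F (ray e s) ≠ 0) (H : Thk T e0 Cs h F e) :
    ThkQ (T + 1) (e0 / 2) (2 * Cs) h F e := by
  intro n
  have hsm : ∀ᶠ s : ℝ in 𝓝[>] 0, s ∈ Ioo (0 : ℝ) (min (1 / ((n : ℝ) + 1)) h) :=
    Ioo_mem_nhdsGT (lt_min (by positivity) hh)
  obtain ⟨s, ⟨hs1, hs2, hs3⟩, hs4⟩ := (H.and_eventually hsm).exists
  have hs0 : 0 < s := hs4.1
  have hsn : s < 1 / ((n : ℝ) + 1) := hs4.2.trans_le (min_le_left _ _)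
  have hsh : s < h := hs4.2.trans_le (min_le_right _ _)
  have hcs : ContinuousAt (fun s : ℝ => F (ray e s)) s := hc.continuousAt (Ioo_mem_nhds hs0 hsh)
  have hF0 := h0 s ⟨hs0, hsh⟩
  have hlog : ContinuousAt (fun s : ℝ => |Real.log ‖F (ray e s)‖|) s :=
    (hcs.norm.log (norm_ne_zero_iff.2 hF0)).abs
  have hm1 : ContinuousAt (fun s : ℝ => ‖F (ray e s) - 1‖) s := (hcs.sub continuousAt_const).norm
  have e1 : ∀ᶠ q in 𝓝 s, |Real.log ‖F (ray e q)‖| < T + 1 :=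
    hlog.eventually_lt_const (by linarith)
  have e2 : ∀ᶠ q in 𝓝 s, e0 / 2 < ‖F (ray e q) - 1‖ :=
    hm1.eventually_const_lt (by linarith)
  have e3 : ∀ᶠ q in 𝓝 s, q < min (min (1 / ((n : ℝ) + 1)) h) (4 * s) :=
    (gt_mem_nhds (by rw [lt_min_iff]; exact ⟨lt_min hsn hsh, by linarith⟩))
  obtain ⟨δ, hδ, hball⟩ := Metric.eventually_nhds_iff.1 (e1.and (e2.and e3))
  obtain ⟨q, hq1, hq2⟩ := exists_rat_btwn (show s < s + δ by linarith)
  have hq := hball (y := (q : ℝ)) (by rw [Real.dist_eq, abs_lt]; constructor <;> linarith)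
  obtain ⟨hqa, hqb, hqc⟩ := hq
  rw [lt_min_iff, lt_min_iff] at hqc
  have hq0 : (0 : ℝ) < q := hs0.trans hq1
  refine ⟨q, hq0, hqc.1.1, hqc.1.2, hqa.le, hqb.le, fun s' h1 h2 => ?_⟩
  have h3 := hs3 s' (hq1.le.trans h1) h2
  have hs'0 : (0 : ℝ) < s' := hq0.trans_le h1
  have hCs : 0 ≤ Cs := by
    have h4 := hs3 s le_rfl hsh
    rw [div_self hs0.ne', Real.one_rpow, mul_one] at h4
    have := abs_nonneg (Real.log ‖F (ray e s)‖)
    linarith
  refine h3.trans ?_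
  have h5 : (s' : ℝ) / s = ((s' : ℝ) / q) * ((q : ℝ) / s) := by field_simp
  have h6 : ((q : ℝ) / s) ^ (1 / 2 : ℝ) ≤ 2 := by
    have h7 : (q : ℝ) / s ≤ 4 := by rw [div_le_iff₀ hs0]; exact hqc.2.le
    calc ((q : ℝ) / s) ^ (1 / 2 : ℝ) ≤ (4 : ℝ) ^ (1 / 2 : ℝ) :=
          Real.rpow_le_rpow (by positivity) h7 (by norm_num)
      _ = 2 := by
        rw [show (4 : ℝ) = 2 ^ (2 : ℝ) by norm_num, ← Real.rpow_mul (by norm_num)]
        norm_num
  rw [h5, Real.mul_rpow (by positivity) (by positivity)]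
  have h8 : 0 ≤ ((s' : ℝ) / q) ^ (1 / 2 : ℝ) := by positivity
  calc Cs * (((s' : ℝ) / q) ^ (1 / 2 : ℝ) * ((q : ℝ) / s) ^ (1 / 2 : ℝ))
      ≤ Cs * (((s' : ℝ) / q) ^ (1 / 2 : ℝ) * 2) := by gcongr
    _ = _ := by ring

theorem thk_of_thkQ {T e0 Cs h : ℝ} {F : ℂ × ℂ → ℂ} {e : ℝ × ℝ} (hh : 0 < h)
    (hc : ContinuousOn (fun s : ℝ => F (ray e s)) (Ioo 0 h))
    (h0 : ∀ s ∈ Ioo 0 h, F (ray e s) ≠ 0) (H : ThkQ T e0 Cs h F e) :
    Thk T e0 Cs h F e := by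
  unfold Thk
  rw [Filter.frequently_iff]
  intro U hU
  obtain ⟨ε, hε, hεU⟩ := mem_nhdsGT_iff_exists_Ioo_subset.1 hU
  obtain ⟨n, hn⟩ := exists_nat_one_div_lt (show (0 : ℝ) < ε from hε)
  obtain ⟨s, hs0, hsn, hsh, h1, h2, h3⟩ := H n
  refine ⟨s, hεU ⟨hs0, hsn.trans hn⟩, h1, h2, fun s' hs1 hs2 => ?_⟩
  by_contra hcon
  push Not at hcon
  have hs'0 : 0 < s' := hs0.trans_le hs1
  have hcs : ContinuousAt (fun s : ℝ => F (ray e s)) s' := hc.continuousAt (Ioo_mem_nhds hs'0 hs2)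
  have hlog : ContinuousAt (fun s : ℝ => 1 + |Real.log ‖F (ray e s)‖|) s' :=
    continuousAt_const.add (hcs.norm.log (norm_ne_zero_iff.2 (h0 s' ⟨hs'0, hs2⟩))).abs
  have hR : ContinuousAt (fun s' : ℝ => Cs * (s' / s) ^ (1 / 2 : ℝ)) s' :=
    continuousAt_const.mul ((continuousAt_id.div_const _).rpow_const (Or.inr (by norm_num)))
  have e1 : ∀ᶠ q in 𝓝 s', Cs * (q / s) ^ (1 / 2 : ℝ) < 1 + |Real.log ‖F (ray e q)‖| :=
    hR.eventually_lt hlog hcon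
  obtain ⟨δ, hδ, hball⟩ := Metric.eventually_nhds_iff.1 (e1.and (gt_mem_nhds hs2))
  obtain ⟨q, hq1, hq2⟩ := exists_rat_btwn (show s' < s' + δ by linarith)
  have hq := hball (y := (q : ℝ)) (by rw [Real.dist_eq, abs_lt]; constructor <;> linarith)
  have := h3 q (hs1.trans hq1.le) hq.2
  linarith [hq.1]

/-- convergence along rationals is enough -/
theorem tendsto_of_rat {c : ℝ → ℂ} {h : ℝ} (hh : 0 < h) (hc : ContinuousOn c (Ioo 0 h)) {r : ℂ}
    (H : Tendsto (fun s : ℚ => c s) (comap ((↑) : ℚ → ℝ) (𝓝[>] 0)) (𝓝 r)) :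
    Tendsto c (𝓝[>] 0) (𝓝 r) := by
  rw [Metric.tendsto_nhds] at H ⊢
  intro ε hε
  have h1 := H (ε / 2) (by positivity)
  rw [Filter.eventually_comap] at h1
  obtain ⟨δ, hδ, hball⟩ := mem_nhdsGT_iff_exists_Ioo_subset.1 h1
  have hδ' : (0 : ℝ) < δ := hδ
  filter_upwards [Ioo_mem_nhdsGT (lt_min hδ' hh)] with s hs
  by_contra hcon
  push Not at hcon
  have hs0 : 0 < s := hs.1
  have hsδ : s < δ := hs.2.trans_le (min_le_left _ _)
  have hsh : s < h := hs.2.trans_le (min_le_right _ _)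
  have hcs : ContinuousAt c s := hc.continuousAt (Ioo_mem_nhds hs0 hsh)
  have e1 : ∀ᶠ q in 𝓝 s, ε / 2 < dist (c q) r :=
    (hcs.dist continuousAt_const).eventually_const_lt (by linarith)
  obtain ⟨η, hη, hb⟩ := Metric.eventually_nhds_iff.1 (e1.and (gt_mem_nhds hsδ))
  obtain ⟨q, hq1, hq2⟩ := exists_rat_btwn (show s < s + η by linarith)
  have hq := hb (y := (q : ℝ)) (by rw [Real.dist_eq, abs_lt]; constructor <;> linarith)
  have h3 := hball (show (q : ℝ) ∈ Ioo 0 δ from ⟨hs0.trans hq1, hq.2⟩) q rfl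
  linarith [hq.1]

theorem ray_eq (e : ℝ × ℝ) (s : ℝ) : ray e s = ((e.1 : ℂ) - s * I, (e.2 : ℂ) + s / 4 * I) := by
  unfold ray bl
  ext
  · simp; ring
  · simp; ring

theorem continuous_ray : Continuous fun x : (ℝ × ℝ) × ℝ => ray x.1 x.2 := by
  unfold ray bl
  fun_prop

theorem ray_mem_Saw {P : Set (ℝ × ℝ)} {lam d : ℝ} (hl : 0 < lam) (hl1 : lam ≤ 1 / 64)
    {e : ℝ × ℝ} (he : e ∈ P) {s : ℝ} (hs : 0 < s) (hsd : s < d) : ray e s ∈ Saw P lam d := by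
  rw [ray_eq]
  have h1 : ((e.1 : ℂ) - s * I).im = -s := by simp
  have h2 : ((e.2 : ℂ) + s / 4 * I).im = s / 4 := by
    simp [Complex.add_im, Complex.mul_im]
  have h3 : ((e.1 : ℂ) - s * I).re - e.1 = 0 := by simp
  have h4 : ‖((e.2 : ℂ) + s / 4 * I) - (e.2 : ℂ)‖ = s / 4 := by
    rw [add_sub_cancel_left, norm_mul, Complex.norm_I, mul_one, norm_div, Complex.norm_real,
      Real.norm_eq_abs, abs_of_pos hs]
    norm_num
  refine ⟨?_, ?_, ?_, e, he, ?_⟩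
  · show ((e.1 : ℂ) - s * I).im < 0
    rw [h1]; linarith
  · show -d < ((e.1 : ℂ) - s * I).im
    rw [h1]; linarith
  · show lam * (-((e.1 : ℂ) - s * I).im) < ((e.2 : ℂ) + s / 4 * I).im
    rw [h1, h2]; nlinarith
  · show lam * (|((e.1 : ℂ) - s * I).re - e.1| + ‖((e.2 : ℂ) + s / 4 * I) - (e.2 : ℂ)‖) <
      -((e.1 : ℂ) - s * I).im
    rw [h1, h3, h4, abs_zero]
    nlinarith

section meas

variable {P : Set (ℝ × ℝ)} {lam d : ℝ} {F : ℂ × ℂ → ℂ}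

/-- the value of `F` on the ray, extended by `0` -/
def fr (P : Set (ℝ × ℝ)) (h : ℝ) (F : ℂ × ℂ → ℂ) (s : ℚ) : ℝ × ℝ → ℂ :=
  P.indicator fun e => if (0 : ℝ) < s ∧ (s : ℝ) < h then F (ray e s) else 0

theorem cont_ray_P (hl : 0 < lam) (hl1 : lam ≤ 1 / 64)
    (hF : DifferentiableOn ℂ F (Saw P lam d)) {s : ℝ} (hs : 0 < s) (hsd : s < d) :
    ContinuousOn (fun e => F (ray e s)) P := by
  refine hF.continuousOn.comp (Continuous.continuousOn ?_) fun e he => ray_mem_Saw hl hl1 he hs hsd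
  exact continuous_ray.comp (continuous_id.prodMk continuous_const)

theorem cont_ray_s (hl : 0 < lam) (hl1 : lam ≤ 1 / 64)
    (hF : DifferentiableOn ℂ F (Saw P lam d)) {e : ℝ × ℝ} (he : e ∈ P) {h : ℝ} (hh : h ≤ d) :
    ContinuousOn (fun s : ℝ => F (ray e s)) (Ioo 0 h) := by
  refine hF.continuousOn.comp (Continuous.continuousOn ?_) fun s hs =>
    ray_mem_Saw hl hl1 he hs.1 (hs.2.trans_le hh)
  exact continuous_ray.comp (continuous_const.prodMk continuous_id)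

theorem meas_fr (hP : IsClosed P) (hl : 0 < lam) (hl1 : lam ≤ 1 / 64)
    (hF : DifferentiableOn ℂ F (Saw P lam d)) {h : ℝ} (hh : h ≤ d) (s : ℚ) :
    Measurable (fr P h F s) := by
  unfold fr
  by_cases hs : (0 : ℝ) < s ∧ (s : ℝ) < h
  · simp only [hs, and_self, if_true]
    have hc := cont_ray_P hl hl1 hF hs.1 (hs.2.trans_le hh)
    classical
    have : Measurable (P.piecewise (fun e => F (ray e s)) fun _ => (0 : ℂ)) :=
      hc.measurable_piecewise continuousOn_const hP.measurableSet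
    have h2 : (P.indicator fun e => F (ray e s)) = P.piecewise (fun e => F (ray e s)) 0 :=
      Set.piecewise_eq_indicator.symm
    rw [h2]
    exact this
  · simp only [hs, if_false]
    have : (P.indicator fun _ : ℝ × ℝ => (0 : ℂ)) = fun _ => 0 := by
      ext e; simp
    rw [this]
    exact measurable_const

/-- measurability of the thick set -/
theorem meas_thkQ (hP : IsClosed P) (hl : 0 < lam) (hl1 : lam ≤ 1 / 64)
    (hF : DifferentiableOn ℂ F (Saw P lam d)) {h : ℝ} (hh : h ≤ d) (T e0 Cs : ℝ) :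
    MeasurableSet {e : ℝ × ℝ | e ∈ P ∧ ThkQ T e0 Cs h F e} := by
  have hfr := meas_fr hP hl hl1 hF hh
  have key : {e : ℝ × ℝ | e ∈ P ∧ ThkQ T e0 Cs h F e} = P ∩ ⋂ n : ℕ, ⋃ s : ℚ,
      {e | ((0 : ℝ) < s ∧ (s : ℝ) < 1 / ((n : ℝ) + 1) ∧ (s : ℝ) < h) ∧
        |Real.log ‖fr P h F s e‖| ≤ T ∧ e0 ≤ ‖fr P h F s e - 1‖} ∩ ⋂ s' : ℚ,
        {e | (s : ℝ) ≤ s' ∧ (s' : ℝ) < h →
          1 + |Real.log ‖fr P h F s' e‖| ≤ Cs * ((s' : ℝ) / s) ^ (1 / 2 : ℝ)} := by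
    ext e
    simp only [Set.mem_ofPred_eq, mem_inter_iff, mem_iInter, mem_iUnion, ThkQ]
    refine and_congr_right fun he => forall_congr' fun n => exists_congr fun s => ?_
    constructor
    · rintro ⟨h1, h2, h3, h4, h5, h6⟩
      have hf : fr P h F s e = F (ray e s) := by
        unfold fr
        rw [Set.indicator_of_mem he, if_pos ⟨h1, h3⟩]
      refine ⟨⟨⟨h1, h2, h3⟩, by rw [hf]; exact h4, by rw [hf]; exact h5⟩, fun s' hs' => ?_⟩
      have hf' : fr P h F s' e = F (ray e s') := by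
        unfold fr
        rw [Set.indicator_of_mem he, if_pos ⟨h1.trans_le hs'.1, hs'.2⟩]
      rw [hf']
      exact h6 s' hs'.1 hs'.2
    · rintro ⟨⟨⟨h1, h2, h3⟩, h4, h5⟩, h6⟩
      have hf : fr P h F s e = F (ray e s) := by
        unfold fr
        rw [Set.indicator_of_mem he, if_pos ⟨h1, h3⟩]
      rw [hf] at h4 h5
      refine ⟨h1, h2, h3, h4, h5, fun s' hs1 hs2 => ?_⟩
      have hf' : fr P h F s' e = F (ray e s') := by
        unfold fr
        rw [Set.indicator_of_mem he, if_pos ⟨h1.trans_le hs1, hs2⟩]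
      have := h6 s' ⟨hs1, hs2⟩
      rwa [hf'] at this
  rw [key]
  refine hP.measurableSet.inter (MeasurableSet.iInter fun n => MeasurableSet.iUnion fun s => ?_)
  refine MeasurableSet.inter ?_ (MeasurableSet.iInter fun s' => ?_)
  · refine (MeasurableSet.const _).inter (MeasurableSet.inter ?_ ?_)
    · have m1 : Measurable fun e => |Real.log ‖fr P h F s e‖| :=
        (Real.measurable_log.comp (hfr s).norm).abs
      exact measurableSet_le m1 measurable_const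
    · have m2 : Measurable fun e => ‖fr P h F s e - 1‖ := ((hfr s).sub_const 1).norm
      exact measurableSet_le measurable_const m2
  · by_cases hs : (s : ℝ) ≤ s' ∧ (s' : ℝ) < h
    · have : {e : ℝ × ℝ | (s : ℝ) ≤ s' ∧ (s' : ℝ) < h →
          1 + |Real.log ‖fr P h F s' e‖| ≤ Cs * ((s' : ℝ) / s) ^ (1 / 2 : ℝ)} =
          {e | 1 + |Real.log ‖fr P h F s' e‖| ≤ Cs * ((s' : ℝ) / s) ^ (1 / 2 : ℝ)} := by
        ext e; simp [hs]
      rw [this]
      have m1 : Measurable fun e => 1 + |Real.log ‖fr P h F s' e‖| :=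
        ((Real.measurable_log.comp (hfr s').norm).abs).const_add 1
      exact measurableSet_le m1 measurable_const
    · have : {e : ℝ × ℝ | (s : ℝ) ≤ s' ∧ (s' : ℝ) < h →
          1 + |Real.log ‖fr P h F s' e‖| ≤ Cs * ((s' : ℝ) / s) ^ (1 / 2 : ℝ)} = univ :=
        eq_univ_of_forall fun e he => absurd he hs
      rw [this]
      exact MeasurableSet.univ

/-- measurability of the set of points with a radial limit `≠ 0, 1` -/
theorem meas_rad (hP : IsClosed P) (hl : 0 < lam) (hl1 : lam ≤ 1 / 64) (hd : 0 < d)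
    (hF : DifferentiableOn ℂ F (Saw P lam d)) (h01 : ∀ q ∈ Saw P lam d, F q ≠ 0 ∧ F q ≠ 1) :
    MeasurableSet {e : ℝ × ℝ | e ∈ P ∧ Rad F e} := by
  have hfr := meas_fr hP hl hl1 hF (le_refl d)
  set l : Filter ℚ := comap ((↑) : ℚ → ℝ) (𝓝[>] 0) with hl'
  have hlne : l.NeBot := by
    rw [hl', Filter.comap_neBot_iff]
    intro t ht
    obtain ⟨ε, hε, hεt⟩ := mem_nhdsGT_iff_exists_Ioo_subset.1 ht
    obtain ⟨q, hq1, hq2⟩ := exists_rat_btwn (show (0 : ℝ) < ε from hε)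
    exact ⟨q, hεt ⟨hq1, hq2⟩⟩
  have hsm : ∀ᶠ s : ℚ in l, (0 : ℝ) < s ∧ (s : ℝ) < d := by
    have : ∀ᶠ s : ℝ in 𝓝[>] 0, 0 < s ∧ s < d := Ioo_mem_nhdsGT hd
    exact this.comap _
  have hev : ∀ e ∈ P, ∀ᶠ s : ℚ in l, fr P d F s e = F (ray e s) := by
    intro e he
    filter_upwards [hsm] with s hs
    unfold fr
    rw [Set.indicator_of_mem he, if_pos hs]
  have m1 : MeasurableSet {e | ∃ c, Tendsto (fun s : ℚ => fr P d F s e) l (𝓝 c)} :=
    MeasureTheory.measurableSet_exists_tendsto hfr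
  have m2 : MeasurableSet {e | ∃ c, Tendsto (fun s : ℚ => (fr P d F s e)⁻¹) l (𝓝 c)} :=
    MeasureTheory.measurableSet_exists_tendsto fun s => (hfr s).inv
  have m3 : MeasurableSet {e | ∃ c, Tendsto (fun s : ℚ => (fr P d F s e - 1)⁻¹) l (𝓝 c)} :=
    MeasureTheory.measurableSet_exists_tendsto fun s => ((hfr s).sub_const 1).inv
  have key : {e : ℝ × ℝ | e ∈ P ∧ Rad F e} = P ∩
      ({e | ∃ c, Tendsto (fun s : ℚ => fr P d F s e) l (𝓝 c)} ∩
      ({e | ∃ c, Tendsto (fun s : ℚ => (fr P d F s e)⁻¹) l (𝓝 c)} ∩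
      {e | ∃ c, Tendsto (fun s : ℚ => (fr P d F s e - 1)⁻¹) l (𝓝 c)})) := by
    ext e
    constructor
    · rintro ⟨he, r, hr0, hr1, hr⟩
      have h1 : Tendsto (fun s : ℚ => F (ray e s)) l (𝓝 r) := hr.comp tendsto_comap
      have h2 : Tendsto (fun s : ℚ => fr P d F s e) l (𝓝 r) :=
        h1.congr' ((hev e he).mono fun s hs => hs.symm)
      exact ⟨he, ⟨r, h2⟩, ⟨r⁻¹, h2.inv₀ hr0⟩, ⟨(r - 1)⁻¹, (h2.sub_const 1).inv₀ (sub_ne_zero.2 hr1)⟩⟩
    · rintro ⟨he, ⟨c1, h1⟩, ⟨c2, h2⟩, ⟨c3, h3⟩⟩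
      have hne : ∀ᶠ s : ℚ in l, fr P d F s e ≠ 0 ∧ fr P d F s e - 1 ≠ 0 := by
        filter_upwards [hev e he, hsm] with s hs1 hs2
        have := h01 _ (ray_mem_Saw hl hl1 he hs2.1 hs2.2)
        rw [hs1]
        exact ⟨this.1, sub_ne_zero.2 this.2⟩
      have e1 : c1 * c2 = 1 := by
        refine tendsto_nhds_unique (h1.mul h2) (tendsto_const_nhds.congr' ?_)
        filter_upwards [hne] with s hs
        rw [mul_inv_cancel₀ hs.1]
      have e2 : (c1 - 1) * c3 = 1 := by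
        refine tendsto_nhds_unique ((h1.sub_const 1).mul h3) (tendsto_const_nhds.congr' ?_)
        filter_upwards [hne] with s hs
        rw [mul_inv_cancel₀ hs.2]
      refine ⟨he, c1, fun h => ?_, fun h => ?_, ?_⟩
      · rw [h, zero_mul] at e1
        exact zero_ne_one e1
      · rw [h, sub_self, zero_mul] at e2
        exact zero_ne_one e2
      · exact tendsto_of_rat hd (cont_ray_s hl hl1 hF he le_rfl) (h1.congr' (hev e he))
  rw [key]
  exact hP.measurableSet.inter (m1.inter (m2.inter m3))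

end meas

/-! ### slices -/

section slice

open Crest.Agent.R102.LemG672 Crest.Agent.R102.LP472

variable {P : Set (ℝ × ℝ)} {lam d : ℝ} {F : ℂ × ℂ → ℂ}

/-- the point of the tilted line `v` over `x` -/
def pt (v x : ℝ) : ℝ × ℝ := (-x, v + x / 4)

/-- the tilted slice -/
def sl (F : ℂ × ℂ → ℂ) (v : ℝ) (z : ℂ) : ℂ := F (-z, (v : ℂ) + z / 4)

theorem sl_ray (F : ℂ × ℂ → ℂ) (v x s : ℝ) : sl F v ⟨x, s⟩ = F (ray (pt v x) s) := by
  unfold sl
  rw [ray_eq]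
  congr 1
  have h : (⟨x, s⟩ : ℂ) = x + s * I := Complex.mk_eq_add_mul_I x s
  ext1
  · simp [pt, h]
    ring
  · simp [pt, h]
    ring

theorem cone_sub (hl : 0 < lam) (hl1 : lam ≤ 1 / 64) {v x : ℝ} (hx : pt v x ∈ P) {h : ℝ}
    (hh : h ≤ d) {z : ℂ} (hz : z ∈ Cone 6 h x) : (-z, (v : ℂ) + z / 4) ∈ Saw P lam d := by
  obtain ⟨h1, h2, h3⟩ := hz
  have e1 : (-z).im = -z.im := by simp
  have e2 : ((v : ℂ) + z / 4).im = z.im / 4 := by simp
  refine ⟨?_, ?_, ?_, pt v x, hx, ?_⟩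
  · show (-z).im < 0
    rw [e1]; linarith
  · show -d < (-z).im
    rw [e1]; linarith
  · show lam * (-(-z).im) < ((v : ℂ) + z / 4).im
    rw [e1, e2]; nlinarith
  · show lam * (|(-z).re - (pt v x).1| + ‖((v : ℂ) + z / 4) - ((pt v x).2 : ℂ)‖) < -(-z).im
    have e3 : (-z).re - (pt v x).1 = -(z.re - x) := by simp [pt]; ring
    have e4 : ((v : ℂ) + z / 4) - ((pt v x).2 : ℂ) = (z - x) / 4 := by
      simp [pt]; ring
    have e5 : ‖(z - x : ℂ)‖ ≤ |z.re - x| + z.im := by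
      have := Complex.norm_le_abs_re_add_abs_im (z - x : ℂ)
      simp only [Complex.sub_re, Complex.ofReal_re, Complex.sub_im, Complex.ofReal_im,
        sub_zero] at this
      rwa [abs_of_pos h1] at this
    rw [e3, e4, abs_neg, e1, norm_div]
    have e6 : ‖(4 : ℂ)‖ = 4 := by norm_num
    rw [e6]
    have h4 := abs_nonneg (z.re - x)
    nlinarith

/-- LEMMA G on one tilted line -/
theorem slice_ae {T e0 Cs : ℝ}
    (hG : ∀ (W : Set ℂ) (F : ℂ → ℂ), Omit W F → ∀ (a h : ℝ) (P : Set ℝ),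
      6 ≤ a → 0 < h → h ≤ 1 → (∀ x ∈ P, Cone a h x ⊆ W) → ∀ᵐ x : ℝ, x ∈ P →
      (∃ r : ℂ, r ≠ 0 ∧ r ≠ 1 ∧ Tendsto F (𝓝[Cone a h x] (x : ℂ)) (𝓝 r)) ∨
      (∃ᶠ s : ℝ in 𝓝[>] 0, |Real.log ‖F (⟨x, s⟩ : ℂ)‖| ≤ T ∧ e0 ≤ ‖F (⟨x, s⟩ : ℂ) - 1‖ ∧
        ∀ s' : ℝ, s ≤ s' → s' ≤ h / 2 →
          1 + |Real.log ‖F (⟨x, s'⟩ : ℂ)‖| ≤ Cs * (s' / s) ^ (1 / 2 : ℝ)))
    (hl : 0 < lam) (hl1 : lam ≤ 1 / 64) (hd : 0 < d)
    (hF : DifferentiableOn ℂ F (Saw P lam d)) (h01 : ∀ q ∈ Saw P lam d, F q ≠ 0 ∧ F q ≠ 1)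
    (v : ℝ) : ∀ᵐ x : ℝ, pt v x ∈ P → Rad F (pt v x) ∨ Thk T e0 Cs (min d 1 / 2) F (pt v x) := by
  set W : Set ℂ := {z | (-z, (v : ℂ) + z / 4) ∈ Saw P lam d} with hW
  have hcont : Continuous fun z : ℂ => ((-z, (v : ℂ) + z / 4) : ℂ × ℂ) := by fun_prop
  have hWo : IsOpen W := (Chain864.isOpen_Saw P lam d).preimage hcont
  have hdiff : DifferentiableOn ℂ (sl F v) W := by
    refine hF.comp (g := F) (f := fun z : ℂ => ((-z, (v : ℂ) + z / 4) : ℂ × ℂ)) ?_ fun z hz => hz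
    fun_prop
  have hd1 : 0 < min d 1 := lt_min hd one_pos
  have H := hG W (sl F v) ⟨hWo, hdiff, fun z hz => h01 _ hz⟩ 6 (min d 1) {x | pt v x ∈ P} le_rfl
    hd1 (min_le_right _ _) fun x hx z hz => cone_sub hl hl1 hx (min_le_left _ _) hz
  filter_upwards [H] with x hx hxP
  rcases hx hxP with ⟨r, hr0, hr1, hr⟩ | h2
  · refine Or.inl ⟨r, hr0, hr1, ?_⟩
    have hray : Tendsto (fun s : ℝ => (⟨x, s⟩ : ℂ)) (𝓝[>] 0) (𝓝[Cone 6 (min d 1) x] (x : ℂ)) := by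
      refine tendsto_nhdsWithin_of_tendsto_nhds_of_eventually_within _ ?_ ?_
      · have h3 : Tendsto (fun s : ℝ => ((x : ℂ) + s * I)) (𝓝[>] 0) (𝓝 ((x : ℂ) + (0 : ℝ) * I)) := by
          refine Tendsto.mono_left ?_ nhdsWithin_le_nhds
          exact (Continuous.tendsto (by fun_prop) (0 : ℝ))
        simp only [Complex.ofReal_zero, zero_mul, add_zero] at h3
        refine h3.congr fun s => ?_
        rw [Complex.mk_eq_add_mul_I]
      · filter_upwards [Ioo_mem_nhdsGT hd1] with s hs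
        refine ⟨hs.1, hs.2, ?_⟩
        show |x - x| < 6 * s
        rw [sub_self, abs_zero]
        linarith [hs.1]
    have h4 := hr.comp hray
    refine h4.congr fun s => ?_
    exact sl_ray F v x s
  · refine Or.inr (h2.mono fun s hs => ?_)
    simp only [sl_ray] at hs
    exact ⟨hs.1, hs.2.1, fun s' h3 h4 => hs.2.2 s' h3 h4.le⟩

end slice

/-! ### Fubini on the tilted lines -/

/-- the tilted coordinates -/
def tc (p : ℝ × ℝ) : ℝ × ℝ := (-p.1, p.2 + p.1 / 4)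

theorem mp_tc : MeasurePreserving tc (volume : Measure (ℝ × ℝ)) volume := by
  have h := MeasurePreserving.skew_product (μa := (volume : Measure ℝ)) (μc := (volume : Measure ℝ))
    (μd := (volume : Measure ℝ)) (f := fun x : ℝ => -x)
    (Measure.measurePreserving_neg (volume : Measure ℝ))
    (g := fun x v : ℝ => v + x / 4) (by unfold Function.uncurry; fun_prop)
    (Eventually.of_forall fun x => by
      exact (measurePreserving_add_right (volume : Measure ℝ) (x / 4)).map_eq)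
  exact h

theorem null_of_slices {N : Set (ℝ × ℝ)} (hN : MeasurableSet N)
    (hs : ∀ v : ℝ, ∀ᵐ x : ℝ, pt v x ∉ N) : volume N = 0 := by
  rw [← mp_tc.measure_preimage hN.nullMeasurableSet]
  rw [Measure.volume_eq_prod, Measure.prod_apply_symm (mp_tc.measurable hN)]
  rw [lintegral_eq_zero_iff' ?_]
  · refine Eventually.of_forall fun v => ?_
    have h1 := hs v
    rw [ae_iff] at h1
    simp only [not_not] at h1
    exact h1
  · exact (measurable_measure_prodMk_right (mp_tc.measurable hN)).aemeasurable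

/-- **planar form of LEMMA G.** -/
theorem planar {T e0 Cs : ℝ} (he0 : 0 < e0)
    (hsl : ∀ (P : Set (ℝ × ℝ)) (lam d : ℝ) (F : ℂ × ℂ → ℂ), 0 < lam → lam ≤ 1 / 64 → 0 < d →
      DifferentiableOn ℂ F (Saw P lam d) → (∀ q ∈ Saw P lam d, F q ≠ 0 ∧ F q ≠ 1) →
      ∀ v : ℝ, ∀ᵐ x : ℝ, pt v x ∈ P → Rad F (pt v x) ∨ Thk T e0 Cs (min d 1 / 2) F (pt v x))
    {P : Set (ℝ × ℝ)} {lam d : ℝ} {F : ℂ × ℂ → ℂ} (hP : IsClosed P) (hl : 0 < lam)
    (hl1 : lam ≤ 1 / 64) (hd : 0 < d)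
    (hF : DifferentiableOn ℂ F (Saw P lam d)) (h01 : ∀ q ∈ Saw P lam d, F q ≠ 0 ∧ F q ≠ 1) :
    ∀ᵐ e : ℝ × ℝ, e ∈ P → Rad F e ∨ Thk (T + 1) (e0 / 2) (2 * Cs) (min d 1 / 2) F e := by
  set h : ℝ := min d 1 / 2 with hh
  have hh0 : 0 < h := by rw [hh]; have : 0 < min d 1 := lt_min hd one_pos; linarith
  have hhd : h ≤ d := by
    rw [hh]
    have h1 : min d 1 ≤ d := min_le_left _ _
    have h2 : 0 < min d 1 := lt_min hd one_pos
    linarith
  have hcs : ∀ e ∈ P, ContinuousOn (fun s : ℝ => F (ray e s)) (Ioo 0 h) := fun e he =>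
    cont_ray_s hl hl1 hF he hhd
  have hne : ∀ e ∈ P, ∀ s ∈ Ioo (0 : ℝ) h, F (ray e s) ≠ 0 := fun e he s hs =>
    (h01 _ (ray_mem_Saw hl hl1 he hs.1 (hs.2.trans_le hhd))).1
  set N : Set (ℝ × ℝ) := P \ ({e | e ∈ P ∧ Rad F e} ∪
    {e | e ∈ P ∧ ThkQ (T + 1) (e0 / 2) (2 * Cs) h F e}) with hN
  have hNm : MeasurableSet N := hP.measurableSet.diff
    ((meas_rad hP hl hl1 hd hF h01).union (meas_thkQ hP hl hl1 hF hhd _ _ _))
  have hN0 : volume N = 0 := by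
    refine null_of_slices hNm fun v => ?_
    filter_upwards [hsl P lam d F hl hl1 hd hF h01 v] with x hx hxN
    obtain ⟨hxP, hxn⟩ := hxN
    rcases hx hxP with h1 | h1
    · exact hxn (Or.inl ⟨hxP, h1⟩)
    · exact hxn (Or.inr ⟨hxP, thkQ_of_thk he0 hh0 (hcs _ hxP) (hne _ hxP) h1⟩)
  rw [ae_iff]
  refine measure_mono_null (fun e he => ?_) hN0
  simp only [Set.mem_ofPred_eq, Classical.not_imp, not_or] at he
  refine ⟨he.1, fun hc => ?_⟩
  rcases hc with hc | hc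
  · exact he.2.1 hc.2
  · exact he.2.2 (thk_of_thkQ hh0 (hcs _ he.1) (hne _ he.1) hc.2)

end Crest.Agent.R102.Alt613
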