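import Crest.Agent.R102.BlowC_362

/-!
Row 102, T1-B (f) (helper362): **constant blow-ups**.  Final statements `blow_bdd` (bounded `G`)
and `blow_im` (`|Im B| ≤ h`).
-/

set_option autoImplicit false

open Set Filter Topology Metric Complex MeasureTheory Interval

noncomputable section

namespace Crest.Agent.R102.Blow362

theorem norm_le_of_exp_near {z : ℂ} (hz : ‖z‖ ≤ 3) (h : ‖exp z - 1‖ ≤ 1 / 2) :
    ‖z‖ ≤ 3 / 2 * ‖exp z - 1‖ := by
  have h1 := (Complex.abs_im_le_norm z).trans hz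
  have h2 := Real.pi_gt_three
  have h3 : log (exp z) = z := Complex.log_exp (by linarith [(abs_le.1 h1).1])
    (by linarith [(abs_le.1 h1).2])
  have h4 := Complex.norm_log_one_add_half_le_self (z := exp z - 1) h
  rw [add_sub_cancel, h3] at h4
  exact h4

/-- a continuous logarithm of a function close to `1` stays close to `0` -/
theorem log_stay {X : Type*} [TopologicalSpace X] {s : Set X} (hs : IsPreconnected s) {w : X → ℂ}
    (hw : ContinuousOn w s) (h1 : ∀ x ∈ s, ‖exp (w x) - 1‖ ≤ 1 / 2) {x0 : X} (hx0 : x0 ∈ s)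
    (h0 : ‖w x0‖ ≤ 1) : ∀ x ∈ s, ‖w x‖ ≤ 3 / 2 * ‖exp (w x) - 1‖ := by
  intro x hx
  by_cases h3 : ‖w x‖ ≤ 3
  · exact norm_le_of_exp_near h3 (h1 x hx)
  · exfalso
    have h4 := hs.intermediate_value hx0 hx hw.norm (show (2 : ℝ) ∈ Icc ‖w x0‖ ‖w x‖ from
      ⟨by linarith, by linarith [not_le.1 h3]⟩)
    obtain ⟨y, hy, hy2⟩ := h4
    have hy2' : ‖w y‖ = 2 := hy2
    have h5 := norm_le_of_exp_near (by rw [hy2']; norm_num) (h1 y hy)
    have h6 := h1 y hy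
    rw [hy2'] at h5
    linarith

/-- lifting of limits through `exp` -/
theorem lift_limit {φ : ℝ → ℂ} {δ : ℝ} (hδ : 0 < δ) (hφ : ContinuousOn φ (Ioo 0 δ)) {c : ℂ}
    (hc : c ≠ 0) (h : Tendsto (fun y => exp (I * φ y)) (𝓝[>] 0) (𝓝 c)) :
    ∃ b, exp (I * b) = c ∧ Tendsto φ (𝓝[>] 0) (𝓝 b) := by
  set a : ℂ := log c with ha
  have hexp : exp a = c := Complex.exp_log hc
  -- `exp (I φ - a) → 1`
  have h1 : Tendsto (fun y => exp (I * φ y - a)) (𝓝[>] 0) (𝓝 1) := by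
    have := h.div_const c
    rw [div_self hc] at this
    refine this.congr fun y => ?_
    rw [Complex.exp_sub, hexp]
  have h2 : ∀ᶠ y in 𝓝[>] (0 : ℝ), ‖exp (I * φ y - a) - 1‖ ≤ 1 / 2 := by
    have h3 : Tendsto (fun y => ‖exp (I * φ y - a) - 1‖) (𝓝[>] 0) (𝓝 0) := by
      simpa using (h1.sub_const 1).norm
    filter_upwards [h3.eventually (gt_mem_nhds (show (0 : ℝ) < 1 / 2 by norm_num))] with y hy
      using hy.le
  obtain ⟨η, hη, hsub⟩ := mem_nhdsGT_iff_exists_Ioo_subset.1 h2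
  have hη0 : (0 : ℝ) < η := hη
  set m : ℝ := min η δ with hm
  have hm0 : 0 < m := lt_min hη0 hδ
  have hy1 : m / 2 ∈ Ioo 0 m := ⟨by positivity, by linarith⟩
  have hsub' : Ioo 0 m ⊆ Ioo 0 η := Ioo_subset_Ioo_right (min_le_left _ _)
  have hsubδ : Ioo 0 m ⊆ Ioo 0 δ := Ioo_subset_Ioo_right (min_le_right _ _)
  obtain ⟨k, hk⟩ : ∃ k : ℤ, I * φ (m / 2) - a =
      log (exp (I * φ (m / 2) - a)) + k * (2 * Real.pi * I) := by
    apply Complex.exp_eq_exp_iff_exists_int.1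
    rw [Complex.exp_log (Complex.exp_ne_zero _)]
  set w : ℝ → ℂ := fun y => I * φ y - a - k * (2 * Real.pi * I) with hw
  have hwe : ∀ y, exp (w y) = exp (I * φ y - a) := by
    intro y
    simp only [hw]
    rw [Complex.exp_sub, Complex.exp_int_mul_two_pi_mul_I, div_one]
  have hwc : ContinuousOn w (Ioo 0 m) := by
    have : ContinuousOn φ (Ioo 0 m) := hφ.mono hsubδ
    fun_prop
  have hw1 : ∀ y ∈ Ioo 0 m, ‖exp (w y) - 1‖ ≤ 1 / 2 := by
    intro y hy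
    rw [hwe]
    exact hsub (hsub' hy)
  have hw0 : ‖w (m / 2)‖ ≤ 1 := by
    have h3 : w (m / 2) = log (exp (I * φ (m / 2) - a)) := by
      simp only [hw]
      linear_combination hk
    have h4 := hw1 _ hy1
    rw [hwe] at h4
    have h5 := Complex.norm_log_one_add_half_le_self h4
    rw [add_sub_cancel] at h5
    rw [h3]
    linarith
  have hst := log_stay isPreconnected_Ioo hwc hw1 hy1 hw0
  have hlim : Tendsto w (𝓝[>] 0) (𝓝 0) := by
    rw [tendsto_zero_iff_norm_tendsto_zero]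
    have h3 : Tendsto (fun y => 3 / 2 * ‖exp (I * φ y - a) - 1‖) (𝓝[>] 0) (𝓝 0) := by
      simpa using ((h1.sub_const 1).norm).const_mul (3 / 2)
    refine squeeze_zero' (Eventually.of_forall fun _ => norm_nonneg _) ?_ h3
    filter_upwards [Ioo_mem_nhdsGT hm0] with y hy
    rw [← hwe]
    exact hst y hy
  refine ⟨-I * (a + k * (2 * Real.pi * I)), ?_, ?_⟩
  · have : I * (-I * (a + k * (2 * Real.pi * I))) = a + k * (2 * Real.pi * I) := by
      rw [← mul_assoc, mul_neg, Complex.I_mul_I, neg_neg, one_mul]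
    rw [this, Complex.exp_add, Complex.exp_int_mul_two_pi_mul_I, mul_one, hexp]
  · have h3 := (hlim.add_const (a + k * (2 * Real.pi * I))).const_mul (-I)
    rw [zero_add] at h3
    refine h3.congr fun y => ?_
    simp only [hw]
    linear_combination (-φ y) * Complex.I_sq

/-- in the slice of the base point the blow-up is constant -/
theorem slice_unif {D : Set (ℂ × ℂ)} {G : ℂ × ℂ → ℂ} {M : ℝ}
    (hG : DifferentiableOn ℂ G D) (hM : ∀ p ∈ D, ‖G p‖ ≤ M) {u0 v0 x0 δ : ℝ} (hδ : 0 < δ)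
    (hsl : ∀ t : ℂ, v0 - δ < t.im → t.im < v0 → (t, (u0 : ℂ)) ∈ D) {c : ℂ}
    (hlim : Tendsto (fun y : ℝ => G ((x0 : ℂ) + ((v0 : ℂ) - y) * I, (u0 : ℂ))) (𝓝[>] 0) (𝓝 c)) :
    TendstoLocallyUniformlyOn
      (fun (η : ℝ) (τ : ℂ) => G ((x0 : ℂ) + v0 * I + η * τ, (u0 : ℂ)))
      (fun _ => c) (𝓝[>] 0) {τ | τ.im < 0} := by
  have hΩ : IsOpen {τ : ℂ | τ.im < 0} := isOpen_lt Complex.continuous_im continuous_const
  have hΩc : IsPreconnected {τ : ℂ | τ.im < 0} := (convex_halfSpace_im_lt 0).isPreconnected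
  have him : ∀ (η : ℝ) (z : ℂ), ((x0 : ℂ) + v0 * I + η * z).im = v0 + η * z.im := by
    intro η z; simp
  refine M948.tlu_of_ultra hΩ fun 𝒰 h𝒰 => ?_
  have hloc : ∀ z ∈ {τ : ℂ | τ.im < 0}, ∃ r > 0, ∀ᶠ η : ℝ in (𝒰 : Filter ℝ),
      DifferentiableOn ℂ (fun τ : ℂ => G ((x0 : ℂ) + v0 * I + η * τ, (u0 : ℂ))) (ball z r) ∧
        ∀ w ∈ ball z r, ‖G ((x0 : ℂ) + v0 * I + η * w, (u0 : ℂ))‖ ≤ M := by
    intro z hz
    have hz' : z.im < 0 := hz
    refine ⟨-z.im, by linarith, ?_⟩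
    have hsmall : ∀ᶠ η : ℝ in 𝓝[>] 0, η * (-(2 * z.im)) < δ := by
      have : Continuous (fun η : ℝ => η * (-(2 * z.im))) := by fun_prop
      have h3 := (this.tendsto 0).mono_left (nhdsWithin_le_nhds (s := Ioi 0))
      simp only [zero_mul] at h3
      exact h3.eventually (gt_mem_nhds hδ)
    have h0 : ∀ᶠ η : ℝ in 𝓝[>] 0, (0 : ℝ) < η := self_mem_nhdsWithin
    filter_upwards [h𝒰 hsmall, h𝒰 h0] with η h1 h2
    have hin : ∀ w ∈ ball z (-z.im), ((x0 : ℂ) + v0 * I + η * w, (u0 : ℂ)) ∈ D := by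
      intro w hw
      rw [mem_ball, dist_eq_norm] at hw
      have h4 := (Complex.abs_im_le_norm (w - z)).trans_lt hw
      rw [Complex.sub_im, abs_lt] at h4
      apply hsl
      · rw [him]
        have : η * (2 * z.im) < η * w.im := by
          apply mul_lt_mul_of_pos_left _ h2
          linarith [h4.1]
        linarith
      · rw [him]
        have : η * w.im < 0 := mul_neg_of_pos_of_neg h2 (by linarith [h4.2])
        linarith
    exact ⟨hG.comp (by fun_prop) hin, fun w hw => hM _ (hin w hw)⟩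
  obtain ⟨g, hg, hgu⟩ := montel_exh 𝒰 hΩ hloc
  have hgpt : ∀ y : ℝ, 0 < y → g (-(y : ℂ) * I) = c := by
    intro y hy
    have hmem : (-(y : ℂ) * I) ∈ {τ : ℂ | τ.im < 0} := by simp [hy]
    refine tendsto_nhds_unique (hgu.tendsto_at hmem) ?_
    have h1 : Tendsto (fun η : ℝ => η * y) (𝓝[>] 0) (𝓝[>] 0) := by
      rw [tendsto_nhdsWithin_iff]
      constructor
      · have : Continuous (fun η : ℝ => η * y) := by fun_prop
        have h3 := (this.tendsto 0).mono_left (nhdsWithin_le_nhds (s := Ioi 0))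
        simpa using h3
      · filter_upwards [self_mem_nhdsWithin] with η hη
        exact mul_pos hη hy
    refine ((hlim.comp h1).mono_left h𝒰).congr fun η => ?_
    simp only [Function.comp]
    congr 2
    push_cast
    ring
  have heq : EqOn g (fun _ => c) {τ : ℂ | τ.im < 0} := by
    have han : AnalyticOnNhd ℂ g {τ : ℂ | τ.im < 0} := hg.analyticOnNhd hΩ
    refine han.eqOn_of_preconnected_of_frequently_eq analyticOnNhd_const hΩc
      (z₀ := -I) (by simp) ?_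
    have hT : Tendsto (fun y : ℝ => -(y : ℂ) * I) (𝓝[>] 1) (𝓝[≠] (-I)) := by
      rw [tendsto_nhdsWithin_iff]
      constructor
      · have : Continuous (fun y : ℝ => -(y : ℂ) * I) := by fun_prop
        have h3 := (this.tendsto 1).mono_left (nhdsWithin_le_nhds (s := Ioi 1))
        simpa using h3
      · filter_upwards [self_mem_nhdsWithin] with y hy
        intro h
        have h4 := congrArg Complex.im h
        simp at h4
        have : (1 : ℝ) < y := hy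
        linarith
    refine hT.frequently ?_
    refine Eventually.frequently ?_
    filter_upwards [self_mem_nhdsWithin] with y hy
    exact hgpt y (one_pos.trans hy)
  exact hgu.congr_right heq

/-- passing from `exp (i B)` to `B` on a compact connected set -/
theorem unif_of_exp {X : Type*} [TopologicalSpace X] {l : Filter ℝ} {K : Set X}
    (hK : IsPreconnected K) {B : ℝ → X → ℂ} (hB : ∀ᶠ η in l, ContinuousOn (B η) K) {b : ℂ}
    (he : TendstoUniformlyOn (fun η x => exp (I * B η x)) (fun _ => exp (I * b)) l K)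
    {x0 : X} (hx0 : x0 ∈ K) (h0 : Tendsto (fun η => B η x0) l (𝓝 b)) :
    TendstoUniformlyOn B (fun _ => b) l K := by
  rw [Metric.tendstoUniformlyOn_iff] at he ⊢
  intro ε hε
  have hcn : 0 < ‖exp (I * b)‖ := norm_pos_iff.2 (Complex.exp_ne_zero _)
  have hm : 0 < min (1 / 2) (ε / 2) * ‖exp (I * b)‖ := by positivity
  have h1 : ∀ᶠ η in l, ‖B η x0 - b‖ < 1 := by
    have := (h0.sub_const b).norm
    rw [sub_self, norm_zero] at this
    exact this.eventually (gt_mem_nhds one_pos)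
  filter_upwards [he _ hm, hB, h1] with η h2 h3 h4 x hx
  set w : X → ℂ := fun x => I * B η x - I * b with hw
  have hwe : ∀ x ∈ K, ‖exp (w x) - 1‖ < min (1 / 2) (ε / 2) := by
    intro x hx
    have h5 := h2 x hx
    rw [dist_eq_norm, norm_sub_rev] at h5
    have h6 : exp (w x) - 1 = (exp (I * B η x) - exp (I * b)) / exp (I * b) := by
      simp only [hw]
      rw [Complex.exp_sub, sub_div, div_self (Complex.exp_ne_zero _)]
    rw [h6, norm_div, div_lt_iff₀ hcn]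
    exact h5
  have hwn : ∀ x, ‖w x‖ = ‖B η x - b‖ := by
    intro x
    simp only [hw]
    rw [← mul_sub, norm_mul, Complex.norm_I, one_mul]
  have hwc : ContinuousOn w K := by fun_prop
  have h7 := log_stay hK hwc (fun x hx => (hwe x hx).le.trans (min_le_left _ _)) hx0
    (by rw [hwn]; exact h4.le) x hx
  rw [hwn] at h7
  rw [dist_eq_norm, norm_sub_rev]
  have h8 := (hwe x hx).trans_le (min_le_right _ _)
  have h9 : 0 ≤ ‖exp (w x) - 1‖ := norm_nonneg _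
  linarith

/-- convergence of `B` in the slice of the base point -/
theorem base_conv {D : Set (ℂ × ℂ)} {B : ℂ × ℂ → ℂ} {M : ℝ}
    (hB : DifferentiableOn ℂ B D) (hM : ∀ p ∈ D, ‖exp (I * B p)‖ ≤ M) {u0 v0 x0 δ : ℝ} (hδ : 0 < δ)
    (hsl : ∀ t : ℂ, v0 - δ < t.im → t.im < v0 → (t, (u0 : ℂ)) ∈ D) {b : ℂ}
    (hlim : Tendsto (fun y : ℝ => B ((x0 : ℂ) + ((v0 : ℂ) - y) * I, (u0 : ℂ))) (𝓝[>] 0) (𝓝 b))
    {τ0 : ℂ} (hτ0 : τ0.im < 0) :
    Tendsto (fun η : ℝ => B ((x0 : ℂ) + v0 * I + η * τ0, (u0 : ℂ))) (𝓝[>] 0) (𝓝 b) := by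
  have hG : DifferentiableOn ℂ (fun p => exp (I * B p)) D := (hB.const_mul I).cexp
  have hlimG : Tendsto (fun y : ℝ => exp (I * B ((x0 : ℂ) + ((v0 : ℂ) - y) * I, (u0 : ℂ))))
      (𝓝[>] 0) (𝓝 (exp (I * b))) := (hlim.const_mul I).cexp
  have hu := slice_unif (G := fun p => exp (I * B p)) hG hM hδ hsl hlimG
  have hΩ : IsOpen {τ : ℂ | τ.im < 0} := isOpen_lt Complex.continuous_im continuous_const
  set K : Set ℂ := segment ℝ (-I) τ0 with hK
  have hKsub : K ⊆ {τ : ℂ | τ.im < 0} :=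
    (convex_halfSpace_im_lt 0).segment_subset (by simp) hτ0
  have hKc : IsCompact K := by
    rw [hK, segment_eq_image]
    exact isCompact_Icc.image (by fun_prop)
  have hKp : IsPreconnected K := (convex_segment _ _).isPreconnected
  have hun := (tendstoLocallyUniformlyOn_iff_forall_isCompact hΩ).1 hu K hKsub hKc
  obtain ⟨R, hR⟩ := hKc.isBounded.subset_closedBall (0 : ℂ)
  have hsmall : ∀ᶠ η : ℝ in 𝓝[>] 0, η * R < δ := by
    have : Continuous (fun η : ℝ => η * R) := by fun_prop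
    have h3 := (this.tendsto 0).mono_left (nhdsWithin_le_nhds (s := Ioi 0))
    simp only [zero_mul] at h3
    exact h3.eventually (gt_mem_nhds hδ)
  have hcont : ∀ᶠ η : ℝ in 𝓝[>] 0,
      ContinuousOn (fun τ : ℂ => B ((x0 : ℂ) + v0 * I + η * τ, (u0 : ℂ))) K := by
    filter_upwards [hsmall, self_mem_nhdsWithin] with η h1 h2
    have h2' : (0 : ℝ) < η := h2
    refine hB.continuousOn.comp (by fun_prop) ?_
    intro τ hτ
    have him : ((x0 : ℂ) + v0 * I + η * τ).im = v0 + η * τ.im := by simp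
    have h3 : |τ.im| ≤ R := by
      have := hR hτ
      rw [mem_closedBall, dist_zero_right] at this
      exact (Complex.abs_im_le_norm τ).trans this
    have h4 : τ.im < 0 := hKsub hτ
    apply hsl
    · rw [him]
      have : η * (-R) ≤ η * τ.im := by
        apply mul_le_mul_of_nonneg_left _ h2'.le
        linarith [(abs_le.1 h3).1]
      linarith
    · rw [him]
      have : η * τ.im < 0 := mul_neg_of_pos_of_neg h2' h4
      linarith
  have h0 : Tendsto (fun η : ℝ => B ((x0 : ℂ) + v0 * I + η * (-I), (u0 : ℂ))) (𝓝[>] 0) (𝓝 b) := by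
    refine hlim.congr fun η => ?_
    congr 2
    ring
  have hfin := unif_of_exp hKp hcont hun (left_mem_segment ℝ _ _) h0
  exact hfin.tendsto_at (right_mem_segment ℝ _ _)

/-- propagation of the convergence of `B` over `Ω` -/
theorem im_point {D : Set (ℂ × ℂ)} {B : ℂ × ℂ → ℂ} (hB : DifferentiableOn ℂ B D)
    {X Y b : ℂ} {Ω : Set (ℂ × ℂ)} (hΩ : IsOpen Ω) (hΩc : IsPreconnected Ω) {q : ℂ × ℂ}
    (hmem : q ∈ Ω) (hexh : ∀ K ⊆ Ω, IsCompact K → ∀ᶠ η : ℝ in 𝓝[>] 0, ∀ p ∈ K,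
      (X + η * p.1, Y + η * p.2) ∈ D)
    (hbase : Tendsto (fun η : ℝ => B (X + η * q.1, Y + η * q.2)) (𝓝[>] 0) (𝓝 b))
    (he : TendstoLocallyUniformlyOn
      (fun (η : ℝ) (p : ℂ × ℂ) => exp (I * B (X + η * p.1, Y + η * p.2)))
      (fun _ => exp (I * b)) (𝓝[>] 0) Ω) :
    TendstoLocallyUniformlyOn
      (fun (η : ℝ) (p : ℂ × ℂ) => B (X + η * p.1, Y + η * p.2)) (fun _ => b) (𝓝[>] 0) Ω := by
  have key : ∀ z ∈ Ω, ∃ r > 0, closedBall z r ⊆ Ω ∧ ∀ p ∈ closedBall z r,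
      Tendsto (fun η : ℝ => B (X + η * p.1, Y + η * p.2)) (𝓝[>] 0) (𝓝 b) →
      TendstoUniformlyOn (fun (η : ℝ) (p : ℂ × ℂ) => B (X + η * p.1, Y + η * p.2)) (fun _ => b)
        (𝓝[>] 0) (closedBall z r) := by
    intro z hz
    obtain ⟨r, hr, hrΩ⟩ := Metric.isOpen_iff.1 hΩ z hz
    have hsub : closedBall z (r / 2) ⊆ Ω := (closedBall_subset_ball (by linarith)).trans hrΩ
    refine ⟨r / 2, by positivity, hsub, fun p hp hpt => ?_⟩
    have hun := (tendstoLocallyUniformlyOn_iff_forall_isCompact hΩ).1 he _ hsub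
      (isCompact_closedBall _ _)
    refine unif_of_exp (convex_closedBall z (r / 2)).isPreconnected ?_ hun hp hpt
    filter_upwards [hexh _ hsub (isCompact_closedBall _ _)] with η hη
    exact hB.continuousOn.comp (by fun_prop) hη
  set A : Set (ℂ × ℂ) := {p | p ∈ Ω ∧
    Tendsto (fun η : ℝ => B (X + η * p.1, Y + η * p.2)) (𝓝[>] 0) (𝓝 b)} with hA
  have hAo : IsOpen A := by
    rw [Metric.isOpen_iff]
    intro p hp
    obtain ⟨r, hr, hrΩ, h⟩ := key p hp.1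
    have hu := h p (mem_closedBall_self hr.le) hp.2
    refine ⟨r, hr, fun p' hp' => ?_⟩
    exact ⟨hrΩ (ball_subset_closedBall hp'), hu.tendsto_at (ball_subset_closedBall hp')⟩
  have hAc : closure A ∩ Ω ⊆ A := by
    rintro p ⟨hp, hpΩ⟩
    obtain ⟨r, hr, hrΩ, h⟩ := key p hpΩ
    obtain ⟨p', hp'A, hp'⟩ := Metric.mem_closure_iff.1 hp r hr
    have hu := h p' (by rw [mem_closedBall, dist_comm]; exact hp'.le) hp'A.2
    exact ⟨hpΩ, hu.tendsto_at (mem_closedBall_self hr.le)⟩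
  have hall : Ω ⊆ A := hΩc.subset_of_closure_inter_subset hAo ⟨q, hmem, hmem, hbase⟩ hAc
  rw [Metric.tendstoLocallyUniformlyOn_iff]
  intro ε hε z hz
  obtain ⟨r, hr, hrΩ, h⟩ := key z hz
  have hu := h z (mem_closedBall_self hr.le) (hall hz).2
  exact ⟨closedBall z r, mem_nhdsWithin_of_mem_nhds (closedBall_mem_nhds z hr),
    Metric.tendstoUniformlyOn_iff.1 hu ε hε⟩

/-! ### final statements -/

/-- **constant blow-ups of a bounded function**, coordinates `(u, x)` -/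
theorem blow_bdd' {D : Set (ℂ × ℂ)} (hD : IsOpen D) {G : ℂ × ℂ → ℂ} {M : ℝ}
    (hG : DifferentiableOn ℂ G D) (hM : ∀ p ∈ D, ‖G p‖ ≤ M) {S : Set ℝ} (hS : MeasurableSet S)
    {U : ℝ → ℝ} (hU : Measurable U) {δ : ℝ} (hδ : 0 < δ)
    (hsl : ∀ u ∈ S, ∀ t : ℂ, U u - δ < t.im → t.im < U u → (t, (u : ℂ)) ∈ D) :
    ∀ᵐ p : ℝ × ℝ, p.1 ∈ S →
      ∃ c : ℂ, ‖c‖ ≤ |M| ∧
        Tendsto (fun y : ℝ => G ((p.2 : ℂ) + ((U p.1 : ℂ) - y) * I, (p.1 : ℂ))) (𝓝[>] 0) (𝓝 c) ∧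
        ((∃ C : ℝ, ∀ᶠ r : ℝ in 𝓝[>] 0, (∀ u ∈ S, |u - p.1| ≤ r → U p.1 - C * r ≤ U u) ∧
          ENNReal.ofReal (3 / 2 * r) ≤
            volume {u ∈ S | |u - p.1| ≤ r ∧ U u ≤ U p.1 + C * r}) →
        ∀ Ω : Set (ℂ × ℂ), IsOpen Ω → IsPreconnected Ω →
          (∃ τ0 : ℂ, τ0.im < 0 ∧ (τ0, (0 : ℂ)) ∈ Ω) →
          (∀ K ⊆ Ω, IsCompact K → ∀ᶠ η : ℝ in 𝓝[>] 0, ∀ q ∈ K,
            ((p.2 : ℂ) + U p.1 * I + η * q.1, (p.1 : ℂ) + η * q.2) ∈ D) →
          TendstoLocallyUniformlyOn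
            (fun (η : ℝ) (q : ℂ × ℂ) =>
              G ((p.2 : ℂ) + U p.1 * I + η * q.1, (p.1 : ℂ) + η * q.2))
            (fun _ => c) (𝓝[>] 0) Ω) := by
  obtain ⟨L, hL, hae⟩ := exists_joint hD hG hM hS hU hδ hsl
  set N : Set ℝ := {u | ¬ ∀ᵐ x : ℝ, ‖L (u, x)‖ ≤ |M| ∧ (u ∈ S →
      Tendsto (fun y : ℝ => G ((x : ℂ) + ((U u : ℂ) - y) * I, (u : ℂ))) (𝓝[>] 0)
        (𝓝 (L (u, x))))} with hNdef
  have hN : volume N = 0 := by
    have h1 := hae
    rw [Measure.volume_eq_prod] at h1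
    exact ae_iff.1 (Measure.ae_ae_of_ae_prod h1)
  have hgood : ∀ u ∈ S, u ∉ N → ∀ᵐ x : ℝ,
      Tendsto (fun y : ℝ => G ((x : ℂ) + ((U u : ℂ) - y) * I, (u : ℂ))) (𝓝[>] 0)
        (𝓝 (L (u, x))) := by
    intro u hu huN
    have h1 := not_not.1 huN
    filter_upwards [h1] with x hx using hx.2 hu
  filter_upwards [hae, lebesgue_pt hL (hae.mono fun p hp => hp.1)] with p hp hleb hpS
  refine ⟨L p, hp.1, hp.2 hpS, ?_⟩
  rintro ⟨C, hC⟩ Ω hΩ hΩc ⟨τ0, hτ0, hmem⟩ hexh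
  exact blow_point hG hM hδ hsl hL hN hgood (u0 := p.1) (x0 := p.2) (c := L p) hleb hC hΩ hΩc
    hτ0 hmem hexh

theorem ae_swap {P : ℝ × ℝ → Prop} (h : ∀ᵐ p : ℝ × ℝ, P p) : ∀ᵐ p : ℝ × ℝ, P p.swap := by
  have h1 := (Measure.measurePreserving_swap (μ := (volume : Measure ℝ))
    (ν := (volume : Measure ℝ))).quasiMeasurePreserving
  rw [← Measure.volume_eq_prod] at h1
  exact h1.ae h

/-- **constant blow-ups of a bounded function** -/
theorem blow_bdd {D : Set (ℂ × ℂ)} (hD : IsOpen D) {G : ℂ × ℂ → ℂ} {M : ℝ}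
    (hG : DifferentiableOn ℂ G D) (hM : ∀ p ∈ D, ‖G p‖ ≤ M) {S : Set ℝ} (hS : MeasurableSet S)
    {U : ℝ → ℝ} (hU : Measurable U) {δ : ℝ} (hδ : 0 < δ)
    (hsl : ∀ u ∈ S, ∀ t : ℂ, U u - δ < t.im → t.im < U u → (t, (u : ℂ)) ∈ D) :
    ∀ᵐ p : ℝ × ℝ, p.2 ∈ S →
      ∃ c : ℂ, ‖c‖ ≤ |M| ∧
        Tendsto (fun y : ℝ => G ((p.1 : ℂ) + ((U p.2 : ℂ) - y) * I, (p.2 : ℂ))) (𝓝[>] 0) (𝓝 c) ∧
        ((∃ C : ℝ, ∀ᶠ r : ℝ in 𝓝[>] 0, (∀ u ∈ S, |u - p.2| ≤ r → U p.2 - C * r ≤ U u) ∧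
          ENNReal.ofReal (3 / 2 * r) ≤
            volume {u ∈ S | |u - p.2| ≤ r ∧ U u ≤ U p.2 + C * r}) →
        ∀ Ω : Set (ℂ × ℂ), IsOpen Ω → IsPreconnected Ω →
          (∃ τ0 : ℂ, τ0.im < 0 ∧ (τ0, (0 : ℂ)) ∈ Ω) →
          (∀ K ⊆ Ω, IsCompact K → ∀ᶠ η : ℝ in 𝓝[>] 0, ∀ q ∈ K,
            ((p.1 : ℂ) + U p.2 * I + η * q.1, (p.2 : ℂ) + η * q.2) ∈ D) →
          TendstoLocallyUniformlyOn
            (fun (η : ℝ) (q : ℂ × ℂ) =>
              G ((p.1 : ℂ) + U p.2 * I + η * q.1, (p.2 : ℂ) + η * q.2))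
            (fun _ => c) (𝓝[>] 0) Ω) :=
  ae_swap (blow_bdd' hD hG hM hS hU hδ hsl)

/-- **constant blow-ups of a function with bounded imaginary part** (T1-B (f)) -/
theorem blow_im {D : Set (ℂ × ℂ)} (hD : IsOpen D) {B : ℂ × ℂ → ℂ} {h : ℝ}
    (hB : DifferentiableOn ℂ B D) (hM : ∀ p ∈ D, |(B p).im| ≤ h) {S : Set ℝ}
    (hS : MeasurableSet S)
    {U : ℝ → ℝ} (hU : Measurable U) {δ : ℝ} (hδ : 0 < δ)
    (hsl : ∀ u ∈ S, ∀ t : ℂ, U u - δ < t.im → t.im < U u → (t, (u : ℂ)) ∈ D) :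
    ∀ᵐ p : ℝ × ℝ, p.2 ∈ S →
      ∃ b : ℂ, |b.im| ≤ h ∧
        Tendsto (fun y : ℝ => B ((p.1 : ℂ) + ((U p.2 : ℂ) - y) * I, (p.2 : ℂ))) (𝓝[>] 0) (𝓝 b) ∧
        ((∃ C : ℝ, ∀ᶠ r : ℝ in 𝓝[>] 0, (∀ u ∈ S, |u - p.2| ≤ r → U p.2 - C * r ≤ U u) ∧
          ENNReal.ofReal (3 / 2 * r) ≤
            volume {u ∈ S | |u - p.2| ≤ r ∧ U u ≤ U p.2 + C * r}) →
        ∀ Ω : Set (ℂ × ℂ), IsOpen Ω → IsPreconnected Ω →
          (∃ τ0 : ℂ, τ0.im < 0 ∧ (τ0, (0 : ℂ)) ∈ Ω) →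
          (∀ K ⊆ Ω, IsCompact K → ∀ᶠ η : ℝ in 𝓝[>] 0, ∀ q ∈ K,
            ((p.1 : ℂ) + U p.2 * I + η * q.1, (p.2 : ℂ) + η * q.2) ∈ D) →
          TendstoLocallyUniformlyOn
            (fun (η : ℝ) (q : ℂ × ℂ) =>
              B ((p.1 : ℂ) + U p.2 * I + η * q.1, (p.2 : ℂ) + η * q.2))
            (fun _ => b) (𝓝[>] 0) Ω) := by
  have hG : DifferentiableOn ℂ (fun p => exp (I * B p)) D := (hB.const_mul I).cexp
  have hnorm : ∀ p, ‖exp (I * B p)‖ = Real.exp (-(B p).im) := by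
    intro p
    rw [Complex.norm_exp]
    congr 1
    simp
  have hMG : ∀ p ∈ D, ‖exp (I * B p)‖ ≤ Real.exp h := by
    intro p hp
    rw [hnorm]
    exact Real.exp_le_exp.2 (by linarith [(abs_le.1 (hM p hp)).1])
  filter_upwards [blow_bdd hD hG hMG hS hU hδ hsl] with p hp hpS
  obtain ⟨c, -, hc, hΩ⟩ := hp hpS
  have hin : ∀ y ∈ Ioo 0 δ, ((p.1 : ℂ) + ((U p.2 : ℂ) - (y : ℝ)) * I, (p.2 : ℂ)) ∈ D := by
    intro y hy
    apply hsl _ hpS
    · simp; exact hy.2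
    · simp; exact hy.1
  have hpos : ∀ᶠ y : ℝ in 𝓝[>] 0, y ∈ Ioo 0 δ := Ioo_mem_nhdsGT hδ
  have hc0 : c ≠ 0 := by
    have h1 : Real.exp (-h) ≤ ‖c‖ := by
      refine ge_of_tendsto hc.norm ?_
      filter_upwards [hpos] with y hy
      rw [hnorm]
      exact Real.exp_le_exp.2 (by linarith [(abs_le.1 (hM _ (hin y hy))).2])
    intro h0
    rw [h0, norm_zero] at h1
    exact absurd h1 (not_le.2 (Real.exp_pos _))
  obtain ⟨b, hbc, hb⟩ := lift_limit hδ (φ := fun y : ℝ =>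
    B ((p.1 : ℂ) + ((U p.2 : ℂ) - y) * I, (p.2 : ℂ)))
    (hB.continuousOn.comp (by fun_prop) hin) hc0 hc
  refine ⟨b, ?_, hb, ?_⟩
  · have h1 : Tendsto (fun y : ℝ => |(B ((p.1 : ℂ) + ((U p.2 : ℂ) - y) * I, (p.2 : ℂ))).im|)
        (𝓝[>] 0) (𝓝 |b.im|) := ((Complex.continuous_im.tendsto b).comp hb).abs
    refine le_of_tendsto h1 ?_
    filter_upwards [hpos] with y hy using hM _ (hin y hy)
  · rintro hC Ω hΩo hΩc ⟨τ0, hτ0, hmem⟩ hexh
    have he := hΩ hC Ω hΩo hΩc ⟨τ0, hτ0, hmem⟩ hexh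
    rw [← hbc] at he
    refine im_point hB hΩo hΩc hmem hexh ?_ he
    have h1 := base_conv hB hMG hδ (hsl p.2 hpS) hb hτ0
    simpa using h1

end Crest.Agent.R102.Blow362
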