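import Crest.Agent.R102.Step5Defs_613
import Crest.Agent.R102.Blow_971
import Crest.Agent.R102.Blow_362

/-!
Row 102, T1-B, STEP 5 (helper613): `step5 : DiscEst → Step5`.
-/

set_option autoImplicit false
set_option linter.unusedSectionVars false
set_option linter.unusedVariables false

open Set Filter Topology Metric Complex MeasureTheory

noncomputable section

namespace Crest.Agent.R102.S5

open Crest.Agent.R102.End613 Crest.Agent.R264 Crest.Agent.R266.SCV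

/-! ### geometry -/

theorem isOpen_Gam (a g : ℝ) : IsOpen (Gam a g) := by
  have h1 : IsOpen {x : ℂ × ℂ | ‖x.1‖ < a + 4} := isOpen_lt (by fun_prop) (by fun_prop)
  have h2 : IsOpen {x : ℂ × ℂ | ‖x.2‖ < a + 4} := isOpen_lt (by fun_prop) (by fun_prop)
  have h3 : IsOpen {x : ℂ × ℂ | 1 / 8 < x.2.im} :=
    isOpen_lt (by fun_prop) (Complex.continuous_im.comp continuous_snd)
  have h4 : IsOpen {x : ℂ × ℂ | x.1.im < (a + g / 2) * x.2.im} :=
    isOpen_lt (Complex.continuous_im.comp continuous_fst)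
      (continuous_const.mul (Complex.continuous_im.comp continuous_snd))
  exact h1.inter (h2.inter (h3.inter h4))

theorem isOpen_Low (a g ρ : ℝ) : IsOpen (Low a g ρ) :=
  (isOpen_Gam a g).inter (isOpen_lt (Complex.continuous_im.comp continuous_fst)
      (continuous_const.mul (Complex.continuous_im.comp continuous_snd)))

theorem convex_lvl (m : ℝ) : Convex ℝ {x : ℂ × ℂ | x.1.im < m * x.2.im} := by
  intro x hx y hy s t hs ht hst
  change x.1.im < m * x.2.im at hx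
  change y.1.im < m * y.2.im at hy
  change (s • x + t • y).1.im < m * (s • x + t • y).2.im
  have e1 : (s • x + t • y).1.im = s * x.1.im + t * y.1.im := by simp
  have e2 : (s • x + t • y).2.im = s * x.2.im + t * y.2.im := by simp
  rw [e1, e2]
  rcases hs.eq_or_lt with rfl | hs'
  · have : t = 1 := by linarith
    subst this
    linarith
  · nlinarith

theorem convex_Gam (a g : ℝ) : Convex ℝ (Gam a g) := by
  have h1 : Convex ℝ {x : ℂ × ℂ | ‖x.1‖ < a + 4} := by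
    intro x hx y hy s t hs ht hst
    have h := (convex_ball (0 : ℂ) (a + 4)) (x := x.1) (by simpa using hx) (y := y.1)
      (by simpa using hy) hs ht hst
    simpa using h
  have h2 : Convex ℝ {x : ℂ × ℂ | ‖x.2‖ < a + 4} := by
    intro x hx y hy s t hs ht hst
    have h := (convex_ball (0 : ℂ) (a + 4)) (x := x.2) (by simpa using hx) (y := y.2)
      (by simpa using hy) hs ht hst
    simpa using h
  have h3 : Convex ℝ {x : ℂ × ℂ | 1 / 8 < x.2.im} := by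
    intro x hx y hy s t hs ht hst
    have h := (convex_Ioi (1 / 8 : ℝ)) (x := x.2.im) (by simpa using hx) (y := y.2.im)
      (by simpa using hy) hs ht hst
    simpa using h
  exact h1.inter (h2.inter (h3.inter (convex_lvl _)))

theorem convex_Low (a g ρ : ℝ) : Convex ℝ (Low a g ρ) := (convex_Gam a g).inter (convex_lvl _)

theorem Low_sub (a g ρ : ℝ) : Low a g ρ ⊆ Gam a g := fun _ h => h.1

/-- the base point -/
def bp : ℂ × ℂ := (-I, I / 4)

theorem bp_im1 : bp.1.im = -1 := by simp [bp]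

theorem bp_im2 : bp.2.im = 1 / 4 := by
  simp [bp]

theorem bp_n1 : ‖bp.1‖ = 1 := by simp [bp]

theorem bp_n2 : ‖bp.2‖ = 1 / 4 := by simp [bp]

theorem bp_Low {a g ρ : ℝ} (ha : 0 ≤ a) (hg : 0 < g) (hρ : ρ ≤ 1) : bp ∈ Low a g ρ := by
  refine ⟨⟨?_, ?_, ?_, ?_⟩, ?_⟩
  · rw [bp_n1]; linarith
  · rw [bp_n2]; linarith
  · rw [bp_im2]; norm_num
  · rw [bp_im1, bp_im2]; linarith
  · rw [bp_im1, bp_im2]; linarith

theorem bl_re1 (e : ℝ × ℝ) (s : ℝ) (x : ℂ × ℂ) : (bl e s x).1.re - e.1 = s * x.1.re := by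
  simp [bl]

theorem bl_im1 (e : ℝ × ℝ) (s : ℝ) (x : ℂ × ℂ) : (bl e s x).1.im = s * x.1.im := by
  simp [bl]

theorem bl_im2 (e : ℝ × ℝ) (s : ℝ) (x : ℂ × ℂ) : (bl e s x).2.im = s * x.2.im := by
  simp [bl]

theorem bl_sub2 (e : ℝ × ℝ) (s : ℝ) (x : ℂ × ℂ) : (bl e s x).2 - (e.2 : ℂ) = s * x.2 := by
  simp [bl]

theorem bl_sub1 (e : ℝ × ℝ) (s : ℝ) (x : ℂ × ℂ) : (bl e s x).1 - (e.1 : ℂ) = s * x.1 := by
  simp [bl]

theorem bl_diff (e : ℝ × ℝ) (s : ℝ) : Differentiable ℂ (bl e s) := by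
  unfold bl
  fun_prop

theorem norm_smul' {s : ℝ} (hs : 0 < s) (z : ℂ) : ‖(s : ℂ) * z‖ = s * ‖z‖ := by
  rw [norm_mul, Complex.norm_real, Real.norm_eq_abs, abs_of_pos hs]

theorem bl_Half {e : ℝ × ℝ} {s η A m : ℝ} {x : ℂ × ℂ} (hs : 0 < s) (hA : s * A < η)
    (h1 : ‖x.1‖ ≤ A) (h2 : ‖x.2‖ ≤ A) (h3 : 0 < x.2.im) (h4 : x.1.im < m * x.2.im) :
    bl e s x ∈ Half e η m := by
  have a1 : s * ‖x.1‖ < η := (mul_le_mul_of_nonneg_left h1 hs.le).trans_lt hA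
  have a2 : s * ‖x.2‖ < η := (mul_le_mul_of_nonneg_left h2 hs.le).trans_lt hA
  refine ⟨?_, ?_, ?_, ?_, ?_⟩
  · rw [bl_re1, abs_mul, abs_of_pos hs]
    exact (mul_le_mul_of_nonneg_left (Complex.abs_re_le_norm _) hs.le).trans_lt a1
  · rw [bl_im1]
    have := (abs_le.1 (Complex.abs_im_le_norm x.1)).1
    nlinarith
  · rw [bl_sub2, norm_smul' hs]
    exact a2
  · rw [bl_im2]; positivity
  · rw [bl_im1, bl_im2]
    nlinarith

theorem ev_small {A η : ℝ} (hη : 0 < η) : ∀ᶠ s : ℝ in 𝓝[>] 0, 0 < s ∧ s * A < η := by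
  have h1 : Tendsto (fun s : ℝ => s * A) (𝓝[>] 0) (𝓝 (0 * A)) :=
    (tendsto_id.mul_const A).mono_left nhdsWithin_le_nhds
  rw [zero_mul] at h1
  exact (eventually_mem_nhdsWithin (a := (0 : ℝ)) (s := Ioi 0)).and (h1.eventually_lt_const hη)

theorem Half_mono {e : ℝ × ℝ} {η η' m m' : ℝ} (h : η ≤ η') (hm : m ≤ m') :
    Half e η m ⊆ Half e η' m' := by
  rintro q ⟨h1, h2, h3, h4, h5⟩
  exact ⟨h1.trans_le h, by linarith, h3.trans_le h, h4, h5.trans_le (by gcongr)⟩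

theorem Saw_mono {P : Set (ℝ × ℝ)} {lam d d' : ℝ} (h : d ≤ d') : Saw P lam d ⊆ Saw P lam d' := by
  rintro q ⟨h1, h2, h3, h4⟩
  exact ⟨h1, by linarith, h3, h4⟩

/-- limits in cones are uniform in the blow-up -/
theorem cone_unif {X : Type*} [PseudoMetricSpace X] {B : ℂ × ℂ → X} {e : ℝ × ℝ} {b₀ : X}
    (hlim : ∀ M : ℝ, Tendsto B (𝓝[Cn e M] ((e.1 : ℂ), (e.2 : ℂ))) (𝓝 b₀)) {A δ : ℝ} (hA : 0 < A)
    (hδ : 0 < δ) {ε : ℝ} (hε : 0 < ε) :
    ∀ᶠ s : ℝ in 𝓝[>] 0, ∀ x : ℂ × ℂ, ‖x.1‖ ≤ A → ‖x.2‖ ≤ A → x.1.im ≤ -δ → δ ≤ x.2.im →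
      dist (B (bl e s x)) b₀ < ε := by
  obtain ⟨r, hr, hball⟩ := (Metric.tendsto_nhdsWithin_nhds.1 (hlim (2 * A / δ))) ε hε
  filter_upwards [ev_small (A := A) hr] with s hs x h1 h2 h3 h4
  obtain ⟨hs0, hsA⟩ := hs
  have hM : 0 < 2 * A / δ := by positivity
  have e1 : 2 * A / δ * δ = 2 * A := by field_simp
  refine hball ⟨?_, ?_, ?_⟩ ?_
  · rw [bl_im1]; nlinarith
  · rw [bl_im1, bl_im2]
    have a1 := (abs_le.1 (Complex.abs_im_le_norm x.1)).1
    have a2 : 2 * A / δ * δ ≤ 2 * A / δ * x.2.im := mul_le_mul_of_nonneg_left h4 hM.le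
    have a3 : -x.1.im ≤ 2 * A / δ * x.2.im := by linarith
    calc -(s * x.1.im) = s * (-x.1.im) := by ring
      _ ≤ s * (2 * A / δ * x.2.im) := mul_le_mul_of_nonneg_left a3 hs0.le
      _ = _ := by ring
  · rw [bl_re1, bl_sub2, bl_im1, norm_smul' hs0, abs_mul, abs_of_pos hs0]
    have a1 := Complex.abs_re_le_norm x.1
    have a2 : 2 * A / δ * δ ≤ 2 * A / δ * (-x.1.im) :=
      mul_le_mul_of_nonneg_left (by linarith) hM.le
    have a3 : |x.1.re| + ‖x.2‖ ≤ 2 * A / δ * (-x.1.im) := by linarith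
    calc s * |x.1.re| + s * ‖x.2‖ = s * (|x.1.re| + ‖x.2‖) := by ring
      _ ≤ s * (2 * A / δ * (-x.1.im)) := mul_le_mul_of_nonneg_left a3 hs0.le
      _ = _ := by ring
  · rw [Prod.dist_eq, max_lt_iff]
    constructor
    · rw [dist_eq_norm, bl_sub1, norm_smul' hs0]
      nlinarith
    · rw [dist_eq_norm, bl_sub2, norm_smul' hs0]
      nlinarith

/-- **LOWLIM** -/
theorem lowlim {B : ℂ × ℂ → ℂ} {e : ℝ × ℝ} {a g ρ h η : ℝ} (ha : 0 ≤ a) (hg : 0 < g)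
    (hρ1 : ρ ≤ 1) (hη : 0 < η)
    (hB : ∀ q ∈ Half e η (a - ρ), DifferentiableAt ℂ B q ∧ |(B q).im| ≤ h) {b₀ : ℂ}
    (hlim : ∀ M : ℝ, Tendsto B (𝓝[Cn e M] ((e.1 : ℂ), (e.2 : ℂ))) (𝓝 b₀))
    {K : Set (ℂ × ℂ)} (hK : K ⊆ Low a g ρ) (hKc : IsCompact K) {ε : ℝ} (hε : 0 < ε) :
    ∀ᶠ s : ℝ in 𝓝[>] 0, ∀ x ∈ K, ‖B (bl e s x) - b₀‖ < ε := by
  -- membership of the blow-ups
  have hmem : ∀ᶠ s : ℝ in 𝓝[>] 0, ∀ x ∈ Low a g ρ, bl e s x ∈ Half e η (a - ρ) := by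
    filter_upwards [ev_small (A := a + 4) hη] with s hs x hx
    exact bl_Half hs.1 hs.2 hx.1.1.le hx.1.2.1.le (by linarith [hx.1.2.2.1]) hx.2
  have hbpL : bp ∈ Low a g ρ := bp_Low ha hg hρ1
  have hDiff : ∀ᶠ s : ℝ in 𝓝[>] 0, DifferentiableOn ℂ (fun x => B (bl e s x)) (Low a g ρ) := by
    filter_upwards [hmem] with s hs x hx
    exact ((hB _ (hs x hx)).1.comp x (bl_diff e s x)).differentiableWithinAt
  -- the star
  set K' : Set (ℂ × ℂ) := (fun y : ℝ × (ℂ × ℂ) => bp + y.1 • (y.2 - bp)) ''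
    (Icc (0 : ℝ) 1 ×ˢ insert bp K) with hK'
  have hK'c : IsCompact K' := (isCompact_Icc.prod (hKc.insert bp)).image (by fun_prop)
  have hK'L : K' ⊆ Low a g ρ := by
    rintro _ ⟨⟨t, y⟩, ⟨ht, hy⟩, rfl⟩
    have hy' : y ∈ Low a g ρ := by
      rcases hy with rfl | hy
      · exact hbpL
      · exact hK hy
    exact (convex_Low a g ρ).add_smul_sub_mem hbpL hy' ht
  have hbK' : bp ∈ K' := ⟨(0, bp), ⟨⟨le_rfl, zero_le_one⟩, mem_insert _ _⟩, by simp⟩
  have hKK' : K ⊆ K' := fun y hy =>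
    ⟨(1, y), ⟨⟨zero_le_one, le_rfl⟩, mem_insert_of_mem _ hy⟩, by simp⟩
  have hK'p : IsPreconnected K' := by
    refine (StarConvex.isPathConnected (a := bp) ?_ hbK').isConnected.isPreconnected
    rw [starConvex_iff_forall_pos hbK']
    rintro _ ⟨⟨t, y⟩, ⟨ht, hy⟩, rfl⟩ c d hc hd hcd
    refine ⟨(d * t, y), ⟨⟨by have := ht.1; positivity, ?_⟩, hy⟩, ?_⟩
    · have := ht.2
      have h0 := ht.1
      simp only
      nlinarith
    · simp only
      have hc' : c = 1 - d := by linarith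
      subst hc'
      module
  -- exponentials
  obtain ⟨r₁, hr₁, hr₁L⟩ := Metric.isOpen_iff.1 (isOpen_Low a g ρ) bp hbpL
  have hV := Blow971.vitali (l := 𝓝[>] (0 : ℝ)) (f := fun s x => cexp (I * B (bl e s x)))
    (b := cexp (I * b₀)) (Ω := Low a g ρ) (convex_Low a g ρ).isPreconnected (by
      intro q hq
      obtain ⟨r, hr, hrL⟩ := Metric.isOpen_iff.1 (isOpen_Low a g ρ) q hq
      refine ⟨r, hr, Real.exp h, ?_⟩
      filter_upwards [hmem, hDiff] with s hs hd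
      refine ⟨?_, fun y hy => ?_⟩
      · exact ((hd.mono hrL).const_mul I).cexp
      · rw [Complex.norm_exp]
        refine Real.exp_le_exp.2 ?_
        have h1 : (I * B (bl e s y)).re = -(B (bl e s y)).im := by simp
        rw [h1]
        exact (neg_le_abs _).trans (hB _ (hs y (hrL hy))).2) hbpL
    (r1 := min r₁ (1 / 8)) (by positivity) (by
      intro ε' hε'
      have hlim' : ∀ M : ℝ, Tendsto (fun q => cexp (I * B q)) (𝓝[Cn e M] ((e.1 : ℂ), (e.2 : ℂ)))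
          (𝓝 (cexp (I * b₀))) := fun M =>
        (Complex.continuous_exp.tendsto _).comp ((hlim M).const_mul I)
      filter_upwards [cone_unif hlim' (A := 2) (δ := 1 / 8) (by norm_num) (by norm_num) hε']
        with s hs y hy
      rw [mem_ball, Prod.dist_eq, max_lt_iff] at hy
      have y1 : ‖y.1 - bp.1‖ < 1 / 8 := by
        rw [← dist_eq_norm]; exact hy.1.trans_le (min_le_right _ _)
      have y2 : ‖y.2 - bp.2‖ < 1 / 8 := by
        rw [← dist_eq_norm]; exact hy.2.trans_le (min_le_right _ _)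
      have n1 : ‖y.1‖ ≤ 2 := by
        have := norm_le_norm_add_norm_sub' y.1 bp.1
        rw [bp_n1] at this
        linarith
      have n2 : ‖y.2‖ ≤ 2 := by
        have := norm_le_norm_add_norm_sub' y.2 bp.2
        rw [bp_n2] at this
        linarith
      have i1 := (abs_le.1 ((Complex.abs_im_le_norm (y.1 - bp.1)).trans y1.le)).2
      have i2 := (abs_le.1 ((Complex.abs_im_le_norm (y.2 - bp.2)).trans y2.le)).1
      rw [Complex.sub_im, bp_im1] at i1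
      rw [Complex.sub_im, bp_im2] at i2
      have := hs y n1 n2 (by linarith) (by linarith)
      rw [dist_eq_norm] at this
      exact this.le) hK'c hK'L
  have hU : TendstoUniformlyOn (fun (s : ℝ) x => B (bl e s x)) (fun _ => b₀) (𝓝[>] 0) K' := by
    refine Blow362.unif_of_exp hK'p ?_ ?_ hbK' ?_
    · filter_upwards [hDiff] with s hs
      exact (hs.mono hK'L).continuousOn
    · rw [Metric.tendstoUniformlyOn_iff]
      intro ε' hε'
      filter_upwards [hV (ε' / 2) (by positivity)] with s hs x hx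
      rw [dist_eq_norm, norm_sub_rev]
      linarith [hs x hx]
    · rw [Metric.tendsto_nhds]
      intro ε' hε'
      filter_upwards [cone_unif hlim (A := 2) (δ := 1 / 8) (by norm_num) (by norm_num) hε']
        with s hs
      exact hs bp (by rw [bp_n1]; norm_num) (by rw [bp_n2]; norm_num) (by rw [bp_im1]; norm_num)
        (by rw [bp_im2]; norm_num)
  filter_upwards [(Metric.tendstoUniformlyOn_iff.1 hU) ε hε] with s hs x hx
  rw [← dist_eq_norm, dist_comm]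
  exact hs x (hKK' hx)

/-! ### worlds -/

/-- the value of an exponential from the imaginary part -/
theorem im_le_of_exp {z : ℂ} {C : ℝ} (h : ‖cexp (I * z)‖ ≤ Real.exp C) : -z.im ≤ C := by
  rw [Complex.norm_exp] at h
  have := Real.exp_le_exp.1 h
  simpa using this

theorem im_le_of_exp' {z : ℂ} {C : ℝ} (h : ‖cexp (-(I * z))‖ ≤ Real.exp C) : z.im ≤ C := by
  rw [Complex.norm_exp] at h
  have := Real.exp_le_exp.1 h
  simpa using this

section world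

variable {S : Set ℂ} {Z Zc T c : ℂ → ℂ} {φ p B : ℂ × ℂ → ℂ} {h a g T0 e0 Cs lam r ρ : ℝ}
  {P : Set (ℝ × ℝ)} {z₀ : ℂ} {r₀ : ℝ}

/-- the world of the blow-ups at `e`, along a filter `l` of scales -/
theorem world (hS : IsOpen S) (hI : In5 S Z Zc T c φ p B h a g T0 e0 Cs lam r ρ P z₀ r₀) (ha : 0 ≤ a) (hg : 0 < g)
    (hρ1 : ρ ≤ 1) {e : ℝ × ℝ} (he : e ∈ P) {b₀ : ℂ} (hb₀ : b₀ ∈ closedBall z₀ r₀)
    (hlim : ∀ M : ℝ, Tendsto B (𝓝[Cn e M] ((e.1 : ℂ), (e.2 : ℂ))) (𝓝 b₀))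
    {l : Filter ℝ} (hl : l ≤ 𝓝[>] 0) {C1 C2 : ℝ}
    (h1 : ∀ᶠ s in l, ∀ x ∈ Gam a g, |(φ (bl e s x) - T b₀).im| ≤ C1)
    (h2 : ∀ᶠ s in l, ∀ x ∈ Gam a g, ‖Inc (φ (bl e s x)) (p (bl e s x)) (Z b₀) (Zc b₀)‖ ≤ C2) :
    World (Gam a g) (Low a g ρ) S Z Zc T c l (fun s x => φ (bl e s x)) (fun s x => p (bl e s x))
      (fun s x => B (bl e s x)) b₀ := by
  obtain ⟨η, hη, hline⟩ := hI.line e he
  obtain ⟨η', hη', hlow⟩ := hI.low e he
  refine ⟨hI.disc hb₀, hI.c_ne _ hb₀, ?_, ?_⟩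
  · intro x hx
    obtain ⟨r', hr', hr'G⟩ := Metric.isOpen_iff.1 (isOpen_Gam a g) x hx
    refine ⟨r', hr', hr'G, max C1 C2, ?_⟩
    filter_upwards [hl (ev_small (A := a + 4) hη), h1, h2] with s hs hs1 hs2
    have hm : ∀ y ∈ ball x r', bl e s y ∈ Half e η (a + g) := fun y hy => by
      have hyG := hr'G hy
      refine bl_Half hs.1 hs.2 hyG.1.le hyG.2.1.le (by linarith [hyG.2.2.1]) ?_
      have h3 := hyG.2.2.2
      have h4 := hyG.2.2.1
      nlinarith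
    refine ⟨fun y hy => ?_, fun y hy => ?_, fun y hy => ⟨?_, ?_⟩⟩
    · exact ((hline _ (hm y hy)).1.comp y (bl_diff e s y)).differentiableWithinAt
    · exact ((hline _ (hm y hy)).2.comp y (bl_diff e s y)).differentiableWithinAt
    · exact (hs1 y (hr'G hy)).trans (le_max_left _ _)
    · exact (hs2 y (hr'G hy)).trans (le_max_right _ _)
  · intro K hK hKc ε hε
    have hB : ∀ q ∈ Half e η' (a - ρ), DifferentiableAt ℂ B q ∧ |(B q).im| ≤ h := fun q hq =>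
      ⟨(hlow q hq).2.2.1, (hlow q hq).2.2.2.1⟩
    obtain ⟨ε₁, hε₁, hε₁S⟩ := Metric.isOpen_iff.1 hS b₀ (hI.disc hb₀)
    filter_upwards [hl (lowlim ha hg hρ1 hη' hB hlim hK hKc hε),
      hl (lowlim ha hg hρ1 hη' hB hlim hK hKc hε₁), hl (ev_small (A := a + 4) hη')]
      with s hs hsS hs' x hx
    refine ⟨hs x hx, ?_⟩
    have hxL := hK hx
    refine (hlow _ (bl_Half hs'.1 hs'.2 hxL.1.1.le hxL.1.2.1.le (by linarith [hxL.1.2.2.1])
      hxL.2)).2.2.2.2 (hε₁S ?_)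
    rw [mem_ball, dist_eq_norm]
    exact hsS x hx

end world

section lim2

variable {ι : Type*}

/-- variant of `world_limit` with the ultrafilter displayed -/
theorem world_lim2 {Gam Low : Set (ℂ × ℂ)} (hG : IsOpen Gam) (hGc : IsPreconnected Gam)
    (hL : IsOpen Low) (hLG : Low ⊆ Gam) (hLn : Low.Nonempty)
    {S : Set ℂ} (hS : IsOpen S) {Z Zc T c : ℂ → ℂ}
    (hZ : ∀ b ∈ S, HasDerivAt Z (c b * cexp (I * T b)) b)
    (hZc : ∀ b ∈ S, HasDerivAt Zc (c b * cexp (-(I * T b))) b)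
    (hT : ContinuousOn T S) (hcc : ContinuousOn c S) {l : Filter ι} [l.NeBot]
    {φ p B : ι → ℂ × ℂ → ℂ} {b₀ : ℂ} (W : World Gam Low S Z Zc T c l φ p B b₀) :
    ∃ u : Ultrafilter ι, (u : Filter ι) ≤ l ∧ ∃ R : ℂ × ℂ → ℂ, DifferentiableOn ℂ R Gam ∧
      (∀ x ∈ Gam, Tendsto (fun n => cexp (2 * I * (T b₀ - φ n x))) u (𝓝 (R x))) ∧
      ∀ Q ⊆ Gam, IsCompact Q → ∀ K ⊆ Low, IsCompact K →
        (∀ᶠ n in l, ¬ ∃ (G : ℂ × ℂ → ℂ) (V : Set (ℂ × ℂ)), IsOpen V ∧ Q ⊆ V ∧ V ⊆ Gam ∧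
          DifferentiableOn ℂ G V ∧
          (∀ x ∈ V, G x ∈ S ∧ Inc (φ n x) (p n x) (Z (G x)) (Zc (G x)) = 0) ∧
          ∀ x ∈ K ∩ V, G x = B n x) →
        ∃ x ∈ Q, R x = 1 := by
  classical
  set u : Ultrafilter ι := Ultrafilter.of l with hu
  have hul : (u : Filter ι) ≤ l := Ultrafilter.of_le l
  have hne : (u : Filter ι).NeBot := u.neBot
  have hSn := hS.mem_nhds W.b₀_mem
  have hB : ∀ x ∈ Low, Tendsto (fun n => B n x) u (𝓝 b₀) := by
    intro x hx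
    rw [Metric.tendsto_nhds]
    intro ε hε
    have := hul (W.low {x} (singleton_subset_iff.2 hx) isCompact_singleton ε hε)
    filter_upwards [this] with n hn
    rw [dist_eq_norm]
    exact (hn x rfl).1
  have hI : ∀ x ∈ Low, ∀ᶠ n in (u : Filter ι),
      Inc (φ n x) (p n x) (Z (B n x)) (Zc (B n x)) = 0 := by
    intro x hx
    have := hul (W.low {x} (singleton_subset_iff.2 hx) isCompact_singleton 1 one_pos)
    filter_upwards [this] with n hn
    exact (hn x rfl).2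
  obtain ⟨R, hR, -, hRl, hmain⟩ := end1 u hG hGc hL hLG hLn hS hZ hZc W.b₀_mem
    (hT.continuousAt hSn) (hcc.continuousAt hSn) W.c_ne (φ := φ) (p := p) (B := B)
    (fun x hx => by
      obtain ⟨r, hr, hrG, C, hC⟩ := W.reg x hx
      exact ⟨r, hr, hrG, C, hul hC⟩) hB hI
  refine ⟨u, hul, R, hR, fun x hx => hRl.tendsto_at hx, ?_⟩
  intro Q hQ hQc K hK hKc hbirth
  by_contra hcon
  push Not at hcon
  obtain ⟨ρ, hρ, -, hρS, V, hV, hQV, hVG, hev⟩ := hmain Q hQ hQc hcon 1 one_pos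
  obtain ⟨n, ⟨⟨G, hG1, hG2, hG3⟩, hn2⟩, hn3⟩ :=
    ((hev.and (hul hbirth)).and (hul (W.low K hK hKc ρ hρ))).exists
  refine hn2 ⟨G, V, hV, hQV, hVG, hG1, fun x hx => ⟨hρS (hG2 x hx).1, (hG2 x hx).2⟩,
    fun x hx => ?_⟩
  refine (hG3 x hx.2 (B n x) ?_ (hn3 x hx.1).2).symm
  rw [mem_closedBall, dist_eq_norm]
  exact (hn3 x hx.1).1.le

end lim2

/-! ### the disc estimate applied -/

section apply

variable {S : Set ℂ} {Z Zc T c : ℂ → ℂ} {φ p B : ℂ × ℂ → ℂ} {h a g T0 e0 Cs lam r ρ : ℝ}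
  {P : Set (ℝ × ℝ)} {z₀ : ℂ} {r₀ : ℝ}

/-- `R` on the sawtooth is holomorphic -/
theorem F_diff (hS : IsOpen S) (hZ : ∀ b ∈ S, HasDerivAt Z (c b * cexp (I * T b)) b)
    (hZc : ∀ b ∈ S, HasDerivAt Zc (c b * cexp (-(I * T b))) b) {D : Set (ℂ × ℂ)}
    (hφ : ∀ q ∈ D, DifferentiableAt ℂ φ q) (hB : ∀ q ∈ D, DifferentiableAt ℂ B q)
    (hBS : ∀ q ∈ D, B q ∈ S) (hc : ∀ q ∈ D, c (B q) ≠ 0) :
    DifferentiableOn ℂ (fun q => cexp (2 * I * (T (B q) - φ q))) D := by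
  have hZd : DifferentiableOn ℂ (deriv Z) S :=
    DifferentiableOn.deriv (fun b hb => (hZ b hb).differentiableAt.differentiableWithinAt) hS
  have hZcd : DifferentiableOn ℂ (deriv Zc) S :=
    DifferentiableOn.deriv (fun b hb => (hZc b hb).differentiableAt.differentiableWithinAt) hS
  have key : DifferentiableOn ℂ (fun q => deriv Z (B q) / deriv Zc (B q) * cexp (-(2 * I * φ q)))
      D := by
    intro q hq
    have hBq := hBS q hq
    have h1 : DifferentiableAt ℂ (fun q => deriv Z (B q)) q :=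
      (hZd.differentiableAt (hS.mem_nhds hBq)).comp q (hB q hq)
    have h2 : DifferentiableAt ℂ (fun q => deriv Zc (B q)) q :=
      (hZcd.differentiableAt (hS.mem_nhds hBq)).comp q (hB q hq)
    have h3 : deriv Zc (B q) ≠ 0 := by
      rw [(hZc _ hBq).deriv]
      exact mul_ne_zero (hc q hq) (Complex.exp_ne_zero _)
    have h4 : DifferentiableAt ℂ (fun q => cexp (-(2 * I * φ q))) q :=
      (((hφ q hq).const_mul (2 * I)).neg).cexp
    have h5 : DifferentiableAt ℂ (fun q => deriv Z (B q) / deriv Zc (B q)) q := by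
      have h6 : DifferentiableAt ℂ (fun q => (deriv Zc (B q))⁻¹) q :=
        (differentiableAt_inv h3).comp q h2
      simpa only [div_eq_mul_inv] using h1.fun_mul h6
    exact (h5.fun_mul h4).differentiableWithinAt
  refine key.congr fun q hq => ?_
  have hBq := hBS q hq
  rw [(hZ _ hBq).deriv, (hZc _ hBq).deriv, mul_div_mul_left _ _ (hc q hq), ← Complex.exp_sub,
    ← Complex.exp_add]
  ring_nf

/-- the world bounds from the disc estimate -/
theorem disc_apply (hD : DiscEst) (a g : ℝ) (ha : 0 ≤ a) (hg : 0 < g) :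
    ∃ lam : ℝ, 0 < lam ∧ ∃ C : ℝ, 0 < C ∧
      ∀ (S : Set ℂ) (Z Zc T c : ℂ → ℂ) (φ p B : ℂ × ℂ → ℂ) (h T0 e0 Cs r ρ : ℝ)
        (P : Set (ℝ × ℝ)) (z₀ : ℂ) (r₀ : ℝ), IsOpen S →
        (∀ b ∈ S, HasDerivAt Z (c b * cexp (I * T b)) b) →
        (∀ b ∈ S, HasDerivAt Zc (c b * cexp (-(I * T b))) b) →
        In5 S Z Zc T c φ p B h a g T0 e0 Cs lam r ρ P z₀ r₀ →
        ∃ e ∈ P, ∀ b₀ ∈ closedBall z₀ r₀, ∀ h₁ : ℝ, 0 < h₁ → ∀ Cs' : ℝ, 1 ≤ Cs' → ∃ C2 : ℝ,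
          ∀ᶠ s : ℝ in 𝓝[>] 0, (∀ s' : ℝ, s ≤ s' → s' < h₁ →
            1 + |Real.log ‖cexp (2 * I * (T (B (ray e s')) - φ (ray e s')))‖| ≤
              Cs' * (s' / s) ^ (1 / 2 : ℝ)) →
          ∀ x ∈ Gam a g, |(φ (bl e s x) - T b₀).im| ≤ C * Cs' ∧
            ‖Inc (φ (bl e s x)) (p (bl e s x)) (Z b₀) (Zc b₀)‖ ≤ C2 := by
  obtain ⟨lam, hlam, C, hC, H⟩ := hD (a + g) (g / 2) (a + 4) (1 / 8) (by linarith) (by linarith)
    (by linarith) (by norm_num)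
  refine ⟨lam, hlam, C, hC, ?_⟩
  intro S Z Zc T c φ p B h T0 e0 Cs r ρ P z₀ r₀ hS hZ hZc hI
  obtain ⟨e, he, He⟩ := H P hI.closed hI.pos
  refine ⟨e, he, ?_⟩
  intro b₀ hb₀ h₁ hh₁ Cs' hCs'
  obtain ⟨d, hd, hsaw⟩ := hI.saw
  obtain ⟨η, hη, hline⟩ := hI.line e he
  set ρ₀ : ℝ := min h₁ (min d η) with hρ₀
  have hρ₀pos : 0 < ρ₀ := lt_min hh₁ (lt_min hd hη)
  have hρ₀h : ρ₀ ≤ h₁ := min_le_left _ _
  have hρ₀d : ρ₀ ≤ d := (min_le_right _ _).trans (min_le_left _ _)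
  have hρ₀η : ρ₀ ≤ η := (min_le_right _ _).trans (min_le_right _ _)
  have hsaw' : ∀ q ∈ Saw P lam ρ₀, DifferentiableAt ℂ φ q ∧ DifferentiableAt ℂ p q ∧
      DifferentiableAt ℂ B q ∧ B q ∈ closedBall z₀ r₀ ∧
      Inc (φ q) (p q) (Z (B q)) (Zc (B q)) = 0 ∧ cexp (2 * I * (T (B q) - φ q)) ≠ 1 :=
    fun q hq => hsaw q (Saw_mono hρ₀d hq)
  have hline' : ∀ q ∈ Half e ρ₀ (a + g), DifferentiableAt ℂ φ q ∧ DifferentiableAt ℂ p q :=
    fun q hq => hline q (Half_mono hρ₀η le_rfl hq)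
  have hFd := F_diff (φ := φ) (B := B) hS hZ hZc (D := Saw P lam ρ₀) (fun q hq => (hsaw' q hq).1)
    (fun q hq => (hsaw' q hq).2.2.1) (fun q hq => hI.disc (hsaw' q hq).2.2.2.1)
    (fun q hq => hI.c_ne _ (hsaw' q hq).2.2.2.1)
  have hF01 : ∀ q ∈ Saw P lam ρ₀, cexp (2 * I * (T (B q) - φ q)) ≠ 0 ∧
      cexp (2 * I * (T (B q) - φ q)) ≠ 1 := fun q hq =>
    ⟨Complex.exp_ne_zero _, (hsaw' q hq).2.2.2.2.2⟩
  -- the imaginary part of `φ - T b₀` on the sawtooth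
  have hlog : ∀ q, Real.log ‖cexp (2 * I * (T (B q) - φ q))‖ = 2 * (φ q - T (B q)).im := by
    intro q
    rw [Complex.norm_exp, Real.log_exp]
    simp
    ring
  have him : ∀ q ∈ Saw P lam ρ₀, |(φ q - T b₀).im| ≤
      1 + |Real.log ‖cexp (2 * I * (T (B q) - φ q))‖| := by
    intro q hq
    rw [hlog q]
    have e1 : (φ q - T b₀).im = (φ q - T (B q)).im + (T (B q) - T b₀).im := by
      simp
    have h1 : |(T (B q) - T b₀).im| ≤ 1 :=
      (Complex.abs_im_le_norm _).trans (hI.osc _ (hsaw' q hq).2.2.2.1 _ hb₀)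
    rw [e1, abs_mul]
    have h2 := abs_add_le (φ q - T (B q)).im (T (B q) - T b₀).im
    have h3 := abs_nonneg (φ q - T (B q)).im
    have h4 : |(2 : ℝ)| = 2 := abs_of_pos two_pos
    rw [h4]
    linarith
  -- the three functions
  have hf1 : DifferentiableOn ℂ (fun q => cexp (I * (φ q - T b₀))) (Half e ρ₀ (a + g)) :=
    fun q hq => ((((hline' q hq).1.sub_const (T b₀)).const_mul I).cexp).differentiableWithinAt
  have hf2 : DifferentiableOn ℂ (fun q => cexp (-(I * (φ q - T b₀)))) (Half e ρ₀ (a + g)) :=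
    fun q hq => ((((hline' q hq).1.sub_const (T b₀)).const_mul I).neg.cexp).differentiableWithinAt
  have hf3 : DifferentiableOn ℂ (fun q => Inc (φ q) (p q) (Z b₀) (Zc b₀)) (Half e ρ₀ (a + g)) :=
    inc_diff (fun q hq => (hline' q hq).1.differentiableWithinAt)
      (fun q hq => (hline' q hq).2.differentiableWithinAt) (differentiableOn_const _)
      (differentiableOn_const _)
  have hb1 : ∀ q ∈ Saw P lam ρ₀ ∩ Half e ρ₀ (a + g), ‖cexp (I * (φ q - T b₀))‖ ≤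
      Real.exp (1 * (1 + |Real.log ‖cexp (2 * I * (T (B q) - φ q))‖|)) := by
    intro q hq
    rw [Complex.norm_exp]
    refine Real.exp_le_exp.2 ?_
    have h1 : (I * (φ q - T b₀)).re = -(φ q - T b₀).im := by simp
    rw [h1, one_mul]
    exact (neg_le_abs _).trans (him q hq.1)
  have hb2 : ∀ q ∈ Saw P lam ρ₀ ∩ Half e ρ₀ (a + g), ‖cexp (-(I * (φ q - T b₀)))‖ ≤
      Real.exp (1 * (1 + |Real.log ‖cexp (2 * I * (T (B q) - φ q))‖|)) := by
    intro q hq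
    rw [Complex.norm_exp]
    refine Real.exp_le_exp.2 ?_
    have h1 : (-(I * (φ q - T b₀))).re = (φ q - T b₀).im := by simp
    rw [h1, one_mul]
    exact (le_abs_self _).trans (him q hq.1)
  -- bounds of `Z, Zc` on the label disc
  have hcont : ∀ f : ℂ → ℂ, (∀ b ∈ S, ContinuousAt f b) → ∃ M : ℝ, 0 ≤ M ∧
      ∀ b ∈ closedBall z₀ r₀, ‖f b‖ ≤ M := by
    intro f hf
    obtain ⟨M, hM⟩ := (isCompact_closedBall z₀ r₀).exists_bound_of_continuousOn
      (f := f) (fun b hb => (hf b (hI.disc hb)).continuousWithinAt)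
    exact ⟨M, (norm_nonneg _).trans (hM b₀ hb₀), hM⟩
  obtain ⟨M1, hM1, hM1'⟩ := hcont Z (fun b hb => (hZ b hb).continuousAt)
  obtain ⟨M2, hM2, hM2'⟩ := hcont Zc (fun b hb => (hZc b hb).continuousAt)
  set K : ℝ := Real.exp |(T b₀).im| * (2 * M1 + 2 * M2) with hK
  have hK0 : 0 ≤ K := by positivity
  have hb3 : ∀ q ∈ Saw P lam ρ₀ ∩ Half e ρ₀ (a + g), ‖Inc (φ q) (p q) (Z b₀) (Zc b₀)‖ ≤
      Real.exp ((1 + K) * (1 + |Real.log ‖cexp (2 * I * (T (B q) - φ q))‖|)) := by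
    intro q hq
    have hS1 := hsaw' q hq.1
    set L : ℝ := 1 + |Real.log ‖cexp (2 * I * (T (B q) - φ q))‖| with hL
    have hL1 : 1 ≤ L := by
      rw [hL]
      linarith [abs_nonneg (Real.log ‖cexp (2 * I * (T (B q) - φ q))‖)]
    have e1 : Inc (φ q) (p q) (Z b₀) (Zc b₀) = cexp (-(I * φ q)) * (Z b₀ - Z (B q)) -
        cexp (I * φ q) * (Zc b₀ - Zc (B q)) := by
      have := hS1.2.2.2.2.1
      unfold Inc at this ⊢
      linear_combination this
    have n1 : ‖cexp (-(I * φ q))‖ ≤ Real.exp |(T b₀).im| * Real.exp L := by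
      rw [Complex.norm_exp, ← Real.exp_add]
      refine Real.exp_le_exp.2 ?_
      have h1 : (-(I * φ q)).re = (T b₀).im + (φ q - T b₀).im := by simp
      rw [h1]
      exact add_le_add (le_abs_self _) ((le_abs_self _).trans (him q hq.1))
    have n2 : ‖cexp (I * φ q)‖ ≤ Real.exp |(T b₀).im| * Real.exp L := by
      rw [Complex.norm_exp, ← Real.exp_add]
      refine Real.exp_le_exp.2 ?_
      have h1 : (I * φ q).re = -(T b₀).im + -(φ q - T b₀).im := by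
        simp
        ring
      rw [h1]
      exact add_le_add (neg_le_abs _) ((neg_le_abs _).trans (him q hq.1))
    have m1 : ‖Z b₀ - Z (B q)‖ ≤ 2 * M1 :=
      (norm_sub_le _ _).trans (by linarith [hM1' b₀ hb₀, hM1' _ hS1.2.2.2.1])
    have m2 : ‖Zc b₀ - Zc (B q)‖ ≤ 2 * M2 :=
      (norm_sub_le _ _).trans (by linarith [hM2' b₀ hb₀, hM2' _ hS1.2.2.2.1])
    have hexpK : K ≤ Real.exp (K * L) := by
      have h1 : K + 1 ≤ Real.exp K := Real.add_one_le_exp K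
      have h2 : Real.exp K ≤ Real.exp (K * L) := Real.exp_le_exp.2 (by nlinarith)
      linarith
    calc ‖Inc (φ q) (p q) (Z b₀) (Zc b₀)‖
        ≤ ‖cexp (-(I * φ q)) * (Z b₀ - Z (B q))‖ + ‖cexp (I * φ q) * (Zc b₀ - Zc (B q))‖ := by
          rw [e1]; exact norm_sub_le _ _
      _ ≤ (Real.exp |(T b₀).im| * Real.exp L) * (2 * M1) +
          (Real.exp |(T b₀).im| * Real.exp L) * (2 * M2) := by
          rw [norm_mul, norm_mul]
          gcongr
      _ = K * Real.exp L := by rw [hK]; ring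
      _ ≤ Real.exp (K * L) * Real.exp L := by gcongr
      _ = Real.exp ((1 + K) * L) := by rw [← Real.exp_add]; ring_nf
  have E1 := He ρ₀ hρ₀pos _ hFd hF01 _ hf1 1 Cs' le_rfl hCs' hb1
  have E2 := He ρ₀ hρ₀pos _ hFd hF01 _ hf2 1 Cs' le_rfl hCs' hb2
  have E3 := He ρ₀ hρ₀pos _ hFd hF01 _ hf3 (1 + K) Cs' (by linarith) hCs' hb3
  refine ⟨Real.exp (C * (1 + K) * Cs'), ?_⟩
  filter_upwards [E1, E2, E3] with s hs1 hs2 hs3 hth x hx
  have hth' : ∀ s' : ℝ, s ≤ s' → s' < ρ₀ →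
      1 + |Real.log ‖cexp (2 * I * (T (B (ray e s')) - φ (ray e s')))‖| ≤
        Cs' * (s' / s) ^ (1 / 2 : ℝ) := fun s' h1 h2 => hth s' h1 (h2.trans_le hρ₀h)
  have hx4 : x.1.im ≤ (a + g - g / 2) * x.2.im := by
    have := hx.2.2.2
    nlinarith
  have b1 := hs1 hth' x hx.1.le hx.2.1.le hx.2.2.1.le hx4
  have b2 := hs2 hth' x hx.1.le hx.2.1.le hx.2.2.1.le hx4
  have b3 := hs3 hth' x hx.1.le hx.2.1.le hx.2.2.1.le hx4
  refine ⟨abs_le.2 ⟨?_, ?_⟩, b3⟩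
  · have := im_le_of_exp b1
    rw [mul_one] at this
    linarith
  · have := im_le_of_exp' b2
    rw [mul_one] at this
    exact this

end apply

/-- the nontangential case is impossible -/
theorem nt_false {S : Set ℂ} {Z Zc T c : ℂ → ℂ} {φ p B : ℂ × ℂ → ℂ} {h a g T0 e0 Cs lam r ρ : ℝ}
    {P : Set (ℝ × ℝ)} {z₀ : ℂ} {r₀ : ℝ} (hS : IsOpen S)
    (hZ : ∀ b ∈ S, HasDerivAt Z (c b * cexp (I * T b)) b)
    (hZc : ∀ b ∈ S, HasDerivAt Zc (c b * cexp (-(I * T b))) b)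
    (hT : ContinuousOn T S) (hcc : ContinuousOn c S) (ha : 0 ≤ a) (hg : 0 < g) (hρ1 : ρ ≤ 1)
    (hI : In5 S Z Zc T c φ p B h a g T0 e0 Cs lam r ρ P z₀ r₀)
    {e : ℝ × ℝ} (he : e ∈ P) {b₀ : ℂ} (hb₀ : b₀ ∈ closedBall z₀ r₀)
    (hlim : ∀ M : ℝ, Tendsto B (𝓝[Cn e M] ((e.1 : ℂ), (e.2 : ℂ))) (𝓝 b₀))
    {r₁ : ℂ} (hr1 : r₁ ≠ 1)
    (hRlim : ∀ M : ℝ, Tendsto (fun q => cexp (2 * I * (T (B q) - φ q)))
      (𝓝[Cn e M] ((e.1 : ℂ), (e.2 : ℂ))) (𝓝 r₁)) {C1 C2 : ℝ}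
    (h1 : ∀ᶠ s : ℝ in 𝓝[>] 0, ∀ x ∈ Gam a g, |(φ (bl e s x) - T b₀).im| ≤ C1)
    (h2 : ∀ᶠ s : ℝ in 𝓝[>] 0, ∀ x ∈ Gam a g,
      ‖Inc (φ (bl e s x)) (p (bl e s x)) (Z b₀) (Zc b₀)‖ ≤ C2)
    {q : ℂ × ℂ} (hq : q.1.im = a * q.2.im) (hqG : closedBall q r ⊆ Gam a g) : False := by
  have W := world hS hI ha hg hρ1 he hb₀ hlim le_rfl h1 h2
  have hbpL : bp ∈ Low a g ρ := bp_Low ha hg hρ1
  obtain ⟨u, hu, R, hRd, hRl, hbirth⟩ := world_lim2 (isOpen_Gam a g)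
    (convex_Gam a g).isPreconnected (isOpen_Low a g ρ) (Low_sub a g ρ) ⟨bp, hbpL⟩ hS hZ hZc hT hcc W
  have hne : (u : Filter ℝ).NeBot := u.neBot
  obtain ⟨K, hK, hKc, hev⟩ := hI.births e he q hq hqG
  obtain ⟨x, hxQ, hx1⟩ := hbirth _ hqG (isCompact_closedBall _ _) K hK hKc hev
  -- `R = r₁` near the base point
  have hTc : ContinuousAt T b₀ := hT.continuousAt (hS.mem_nhds (hI.disc hb₀))
  have hlimT : ∀ M : ℝ, Tendsto (fun q => cexp (2 * I * (T b₀ - T (B q))))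
      (𝓝[Cn e M] ((e.1 : ℂ), (e.2 : ℂ))) (𝓝 1) := by
    intro M
    have h3 : Tendsto (fun q => T (B q)) (𝓝[Cn e M] ((e.1 : ℂ), (e.2 : ℂ))) (𝓝 (T b₀)) :=
      hTc.tendsto.comp (hlim M)
    have h4 := ((tendsto_const_nhds (x := T b₀)).sub h3).const_mul (2 * I)
    have h5 := (Complex.continuous_exp.tendsto _).comp h4
    simpa [Function.comp_def] using h5
  have hprod : ∀ M : ℝ, Tendsto (fun q => cexp (2 * I * (T b₀ - φ q)))
      (𝓝[Cn e M] ((e.1 : ℂ), (e.2 : ℂ))) (𝓝 r₁) := by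
    intro M
    have h3 := (hRlim M).mul (hlimT M)
    rw [mul_one] at h3
    refine h3.congr fun q => ?_
    rw [← Complex.exp_add]
    ring_nf
  have hcone : ∀ x ∈ Gam a g, x.1.im < 0 → R x = r₁ := by
    intro y hy hy0
    refine tendsto_nhds_unique (hRl y hy) ?_
    have : Tendsto (fun s : ℝ => cexp (2 * I * (T b₀ - φ (bl e s y)))) (𝓝[>] 0) (𝓝 r₁) := by
      rw [Metric.tendsto_nhds]
      intro ε hε
      have hδ : 0 < min (-y.1.im) (1 / 8) := lt_min (by linarith) (by norm_num)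
      filter_upwards [cone_unif hprod (A := a + 4) (by linarith) hδ hε] with s hs
      refine hs y hy.1.le hy.2.1.le ?_ ?_
      · have := min_le_left (-y.1.im) (1 / 8)
        linarith
      · exact (min_le_right _ _).trans hy.2.2.1.le
    exact this.mono_left hu
  have hopen : ∀ᶠ y in 𝓝 bp, R y - r₁ = 0 := by
    have h3 : ∀ᶠ y : ℂ × ℂ in 𝓝 bp, y.1.im < 0 :=
      (isOpen_lt (Complex.continuous_im.comp continuous_fst) continuous_const).mem_nhds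
        (by show bp.1.im < 0; rw [bp_im1]; norm_num)
    filter_upwards [h3, (isOpen_Gam a g).mem_nhds (Low_sub a g ρ hbpL)] with y hy hyG
    rw [hcone y hyG hy, sub_self]
  have hall := (analyticOnNhd_of_differentiableOn (isOpen_Gam a g)
    (hRd.sub (differentiableOn_const r₁))).eqOn_zero_of_preconnected_of_eventuallyEq_zero
    (convex_Gam a g).isPreconnected (Low_sub a g ρ hbpL) hopen
  have hx := hall (hqG hxQ)
  simp only [Pi.sub_apply, Pi.zero_apply] at hx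
  rw [hx1] at hx
  exact hr1 (sub_eq_zero.1 hx).symm

/-- one thick world gives one limit function -/
theorem thick_world {S : Set ℂ} {Z Zc T c : ℂ → ℂ} {φ p B : ℂ × ℂ → ℂ}
    {h a g T0 e0 Cs lam r ρ : ℝ}
    {P : Set (ℝ × ℝ)} {z₀ : ℂ} {r₀ : ℝ} (hS : IsOpen S)
    (hZ : ∀ b ∈ S, HasDerivAt Z (c b * cexp (I * T b)) b)
    (hZc : ∀ b ∈ S, HasDerivAt Zc (c b * cexp (-(I * T b))) b)
    (hT : ContinuousOn T S) (hcc : ContinuousOn c S) (ha : 0 ≤ a) (hg : 0 < g) (hρ1 : ρ ≤ 1)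
    (he0 : 0 < e0)
    (hI : In5 S Z Zc T c φ p B h a g T0 e0 Cs lam r ρ P z₀ r₀)
    {e : ℝ × ℝ} (he : e ∈ P) {b₀ : ℂ} (hb₀ : b₀ ∈ closedBall z₀ r₀)
    (hlim : ∀ M : ℝ, Tendsto B (𝓝[Cn e M] ((e.1 : ℂ), (e.2 : ℂ))) (𝓝 b₀))
    {l : Filter ℝ} [l.NeBot] (hl : l ≤ 𝓝[>] 0)
    (hth1 : ∀ᶠ s in l, |Real.log ‖cexp (2 * I * (T (B (ray e s)) - φ (ray e s)))‖| ≤ T0)
    (hth2 : ∀ᶠ s in l, e0 ≤ ‖cexp (2 * I * (T (B (ray e s)) - φ (ray e s))) - 1‖) {C1 C2 : ℝ}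
    (h1 : ∀ᶠ s : ℝ in l, ∀ x ∈ Gam a g, |(φ (bl e s x) - T b₀).im| ≤ C1)
    (h2 : ∀ᶠ s : ℝ in l, ∀ x ∈ Gam a g,
      ‖Inc (φ (bl e s x)) (p (bl e s x)) (Z b₀) (Zc b₀)‖ ≤ C2) :
    ∃ R : ℂ × ℂ → ℂ, DifferentiableOn ℂ R (Gam a g) ∧ e0 / 2 ≤ ‖R bp - 1‖ ∧
      (∀ x ∈ Gam a g, ‖R x‖ ≤ Real.exp (2 * C1)) ∧
      ∀ q : ℂ × ℂ, q.1.im = a * q.2.im → closedBall q r ⊆ Gam a g → ∃ x ∈ closedBall q r, R x = 1 := by
  have W := world hS hI ha hg hρ1 he hb₀ hlim hl h1 h2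
  have hbpL : bp ∈ Low a g ρ := bp_Low ha hg hρ1
  have hbpG : bp ∈ Gam a g := Low_sub a g ρ hbpL
  obtain ⟨u, hu, R, hRd, hRl, hbirth⟩ := world_lim2 (isOpen_Gam a g)
    (convex_Gam a g).isPreconnected (isOpen_Low a g ρ) (Low_sub a g ρ) ⟨bp, hbpL⟩ hS hZ hZc hT hcc W
  have hne : (u : Filter ℝ).NeBot := u.neBot
  refine ⟨R, hRd, ?_, ?_, ?_⟩
  · -- the base point
    have hTc : ContinuousAt T b₀ := hT.continuousAt (hS.mem_nhds (hI.disc hb₀))
    have hBl : Tendsto (fun s : ℝ => B (bl e s bp)) (𝓝[>] 0) (𝓝 b₀) := by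
      rw [Metric.tendsto_nhds]
      intro ε hε
      filter_upwards [cone_unif hlim (A := 2) (δ := 1 / 8) (by norm_num) (by norm_num) hε]
        with s hs
      exact hs bp (by rw [bp_n1]; norm_num) (by rw [bp_n2]; norm_num) (by rw [bp_im1]; norm_num)
        (by rw [bp_im2]; norm_num)
    have hEl : Tendsto (fun s : ℝ => cexp (2 * I * (T b₀ - T (B (bl e s bp)))) - 1) (𝓝[>] 0)
        (𝓝 0) := by
      have h3 : Tendsto (fun s : ℝ => T (B (bl e s bp))) (𝓝[>] 0) (𝓝 (T b₀)) :=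
        hTc.tendsto.comp hBl
      have h4 := ((tendsto_const_nhds (x := T b₀)).sub h3).const_mul (2 * I)
      have h5 := ((Complex.continuous_exp.tendsto _).comp h4).sub_const 1
      simpa [Function.comp_def] using h5
    have hEn : ∀ᶠ s : ℝ in 𝓝[>] 0, ‖cexp (2 * I * (T b₀ - T (B (bl e s bp)))) - 1‖ <
        e0 / 2 * Real.exp (-T0) := by
      have h3 := hEl.norm
      rw [norm_zero] at h3
      exact h3.eventually_lt_const (by positivity)
    have hlimn : Tendsto (fun s : ℝ => ‖cexp (2 * I * (T b₀ - φ (bl e s bp))) - 1‖) u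
        (𝓝 ‖R bp - 1‖) := ((hRl bp hbpG).sub_const 1).norm
    refine ge_of_tendsto hlimn ?_
    filter_upwards [hu hth1, hu hth2, hu (hl hEn)] with s hs1 hs2 hs3
    change |Real.log ‖cexp (2 * I * (T (B (bl e s bp)) - φ (bl e s bp)))‖| ≤ T0 at hs1
    change e0 ≤ ‖cexp (2 * I * (T (B (bl e s bp)) - φ (bl e s bp))) - 1‖ at hs2
    set F : ℂ := cexp (2 * I * (T (B (bl e s bp)) - φ (bl e s bp))) with hF
    set E : ℂ := cexp (2 * I * (T b₀ - T (B (bl e s bp)))) with hE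
    have hFE : cexp (2 * I * (T b₀ - φ (bl e s bp))) = F * E := by
      rw [hF, hE, ← Complex.exp_add]
      ring_nf
    have hFn : ‖F‖ ≤ Real.exp T0 := by
      have h3 : Real.exp (Real.log ‖F‖) = ‖F‖ := Real.exp_log (norm_pos_iff.2 (Complex.exp_ne_zero _))
      rw [← h3]
      exact Real.exp_le_exp.2 ((le_abs_self _).trans hs1)
    rw [hFE]
    have h4 : ‖F - 1‖ ≤ ‖F * E - 1‖ + ‖F * (E - 1)‖ := by
      have : F - 1 = (F * E - 1) - F * (E - 1) := by ring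
      calc ‖F - 1‖ = ‖(F * E - 1) - F * (E - 1)‖ := by rw [← this]
        _ ≤ _ := norm_sub_le _ _
    have h5 : ‖F * (E - 1)‖ ≤ Real.exp T0 * (e0 / 2 * Real.exp (-T0)) := by
      rw [norm_mul]
      gcongr
    have h6 : Real.exp T0 * (e0 / 2 * Real.exp (-T0)) = e0 / 2 := by
      rw [mul_comm (e0 / 2), ← mul_assoc, ← Real.exp_add, add_neg_cancel, Real.exp_zero, one_mul]
    linarith
  · intro x hx
    have hlimn : Tendsto (fun s : ℝ => ‖cexp (2 * I * (T b₀ - φ (bl e s x)))‖) u (𝓝 ‖R x‖) :=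
      (hRl x hx).norm
    refine le_of_tendsto hlimn ?_
    filter_upwards [hu h1] with s hs
    rw [Complex.norm_exp]
    refine Real.exp_le_exp.2 ?_
    have h3 : (2 * I * (T b₀ - φ (bl e s x))).re = 2 * (φ (bl e s x) - T b₀).im := by
      simp
      ring
    rw [h3]
    have := (le_abs_self (φ (bl e s x) - T b₀).im).trans (hs x hx)
    linarith
  · intro q hq hqG
    obtain ⟨K, hK, hKc, hev⟩ := hI.births e he q hq hqG
    exact hbirth _ hqG (isCompact_closedBall _ _) K hK hKc (hl hev)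

/-- **STEP 5 from the disc estimate.** -/
theorem step5 (hD : DiscEst) : Step5 := by
  classical
  intro S Z Zc T c φ p B h a g T0 e0 Cs hS hZ hZc hT hcc ha hg he0 hCs hall
  obtain ⟨lam, hlam, C, hC, H⟩ := disc_apply hD a g ha hg
  -- the face point
  set q₀ : ℂ × ℂ := ((((a / 2 : ℝ) : ℂ)) * I, (((1 / 2 : ℝ) : ℂ)) * I) with hq₀
  have hq1 : q₀.1.im = a / 2 := by rw [hq₀]; simp
  have hq2 : q₀.2.im = 1 / 2 := by rw [hq₀]; simp
  have hq₀G : q₀ ∈ Gam a g := by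
    refine ⟨?_, ?_, ?_, ?_⟩
    · have : ‖q₀.1‖ = a / 2 := by
        rw [hq₀]
        simp only [norm_mul, Complex.norm_I, mul_one, Complex.norm_real, Real.norm_eq_abs]
        exact abs_of_nonneg (by positivity)
      rw [this]; linarith
    · have : ‖q₀.2‖ = 1 / 2 := by
        rw [hq₀]
        simp only [norm_mul, Complex.norm_I, mul_one, Complex.norm_real, Real.norm_eq_abs]
        exact abs_of_nonneg (by positivity)
      rw [this]; linarith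
    · rw [hq2]; norm_num
    · rw [hq1, hq2]; linarith
  obtain ⟨rr, hrr, hrrG⟩ := Metric.isOpen_iff.1 (isOpen_Gam a g) q₀ hq₀G
  have hex : ∀ r : ℝ, 0 < r → r < rr → ∃ R : ℂ × ℂ → ℂ, DifferentiableOn ℂ R (Gam a g) ∧
      e0 / 2 ≤ ‖R bp - 1‖ ∧ (∀ x ∈ Gam a g, ‖R x‖ ≤ Real.exp (2 * (C * Cs))) ∧
      ∀ q : ℂ × ℂ, q.1.im = a * q.2.im → closedBall q r ⊆ Gam a g →
        ∃ x ∈ closedBall q r, R x = 1 := by
    intro r hr hrr'
    obtain ⟨ρ, P, z₀, r₀, hρ, hρ1, hI⟩ := hall lam hlam r hr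
    obtain ⟨e, he, He⟩ := H S Z Zc T c φ p B h T0 e0 Cs r ρ P z₀ r₀ hS hZ hZc hI
    obtain ⟨b₀, hb₀, hlim⟩ := hI.lim e he
    rcases hI.alt e he with ⟨r₁, hr0, hr1, hRlim⟩ | ⟨h₁, hh₁, hfreq⟩
    · exfalso
      -- thick control with a world dependent constant
      have hr0' : 0 < ‖r₁‖ := norm_pos_iff.2 hr0
      have hev := cone_unif hRlim (A := 2) (δ := 1 / 8) (by norm_num) (by norm_num)
        (ε := ‖r₁‖ / 2) (by positivity)
      obtain ⟨h₁, hh₁, hh⟩ := mem_nhdsGT_iff_exists_Ioo_subset.1 hev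
      have hh₁' : (0 : ℝ) < h₁ := hh₁
      set L0 : ℝ := |Real.log (‖r₁‖ / 2)| + |Real.log (3 * ‖r₁‖ / 2)| with hL0
      have hL0p : 0 ≤ L0 := by positivity
      have hbd : ∀ s' : ℝ, 0 < s' → s' < h₁ →
          |Real.log ‖cexp (2 * I * (T (B (ray e s')) - φ (ray e s')))‖| ≤ L0 := by
        intro s' hs1 hs2
        have h3 := hh ⟨hs1, hs2⟩ bp (by rw [bp_n1]; norm_num) (by rw [bp_n2]; norm_num)
          (by rw [bp_im1]; norm_num) (by rw [bp_im2]; norm_num)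
        change dist (cexp (2 * I * (T (B (ray e s')) - φ (ray e s')))) r₁ < ‖r₁‖ / 2 at h3
        set F : ℂ := cexp (2 * I * (T (B (ray e s')) - φ (ray e s'))) with hF
        rw [dist_eq_norm] at h3
        have h4 : ‖r₁‖ / 2 ≤ ‖F‖ := by
          have := norm_sub_norm_le r₁ F
          rw [norm_sub_rev] at this
          linarith
        have h5 : ‖F‖ ≤ 3 * ‖r₁‖ / 2 := by
          have := norm_sub_norm_le F r₁
          linarith
        have h6 := Real.log_le_log (by positivity) h4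
        have h7 := Real.log_le_log (by linarith) h5
        rw [hL0, abs_le]
        constructor
        · have a1 := neg_abs_le (Real.log (‖r₁‖ / 2))
          have a2 := abs_nonneg (Real.log (3 * ‖r₁‖ / 2))
          linarith
        · have a1 := le_abs_self (Real.log (3 * ‖r₁‖ / 2))
          have a2 := abs_nonneg (Real.log (‖r₁‖ / 2))
          linarith
      obtain ⟨C2, hC2⟩ := He b₀ hb₀ h₁ hh₁' (1 + L0) (by linarith)
      have hbd2 : ∀ᶠ s : ℝ in 𝓝[>] 0, ∀ x ∈ Gam a g,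
          |(φ (bl e s x) - T b₀).im| ≤ C * (1 + L0) ∧
            ‖Inc (φ (bl e s x)) (p (bl e s x)) (Z b₀) (Zc b₀)‖ ≤ C2 := by
        filter_upwards [hC2, self_mem_nhdsWithin] with s hs hs0
        have hs0' : (0 : ℝ) < s := hs0
        refine hs fun s' h3 h4 => ?_
        have h5 := hbd s' (hs0'.trans_le h3) h4
        have h6 : (1 : ℝ) ≤ (s' / s) ^ (1 / 2 : ℝ) :=
          Real.one_le_rpow ((one_le_div hs0').2 h3) (by norm_num)
        nlinarith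
      exact nt_false hS hZ hZc hT hcc ha hg hρ1 hI he hb₀ hlim hr1 hRlim
        (hbd2.mono fun s hs x hx => (hs x hx).1) (hbd2.mono fun s hs x hx => (hs x hx).2)
        (q := q₀) (by rw [hq1, hq2]; ring) ((closedBall_subset_ball hrr').trans hrrG)
    · obtain ⟨C2, hC2⟩ := He b₀ hb₀ h₁ hh₁ Cs hCs
      set l : Filter ℝ := 𝓝[>] 0 ⊓ 𝓟 {s : ℝ |
        |Real.log ‖cexp (2 * I * (T (B (ray e s)) - φ (ray e s)))‖| ≤ T0 ∧
        e0 ≤ ‖cexp (2 * I * (T (B (ray e s)) - φ (ray e s))) - 1‖ ∧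
        ∀ s' : ℝ, s ≤ s' → s' < h₁ →
          1 + |Real.log ‖cexp (2 * I * (T (B (ray e s')) - φ (ray e s')))‖| ≤
            Cs * (s' / s) ^ (1 / 2 : ℝ)} with hl
      have hlne : l.NeBot := Filter.frequently_iff_neBot.1 hfreq
      have hl0 : l ≤ 𝓝[>] 0 := inf_le_left
      have hlp : ∀ᶠ s in l, |Real.log ‖cexp (2 * I * (T (B (ray e s)) - φ (ray e s)))‖| ≤ T0 ∧
        e0 ≤ ‖cexp (2 * I * (T (B (ray e s)) - φ (ray e s))) - 1‖ ∧
        ∀ s' : ℝ, s ≤ s' → s' < h₁ →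
          1 + |Real.log ‖cexp (2 * I * (T (B (ray e s')) - φ (ray e s')))‖| ≤
            Cs * (s' / s) ^ (1 / 2 : ℝ) := by
        rw [hl]
        exact Filter.mem_inf_of_right (Filter.mem_principal_self _)
      have hbd : ∀ᶠ s in l, ∀ x ∈ Gam a g, |(φ (bl e s x) - T b₀).im| ≤ C * Cs ∧
            ‖Inc (φ (bl e s x)) (p (bl e s x)) (Z b₀) (Zc b₀)‖ ≤ C2 := by
        filter_upwards [hl0 hC2, hlp] with s hs1 hs2
        exact hs1 hs2.2.2
      exact thick_world hS hZ hZc hT hcc ha hg hρ1 he0 hI he hb₀ hlim hl0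
        (hlp.mono fun s hs => hs.1) (hlp.mono fun s hs => hs.2.1)
        (hbd.mono fun s hs x hx => (hs x hx).1) (hbd.mono fun s hs x hx => (hs x hx).2)
  have hk0 : ∀ k : ℕ, 0 < rr / ((k : ℝ) + 2) := fun k => by positivity
  have hk1 : ∀ k : ℕ, rr / ((k : ℝ) + 2) < rr := fun k => by
    have : (0 : ℝ) ≤ k := k.cast_nonneg
    exact div_lt_self hrr (by linarith)
  choose R h1 h2 h3 h4 using fun k : ℕ => hex _ (hk0 k) (hk1 k)
  have hbpG : bp ∈ Gam a g := Low_sub a g 1 (bp_Low ha hg le_rfl)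
  refine end2 atTop (isOpen_Gam a g) (convex_Gam a g).isPreconnected (R := R) (fun x hx => ?_)
    hbpG (κ := e0 / 2) (by positivity) (Eventually.of_forall h2) (μ := (a : ℂ)) hq₀G ?_ ?_
  · obtain ⟨r, hr, hrG⟩ := Metric.isOpen_iff.1 (isOpen_Gam a g) x hx
    exact ⟨r, hr, hrG, Real.exp (2 * (C * Cs)), Eventually.of_forall fun k =>
      ⟨(h1 k).mono hrG, fun y hy => h3 k y (hrG hy)⟩⟩
  · rw [hq1, Complex.im_ofReal_mul, hq2]
    ring
  · filter_upwards [(isOpen_Gam a g).mem_nhds hq₀G] with q hqG hqim δ hδ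
    rw [Complex.im_ofReal_mul] at hqim
    obtain ⟨r, hr, hrG⟩ := Metric.isOpen_iff.1 (isOpen_Gam a g) q hqG
    have hlim : Tendsto (fun k : ℕ => rr / ((k : ℝ) + 2)) atTop (𝓝 0) := by
      have h5 : Tendsto (fun k : ℕ => (k : ℝ) + 2) atTop atTop :=
        tendsto_atTop_add_const_right _ _ tendsto_natCast_atTop_atTop
      exact h5.const_div_atTop rr
    filter_upwards [hlim.eventually_lt_const (lt_min hr hδ)] with k hk
    obtain ⟨x, hx, hx1⟩ := h4 k q hqim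
      ((closedBall_subset_ball (hk.trans_le (min_le_left _ _))).trans hrG)
    exact ⟨x, closedBall_subset_ball (hk.trans_le (min_le_right _ _)) hx, hx1⟩

end Crest.Agent.R102.S5
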