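import Crest.Agent.R102.AltAeA_613
import Crest.Agent.R102.Step5_613

/-!
Row 102, T1-B, III.2, leaf 3 (helper613): `altAe : Sup115.AltAe`.
-/

set_option autoImplicit false
set_option linter.unusedVariables false

open Set Filter Topology Metric Complex MeasureTheory

noncomputable section

namespace Crest.Agent.R102.Alt613

open Crest.Agent.R102.S5 Crest.Agent.R102.Sup115 Crest.Agent.R264 Crest.Agent.R266.SCV

/-- open truncated product cone -/
def DM (M : ℝ) : Set (ℂ × ℂ) :=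
  {y | y.1.im < 0 ∧ -y.1.im < 2 ∧ -y.1.im < M * y.2.im ∧ |y.1.re| + ‖y.2‖ < M * (-y.1.im)}

theorem isOpen_DM (M : ℝ) : IsOpen (DM M) := by
  have c1 : Continuous fun y : ℂ × ℂ => y.1.im := Complex.continuous_im.comp continuous_fst
  have c2 : Continuous fun y : ℂ × ℂ => y.2.im := Complex.continuous_im.comp continuous_snd
  have c3 : Continuous fun y : ℂ × ℂ => y.1.re := Complex.continuous_re.comp continuous_fst
  exact (isOpen_lt c1 continuous_const).inter ((isOpen_lt c1.neg continuous_const).inter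
    ((isOpen_lt c1.neg (continuous_const.mul c2)).inter
      (isOpen_lt (c3.abs.add continuous_snd.norm) (continuous_const.mul c1.neg))))

theorem convex_DM (M : ℝ) : Convex ℝ (DM M) := by
  intro x hx y hy s t hs ht hst
  obtain ⟨x1, x2, x3, x4⟩ := hx
  obtain ⟨y1, y2, y3, y4⟩ := hy
  have e1 : (s • x + t • y).1.im = s * x.1.im + t * y.1.im := by simp
  have e2 : (s • x + t • y).2.im = s * x.2.im + t * y.2.im := by simp
  have e3 : (s • x + t • y).1.re = s * x.1.re + t * y.1.re := by simp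
  have e4 : ‖(s • x + t • y).2‖ ≤ s * ‖x.2‖ + t * ‖y.2‖ := by
    have : (s • x + t • y).2 = s • x.2 + t • y.2 := rfl
    rw [this]
    refine (norm_add_le _ _).trans ?_
    rw [norm_smul, norm_smul, Real.norm_eq_abs, Real.norm_eq_abs, abs_of_nonneg hs,
      abs_of_nonneg ht]
  have e5 : |(s • x + t • y).1.re| ≤ s * |x.1.re| + t * |y.1.re| := by
    rw [e3]
    refine (abs_add_le _ _).trans ?_
    rw [abs_mul, abs_mul, abs_of_nonneg hs, abs_of_nonneg ht]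
  have ht' : t = 1 - s := by linarith
  rcases hs.eq_or_lt with rfl | hs'
  · have ht1 : t = 1 := by linarith
    subst ht1
    refine ⟨?_, ?_, ?_, ?_⟩
    · rw [e1]; linarith
    · rw [e1]; linarith
    · rw [e1, e2]; linarith
    · rw [e1]
      simp only [zero_mul, zero_add, one_mul] at e4 e5 ⊢
      linarith
  · rcases ht.eq_or_lt with rfl | ht''
    · have hs1 : s = 1 := by linarith
      subst hs1
      refine ⟨?_, ?_, ?_, ?_⟩
      · rw [e1]; linarith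
      · rw [e1]; linarith
      · rw [e1, e2]; linarith
      · rw [e1]
        simp only [zero_mul, add_zero, one_mul] at e4 e5 ⊢
        linarith
    · refine ⟨?_, ?_, ?_, ?_⟩
      · rw [e1]; nlinarith
      · rw [e1]; nlinarith
      · rw [e1, e2]
        have a1 := mul_lt_mul_of_pos_left x3 hs'
        have a2 := mul_lt_mul_of_pos_left y3 ht''
        nlinarith
      · rw [e1]
        have a1 := mul_lt_mul_of_pos_left x4 hs'
        have a2 := mul_lt_mul_of_pos_left y4 ht''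
        nlinarith

theorem bl_Cn {M : ℝ} {e : ℝ × ℝ} {s : ℝ} (hs : 0 < s) {y : ℂ × ℂ} (hy : y ∈ DM M) :
    bl e s y ∈ Cn e M ∧ -(2 * s) < (bl e s y).1.im := by
  obtain ⟨h1, h2, h3, h4⟩ := hy
  refine ⟨⟨?_, ?_, ?_⟩, ?_⟩
  · rw [bl_im1]; nlinarith
  · rw [bl_im1, bl_im2]
    have := mul_le_mul_of_nonneg_left h3.le hs.le
    linarith
  · rw [bl_re1, bl_sub2, bl_im1, S5.norm_smul' hs, abs_mul, abs_of_pos hs]
    have := mul_le_mul_of_nonneg_left h4.le hs.le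
    linarith
  · rw [bl_im1]; nlinarith

theorem bp_DM {M : ℝ} (hM : 5 ≤ M) {t : ℝ} (ht : 0 < t) (ht2 : t < 2) :
    ((-(t : ℂ) * I, (t : ℂ) / 4 * I) : ℂ × ℂ) ∈ DM M := by
  have h1 : (-(t : ℂ) * I).im = -t := by simp
  have h2 : ((t : ℂ) / 4 * I).im = t / 4 := by simp
  have h3 : (-(t : ℂ) * I).re = 0 := by simp
  have h4 : ‖(t : ℂ) / 4 * I‖ = t / 4 := by
    rw [norm_mul, Complex.norm_I, mul_one, norm_div, Complex.norm_real, Real.norm_eq_abs,
      abs_of_pos ht]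
    norm_num
  refine ⟨?_, ?_, ?_, ?_⟩
  · show (-(t : ℂ) * I).im < 0
    rw [h1]; linarith
  · show -(-(t : ℂ) * I).im < 2
    rw [h1]; linarith
  · show -(-(t : ℂ) * I).im < M * ((t : ℂ) / 4 * I).im
    rw [h1, h2]; nlinarith
  · show |(-(t : ℂ) * I).re| + ‖(t : ℂ) / 4 * I‖ < M * -(-(t : ℂ) * I).im
    rw [h1, h3, h4, abs_zero]; nlinarith

theorem bl_bp (e : ℝ × ℝ) (s t : ℝ) : bl e s (-(t : ℂ) * I, (t : ℂ) / 4 * I) = ray e (s * t) := by
  rw [ray_eq]
  unfold bl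
  ext1
  · push_cast; ring
  · push_cast; ring

section point

variable {F : ℂ × ℂ → ℂ} {e : ℝ × ℝ} {r : ℂ}

theorem fam (hcone : ∀ M : ℝ, ∃ δ > 0, ∀ q ∈ Cn e M, -δ < q.1.im →
      DifferentiableAt ℂ F q ∧ F q ≠ 0 ∧ F q ≠ 1) (M : ℝ) :
    ∀ᶠ s : ℝ in 𝓝[>] 0, DifferentiableOn ℂ (fun y => F (bl e s y)) (DM M) ∧
      (∀ y ∈ DM M, F (bl e s y) ≠ 0) ∧ ∀ y ∈ DM M, F (bl e s y) ≠ 1 := by
  obtain ⟨δ, hδ, h⟩ := hcone M
  filter_upwards [Ioo_mem_nhdsGT (show (0 : ℝ) < δ / 2 by linarith)] with s hs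
  have key : ∀ y ∈ DM M, DifferentiableAt ℂ F (bl e s y) ∧ F (bl e s y) ≠ 0 ∧
      F (bl e s y) ≠ 1 := fun y hy => by
    have := bl_Cn (e := e) hs.1 hy
    exact h _ this.1 (by linarith [this.2, hs.2])
  exact ⟨fun y hy => ((key y hy).1.comp y (bl_diff e s y)).differentiableWithinAt,
    fun y hy => (key y hy).2.1, fun y hy => (key y hy).2.2⟩

theorem loc_bdd (hcone : ∀ M : ℝ, ∃ δ > 0, ∀ q ∈ Cn e M, -δ < q.1.im →
      DifferentiableAt ℂ F q ∧ F q ≠ 0 ∧ F q ≠ 1)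
    (hr : Tendsto (fun s : ℝ => F (ray e s)) (𝓝[>] 0) (𝓝 r)) {M : ℝ} (hM : 5 ≤ M) :
    ∀ z ∈ DM M, ∃ ρ > 0, ∃ C : ℝ, ball z ρ ⊆ DM M ∧
      ∀ᶠ s : ℝ in 𝓝[>] 0, ∀ w ∈ ball z ρ, ‖F (bl e s w)‖ ≤ C := by
  have hf := fam hcone M
  refine M948.bounded_everywhere (𝓝[>] (0 : ℝ)) (isOpen_DM M) (convex_DM M).isPreconnected
    (f := fun s y => F (bl e s y)) (hf.mono fun s hs => hs.1) (hf.mono fun s hs => hs.2.1)
    (hf.mono fun s hs => hs.2.2) (p := (-((1 : ℝ) : ℂ) * I, ((1 : ℝ) : ℂ) / 4 * I))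
    (bp_DM hM one_pos (by norm_num)) (M₀ := ‖r‖ + 1) ?_
  have h1 : ∀ᶠ s : ℝ in 𝓝[>] 0, ‖F (ray e s)‖ < ‖r‖ + 1 :=
    hr.norm.eventually_lt_const (by linarith)
  filter_upwards [h1] with s hs
  show ‖F (bl e s (-((1 : ℝ) : ℂ) * I, ((1 : ℝ) : ℂ) / 4 * I))‖ ≤ ‖r‖ + 1
  rw [bl_bp, mul_one]
  exact hs.le

/-- **Lindelöf in the slice** -/
theorem lindelof (hcone : ∀ M : ℝ, ∃ δ > 0, ∀ q ∈ Cn e M, -δ < q.1.im →
      DifferentiableAt ℂ F q ∧ F q ≠ 0 ∧ F q ≠ 1)
    (hr : Tendsto (fun s : ℝ => F (ray e s)) (𝓝[>] 0) (𝓝 r)) {M : ℝ} (hM : 5 ≤ M)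
    {K : Set (ℂ × ℂ)} (hK : IsCompact K) (hKD : K ⊆ DM M) (hKs : ∀ y ∈ K, y.2 = -y.1 / 4)
    {ε : ℝ} (hε : 0 < ε) : ∀ᶠ s : ℝ in 𝓝[>] 0, ∀ y ∈ K, dist (F (bl e s y)) r < ε := by
  by_contra hcon
  rw [Filter.Eventually, Filter.mem_iff_ultrafilter] at hcon
  push Not at hcon
  obtain ⟨u, hu, hns⟩ := hcon
  have hf := fam hcone M
  obtain ⟨g, hg, hgl⟩ := M948.montel_loc_ultra u (isOpen_DM M) (f := fun s y => F (bl e s y))
    (hu (hf.mono fun s hs => hs.1)) (fun z hz => by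
      obtain ⟨ρ, hρ, C, hsub, hC⟩ := loc_bdd hcone hr hM z hz
      exact ⟨ρ, hρ, C, hsub, hu hC⟩)
  have hne : (u : Filter ℝ).NeBot := u.neBot
  -- `g = r` on the ray
  have hray : ∀ t : ℝ, 0 < t → t < 2 → g (-(t : ℂ) * I, (t : ℂ) / 4 * I) = r := by
    intro t ht ht2
    refine tendsto_nhds_unique (hgl.tendsto_at (bp_DM hM ht ht2)) ?_
    have h1 : Tendsto (fun s : ℝ => s * t) (𝓝[>] 0) (𝓝[>] 0) := by
      refine tendsto_nhdsWithin_of_tendsto_nhds_of_eventually_within _ ?_ ?_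
      · have : Tendsto (fun s : ℝ => s * t) (𝓝 0) (𝓝 (0 * t)) := tendsto_id.mul_const t
        rw [zero_mul] at this
        exact this.mono_left nhdsWithin_le_nhds
      · filter_upwards [self_mem_nhdsWithin] with s hs
        exact mul_pos hs ht
    have h2 : Tendsto (fun s : ℝ => F (ray e (s * t))) u (𝓝 r) := (hr.comp h1).mono_left hu
    refine h2.congr fun s => ?_
    rw [bl_bp]
  -- `g = r` on the slice
  set σ : ℂ → ℂ × ℂ := fun ζ => (-ζ, ζ / 4) with hσ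
  have hσc : Continuous σ := by rw [hσ]; fun_prop
  have hσd : Differentiable ℂ σ := by rw [hσ]; fun_prop
  have hHo : IsOpen (σ ⁻¹' DM M) := (isOpen_DM M).preimage hσc
  have hHc : IsPreconnected (σ ⁻¹' DM M) := by
    refine Convex.isPreconnected ?_
    intro x hx y hy s t hs ht hst
    have := convex_DM M hx hy hs ht hst
    show σ (s • x + t • y) ∈ DM M
    have h1 : σ (s • x + t • y) = s • σ x + t • σ y := by
      rw [hσ]
      ext1
      · simp only [Prod.fst_add, Prod.smul_fst, Complex.real_smul]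
        ring
      · simp only [Prod.snd_add, Prod.smul_snd, Complex.real_smul]
        ring
    rw [h1]
    exact this
  have hslice : ∀ ζ ∈ σ ⁻¹' DM M, g (σ ζ) = r := by
    have hgd : DifferentiableOn ℂ (fun ζ => g (σ ζ)) (σ ⁻¹' DM M) :=
      hg.comp hσd.differentiableOn fun ζ hζ => hζ
    have hσI : ∀ t : ℝ, σ ((t : ℂ) * I) = (-(t : ℂ) * I, (t : ℂ) / 4 * I) := fun t => by
      rw [hσ]
      ext1
      · simp only; ring
      · simp only; ring
    have hI : I ∈ σ ⁻¹' DM M := by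
      have := bp_DM hM (t := 1) one_pos (by norm_num)
      rw [← hσI] at this
      simpa using this
    have hfreq : ∃ᶠ ζ in 𝓝[≠] I, g (σ ζ) = r := by
      have ht : Tendsto (fun t : ℝ => (t : ℂ) * I) (𝓝[≠] 1) (𝓝[≠] I) := by
        refine tendsto_nhdsWithin_of_tendsto_nhds_of_eventually_within _ ?_ ?_
        · have h1 : Tendsto (fun t : ℝ => (t : ℂ) * I) (𝓝 1) (𝓝 (((1 : ℝ) : ℂ) * I)) :=
            Continuous.tendsto (by fun_prop) 1
          rw [Complex.ofReal_one, one_mul] at h1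
          exact h1.mono_left nhdsWithin_le_nhds
        · filter_upwards [self_mem_nhdsWithin] with t ht h
          refine ht ?_
          rw [mem_singleton_iff] at h ⊢
          have h2 : (t : ℂ) = 1 := mul_right_cancel₀ Complex.I_ne_zero (by rw [h, one_mul])
          exact_mod_cast h2
      refine ht.frequently (Eventually.frequently ?_)
      have h1 : ∀ᶠ t : ℝ in 𝓝[≠] 1, t ∈ Ioo (0 : ℝ) 2 :=
        mem_nhdsWithin_of_mem_nhds (Ioo_mem_nhds one_pos (by norm_num))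
      filter_upwards [h1] with t ht
      rw [hσI]
      exact hray t ht.1 ht.2
    have := (hgd.analyticOnNhd hHo).eqOn_of_preconnected_of_frequently_eq
      (analyticOnNhd_const (v := r)) hHc hI hfreq
    exact fun ζ hζ => this hζ
  -- uniform convergence on `K`
  have hunif := (tendstoLocallyUniformlyOn_iff_forall_isCompact (isOpen_DM M)).1 hgl K hKD hK
  have h3 := (Metric.tendstoUniformlyOn_iff.1 hunif) ε hε
  refine hns ?_
  filter_upwards [h3] with s hs y hy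
  have h4 := hs y hy
  have h5 : y = σ (-y.1) := by
    rw [hσ]
    ext1
    · simp
    · simp only
      exact hKs y hy
  have h6 : g y = r := by
    rw [h5]
    refine hslice _ ?_
    show σ (-y.1) ∈ DM M
    rw [← h5]
    exact hKD hy
  rw [h6, dist_comm] at h4
  exact h4

end point

/-! ### the upgrade to all cones -/

/-- the function in tilted coordinates -/
def Ft (F : ℂ × ℂ → ℂ) (t w : ℂ) : ℂ := F (t, w - t / 4)

/-- the tilt of a real point -/
def tl (p : ℝ × ℝ) : ℝ × ℝ := (p.1, p.2 - p.1 / 4)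

/-- the complex tilt -/
def tlc (y : ℂ × ℂ) : ℂ × ℂ := (y.1, y.2 - y.1 / 4)

/-- its inverse -/
def tlc' (y : ℂ × ℂ) : ℂ × ℂ := (y.1, y.2 + y.1 / 4)

theorem tlc_tlc' (y : ℂ × ℂ) : tlc (tlc' y) = y := by
  unfold tlc tlc'
  ext1 <;> simp

theorem tlc'_tlc (y : ℂ × ℂ) : tlc' (tlc y) = y := by
  unfold tlc tlc'
  ext1 <;> simp

theorem blw_eq (F : ℂ × ℂ → ℂ) (p : ℝ × ℝ) (η : ℝ) (y : ℂ × ℂ) :
    Blow971.blw (Ft F) (fun _ => 0) p η y = F (bl (tl p) η (tlc y)) := by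
  unfold Blow971.blw Ft bl tl tlc
  congr 1
  ext1
  · simp
  · simp
    ring

theorem nt_of_rad {F : ℂ × ℂ → ℂ} {p : ℝ × ℝ} {r : ℂ}
    (hcone : ∀ M : ℝ, ∃ δ > 0, ∀ q ∈ Cn (tl p) M, -δ < q.1.im →
      DifferentiableAt ℂ F q ∧ F q ≠ 0 ∧ F q ≠ 1)
    (hr : Tendsto (fun s : ℝ => F (ray (tl p) s)) (𝓝[>] 0) (𝓝 r)) :
    Blow971.NT (Ft F) (fun _ => 0) p r := by
  intro A hA ε hε
  set M : ℝ := 5 + 2 * A with hM
  set σ : ℂ → ℂ × ℂ := fun ζ => (-ζ, ζ / 4) with hσ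
  have hσc : Continuous σ := by rw [hσ]; fun_prop
  set K0 : Set ℂ := (fun ξ : ℝ => (ξ : ℂ) + I) '' Icc (-A) A with hK0
  have hK0c : IsCompact K0 := isCompact_Icc.image (by fun_prop)
  have hKD : σ '' K0 ⊆ DM M := by
    rintro _ ⟨_, ⟨ξ, hξ, rfl⟩, rfl⟩
    have h1 : |ξ| ≤ A := abs_le.2 hξ
    have e1 : (-((ξ : ℂ) + I)).im = -1 := by simp
    have e2 : (((ξ : ℂ) + I) / 4).im = 1 / 4 := by simp
    have e3 : (-((ξ : ℂ) + I)).re = -ξ := by simp
    have e4 : ‖((ξ : ℂ) + I) / 4‖ ≤ (A + 1) / 4 := by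
      rw [norm_div]
      have h2 : ‖(ξ : ℂ) + I‖ ≤ |ξ| + 1 := by
        refine (norm_add_le _ _).trans ?_
        rw [Complex.norm_real, Complex.norm_I, Real.norm_eq_abs]
      have h3 : ‖(4 : ℂ)‖ = 4 := by norm_num
      rw [h3]
      linarith
    refine ⟨?_, ?_, ?_, ?_⟩
    · show (-((ξ : ℂ) + I)).im < 0
      rw [e1]; norm_num
    · show -(-((ξ : ℂ) + I)).im < 2
      rw [e1]; norm_num
    · show -(-((ξ : ℂ) + I)).im < M * (((ξ : ℂ) + I) / 4).im
      rw [e1, e2, hM]; linarith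
    · show |(-((ξ : ℂ) + I)).re| + ‖((ξ : ℂ) + I) / 4‖ < M * -(-((ξ : ℂ) + I)).im
      rw [e1, e3, abs_neg, hM]; linarith
  have hev := lindelof hcone hr (M := M) (by rw [hM]; linarith) (hK0c.image hσc) hKD (by
    rintro _ ⟨ζ, -, rfl⟩
    simp [hσ]) hε
  obtain ⟨δ, hδ, hδs⟩ := mem_nhdsGT_iff_exists_Ioo_subset.1 hev
  refine ⟨δ, hδ, fun t ht => ?_⟩
  obtain ⟨h1, h2, h3⟩ := ht
  simp only at h1 h2 h3
  set s : ℝ := -t.im with hs
  have hs0 : 0 < s := by rw [hs]; linarith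
  have hsδ : s < δ := by rw [hs]; linarith
  have hsc : (s : ℂ) ≠ 0 := by exact_mod_cast hs0.ne'
  set ξ : ℝ := (p.1 - t.re) / s with hξ
  have hξA : |ξ| ≤ A := by
    rw [hξ, abs_div, abs_of_pos hs0, div_le_iff₀ hs0, abs_sub_comm]
    have : A * (0 - t.im) = A * s := by rw [hs]; ring
    rw [this] at h3
    exact h3
  have hζ : ((p.1 : ℂ) - t) = s * ((ξ : ℂ) + I) := by
    apply Complex.ext
    · simp [hξ]
      field_simp
    · simp [hs]
  have hpt : (t, (p.2 : ℂ) - t / 4) = bl (tl p) s (σ ((ξ : ℂ) + I)) := by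
    unfold bl tl
    rw [hσ]
    ext1
    · show t = (p.1 : ℂ) + s * (-((ξ : ℂ) + I))
      linear_combination -hζ
    · show (p.2 : ℂ) - t / 4 = ((p.2 - p.1 / 4 : ℝ) : ℂ) + s * (((ξ : ℂ) + I) / 4)
      push_cast
      linear_combination hζ / 4
  have := hδs (show s ∈ Ioo 0 δ from ⟨hs0, hsδ⟩) _ (mem_image_of_mem σ
    (mem_image_of_mem _ (show ξ ∈ Icc (-A) A from abs_le.1 hξA)))
  unfold Ft
  rw [hpt]
  exact this.le

theorem Cn_mono {e : ℝ × ℝ} {M : ℝ} : Cn e M ⊆ Cn e (max M 1) := by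
  rintro q ⟨h1, h2, h3⟩
  have h4 : 0 ≤ M * (-q.1.im) := le_trans (by positivity) h3
  have hD : 0 < -q.1.im := by linarith
  have hM : 0 ≤ M := nonneg_of_mul_nonneg_left h4 hD
  have h5 : 0 < M * q.2.im := by linarith
  have h6 : 0 < q.2.im := by
    by_contra hc
    push Not at hc
    nlinarith
  refine ⟨h1, h2.trans ?_, h3.trans ?_⟩
  · exact mul_le_mul_of_nonneg_right (le_max_left _ _) h6.le
  · exact mul_le_mul_of_nonneg_right (le_max_left _ _) hD.le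

/-- from constant blow-ups to limits in the cones -/
theorem cones_of_blow {F : ℂ × ℂ → ℂ} {p : ℝ × ℝ} {r : ℂ}
    (hcone : ∀ M : ℝ, ∃ δ > 0, ∀ q ∈ Cn (tl p) M, -δ < q.1.im →
      DifferentiableAt ℂ F q ∧ F q ≠ 0 ∧ F q ≠ 1)
    (hr : Tendsto (fun s : ℝ => F (ray (tl p) s)) (𝓝[>] 0) (𝓝 r))
    (hblow : ∀ al : ℝ,
      (∀ ε : ℝ, 0 < ε → ∀ᶠ z : ℝ in 𝓝 (0 : ℝ), (0 : ℝ) + al * z - ε * |z| ≤ 0) →
      ∀ Ω : Set (ℂ × ℂ), IsPreconnected Ω →
      (∀ q ∈ Ω, ∃ r > 0, ∃ C : ℝ, ∀ᶠ η in 𝓝[>] (0 : ℝ),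
        DifferentiableOn ℂ (Blow971.blw (Ft F) (fun _ => 0) p η) (ball q r) ∧
          ∀ y ∈ ball q r, ‖Blow971.blw (Ft F) (fun _ => 0) p η y‖ ≤ C) →
      ∀ (T1 : ℂ) (ζ1 : ℝ), (T1, (ζ1 : ℂ)) ∈ Ω → T1.im < al * ζ1 →
      ∀ K : Set (ℂ × ℂ), IsCompact K → K ⊆ Ω →
      ∀ ε > 0, ∀ᶠ η in 𝓝[>] (0 : ℝ), ∀ y ∈ K,
        ‖Blow971.blw (Ft F) (fun _ => 0) p η y - r‖ ≤ ε) :
    ∀ M : ℝ, Tendsto F (𝓝[Cn (tl p) M] (((tl p).1 : ℂ), ((tl p).2 : ℂ))) (𝓝 r) := by
  have hcc : Continuous tlc := by unfold tlc; fun_prop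
  have hcc' : Continuous tlc' := by unfold tlc'; fun_prop
  have hdc : Differentiable ℂ tlc := by unfold tlc; fun_prop
  suffices H : ∀ M : ℝ, 1 ≤ M →
      Tendsto F (𝓝[Cn (tl p) M] (((tl p).1 : ℂ), ((tl p).2 : ℂ))) (𝓝 r) by
    intro M
    exact (H (max M 1) (le_max_right _ _)).mono_left (nhdsWithin_mono _ Cn_mono)
  intro M hM
  set e : ℝ × ℝ := tl p with he
  set M1 : ℝ := M + 5 with hM1
  have hM15 : 5 ≤ M1 := by rw [hM1]; linarith
  have hf := fam hcone M1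
  -- the domain
  have hΩmem : ∀ y, y ∈ tlc' '' DM M1 ↔ tlc y ∈ DM M1 := fun y => by
    constructor
    · rintro ⟨z, hz, rfl⟩
      rw [tlc_tlc']
      exact hz
    · intro hy
      exact ⟨tlc y, hy, tlc'_tlc y⟩
  have hΩc : IsPreconnected (tlc' '' DM M1) :=
    (convex_DM M1).isPreconnected.image _ hcc'.continuousOn
  -- the compact set
  set K' : Set (ℂ × ℂ) := {y | y.1.im = -1 ∧ 1 ≤ M * y.2.im ∧ |y.1.re| + ‖y.2‖ ≤ M} with hK'
  have c1 : Continuous fun y : ℂ × ℂ => y.1.im := Complex.continuous_im.comp continuous_fst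
  have c2 : Continuous fun y : ℂ × ℂ => y.2.im := Complex.continuous_im.comp continuous_snd
  have c3 : Continuous fun y : ℂ × ℂ => y.1.re := Complex.continuous_re.comp continuous_fst
  have hK'cl : IsClosed K' := (isClosed_eq c1 continuous_const).inter
    ((isClosed_le continuous_const (continuous_const.mul c2)).inter
      (isClosed_le (c3.abs.add continuous_snd.norm) continuous_const))
  have hK'c : IsCompact K' := by
    refine Metric.isCompact_of_isClosed_isBounded hK'cl ?_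
    refine (Metric.isBounded_closedBall (x := (0 : ℂ × ℂ)) (r := M + 1)).subset ?_
    rintro y ⟨h1, h2, h3⟩
    rw [mem_closedBall, dist_zero_right, Prod.norm_def, sup_le_iff]
    constructor
    · have := Complex.norm_le_abs_re_add_abs_im y.1
      rw [h1] at this
      have h4 : |(-1 : ℝ)| = 1 := by norm_num
      have h5 := norm_nonneg y.2
      linarith
    · have h5 := abs_nonneg y.1.re
      linarith
  have hK'D : K' ⊆ DM M1 := by
    rintro y ⟨h1, h2, h3⟩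
    have h4 : 0 < y.2.im := by
      by_contra hc
      push Not at hc
      nlinarith
    refine ⟨by rw [h1]; norm_num, by rw [h1]; norm_num, ?_, ?_⟩
    · rw [h1, hM1]; nlinarith
    · rw [h1, hM1]; linarith
  have key : ∀ ε > 0, ∀ᶠ η : ℝ in 𝓝[>] 0, ∀ y ∈ K', ‖F (bl e η y) - r‖ ≤ ε := by
    intro ε hε
    have h1 := hblow 0 (fun ε' hε' => Eventually.of_forall fun z => by
        have : 0 ≤ ε' * |z| := by positivity
        linarith) (tlc' '' DM M1) hΩc (fun q hq => by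
          have hq' := (hΩmem q).1 hq
          obtain ⟨ρ, hρ, C, hsub, hC⟩ := loc_bdd hcone hr hM15 (tlc q) hq'
          obtain ⟨ρ', hρ', hsub'⟩ := Metric.isOpen_iff.1 ((isOpen_ball (x := tlc q) (ε := ρ)).preimage
            hcc) q (mem_ball_self hρ : tlc q ∈ ball (tlc q) ρ)
          refine ⟨ρ', hρ', C, ?_⟩
          filter_upwards [hf, hC] with s hs1 hs2
          have hfun : Blow971.blw (Ft F) (fun _ => 0) p s = fun y => F (bl e s (tlc y)) :=
            funext fun y => blw_eq F p s y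
          rw [hfun]
          refine ⟨?_, fun y hy => hs2 _ (hsub' hy)⟩
          exact hs1.1.comp hdc.differentiableOn fun y hy => hsub (hsub' hy))
        (-I) 0 (by
          rw [hΩmem]
          have h2 := bp_DM hM15 (t := 1) one_pos (by norm_num)
          have h3 : tlc (-I, ((0 : ℝ) : ℂ)) = (-((1 : ℝ) : ℂ) * I, ((1 : ℝ) : ℂ) / 4 * I) := by
            unfold tlc
            ext1
            · simp
            · simp
              ring
          rw [h3]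
          exact h2) (by simp) (tlc' '' K') (hK'c.image hcc')
        (image_mono hK'D) ε hε
    filter_upwards [h1] with η hη y hy
    have := hη (tlc' y) (mem_image_of_mem _ hy)
    rw [blw_eq, tlc_tlc'] at this
    exact this
  rw [Metric.tendsto_nhdsWithin_nhds]
  intro ε hε
  obtain ⟨δ, hδ, hδs⟩ := mem_nhdsGT_iff_exists_Ioo_subset.1 (key (ε / 2) (by positivity))
  refine ⟨δ, hδ, fun {q} hq hdist => ?_⟩
  obtain ⟨h1, h2, h3⟩ := hq
  set D : ℝ := -q.1.im with hD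
  have hD0 : 0 < D := by rw [hD]; linarith
  have hDδ : D < δ := by
    rw [Prod.dist_eq, max_lt_iff] at hdist
    have h4 := (Complex.abs_im_le_norm (q.1 - (e.1 : ℂ)))
    rw [← dist_eq_norm] at h4
    have h5 : (q.1 - (e.1 : ℂ)).im = -D := by simp [hD]
    rw [h5, abs_neg, abs_of_pos hD0] at h4
    linarith [hdist.1]
  have hDc : (D : ℂ) ≠ 0 := by exact_mod_cast hD0.ne'
  set y : ℂ × ℂ := ((q.1 - (e.1 : ℂ)) / D, (q.2 - (e.2 : ℂ)) / D) with hy
  have hbl : bl e D y = q := by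
    unfold bl
    rw [hy]
    ext1
    · show (e.1 : ℂ) + D * ((q.1 - (e.1 : ℂ)) / D) = q.1
      field_simp
      ring
    · show (e.2 : ℂ) + D * ((q.2 - (e.2 : ℂ)) / D) = q.2
      field_simp
      ring
  have i1 := bl_im1 e D y
  have i2 := bl_im2 e D y
  have i3 := bl_re1 e D y
  have i4 := bl_sub2 e D y
  rw [hbl] at i1 i2 i3 i4
  have hyK : y ∈ K' := by
    refine ⟨?_, ?_, ?_⟩
    · have : D * y.1.im = D * (-1) := by rw [← i1, hD]; ring
      exact mul_left_cancel₀ hD0.ne' this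
    · rw [i2] at h2
      have : D * 1 ≤ D * (M * y.2.im) := by
        calc D * 1 = D := mul_one _
          _ ≤ M * (D * y.2.im) := h2
          _ = _ := by ring
      exact le_of_mul_le_mul_left this hD0
    · rw [i3, i4, S5.norm_smul' hD0, abs_mul, abs_of_pos hD0] at h3
      have : D * (|y.1.re| + ‖y.2‖) ≤ D * M := by linarith
      exact le_of_mul_le_mul_left this hD0
  have := hδs (show D ∈ Ioo 0 δ from ⟨hD0, hDδ⟩) y hyK
  rw [hbl] at this
  rw [dist_eq_norm]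
  linarith

/-- the inverse of the tilt -/
def tli (e : ℝ × ℝ) : ℝ × ℝ := (e.1, e.2 + e.1 / 4)

theorem tl_tli (e : ℝ × ℝ) : tl (tli e) = e := by
  unfold tl tli
  ext <;> simp

theorem mp_tli : MeasurePreserving tli (volume : Measure (ℝ × ℝ)) volume := by
  have h := MeasurePreserving.skew_product (μa := (volume : Measure ℝ)) (μc := (volume : Measure ℝ))
    (μd := (volume : Measure ℝ)) (f := fun x : ℝ => x)
    (MeasurePreserving.id (volume : Measure ℝ))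
    (g := fun x v : ℝ => v + x / 4) (by unfold Function.uncurry; fun_prop)
    (Eventually.of_forall fun x => by
      exact (measurePreserving_add_right (volume : Measure ℝ) (x / 4)).map_eq)
  exact h

/-- a.e. point with a radial limit has limits in all cones -/
theorem upgrade (F : ℂ × ℂ → ℂ) (P : Set (ℝ × ℝ))
    (hcone : ∀ e ∈ P, ∀ M : ℝ, ∃ δ > 0, ∀ q ∈ Cn e M, -δ < q.1.im →
      DifferentiableAt ℂ F q ∧ F q ≠ 0 ∧ F q ≠ 1) :
    ∀ᵐ e : ℝ × ℝ, e ∈ P → Rad F e → ∃ r : ℂ, r ≠ 0 ∧ r ≠ 1 ∧ ∀ M : ℝ,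
      Tendsto F (𝓝[Cn e M] ((e.1 : ℂ), (e.2 : ℂ))) (𝓝 r) := by
  classical
  set P1 : Set (ℝ × ℝ) := {p | tl p ∈ P ∧ Rad F (tl p)} with hP1
  set b : ℝ × ℝ → ℂ := fun p => if h : Rad F (tl p) then h.choose else 0 with hb
  have hbs : ∀ p ∈ P1, b p ≠ 0 ∧ b p ≠ 1 ∧
      Tendsto (fun s : ℝ => F (ray (tl p) s)) (𝓝[>] 0) (𝓝 (b p)) := by
    intro p hp
    have : b p = hp.2.choose := dif_pos hp.2
    rw [this]
    exact hp.2.choose_spec
  have H := Blow971.blow_complex (Ft F) (fun _ => 0) P1 b fun p hp =>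
    nt_of_rad (hcone _ hp.1) (hbs p hp).2.2
  have H2 : ∀ᵐ p : ℝ × ℝ, p ∈ P1 → ∃ r : ℂ, r ≠ 0 ∧ r ≠ 1 ∧ ∀ M : ℝ,
      Tendsto F (𝓝[Cn (tl p) M] (((tl p).1 : ℂ), ((tl p).2 : ℂ))) (𝓝 r) := by
    filter_upwards [H] with p hp hpP
    exact ⟨b p, (hbs p hpP).1, (hbs p hpP).2.1,
      cones_of_blow (hcone _ hpP.1) (hbs p hpP).2.2 (hp hpP)⟩
  have H3 := mp_tli.quasiMeasurePreserving.ae H2
  filter_upwards [H3] with e he heP hR
  have h1 : tli e ∈ P1 := by
    refine ⟨?_, ?_⟩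
    · rw [tl_tli]; exact heP
    · rw [tl_tli]; exact hR
  have := he h1
  rwa [tl_tli] at this

/-- **LEAF 3 of SUP.** -/
theorem altAe : AltAe := by
  obtain ⟨Cs, T, e0, he0, hG⟩ := LemG672.lemmaG
  refine ⟨T + 1, e0 / 2, max 1 (2 * Cs), by positivity, le_max_left _ _, ?_⟩
  intro P lam d F hP hl hl1 hd hF h01 hcone
  have H1 := planar (T := T) (Cs := Cs) he0 (fun P lam d F hl hl1 hd hF h01 v =>
    slice_ae hG hl hl1 hd hF h01 v) hP hl hl1 hd hF h01
  filter_upwards [H1, upgrade F P hcone] with e h1 h2 heP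
  rcases h1 heP with h | h
  · exact Or.inl (h2 heP h)
  · refine Or.inr ⟨min d 1 / 2, ?_, ?_⟩
    · have : 0 < min d 1 := lt_min hd one_pos
      linarith
    · have h3 : ∃ᶠ s : ℝ in 𝓝[>] 0, (|Real.log ‖F (ray e s)‖| ≤ T + 1 ∧
          e0 / 2 ≤ ‖F (ray e s) - 1‖ ∧ ∀ s' : ℝ, s ≤ s' → s' < min d 1 / 2 →
            1 + |Real.log ‖F (ray e s')‖| ≤ 2 * Cs * (s' / s) ^ (1 / 2 : ℝ)) ∧ 0 < s :=
        h.and_eventually self_mem_nhdsWithin
      refine h3.mono fun s hs => ?_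
      refine ⟨hs.1.1, hs.1.2.1, fun s' h4 h5 => (hs.1.2.2 s' h4 h5).trans ?_⟩
      have h6 : 0 ≤ (s' / s) ^ (1 / 2 : ℝ) :=
        Real.rpow_nonneg (div_nonneg (hs.2.le.trans h4) hs.2.le) _
      exact mul_le_mul_of_nonneg_right (le_max_right _ _) h6

end Crest.Agent.R102.Alt613
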