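import Crest.Agent.R102.BishopDefs_120

/-!
LEAF 4 of `BishopDefs_120`: a function continuous on the closed upper half plane, holomorphic in the
open one, whose boundary function is differentiable at `x`, is differentiable at `x` within the
closed half plane.
-/

open Filter Topology Metric Set

namespace Crest.Agent.R102.Ang966

open Crest.Agent.R102.Bishop120

/-- The half disc estimate. -/
theorem half966 (g : ℂ → ℂ) (hc : ContinuousOn g HC) (hd : DifferentiableOn ℂ g HO)
    (ε δ : ℝ) (hε : 0 < ε) (hδ : 0 < δ) (hr : ∀ t : ℝ, |t| ≤ δ → ‖g t‖ ≤ ε * |t|) :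
    ∃ N : ℝ, 0 < N ∧ ∀ z : ℂ, 0 ≤ z.im → ‖z‖ < δ → ‖g z‖ ≤ 2 * ε * ‖z‖ * Real.exp (N * z.im) := by
  -- the arc
  set K : Set ℂ := closedBall (0:ℂ) δ ∩ HC with hK
  have hHCclosed : IsClosed HC := isClosed_le continuous_const Complex.continuous_im
  have hKc : IsCompact K := (isCompact_closedBall (0:ℂ) δ).inter_right hHCclosed
  have hKne : K.Nonempty := ⟨0, by simp [hK, HC, hδ.le]⟩
  obtain ⟨z0, hz0, hz0max⟩ := hKc.exists_isMaxOn hKne (hc.norm.mono (fun z hz => hz.2))
  set M : ℝ := ‖g z0‖ with hM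
  have hMb : ∀ z ∈ K, ‖g z‖ ≤ M := fun z hz => hz0max hz
  have hM0 : 0 ≤ M := norm_nonneg _
  -- near the real axis on the sphere
  have hnear : ∃ η : ℝ, 0 < η ∧ ∀ z : ℂ, ‖z‖ = δ → 0 ≤ z.im → z.im ≤ η → ‖g z‖ ≤ 2 * ε * δ := by
    by_contra hcon
    push Not at hcon
    have hseq : ∀ n : ℕ, ∃ z : ℂ, ‖z‖ = δ ∧ 0 ≤ z.im ∧ z.im ≤ 1 / ((n:ℝ) + 1) ∧
        2 * ε * δ < ‖g z‖ := by
      intro n
      obtain ⟨z, h1, h2, h3, h4⟩ := hcon (1 / ((n:ℝ) + 1)) (by positivity)
      exact ⟨z, h1, h2, h3, h4⟩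
    choose w hw1 hw2 hw3 hw4 using hseq
    have hwK : ∀ n, w n ∈ K := fun n =>
      ⟨by rw [mem_closedBall, dist_zero_right, hw1 n], hw2 n⟩
    obtain ⟨a, haK, φ, hφ, hlim⟩ := hKc.tendsto_subseq hwK
    have ha1 : ‖a‖ = δ := by
      have h1 : Tendsto (fun n => ‖w (φ n)‖) atTop (𝓝 ‖a‖) := hlim.norm
      have h2 : (fun n => ‖w (φ n)‖) = fun _ => δ := by funext n; exact hw1 _
      rw [h2] at h1
      exact (tendsto_nhds_unique h1 tendsto_const_nhds)
    have ha2 : a.im = 0 := by
      have h1 : Tendsto (fun n => (w (φ n)).im) atTop (𝓝 a.im) :=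
        (Complex.continuous_im.tendsto _).comp hlim
      have h2 : Tendsto (fun n : ℕ => 1 / (((φ n : ℕ):ℝ) + 1)) atTop (𝓝 0) :=
        tendsto_one_div_add_atTop_nhds_zero_nat.comp hφ.tendsto_atTop
      have h3 : a.im ≤ 0 := le_of_tendsto_of_tendsto' h1 h2 (fun n => hw3 _)
      exact le_antisymm h3 haK.2
    have hga : Tendsto (fun n => ‖g (w (φ n))‖) atTop (𝓝 ‖g a‖) := by
      have h1 : Tendsto (fun n => w (φ n)) atTop (𝓝[HC] a) :=
        tendsto_nhdsWithin_iff.mpr ⟨hlim, Eventually.of_forall fun n => (hwK _).2⟩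
      exact ((hc a haK.2).tendsto.comp h1).norm
    have hge : 2 * ε * δ ≤ ‖g a‖ := ge_of_tendsto' hga (fun n => (hw4 _).le)
    have hare : a = ((a.re : ℝ) : ℂ) := by
      apply Complex.ext <;> simp [ha2]
    have habs : |a.re| = δ := by
      rw [← ha1, hare, Complex.norm_real]
      simp
    have h5 := hr a.re habs.le
    rw [← hare, habs] at h5
    have : 0 < ε * δ := mul_pos hε hδ
    linarith
  obtain ⟨η, hη, hηb⟩ := hnear
  -- choice of N
  obtain ⟨N, hN, hNb⟩ : ∃ N : ℝ, 0 < N ∧ M * Real.exp (-(N * η)) ≤ 2 * ε * δ := by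
    have ht : Tendsto (fun N : ℝ => M * Real.exp (-(N * η))) atTop (𝓝 (M * 0)) := by
      apply Tendsto.const_mul
      apply Real.tendsto_exp_atBot.comp
      apply tendsto_neg_atTop_atBot.comp
      exact tendsto_id.atTop_mul_const hη
    rw [mul_zero] at ht
    have h2 : 0 < 2 * ε * δ := by positivity
    have h3 := (ht.eventually (gt_mem_nhds h2)).and (eventually_gt_atTop 0)
    obtain ⟨N, hN1, hN2⟩ := h3.exists
    exact ⟨N, hN2, hN1.le⟩
  refine ⟨N, hN, ?_⟩
  -- the domain
  set U : Set ℂ := ball (0:ℂ) δ ∩ {z | 0 < z.im} with hU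
  have hUb : Bornology.IsBounded U := isBounded_ball.subset inter_subset_left
  have hclU : closure U ⊆ K := by
    have h1 : closure U ⊆ closure (ball (0:ℂ) δ) ∩ closure {z : ℂ | 0 < z.im} :=
      closure_inter_subset_inter_closure _ _
    intro z hz
    have h2 := h1 hz
    refine ⟨closure_ball_subset_closedBall h2.1, ?_⟩
    have h3 := h2.2
    rw [Complex.closure_setOfPred_lt_im] at h3
    exact h3
  have hUo : IsOpen U := isOpen_ball.inter (isOpen_lt continuous_const Complex.continuous_im)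
  -- the estimate for every r > 0
  have key : ∀ r : ℝ, 0 < r → ∀ z ∈ U,
      ‖g z / (z + Complex.I * r) * Complex.exp (Complex.I * N * z)‖ ≤ 2 * ε := by
    intro r hr0 z hz
    have hden : ∀ z : ℂ, 0 ≤ z.im → z + Complex.I * r ≠ 0 := by
      intro z hz h0
      have : (z + Complex.I * r).im = 0 := by rw [h0]; simp
      simp at this
      linarith
    have hdc : DiffContOnCl ℂ (fun z => g z / (z + Complex.I * r) *
        Complex.exp (Complex.I * N * z)) U := by
      refine ⟨?_, ?_⟩
      · apply DifferentiableOn.mul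
        · apply DifferentiableOn.div (hd.mono (fun z hz => hz.2))
          · fun_prop
          · intro z hz
            exact hden z (le_of_lt hz.2)
        · fun_prop
      · apply ContinuousOn.mul
        · apply ContinuousOn.div (hc.mono (fun z hz => (hclU hz).2))
          · fun_prop
          · intro z hz
            exact hden z (hclU hz).2
        · fun_prop
    refine Complex.norm_le_of_forall_mem_frontier_norm_le hUb hdc ?_ (subset_closure hz)
    intro w hw
    have hwK : w ∈ K := hclU (frontier_subset_closure hw)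
    have hwim : 0 ≤ w.im := hwK.2
    have hnormden : ‖w‖ ≤ ‖w + Complex.I * r‖ := by
      rw [Complex.norm_def, Complex.norm_def]
      apply Real.sqrt_le_sqrt
      simp only [Complex.normSq_apply, Complex.add_re, Complex.add_im, Complex.mul_re,
        Complex.mul_im, Complex.I_re, Complex.I_im, Complex.ofReal_re, Complex.ofReal_im]
      nlinarith
    have hdpos : 0 < ‖w + Complex.I * r‖ := norm_pos_iff.mpr (hden w hwim)
    have hexp : ‖Complex.exp (Complex.I * N * w)‖ = Real.exp (-(N * w.im)) := by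
      rw [Complex.norm_exp]
      congr 1
      simp [Complex.mul_re]
    have hexp1 : Real.exp (-(N * w.im)) ≤ 1 := by
      rw [Real.exp_le_one_iff]
      have := mul_nonneg hN.le hwim
      linarith
    rw [norm_mul, norm_div, hexp]
    -- frontier
    have hfr : (w.im = 0) ∨ (‖w‖ = δ) := by
      by_contra hcon
      push Not at hcon
      have h1 : ‖w‖ < δ := by
        have := hwK.1
        rw [mem_closedBall, dist_zero_right] at this
        exact lt_of_le_of_ne this hcon.2
      have h2 : 0 < w.im := lt_of_le_of_ne hwim (Ne.symm hcon.1)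
      have hwU : w ∈ U := ⟨by rw [mem_ball, dist_zero_right]; exact h1, h2⟩
      rw [hUo.frontier_eq] at hw
      exact hw.2 hwU
    rcases hfr with him | hn
    · have hre : w = ((w.re : ℝ) : ℂ) := by
        apply Complex.ext <;> simp [him]
      have hle : |w.re| ≤ δ := by
        have h1 := hwK.1
        rw [mem_closedBall, dist_zero_right] at h1
        exact (Complex.abs_re_le_norm w).trans h1
      have h1 := hr w.re hle
      rw [← hre] at h1
      have h2 : |w.re| ≤ ‖w + Complex.I * r‖ := (Complex.abs_re_le_norm w).trans hnormden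
      have h3 : ‖g w‖ / ‖w + Complex.I * r‖ ≤ ε := by
        rw [div_le_iff₀ hdpos]
        exact h1.trans (mul_le_mul_of_nonneg_left h2 hε.le)
      calc ‖g w‖ / ‖w + Complex.I * r‖ * Real.exp (-(N * w.im)) ≤ ε * 1 :=
            mul_le_mul h3 hexp1 (Real.exp_pos _).le hε.le
        _ ≤ 2 * ε := by linarith
    · have hdge : δ ≤ ‖w + Complex.I * r‖ := by rw [← hn]; exact hnormden
      rcases le_or_gt w.im η with h | h
      · have h1 := hηb w hn hwim h
        have h3 : ‖g w‖ / ‖w + Complex.I * r‖ ≤ 2 * ε := by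
          rw [div_le_iff₀ hdpos]
          exact h1.trans (mul_le_mul_of_nonneg_left hdge (by positivity))
        calc ‖g w‖ / ‖w + Complex.I * r‖ * Real.exp (-(N * w.im)) ≤ (2 * ε) * 1 :=
              mul_le_mul h3 hexp1 (Real.exp_pos _).le (by positivity)
          _ = 2 * ε := by ring
      · have h1 := hMb w hwK
        have h2 : Real.exp (-(N * w.im)) ≤ Real.exp (-(N * η)) := by
          rw [Real.exp_le_exp]
          have := mul_le_mul_of_nonneg_left h.le hN.le
          linarith
        have h3 : ‖g w‖ * Real.exp (-(N * w.im)) ≤ 2 * ε * δ :=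
          (mul_le_mul h1 h2 (Real.exp_pos _).le hM0).trans hNb
        rw [div_mul_eq_mul_div, div_le_iff₀ hdpos]
        exact h3.trans (mul_le_mul_of_nonneg_left hdge (by positivity))
  intro z hzim hzn
  -- limit r → 0 for interior points
  have hint : ∀ z : ℂ, 0 < z.im → ‖z‖ < δ → ‖g z‖ ≤ 2 * ε * ‖z‖ * Real.exp (N * z.im) := by
    intro z hzim hzn
    have hzU : z ∈ U := ⟨by rw [mem_ball, dist_zero_right]; exact hzn, hzim⟩
    have hstep : ∀ r : ℝ, 0 < r → ‖g z‖ ≤ 2 * ε * (‖z‖ + r) * Real.exp (N * z.im) := by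
      intro r hr0
      have h1 := key r hr0 z hzU
      have hexp : ‖Complex.exp (Complex.I * N * z)‖ = Real.exp (-(N * z.im)) := by
        rw [Complex.norm_exp]
        congr 1
        simp [Complex.mul_re]
      have hdpos : 0 < ‖z + Complex.I * r‖ := by
        rw [norm_pos_iff]
        intro h0
        have : (z + Complex.I * r).im = 0 := by rw [h0]; simp
        simp at this
        linarith
      rw [norm_mul, norm_div, hexp, div_mul_eq_mul_div, div_le_iff₀ hdpos] at h1
      have hdle : ‖z + Complex.I * r‖ ≤ ‖z‖ + r := by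
        refine (norm_add_le _ _).trans ?_
        rw [norm_mul, Complex.norm_I, one_mul, Complex.norm_real, Real.norm_of_nonneg hr0.le]
      have h2 : ‖g z‖ = (‖g z‖ * Real.exp (-(N * z.im))) * Real.exp (N * z.im) := by
        rw [mul_assoc, ← Real.exp_add]; simp
      rw [h2]
      apply mul_le_mul_of_nonneg_right _ (Real.exp_pos _).le
      exact h1.trans (mul_le_mul_of_nonneg_left hdle (by positivity))
    have ht : Tendsto (fun r : ℝ => 2 * ε * (‖z‖ + r) * Real.exp (N * z.im)) (𝓝[>] 0)
        (𝓝 (2 * ε * (‖z‖ + 0) * Real.exp (N * z.im))) := by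
      apply Tendsto.mono_left _ nhdsWithin_le_nhds
      apply Continuous.tendsto
      fun_prop
    rw [add_zero] at ht
    apply ge_of_tendsto ht
    filter_upwards [self_mem_nhdsWithin] with r hr0
    exact hstep r hr0
  rcases hzim.eq_or_lt with h0 | h0
  · have hre : z = ((z.re : ℝ) : ℂ) := by
      apply Complex.ext <;> simp [← h0]
    have hle : |z.re| ≤ δ := (Complex.abs_re_le_norm z).trans hzn.le
    have h1 := hr z.re hle
    rw [← hre] at h1
    rw [← h0]
    have h2 : |z.re| ≤ ‖z‖ := Complex.abs_re_le_norm z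
    have h3 : ε * |z.re| ≤ ε * ‖z‖ := mul_le_mul_of_nonneg_left h2 hε.le
    have h4 : 0 ≤ ε * ‖z‖ := by positivity
    simp only [mul_zero, Real.exp_zero, mul_one]
    linarith
  · exact hint z h0 hzn

/-- **LEAF 4.** -/
theorem angular : Angular := by
  intro G hGc hGd x κ hder
  rw [hasDerivWithinAt_iff_isLittleO, Asymptotics.isLittleO_iff]
  intro c hc
  -- the shifted function
  set g : ℂ → ℂ := fun z => G (z + x) - G x - z * κ with hg
  have hmapC : ∀ z : ℂ, z ∈ HC → z + x ∈ HC := by
    intro z hz; simpa [HC] using hz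
  have hmapO : ∀ z : ℂ, z ∈ HO → z + x ∈ HO := by
    intro z hz; simpa [HO] using hz
  have hgc : ContinuousOn g HC := by
    apply ContinuousOn.sub
    · apply ContinuousOn.sub _ continuousOn_const
      exact hGc.comp (by fun_prop) hmapC
    · fun_prop
  have hgd : DifferentiableOn ℂ g HO := by
    apply DifferentiableOn.sub
    · apply DifferentiableOn.sub _ (differentiableOn_const _)
      exact hGd.comp (by fun_prop) hmapO
    · fun_prop
  have hlit : ∃ δ : ℝ, 0 < δ ∧ ∀ t : ℝ, |t| ≤ δ → ‖g t‖ ≤ (c / 4) * |t| := by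
    rw [hasDerivAt_iff_isLittleO, Asymptotics.isLittleO_iff] at hder
    have h1 := hder (show 0 < c / 4 by positivity)
    rw [Metric.eventually_nhds_iff] at h1
    obtain ⟨δ, hδ, h2⟩ := h1
    refine ⟨δ / 2, by positivity, ?_⟩
    intro t ht
    have h3 := h2 (y := t + x) (by rw [Real.dist_eq]; simp; linarith)
    simp only [hg]
    have h4 : ((t + x : ℝ) : ℂ) = (t : ℂ) + x := by push_cast; ring
    rw [h4, add_sub_cancel_right] at h3
    simpa using h3
  obtain ⟨δ, hδ, hδb⟩ := hlit
  obtain ⟨N, hN, hNb⟩ := half966 g hgc hgd (c / 4) δ (by positivity) hδ hδb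
  have hexp : ∀ᶠ z : ℂ in 𝓝 (x : ℂ), Real.exp (N * (z - x).im) < 2 := by
    have hcont : Continuous fun z : ℂ => Real.exp (N * (z - x).im) := by fun_prop
    have h1 : Tendsto (fun z : ℂ => Real.exp (N * (z - x).im)) (𝓝 (x:ℂ))
        (𝓝 (Real.exp (N * ((x:ℂ) - x).im))) := hcont.tendsto _
    have h2 : Real.exp (N * ((x:ℂ) - x).im) < 2 := by simp
    exact h1.eventually (gt_mem_nhds h2)
  have hball : ∀ᶠ z : ℂ in 𝓝 (x : ℂ), ‖z - x‖ < δ := by
    have := Metric.ball_mem_nhds (x:ℂ) hδ
    filter_upwards [this] with z hz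
    rwa [mem_ball, dist_eq_norm] at hz
  filter_upwards [nhdsWithin_le_nhds hexp, nhdsWithin_le_nhds hball, self_mem_nhdsWithin]
    with z h1 h2 h3
  have hzim : 0 ≤ (z - x).im := by simpa [HC] using h3
  have h4 := hNb (z - x) hzim h2
  simp only [hg, sub_add_cancel] at h4
  have h5 : (0:ℝ) ≤ ‖z - x‖ := norm_nonneg _
  have h6 : 2 * (c / 4) * ‖z - x‖ * Real.exp (N * (z - x).im) ≤ 2 * (c / 4) * ‖z - x‖ * 2 :=
    mul_le_mul_of_nonneg_left h1.le (by positivity)
  rw [smul_eq_mul]
  calc ‖G z - G x - (z - x) * κ‖ ≤ _ := h4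
    _ ≤ _ := h6
    _ = c * ‖z - x‖ := by ring

end Crest.Agent.R102.Ang966
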