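import Crest.Agent.R102.Fol1B_160
import Mathlib.MeasureTheory.Function.Jacobian
import Mathlib.MeasureTheory.Measure.Prod
import Mathlib.MeasureTheory.Constructions.Polish.Basic
import Mathlib.MeasureTheory.Measure.Lebesgue.Basic
import Mathlib.MeasureTheory.Measure.Haar.OfBasis

/-!
Row 102: the area lemma (W): the next-point map of twist data preserves the area `h ds ds'`,
hence has no wandering open set with bounded orbit.
-/

set_option autoImplicit false

namespace Crest.Agent.R102.S0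

open Set Function Filter Topology MeasureTheory
open scoped ENNReal

variable {P : ℝ} {q1 q2 h : ℝ → ℝ → ℝ} {T : ℝ × ℝ → ℝ × ℝ}

theorem isOpen_pairs_160 (P : ℝ) : IsOpen (Pairs P) :=
  (isOpen_lt continuous_fst continuous_snd).inter
    (isOpen_lt continuous_snd (continuous_fst.add continuous_const))

/-- the density of the area -/
noncomputable def dens (P : ℝ) (h : ℝ → ℝ → ℝ) : ℝ × ℝ → ℝ≥0∞ :=
  (Pairs P).indicator (fun z => ENNReal.ofReal (h z.1 z.2))

theorem dens_of_mem {z : ℝ × ℝ} (hz : z ∈ Pairs P) : dens P h z = ENNReal.ofReal (h z.1 z.2) :=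
  indicator_of_mem hz _

/-- the area -/
noncomputable def areaM (P : ℝ) (h : ℝ → ℝ → ℝ) : Measure (ℝ × ℝ) :=
  volume.withDensity (dens P h)

theorem TwistData.measurable_dens (hT : TwistData P q1 q2 h) : Measurable (dens P h) := by
  classical
  unfold dens
  rw [← piecewise_eq_indicator]
  refine ContinuousOn.measurable_piecewise ?_ continuousOn_const (isOpen_pairs_160 P).measurableSet
  exact ENNReal.continuous_ofReal.comp_continuousOn hT.conth

theorem areaM_apply {A : Set (ℝ × ℝ)} (hA : MeasurableSet A) :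
    areaM P h A = ∫⁻ z, A.indicator (dens P h) z := by
  rw [areaM, withDensity_apply _ hA, ← lintegral_indicator hA]

theorem IsNext.injOn (hT : TwistData P q1 q2 h) (hN : IsNext P q1 q2 T) : InjOn T (Pairs P) := by
  intro z hz w hw hzw
  have h1 : z.2 = w.2 := by rw [← hN.fst z hz, ← hN.fst w hw, hzw]
  have h2 := hN.refl z hz
  have h3 := hN.refl w hw
  rw [hzw, h1, ← h3] at h2
  have h4 : z.1 = w.1 := by
    apply (hT.strictMonoOn_q2 w.2).injOn _ _ h2
    · have := hz.2; rw [h1] at this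
      have h5 := hz.1; rw [h1] at h5
      exact ⟨by linarith, h5⟩
    · exact ⟨by linarith [hw.2], hw.1⟩
  exact Prod.ext h4 h1

theorem IsNext.snd_mem (hN : IsNext P q1 q2 T) {z : ℝ × ℝ} (hz : z ∈ Pairs P) :
    (T z).2 ∈ Ioo z.2 (z.2 + P) := by
  have h1 := hN.mem z hz
  have h2 := hN.fst z hz
  have h3 := h1.1
  have h4 := h1.2
  rw [h2] at h3 h4
  exact ⟨h3, h4⟩

theorem IsNext.continuousOn (hT : TwistData P q1 q2 h) (hN : IsNext P q1 q2 T) :
    ContinuousOn T (Pairs P) := by
  intro z0 hz0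
  apply ContinuousAt.continuousWithinAt
  have hP : Pairs P ∈ 𝓝 z0 := (isOpen_pairs_160 P).mem_nhds hz0
  have hc : ContinuousAt (fun z => (z.2, (T z).2)) z0 := by
    refine continuousAt_snd.prodMk ?_
    have hn0 := hN.snd_mem hz0
    have hq2 : ContinuousAt (fun z : ℝ × ℝ => q2 z.1 z.2) z0 := hT.cont2.continuousAt hP
    -- continuity of `z ↦ q1 z.2 a`
    have hq1 : ∀ a, z0.2 < a → a < z0.2 + P → ContinuousAt (fun z : ℝ × ℝ => q1 z.2 a) z0 := by
      intro a ha1 ha2
      have h1 : ContinuousAt (fun z : ℝ × ℝ => q1 z.1 z.2) (z0.2, a) :=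
        hT.cont1.continuousAt ((isOpen_pairs_160 P).mem_nhds ⟨ha1, ha2⟩)
      have h2 : ContinuousAt (fun z : ℝ × ℝ => (z.2, a)) z0 :=
        continuousAt_snd.prodMk continuousAt_const
      exact ContinuousAt.comp (f := fun z : ℝ × ℝ => (z.2, a)) (x := z0)
        (g := fun z : ℝ × ℝ => q1 z.1 z.2) h1 h2
    have hr0 := hN.refl z0 hz0
    rw [ContinuousAt, tendsto_order]
    constructor
    · intro a ha
      obtain ⟨a', ha1, ha2⟩ := exists_between (max_lt ha hn0.1)
      have haa : a < a' := (le_max_left _ _).trans_lt ha1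
      have hza : z0.2 < a' := (le_max_right _ _).trans_lt ha1
      have hza2 : a' < z0.2 + P := ha2.trans hn0.2
      have h1 : q2 z0.1 z0.2 < q1 z0.2 a' := by
        rw [hr0]
        exact hT.strictAntiOn_q1 z0.2 ⟨hza, hza2⟩ hn0 ha2
      filter_upwards [hP, hq2.eventually_lt (hq1 a' hza hza2) h1,
        continuousAt_snd.eventually_lt continuousAt_const hza,
        (continuousAt_const (y := a')).eventually_lt
          ((continuousAt_snd (p := z0)).add continuousAt_const) hza2] with z hz hz1 hz2 hz3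
      rw [hN.refl z hz] at hz1
      by_contra hcon
      push Not at hcon
      have := (hT.strictAntiOn_q1 z.2).antitoneOn (hN.snd_mem hz) ⟨hz2, hz3⟩ (hcon.trans haa.le)
      linarith
    · intro a ha
      obtain ⟨a', ha1, ha2⟩ := exists_between (lt_min ha hn0.2)
      have haa : a' < a := ha2.trans_le (min_le_left _ _)
      have hza : z0.2 < a' := hn0.1.trans ha1
      have hza2 : a' < z0.2 + P := ha2.trans_le (min_le_right _ _)
      have h1 : q1 z0.2 a' < q2 z0.1 z0.2 := by
        rw [hr0]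
        exact hT.strictAntiOn_q1 z0.2 hn0 ⟨hza, hza2⟩ ha1
      filter_upwards [hP, (hq1 a' hza hza2).eventually_lt hq2 h1,
        continuousAt_snd.eventually_lt continuousAt_const hza,
        (continuousAt_const (y := a')).eventually_lt
          ((continuousAt_snd (p := z0)).add continuousAt_const) hza2] with z hz hz1 hz2 hz3
      rw [hN.refl z hz] at hz1
      by_contra hcon
      push Not at hcon
      have := (hT.strictAntiOn_q1 z.2).antitoneOn ⟨hz2, hz3⟩ (hN.snd_mem hz) (haa.le.trans hcon)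
      linarith
  refine hc.congr ?_
  filter_upwards [hP] with z hz
  exact Prod.ext (hN.fst z hz).symm rfl

theorem IsNext.measurableSet_image (hT : TwistData P q1 q2 h) (hN : IsNext P q1 q2 T)
    {A : Set (ℝ × ℝ)} (hA : MeasurableSet A) (hAP : A ⊆ Pairs P) : MeasurableSet (T '' A) :=
  hA.image_of_continuousOn_injOn ((hN.continuousOn hT).mono hAP) ((hN.injOn hT).mono hAP)

/-- **Area preservation**. -/
theorem IsNext.areaM_image (hT : TwistData P q1 q2 h) (hN : IsNext P q1 q2 T)
    {A : Set (ℝ × ℝ)} (hA : MeasurableSet A) (hAP : A ⊆ Pairs P) :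
    areaM P h (T '' A) = areaM P h A := by
  have hTA := hN.measurableSet_image hT hA hAP
  have hTAP : T '' A ⊆ Pairs P := by
    rintro _ ⟨z, hz, rfl⟩; exact hN.mem z (hAP hz)
  rw [areaM_apply hA, areaM_apply hTA, Measure.volume_eq_prod,
    lintegral_prod_symm _ ((hT.measurable_dens.indicator hA).aemeasurable),
    lintegral_prod _ ((hT.measurable_dens.indicator hTA).aemeasurable)]
  congr 1
  ext s'
  have hm1 : MeasurableSet {x | (x, s') ∈ A} := measurable_prodMk_right hA
  have hm2 : MeasurableSet {y | (s', y) ∈ T '' A} := measurable_prodMk_left hTA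
  have e1 : ∫⁻ x, A.indicator (dens P h) (x, s') =
      volume ((fun x => q2 x s') '' {x | (x, s') ∈ A}) := by
    have h1 := lintegral_image_eq_lintegral_abs_deriv_mul (s := {x | (x, s') ∈ A})
      (f := fun x => q2 x s') (f' := fun x => h x s') hm1
      (fun x hx => (hT.der2 x s' (hAP hx).1 (hAP hx).2).hasDerivWithinAt)
      (by
        intro x hx y hy hxy
        exact (hT.strictMonoOn_q2 s').injOn ⟨by linarith [(hAP hx).2], (hAP hx).1⟩
          ⟨by linarith [(hAP hy).2], (hAP hy).1⟩ hxy) (fun _ => 1)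
    rw [lintegral_one, Measure.restrict_apply_univ] at h1
    rw [h1, ← lintegral_indicator hm1]
    congr 1
    ext x
    by_cases hx : (x, s') ∈ A
    · rw [indicator_of_mem hx, indicator_of_mem (by exact hx), dens_of_mem (hAP hx), mul_one,
        abs_of_pos (hT.hpos x s' (hAP hx).1 (hAP hx).2)]
    · rw [indicator_of_notMem hx, indicator_of_notMem (by exact hx)]
  have e2 : ∫⁻ y, (T '' A).indicator (dens P h) (s', y) =
      volume (q1 s' '' {y | (s', y) ∈ T '' A}) := by
    have h1 := lintegral_image_eq_lintegral_abs_deriv_mul (s := {y | (s', y) ∈ T '' A})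
      (f := fun y => q1 s' y) (f' := fun y => -h s' y) hm2
      (fun y hy => (hT.der1 s' y (hTAP hy).1 (hTAP hy).2).hasDerivWithinAt)
      (by
        intro x hx y hy hxy
        exact (hT.strictAntiOn_q1 s').injOn ⟨(hTAP hx).1, (hTAP hx).2⟩
          ⟨(hTAP hy).1, (hTAP hy).2⟩ hxy) (fun _ => 1)
    rw [lintegral_one, Measure.restrict_apply_univ] at h1
    rw [h1, ← lintegral_indicator hm2]
    congr 1
    ext y
    by_cases hy : (s', y) ∈ T '' A
    · rw [indicator_of_mem hy, indicator_of_mem (by exact hy), dens_of_mem (hTAP hy), mul_one,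
        abs_neg, abs_of_pos (hT.hpos s' y (hTAP hy).1 (hTAP hy).2)]
    · rw [indicator_of_notMem hy, indicator_of_notMem (by exact hy)]
  rw [e1, e2]
  congr 1
  ext t
  constructor
  · rintro ⟨y, ⟨z, hz, hzy⟩, rfl⟩
    have h1 := hN.fst z (hAP hz)
    rw [hzy] at h1
    have h2 := hN.refl z (hAP hz)
    rw [hzy] at h2
    simp only at h1 h2
    refine ⟨z.1, ?_, ?_⟩
    · show (z.1, s') ∈ A
      rw [h1]; exact hz
    · show q2 z.1 s' = q1 s' y
      rw [h1]; exact h2
  · rintro ⟨x, hx, rfl⟩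
    have h1 := hN.fst _ (hAP hx)
    have h2 := hN.refl _ (hAP hx)
    refine ⟨(T (x, s')).2, ⟨(x, s'), hx, Prod.ext h1 rfl⟩, h2.symm⟩

/-! ### the shift -/

/-- shift by `m P` -/
def shf (P : ℝ) (m : ℤ) (z : ℝ × ℝ) : ℝ × ℝ := z + ((m : ℝ) * P, (m : ℝ) * P)

theorem shf_mem {m : ℤ} {z : ℝ × ℝ} : shf P m z ∈ Pairs P ↔ z ∈ Pairs P := by
  simp only [shf, Pairs, mem_ofPred_eq, Prod.fst_add, Prod.snd_add]
  constructor
  · rintro ⟨h1, h2⟩; exact ⟨by linarith, by linarith⟩
  · rintro ⟨h1, h2⟩; exact ⟨by linarith, by linarith⟩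

theorem shf_shf (m n : ℤ) (z : ℝ × ℝ) : shf P m (shf P n z) = shf P (n + m) z := by
  simp only [shf]
  push_cast
  ext <;> simp <;> ring

theorem shf_zero (z : ℝ × ℝ) : shf P 0 z = z := by
  simp only [shf]
  ext <;> simp

theorem per_int {f : ℝ → ℝ → ℝ} (hf : ∀ s s', f (s + P) (s' + P) = f s s') (m : ℤ) (s s' : ℝ) :
    f (s + m * P) (s' + m * P) = f s s' := by
  induction m using Int.induction_on with
  | zero => simp
  | succ i ih =>
    have := hf (s + i * P) (s' + i * P)
    push_cast at ih ⊢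
    rw [← ih, ← this]
    congr 1 <;> ring
  | pred i ih =>
    have := hf (s + (-(i:ℝ) - 1) * P) (s' + (-(i:ℝ) - 1) * P)
    push_cast at ih ⊢
    rw [← ih, ← this]
    congr 1 <;> ring

theorem dens_shf (hT : TwistData P q1 q2 h) (m : ℤ) (z : ℝ × ℝ) :
    dens P h (shf P m z) = dens P h z := by
  by_cases hz : z ∈ Pairs P
  · rw [dens_of_mem hz, dens_of_mem (shf_mem.2 hz)]
    simp only [shf, Prod.fst_add, Prod.snd_add]
    rw [per_int hT.perh]
  · rw [dens, indicator_of_notMem hz, indicator_of_notMem (fun h => hz (shf_mem.1 h))]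

theorem measurable_shf (m : ℤ) : Measurable (shf P m) := by
  unfold shf
  exact (continuous_id.add continuous_const).measurable

theorem areaM_shf (hT : TwistData P q1 q2 h) (m : ℤ) {A : Set (ℝ × ℝ)} (hA : MeasurableSet A) :
    areaM P h (shf P m ⁻¹' A) = areaM P h A := by
  rw [areaM_apply hA, areaM_apply (measurable_shf m hA)]
  have h1 : ∀ z, (shf P m ⁻¹' A).indicator (dens P h) z = A.indicator (dens P h) (shf P m z) := by
    intro z
    by_cases hz : shf P m z ∈ A
    · rw [indicator_of_mem (by exact hz), indicator_of_mem hz, dens_shf hT]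
    · rw [indicator_of_notMem (by exact hz), indicator_of_notMem hz]
  simp_rw [h1]
  exact lintegral_add_right_eq_self (A.indicator (dens P h)) ((m : ℝ) * P, (m : ℝ) * P)

theorem IsNext.shf_comm (hT : TwistData P q1 q2 h) (hN : IsNext P q1 q2 T) (m : ℤ) {z : ℝ × ℝ}
    (hz : z ∈ Pairs P) : T (shf P m z) = shf P m (T z) := by
  have hz' : shf P m z ∈ Pairs P := shf_mem.2 hz
  have h1 := hN.fst _ hz'
  have h2 := hN.refl _ hz'
  have h3 := hN.fst _ hz
  have h4 := hN.refl _ hz
  have h5 := hN.snd_mem hz'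
  have h6 := hN.snd_mem hz
  apply Prod.ext
  · rw [h1]
    simp only [shf, Prod.fst_add, Prod.snd_add, h3]
  · apply (hT.strictAntiOn_q1 (shf P m z).2).injOn h5
    · simp only [shf, Prod.snd_add, mem_Ioo]
      exact ⟨by linarith [h6.1], by linarith [h6.2]⟩
    · rw [← h2]
      simp only [shf, Prod.fst_add, Prod.snd_add]
      rw [per_int hT.per2, per_int hT.per1]
      exact h4

theorem IsNext.iter_mem (hN : IsNext P q1 q2 T) (k : ℕ) {z : ℝ × ℝ} (hz : z ∈ Pairs P) :
    T^[k] z ∈ Pairs P := by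
  induction k with
  | zero => exact hz
  | succ k ih => rw [Function.iterate_succ_apply']; exact hN.mem _ ih

theorem IsNext.iter_shf_comm (hT : TwistData P q1 q2 h) (hN : IsNext P q1 q2 T) (m : ℤ) (k : ℕ)
    {z : ℝ × ℝ} (hz : z ∈ Pairs P) : T^[k] (shf P m z) = shf P m (T^[k] z) := by
  induction k with
  | zero => rfl
  | succ k ih =>
    rw [Function.iterate_succ_apply', Function.iterate_succ_apply', ih,
      hN.shf_comm hT m (hN.iter_mem k hz)]

theorem IsNext.iter_injOn (hT : TwistData P q1 q2 h) (hN : IsNext P q1 q2 T) (k : ℕ) :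
    InjOn T^[k] (Pairs P) := by
  induction k with
  | zero => exact injOn_id _
  | succ k ih =>
    intro z hz w hw hzw
    rw [Function.iterate_succ_apply', Function.iterate_succ_apply'] at hzw
    exact ih hz hw (hN.injOn hT (hN.iter_mem k hz) (hN.iter_mem k hw) hzw)

theorem IsNext.iter_image (hT : TwistData P q1 q2 h) (hN : IsNext P q1 q2 T) {A : Set (ℝ × ℝ)}
    (hA : MeasurableSet A) (hAP : A ⊆ Pairs P) (k : ℕ) :
    MeasurableSet (T^[k] '' A) ∧ T^[k] '' A ⊆ Pairs P ∧ areaM P h (T^[k] '' A) = areaM P h A := by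
  induction k with
  | zero => simpa using ⟨hA, hAP⟩
  | succ k ih =>
    have h1 : T^[k + 1] '' A = T '' (T^[k] '' A) := by
      rw [image_image]
      congr 1
      ext z <;> rw [Function.iterate_succ_apply']
    rw [h1]
    refine ⟨hN.measurableSet_image hT ih.1 ih.2.1, ?_, ?_⟩
    · rintro _ ⟨z, hz, rfl⟩; exact hN.mem z (ih.2.1 hz)
    · rw [hN.areaM_image hT ih.1 ih.2.1, ih.2.2]

theorem areaM_pos (hT : TwistData P q1 q2 h) {W : Set (ℝ × ℝ)} (hWo : IsOpen W)
    (hWn : W.Nonempty) (hWP : W ⊆ Pairs P) : areaM P h W ≠ 0 := by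
  intro h0
  rw [areaM, withDensity_apply _ hWo.measurableSet,
    lintegral_eq_zero_iff hT.measurable_dens] at h0
  have h1 : ∀ᵐ z ∂(volume.restrict W), z ∈ W := ae_restrict_mem hWo.measurableSet
  have h2 : ∀ᵐ z ∂(volume.restrict W), False := by
    filter_upwards [h0, h1] with z hz hzW
    rw [dens_of_mem (hWP hzW)] at hz
    have := hT.hpos z.1 z.2 (hWP hzW).1 (hWP hzW).2
    simp only [Pi.zero_apply, ENNReal.ofReal_eq_zero] at hz
    linarith
  have h3 : volume.restrict W = 0 := by
    rw [← Measure.measure_univ_eq_zero]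
    rw [ae_iff] at h2
    simpa using h2
  rw [Measure.restrict_eq_zero] at h3
  exact (hWo.measure_pos volume hWn).ne' h3

theorem areaM_lt_top (hT : TwistData P q1 q2 h) {C : Set (ℝ × ℝ)} (hC : IsCompact C)
    (hCP : C ⊆ Pairs P) : areaM P h C ≠ ⊤ := by
  obtain ⟨M, hM⟩ := hC.bddAbove_image (hT.conth.mono hCP)
  rw [areaM, withDensity_apply _ hC.measurableSet]
  have h1 : ∫⁻ z in C, dens P h z ≤ ∫⁻ z in C, ENNReal.ofReal M := by
    apply setLIntegral_mono measurable_const
    intro z hz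
    rw [dens_of_mem (hCP hz)]
    exact ENNReal.ofReal_le_ofReal (hM ⟨z, hz, rfl⟩)
  refine (lt_of_le_of_lt h1 ?_).ne
  rw [setLIntegral_const]
  exact ENNReal.mul_lt_top ENNReal.ofReal_lt_top hC.measure_lt_top

/-- **The area lemma (W).** -/
theorem areaL_of_isNext (hT : TwistData P q1 q2 h) (hN : IsNext P q1 q2 T) : AreaL P T := by
  intro C W hC hCP hWo hWn hWP hin hdis hdis0
  have hIm := fun k => hN.iter_image hT hWo.measurableSet hWP k
  -- pieces
  let E : ℕ → ℤ → Set (ℝ × ℝ) := fun k m => C ∩ shf P m ⁻¹' (T^[k] '' W)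
  have hEm : ∀ k m, MeasurableSet (E k m) := fun k m =>
    hC.measurableSet.inter (measurable_shf m (hIm k).1)
  let D : ℕ → Set (ℝ × ℝ) := fun k => ⋃ m, E k m
  have hDm : ∀ k, MeasurableSet (D k) := fun k => MeasurableSet.iUnion (hEm k)
  have hDC : ∀ k, D k ⊆ C := fun k => iUnion_subset fun m => inter_subset_left
  -- disjointness in `m`
  have hEd : ∀ k, Pairwise (Disjoint on (E k)) := by
    intro k m m' hmm
    show Disjoint (E k m) (E k m')
    rw [Set.disjoint_left]
    rintro z ⟨_, w, hw, hwz⟩ ⟨_, w', hw', hwz'⟩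
    have h1 : T^[k] (shf P (m' - m) w) = T^[k] w' := by
      rw [hN.iter_shf_comm hT _ k (hWP hw), hwz, hwz', shf_shf]
      congr 1; ring
    have h2 := hN.iter_injOn hT k (shf_mem.2 (hWP hw)) (hWP hw') h1
    have h3 := hdis0 w hw w' hw' (m' - m) h2
    rw [← h3] at h2
    simp only [shf] at h2
    have h4 := congrArg Prod.fst h2
    simp only [Prod.fst_add] at h4
    have h5 : ((m' - m : ℤ) : ℝ) * P = 0 := by linarith
    rcases mul_eq_zero.1 h5 with h | h
    · exact hmm (by have : m' - m = 0 := by exact_mod_cast h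
                    omega)
    · exact hT.hP.ne' h
  -- disjointness in `k`
  have hDd : Pairwise (Disjoint on D) := by
    have key : ∀ j k, j < k → Disjoint (D j) (D k) := by
      intro j k hjk
      rw [Set.disjoint_left]
      intro z hz hz'
      obtain ⟨m, _, w, hw, hwz⟩ := mem_iUnion.1 hz
      obtain ⟨m', _, w', hw', hwz'⟩ := mem_iUnion.1 hz'
      obtain ⟨l, rfl⟩ := Nat.exists_eq_add_of_lt hjk
      have h1 : T^[j] (T^[l + 1] w') = T^[j] (shf P (m' - m) w) := by
        rw [← Function.iterate_add_apply, hN.iter_shf_comm hT _ j (hWP hw), hwz, shf_shf]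
        have : j + (l + 1) = j + l + 1 := by ring
        rw [this, hwz']
        congr 1; ring
      have h2 := hN.iter_injOn hT j (hN.iter_mem _ (hWP hw')) (shf_mem.2 (hWP hw)) h1
      have h3 : T^[l + 1] w' + (((m - m' : ℤ) : ℝ) * P, ((m - m' : ℤ) : ℝ) * P) = w := by
        have : shf P (m - m') (T^[l + 1] w') = w := by
          rw [h2, shf_shf]
          have : m' - m + (m - m') = 0 := by ring
          rw [this, shf_zero]
        exact this
      exact hdis (l + 1) (by omega) w' hw' w hw (m - m') h3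
    intro j k hjk
    rcases lt_or_gt_of_ne hjk with h | h
    · exact key j k h
    · exact (key k j h).symm
  -- each `D k` has area at least that of `W`
  have hge : ∀ k, areaM P h W ≤ areaM P h (D k) := by
    intro k
    have h1 : areaM P h (D k) = ∑' m, areaM P h (E k m) := measure_iUnion (hEd k) (hEm k)
    have h2 : T^[k] '' W ⊆ ⋃ m : ℤ, T^[k] '' W ∩ shf P (-m) ⁻¹' C := by
      rintro _ ⟨w, hw, rfl⟩
      obtain ⟨m, hm⟩ := hin k w hw
      refine mem_iUnion.2 ⟨-m, ⟨w, hw, rfl⟩, ?_⟩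
      rw [neg_neg]
      exact hm
    calc areaM P h W = areaM P h (T^[k] '' W) := (hIm k).2.2.symm
      _ ≤ areaM P h (⋃ m : ℤ, T^[k] '' W ∩ shf P (-m) ⁻¹' C) := measure_mono h2
      _ ≤ ∑' m : ℤ, areaM P h (T^[k] '' W ∩ shf P (-m) ⁻¹' C) := measure_iUnion_le _
      _ = ∑' m : ℤ, areaM P h (E k m) := by
          congr 1
          ext m
          rw [← areaM_shf hT m ((hIm k).1.inter (measurable_shf _ hC.measurableSet))]
          congr 1
          ext z
          simp only [E, mem_preimage, mem_inter_iff, shf_shf, add_neg_cancel, shf_zero]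
          tauto
      _ = areaM P h (D k) := h1.symm
  have h1 : ∑' k, areaM P h (D k) = areaM P h (⋃ k, D k) := (measure_iUnion hDd hDm).symm
  have h2 : areaM P h (⋃ k, D k) ≤ areaM P h C := measure_mono (iUnion_subset hDC)
  have h3 : ∑' _ : ℕ, areaM P h W ≤ ∑' k, areaM P h (D k) := ENNReal.tsum_le_tsum hge
  rw [ENNReal.tsum_const_eq_top_of_ne_zero (areaM_pos hT hWo hWn hWP), h1, top_le_iff] at h3
  rw [h3, top_le_iff] at h2
  exact areaM_lt_top hT hC hCP h2

/-! ### the next-point map -/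

open Classical in
/-- the next-point map of twist data -/
noncomputable def nextT (P : ℝ) (q1 q2 : ℝ → ℝ → ℝ) (z : ℝ × ℝ) : ℝ × ℝ :=
  (z.2, if hz : ∃ s'', z.2 < s'' ∧ s'' < z.2 + P ∧ q2 z.1 z.2 = q1 z.2 s'' then hz.choose else 0)

theorem isNext_nextT (hT : TwistData P q1 q2 h) : IsNext P q1 q2 (nextT P q1 q2) := by
  have key : ∀ z ∈ Pairs P, z.2 < (nextT P q1 q2 z).2 ∧ (nextT P q1 q2 z).2 < z.2 + P ∧
      q2 z.1 z.2 = q1 z.2 (nextT P q1 q2 z).2 := by
    intro z hz
    have h1 : ∃ s'', z.2 < s'' ∧ s'' < z.2 + P ∧ q2 z.1 z.2 = q1 z.2 s'' :=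
      hT.next z.1 z.2 hz.1 hz.2
    have h2 : (nextT P q1 q2 z).2 = h1.choose := by
      simp only [nextT]
      rw [dif_pos h1]
    rw [h2]
    exact h1.choose_spec
  exact ⟨fun z _ => rfl, fun z hz => ⟨(key z hz).1, (key z hz).2.1⟩, fun z hz => (key z hz).2.2⟩

/-- **Good leaves are dense.** -/
theorem exists_good_leaf {S g : ℝ → ℝ → ℝ} (hT : TwistData P q1 q2 h)
    (hF : FolData P q1 q2 S g) {u v : ℝ} (hu : 0 ≤ u) (huv : u < v) (hv : v ≤ 1) :
    ∃ b ∈ Ioo u v, ∀ a c, ¬ Wand (g b) a c :=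
  exists_good_leaf_of_area hT hF (isNext_nextT hT) (areaL_of_isNext hT (isNext_nextT hT)) hu huv hv

/-- Conjugacy to a rotation for a dense set of leaves. -/
theorem exists_conj_leaf {S g : ℝ → ℝ → ℝ} (hT : TwistData P q1 q2 h)
    (hF : FolData P q1 q2 S g) {u v : ℝ} (hu : 0 ≤ u) (huv : u < v) (hv : v ≤ 1) :
    ∃ b ∈ Ioo u v, ∃ (φ : ℝ → ℝ) (r : ℝ), Continuous φ ∧ StrictMono φ ∧
      (∀ x, φ (x + 1) = φ x + 1) ∧ ∀ x, φ (g b x) = φ x + r := by
  obtain ⟨b, hb, hw⟩ := exists_good_leaf hT hF hu huv hv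
  have hb' : b ∈ Ioo (0:ℝ) 1 := ⟨hu.trans_lt hb.1, hb.2.trans_le hv⟩
  have hgc : Continuous (g b) := by
    have h1 : Continuous (fun x : ℝ => (b, x)) := continuous_const.prodMk continuous_id
    exact hF.contg.comp_continuous h1 (fun x => ⟨hb', mem_univ _⟩)
  exact ⟨b, hb, exists_conj_of_not_wand hgc (hF.monog b hb') (hF.perg b hb') hw⟩

end Crest.Agent.R102.S0
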