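import Crest.Agent.R102.SupDat_150

/-!
Row 102, T1-B, EDGE (helper982): the area form of the incoming line in the exact coordinates.
-/

set_option autoImplicit false

open Set Filter Topology Metric Complex MeasureTheory
open scoped Real

noncomputable section

namespace Crest.Agent.R102.AreaX982

open Crest.Agent.R102.B821 (q1 q2)
open Crest.Agent.R102.Out559 (OmL OmX)
open Crest.Agent.R102.Sup115 (HDu Dp)
open Crest.Agent.R102.Sh982 (Dat SL SB φe pe be sh)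
open Crest.Agent.R102.PartII150

variable {q : C(ℂ, ℂ)} {η ρ r Bc : ℝ} {b φ p : ℂ × ℂ → ℂ} {m₀ : ℂ → ℂ} {h : ℝ} {ψ H : ℂ → ℂ}

/-- partial derivatives after the exact shift -/
theorem q_ln {F : ℂ × ℂ → ℂ} {G : ℂ → ℂ} {x : ℂ × ℂ} (hF : DifferentiableAt ℂ F (ln G x))
    (hG : DifferentiableAt ℂ G x.2) :
    q1 (fun y => F (ln G y)) x = q1 F (ln G x) ∧
      q2 (fun y => F (ln G y)) x = (deriv G x.2 - 1 / 2) * q1 F (ln G x) + q2 F (ln G x) := by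
  have h2 : HasFDerivAt (fun y : ℂ × ℂ => y.2) (ContinuousLinearMap.snd ℂ ℂ ℂ) x :=
    hasFDerivAt_snd
  have h1 : HasFDerivAt (fun y : ℂ × ℂ => y.1) (ContinuousLinearMap.fst ℂ ℂ ℂ) x :=
    hasFDerivAt_fst
  have h3 : HasFDerivAt (fun y : ℂ × ℂ => G y.2)
      (deriv G x.2 • ContinuousLinearMap.snd ℂ ℂ ℂ) x :=
    HasDerivAt.comp_hasFDerivAt (h₂ := G) x hG.hasDerivAt h2
  have h4 : HasFDerivAt (fun y : ℂ × ℂ => y.2 / 2)
      ((1 / 2 : ℂ) • ContinuousLinearMap.snd ℂ ℂ ℂ) x := by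
    have h5 := h2.const_smul (1 / 2 : ℂ)
    refine h5.congr_of_eventuallyEq (Eventually.of_forall fun y => ?_)
    show y.2 / 2 = (1 / 2 : ℂ) • y.2
    rw [smul_eq_mul]; ring
  have h5 : HasFDerivAt (ln G)
      (((ContinuousLinearMap.fst ℂ ℂ ℂ + deriv G x.2 • ContinuousLinearMap.snd ℂ ℂ ℂ) -
        (1 / 2 : ℂ) • ContinuousLinearMap.snd ℂ ℂ ℂ).prod (ContinuousLinearMap.snd ℂ ℂ ℂ)) x :=
    ((h1.add h3).sub h4).prodMk h2
  have h6 := hF.hasFDerivAt.comp x h5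
  have e1 : ((1 : ℂ) + deriv G x.2 * 0 - 1 / 2 * 0, (0 : ℂ)) = ((1, 0) : ℂ × ℂ) := by
    ext1
    · simp only; ring
    · rfl
  have e2 : ((0 : ℂ) + deriv G x.2 * 1 - 1 / 2 * 1, (1 : ℂ)) =
      (deriv G x.2 - 1 / 2) • ((1, 0) : ℂ × ℂ) + ((0, 1) : ℂ × ℂ) := by
    ext1
    · simp
    · simp
  have h7 : fderiv ℂ (fun y => F (ln G y)) x = _ := h6.fderiv
  constructor
  · unfold q1
    rw [h7]
    show fderiv ℂ F (ln G x) ((1 : ℂ) + deriv G x.2 * 0 - 1 / 2 * 0, (0 : ℂ)) = _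
    rw [e1]
  · unfold q1 q2
    rw [h7]
    show fderiv ℂ F (ln G x) ((0 : ℂ) + deriv G x.2 * 1 - 1 / 2 * 1, (1 : ℂ)) = _
    rw [e2, map_add, map_smul, smul_eq_mul]

/-- **area form in the exact coordinates** -/
theorem area_x (D : Dat q η ρ r Bc b φ p m₀ h ψ H) {G : ℂ → ℂ} {u0 R d : ℝ}
    (hdρ : d ≤ ρ / 4) (hball : ball (u0 : ℂ) R ⊆ ball 0 r)
    (hG : DifferentiableOn ℂ G (HDu u0 R)) (hG0 : ∀ w ∈ HDu u0 R, 0 ≤ (G w).im)
    {x : ℂ × ℂ} (hx : x ∈ Le u0 R d G (OmL φ p (-(ρ / 2)) (ρ / 2) r)) :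
    q1 (φx φ p ρ r G) x * q2 (px φ p ρ r G) x - q2 (φx φ p ρ r G) x * q1 (px φ p ρ r G) x =
      x.2 / 4 * m₀ x.2 := by
  have hHo : IsOpen (HDu u0 R) :=
    isOpen_ball.inter (isOpen_lt continuous_const Complex.continuous_im)
  have hGx : DifferentiableAt ℂ G x.2 := hG.differentiableAt (hHo.mem_nhds hx.1.2)
  have hS : ln G x ∈ SL φ p ρ r := ln_mem_SL D hball hG0 hdρ hx.1.1 hx.1.2 hx.2
  obtain ⟨a1, a2⟩ := q_ln (F := φe φ p ρ r) (D.φe_an _ hS).differentiableAt hGx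
  obtain ⟨b1, b2⟩ := q_ln (F := pe φ p ρ r) (D.pe_an _ hS).differentiableAt hGx
  have c1 : φx φ p ρ r G = fun y => φe φ p ρ r (ln G y) := rfl
  have c2 : px φ p ρ r G = fun y => pe φ p ρ r (ln G y) := rfl
  rw [c1, c2, a1, a2, b1, b2]
  have h1 := (D.area_ev hS).self_of_nhds
  have h2 : (ln G x).2 = x.2 := rfl
  rw [h2] at h1
  rw [← h1]
  ring

/-- the coefficient does not vanish for `w ≠ 0` -/
theorem area_coef_ne (D : Dat q η ρ r Bc b φ p m₀ h ψ H) {w : ℂ} (hw : ‖w‖ < r) (hw0 : w ≠ 0) :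
    w / 4 * m₀ w ≠ 0 := by
  have h1 : ‖m₀ w - 1‖ ≤ 1 / 8 := D.fam.m_near _ (by simpa using hw)
  have h2 : m₀ w ≠ 0 := by
    intro h0
    rw [h0] at h1
    norm_num at h1
  exact mul_ne_zero (div_ne_zero hw0 (by norm_num)) h2

/-- the coefficient is holomorphic -/
theorem area_coef_diff (D : Dat q η ρ r Bc b φ p m₀ h ψ H) :
    DifferentiableOn ℂ (fun w => w / 4 * m₀ w) (ball 0 r) :=
  (differentiableOn_id.div_const 4).mul D.m_diff

end Crest.Agent.R102.AreaX982
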