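import Crest.Agent.R102.Schottky_948

/-!
Row 102, part (C), Case E: **value counting** (helper628).

* `count_schottky`: a holomorphic function on a disc which takes few values in `π ℤ` is bounded;
* `zero_count`: a bounded holomorphic function has few zeros (finite Blaschke product).
-/

set_option autoImplicit false

open Set Filter Metric Topology
open Crest.Agent.R102.M948 (schottky Psi Psi_pos)
open scoped ComplexConjugate

namespace Crest.Agent.R102.BD628

/-- few values in `π ℤ` ⇒ bounded -/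
theorem count_schottky {δ : ℂ → ℂ} {c : ℂ} {ρ : ℝ} (hρ : 0 < ρ)
    (hδ : DifferentiableOn ℂ δ (ball c ρ)) {C₀ : ℝ} (h0 : ‖δ c‖ ≤ C₀) {n : ℕ}
    (hn : ∀ T : Finset ℤ, (∀ k ∈ T, ∃ z ∈ ball c ρ, δ z = Real.pi * k) → T.card ≤ n)
    {θ : ℝ} (hθ0 : 0 ≤ θ) (hθ1 : θ < 1) {z : ℂ} (hz : z ∈ closedBall c (θ * ρ)) :
    ‖δ z‖ ≤ 6 * Real.pi * (n + 2 + C₀) * Psi 2 θ := by
  have hC0 : 0 ≤ C₀ := (norm_nonneg _).trans h0
  set K : ℕ := n + 1 + ⌈C₀⌉₊ with hK
  have hKr : (K : ℝ) ≤ n + 2 + C₀ := by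
    have := (Nat.ceil_lt_add_one hC0).le
    rw [hK]; push_cast; linarith
  have hKC : C₀ ≤ K := by
    have := Nat.le_ceil C₀
    rw [hK]; push_cast
    have h1 : (0 : ℝ) ≤ n := Nat.cast_nonneg _
    linarith
  have hK1 : (1 : ℝ) ≤ K := by
    rw [hK]; push_cast
    have h1 : (0 : ℝ) ≤ n := Nat.cast_nonneg _
    have h2 : (0 : ℝ) ≤ ⌈C₀⌉₊ := Nat.cast_nonneg _
    linarith
  obtain ⟨k₁, hk₁, hv₁⟩ : ∃ k ∈ Finset.Ioc (K : ℤ) (2 * K), ∀ z ∈ ball c ρ, δ z ≠ Real.pi * k := by
    by_contra hcon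
    push Not at hcon
    have := hn _ hcon
    rw [Int.card_Ioc] at this
    omega
  obtain ⟨k₂, hk₂, hv₂⟩ : ∃ k ∈ Finset.Ico (-2 * K : ℤ) (-K), ∀ z ∈ ball c ρ,
      δ z ≠ Real.pi * k := by
    by_contra hcon
    push Not at hcon
    have := hn _ hcon
    rw [Int.card_Ico] at this
    omega
  rw [Finset.mem_Ioc] at hk₁
  rw [Finset.mem_Ico] at hk₂
  have a1 : (K : ℝ) < k₁ := by exact_mod_cast hk₁.1
  have a2 : (k₁ : ℝ) ≤ 2 * K := by exact_mod_cast hk₁.2
  have a3 : -2 * (K : ℝ) ≤ k₂ := by exact_mod_cast hk₂.1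
  have a4 : (k₂ : ℝ) < -K := by exact_mod_cast hk₂.2
  have hpi := Real.pi_pos
  set D : ℝ := Real.pi * (k₁ - k₂) with hD
  have hD1 : Real.pi * (2 * K) ≤ D := by rw [hD]; gcongr; linarith
  have hD2 : D ≤ Real.pi * (4 * K) := by rw [hD]; gcongr; linarith
  have hDpos : 0 < D := lt_of_lt_of_le (by positivity) hD1
  have hDc : (D : ℂ) ≠ 0 := by exact_mod_cast hDpos.ne'
  have hk2n : ‖(Real.pi : ℂ) * k₂‖ ≤ 2 * Real.pi * K := by
    have : (Real.pi : ℂ) * k₂ = ((Real.pi * k₂ : ℝ) : ℂ) := by push_cast; ring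
    rw [this, Complex.norm_real, Real.norm_eq_abs, abs_mul, abs_of_pos hpi, abs_of_neg (by linarith)]
    nlinarith
  set f : ℂ → ℂ := fun z => (δ z - Real.pi * k₂) / D with hf
  have hfd : DifferentiableOn ℂ f (ball c ρ) := (hδ.sub_const _).div_const _
  have hf0 : ∀ z ∈ ball c ρ, f z ≠ 0 := by
    intro z hz h
    rw [hf] at h
    simp only [div_eq_zero_iff, hDc, or_false] at h
    exact hv₂ z hz (by linear_combination h)
  have hf1 : ∀ z ∈ ball c ρ, f z ≠ 1 := by
    intro z hz h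
    rw [hf] at h
    simp only at h
    rw [div_eq_one_iff_eq hDc] at h
    apply hv₁ z hz
    have : (D : ℂ) = Real.pi * (k₁ - k₂) := by rw [hD]; push_cast; ring
    rw [this] at h
    linear_combination h
  have hfc : ‖f c‖ ≤ 2 := by
    rw [hf]
    simp only
    rw [norm_div, Complex.norm_real, Real.norm_of_nonneg hDpos.le, div_le_iff₀ hDpos]
    have h1 := norm_sub_le (δ c) (Real.pi * k₂ : ℂ)
    have h2 : C₀ ≤ Real.pi * K := by
      have : 1 ≤ Real.pi := by linarith [Real.pi_gt_three]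
      nlinarith
    nlinarith
  have hS := schottky hρ hfd hf0 hf1 hfc hθ0 hθ1 z hz
  have hP : 1 ≤ Psi 2 θ := by
    rw [Psi]
    have : 0 < 1 - θ := by linarith
    exact Real.one_le_exp (by positivity)
  have h3 : δ z = D * f z + Real.pi * k₂ := by
    rw [hf]; field_simp; ring
  have h4 : ‖δ z‖ ≤ D * ‖f z‖ + ‖(Real.pi : ℂ) * k₂‖ := by
    rw [h3]
    refine (norm_add_le _ _).trans ?_
    rw [norm_mul, Complex.norm_real, Real.norm_of_nonneg hDpos.le]
  calc ‖δ z‖ ≤ D * ‖f z‖ + ‖(Real.pi : ℂ) * k₂‖ := h4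
    _ ≤ Real.pi * (4 * K) * Psi 2 θ + 2 * Real.pi * K * Psi 2 θ := by
        gcongr
        calc ‖(Real.pi : ℂ) * k₂‖ ≤ 2 * Real.pi * K := hk2n
          _ = 2 * Real.pi * K * 1 := by ring
          _ ≤ 2 * Real.pi * K * Psi 2 θ := by gcongr
    _ = 6 * Real.pi * K * Psi 2 θ := by ring
    _ ≤ 6 * Real.pi * (n + 2 + C₀) * Psi 2 θ := by gcongr

/-- zeros of a bounded holomorphic function -/
theorem zero_prod {c : ℂ} {R M : ℝ} (hR : 0 < R) (T : Finset ℂ) :
    ∀ (F : ℂ → ℂ), DiffContOnCl ℂ F (ball c R) → (∀ z ∈ sphere c R, ‖F z‖ ≤ M) →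
      (∀ a ∈ T, a ∈ ball c R ∧ F a = 0) → ‖F c‖ ≤ M * ∏ a ∈ T, (‖a - c‖ / R) := by
  induction T using Finset.induction_on with
  | empty =>
    intro F hF hM _
    have hfr : frontier (ball c R) = sphere c R := frontier_ball c hR.ne'
    have := Complex.norm_le_of_forall_mem_frontier_norm_le (isBounded_ball (x := c) (r := R)) hF
      (C := M) (by rw [hfr]; exact hM) (subset_closure (mem_ball_self hR))
    simpa using this
  | insert a T ha ih =>
    intro F hF hM hT
    obtain ⟨haR, hFa⟩ := hT a (Finset.mem_insert_self _ _)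
    set G : ℂ → ℂ := fun z => dslope F a z * ((R ^ 2 - conj (a - c) * (z - c)) / R) with hG
    have hds : DiffContOnCl ℂ (dslope F a) (ball c R) := by
      refine ⟨(Complex.differentiableOn_dslope (isOpen_ball.mem_nhds haR)).2 hF.differentiableOn,
        ?_⟩
      exact (continuousOn_dslope (mem_of_superset (isOpen_ball.mem_nhds haR) subset_closure)).2
        ⟨hF.continuousOn, hF.differentiableAt isOpen_ball haR⟩
    have hpoly : Differentiable ℂ fun z : ℂ => (((R : ℂ) ^ 2 - conj (a - c) * (z - c)) / R) := by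
      fun_prop
    have hGd : DiffContOnCl ℂ G (ball c R) := hds.smul hpoly.diffContOnCl
    have hsl : ∀ z, F z = (z - a) * dslope F a z := by
      intro z
      have := sub_smul_dslope F a z
      rw [hFa, sub_zero, smul_eq_mul] at this
      exact this.symm
    have hRc : (R : ℂ) ≠ 0 := by exact_mod_cast hR.ne'
    have hGM : ∀ z ∈ sphere c R, ‖G z‖ ≤ M := by
      intro z hz
      have hz' : ‖z - c‖ = R := by rwa [mem_sphere, dist_eq_norm] at hz
      have h1 : (R : ℂ) ^ 2 - conj (a - c) * (z - c) = (z - c) * conj (z - a) := by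
        have h2 : (R : ℂ) ^ 2 = (z - c) * conj (z - c) := by
          rw [Complex.mul_conj, Complex.normSq_eq_norm_sq, hz']
          push_cast
          ring
        rw [h2]
        have : conj (z - a) = conj (z - c) - conj (a - c) := by
          rw [← map_sub]; congr 1; ring
        rw [this]; ring
      have h3 : ‖G z‖ = ‖F z‖ := by
        rw [hG]
        simp only
        rw [h1, norm_mul, norm_div, norm_mul, hz', RCLike.norm_conj, Complex.norm_real,
          Real.norm_of_nonneg hR.le, hsl z, norm_mul]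
        field_simp
      rw [h3]; exact hM z hz
    have hGT : ∀ b ∈ T, b ∈ ball c R ∧ G b = 0 := by
      intro b hb
      obtain ⟨h1, h2⟩ := hT b (Finset.mem_insert_of_mem hb)
      refine ⟨h1, ?_⟩
      have hba : b - a ≠ 0 := by
        intro h
        apply ha
        rwa [← sub_eq_zero.1 h]
      have h3 := hsl b
      rw [h2] at h3
      have h4 : dslope F a b = 0 := by
        rcases mul_eq_zero.1 h3.symm with h | h
        · exact absurd h hba
        · exact h
      rw [hG]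
      simp [h4]
    have h5 := ih G hGd hGM hGT
    have h6 : ‖F c‖ = ‖a - c‖ / R * ‖G c‖ := by
      rw [hG]
      simp only [sub_self, mul_zero, sub_zero]
      rw [hsl c, norm_mul, norm_mul, norm_div, norm_pow, Complex.norm_real,
        Real.norm_of_nonneg hR.le, norm_sub_rev c a]
      field_simp
    rw [Finset.prod_insert ha, h6]
    calc ‖a - c‖ / R * ‖G c‖ ≤ ‖a - c‖ / R * (M * ∏ a ∈ T, (‖a - c‖ / R)) := by gcongr
      _ = M * (‖a - c‖ / R * ∏ a ∈ T, (‖a - c‖ / R)) := by ring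

/-- number of zeros -/
theorem zero_count {F : ℂ → ℂ} {c : ℂ} {ρ R M : ℝ} (hρ : 0 < ρ) (hρR : ρ < R)
    (hF : DiffContOnCl ℂ F (ball c R)) (hM : ∀ z ∈ sphere c R, ‖F z‖ ≤ M) (h0 : F c ≠ 0)
    (T : Finset ℂ) (hT : ∀ a ∈ T, a ∈ closedBall c ρ ∧ F a = 0) :
    (T.card : ℝ) * Real.log (R / ρ) ≤ Real.log M - Real.log ‖F c‖ := by
  have hR : 0 < R := hρ.trans hρR
  have hFc : 0 < ‖F c‖ := norm_pos_iff.2 h0
  have hT' : ∀ a ∈ T, a ∈ ball c R ∧ F a = 0 := fun a ha =>
    ⟨closedBall_subset_ball hρR (hT a ha).1, (hT a ha).2⟩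
  have h1 := zero_prod hR T F hF hM hT'
  have hprod : ∏ a ∈ T, (‖a - c‖ / R) ≤ (ρ / R) ^ T.card := by
    have : ∏ a ∈ T, (‖a - c‖ / R) ≤ ∏ _a ∈ T, (ρ / R) := by
      refine Finset.prod_le_prod (fun a _ => by positivity) (fun a ha => ?_)
      have := (hT a ha).1
      rw [mem_closedBall, dist_eq_norm] at this
      gcongr
    rwa [Finset.prod_const] at this
  have hM0 : 0 < M := by
    have h2 := zero_prod hR ∅ F hF hM (by simp)
    simp only [Finset.prod_empty, mul_one] at h2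
    linarith
  have h2 : ‖F c‖ ≤ M * (ρ / R) ^ T.card := h1.trans (by gcongr)
  have h3 : Real.log ‖F c‖ ≤ Real.log M + T.card * Real.log (ρ / R) := by
    have := Real.log_le_log hFc h2
    rwa [Real.log_mul hM0.ne' (by positivity), Real.log_pow] at this
  have h4 : Real.log (R / ρ) = -Real.log (ρ / R) := by
    rw [← Real.log_inv, inv_div]
  rw [h4]
  linarith

end Crest.Agent.R102.BD628
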