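import Mathlib
import Crest.Agent.R102.Rule1D_982

/-!
Row 102, Case B, (END), part A: **the label extends across every isolated point**, when the vertex
`X = γ(B)` is meromorphic.

`ψ, H` = tangent angle / support function of the curve, holomorphic on the strip `Sg h`, every
boundary point singular (`NB h ψ H`), `Zn ψ H s z / ψ' z` = isotropic coordinates of the point with
label `z` (`s = 1, -1`), so that `exp (-iψ) Z - exp (iψ) Zc = 2 i H`.
-/

set_option autoImplicit false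

open Set Filter Topology Metric

noncomputable section

namespace Crest.Agent.R102.BEnd802

open Crest.Agent.R102.Rule982

/-- numerators of the isotropic coordinates of the point with label `z` -/
def Zn (ψ H : ℂ → ℂ) (s : ℂ) (z : ℂ) : ℂ :=
  s * Complex.I * Complex.exp (s * Complex.I * ψ z) * (H z * deriv ψ z + s * Complex.I * deriv H z)

/-- the affine relation -/
def Rel (h : ℝ) (ψ H : ℂ → ℂ) (c : ℂ) : Prop :=
  ∀ z ∈ Sg h, deriv ψ z * deriv (deriv H) z - deriv (deriv ψ) z * deriv H z +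
      deriv ψ z ^ 3 * H z = c

lemma diffOn_Zn {h : ℝ} {ψ H : ℂ → ℂ} (hψ : DifferentiableOn ℂ ψ (Sg h))
    (hH : DifferentiableOn ℂ H (Sg h)) (s : ℂ) : DifferentiableOn ℂ (Zn ψ H s) (Sg h) := by
  have hSo := isOpen_Sg h
  have h1 : DifferentiableOn ℂ (deriv ψ) (Sg h) := hψ.deriv hSo
  have h2 : DifferentiableOn ℂ (deriv H) (Sg h) := hH.deriv hSo
  unfold Zn
  exact (((hψ.const_mul (s * Complex.I)).cexp).const_mul (s * Complex.I)).mul
    ((hH.mul h1).add (h2.const_mul (s * Complex.I)))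

/-- the support function from the isotropic coordinates -/
lemma supp_of_Zn (ψ H : ℂ → ℂ) (z : ℂ) :
    Complex.exp (-(Complex.I * ψ z)) * Zn ψ H 1 z - Complex.exp (Complex.I * ψ z) * Zn ψ H (-1) z =
      2 * Complex.I * H z * deriv ψ z := by
  unfold Zn
  have e1 : Complex.exp (-(Complex.I * ψ z)) * Complex.exp (Complex.I * ψ z) = 1 := by
    rw [← Complex.exp_add]; simp
  have e2 : (1 : ℂ) * Complex.I * ψ z = Complex.I * ψ z := by ring
  have e3 : (-1 : ℂ) * Complex.I * ψ z = -(Complex.I * ψ z) := by ring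
  rw [e2, e3]
  linear_combination (Complex.I * (H z * deriv ψ z + Complex.I * deriv H z) +
    Complex.I * (H z * deriv ψ z - Complex.I * deriv H z)) * e1

lemma Zn_ne {h : ℝ} {ψ H : ℂ → ℂ} {c : ℂ} (hc : c ≠ 0) (rel : Rel h ψ H c) {s : ℂ} (hs : s ^ 2 = 1)
    {z : ℂ} (hz : z ∈ Sg h) (h0 : deriv ψ z = 0) : Zn ψ H s z ≠ 0 := by
  have hs0 : s ≠ 0 := by rintro rfl; norm_num at hs
  have h1 := rel z hz
  rw [h0] at h1
  have h2 : deriv H z ≠ 0 := by
    intro h2
    rw [h2] at h1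
    apply hc
    rw [← h1]; ring
  unfold Zn
  rw [h0]
  refine mul_ne_zero (mul_ne_zero (mul_ne_zero hs0 Complex.I_ne_zero) (Complex.exp_ne_zero _)) ?_
  rw [mul_zero, zero_add]
  exact mul_ne_zero (mul_ne_zero hs0 Complex.I_ne_zero) h2

/-- derivative of the isotropic coordinate -/
lemma hasDerivAt_Z {h : ℝ} {ψ H : ℂ → ℂ} (hψ : DifferentiableOn ℂ ψ (Sg h))
    (hH : DifferentiableOn ℂ H (Sg h)) {c : ℂ} (rel : Rel h ψ H c) {s : ℂ} (hs : s ^ 2 = 1)
    {z : ℂ} (hz : z ∈ Sg h) (h0 : deriv ψ z ≠ 0) :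
    HasDerivAt (fun z => Zn ψ H s z / deriv ψ z)
      (-c * Complex.exp (s * Complex.I * ψ z) / deriv ψ z ^ 2) z := by
  have hSo := isOpen_Sg h
  have d0 : HasDerivAt ψ (deriv ψ z) z := (hψ.differentiableAt (hSo.mem_nhds hz)).hasDerivAt
  have d1 : HasDerivAt (deriv ψ) (deriv (deriv ψ) z) z :=
    ((hψ.deriv hSo).differentiableAt (hSo.mem_nhds hz)).hasDerivAt
  have d2 : HasDerivAt H (deriv H z) z := (hH.differentiableAt (hSo.mem_nhds hz)).hasDerivAt
  have d3 : HasDerivAt (deriv H) (deriv (deriv H) z) z :=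
    ((hH.deriv hSo).differentiableAt (hSo.mem_nhds hz)).hasDerivAt
  have e1 := ((d0.const_mul (s * Complex.I)).cexp.const_mul (s * Complex.I)).mul
    ((d2.mul d1).add (d3.const_mul (s * Complex.I)))
  have e2 := e1.div d1 h0
  have hr := rel z hz
  refine e2.congr_deriv ?_
  simp only [Pi.mul_apply, Pi.add_apply]
  congr 1
  have hJ : (s * Complex.I) ^ 2 = -1 := by rw [mul_pow, hs, Complex.I_sq]; ring
  linear_combination Complex.exp (s * Complex.I * ψ z) * (deriv ψ z ^ 3 * H z +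
    deriv ψ z * deriv (deriv H) z - deriv (deriv ψ) z * deriv H z +
    (s * Complex.I) * deriv ψ z ^ 2 * deriv H z) * hJ - Complex.exp (s * Complex.I * ψ z) * hr

/-! ### logarithms and roots on a half plane -/

lemma exists_log {a : ℝ} {f : ℂ → ℂ} (hf : DifferentiableOn ℂ f (HPl a))
    (h0 : ∀ z ∈ HPl a, f z ≠ 0) {z₀ v : ℂ} (hz₀ : z₀ ∈ HPl a) (hv : Complex.exp v = f z₀) :
    ∃ L : ℂ → ℂ, DifferentiableOn ℂ L (HPl a) ∧ L z₀ = v ∧ ∀ z ∈ HPl a, Complex.exp (L z) = f z := by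
  have ho := isOpen_HPl a
  obtain ⟨L, hL0, hL⟩ := exists_prim (g := fun z => deriv f z / f z)
    ((hf.deriv ho).div hf h0) hz₀ v
  have hdf : ∀ z ∈ HPl a, HasDerivAt f (deriv f z) z := fun z hz =>
    (hf.differentiableAt (ho.mem_nhds hz)).hasDerivAt
  have h1 : ∀ z ∈ HPl a, HasDerivAt (fun z => f z * Complex.exp (-L z)) 0 z := by
    intro z hz
    have h2 := (hdf z hz).mul ((hL z hz).neg.cexp)
    refine h2.congr_deriv ?_
    field_simp [h0 z hz]
    ring
  refine ⟨L, fun z hz => (hL z hz).differentiableAt.differentiableWithinAt, hL0, fun z hz => ?_⟩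
  have h3 := const_of_deriv_zero h1 hz hz₀
  rw [hL0, Complex.exp_neg, Complex.exp_neg, hv, mul_inv_cancel₀ (h0 z₀ hz₀)] at h3
  field_simp at h3
  exact h3.symm

/-- the derivative of a map of the half plane to the strip -/
lemma deriv_bound {a h : ℝ} {Bh g : ℂ → ℂ} (hB : ∀ z ∈ HPl a, HasDerivAt Bh (g z) z)
    (hS : ∀ z ∈ HPl a, Bh z ∈ Sg h) {z : ℂ} (hz : z ∈ HPl a) :
    ‖g z‖ ≤ 2 * Real.exp h * Real.exp h / (a - z.re) := by
  have hd : 0 < a - z.re := sub_pos.2 hz
  have hR : 0 < (a - z.re) / 2 := by positivity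
  have hsub : closedBall z ((a - z.re) / 2) ⊆ HPl a := by
    intro w hw
    rw [mem_closedBall, dist_eq_norm] at hw
    have h1 := (Complex.re_le_norm (w - z)).trans hw
    rw [Complex.sub_re] at h1
    change w.re < a
    linarith
  set G : ℂ → ℂ := fun z => Complex.exp (Complex.I * Bh z) with hG
  have hGd : ∀ z ∈ HPl a, HasDerivAt G (Complex.exp (Complex.I * Bh z) * (Complex.I * g z)) z :=
    fun z hz => ((hB z hz).const_mul Complex.I).cexp
  have hn : ∀ z, ‖G z‖ = Real.exp (-(Bh z).im) := by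
    intro z
    simp only [hG]
    rw [Complex.norm_exp]
    congr 1
    simp [Complex.mul_re]
  have h1 : ‖deriv G z‖ ≤ Real.exp h / ((a - z.re) / 2) := by
    refine Complex.norm_deriv_le_of_forall_mem_sphere_norm_le hR ?_ ?_
    · refine DifferentiableOn.diffContOnCl ?_
      rw [closure_ball _ hR.ne']
      exact fun w hw => (hGd w (hsub hw)).differentiableAt.differentiableWithinAt
    · intro w hw
      rw [hn]
      have h2 : |(Bh w).im| < h := hS w (hsub (sphere_subset_closedBall hw))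
      exact Real.exp_le_exp.2 (by linarith [neg_abs_le (Bh w).im])
  rw [(hGd z hz).deriv, norm_mul, norm_mul, Complex.norm_I, one_mul] at h1
  have h3 : Real.exp (-h) ≤ ‖Complex.exp (Complex.I * Bh z)‖ := by
    have := hn z
    simp only [hG] at this
    rw [this]
    have h2 : |(Bh z).im| < h := hS z hz
    exact Real.exp_le_exp.2 (by linarith [le_abs_self (Bh z).im])
  have h4 : Real.exp (-h) * ‖g z‖ ≤ Real.exp h / ((a - z.re) / 2) :=
    (mul_le_mul_of_nonneg_right h3 (norm_nonneg _)).trans h1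
  have h5 : Real.exp h * Real.exp (-h) = 1 := by rw [← Real.exp_add]; simp
  calc ‖g z‖ = Real.exp h * (Real.exp (-h) * ‖g z‖) := by rw [← mul_assoc, h5, one_mul]
    _ ≤ Real.exp h * (Real.exp h / ((a - z.re) / 2)) :=
        mul_le_mul_of_nonneg_left h4 (Real.exp_pos _).le
    _ = _ := by field_simp

/-- no period -/
lemma no_period {a h : ℝ} {Bh g : ℂ → ℂ} (hB : ∀ z ∈ HPl a, HasDerivAt Bh (g z) z)
    (hg : DifferentiableOn ℂ g (HPl a)) (hg0 : ∀ z ∈ HPl a, g z ≠ 0)
    (hg6 : ∀ z ∈ HPl a, g (z + (2 * Real.pi : ℝ) * Complex.I) ^ 6 = g z ^ 6)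
    (hS : ∀ z ∈ HPl a, Bh z ∈ Sg h) :
    ∀ z ∈ HPl a, Bh (z + 12 * Real.pi * Complex.I) = Bh z := by
  have ho := isOpen_HPl a
  set T : ℂ := (2 * Real.pi : ℝ) * Complex.I with hT
  have hsh : ∀ z ∈ HPl a, z + T ∈ HPl a := fun z hz => add_mem_HPl hz _
  have hz₀ : ((a - 1 : ℝ) : ℂ) ∈ HPl a := by
    change ((a - 1 : ℝ) : ℂ).re < a
    simp
  set z₀ : ℂ := ((a - 1 : ℝ) : ℂ)
  have hgd : ∀ z ∈ HPl a, HasDerivAt g (deriv g z) z := fun z hz =>
    (hg.differentiableAt (ho.mem_nhds hz)).hasDerivAt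
  have hf : ∀ z ∈ HPl a, HasDerivAt (fun z => g (z + T) / g z) 0 z := by
    intro z hz
    have h1 : HasDerivAt (fun z => g (z + T)) (deriv g (z + T)) z :=
      (hgd _ (hsh z hz)).comp_add_const z T
    have h2 := h1.div (hgd z hz) (hg0 z hz)
    have h3 := h2.pow 6
    have h4 : (fun z => g (z + T) / g z) ^ 6 =ᶠ[𝓝 z] fun _ => 1 := by
      filter_upwards [ho.mem_nhds hz] with w hw
      change (g (w + T) / g w) ^ 6 = 1
      rw [div_pow, hg6 w hw, div_self (pow_ne_zero 6 (hg0 w hw))]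
    have h5 := h3.unique ((hasDerivAt_const z (1 : ℂ)).congr_of_eventuallyEq h4)
    have h6 : g (z + T) / g z ≠ 0 := div_ne_zero (hg0 _ (hsh z hz)) (hg0 z hz)
    have h7 : (deriv g (z + T) * g z - g (z + T) * deriv g z) / g z ^ 2 = 0 := by
      rcases mul_eq_zero.1 h5 with h8 | h8
      · exfalso
        have h9 : (6 : ℂ) ≠ 0 := by norm_num
        have h10 : ((fun z => g (z + T)) / g) z ≠ 0 := h6
        exact (mul_ne_zero (by exact_mod_cast h9) (pow_ne_zero _ h10)) h8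
      · exact h8
    rw [h7] at h2
    exact h2
  have hω : ∀ z ∈ HPl a, g (z + T) = g (z₀ + T) / g z₀ * g z := by
    intro z hz
    have h1 : g (z + T) / g z = g (z₀ + T) / g z₀ := const_of_deriv_zero hf hz hz₀
    rw [← h1, div_mul_cancel₀ _ (hg0 z hz)]
  set ω : ℂ := g (z₀ + T) / g z₀ with hωd
  have hω6 : ω ^ 6 = 1 := by
    rw [hωd, div_pow, hg6 z₀ hz₀, div_self (pow_ne_zero 6 (hg0 z₀ hz₀))]
  have hgn : ∀ z ∈ HPl a, g (z + 12 * Real.pi * Complex.I) = g z := by
    intro z hz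
    have h1 : z + 12 * Real.pi * Complex.I = z + T + T + T + T + T + T := by
      rw [hT]; push_cast; ring
    rw [h1, hω _ (hsh _ (hsh _ (hsh _ (hsh _ (hsh z hz))))), hω _ (hsh _ (hsh _ (hsh _ (hsh z hz)))),
      hω _ (hsh _ (hsh _ (hsh z hz))), hω _ (hsh _ (hsh z hz)), hω _ (hsh z hz), hω z hz]
    linear_combination g z * hω6
  have hshn : ∀ z ∈ HPl a, z + 12 * Real.pi * Complex.I ∈ HPl a := by
    intro z hz
    have := add_mem_HPl hz (12 * Real.pi)
    push_cast at this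
    exact this
  have hc : ∀ z ∈ HPl a, HasDerivAt (fun z => Bh (z + 12 * Real.pi * Complex.I) - Bh z) 0 z := by
    intro z hz
    have h1 := ((hB _ (hshn z hz)).comp_add_const z (12 * Real.pi * Complex.I)).sub (hB z hz)
    rw [hgn z hz, sub_self] at h1
    exact h1
  have hK : (0 : ℝ) < 2 * Real.exp h * Real.exp h := by positivity
  set K : ℝ := 2 * Real.exp h * Real.exp h
  intro z hz
  by_contra hne
  have hP : 0 < ‖Bh (z + 12 * Real.pi * Complex.I) - Bh z‖ := norm_pos_iff.2 (sub_ne_zero.2 hne)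
  set P := ‖Bh (z + 12 * Real.pi * Complex.I) - Bh z‖
  -- a far point
  have hbd : ∀ x : ℝ, x < a → P ≤ K / (a - x) * (12 * Real.pi) := by
    intro x hx
    have hw : ((x - 1 : ℝ) : ℂ) ∈ HPl x := by
      change ((x - 1 : ℝ) : ℂ).re < x
      simp
    have hxa : HPl x ⊆ HPl a := fun w hw => lt_trans hw hx
    have hw' : ((x - 1 : ℝ) : ℂ) + 12 * Real.pi * Complex.I ∈ HPl x := by
      have := add_mem_HPl hw (12 * Real.pi)
      push_cast at this ⊢
      exact this
    have h1 : Bh (z + 12 * Real.pi * Complex.I) - Bh z =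
        Bh (((x - 1 : ℝ) : ℂ) + 12 * Real.pi * Complex.I) - Bh ((x - 1 : ℝ) : ℂ) :=
      const_of_deriv_zero hc hz (hxa hw)
    have h2 : ‖Bh (((x - 1 : ℝ) : ℂ) + 12 * Real.pi * Complex.I) - Bh ((x - 1 : ℝ) : ℂ)‖ ≤
        K / (a - x) * ‖(((x - 1 : ℝ) : ℂ) + 12 * Real.pi * Complex.I) - ((x - 1 : ℝ) : ℂ)‖ := by
      refine Convex.norm_image_sub_le_of_norm_deriv_le (𝕜 := ℂ) (s := HPl x)
        (fun w hw => (hB w (hxa hw)).differentiableAt) ?_ (convex_HPl x) hw hw'
      intro w hw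
      rw [(hB w (hxa hw)).deriv]
      refine (deriv_bound hB hS (hxa hw)).trans ?_
      have hwx : w.re < x := hw
      exact div_le_div_of_nonneg_left hK.le (sub_pos.2 hx) (by linarith)
    have h3 : ‖(((x - 1 : ℝ) : ℂ) + 12 * Real.pi * Complex.I) - ((x - 1 : ℝ) : ℂ)‖ =
        12 * Real.pi := by
      rw [add_sub_cancel_left, norm_mul, Complex.norm_I, mul_one, norm_mul, Complex.norm_real,
        Real.norm_eq_abs, abs_of_pos Real.pi_pos]
      norm_num
    rw [h3, ← h1] at h2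
    exact h2
  have h1 := hbd (a - (K * (12 * Real.pi) / P + 1)) (by
    have : 0 < K * (12 * Real.pi) / P := by positivity
    linarith)
  rw [sub_sub_cancel, div_mul_eq_mul_div, le_div_iff₀ (by positivity)] at h1
  have h2 : P * (K * (12 * Real.pi) / P + 1) = K * (12 * Real.pi) + P := by
    field_simp
  rw [h2] at h1
  linarith

/-! ### local uniqueness of roots and logarithms -/

lemma eventually_eq_of_pow {z₀ : ℂ} {f g : ℂ → ℂ} (hf : ContinuousAt f z₀) (hg : ContinuousAt g z₀)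
    (h0 : f z₀ = g z₀) (hne : g z₀ ≠ 0) (h6 : ∀ᶠ z in 𝓝 z₀, f z ^ 6 = g z ^ 6) :
    ∀ᶠ z in 𝓝 z₀, f z = g z := by
  have h1 : ContinuousAt (fun z => f z ^ 5 + f z ^ 4 * g z + f z ^ 3 * g z ^ 2 +
      f z ^ 2 * g z ^ 3 + f z * g z ^ 4 + g z ^ 5) z₀ := by fun_prop
  have h2 : f z₀ ^ 5 + f z₀ ^ 4 * g z₀ + f z₀ ^ 3 * g z₀ ^ 2 +
      f z₀ ^ 2 * g z₀ ^ 3 + f z₀ * g z₀ ^ 4 + g z₀ ^ 5 ≠ 0 := by
    rw [h0]
    have : g z₀ ^ 5 + g z₀ ^ 4 * g z₀ + g z₀ ^ 3 * g z₀ ^ 2 +
      g z₀ ^ 2 * g z₀ ^ 3 + g z₀ * g z₀ ^ 4 + g z₀ ^ 5 = 6 * g z₀ ^ 5 := by ring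
    rw [this]
    exact mul_ne_zero (by norm_num) (pow_ne_zero 5 hne)
  filter_upwards [h6, h1.eventually_ne h2] with z hz hz'
  have h3 : (f z - g z) * (f z ^ 5 + f z ^ 4 * g z + f z ^ 3 * g z ^ 2 +
      f z ^ 2 * g z ^ 3 + f z * g z ^ 4 + g z ^ 5) = 0 := by linear_combination hz
  rcases mul_eq_zero.1 h3 with h4 | h4
  · exact sub_eq_zero.1 h4
  · exact absurd h4 hz'

lemma eventually_eq_of_exp {z₀ : ℂ} {f g : ℂ → ℂ} (hf : ContinuousAt f z₀) (hg : ContinuousAt g z₀)
    (h0 : f z₀ = g z₀) (h6 : ∀ᶠ z in 𝓝 z₀, Complex.exp (f z) = Complex.exp (g z)) :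
    ∀ᶠ z in 𝓝 z₀, f z = g z := by
  have h1 : ContinuousAt (fun z => ‖f z - g z‖) z₀ := (hf.sub hg).norm
  have h2 : ‖f z₀ - g z₀‖ < 1 := by rw [h0]; simp
  filter_upwards [h6, h1.eventually (gt_mem_nhds h2)] with z hz hz'
  obtain ⟨n, hn⟩ := Complex.exp_eq_exp_iff_exists_int.1 hz
  have h3 : f z - g z = n * (2 * Real.pi * Complex.I) := by rw [hn]; ring
  rw [h3, norm_mul, norm_mul, Complex.norm_I, mul_one, norm_mul, Complex.norm_real,
    Real.norm_eq_abs, abs_of_pos Real.pi_pos, Complex.norm_intCast, Complex.norm_ofNat] at hz'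
  have h4 : n = 0 := by
    by_contra hn0
    have h5 : (1 : ℝ) ≤ |(n : ℝ)| := by
      rw [← Int.cast_abs]
      exact_mod_cast Int.one_le_abs hn0
    have h6 := Real.pi_gt_three
    nlinarith
  rw [h4] at hn
  simpa using hn

/-- near an interior label, the point determines the label -/
lemma inj_near {h : ℝ} {ψ H : ℂ → ℂ} (hψ : DifferentiableOn ℂ ψ (Sg h))
    (hH : DifferentiableOn ℂ H (Sg h)) {c : ℂ} (hc : c ≠ 0) (rel : Rel h ψ H c) {s : ℂ}
    (hs : s ^ 2 = 1) {d : ℂ} (hd : d ∈ Sg h) :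
    ∃ κ : ℂ → ℂ, ∀ᶠ z in 𝓝 d, ∀ p : ℂ, p * deriv ψ z = Zn ψ H s z → κ p = z := by
  have hSo := isOpen_Sg h
  have hN : DifferentiableOn ℂ (Zn ψ H s) (Sg h) := diffOn_Zn hψ hH s
  have hψ' : DifferentiableOn ℂ (deriv ψ) (Sg h) := hψ.deriv hSo
  have hNa : AnalyticAt ℂ (Zn ψ H s) d := hN.analyticAt (hSo.mem_nhds hd)
  have hψa : AnalyticAt ℂ (deriv ψ) d := hψ'.analyticAt (hSo.mem_nhds hd)
  by_cases h0 : deriv ψ d = 0
  · have hN0 : Zn ψ H s d ≠ 0 := Zn_ne hc rel hs hd h0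
    have hfa : AnalyticAt ℂ (fun z => deriv ψ z / Zn ψ H s z) d := hψa.div hNa hN0
    have h1 : HasDerivAt (fun z => deriv ψ z / Zn ψ H s z)
        ((deriv (deriv ψ) d * Zn ψ H s d - deriv ψ d * deriv (Zn ψ H s) d) / Zn ψ H s d ^ 2) d :=
      hψa.differentiableAt.hasDerivAt.div hNa.differentiableAt.hasDerivAt hN0
    have h2 : deriv (fun z => deriv ψ z / Zn ψ H s z) d ≠ 0 := by
      rw [h1.deriv, h0, zero_mul, sub_zero]
      refine div_ne_zero (mul_ne_zero ?_ hN0) (pow_ne_zero 2 hN0)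
      intro h3
      have h4 := rel d hd
      rw [h0, h3] at h4
      apply hc
      rw [← h4]; ring
    obtain ⟨κ, -, -, -, hκ⟩ := exists_local_inverse hfa h2 univ_mem
    refine ⟨fun p => κ (1 / p), ?_⟩
    filter_upwards [hκ, hNa.continuousAt.eventually_ne hN0] with z hz hz0 p hp
    have hp0 : p ≠ 0 := by
      rintro rfl
      rw [zero_mul] at hp
      exact hz0 hp.symm
    have h5 : 1 / p = deriv ψ z / Zn ψ H s z := by
      rw [div_eq_div_iff hp0 hz0, one_mul, ← hp, mul_comm]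
    simp only [h5]
    exact hz
  · have hfa : AnalyticAt ℂ (fun z => Zn ψ H s z / deriv ψ z) d := hNa.div hψa h0
    have h2 : deriv (fun z => Zn ψ H s z / deriv ψ z) d ≠ 0 := by
      rw [(hasDerivAt_Z hψ hH rel hs hd h0).deriv]
      exact div_ne_zero (mul_ne_zero (neg_ne_zero.2 hc) (Complex.exp_ne_zero _)) (pow_ne_zero 2 h0)
    obtain ⟨κ, -, -, -, hκ⟩ := exists_local_inverse hfa h2 univ_mem
    refine ⟨κ, ?_⟩
    filter_upwards [hκ, hψa.continuousAt.eventually_ne h0] with z hz hz0 p hp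
    have h5 : p = Zn ψ H s z / deriv ψ z := by
      rw [eq_div_iff hz0, hp]
    rw [h5]
    exact hz

/-- `P' Q' (M' / M)^4 / (16 c^2)`, `M = P' / Q'`: the sixth power of the derivative of the label -/
def Ff (c : ℂ) (P Q : ℂ → ℂ) (t : ℂ) : ℂ :=
  deriv P t * deriv Q t * (deriv (fun t => deriv P t / deriv Q t) t /
    (deriv P t / deriv Q t)) ^ 4 / (16 * c ^ 2)

/-- the local identities -/
lemma local_id {h : ℝ} {ψ H : ℂ → ℂ} (hψ : DifferentiableOn ℂ ψ (Sg h))
    (hH : DifferentiableOn ℂ H (Sg h)) {c : ℂ} (hc : c ≠ 0) (rel : Rel h ψ H c)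
    {P Q B : ℂ → ℂ} {t₀ : ℂ} (hB : AnalyticAt ℂ B t₀) (hBS : B t₀ ∈ Sg h)
    (hrel : ∀ᶠ t in 𝓝 t₀, P t * deriv ψ (B t) = Zn ψ H 1 (B t) ∧
      Q t * deriv ψ (B t) = Zn ψ H (-1) (B t)) :
    ∀ᶠ t in 𝓝 t₀, B t ∈ Sg h ∧ AnalyticAt ℂ B t ∧ deriv ψ (B t) ≠ 0 ∧
      P t = Zn ψ H 1 (B t) / deriv ψ (B t) ∧ Q t = Zn ψ H (-1) (B t) / deriv ψ (B t) ∧
      HasDerivAt P (-c * Complex.exp (Complex.I * ψ (B t)) / deriv ψ (B t) ^ 2 * deriv B t) t ∧
      HasDerivAt Q (-c * Complex.exp (-(Complex.I * ψ (B t))) / deriv ψ (B t) ^ 2 * deriv B t) t := by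
  have hSo := isOpen_Sg h
  have e1 : ∀ᶠ t in 𝓝 t₀, B t ∈ Sg h := hB.continuousAt.eventually (hSo.mem_nhds hBS)
  have e2 : ∀ᶠ t in 𝓝 t₀, B t ∈ Sg h ∧ AnalyticAt ℂ B t ∧ deriv ψ (B t) ≠ 0 ∧
      P t = Zn ψ H 1 (B t) / deriv ψ (B t) ∧ Q t = Zn ψ H (-1) (B t) / deriv ψ (B t) := by
    filter_upwards [e1, hB.eventually_analyticAt, hrel] with t h1 h2 h3
    have h4 : deriv ψ (B t) ≠ 0 := by
      intro h5
      have h6 := Zn_ne hc rel (s := 1) (by norm_num) h1 h5
      have h7 := h3.1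
      rw [h5, mul_zero] at h7
      exact h6 h7.symm
    exact ⟨h1, h2, h4, by rw [eq_div_iff h4, h3.1], by rw [eq_div_iff h4, h3.2]⟩
  filter_upwards [e2.eventually_nhds] with t ht
  obtain ⟨h1, h2, h3, h4, h5⟩ := ht.self_of_nhds
  have hBd : HasDerivAt B (deriv B t) t := h2.differentiableAt.hasDerivAt
  refine ⟨h1, h2, h3, h4, h5, ?_, ?_⟩
  · have h6 := (hasDerivAt_Z hψ hH rel (s := 1) (by norm_num) h1 h3).comp t hBd
    have h7 : (1 : ℂ) * Complex.I * ψ (B t) = Complex.I * ψ (B t) := by ring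
    rw [h7] at h6
    refine h6.congr_of_eventuallyEq ?_
    filter_upwards [ht] with u hu
    exact hu.2.2.2.1
  · have h6 := (hasDerivAt_Z hψ hH rel (s := -1) (by norm_num) h1 h3).comp t hBd
    have h7 : (-1 : ℂ) * Complex.I * ψ (B t) = -(Complex.I * ψ (B t)) := by ring
    rw [h7] at h6
    refine h6.congr_of_eventuallyEq ?_
    filter_upwards [ht] with u hu
    exact hu.2.2.2.2

lemma local_id2 {h : ℝ} {ψ H : ℂ → ℂ} (hψ : DifferentiableOn ℂ ψ (Sg h))
    (hH : DifferentiableOn ℂ H (Sg h)) {c : ℂ} (hc : c ≠ 0) (rel : Rel h ψ H c)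
    {P Q B : ℂ → ℂ} {t₀ : ℂ} (hB : AnalyticAt ℂ B t₀) (hBS : B t₀ ∈ Sg h)
    (hrel : ∀ᶠ t in 𝓝 t₀, P t * deriv ψ (B t) = Zn ψ H 1 (B t) ∧
      Q t * deriv ψ (B t) = Zn ψ H (-1) (B t)) (hne : ∀ᶠ t in 𝓝 t₀, deriv P t ≠ 0) :
    ∀ᶠ t in 𝓝 t₀, deriv B t ≠ 0 ∧ deriv P t / deriv Q t = Complex.exp (2 * Complex.I * ψ (B t)) ∧
      Ff c P Q t = deriv B t ^ 6 ∧
      H (B t) = (Complex.exp (-(Complex.I * ψ (B t))) * P t -
        Complex.exp (Complex.I * ψ (B t)) * Q t) / (2 * Complex.I) := by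
  have hSo := isOpen_Sg h
  have e0 : ∀ᶠ t in 𝓝 t₀, deriv B t ≠ 0 ∧
      deriv P t / deriv Q t = Complex.exp (2 * Complex.I * ψ (B t)) := by
    filter_upwards [local_id hψ hH hc rel hB hBS hrel, hne] with t ⟨h1, h2, h3, h4, h5, h6, h7⟩ h8
    have h9 : deriv B t ≠ 0 := by
      intro h10
      rw [h6.deriv, h10, mul_zero] at h8
      exact h8 rfl
    refine ⟨h9, ?_⟩
    rw [h6.deriv, h7.deriv, Complex.exp_neg]
    have h10 : Complex.exp (2 * Complex.I * ψ (B t)) =
        Complex.exp (Complex.I * ψ (B t)) * Complex.exp (Complex.I * ψ (B t)) := by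
      rw [← Complex.exp_add]; congr 1; ring
    rw [h10]
    have h11 := Complex.exp_ne_zero (Complex.I * ψ (B t))
    field_simp
  filter_upwards [local_id hψ hH hc rel hB hBS hrel, hne, e0.eventually_nhds] with t
    ⟨h1, h2, h3, h4, h5, h6, h7⟩ h8 h9
  obtain ⟨h10, h11⟩ := h9.self_of_nhds
  refine ⟨h10, h11, ?_, ?_⟩
  · have hd : HasDerivAt (fun t => Complex.exp (2 * Complex.I * ψ (B t)))
        (Complex.exp (2 * Complex.I * ψ (B t)) * (2 * Complex.I * (deriv ψ (B t) * deriv B t))) t := by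
      have h12 : HasDerivAt (fun t => ψ (B t)) (deriv ψ (B t) * deriv B t) t :=
        ((hψ.differentiableAt (hSo.mem_nhds h1)).hasDerivAt).comp t
          h2.differentiableAt.hasDerivAt
      exact (h12.const_mul (2 * Complex.I)).cexp
    have hd' : deriv (fun t => deriv P t / deriv Q t) t =
        Complex.exp (2 * Complex.I * ψ (B t)) * (2 * Complex.I * (deriv ψ (B t) * deriv B t)) := by
      refine (hd.congr_of_eventuallyEq ?_).deriv
      filter_upwards [h9] with u hu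
      exact hu.2
    unfold Ff
    rw [hd', h11, h6.deriv, h7.deriv, Complex.exp_neg]
    have h12 := Complex.exp_ne_zero (Complex.I * ψ (B t))
    have h13 := Complex.exp_ne_zero (2 * Complex.I * ψ (B t))
    have hI : Complex.I ^ 4 = 1 := Complex.I_pow_four
    field_simp
    rw [hI]
    ring
  · have h12 := supp_of_Zn ψ H (B t)
    rw [h4, h5]
    rw [eq_div_iff (mul_ne_zero two_ne_zero Complex.I_ne_zero)]
    field_simp
    linear_combination -h12

/-- **the label extends across an isolated point** -/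
theorem ext_ball {h : ℝ} {ψ H : ℂ → ℂ} (hψ : DifferentiableOn ℂ ψ (Sg h))
    (hH : DifferentiableOn ℂ H (Sg h)) {c : ℂ} (hc : c ≠ 0) (rel : Rel h ψ H c) (hNB : NB h ψ H)
    {t₁ : ℂ} {ε : ℝ} (hε : 0 < ε) {P Q : ℂ → ℂ}
    (hP : ∀ t ∈ ball t₁ ε, t ≠ t₁ → AnalyticAt ℂ P t)
    (hQ : ∀ t ∈ ball t₁ ε, t ≠ t₁ → AnalyticAt ℂ Q t)
    (hP' : ∀ t ∈ ball t₁ ε, t ≠ t₁ → deriv P t ≠ 0)
    (hQ' : ∀ t ∈ ball t₁ ε, t ≠ t₁ → deriv Q t ≠ 0)
    (hM' : ∀ t ∈ ball t₁ ε, t ≠ t₁ → deriv (fun t => deriv P t / deriv Q t) t ≠ 0)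
    {t₀ : ℂ} (ht₀ : t₀ ∈ ball t₁ ε) (ht₀' : t₀ ≠ t₁) {B : ℂ → ℂ} (hB : AnalyticAt ℂ B t₀)
    (hBS : B t₀ ∈ Sg h)
    (hrel : ∀ᶠ t in 𝓝 t₀, P t * deriv ψ (B t) = Zn ψ H 1 (B t) ∧
      Q t * deriv ψ (B t) = Zn ψ H (-1) (B t)) :
    ∃ β : ℂ → ℂ, DifferentiableOn ℂ β (ball t₁ ε) ∧ (∀ t ∈ ball t₁ ε, β t ∈ Sg h) ∧
      (∀ t ∈ ball t₁ ε, t ≠ t₁ → P t * deriv ψ (β t) = Zn ψ H 1 (β t) ∧
        Q t * deriv ψ (β t) = Zn ψ H (-1) (β t)) ∧ ∀ᶠ t in 𝓝 t₀, β t = B t := by
  have hSo := isOpen_Sg h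
  set Wp : Set ℂ := ball t₁ ε \ {t₁} with hWp
  have hWpo : IsOpen Wp := isOpen_ball.sdiff isClosed_singleton
  have hPW : AnalyticOnNhd ℂ P Wp := fun t ht => hP t ht.1 ht.2
  have hQW : AnalyticOnNhd ℂ Q Wp := fun t ht => hQ t ht.1 ht.2
  have hPd : AnalyticOnNhd ℂ (deriv P) Wp := hPW.deriv
  have hQd : AnalyticOnNhd ℂ (deriv Q) Wp := hQW.deriv
  have hMa : AnalyticOnNhd ℂ (fun t => deriv P t / deriv Q t) Wp :=
    hPd.div hQd fun t ht => hQ' t ht.1 ht.2
  have hM0 : ∀ t ∈ Wp, deriv P t / deriv Q t ≠ 0 := fun t ht =>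
    div_ne_zero (hP' t ht.1 ht.2) (hQ' t ht.1 ht.2)
  have hMd : AnalyticOnNhd ℂ (deriv fun t => deriv P t / deriv Q t) Wp := hMa.deriv
  have hFa : AnalyticOnNhd ℂ (Ff c P Q) Wp := by
    unfold Ff
    exact ((hPd.mul hQd).mul ((hMd.div hMa hM0).pow 4)).div analyticOnNhd_const
      fun t _ => mul_ne_zero (by norm_num) (pow_ne_zero 2 hc)
  have hF0 : ∀ t ∈ Wp, Ff c P Q t ≠ 0 := by
    intro t ht
    unfold Ff
    exact div_ne_zero (mul_ne_zero (mul_ne_zero (hP' t ht.1 ht.2) (hQ' t ht.1 ht.2))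
      (pow_ne_zero 4 (div_ne_zero (hM' t ht.1 ht.2) (hM0 t ht))))
      (mul_ne_zero (by norm_num) (pow_ne_zero 2 hc))
  -- logarithmic coordinate
  set a : ℝ := Real.log ε with ha
  set E : ℂ → ℂ := fun z => t₁ + Complex.exp z with hE
  have hEd : ∀ z, HasDerivAt E (Complex.exp z) z := fun z =>
    (Complex.hasDerivAt_exp z).const_add t₁
  have hEW : MapsTo E (HPl a) Wp := by
    intro z hz
    refine ⟨?_, ?_⟩
    · rw [mem_ball, dist_eq_norm, hE]
      simp only [add_sub_cancel_left]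
      rw [Complex.norm_exp]
      have : z.re < Real.log ε := hz
      exact (Real.lt_log_iff_exp_lt hε).1 this
    · rw [mem_singleton_iff, hE]
      simp only [add_eq_left]
      exact Complex.exp_ne_zero z
  have ho := isOpen_HPl a
  have hEdo : DifferentiableOn ℂ E (HPl a) := fun z _ => (hEd z).differentiableAt.differentiableWithinAt
  have hmemE : ∀ t ∈ ball t₁ ε, t ≠ t₁ → ∃ z ∈ HPl a, E z = t := by
    intro t ht htn
    refine ⟨Complex.log (t - t₁), ?_, ?_⟩
    · change (Complex.log (t - t₁)).re < a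
      rw [Complex.log_re, ha]
      rw [mem_ball, dist_eq_norm] at ht
      exact Real.log_lt_log (norm_pos_iff.2 (sub_ne_zero.2 htn)) ht
    · simp only [hE]
      rw [Complex.exp_log (sub_ne_zero.2 htn)]
      ring
  obtain ⟨z₀, hz₀, hEz₀⟩ := hmemE t₀ ht₀ ht₀'
  have ht₀W : t₀ ∈ Wp := ⟨ht₀, ht₀'⟩
  -- the local identities at the start
  have hne : ∀ᶠ t in 𝓝 t₀, deriv P t ≠ 0 := by
    filter_upwards [hWpo.mem_nhds ht₀W] with t ht
    exact hP' t ht.1 ht.2
  have hid := (local_id hψ hH hc rel hB hBS hrel).and (local_id2 hψ hH hc rel hB hBS hrel hne)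
  have hEt : Tendsto E (𝓝 z₀) (𝓝 t₀) := by
    have := (hEd z₀).continuousAt.tendsto
    rwa [hEz₀] at this
  have hidz := hEt.eventually hid
  obtain ⟨⟨i1, i2, i3, i4, i5, i6, i7⟩, i8, i9, i10, i11⟩ := hidz.self_of_nhds
  rw [hEz₀] at i1 i2 i3 i4 i5 i6 i7 i8 i9 i10 i11
  -- the root
  set f : ℂ → ℂ := fun z => Ff c P Q (E z) * Complex.exp (6 * z) with hf
  have hfd : DifferentiableOn ℂ f (HPl a) := by
    refine (hFa.differentiableOn.comp hEdo hEW).mul ?_
    exact (Complex.differentiable_exp.comp (differentiable_id.const_mul 6)).differentiableOn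
  have hf0 : ∀ z ∈ HPl a, f z ≠ 0 := fun z hz =>
    mul_ne_zero (hF0 _ (hEW hz)) (Complex.exp_ne_zero _)
  have hexp6 : ∀ z, Complex.exp (6 * z) = Complex.exp z ^ 6 := fun z => by
    rw [← Complex.exp_nat_mul]; norm_num
  have hv0 : deriv B t₀ * Complex.exp z₀ ≠ 0 := mul_ne_zero i8 (Complex.exp_ne_zero _)
  obtain ⟨L, hLd, hL0, hL⟩ := exists_log hfd hf0 (v := 6 * Complex.log (deriv B t₀ * Complex.exp z₀))
    hz₀ (by
      rw [hexp6, Complex.exp_log hv0]
      simp only [hf]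
      rw [hEz₀, i10, hexp6]
      ring)
  set g : ℂ → ℂ := fun z => Complex.exp (L z / 6) with hg
  have hgd : DifferentiableOn ℂ g (HPl a) := (hLd.div_const 6).cexp
  have hg0 : ∀ z ∈ HPl a, g z ≠ 0 := fun z _ => Complex.exp_ne_zero _
  have hg6 : ∀ z ∈ HPl a, g z ^ 6 = f z := by
    intro z hz
    simp only [hg]
    rw [← Complex.exp_nat_mul, ← hL z hz]
    congr 1
    push_cast
    ring
  have hgz₀ : g z₀ = deriv B t₀ * Complex.exp z₀ := by
    simp only [hg]
    rw [hL0, mul_div_cancel_left₀ _ (by norm_num : (6 : ℂ) ≠ 0), Complex.exp_log hv0]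
  -- the logarithm
  obtain ⟨LM, hLMd, hLM0, hLM⟩ := exists_log (f := fun z => deriv P (E z) / deriv Q (E z))
    (hMa.differentiableOn.comp hEdo hEW) (fun z hz => hM0 _ (hEW hz))
    (v := 2 * Complex.I * ψ (B t₀)) hz₀ (by
      simp only [hEz₀]
      exact i9.symm)
  set Ph : ℂ → ℂ := fun z => LM z / (2 * Complex.I) with hPh
  have hI2 : (2 : ℂ) * Complex.I ≠ 0 := mul_ne_zero two_ne_zero Complex.I_ne_zero
  have hPhd : DifferentiableOn ℂ Ph (HPl a) := hLMd.div_const _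
  set Eh : ℂ → ℂ := fun z => (Complex.exp (-(Complex.I * Ph z)) * P (E z) -
    Complex.exp (Complex.I * Ph z) * Q (E z)) / (2 * Complex.I) with hEh
  have hPE : DifferentiableOn ℂ (fun z => P (E z)) (HPl a) :=
    hPW.differentiableOn.comp hEdo hEW
  have hQE : DifferentiableOn ℂ (fun z => Q (E z)) (HPl a) :=
    hQW.differentiableOn.comp hEdo hEW
  have hEhd : DifferentiableOn ℂ Eh (HPl a) :=
    ((((hPhd.const_mul Complex.I).neg.cexp).mul hPE).sub
      (((hPhd.const_mul Complex.I).cexp).mul hQE)).div_const _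
  -- the primitive
  obtain ⟨Bh, hBh0, hBh⟩ := exists_prim hgd hz₀ (B t₀)
  have hBhd : DifferentiableOn ℂ Bh (HPl a) := fun z hz =>
    (hBh z hz).differentiableAt.differentiableWithinAt
  have hBEc : ContinuousAt (fun z => B (E z)) z₀ := by
    have h1 : ContinuousAt B (E z₀) := by rw [hEz₀]; exact hB.continuousAt
    exact ContinuousAt.comp h1 (hEd z₀).continuousAt
  -- `g = (B ∘ E)'` near `z₀`
  have hgE : ∀ᶠ z in 𝓝 z₀, g z = deriv B (E z) * Complex.exp z := by
    refine eventually_eq_of_pow (hgd.differentiableAt (ho.mem_nhds hz₀)).continuousAt ?_ ?_ ?_ ?_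
    · have h1 : ContinuousAt (deriv B) (E z₀) := by rw [hEz₀]; exact hB.deriv.continuousAt
      exact (ContinuousAt.comp h1 (hEd z₀).continuousAt).mul Complex.continuous_exp.continuousAt
    · rw [hgz₀, hEz₀]
    · rw [hEz₀]; exact hv0
    · filter_upwards [ho.mem_nhds hz₀, hidz] with z hz hz'
      rw [hg6 z hz]
      simp only [hf]
      rw [hz'.2.2.2.1, hexp6, mul_pow]
  have hBhE : ∀ᶠ z in 𝓝 z₀, Bh z = B (E z) := by
    obtain ⟨r, hr, hrr⟩ := Metric.eventually_nhds_iff_ball.1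
      ((hgE.and hidz).and (ho.mem_nhds hz₀))
    filter_upwards [ball_mem_nhds z₀ hr] with z hz
    have h3 : ∀ z ∈ ball z₀ r, HasDerivAt (fun z => Bh z - B (E z)) 0 z := by
      intro z hz
      obtain ⟨⟨h4, h5⟩, h6⟩ := hrr z hz
      have h7 := (hBh z h6).sub ((h5.1.2.1.differentiableAt.hasDerivAt).comp z (hEd z))
      rw [h4, sub_self] at h7
      exact h7
    have h5 : Bh z - B (E z) = Bh z₀ - B (E z₀) :=
      const_of_deriv_zero' isOpen_ball (convex_ball z₀ r) h3 hz (mem_ball_self hr)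
    rw [hBh0, hEz₀, sub_self] at h5
    exact sub_eq_zero.1 h5
  have hPhE : ∀ᶠ z in 𝓝 z₀, Ph z = ψ (B (E z)) := by
    have h1 : ∀ᶠ z in 𝓝 z₀, LM z = 2 * Complex.I * ψ (B (E z)) := by
      refine eventually_eq_of_exp (hLMd.differentiableAt (ho.mem_nhds hz₀)).continuousAt ?_ ?_ ?_
      · refine ContinuousAt.mul continuousAt_const ?_
        have h1 : ContinuousAt ψ (B (E z₀)) := by
          rw [hEz₀]
          exact (hψ.differentiableAt (hSo.mem_nhds i1)).continuousAt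
        exact ContinuousAt.comp (f := fun z => B (E z)) h1 hBEc
      · rw [hLM0, hEz₀]
      · filter_upwards [ho.mem_nhds hz₀, hidz] with z hz hz'
        rw [hLM z hz]
        exact hz'.2.2.1
    filter_upwards [h1] with z hz
    simp only [hPh]
    rw [hz, mul_div_cancel_left₀ _ hI2]
  -- the label stays in the strip
  have hall := stays hψ hH hNB ho (convex_HPl a).isPreconnected hBhd
    (fun z hz => by rw [(hBh z hz).deriv]; exact hg0 z hz) hPhd hEhd hz₀ (by
      filter_upwards [hBhE, hPhE, hidz] with z h1 h2 h3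
      rw [h1, h2]
      refine ⟨h3.1.1, rfl, ?_⟩
      simp only [hEh]
      rw [h2]
      exact h3.2.2.2.2)
  have hS : ∀ z ∈ HPl a, Bh z ∈ Sg h := fun z hz => (hall z hz).1
  -- the relations
  have hNd : ∀ s, DifferentiableOn ℂ (fun z => Zn ψ H s (Bh z)) (HPl a) := fun s =>
    (diffOn_Zn hψ hH s).comp hBhd hS
  have hψB : DifferentiableOn ℂ (fun z => deriv ψ (Bh z)) (HPl a) := (hψ.deriv hSo).comp hBhd hS
  have hR1 : ∀ z ∈ HPl a, P (E z) * deriv ψ (Bh z) = Zn ψ H 1 (Bh z) := by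
    have h1 := AnalyticOnNhd.eqOn_of_preconnected_of_eventuallyEq (𝕜 := ℂ)
      (f := fun z => P (E z) * deriv ψ (Bh z)) (g := fun z => Zn ψ H 1 (Bh z)) (U := HPl a)
      ((hPE.mul hψB).analyticOnNhd ho) ((hNd 1).analyticOnNhd ho) (convex_HPl a).isPreconnected hz₀
      (by
        filter_upwards [hBhE, hEt.eventually hrel] with z h1 h2
        rw [h1]
        exact h2.1)
    exact h1
  have hR2 : ∀ z ∈ HPl a, Q (E z) * deriv ψ (Bh z) = Zn ψ H (-1) (Bh z) := by
    have h1 := AnalyticOnNhd.eqOn_of_preconnected_of_eventuallyEq (𝕜 := ℂ)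
      (f := fun z => Q (E z) * deriv ψ (Bh z)) (g := fun z => Zn ψ H (-1) (Bh z)) (U := HPl a)
      ((hQE.mul hψB).analyticOnNhd ho) ((hNd (-1)).analyticOnNhd ho)
      (convex_HPl a).isPreconnected hz₀
      (by
        filter_upwards [hBhE, hEt.eventually hrel] with z h1 h2
        rw [h1]
        exact h2.2)
    exact h1
  -- periodicity
  have hEper : ∀ z, E (z + (2 * Real.pi : ℝ) * Complex.I) = E z := by
    intro z
    simp only [hE]
    congr 1
    have := Complex.exp_periodic z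
    push_cast
    exact this
  have hper12 := no_period hBh hgd hg0 (by
    intro z hz
    rw [hg6 _ (add_mem_HPl hz _), hg6 z hz]
    simp only [hf]
    rw [hEper z, hexp6, hexp6]
    have := Complex.exp_periodic z
    push_cast
    rw [this]) hS
  have hhalf : ∀ z ∈ HPl (a / 2), 2 * z ∈ HPl a := by
    intro z hz
    have h1 : z.re < a / 2 := hz
    change (2 * z).re < a
    simp only [Complex.mul_re, Complex.re_ofNat, Complex.im_ofNat, zero_mul, sub_zero]
    linarith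
  obtain ⟨d, hdS, hd⟩ := cusp_strip (a := a / 2) (h := h) (Bh := fun z => Bh (2 * z))
    (hBhd.comp (differentiable_id.const_mul 2).differentiableOn hhalf)
    (by
      intro z hz
      have h1 : 2 * (z + 6 * Real.pi * Complex.I) = 2 * z + 12 * Real.pi * Complex.I := by ring
      simp only [h1]
      exact hper12 _ (hhalf z hz))
    (fun z hz => hS _ (hhalf z hz))
  have hdL : Tendsto Bh LI (𝓝 d) := by
    have h1 : Tendsto (fun z : ℂ => z / 2) LI LI := by
      intro s hs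
      obtain ⟨b, hb⟩ := eventually_LI.1 hs
      refine eventually_LI.2 ⟨2 * b, fun z hz => hb _ ?_⟩
      simp only [Complex.div_ofNat_re]
      linarith
    refine (hd.comp h1).congr fun z => ?_
    simp only [Function.comp_apply]
    congr 1
    ring
  -- `2πi` is a period
  obtain ⟨κ, hκ⟩ := inj_near hψ hH hc rel (s := 1) (by norm_num) hdS
  obtain ⟨b, hb⟩ := eventually_LI.1 (hdL.eventually hκ)
  have hper : ∀ z ∈ HPl a, Bh (z + (2 * Real.pi : ℝ) * Complex.I) = Bh z := by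
    have h1 : ∀ z : ℂ, z.re < min a b → Bh (z + (2 * Real.pi : ℝ) * Complex.I) = Bh z := by
      intro z hz
      have hza : z ∈ HPl a := lt_of_lt_of_le hz (min_le_left _ _)
      have hza' := add_mem_HPl hza (2 * Real.pi)
      have hzb : z.re < b := lt_of_lt_of_le hz (min_le_right _ _)
      have hzb' : (z + (2 * Real.pi : ℝ) * Complex.I).re < b := by
        simpa using hzb
      have h2 := hb z hzb _ (hR1 z hza)
      have h3 := hb _ hzb' _ (hR1 _ hza')
      rw [hEper z, h2] at h3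
      exact h3.symm
    have hx : ((min a b - 1 : ℝ) : ℂ) ∈ HPl a := by
      change ((min a b - 1 : ℝ) : ℂ).re < a
      rw [Complex.ofReal_re]
      linarith [min_le_left a b]
    have h2 := AnalyticOnNhd.eqOn_of_preconnected_of_eventuallyEq (𝕜 := ℂ)
      (f := fun z => Bh (z + (2 * Real.pi : ℝ) * Complex.I)) (g := Bh) (U := HPl a)
      (DifferentiableOn.analyticOnNhd (fun z hz =>
        (((hBh _ (add_mem_HPl hz _)).comp_add_const z _).differentiableAt).differentiableWithinAt) ho)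
      (hBhd.analyticOnNhd ho)
      (convex_HPl a).isPreconnected hx
      (by
        filter_upwards [(isOpen_HPl (min a b)).mem_nhds (show ((min a b - 1 : ℝ) : ℂ) ∈
          HPl (min a b) by
            change ((min a b - 1 : ℝ) : ℂ).re < min a b
            rw [Complex.ofReal_re]
            linarith)] with z hz
        exact h1 z hz)
    exact h2
  -- descend to the disc
  classical
  set fx : ℂ → ℂ := fun x => if Complex.I * x ∈ HPl a then Bh (Complex.I * x) else 0 with hfx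
  have hmem : ∀ z : ℂ, Complex.I * z ∈ HPl a ↔ -a < z.im := by
    intro z
    change (Complex.I * z).re < a ↔ _
    rw [Complex.mul_re, Complex.I_re, Complex.I_im]
    constructor <;> intro h <;> linarith
  have hfper : Function.Periodic fx ((2 * Real.pi : ℝ) : ℂ) := by
    intro z
    simp only [hfx]
    have h1 : Complex.I * (z + ((2 * Real.pi : ℝ) : ℂ)) ∈ HPl a ↔ Complex.I * z ∈ HPl a := by
      rw [hmem, hmem]
      simp
    have h3 : Complex.I * (z + ((2 * Real.pi : ℝ) : ℂ)) =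
        Complex.I * z + (2 * Real.pi : ℝ) * Complex.I := by ring
    by_cases h2 : Complex.I * z ∈ HPl a
    · rw [if_pos h2, if_pos (h1.2 h2), h3, hper _ h2]
    · rw [if_neg h2, if_neg (fun h => h2 (h1.1 h))]
  have hop : IsOpen {z : ℂ | -a < z.im} := isOpen_lt continuous_const Complex.continuous_im
  have hfxd : ∀ z : ℂ, -a < z.im → DifferentiableAt ℂ fx z := by
    intro z hz
    have h1 : DifferentiableAt ℂ (fun z => Bh (Complex.I * z)) z := by
      have h2 : DifferentiableAt ℂ Bh (Complex.I * z) :=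
        hBhd.differentiableAt (ho.mem_nhds ((hmem z).2 hz))
      exact h2.comp z (by fun_prop)
    refine h1.congr_of_eventuallyEq ?_
    filter_upwards [hop.mem_nhds hz] with w hw
    simp only [hfx]
    rw [if_pos ((hmem w).2 hw)]
  have hev : ∀ᶠ z in comap Complex.im atTop, -a < z.im := by
    rw [Filter.eventually_comap]
    exact (Filter.eventually_gt_atTop (-a)).mono fun x hx z hz => hz ▸ hx
  have hpi2 : (0 : ℝ) < 2 * Real.pi := by positivity
  have hfxt : Tendsto fx (comap Complex.im atTop) (𝓝 d) := by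
    have h1 : Tendsto (fun x : ℂ => Complex.I * x) (comap Complex.im atTop) LI := by
      unfold LI
      rw [Filter.tendsto_comap_iff]
      have h1 : (Complex.re ∘ fun z : ℂ => Complex.I * z) = fun z : ℂ => -z.im := by
        funext z
        simp [Complex.mul_re]
      rw [h1]
      exact tendsto_neg_atTop_atBot.comp tendsto_comap
    refine (hdL.comp h1).congr' ?_
    filter_upwards [hev] with x hx
    simp only [hfx, Function.comp_apply]
    rw [if_pos ((hmem x).2 hx)]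
  have hbd : BoundedAtFilter (comap Complex.im atTop) fx := hfxt.isBigO_one ℝ
  have hhol : ∀ᶠ z in comap Complex.im atTop, DifferentiableAt ℂ fx z := hev.mono hfxd
  set cf := Function.Periodic.cuspFunction (2 * Real.pi) fx with hcf
  have hq : ∀ z : ℂ, Function.Periodic.qParam (2 * Real.pi) (-Complex.I * z) = Complex.exp z := by
    intro z
    unfold Function.Periodic.qParam
    congr 1
    have : (Real.pi : ℂ) ≠ 0 := by exact_mod_cast Real.pi_ne_zero
    push_cast
    field_simp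
    rw [Complex.I_sq]
    ring
  have hcfE : ∀ z ∈ HPl a, cf (Complex.exp z) = Bh z ∧ DifferentiableAt ℂ cf (Complex.exp z) := by
    intro z hz
    have h1 : Complex.I * (-Complex.I * z) = z := by
      rw [← mul_assoc, mul_neg, Complex.I_mul_I]
      ring
    refine ⟨?_, ?_⟩
    · rw [← hq z, hcf, Function.Periodic.eq_cuspFunction hpi2.ne' hfper]
      simp only [hfx]
      rw [h1, if_pos hz]
    · rw [← hq z, hcf]
      refine Function.Periodic.differentiableAt_cuspFunction hpi2.ne' hfper (hfxd _ ?_)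
      rw [← hmem, h1]
      exact hz
  have hcf0 : cf 0 = d := by
    have h1 := Function.Periodic.tendsto_at_I_inf hpi2 hfper hhol hbd
    have h2 : (comap Complex.im atTop).NeBot := by
      refine Filter.comap_neBot fun t ht => ?_
      obtain ⟨b, hb⟩ := Filter.mem_atTop_sets.1 ht
      exact ⟨(b : ℂ) * Complex.I, hb _ (by simp)⟩
    exact tendsto_nhds_unique h1 hfxt
  have hβE : ∀ z ∈ HPl a, cf (E z - t₁) = Bh z := by
    intro z hz
    simp only [hE, add_sub_cancel_left]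
    exact (hcfE z hz).1
  refine ⟨fun t => cf (t - t₁), ?_, ?_, ?_, ?_⟩
  · intro t ht
    refine DifferentiableAt.differentiableWithinAt ?_
    have h1 : DifferentiableAt ℂ cf (t - t₁) := by
      by_cases htn : t = t₁
      · rw [htn, sub_self]
        exact Function.Periodic.differentiableAt_cuspFunction_zero hpi2 hfper hhol hbd
      · obtain ⟨z, hz, rfl⟩ := hmemE t ht htn
        simp only [hE, add_sub_cancel_left]
        exact (hcfE z hz).2
    exact h1.comp t (by fun_prop)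
  · intro t ht
    by_cases htn : t = t₁
    · simp only [htn, sub_self, hcf0]
      exact hdS
    · obtain ⟨z, hz, rfl⟩ := hmemE t ht htn
      change cf (E z - t₁) ∈ Sg h
      rw [hβE z hz]
      exact hS z hz
  · intro t ht htn
    obtain ⟨z, hz, rfl⟩ := hmemE t ht htn
    change P (E z) * deriv ψ (cf (E z - t₁)) = Zn ψ H 1 (cf (E z - t₁)) ∧
      Q (E z) * deriv ψ (cf (E z - t₁)) = Zn ψ H (-1) (cf (E z - t₁))
    rw [hβE z hz]
    exact ⟨hR1 z hz, hR2 z hz⟩
  · have h1 : map E (𝓝 z₀) = 𝓝 t₀ := by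
      have h2 : HasStrictDerivAt E (Complex.exp z₀) z₀ := by
        have h3 : AnalyticAt ℂ E z₀ := by
          simp only [hE]
          fun_prop
        have := h3.hasStrictDerivAt
        rwa [(hEd z₀).deriv] at this
      rw [h2.map_nhds_eq (Complex.exp_ne_zero _), hEz₀]
    rw [← h1, Filter.eventually_map]
    filter_upwards [hBhE, ho.mem_nhds hz₀] with z hz hza
    rw [hβE z hza, hz]

end Crest.Agent.R102.BEnd802
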