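import Mathlib

/-!
Row 102: **continuation of a germ to a disc** (Mathlib only).

`ext_sphere`: a holomorphic function on `ball c r` which extends across every point of the circle
extends to a larger ball.
`disc_ext`: a germ at `c` such that every extension to a smaller ball `ball c r`, `r < R`, extends
across every point of the circle, extends to `ball c R`.
-/

set_option autoImplicit false

open Set Filter Topology Metric

noncomputable section

namespace Crest.Agent.R102.DiscExt802

lemma ext_sphere {c : ℂ} {r : ℝ} (hr : 0 < r) {f : ℂ → ℂ} (hf : DifferentiableOn ℂ f (ball c r))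
    (h : ∀ x ∈ sphere c r, ∃ ε > 0, ∃ g : ℂ → ℂ, DifferentiableOn ℂ g (ball x ε) ∧
      EqOn g f (ball x ε ∩ ball c r)) :
    ∃ r' > r, ∃ F : ℂ → ℂ, DifferentiableOn ℂ F (ball c r') ∧ EqOn F f (ball c r) := by
  have h' : ∀ x : closedBall c r, ∃ ε > 0, ∃ g : ℂ → ℂ, DifferentiableOn ℂ g (ball (x : ℂ) ε) ∧
      EqOn g f (ball (x : ℂ) ε ∩ ball c r) := by
    rintro ⟨x, hx⟩
    rcases (mem_closedBall.1 hx).lt_or_eq with h1 | h1
    · refine ⟨r - dist x c, sub_pos.2 h1, f, hf.mono ?_, fun z _ => rfl⟩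
      exact ball_subset_ball' (by simp)
    · exact h x h1
  choose ε hε g hg1 hg2 using h'
  obtain ⟨δ, hδ, hδ'⟩ := lebesgue_number_lemma_of_metric (isCompact_closedBall c r)
    (c := fun i : closedBall c r => ball (i : ℂ) (ε i)) (fun i => isOpen_ball)
    (fun x hx => mem_iUnion.2 ⟨⟨x, hx⟩, mem_ball_self (hε _)⟩)
  have hG : ∀ x : ℂ, ∃ G : ℂ → ℂ, x ∈ closedBall c r → DifferentiableOn ℂ G (ball x δ) ∧
      EqOn G f (ball x δ ∩ ball c r) := by
    intro x
    by_cases hx : x ∈ closedBall c r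
    · obtain ⟨i, hi⟩ := hδ' x hx
      exact ⟨g i, fun _ => ⟨(hg1 i).mono hi, (hg2 i).mono (inter_subset_inter_left _ hi)⟩⟩
    · exact ⟨f, fun h => absurd h hx⟩
  choose G hG using hG
  set κ : ℝ := r / (r + δ / 4) with hκ
  have hκ0 : 0 < κ := by positivity
  have hκ1 : κ < 1 := by rw [hκ, div_lt_one (by positivity)]; linarith
  set π : ℂ → ℂ := fun z => c + κ * (z - c) with hπ
  have p1 : ∀ z ∈ ball c (r + δ / 4), π z ∈ ball c r := by
    intro z hz
    rw [mem_ball, dist_eq_norm] at hz ⊢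
    simp only [hπ, add_sub_cancel_left]
    rw [norm_mul, Complex.norm_real, Real.norm_eq_abs, abs_of_pos hκ0, hκ]
    have h1 : r / (r + δ / 4) * ‖z - c‖ < r / (r + δ / 4) * (r + δ / 4) := by gcongr
    rwa [div_mul_cancel₀ _ (by positivity)] at h1
  have p2 : ∀ z ∈ ball c (r + δ / 4), dist z (π z) < δ / 4 := by
    intro z hz
    rw [mem_ball, dist_eq_norm] at hz
    rw [dist_eq_norm]
    have h1 : z - π z = ((1 - κ : ℝ) : ℂ) * (z - c) := by
      simp only [hπ]; push_cast; ring
    rw [h1, norm_mul, Complex.norm_real, Real.norm_eq_abs, abs_of_pos (by linarith)]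
    have h2 : (1 - κ) * ‖z - c‖ < (1 - κ) * (r + δ / 4) :=
      mul_lt_mul_of_pos_left hz (by linarith)
    have h3 : (1 - κ) * (r + δ / 4) = δ / 4 := by
      rw [hκ]; field_simp; ring
    linarith
  have p3 : ∀ z w, dist (π z) (π w) ≤ dist z w := by
    intro z w
    rw [dist_eq_norm, dist_eq_norm]
    have h1 : π z - π w = (κ : ℂ) * (z - w) := by simp only [hπ]; ring
    rw [h1, norm_mul, Complex.norm_real, Real.norm_eq_abs, abs_of_pos hκ0]
    exact mul_le_of_le_one_left (norm_nonneg _) hκ1.le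
  refine ⟨r + δ / 4, by linarith, fun z => G (π z) z, ?_, ?_⟩
  · intro z hz
    refine DifferentiableAt.differentiableWithinAt ?_
    have hπz := ball_subset_closedBall (p1 z hz)
    have hzb : z ∈ ball (π z) δ := by
      rw [mem_ball]; linarith [p2 z hz]
    have h1 : DifferentiableAt ℂ (G (π z)) z :=
      (hG _ hπz).1.differentiableAt (isOpen_ball.mem_nhds hzb)
    refine h1.congr_of_eventuallyEq ?_
    filter_upwards [isOpen_ball.mem_nhds hz, ball_mem_nhds z (show (0 : ℝ) < δ / 4 by positivity)]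
      with w hw hwz
    have hπw := ball_subset_closedBall (p1 w hw)
    have hpp : dist (π w) (π z) < δ / 4 := (p3 w z).trans_lt hwz
    have hK : IsPreconnected (ball (π w) δ ∩ ball (π z) δ) :=
      ((convex_ball _ _).inter (convex_ball _ _)).isPreconnected
    have hKo : IsOpen (ball (π w) δ ∩ ball (π z) δ) := isOpen_ball.inter isOpen_ball
    have hz0 : π z ∈ ball (π w) δ ∩ ball (π z) δ := by
      refine ⟨?_, mem_ball_self hδ⟩
      rw [mem_ball, dist_comm]; linarith
    have heq := AnalyticOnNhd.eqOn_of_preconnected_of_eventuallyEq (𝕜 := ℂ)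
      (f := G (π w)) (g := G (π z)) (U := ball (π w) δ ∩ ball (π z) δ)
      (((hG _ hπw).1.mono inter_subset_left).analyticOnNhd hKo)
      (((hG _ hπz).1.mono inter_subset_right).analyticOnNhd hKo) hK hz0 (by
        filter_upwards [hKo.mem_nhds hz0, isOpen_ball.mem_nhds (p1 z hz)] with u hu hu'
        rw [(hG _ hπw).2 ⟨hu.1, hu'⟩, (hG _ hπz).2 ⟨hu.2, hu'⟩])
    refine heq ⟨?_, ?_⟩
    · rw [mem_ball]; linarith [p2 w hw]
    · rw [mem_ball]
      have h3 : dist w (π z) ≤ dist w z + dist z (π z) := dist_triangle _ _ _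
      have h4 : dist w z < δ / 4 := hwz
      linarith [p2 z hz]
  · intro z hz
    have hz' : z ∈ ball c (r + δ / 4) := ball_subset_ball (by linarith) hz
    refine (hG _ (ball_subset_closedBall (p1 z hz'))).2 ⟨?_, hz⟩
    rw [mem_ball]; linarith [p2 z hz']

theorem disc_ext {c : ℂ} {R : ℝ} (hR : 0 < R) {B : ℂ → ℂ} (hB : AnalyticAt ℂ B c)
    (key : ∀ r, 0 < r → r < R → ∀ f : ℂ → ℂ, DifferentiableOn ℂ f (ball c r) →
      (∀ᶠ t in 𝓝 c, f t = B t) → ∀ x ∈ sphere c r, ∃ ε > 0, ∃ g : ℂ → ℂ,
        DifferentiableOn ℂ g (ball x ε) ∧ EqOn g f (ball x ε ∩ ball c r)) :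
    ∃ F : ℂ → ℂ, DifferentiableOn ℂ F (ball c R) ∧ ∀ᶠ t in 𝓝 c, F t = B t := by
  obtain ⟨p, r₀, hp⟩ := hB
  have hrad : 0 < p.radius := hp.r_pos.trans_le hp.r_le
  set F : ℂ → ℂ := fun t => p.sum (t - c) with hF
  have hFp : HasFPowerSeriesOnBall F p c p.radius := by
    have := (p.hasFPowerSeriesOnBall hrad).comp_sub c
    rwa [zero_add] at this
  have hFB : ∀ᶠ t in 𝓝 c, F t = B t := by
    have h1 := (hFp.mono hp.r_pos hp.r_le).unique hp
    filter_upwards [Metric.eball_mem_nhds c hp.r_pos] with t ht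
    exact h1 ht
  by_cases hle : ENNReal.ofReal R ≤ p.radius
  · refine ⟨F, ?_, hFB⟩
    have h1 : ball c R ⊆ Metric.eball c p.radius := by
      rw [← Metric.eball_ofReal]
      exact Metric.eball_subset_eball hle
    exact hFp.analyticOnNhd.differentiableOn.mono h1
  · exfalso
    push Not at hle
    have hfin : p.radius ≠ ⊤ := (hle.trans_le le_top).ne
    set r : ℝ := p.radius.toReal with hr
    have hrr : ENNReal.ofReal r = p.radius := ENNReal.ofReal_toReal hfin
    have hr0 : 0 < r := ENNReal.toReal_pos hrad.ne' hfin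
    have hrR : r < R := by
      rw [← hrr] at hle
      exact (ENNReal.ofReal_lt_ofReal_iff hR).1 hle
    have hFd : DifferentiableOn ℂ F (ball c r) := by
      have h1 : ball c r ⊆ Metric.eball c p.radius := by
        rw [← Metric.eball_ofReal, hrr]
      exact hFp.analyticOnNhd.differentiableOn.mono h1
    obtain ⟨r', hr', F', hF'd, hF'e⟩ := ext_sphere hr0 hFd (key r hr0 hrR F hFd hFB)
    have hr''0 : 0 < (r + r') / 2 := by linarith
    set r'' : NNReal := ⟨(r + r') / 2, hr''0.le⟩ with hr''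
    have h1 : HasFPowerSeriesOnBall F' (cauchyPowerSeries F' c r'') c r'' := by
      refine DifferentiableOn.hasFPowerSeriesOnBall (hF'd.mono ?_) ?_
      · refine closedBall_subset_ball ?_
        change (r + r') / 2 < r'
        linarith
      · exact hr''0
    have h2 : HasFPowerSeriesAt F p c := ⟨_, hFp⟩
    have h3 : HasFPowerSeriesAt F' p c := by
      refine h2.congr ?_
      filter_upwards [ball_mem_nhds c hr0] with t ht
      exact (hF'e ht).symm
    have h4 := HasFPowerSeriesAt.eq_formalMultilinearSeries h3 ⟨_, h1⟩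
    have h5 := h1.r_le
    rw [← h4, ← hrr] at h5
    have h6 : ((r'' : NNReal) : ENNReal) = ENNReal.ofReal ((r + r') / 2) := by
      rw [ENNReal.ofReal_eq_coe_nnreal hr''0.le]
      rfl
    rw [h6] at h5
    have h7 := (ENNReal.ofReal_le_ofReal_iff hr0.le).1 h5
    linarith

end Crest.Agent.R102.DiscExt802
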