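import Mathlib
import Crest.Agent.R102.BEndA_802
import Crest.Agent.R102.DiscExt_802

/-!
Row 102, Case B, (END), part B: **the label extends to every disc on which the vertex is
meromorphic** (one variable).
-/

set_option autoImplicit false

open Set Filter Topology Metric

noncomputable section

namespace Crest.Agent.R102.BEnd802

open Crest.Agent.R102.Rule982 Crest.Agent.R102.DiscExt802

/-- `B` is an admissible label at `t`: holomorphic, interior, and `γ(B) = (P, Q)` near `t` -/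
def Adm (h : ℝ) (ψ H P Q B : ℂ → ℂ) (t : ℂ) : Prop :=
  AnalyticAt ℂ B t ∧ B t ∈ Sg h ∧ ∀ᶠ s in 𝓝[≠] t, P s * deriv ψ (B s) = Zn ψ H 1 (B s) ∧
    Q s * deriv ψ (B s) = Zn ψ H (-1) (B s)

lemma Adm.eventually {h : ℝ} {ψ H P Q B : ℂ → ℂ} {t : ℂ} (hA : Adm h ψ H P Q B t) :
    ∀ᶠ s in 𝓝 t, Adm h ψ H P Q B s := by
  obtain ⟨h1, h2, h3⟩ := hA
  have h4 := eventually_nhdsWithin_iff.1 h3
  filter_upwards [h1.eventually_analyticAt, h1.continuousAt.eventually ((isOpen_Sg h).mem_nhds h2),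
    h4.eventually_nhds] with s h5 h6 h7
  refine ⟨h5, h6, ?_⟩
  by_cases hst : s = t
  · rw [hst]; exact h3
  · have h8 : ∀ᶠ u in 𝓝 s, u ≠ t := isOpen_ne.mem_nhds hst
    have h9 : ∀ᶠ u in 𝓝 s, P u * deriv ψ (B u) = Zn ψ H 1 (B u) ∧
        Q u * deriv ψ (B u) = Zn ψ H (-1) (B u) := by
      filter_upwards [h7, h8] with u hu1 hu2
      exact hu1 hu2
    exact h9.filter_mono nhdsWithin_le_nhds

/-- at a point where `P, Q` are holomorphic the relation holds in a full neighbourhood -/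
lemma Adm.full {h : ℝ} {ψ H P Q B : ℂ → ℂ} (hψ : DifferentiableOn ℂ ψ (Sg h))
    (hH : DifferentiableOn ℂ H (Sg h)) {t : ℂ} (hA : Adm h ψ H P Q B t)
    (hP : AnalyticAt ℂ P t) (hQ : AnalyticAt ℂ Q t) :
    ∀ᶠ s in 𝓝 t, P s * deriv ψ (B s) = Zn ψ H 1 (B s) ∧
      Q s * deriv ψ (B s) = Zn ψ H (-1) (B s) := by
  obtain ⟨h1, h2, h3⟩ := hA
  have hSo := isOpen_Sg h
  have c1 : ContinuousAt (fun s => deriv ψ (B s)) t :=
    ContinuousAt.comp ((hψ.deriv hSo).differentiableAt (hSo.mem_nhds h2)).continuousAt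
      h1.continuousAt
  have c2 : ∀ e, ContinuousAt (fun s => Zn ψ H e (B s)) t := fun e =>
    ContinuousAt.comp ((diffOn_Zn hψ hH e).differentiableAt (hSo.mem_nhds h2)).continuousAt
      h1.continuousAt
  have e1 : P t * deriv ψ (B t) = Zn ψ H 1 (B t) := by
    have h4 : Tendsto (fun s => P s * deriv ψ (B s)) (𝓝[≠] t) (𝓝 (P t * deriv ψ (B t))) :=
      (hP.continuousAt.mul c1).tendsto.mono_left nhdsWithin_le_nhds
    have h5 : Tendsto (fun s => Zn ψ H 1 (B s)) (𝓝[≠] t) (𝓝 (Zn ψ H 1 (B t))) :=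
      (c2 1).tendsto.mono_left nhdsWithin_le_nhds
    exact tendsto_nhds_unique (h4.congr' (h3.mono fun s hs => hs.1)) h5
  have e2 : Q t * deriv ψ (B t) = Zn ψ H (-1) (B t) := by
    have h4 : Tendsto (fun s => Q s * deriv ψ (B s)) (𝓝[≠] t) (𝓝 (Q t * deriv ψ (B t))) :=
      (hQ.continuousAt.mul c1).tendsto.mono_left nhdsWithin_le_nhds
    have h5 : Tendsto (fun s => Zn ψ H (-1) (B s)) (𝓝[≠] t) (𝓝 (Zn ψ H (-1) (B t))) :=
      (c2 (-1)).tendsto.mono_left nhdsWithin_le_nhds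
    exact tendsto_nhds_unique (h4.congr' (h3.mono fun s hs => hs.2)) h5
  have h4 := eventually_nhdsWithin_iff.1 h3
  filter_upwards [h4] with s hs
  by_cases hst : s = t
  · rw [hst]; exact ⟨e1, e2⟩
  · exact hs hst

lemma mero_ne {f : ℂ → ℂ} {c : ℂ} {R : ℝ} (hf : MeromorphicOn f (ball c R)) {t₀ : ℂ}
    (ht₀ : t₀ ∈ ball c R) (hne : ∃ᶠ t in 𝓝[≠] t₀, f t ≠ 0) :
    ∀ t ∈ ball c R, ∀ᶠ s in 𝓝[≠] t, f s ≠ 0 := by
  have hc : IsConnected (ball c R) := ⟨⟨t₀, ht₀⟩, (convex_ball c R).isPreconnected⟩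
  have h1 := (hf.exists_meromorphicOrderAt_ne_top_iff_forall hc).1 ⟨⟨t₀, ht₀⟩, by
    intro h2
    rw [meromorphicOrderAt_eq_top_iff] at h2
    exact hne (h2.mono fun x hx h => h hx)⟩
  intro t ht
  exact (meromorphicOrderAt_ne_top_iff_eventually_ne_zero (hf t ht)).1 (h1 ⟨t, ht⟩)

/-- near every point of the disc everything is fine off the point -/
def Good (P Q : ℂ → ℂ) (x : ℂ) (ε : ℝ) : Prop :=
  ∀ t ∈ ball x ε, t ≠ x → AnalyticAt ℂ P t ∧ AnalyticAt ℂ Q t ∧ deriv P t ≠ 0 ∧ deriv Q t ≠ 0 ∧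
    deriv (fun t => deriv P t / deriv Q t) t ≠ 0

lemma good {h : ℝ} {ψ H P Q B : ℂ → ℂ} (hψ : DifferentiableOn ℂ ψ (Sg h))
    (hH : DifferentiableOn ℂ H (Sg h)) {c₀ : ℂ} (hc : c₀ ≠ 0) (rel : Rel h ψ H c₀) {c : ℂ} {R : ℝ}
    (hR : 0 < R) (hP : MeromorphicOn P (ball c R)) (hQ : MeromorphicOn Q (ball c R))
    (hA : Adm h ψ H P Q B c) (hnc : ∃ᶠ t in 𝓝 c, deriv B t ≠ 0) :
    ∀ x ∈ ball c R, ∃ ε > 0, ball x ε ⊆ ball c R ∧ Good P Q x ε := by
  have hcb : c ∈ ball c R := mem_ball_self hR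
  have hPd : MeromorphicOn (deriv P) (ball c R) := fun t ht => (hP t ht).deriv
  have hQd : MeromorphicOn (deriv Q) (ball c R) := fun t ht => (hQ t ht).deriv
  have hM : MeromorphicOn (fun t => deriv P t / deriv Q t) (ball c R) := fun t ht =>
    (hPd t ht).div (hQd t ht)
  have hMd : MeromorphicOn (deriv fun t => deriv P t / deriv Q t) (ball c R) := fun t ht =>
    (hM t ht).deriv
  have hB' : ∀ᶠ t in 𝓝[≠] c, deriv B t ≠ 0 := by
    rcases hA.1.deriv.eventually_eq_zero_or_eventually_ne_zero with h1 | h1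
    · exact absurd h1 (fun h2 => hnc (h2.mono fun t ht h3 => h3 ht))
    · exact h1
  have hev : ∀ᶠ t in 𝓝[≠] c, deriv P t ≠ 0 ∧ deriv Q t ≠ 0 ∧
      deriv (fun t => deriv P t / deriv Q t) t ≠ 0 := by
    have h1 : ∀ᶠ t in 𝓝[≠] c, Adm h ψ H P Q B t := hA.eventually.filter_mono nhdsWithin_le_nhds
    filter_upwards [h1, hB', (hP c hcb).eventually_analyticAt, (hQ c hcb).eventually_analyticAt]
      with t h2 h3 h4 h5
    have h6 := h2.full hψ hH h4 h5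
    have h7 := (local_id hψ hH hc rel h2.1 h2.2.1 h6).self_of_nhds
    obtain ⟨i1, i2, i3, i4, i5, i6, i7⟩ := h7
    have j1 : deriv P t ≠ 0 := by
      rw [i6.deriv]
      exact mul_ne_zero (div_ne_zero (mul_ne_zero (neg_ne_zero.2 hc) (Complex.exp_ne_zero _))
        (pow_ne_zero 2 i3)) h3
    have j2 : deriv Q t ≠ 0 := by
      rw [i7.deriv]
      exact mul_ne_zero (div_ne_zero (mul_ne_zero (neg_ne_zero.2 hc) (Complex.exp_ne_zero _))
        (pow_ne_zero 2 i3)) h3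
    have j3 : ∀ᶠ s in 𝓝 t, deriv P s ≠ 0 := h4.deriv.continuousAt.eventually_ne j1
    have h8 := (local_id2 hψ hH hc rel h2.1 h2.2.1 h6 j3).self_of_nhds
    refine ⟨j1, j2, fun h9 => ?_⟩
    have h10 := h8.2.2.1
    unfold Ff at h10
    rw [h9, zero_div, zero_pow (by norm_num), mul_zero, zero_div] at h10
    exact pow_ne_zero 6 h3 h10.symm
  have f1 := mero_ne hPd hcb (hev.mono fun t ht => ht.1).frequently
  have f2 := mero_ne hQd hcb (hev.mono fun t ht => ht.2.1).frequently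
  have f3 := mero_ne hMd hcb (hev.mono fun t ht => ht.2.2).frequently
  intro x hx
  have h1 : ∀ᶠ t in 𝓝[≠] x, AnalyticAt ℂ P t ∧ AnalyticAt ℂ Q t ∧ deriv P t ≠ 0 ∧
      deriv Q t ≠ 0 ∧ deriv (fun t => deriv P t / deriv Q t) t ≠ 0 := by
    filter_upwards [(hP x hx).eventually_analyticAt, (hQ x hx).eventually_analyticAt, f1 x hx,
      f2 x hx, f3 x hx] with t h1 h2 h3 h4 h5
    exact ⟨h1, h2, h3, h4, h5⟩
  have h2 := (eventually_nhdsWithin_iff.1 h1).and (isOpen_ball.mem_nhds hx)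
  obtain ⟨ε, hε, hεε⟩ := Metric.eventually_nhds_iff_ball.1 h2
  exact ⟨ε, hε, fun t ht => (hεε t ht).2, fun t ht htx => (hεε t ht).1 htx⟩

/-- local step -/
lemma step {h : ℝ} {ψ H P Q f : ℂ → ℂ} (hψ : DifferentiableOn ℂ ψ (Sg h))
    (hH : DifferentiableOn ℂ H (Sg h)) {c₀ : ℂ} (hc : c₀ ≠ 0) (rel : Rel h ψ H c₀)
    (hNB : NB h ψ H) {x : ℂ} {ε : ℝ} (hε : 0 < ε) (hg : Good P Q x ε) {t₀ : ℂ}
    (ht₀ : t₀ ∈ ball x ε) (hne : t₀ ≠ x) (hA : Adm h ψ H P Q f t₀) :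
    ∃ β : ℂ → ℂ, DifferentiableOn ℂ β (ball x ε) ∧ (∀ t ∈ ball x ε, Adm h ψ H P Q β t) ∧
      ∀ᶠ t in 𝓝 t₀, β t = f t := by
  have h0 := hg t₀ ht₀ hne
  obtain ⟨β, b1, b2, b3, b4⟩ := ext_ball hψ hH hc rel hNB hε (fun t ht htn => (hg t ht htn).1)
    (fun t ht htn => (hg t ht htn).2.1) (fun t ht htn => (hg t ht htn).2.2.1)
    (fun t ht htn => (hg t ht htn).2.2.2.1) (fun t ht htn => (hg t ht htn).2.2.2.2) ht₀ hne hA.1
    hA.2.1 (hA.full hψ hH h0.1 h0.2.1)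
  refine ⟨β, b1, fun t ht => ⟨b1.analyticAt (isOpen_ball.mem_nhds ht), b2 t ht, ?_⟩, b4⟩
  by_cases htx : t = x
  · rw [htx, eventually_nhdsWithin_iff]
    filter_upwards [ball_mem_nhds x hε] with s hs hsx
    exact b3 s hs hsx
  · refine Filter.Eventually.filter_mono nhdsWithin_le_nhds ?_
    filter_upwards [isOpen_ball.mem_nhds ht, isOpen_ne.mem_nhds htx] with s hs hsx
    exact b3 s hs hsx

/-- extensions are admissible -/
lemma adm_of_ext {h : ℝ} {ψ H P Q B : ℂ → ℂ} (hψ : DifferentiableOn ℂ ψ (Sg h))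
    (hH : DifferentiableOn ℂ H (Sg h)) {c₀ : ℂ} (hc : c₀ ≠ 0) (rel : Rel h ψ H c₀)
    (hNB : NB h ψ H) {c : ℂ} {R : ℝ}
    (hgood : ∀ x ∈ ball c R, ∃ ε > 0, ball x ε ⊆ ball c R ∧ Good P Q x ε)
    (hA : Adm h ψ H P Q B c) {r : ℝ} (hr : 0 < r) (hrR : r ≤ R) {f : ℂ → ℂ}
    (hf : DifferentiableOn ℂ f (ball c r)) (hfB : ∀ᶠ t in 𝓝 c, f t = B t) :
    ∀ t ∈ ball c r, Adm h ψ H P Q f t := by
  set Λ : Set ℂ := {t | ∀ᶠ s in 𝓝 t, Adm h ψ H P Q f s} with hΛ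
  have hΛo : IsOpen Λ := isOpen_setOfPred_eventually_nhds
  have hΛm : ∀ t, Adm h ψ H P Q f t → t ∈ Λ := fun t ht => ht.eventually
  have hcr : c ∈ ball c r := mem_ball_self hr
  have start : c ∈ Λ := by
    refine hΛm c ⟨hf.analyticAt (ball_mem_nhds c hr), ?_, ?_⟩
    · rw [hfB.self_of_nhds]; exact hA.2.1
    · filter_upwards [hA.2.2, hfB.filter_mono nhdsWithin_le_nhds] with s h1 h2
      rw [h2]; exact h1
  have key : closure Λ ∩ ball c r ⊆ Λ := by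
    rintro x ⟨hxc, hxr⟩
    obtain ⟨ε, hε, -, hg⟩ := hgood x (ball_subset_ball hrR hxr)
    have hnb : ball x ε ∩ ball c r ∈ 𝓝 x := (isOpen_ball.inter isOpen_ball).mem_nhds
      ⟨mem_ball_self hε, hxr⟩
    obtain ⟨t₀, ht₀, ht₀b⟩ : ∃ t ∈ Λ, t ∈ ball x ε ∩ ball c r :=
      ((mem_closure_iff_frequently.1 hxc).and_eventually hnb).exists
    by_cases htx : t₀ = x
    · rw [← htx]; exact ht₀
    · obtain ⟨β, b1, b2, b3⟩ := step hψ hH hc rel hNB hε hg ht₀b.1 htx ht₀.self_of_nhds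
      have hKo : IsOpen (ball x ε ∩ ball c r) := isOpen_ball.inter isOpen_ball
      have heq := AnalyticOnNhd.eqOn_of_preconnected_of_eventuallyEq (𝕜 := ℂ)
        (f := f) (g := β) (U := ball x ε ∩ ball c r)
        ((hf.mono inter_subset_right).analyticOnNhd hKo)
        ((b1.mono inter_subset_left).analyticOnNhd hKo)
        ((convex_ball _ _).inter (convex_ball _ _)).isPreconnected ht₀b
        (b3.mono fun t ht => ht.symm)
      have hev : ∀ᶠ t in 𝓝 x, f t = β t := by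
        filter_upwards [hnb] with t ht
        exact heq ht
      have hβ := b2 x (mem_ball_self hε)
      refine hΛm x ⟨hf.analyticAt (isOpen_ball.mem_nhds hxr), ?_, ?_⟩
      · rw [hev.self_of_nhds]; exact hβ.2.1
      · filter_upwards [hβ.2.2, hev.filter_mono nhdsWithin_le_nhds] with s h1 h2
        rw [h2]; exact h1
  have hsub : ball c r ⊆ Λ :=
    (convex_ball c r).isPreconnected.subset_of_closure_inter_subset hΛo ⟨c, hcr, start⟩ key
  exact fun t ht => (hsub ht).self_of_nhds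

/-- **(DISC)** the label extends to every disc on which the vertex is meromorphic, with values in
the open strip -/
theorem disc {h : ℝ} {ψ H P Q B : ℂ → ℂ} (hψ : DifferentiableOn ℂ ψ (Sg h))
    (hH : DifferentiableOn ℂ H (Sg h)) {c₀ : ℂ} (hc : c₀ ≠ 0) (rel : Rel h ψ H c₀)
    (hNB : NB h ψ H) {c : ℂ} {R : ℝ} (hR : 0 < R) (hP : MeromorphicOn P (ball c R))
    (hQ : MeromorphicOn Q (ball c R)) (hA : Adm h ψ H P Q B c)
    (hnc : ∃ᶠ t in 𝓝 c, deriv B t ≠ 0) :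
    ∃ F : ℂ → ℂ, DifferentiableOn ℂ F (ball c R) ∧ (∀ t ∈ ball c R, Adm h ψ H P Q F t) ∧
      ∀ᶠ t in 𝓝 c, F t = B t := by
  have hgood := good hψ hH hc rel hR hP hQ hA hnc
  obtain ⟨F, hF1, hF2⟩ := disc_ext hR hA.1 (by
    intro r hr hrR f hf hfB x hx
    have hAf := adm_of_ext hψ hH hc rel hNB hgood hA hr hrR.le hf hfB
    have hxR : x ∈ ball c R := by
      rw [mem_ball, mem_sphere.1 hx]; exact hrR
    obtain ⟨ε, hε, -, hg⟩ := hgood x hxR
    have hxcl : x ∈ closure (ball c r) := by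
      rw [closure_ball c hr.ne']
      exact sphere_subset_closedBall hx
    obtain ⟨t₀, ht₀, ht₀b⟩ : ∃ t ∈ ball c r, t ∈ ball x ε :=
      ((mem_closure_iff_frequently.1 hxcl).and_eventually (ball_mem_nhds x hε)).exists
    have htx : t₀ ≠ x := by
      rintro rfl
      rw [mem_ball, mem_sphere.1 hx] at ht₀
      exact lt_irrefl _ ht₀
    obtain ⟨β, b1, b2, b3⟩ := step hψ hH hc rel hNB hε hg ht₀b htx (hAf t₀ ht₀)
    refine ⟨ε, hε, β, b1, ?_⟩
    have hKo : IsOpen (ball x ε ∩ ball c r) := isOpen_ball.inter isOpen_ball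
    exact AnalyticOnNhd.eqOn_of_preconnected_of_eventuallyEq (𝕜 := ℂ)
      (f := β) (g := f) (U := ball x ε ∩ ball c r)
      ((b1.mono inter_subset_left).analyticOnNhd hKo)
      ((hf.mono inter_subset_right).analyticOnNhd hKo)
      ((convex_ball _ _).inter (convex_ball _ _)).isPreconnected ⟨ht₀b, ht₀⟩ b3)
  exact ⟨F, hF1, adm_of_ext hψ hH hc rel hNB hgood hA hR le_rfl hF1 hF2, hF2⟩

end Crest.Agent.R102.BEnd802
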