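import Mathlib
import Crest.Agent.R102.Mer_88
import Crest.Agent.R102.BEndA_802

/-!
Row 102, (END): the interface `JX` = joint extension of the label.
-/

set_option autoImplicit false

open Set Filter Topology Metric

noncomputable section

namespace Crest.Agent.R102.BEnd802

open Crest.Agent.R102.Mer88

/-- **joint extension of the label** at the leaf `w0`: if the label `B` is holomorphic on
`ball c r × ball w0 δ` with values in `V` and the vertex `γ(B) = (P, Q)` is meromorphic on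
`ball c R × ball w0 δ`, then `B` extends to `ball c R' × ball w0 δ'`, `R' < R`. -/
def JX (V : Set ℂ) (θ H : ℂ → ℂ) (w0 : ℂ) : Prop :=
  ∀ (c : ℂ) (r R R' δ : ℝ) (B P Q : ℂ × ℂ → ℂ), 0 < r → r < R' → R' < R → 0 < δ →
    DifferentiableOn ℂ B (ball c r ×ˢ ball w0 δ) → (∀ x ∈ ball c r ×ˢ ball w0 δ, B x ∈ V) →
    (∀ w ∈ ball w0 δ, ∃ t ∈ ball c r, deriv (fun t => B (t, w)) t ≠ 0) →
    (∀ x ∈ ball c R ×ˢ ball w0 δ, MerAt P x ∧ MerAt Q x) →
    (∀ x ∈ ball c r ×ˢ ball w0 δ,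
      Rep P (fun x => Zn θ H 1 (B x)) (fun x => deriv θ (B x)) x ∧
      Rep Q (fun x => Zn θ H (-1) (B x)) (fun x => deriv θ (B x)) x) →
    ∃ δ' > 0, δ' ≤ δ ∧ ∃ Bt : ℂ × ℂ → ℂ, DifferentiableOn ℂ Bt (ball c R' ×ˢ ball w0 δ') ∧
      (∀ x ∈ ball c R' ×ˢ ball w0 δ', Bt x ∈ V) ∧ EqOn Bt B (ball c r ×ˢ ball w0 δ')

end Crest.Agent.R102.BEnd802
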