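import Mathlib
import Crest.Agent.R102.HartR_948

/-!
Row 102, Case B, (END): **joint holomorphic extension** from the leaves `w ≠ w0`.
Convention of `HartR_948`: `f (w, t)`.
-/

set_option autoImplicit false

open Set Filter Topology Metric

noncomputable section

namespace Crest.Agent.R102.Joint802

open Crest.Agent.R102.M948

/-- uniform coefficient bounds give a joint extension -/
theorem joint_of_coef {f : ℂ × ℂ → ℂ} {w0 t0 : ℂ} {δ r0 K R R' : ℝ} (hδ : 0 < δ) (hr0 : 0 < r0)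
    (hf : DifferentiableOn ℂ f (ball w0 δ ×ˢ ball t0 r0)) (hR'0 : 0 < R') (hR' : R' < R)
    (hK : ∀ n, ∀ w ∈ ball w0 δ, ‖coefT f t0 n w‖ ≤ K * (1 / R) ^ n) :
    ∃ G : ℂ × ℂ → ℂ, DifferentiableOn ℂ G (ball w0 δ ×ˢ ball t0 R') ∧
      ∀ w ∈ ball w0 δ, ∀ t ∈ ball t0 (min r0 R'), G (w, t) = f (w, t) := by
  have hR0 : 0 < R := hR'0.trans hR'
  refine ⟨fun p => ∑' n, coefT f t0 n p.1 * (p.2 - t0) ^ n, ?_, ?_⟩
  · have hopen : IsOpen (ball w0 δ ×ˢ ball t0 R') := isOpen_ball.prod isOpen_ball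
    have hK0 : 0 ≤ K := by
      have := (norm_nonneg _).trans (hK 0 w0 (mem_ball_self hδ))
      simpa using this
    have hsumm : Summable (fun n : ℕ => K * (R' / R) ^ n) :=
      (summable_geometric_of_lt_one (by positivity) ((div_lt_one hR0).2 hR')).mul_left _
    have hbd : ∀ n : ℕ, ∀ p ∈ ball w0 δ ×ˢ ball t0 R',
        ‖coefT f t0 n p.1 * (p.2 - t0) ^ n‖ ≤ K * (R' / R) ^ n := by
      intro n p hp
      have h1 := hK n p.1 hp.1
      have h2 : ‖p.2 - t0‖ ≤ R' := by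
        have := hp.2; rw [mem_ball, dist_eq_norm] at this; exact this.le
      rw [norm_mul, norm_pow]
      calc ‖coefT f t0 n p.1‖ * ‖p.2 - t0‖ ^ n ≤ K * (1 / R) ^ n * R' ^ n := by gcongr
        _ = K * (R' / R) ^ n := by rw [mul_assoc, ← mul_pow]; congr 2; ring
    refine (Crest.Agent.R266.SCV.analyticOnNhd_of_tendstoLocallyUniformlyOn hopen
      (tendstoUniformlyOn_tsum_nat hsumm hbd).tendstoLocallyUniformlyOn
      (Eventually.of_forall (fun N => ?_))).differentiableOn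
    refine DifferentiableOn.fun_sum (fun n _ => ?_)
    refine DifferentiableOn.mul ?_ (by fun_prop)
    exact (differentiableOn_coefT isOpen_ball hr0 hf n).comp
      (differentiable_fst.differentiableOn) (fun p hp => hp.1)
  · intro w hw t ht
    have h1 := Complex.hasSum_taylorSeries_on_ball (slice_differentiableOn hf hw)
      (z := t) (ball_subset_ball (min_le_left _ _) ht)
    have he : (fun n => coefT f t0 n w * (t - t0) ^ n) =
        (fun n : ℕ => (n.factorial : ℂ)⁻¹ • (t - t0) ^ n •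
          iteratedDeriv n (fun s => f (w, s)) t0) := by
      ext n
      unfold coefT; simp only [smul_eq_mul]; ring
    show ∑' n, coefT f t0 n w * (t - t0) ^ n = f (w, t)
    rw [he]
    exact h1.tsum_eq

/-- **joint extension from the leaves `w ≠ w0`** -/
theorem joint_ext {f : ℂ × ℂ → ℂ} {w0 t0 : ℂ} {δ r0 M R R' : ℝ} (hδ : 0 < δ) (hr0 : 0 < r0)
    (hf : DifferentiableOn ℂ f (ball w0 δ ×ˢ ball t0 r0)) (hR'0 : 0 < R') (hR' : R' < R)
    (hF : ∀ w ∈ ball w0 δ, w ≠ w0 → ∃ g : ℂ → ℂ, DifferentiableOn ℂ g (ball t0 R) ∧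
      (∀ t ∈ ball t0 R, ‖g t‖ ≤ M) ∧ ∀ᶠ t in 𝓝 t0, g t = f (w, t)) :
    ∃ G : ℂ × ℂ → ℂ, DifferentiableOn ℂ G (ball w0 δ ×ˢ ball t0 R') ∧
      ∀ w ∈ ball w0 δ, ∀ t ∈ ball t0 (min r0 R'), G (w, t) = f (w, t) := by
  obtain ⟨R1, hR1a, hR1b⟩ := exists_between hR'
  have hR10 : 0 < R1 := hR'0.trans hR1a
  have h1 : ∀ n, ∀ w ∈ ball w0 δ, w ≠ w0 → ‖coefT f t0 n w‖ ≤ M * (1 / R1) ^ n := by
    intro n w hw hwn
    obtain ⟨g, hg, hgM, hgf⟩ := hF w hw hwn
    have h2 : coefT f t0 n w = coefT (fun p => g p.2) t0 n w := by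
      unfold coefT
      congr 1
      have h3 : (fun s => f (w, s)) =ᶠ[𝓝 t0] (fun s => g s) := by
        filter_upwards [hgf] with s hs; exact hs.symm
      exact h3.iteratedDeriv_eq n
    rw [h2]
    exact norm_coefT_le (f := fun p => g p.2) (t0 := t0) (w := w) (r := R1) (M := M) hR10
      ((hg.mono (closedBall_subset_ball hR1b)).diffContOnCl_ball (le_refl _))
      (fun t ht => hgM t ((closedBall_subset_ball hR1b) (sphere_subset_closedBall ht))) n
  refine joint_of_coef (K := M) (R := R1) hδ hr0 hf hR'0 hR1a ?_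
  intro n w hw
  by_cases hwn : w = w0
  · rw [hwn]
    have hc : ContinuousAt (coefT f t0 n) w0 :=
      ((differentiableOn_coefT isOpen_ball hr0 hf n).differentiableAt
        (ball_mem_nhds w0 hδ)).continuousAt
    have h2 : Tendsto (fun w => ‖coefT f t0 n w‖) (𝓝[≠] w0) (𝓝 ‖coefT f t0 n w0‖) :=
      (hc.norm.tendsto).mono_left nhdsWithin_le_nhds
    refine le_of_tendsto h2 ?_
    filter_upwards [self_mem_nhdsWithin, nhdsWithin_le_nhds (ball_mem_nhds w0 hδ)] with v hv hv2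
    exact h1 n v hv2 hv
  · exact h1 n w hw hwn

end Crest.Agent.R102.Joint802
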