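import Mathlib

/-!
Row 102, [H3]: **differential finiteness**.  A field `L` of finite transcendence degree over a field
`k` of characteristic zero with finitely many derivations: every finite set is contained in a
finitely generated field, and in a finitely generated `k`-algebra, stable under the derivations.
-/

set_option autoImplicit false

open Set

noncomputable section

namespace Crest.Agent.R102.DF389

variable {k L : Type*} [Field k] [CharZero k] [Field L] [Algebra k L]

omit [CharZero k] in
/-- a derivation maps `k(B)` into any field containing `B` and `D B` -/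
theorem der_adjoin (D : Derivation k L L) (B : Set L) (F : IntermediateField k L)
    (hB : B ⊆ F) (hD : ∀ b ∈ B, D b ∈ F) {x : L} (hx : x ∈ IntermediateField.adjoin k B) :
    D x ∈ F := by
  have hle : IntermediateField.adjoin k B ≤ F := IntermediateField.adjoin_le_iff.2 hB
  induction hx using IntermediateField.adjoin_induction with
  | mem x hx => exact hD x hx
  | algebraMap x => rw [Derivation.map_algebraMap]; exact F.zero_mem
  | add x y hx hy ihx ihy => rw [map_add]; exact F.add_mem ihx ihy
  | inv x hx ih =>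
    rw [Derivation.leibniz_inv]
    refine F.mul_mem ?_ ih
    exact F.neg_mem (pow_mem (F.inv_mem (hle hx)) 2)
  | mul x y hx hy ihx ihy =>
    rw [Derivation.leibniz]
    exact F.add_mem (F.mul_mem (hle hx) ihy) (F.mul_mem (hle hy) ihx)

/-- a derivation of `L` maps an element of `F` algebraic over `F₀ ⊆ F`, `D F₀ ⊆ F`, into `F` -/
theorem der_algebraic (D : Derivation k L L) (F₀ F : IntermediateField k L) (hle : F₀ ≤ F)
    (hD : ∀ b ∈ F₀, D b ∈ F) {x : L} (hxF : x ∈ F) (hx : IsAlgebraic F₀ x) : D x ∈ F := by
  classical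
  have hint : IsIntegral F₀ x := hx.isIntegral
  set P := minpoly F₀ x with hP
  -- `0 = D (P(x)) = (D P)(x) + P'(x) D x`
  have hev : ∑ i ∈ Finset.range (P.natDegree + 1), ((P.coeff i : F₀) : L) * x ^ i = 0 := by
    have := minpoly.aeval F₀ x
    rw [Polynomial.aeval_eq_sum_range] at this
    rw [← this]
    exact Finset.sum_congr rfl fun i _ => by rw [Algebra.smul_def]; rfl
  have h1 := congrArg D hev
  rw [map_sum, map_zero] at h1
  have h2 : ∀ i ∈ Finset.range (P.natDegree + 1), D (((P.coeff i : F₀) : L) * x ^ i) =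
      x ^ i * D ((P.coeff i : F₀) : L) +
        (((P.coeff i : F₀) : L) * ((i : L) * x ^ (i - 1))) * D x := by
    intro i _
    rw [Derivation.leibniz, Derivation.leibniz_pow]
    simp only [smul_eq_mul, nsmul_eq_mul]
    ring
  rw [Finset.sum_congr rfl h2, Finset.sum_add_distrib, ← Finset.sum_mul] at h1
  set q : L := ∑ i ∈ Finset.range (P.natDegree + 1),
    ((P.coeff i : F₀) : L) * ((i : L) * x ^ (i - 1)) with hq
  have hq' : q = Polynomial.aeval x (Polynomial.derivative P) := by
    rw [Polynomial.derivative_apply, Polynomial.sum_over_range _ (by simp), map_sum, hq]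
    refine Finset.sum_congr rfl fun i _ => ?_
    rw [map_mul, map_pow, Polynomial.aeval_X, Polynomial.aeval_C, map_mul, map_natCast, mul_assoc]
    rfl
  have hq0 : q ≠ 0 := by
    rw [hq']
    have hsep : P.Separable := (minpoly.irreducible hint).separable
    exact hsep.aeval_derivative_ne_zero (minpoly.aeval F₀ x)
  have hqF : q ∈ F := by
    refine sum_mem fun i _ => F.mul_mem (hle (P.coeff i).2) (F.mul_mem ?_ (pow_mem hxF _))
    exact natCast_mem F i
  have h3 : D x = - (∑ i ∈ Finset.range (P.natDegree + 1), x ^ i * D ((P.coeff i : F₀) : L)) * q⁻¹ := by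
    field_simp
    linear_combination h1
  rw [h3]
  refine F.mul_mem (F.neg_mem (sum_mem fun i _ => F.mul_mem (pow_mem hxF _) (hD _ (P.coeff i).2)))
    (F.inv_mem hqF)

/-- **differential finiteness, fields**: `M` a field stable under the derivations `D i`, algebraic
over `k(s)`, `s ⊆ M` finite.  Then every finite `S ⊆ M` lies in a field `k(T)`, `T ⊆ M` finite,
stable under the `D i`. -/
theorem exists_field {ι : Type*} [Finite ι] (D : ι → Derivation k L L)
    (M : IntermediateField k L) (hM : ∀ i, ∀ x ∈ M, D i x ∈ M) (s : Finset L)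
    (hs : (s : Set L) ⊆ M) (halg : ∀ x ∈ M, IsAlgebraic (IntermediateField.adjoin k (s : Set L)) x)
    (S : Finset L) (hS : (S : Set L) ⊆ M) :
    ∃ T : Finset L, S ⊆ T ∧ (T : Set L) ⊆ M ∧
      ∀ i, ∀ x ∈ IntermediateField.adjoin k (T : Set L),
        D i x ∈ IntermediateField.adjoin k (T : Set L) := by
  classical
  cases nonempty_fintype ι
  set T : Finset L := S ∪ s ∪ Finset.univ.biUnion fun i => s.image (D i) with hT
  have h1 : S ⊆ T := fun x hx => Finset.mem_union_left _ (Finset.mem_union_left _ hx)
  have h2 : s ⊆ T := fun x hx => Finset.mem_union_left _ (Finset.mem_union_right _ hx)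
  have h3 : ∀ i, ∀ x ∈ s, D i x ∈ T := fun i x hx =>
    Finset.mem_union_right _ (Finset.mem_biUnion.2 ⟨i, Finset.mem_univ _,
      Finset.mem_image_of_mem _ hx⟩)
  have hTM : (T : Set L) ⊆ M := by
    intro x hx
    rw [Finset.mem_coe, hT, Finset.mem_union, Finset.mem_union, Finset.mem_biUnion] at hx
    rcases hx with (hx | hx) | ⟨i, -, hx⟩
    · exact hS hx
    · exact hs hx
    · obtain ⟨y, hy, rfl⟩ := Finset.mem_image.1 hx
      exact hM i y (hs hy)
  have hle : IntermediateField.adjoin k (s : Set L) ≤ IntermediateField.adjoin k (T : Set L) :=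
    IntermediateField.adjoin.mono k _ _ (by exact_mod_cast h2)
  have hTs : (T : Set L) ⊆ IntermediateField.adjoin k (T : Set L) :=
    IntermediateField.subset_adjoin k _
  refine ⟨T, h1, hTM, fun i x hx => ?_⟩
  have hxM : x ∈ M := (IntermediateField.adjoin_le_iff.2 hTM) hx
  refine der_algebraic (D i) (IntermediateField.adjoin k (s : Set L))
    (IntermediateField.adjoin k (T : Set L)) hle (fun b hb => ?_) hx (halg x hxM)
  exact der_adjoin (D i) (s : Set L) _ (fun y hy => hTs (h2 hy)) (fun y hy => hTs (h3 i y hy)) hb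

omit [CharZero k] in
/-- every element of `k(T)` is a quotient of elements of `k[T]` -/
theorem mem_adjoin_div {T : Set L} {x : L} (hx : x ∈ IntermediateField.adjoin k T) :
    ∃ a ∈ Algebra.adjoin k T, ∃ b ∈ Algebra.adjoin k T, b ≠ 0 ∧ x = a / b := by
  rw [IntermediateField.mem_adjoin_iff_div] at hx
  obtain ⟨r, hr, t, ht, rfl⟩ := hx
  rcases eq_or_ne t 0 with rfl | h0
  · exact ⟨0, Subalgebra.zero_mem _, 1, Subalgebra.one_mem _, one_ne_zero, by simp⟩
  · exact ⟨r, hr, t, ht, h0, rfl⟩

omit [CharZero k] in
/-- a field `k(T)`, `T` finite, stable under the `D i`, contains a finitely generated algebra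
`k[T, 1/b]` stable under the `D i` -/
theorem exists_algebra_of_field {ι : Type*} [Finite ι] (D : ι → Derivation k L L) (T : Finset L)
    (hT : ∀ i, ∀ x ∈ T, D i x ∈ IntermediateField.adjoin k (T : Set L)) :
    ∃ b : L, b ≠ 0 ∧ b ∈ Algebra.adjoin k (T : Set L) ∧
      ∀ i, ∀ x ∈ Algebra.adjoin k (insert b⁻¹ (T : Set L)),
        D i x ∈ Algebra.adjoin k (insert b⁻¹ (T : Set L)) := by
  classical
  cases nonempty_fintype ι
  -- common denominator
  have h1 : ∀ i, ∀ x ∈ T, ∃ b ∈ Algebra.adjoin k (T : Set L), b ≠ 0 ∧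
      b * D i x ∈ Algebra.adjoin k (T : Set L) := by
    intro i x hx
    obtain ⟨a, ha, b, hb, hb0, h⟩ := mem_adjoin_div (hT i x hx)
    refine ⟨b, hb, hb0, ?_⟩
    rw [h, mul_div_cancel₀ _ hb0]
    exact ha
  choose! β hβ1 hβ2 hβ3 using h1
  set b : L := ∏ i, ∏ x ∈ T, β i x with hb
  have hb0 : b ≠ 0 := Finset.prod_ne_zero_iff.2 fun i _ => Finset.prod_ne_zero_iff.2 fun x hx =>
    hβ2 i x hx
  have hbA : b ∈ Algebra.adjoin k (T : Set L) :=
    prod_mem fun i _ => prod_mem fun x hx => hβ1 i x hx
  have hbD : ∀ i, ∀ x ∈ T, b * D i x ∈ Algebra.adjoin k (T : Set L) := by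
    intro i x hx
    have e1 : b = (∏ j ∈ Finset.univ.erase i, ∏ x ∈ T, β j x) *
        ((∏ y ∈ T.erase x, β i y) * β i x) := by
      rw [hb, ← Finset.prod_erase_mul _ _ (Finset.mem_univ i), Finset.prod_erase_mul _ _ hx]
    rw [e1, mul_assoc, mul_assoc]
    refine mul_mem (prod_mem fun j _ => prod_mem fun y hy => hβ1 j y hy) (mul_mem ?_ (hβ3 i x hx))
    exact prod_mem fun y hy => hβ1 i y (Finset.mem_of_mem_erase hy)
  set A := Algebra.adjoin k (insert b⁻¹ (T : Set L)) with hA
  have hTA : Algebra.adjoin k (T : Set L) ≤ A := Algebra.adjoin_mono (subset_insert _ _)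
  have hbi : b⁻¹ ∈ A := Algebra.subset_adjoin (mem_insert _ _)
  have hDT : ∀ i, ∀ x ∈ T, D i x ∈ A := by
    intro i x hx
    have : D i x = b⁻¹ * (b * D i x) := by field_simp
    rw [this]
    exact mul_mem hbi (hTA (hbD i x hx))
  have hDA : ∀ i, ∀ x ∈ Algebra.adjoin k (T : Set L), D i x ∈ A := by
    intro i x hx
    induction hx using Algebra.adjoin_induction with
    | mem x hx => exact hDT i x hx
    | algebraMap r => rw [Derivation.map_algebraMap]; exact zero_mem _
    | add x y _ _ hx hy => rw [map_add]; exact add_mem hx hy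
    | mul x y hx' hy' hx hy =>
      rw [Derivation.leibniz]
      exact add_mem (mul_mem (hTA hx') hy) (mul_mem (hTA hy') hx)
  refine ⟨b, hb0, hbA, fun i x hx => ?_⟩
  induction hx using Algebra.adjoin_induction with
  | mem x hx =>
    rcases hx with rfl | hx
    · rw [Derivation.leibniz_inv]
      exact mul_mem (neg_mem (pow_mem hbi 2)) (hDA i b hbA)
    · exact hDT i x hx
  | algebraMap r => rw [Derivation.map_algebraMap]; exact zero_mem _
  | add x y _ _ hx hy => rw [map_add]; exact add_mem hx hy
  | mul x y hx' hy' hx hy =>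
    rw [Derivation.leibniz]
    exact add_mem (mul_mem hx' hy) (mul_mem hy' hx)

/-- **DF = differential finiteness, algebras** -/
theorem exists_algebra {ι : Type*} [Finite ι] (D : ι → Derivation k L L)
    (M : IntermediateField k L) (hM : ∀ i, ∀ x ∈ M, D i x ∈ M) (s : Finset L)
    (hs : (s : Set L) ⊆ M) (halg : ∀ x ∈ M, IsAlgebraic (IntermediateField.adjoin k (s : Set L)) x)
    (S : Finset L) (hS : (S : Set L) ⊆ M) :
    ∃ A : Subalgebra k L, A.FG ∧ (S : Set L) ⊆ A ∧ (A : Set L) ⊆ M ∧ ∀ i, ∀ x ∈ A, D i x ∈ A := by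
  classical
  obtain ⟨T, hST, hTM, hT⟩ := exists_field D M hM s hs halg S hS
  obtain ⟨b, hb0, hbA, hb⟩ := exists_algebra_of_field D T fun i x hx =>
    hT i x (IntermediateField.subset_adjoin k _ hx)
  refine ⟨Algebra.adjoin k (insert b⁻¹ (T : Set L)), ⟨insert b⁻¹ T, by simp⟩,
    fun x hx => Algebra.subset_adjoin (mem_insert_of_mem _ (hST hx)), ?_, hb⟩
  have h1 : Algebra.adjoin k (insert b⁻¹ (T : Set L)) ≤ M.toSubalgebra := by
    refine Algebra.adjoin_le ?_
    rintro x (rfl | hx)
    · exact M.inv_mem (Algebra.adjoin_le (S := M.toSubalgebra) hTM hbA)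
    · exact hTM hx
  exact fun x hx => h1 hx

omit [CharZero k] in
/-- an intermediate field algebraic over some `k(s')`, `s'` finite (not in `M`), is algebraic over
`k(s)` with `s ⊆ M` finite -/
theorem exists_basis (M : IntermediateField k L) (s' : Finset L)
    (h : ∀ x ∈ M, IsAlgebraic (IntermediateField.adjoin k (s' : Set L)) x) :
    ∃ s : Finset L, (s : Set L) ⊆ M ∧
      ∀ x ∈ M, IsAlgebraic (IntermediateField.adjoin k (s : Set L)) x := by
  classical
  set F' := IntermediateField.adjoin k (s' : Set L) with hF'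
  set N := algebraicClosure F' L with hN
  have : Algebra.EssFiniteType k F' := by
    rw [IntermediateField.essFiniteType_iff]
    exact IntermediateField.fg_adjoin_finset s'
  have : FinTrdeg k N := FinTrdeg.trans k F' N
  have hMN : ∀ x ∈ M, x ∈ N := fun x hx => mem_algebraicClosure_iff.2 (h x hx)
  obtain ⟨t, ht⟩ := exists_isTranscendenceBasis k M
  -- the basis in `N`
  let g : t → N := fun x => ⟨((x : M) : L), hMN _ (x : M).2⟩
  have hg : AlgebraicIndependent k g := by
    have h1 : AlgebraicIndependent k (M.val ∘ (Subtype.val : t → M)) :=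
      ht.1.map' (f := M.val) M.val.injective
    exact AlgebraicIndependent.of_comp ((N.val).restrictScalars k) h1
  have hfin : Finite t := finite_of_algebraicIndependent hg
  cases nonempty_fintype t
  set s : Finset L := Finset.univ.image fun x : t => (((x : M) : L)) with hs
  refine ⟨s, ?_, fun x hx => ?_⟩
  · intro x hx
    rw [Finset.mem_coe, hs, Finset.mem_image] at hx
    obtain ⟨y, -, rfl⟩ := hx
    exact (y : M).2
  · have h2 := ht.isAlgebraic_field
    have h3 : IsAlgebraic (IntermediateField.adjoin k (Set.range (Subtype.val : t → M)))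
      (⟨x, hx⟩ : M) := h2.isAlgebraic _
    have h4 : ∀ y ∈ IntermediateField.adjoin k (Set.range (Subtype.val : t → M)),
        M.val y ∈ IntermediateField.adjoin k (s : Set L) := by
      intro y hy
      have h5 : M.val y ∈ (IntermediateField.adjoin k
          (Set.range (Subtype.val : t → M))).map M.val := ⟨y, hy, rfl⟩
      rw [IntermediateField.adjoin_map] at h5
      refine IntermediateField.adjoin.mono k _ _ ?_ h5
      rintro _ ⟨_, ⟨z, rfl⟩, rfl⟩
      rw [hs]
      simp only [Finset.coe_image, Finset.coe_univ, image_univ, mem_range]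
      exact ⟨z, rfl⟩
    let f : IntermediateField.adjoin k (Set.range (Subtype.val : t → M)) →+*
        IntermediateField.adjoin k (s : Set L) :=
      { toFun := fun y => ⟨M.val y, h4 _ y.2⟩
        map_one' := by ext; simp
        map_mul' := fun a b => by ext; simp
        map_zero' := by ext; simp
        map_add' := fun a b => by ext; simp }
    have h6 := h3.ringHom_of_comp_eq (S := IntermediateField.adjoin k (s : Set L)) (B := L)
      f (M.val : M →+* L) f.injective (by ext y; rfl)
    exact h6

/-- **DF for a differential field of finite transcendence degree generated by anything**: `M`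
stable under the `D i` and algebraic over some finitely generated field (of `L`, not necessarily
inside `M`) -/
theorem exists_algebra' {ι : Type*} [Finite ι] (D : ι → Derivation k L L)
    (M : IntermediateField k L) (hM : ∀ i, ∀ x ∈ M, D i x ∈ M) (s' : Finset L)
    (halg : ∀ x ∈ M, IsAlgebraic (IntermediateField.adjoin k (s' : Set L)) x)
    (S : Finset L) (hS : (S : Set L) ⊆ M) :
    ∃ A : Subalgebra k L, A.FG ∧ (S : Set L) ⊆ A ∧ (A : Set L) ⊆ M ∧ ∀ i, ∀ x ∈ A, D i x ∈ A := by
  obtain ⟨s, hs, hs'⟩ := exists_basis M s' halg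
  exact exists_algebra D M hM s hs hs' S hS

/-- the differential field generated by a set -/
def dfield {ι : Type*} (D : ι → Derivation k L L) (S : Set L) : IntermediateField k L :=
  sInf {M : IntermediateField k L | S ⊆ M ∧ ∀ i, ∀ x ∈ M, D i x ∈ M}

omit [CharZero k] in
theorem subset_dfield {ι : Type*} (D : ι → Derivation k L L) (S : Set L) : S ⊆ dfield D S := by
  intro x hx
  rw [dfield, SetLike.mem_coe, IntermediateField.mem_sInf]
  exact fun M hM => hM.1 hx

omit [CharZero k] in
theorem dfield_le {ι : Type*} (D : ι → Derivation k L L) (S : Set L) (M : IntermediateField k L)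
    (h1 : S ⊆ M) (h2 : ∀ i, ∀ x ∈ M, D i x ∈ M) : dfield D S ≤ M := by
  intro x hx
  rw [dfield, IntermediateField.mem_sInf] at hx
  exact hx M ⟨h1, h2⟩

omit [CharZero k] in
theorem dfield_stable {ι : Type*} (D : ι → Derivation k L L) (S : Set L) (i : ι) (x : L)
    (hx : x ∈ dfield D S) : D i x ∈ dfield D S := by
  rw [dfield, IntermediateField.mem_sInf] at hx ⊢
  exact fun M hM => hM.2 i x (hx M hM)

/-- **a finitely generated differential field of finite transcendence degree is a finitely
generated field** -/
theorem dfield_fg {ι : Type*} [Finite ι] (D : ι → Derivation k L L) (S : Finset L) (s' : Finset L)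
    (halg : ∀ x ∈ dfield D (S : Set L), IsAlgebraic (IntermediateField.adjoin k (s' : Set L)) x) :
    (dfield D (S : Set L)).FG := by
  obtain ⟨s, hs, hs'⟩ := exists_basis (dfield D (S : Set L)) s' halg
  obtain ⟨T, hST, hTM, hT⟩ := exists_field D (dfield D (S : Set L)) (dfield_stable D _) s hs hs' S
    (subset_dfield D _)
  have : dfield D (S : Set L) = IntermediateField.adjoin k (T : Set L) :=
    le_antisymm (dfield_le D _ _ ((show (S : Set L) ⊆ T from hST).trans
      (IntermediateField.subset_adjoin k _)) hT) (IntermediateField.adjoin_le_iff.2 hTM)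
  rw [this]
  exact IntermediateField.fg_adjoin_finset T

end Crest.Agent.R102.DF389
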