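import Mathlib
import Crest.Agent.R102.JX_802
import Crest.Agent.R102.BEndB_802
import Crest.Agent.R102.Joint_802
import Crest.Agent.R102.Slice_802

/-!
Row 102, Case B, (END), part C: **joint extension of the label in the strip case**:
`NB h θ H` ⇒ `JX (Sg h) θ H w0` for every `w0`.
-/

set_option autoImplicit false

open Set Filter Topology Metric

noncomputable section

namespace Crest.Agent.R102.BEnd802

open Crest.Agent.R102.Rule982 Crest.Agent.R102.Mer88 Crest.Agent.R102.Slice802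
  Crest.Agent.R102.Joint802

/-- the derivative of a map of a ball to the strip -/
lemma deriv_bound_ball {h : ℝ} {F : ℂ → ℂ} {z : ℂ} {d : ℝ} (hd : 0 < d)
    (hF : DifferentiableOn ℂ F (ball z d)) (hS : ∀ w ∈ ball z d, F w ∈ Sg h) :
    ‖deriv F z‖ ≤ 2 * Real.exp h * Real.exp h / d := by
  have hR : 0 < d / 2 := by positivity
  have hsub : closedBall z (d / 2) ⊆ ball z d := closedBall_subset_ball (by linarith)
  have hB : ∀ w ∈ ball z d, HasDerivAt F (deriv F w) w := fun w hw =>
    (hF.differentiableAt (isOpen_ball.mem_nhds hw)).hasDerivAt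
  set G : ℂ → ℂ := fun z => Complex.exp (Complex.I * F z) with hG
  have hGd : ∀ w ∈ ball z d, HasDerivAt G (Complex.exp (Complex.I * F w) *
      (Complex.I * deriv F w)) w := fun w hw => ((hB w hw).const_mul Complex.I).cexp
  have hn : ∀ z, ‖G z‖ = Real.exp (-(F z).im) := by
    intro z
    simp only [hG]
    rw [Complex.norm_exp]
    congr 1
    simp [Complex.mul_re]
  have h1 : ‖deriv G z‖ ≤ Real.exp h / (d / 2) := by
    refine Complex.norm_deriv_le_of_forall_mem_sphere_norm_le hR ?_ ?_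
    · refine DifferentiableOn.diffContOnCl ?_
      rw [closure_ball _ hR.ne']
      exact fun w hw => (hGd w (hsub hw)).differentiableAt.differentiableWithinAt
    · intro w hw
      rw [hn]
      have h2 : |(F w).im| < h := hS w (hsub (sphere_subset_closedBall hw))
      exact Real.exp_le_exp.2 (by linarith [neg_abs_le (F w).im])
  rw [(hGd z (mem_ball_self hd)).deriv, norm_mul, norm_mul, Complex.norm_I, one_mul] at h1
  have h3 : Real.exp (-h) ≤ ‖Complex.exp (Complex.I * F z)‖ := by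
    have := hn z
    simp only [hG] at this
    rw [this]
    have h2 : |(F z).im| < h := hS z (mem_ball_self hd)
    exact Real.exp_le_exp.2 (by linarith [le_abs_self (F z).im])
  have h4 : Real.exp (-h) * ‖deriv F z‖ ≤ Real.exp h / (d / 2) :=
    (mul_le_mul_of_nonneg_right h3 (norm_nonneg _)).trans h1
  have h5 : Real.exp h * Real.exp (-h) = 1 := by rw [← Real.exp_add]; simp
  calc ‖deriv F z‖ = Real.exp h * (Real.exp (-h) * ‖deriv F z‖) := by rw [← mul_assoc, h5, one_mul]
    _ ≤ Real.exp h * (Real.exp h / (d / 2)) :=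
        mul_le_mul_of_nonneg_left h4 (Real.exp_pos _).le
    _ = _ := by field_simp

lemma growth {h : ℝ} {F : ℂ → ℂ} {c : ℂ} {R1 R2 : ℝ} (hR2 : 0 < R2) (hR : R2 < R1)
    (hF : DifferentiableOn ℂ F (ball c R1)) (hS : ∀ w ∈ ball c R1, F w ∈ Sg h) {t : ℂ}
    (ht : t ∈ ball c R2) :
    ‖F t‖ ≤ ‖F c‖ + 2 * Real.exp h * Real.exp h / (R1 - R2) * R2 := by
  have h1 : ‖F t - F c‖ ≤ 2 * Real.exp h * Real.exp h / (R1 - R2) * ‖t - c‖ := by
    refine Convex.norm_image_sub_le_of_norm_deriv_le (𝕜 := ℂ) (s := ball c R2) ?_ ?_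
      (convex_ball c R2) (mem_ball_self hR2) ht
    · intro w hw
      exact hF.differentiableAt (isOpen_ball.mem_nhds (ball_subset_ball hR.le hw))
    · intro w hw
      have hsub : ball w (R1 - R2) ⊆ ball c R1 := by
        refine ball_subset_ball' ?_
        have : dist w c < R2 := hw
        linarith
      exact deriv_bound_ball (sub_pos.2 hR) (hF.mono hsub) fun u hu => hS u (hsub hu)
  have h2 : ‖t - c‖ ≤ R2 := by
    rw [mem_ball, dist_eq_norm] at ht; exact ht.le
  have h3 : 0 < R1 - R2 := sub_pos.2 hR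
  have h4 : ‖F t‖ ≤ ‖F c‖ + ‖F t - F c‖ := by
    have := norm_add_le (F c) (F t - F c)
    rwa [add_sub_cancel] at this
  refine h4.trans ?_
  gcongr
  exact h1.trans (by gcongr)

/-- interior values at the exceptional leaf -/
lemma strict_of_closed {h : ℝ} {F : ℂ → ℂ} {c : ℂ} {R : ℝ}
    (hF : DifferentiableOn ℂ F (ball c R)) (hle : ∀ t ∈ ball c R, |(F t).im| ≤ h)
    (hc : |(F c).im| < h) : ∀ t ∈ ball c R, F t ∈ Sg h := by
  intro t ht
  have hR : 0 < R := by
    rcases le_or_gt R 0 with h1 | h1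
    · rw [ball_eq_empty.2 h1] at ht; exact absurd ht (notMem_empty _)
    · exact h1
  -- the norm of `exp (e F)`, `e = ± i`
  have main : ∀ e : ℂ, (∀ z ∈ ball c R, (e * F z).re ≤ h) → (e * F c).re < h →
      (e * F t).re < h := by
    intro e h1 h2
    by_contra hcon
    push Not at hcon
    have h3 : (e * F t).re = h := le_antisymm (h1 t ht) hcon
    have hd : DifferentiableOn ℂ (fun z => Complex.exp (e * F z)) (ball c R) :=
      (hF.const_mul e).cexp
    have hmax : IsMaxOn (norm ∘ fun z => Complex.exp (e * F z)) (ball c R) t := by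
      intro z hz
      simp only [Function.comp_apply, Set.mem_ofPred_eq]
      rw [Complex.norm_exp, Complex.norm_exp, h3]
      exact Real.exp_le_exp.2 (h1 z hz)
    have h4 := Complex.norm_eqOn_of_isPreconnected_of_isMaxOn (convex_ball c R).isPreconnected
      isOpen_ball hd ht hmax (mem_ball_self hR)
    simp only [Function.comp_apply, Function.const_apply] at h4
    rw [Complex.norm_exp, Complex.norm_exp, h3] at h4
    have h5 := Real.exp_injective h4
    linarith
  have e1 : ∀ z, (-Complex.I * F z).re = (F z).im := fun z => by simp [Complex.mul_re]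
  have e2 : ∀ z, (Complex.I * F z).re = -(F z).im := fun z => by simp [Complex.mul_re]
  have m1 := main (-Complex.I) (fun z hz => by
    rw [e1]; exact (le_abs_self _).trans (hle z hz)) (by
    rw [e1]; exact (le_abs_self _).trans_lt hc)
  have m2 := main Complex.I (fun z hz => by
    rw [e2]; exact (neg_le_abs _).trans (hle z hz)) (by
    rw [e2]; exact (neg_le_abs _).trans_lt hc)
  rw [e1] at m1
  rw [e2] at m2
  exact abs_lt.2 ⟨by linarith, m1⟩

/-- **(JOINT)** in the strip -/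
theorem jx_strip {h : ℝ} {θ H : ℂ → ℂ} (hθ : DifferentiableOn ℂ θ (Sg h))
    (hH : DifferentiableOn ℂ H (Sg h)) {c₀ : ℂ} (hc₀ : c₀ ≠ 0) (rel : Rel h θ H c₀)
    (hNB : NB h θ H) (w0 : ℂ) : JX (Sg h) θ H w0 := by
  intro c r R R' δ B P Q hr hrR' hR'R hδ hB hBV hnc hmer hrep
  have hR'0 : 0 < R' := hr.trans hrR'
  obtain ⟨R1, hR'1, hR1R⟩ := exists_between hR'R
  obtain ⟨R2, hR'2, hR21⟩ := exists_between hR'1
  have hR10 : 0 < R1 := hR'0.trans hR'1
  have hR20 : 0 < R2 := hR'0.trans hR'2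
  have hcr : c ∈ ball c r := mem_ball_self hr
  have hw0 : w0 ∈ ball w0 δ := mem_ball_self hδ
  have hBo : IsOpen (ball c r ×ˢ ball w0 δ) := isOpen_ball.prod isOpen_ball
  -- meromorphic slices
  obtain ⟨ρ1, hρ1, s1⟩ := mero_slices_compact (f := P) (w0 := w0) (isCompact_closedBall c R1)
    (fun t ht => (hmer (t, w0) ⟨closedBall_subset_ball hR1R ht, hw0⟩).1)
  obtain ⟨ρ2, hρ2, s2⟩ := mero_slices_compact (f := Q) (w0 := w0) (isCompact_closedBall c R1)
    (fun t ht => (hmer (t, w0) ⟨closedBall_subset_ball hR1R ht, hw0⟩).2)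
  obtain ⟨ρ3, hρ3, s3⟩ := rep_slices (hrep (c, w0) ⟨hcr, hw0⟩).1
  obtain ⟨ρ4, hρ4, s4⟩ := rep_slices (hrep (c, w0) ⟨hcr, hw0⟩).2
  -- the bound at the centre
  have hcont : ContinuousAt (fun w => ‖B (c, w)‖) w0 := by
    have h1 : ContinuousAt B (c, w0) := (hB.differentiableAt (hBo.mem_nhds ⟨hcr, hw0⟩)).continuousAt
    exact (ContinuousAt.comp' (f := fun w : ℂ => ((c, w) : ℂ × ℂ)) h1 (by fun_prop)).norm
  have hbd := hcont.eventually (gt_mem_nhds (lt_add_one ‖B (c, w0)‖))
  obtain ⟨ρ5, hρ5, s5⟩ := Metric.eventually_nhds_iff_ball.1 hbd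
  set δ' : ℝ := min δ (min ρ1 (min ρ2 (min ρ3 (min ρ4 ρ5)))) with hδ'
  have hδ'0 : 0 < δ' := by
    rw [hδ']
    exact lt_min hδ (lt_min hρ1 (lt_min hρ2 (lt_min hρ3 (lt_min hρ4 hρ5))))
  have d0 : δ' ≤ δ := min_le_left _ _
  have d1 : δ' ≤ ρ1 := (min_le_right _ _).trans (min_le_left _ _)
  have d2 : δ' ≤ ρ2 := (min_le_right _ _).trans ((min_le_right _ _).trans (min_le_left _ _))
  have d3 : δ' ≤ ρ3 := (min_le_right _ _).trans ((min_le_right _ _).trans
    ((min_le_right _ _).trans (min_le_left _ _)))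
  have d4 : δ' ≤ ρ4 := (min_le_right _ _).trans ((min_le_right _ _).trans
    ((min_le_right _ _).trans ((min_le_right _ _).trans (min_le_left _ _))))
  have d5 : δ' ≤ ρ5 := (min_le_right _ _).trans ((min_le_right _ _).trans
    ((min_le_right _ _).trans ((min_le_right _ _).trans (min_le_right _ _))))
  have hBs : ∀ w ∈ ball w0 δ', DifferentiableOn ℂ (fun t => B (t, w)) (ball c r) := by
    intro w hw
    exact hB.comp (by fun_prop : DifferentiableOn ℂ (fun t : ℂ => ((t, w) : ℂ × ℂ)) (ball c r))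
      (fun t ht => ⟨ht, ball_subset_ball d0 hw⟩)
  -- the extensions of the leaves
  have hF : ∀ w ∈ ball w0 δ', w ≠ w0 → ∃ g : ℂ → ℂ, DifferentiableOn ℂ g (ball c R1) ∧
      (∀ t ∈ ball c R1, g t ∈ Sg h) ∧ ∀ᶠ t in 𝓝 c, g t = B (t, w) := by
    intro w hw hwn
    have hBw := hBs w hw
    have hA : Adm h θ H (fun t => P (t, w)) (fun t => Q (t, w)) (fun t => B (t, w)) c := by
      refine ⟨hBw.analyticAt (ball_mem_nhds c hr), hBV (c, w) ⟨hcr, ball_subset_ball d0 hw⟩, ?_⟩
      filter_upwards [s3 w (ball_subset_ball d3 hw) hwn c (mem_ball_self hρ3),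
        s4 w (ball_subset_ball d4 hw) hwn c (mem_ball_self hρ4)] with s h1 h2
      exact ⟨by rw [mul_comm]; exact h1, by rw [mul_comm]; exact h2⟩
    have hne : ∃ᶠ t in 𝓝 c, deriv (fun t => B (t, w)) t ≠ 0 := by
      obtain ⟨t1, ht1, hne1⟩ := hnc w (ball_subset_ball d0 hw)
      intro hcon
      have ha : AnalyticOnNhd ℂ (deriv fun t => B (t, w)) (ball c r) :=
        (hBw.analyticOnNhd isOpen_ball).deriv
      refine hne1 (ha.eqOn_zero_of_preconnected_of_eventuallyEq_zero
        (convex_ball c r).isPreconnected hcr ?_ ht1)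
      filter_upwards [hcon] with t ht
      exact not_not.1 ht
    obtain ⟨F, f1, f2, f3⟩ := disc hθ hH hc₀ rel hNB hR10
      (fun t ht => s1 w (ball_subset_ball d1 hw) hwn t (ball_subset_closedBall ht))
      (fun t ht => s2 w (ball_subset_ball d2 hw) hwn t (ball_subset_closedBall ht)) hA hne
    exact ⟨F, f1, fun t ht => (f2 t ht).2.1, f3⟩
  -- joint extension
  set K : ℝ := ‖B (c, w0)‖ + 1 + 2 * Real.exp h * Real.exp h / (R1 - R2) * R2 with hK
  have hfsw : DifferentiableOn ℂ (fun x : ℂ × ℂ => B (x.2, x.1)) (ball w0 δ' ×ˢ ball c r) := by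
    exact hB.comp (by fun_prop : DifferentiableOn ℂ (fun x : ℂ × ℂ => ((x.2, x.1) : ℂ × ℂ)) _)
      (fun x hx => ⟨hx.2, ball_subset_ball d0 hx.1⟩)
  obtain ⟨G, hG1, hG2⟩ := joint_ext (f := fun x : ℂ × ℂ => B (x.2, x.1)) (M := K) hδ'0 hr hfsw
    hR'0 hR'2 (by
      intro w hw hwn
      obtain ⟨F, f1, f2, f3⟩ := hF w hw hwn
      refine ⟨F, f1.mono (ball_subset_ball hR21.le), fun t ht => ?_, f3⟩
      have h1 := growth hR20 hR21 f1 f2 ht
      have h2 : ‖F c‖ < ‖B (c, w0)‖ + 1 := by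
        rw [f3.self_of_nhds]
        exact s5 w (ball_subset_ball d5 hw)
      rw [hK]
      linarith)
  have hmin : min r R' = r := min_eq_left hrR'.le
  rw [hmin] at hG2
  have hGs : ∀ w ∈ ball w0 δ', DifferentiableOn ℂ (fun t => G (w, t)) (ball c R') := by
    intro w hw
    exact hG1.comp (by fun_prop : DifferentiableOn ℂ (fun t : ℂ => ((w, t) : ℂ × ℂ)) (ball c R'))
      (fun t ht => ⟨hw, ht⟩)
  have hcR' : c ∈ ball c R' := mem_ball_self hR'0
  have hval : ∀ w ∈ ball w0 δ', w ≠ w0 → ∀ t ∈ ball c R', G (w, t) ∈ Sg h := by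
    intro w hw hwn t ht
    obtain ⟨F, f1, f2, f3⟩ := hF w hw hwn
    have heq := AnalyticOnNhd.eqOn_of_preconnected_of_eventuallyEq (𝕜 := ℂ)
      (f := fun t => G (w, t)) (g := F) (U := ball c R')
      ((hGs w hw).analyticOnNhd isOpen_ball)
      ((f1.mono (ball_subset_ball hR'1.le)).analyticOnNhd isOpen_ball)
      (convex_ball c R').isPreconnected hcR' (by
        filter_upwards [f3, ball_mem_nhds c hr] with s hs hs'
        rw [hs]
        exact hG2 w hw s hs')
    have h1 : G (w, t) = F t := heq ht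
    rw [h1]
    exact f2 t (ball_subset_ball hR'1.le ht)
  have hval0 : ∀ t ∈ ball c R', G (w0, t) ∈ Sg h := by
    have hw0' : w0 ∈ ball w0 δ' := mem_ball_self hδ'0
    refine strict_of_closed (F := fun t => G (w0, t)) (hGs w0 hw0') ?_ ?_
    · intro t ht
      have hc1 : ContinuousAt (fun w => |(G (w, t)).im|) w0 := by
        have h1 : ContinuousAt G (w0, t) :=
          (hG1.differentiableAt ((isOpen_ball.prod isOpen_ball).mem_nhds ⟨hw0', ht⟩)).continuousAt
        have h2 : ContinuousAt (fun w : ℂ => G (w, t)) w0 :=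
          ContinuousAt.comp' (f := fun w : ℂ => ((w, t) : ℂ × ℂ)) h1 (by fun_prop)
        exact (continuous_abs.comp Complex.continuous_im).continuousAt.comp h2
      have h2 : Tendsto (fun w => |(G (w, t)).im|) (𝓝[≠] w0) (𝓝 |(G (w0, t)).im|) :=
        hc1.tendsto.mono_left nhdsWithin_le_nhds
      refine le_of_tendsto h2 ?_
      filter_upwards [self_mem_nhdsWithin, nhdsWithin_le_nhds (ball_mem_nhds w0 hδ'0)]
        with w hw1 hw2
      exact (hval w hw2 hw1 t ht).le
    · have h1 : G (w0, c) = B (c, w0) := hG2 w0 hw0' c hcr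
      simp only [h1]
      exact hBV (c, w0) ⟨hcr, hw0⟩
  refine ⟨δ', hδ'0, d0, fun x => G (x.2, x.1), ?_, ?_, ?_⟩
  · exact hG1.comp (by fun_prop : DifferentiableOn ℂ (fun x : ℂ × ℂ => ((x.2, x.1) : ℂ × ℂ)) _)
      (fun x hx => ⟨hx.2, hx.1⟩)
  · rintro ⟨t, w⟩ ⟨ht, hw⟩
    by_cases hwn : w = w0
    · simp only [hwn]
      exact hval0 t ht
    · exact hval w hw hwn t ht
  · rintro ⟨t, w⟩ ⟨ht, hw⟩
    exact hG2 w hw t ht

end Crest.Agent.R102.BEnd802
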