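import Mathlib

/-!
Row 102, part (C), leaf T2-D (helper88): finite chains.

* `run_int`  : a predicate on `ℤ` true at `0` and false somewhere on both sides has a maximal run;
* `rot`      : density of an irrational rotation, both directions, 1-periodic open sets of `ℝ`;
* `run_rot`  : every singular point of a horizontal line with one regular point lies on a finite run;
* `run_box`  : the same over a box `g1 ≤ Re t ≤ g2` with gaps on both sides (tilted lines).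
-/

set_option autoImplicit false

open Set Filter Topology Metric

noncomputable section

namespace Crest.Agent.R102.ChainD88

theorem run_nat {P : ℕ → Prop} (h0 : P 0) (h : ∃ k, ¬ P k) :
    ∃ b, (∀ n ≤ b, P n) ∧ ¬ P (b + 1) := by
  classical
  obtain ⟨k, hk⟩ : ∃ k, Nat.find h = k + 1 := by
    refine Nat.exists_eq_succ_of_ne_zero (fun h1 => ?_)
    exact (h1 ▸ Nat.find_spec h) h0
  refine ⟨k, fun n hn => ?_, ?_⟩
  · by_contra h2
    have := Nat.find_min' h h2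
    omega
  · rw [← hk]; exact Nat.find_spec h

/-- maximal run of a predicate on `ℤ` around `0` -/
theorem run_int {P : ℤ → Prop} (h0 : P 0) (hneg : ∃ k : ℕ, ¬ P (-k)) (hpos : ∃ k : ℕ, ¬ P k) :
    ∃ a b : ℤ, a ≤ 0 ∧ 0 ≤ b ∧ (∀ n, a ≤ n → n ≤ b → P n) ∧ ¬ P (a - 1) ∧ ¬ P (b + 1) := by
  obtain ⟨b, hb1, hb2⟩ := run_nat (P := fun k => P (k : ℤ)) (by simpa using h0) hpos
  obtain ⟨a, ha1, ha2⟩ := run_nat (P := fun k => P (-(k : ℤ))) (by simpa using h0) hneg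
  refine ⟨-(a : ℤ), b, by omega, by omega, fun n h1 h2 => ?_, ?_, ?_⟩
  · rcases le_total 0 n with hn | hn
    · obtain ⟨m, rfl⟩ := Int.eq_ofNat_of_zero_le hn
      exact hb1 m (by omega)
    · obtain ⟨m, hm⟩ := Int.eq_ofNat_of_zero_le (by omega : 0 ≤ -n)
      have h3 := ha1 m (by omega)
      have h4 : n = -(m : ℤ) := by omega
      rw [h4]; exact h3
  · have h3 : -(a : ℤ) - 1 = -((a + 1 : ℕ) : ℤ) := by push_cast; ring
    rw [h3]; exact ha2
  · have h3 : (b : ℤ) + 1 = ((b + 1 : ℕ) : ℤ) := by push_cast; ring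
    rw [h3]; exact hb2

theorem per_int {J : Set ℝ} (hper : ∀ x, x ∈ J ↔ x + 1 ∈ J) (m : ℤ) (x : ℝ) :
    x ∈ J ↔ x + m ∈ J := by
  induction m using Int.induction_on with
  | zero => simp
  | succ k ih =>
    rw [ih, hper (x + ((k : ℤ) : ℝ))]
    have h : x + ((k : ℤ) : ℝ) + 1 = x + (((k : ℤ) + 1 : ℤ) : ℝ) := by
      push_cast; ring
    rw [h]
  | pred k ih =>
    rw [ih, hper (x + ((-(k : ℤ) - 1 : ℤ) : ℝ))]
    have h : x + ((-(k : ℤ) - 1 : ℤ) : ℝ) + 1 = x + ((-(k : ℤ) : ℤ) : ℝ) := by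
      push_cast; ring
    rw [h]

/-- forward density of an irrational rotation -/
theorem rot_pos {w0 : ℝ} (hw : Irrational w0) {J : Set ℝ} (hJ : IsOpen J) (hne : J.Nonempty)
    (hper : ∀ x, x ∈ J ↔ x + 1 ∈ J) (s : ℝ) : ∃ l : ℕ, 1 ≤ l ∧ s + l * w0 ∈ J := by
  obtain ⟨x, hx⟩ := hne
  obtain ⟨ε, hε, hball⟩ := Metric.isOpen_iff.1 hJ x hx
  obtain ⟨n, hn⟩ := exists_nat_one_div_lt hε
  obtain ⟨j, k, hk0, hkn, hjk⟩ := Real.exists_int_int_abs_mul_sub_le w0 (n := n + 1) (by omega)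
  set d : ℝ := k * w0 - j with hd
  have hd0 : d ≠ 0 := by
    intro h0
    refine hw ⟨(j : ℚ) / k, ?_⟩
    have hk : (k : ℝ) ≠ 0 := by exact_mod_cast hk0.ne'
    push_cast
    rw [div_eq_iff hk]
    linarith
  have hdε : |d| < ε := by
    refine hjk.trans_lt (lt_of_le_of_lt ?_ hn)
    push_cast
    exact one_div_le_one_div_of_le (by positivity) (by linarith)
  -- choose an integer `m` with `(x + m - s) / d ≥ 1`
  obtain ⟨m, hm⟩ : ∃ m : ℤ, 1 ≤ (x + m - s) / d := by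
    rcases lt_or_gt_of_ne hd0 with h | h
    · obtain ⟨m, hm⟩ := exists_int_lt (d + s - x)
      refine ⟨m, ?_⟩
      rw [one_le_div_of_neg h]
      linarith
    · obtain ⟨m, hm⟩ := exists_int_gt (d + s - x)
      refine ⟨m, ?_⟩
      rw [one_le_div h]
      linarith
  set q : ℤ := ⌊(x + m - s) / d⌋ with hq
  have hq1 : 1 ≤ q := Int.le_floor.2 (by exact_mod_cast hm)
  have hq2 : |s + q * d - (x + m)| < ε := by
    have h1 : s + q * d - (x + m) = -((x + m - s) / d - q) * d := by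
      field_simp
      try ring
    rw [h1, abs_mul, abs_neg]
    have h2 : |(x + m - s) / d - q| ≤ 1 := by
      rw [abs_le]
      have := Int.floor_le ((x + m - s) / d)
      have := Int.lt_floor_add_one ((x + m - s) / d)
      constructor <;> linarith
    calc |(x + m - s) / d - q| * |d| ≤ 1 * |d| := by gcongr
      _ < ε := by rw [one_mul]; exact hdε
  have h3 : s + q * d - m ∈ J := by
    refine hball ?_
    rw [mem_ball, Real.dist_eq]
    rwa [show s + q * d - m - x = s + q * d - (x + m) by ring]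
  obtain ⟨l, hl⟩ := Int.eq_ofNat_of_zero_le (by positivity : 0 ≤ q * k)
  refine ⟨l, ?_, ?_⟩
  · have : 1 ≤ q * k := by nlinarith
    rw [hl] at this
    exact_mod_cast this
  · have h4 : s + l * w0 = s + q * d - m + ((q * j + m : ℤ) : ℝ) := by
      have h5 : (l : ℝ) = q * k := by
        have : ((q * k : ℤ) : ℝ) = ((l : ℤ) : ℝ) := by rw [hl]
        push_cast at this
        exact this.symm
      rw [h5, hd]; push_cast; ring
    rw [h4, ← per_int hper]
    exact h3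

/-- density of an irrational rotation, both directions -/
theorem rot {w0 : ℝ} (hw : Irrational w0) {J : Set ℝ} (hJ : IsOpen J) (hne : J.Nonempty)
    (hper : ∀ x, x ∈ J ↔ x + 1 ∈ J) (s : ℝ) :
    (∃ k : ℕ, 1 ≤ k ∧ s - k * w0 ∈ J) ∧ ∃ l : ℕ, 1 ≤ l ∧ s + l * w0 ∈ J := by
  refine ⟨?_, rot_pos hw hJ hne hper s⟩
  obtain ⟨k, hk, hk2⟩ := rot_pos hw.neg hJ hne hper s
  exact ⟨k, hk, by rw [sub_eq_add_neg, ← mul_neg]; exact hk2⟩

/-- **finite runs, irrational rotation**: `S` = singular set; on the line `Im t = U` the regular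
points form an open nonempty 1-periodic set. -/
theorem run_rot {w0 : ℝ} (hw : Irrational w0) {S : Set ℂ} {U : ℝ}
    (hopen : IsOpen {x : ℝ | (x : ℂ) + U * Complex.I ∉ S})
    (hne : ∃ x : ℝ, (x : ℂ) + U * Complex.I ∉ S)
    (hper : ∀ x : ℝ, (x : ℂ) + U * Complex.I ∈ S ↔ ((x + 1 : ℝ) : ℂ) + U * Complex.I ∈ S)
    {s : ℂ} (hs : s ∈ S) (hsU : s.im = U) :
    ∃ a b : ℤ, a ≤ 0 ∧ 0 ≤ b ∧ (∀ n : ℤ, a ≤ n → n ≤ b → s + n * w0 ∈ S) ∧
      s + (a - 1 : ℤ) * w0 ∉ S ∧ s + (b + 1 : ℤ) * w0 ∉ S := by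
  have hs0 : s = (s.re : ℂ) + U * Complex.I := by rw [← hsU]; exact (Complex.re_add_im s).symm
  obtain ⟨⟨k, -, hk⟩, l, -, hl⟩ := rot hw hopen hne (fun x => not_congr (hper x)) s.re
  refine run_int (P := fun n : ℤ => s + n * w0 ∈ S) (by simpa using hs) ⟨k, ?_⟩ ⟨l, ?_⟩
  · intro h
    apply hk
    have : s + ((-(k : ℤ) : ℤ) : ℂ) * w0 = ((s.re - k * w0 : ℝ) : ℂ) + U * Complex.I := by
      conv_lhs => rw [hs0]
      push_cast; ring
    rw [← this]; exact h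
  · intro h
    apply hl
    have : s + (((l : ℤ) : ℤ) : ℂ) * w0 = ((s.re + l * w0 : ℝ) : ℂ) + U * Complex.I := by
      conv_lhs => rw [hs0]
      push_cast; ring
    rw [← this]; exact h

/-- **finite runs, box**: the points of `S` have `g1 + δ ≤ Re ≤ g2 - δ` and `0 < |Re w0| ≤ δ`;
the two end points of the run are still over `[g1, g2]`. -/
theorem run_box {w0 : ℂ} {S : Set ℂ} {g1 g2 δ : ℝ} (hw : w0.re ≠ 0) (hwδ : |w0.re| ≤ δ)
    (hS : ∀ s ∈ S, g1 + δ ≤ s.re ∧ s.re ≤ g2 - δ) {s : ℂ} (hs : s ∈ S) :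
    ∃ a b : ℤ, a ≤ 0 ∧ 0 ≤ b ∧ (∀ n : ℤ, a ≤ n → n ≤ b → s + n * w0 ∈ S) ∧
      s + (a - 1 : ℤ) * w0 ∉ S ∧ s + (b + 1 : ℤ) * w0 ∉ S ∧
      (g1 ≤ (s + (a - 1 : ℤ) * w0).re ∧ (s + (a - 1 : ℤ) * w0).re ≤ g2) ∧
      (g1 ≤ (s + (b + 1 : ℤ) * w0).re ∧ (s + (b + 1 : ℤ) * w0).re ≤ g2) := by
  have hre : ∀ n : ℤ, (s + n * w0).re = s.re + n * w0.re := by
    intro n
    rw [Complex.add_re]
    congr 1
    rw [show ((n : ℤ) : ℂ) = ((n : ℝ) : ℂ) by push_cast; rfl, Complex.re_ofReal_mul]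
  -- large multiples leave `S`
  obtain ⟨k, hk⟩ : ∃ k : ℕ, g2 - g1 < k * |w0.re| := by
    obtain ⟨k, hk⟩ := exists_nat_gt ((g2 - g1) / |w0.re|)
    exact ⟨k, (div_lt_iff₀ (abs_pos.2 hw)).1 hk⟩
  have hout : ∀ n : ℤ, g2 - g1 < |n * w0.re| → s + n * w0 ∉ S := by
    intro n hn hmem
    have h1 := hS _ hmem
    have h2 := hS _ hs
    have hδ : 0 ≤ δ := (abs_nonneg _).trans hwδ
    rw [hre] at h1
    have h3 : |n * w0.re| ≤ g2 - g1 := by
      rw [abs_le]; constructor <;> linarith [h1.1, h1.2, h2.1, h2.2]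
    linarith
  obtain ⟨a, b, ha, hb, hab, h1, h2⟩ := run_int (P := fun n : ℤ => s + n * w0 ∈ S)
    (by simpa using hs)
    ⟨k, hout _ (by
      rw [abs_mul]; push_cast; rw [abs_neg, Nat.abs_cast]; exact hk)⟩
    ⟨k, hout _ (by rw [abs_mul]; push_cast; rw [Nat.abs_cast]; exact hk)⟩
  refine ⟨a, b, ha, hb, hab, h1, h2, ?_, ?_⟩
  · have h3 := hS _ (hab a le_rfl (ha.trans hb))
    rw [hre] at h3 ⊢
    push_cast
    have := abs_le.1 hwδ
    constructor <;> nlinarith [h3.1, h3.2, this.1, this.2]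
  · have h3 := hS _ (hab b (ha.trans hb) le_rfl)
    rw [hre] at h3 ⊢
    push_cast
    have := abs_le.1 hwδ
    constructor <;> nlinarith [h3.1, h3.2, this.1, this.2]

end Crest.Agent.R102.ChainD88
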