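import Mathlib
import Crest.Agent.R102.SpineDefs_478
import Crest.Agent.R102.C1G_821
import Crest.Agent.R102.BEndC_802
import Crest.Agent.R102.ChainD_88

/-!
Row 102, Cases B and E, (END), part D: **climbing**: if the line `l(t, w)` is regular at
`(s, w0)`, the labels are regular below, and the next line `l(t + w, w)` is meromorphic at
`(s, w0)`, then `l` is regular at `(s + w0, w0)`.
-/

set_option autoImplicit false

open Set Filter Topology Metric
open scoped ComplexConjugate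

noncomputable section

namespace Crest.Agent.R102.BEnd802

open Crest.Agent.R102.T5 Crest.Agent.R102.G576 Crest.Agent.R102.A929 Crest.Agent.R102.B821
open Crest.Agent.R102.C0 Crest.Agent.R102.C1 Crest.Agent.R102.Mer88 Crest.Agent.R102.MerF217
open Crest.Agent.R102.Slice802 Crest.Agent.R102.Spine

/-! ### geometry -/

lemma isOpen_Tube (s w0 : ℂ) (e : ℝ) : IsOpen (Tube s w0 e) := by
  have h1 : IsOpen {x : ℂ × ℂ | |x.1.re - s.re| < e} := isOpen_lt (by fun_prop) continuous_const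
  have h2 : IsOpen {x : ℂ × ℂ | -e < x.1.im} := isOpen_lt continuous_const (by fun_prop)
  have h3 : IsOpen {x : ℂ × ℂ | x.1.im < s.im + e} := isOpen_lt (by fun_prop) continuous_const
  have h4 : IsOpen {x : ℂ × ℂ | ‖x.2 - w0‖ < e} := isOpen_lt (by fun_prop) continuous_const
  exact h1.inter (h2.inter (h3.inter h4))

lemma convex_Tube (s w0 : ℂ) (e : ℝ) : Convex ℝ (Tube s w0 e) := by
  have h1 : Tube s w0 e = (({t : ℂ | s.re - e < t.re} ∩ {t | t.re < s.re + e}) ∩
      ({t | -e < t.im} ∩ {t | t.im < s.im + e})) ×ˢ ball w0 e := by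
    ext x
    simp only [Tube, Set.mem_ofPred_eq, mem_prod, mem_inter_iff, mem_ball, dist_eq_norm, abs_lt]
    constructor
    · rintro ⟨⟨a, b⟩, c, d, f⟩
      exact ⟨⟨⟨by linarith, by linarith⟩, c, d⟩, f⟩
    · rintro ⟨⟨⟨a, b⟩, c, d⟩, f⟩
      exact ⟨⟨by linarith, by linarith⟩, c, d, f⟩
  rw [h1]
  exact (((convex_halfSpace_re_gt _).inter (convex_halfSpace_re_lt _)).inter
    ((convex_halfSpace_im_gt _).inter (convex_halfSpace_im_lt _))).prod (convex_ball _ _)

lemma isOpen_PD (ρ r : ℝ) : IsOpen (PD ρ r) := by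
  have h1 : IsOpen {x : ℂ × ℂ | |x.1.im| < ρ} := isOpen_lt (by fun_prop) continuous_const
  have h2 : IsOpen {x : ℂ × ℂ | ‖x.2‖ < r} := isOpen_lt (by fun_prop) continuous_const
  exact h1.inter h2

lemma convex_PD (ρ r : ℝ) : Convex ℝ (PD ρ r) := by
  have h1 : PD ρ r = ({t : ℂ | -ρ < t.im} ∩ {t | t.im < ρ}) ×ˢ ball (0 : ℂ) r := by
    ext x
    simp only [PD, Set.mem_ofPred_eq, mem_prod, mem_inter_iff, mem_ball, dist_zero_right, abs_lt]
  rw [h1]
  exact ((convex_halfSpace_im_gt _).inter (convex_halfSpace_im_lt _)).prod (convex_ball _ _)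

lemma diffOn_ZnV {V : Set ℂ} (hV : IsOpen V) {ψ H : ℂ → ℂ} (hψ : DifferentiableOn ℂ ψ V)
    (hH : DifferentiableOn ℂ H V) (s : ℂ) : DifferentiableOn ℂ (Zn ψ H s) V := by
  have h1 : DifferentiableOn ℂ (deriv ψ) V := hψ.deriv hV
  have h2 : DifferentiableOn ℂ (deriv H) V := hH.deriv hV
  unfold Zn
  exact (((hψ.const_mul (s * Complex.I)).cexp).const_mul (s * Complex.I)).mul
    ((hH.mul h1).add (h2.const_mul (s * Complex.I)))

section fam

variable {q : C(ℂ, ℂ)} {η ρ r Bc : ℝ} {b φ p : ℂ × ℂ → ℂ} {m₀ : ℂ → ℂ} {V : Set ℂ} {θ H : ℂ → ℂ}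

/-- the isotropic coordinates on `Str η` -/
lemma Zn_eq (D : Datum q η) (E : VExt q η V θ H) {z : ℂ} (hz : z ∈ Str η) :
    Zn θ H 1 z = deriv θ z * Zs q 1 z ∧ Zn θ H (-1) z = deriv θ z * Zs q (-1) z := by
  have h1 := dθ_eq D E hz
  have h2 := dH_eq D E hz
  have h3 := E.H_eq z hz
  have h4 := E.θ_eq z hz
  have e1 : Complex.exp (-(Complex.I * Tc q z)) * Complex.exp (Complex.I * Tc q z) = 1 := by
    rw [← Complex.exp_add]; simp
  have e2 : (1 : ℂ) * Complex.I * Tc q z = Complex.I * Tc q z := by ring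
  have e3 : (-1 : ℂ) * Complex.I * Tc q z = -(Complex.I * Tc q z) := by ring
  have hH2 : Hc q z = -(Complex.I * (Complex.exp (-(Complex.I * Tc q z)) * Zs q 1 z -
      Complex.exp (Complex.I * Tc q z) * Zs q (-1) z)) / 2 := by
    unfold Hc
    have hI := Complex.I_ne_zero
    field_simp
    linear_combination (Complex.exp (-(Complex.I * Tc q z)) * Zs q 1 z -
      Complex.exp (Complex.I * Tc q z) * Zs q (-1) z) * Complex.I_sq
  unfold Zn
  rw [h1, h2, h3, h4, e2, e3, hH2]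
  unfold Cc
  have hI := Complex.I_sq
  constructor
  · linear_combination (Complex.exp (q z) * Zs q 1 z) * e1 - (Complex.exp (Complex.I * Tc q z) *
      Complex.exp (-(Complex.I * Tc q z)) * Zs q 1 z * Complex.exp (q z)) * hI
  · linear_combination (Complex.exp (q z) * Zs q (-1) z) * e1 - (Complex.exp (Complex.I * Tc q z) *
      Complex.exp (-(Complex.I * Tc q z)) * Zs q (-1) z * Complex.exp (q z)) * hI

/-- **the label extends** across the height of the meromorphic line -/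
theorem label_up (hL : LineFam q η ρ r Bc b φ p m₀) (hV : VExt q η V θ H) {w0 : ℂ}
    (hw0 : ‖w0‖ < r) (hw0i : w0.im = 0) {s : ℂ} (hs : 0 < s.im) {e : ℝ} (he : 0 < e)
    {Gφ Gp : ℂ × ℂ → ℂ}
    (hGφ : DifferentiableOn ℂ Gφ (Tube s w0 e)) (hGp : DifferentiableOn ℂ Gp (Tube s w0 e))
    (eφ : ∀ x ∈ Tube s w0 e, x ∈ PD ρ r → Gφ x = φ x)
    (ep : ∀ x ∈ Tube s w0 e, x ∈ PD ρ r → Gp x = p x)
    {E P : ℂ × ℂ → ℂ} (hEP : ∀ x ∈ Tube s w0 e, MerAt E x ∧ MerAt P x)
    (hE0 : ∀ᶠ x in 𝓝 (((s.re : ℂ), w0) : ℂ × ℂ),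
      E x = Complex.exp (Complex.I * φ (x.1 + x.2, x.2)) ∧ P x = p (x.1 + x.2, x.2))
    (hne : ∃ᶠ x in 𝓝 (((s.re : ℂ), w0) : ℂ × ℂ), Complex.exp (Complex.I * φ x) ^ 2 ≠
      Complex.exp (Complex.I * φ (x.1 + x.2, x.2)) ^ 2)
    (hb : ∀ s' : ℂ, 0 ≤ s'.im → s'.im < s.im → RegAt ρ r b V s' w0) (hJ : JX V θ H w0) :
    ∃ e3 > 0, e3 ≤ e ∧ ∃ β : ℂ × ℂ → ℂ, DifferentiableOn ℂ β (Tube s w0 e3) ∧
      (∀ x ∈ Tube s w0 e3, β x ∈ V) ∧
      ∀ᶠ x in 𝓝 (((s.re : ℂ), w0) : ℂ × ℂ), β x = b (x.1 + x.2 / 2, x.2) := by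
  have D := hL.dat
  have hρ := hL.ρ_pos
  have hVo := hV.open'
  -- the meromorphic coordinates of the vertex
  set Zc : ℂ × ℂ → ℂ := fun x => (2 * Complex.I * P x * E x -
    2 * Complex.I * Gp x * Complex.exp (Complex.I * Gφ x)) /
      (Complex.exp (Complex.I * Gφ x) ^ 2 - E x ^ 2) with hZc
  set Z : ℂ × ℂ → ℂ := fun x => Complex.exp (Complex.I * Gφ x) ^ 2 * Zc x +
    2 * Complex.I * Gp x * Complex.exp (Complex.I * Gφ x) with hZ
  have hGφa := Crest.Agent.R266.SCV.analyticOnNhd_of_differentiableOn (isOpen_Tube s w0 e) hGφ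
  have hGpa := Crest.Agent.R266.SCV.analyticOnNhd_of_differentiableOn (isOpen_Tube s w0 e) hGp
  have hZm : ∀ x ∈ Tube s w0 e, MerAt Z x ∧ MerAt Zc x := by
    intro x hx
    obtain ⟨hE, hP⟩ := hEP x hx
    have b1 : AnalyticAt ℂ (fun x => Complex.exp (Complex.I * Gφ x)) x :=
      (analyticAt_const.mul (hGφa x hx)).cexp
    have a3 : MerAt (fun x => Complex.exp (Complex.I * Gφ x) ^ 2) x :=
      merAt_of_analyticAt (b1.pow 2)
    have a2 : MerAt (fun x => 2 * Complex.I * Gp x * Complex.exp (Complex.I * Gφ x)) x :=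
      merAt_of_analyticAt ((analyticAt_const.mul (hGpa x hx)).mul b1)
    have a4 : MerAt (fun x => 2 * Complex.I * P x * E x) x :=
      MerAt.mul (MerAt.mul (merAt_const (2 * Complex.I) x) hP) hE
    have a5 : MerAt (fun x => E x ^ 2) x := by
      have := MerAt.mul hE hE
      simpa only [pow_two] using this
    have a6 : MerAt Zc x := MerAt.div (MerAt.sub a4 a2) (MerAt.sub a3 a5)
    exact ⟨MerAt.add (MerAt.mul a3 a6) a2, a6⟩
  -- the label below
  set σ : ℝ := min (e / 8) (s.im / 2) with hσ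
  have hσ0 : 0 < σ := lt_min (by positivity) (by positivity)
  have hσe : σ ≤ e / 8 := min_le_left _ _
  have hσs : σ ≤ s.im / 2 := min_le_right _ _
  set c : ℂ := s - σ * Complex.I with hc
  have hcre : c.re = s.re := by simp [hc]
  have hcim : c.im = s.im - σ := by simp [hc]
  set s' : ℂ := c + w0 / 2 with hs'
  have hs're : s'.re = s.re + w0.re / 2 := by
    rw [hs', Complex.add_re, hcre]; simp
  have hs'im : s'.im = s.im - σ := by
    rw [hs', Complex.add_im, hcim]; simp [hw0i]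
  obtain ⟨eσ, heσ, Gb, g1, g2, g3⟩ := hb s' (by rw [hs'im]; linarith) (by rw [hs'im]; linarith)
  set e' : ℝ := min (eσ / 2) (min e (min ρ (r - ‖w0‖))) with he'
  have he'0 : 0 < e' := lt_min (by positivity) (lt_min he (lt_min hρ (sub_pos.2 hw0)))
  have k1 : e' ≤ eσ / 2 := min_le_left _ _
  have k2 : e' ≤ e := (min_le_right _ _).trans (min_le_left _ _)
  have k3 : e' ≤ ρ := (min_le_right _ _).trans ((min_le_right _ _).trans (min_le_left _ _))
  have k4 : e' ≤ r - ‖w0‖ := (min_le_right _ _).trans ((min_le_right _ _).trans (min_le_right _ _))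
  set T' : Set (ℂ × ℂ) := Tube c w0 e' with hT'
  have hT'o : IsOpen T' := isOpen_Tube c w0 e'
  have hT'c : Convex ℝ T' := convex_Tube c w0 e'
  have himw : ∀ x : ℂ × ℂ, ‖x.2 - w0‖ < e' → |x.2.im| < e' ∧ |x.2.re - w0.re| < e' := by
    intro x hx
    have h1 := Complex.abs_im_le_norm (x.2 - w0)
    have h2 := Complex.abs_re_le_norm (x.2 - w0)
    rw [Complex.sub_im, hw0i, sub_zero] at h1
    rw [Complex.sub_re] at h2
    exact ⟨h1.trans_lt hx, h2.trans_lt hx⟩
  have hmap : ∀ x ∈ T', ((x.1 + x.2 / 2, x.2) : ℂ × ℂ) ∈ Tube s' w0 eσ := by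
    rintro x ⟨h1, h2, h3, h4⟩
    obtain ⟨h5, h6⟩ := himw x h4
    rw [hcre] at h1
    rw [hcim] at h3
    have h1' := abs_lt.1 h1
    have h5' := abs_lt.1 h5
    have h6' := abs_lt.1 h6
    have r1 : (x.1 + x.2 / 2).re = x.1.re + x.2.re / 2 := by simp
    have r2 : (x.1 + x.2 / 2).im = x.1.im + x.2.im / 2 := by simp
    refine ⟨?_, ?_, ?_, ?_⟩
    · show |(x.1 + x.2 / 2).re - s'.re| < eσ
      rw [r1, hs're, abs_lt]
      constructor <;> linarith
    · show -eσ < (x.1 + x.2 / 2).im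
      rw [r2]; linarith
    · show (x.1 + x.2 / 2).im < s'.im + eσ
      rw [r2, hs'im]; linarith
    · show ‖x.2 - w0‖ < eσ
      linarith
  set βσ : ℂ × ℂ → ℂ := fun x => Gb (x.1 + x.2 / 2, x.2) with hβσ
  have hsh : Differentiable ℂ (fun x : ℂ × ℂ => ((x.1 + x.2 / 2, x.2) : ℂ × ℂ)) := by fun_prop
  have hβd : DifferentiableOn ℂ βσ T' := g1.comp hsh.differentiableOn hmap
  have hβV : ∀ x ∈ T', βσ x ∈ V := fun x hx => g2 _ (hmap x hx)
  have hβb : ∀ x ∈ T', ((x.1 + x.2 / 2, x.2) : ℂ × ℂ) ∈ PD ρ r → βσ x = b (x.1 + x.2 / 2, x.2) :=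
    fun x hx hx' => g3 _ (hmap x hx) hx'
  have hx0T' : (((s.re : ℂ), w0) : ℂ × ℂ) ∈ T' := by
    refine ⟨?_, ?_, ?_, ?_⟩
    · simp [hcre, he'0]
    · simp [he'0]
    · show ((s.re : ℂ)).im < c.im + e'
      rw [Complex.ofReal_im, hcim]; linarith
    · simp [he'0]
  have hT'T : T' ⊆ Tube s w0 e := by
    rintro x ⟨h1, h2, h3, h4⟩
    rw [hcre] at h1
    rw [hcim] at h3
    exact ⟨by linarith, by linarith, by linarith, by linarith⟩
  -- low region
  have hlow : ∀ᶠ x in 𝓝 (((s.re : ℂ), w0) : ℂ × ℂ), x ∈ T' ∧ x ∈ PD ρ r ∧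
      ((x.1 + x.2 / 2, x.2) : ℂ × ℂ) ∈ PD ρ r ∧ ((x.1 + x.2, x.2) : ℂ × ℂ) ∈ PD ρ r := by
    have hP := isOpen_PD ρ r
    have m1 : (((s.re : ℂ), w0) : ℂ × ℂ) ∈ PD ρ r := ⟨by simpa using hρ, hw0⟩
    have m2 : ((fun x : ℂ × ℂ => ((x.1 + x.2 / 2, x.2) : ℂ × ℂ)) ((s.re : ℂ), w0)) ∈ PD ρ r :=
      ⟨by simpa [hw0i] using hρ, hw0⟩
    have m3 : ((fun x : ℂ × ℂ => ((x.1 + x.2, x.2) : ℂ × ℂ)) ((s.re : ℂ), w0)) ∈ PD ρ r :=
      ⟨by simpa [hw0i] using hρ, hw0⟩
    have c2 : ContinuousAt (fun x : ℂ × ℂ => ((x.1 + x.2 / 2, x.2) : ℂ × ℂ)) ((s.re : ℂ), w0) := by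
      fun_prop
    have c3 : ContinuousAt (fun x : ℂ × ℂ => ((x.1 + x.2, x.2) : ℂ × ℂ)) ((s.re : ℂ), w0) := by
      fun_prop
    filter_upwards [hT'o.mem_nhds hx0T', hP.mem_nhds m1, c2.eventually (hP.mem_nhds m2),
      c3.eventually (hP.mem_nhds m3)] with x h1 h2 h3 h4
    exact ⟨h1, h2, h3, h4⟩
  -- the representation at the low point
  have hφa := Crest.Agent.R266.SCV.analyticOnNhd_of_differentiableOn (isOpen_PD ρ r) hL.φ_diff
  have hNZ : NZ (fun x : ℂ × ℂ => Complex.exp (Complex.I * φ x) ^ 2 -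
      Complex.exp (Complex.I * φ (x.1 + x.2, x.2)) ^ 2) (((s.re : ℂ), w0) : ℂ × ℂ) := by
    obtain ⟨-, m1, -, m3⟩ := hlow.self_of_nhds
    have a1 : AnalyticAt ℂ φ (((s.re : ℂ), w0) : ℂ × ℂ) := hφa _ m1
    have a2 : AnalyticAt ℂ (fun x : ℂ × ℂ => φ (x.1 + x.2, x.2)) (((s.re : ℂ), w0) : ℂ × ℂ) := by
      have a3 : AnalyticAt ℂ (fun x : ℂ × ℂ => ((x.1 + x.2, x.2) : ℂ × ℂ))
          (((s.re : ℂ), w0) : ℂ × ℂ) :=
        (analyticAt_fst.add analyticAt_snd).prod analyticAt_snd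
      exact AnalyticAt.fun_comp (g := φ) (hφa _ m3) a3
    refine ⟨((analyticAt_const.mul a1).cexp.pow 2).sub ((analyticAt_const.mul a2).cexp.pow 2), ?_⟩
    refine hne.mono fun x hx => ?_
    exact sub_ne_zero.2 hx
  have hrel : ∀ᶠ x in 𝓝 (((s.re : ℂ), w0) : ℂ × ℂ), Complex.exp (Complex.I * φ x) ^ 2 -
      Complex.exp (Complex.I * φ (x.1 + x.2, x.2)) ^ 2 ≠ 0 →
      deriv θ (βσ x) * Z x = Zn θ H 1 (βσ x) ∧ deriv θ (βσ x) * Zc x = Zn θ H (-1) (βσ x) := by
    filter_upwards [hlow, hE0] with x ⟨h1, h2, h3, h4⟩ ⟨h5, h6⟩ h7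
    have i0 : βσ x = b (x.1 + x.2 / 2, x.2) := hβb x h1 h3
    have hbη : b (x.1 + x.2 / 2, x.2) ∈ Str η := by
      have := hL.b_mem _ h3
      have h8 := hL.ρ_lt
      exact lt_trans this h8
    obtain ⟨z1, z2⟩ := Zn_eq D hV hbη
    have j1 := hL.inc x.1 x.2 h2 h3
    have h3' : ((x.1 + x.2 - x.2 / 2, x.2) : ℂ × ℂ) ∈ PD ρ r := by
      have : x.1 + x.2 - x.2 / 2 = x.1 + x.2 / 2 := by ring
      rw [this]; exact h3
    have j2 := hL.inc' (x.1 + x.2) x.2 h4 h3'
    have e5 : x.1 + x.2 - x.2 / 2 = x.1 + x.2 / 2 := by ring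
    rw [e5] at j2
    unfold OnLine at j1 j2
    have f1 : Gφ x = φ x := eφ x (hT'T h1) h2
    have f2 : Gp x = p x := ep x (hT'T h1) h2
    set Z0 := Zs q 1 (b (x.1 + x.2 / 2, x.2)) with hZ0
    set Zc0 := Zs q (-1) (b (x.1 + x.2 / 2, x.2)) with hZc0
    have hxe : ((x.1, x.2) : ℂ × ℂ) = x := rfl
    rw [hxe] at j1
    set a := Complex.exp (Complex.I * φ x) with ha
    set a1 := Complex.exp (Complex.I * φ (x.1 + x.2, x.2)) with ha1
    rw [Complex.exp_neg, ← ha] at j1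
    rw [Complex.exp_neg, ← ha1] at j2
    have a0 : a ≠ 0 := Complex.exp_ne_zero _
    have a10 : a1 ≠ 0 := Complex.exp_ne_zero _
    have q1 : Z0 = a ^ 2 * Zc0 + 2 * Complex.I * p x * a := by
      field_simp at j1
      linear_combination j1
    have q2 : Z0 = a1 ^ 2 * Zc0 + 2 * Complex.I * p (x.1 + x.2, x.2) * a1 := by
      field_simp at j2
      linear_combination j2
    have r1 : Zc x = Zc0 := by
      simp only [hZc]
      rw [f1, f2, h5, h6, ← ha, div_eq_iff h7]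
      linear_combination q1 - q2
    have r2 : Z x = Z0 := by
      simp only [hZ]
      rw [r1, f1, f2, ← ha, q1]
    rw [i0, r1, r2, z1, z2]
    exact ⟨rfl, rfl⟩
  have hβa := Crest.Agent.R266.SCV.analyticOnNhd_of_differentiableOn hT'o hβd
  have hana : ∀ f : ℂ → ℂ, DifferentiableOn ℂ f V → ∀ x ∈ T', AnalyticAt ℂ (fun x => f (βσ x)) x := by
    intro f hf x hx
    have h1 : AnalyticAt ℂ f (βσ x) := hf.analyticAt (hVo.mem_nhds (hβV x hx))
    exact h1.comp (hβa x hx)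
  have hθ' : DifferentiableOn ℂ (deriv θ) V := hV.θ_diff.deriv hVo
  have hrepT : ∀ x ∈ T', Rep Z (fun x => Zn θ H 1 (βσ x)) (fun x => deriv θ (βσ x)) x ∧
      Rep Zc (fun x => Zn θ H (-1) (βσ x)) (fun x => deriv θ (βσ x)) x := by
    have h1 := rep_of_preconnected (f := Z) (P := fun x => Zn θ H 1 (βσ x))
      (Q := fun x => deriv θ (βσ x)) hT'c.isPreconnected (fun x hx => (hZm x (hT'T hx)).1)
      (hana _ (diffOn_ZnV hVo hV.θ_diff hV.H_diff 1)) (hana _ hθ') hx0T'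
      ⟨_, hNZ, hrel.mono fun x hx h => (hx h).1⟩
    have h2 := rep_of_preconnected (f := Zc) (P := fun x => Zn θ H (-1) (βσ x))
      (Q := fun x => deriv θ (βσ x)) hT'c.isPreconnected (fun x hx => (hZm x (hT'T hx)).2)
      (hana _ (diffOn_ZnV hVo hV.θ_diff hV.H_diff (-1))) (hana _ hθ') hx0T'
      ⟨_, hNZ, hrel.mono fun x hx h => (hx h).2⟩
    exact fun x hx => ⟨h1 x hx, h2 x hx⟩
  -- the joint extension
  set rJ : ℝ := min (e' / 2) (e / 8) with hrJ
  have hrJ0 : 0 < rJ := lt_min (by positivity) (by positivity)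
  have hrJ1 : rJ ≤ e' / 2 := min_le_left _ _
  have hrJ2 : rJ ≤ e / 8 := min_le_right _ _
  have hdist : ∀ t : ℂ, ∀ R : ℝ, t ∈ ball c R → |t.re - s.re| < R ∧ |t.im - (s.im - σ)| < R := by
    intro t R ht
    rw [mem_ball, dist_eq_norm] at ht
    have h1 := Complex.abs_re_le_norm (t - c)
    have h2 := Complex.abs_im_le_norm (t - c)
    rw [Complex.sub_re, hcre] at h1
    rw [Complex.sub_im, hcim] at h2
    exact ⟨h1.trans_lt ht, h2.trans_lt ht⟩
  have hsubT' : ball c rJ ×ˢ ball w0 (e' / 2) ⊆ T' := by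
    rintro ⟨t, w⟩ ⟨ht, hw⟩
    obtain ⟨h1, h2⟩ := hdist t rJ ht
    rw [mem_ball, dist_eq_norm] at hw
    have h2' := abs_lt.1 h2
    refine ⟨?_, ?_, ?_, ?_⟩
    · show |t.re - c.re| < e'
      rw [hcre]; linarith
    · show -e' < t.im
      linarith
    · show t.im < c.im + e'
      rw [hcim]; linarith
    · show ‖w - w0‖ < e'
      linarith
  have hsubT : ball c (e / 2) ×ˢ ball w0 (e' / 2) ⊆ Tube s w0 e := by
    rintro ⟨t, w⟩ ⟨ht, hw⟩
    obtain ⟨h1, h2⟩ := hdist t _ ht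
    rw [mem_ball, dist_eq_norm] at hw
    have h2' := abs_lt.1 h2
    refine ⟨?_, ?_, ?_, ?_⟩
    · show |t.re - s.re| < e
      linarith
    · show -e < t.im
      linarith
    · show t.im < s.im + e
      linarith
    · show ‖w - w0‖ < e
      linarith
  obtain ⟨δ', hδ'0, hδ'1, Bt, t1, t2, t3⟩ := hJ c rJ (e / 2) (e / 4) (e' / 2) βσ Z Zc hrJ0
    (by linarith) (by linarith) (by positivity) (hβd.mono hsubT') (fun x hx => hβV x (hsubT' hx))
    (by
      intro w hw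
      by_contra hcon
      push Not at hcon
      rw [mem_ball, dist_eq_norm] at hw
      have hwe : ‖w - w0‖ < e' := by linarith
      set Tw : Set ℂ := {t | ((t, w) : ℂ × ℂ) ∈ T'} with hTw
      have hTwo : IsOpen Tw := hT'o.preimage (by fun_prop : Continuous fun t : ℂ => ((t, w) : ℂ × ℂ))
      have hTwc : Convex ℝ Tw := by
        intro t1 h1 t2 h2 a b ha hb hab
        have := hT'c h1 h2 ha hb hab
        have h3 : a • ((t1, w) : ℂ × ℂ) + b • ((t2, w) : ℂ × ℂ) = (a • t1 + b • t2, w) := by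
          ext1
          · simp
          · show a • w + b • w = w
            rw [← add_smul, hab, one_smul]
        rw [h3] at this
        exact this
      have hβw : DifferentiableOn ℂ (fun t => βσ (t, w)) Tw :=
        hβd.comp (by fun_prop : DifferentiableOn ℂ (fun t : ℂ => ((t, w) : ℂ × ℂ)) Tw) fun t ht => ht
      have ha : AnalyticOnNhd ℂ (deriv fun t => βσ (t, w)) Tw := (hβw.analyticOnNhd hTwo).deriv
      have hcTw : c ∈ Tw := hsubT' ⟨mem_ball_self hrJ0, by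
        rw [mem_ball, dist_eq_norm]; exact hw⟩
      have hsTw : (s.re : ℂ) ∈ Tw := by
        refine ⟨?_, ?_, ?_, hwe⟩
        · show |((s.re : ℂ)).re - c.re| < e'
          rw [hcre, Complex.ofReal_re, sub_self, abs_zero]; exact he'0
        · show -e' < ((s.re : ℂ)).im
          rw [Complex.ofReal_im]; linarith
        · show ((s.re : ℂ)).im < c.im + e'
          rw [Complex.ofReal_im, hcim]; linarith
      have hz := ha.eqOn_zero_of_preconnected_of_eventuallyEq_zero hTwc.isPreconnected hcTw (by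
        filter_upwards [ball_mem_nhds c hrJ0] with t ht
        exact hcon t ht) hsTw
      have hy : (((s.re : ℂ) + w / 2, w) : ℂ × ℂ) ∈ PD ρ r := by
        have h5 := (himw (c, w) hwe).1
        refine ⟨?_, ?_⟩
        · show |((s.re : ℂ) + w / 2).im| < ρ
          have : ((s.re : ℂ) + w / 2).im = w.im / 2 := by simp
          rw [this, abs_div, abs_two]
          have h6 : |w.im| < e' := h5
          linarith
        · show ‖w‖ < r
          have : ‖w‖ ≤ ‖w0‖ + ‖w - w0‖ := by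
            have := norm_add_le w0 (w - w0)
            rwa [add_sub_cancel] at this
          linarith
      have hbd : DifferentiableAt ℂ b ((s.re : ℂ) + w / 2, w) :=
        hL.b_diff.differentiableAt ((isOpen_PD ρ r).mem_nhds hy)
      have hder : HasDerivAt (fun t : ℂ => b (t + w / 2, w)) (q1 b ((s.re : ℂ) + w / 2, w)) (s.re : ℂ) := by
        have h6 : HasDerivAt (fun t : ℂ => ((t + w / 2, w) : ℂ × ℂ)) ((1, 0) : ℂ × ℂ) (s.re : ℂ) :=
          ((hasDerivAt_id _).add_const _).prodMk (hasDerivAt_const _ _)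
        exact HasFDerivAt.comp_hasDerivAt (f := fun t : ℂ => ((t + w / 2, w) : ℂ × ℂ)) (s.re : ℂ)
          hbd.hasFDerivAt h6
      have hder2 : deriv (fun t => βσ (t, w)) (s.re : ℂ) = q1 b ((s.re : ℂ) + w / 2, w) := by
        refine (hder.congr_of_eventuallyEq ?_).deriv
        have hcc : ContinuousAt (fun t : ℂ => ((t + w / 2, w) : ℂ × ℂ)) (s.re : ℂ) := by fun_prop
        filter_upwards [hTwo.mem_nhds hsTw, hcc.eventually ((isOpen_PD ρ r).mem_nhds hy)]
          with t h6 h7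
        exact hβb (t, w) h6 h7
      have h8 := hL.b_t _ hy
      rw [← hder2, hz] at h8
      norm_num at h8)
    (fun x hx => hZm x (hsubT hx))
    (fun x hx => hrepT x (hsubT' hx))
  -- gluing
  set e3 : ℝ := min e' (min δ' (e / 16)) with he3
  have he30 : 0 < e3 := lt_min he'0 (lt_min hδ'0 (by positivity))
  have l1 : e3 ≤ e' := min_le_left _ _
  have l2 : e3 ≤ δ' := (min_le_right _ _).trans (min_le_left _ _)
  have l3 : e3 ≤ e / 16 := (min_le_right _ _).trans (min_le_right _ _)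
  set BB : Set (ℂ × ℂ) := ball c (e / 4) ×ˢ ball w0 δ' with hBB
  have hBBo : IsOpen BB := isOpen_ball.prod isOpen_ball
  have hBBc : Convex ℝ BB := (convex_ball _ _).prod (convex_ball _ _)
  have hagree : EqOn βσ Bt (T' ∩ BB) := by
    have hcc : ((c, w0) : ℂ × ℂ) ∈ ball c rJ ×ˢ ball w0 δ' :=
      ⟨mem_ball_self hrJ0, mem_ball_self hδ'0⟩
    have hcT : ((c, w0) : ℂ × ℂ) ∈ T' := hsubT' ⟨mem_ball_self hrJ0, mem_ball_self (by positivity)⟩
    refine AnalyticOnNhd.eqOn_of_preconnected_of_eventuallyEq (𝕜 := ℂ)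
      (hβa.mono inter_subset_left)
      ((Crest.Agent.R266.SCV.analyticOnNhd_of_differentiableOn hBBo t1).mono inter_subset_right)
      (hT'c.inter hBBc).isPreconnected
      ⟨hcT, mem_ball_self (by positivity), mem_ball_self hδ'0⟩ ?_
    filter_upwards [(isOpen_ball.prod isOpen_ball).mem_nhds hcc] with x hx
    exact (t3 hx).symm
  have hlow' : ∀ x ∈ Tube s w0 e3, x.1.im < c.im + rJ → x ∈ T' := by
    rintro x ⟨h1, h2, h3, h4⟩ h5
    exact ⟨by rw [hcre]; linarith, by linarith, by linarith, by linarith⟩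
  have hhigh : ∀ x ∈ Tube s w0 e3, c.im + rJ / 2 ≤ x.1.im → x ∈ BB := by
    rintro x ⟨h1, h2, h3, h4⟩ h5
    refine ⟨?_, ?_⟩
    · rw [mem_ball, dist_eq_norm]
      have h6 := Complex.norm_le_abs_re_add_abs_im (x.1 - c)
      rw [Complex.sub_re, Complex.sub_im, hcre] at h6
      have h7 : |x.1.im - c.im| < σ + e3 := by
        rw [hcim, abs_lt]
        rw [hcim] at h5
        constructor <;> linarith
      linarith
    · rw [mem_ball, dist_eq_norm]
      linarith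
  classical
  set β : ℂ × ℂ → ℂ := fun x => if x.1.im < c.im + rJ / 2 then βσ x else Bt x with hβ
  have hβ1 : ∀ x ∈ Tube s w0 e3, x.1.im < c.im + rJ → β x = βσ x := by
    intro x hx hxi
    simp only [hβ]
    by_cases h1 : x.1.im < c.im + rJ / 2
    · rw [if_pos h1]
    · rw [if_neg h1]
      push Not at h1
      exact (hagree ⟨hlow' x hx hxi, hhigh x hx h1⟩).symm
  have hβ2 : ∀ x ∈ Tube s w0 e3, c.im + rJ / 2 < x.1.im → β x = Bt x := by
    intro x hx hxi
    simp only [hβ]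
    rw [if_neg (not_lt.2 hxi.le)]
  have hTo : IsOpen (Tube s w0 e3) := isOpen_Tube s w0 e3
  refine ⟨e3, he30, l1.trans k2, β, ?_, ?_, ?_⟩
  · intro x hx
    refine DifferentiableAt.differentiableWithinAt ?_
    by_cases h1 : x.1.im < c.im + rJ
    · have h2 : DifferentiableAt ℂ βσ x := hβd.differentiableAt (hT'o.mem_nhds (hlow' x hx h1))
      refine h2.congr_of_eventuallyEq ?_
      have h3 : IsOpen {x : ℂ × ℂ | x.1.im < c.im + rJ} := isOpen_lt (by fun_prop) continuous_const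
      filter_upwards [hTo.mem_nhds hx, h3.mem_nhds h1] with y hy1 hy2
      exact hβ1 y hy1 hy2
    · push Not at h1
      have h1' : c.im + rJ / 2 < x.1.im := by linarith
      have h2 : DifferentiableAt ℂ Bt x :=
        t1.differentiableAt (hBBo.mem_nhds (hhigh x hx h1'.le))
      refine h2.congr_of_eventuallyEq ?_
      have h3 : IsOpen {x : ℂ × ℂ | c.im + rJ / 2 < x.1.im} :=
        isOpen_lt continuous_const (by fun_prop)
      filter_upwards [hTo.mem_nhds hx, h3.mem_nhds h1'] with y hy1 hy2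
      exact hβ2 y hy1 hy2
  · intro x hx
    by_cases h1 : x.1.im < c.im + rJ
    · rw [hβ1 x hx h1]
      exact hβV x (hlow' x hx h1)
    · push Not at h1
      have h1' : c.im + rJ / 2 < x.1.im := by linarith
      rw [hβ2 x hx h1']
      exact t2 x (hhigh x hx h1'.le)
  · have hx0T : (((s.re : ℂ), w0) : ℂ × ℂ) ∈ Tube s w0 e3 := by
      refine ⟨?_, ?_, ?_, ?_⟩
      · simp [he30]
      · simp [he30]
      · show ((s.re : ℂ)).im < s.im + e3
        rw [Complex.ofReal_im]; linarith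
      · simp [he30]
    have h3 : IsOpen {x : ℂ × ℂ | x.1.im < c.im + rJ} := isOpen_lt (by fun_prop) continuous_const
    have h4 : (((s.re : ℂ), w0) : ℂ × ℂ) ∈ {x : ℂ × ℂ | x.1.im < c.im + rJ} := by
      show ((s.re : ℂ)).im < c.im + rJ
      rw [Complex.ofReal_im, hcim]; linarith
    filter_upwards [hTo.mem_nhds hx0T, h3.mem_nhds h4, hlow] with x h5 h6 h7
    rw [hβ1 x h5 h6]
    exact hβb x h7.1 h7.2.2.1

end fam

end Crest.Agent.R102.BEnd802
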