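import Mathlib

/-!
Row 102, part (C), leaf B-END (helper312), one-variable part.

* `half_plane` : a holomorphic map from a half plane to a strip with `|F'| ~ e^{α Re ξ}` on a
  horizontal ray tends to an interior point of the strip.
* `continuation` : labels on a half plane never leave the strip (natural boundary).
* `bend` : END.
-/

set_option autoImplicit false
set_option linter.unusedSectionVars false
set_option linter.unusedVariables false

open Set Filter Topology Metric Complex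

noncomputable section

namespace Crest.Agent.R102.BEnd312

/-! ### half planes -/

theorem ball_sub_half {ρ x η : ℝ} {R : ℝ} (hR : R ≤ ρ - x) {z : ℂ}
    (hz : z ∈ ball (⟨x, η⟩ : ℂ) R) : z.re < ρ := by
  rw [mem_ball, dist_eq_norm] at hz
  have h1 := (Complex.abs_re_le_norm (z - ⟨x, η⟩)).trans_lt hz
  rw [sub_re] at h1
  have h2 := (abs_lt.1 h1).2
  simp only at h2
  linarith

theorem closedBall_sub_half {ρ x η : ℝ} {R : ℝ} (hR : R < ρ - x) {z : ℂ}
    (hz : z ∈ closedBall (⟨x, η⟩ : ℂ) R) : z.re < ρ := by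
  rw [mem_closedBall, dist_eq_norm] at hz
  have h1 := (Complex.abs_re_le_norm (z - ⟨x, η⟩)).trans hz
  rw [sub_re] at h1
  have h2 := (abs_le.1 h1).2
  simp only at h2
  linarith

/-- derivative estimate for maps to a strip -/
theorem deriv_strip {F : ℂ → ℂ} {ρ h : ℝ}
    (hF : ∀ ξ : ℂ, ξ.re < ρ → DifferentiableAt ℂ F ξ) (hS : ∀ ξ : ℂ, ξ.re < ρ → |(F ξ).im| < h)
    {x η : ℝ} (hx : x < ρ) : ‖deriv F ⟨x, η⟩‖ ≤ 2 * Real.exp (2 * h) / (ρ - x) := by
  set c : ℂ := ⟨x, η⟩ with hc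
  set R : ℝ := (ρ - x) / 2 with hR
  have hR0 : 0 < R := by rw [hR]; linarith
  have hRx : R < ρ - x := by rw [hR]; linarith
  set g : ℂ → ℂ := fun ζ => Complex.exp (I * F ζ) with hg
  have hgn : ∀ ζ : ℂ, ‖g ζ‖ = Real.exp (-(F ζ).im) := by
    intro ζ
    rw [hg]
    simp only [Complex.norm_exp, mul_re, I_re, I_im, zero_mul, one_mul, zero_sub]
  have hgd : ∀ ζ : ℂ, ζ.re < ρ → DifferentiableAt ℂ g ζ := fun ζ hζ =>
    ((hF ζ hζ).const_mul I).cexp
  have hcρ : c.re < ρ := hx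
  have h1 : ‖deriv g c‖ ≤ Real.exp h / R := by
    refine Complex.norm_deriv_le_of_forall_mem_sphere_norm_le hR0 ?_ ?_
    · refine DifferentiableOn.diffContOnCl_ball (U := closedBall c R) (fun ζ hζ => ?_) subset_rfl
      exact (hgd ζ (closedBall_sub_half hRx hζ)).differentiableWithinAt
    · intro ζ hζ
      rw [hgn]
      have := (abs_lt.1 (hS ζ (closedBall_sub_half hRx (sphere_subset_closedBall hζ)))).1
      exact Real.exp_le_exp.2 (by linarith)
  have h2 : deriv g c = g c * (I * deriv F c) :=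
    (((hF c hcρ).hasDerivAt.const_mul I).cexp).deriv
  have h3 : Real.exp (-h) * ‖deriv F c‖ ≤ Real.exp h / R := by
    rw [h2, norm_mul, norm_mul, norm_I, one_mul, hgn] at h1
    refine le_trans ?_ h1
    have := (abs_lt.1 (hS c hcρ)).2
    have : Real.exp (-h) ≤ Real.exp (-(F c).im) := Real.exp_le_exp.2 (by linarith)
    gcongr
  have h4 : ‖deriv F c‖ ≤ Real.exp h * (Real.exp h / R) := by
    have : ‖deriv F c‖ = Real.exp h * (Real.exp (-h) * ‖deriv F c‖) := by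
      rw [← mul_assoc, ← Real.exp_add]; simp
    rw [this]
    gcongr
  refine h4.trans (le_of_eq ?_)
  rw [hR, show (2 : ℝ) * h = h + h by ring, Real.exp_add]
  field_simp

/-- **half plane lemma** -/
theorem half_plane {F : ℂ → ℂ} {ρ h α c C η : ℝ} (hc : 0 < c)
    (hF : ∀ ξ : ℂ, ξ.re < ρ → DifferentiableAt ℂ F ξ) (hS : ∀ ξ : ℂ, ξ.re < ρ → |(F ξ).im| < h)
    (hlow : ∀ x < ρ, c * Real.exp (α * x) ≤ ‖deriv F ⟨x, η⟩‖)
    (hup : ∀ x < ρ, ‖deriv F ⟨x, η⟩‖ ≤ C * Real.exp (α * x)) :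
    ∃ z₀ : ℂ, |z₀.im| < h ∧ Tendsto (fun x : ℝ => F ⟨x, η⟩) atBot (𝓝 z₀) := by
  have hC : 0 < C := by
    have h1 := (hlow (ρ - 1) (by linarith)).trans (hup (ρ - 1) (by linarith))
    have h2 := Real.exp_pos (α * (ρ - 1))
    by_contra hC
    push Not at hC
    nlinarith
  -- `α > 0`
  have hα : 0 < α := by
    by_contra hα
    push Not at hα
    set K := 2 * Real.exp (2 * h) with hK
    have hK0 : 0 < K := by positivity
    set x := min ρ 0 - K / c - 1 with hx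
    have hKc : 0 < K / c := by positivity
    have hx1 : x < ρ := by
      have := min_le_left ρ 0
      linarith
    have hx0 : x ≤ 0 := by
      have := min_le_right ρ 0
      linarith
    have h1 := (hlow x hx1).trans (deriv_strip hF hS (η := η) hx1)
    have h2 : 1 ≤ Real.exp (α * x) := Real.one_le_exp (mul_nonneg_of_nonpos_of_nonpos hα hx0)
    have h3 : c ≤ K / (ρ - x) := by
      refine le_trans ?_ h1
      nlinarith
    have h4 : K / c + 1 ≤ ρ - x := by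
      have := min_le_left ρ 0
      linarith
    have h5 : 0 < ρ - x := by linarith
    rw [le_div_iff₀ h5] at h3
    have h6 : c * (K / c + 1) ≤ c * (ρ - x) := by gcongr
    have h7 : c * (K / c + 1) = K + c := by field_simp
    linarith
  -- real path
  set f : ℝ → ℂ := fun x => F ⟨x, η⟩ with hf
  have hfd : ∀ x < ρ, HasDerivAt f (deriv F ⟨x, η⟩) x := by
    intro x hx
    have h1 : HasDerivAt F (deriv F ⟨x, η⟩) (⟨x, η⟩ : ℂ) := (hF ⟨x, η⟩ hx).hasDerivAt
    have h2 : HasDerivAt (fun y : ℝ => (⟨y, η⟩ : ℂ)) 1 x := by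
      have h3 : (fun y : ℝ => (⟨y, η⟩ : ℂ)) = fun y : ℝ => (y : ℂ) + (⟨0, η⟩ : ℂ) := by
        funext y
        apply Complex.ext <;> simp
      rw [h3]
      exact (Complex.ofRealCLM.hasDerivAt (x := x)).add_const _
    have h4 := h1.comp x h2
    rw [mul_one] at h4
    exact h4
  -- increments
  have hinc : ∀ a b : ℝ, a ≤ b → b < ρ → ‖f b - f a‖ ≤ C / α * Real.exp (α * b) := by
    intro a b hab hb
    have h1 := image_norm_le_of_norm_deriv_right_le_deriv_boundary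
      (f := fun x => f x - f a) (f' := fun x => deriv F ⟨x, η⟩) (a := a) (b := b)
      (B := fun x => C / α * Real.exp (α * x)) (B' := fun x => C * Real.exp (α * x))
      (fun x hx => ((hfd x (hx.2.trans_lt hb)).continuousAt.sub
        continuousAt_const).continuousWithinAt)
      (fun x hx => ((hfd x (hx.2.trans hb)).sub_const (f a)).hasDerivWithinAt)
      (by simp only [sub_self, norm_zero]; positivity)
      (fun x => by
        have h2 : HasDerivAt (fun x : ℝ => Real.exp (α * x)) (Real.exp (α * x) * (α * 1)) x :=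
          ((hasDerivAt_id x).const_mul α).exp
        have h3 := h2.const_mul (C / α)
        have h4 : C / α * (Real.exp (α * x) * (α * 1)) = C * Real.exp (α * x) := by
          field_simp
        rw [h4] at h3
        exact h3)
      (fun x hx => hup x (hx.2.trans hb))
    exact h1 (right_mem_Icc.2 hab)
  -- the limit
  have hexp : Tendsto (fun b : ℝ => C / α * Real.exp (α * b)) atBot (𝓝 0) := by
    have h1 : Tendsto (fun b : ℝ => Real.exp (α * b)) atBot (𝓝 0) :=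
      Real.tendsto_exp_atBot.comp (tendsto_id.const_mul_atBot hα)
    simpa using h1.const_mul (C / α)
  have hcau : Cauchy (map f atBot) := by
    rw [Metric.cauchy_iff]
    refine ⟨inferInstance, fun ε hε => ?_⟩
    have h1 : ∀ᶠ b : ℝ in atBot, C / α * Real.exp (α * b) < ε / 2 ∧ b < ρ :=
      (hexp.eventually_lt_const (by linarith)).and (eventually_lt_atBot ρ)
    obtain ⟨b, hb, hbρ⟩ := h1.exists
    refine ⟨f '' Iic b, image_mem_map (Iic_mem_atBot b), ?_⟩
    rintro _ ⟨u, hu, rfl⟩ _ ⟨v, hv, rfl⟩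
    have h2 := hinc u b hu hbρ
    have h3 := hinc v b hv hbρ
    have h4 : f u - f v = (f b - f v) - (f b - f u) := by ring
    rw [dist_eq_norm, h4]
    refine (norm_sub_le _ _).trans_lt ?_
    linarith
  obtain ⟨z₀, hz₀⟩ := CompleteSpace.complete hcau
  have hlim : Tendsto f atBot (𝓝 z₀) := hz₀
  have hdist : ∀ b < ρ, ‖f b - z₀‖ ≤ C / α * Real.exp (α * b) := by
    intro b hb
    have h1 : Tendsto (fun a => ‖f b - f a‖) atBot (𝓝 ‖f b - z₀‖) :=
      (tendsto_const_nhds.sub hlim).norm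
    refine le_of_tendsto h1 ?_
    filter_upwards [eventually_le_atBot b] with a ha
    exact hinc a b ha hb
  refine ⟨z₀, ?_, hlim⟩
  have hle : |z₀.im| ≤ h := by
    have h1 : Tendsto (fun x => |(f x).im|) atBot (𝓝 |z₀.im|) :=
      ((Complex.continuous_im.tendsto _).comp hlim).abs
    refine le_of_tendsto h1 ?_
    filter_upwards [eventually_lt_atBot ρ] with x hx
    exact (hS ⟨x, η⟩ hx).le
  -- strictness
  have key : ∀ s : ℝ, |s| = 1 → s * z₀.im ≠ h := by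
    intro s hs hsz
    have hs' : ∀ y : ℝ, s * y ≤ |y| := fun y => by
      calc s * y ≤ |s * y| := le_abs_self _
        _ = |y| := by rw [abs_mul, hs, one_mul]
    set x1 := ρ - 1 with hx1
    have hx1ρ : x1 < ρ := by linarith
    have hcmp : ∀ x < x1, ‖f x1 - f x‖ ≤ 2 * (C / α * Real.exp (α * x)) * (x1 - x) := by
      intro x hx
      have hxρ : x < ρ := hx.trans hx1ρ
      set c0 : ℂ := ⟨x, η⟩ with hc0
      set v : ℝ := h - s * (F c0).im with hv
      have hv0 : 0 < v := by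
        have := (hs' (F c0).im).trans_lt (hS c0 hxρ)
        rw [hv]; linarith
      have hvle : v ≤ C / α * Real.exp (α * x) := by
        have h1 : v = s * (z₀ - F c0).im := by rw [hv, sub_im, ← hsz]; ring
        have h2 : s * (z₀ - F c0).im ≤ ‖z₀ - F c0‖ :=
          (hs' _).trans (Complex.abs_im_le_norm _)
        rw [h1]
        refine h2.trans ?_
        rw [norm_sub_rev]
        exact hdist x hxρ
      set R : ℝ := ρ - x with hR
      have hR0 : 0 < R := by rw [hR]; linarith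
      -- Borel-Caratheodory
      set G : ℂ → ℂ := fun z => -I * s * (F (c0 + z) - F c0) with hG
      have hmem : ∀ z ∈ ball (0 : ℂ) R, (c0 + z).re < ρ := by
        intro z hz
        refine ball_sub_half (x := x) (η := η) (R := R) (by rw [hR]) ?_
        rw [mem_ball, dist_zero_right] at hz
        rw [mem_ball, dist_eq_norm]
        have h1 : c0 + z - ⟨x, η⟩ = z := by rw [← hc0]; ring
        rw [h1]
        exact hz
      have hGd : DifferentiableOn ℂ G (ball 0 R) := by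
        intro z hz
        refine DifferentiableAt.differentiableWithinAt ?_
        refine DifferentiableAt.const_mul (DifferentiableAt.sub_const ?_ _) _
        exact (hF _ (hmem z hz)).comp z ((differentiableAt_const c0).add differentiableAt_id)
      have hGre : ∀ z : ℂ, (G z).re = s * ((F (c0 + z)).im - (F c0).im) := by
        intro z
        simp only [hG, mul_re, mul_im, neg_re, neg_im, I_re, I_im, ofReal_re, ofReal_im, sub_re,
          sub_im]
        ring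
      have hGm : MapsTo G (ball 0 R) {z | z.re ≤ v} := by
        intro z hz
        show (G z).re ≤ v
        rw [hGre, hv]
        have := (hs' (F (c0 + z)).im).trans_lt (hS _ (hmem z hz))
        nlinarith
      have hz1 : ((x1 - x : ℝ) : ℂ) ∈ ball (0 : ℂ) R := by
        rw [mem_ball, dist_zero_right, Complex.norm_real, Real.norm_eq_abs,
          abs_of_pos (by linarith), hR]
        linarith
      have hbc := Complex.borelCaratheodory_zero hv0 hGd hGm hR0 hz1 (by simp [hG])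
      have hpt : c0 + ((x1 - x : ℝ) : ℂ) = ⟨x1, η⟩ := by
        apply Complex.ext <;> simp [hc0]
      have hGz : ‖G ((x1 - x : ℝ) : ℂ)‖ = ‖f x1 - f x‖ := by
        have h1 : G ((x1 - x : ℝ) : ℂ) = -I * s * (f x1 - f x) := by
          show -I * s * (F (c0 + ((x1 - x : ℝ) : ℂ)) - F c0) = _
          rw [hpt]
        rw [h1, norm_mul, norm_mul, norm_neg, norm_I, one_mul, Complex.norm_real,
          Real.norm_eq_abs, hs, one_mul]
      rw [hGz, Complex.norm_real, Real.norm_eq_abs, abs_of_pos (by linarith : 0 < x1 - x)] at hbc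
      have hRr : R - (x1 - x) = 1 := by rw [hR, hx1]; ring
      rw [hRr, div_one] at hbc
      refine hbc.trans ?_
      have : 0 < x1 - x := by linarith
      gcongr
    have hlim1 : Tendsto (fun x => ‖f x1 - f x‖) atBot (𝓝 ‖f x1 - z₀‖) :=
      (tendsto_const_nhds.sub hlim).norm
    have hlim2 : Tendsto (fun x : ℝ => 2 * (C / α * Real.exp (α * x)) * (x1 - x)) atBot (𝓝 0) := by
      have h1 : Tendsto (fun y : ℝ => y * Real.exp (-(α * y))) atTop (𝓝 0) := by
        have := Real.tendsto_pow_mul_exp_neg_atTop_nhds_zero 1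
        have h2 : Tendsto (fun y : ℝ => (1 / α) * ((α * y) ^ 1 * Real.exp (-(α * y)))) atTop
            (𝓝 ((1 / α) * 0)) :=
          (this.comp (tendsto_id.const_mul_atTop hα)).const_mul _
        rw [mul_zero] at h2
        refine h2.congr (fun y => ?_)
        field_simp
      have h3 : Tendsto (fun x : ℝ => -x * Real.exp (-(α * -x))) atBot (𝓝 0) :=
        h1.comp tendsto_neg_atBot_atTop
      have h4 := ((hexp.const_mul (2 * x1)).add (h3.const_mul (2 * (C / α))))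
      simp only [mul_zero, add_zero] at h4
      refine h4.congr (fun x => ?_)
      rw [show -(α * -x) = α * x by ring]
      ring
    have h5 : ‖f x1 - z₀‖ ≤ 0 := by
      refine le_of_tendsto_of_tendsto hlim1 hlim2 ?_
      filter_upwards [eventually_lt_atBot x1] with x hx
      exact hcmp x hx
    have h6 : f x1 = z₀ := by
      have := norm_le_zero_iff.1 h5
      exact sub_eq_zero.1 this
    have h7 := hS ⟨x1, η⟩ hx1ρ
    have h8 : (F ⟨x1, η⟩).im = z₀.im := by rw [← h6]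
    rw [h8] at h7
    have h9 := hs' z₀.im
    rw [hsz] at h9
    linarith
  refine lt_of_le_of_ne hle (fun heq => ?_)
  rcases abs_choice z₀.im with h1 | h1
  · exact key 1 (by simp) (by rw [one_mul, ← heq, h1])
  · exact key (-1) (by simp) (by rw [neg_one_mul, ← heq, h1])

/-! ### continuation of the label over a half plane -/

theorem convex_strip (h : ℝ) : Convex ℝ {z : ℂ | |z.im| < h} := by
  have h1 : {z : ℂ | |z.im| < h} = Complex.imLm ⁻¹' (Ioo (-h) h) := by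
    ext t
    simp only [mem_ofPred_eq, mem_preimage, mem_Ioo, abs_lt]
    rfl
  rw [h1]
  exact (convex_Ioo (-h) h).linear_preimage _

theorem isOpen_strip (h : ℝ) : IsOpen {z : ℂ | |z.im| < h} :=
  isOpen_lt (continuous_abs.comp Complex.continuous_im) continuous_const

theorem convex_half (ρ : ℝ) : Convex ℝ {z : ℂ | z.re < ρ} := by
  have h1 : {z : ℂ | z.re < ρ} = Complex.reLm ⁻¹' (Iio ρ) := by
    ext t
    simp only [mem_ofPred_eq, mem_preimage, mem_Iio]
    rfl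
  rw [h1]
  exact (convex_Iio ρ).linear_preimage _

/-- **labels over a half plane stay in the strip** if the strip has a natural boundary. -/
theorem continuation {h ρ : ℝ} {m k F A B : ℂ → ℂ}
    (hm : ∀ z : ℂ, |z.im| < h → AnalyticAt ℂ m z) (hk : ∀ z : ℂ, |z.im| < h → AnalyticAt ℂ k z)
    (NB : ∀ z₁ : ℂ, |z₁.im| = h → ∀ mt kt : ℂ → ℂ, AnalyticAt ℂ mt z₁ → AnalyticAt ℂ kt z₁ →
      mt z₁ ≠ 0 → ¬ ∀ᶠ z in 𝓝 z₁, |z.im| < h → mt z = m z ∧ kt z = k z)
    (hF : ∀ ξ : ℂ, ξ.re < ρ → AnalyticAt ℂ F ξ) (hF' : ∀ ξ : ℂ, ξ.re < ρ → deriv F ξ ≠ 0)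
    (hA : ∀ ξ : ℂ, ξ.re < ρ → AnalyticAt ℂ A ξ) (hA0 : ∀ ξ : ℂ, ξ.re < ρ → A ξ ≠ 0)
    (hB : ∀ ξ : ℂ, ξ.re < ρ → AnalyticAt ℂ B ξ) {ξ₀ : ℂ} (h0 : ξ₀.re < ρ)
    (hS0 : |(F ξ₀).im| < h) (h1 : ∀ᶠ ζ in 𝓝 ξ₀, A ζ = m (F ζ) ∧ B ζ = k (F ζ)) :
    ∀ ξ : ℂ, ξ.re < ρ → |(F ξ).im| < h ∧ ∀ᶠ ζ in 𝓝 ξ, A ζ = m (F ζ) ∧ B ζ = k (F ζ) := by
  set u : Set ℂ := {ξ | ξ.re < ρ ∧ |(F ξ).im| < h ∧ ∀ᶠ ζ in 𝓝 ξ, A ζ = m (F ζ) ∧ B ζ = k (F ζ)}
    with hu
  have hP : IsOpen {z : ℂ | z.re < ρ} := isOpen_lt Complex.continuous_re continuous_const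
  have huo : IsOpen u := by
    rw [isOpen_iff_mem_nhds]
    rintro ξ ⟨h2, h3, h4⟩
    have h5 : ∀ᶠ ζ in 𝓝 ξ, |(F ζ).im| < h :=
      (hF ξ h2).continuousAt.eventually ((isOpen_strip h).mem_nhds h3)
    filter_upwards [hP.mem_nhds h2, h5, h4.eventually_nhds] with ζ a b c
    exact ⟨a, b, c⟩
  have hsub : {z : ℂ | z.re < ρ} ⊆ u := by
    refine (convex_half ρ).isPreconnected.subset_of_closure_inter_subset huo
      ⟨ξ₀, h0, h0, hS0, h1⟩ ?_
    rintro ξ₁ ⟨hcl, hre⟩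
    have hre' : ξ₁.re < ρ := hre
    have hfr : ∃ᶠ q in 𝓝 ξ₁, q ∈ u := mem_closure_iff_frequently.1 hcl
    have hFc : ContinuousAt F ξ₁ := (hF ξ₁ hre').continuousAt
    have hle : |(F ξ₁).im| ≤ h := by
      by_contra hlt
      push Not at hlt
      have h2 : ∀ᶠ ζ in 𝓝 ξ₁, h < |(F ζ).im| :=
        hFc.eventually ((isOpen_lt continuous_const
          (continuous_abs.comp Complex.continuous_im)).mem_nhds hlt)
      obtain ⟨q, hq, hq2⟩ := (hfr.and_eventually h2).exists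
      exact absurd hq.2.1 (not_lt.2 hq2.le)
    rcases lt_or_eq_of_le hle with hlt | heq
    · -- interior point
      refine ⟨hre', hlt, ?_⟩
      have h2 : ∀ᶠ ζ in 𝓝 ξ₁, AnalyticAt ℂ A ζ ∧ AnalyticAt ℂ B ζ ∧
          AnalyticAt ℂ (fun x => m (F x)) ζ ∧ AnalyticAt ℂ (fun x => k (F x)) ζ := by
        have h3 : ∀ᶠ ζ in 𝓝 ξ₁, |(F ζ).im| < h :=
          hFc.eventually ((isOpen_strip h).mem_nhds hlt)
        filter_upwards [hP.mem_nhds hre', h3] with ζ a b
        exact ⟨hA ζ a, hB ζ a, (hm _ b).fun_comp (hF ζ a), (hk _ b).fun_comp (hF ζ a)⟩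
      obtain ⟨e, he, hball⟩ := Metric.eventually_nhds_iff_ball.1 h2
      obtain ⟨q, hq, hqb⟩ := (hfr.and_eventually (ball_mem_nhds ξ₁ he)).exists
      have hc : IsPreconnected (ball ξ₁ e) := (convex_ball ξ₁ e).isPreconnected
      have h4 : EqOn A (fun x => m (F x)) (ball ξ₁ e) :=
        AnalyticOnNhd.eqOn_of_preconnected_of_eventuallyEq (fun ζ hζ => (hball ζ hζ).1)
          (fun ζ hζ => (hball ζ hζ).2.2.1) hc hqb (hq.2.2.mono fun ζ hζ => hζ.1)
      have h5 : EqOn B (fun x => k (F x)) (ball ξ₁ e) :=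
        AnalyticOnNhd.eqOn_of_preconnected_of_eventuallyEq (fun ζ hζ => (hball ζ hζ).2.1)
          (fun ζ hζ => (hball ζ hζ).2.2.2) hc hqb (hq.2.2.mono fun ζ hζ => hζ.2)
      filter_upwards [ball_mem_nhds ξ₁ he] with ζ hζ
      exact ⟨h4 hζ, h5 hζ⟩
    · -- boundary point: contradiction with the natural boundary
      exfalso
      have hd := hF' ξ₁ hre'
      have hs := (hF ξ₁ hre').hasStrictDerivAt
      set σ : ℂ → ℂ := hs.localInverse F (deriv F ξ₁) ξ₁ hd with hσ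
      have hσan : AnalyticAt ℂ σ (F ξ₁) := (hF ξ₁ hre').analyticAt_localInverse hd
      have hσ1 : σ (F ξ₁) = ξ₁ := HasStrictFDerivAt.localInverse_apply_image ..
      have hleft : ∀ᶠ ζ in 𝓝 ξ₁, σ (F ζ) = ζ := HasStrictDerivAt.eventually_left_inverse ..
      have hright : ∀ᶠ z in 𝓝 (F ξ₁), F (σ z) = z := HasStrictFDerivAt.eventually_right_inverse ..
      have hmt : AnalyticAt ℂ (fun z => A (σ z)) (F ξ₁) := by
        refine AnalyticAt.fun_comp (g := A) (f := σ) ?_ hσan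
        rw [hσ1]; exact hA ξ₁ hre'
      have hkt : AnalyticAt ℂ (fun z => B (σ z)) (F ξ₁) := by
        refine AnalyticAt.fun_comp (g := B) (f := σ) ?_ hσan
        rw [hσ1]; exact hB ξ₁ hre'
      refine NB (F ξ₁) heq _ _ hmt hkt (by rw [hσ1]; exact hA0 ξ₁ hre') ?_
      obtain ⟨e, he, hball⟩ := Metric.eventually_nhds_iff_ball.1
        (hσan.eventually_analyticAt.and (hright.and
          (hmt.eventually_analyticAt.and hkt.eventually_analyticAt)))
      have hN : ∀ᶠ ζ in 𝓝 ξ₁, F ζ ∈ ball (F ξ₁) e := hFc.eventually (ball_mem_nhds _ he)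
      obtain ⟨q, hq, hqb, hql⟩ := (hfr.and_eventually (hN.and hleft)).exists
      have hc : IsPreconnected (ball (F ξ₁) e ∩ {z : ℂ | |z.im| < h}) :=
        ((convex_ball _ _).inter (convex_strip h)).isPreconnected
      have hq' : F q ∈ ball (F ξ₁) e ∩ {z : ℂ | |z.im| < h} := ⟨hqb, hq.2.1⟩
      have hnear : ∀ᶠ z in 𝓝 (F q), A (σ z) = m z ∧ B (σ z) = k z := by
        have h3 : ContinuousAt σ (F q) := (hball _ hqb).1.continuousAt
        have h4 : ∀ᶠ ζ in 𝓝 (σ (F q)), A ζ = m (F ζ) ∧ B ζ = k (F ζ) := by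
          rw [hql]; exact hq.2.2
        filter_upwards [h3.eventually h4, isOpen_ball.mem_nhds hqb] with z hz hzb
        rw [(hball z hzb).2.1] at hz
        exact hz
      have h4 : EqOn (fun z => A (σ z)) m (ball (F ξ₁) e ∩ {z : ℂ | |z.im| < h}) :=
        AnalyticOnNhd.eqOn_of_preconnected_of_eventuallyEq (fun z hz => (hball z hz.1).2.2.1)
          (fun z hz => hm z hz.2) hc hq' (hnear.mono fun z hz => hz.1)
      have h5 : EqOn (fun z => B (σ z)) k (ball (F ξ₁) e ∩ {z : ℂ | |z.im| < h}) :=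
        AnalyticOnNhd.eqOn_of_preconnected_of_eventuallyEq (fun z hz => (hball z hz.1).2.2.2)
          (fun z hz => hk z hz.2) hc hq' (hnear.mono fun z hz => hz.2)
      filter_upwards [ball_mem_nhds (F ξ₁) he] with z hz hzS
      exact ⟨h4 ⟨hz, hzS⟩, h5 ⟨hz, hzS⟩⟩
  intro ξ hξ
  exact (hsub hξ).2

/-! ### primitives on a half plane -/

theorem exists_prim_half {f : ℂ → ℂ} {ρ : ℝ}
    (hf : ∀ ξ : ℂ, ξ.re < ρ → DifferentiableAt ℂ f ξ) :
    ∃ F : ℂ → ℂ, ∀ ξ : ℂ, ξ.re < ρ → HasDerivAt F (f ξ) ξ := by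
  set Bn : ℕ → Set ℂ := fun n => ball (⟨ρ - (n + 1), 0⟩ : ℂ) (n + 1) with hBn
  have hsub : ∀ n, ∀ z ∈ Bn n, z.re < ρ := fun n z hz =>
    ball_sub_half (ρ := ρ) (x := ρ - (n + 1)) (η := 0) (R := n + 1) (by linarith) hz
  have hmono : ∀ n n', n ≤ n' → Bn n ⊆ Bn n' := by
    intro n n' h
    refine ball_subset_ball' ?_
    have h1 : (n : ℝ) ≤ n' := by exact_mod_cast h
    have h2 : dist (⟨ρ - (n + 1), 0⟩ : ℂ) (⟨ρ - (n' + 1), 0⟩ : ℂ) = n' - n := by
      rw [dist_eq_norm]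
      have : (⟨ρ - (n + 1), 0⟩ : ℂ) - (⟨ρ - (n' + 1), 0⟩ : ℂ) = ((n' - n : ℝ) : ℂ) := by
        apply Complex.ext <;> simp
      rw [this, Complex.norm_real, Real.norm_eq_abs, abs_of_nonneg (by linarith)]
    rw [h2]
    linarith
  have hcov : ∀ z : ℂ, z.re < ρ → ∃ n, z ∈ Bn n := by
    intro z hz
    obtain ⟨n, hn⟩ := exists_nat_gt (((ρ - z.re) ^ 2 + z.im ^ 2) / (2 * (ρ - z.re)))
    refine ⟨n, ?_⟩
    have h0 : 0 < ρ - z.re := by linarith
    rw [div_lt_iff₀ (by linarith)] at hn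
    rw [hBn, mem_ball, dist_eq_norm]
    have h1 : ‖z - (⟨ρ - (n + 1), 0⟩ : ℂ)‖ ^ 2 < ((n : ℝ) + 1) ^ 2 := by
      rw [Complex.sq_norm, Complex.normSq_apply]
      simp only [sub_re, sub_im, sub_zero]
      nlinarith
    exact lt_of_pow_lt_pow_left₀ 2 (by positivity) h1
  have hx0 : ∀ n, (⟨ρ - 1, 0⟩ : ℂ) ∈ Bn n := by
    intro n
    refine hmono 0 n (Nat.zero_le _) ?_
    simp [hBn]
  have hex : ∀ n, ∃ g : ℂ → ℂ, g ⟨ρ - 1, 0⟩ = 0 ∧ ∀ z ∈ Bn n, HasDerivAt g (f z) z := by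
    intro n
    have h1 : DifferentiableOn ℂ f (Bn n) := fun z hz =>
      (hf z (hsub n z hz)).differentiableWithinAt
    obtain ⟨g, hg⟩ := h1.isExactOn_ball
    refine ⟨fun z => g z - g ⟨ρ - 1, 0⟩, by simp, fun z hz => ?_⟩
    exact (hg z hz).sub_const _
  choose g hg0 hg using hex
  have hcons : ∀ n n', n ≤ n' → ∀ z ∈ Bn n, g n z = g n' z := by
    intro n n' h z hz
    have h1 : ∀ w ∈ Bn n, HasDerivAt (fun w => g n w - g n' w) 0 w := fun w hw => by
      have := (hg n w hw).sub (hg n' w (hmono n n' h hw))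
      rw [sub_self] at this
      exact this
    have h2 : g n z - g n' z = g n ⟨ρ - 1, 0⟩ - g n' ⟨ρ - 1, 0⟩ := by
      refine (convex_ball _ _).is_const_of_fderivWithin_eq_zero (𝕜 := ℂ)
        (f := fun w => g n w - g n' w) (s := Bn n)
        (fun w hw => (h1 w hw).differentiableAt.differentiableWithinAt) (fun w hw => ?_) hz (hx0 n)
      rw [fderivWithin_of_isOpen isOpen_ball hw]
      have h3 := (h1 w hw).hasFDerivAt.fderiv
      rw [h3]
      ext
      simp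
    rw [hg0, hg0, sub_zero] at h2
    exact sub_eq_zero.1 h2
  classical
  refine ⟨fun z => if hz : ∃ n, z ∈ Bn n then g (Nat.find hz) z else 0, fun z hz => ?_⟩
  obtain ⟨n, hn⟩ := hcov z hz
  refine (hg n z hn).congr_of_eventuallyEq ?_
  filter_upwards [isOpen_ball.mem_nhds hn] with w hw
  have hw' : ∃ n, w ∈ Bn n := ⟨n, hw⟩
  rw [dif_pos hw']
  exact hcons _ _ (Nat.find_min' hw' hw) w (Nat.find_spec hw')

/-! ### END -/

/-- second derivatives of compositions -/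
theorem deriv_comp2 {m β A : ℂ → ℂ} {t : ℂ} (hm : AnalyticAt ℂ m (β t)) (hβ : AnalyticAt ℂ β t)
    (hA : A =ᶠ[𝓝 t] fun s => m (β s)) :
    deriv A t = deriv m (β t) * deriv β t ∧
    deriv (deriv A) t = deriv (deriv m) (β t) * deriv β t ^ 2 + deriv m (β t) * deriv (deriv β) t := by
  have h1 : ∀ᶠ s in 𝓝 t, deriv A s = deriv m (β s) * deriv β s := by
    have h2 : ∀ᶠ s in 𝓝 t, AnalyticAt ℂ m (β s) :=
      hβ.continuousAt.eventually hm.eventually_analyticAt
    filter_upwards [hA.eventually_nhds, h2, hβ.eventually_analyticAt] with s a b c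
    have a' : A =ᶠ[𝓝 s] fun s => m (β s) := a
    rw [a'.deriv_eq]
    exact (b.differentiableAt.hasDerivAt.comp s c.differentiableAt.hasDerivAt).deriv
  refine ⟨h1.self_of_nhds, ?_⟩
  rw [Filter.EventuallyEq.deriv_eq h1]
  have h3 : HasDerivAt (fun s => deriv m (β s)) (deriv (deriv m) (β t) * deriv β t) t :=
    hm.deriv.differentiableAt.hasDerivAt.comp t hβ.differentiableAt.hasDerivAt
  have h4 : HasDerivAt (deriv β) (deriv (deriv β) t) t :=
    hβ.deriv.differentiableAt.hasDerivAt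
  rw [(h3.fun_mul h4).deriv]
  ring

/-- `(dz/du)⁶ = (m_u k_uu - m_uu k_u)² / (16 m³)` -/
theorem six {m k β A B : ℂ → ℂ} {t : ℂ} (hm : AnalyticAt ℂ m (β t)) (hk : AnalyticAt ℂ k (β t))
    (hβ : AnalyticAt ℂ β t) (hA : A =ᶠ[𝓝 t] fun s => m (β s)) (hB : B =ᶠ[𝓝 t] fun s => k (β s))
    (hmk : (deriv m (β t) * deriv (deriv k) (β t) - deriv (deriv m) (β t) * deriv k (β t)) ^ 2 =
      16 * m (β t) ^ 3) :
    (deriv A t * deriv (deriv B) t - deriv (deriv A) t * deriv B t) ^ 2 =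
      16 * A t ^ 3 * deriv β t ^ 6 := by
  obtain ⟨h1, h2⟩ := deriv_comp2 hm hβ hA
  obtain ⟨h3, h4⟩ := deriv_comp2 hk hβ hB
  rw [h1, h2, h3, h4, hA.self_of_nhds]
  linear_combination deriv β t ^ 6 * hmk

theorem exp_mem_half {ρ : ℝ} {ξ : ℂ} (h1 : -Real.pi < ξ.im) (h2 : ξ.im < 0) :
    (Complex.exp ξ).im < 0 := by
  rw [Complex.exp_im]
  have := Real.sin_neg_of_neg_of_neg_pi_lt h2 h1
  have h3 := Real.exp_pos ξ.re
  nlinarith

/-- **END** (one variable).  `m = e^{2iθ}`, `k = 2iH e^{iθ}` on the strip `|Im z| < h`, with natural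
boundary.  `β` = label of a vertex on a half disc at `b`; the tangent line `(A, B)` at the vertex is
meromorphic at `b`.  Then `β` has a cluster value inside the strip. -/
theorem bend {h : ℝ} {m k : ℂ → ℂ}
    (hm : ∀ z : ℂ, |z.im| < h → AnalyticAt ℂ m z) (hk : ∀ z : ℂ, |z.im| < h → AnalyticAt ℂ k z)
    (hm0 : ∀ z : ℂ, |z.im| < h → m z ≠ 0)
    (hmk : ∀ z : ℂ, |z.im| < h →
      (deriv m z * deriv (deriv k) z - deriv (deriv m) z * deriv k z) ^ 2 = 16 * m z ^ 3)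
    (NB : ∀ z₁ : ℂ, |z₁.im| = h → ∀ mt kt : ℂ → ℂ, AnalyticAt ℂ mt z₁ → AnalyticAt ℂ kt z₁ →
      mt z₁ ≠ 0 → ¬ ∀ᶠ z in 𝓝 z₁, |z.im| < h → mt z = m z ∧ kt z = k z)
    {b : ℂ} {r : ℝ} (hr : 0 < r) {β A B : ℂ → ℂ}
    (hβ : ∀ t : ℂ, ‖t - b‖ < r → t.im < b.im → AnalyticAt ℂ β t)
    (hβS : ∀ t : ℂ, ‖t - b‖ < r → t.im < b.im → |(β t).im| < h)
    (hA : ∀ t : ℂ, t ≠ b → ‖t - b‖ < r → AnalyticAt ℂ A t)
    (hB : ∀ t : ℂ, t ≠ b → ‖t - b‖ < r → AnalyticAt ℂ B t)
    (hAm : MeromorphicAt A b) (hBm : MeromorphicAt B b)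
    (hAB : ∀ t : ℂ, ‖t - b‖ < r → t.im < b.im → A t = m (β t) ∧ B t = k (β t))
    (hnc : ∃ t : ℂ, ‖t - b‖ < r ∧ t.im < b.im ∧ deriv β t ≠ 0) :
    ∃ z₀ : ℂ, |z₀.im| < h ∧ MapClusterPt z₀ (𝓝[{t : ℂ | t.im < b.im}] b) β := by
  -- the half disc
  set U : Set ℂ := {t | ‖t - b‖ < r ∧ t.im < b.im} with hU
  have hUo : IsOpen U := by
    have h1 : Continuous (fun t : ℂ => ‖t - b‖) := by fun_prop
    exact (isOpen_lt h1 continuous_const).inter
      (isOpen_lt Complex.continuous_im continuous_const)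
  have hUc : Convex ℝ U := by
    have h1 : U = ball b r ∩ (Complex.imLm ⁻¹' (Iio b.im)) := by
      ext t
      simp [hU, mem_ball, dist_eq_norm]
    rw [h1]
    exact (convex_ball _ _).inter ((convex_Iio _).linear_preimage _)
  -- points of the half disc accumulate at `b`
  have hacc : ∃ᶠ t in 𝓝[≠] b, t ∈ U := by
    have h1 : Tendsto (fun n : ℕ => b - (1 / ((n : ℝ) + 1) : ℝ) * I) atTop (𝓝[≠] b) := by
      refine tendsto_nhdsWithin_of_tendsto_nhds_of_eventually_within _ ?_ ?_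
      · have h2 : Tendsto (fun n : ℕ => ((1 / ((n : ℝ) + 1) : ℝ) : ℂ)) atTop (𝓝 ((0 : ℝ) : ℂ)) :=
          (Complex.continuous_ofReal.tendsto _).comp tendsto_one_div_add_atTop_nhds_zero_nat
        have h3 := (tendsto_const_nhds (x := b)).sub (h2.mul_const I)
        simpa using h3
      · refine Eventually.of_forall (fun n hn => ?_)
        have h2 : ((1 / ((n : ℝ) + 1) : ℝ) : ℂ) * I = 0 := by
          have : b - ((1 / ((n : ℝ) + 1) : ℝ) : ℂ) * I = b := hn
          linear_combination -this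
        rw [mul_eq_zero] at h2
        rcases h2 with h2 | h2
        · have h3 : (1 / ((n : ℝ) + 1) : ℝ) = 0 := by exact_mod_cast h2
          have h4 : (0 : ℝ) < 1 / ((n : ℝ) + 1) := by positivity
          linarith
        · exact I_ne_zero h2
    refine h1.frequently ?_
    have h2 : ∀ᶠ n : ℕ in atTop, 1 / ((n : ℝ) + 1) < r :=
      tendsto_one_div_add_atTop_nhds_zero_nat.eventually_lt_const hr
    refine (h2.mono (fun n hn => ?_)).frequently
    have h4 : (0 : ℝ) < 1 / ((n : ℝ) + 1) := by positivity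
    refine ⟨?_, ?_⟩
    · have : b - ((1 / ((n : ℝ) + 1) : ℝ) : ℂ) * I - b = -(((1 / ((n : ℝ) + 1) : ℝ) : ℂ) * I) := by
        ring
      rw [this, norm_neg, norm_mul, norm_I, mul_one, Complex.norm_real, Real.norm_eq_abs,
        abs_of_pos h4]
      exact hn
    · show (b - ((1 / ((n : ℝ) + 1) : ℝ) : ℂ) * I).im < b.im
      rw [sub_im, Complex.im_ofReal_mul, I_im, mul_one]
      linarith
  have hAU : ∀ t ∈ U, A t ≠ 0 := fun t ht => by
    rw [(hAB t ht.1 ht.2).1]; exact hm0 _ (hβS t ht.1 ht.2)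
  -- the function `M = β'^6`
  set M : ℂ → ℂ := fun t =>
    (deriv A t * deriv (deriv B) t - deriv (deriv A) t * deriv B t) ^ 2 / (16 * A t ^ 3) with hM
  have hMU : ∀ t ∈ U, M t = deriv β t ^ 6 := by
    intro t ht
    have hnear : ∀ᶠ s in 𝓝 t, s ∈ U := hUo.mem_nhds ht
    have h1 : A =ᶠ[𝓝 t] fun s => m (β s) := hnear.mono fun s hs => (hAB s hs.1 hs.2).1
    have h2 : B =ᶠ[𝓝 t] fun s => k (β s) := hnear.mono fun s hs => (hAB s hs.1 hs.2).2
    have hβt := hβS t ht.1 ht.2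
    have h3 := six (hm _ hβt) (hk _ hβt) (hβ t ht.1 ht.2) h1 h2 (hmk _ hβt)
    have h4 : (16 : ℂ) * A t ^ 3 ≠ 0 := mul_ne_zero (by norm_num) (pow_ne_zero _ (hAU t ht))
    rw [hM]
    simp only
    rw [h3, mul_div_cancel_left₀ _ h4]
  have hMm : MeromorphicAt M b := by
    have hA1 := hAm.deriv
    have hA2 := hA1.deriv
    have hB1 := hBm.deriv
    have hB2 := hB1.deriv
    exact (((hA1.mul hB2).sub (hA2.mul hB1)).pow 2).div
      ((MeromorphicAt.const 16 b).mul (hAm.pow 3))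
  have hMtop : meromorphicOrderAt M b ≠ ⊤ := by
    intro htop
    rw [meromorphicOrderAt_eq_top_iff] at htop
    -- `M = 0` near some point of `U`
    obtain ⟨e, he, hball⟩ := Metric.eventually_nhds_iff_ball.1 (eventually_nhdsWithin_iff.1 htop)
    have h1 : ∃ t ∈ U, t ∈ ball b e ∧ t ≠ b := by
      obtain ⟨t, ht, ht2, ht3⟩ := (hacc.and_eventually
        ((eventually_nhdsWithin_of_eventually_nhds (ball_mem_nhds b he)).and
          self_mem_nhdsWithin)).exists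
      exact ⟨t, ht, ht2, ht3⟩
    obtain ⟨t, htU, hte, htb⟩ := h1
    have h2 : (deriv β) =ᶠ[𝓝 t] 0 := by
      filter_upwards [hUo.mem_nhds htU, isOpen_ball.mem_nhds hte, isOpen_ne.mem_nhds htb]
        with s hs1 hs2 hs3
      have h3 := hball s hs2 hs3
      rw [hMU s hs1] at h3
      exact pow_eq_zero_iff (by norm_num) |>.1 h3
    have h3 : AnalyticOnNhd ℂ (deriv β) U := fun s hs => (hβ s hs.1 hs.2).deriv
    have h4 := h3.eqOn_zero_of_preconnected_of_eventuallyEq_zero hUc.isPreconnected htU h2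
    obtain ⟨s, hs1, hs2, hs3⟩ := hnc
    exact hs3 (h4 ⟨hs1, hs2⟩)
  obtain ⟨g, hg, hgb, hMg⟩ := (meromorphicOrderAt_ne_top_iff hMm).1 hMtop
  set n : ℤ := (meromorphicOrderAt M b).untop₀ with hn
  -- a small radius
  have hA0 : ∀ᶠ t in 𝓝[≠] b, A t ≠ 0 := by
    rcases hAm.eventually_eq_zero_or_eventually_ne_zero with h1 | h1
    · exfalso
      obtain ⟨t, ht1, ht2⟩ := (hacc.and_eventually h1).exists
      exact hAU t ht1 ht2
    · exact h1
  have hq : ∀ᶠ t in 𝓝 b, AnalyticAt ℂ g t ∧ ‖g t / g b - 1‖ < 1 / 2 := by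
    have h1 : ContinuousAt (fun t => g t / g b) b := hg.continuousAt.div_const _
    have h2 : g b / g b = 1 := div_self hgb
    have h3 : ∀ᶠ t in 𝓝 b, g t / g b ∈ ball (1 : ℂ) (1 / 2) := by
      have h4 : ∀ᶠ y in 𝓝 (g b / g b), y ∈ ball (1 : ℂ) (1 / 2) := by
        rw [h2]
        exact ball_mem_nhds _ (by norm_num)
      exact h1.eventually h4
    filter_upwards [hg.eventually_analyticAt, h3] with t ht1 ht2
    rw [mem_ball, dist_eq_norm] at ht2
    exact ⟨ht1, ht2⟩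
  obtain ⟨δ, hδ, hball⟩ := Metric.eventually_nhds_iff_ball.1 (hq.and
    ((eventually_nhdsWithin_iff.1 hMg).and (eventually_nhdsWithin_iff.1 hA0)))
  set d : ℝ := min δ r with hd
  have hd0 : 0 < d := lt_min hδ hr
  set ρ : ℝ := Real.log d with hρ
  have hexpn : ∀ ξ : ℂ, ξ.re < ρ → ‖Complex.exp ξ‖ < d := by
    intro ξ hξ
    rw [Complex.norm_exp, ← Real.exp_log hd0]
    exact Real.exp_lt_exp.2 hξ
  have hptb : ∀ ξ : ℂ, ξ.re < ρ → b + Complex.exp ξ ∈ ball b δ := by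
    intro ξ hξ
    rw [mem_ball, dist_eq_norm, add_sub_cancel_left]
    exact (hexpn ξ hξ).trans_le (min_le_left _ _)
  have hptr : ∀ ξ : ℂ, ξ.re < ρ → ‖b + Complex.exp ξ - b‖ < r := by
    intro ξ hξ
    rw [add_sub_cancel_left]
    exact (hexpn ξ hξ).trans_le (min_le_right _ _)
  have hptne : ∀ ξ : ℂ, b + Complex.exp ξ ≠ b := by
    intro ξ h
    have : Complex.exp ξ = 0 := by linear_combination h
    exact Complex.exp_ne_zero ξ this
  -- sixth root of `g`
  have hsix : ((6 : ℕ) : ℂ) ≠ 0 := by norm_num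
  set c6 : ℂ := (g b) ^ (((6 : ℕ) : ℂ)⁻¹) with hc6
  have hc6p : c6 ^ 6 = g b := cpow_nat_inv_pow _ (by norm_num)
  set G6 : ℂ → ℂ := fun t => c6 * (g t / g b) ^ (((6 : ℕ) : ℂ)⁻¹) with hG6
  have hG6p : ∀ t, G6 t ^ 6 = g t := by
    intro t
    rw [hG6]
    simp only
    rw [mul_pow, hc6p, cpow_nat_inv_pow _ (by norm_num)]
    field_simp
  have hG6an : ∀ t ∈ ball b δ, AnalyticAt ℂ G6 t := by
    intro t ht
    obtain ⟨⟨h1, h2⟩, -, -⟩ := hball t ht
    have h3 : g t / g b ∈ slitPlane := by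
      have h4 := mem_slitPlane_of_norm_lt_one (z := g t / g b - 1) (by linarith)
      rw [add_sub_cancel] at h4
      exact h4
    exact analyticAt_const.mul ((h1.div_const).cpow analyticAt_const h3)
  -- norms
  have hgn : ∀ t ∈ ball b δ, ‖g b‖ / 2 ≤ ‖g t‖ ∧ ‖g t‖ ≤ 2 * ‖g b‖ := by
    intro t ht
    obtain ⟨⟨-, h2⟩, -, -⟩ := hball t ht
    have h3 : ‖g t / g b‖ * ‖g b‖ = ‖g t‖ := by
      rw [← norm_mul, div_mul_cancel₀ _ hgb]
    have h4 : ‖g t / g b‖ ≤ 1 / 2 + 1 := by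
      have : g t / g b = (g t / g b - 1) + 1 := by ring
      rw [this]
      refine (norm_add_le _ _).trans ?_
      rw [norm_one]
      linarith
    have h5 : 1 - 1 / 2 ≤ ‖g t / g b‖ := by
      have h6 : (1 : ℂ) = g t / g b - (g t / g b - 1) := by ring
      have h7 : ‖(1 : ℂ)‖ ≤ ‖g t / g b‖ + ‖g t / g b - 1‖ := by
        conv_lhs => rw [h6]
        exact norm_sub_le _ _
      rw [norm_one] at h7
      linarith
    have h8 : 0 < ‖g b‖ := norm_pos_iff.2 hgb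
    rw [← h3]
    constructor <;> nlinarith
  have hgb0 : 0 < ‖g b‖ := norm_pos_iff.2 hgb
  have hG6ne : ∀ t ∈ ball b δ, G6 t ≠ 0 := by
    intro t ht h0
    have h1 := hG6p t
    rw [h0, zero_pow (by norm_num)] at h1
    have h2 := (hgn t ht).1
    rw [← h1, norm_zero] at h2
    linarith
  -- `D1 = e^{αξ} G6`
  set α : ℝ := 1 + n / 6 with hα
  set D1 : ℂ → ℂ := fun ξ => Complex.exp (α * ξ) * G6 (b + Complex.exp ξ) with hD1
  have hD1ne : ∀ ξ : ℂ, ξ.re < ρ → D1 ξ ≠ 0 := fun ξ hξ =>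
    mul_ne_zero (Complex.exp_ne_zero _) (hG6ne _ (hptb ξ hξ))
  have htan : ∀ ξ : ℂ, AnalyticAt ℂ (fun ξ => b + Complex.exp ξ) ξ := fun ξ => by fun_prop
  have hD1an : ∀ ξ : ℂ, ξ.re < ρ → AnalyticAt ℂ D1 ξ := by
    intro ξ hξ
    have h1 : AnalyticAt ℂ (fun ξ : ℂ => Complex.exp (α * ξ)) ξ := by fun_prop
    have h2 : AnalyticAt ℂ (fun ξ : ℂ => G6 (b + Complex.exp ξ)) ξ :=
      AnalyticAt.fun_comp (g := G6) (f := fun ξ => b + Complex.exp ξ) (hG6an _ (hptb ξ hξ)) (htan ξ)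
    exact h1.mul h2
  have hD1p : ∀ ξ : ℂ, ξ.re < ρ → D1 ξ ^ 6 = Complex.exp ξ ^ 6 * M (b + Complex.exp ξ) := by
    intro ξ hξ
    have h1 := (hball _ (hptb ξ hξ)).2.1 (hptne ξ)
    rw [h1, hD1]
    simp only
    rw [mul_pow, hG6p, add_sub_cancel_left, smul_eq_mul, ← mul_assoc]
    congr 1
    rw [← Complex.exp_nat_mul, ← Complex.exp_nat_mul, ← Complex.exp_int_mul, ← Complex.exp_add]
    congr 1
    rw [hα]
    push_cast
    ring
  -- the strip
  set Q0 : Set ℂ := {ξ | ξ.re < ρ ∧ -Real.pi < ξ.im ∧ ξ.im < 0} with hQ0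
  have hQ0o : IsOpen Q0 :=
    (isOpen_lt Complex.continuous_re continuous_const).inter
      ((isOpen_lt continuous_const Complex.continuous_im).inter
        (isOpen_lt Complex.continuous_im continuous_const))
  have hQ0c : Convex ℝ Q0 := by
    have h1 : Q0 = {z : ℂ | z.re < ρ} ∩ (Complex.imLm ⁻¹' (Ioo (-Real.pi) 0)) := by
      ext t
      simp only [hQ0, mem_ofPred_eq, mem_inter_iff, mem_preimage, mem_Ioo]
      rfl
    rw [h1]
    exact (convex_half ρ).inter ((convex_Ioo _ _).linear_preimage _)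
  have hQU : ∀ ξ ∈ Q0, b + Complex.exp ξ ∈ U := by
    rintro ξ ⟨h1, h2, h3⟩
    refine ⟨hptr ξ h1, ?_⟩
    show (b + Complex.exp ξ).im < b.im
    rw [add_im]
    have := exp_mem_half (ρ := ρ) h2 h3
    linarith
  set βt : ℂ → ℂ := fun ξ => β (b + Complex.exp ξ) with hβt
  set E : ℂ → ℂ := fun ξ => deriv β (b + Complex.exp ξ) * Complex.exp ξ with hE
  have hβd : ∀ ξ ∈ Q0, HasDerivAt βt (E ξ) ξ := by
    intro ξ hξ
    have h1 := hQU ξ hξ
    have h2 : HasDerivAt β (deriv β (b + Complex.exp ξ)) (b + Complex.exp ξ) :=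
      (hβ _ h1.1 h1.2).differentiableAt.hasDerivAt
    have h3 : HasDerivAt (fun ξ => b + Complex.exp ξ) (Complex.exp ξ) ξ :=
      (Complex.hasDerivAt_exp ξ).const_add b
    exact h2.comp ξ h3
  have hE6 : ∀ ξ ∈ Q0, E ξ ^ 6 = D1 ξ ^ 6 := by
    intro ξ hξ
    rw [hD1p ξ hξ.1, hMU _ (hQU ξ hξ), hE]
    ring
  have hEan : ∀ ξ ∈ Q0, AnalyticAt ℂ E ξ := by
    intro ξ hξ
    have h1 := hQU ξ hξ
    have h2 : AnalyticAt ℂ (fun ξ => deriv β (b + Complex.exp ξ)) ξ :=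
      AnalyticAt.fun_comp (g := deriv β) (f := fun ξ => b + Complex.exp ξ)
        (hβ _ h1.1 h1.2).deriv (htan ξ)
    exact h2.mul (by fun_prop)
  -- `E = ω D1`
  set q : ℂ → ℂ := fun ξ => E ξ / D1 ξ with hqdef
  have hqan : ∀ ξ ∈ Q0, AnalyticAt ℂ q ξ := fun ξ hξ =>
    (hEan ξ hξ).div (hD1an ξ hξ.1) (hD1ne ξ hξ.1)
  have hq6 : ∀ ξ ∈ Q0, q ξ ^ 6 = 1 := by
    intro ξ hξ
    rw [hqdef]
    simp only
    rw [div_pow, hE6 ξ hξ, div_self (pow_ne_zero _ (hD1ne ξ hξ.1))]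
  have hqd : ∀ ξ ∈ Q0, deriv q ξ = 0 := by
    intro ξ hξ
    have h1 : HasDerivAt (fun x => q x ^ 6) (((6 : ℕ) : ℂ) * q ξ ^ (6 - 1) * deriv q ξ) ξ :=
      (hqan ξ hξ).differentiableAt.hasDerivAt.fun_pow 6
    have h2 : (fun x => q x ^ 6) =ᶠ[𝓝 ξ] fun _ => (1 : ℂ) := by
      filter_upwards [hQ0o.mem_nhds hξ] with x hx
      exact hq6 x hx
    have h3 : HasDerivAt (fun x => q x ^ 6) 0 ξ := (hasDerivAt_const ξ (1 : ℂ)).congr_of_eventuallyEq h2
    have h4 := h1.unique h3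
    have h5 : q ξ ≠ 0 := by
      intro h0
      have := hq6 ξ hξ
      rw [h0, zero_pow (by norm_num)] at this
      exact zero_ne_one this
    have h6 : ((6 : ℕ) : ℂ) * q ξ ^ (6 - 1) ≠ 0 := mul_ne_zero (by norm_num) (pow_ne_zero _ h5)
    exact (mul_eq_zero.1 h4).resolve_left h6
  set ξ₀ : ℂ := ⟨ρ - 1, -(Real.pi / 2)⟩ with hξ₀
  have hpi := Real.pi_pos
  have hξ₀Q : ξ₀ ∈ Q0 := ⟨by show ρ - 1 < ρ; linarith, by show -Real.pi < -(Real.pi / 2); linarith,
    by show -(Real.pi / 2) < 0; linarith⟩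
  have hconst : ∀ (f : ℂ → ℂ), (∀ ξ ∈ Q0, HasDerivAt f 0 ξ) → ∀ ξ ∈ Q0, f ξ = f ξ₀ := by
    intro f hf ξ hξ
    refine hQ0c.is_const_of_fderivWithin_eq_zero (𝕜 := ℂ)
      (fun w hw => (hf w hw).differentiableAt.differentiableWithinAt) (fun w hw => ?_) hξ hξ₀Q
    rw [fderivWithin_of_isOpen hQ0o hw, (hf w hw).hasFDerivAt.fderiv]
    ext
    simp
  have hqc : ∀ ξ ∈ Q0, q ξ = q ξ₀ := hconst q (fun ξ hξ => by
    have := (hqan ξ hξ).differentiableAt.hasDerivAt
    rwa [hqd ξ hξ] at this)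
  set ω : ℂ := q ξ₀ with hω
  have hω6 : ω ^ 6 = 1 := hq6 ξ₀ hξ₀Q
  have hωn : ‖ω‖ = 1 := by
    have h1 : ‖ω‖ ^ 6 = 1 := by rw [← norm_pow, hω6, norm_one]
    exact (pow_eq_one_iff_of_nonneg (norm_nonneg _) (by norm_num)).1 h1
  have hω0 : ω ≠ 0 := by
    intro h0
    rw [h0, norm_zero] at hωn
    exact zero_ne_one hωn
  have hEω : ∀ ξ ∈ Q0, E ξ = ω * D1 ξ := by
    intro ξ hξ
    have h1 := hqc ξ hξ
    rw [hqdef] at h1
    simp only at h1
    rw [div_eq_iff (hD1ne ξ hξ.1)] at h1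
    exact h1
  -- the primitive
  obtain ⟨F0, hF0⟩ := exists_prim_half (f := fun ξ => ω * D1 ξ) (ρ := ρ)
    (fun ξ hξ => ((hD1an ξ hξ).differentiableAt.const_mul ω))
  set F : ℂ → ℂ := fun ξ => F0 ξ + (βt ξ₀ - F0 ξ₀) with hFdef
  have hFd : ∀ ξ : ℂ, ξ.re < ρ → HasDerivAt F (ω * D1 ξ) ξ := fun ξ hξ =>
    (hF0 ξ hξ).add_const _
  have hFβ : ∀ ξ ∈ Q0, F ξ = βt ξ := by
    intro ξ hξ
    have h1 := hconst (fun x => βt x - F0 x) (fun x hx => by
      have h2 := (hβd x hx).fun_sub (hF0 x hx.1)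
      rw [hEω x hx, sub_self] at h2
      exact h2) ξ hξ
    simp only [hFdef]
    linear_combination -h1
  have hFan : ∀ ξ : ℂ, ξ.re < ρ → AnalyticAt ℂ F ξ := by
    intro ξ hξ
    have h1 : DifferentiableOn ℂ F {z : ℂ | z.re < ρ} := fun z hz =>
      (hFd z hz).differentiableAt.differentiableWithinAt
    exact h1.analyticAt ((isOpen_lt Complex.continuous_re continuous_const).mem_nhds hξ)
  have hFd' : ∀ ξ : ℂ, ξ.re < ρ → deriv F ξ = ω * D1 ξ := fun ξ hξ => (hFd ξ hξ).deriv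
  have hcont := continuation (h := h) (ρ := ρ) (m := m) (k := k) (F := F)
    (A := fun ξ => A (b + Complex.exp ξ)) (B := fun ξ => B (b + Complex.exp ξ)) hm hk NB hFan
    (fun ξ hξ => by rw [hFd' ξ hξ]; exact mul_ne_zero hω0 (hD1ne ξ hξ))
    (fun ξ hξ => AnalyticAt.fun_comp (g := A) (f := fun ξ => b + Complex.exp ξ)
      (hA _ (hptne ξ) (hptr ξ hξ)) (htan ξ))
    (fun ξ hξ => (hball _ (hptb ξ hξ)).2.2 (hptne ξ))
    (fun ξ hξ => AnalyticAt.fun_comp (g := B) (f := fun ξ => b + Complex.exp ξ)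
      (hB _ (hptne ξ) (hptr ξ hξ)) (htan ξ))
    (ξ₀ := ξ₀) hξ₀Q.1
    (by rw [hFβ ξ₀ hξ₀Q]; exact hβS _ (hQU ξ₀ hξ₀Q).1 (hQU ξ₀ hξ₀Q).2)
    (by
      filter_upwards [hQ0o.mem_nhds hξ₀Q] with ξ hξ
      rw [hFβ ξ hξ]
      exact hAB _ (hQU ξ hξ).1 (hQU ξ hξ).2)
  -- bounds for the derivative
  set c1 : ℝ := (‖g b‖ / 2) ^ (((6 : ℕ) : ℝ)⁻¹) with hc1
  set c2 : ℝ := (2 * ‖g b‖) ^ (((6 : ℕ) : ℝ)⁻¹) with hc2
  have hc1p : c1 ^ 6 = ‖g b‖ / 2 := Real.rpow_inv_natCast_pow (by positivity) (by norm_num)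
  have hc2p : c2 ^ 6 = 2 * ‖g b‖ := Real.rpow_inv_natCast_pow (by positivity) (by norm_num)
  have hc10 : 0 < c1 := by positivity
  have hc20 : 0 ≤ c2 := by positivity
  have hGn : ∀ t ∈ ball b δ, c1 ≤ ‖G6 t‖ ∧ ‖G6 t‖ ≤ c2 := by
    intro t ht
    have h1 : ‖G6 t‖ ^ 6 = ‖g t‖ := by rw [← norm_pow, hG6p]
    have h2 := hgn t ht
    constructor
    · refine le_of_pow_le_pow_left₀ (n := 6) (by norm_num) (norm_nonneg _) ?_
      rw [hc1p, h1]; exact h2.1
    · refine le_of_pow_le_pow_left₀ (n := 6) (by norm_num) hc20 ?_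
      rw [hc2p, h1]; exact h2.2
  have hdn : ∀ ξ : ℂ, ξ.re < ρ → ‖deriv F ξ‖ = Real.exp (α * ξ.re) * ‖G6 (b + Complex.exp ξ)‖ := by
    intro ξ hξ
    rw [hFd' ξ hξ, norm_mul, hωn, one_mul, hD1]
    simp only
    rw [norm_mul, Complex.norm_exp]
    congr 2
    simp
  obtain ⟨z₀, hz₀, hlim⟩ := half_plane (F := F) (ρ := ρ) (h := h) (α := α) (c := c1) (C := c2)
    (η := -(Real.pi / 2)) hc10 (fun ξ hξ => (hFd ξ hξ).differentiableAt)
    (fun ξ hξ => (hcont ξ hξ).1)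
    (fun x hx => by
      have h2 := (hGn _ (hptb ⟨x, -(Real.pi / 2)⟩ hx)).1
      have h3 := hdn ⟨x, -(Real.pi / 2)⟩ hx
      rw [h3, mul_comm c1]
      have h4 := Real.exp_pos (α * x)
      exact mul_le_mul_of_nonneg_left h2 h4.le)
    (fun x hx => by
      have h2 := (hGn _ (hptb ⟨x, -(Real.pi / 2)⟩ hx)).2
      have h3 := hdn ⟨x, -(Real.pi / 2)⟩ hx
      rw [h3, mul_comm c2]
      have h4 := Real.exp_pos (α * x)
      exact mul_le_mul_of_nonneg_left h2 h4.le)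
  refine ⟨z₀, hz₀, ?_⟩
  -- the path `x ↦ b + exp (x - iπ/2)`
  have hpath : Tendsto (fun x : ℝ => b + Complex.exp ⟨x, -(Real.pi / 2)⟩) atBot
      (𝓝[{t : ℂ | t.im < b.im}] b) := by
    refine tendsto_nhdsWithin_of_tendsto_nhds_of_eventually_within _ ?_ ?_
    · have h1 : Tendsto (fun x : ℝ => Complex.exp ⟨x, -(Real.pi / 2)⟩) atBot (𝓝 0) := by
        rw [tendsto_zero_iff_norm_tendsto_zero]
        refine Real.tendsto_exp_atBot.congr (fun x => ?_)
        rw [Complex.norm_exp]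
      simpa using h1.const_add b
    · filter_upwards [eventually_lt_atBot ρ] with x hx
      exact (hQU ⟨x, -(Real.pi / 2)⟩ ⟨hx, by show -Real.pi < -(Real.pi / 2); linarith,
        by show -(Real.pi / 2) < 0; linarith⟩).2
  refine MapClusterPt.of_comp hpath ?_
  refine Filter.Tendsto.mapClusterPt ?_
  refine hlim.congr' ?_
  filter_upwards [eventually_lt_atBot ρ] with x hx
  exact hFβ _ ⟨hx, by show -Real.pi < -(Real.pi / 2); linarith,
    by show -(Real.pi / 2) < 0; linarith⟩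

end Crest.Agent.R102.BEnd312
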