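import Mathlib
import Crest.Agent.R102.BEndD_802

/-!
Row 102, Cases B and E, (END): **(B3)** and **`BEnd`**.

* `b3` : `RatCont`, not algebraic, `GoodW … V w0`, `JX V θ H w0` ⇒ `False`;
* `bEnd : RatCont → BEnd`.
-/

set_option autoImplicit false

open Set Filter Topology Metric
open scoped ComplexConjugate

noncomputable section

namespace Crest.Agent.R102.BEnd802

open Crest.Agent.R102.T5 Crest.Agent.R102.G576 Crest.Agent.R102.A929 Crest.Agent.R102.B821
open Crest.Agent.R102.C0 Crest.Agent.R102.C1 Crest.Agent.R102.Mer88 Crest.Agent.R102.MerF217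
open Crest.Agent.R102.Slice802 Crest.Agent.R102.Spine

section fam

variable {q : C(ℂ, ℂ)} {η ρ r Bc : ℝ} {b φ p : ℂ × ℂ → ℂ} {m₀ : ℂ → ℂ} {V : Set ℂ} {θ H : ℂ → ℂ}

/-- the next line from the label -/
theorem line_next (hL : LineFam q η ρ r Bc b φ p m₀) (hV : VExt q η V θ H) {w0 : ℂ}
    (hw0 : ‖w0‖ < r) (hw0i : w0.im = 0) {s : ℂ} (hs : 0 < s.im) {e : ℝ} (he : 0 < e)
    {Gφ Gp β : ℂ × ℂ → ℂ}
    (hGφ : DifferentiableOn ℂ Gφ (Tube s w0 e)) (hGp : DifferentiableOn ℂ Gp (Tube s w0 e))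
    (eφ : ∀ x ∈ Tube s w0 e, x ∈ PD ρ r → Gφ x = φ x)
    (ep : ∀ x ∈ Tube s w0 e, x ∈ PD ρ r → Gp x = p x)
    (hβ : DifferentiableOn ℂ β (Tube s w0 e)) (hβV : ∀ x ∈ Tube s w0 e, β x ∈ V)
    (hβb : ∀ᶠ x in 𝓝 (((s.re : ℂ), w0) : ℂ × ℂ), β x = b (x.1 + x.2 / 2, x.2)) :
    RegL ρ r φ p (s + w0) w0 := by
  have D := hL.dat
  have hρ := hL.ρ_pos
  have hVo := hV.open'
  set e4 : ℝ := e / 3 with he4
  have he40 : 0 < e4 := by positivity
  set T : Set (ℂ × ℂ) := Tube (s + w0) w0 e4 with hT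
  have hTo : IsOpen T := isOpen_Tube _ _ _
  have hTc : Convex ℝ T := convex_Tube _ _ _
  have hmap : ∀ x ∈ T, ((x.1 - x.2, x.2) : ℂ × ℂ) ∈ Tube s w0 e := by
    rintro x ⟨h1, h2, h3, h4⟩
    have h5 := Complex.abs_im_le_norm (x.2 - w0)
    have h6 := Complex.abs_re_le_norm (x.2 - w0)
    rw [Complex.sub_im, hw0i, sub_zero] at h5
    rw [Complex.sub_re] at h6
    have h5' := abs_lt.1 (h5.trans_lt h4)
    have h6' := abs_lt.1 (h6.trans_lt h4)
    rw [Complex.add_re] at h1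
    rw [Complex.add_im, hw0i] at h3
    have h1' := abs_lt.1 h1
    refine ⟨?_, ?_, ?_, ?_⟩
    · show |(x.1 - x.2).re - s.re| < e
      rw [Complex.sub_re, abs_lt]
      constructor <;> linarith
    · show -e < (x.1 - x.2).im
      rw [Complex.sub_im]; linarith
    · show (x.1 - x.2).im < s.im + e
      rw [Complex.sub_im]; linarith
    · show ‖x.2 - w0‖ < e
      linarith
  have hsh : Differentiable ℂ (fun x : ℂ × ℂ => ((x.1 - x.2, x.2) : ℂ × ℂ)) := by fun_prop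
  have dφ : DifferentiableOn ℂ (fun x : ℂ × ℂ => Gφ (x.1 - x.2, x.2)) T :=
    hGφ.comp hsh.differentiableOn hmap
  have dp : DifferentiableOn ℂ (fun x : ℂ × ℂ => Gp (x.1 - x.2, x.2)) T :=
    hGp.comp hsh.differentiableOn hmap
  have dβ : DifferentiableOn ℂ (fun x : ℂ × ℂ => β (x.1 - x.2, x.2)) T :=
    hβ.comp hsh.differentiableOn hmap
  have dθ : DifferentiableOn ℂ (fun x : ℂ × ℂ => θ (β (x.1 - x.2, x.2))) T :=
    hV.θ_diff.comp dβ fun x hx => hβV _ (hmap x hx)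
  have dH : DifferentiableOn ℂ (fun x : ℂ × ℂ => H (β (x.1 - x.2, x.2))) T :=
    hV.H_diff.comp dβ fun x hx => hβV _ (hmap x hx)
  set Fφ : ℂ × ℂ → ℂ := fun x => 2 * θ (β (x.1 - x.2, x.2)) - Gφ (x.1 - x.2, x.2) with hFφ
  set Fp : ℂ × ℂ → ℂ := fun x => 2 * H (β (x.1 - x.2, x.2)) *
    Complex.cos (θ (β (x.1 - x.2, x.2)) - Gφ (x.1 - x.2, x.2)) - Gp (x.1 - x.2, x.2) with hFp
  have dFφ : DifferentiableOn ℂ Fφ T := (dθ.const_mul 2).sub dφ
  have dFp : DifferentiableOn ℂ Fp T := ((dH.const_mul 2).mul (dθ.sub dφ).ccos).sub dp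
  -- agreement near the real point
  set x1 : ℂ × ℂ := (((s + w0).re : ℂ), w0) with hx1
  have hx1T : x1 ∈ T := by
    refine ⟨?_, ?_, ?_, ?_⟩
    · simp [hx1, he40]
    · simp [hx1, he40]
    · show (((s + w0).re : ℂ)).im < (s + w0).im + e4
      rw [Complex.ofReal_im, Complex.add_im, hw0i]; linarith
    · simp [hx1, he40]
  have hx1P : x1 ∈ PD ρ r := ⟨by simpa [hx1] using hρ, hw0⟩
  have hre : (s + w0).re = s.re + w0.re := by simp
  have hw0re : (w0.re : ℂ) = w0 := by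
    apply Complex.ext <;> simp [hw0i]
  have hx0 : (x1.1 - x1.2, x1.2) = (((s.re : ℂ), w0) : ℂ × ℂ) := by
    rw [hx1, hre]
    ext1
    · show ((s.re + w0.re : ℝ) : ℂ) - w0 = (s.re : ℂ)
      push_cast
      rw [hw0re]; ring
    · rfl
  have hcont1 : ContinuousAt (fun x : ℂ × ℂ => ((x.1 - x.2, x.2) : ℂ × ℂ)) x1 := by fun_prop
  have hcont2 : ContinuousAt (fun x : ℂ × ℂ => ((x.1 - x.2 / 2, x.2) : ℂ × ℂ)) x1 := by fun_prop
  have ev1 : ∀ᶠ x in 𝓝 x1, β (x.1 - x.2, x.2) = b (x.1 - x.2 / 2, x.2) := by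
    have h1 : Tendsto (fun x : ℂ × ℂ => ((x.1 - x.2, x.2) : ℂ × ℂ)) (𝓝 x1)
        (𝓝 (((s.re : ℂ), w0) : ℂ × ℂ)) := by
      have := hcont1.tendsto
      rwa [hx0] at this
    filter_upwards [h1.eventually hβb] with x hx
    rw [hx]
    congr 2
    ring
  have hP := isOpen_PD ρ r
  have m1 : ((fun x : ℂ × ℂ => ((x.1 - x.2, x.2) : ℂ × ℂ)) x1) ∈ PD ρ r := by
    show (x1.1 - x1.2, x1.2) ∈ PD ρ r
    rw [hx0]
    exact ⟨by simpa using hρ, hw0⟩
  have m2 : ((fun x : ℂ × ℂ => ((x.1 - x.2 / 2, x.2) : ℂ × ℂ)) x1) ∈ PD ρ r := by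
    refine ⟨?_, hw0⟩
    show |(x1.1 - x1.2 / 2).im| < ρ
    rw [hx1]
    simpa [hw0i] using hρ
  have hev : ∀ᶠ x in 𝓝 x1, Fφ x = φ x ∧ Fp x = p x := by
    filter_upwards [ev1, hTo.mem_nhds hx1T, hP.mem_nhds hx1P, hcont1.eventually (hP.mem_nhds m1),
      hcont2.eventually (hP.mem_nhds m2)] with x h1 h2 h3 h4 h5
    have i1 : Gφ (x.1 - x.2, x.2) = φ (x.1 - x.2, x.2) := eφ _ (hmap x h2) h4
    have i2 : Gp (x.1 - x.2, x.2) = p (x.1 - x.2, x.2) := ep _ (hmap x h2) h4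
    have hbη : b (x.1 - x.2 / 2, x.2) ∈ Str η := by
      have := hL.b_mem (x.1 - x.2 / 2, x.2) h5
      exact lt_trans this hL.ρ_lt
    have ea : x.1 - x.2 / 2 - x.2 / 2 = x.1 - x.2 := by ring
    have eb : x.1 - x.2 / 2 + x.2 / 2 = x.1 := by ring
    have ec : x.1 - x.2 + x.2 / 2 = x.1 - x.2 / 2 := by ring
    have hx3 : ((x.1, x.2) : ℂ × ℂ) ∈ PD ρ r := h3
    have j1 := hL.refl (x.1 - x.2 / 2) x.2 h5 (by rw [ea]; exact h4) (by rw [eb]; exact hx3)
    rw [ea, eb] at j1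
    have hxe : ((x.1, x.2) : ℂ × ℂ) = x := rfl
    rw [hxe] at j1
    have j2 := hL.inc (x.1 - x.2) x.2 h4 (by rw [ec]; exact h5)
    rw [ec] at j2
    have j3 := hL.inc' x.1 x.2 hx3 h5
    rw [hxe] at j3
    have hθb : θ (b (x.1 - x.2 / 2, x.2)) = Tc q (b (x.1 - x.2 / 2, x.2)) := hV.θ_eq _ hbη
    have hHb : H (b (x.1 - x.2 / 2, x.2)) = Hc q (b (x.1 - x.2 / 2, x.2)) := hV.H_eq _ hbη
    have f1 : Fφ x = φ x := by
      simp only [hFφ]
      rw [h1, i1, hθb]
      linear_combination -j1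
    refine ⟨f1, ?_⟩
    simp only [hFp]
    rw [h1, i1, i2, hθb, hHb]
    unfold OnLine at j2 j3
    unfold Hc
    set τ := Tc q (b (x.1 - x.2 / 2, x.2)) with hτ
    set Z0 := Zs q 1 (b (x.1 - x.2 / 2, x.2))
    set Zc0 := Zs q (-1) (b (x.1 - x.2 / 2, x.2))
    set φm := φ (x.1 - x.2, x.2) with hφm
    set pm := p (x.1 - x.2, x.2)
    have hφx : φ x = 2 * τ - φm := by linear_combination j1
    rw [hφx] at j3
    -- exponentials
    set d := τ - φm with hd
    have x1e : Complex.exp (-(Complex.I * (2 * τ - φm))) =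
        Complex.exp (-(Complex.I * τ)) * Complex.exp (-(Complex.I * d)) := by
      rw [← Complex.exp_add]; congr 1; rw [hd]; ring
    have x2e : Complex.exp (Complex.I * (2 * τ - φm)) =
        Complex.exp (Complex.I * τ) * Complex.exp (Complex.I * d) := by
      rw [← Complex.exp_add]; congr 1; rw [hd]; ring
    have x3e : Complex.exp (-(Complex.I * φm)) =
        Complex.exp (-(Complex.I * τ)) * Complex.exp (Complex.I * d) := by
      rw [← Complex.exp_add]; congr 1; rw [hd]; ring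
    have x4e : Complex.exp (Complex.I * φm) =
        Complex.exp (Complex.I * τ) * Complex.exp (-(Complex.I * d)) := by
      rw [← Complex.exp_add]; congr 1; rw [hd]; ring
    rw [x1e, x2e] at j3
    rw [x3e, x4e] at j2
    have hcos : 2 * Complex.cos d = Complex.exp (Complex.I * d) + Complex.exp (-(Complex.I * d)) := by
      rw [Complex.cos]
      have : d * Complex.I = Complex.I * d := by ring
      rw [neg_mul, this]
      ring
    have hI := Complex.I_ne_zero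
    have key : 2 * Complex.I * (2 * ((Complex.exp (-(Complex.I * τ)) * Z0 -
        Complex.exp (Complex.I * τ) * Zc0) / (2 * Complex.I)) * Complex.cos d - pm) =
        2 * Complex.I * p x := by
      have hh : 2 * Complex.I * ((Complex.exp (-(Complex.I * τ)) * Z0 -
          Complex.exp (Complex.I * τ) * Zc0) / (2 * Complex.I)) =
          Complex.exp (-(Complex.I * τ)) * Z0 - Complex.exp (Complex.I * τ) * Zc0 :=
        mul_div_cancel₀ _ (mul_ne_zero two_ne_zero hI)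
      linear_combination 2 * Complex.cos d * hh + (Complex.exp (-(Complex.I * τ)) * Z0 -
        Complex.exp (Complex.I * τ) * Zc0) * hcos + j2 + j3
    exact mul_left_cancel₀ (mul_ne_zero two_ne_zero hI) key
  -- agreement everywhere
  have hU : IsPreconnected (T ∩ PD ρ r) := (hTc.inter (convex_PD ρ r)).isPreconnected
  have aT := fun {F : ℂ × ℂ → ℂ} (hF : DifferentiableOn ℂ F T) =>
    (Crest.Agent.R266.SCV.analyticOnNhd_of_differentiableOn hTo hF).mono
      (inter_subset_left : T ∩ PD ρ r ⊆ T)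
  have aP := fun {F : ℂ × ℂ → ℂ} (hF : DifferentiableOn ℂ F (PD ρ r)) =>
    (Crest.Agent.R266.SCV.analyticOnNhd_of_differentiableOn hP hF).mono
      (inter_subset_right : T ∩ PD ρ r ⊆ PD ρ r)
  have E1 : EqOn Fφ φ (T ∩ PD ρ r) := AnalyticOnNhd.eqOn_of_preconnected_of_eventuallyEq (𝕜 := ℂ)
    (aT dFφ) (aP hL.φ_diff) hU ⟨hx1T, hx1P⟩ (hev.mono fun x hx => hx.1)
  have E2 : EqOn Fp p (T ∩ PD ρ r) := AnalyticOnNhd.eqOn_of_preconnected_of_eventuallyEq (𝕜 := ℂ)
    (aT dFp) (aP hL.p_diff) hU ⟨hx1T, hx1P⟩ (hev.mono fun x hx => hx.2)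
  exact ⟨⟨e4, he40, Fφ, dFφ, fun _ _ => mem_univ _, fun x hx hx' => E1 ⟨hx, hx'⟩⟩,
    ⟨e4, he40, Fp, dFp, fun _ _ => mem_univ _, fun x hx hx' => E2 ⟨hx, hx'⟩⟩⟩

/-- consecutive lines are different -/
theorem lines_ne (hL : LineFam q η ρ r Bc b φ p m₀) {w0 : ℝ} (hw0 : 0 < w0) (hw0r : w0 < r)
    (x0 : ℝ) : ∃ᶠ x in 𝓝 (((x0 : ℂ), (w0 : ℂ)) : ℂ × ℂ), Complex.exp (Complex.I * φ x) ^ 2 ≠
      Complex.exp (Complex.I * φ (x.1 + x.2, x.2)) ^ 2 := by
  intro hcon
  have hρ := hL.ρ_pos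
  have hwn : ‖(w0 : ℂ)‖ < r := by
    rw [Complex.norm_real, Real.norm_eq_abs, abs_of_pos hw0]; exact hw0r
  -- the strip
  set S : Set ℂ := {t | |t.im| < ρ} with hS
  have hSo : IsOpen S := isOpen_lt (by fun_prop) continuous_const
  have hSc : Convex ℝ S := by
    have : S = {t : ℂ | -ρ < t.im} ∩ {t | t.im < ρ} := by
      ext t; simp [hS, abs_lt]
    rw [this]
    exact (convex_halfSpace_im_gt _).inter (convex_halfSpace_im_lt _)
  have hmem : ∀ t ∈ S, ∀ x : ℝ, ((t + x, (w0 : ℂ)) : ℂ × ℂ) ∈ PD ρ r := by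
    intro t ht x
    refine ⟨?_, hwn⟩
    show |(t + x).im| < ρ
    have h : |t.im| < ρ := ht
    simpa using h
  have hreal : ∀ x : ℝ, (x : ℂ) ∈ S := fun x => by
    show |((x : ℂ)).im| < ρ
    simpa using hρ
  have dφ : ∀ x : ℝ, DifferentiableOn ℂ (fun t : ℂ => φ (t + x, (w0 : ℂ))) S := by
    intro x
    exact hL.φ_diff.comp (by fun_prop : DifferentiableOn ℂ (fun t : ℂ => ((t + x, (w0 : ℂ)) : ℂ × ℂ)) S)
      (fun t ht => hmem t ht x)
  have hEq : EqOn (fun t : ℂ => Complex.exp (Complex.I * φ (t + (0 : ℝ), (w0 : ℂ))) ^ 2)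
      (fun t : ℂ => Complex.exp (Complex.I * φ (t + w0, (w0 : ℂ))) ^ 2) S := by
    refine AnalyticOnNhd.eqOn_of_preconnected_of_eventuallyEq (𝕜 := ℂ)
      (((((dφ 0).const_mul Complex.I).cexp.pow 2)).analyticOnNhd hSo)
      (((((dφ w0).const_mul Complex.I).cexp.pow 2)).analyticOnNhd hSo) hSc.isPreconnected
      (hreal x0) ?_
    have hc : Tendsto (fun t : ℂ => ((t, (w0 : ℂ)) : ℂ × ℂ)) (𝓝 (x0 : ℂ))
        (𝓝 (((x0 : ℂ), (w0 : ℂ)) : ℂ × ℂ)) := by
      have : ContinuousAt (fun t : ℂ => ((t, (w0 : ℂ)) : ℂ × ℂ)) (x0 : ℂ) := by fun_prop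
      exact this.tendsto
    filter_upwards [hc.eventually hcon] with t ht
    have h1 := not_not.1 ht
    simp only [Complex.ofReal_zero, add_zero]
    exact h1
  -- real translation
  have hstep : ∀ x : ℝ, φ ((x : ℂ) + w0, (w0 : ℂ)) = φ ((x : ℂ), (w0 : ℂ)) := by
    intro x
    have h1 := hEq (hreal x)
    simp only [Complex.ofReal_zero, add_zero] at h1
    have hm : (((x : ℂ) + w0 / 2, (w0 : ℂ)) : ℂ × ℂ) ∈ PD ρ r := by
      have := hmem (x : ℂ) (hreal x) (w0 / 2)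
      push_cast at this
      exact this
    have ea : (x : ℂ) + w0 / 2 - w0 / 2 = x := by ring
    have eb : (x : ℂ) + w0 / 2 + w0 / 2 = x + w0 := by ring
    have hm0 : (((x : ℂ), (w0 : ℂ)) : ℂ × ℂ) ∈ PD ρ r := by
      have := hmem (x : ℂ) (hreal x) 0
      simpa using this
    have hm1 : (((x : ℂ) + w0, (w0 : ℂ)) : ℂ × ℂ) ∈ PD ρ r := hmem (x : ℂ) (hreal x) w0
    have j1 := hL.refl ((x : ℂ) + w0 / 2) w0 hm (by rw [ea]; exact hm0) (by rw [eb]; exact hm1)
    have j2 := hL.δ_small ((x : ℂ) + w0 / 2) w0 hm (by rw [eb]; exact hm1)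
    rw [ea, eb] at j1
    rw [eb] at j2
    rw [← Complex.exp_nat_mul, ← Complex.exp_nat_mul, Complex.exp_eq_exp_iff_exists_int] at h1
    obtain ⟨n, hn⟩ := h1
    have hI := Complex.I_ne_zero
    have h3 : φ ((x : ℂ), (w0 : ℂ)) - φ ((x : ℂ) + w0, (w0 : ℂ)) = n * Real.pi := by
      have h4 : (2 * Complex.I) * (φ ((x : ℂ), (w0 : ℂ)) - φ ((x : ℂ) + w0, (w0 : ℂ))) =
          (2 * Complex.I) * (n * Real.pi) := by
        push_cast at hn
        linear_combination hn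
      exact mul_left_cancel₀ (mul_ne_zero two_ne_zero hI) h4
    have h4 : φ ((x : ℂ), (w0 : ℂ)) - φ ((x : ℂ) + w0, (w0 : ℂ)) =
        -2 * (φ ((x : ℂ) + w0, (w0 : ℂ)) - Tc q (b ((x : ℂ) + w0 / 2, (w0 : ℂ)))) := by
      linear_combination j1
    have h5 : |(n : ℝ)| * Real.pi ≤ 2 / 5 := by
      have h6 : ‖(n : ℂ) * Real.pi‖ = |(n : ℝ)| * Real.pi := by
        rw [norm_mul, Complex.norm_real, Real.norm_eq_abs, abs_of_pos Real.pi_pos,
          Complex.norm_intCast]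
      rw [← h6, ← h3, h4, norm_mul, norm_neg, Complex.norm_ofNat]
      linarith
    have h6 : n = 0 := by
      by_contra hn0
      have h7 : (1 : ℝ) ≤ |(n : ℝ)| := by
        rw [← Int.cast_abs]
        exact_mod_cast Int.one_le_abs hn0
      have h8 := Real.pi_gt_three
      nlinarith
    rw [h6] at h3
    simp only [Int.cast_zero, zero_mul] at h3
    exact (sub_eq_zero.1 h3).symm
  have hn : ∀ n : ℕ, φ (((n * w0 : ℝ) : ℂ), (w0 : ℂ)) = φ (0, (w0 : ℂ)) := by
    intro n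
    induction n with
    | zero => simp
    | succ n ih =>
      have h1 := hstep (n * w0)
      rw [ih] at h1
      rw [← h1]
      congr 2
      push_cast
      ring
  -- periodic remainder is bounded
  set g : ℝ → ℂ := fun x => φ ((x : ℂ), (w0 : ℂ)) - 2 * Real.pi * x with hg
  have hgper : Function.Periodic g 1 := by
    intro x
    simp only [hg]
    have hm0 : (((x : ℂ), (w0 : ℂ)) : ℂ × ℂ) ∈ PD ρ r := by
      have := hmem (x : ℂ) (hreal x) 0
      simpa using this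
    have := hL.φ_per (x : ℂ) w0 hm0
    push_cast
    rw [this]
    ring
  have hgc : Continuous g := by
    have h1 : Continuous fun x : ℝ => φ ((x : ℂ), (w0 : ℂ)) := by
      rw [← continuousOn_univ]
      refine hL.φ_diff.continuousOn.comp (by fun_prop) (fun x _ => ?_)
      have := hmem (x : ℂ) (hreal x) 0
      simpa using this
    exact h1.sub (by fun_prop)
  obtain ⟨C, hC⟩ := (hgper.isBounded_of_continuous one_ne_zero hgc).exists_norm_le
  have hC' : ∀ x, ‖g x‖ ≤ C := fun x => hC _ (mem_range_self x)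
  have h1 : ∀ n : ℕ, (n : ℝ) * (2 * Real.pi * w0) ≤ ‖φ (0, (w0 : ℂ))‖ + C := by
    intro n
    have h2 : (2 * Real.pi * ((n * w0 : ℝ) : ℂ)) = φ (0, (w0 : ℂ)) - g (n * w0) := by
      simp only [hg]
      rw [hn n]
      ring
    have h3 : ‖(2 * Real.pi * ((n * w0 : ℝ) : ℂ))‖ = (n : ℝ) * (2 * Real.pi * w0) := by
      rw [norm_mul, norm_mul, Complex.norm_real, Complex.norm_real, Real.norm_eq_abs,
        Real.norm_eq_abs, abs_mul, Nat.abs_cast, abs_of_pos Real.pi_pos, Complex.norm_ofNat,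
        abs_of_pos hw0]
      ring
    rw [← h3, h2]
    exact (norm_sub_le _ _).trans (by linarith [hC' (n * w0)])
  have h2 : 0 < 2 * Real.pi * w0 := by
    have := Real.pi_pos
    positivity
  obtain ⟨n, hn'⟩ := exists_nat_gt ((‖φ (0, (w0 : ℂ))‖ + C) / (2 * Real.pi * w0))
  rw [div_lt_iff₀ h2] at hn'
  linarith [h1 n]

lemma tube_sub {s w0 : ℂ} {e e' : ℝ} (h : e' ≤ e) : Tube s w0 e' ⊆ Tube s w0 e := by
  rintro x ⟨h1, h2, h3, h4⟩
  exact ⟨by linarith, by linarith, by linarith, by linarith⟩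

lemma regAt_open {f : ℂ × ℂ → ℂ} {S : Set ℂ} {s w0 : ℂ} (h : RegAt ρ r f S s w0) :
    ∃ d > 0, ∀ s' : ℂ, s'.im = s.im → |s'.re - s.re| < d → RegAt ρ r f S s' w0 := by
  obtain ⟨e, he, G, g1, g2, g3⟩ := h
  refine ⟨e / 2, by positivity, fun s' h1 h2 => ?_⟩
  have hsub : Tube s' w0 (e / 2) ⊆ Tube s w0 e := by
    rintro x ⟨k1, k2, k3, k4⟩
    have h2' := abs_lt.1 h2
    have k1' := abs_lt.1 k1
    rw [h1] at k3
    refine ⟨?_, by linarith, by linarith, by linarith⟩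
    rw [abs_lt]
    constructor <;> linarith
  exact ⟨e / 2, by positivity, G, g1.mono hsub, fun x hx => g2 x (hsub hx),
    fun x hx hx' => g3 x (hsub hx) hx'⟩

lemma regL_open {s w0 : ℂ} (h : RegL ρ r φ p s w0) :
    ∃ d > 0, ∀ s' : ℂ, s'.im = s.im → |s'.re - s.re| < d → RegL ρ r φ p s' w0 := by
  obtain ⟨d1, hd1, h1⟩ := regAt_open h.1
  obtain ⟨d2, hd2, h2⟩ := regAt_open h.2
  exact ⟨min d1 d2, lt_min hd1 hd2, fun s' k1 k2 =>
    ⟨h1 s' k1 (k2.trans_le (min_le_left _ _)), h2 s' k1 (k2.trans_le (min_le_right _ _))⟩⟩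

/-- shift of a regular point by `k = ± 1` -/
lemma regAt_shift {f : ℂ × ℂ → ℂ} {s w0 : ℂ} {k : ℝ} {C : ℂ}
    (hf : ∀ t w : ℂ, (t, w) ∈ PD ρ r → f (t + k, w) = f (t, w) + C) (h : RegAt ρ r f univ s w0) :
    RegAt ρ r f univ (s + k) w0 := by
  obtain ⟨e, he, G, g1, g2, g3⟩ := h
  have hmap : ∀ x ∈ Tube (s + k) w0 e, ((x.1 - k, x.2) : ℂ × ℂ) ∈ Tube s w0 e := by
    rintro x ⟨k1, k2, k3, k4⟩
    rw [Complex.add_re, Complex.ofReal_re] at k1
    rw [Complex.add_im, Complex.ofReal_im, add_zero] at k3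
    refine ⟨?_, ?_, ?_, k4⟩
    · show |(x.1 - k).re - s.re| < e
      rw [Complex.sub_re, Complex.ofReal_re]
      have : x.1.re - k - s.re = x.1.re - (s.re + k) := by ring
      rw [this]; exact k1
    · show -e < (x.1 - k).im
      rw [Complex.sub_im, Complex.ofReal_im, sub_zero]; exact k2
    · show (x.1 - k).im < s.im + e
      rw [Complex.sub_im, Complex.ofReal_im, sub_zero]; exact k3
  refine ⟨e, he, fun x => G (x.1 - k, x.2) + C, ?_, fun _ _ => mem_univ _, ?_⟩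
  · refine DifferentiableOn.add_const (c := C) ?_
    exact g1.comp (by fun_prop : DifferentiableOn ℂ (fun x : ℂ × ℂ => ((x.1 - k, x.2) : ℂ × ℂ)) _)
      hmap
  · intro x hx hx'
    have hxP : ((x.1 - k, x.2) : ℂ × ℂ) ∈ PD ρ r := by
      refine ⟨?_, hx'.2⟩
      show |(x.1 - k).im| < ρ
      rw [Complex.sub_im, Complex.ofReal_im, sub_zero]
      exact hx'.1
    show G (x.1 - k, x.2) + C = f x
    rw [g3 _ (hmap x hx) hxP, ← hf (x.1 - k) x.2 hxP]
    congr 1
    ext1 <;> simp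

lemma regL_per (hL : LineFam q η ρ r Bc b φ p m₀) (s w0 : ℂ) :
    RegL ρ r φ p s w0 ↔ RegL ρ r φ p (s + 1) w0 := by
  constructor
  · rintro ⟨h1, h2⟩
    have a1 := regAt_shift (k := 1) (C := 2 * Real.pi) (by
      intro t w htw
      simpa using hL.φ_per t w htw) h1
    have a2 := regAt_shift (k := 1) (C := 0) (by
      intro t w htw
      simpa using hL.p_per t w htw) h2
    rw [Complex.ofReal_one] at a1 a2
    exact ⟨a1, a2⟩
  · rintro ⟨h1, h2⟩
    have hm : ∀ t w : ℂ, (t, w) ∈ PD ρ r → ((t - 1, w) : ℂ × ℂ) ∈ PD ρ r := by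
      intro t w htw
      refine ⟨?_, htw.2⟩
      have := htw.1
      simpa using this
    have a1 := regAt_shift (k := -1) (C := -(2 * Real.pi)) (by
      intro t w htw
      have := hL.φ_per (t - 1) w (hm t w htw)
      rw [sub_add_cancel] at this
      rw [this]
      push_cast
      rw [← sub_eq_add_neg]
      ring) h1
    have a2 := regAt_shift (k := -1) (C := 0) (by
      intro t w htw
      have := hL.p_per (t - 1) w (hm t w htw)
      rw [sub_add_cancel] at this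
      rw [this]
      push_cast
      rw [← sub_eq_add_neg]
      ring) h2
    have e1 : s + 1 + ((-1 : ℝ) : ℂ) = s := by push_cast; ring
    rw [e1] at a1 a2
    exact ⟨a1, a2⟩

/-- **(B3)** -/
theorem b3 (hR : RatCont) (hL : LineFam q η ρ r Bc b φ p m₀) (hV : VExt q η V θ H)
    (hna : ¬ AlgC q) {w0 : ℝ} (hG : GoodW ρ r b φ p V w0) (hJ : JX V θ H (w0 : ℂ)) : False := by
  obtain ⟨hirr, hw0, hw0r, U, hU, hbelow, ⟨s1, hs1, hs1n⟩, ⟨s2, hs2, hs2r⟩⟩ := hG
  have hρ := hL.ρ_pos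
  have hwn : ‖(w0 : ℂ)‖ < r := by
    rw [Complex.norm_real, Real.norm_eq_abs, abs_of_pos hw0]; exact hw0r
  have hw0i : ((w0 : ℂ)).im = 0 := Complex.ofReal_im _
  set S : Set ℂ := {s | ¬ RegL ρ r φ p s w0} with hS
  have hmemS : ∀ s, s ∈ S ↔ ¬ RegL ρ r φ p s w0 := fun s => Iff.rfl
  have hopen : IsOpen {x : ℝ | (x : ℂ) + U * Complex.I ∉ S} := by
    rw [Metric.isOpen_iff]
    intro x hx
    have hx' : RegL ρ r φ p ((x : ℂ) + U * Complex.I) w0 := not_not.1 hx
    obtain ⟨d, hd, h1⟩ := regL_open hx'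
    refine ⟨d, hd, fun y hy => ?_⟩
    have h2 : RegL ρ r φ p ((y : ℂ) + U * Complex.I) w0 := by
      refine h1 _ (by simp) ?_
      rw [mem_ball, Real.dist_eq] at hy
      simpa using hy
    exact fun h => h h2
  have hform : ∀ s : ℂ, s.im = U → s = (s.re : ℂ) + U * Complex.I := by
    intro s hs
    rw [← hs]
    exact (Complex.re_add_im s).symm
  obtain ⟨a, b', ha, hb', hrun, hleft, hright⟩ := Crest.Agent.R102.ChainD88.run_rot hirr
    (S := S) (U := U) hopen ⟨s2.re, by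
      rw [← hform s2 hs2]
      exact fun h => h hs2r⟩ (by
      intro x
      rw [hmemS, hmemS, not_iff_not, regL_per hL]
      have : (x : ℂ) + U * Complex.I + 1 = ((x + 1 : ℝ) : ℂ) + U * Complex.I := by
        push_cast; ring
      rw [this]) (s := s1) hs1n hs1
  -- the start of the run
  set s0 : ℂ := s1 + ((a - 1 : ℤ) : ℂ) * w0 with hs0
  have hs0im : s0.im = U := by
    rw [hs0, Complex.add_im, hs1]; simp
  have hs0r : RegL ρ r φ p s0 w0 := not_not.1 hleft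
  have hs0w : s0 + w0 = s1 + (a : ℂ) * w0 := by
    rw [hs0]; push_cast; ring
  have hs1S : ¬ RegL ρ r φ p (s0 + w0) w0 := by
    rw [hs0w]
    exact hrun a le_rfl (ha.trans hb')
  obtain ⟨N, hN⟩ : ∃ N : ℕ, (N : ℤ) = b' - a + 2 := ⟨(b' - a + 2).toNat, by omega⟩
  have hN1 : 1 ≤ N := by omega
  have hNe : s0 + N * w0 = s1 + ((b' + 1 : ℤ) : ℂ) * w0 := by
    have h1 : (N : ℂ) = ((b' - a + 2 : ℤ) : ℂ) := by
      rw [← hN]; simp
    rw [h1, hs0]; push_cast; ring
  have hsNr : RegL ρ r φ p (s0 + N * w0) w0 := by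
    rw [hNe]; exact not_not.1 hright
  -- the common tube
  obtain ⟨⟨e1, he1, G1, g1, -, k1⟩, ⟨e2, he2, G2, g2, -, k2⟩⟩ := hs0r
  obtain ⟨⟨e3, he3, G3, g3, -, k3⟩, ⟨e4, he4, G4, g4, -, k4⟩⟩ := hsNr
  set em : ℝ := min (min e1 e2) (min e3 e4) with hem
  have hem0 : 0 < em := lt_min (lt_min he1 he2) (lt_min he3 he4)
  set e : ℝ := em / (1 + N) with he
  have hN0 : (0 : ℝ) < 1 + N := by positivity
  have he0 : 0 < e := by positivity
  have hee : e * (1 + N) = em := by rw [he]; field_simp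
  have hNR : (0 : ℝ) ≤ N := Nat.cast_nonneg N
  have heem : e ≤ em := by nlinarith
  have heem' : e + N * e ≤ em := by linarith
  have q1' : e ≤ e1 := heem.trans ((min_le_left _ _).trans (min_le_left _ _))
  have q2' : e ≤ e2 := heem.trans ((min_le_left _ _).trans (min_le_right _ _))
  have q3' : em ≤ e3 := (min_le_right _ _).trans (min_le_left _ _)
  have q4' : em ≤ e4 := (min_le_right _ _).trans (min_le_right _ _)
  have hTo : IsOpen (Tube s0 w0 e) := isOpen_Tube _ _ _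
  have hmapN : ∀ x ∈ Tube s0 w0 e, ((x.1 + N * x.2, x.2) : ℂ × ℂ) ∈ Tube (s0 + N * w0) w0 em := by
    rintro x ⟨h1, h2, h3, h4⟩
    have h5 := Complex.abs_im_le_norm (x.2 - w0)
    have h6 := Complex.abs_re_le_norm (x.2 - w0)
    rw [Complex.sub_im, hw0i, sub_zero] at h5
    rw [Complex.sub_re, Complex.ofReal_re] at h6
    have h5' := abs_le.1 (h5.trans h4.le)
    have h6' := abs_le.1 (h6.trans h4.le)
    have h1' := abs_lt.1 h1
    have r1 : (x.1 + N * x.2).re = x.1.re + N * x.2.re := by simp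
    have r2 : (x.1 + N * x.2).im = x.1.im + N * x.2.im := by simp
    have r3 : (s0 + N * w0).re = s0.re + N * w0 := by simp
    have r4 : (s0 + N * w0).im = s0.im := by simp
    have r5 : N * (x.2.re - w0) ≤ N * e := mul_le_mul_of_nonneg_left h6'.2 hNR
    have r6 : N * (-e) ≤ N * (x.2.re - w0) := mul_le_mul_of_nonneg_left h6'.1 hNR
    have r7 : N * x.2.im ≤ N * e := mul_le_mul_of_nonneg_left h5'.2 hNR
    have r8 : N * (-e) ≤ N * x.2.im := mul_le_mul_of_nonneg_left h5'.1 hNR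
    refine ⟨?_, ?_, ?_, ?_⟩
    · show |(x.1 + N * x.2).re - (s0 + N * w0).re| < em
      rw [r1, r3, abs_lt]
      constructor <;> linarith
    · show -em < (x.1 + N * x.2).im
      rw [r2]; linarith
    · show (x.1 + N * x.2).im < (s0 + N * w0).im + em
      rw [r2, r4]; linarith
    · show ‖x.2 - w0‖ < em
      linarith
  have hshN : Differentiable ℂ (fun x : ℂ × ℂ => ((x.1 + N * x.2, x.2) : ℂ × ℂ)) := by fun_prop
  have d1 : DifferentiableOn ℂ G1 (Tube s0 w0 e) := g1.mono (tube_sub q1')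
  have d2 : DifferentiableOn ℂ G2 (Tube s0 w0 e) := g2.mono (tube_sub q2')
  have d3 : DifferentiableOn ℂ (fun x : ℂ × ℂ => G3 (x.1 + N * x.2, x.2)) (Tube s0 w0 e) :=
    g3.comp hshN.differentiableOn fun x hx => tube_sub q3' (hmapN x hx)
  have d4 : DifferentiableOn ℂ (fun x : ℂ × ℂ => G4 (x.1 + N * x.2, x.2)) (Tube s0 w0 e) :=
    g4.comp hshN.differentiableOn fun x hx => tube_sub q4' (hmapN x hx)
  have an := fun {F : ℂ × ℂ → ℂ} (hF : DifferentiableOn ℂ F (Tube s0 w0 e)) =>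
    Crest.Agent.R266.SCV.analyticOnNhd_of_differentiableOn hTo hF
  have hx0T : (((s0.re : ℂ), (w0 : ℂ)) : ℂ × ℂ) ∈ Tube s0 w0 e := by
    refine ⟨?_, ?_, ?_, ?_⟩
    · simp [he0]
    · simp [he0]
    · show ((s0.re : ℂ)).im < s0.im + e
      rw [Complex.ofReal_im, hs0im]; linarith
    · simp [he0]
  have hx0P : (((s0.re : ℂ), (w0 : ℂ)) : ℂ × ℂ) ∈ PD ρ r := ⟨by simpa using hρ, hwn⟩
  have hxNP : (((s0.re : ℂ) + N * (w0 : ℂ), (w0 : ℂ)) : ℂ × ℂ) ∈ PD ρ r := by
    refine ⟨?_, hwn⟩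
    show |((s0.re : ℂ) + N * (w0 : ℂ)).im| < ρ
    simpa using hρ
  have hcN : ContinuousAt (fun x : ℂ × ℂ => ((x.1 + N * x.2, x.2) : ℂ × ℂ))
      (((s0.re : ℂ), (w0 : ℂ)) : ℂ × ℂ) := by fun_prop
  obtain ⟨E, P, hEP, hE0⟩ := hR q η ρ r Bc b φ p m₀ hL hna N (Tube s0 w0 e)
    (((s0.re : ℂ), (w0 : ℂ)) : ℂ × ℂ)
    ![fun x => Complex.exp (Complex.I * G1 x), G2,
      fun x => Complex.exp (Complex.I * G3 (x.1 + N * x.2, x.2)),
      fun x => G4 (x.1 + N * x.2, x.2)] hTo (convex_Tube _ _ _).isPreconnected hx0T hx0P hxNP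
    (by
      intro i c hc
      fin_cases i
      · exact merAt_of_analyticAt ((analyticAt_const.mul (an d1 c hc)).cexp)
      · exact merAt_of_analyticAt (an d2 c hc)
      · exact merAt_of_analyticAt ((analyticAt_const.mul (an d3 c hc)).cexp)
      · exact merAt_of_analyticAt (an d4 c hc))
    (by
      filter_upwards [hTo.mem_nhds hx0T, (isOpen_PD ρ r).mem_nhds hx0P,
        hcN.eventually ((isOpen_PD ρ r).mem_nhds hxNP)] with x h1 h2 h3
      have h4 := hmapN x h1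
      refine ⟨?_, ?_, ?_, ?_⟩
      · show Complex.exp (Complex.I * G1 x) = _
        rw [k1 x (tube_sub q1' h1) h2]
      · show G2 x = _
        rw [k2 x (tube_sub q2' h1) h2]
      · show Complex.exp (Complex.I * G3 (x.1 + N * x.2, x.2)) = _
        rw [k3 _ (tube_sub q3' h4) h3]
      · show G4 (x.1 + N * x.2, x.2) = _
        rw [k4 _ (tube_sub q4' h4) h3]) 1 hN1
  -- climb
  obtain ⟨e5, he5, he5e, β, b1, b2, b3⟩ := label_up hL hV hwn hw0i (s := s0)
    (by rw [hs0im]; exact hU) he0 d1 d2 (fun x hx hx' => k1 x (tube_sub q1' hx) hx')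
    (fun x hx hx' => k2 x (tube_sub q2' hx) hx') hEP (by
      filter_upwards [hE0] with x hx
      simpa only [Nat.cast_one, one_mul] using hx)
    (lines_ne hL hw0 hw0r s0.re)
    (fun s' h1 h2 => (hbelow s' h1 (by rw [← hs0im]; exact h2)).2) hJ
  exact hs1S (line_next hL hV hwn hw0i (s := s0) (by rw [hs0im]; exact hU) he5
    (d1.mono (tube_sub he5e)) (d2.mono (tube_sub he5e))
    (fun x hx hx' => k1 x (tube_sub (he5e.trans q1') hx) hx')
    (fun x hx hx' => k2 x (tube_sub (he5e.trans q2') hx) hx') b1 b2 b3)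

end fam

/-- every boundary point is singular -/
lemma nb_of {h0 : ℝ} {θ H : ℂ → ℂ} {q : C(ℂ, ℂ)} {η : ℝ} (hV : VExt q η (Str h0) θ H)
    (hη : η ≤ h0) (D : Datum q η) (hs : ∀ s : ℂ, s.im = h0 → ¬ RegB h0 θ H s) :
    Crest.Agent.R102.Rule982.NB h0 θ H := by
  rintro s hsi ⟨r, hr, g₁, g₂, h1, h2, h3, h4⟩
  have hcase : s.im = h0 ∨ s.im = -h0 := by
    rcases abs_cases s.im with ⟨h, -⟩ | ⟨h, -⟩
    · left; rw [h] at hsi; exact hsi
    · right; rw [h] at hsi; linarith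
  rcases hcase with h | h
  · exact hs s h ⟨r, hr, g₁, g₂, h1, h2, fun z hz hzi => ⟨h3 ⟨hz, hzi⟩, h4 ⟨hz, hzi⟩⟩⟩
  · have hb : ∀ z ∈ ball (conj s) r, conj z ∈ ball s r := fun z hz => by
      rw [mem_ball, dist_eq_norm] at hz ⊢
      have e : conj z - s = conj (z - conj s) := by rw [map_sub, starRingEnd_self_apply]
      rw [e, RCLike.norm_conj]; exact hz
    refine hs (conj s) (by rw [Complex.conj_im, h, neg_neg]) ⟨r, hr, fun z => conj (g₁ (conj z)),
      fun z => conj (g₂ (conj z)), ?_, ?_, ?_⟩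
    · intro z hz
      exact (((h1.differentiableAt (isOpen_ball.mem_nhds (hb z hz))).hasDerivAt.conj_conj
        ).differentiableAt |> fun h => by
          rw [starRingEnd_self_apply] at h; exact h.differentiableWithinAt)
    · intro z hz
      exact (((h2.differentiableAt (isOpen_ball.mem_nhds (hb z hz))).hasDerivAt.conj_conj
        ).differentiableAt |> fun h => by
          rw [starRingEnd_self_apply] at h; exact h.differentiableWithinAt)
    · intro z hz hzi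
      have hz' : |(conj z).im| < h0 := by rw [Complex.conj_im, abs_neg]; exact hzi
      have e := ext_conj D hη hV (z := z) hzi
      constructor
      · show conj (g₁ (conj z)) = θ z
        rw [h3 ⟨hb z hz, hz'⟩, e.1, starRingEnd_self_apply]
      · show conj (g₂ (conj z)) = H z
        rw [h4 ⟨hb z hz, hz'⟩, e.2, starRingEnd_self_apply]

/-- **end of Case B** -/
theorem bEnd (hR : RatCont) : BEnd := by
  intro q η ρ r Bc b φ p m₀ θ H h0 hD hs hna
  have hempty : {w0 : ℝ | GoodW ρ r b φ p (Str h0) w0} = ∅ := by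
    rw [eq_empty_iff_forall_notMem]
    intro w0 hw0
    have hrel : Rel h0 θ H (-1) := (zeroY q η (Str h0) θ H hD.fam.dat hD.ext).1
    exact b3 hR hD.fam hD.ext hna hw0 (jx_strip (h := h0) hD.ext.θ_diff hD.ext.H_diff
      (by norm_num) hrel (nb_of hD.ext hD.le hD.fam.dat hs) (w0 : ℂ))
  rw [hempty]
  exact countable_empty

end Crest.Agent.R102.BEnd802
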