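import Mathlib

/-!
# R102, T1-E (516 #26350 / #26578), leaf (ST): the start, telescoping over the levels of the records

Pure statement: `B : ℂ → ℂ` (labels for a fixed `w`), steps `B (t + w) - B t - w = O(τ' e^{2τ'} |w|³)`
below the height `M τ' - 2 e^{-τ'}`, records `M τ' - M τ'' ≤ 2 S (τ/τ'')² (τ' - τ'')`.
Then `|B t - t| ≤ ε S` up to the height `M τ_b - 2 e^{-τ_b}`, `τ_b = τ - log K - (log τ)/2`.
-/

open Set Filter Topology

namespace Crest.Agent.R102.StartE942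

/-- one level: going down by steps `w` -/
theorem level_nat {w : ℂ} (hw : 0 < w.im) {B : ℂ → ℂ} {H H' a D : ℝ} (ha : 0 ≤ a)
    (hHw : w.im ≤ H)
    (hD : ∀ t : ℂ, 0 ≤ t.im → t.im ≤ H → ‖B t - t‖ ≤ D)
    (hs : ∀ t : ℂ, 0 ≤ t.im → t.im + w.im ≤ H' → ‖B (t + w) - B t - w‖ ≤ a) (n : ℕ) :
    ∀ t : ℂ, 0 ≤ t.im → t.im ≤ H' → t.im ≤ H + n * w.im → ‖B t - t‖ ≤ D + n * a := by
  induction n with
  | zero =>
    intro t h0 _ h2
    simp only [Nat.cast_zero, zero_mul, add_zero] at h2 ⊢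
    exact hD t h0 h2
  | succ n ih =>
    intro t h0 h1 h2
    by_cases hcase : t.im ≤ H
    · have := hD t h0 hcase
      have h3 : 0 ≤ ((n + 1 : ℕ) : ℝ) * a := by positivity
      linarith
    · push Not at hcase
      have him : (t - w).im = t.im - w.im := by simp
      have h4 : 0 ≤ (t - w).im := by rw [him]; linarith
      have h5 : (t - w).im ≤ H' := by rw [him]; linarith
      have h6 : (t - w).im ≤ H + n * w.im := by
        rw [him]; push_cast at h2; linarith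
      have h7 := ih (t - w) h4 h5 h6
      have h8 := hs (t - w) h4 (by rw [him]; linarith)
      rw [sub_add_cancel] at h8
      have h9 : B t - t = (B t - B (t - w) - w) + (B (t - w) - (t - w)) := by ring
      rw [h9]
      refine (norm_add_le _ _).trans ?_
      push_cast
      linarith

theorem level {w : ℂ} (hw : 0 < w.im) {B : ℂ → ℂ} {H H' a D : ℝ} (ha : 0 ≤ a)
    (hHw : w.im ≤ H) (hHH : H ≤ H')
    (hD : ∀ t : ℂ, 0 ≤ t.im → t.im ≤ H → ‖B t - t‖ ≤ D)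
    (hs : ∀ t : ℂ, 0 ≤ t.im → t.im + w.im ≤ H' → ‖B (t + w) - B t - w‖ ≤ a) :
    ∀ t : ℂ, 0 ≤ t.im → t.im ≤ H' → ‖B t - t‖ ≤ D + a * ((H' - H) / w.im + 1) := by
  intro t h0 h1
  set n : ℕ := ⌈(H' - H) / w.im⌉₊ with hn
  have hx : 0 ≤ (H' - H) / w.im := by
    have : 0 ≤ H' - H := by linarith
    positivity
  have h2 : (H' - H) / w.im ≤ n := Nat.le_ceil _
  have h3 : (n : ℝ) < (H' - H) / w.im + 1 := Nat.ceil_lt_add_one hx
  have h4 : H' - H ≤ n * w.im := by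
    rw [div_le_iff₀ hw] at h2; linarith
  have h5 := level_nat hw ha hHw hD hs n t h0 h1 (by linarith)
  nlinarith

theorem num1 {s : ℝ} (hs1 : 1 ≤ s) : Real.exp (2 * (s + 1)) / (s + 1) * 320 ≤
    450 * (Real.exp (2 * (s + 1)) / (s + 1) - Real.exp (2 * s) / s) := by
  have he2 : 7 ≤ Real.exp 1 * Real.exp 1 := by
    have := Real.exp_one_gt_d9
    nlinarith
  have h2 : Real.exp (2 * (s + 1)) = Real.exp (2 * s) * (Real.exp 1 * Real.exp 1) := by
    rw [← Real.exp_add, ← Real.exp_add]; ring_nf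
  have h4 : Real.exp (2 * s) / s ≤ 2 * (Real.exp (2 * s) / (s + 1)) := by
    have h5 : 1 / s ≤ 2 / (s + 1) := by
      rw [div_le_div_iff₀ (by positivity) (by positivity)]; linarith
    calc Real.exp (2 * s) / s = Real.exp (2 * s) * (1 / s) := by ring
      _ ≤ Real.exp (2 * s) * (2 / (s + 1)) := by gcongr
      _ = _ := by ring
  have h6 : 0 ≤ Real.exp (2 * s) / (s + 1) := by positivity
  have h7 : 7 * (Real.exp (2 * s) / (s + 1)) ≤ Real.exp (2 * (s + 1)) / (s + 1) := by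
    rw [h2]
    calc 7 * (Real.exp (2 * s) / (s + 1)) ≤
        Real.exp 1 * Real.exp 1 * (Real.exp (2 * s) / (s + 1)) := by gcongr
      _ = _ := by ring
  linarith

theorem num2 {s : ℝ} (hs1 : 1 ≤ s) : (s + 1) * (220 * Real.exp (s + 1)) ≤
    350 * ((s + 1) * Real.exp (s + 1) - s * Real.exp s) := by
  have h2 : Real.exp (s + 1) = Real.exp s * Real.exp 1 := Real.exp_add s 1
  have h3 : 2.7 ≤ Real.exp 1 := by
    have := Real.exp_one_gt_d9
    linarith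
  have h5 := Real.exp_pos s
  have h6 : s * Real.exp s ≤ (s + 1) * Real.exp s := by nlinarith
  have h7 : 2.7 * ((s + 1) * Real.exp s) ≤ (s + 1) * Real.exp (s + 1) := by
    rw [h2]
    calc 2.7 * ((s + 1) * Real.exp s) ≤ Real.exp 1 * ((s + 1) * Real.exp s) := by gcongr
      _ = _ := by ring
  have h8 : 0 ≤ (s + 1) * Real.exp (s + 1) := by positivity
  linarith

theorem num3 {s τ W : ℝ} (hsτ : s + 1 ≤ τ) (hwτ : W ≤ 2 * Real.exp (-τ)) :
    80 * (Real.exp (2 * (s + 1)) * Real.exp (-s)) + Real.exp (2 * (s + 1)) * W ≤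
        220 * Real.exp (s + 1) := by
  have hQ1 : Real.exp (2 * (s + 1)) * Real.exp (-s) = Real.exp 1 * Real.exp (s + 1) := by
    rw [← Real.exp_add, ← Real.exp_add]; ring_nf
  have hQ2 : Real.exp (2 * (s + 1)) * W ≤ 2 * Real.exp (s + 1) := by
    have h2 : W ≤ 2 * Real.exp (-(s + 1)) := by
      have : Real.exp (-τ) ≤ Real.exp (-(s + 1)) := Real.exp_le_exp.2 (by linarith)
      linarith
    have h3 : Real.exp (2 * (s + 1)) * Real.exp (-(s + 1)) = Real.exp (s + 1) := by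
      rw [← Real.exp_add]; ring_nf
    calc Real.exp (2 * (s + 1)) * W ≤ Real.exp (2 * (s + 1)) * (2 * Real.exp (-(s + 1))) := by
          gcongr
      _ = 2 * (Real.exp (2 * (s + 1)) * Real.exp (-(s + 1))) := by ring
      _ = 2 * Real.exp (s + 1) := by rw [h3]
  have he1 : Real.exp 1 ≤ 2.72 := by
    have := Real.exp_one_lt_d9
    linarith
  rw [hQ1]
  have h4 := Real.exp_pos (s + 1)
  have h5 : Real.exp 1 * Real.exp (s + 1) ≤ 2.72 * Real.exp (s + 1) := by gcongr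
  linarith

/-- the numerical step -/
theorem num_step {s C S τ W : ℝ} (hC : 0 ≤ C) (hS : 0 ≤ S) (hs1 : 1 ≤ s) (hsτ : s + 1 ≤ τ)
    (hW : 0 < W) (hwτ : W ≤ 2 * Real.exp (-τ)) :
    C * (s + 1) * Real.exp (2 * (s + 1)) * W ^ 3 *
        ((40 / W) * (2 * S * τ ^ 2 / s ^ 2 + 2 * Real.exp (-s)) + 1) ≤
      W ^ 2 * (C * S * τ ^ 2 *
          (450 * (Real.exp (2 * (s + 1)) / (s + 1) - Real.exp (2 * s) / s)) +
          C * (350 * ((s + 1) * Real.exp (s + 1) - s * Real.exp s))) := by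
  have hsplit : C * (s + 1) * Real.exp (2 * (s + 1)) * W ^ 3 *
      ((40 / W) * (2 * S * τ ^ 2 / s ^ 2 + 2 * Real.exp (-s)) + 1) =
      W ^ 2 * (80 * C * S * τ ^ 2 * ((s + 1) / s ^ 2) * Real.exp (2 * (s + 1)) +
        C * (s + 1) * (80 * (Real.exp (2 * (s + 1)) * Real.exp (-s)) +
          Real.exp (2 * (s + 1)) * W)) := by
    generalize Real.exp (2 * (s + 1)) = X
    generalize Real.exp (-s) = Y
    have hs0 : s ≠ 0 := by positivity
    field_simp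
    ring
  rw [hsplit]
  have hA1 : (s + 1) / s ^ 2 ≤ 4 / (s + 1) := by
    rw [div_le_div_iff₀ (by positivity) (by positivity)]
    nlinarith
  have hP1 : 80 * C * S * τ ^ 2 * ((s + 1) / s ^ 2) * Real.exp (2 * (s + 1)) ≤
      C * S * τ ^ 2 *
        (450 * (Real.exp (2 * (s + 1)) / (s + 1) - Real.exp (2 * s) / s)) := by
    calc 80 * C * S * τ ^ 2 * ((s + 1) / s ^ 2) * Real.exp (2 * (s + 1))
        ≤ 80 * C * S * τ ^ 2 * (4 / (s + 1)) * Real.exp (2 * (s + 1)) := by gcongr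
      _ = C * S * τ ^ 2 * (Real.exp (2 * (s + 1)) / (s + 1) * 320) := by ring
      _ ≤ _ := mul_le_mul_of_nonneg_left (num1 hs1) (by positivity)
  have hP2 : C * (s + 1) * (80 * (Real.exp (2 * (s + 1)) * Real.exp (-s)) +
          Real.exp (2 * (s + 1)) * W) ≤
      C * (350 * ((s + 1) * Real.exp (s + 1) - s * Real.exp s)) := by
    calc C * (s + 1) * (80 * (Real.exp (2 * (s + 1)) * Real.exp (-s)) +
          Real.exp (2 * (s + 1)) * W) ≤ C * (s + 1) * (220 * Real.exp (s + 1)) :=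
          mul_le_mul_of_nonneg_left (num3 hsτ hwτ) (by positivity)
      _ = C * ((s + 1) * (220 * Real.exp (s + 1))) := by ring
      _ ≤ _ := mul_le_mul_of_nonneg_left (num2 hs1) hC
  exact mul_le_mul_of_nonneg_left (add_le_add hP1 hP2) (by positivity)

/-- telescoping over the levels `τ₀, τ₀ + 1, …` -/
theorem levels {w : ℂ} (hw : 0 < w.im) (hw40 : ‖w‖ ≤ 40 * w.im) {B : ℂ → ℂ} {M : ℝ → ℝ}
    {C S τ T₀ τ₀ D0 : ℝ} (hC : 0 ≤ C) (hS : 0 ≤ S) (hT₀ : 1 ≤ T₀) (hτ₀ : T₀ ≤ τ₀) (J : ℕ)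
    (hJ : τ₀ + J ≤ τ) (hwτ : ‖w‖ ≤ 2 * Real.exp (-τ))
    (hM : MonotoneOn M (Icc T₀ τ))
    (hrec : ∀ τ'' τ', T₀ ≤ τ'' → τ'' ≤ τ' → τ' ≤ τ →
      M τ' - M τ'' ≤ 2 * S * (τ / τ'') ^ 2 * (τ' - τ''))
    (hHw : w.im ≤ M τ₀ - 2 * Real.exp (-τ₀))
    (hD0 : ∀ t : ℂ, 0 ≤ t.im → t.im ≤ M τ₀ - 2 * Real.exp (-τ₀) → ‖B t - t‖ ≤ D0)
    (hstep : ∀ τ' : ℝ, T₀ ≤ τ' → τ' ≤ τ₀ + J → ∀ t : ℂ, 0 ≤ t.im →
      t.im + w.im ≤ M τ' - 2 * Real.exp (-τ') →
      ‖B (t + w) - B t - w‖ ≤ C * τ' * Real.exp (2 * τ') * ‖w‖ ^ 3) :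
    ∀ k : ℕ, k ≤ J → ∀ t : ℂ, 0 ≤ t.im →
      t.im ≤ M (τ₀ + k) - 2 * Real.exp (-(τ₀ + k)) →
      ‖B t - t‖ ≤ D0 + ‖w‖ ^ 2 * (450 * C * S * τ ^ 2 * (Real.exp (2 * (τ₀ + k)) / (τ₀ + k)) +
        350 * C * ((τ₀ + k) * Real.exp (τ₀ + k))) := by
  intro k
  induction k with
  | zero =>
    intro _ t h0 h1
    simp only [Nat.cast_zero, add_zero] at h1 ⊢
    have h2 := hD0 t h0 h1
    have hτ₀p : 0 < τ₀ := by linarith
    have h3 : 0 ≤ ‖w‖ ^ 2 * (450 * C * S * τ ^ 2 * (Real.exp (2 * τ₀) / τ₀) +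
        350 * C * (τ₀ * Real.exp τ₀)) := by positivity
    linarith
  | succ k ih =>
    intro hk t h0 h1
    have hkJ : k ≤ J := Nat.le_of_succ_le hk
    have hkJ' : ((k + 1 : ℕ) : ℝ) ≤ J := by exact_mod_cast hk
    have ih' := ih hkJ
    push_cast at h1 hkJ' ⊢
    set s : ℝ := τ₀ + k with hs
    have hk0 : (0 : ℝ) ≤ k := Nat.cast_nonneg k
    have hs1 : 1 ≤ s := by rw [hs]; linarith
    have hsT : T₀ ≤ s := by rw [hs]; linarith
    have hss : τ₀ + ((k : ℝ) + 1) = s + 1 := by rw [hs]; ring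
    rw [hss] at h1 ⊢
    have hsτ : s + 1 ≤ τ := by rw [hs]; linarith
    have hsJ : s + 1 ≤ τ₀ + J := by rw [hs]; linarith
    -- heights
    have e1 : Real.exp (-(s + 1)) ≤ Real.exp (-s) := Real.exp_le_exp.2 (by linarith)
    have hmono : M s ≤ M (s + 1) :=
      hM ⟨hsT, by linarith⟩ ⟨by linarith, hsτ⟩ (by linarith)
    have hHH : M s - 2 * Real.exp (-s) ≤ M (s + 1) - 2 * Real.exp (-(s + 1)) := by linarith
    have hτ₀s : τ₀ ≤ s := by rw [hs]; linarith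
    have hHw' : w.im ≤ M s - 2 * Real.exp (-s) := by
      have h2 : M τ₀ ≤ M s := hM ⟨hτ₀, by linarith⟩ ⟨hsT, by linarith⟩ hτ₀s
      have h3 : Real.exp (-s) ≤ Real.exp (-τ₀) := Real.exp_le_exp.2 (by linarith)
      linarith
    set W : ℝ := ‖w‖ with hW
    have hWpos : 0 < W := by
      have h2 := Complex.abs_im_le_norm w
      rw [abs_of_pos hw] at h2
      linarith
    have ha : 0 ≤ C * (s + 1) * Real.exp (2 * (s + 1)) * W ^ 3 := by positivity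
    have hlev := level hw ha hHw' hHH ih' (hstep (s + 1) (by linarith) hsJ) t h0 h1
    have hnum : (M (s + 1) - 2 * Real.exp (-(s + 1)) - (M s - 2 * Real.exp (-s))) / w.im + 1 ≤
        (40 / W) * (2 * S * τ ^ 2 / s ^ 2 + 2 * Real.exp (-s)) + 1 := by
      have h2 := hrec s (s + 1) hsT (by linarith) hsτ
      have h3 : 2 * S * (τ / s) ^ 2 * (s + 1 - s) = 2 * S * τ ^ 2 / s ^ 2 := by
        field_simp
        ring
      rw [h3] at h2
      have h4 : M (s + 1) - 2 * Real.exp (-(s + 1)) - (M s - 2 * Real.exp (-s)) ≤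
          2 * S * τ ^ 2 / s ^ 2 + 2 * Real.exp (-s) := by
        have := Real.exp_pos (-(s + 1))
        linarith
      have h5 : 0 ≤ 2 * S * τ ^ 2 / s ^ 2 + 2 * Real.exp (-s) := by positivity
      have h6 : 1 / w.im ≤ 40 / W := by
        rw [div_le_div_iff₀ hw hWpos]; linarith
      calc (M (s + 1) - 2 * Real.exp (-(s + 1)) - (M s - 2 * Real.exp (-s))) / w.im + 1
          ≤ (2 * S * τ ^ 2 / s ^ 2 + 2 * Real.exp (-s)) / w.im + 1 := by gcongr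
        _ = (1 / w.im) * (2 * S * τ ^ 2 / s ^ 2 + 2 * Real.exp (-s)) + 1 := by ring
        _ ≤ _ := by gcongr
    have hstep1 := mul_le_mul_of_nonneg_left hnum ha
    have htot := hstep1.trans (num_step hC hS hs1 hsτ hWpos hwτ)
    have hsum := add_le_add_left htot (D0 + W ^ 2 * (450 * C * S * τ ^ 2 * (Real.exp (2 * s) / s) +
        350 * C * (s * Real.exp s)))
    refine hlev.trans ?_
    refine (le_of_eq ?_).trans (hsum.trans (le_of_eq ?_))
    · ring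
    · ring

/-- final numerics -/
theorem numfin {C ε K τ τb S W C6 : ℝ} (hC : 0 ≤ C) (hε : 0 < ε) (hK1 : 1 ≤ K)
    (hKε : 3600 * C / K ^ 2 ≤ ε / 2)
    (e1 : τ ^ 3 * Real.exp (-τ) * (1400 * C + 4 * C6) ≤ ε / 2) (e5 : 1 ≤ τ)
    (hτb1 : τ / 2 ≤ τb) (hτb2 : τb ≤ τ) (hτb : τb = τ - Real.log K - Real.log τ / 2)
    (hS : 1 / τ ^ 2 ≤ S) (hW0 : 0 ≤ W) (hwτ : W ≤ 2 * Real.exp (-τ)) (hC60 : 0 ≤ C6) :
    C6 * W ^ 2 + W ^ 2 * (450 * C * S * τ ^ 2 * (Real.exp (2 * τb) / τb) +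
        350 * C * (τb * Real.exp τb)) ≤ ε * S := by
  have hτ0 : 0 < τ := by linarith
  have hS0 : 0 ≤ S := (by positivity : (0 : ℝ) ≤ 1 / τ ^ 2).trans hS
  have hKpos : 0 < K := by linarith
  have hτbpos : 0 < τb := by linarith
  have hexpb : Real.exp (2 * τb) = Real.exp (2 * τ) / (K ^ 2 * τ) := by
    have h2 : 2 * τb = 2 * τ - (Real.log K + Real.log K + Real.log τ) := by rw [hτb]; ring
    rw [h2, Real.exp_sub, Real.exp_add, Real.exp_add, Real.exp_log hτ0, Real.exp_log hKpos,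
      pow_two]
  have hE := Real.exp_pos (-τ)
  have hWsq : W ^ 2 ≤ 4 * Real.exp (-(2 * τ)) := by
    have h2 : Real.exp (-(2 * τ)) = Real.exp (-τ) * Real.exp (-τ) := by
      rw [← Real.exp_add]; ring_nf
    rw [h2]
    calc W ^ 2 ≤ (2 * Real.exp (-τ)) ^ 2 := by gcongr
      _ = _ := by ring
  have hee : Real.exp (-(2 * τ)) * Real.exp (2 * τ) = 1 := by
    rw [← Real.exp_add]; simp
  have hα : W ^ 2 * (450 * C * S * τ ^ 2 * (Real.exp (2 * τb) / τb)) ≤ ε / 2 * S := by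
    have h2 : 1 / τb ≤ 2 / τ := by
      rw [div_le_div_iff₀ hτbpos hτ0]; linarith
    have h3 : 1800 * C * S * τ ^ 2 * (1 / (K ^ 2 * τ)) * (2 / τ) = 3600 * C / K ^ 2 * S := by
      field_simp
      ring
    calc W ^ 2 * (450 * C * S * τ ^ 2 * (Real.exp (2 * τb) / τb))
        ≤ 4 * Real.exp (-(2 * τ)) * (450 * C * S * τ ^ 2 * (Real.exp (2 * τb) / τb)) := by
          gcongr
      _ = 1800 * C * S * τ ^ 2 * (Real.exp (-(2 * τ)) * Real.exp (2 * τb)) * (1 / τb) := by ring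
      _ ≤ 1800 * C * S * τ ^ 2 * (Real.exp (-(2 * τ)) * Real.exp (2 * τb)) * (2 / τ) := by
          gcongr
      _ = 1800 * C * S * τ ^ 2 * ((Real.exp (-(2 * τ)) * Real.exp (2 * τ)) / (K ^ 2 * τ)) *
          (2 / τ) := by
          rw [hexpb, mul_div_assoc (Real.exp (-(2 * τ)))]
      _ = 1800 * C * S * τ ^ 2 * (1 / (K ^ 2 * τ)) * (2 / τ) := by
          rw [hee]
      _ = 3600 * C / K ^ 2 * S := h3
      _ ≤ ε / 2 * S := by gcongr
  have hβ : W ^ 2 * (350 * C * (τb * Real.exp τb)) ≤ 1400 * C * (τ * Real.exp (-τ)) := by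
    have h2 : Real.exp τb ≤ Real.exp τ := Real.exp_le_exp.2 hτb2
    have h3 : Real.exp (-(2 * τ)) * Real.exp τ = Real.exp (-τ) := by
      rw [← Real.exp_add]; ring_nf
    calc W ^ 2 * (350 * C * (τb * Real.exp τb))
        ≤ 4 * Real.exp (-(2 * τ)) * (350 * C * (τ * Real.exp τ)) := by gcongr
      _ = 1400 * C * (τ * (Real.exp (-(2 * τ)) * Real.exp τ)) := by ring
      _ = _ := by rw [h3]
  have hγ : C6 * W ^ 2 ≤ 4 * C6 * Real.exp (-τ) := by
    have h2 : Real.exp (-(2 * τ)) ≤ Real.exp (-τ) := Real.exp_le_exp.2 (by linarith)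
    have h3 : W ^ 2 ≤ 4 * Real.exp (-τ) := hWsq.trans (by linarith)
    calc C6 * W ^ 2 ≤ C6 * (4 * Real.exp (-τ)) := by gcongr
      _ = _ := by ring
  have hfinal : 1400 * C * (τ * Real.exp (-τ)) + 4 * C6 * Real.exp (-τ) ≤ ε / 2 * S := by
    have h2 : τ * Real.exp (-τ) = τ ^ 3 * Real.exp (-τ) / τ ^ 2 := by
      field_simp
    have h3 : Real.exp (-τ) ≤ τ * Real.exp (-τ) := by
      calc Real.exp (-τ) = 1 * Real.exp (-τ) := (one_mul _).symm
        _ ≤ τ * Real.exp (-τ) := by gcongr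
    calc 1400 * C * (τ * Real.exp (-τ)) + 4 * C6 * Real.exp (-τ)
        ≤ 1400 * C * (τ * Real.exp (-τ)) + 4 * C6 * (τ * Real.exp (-τ)) := by gcongr
      _ = (τ ^ 3 * Real.exp (-τ) * (1400 * C + 4 * C6)) * (1 / τ ^ 2) := by rw [h2]; ring
      _ ≤ ε / 2 * S := by gcongr
  have hdist : C6 * W ^ 2 + W ^ 2 * (450 * C * S * τ ^ 2 * (Real.exp (2 * τb) / τb) +
        350 * C * (τb * Real.exp τb)) = C6 * W ^ 2 +
        W ^ 2 * (450 * C * S * τ ^ 2 * (Real.exp (2 * τb) / τb)) +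
        W ^ 2 * (350 * C * (τb * Real.exp τb)) := by ring
  rw [hdist]
  linarith

/-- **(ST)** the start: below the height `M τ_b - 2 e^{-τ_b}`, `τ_b = τ - log K - (log τ)/2`, the labels
are within `ε S` of `t`. -/
theorem start {C ε T₀ : ℝ} (hC : 0 ≤ C) (hε : 0 < ε) (hT₀ : 1 ≤ T₀) :
    ∃ K0 : ℝ, 1 ≤ K0 ∧ ∀ K : ℝ, K0 ≤ K → ∃ T : ℝ, ∀ τ : ℝ, T ≤ τ → ∀ (S : ℝ) (M : ℝ → ℝ),
      1 / τ ^ 2 ≤ S → MonotoneOn M (Icc T₀ τ) → 1 ≤ M T₀ → M (T₀ + 1) ≤ C →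
      (∀ τ'' τ', T₀ ≤ τ'' → τ'' ≤ τ' → τ' ≤ τ →
        M τ' - M τ'' ≤ 2 * S * (τ / τ'') ^ 2 * (τ' - τ'')) →
      ∀ (w : ℂ) (B : ℂ → ℂ), 0 < w.im → ‖w‖ ≤ 40 * w.im → ‖w‖ ≤ 2 * Real.exp (-τ) →
      (∀ t : ℂ, 0 ≤ t.im → t.im ≤ w.im → ‖B t - t‖ ≤ C * ‖w‖ ^ 2) →
      (∀ τ' : ℝ, T₀ ≤ τ' → τ' ≤ τ - Real.log K - Real.log τ / 2 → ∀ t : ℂ, 0 ≤ t.im →
        t.im + w.im ≤ M τ' - 2 * Real.exp (-τ') →
        ‖B (t + w) - B t - w‖ ≤ C * τ' * Real.exp (2 * τ') * ‖w‖ ^ 3) →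
      ∀ t : ℂ, 0 ≤ t.im →
        t.im ≤ M (τ - Real.log K - Real.log τ / 2) -
          2 * Real.exp (-(τ - Real.log K - Real.log τ / 2)) →
        ‖B t - t‖ ≤ ε * S := by
  refine ⟨max 1 (7200 * C / ε), le_max_left _ _, ?_⟩
  intro K hK
  have hK1 : 1 ≤ K := (le_max_left _ _).trans hK
  have hK2 : 7200 * C / ε ≤ K := (le_max_right _ _).trans hK
  have hKε : 3600 * C / K ^ 2 ≤ ε / 2 := by
    rw [div_le_iff₀ hε] at hK2
    rw [div_le_iff₀ (by positivity)]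
    have h1 : K ≤ K ^ 2 := by nlinarith
    have h2 : K * ε ≤ K ^ 2 * ε := by gcongr
    linarith
  set C6 : ℝ := C + C * (T₀ + 1) * Real.exp (2 * (T₀ + 1)) * (40 * C + 2) with hC6
  have hC60 : 0 ≤ C6 := by positivity
  have hev1 : ∀ᶠ τ : ℝ in atTop, τ ^ 3 * Real.exp (-τ) * (1400 * C + 4 * C6) ≤ ε / 2 := by
    have h := (Real.tendsto_pow_mul_exp_neg_atTop_nhds_zero 3).mul_const (1400 * C + 4 * C6)
    rw [zero_mul] at h
    exact (h.eventually (gt_mem_nhds (half_pos hε))).mono fun _ h => le_of_lt h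
  have hev2 : ∀ᶠ τ : ℝ in atTop, Real.log τ ≤ τ / 4 := by
    have h := Real.isLittleO_log_id_atTop.bound (show (0 : ℝ) < 1 / 4 by norm_num)
    filter_upwards [h, eventually_ge_atTop (0 : ℝ)] with τ h1 h2
    simp only [id_eq, Real.norm_eq_abs, abs_of_nonneg h2] at h1
    exact (le_abs_self _).trans (by linarith)
  obtain ⟨T, hT⟩ := eventually_atTop.1 (hev1.and (hev2.and ((eventually_ge_atTop
    (4 * Real.log K)).and ((eventually_ge_atTop (2 * (T₀ + 1))).and (eventually_ge_atTop 1)))))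
  refine ⟨T, ?_⟩
  intro τ hτ S M hS hM hM1 hMC hrec w B hw hw40 hwτ hbase hstep
  obtain ⟨e1, e2, e3, e4, e5⟩ := hT τ hτ
  have hτ0 : 0 < τ := by linarith
  have hS0 : 0 ≤ S := (by positivity : (0 : ℝ) ≤ 1 / τ ^ 2).trans hS
  set τb : ℝ := τ - Real.log K - Real.log τ / 2 with hτb
  have hlogK : 0 ≤ Real.log K := Real.log_nonneg hK1
  have hlogτ : 0 ≤ Real.log τ := Real.log_nonneg e5
  have hτb1 : τ / 2 ≤ τb := by rw [hτb]; linarith
  have hτb2 : τb ≤ τ := by rw [hτb]; linarith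
  have hτb3 : T₀ + 1 ≤ τb := by linarith
  set J : ℕ := ⌊τb - T₀⌋₊ with hJ
  have hJ1 : (J : ℝ) ≤ τb - T₀ := Nat.floor_le (by linarith)
  have hJ2 : τb - T₀ < J + 1 := Nat.lt_floor_add_one _
  set τ₀ : ℝ := τb - J with hτ₀
  have hτ₀1 : T₀ ≤ τ₀ := by rw [hτ₀]; linarith
  have hτ₀2 : τ₀ ≤ T₀ + 1 := by rw [hτ₀]; linarith
  have hτ₀J : τ₀ + J = τb := by rw [hτ₀]; ring
  set W : ℝ := ‖w‖ with hW
  have hWpos : 0 < W := by
    have h2 := Complex.abs_im_le_norm w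
    rw [abs_of_pos hw] at h2
    linarith
  have hexpτ : Real.exp (-τ) ≤ Real.exp (-T₀) := Real.exp_le_exp.2 (by linarith)
  have he1 : Real.exp (-T₀) ≤ 0.37 := by
    have h1 : Real.exp (-T₀) ≤ Real.exp (-1) := Real.exp_le_exp.2 (by linarith)
    have h2 := Real.exp_neg_one_lt_d9
    linarith
  have hexpτ2 : Real.exp (-τ) ≤ 0.01 ∨ True := Or.inr trivial
  -- the base level
  have hMτ₀ : M T₀ ≤ M τ₀ := hM ⟨le_refl _, by linarith⟩ ⟨hτ₀1, by linarith⟩ hτ₀1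
  have hMτ₀' : M τ₀ ≤ M (T₀ + 1) := hM ⟨hτ₀1, by linarith⟩ ⟨by linarith, by linarith⟩ hτ₀2
  have hwim : w.im ≤ W := by
    have h2 := Complex.abs_im_le_norm w
    rw [abs_of_pos hw] at h2
    exact h2
  have hτ4 : 4 ≤ τ := by linarith
  have hexp4 : Real.exp (-τ) ≤ 0.03 := by
    have h1 : Real.exp (-τ) ≤ Real.exp (-4) := Real.exp_le_exp.2 (by linarith)
    have h2 : Real.exp (-4) = Real.exp (-1) ^ 4 := by
      rw [← Real.exp_nat_mul]; norm_num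
    have h3 := Real.exp_neg_one_lt_d9
    have h4 := Real.exp_pos (-1)
    have h5 : Real.exp (-1) ^ 4 ≤ 0.3678794412 ^ 4 := by
      gcongr
    rw [h2] at h1
    refine h1.trans (h5.trans (by norm_num))
  have hHw : w.im ≤ M τ₀ - 2 * Real.exp (-τ₀) := by
    have h1 : Real.exp (-τ₀) ≤ Real.exp (-T₀) := Real.exp_le_exp.2 (by linarith)
    linarith
  have hW1 : W ≤ 1 := by linarith
  have hD0 : ∀ t : ℂ, 0 ≤ t.im → t.im ≤ M τ₀ - 2 * Real.exp (-τ₀) → ‖B t - t‖ ≤ C6 * W ^ 2 := by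
    intro t h0 h1
    have ha : 0 ≤ C * τ₀ * Real.exp (2 * τ₀) * W ^ 3 := by
      have : 0 ≤ τ₀ := by linarith
      positivity
    have h2 := level hw ha (le_refl w.im) hHw hbase
      (hstep τ₀ hτ₀1 (by linarith [Nat.cast_nonneg (α := ℝ) J])) t h0 h1
    refine h2.trans ?_
    have h3 : (M τ₀ - 2 * Real.exp (-τ₀) - w.im) / w.im + 1 ≤ (40 / W) * C + 1 := by
      have h4 : M τ₀ - 2 * Real.exp (-τ₀) - w.im ≤ C := by
        have := Real.exp_pos (-τ₀)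
        linarith
      have h6 : 1 / w.im ≤ 40 / W := by
        rw [div_le_div_iff₀ hw hWpos]; linarith
      calc (M τ₀ - 2 * Real.exp (-τ₀) - w.im) / w.im + 1 ≤ C / w.im + 1 := by gcongr
        _ = (1 / w.im) * C + 1 := by ring
        _ ≤ _ := by gcongr
    have h5 : C * τ₀ * Real.exp (2 * τ₀) ≤ C * (T₀ + 1) * Real.exp (2 * (T₀ + 1)) := by
      have h7 : 0 ≤ τ₀ := by linarith
      have h8 : Real.exp (2 * τ₀) ≤ Real.exp (2 * (T₀ + 1)) := Real.exp_le_exp.2 (by linarith)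
      gcongr
    calc C * W ^ 2 + C * τ₀ * Real.exp (2 * τ₀) * W ^ 3 *
          ((M τ₀ - 2 * Real.exp (-τ₀) - w.im) / w.im + 1)
        ≤ C * W ^ 2 + C * τ₀ * Real.exp (2 * τ₀) * W ^ 3 * ((40 / W) * C + 1) := by
          have := mul_le_mul_of_nonneg_left h3 ha
          linarith
      _ = C * W ^ 2 + C * τ₀ * Real.exp (2 * τ₀) * (W ^ 2 * (40 * C + W)) := by
          field_simp
      _ ≤ C * W ^ 2 + C * (T₀ + 1) * Real.exp (2 * (T₀ + 1)) * (W ^ 2 * (40 * C + 2)) := by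
          have h7 : 0 ≤ W ^ 2 * (40 * C + W) := by positivity
          have h8 : W ^ 2 * (40 * C + W) ≤ W ^ 2 * (40 * C + 2) := by
            gcongr
            linarith
          have h9 : 0 ≤ C * (T₀ + 1) * Real.exp (2 * (T₀ + 1)) := by positivity
          have h10 := mul_le_mul h5 h8 h7 h9
          linarith
      _ = C6 * W ^ 2 := by rw [hC6]; ring
  have hlev := levels hw hw40 hC hS0 hT₀ hτ₀1 J (by rw [hτ₀J]; exact hτb2) hwτ hM hrec hHw hD0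
    (fun τ' h1 h2 => hstep τ' h1 (by rw [hτ₀J] at h2; exact h2)) J le_rfl
  intro t h0 h1
  rw [← hτ₀J] at h1
  have hres := hlev t h0 h1
  rw [hτ₀J] at hres
  refine hres.trans ?_
  exact numfin hC hε hK1 hKε e1 e5 hτb1 hτb2 hτb hS hWpos.le hwτ hC60

end Crest.Agent.R102.StartE942
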