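import Mathlib
import Crest.Agent.R102.StartE_942

/-!
Row 102, T1-B, block GROWTH: the start of the climb (`StartE942.start`, helper942) for windows of
order `k`: `S ≥ τ^{-k}`, records `M τ' - M τ'' ≤ 2 S (τ/τ'')^k (τ' - τ'')`, and `4 e^{-T₀} ≤ M T₀`
instead of `1 ≤ M T₀`.
-/

set_option autoImplicit false

open Set Filter Topology

namespace Crest.Agent.R102.StartK350

open Crest.Agent.R102.StartE942

/-- the constant -/
noncomputable def Ak (k : ℕ) : ℝ := 4 ^ k * (k.factorial : ℝ) * Real.exp 1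

lemma Ak_pos (k : ℕ) : 0 < Ak k := by
  have := Real.exp_pos 1
  unfold Ak
  positivity

/-- polynomial against exponential, relative to the top level -/
lemma ratio_le {k : ℕ} {s τ τb : ℝ} (hs1 : 1 ≤ s) (hsb : s ≤ τb) (hτb : τ ≤ 2 * τb) (hτ : 0 ≤ τ) :
    Real.exp (2 * (s + 1)) * (τ / s) ^ k ≤ Ak k * Real.exp (τb / 2 + 3 / 2 * (s + 1)) := by
  have hs0 : 0 < s := by linarith
  set x : ℝ := (1 + (τb - s)) / 2 with hx
  have hx0 : 0 ≤ x := by rw [hx]; linarith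
  have h1 : τ / s ≤ 4 * x := by
    rw [div_le_iff₀ hs0, hx]
    nlinarith
  have h2 : x ^ k ≤ (k.factorial : ℝ) * Real.exp x := by
    have := Real.pow_div_factorial_le_exp x hx0 k
    rw [div_le_iff₀ (by positivity)] at this
    linarith
  have h3 : (τ / s) ^ k ≤ 4 ^ k * ((k.factorial : ℝ) * Real.exp x) := by
    calc (τ / s) ^ k ≤ (4 * x) ^ k := by gcongr
      _ = 4 ^ k * x ^ k := mul_pow _ _ _
      _ ≤ _ := by gcongr
  have h4 : Real.exp (2 * (s + 1)) * Real.exp x =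
      Real.exp 1 * Real.exp (τb / 2 + 3 / 2 * (s + 1)) := by
    rw [← Real.exp_add, ← Real.exp_add, hx]
    congr 1
    ring
  calc Real.exp (2 * (s + 1)) * (τ / s) ^ k
      ≤ Real.exp (2 * (s + 1)) * (4 ^ k * ((k.factorial : ℝ) * Real.exp x)) := by gcongr
    _ = 4 ^ k * (k.factorial : ℝ) * (Real.exp (2 * (s + 1)) * Real.exp x) := by ring
    _ = Ak k * Real.exp (τb / 2 + 3 / 2 * (s + 1)) := by
        rw [h4]; unfold Ak; ring

lemma num1K {y s : ℝ} : Real.exp (y + 3 / 2 * (s + 1)) ≤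
    3 / 2 * (Real.exp (y + 3 / 2 * (s + 1)) - Real.exp (y + 3 / 2 * s)) := by
  have h1 : Real.exp (y + 3 / 2 * (s + 1)) = Real.exp (y + 3 / 2 * s) * Real.exp (3 / 2) := by
    rw [← Real.exp_add]
    congr 1
    ring
  have h2 : 3 ≤ Real.exp (3 / 2) := by
    have h3 : Real.exp (3 / 2) = Real.exp 1 * Real.exp (1 / 2) := by
      rw [← Real.exp_add]; norm_num
    have h4 := Real.exp_one_gt_d9
    have h5 := Real.add_one_le_exp (1 / 2 : ℝ)
    rw [h3]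
    nlinarith
  have h6 := Real.exp_pos (y + 3 / 2 * s)
  rw [h1]
  nlinarith

/-- the numerical step -/
theorem num_stepK {k : ℕ} {s C S τ τb W : ℝ} (hC : 0 ≤ C) (hS : 0 ≤ S) (hs1 : 1 ≤ s)
    (hsb : s + 1 ≤ τb) (hτb : τb ≤ τ) (hτ2 : τ ≤ 2 * τb)
    (hW : 0 < W) (hwτ : W ≤ 2 * Real.exp (-τ)) :
    C * (s + 1) * Real.exp (2 * (s + 1)) * W ^ 3 *
        ((40 / W) * (2 * S * (τ / s) ^ k + 2 * Real.exp (-s)) + 1) ≤
      W ^ 2 * (C * S * τ * Ak k *
          (120 * (Real.exp (τb / 2 + 3 / 2 * (s + 1)) - Real.exp (τb / 2 + 3 / 2 * s))) +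
          C * (350 * ((s + 1) * Real.exp (s + 1) - s * Real.exp s))) := by
  have hA := Ak_pos k
  have hsplit : C * (s + 1) * Real.exp (2 * (s + 1)) * W ^ 3 *
      ((40 / W) * (2 * S * (τ / s) ^ k + 2 * Real.exp (-s)) + 1) =
      W ^ 2 * (80 * C * S * (s + 1) * (Real.exp (2 * (s + 1)) * (τ / s) ^ k) +
        C * (s + 1) * (80 * (Real.exp (2 * (s + 1)) * Real.exp (-s)) +
          Real.exp (2 * (s + 1)) * W)) := by
    generalize Real.exp (2 * (s + 1)) = X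
    generalize Real.exp (-s) = Y
    generalize (τ / s) ^ k = Q
    field_simp
    ring
  rw [hsplit]
  have hr := ratio_le (k := k) hs1 (by linarith) hτ2 (by linarith)
  have hP1 : 80 * C * S * (s + 1) * (Real.exp (2 * (s + 1)) * (τ / s) ^ k) ≤
      C * S * τ * Ak k *
        (120 * (Real.exp (τb / 2 + 3 / 2 * (s + 1)) - Real.exp (τb / 2 + 3 / 2 * s))) := by
    have h1 := num1K (y := τb / 2) (s := s)
    have h0 := Real.exp_pos (τb / 2 + 3 / 2 * (s + 1))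
    have h2 : 0 ≤ 80 * C * S := by positivity
    have hτ0 : 0 ≤ τ := by linarith
    calc 80 * C * S * (s + 1) * (Real.exp (2 * (s + 1)) * (τ / s) ^ k)
        ≤ 80 * C * S * τ * (Ak k * Real.exp (τb / 2 + 3 / 2 * (s + 1))) := by
          gcongr
          linarith
      _ = C * S * τ * Ak k * (80 * Real.exp (τb / 2 + 3 / 2 * (s + 1))) := by ring
      _ ≤ _ := mul_le_mul_of_nonneg_left (by linarith) (by positivity)
  have hP2 : C * (s + 1) * (80 * (Real.exp (2 * (s + 1)) * Real.exp (-s)) +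
          Real.exp (2 * (s + 1)) * W) ≤
      C * (350 * ((s + 1) * Real.exp (s + 1) - s * Real.exp s)) := by
    calc C * (s + 1) * (80 * (Real.exp (2 * (s + 1)) * Real.exp (-s)) +
          Real.exp (2 * (s + 1)) * W) ≤ C * (s + 1) * (220 * Real.exp (s + 1)) :=
          mul_le_mul_of_nonneg_left (num3 (by linarith) hwτ) (by positivity)
      _ = C * ((s + 1) * (220 * Real.exp (s + 1))) := by ring
      _ ≤ _ := mul_le_mul_of_nonneg_left (num2 hs1) hC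
  exact mul_le_mul_of_nonneg_left (add_le_add hP1 hP2) (by positivity)

/-- telescoping over the levels `τ₀, τ₀ + 1, …` -/
theorem levelsK {k : ℕ} {w : ℂ} (hw : 0 < w.im) (hw40 : ‖w‖ ≤ 40 * w.im) {B : ℂ → ℂ} {M : ℝ → ℝ}
    {C S τ T₀ τ₀ τb D0 : ℝ} (hC : 0 ≤ C) (hS : 0 ≤ S) (hT₀ : 1 ≤ T₀) (hτ₀ : T₀ ≤ τ₀) (J : ℕ)
    (hJ : τ₀ + J = τb) (hτbτ : τb ≤ τ) (hτ2 : τ ≤ 2 * τb) (hwτ : ‖w‖ ≤ 2 * Real.exp (-τ))
    (hM : MonotoneOn M (Icc T₀ τ))
    (hrec : ∀ τ'' τ', T₀ ≤ τ'' → τ'' ≤ τ' → τ' ≤ τ →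
      M τ' - M τ'' ≤ 2 * S * (τ / τ'') ^ k * (τ' - τ''))
    (hHw : w.im ≤ M τ₀ - 2 * Real.exp (-τ₀))
    (hD0 : ∀ t : ℂ, 0 ≤ t.im → t.im ≤ M τ₀ - 2 * Real.exp (-τ₀) → ‖B t - t‖ ≤ D0)
    (hstep : ∀ τ' : ℝ, T₀ ≤ τ' → τ' ≤ τb → ∀ t : ℂ, 0 ≤ t.im →
      t.im + w.im ≤ M τ' - 2 * Real.exp (-τ') →
      ‖B (t + w) - B t - w‖ ≤ C * τ' * Real.exp (2 * τ') * ‖w‖ ^ 3) :
    ∀ j : ℕ, j ≤ J → ∀ t : ℂ, 0 ≤ t.im →
      t.im ≤ M (τ₀ + j) - 2 * Real.exp (-(τ₀ + j)) →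
      ‖B t - t‖ ≤ D0 + ‖w‖ ^ 2 * (120 * C * S * τ * Ak k *
        Real.exp (τb / 2 + 3 / 2 * (τ₀ + j)) + 350 * C * ((τ₀ + j) * Real.exp (τ₀ + j))) := by
  have hA := Ak_pos k
  intro j
  induction j with
  | zero =>
    intro _ t h0 h1
    simp only [Nat.cast_zero, add_zero] at h1 ⊢
    have h2 := hD0 t h0 h1
    have hτ₀p : 0 < τ₀ := by linarith
    have hJ0 : (0 : ℝ) ≤ J := Nat.cast_nonneg J
    have hτ0 : 0 ≤ τ := by linarith
    have h3 : 0 ≤ ‖w‖ ^ 2 * (120 * C * S * τ * Ak k * Real.exp (τb / 2 + 3 / 2 * τ₀) +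
        350 * C * (τ₀ * Real.exp τ₀)) := by positivity
    linarith
  | succ j ih =>
    intro hj t h0 h1
    have hjJ : j ≤ J := Nat.le_of_succ_le hj
    have hjJ' : ((j + 1 : ℕ) : ℝ) ≤ J := by exact_mod_cast hj
    have ih' := ih hjJ
    push_cast at h1 hjJ' ⊢
    set s : ℝ := τ₀ + j with hs
    have hj0 : (0 : ℝ) ≤ j := Nat.cast_nonneg j
    have hs1 : 1 ≤ s := by rw [hs]; linarith
    have hsT : T₀ ≤ s := by rw [hs]; linarith
    have hss : τ₀ + ((j : ℝ) + 1) = s + 1 := by rw [hs]; ring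
    rw [hss] at h1 ⊢
    have hsb : s + 1 ≤ τb := by rw [hs]; linarith
    have hsτ : s + 1 ≤ τ := by linarith
    -- heights
    have e1 : Real.exp (-(s + 1)) ≤ Real.exp (-s) := Real.exp_le_exp.2 (by linarith)
    have hmono : M s ≤ M (s + 1) :=
      hM ⟨hsT, by linarith⟩ ⟨by linarith, hsτ⟩ (by linarith)
    have hHH : M s - 2 * Real.exp (-s) ≤ M (s + 1) - 2 * Real.exp (-(s + 1)) := by linarith
    have hτ₀s : τ₀ ≤ s := by rw [hs]; linarith
    have hHw' : w.im ≤ M s - 2 * Real.exp (-s) := by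
      have h2 : M τ₀ ≤ M s := hM ⟨hτ₀, by linarith⟩ ⟨hsT, by linarith⟩ hτ₀s
      have h3 : Real.exp (-s) ≤ Real.exp (-τ₀) := Real.exp_le_exp.2 (by linarith)
      linarith
    set W : ℝ := ‖w‖ with hW
    have hWpos : 0 < W := by
      have h2 := Complex.abs_im_le_norm w
      rw [abs_of_pos hw] at h2
      linarith
    have ha : 0 ≤ C * (s + 1) * Real.exp (2 * (s + 1)) * W ^ 3 := by positivity
    have hlev := level hw ha hHw' hHH ih' (hstep (s + 1) (by linarith) hsb) t h0 h1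
    have hs0 : 0 < s := by linarith
    have hτ0 : 0 ≤ τ := by linarith
    have hnum : (M (s + 1) - 2 * Real.exp (-(s + 1)) - (M s - 2 * Real.exp (-s))) / w.im + 1 ≤
        (40 / W) * (2 * S * (τ / s) ^ k + 2 * Real.exp (-s)) + 1 := by
      have h2 := hrec s (s + 1) hsT (by linarith) hsτ
      have h3 : 2 * S * (τ / s) ^ k * (s + 1 - s) = 2 * S * (τ / s) ^ k := by ring
      rw [h3] at h2
      have h4 : M (s + 1) - 2 * Real.exp (-(s + 1)) - (M s - 2 * Real.exp (-s)) ≤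
          2 * S * (τ / s) ^ k + 2 * Real.exp (-s) := by
        have := Real.exp_pos (-(s + 1))
        linarith
      have h5 : 0 ≤ 2 * S * (τ / s) ^ k + 2 * Real.exp (-s) := by positivity
      have h6 : 1 / w.im ≤ 40 / W := by
        rw [div_le_div_iff₀ hw hWpos]; linarith
      calc (M (s + 1) - 2 * Real.exp (-(s + 1)) - (M s - 2 * Real.exp (-s))) / w.im + 1
          ≤ (2 * S * (τ / s) ^ k + 2 * Real.exp (-s)) / w.im + 1 := by gcongr
        _ = (1 / w.im) * (2 * S * (τ / s) ^ k + 2 * Real.exp (-s)) + 1 := by ring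
        _ ≤ _ := by gcongr
    have hstep1 := mul_le_mul_of_nonneg_left hnum ha
    have htot := hstep1.trans (num_stepK hC hS hs1 hsb hτbτ hτ2 hWpos hwτ)
    have hsum := add_le_add_left htot (D0 + W ^ 2 * (120 * C * S * τ * Ak k *
      Real.exp (τb / 2 + 3 / 2 * s) + 350 * C * (s * Real.exp s)))
    refine hlev.trans ?_
    refine (le_of_eq ?_).trans (hsum.trans (le_of_eq ?_))
    · ring
    · ring

/-- final numerics -/
theorem numfinK {k : ℕ} {C ε K τ τb S W C6 A : ℝ} (hC : 0 ≤ C) (hA : 0 ≤ A)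
    (hK1 : 1 ≤ K) (hKε : 480 * A * C / K ^ 2 ≤ ε / 2)
    (e1 : τ ^ (k + 1) * Real.exp (-τ) * (1400 * C + 4 * C6) ≤ ε / 2) (e5 : 1 ≤ τ)
    (hτb2 : τb ≤ τ) (hτb0 : 0 ≤ τb) (hτb : τb = τ - Real.log K - Real.log τ / 2)
    (hS : (τ ^ k)⁻¹ ≤ S) (hW0 : 0 ≤ W) (hwτ : W ≤ 2 * Real.exp (-τ)) (hC60 : 0 ≤ C6) :
    C6 * W ^ 2 + W ^ 2 * (120 * C * S * τ * A * Real.exp (2 * τb) +
        350 * C * (τb * Real.exp τb)) ≤ ε * S := by
  have hτ0 : 0 < τ := by linarith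
  have hS0 : 0 ≤ S := (by positivity : (0 : ℝ) ≤ (τ ^ k)⁻¹).trans hS
  have hKpos : 0 < K := by linarith
  have hexpb : Real.exp (2 * τb) = Real.exp (2 * τ) / (K ^ 2 * τ) := by
    have h2 : 2 * τb = 2 * τ - (Real.log K + Real.log K + Real.log τ) := by rw [hτb]; ring
    rw [h2, Real.exp_sub, Real.exp_add, Real.exp_add, Real.exp_log hτ0, Real.exp_log hKpos,
      pow_two]
  have hE := Real.exp_pos (-τ)
  have hWsq : W ^ 2 ≤ 4 * Real.exp (-(2 * τ)) := by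
    have h2 : Real.exp (-(2 * τ)) = Real.exp (-τ) * Real.exp (-τ) := by
      rw [← Real.exp_add]; ring_nf
    rw [h2]
    calc W ^ 2 ≤ (2 * Real.exp (-τ)) ^ 2 := by gcongr
      _ = _ := by ring
  have hee : Real.exp (-(2 * τ)) * Real.exp (2 * τ) = 1 := by
    rw [← Real.exp_add]; simp
  have hα : W ^ 2 * (120 * C * S * τ * A * Real.exp (2 * τb)) ≤ ε / 2 * S := by
    calc W ^ 2 * (120 * C * S * τ * A * Real.exp (2 * τb))
        ≤ 4 * Real.exp (-(2 * τ)) * (120 * C * S * τ * A * Real.exp (2 * τb)) := by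
          gcongr
      _ = 480 * C * S * τ * A * ((Real.exp (-(2 * τ)) * Real.exp (2 * τ)) / (K ^ 2 * τ)) := by
          rw [hexpb, mul_div_assoc (Real.exp (-(2 * τ)))]
          ring
      _ = 480 * A * C / K ^ 2 * S := by
          rw [hee]
          field_simp
      _ ≤ ε / 2 * S := by gcongr
  have hβ : W ^ 2 * (350 * C * (τb * Real.exp τb)) ≤ 1400 * C * (τ * Real.exp (-τ)) := by
    have h2 : Real.exp τb ≤ Real.exp τ := Real.exp_le_exp.2 hτb2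
    have h3 : Real.exp (-(2 * τ)) * Real.exp τ = Real.exp (-τ) := by
      rw [← Real.exp_add]; ring_nf
    calc W ^ 2 * (350 * C * (τb * Real.exp τb))
        ≤ 4 * Real.exp (-(2 * τ)) * (350 * C * (τ * Real.exp τ)) := by gcongr
      _ = 1400 * C * (τ * (Real.exp (-(2 * τ)) * Real.exp τ)) := by ring
      _ = _ := by rw [h3]
  have hγ : C6 * W ^ 2 ≤ 4 * C6 * Real.exp (-τ) := by
    have h2 : Real.exp (-(2 * τ)) ≤ Real.exp (-τ) := Real.exp_le_exp.2 (by linarith)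
    have h3 : W ^ 2 ≤ 4 * Real.exp (-τ) := hWsq.trans (by linarith)
    calc C6 * W ^ 2 ≤ C6 * (4 * Real.exp (-τ)) := by gcongr
      _ = _ := by ring
  have hfinal : 1400 * C * (τ * Real.exp (-τ)) + 4 * C6 * Real.exp (-τ) ≤ ε / 2 * S := by
    have h3 : Real.exp (-τ) ≤ τ * Real.exp (-τ) := by
      calc Real.exp (-τ) = 1 * Real.exp (-τ) := (one_mul _).symm
        _ ≤ τ * Real.exp (-τ) := by gcongr
    have hpk : 0 < τ ^ k := by positivity
    calc 1400 * C * (τ * Real.exp (-τ)) + 4 * C6 * Real.exp (-τ)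
        ≤ 1400 * C * (τ * Real.exp (-τ)) + 4 * C6 * (τ * Real.exp (-τ)) := by gcongr
      _ = (τ ^ (k + 1) * Real.exp (-τ) * (1400 * C + 4 * C6)) * (τ ^ k)⁻¹ := by
        rw [pow_succ]
        field_simp
      _ ≤ ε / 2 * S := by
        have hε2 : 0 ≤ ε / 2 := by
          refine le_trans ?_ e1
          positivity
        exact mul_le_mul e1 hS (by positivity) hε2
  have hdist : C6 * W ^ 2 + W ^ 2 * (120 * C * S * τ * A * Real.exp (2 * τb) +
        350 * C * (τb * Real.exp τb)) = C6 * W ^ 2 +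
        W ^ 2 * (120 * C * S * τ * A * Real.exp (2 * τb)) +
        W ^ 2 * (350 * C * (τb * Real.exp τb)) := by ring
  rw [hdist]
  linarith

/-- **(ST_k)** the start: below the height `M τ_b - 2 e^{-τ_b}`, `τ_b = τ - log K - (log τ)/2`, the
labels are within `ε S` of `t`. -/
theorem startK (k : ℕ) {C ε T₀ : ℝ} (hC : 0 ≤ C) (hε : 0 < ε) (hT₀ : 1 ≤ T₀) :
    ∃ K0 : ℝ, 1 ≤ K0 ∧ ∀ K : ℝ, K0 ≤ K → ∃ T : ℝ, ∀ τ : ℝ, T ≤ τ → ∀ (S : ℝ) (M : ℝ → ℝ),
      (τ ^ k)⁻¹ ≤ S → MonotoneOn M (Icc T₀ τ) → 4 * Real.exp (-T₀) ≤ M T₀ → M (T₀ + 1) ≤ C →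
      (∀ τ'' τ', T₀ ≤ τ'' → τ'' ≤ τ' → τ' ≤ τ →
        M τ' - M τ'' ≤ 2 * S * (τ / τ'') ^ k * (τ' - τ'')) →
      ∀ (w : ℂ) (B : ℂ → ℂ), 0 < w.im → ‖w‖ ≤ 40 * w.im → ‖w‖ ≤ 2 * Real.exp (-τ) →
      (∀ t : ℂ, 0 ≤ t.im → t.im ≤ w.im → ‖B t - t‖ ≤ C * ‖w‖ ^ 2) →
      (∀ τ' : ℝ, T₀ ≤ τ' → τ' ≤ τ - Real.log K - Real.log τ / 2 → ∀ t : ℂ, 0 ≤ t.im →
        t.im + w.im ≤ M τ' - 2 * Real.exp (-τ') →
        ‖B (t + w) - B t - w‖ ≤ C * τ' * Real.exp (2 * τ') * ‖w‖ ^ 3) →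
      ∀ t : ℂ, 0 ≤ t.im →
        t.im ≤ M (τ - Real.log K - Real.log τ / 2) -
          2 * Real.exp (-(τ - Real.log K - Real.log τ / 2)) →
        ‖B t - t‖ ≤ ε * S := by
  have hA := Ak_pos k
  refine ⟨max 1 (960 * Ak k * C / ε), le_max_left _ _, ?_⟩
  intro K hK
  have hK1 : 1 ≤ K := (le_max_left _ _).trans hK
  have hK2 : 960 * Ak k * C / ε ≤ K := (le_max_right _ _).trans hK
  have hKε : 480 * Ak k * C / K ^ 2 ≤ ε / 2 := by
    rw [div_le_iff₀ hε] at hK2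
    rw [div_le_iff₀ (by positivity)]
    have h1 : K ≤ K ^ 2 := by nlinarith
    have h2 : K * ε ≤ K ^ 2 * ε := by gcongr
    linarith
  set C6 : ℝ := C + C * (T₀ + 1) * Real.exp (2 * (T₀ + 1)) * (40 * C + 2) with hC6
  have hC60 : 0 ≤ C6 := by positivity
  have hev1 : ∀ᶠ τ : ℝ in atTop, τ ^ (k + 1) * Real.exp (-τ) * (1400 * C + 4 * C6) ≤ ε / 2 := by
    have h := (Real.tendsto_pow_mul_exp_neg_atTop_nhds_zero (k + 1)).mul_const (1400 * C + 4 * C6)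
    rw [zero_mul] at h
    exact (h.eventually (gt_mem_nhds (half_pos hε))).mono fun _ h => le_of_lt h
  have hev2 : ∀ᶠ τ : ℝ in atTop, Real.log τ ≤ τ / 4 := by
    have h := Real.isLittleO_log_id_atTop.bound (show (0 : ℝ) < 1 / 4 by norm_num)
    filter_upwards [h, eventually_ge_atTop (0 : ℝ)] with τ h1 h2
    simp only [id_eq, Real.norm_eq_abs, abs_of_nonneg h2] at h1
    exact (le_abs_self _).trans (by linarith)
  obtain ⟨T, hT⟩ := eventually_atTop.1 (hev1.and (hev2.and ((eventually_ge_atTop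
    (4 * Real.log K)).and ((eventually_ge_atTop (2 * (T₀ + 1))).and (eventually_ge_atTop 1)))))
  refine ⟨T, ?_⟩
  intro τ hτ S M hS hM hM1 hMC hrec w B hw hw40 hwτ hbase hstep
  obtain ⟨e1, e2, e3, e4, e5⟩ := hT τ hτ
  have hτ0 : 0 < τ := by linarith
  have hS0 : 0 ≤ S := (by positivity : (0 : ℝ) ≤ (τ ^ k)⁻¹).trans hS
  set τb : ℝ := τ - Real.log K - Real.log τ / 2 with hτb
  have hlogK : 0 ≤ Real.log K := Real.log_nonneg hK1
  have hlogτ : 0 ≤ Real.log τ := Real.log_nonneg e5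
  have hτb1 : τ / 2 ≤ τb := by rw [hτb]; linarith
  have hτb2 : τb ≤ τ := by rw [hτb]; linarith
  have hτb3 : T₀ + 1 ≤ τb := by linarith
  set J : ℕ := ⌊τb - T₀⌋₊ with hJ
  have hJ1 : (J : ℝ) ≤ τb - T₀ := Nat.floor_le (by linarith)
  have hJ2 : τb - T₀ < J + 1 := Nat.lt_floor_add_one _
  set τ₀ : ℝ := τb - J with hτ₀
  have hτ₀1 : T₀ ≤ τ₀ := by rw [hτ₀]; linarith
  have hτ₀2 : τ₀ ≤ T₀ + 1 := by rw [hτ₀]; linarith
  have hτ₀J : τ₀ + J = τb := by rw [hτ₀]; ring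
  set W : ℝ := ‖w‖ with hW
  have hWpos : 0 < W := by
    have h2 := Complex.abs_im_le_norm w
    rw [abs_of_pos hw] at h2
    linarith
  have hexpτ : Real.exp (-τ) ≤ Real.exp (-T₀) := Real.exp_le_exp.2 (by linarith)
  have he1 : Real.exp (-T₀) ≤ 0.37 := by
    have h1 : Real.exp (-T₀) ≤ Real.exp (-1) := Real.exp_le_exp.2 (by linarith)
    have h2 := Real.exp_neg_one_lt_d9
    linarith
  -- the base level
  have hMτ₀ : M T₀ ≤ M τ₀ := hM ⟨le_refl _, by linarith⟩ ⟨hτ₀1, by linarith⟩ hτ₀1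
  have hMτ₀' : M τ₀ ≤ M (T₀ + 1) := hM ⟨hτ₀1, by linarith⟩ ⟨by linarith, by linarith⟩ hτ₀2
  have hwim : w.im ≤ W := by
    have h2 := Complex.abs_im_le_norm w
    rw [abs_of_pos hw] at h2
    exact h2
  have hHw : w.im ≤ M τ₀ - 2 * Real.exp (-τ₀) := by
    have h1 : Real.exp (-τ₀) ≤ Real.exp (-T₀) := Real.exp_le_exp.2 (by linarith)
    linarith
  have hW1 : W ≤ 1 := by linarith
  have hD0 : ∀ t : ℂ, 0 ≤ t.im → t.im ≤ M τ₀ - 2 * Real.exp (-τ₀) → ‖B t - t‖ ≤ C6 * W ^ 2 := by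
    intro t h0 h1
    have ha : 0 ≤ C * τ₀ * Real.exp (2 * τ₀) * W ^ 3 := by
      have : 0 ≤ τ₀ := by linarith
      positivity
    have h2 := level hw ha (le_refl w.im) hHw hbase
      (hstep τ₀ hτ₀1 (by linarith [Nat.cast_nonneg (α := ℝ) J])) t h0 h1
    refine h2.trans ?_
    have h3 : (M τ₀ - 2 * Real.exp (-τ₀) - w.im) / w.im + 1 ≤ (40 / W) * C + 1 := by
      have h4 : M τ₀ - 2 * Real.exp (-τ₀) - w.im ≤ C := by
        have := Real.exp_pos (-τ₀)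
        linarith
      have h6 : 1 / w.im ≤ 40 / W := by
        rw [div_le_div_iff₀ hw hWpos]; linarith
      calc (M τ₀ - 2 * Real.exp (-τ₀) - w.im) / w.im + 1 ≤ C / w.im + 1 := by gcongr
        _ = (1 / w.im) * C + 1 := by ring
        _ ≤ _ := by gcongr
    have h5 : C * τ₀ * Real.exp (2 * τ₀) ≤ C * (T₀ + 1) * Real.exp (2 * (T₀ + 1)) := by
      have h7 : 0 ≤ τ₀ := by linarith
      have h8 : Real.exp (2 * τ₀) ≤ Real.exp (2 * (T₀ + 1)) := Real.exp_le_exp.2 (by linarith)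
      gcongr
    calc C * W ^ 2 + C * τ₀ * Real.exp (2 * τ₀) * W ^ 3 *
          ((M τ₀ - 2 * Real.exp (-τ₀) - w.im) / w.im + 1)
        ≤ C * W ^ 2 + C * τ₀ * Real.exp (2 * τ₀) * W ^ 3 * ((40 / W) * C + 1) := by
          have := mul_le_mul_of_nonneg_left h3 ha
          linarith
      _ = C * W ^ 2 + C * τ₀ * Real.exp (2 * τ₀) * (W ^ 2 * (40 * C + W)) := by
          field_simp
      _ ≤ C * W ^ 2 + C * (T₀ + 1) * Real.exp (2 * (T₀ + 1)) * (W ^ 2 * (40 * C + 2)) := by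
          have h7 : 0 ≤ W ^ 2 * (40 * C + W) := by positivity
          have h8 : W ^ 2 * (40 * C + W) ≤ W ^ 2 * (40 * C + 2) := by
            gcongr
            linarith
          have h9 : 0 ≤ C * (T₀ + 1) * Real.exp (2 * (T₀ + 1)) := by positivity
          have h10 := mul_le_mul h5 h8 h7 h9
          linarith
      _ = C6 * W ^ 2 := by rw [hC6]; ring
  have hlev := levelsK (k := k) hw hw40 hC hS0 hT₀ hτ₀1 J hτ₀J hτb2 (by linarith) hwτ hM hrec hHw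
    hD0 hstep J le_rfl
  intro t h0 h1
  rw [← hτ₀J] at h1
  have hres := hlev t h0 h1
  rw [hτ₀J] at hres
  refine hres.trans ?_
  have e6 : τb / 2 + 3 / 2 * τb = 2 * τb := by ring
  rw [e6]
  have e7 : 120 * C * S * τ * Ak k * Real.exp (2 * τb) =
    120 * C * S * τ * Ak k * Real.exp (2 * τb) := rfl
  exact numfinK (k := k) hC hA.le hK1 hKε e1 e5 hτb2 (by linarith) hτb hS hWpos.le hwτ hC60

end Crest.Agent.R102.StartK350
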