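import Crest.Agent.R102.CCaS_350
import Crest.Agent.R102.APJS_628
import Crest.Agent.R102.BaseST_942
import Crest.Agent.R102.StartK_350

/-!
Row 102, T1-B, block GROWTH: **(ST_k), joint**: `near`, `step`, `good` of `CCS350.BaseV` from the boxes
of (AP), version of `BaseST_942` (helper942) on the strip `Str h₀`, for windows of order `k`.
-/

set_option autoImplicit false

open Set Filter Topology Metric
open scoped ComplexConjugate

noncomputable section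

namespace Crest.Agent.R102.BaseK350

open Crest.Agent.R102.APJ628 Crest.Agent.R102.StepT628 Crest.Agent.R102.Pick628
  Crest.Agent.R102.StepE599 Crest.Agent.R102.ColE350 Crest.Agent.R102.CC350
  Crest.Agent.R102.Growth Crest.Agent.R102.CCS350
open Crest.Agent.R102.BaseST942 (log_exp_neg Lm Lm_ge log_le_Lm exp_taub b1)
open Crest.Agent.R102.T5 (Str)

/-- the step bound at radius `e^{-τ'}` -/
lemma step_atK {θ H : ℂ → ℂ} {V : Set ℂ} {φ p B : ℂ × ℂ → ℂ} {a h τ' τ Kc : ℝ}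
    (X : Box θ H a h (Real.exp (-τ')) φ p B) (hLab : Lab θ H V)
    (hV : BoxV V a h (Real.exp (-τ')) B)
    (hτ' : 1 ≤ τ') (hKc : 17 ≤ Kc) (hKc2 : 512 * Lm ≤ Kc ^ 2) (hτ : 1 ≤ τ)
    (hle : τ' ≤ τ - Real.log Kc - Real.log τ / 2) {t w : ℂ}
    (ht : t ∈ Sab (a + Real.exp (-τ')) (h - Real.exp (-τ')))
    (hw : ‖w‖ ≤ 2 * Real.exp (-τ)) :
    ‖stp B (t, w) - w‖ ≤ 256 * Lm * τ' * Real.exp (2 * τ') * ‖w‖ ^ 3 ∧
      ‖stp B (t, w) - w‖ ≤ 1024 * Lm / Kc ^ 2 * ‖w‖ := by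
  have hL := Lm_ge
  have hτ0 : 0 < τ := by linarith
  have hK0 : 0 < Kc := by linarith
  have hsq : 1 ≤ Real.sqrt τ := by
    rw [show (1 : ℝ) = Real.sqrt 1 by simp]
    exact Real.sqrt_le_sqrt hτ
  have hE := Real.exp_pos (-τ)
  set r : ℝ := Real.exp (-τ') with hr
  have hr0 : 0 < r := Real.exp_pos _
  have hrb : Kc * Real.sqrt τ * Real.exp (-τ) ≤ r := by
    rw [← exp_taub hK0 hτ0]
    exact Real.exp_le_exp.2 (by linarith)
  have hr17 : 17 * Real.exp (-τ) ≤ r := by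
    refine le_trans ?_ hrb
    have : 17 * 1 ≤ Kc * Real.sqrt τ := by gcongr
    nlinarith
  have hwb : w ∈ ball (0 : ℂ) (r / 8) := by
    rw [mem_ball_zero_iff]; linarith
  have hratio : (‖w‖ / r) ^ 2 ≤ 4 / (Kc ^ 2 * τ) := by
    have h1 : ‖w‖ / r ≤ 2 / (Kc * Real.sqrt τ) := by
      rw [div_le_div_iff₀ hr0 (by positivity)]
      have h2 : ‖w‖ * (Kc * Real.sqrt τ) ≤ 2 * Real.exp (-τ) * (Kc * Real.sqrt τ) := by gcongr
      linarith
    calc (‖w‖ / r) ^ 2 ≤ (2 / (Kc * Real.sqrt τ)) ^ 2 := by gcongr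
      _ = 4 / (Kc ^ 2 * τ) := by
          rw [div_pow, mul_pow, Real.sq_sqrt hτ0.le]; norm_num
  have hlog : Real.log (8 * K0 / r) ≤ Lm * τ' := by
    rw [hr, log_exp_neg]; exact log_le_Lm hτ'
  have hlog0 : 0 ≤ Real.log (8 * K0 / r) := by
    have hK := K0_ge
    rw [hr, log_exp_neg]
    have : 0 ≤ Real.log (8 * K0) := Real.log_nonneg (by linarith)
    linarith
  have hττ : τ' ≤ τ := by
    have h1 : 0 ≤ Real.log Kc := Real.log_nonneg (by linarith)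
    have h2 : 0 ≤ Real.log τ := Real.log_nonneg hτ
    linarith
  have hprod : Real.log (8 * K0 / r) * (‖w‖ / r) ^ 2 ≤ 4 * Lm / Kc ^ 2 := by
    calc Real.log (8 * K0 / r) * (‖w‖ / r) ^ 2 ≤ Lm * τ * (4 / (Kc ^ 2 * τ)) := by
          refine mul_le_mul (hlog.trans ?_) hratio (by positivity) (by positivity)
          gcongr
      _ = 4 * Lm / Kc ^ 2 := by field_simp
  have hcond : 128 * Real.log (8 * K0 / r) * (‖w‖ / r) ^ 2 ≤ 1 := by
    have h1 : 4 * Lm / Kc ^ 2 ≤ 1 / 128 := by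
      rw [div_le_div_iff₀ (by positivity) (by norm_num)]; linarith
    calc 128 * Real.log (8 * K0 / r) * (‖w‖ / r) ^ 2 =
        128 * (Real.log (8 * K0 / r) * (‖w‖ / r) ^ 2) := by ring
      _ ≤ 128 * (4 * Lm / Kc ^ 2) := by gcongr
      _ ≤ 128 * (1 / 128) := by gcongr
      _ = 1 := by norm_num
  have hst := (X.stepV hLab hV ht).1 w hwb hcond
  constructor
  · refine hst.trans ?_
    have hr2 : (‖w‖ / r) ^ 2 = Real.exp (2 * τ') * ‖w‖ ^ 2 := by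
      have h2 : Real.exp (2 * τ') * r ^ 2 = 1 := by
        rw [hr, pow_two, ← Real.exp_add, ← Real.exp_add]
        ring_nf
        simp
      rw [div_pow, div_eq_iff (by positivity)]
      calc ‖w‖ ^ 2 = (Real.exp (2 * τ') * r ^ 2) * ‖w‖ ^ 2 := by rw [h2, one_mul]
        _ = _ := by ring
    calc 256 * Real.log (8 * K0 / r) * (‖w‖ / r) ^ 2 * ‖w‖
        = 256 * Real.log (8 * K0 / r) * (Real.exp (2 * τ') * ‖w‖ ^ 3) := by rw [hr2]; ring
      _ ≤ 256 * (Lm * τ') * (Real.exp (2 * τ') * ‖w‖ ^ 3) := by gcongr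
      _ = _ := by ring
  · refine hst.trans ?_
    calc 256 * Real.log (8 * K0 / r) * (‖w‖ / r) ^ 2 * ‖w‖
        = 256 * (Real.log (8 * K0 / r) * (‖w‖ / r) ^ 2) * ‖w‖ := by ring
      _ ≤ 256 * (4 * Lm / Kc ^ 2) * ‖w‖ := by gcongr
      _ = _ := by ring

/-- smallness of `y`, `K` at radius `e^{-τb}` -/
lemma good_atK {θ H K : ℂ → ℂ} {φ p B : ℂ × ℂ → ℂ} {h₀ a h τ Kc : ℝ} {c₀ : ℂ}
    (X : Box θ H a h (Real.exp (-(τ - Real.log Kc - Real.log τ / 2))) φ p B)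
    (hV : BoxV (Str h₀) a h (Real.exp (-(τ - Real.log Kc - Real.log τ / 2))) B)
    (hh0 : h ≤ h₀) (ha0 : -h₀ ≤ a)
    (hLab : Lab θ H (Str h₀)) (hE : EntOn θ H K (Str h₀))
    (yper : ∀ z ∈ Str h₀, deriv θ (z + 1) = deriv θ z)
    (yconj : ∀ z ∈ Str h₀, deriv θ (conj z) = conj (deriv θ z))
    (Kconj : ∀ z ∈ Str h₀, K (conj z) = conj (K z))
    (hAP3 : ∀ x : ℝ, iteratedDeriv 3 (fun w => stp B (x, w)) 0 =
      2 / 5 * ((K x - 2 * deriv θ x ^ 2) + deriv θ x ^ 2 / 8) + c₀)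
    (hτ : 1 ≤ τ) (hτb : 1 ≤ τ - Real.log Kc - Real.log τ / 2)
    (hKc : 36000 * ((1920 + 2 * ‖c₀‖) * Lm) ≤ Kc) {z : ℂ}
    (hz : |z.im| ≤ h - 2 * Real.exp (-(τ - Real.log Kc - Real.log τ / 2))) :
    ‖deriv θ z‖ * (10 * Real.exp (-τ)) ≤ 1 / 200 ∧
      ‖K z‖ * (10 * Real.exp (-τ)) ^ 2 ≤ 1 / 200 := by
  have hL := Lm_ge
  have hτ0 : 0 < τ := by linarith
  set E : ℝ := 1920 + 2 * ‖c₀‖ with hEd
  have hE1 : 1920 ≤ E := by
    have := norm_nonneg c₀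
    rw [hEd]; linarith
  set Q : ℝ := E * Lm with hQ
  have hQ1 : 1 ≤ Q := by rw [hQ]; nlinarith
  have hKc1 : 36000 ≤ Kc := by nlinarith
  have hKc0 : 0 < Kc := by linarith
  have hKlog : 0 ≤ Real.log Kc := Real.log_nonneg (by linarith)
  have hτlog : 0 ≤ Real.log τ := Real.log_nonneg hτ
  set τb : ℝ := τ - Real.log Kc - Real.log τ / 2 with hτbd
  have hrb : Real.exp (-τb) = Kc * Real.sqrt τ * Real.exp (-τ) := exp_taub hKc0 hτ0
  set s : ℝ := Real.exp (-τ) with hs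
  have hs0 : 0 < s := Real.exp_pos _
  set rb : ℝ := Real.exp (-τb) with hrbd
  have hrb0 : 0 < rb := Real.exp_pos _
  have hsqrt : 0 < Real.sqrt τ := Real.sqrt_pos.2 hτ0
  have hGd : DifferentiableOn ℂ (fun z => K z - 2 * deriv θ z ^ 2) (Str h₀) :=
    hE.dK.sub (((hE.dθ.deriv hE.Vo).pow 2).const_mul 2)
  have hcur := X.curveV hLab hV hh0 ha0 hGd (fun z hz => hE.relK z hz) yper yconj
    (fun z hz => by
      simp only [Kconj z hz, yconj z hz, map_sub, map_mul, map_pow, map_ofNat]) hAP3 z hz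
  have hlog : Real.log (8 * K0 / rb) ≤ Lm * τ := by
    rw [hrbd, log_exp_neg]
    refine (log_le_Lm hτb).trans ?_
    have : τb ≤ τ := by rw [hτbd]; linarith
    gcongr
  have hlog0 : 0 ≤ Real.log (8 * K0 / rb) := by
    have hK := K0_ge
    rw [hrbd, log_exp_neg]
    have : 0 ≤ Real.log (8 * K0) := Real.log_nonneg (by linarith)
    linarith
  have hEL : E * Real.log (8 * K0 / rb) ≤ Q * τ := by
    calc E * Real.log (8 * K0 / rb) ≤ E * (Lm * τ) := by gcongr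
      _ = Q * τ := by rw [hQ]; ring
  have hEL0 : 0 ≤ E * Real.log (8 * K0 / rb) := by positivity
  have hsq : Real.sqrt (E * Real.log (8 * K0 / rb)) ≤ Q * Real.sqrt τ := by
    calc Real.sqrt (E * Real.log (8 * K0 / rb)) ≤ Real.sqrt (Q * τ) := Real.sqrt_le_sqrt hEL
      _ = Real.sqrt Q * Real.sqrt τ := Real.sqrt_mul (by linarith) _
      _ ≤ Q * Real.sqrt τ := by
          gcongr
          rw [Real.sqrt_le_left (by linarith)]
          nlinarith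
  have hy : ‖deriv θ z‖ ≤ 18 * (Q / (Kc * s)) := by
    refine hcur.1.trans ?_
    have : Real.sqrt (E * Real.log (8 * K0 / rb)) / rb ≤ Q / (Kc * s) := by
      rw [div_le_div_iff₀ hrb0 (by positivity)]
      calc Real.sqrt (E * Real.log (8 * K0 / rb)) * (Kc * s) ≤ Q * Real.sqrt τ * (Kc * s) := by
            gcongr
        _ = Q * rb := by rw [hrb]; ring
    gcongr
  have hG : ‖K z - 2 * deriv θ z ^ 2‖ ≤ 43 * (Q / (Kc ^ 2 * s ^ 2)) := by
    refine hcur.2.trans ?_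
    have : E * Real.log (8 * K0 / rb) / rb ^ 2 ≤ Q / (Kc ^ 2 * s ^ 2) := by
      rw [div_le_div_iff₀ (by positivity) (by positivity)]
      calc E * Real.log (8 * K0 / rb) * (Kc ^ 2 * s ^ 2) ≤ Q * τ * (Kc ^ 2 * s ^ 2) := by gcongr
        _ = Q * rb ^ 2 := by
            rw [hrb, mul_pow, mul_pow, Real.sq_sqrt hτ0.le]; ring
    gcongr
  have hQK : Q / Kc ≤ 1 / 36000 := by
    rw [div_le_div_iff₀ hKc0 (by norm_num)]; linarith
  constructor
  · calc ‖deriv θ z‖ * (10 * s) ≤ 18 * (Q / (Kc * s)) * (10 * s) := by gcongr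
      _ = 180 * (Q / Kc) := by field_simp; ring
      _ ≤ 180 * (1 / 36000) := by gcongr
      _ = 1 / 200 := by norm_num
  · have hK1 : ‖K z‖ ≤ 43 * (Q / (Kc ^ 2 * s ^ 2)) + 2 * (18 * (Q / (Kc * s))) ^ 2 := by
      have e : K z = (K z - 2 * deriv θ z ^ 2) + 2 * deriv θ z ^ 2 := by ring
      rw [e]
      refine (norm_add_le _ _).trans ?_
      rw [norm_mul, norm_pow, Complex.norm_ofNat]
      gcongr
    calc ‖K z‖ * (10 * s) ^ 2 ≤
        (43 * (Q / (Kc ^ 2 * s ^ 2)) + 2 * (18 * (Q / (Kc * s))) ^ 2) * (10 * s) ^ 2 := by gcongr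
      _ = 4300 * ((Q / Kc) * (1 / Kc)) + 64800 * (Q / Kc) ^ 2 := by field_simp; ring
      _ ≤ 4300 * ((1 / 36000) * (1 / 36000)) + 64800 * (1 / 36000) ^ 2 := by
          gcongr
      _ ≤ 1 / 200 := by norm_num

set_option maxHeartbeats 2000000 in
/-- **(ST_k), joint**, with `4 e^{-T₀} ≤ M T₀` -/
theorem base_stK0 (k : ℕ) {θ H K : ℂ → ℂ} {φ p B : ℂ × ℂ → ℂ} {M : ℝ → ℝ} {h₀ a T₀ r2 CB : ℝ}
    {c₀ : ℂ} (hLab : Lab θ H (Str h₀)) (hE : EntOn θ H K (Str h₀))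
    (yper : ∀ z ∈ Str h₀, deriv θ (z + 1) = deriv θ z)
    (yconj : ∀ z ∈ Str h₀, deriv θ (conj z) = conj (deriv θ z))
    (Kconj : ∀ z ∈ Str h₀, K (conj z) = conj (K z))
    (hAP3 : ∀ x : ℝ, iteratedDeriv 3 (fun w => stp B (x, w)) 0 =
      2 / 5 * ((K x - 2 * deriv θ x ^ 2) + deriv θ x ^ 2 / 8) + c₀)
    (hT₀ : 1 ≤ T₀) (hM : MonotoneOn M (Ici T₀)) (hM1 : 4 * Real.exp (-T₀) ≤ M T₀)
    (hMh : ∀ τ, T₀ ≤ τ → M τ ≤ h₀) (ha0 : -h₀ ≤ a)
    (hBox : ∀ τ, T₀ ≤ τ → Box θ H a (M τ) (Real.exp (-τ)) φ p B)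
    (hBoxV : ∀ τ, T₀ ≤ τ → BoxV (Str h₀) a (M τ) (Real.exp (-τ)) B)
    (hr2 : 0 < r2) (hCB : 0 ≤ CB)
    (hbase : ∀ t w : ℂ, |t.im| ≤ r2 → ‖w‖ < r2 → ‖B (t, w) - t‖ ≤ CB * ‖w‖ ^ 2) :
    ∃ Kc₀ : ℝ, 1 ≤ Kc₀ ∧ ∀ Kc : ℝ, Kc₀ ≤ Kc → ∃ T : ℝ, ∀ τ : ℝ, T ≤ τ → ∀ S : ℝ,
      (τ ^ k)⁻¹ ≤ S →
      (∀ t'' t', T₀ ≤ t'' → t'' ≤ t' → t' ≤ τ →
        M t' - M t'' ≤ 2 * S * (τ / t'') ^ k * (t' - t'')) →
      (∀ t w : ℂ, (t, w) ∈ DL (Real.exp (-τ)) (b1 M Kc τ S) → ‖B (t, w) - t‖ ≤ S) ∧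
      (∀ t w : ℂ, (t, w) ∈ DL (Real.exp (-τ)) (b1 M Kc τ S) →
        (t - w, w) ∈ DL (Real.exp (-τ)) (b1 M Kc τ S) →
        ‖B (t, w) - B (t - w, w) - w‖ ≤ ‖w‖ / 1000) ∧
      (∀ t w : ℂ, (t, w) ∈ DL (Real.exp (-τ)) (b1 M Kc τ S) →
        GoodOn θ K (Str h₀) (B (t, w)) (10 * Real.exp (-τ))) := by
  have hL := Lm_ge
  set C : ℝ := max CB (max (256 * Lm) (M (T₀ + 1))) with hC
  have hC1 : CB ≤ C := le_max_left _ _
  have hC2 : 256 * Lm ≤ C := (le_max_left _ _).trans (le_max_right _ _)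
  have hC3 : M (T₀ + 1) ≤ C := (le_max_right _ _).trans (le_max_right _ _)
  have hC0 : 0 ≤ C := hCB.trans hC1
  obtain ⟨K1, hK11, hK1⟩ := StartK350.startK k (ε := 1 / 2) hC0 (by norm_num) hT₀
  set Q : ℝ := (1920 + 2 * ‖c₀‖) * Lm with hQ
  have hQ1 : 1920 * Lm ≤ Q := by
    have := norm_nonneg c₀
    rw [hQ]
    have : (1920 : ℝ) ≤ 1920 + 2 * ‖c₀‖ := by linarith
    gcongr
  refine ⟨max K1 (36000 * Q), hK11.trans (le_max_left _ _), ?_⟩
  intro Kc hKc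
  have hKcK1 : K1 ≤ Kc := (le_max_left _ _).trans hKc
  have hKcQ : 36000 * Q ≤ Kc := (le_max_right _ _).trans hKc
  have hKcL : 69120000 * Lm ≤ Kc := by linarith
  have hKc17 : 17 ≤ Kc := by linarith
  have hKc0 : 0 < Kc := by linarith
  have hKcsq : Kc ≤ Kc ^ 2 := by nlinarith
  have hK512 : 512 * Lm ≤ Kc ^ 2 := by linarith
  have hK1000 : 1024 * Lm / Kc ^ 2 ≤ 1 / 1000 := by
    rw [div_le_div_iff₀ (by positivity) (by norm_num)]
    linarith
  have hKlog : 0 ≤ Real.log Kc := Real.log_nonneg (by linarith)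
  obtain ⟨T1, hT1⟩ := hK1 Kc hKcK1
  -- smallness
  have hev1 : ∀ᶠ τ : ℝ in atTop, τ ^ k * Real.exp (-τ) * (20 + 4 * CB) ≤ 1 / 2 := by
    have h := (Real.tendsto_pow_mul_exp_neg_atTop_nhds_zero k).mul_const (20 + 4 * CB)
    rw [zero_mul] at h
    exact (h.eventually (gt_mem_nhds (by norm_num : (0 : ℝ) < 1 / 2))).mono fun _ h => le_of_lt h
  have hev2 : ∀ᶠ τ : ℝ in atTop, Real.log τ ≤ τ / 4 := by
    have h := Real.isLittleO_log_id_atTop.bound (show (0 : ℝ) < 1 / 4 by norm_num)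
    filter_upwards [h, eventually_ge_atTop (0 : ℝ)] with τ h1 h2
    simp only [id_eq, Real.norm_eq_abs, abs_of_nonneg h2] at h1
    exact (le_abs_self _).trans (by linarith)
  have hexp0 : Tendsto (fun τ : ℝ => Real.exp (-τ)) atTop (𝓝 0) :=
    Real.tendsto_exp_neg_atTop_nhds_zero
  have hxp0 : 0 < Real.exp (-T₀) := Real.exp_pos _
  set q : ℝ := min (min (r2 / 4) (Real.exp (-T₀) / 100)) ((-Real.exp (-T₀) - a) / 8) with hq
  have haT := (hBox T₀ le_rfl).a_lt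
  have hq0 : 0 < q := by
    rw [hq]
    refine lt_min (lt_min (by linarith) (by linarith)) ?_
    linarith
  have hev3 : ∀ᶠ τ : ℝ in atTop, Real.exp (-τ) < q := hexp0.eventually (gt_mem_nhds hq0)
  obtain ⟨T, hT⟩ := eventually_atTop.1 (hev1.and (hev2.and (hev3.and ((eventually_ge_atTop T1).and
    ((eventually_ge_atTop (4 * Real.log Kc)).and ((eventually_ge_atTop (2 * (T₀ + 1))).and
      ((eventually_ge_atTop (1 : ℝ)))))))))
  refine ⟨T, ?_⟩
  intro τ hτ S hS hrec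
  obtain ⟨e1, e2, e3, e4, e5, e6, e7⟩ := hT τ hτ
  have hτ0 : 0 < τ := by linarith
  have hSpos : 0 < S := lt_of_lt_of_le (by positivity) hS
  set s : ℝ := Real.exp (-τ) with hs
  have hs0 : 0 < s := Real.exp_pos _
  have hlogτ : 0 ≤ Real.log τ := Real.log_nonneg e7
  have hbdef : b1 M Kc τ S = M (τ - Real.log Kc - Real.log τ / 2) -
    2 * Real.exp (-(τ - Real.log Kc - Real.log τ / 2)) - S := rfl
  set τb : ℝ := τ - Real.log Kc - Real.log τ / 2 with hτb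
  have hτbτ : τb ≤ τ := by rw [hτb]; linarith
  have hτbT : T₀ + 1 ≤ τb := by rw [hτb]; linarith
  have hrb : Real.exp (-τb) = Kc * Real.sqrt τ * s := exp_taub hKc0 hτ0
  set rb : ℝ := Real.exp (-τb) with hrbd
  have hrb0 : 0 < rb := Real.exp_pos _
  have hq1 : q ≤ r2 / 4 := (min_le_left _ _).trans (min_le_left _ _)
  have hq2 : q ≤ Real.exp (-T₀) / 100 := (min_le_left _ _).trans (min_le_right _ _)
  have hq3 : q ≤ (-Real.exp (-T₀) - a) / 8 := min_le_right _ _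
  have hexpT : Real.exp (-T₀) ≤ 0.37 := by
    have h1 : Real.exp (-T₀) ≤ Real.exp (-1) := Real.exp_le_exp.2 (by linarith)
    have h2 := Real.exp_neg_one_lt_d9
    linarith
  have hsT : s ≤ Real.exp (-T₀) / 100 := by linarith
  have hs1 : s ≤ 1 / 100 := by linarith
  have hτk : 1 ≤ τ ^ k := one_le_pow₀ e7
  have hsS : 20 * s + 4 * CB * s ^ 2 ≤ S / 2 := by
    have h1 : s ^ 2 ≤ s := by nlinarith
    have h2 : s * (20 + 4 * CB) ≤ 1 / 2 * (τ ^ k)⁻¹ := by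
      rw [← div_eq_mul_inv, le_div_iff₀ (by positivity)]
      calc s * (20 + 4 * CB) * τ ^ k = τ ^ k * s * (20 + 4 * CB) := by ring
        _ ≤ 1 / 2 := e1
    have h3 : 4 * CB * s ^ 2 ≤ 4 * CB * s := by gcongr
    have h4 : 1 / 2 * (τ ^ k)⁻¹ ≤ 1 / 2 * S := by gcongr
    linarith
  have hCs : 4 * CB * s ^ 2 ≤ s := by
    have h2 : s * (20 + 4 * CB) ≤ 1 / 2 := by
      have h3 : 1 * (s * (20 + 4 * CB)) ≤ τ ^ k * (s * (20 + 4 * CB)) := by
        gcongr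
      have h4 : τ ^ k * (s * (20 + 4 * CB)) ≤ 1 / 2 := by
        calc τ ^ k * (s * (20 + 4 * CB)) = τ ^ k * s * (20 + 4 * CB) := by ring
          _ ≤ 1 / 2 := e1
      linarith
    have h5 : s * (4 * CB * s) ≤ s * 1 := by
      gcongr
      linarith
    calc 4 * CB * s ^ 2 = s * (4 * CB * s) := by ring
      _ ≤ s * 1 := h5
      _ = s := mul_one _
  have hrbT : rb ≤ Real.exp (-T₀) := Real.exp_le_exp.2 (by linarith)
  have hMb : 4 * Real.exp (-T₀) ≤ M τb := hM1.trans (hM (mem_Ici.2 le_rfl) (mem_Ici.2 (by linarith)) (by linarith))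
  -- norms
  have hDLw : ∀ t w : ℂ, (t, w) ∈ DL s (b1 M Kc τ S) →
      0 < w.im ∧ ‖w‖ ≤ 2 * s ∧ ‖w‖ ≤ 32 * w.im ∧ w.im ≤ 2 * s := by
    intro t w h
    have h1 : ‖w‖ < 2 * s := h.1.1
    have h2 : ‖w‖ < 32 * w.im := h.1.2
    have h3 : 0 < w.im := Wd.im_pos h.1
    have h4 := Complex.abs_im_le_norm w
    rw [abs_of_pos h3] at h4
    exact ⟨h3, h1.le, h2.le, h4.trans h1.le⟩
  -- the estimate of `start`
  have hstart : ∀ w : ℂ, 0 < w.im → ‖w‖ ≤ 2 * s → ‖w‖ ≤ 32 * w.im →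
      ∀ t : ℂ, 0 ≤ t.im → t.im ≤ M τb - 2 * rb → ‖B (t, w) - t‖ ≤ 1 / 2 * S := by
    intro w hw hw2 hw32
    have hwim : w.im ≤ ‖w‖ := by
      have h4 := Complex.abs_im_le_norm w
      rwa [abs_of_pos hw] at h4
    refine hT1 τ e4 S M hS (hM.mono Icc_subset_Ici_self) hM1 hC3 hrec w (fun t => B (t, w)) hw
      (by linarith) hw2 ?_ ?_
    · intro t h0 h1
      have h2 : |t.im| ≤ r2 := by rw [abs_of_nonneg h0]; linarith
      refine (hbase t w h2 (by linarith)).trans ?_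
      gcongr
    · intro τ' h1 h2 t h0 h3
      have hr' : 0 < Real.exp (-τ') := Real.exp_pos _
      have him : (t + w / 2).im = t.im + w.im / 2 := by simp
      have htm : t + w / 2 ∈ Sab (a + Real.exp (-τ')) (M τ' - Real.exp (-τ')) := by
        have haT' := (hBox τ' h1).a_lt
        constructor
        · rw [him]; linarith
        · rw [him]; linarith
      have h5 := (step_atK (hBox τ' h1) hLab (hBoxV τ' h1) (by linarith) hKc17 hK512 e7 h2 htm hw2).1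
      have h6 : stp B (t + w / 2, w) - w = B (t + w, w) - B (t, w) - w := by
        unfold stp
        simp only
        congr 3
        · congr 1
          ring
        · congr 1
          ring
      rw [h6] at h5
      refine h5.trans ?_
      have h7 : 0 ≤ τ' := by linarith
      gcongr
  -- near, sharp form
  have hnear : ∀ t w : ℂ, (t, w) ∈ DL s (b1 M Kc τ S) →
      (0 ≤ t.im ∧ ‖B (t, w) - t‖ ≤ 1 / 2 * S) ∨ (t.im < 0 ∧ ‖B (t, w) - t‖ ≤ 4 * CB * s ^ 2) := by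
    intro t w h
    obtain ⟨hw, hw2, hw32, _⟩ := hDLw t w h
    have ht1 : -(4 * s) < t.im := h.2.1
    have ht2 : t.im < b1 M Kc τ S := h.2.2
    rcases le_or_gt 0 t.im with h0 | h0
    · left
      refine ⟨h0, hstart w hw hw2 hw32 t h0 ?_⟩
      rw [hbdef] at ht2
      linarith
    · right
      refine ⟨h0, ?_⟩
      have h2 : |t.im| ≤ r2 := by
        rw [abs_of_neg h0]; linarith
      refine (hbase t w h2 (by linarith)).trans ?_
      calc CB * ‖w‖ ^ 2 ≤ CB * (2 * s) ^ 2 := by gcongr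
        _ = 4 * CB * s ^ 2 := by ring
  refine ⟨?_, ?_, ?_⟩
  · intro t w h
    rcases hnear t w h with h1 | h1
    · linarith [h1.2]
    · have := h1.2
      linarith
  · intro t w h h'
    obtain ⟨hw, hw2, hw32, hwim⟩ := hDLw t w h
    have ht2 : t.im < b1 M Kc τ S := h.2.2
    have ht1 : -(4 * s) < (t - w).im := h'.2.1
    have him : (t - w / 2).im = t.im - w.im / 2 := by simp
    have him' : (t - w).im = t.im - w.im := by simp
    rw [him'] at ht1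
    rw [hbdef] at ht2
    have htm : t - w / 2 ∈ Sab (a + rb) (M τb - rb) := by
      constructor
      · rw [him]; linarith
      · rw [him]; linarith
    have h5 := (step_atK (hBox τb (by linarith)) hLab (hBoxV τb (by linarith)) (by linarith) hKc17 hK512 e7 le_rfl htm
      hw2).2
    have h6 : stp B (t - w / 2, w) - w = B (t, w) - B (t - w, w) - w := by
      unfold stp
      simp only
      congr 3
      · congr 1
        ring
      · congr 1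
        ring
    rw [h6] at h5
    refine h5.trans ?_
    calc 1024 * Lm / Kc ^ 2 * ‖w‖ ≤ 1 / 1000 * ‖w‖ := by gcongr
      _ = ‖w‖ / 1000 := by ring
  · intro t w h
    have ht1 : -(4 * s) < t.im := h.2.1
    have ht2 : t.im < b1 M Kc τ S := h.2.2
    rw [hbdef] at ht2
    have hball : ∀ z : ℂ, ‖z - B (t, w)‖ ≤ 10 * s → |z.im| ≤ M τb - 2 * rb := by
      intro z hz
      have h1 : |z.im - t.im| ≤ ‖z - B (t, w)‖ + ‖B (t, w) - t‖ := by
        have h2 : |(z - t).im| ≤ ‖z - t‖ := Complex.abs_im_le_norm _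
        have h3 : z - t = (z - B (t, w)) + (B (t, w) - t) := by ring
        rw [Complex.sub_im] at h2
        refine h2.trans ?_
        rw [h3]
        exact norm_add_le _ _
      rw [abs_le] at h1 ⊢
      have hCBs : 0 ≤ 4 * CB * s ^ 2 := by positivity
      rcases hnear t w h with h2 | h2
      · obtain ⟨h3, h4⟩ := h2
        constructor <;> linarith [h1.1, h1.2]
      · obtain ⟨h3, h4⟩ := h2
        constructor <;> linarith [h1.1, h1.2]
    have hMτb := hMh τb (by linarith)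
    refine ⟨by positivity, ?_, ?_, ?_⟩
    · intro z hz
      rw [mem_closedBall_iff_norm] at hz
      have h1 := hball z hz
      show |z.im| < h₀
      linarith
    · intro z hz
      exact (good_atK (hBox τb (by linarith)) (hBoxV τb (by linarith)) hMτb ha0 hLab hE yper yconj Kconj hAP3 e7 (by linarith) hKcQ
        (hball z hz)).1
    · intro z hz
      exact (good_atK (hBox τb (by linarith)) (hBoxV τb (by linarith)) hMτb ha0 hLab hE yper yconj Kconj hAP3 e7 (by linarith) hKcQ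
        (hball z hz)).2

/-- **(ST_k), joint.** -/
theorem base_stK (k : ℕ) {θ H K : ℂ → ℂ} {φ p B : ℂ × ℂ → ℂ} {M : ℝ → ℝ} {h₀ a T₀ r2 CB : ℝ}
    {c₀ : ℂ} (hLab : Lab θ H (Str h₀)) (hE : EntOn θ H K (Str h₀))
    (yper : ∀ z ∈ Str h₀, deriv θ (z + 1) = deriv θ z)
    (yconj : ∀ z ∈ Str h₀, deriv θ (conj z) = conj (deriv θ z))
    (Kconj : ∀ z ∈ Str h₀, K (conj z) = conj (K z))
    (hAP3 : ∀ x : ℝ, iteratedDeriv 3 (fun w => stp B (x, w)) 0 =
      2 / 5 * ((K x - 2 * deriv θ x ^ 2) + deriv θ x ^ 2 / 8) + c₀)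
    (hT₀ : 1 ≤ T₀) (hM : MonotoneOn M (Ici T₀)) (hM1 : 0 < M T₀)
    (hMh : ∀ τ, T₀ ≤ τ → M τ ≤ h₀) (ha0 : -h₀ ≤ a)
    (hBox : ∀ τ, T₀ ≤ τ → Box θ H a (M τ) (Real.exp (-τ)) φ p B)
    (hBoxV : ∀ τ, T₀ ≤ τ → BoxV (Str h₀) a (M τ) (Real.exp (-τ)) B)
    (hr2 : 0 < r2) (hCB : 0 ≤ CB)
    (hbase : ∀ t w : ℂ, |t.im| ≤ r2 → ‖w‖ < r2 → ‖B (t, w) - t‖ ≤ CB * ‖w‖ ^ 2) :
    ∃ Kc₀ : ℝ, 1 ≤ Kc₀ ∧ ∀ Kc : ℝ, Kc₀ ≤ Kc → ∃ T : ℝ, ∀ τ : ℝ, T ≤ τ → ∀ S : ℝ,
      (τ ^ k)⁻¹ ≤ S →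
      (∀ t'' t', T₀ ≤ t'' → t'' ≤ t' → t' ≤ τ →
        M t' - M t'' ≤ 2 * S * (τ / t'') ^ k * (t' - t'')) →
      (∀ t w : ℂ, (t, w) ∈ DL (Real.exp (-τ)) (b1 M Kc τ S) → ‖B (t, w) - t‖ ≤ S) ∧
      (∀ t w : ℂ, (t, w) ∈ DL (Real.exp (-τ)) (b1 M Kc τ S) →
        (t - w, w) ∈ DL (Real.exp (-τ)) (b1 M Kc τ S) →
        ‖B (t, w) - B (t - w, w) - w‖ ≤ ‖w‖ / 1000) ∧
      (∀ t w : ℂ, (t, w) ∈ DL (Real.exp (-τ)) (b1 M Kc τ S) →
        GoodOn θ K (Str h₀) (B (t, w)) (10 * Real.exp (-τ))) := by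
  have hev : ∀ᶠ T : ℝ in atTop, 4 * Real.exp (-T) ≤ M T₀ := by
    have h := Real.tendsto_exp_neg_atTop_nhds_zero.const_mul 4
    rw [mul_zero] at h
    exact (h.eventually (gt_mem_nhds hM1)).mono fun _ h => le_of_lt h
  obtain ⟨T₁, h1, h2⟩ := (hev.and (eventually_ge_atTop T₀)).exists
  obtain ⟨Kc₀, hK0, hK⟩ := base_stK0 k hLab hE yper yconj Kconj hAP3 (hT₀.trans h2)
    (hM.mono (Ici_subset_Ici.2 h2))
    (h1.trans (hM (mem_Ici.2 le_rfl) (mem_Ici.2 h2) h2)) (fun τ hτ => hMh τ (h2.trans hτ)) ha0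
    (fun τ hτ => hBox τ (h2.trans hτ)) (fun τ hτ => hBoxV τ (h2.trans hτ)) hr2 hCB hbase
  refine ⟨Kc₀, hK0, fun Kc hKc => ?_⟩
  obtain ⟨T, hT⟩ := hK Kc hKc
  exact ⟨T, fun τ hτ S hS hrec => hT τ hτ S hS
    (fun t'' t' a1 a2 a3 => hrec t'' t' (h2.trans a1) a2 a3)⟩

/-- the base height is within `R / 400` of `M τ`, `R = C' log τ * S` -/
theorem b1_windowK (k : ℕ) {C' δ Kc : ℝ} (hC' : 400 ≤ C') (hδ : δ ≤ 1) (hKc : 1 ≤ Kc) :
    ∃ T : ℝ, ∀ τ : ℝ, T ≤ τ → ∀ (S : ℝ) (M : ℝ → ℝ), (τ ^ k)⁻¹ ≤ S →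
      (∀ β : ℝ, |β| ≤ (C' * Real.log τ) ^ 3 → |M (τ + β) - M τ - S * β| ≤ δ * S) →
      |b1 M Kc τ S - M τ| ≤ C' * Real.log τ * S / 400 ∧
        10 ^ 4 * Real.exp (-τ) ≤ C' * Real.log τ * S ∧
        S ≤ C' * Real.log τ * S / 100 := by
  have hKc0 : 0 < Kc := by linarith
  have hKlog : 0 ≤ Real.log Kc := Real.log_nonneg hKc
  have hev1 : ∀ᶠ τ : ℝ in atTop, 2 * (Real.log Kc + 3) ≤ Real.log τ :=
    Real.tendsto_log_atTop.eventually (eventually_ge_atTop _)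
  have hev2 : ∀ᶠ τ : ℝ in atTop, τ ^ (k + 1) * Real.exp (-τ) * (2 * Kc + 10 ^ 4) ≤ 1 := by
    have h := (Real.tendsto_pow_mul_exp_neg_atTop_nhds_zero (k + 1)).mul_const (2 * Kc + 10 ^ 4)
    rw [zero_mul] at h
    exact (h.eventually (gt_mem_nhds (by norm_num : (0 : ℝ) < 1))).mono fun _ h => le_of_lt h
  obtain ⟨T, hT⟩ := eventually_atTop.1 (hev1.and (hev2.and (eventually_ge_atTop (1 : ℝ))))
  refine ⟨T, ?_⟩
  intro τ hτ S M hS hlin
  obtain ⟨e1, e2, e3⟩ := hT τ hτ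
  have hτ0 : 0 < τ := by linarith
  have hlogτ : 6 ≤ Real.log τ := by linarith
  have hSpos : 0 < S := lt_of_lt_of_le (by positivity) hS
  set s : ℝ := Real.exp (-τ) with hs
  have hs0 : 0 < s := Real.exp_pos _
  have hsmall : s * (2 * Kc * τ + 10 ^ 4) ≤ S := by
    have h1 : s * (2 * Kc * τ + 10 ^ 4) * τ ^ k ≤ 1 := by
      calc s * (2 * Kc * τ + 10 ^ 4) * τ ^ k ≤ s * (2 * Kc * τ + 10 ^ 4 * τ) * τ ^ k := by
            gcongr
            linarith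
        _ = τ ^ (k + 1) * s * (2 * Kc + 10 ^ 4) := by ring
        _ ≤ 1 := e2
    calc s * (2 * Kc * τ + 10 ^ 4) = s * (2 * Kc * τ + 10 ^ 4) * τ ^ k * (τ ^ k)⁻¹ := by
          field_simp
      _ ≤ 1 * (τ ^ k)⁻¹ := by gcongr
      _ ≤ S := by rw [one_mul]; exact hS
  have hrb : Real.exp (-(τ - Real.log Kc - Real.log τ / 2)) ≤ Kc * τ * s := by
    rw [exp_taub hKc0 hτ0]
    have : Real.sqrt τ ≤ τ := by
      rw [Real.sqrt_le_left hτ0.le]
      nlinarith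
    gcongr
  have hK2 : 0 ≤ s * (2 * Kc * τ) := by positivity
  have hR : 400 * (Real.log τ * S) ≤ C' * Real.log τ * S := by
    have : 0 ≤ Real.log τ * S := by positivity
    nlinarith
  refine ⟨?_, ?_, ?_⟩
  · set β : ℝ := -(Real.log Kc + Real.log τ / 2) with hβ
    have hβabs : |β| ≤ (C' * Real.log τ) ^ 3 := by
      have h0 : 0 ≤ Real.log Kc + Real.log τ / 2 := by linarith
      rw [hβ, abs_neg, abs_of_nonneg h0]
      have h1 : 1 ≤ C' * Real.log τ := by nlinarith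
      have h2 : C' * Real.log τ ≤ (C' * Real.log τ) ^ 3 := by
        calc C' * Real.log τ = (C' * Real.log τ) ^ 1 := (pow_one _).symm
          _ ≤ (C' * Real.log τ) ^ 3 := pow_le_pow_right₀ h1 (by norm_num)
      have h3 : Real.log Kc + Real.log τ / 2 ≤ C' * Real.log τ := by nlinarith
      exact h3.trans h2
    have h1 := hlin β hβabs
    have hτb : τ + β = τ - Real.log Kc - Real.log τ / 2 := by rw [hβ]; ring
    rw [hτb] at h1
    have hb : b1 M Kc τ S = M (τ - Real.log Kc - Real.log τ / 2) -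
      2 * Real.exp (-(τ - Real.log Kc - Real.log τ / 2)) - S := rfl
    rw [hb]
    have hE := Real.exp_pos (-(τ - Real.log Kc - Real.log τ / 2))
    have h2 : 2 * Real.exp (-(τ - Real.log Kc - Real.log τ / 2)) ≤ S := by
      have h3 : s * (2 * Kc * τ) ≤ S := by
        have : 0 ≤ s * 10 ^ 4 := by positivity
        linarith
      linarith
    have h4 : S * β = -(S * (Real.log Kc + Real.log τ / 2)) := by rw [hβ]; ring
    rw [h4] at h1
    have h5 : S * (Real.log Kc + Real.log τ / 2) + 3 * S ≤ Real.log τ * S := by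
      have : Real.log Kc + Real.log τ / 2 + 3 ≤ Real.log τ := by linarith
      nlinarith
    have h6 : 0 ≤ S * (Real.log Kc + Real.log τ / 2) := by
      have : 0 ≤ Real.log Kc + Real.log τ / 2 := by linarith
      positivity
    have h7 : δ * S ≤ S := by nlinarith
    rw [abs_le] at h1 ⊢
    constructor
    · linarith [h1.1]
    · linarith [h1.2]
  · have h1 : 10 ^ 4 * s ≤ S := by linarith
    have h2 : 1 * S ≤ Real.log τ * S := by gcongr; linarith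
    linarith
  · have h2 : 1 * S ≤ Real.log τ * S := by gcongr; linarith
    linarith

end Crest.Agent.R102.BaseK350
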