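import Mathlib

/-!
Row 102, T1-E (516's column), **Lemma Z**: `q` analytic on `closedBall p R`, `|q| ≤ e^a |q p|`.
Then on some circle of radius in `[R/4, R/2]` about `p` the function has no zeros and
`|q'/q| ≤ C a²/R`, `|(q'/q)'| ≤ C a³/R²`, `|q''/q| ≤ C a⁴/R²`.
-/

set_option autoImplicit false

open Set Filter Topology Metric
open scoped ComplexConjugate

noncomputable section

namespace Crest.Agent.R102.LemZ329

/-- one summand of the logarithmic derivative of a Blaschke product -/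
def bt (z a : ℂ) : ℂ := 1 / (z - a) + conj a / (1 - conj a * z)

lemma one_sub_ne {a z : ℂ} (ha : ‖a‖ ≤ 3 / 4) (hz : ‖z‖ ≤ 1) : 1 - conj a * z ≠ 0 := by
  intro h
  have h1 : conj a * z = 1 := (sub_eq_zero.1 h).symm
  have h2 : ‖conj a * z‖ = 1 := by rw [h1, norm_one]
  rw [norm_mul, Complex.norm_conj] at h2
  have := norm_nonneg a
  have := norm_nonneg z
  nlinarith

/-- factor out the zeros in `closedBall 0 (3/4)` -/
theorem fac (n : ℕ) : ∀ (U : Set ℂ) (q : ℂ → ℂ) (M : ℝ), IsOpen U → closedBall 0 1 ⊆ U →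
    DifferentiableOn ℂ q U → q 0 ≠ 0 → (∀ z ∈ closedBall (0 : ℂ) 1, ‖q z‖ ≤ M) →
    M < (4 / 3) ^ n * ‖q 0‖ →
    ∃ (l : List ℂ) (g : ℂ → ℂ), (4 / 3) ^ l.length * ‖q 0‖ ≤ M ∧ (∀ a ∈ l, ‖a‖ ≤ 3 / 4) ∧
      DifferentiableOn ℂ g U ∧ (∀ z ∈ closedBall (0 : ℂ) (3 / 4), g z ≠ 0) ∧
      (∀ z ∈ closedBall (0 : ℂ) 1, ‖g z‖ ≤ M) ∧ ‖q 0‖ ≤ ‖g 0‖ ∧
      ∀ z ∈ ball (0 : ℂ) 1, z ∉ l → g z ≠ 0 →
        q z ≠ 0 ∧ deriv q z / q z = (l.map (bt z)).sum + deriv g z / g z := by
  induction n with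
  | zero =>
    intro U q M hU hsub hq h0 hM hlt
    exfalso
    have := hM 0 (by simp)
    simp at hlt
    linarith
  | succ n ih =>
    intro U q M hU hsub hq h0 hM hlt
    by_cases hz : ∀ z ∈ closedBall (0 : ℂ) (3 / 4), q z ≠ 0
    · refine ⟨[], q, ?_, by simp, hq, hz, hM, le_rfl, ?_⟩
      · simpa using hM 0 (by simp)
      · intro z _ _ hg
        exact ⟨hg, by simp⟩
    · push Not at hz
      obtain ⟨a, ha, hqa⟩ := hz
      have ha' : ‖a‖ ≤ 3 / 4 := by simpa using ha
      have ha0 : a ≠ 0 := fun h => h0 (h ▸ hqa)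
      have han : 0 < ‖a‖ := norm_pos_iff.2 ha0
      have haU : a ∈ U := hsub (by rw [mem_closedBall, dist_zero_right]; linarith)
      set d : ℂ → ℂ := dslope q a with hd
      have hdU : DifferentiableOn ℂ d U :=
        (Complex.differentiableOn_dslope (hU.mem_nhds haU)).2 hq
      have hqd : ∀ z, q z = (z - a) * d z := by
        intro z
        have := sub_smul_dslope q a z
        rw [hqa, sub_zero, smul_eq_mul] at this
        exact this.symm
      set q1 : ℂ → ℂ := fun z => (1 - conj a * z) * d z with hq1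
      have hq1U : DifferentiableOn ℂ q1 U := by
        refine DifferentiableOn.mul ?_ hdU
        fun_prop
      have hrel : ∀ z, (1 - conj a * z) * q z = (z - a) * q1 z := by
        intro z; rw [hqd z, hq1]; ring
      have hM1 : ∀ z ∈ closedBall (0 : ℂ) 1, ‖q1 z‖ ≤ M := by
        have hdc : DiffContOnCl ℂ q1 (ball (0 : ℂ) 1) := by
          refine DifferentiableOn.diffContOnCl ?_
          rw [closure_ball _ one_ne_zero]
          exact hq1U.mono hsub
        intro z hz
        rw [← closure_ball (0 : ℂ) one_ne_zero] at hz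
        refine Complex.norm_le_of_forall_mem_frontier_norm_le isBounded_ball hdc ?_ hz
        intro w hw
        rw [frontier_ball _ one_ne_zero, mem_sphere, dist_zero_right] at hw
        have hwa : w - a ≠ 0 := by
          intro h
          rw [sub_eq_zero] at h
          rw [h] at hw
          linarith
        have h1 : ‖w - a‖ = ‖1 - conj a * w‖ := by
          have h2 : w * conj w = 1 := by
            rw [Complex.mul_conj, Complex.normSq_eq_norm_sq, hw]; norm_num
          have h3 : w - a = w * conj (1 - conj a * w) := by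
            rw [map_sub, map_mul, Complex.conj_conj, map_one]
            linear_combination a * h2
          rw [h3, norm_mul, hw, one_mul, Complex.norm_conj]
        have h4 : ‖(1 - conj a * w) * q w‖ = ‖(w - a) * q1 w‖ := by rw [hrel]
        rw [norm_mul, norm_mul, ← h1] at h4
        have h5 : ‖q1 w‖ = ‖q w‖ := (mul_left_cancel₀ (norm_ne_zero_iff.2 hwa) h4).symm
        rw [h5]
        exact hM w (by rw [mem_closedBall, dist_zero_right, hw])
      have hq10 : ‖q1 0‖ * ‖a‖ = ‖q 0‖ := by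
        have h6 : q 0 = -a * q1 0 := by
          have := hrel 0
          simpa using this
        have h7 : ‖q 0‖ = ‖-a‖ * ‖q1 0‖ := by rw [h6, norm_mul]
        rw [h7, norm_neg, mul_comm]
      have hq1z : q1 0 ≠ 0 := by
        intro h
        rw [h, norm_zero, zero_mul] at hq10
        exact h0 (norm_eq_zero.1 hq10.symm)
      have hge : 4 / 3 * ‖q 0‖ ≤ ‖q1 0‖ := by
        have := norm_nonneg (q1 0)
        nlinarith
      obtain ⟨l, g, g1, g2, g3, g4, g5, g6, g7⟩ := ih U q1 M hU hsub hq1U hq1z hM1 (by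
        calc M < (4 / 3) ^ (n + 1) * ‖q 0‖ := hlt
          _ = (4 / 3) ^ n * (4 / 3 * ‖q 0‖) := by ring
          _ ≤ (4 / 3) ^ n * ‖q1 0‖ := by gcongr)
      refine ⟨a :: l, g, ?_, ?_, g3, g4, g5, ?_, ?_⟩
      · calc (4 / 3 : ℝ) ^ (a :: l).length * ‖q 0‖ = (4 / 3) ^ l.length * (4 / 3 * ‖q 0‖) := by
              rw [List.length_cons]; ring
          _ ≤ (4 / 3) ^ l.length * ‖q1 0‖ := by gcongr
          _ ≤ M := g1
      · intro b hb
        rcases List.mem_cons.1 hb with h | h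
        · rw [h]; exact ha'
        · exact g2 b h
      · have := norm_nonneg (q 0)
        linarith
      · intro z hz1 hzl hgz
        have hza : z ≠ a := fun h => hzl (by simp [h])
        have hzl' : z ∉ l := fun h => hzl (List.mem_cons_of_mem _ h)
        obtain ⟨k1, k2⟩ := g7 z hz1 hzl' hgz
        have hzn : ‖z‖ ≤ 1 := by
          rw [mem_ball, dist_zero_right] at hz1; exact hz1.le
        have hzU : z ∈ U := hsub (ball_subset_closedBall hz1)
        have hne := one_sub_ne ha' hzn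
        have hsa : z - a ≠ 0 := sub_ne_zero.2 hza
        have hqz : q z ≠ 0 := by
          intro h
          have := hrel z
          rw [h, mul_zero] at this
          exact (mul_ne_zero hsa k1) this.symm
        refine ⟨hqz, ?_⟩
        have e1 : HasDerivAt (fun z => (1 - conj a * z) * q z)
            (-(conj a * 1) * q z + (1 - conj a * z) * deriv q z) z :=
          (((hasDerivAt_id z).const_mul (conj a)).const_sub 1).mul
            ((hq.differentiableAt (hU.mem_nhds hzU)).hasDerivAt)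
        have e2 : HasDerivAt (fun z => (z - a) * q1 z) (1 * q1 z + (z - a) * deriv q1 z) z :=
          ((hasDerivAt_id z).sub_const a).mul
            ((hq1U.differentiableAt (hU.mem_nhds hzU)).hasDerivAt)
        have e3 : (fun z => (1 - conj a * z) * q z) = fun z => (z - a) * q1 z := funext hrel
        rw [e3] at e1
        have e4 := e1.unique e2
        have e5 := hrel z
        rw [List.map_cons, List.sum_cons, add_assoc, ← k2, bt]
        have e6 : deriv q z / q z = ((1 - conj a * z) * deriv q z) / ((1 - conj a * z) * q z) := by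
          field_simp
        have e7 : (1 - conj a * z) * deriv q z = q1 z + (z - a) * deriv q1 z + conj a * q z := by
          linear_combination e4
        rw [e6, e5, e7]
        have e8 : conj a / (1 - conj a * z) = conj a * q z / ((z - a) * q1 z) := by
          rw [← e5]
          field_simp
        rw [e8]
        field_simp
        ring


/-- derivative bounds for `g'/g`, `g` zero free: Borel–Carathéodory -/
theorem zero_free {U : Set ℂ} {g : ℂ → ℂ} {a : ℝ} (hU : IsOpen U) (hsub : closedBall 0 1 ⊆ U)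
    (hg : DifferentiableOn ℂ g U) (hgz : ∀ z ∈ closedBall (0 : ℂ) (3 / 4), g z ≠ 0) (ha : 1 ≤ a)
    (hM : ∀ z ∈ closedBall (0 : ℂ) 1, ‖g z‖ ≤ Real.exp a * ‖g 0‖) :
    (∀ z ∈ closedBall (0 : ℂ) (1 / 2), ‖deriv g z / g z‖ ≤ 160 * a) ∧
    (∀ z ∈ closedBall (0 : ℂ) (1 / 2), ‖deriv (fun w => deriv g w / g w) z‖ ≤ 2560 * a) := by
  have hbU : ball (0 : ℂ) (3 / 4) ⊆ U :=
    (ball_subset_closedBall.trans (closedBall_subset_closedBall (by norm_num))).trans hsub
  have hgb : ∀ z ∈ ball (0 : ℂ) (3 / 4), g z ≠ 0 := fun z hz => hgz z (ball_subset_closedBall hz)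
  have hL : DifferentiableOn ℂ (fun w => deriv g w / g w) (ball (0 : ℂ) (3 / 4)) :=
    ((hg.deriv hU).mono hbU).div (hg.mono hbU) hgb
  obtain ⟨φ, hφ0, hφ⟩ := hL.isExactOn_ball.with_val_at 0 0
  have hexp : ∀ z ∈ ball (0 : ℂ) (3 / 4), g z = g 0 * Complex.exp (φ z) := by
    have hd : ∀ z ∈ ball (0 : ℂ) (3 / 4),
        HasDerivAt (fun w => g w * Complex.exp (-φ w)) 0 z := by
      intro z hz
      have h1 := (hg.differentiableAt (hU.mem_nhds (hbU hz))).hasDerivAt
      have h2 := ((hφ z hz).neg).cexp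
      refine (h1.mul h2).congr_deriv ?_
      have h3 := hgb z hz
      field_simp
      ring
    have hc : ∀ z ∈ ball (0 : ℂ) (3 / 4), g z * Complex.exp (-φ z) = g 0 * Complex.exp (-φ 0) := by
      intro z hz
      refine (convex_ball (0 : ℂ) (3 / 4)).is_const_of_fderivWithin_eq_zero (𝕜 := ℂ)
        (f := fun w => g w * Complex.exp (-φ w)) ?_ ?_ hz (mem_ball_self (by norm_num))
      · exact fun w hw => (hd w hw).differentiableAt.differentiableWithinAt
      · intro w hw
        rw [fderivWithin_of_isOpen isOpen_ball hw]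
        ext
        simpa using (hd w hw).deriv
    intro z hz
    have := hc z hz
    rw [hφ0, neg_zero, Complex.exp_zero, mul_one] at this
    rw [← this, mul_assoc, ← Complex.exp_add]
    simp
  have hre : ∀ z ∈ ball (0 : ℂ) (3 / 4), (φ z).re ≤ a := by
    intro z hz
    have h1 := hM z (ball_subset_closedBall (ball_subset_ball (by norm_num) hz))
    rw [hexp z hz, norm_mul, Complex.norm_exp, mul_comm] at h1
    have h2 : 0 < ‖g 0‖ := norm_pos_iff.2 (hgb 0 (mem_ball_self (by norm_num)))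
    have h3 : Real.exp (φ z).re ≤ Real.exp a := le_of_mul_le_mul_right h1 h2
    exact Real.exp_le_exp.1 h3
  have hφd : DifferentiableOn ℂ φ (ball (0 : ℂ) (3 / 4)) := fun z hz =>
    (hφ z hz).differentiableAt.differentiableWithinAt
  have hφb : ∀ z ∈ closedBall (0 : ℂ) (5 / 8), ‖φ z‖ ≤ 10 * a := by
    intro z hz
    rw [mem_closedBall, dist_zero_right] at hz
    have := Complex.borelCaratheodory_zero (M := a) (R := 3 / 4) (by linarith) hφd
      (fun w hw => hre w hw) (by norm_num) (z := z) (by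
        rw [mem_ball, dist_zero_right]; linarith) hφ0
    refine this.trans ?_
    have h4 : 0 < 3 / 4 - ‖z‖ := by linarith
    rw [div_le_iff₀ h4]
    nlinarith
  have hdφ : ∀ z ∈ ball (0 : ℂ) (3 / 4), deriv φ z = deriv g z / g z := fun z hz => (hφ z hz).deriv
  have hφ1 : ∀ z ∈ closedBall (0 : ℂ) (9 / 16), ‖deriv φ z‖ ≤ 160 * a := by
    intro z hz
    rw [mem_closedBall, dist_zero_right] at hz
    have hcb : closedBall z (1 / 16) ⊆ closedBall (0 : ℂ) (5 / 8) := by
      intro w hw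
      rw [mem_closedBall, dist_eq_norm] at hw
      rw [mem_closedBall, dist_zero_right]
      calc ‖w‖ = ‖(w - z) + z‖ := by ring_nf
        _ ≤ ‖w - z‖ + ‖z‖ := norm_add_le _ _
        _ ≤ 5 / 8 := by linarith
    have := Complex.norm_deriv_le_of_forall_mem_sphere_norm_le (c := z) (f := φ)
      (C := 10 * a) (R := 1 / 16) (by norm_num) (by
        refine DifferentiableOn.diffContOnCl ?_
        rw [closure_ball _ (by norm_num)]
        exact hφd.mono (hcb.trans (closedBall_subset_ball (by norm_num))))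
      (fun w hw => hφb w (hcb (sphere_subset_closedBall hw)))
    refine this.trans (le_of_eq ?_)
    ring
  have hφ2 : ∀ z ∈ closedBall (0 : ℂ) (1 / 2), ‖deriv (deriv φ) z‖ ≤ 2560 * a := by
    intro z hz
    rw [mem_closedBall, dist_zero_right] at hz
    have hcb : closedBall z (1 / 16) ⊆ closedBall (0 : ℂ) (9 / 16) := by
      intro w hw
      rw [mem_closedBall, dist_eq_norm] at hw
      rw [mem_closedBall, dist_zero_right]
      calc ‖w‖ = ‖(w - z) + z‖ := by ring_nf
        _ ≤ ‖w - z‖ + ‖z‖ := norm_add_le _ _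
        _ ≤ 9 / 16 := by linarith
    have := Complex.norm_deriv_le_of_forall_mem_sphere_norm_le (c := z) (f := deriv φ)
      (C := 160 * a) (R := 1 / 16) (by norm_num) (by
        refine DifferentiableOn.diffContOnCl ?_
        rw [closure_ball _ (by norm_num)]
        exact (hφd.deriv isOpen_ball).mono (hcb.trans (closedBall_subset_ball (by norm_num))))
      (fun w hw => hφ1 w (hcb (sphere_subset_closedBall hw)))
    refine this.trans (le_of_eq ?_)
    ring
  constructor
  · intro z hz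
    rw [← hdφ z (closedBall_subset_ball (by norm_num) hz)]
    exact hφ1 z (closedBall_subset_closedBall (by norm_num) hz)
  · intro z hz
    have hzb : z ∈ ball (0 : ℂ) (3 / 4) := closedBall_subset_ball (by norm_num) hz
    have : (fun w => deriv g w / g w) =ᶠ[𝓝 z] deriv φ := by
      filter_upwards [isOpen_ball.mem_nhds hzb] with w hw
      exact (hdφ w hw).symm
    rw [this.deriv_eq]
    exact hφ2 z hz

/-- choice of a radius -/
theorem radius (l : List ℂ) : ∃ ρ ∈ Icc (1 / 4 : ℝ) (1 / 2),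
    ∀ a ∈ l, 1 / (8 * (l.length + 1 : ℝ)) ≤ |‖a‖ - ρ| := by
  by_contra hno
  push Not at hno
  set n : ℕ := l.length with hn
  have hn0 : (0 : ℝ) < n + 1 := by positivity
  have h1 : ∀ k : Fin (n + 1), ∃ j : Fin n,
      |‖l.get j‖ - (1 / 4 + (2 * (k : ℝ) + 1) / (8 * (n + 1)))| < 1 / (8 * (n + 1 : ℝ)) := by
    intro k
    have hk : ((k : ℕ) : ℝ) ≤ n := by
      have := k.2
      exact_mod_cast Nat.lt_succ_iff.1 this
    have hk0 : (0 : ℝ) ≤ ((k : ℕ) : ℝ) := by positivity
    obtain ⟨a, ha, hab⟩ := hno (1 / 4 + (2 * (k : ℝ) + 1) / (8 * (n + 1))) (by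
      constructor
      · have : 0 ≤ (2 * (k : ℝ) + 1) / (8 * (n + 1)) := by positivity
        linarith
      · have : (2 * (k : ℝ) + 1) / (8 * (n + 1)) ≤ 1 / 4 := by
          rw [div_le_div_iff₀ (by positivity) (by norm_num)]
          nlinarith
        linarith)
    obtain ⟨j, hj⟩ := List.get_of_mem ha
    exact ⟨j, by rw [hj]; exact hab⟩
  choose f hf using h1
  have hinj : Function.Injective f := by
    intro k k' hkk
    have e1 := hf k
    have e2 := hf k'
    rw [hkk] at e1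
    by_contra hne
    have hne' : (k : ℕ) ≠ (k' : ℕ) := fun h => hne (Fin.ext h)
    have h3 : |(1 / 4 + (2 * (k : ℝ) + 1) / (8 * (n + 1))) -
        (1 / 4 + (2 * (k' : ℝ) + 1) / (8 * (n + 1)))| < 2 * (1 / (8 * (n + 1 : ℝ))) := by
      rw [abs_lt] at e1 e2 ⊢
      constructor <;> linarith
    have h4 : (1 / 4 + (2 * (k : ℝ) + 1) / (8 * (n + 1))) -
        (1 / 4 + (2 * (k' : ℝ) + 1) / (8 * (n + 1))) =
        ((k : ℝ) - k') * (2 * (1 / (8 * (n + 1 : ℝ)))) := by
      field_simp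
      ring
    rw [h4, abs_mul, abs_of_pos (by positivity : (0 : ℝ) < 2 * (1 / (8 * (n + 1 : ℝ))))] at h3
    have h5 : (1 : ℝ) ≤ |((k : ℕ) : ℝ) - ((k' : ℕ) : ℝ)| := by
      have : (1 : ℤ) ≤ |((k : ℕ) : ℤ) - ((k' : ℕ) : ℤ)| := by
        apply Int.one_le_abs
        omega
      exact_mod_cast this
    have h6 : (0 : ℝ) < 2 * (1 / (8 * (n + 1 : ℝ))) := by positivity
    nlinarith
  have := Fintype.card_le_of_injective f hinj
  simp at this


/-- derivative of `bt` -/
def bt' (z a : ℂ) : ℂ := -(1 / (z - a)) ^ 2 + (conj a / (1 - conj a * z)) ^ 2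

lemma bt_hasDerivAt {z a : ℂ} (h1 : z ≠ a) (h2 : 1 - conj a * z ≠ 0) :
    HasDerivAt (fun w => bt w a) (bt' z a) z := by
  have h3 : z - a ≠ 0 := sub_ne_zero.2 h1
  have e1 : HasDerivAt (fun w : ℂ => w - a) 1 z := (hasDerivAt_id z).sub_const a
  have e2 : HasDerivAt (fun w : ℂ => 1 - conj a * w) (-(conj a * 1)) z :=
    ((hasDerivAt_id z).const_mul (conj a)).const_sub 1
  have e3 := ((hasDerivAt_const z (1 : ℂ)).div e1 h3).add
    ((hasDerivAt_const z (conj a)).div e2 h2)
  refine e3.congr_deriv ?_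
  unfold bt'
  field_simp
  ring

lemma sum_hasDerivAt {z : ℂ} (l : List ℂ) (h1 : ∀ a ∈ l, z ≠ a ∧ 1 - conj a * z ≠ 0) :
    HasDerivAt (fun w => (l.map (bt w)).sum) ((l.map (bt' z)).sum) z := by
  induction l with
  | nil => simpa using hasDerivAt_const z (0 : ℂ)
  | cons b l ih =>
    simp only [List.map_cons, List.sum_cons]
    have hb := h1 b (by simp)
    exact (bt_hasDerivAt hb.1 hb.2).add (ih fun a ha => h1 a (List.mem_cons_of_mem _ ha))

lemma sum_le {f : ℂ → ℂ} {B : ℝ} (l : List ℂ) (h1 : ∀ a ∈ l, ‖f a‖ ≤ B) :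
    ‖(l.map f).sum‖ ≤ l.length * B := by
  induction l with
  | nil => simp
  | cons b l ih =>
    simp only [List.map_cons, List.sum_cons, List.length_cons]
    have hb := h1 b (by simp)
    have := ih fun a ha => h1 a (List.mem_cons_of_mem _ ha)
    calc ‖f b + (l.map f).sum‖ ≤ ‖f b‖ + ‖(l.map f).sum‖ := norm_add_le _ _
      _ ≤ B + l.length * B := by linarith
      _ = _ := by push_cast; ring

lemma length_le {n : ℕ} {a : ℝ} (h : (4 / 3 : ℝ) ^ n ≤ Real.exp a) : (n : ℝ) ≤ 4 * a := by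
  have h1 : Real.exp (1 / 4) ≤ 4 / 3 := by
    have h2 : Real.exp (1 / 4) ^ 4 ≤ (4 / 3) ^ 4 := by
      rw [← Real.exp_nat_mul]
      have := Real.exp_one_lt_d9
      norm_num
      linarith
    exact le_of_pow_le_pow_left₀ (by norm_num) (by norm_num) h2
  have h3 : Real.exp (n / 4) ≤ Real.exp a := by
    calc Real.exp (n / 4) = Real.exp (1 / 4) ^ n := by rw [← Real.exp_nat_mul]; ring_nf
      _ ≤ (4 / 3) ^ n := by gcongr
      _ ≤ _ := h
  have := Real.exp_le_exp.1 h3
  linarith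

/-- Lemma Z for the unit disc -/
theorem lemZ_unit {U : Set ℂ} {q : ℂ → ℂ} {a : ℝ} (hU : IsOpen U) (hsub : closedBall 0 1 ⊆ U)
    (hq : DifferentiableOn ℂ q U) (h0 : q 0 ≠ 0) (ha : 1 ≤ a)
    (hM : ∀ z ∈ closedBall (0 : ℂ) 1, ‖q z‖ ≤ Real.exp a * ‖q 0‖) :
    ∃ ρ ∈ Icc (1 / 4 : ℝ) (1 / 2), ∀ z ∈ sphere (0 : ℂ) ρ, q z ≠ 0 ∧
      ‖deriv q z / q z‖ ≤ 400 * a ^ 2 ∧
      ‖deriv (fun w => deriv q w / q w) z‖ ≤ 10000 * a ^ 3 := by
  have hq0 : 0 < ‖q 0‖ := norm_pos_iff.2 h0
  obtain ⟨n, hn⟩ := pow_unbounded_of_one_lt (Real.exp a) (by norm_num : (1 : ℝ) < 4 / 3)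
  obtain ⟨l, g, l1, l2, g1, g2, g3, g4, g5⟩ := fac n U q (Real.exp a * ‖q 0‖) hU hsub hq h0 hM
    (by gcongr)
  have hlen : (l.length : ℝ) ≤ 4 * a := length_le (le_of_mul_le_mul_right l1 hq0)
  obtain ⟨k1, k2⟩ := zero_free hU hsub g1 g2 ha (fun z hz => (g3 z hz).trans (by gcongr))
  obtain ⟨ρ, hρ, hρl⟩ := radius l
  refine ⟨ρ, hρ, ?_⟩
  intro z hz
  rw [mem_sphere, dist_zero_right] at hz
  have hzhalf : z ∈ closedBall (0 : ℂ) (1 / 2) := by
    rw [mem_closedBall, dist_zero_right, hz]; exact hρ.2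
  have hn0 : (0 : ℝ) < 8 * (l.length + 1 : ℝ) := by positivity
  have hdist : ∀ b ∈ l, 1 / (8 * (l.length + 1 : ℝ)) ≤ ‖z - b‖ := by
    intro b hb
    refine (hρl b hb).trans ?_
    rw [← hz, abs_sub_comm]
    exact abs_norm_sub_norm_le z b
  have hzl : z ∉ l := by
    intro h
    have := hdist z h
    rw [sub_self, norm_zero] at this
    have : 0 < 1 / (8 * (l.length + 1 : ℝ)) := by positivity
    linarith
  have hzb : z ∈ ball (0 : ℂ) 1 := by
    rw [mem_ball, dist_zero_right, hz]; linarith [hρ.2]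
  have hgz : g z ≠ 0 := g2 z (closedBall_subset_closedBall (by norm_num) hzhalf)
  obtain ⟨m1, m2⟩ := g5 z hzb hzl hgz
  have hden : ∀ b ∈ l, 5 / 8 ≤ ‖1 - conj b * z‖ := by
    intro b hb
    have h1 := norm_sub_norm_le (1 : ℂ) (conj b * z)
    rw [norm_one, norm_mul, Complex.norm_conj, hz] at h1
    have h2 := l2 b hb
    have h3 := norm_nonneg b
    have h4 := hρ.1
    have h5 := hρ.2
    nlinarith
  have hn1 : 8 * (l.length + 1 : ℝ) ≤ 40 * a := by linarith
  have b1 : ∀ b ∈ l, ‖bt z b‖ ≤ 42 * a := by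
    intro b hb
    have h1 : ‖1 / (z - b)‖ ≤ 40 * a := by
      rw [norm_div, norm_one]
      refine le_trans ?_ hn1
      rw [div_le_iff₀ (lt_of_lt_of_le (by positivity) (hdist b hb))]
      have := hdist b hb
      rw [div_le_iff₀ hn0] at this
      linarith
    have h2 : ‖conj b / (1 - conj b * z)‖ ≤ 6 / 5 := by
      rw [norm_div, Complex.norm_conj, div_le_iff₀ (lt_of_lt_of_le (by norm_num) (hden b hb))]
      have := hden b hb
      have := l2 b hb
      linarith
    calc ‖bt z b‖ ≤ ‖1 / (z - b)‖ + ‖conj b / (1 - conj b * z)‖ := norm_add_le _ _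
      _ ≤ 42 * a := by linarith
  have b2 : ∀ b ∈ l, ‖bt' z b‖ ≤ 1602 * a ^ 2 := by
    intro b hb
    have h1 : ‖1 / (z - b)‖ ≤ 40 * a := by
      rw [norm_div, norm_one]
      refine le_trans ?_ hn1
      rw [div_le_iff₀ (lt_of_lt_of_le (by positivity) (hdist b hb))]
      have := hdist b hb
      rw [div_le_iff₀ hn0] at this
      linarith
    have h2 : ‖conj b / (1 - conj b * z)‖ ≤ 6 / 5 := by
      rw [norm_div, Complex.norm_conj, div_le_iff₀ (lt_of_lt_of_le (by norm_num) (hden b hb))]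
      have := hden b hb
      have := l2 b hb
      linarith
    have e : bt' z b = -(1 / (z - b)) ^ 2 + (conj b / (1 - conj b * z)) ^ 2 := rfl
    rw [e]
    calc ‖-(1 / (z - b)) ^ 2 + (conj b / (1 - conj b * z)) ^ 2‖
        ≤ ‖-(1 / (z - b)) ^ 2‖ + ‖(conj b / (1 - conj b * z)) ^ 2‖ := norm_add_le _ _
      _ = ‖1 / (z - b)‖ ^ 2 + ‖conj b / (1 - conj b * z)‖ ^ 2 := by
          rw [norm_neg, norm_pow, norm_pow]
      _ ≤ (40 * a) ^ 2 + (6 / 5) ^ 2 := by gcongr
      _ ≤ 1602 * a ^ 2 := by nlinarith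
  refine ⟨m1, ?_, ?_⟩
  · rw [m2]
    calc ‖(l.map (bt z)).sum + deriv g z / g z‖
        ≤ ‖(l.map (bt z)).sum‖ + ‖deriv g z / g z‖ := norm_add_le _ _
      _ ≤ l.length * (42 * a) + 160 * a := add_le_add (sum_le l b1) (k1 z hzhalf)
      _ ≤ 4 * a * (42 * a) + 160 * a := by gcongr
      _ ≤ 400 * a ^ 2 := by nlinarith
  · have hopen : IsOpen (ball (0 : ℂ) 1 ∩ {w | w ∉ l} ∩ (ball (0 : ℂ) (3 / 4))) := by
      refine (isOpen_ball.inter ?_).inter isOpen_ball
      have : {w : ℂ | w ∉ l} = (↑l.toFinset : Set ℂ)ᶜ := by ext w; simp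
      rw [this]
      exact (Finset.finite_toSet _).isClosed.isOpen_compl
    have hmem : z ∈ ball (0 : ℂ) 1 ∩ {w | w ∉ l} ∩ (ball (0 : ℂ) (3 / 4)) :=
      ⟨⟨hzb, hzl⟩, closedBall_subset_ball (by norm_num) hzhalf⟩
    have heq : (fun w => deriv q w / q w) =ᶠ[𝓝 z]
        fun w => (l.map (bt w)).sum + deriv g w / g w := by
      filter_upwards [hopen.mem_nhds hmem] with w hw
      exact (g5 w hw.1.1 hw.1.2 (g2 w (ball_subset_closedBall hw.2))).2
    rw [heq.deriv_eq]
    have hs := sum_hasDerivAt (z := z) l (fun b hb => ⟨fun h => hzl (h ▸ hb), by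
      intro h
      have := hden b hb
      rw [h, norm_zero] at this
      linarith⟩)
    have hzU : z ∈ U := hsub (ball_subset_closedBall hzb)
    have hgd : DifferentiableAt ℂ (fun w => deriv g w / g w) z :=
      ((g1.deriv hU).differentiableAt (hU.mem_nhds hzU)).div
        (g1.differentiableAt (hU.mem_nhds hzU)) hgz
    rw [(hs.fun_add hgd.hasDerivAt).deriv]
    calc ‖(l.map (bt' z)).sum + deriv (fun w => deriv g w / g w) z‖
        ≤ ‖(l.map (bt' z)).sum‖ + ‖deriv (fun w => deriv g w / g w) z‖ := norm_add_le _ _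
      _ ≤ l.length * (1602 * a ^ 2) + 2560 * a := add_le_add (sum_le l b2) (k2 z hzhalf)
      _ ≤ 4 * a * (1602 * a ^ 2) + 2560 * a := by gcongr
      _ ≤ 10000 * a ^ 3 := by
          have h1 : a ≤ a ^ 3 := le_self_pow₀ ha (by norm_num)
          linarith [show 4 * a * (1602 * a ^ 2) = 6408 * a ^ 3 by ring]

/-- **Lemma Z** -/
theorem lemZ' {q : ℂ → ℂ} {p : ℂ} {R a : ℝ} (hR : 0 < R) (ha : 1 ≤ a)
    (hq : AnalyticOnNhd ℂ q (closedBall p R)) (h0 : q p ≠ 0)
    (hM : ∀ z ∈ closedBall p R, ‖q z‖ ≤ Real.exp a * ‖q p‖) :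
    ∃ ρ ∈ Icc (R / 4) (R / 2), ∀ z ∈ sphere p ρ, q z ≠ 0 ∧
      ‖deriv q z / q z‖ ≤ 400 * a ^ 2 / R ∧
      ‖deriv (fun w => deriv q w / q w) z‖ ≤ 10000 * a ^ 3 / R ^ 2 ∧
      ‖deriv (deriv q) z / q z‖ ≤ 170000 * a ^ 4 / R ^ 2 := by
  have hRc : (R : ℂ) ≠ 0 := by exact_mod_cast hR.ne'
  set V : Set ℂ := {z | AnalyticAt ℂ q z} with hV
  have hVo : IsOpen V := isOpen_analyticAt ℂ q
  set U : Set ℂ := {z | p + R * z ∈ V} with hUd
  have hU : IsOpen U := hVo.preimage (by fun_prop : Continuous fun z : ℂ => p + R * z)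
  have hmap : ∀ z : ℂ, ‖z‖ ≤ 1 → p + R * z ∈ closedBall p R := by
    intro z hz
    rw [mem_closedBall, dist_eq_norm, add_sub_cancel_left, norm_mul, Complex.norm_real,
      Real.norm_eq_abs, abs_of_pos hR]
    nlinarith [norm_nonneg z]
  have hsub : closedBall (0 : ℂ) 1 ⊆ U := by
    intro z hz
    rw [mem_closedBall, dist_zero_right] at hz
    exact hq _ (hmap z hz)
  set Q : ℂ → ℂ := fun z => q (p + R * z) with hQ
  have hlin : ∀ z : ℂ, HasDerivAt (fun z : ℂ => p + R * z) (R : ℂ) z := by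
    intro z
    simpa using ((hasDerivAt_id z).const_mul (R : ℂ)).const_add p
  have hQd : ∀ z ∈ U, HasDerivAt Q (deriv q (p + R * z) * R) z := by
    intro z hz
    have h1 : HasDerivAt q (deriv q (p + R * z)) (p + R * z) := hz.differentiableAt.hasDerivAt
    exact h1.comp z (hlin z)
  have hQU : DifferentiableOn ℂ Q U := fun z hz => (hQd z hz).differentiableAt.differentiableWithinAt
  obtain ⟨ρ, hρ, hall⟩ := lemZ_unit hU hsub hQU (by simpa [hQ] using h0) ha (by
    intro z hz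
    rw [mem_closedBall, dist_zero_right] at hz
    simpa [hQ] using hM _ (hmap z hz))
  refine ⟨R * ρ, ⟨by linarith [mul_le_mul_of_nonneg_left hρ.1 hR.le],
    by linarith [mul_le_mul_of_nonneg_left hρ.2 hR.le]⟩, ?_⟩
  intro z hz
  rw [mem_sphere, dist_eq_norm] at hz
  set ζ : ℂ := (z - p) / R with hζ
  have hz' : p + R * ζ = z := by rw [hζ]; field_simp; ring
  have hζn : ‖ζ‖ = ρ := by
    rw [hζ, norm_div, hz, Complex.norm_real, Real.norm_eq_abs, abs_of_pos hR]
    field_simp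
  obtain ⟨e1, e2, e3⟩ := hall ζ (by rw [mem_sphere, dist_zero_right, hζn])
  have hζU : ζ ∈ U := hsub (by rw [mem_closedBall, dist_zero_right, hζn]; linarith [hρ.2])
  have hQz : Q ζ = q z := by simp only [hQ, hz']
  rw [hQz] at e1 e2
  have f1 : deriv Q ζ = deriv q z * R := by rw [(hQd ζ hζU).deriv, hz']
  have hL : (fun w => deriv Q w / Q w) =ᶠ[𝓝 ζ]
      fun w => (fun v => deriv q v / q v) (p + R * w) * R := by
    filter_upwards [hU.mem_nhds hζU] with w hw
    rw [(hQd w hw).deriv]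
    simp only [hQ]
    ring
  have hzV : AnalyticAt ℂ q z := by
    have : p + R * ζ ∈ V := hζU
    rwa [hz'] at this
  have hdiff : DifferentiableAt ℂ (fun v => deriv q v / q v) z :=
    hzV.deriv.differentiableAt.div hzV.differentiableAt e1
  have f2 : deriv (fun w => deriv Q w / Q w) ζ = deriv (fun v => deriv q v / q v) z * R * R := by
    rw [hL.deriv_eq]
    have h1 : HasDerivAt (fun v => deriv q v / q v) (deriv (fun v => deriv q v / q v) z)
        (p + R * ζ) := by rw [hz']; exact hdiff.hasDerivAt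
    exact ((h1.comp ζ (hlin ζ)).mul_const (R : ℂ)).deriv
  have hRn : ‖(R : ℂ)‖ = R := by rw [Complex.norm_real, Real.norm_eq_abs, abs_of_pos hR]
  have g1 : ‖deriv q z / q z‖ ≤ 400 * a ^ 2 / R := by
    rw [f1, mul_div_right_comm, norm_mul, hRn] at e2
    rw [le_div_iff₀ hR]
    exact e2
  have g2 : ‖deriv (fun w => deriv q w / q w) z‖ ≤ 10000 * a ^ 3 / R ^ 2 := by
    rw [f2, norm_mul, norm_mul, hRn] at e3
    rw [le_div_iff₀ (by positivity)]
    calc ‖deriv (fun w => deriv q w / q w) z‖ * R ^ 2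
        = ‖deriv (fun v => deriv q v / q v) z‖ * R * R := by ring
      _ ≤ _ := e3
  refine ⟨e1, g1, g2, ?_⟩
  have h3 : HasDerivAt (fun w => deriv q w / q w)
      ((deriv (deriv q) z * q z - deriv q z * deriv q z) / q z ^ 2) z :=
    (hzV.deriv.differentiableAt.hasDerivAt).div hzV.differentiableAt.hasDerivAt e1
  have h4 : deriv (deriv q) z / q z =
      deriv (fun w => deriv q w / q w) z + (deriv q z / q z) ^ 2 := by
    rw [h3.deriv]
    field_simp
    ring
  rw [h4]
  have ha0 : 0 < a := by linarith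
  calc ‖deriv (fun w => deriv q w / q w) z + (deriv q z / q z) ^ 2‖
      ≤ ‖deriv (fun w => deriv q w / q w) z‖ + ‖(deriv q z / q z) ^ 2‖ := norm_add_le _ _
    _ = ‖deriv (fun w => deriv q w / q w) z‖ + ‖deriv q z / q z‖ ^ 2 := by rw [norm_pow]
    _ ≤ 10000 * a ^ 3 / R ^ 2 + (400 * a ^ 2 / R) ^ 2 := by gcongr
    _ = (10000 * a ^ 3 + 160000 * a ^ 4) / R ^ 2 := by ring
    _ ≤ 170000 * a ^ 4 / R ^ 2 := by
        gcongr
        have : a ^ 3 ≤ a ^ 4 := pow_le_pow_right₀ ha (by norm_num)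
        linarith

/-- **Lemma Z**, form of 516 -/
theorem lemZ : ∃ C : ℝ, 0 < C ∧ ∀ (q : ℂ → ℂ) (p : ℂ) (R a : ℝ), 0 < R → 1 ≤ a →
    AnalyticOnNhd ℂ q (closedBall p R) → q p ≠ 0 →
    (∀ z ∈ closedBall p R, ‖q z‖ ≤ Real.exp a * ‖q p‖) →
    ∃ ρ ∈ Icc (R / 4) (R / 2), ∀ z ∈ sphere p ρ, q z ≠ 0 ∧
      ‖deriv q z / q z‖ ≤ C * a ^ 2 / R ∧
      ‖deriv (deriv q) z / q z‖ ≤ C * a ^ 4 / R ^ 2 ∧
      ‖deriv (fun w => deriv q w / q w) z‖ ≤ C * a ^ 3 / R ^ 2 := by
  refine ⟨170000, by norm_num, ?_⟩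
  intro q p R a hR ha hq h0 hM
  obtain ⟨ρ, hρ, h⟩ := lemZ' hR ha hq h0 hM
  refine ⟨ρ, hρ, fun z hz => ?_⟩
  obtain ⟨h1, h2, h3, h4⟩ := h z hz
  have ha0 : 0 < a := by linarith
  refine ⟨h1, h2.trans ?_, h4, h3.trans ?_⟩
  · gcongr
    norm_num
  · gcongr
    norm_num

end Crest.Agent.R102.LemZ329
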