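import Crest.Agent.R102.ColKB_516
import Crest.Agent.R102.LemZ_329
import Crest.Agent.R102.GrowthDefs_314

/-!
Row 102, T1-B, block GROWTH: **(COL_k)**, literal Prop of `GrowthDefs_314` (helper516).
-/

set_option autoImplicit false

open Set Filter Metric Complex Topology

noncomputable section

namespace Crest.Agent.R102.ColK516

theorem lemZ_ex : ∃ C : ℝ, LemZ C := by
  obtain ⟨C, -, h⟩ := LemZ329.lemZ
  refine ⟨C, fun q p R a hR ha hq hp hb => ?_⟩
  obtain ⟨ρ, hρ, h2⟩ := h q p R a hR ha hq hp hb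
  exact ⟨ρ, hρ, fun z hz => ⟨(h2 z hz).1, (h2 z hz).2.1, (h2 z hz).2.2.1⟩⟩

/-- **(COL_k)** -/
theorem colK : Growth.COLK := by
  intro k h0 y G _ hh0 hy hG ode per pos C' C1 κ hC' hC1 hκ
  obtain ⟨C, hZ⟩ := lemZ_ex
  exact good_column (h := h0) ⟨hh0, hy, hG, ode, per, pos⟩ hZ k hC' hC1 hκ

end Crest.Agent.R102.ColK516
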