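import Mathlib

/-!
Row 102, T1-E, (E3): **the climb on a general domain** (abstract, jointly in `(t, w)`).

`S ⊆ ℂ × ℂ` open, `Im w > 0` on `S`; base = `S ∩ {Im t < b}`; for `(t, w) ∈ S`, `b ≤ Im t`
the points `(t - w, w)`, `(t - 2 w, w)` are in `S`.  A leaf function `X₀` on the base which satisfies
the law `X (t) = X (t - w) + E (X (t - w), X (t - w) - X (t - 2 w))` extends to `S`, with
`‖X (t, w) - t‖ ≤ β t w`, `‖X (t, w) - X (t - w, w) - w‖ ≤ α t w`.
-/

set_option autoImplicit false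
set_option linter.unusedVariables false

open Set Filter Topology Metric

noncomputable section

namespace Crest.Agent.R102.ClimbG350

/-- the data of the climb on a general domain -/
structure Data (S : Set (ℂ × ℂ)) (b : ℝ) (E : ℂ × ℂ → ℂ) (dom : Set (ℂ × ℂ))
    (α β : ℂ → ℂ → ℝ) : Prop where
  S_open : IsOpen S
  S_im : ∀ t w : ℂ, (t, w) ∈ S → 0 < w.im
  S_down : ∀ t w : ℂ, (t, w) ∈ S → b ≤ t.im → (t - w, w) ∈ S ∧ (t - 2 * w, w) ∈ S
  dom_open : IsOpen dom
  E_diff : DifferentiableOn ℂ E dom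
  admit : ∀ t w : ℂ, (t, w) ∈ S → b ≤ t.im → ∀ z e : ℂ, ‖z - (t - w)‖ ≤ β (t - w) w →
    ‖e - w‖ ≤ α (t - w) w → (z, e) ∈ dom ∧ ‖E (z, e) - e‖ + α (t - w) w ≤ α t w
  rec_β : ∀ t w : ℂ, (t, w) ∈ S → b ≤ t.im → β (t - w) w + α t w ≤ β t w

/-- leaf on a set -/
structure Leaf (E : ℂ × ℂ → ℂ) (α β : ℂ → ℂ → ℝ) (T : Set (ℂ × ℂ)) (X : ℂ × ℂ → ℂ) : Prop where
  diff : DifferentiableOn ℂ X T
  near : ∀ t w : ℂ, (t, w) ∈ T → ‖X (t, w) - t‖ ≤ β t w
  step : ∀ t w : ℂ, (t, w) ∈ T → (t - w, w) ∈ T → ‖X (t, w) - X (t - w, w) - w‖ ≤ α t w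
  law : ∀ t w : ℂ, (t, w) ∈ T → (t - w, w) ∈ T → (t - 2 * w, w) ∈ T →
    X (t, w) = X (t - w, w) + E (X (t - w, w), X (t - w, w) - X (t - 2 * w, w))

variable {S : Set (ℂ × ℂ)} {b : ℝ} {E : ℂ × ℂ → ℂ} {dom : Set (ℂ × ℂ)} {α β : ℂ → ℂ → ℝ}
  {X₀ : ℂ × ℂ → ℂ}

/-- the domain after `n` steps -/
def SN (S : Set (ℂ × ℂ)) (b : ℝ) (n : ℕ) : Set (ℂ × ℂ) :=
  {p | p ∈ S ∧ p.1.im < b + n * p.2.im}

/-- the value forced by the law -/
def nxt (E : ℂ × ℂ → ℂ) (X : ℂ × ℂ → ℂ) (p : ℂ × ℂ) : ℂ :=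
  X (p.1 - p.2, p.2) + E (X (p.1 - p.2, p.2), X (p.1 - p.2, p.2) - X (p.1 - 2 * p.2, p.2))

/-- the iterates -/
def Xs (E : ℂ × ℂ → ℂ) (X₀ : ℂ × ℂ → ℂ) (b : ℝ) : ℕ → ℂ × ℂ → ℂ
  | 0 => X₀
  | n + 1 => fun p => if p.1.im < b + n * p.2.im then Xs E X₀ b n p else nxt E (Xs E X₀ b n) p

lemma Data.isOpen_SN (D : Data S b E dom α β) (n : ℕ) : IsOpen (SN S b n) := by
  have : SN S b n = S ∩ {p | p.1.im < b + n * p.2.im} := rfl
  rw [this]
  refine D.S_open.inter (isOpen_lt ?_ ?_)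
  · exact Complex.continuous_im.comp continuous_fst
  · exact continuous_const.add (continuous_const.mul (Complex.continuous_im.comp continuous_snd))

lemma Data.up (D : Data S b E dom α β) {p : ℂ × ℂ} {n m : ℕ} (hp : p ∈ SN S b n) (hnm : n ≤ m) :
    p ∈ SN S b m := by
  refine ⟨hp.1, lt_of_lt_of_le hp.2 ?_⟩
  have hv := D.S_im p.1 p.2 hp.1
  have : (n : ℝ) ≤ m := by exact_mod_cast hnm
  nlinarith

/-- points below a point of `SN (n+1)` -/
lemma Data.down (D : Data S b E dom α β) {n : ℕ} {t w : ℂ} (ht : (t, w) ∈ SN S b (n + 1))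
    (h2 : b ≤ t.im) : (t - w, w) ∈ SN S b n ∧ (t - 2 * w, w) ∈ SN S b n := by
  have hv := D.S_im t w ht.1
  have htn : t.im < b + (n + 1 : ℕ) * w.im := ht.2
  push_cast at htn
  have e1 : (t - w).im = t.im - w.im := by simp
  have e2 : (t - 2 * w).im = t.im - 2 * w.im := by simp
  obtain ⟨m1, m2⟩ := D.S_down t w ht.1 h2
  refine ⟨⟨m1, ?_⟩, ⟨m2, ?_⟩⟩
  · show (t - w).im < b + n * w.im; rw [e1]; linarith
  · show (t - 2 * w).im < b + n * w.im; rw [e2]; linarith

/-- the step: bounds of the next value -/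
lemma Data.nxt_bounds (D : Data S b E dom α β) {n : ℕ} {X : ℂ × ℂ → ℂ}
    (hX : Leaf E α β (SN S b n) X) {t w : ℂ} (ht : (t, w) ∈ SN S b (n + 1)) (h2 : b ≤ t.im) :
    (X (t - w, w), X (t - w, w) - X (t - 2 * w, w)) ∈ dom ∧
    ‖nxt E X (t, w) - X (t - w, w) - w‖ ≤ α t w ∧ ‖nxt E X (t, w) - t‖ ≤ β t w := by
  obtain ⟨m1, m2⟩ := D.down ht h2
  have e3 : t - w - w = t - 2 * w := by ring
  have b1 := hX.near _ _ m1
  have b2 := hX.step (t - w) w m1 (by rw [e3]; exact m2)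
  rw [e3] at b2
  set a := X (t - w, w) with ha
  set c := X (t - 2 * w, w) with hc
  obtain ⟨c1, c2⟩ := D.admit t w ht.1 h2 a (a - c) b1 b2
  have c3 := D.rec_β t w ht.1 h2
  have hn : nxt E X (t, w) = a + E (a, a - c) := rfl
  refine ⟨c1, ?_, ?_⟩
  · rw [hn]
    have : a + E (a, a - c) - a - w = (E (a, a - c) - (a - c)) + (a - c - w) := by ring
    rw [this]
    refine (norm_add_le _ _).trans ?_
    linarith
  · rw [hn]
    have : a + E (a, a - c) - t = (E (a, a - c) - (a - c)) + (a - c - w) + (a - (t - w)) := by ring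
    rw [this]
    refine (norm_add_le _ _).trans ?_
    have := norm_add_le (E (a, a - c) - (a - c)) (a - c - w)
    linarith

/-- differentiability of the next value -/
lemma Data.nxt_diff (D : Data S b E dom α β) {n : ℕ} {X : ℂ × ℂ → ℂ}
    (hX : Leaf E α β (SN S b n) X) {t w : ℂ} (ht : (t, w) ∈ SN S b (n + 1)) (h2 : b ≤ t.im) :
    DifferentiableAt ℂ (nxt E X) (t, w) := by
  obtain ⟨m1, m2⟩ := D.down ht h2
  have k1 : DifferentiableAt ℂ (fun p : ℂ × ℂ => X (p.1 - p.2, p.2)) (t, w) :=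
    DifferentiableAt.comp (t, w) (g := X) (f := fun p : ℂ × ℂ => (p.1 - p.2, p.2))
      (hX.diff.differentiableAt ((D.isOpen_SN n).mem_nhds m1)) (by fun_prop)
  have k2 : DifferentiableAt ℂ (fun p : ℂ × ℂ => X (p.1 - 2 * p.2, p.2)) (t, w) :=
    DifferentiableAt.comp (t, w) (g := X) (f := fun p : ℂ × ℂ => (p.1 - 2 * p.2, p.2))
      (hX.diff.differentiableAt ((D.isOpen_SN n).mem_nhds m2)) (by fun_prop)
  have k3 := (D.nxt_bounds hX ht h2).1
  have k4 : DifferentiableAt ℂ E (X (t - w, w), X (t - w, w) - X (t - 2 * w, w)) :=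
    D.E_diff.differentiableAt (D.dom_open.mem_nhds k3)
  exact k1.add (DifferentiableAt.comp (t, w) (g := E)
    (f := fun p : ℂ × ℂ => (X (p.1 - p.2, p.2), X (p.1 - p.2, p.2) - X (p.1 - 2 * p.2, p.2)))
    k4 (k1.prodMk (k1.sub k2)))

/-- **the induction** -/
theorem Data.leaf_n (D : Data S b E dom α β) (h0 : Leaf E α β (SN S b 0) X₀)
    (n : ℕ) : Leaf E α β (SN S b n) (Xs E X₀ b n) := by
  induction n with
  | zero => exact h0
  | succ n ih =>
    have val1 : ∀ p : ℂ × ℂ, p ∈ SN S b n → Xs E X₀ b (n + 1) p = Xs E X₀ b n p := by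
      intro p hp
      show (if p.1.im < b + n * p.2.im then Xs E X₀ b n p else nxt E (Xs E X₀ b n) p) = _
      rw [if_pos hp.2]
    have high : ∀ t w : ℂ, (t, w) ∈ SN S b (n + 1) → ¬ (t, w) ∈ SN S b n → b ≤ t.im := by
      intro t w ht hn
      have hv := D.S_im t w ht.1
      have : ¬ t.im < b + n * w.im := fun h => hn ⟨ht.1, h⟩
      rw [not_lt] at this
      have hnn : (0 : ℝ) ≤ n * w.im := mul_nonneg (Nat.cast_nonneg n) hv.le
      linarith
    have val2 : ∀ t w : ℂ, ¬ (t, w) ∈ SN S b n → (t, w) ∈ S →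
        Xs E X₀ b (n + 1) (t, w) = nxt E (Xs E X₀ b n) (t, w) := by
      intro t w hn hS
      show (if t.im < b + n * w.im then _ else _) = _
      rw [if_neg (fun h => hn ⟨hS, h⟩)]
    refine ⟨?_, ?_, ?_, ?_⟩
    · -- differentiability
      rintro ⟨t, w⟩ ht
      by_cases hn : (t, w) ∈ SN S b n
      · have h1 := ih.diff.differentiableAt ((D.isOpen_SN n).mem_nhds hn)
        have h2 : Xs E X₀ b (n + 1) =ᶠ[𝓝 (t, w)] Xs E X₀ b n := by
          filter_upwards [(D.isOpen_SN n).mem_nhds hn] with p hp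
          exact val1 p hp
        exact (h1.congr_of_eventuallyEq h2).differentiableWithinAt
      · have hb := high t w ht hn
        obtain ⟨m1, m2⟩ := D.down ht hb
        have h1 := D.nxt_diff ih ht hb
        have h2 : Xs E X₀ b (n + 1) =ᶠ[𝓝 (t, w)] nxt E (Xs E X₀ b n) := by
          have o1 : ∀ᶠ p : ℂ × ℂ in 𝓝 (t, w), (p.1 - p.2, p.2) ∈ SN S b n := by
            have hc : ContinuousAt (fun p : ℂ × ℂ => (p.1 - p.2, p.2)) (t, w) := by fun_prop
            exact hc.eventually_mem ((D.isOpen_SN n).mem_nhds m1)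
          have o2 : ∀ᶠ p : ℂ × ℂ in 𝓝 (t, w), (p.1 - 2 * p.2, p.2) ∈ SN S b n := by
            have hc : ContinuousAt (fun p : ℂ × ℂ => (p.1 - 2 * p.2, p.2)) (t, w) := by fun_prop
            exact hc.eventually_mem ((D.isOpen_SN n).mem_nhds m2)
          filter_upwards [o1, o2, (D.isOpen_SN (n + 1)).mem_nhds ht] with p p1 p2 p3
          by_cases hp : p ∈ SN S b n
          · rw [val1 p hp]
            exact ih.law p.1 p.2 hp p1 p2
          · exact val2 p.1 p.2 hp p3.1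
        exact (h1.congr_of_eventuallyEq h2).differentiableWithinAt
    · intro t w ht
      by_cases hn : (t, w) ∈ SN S b n
      · rw [val1 _ hn]; exact ih.near t w hn
      · rw [val2 t w hn ht.1]
        exact (D.nxt_bounds ih ht (high t w ht hn)).2.2
    · intro t w ht hm
      by_cases hn : (t, w) ∈ SN S b n
      · have hm1 : (t - w, w) ∈ SN S b n := by
          refine ⟨hm.1, ?_⟩
          have h1 : t.im < b + n * w.im := hn.2
          have hv := D.S_im t w ht.1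
          show (t - w).im < b + n * w.im
          rw [Complex.sub_im]; linarith
        rw [val1 _ hn, val1 _ hm1]; exact ih.step t w hn hm1
      · have hb := high t w ht hn
        rw [val1 _ (D.down ht hb).1, val2 t w hn ht.1]
        exact (D.nxt_bounds ih ht hb).2.1
    · intro t w ht hm hm'
      by_cases hn : (t, w) ∈ SN S b n
      · have h1 : t.im < b + n * w.im := hn.2
        have hv := D.S_im t w ht.1
        have hm1 : (t - w, w) ∈ SN S b n := by
          refine ⟨hm.1, ?_⟩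
          show (t - w).im < b + n * w.im
          rw [Complex.sub_im]; linarith
        have hm2 : (t - 2 * w, w) ∈ SN S b n := by
          refine ⟨hm'.1, ?_⟩
          show (t - 2 * w).im < b + n * w.im
          have e2 : (t - 2 * w).im = t.im - 2 * w.im := by simp
          rw [e2]; linarith
        rw [val1 _ hn, val1 _ hm1, val1 _ hm2]; exact ih.law t w hn hm1 hm2
      · have hb := high t w ht hn
        obtain ⟨m1, m2⟩ := D.down ht hb
        rw [val1 _ m1, val1 _ m2, val2 t w hn ht.1]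
        rfl

/-- number of steps -/
def Nst (b : ℝ) (p : ℂ × ℂ) : ℕ := ⌊(p.1.im - b) / p.2.im⌋₊ + 1

/-- the extended leaf -/
def Xf (E : ℂ × ℂ → ℂ) (X₀ : ℂ × ℂ → ℂ) (b : ℝ) (p : ℂ × ℂ) : ℂ := Xs E X₀ b (Nst b p) p

lemma Data.mem_Nst (D : Data S b E dom α β) {p : ℂ × ℂ} (hp : p ∈ S) : p ∈ SN S b (Nst b p) := by
  refine ⟨hp, ?_⟩
  have hv := D.S_im p.1 p.2 hp
  have h1 := Nat.lt_floor_add_one ((p.1.im - b) / p.2.im)
  rw [div_lt_iff₀ hv] at h1
  have h2 : ((Nst b p : ℕ) : ℝ) = (⌊(p.1.im - b) / p.2.im⌋₊ : ℝ) + 1 := by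
    unfold Nst; push_cast; ring
  rw [h2]
  linarith

lemma Data.Xs_stable (D : Data S b E dom α β) {p : ℂ × ℂ} {n m : ℕ}
    (hp : p ∈ SN S b n) (hnm : n ≤ m) : Xs E X₀ b m p = Xs E X₀ b n p := by
  induction m, hnm using Nat.le_induction with
  | base => rfl
  | succ m hm ih =>
    have h1 : p ∈ SN S b m := D.up hp hm
    show (if p.1.im < b + m * p.2.im then Xs E X₀ b m p else nxt E (Xs E X₀ b m) p) = _
    rw [if_pos h1.2, ih]

lemma Data.Xf_eq (D : Data S b E dom α β) {p : ℂ × ℂ} {n : ℕ}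
    (hp : p ∈ SN S b n) : Xf E X₀ b p = Xs E X₀ b n p := by
  unfold Xf
  rcases le_total n (Nst b p) with h | h
  · exact D.Xs_stable hp h
  · exact (D.Xs_stable (D.mem_Nst hp.1) h).symm

/-- **the climb** on a general domain, jointly in `(t, w)` -/
theorem Data.climb (D : Data S b E dom α β) (h0 : Leaf E α β (SN S b 0) X₀) :
    Leaf E α β S (Xf E X₀ b) ∧
      ∀ t w : ℂ, (t, w) ∈ S → t.im < b → Xf E X₀ b (t, w) = X₀ (t, w) := by
  refine ⟨⟨?_, ?_, ?_, ?_⟩, ?_⟩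
  · intro p hp
    have hn := D.mem_Nst hp
    have h1 := (D.leaf_n h0 (Nst b p)).diff.differentiableAt ((D.isOpen_SN _).mem_nhds hn)
    have h2 : Xf E X₀ b =ᶠ[𝓝 p] Xs E X₀ b (Nst b p) := by
      filter_upwards [(D.isOpen_SN _).mem_nhds hn] with q hq
      exact D.Xf_eq hq
    exact (h1.congr_of_eventuallyEq h2).differentiableWithinAt
  · intro t w ht
    have hn := D.mem_Nst ht
    rw [D.Xf_eq hn]
    exact (D.leaf_n h0 _).near t w hn
  · intro t w ht ht'
    have m1 := D.up (D.mem_Nst ht) (le_max_left _ (Nst b (t - w, w)))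
    have m2 := D.up (D.mem_Nst ht') (le_max_right (Nst b (t, w)) _)
    rw [D.Xf_eq m1, D.Xf_eq m2]
    exact (D.leaf_n h0 _).step t w m1 m2
  · intro t w ht ht' ht''
    set n := max (max (Nst b (t, w)) (Nst b (t - w, w))) (Nst b (t - 2 * w, w)) with hnd
    have m1 : (t, w) ∈ SN S b n := D.up (D.mem_Nst ht) ((le_max_left _ _).trans (le_max_left _ _))
    have m2 : (t - w, w) ∈ SN S b n :=
      D.up (D.mem_Nst ht') ((le_max_right _ _).trans (le_max_left _ _))
    have m3 : (t - 2 * w, w) ∈ SN S b n := D.up (D.mem_Nst ht'') (le_max_right _ _)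
    rw [D.Xf_eq m1, D.Xf_eq m2, D.Xf_eq m3]
    exact (D.leaf_n h0 _).law t w m1 m2 m3
  · intro t w ht h
    have : (t, w) ∈ SN S b 0 := ⟨ht, by simpa using h⟩
    rw [D.Xf_eq this]
    rfl

end Crest.Agent.R102.ClimbG350
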