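import Mathlib
import Crest.Agent.R102.ClimbG_350
import Crest.Agent.R102.StepE_599

/-!
Row 102, T1-E, **(CC) the column climb** (516 #26350 (5)).

`y = θ'`, `y'' = (K - 2 y²) y`.  On the ball `closedBall c R`: `|y| ≤ κ / s`, `|K| ≤ 3 κ² / s²`,
`κ ≤ 10⁻⁴`, `10⁴ s ≤ R`.  Column `Col c R s b` over the base height `b` (`|b - Im c| ≤ R / 400`):
`‖w‖ < 2 s`, `‖w‖ < 32 Im w`, `b - 4 s < Im t`, `|Re (t - c)| + 32 (Im t - b) < R / 2`.
A label function known for `Im t < b` extends to the column, with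
`|X (t, w) - t| ≤ R / 80`, `|X (t, w) - X (t - w, w) - w| ≤ |w| / 500`.
-/

set_option autoImplicit false
set_option linter.unusedVariables false

open Set Filter Topology Metric

noncomputable section

namespace Crest.Agent.R102.ColE350

open Crest.Agent.R102.StepE599

/-- the chords -/
def Wd (s : ℝ) : Set ℂ := {w | ‖w‖ < 2 * s ∧ ‖w‖ < 32 * w.im}

/-- the column -/
def Col (c : ℂ) (R s b : ℝ) : Set (ℂ × ℂ) :=
  {p | p.2 ∈ Wd s ∧ b - 4 * s < p.1.im ∧ |p.1.re - c.re| + 32 * (p.1.im - b) < R / 2}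

/-- the datum is small on the big ball -/
structure SmallD (θ K : ℂ → ℂ) (c : ℂ) (R s κ : ℝ) : Prop where
  s_pos : 0 < s
  sR : 10 ^ 4 * s ≤ R
  κ_pos : 0 ≤ κ
  κ_le : κ ≤ 1 / 10 ^ 4
  y_le : ∀ z : ℂ, ‖z - c‖ ≤ R → ‖deriv θ z‖ ≤ κ / s
  K_le : ∀ z : ℂ, ‖z - c‖ ≤ R → ‖K z‖ ≤ 3 * κ ^ 2 / s ^ 2

variable {θ H K : ℂ → ℂ} {c : ℂ} {R s κ b : ℝ}

lemma SmallD.R_pos (D : SmallD θ K c R s κ) : 0 < R := by
  have h1 := D.s_pos
  have h2 := D.sR
  have : (0 : ℝ) < 10 ^ 4 * s := by positivity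
  linarith

lemma SmallD.good (D : SmallD θ K c R s κ) {z : ℂ} (hz : ‖z - c‖ ≤ 2 / 3 * R) :
    Good θ K z (10 * s) := by
  have hs := D.s_pos
  have hR := D.R_pos
  have hsR := D.sR
  have hin : ∀ x : ℂ, ‖x - z‖ ≤ 10 * s → ‖x - c‖ ≤ R := by
    intro x hx
    have : ‖x - c‖ ≤ ‖x - z‖ + ‖z - c‖ := by simpa using norm_add_le (x - z) (z - c)
    linarith
  refine ⟨by positivity, ?_, ?_⟩
  · intro x hx
    have h1 := D.y_le x (hin x hx)
    calc ‖deriv θ x‖ * (10 * s) ≤ κ / s * (10 * s) :=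
          mul_le_mul_of_nonneg_right h1 (by positivity)
      _ = 10 * κ := by field_simp
      _ ≤ 1 / 200 := by linarith [D.κ_le]
  · intro x hx
    have h1 := D.K_le x (hin x hx)
    have h2 : κ ^ 2 ≤ (1 / 10 ^ 4) ^ 2 := pow_le_pow_left₀ D.κ_pos D.κ_le 2
    calc ‖K x‖ * (10 * s) ^ 2 ≤ 3 * κ ^ 2 / s ^ 2 * (10 * s) ^ 2 :=
          mul_le_mul_of_nonneg_right h1 (by positivity)
      _ = 300 * κ ^ 2 := by field_simp; ring
      _ ≤ 1 / 200 := by norm_num at h2 ⊢; linarith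

lemma cauchy_le {f : ℂ → ℂ} (hf : Differentiable ℂ f) {M r : ℝ} {z : ℂ} (hr : 0 < r)
    (hM : ∀ x : ℂ, ‖x - z‖ ≤ r → ‖f x‖ ≤ M) : ‖deriv f z‖ ≤ M / r :=
  Complex.norm_deriv_le_of_forall_mem_sphere_norm_le hr hf.diffContOnCl
    (fun x hx => hM x (by rw [mem_sphere_iff_norm] at hx; exact hx.le))

lemma SmallD.bd (D : SmallD θ K c R s κ) (h : Ent θ H K) {z : ℂ} (hz : ‖z - c‖ ≤ 2 / 3 * R)
    {e : ℂ} (he : ‖e‖ ≤ 5 * s) :
    Bd θ K z ‖e‖ (κ / s) (8 * κ / (s * R)) (24 * κ ^ 2 / (s ^ 2 * R)) := by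
  have hs := D.s_pos
  have hR := D.R_pos
  have hsR := D.sR
  have hin : ∀ x : ℂ, ‖x - z‖ ≤ ‖e‖ → ∀ x' : ℂ, ‖x' - x‖ ≤ R / 8 → ‖x' - c‖ ≤ R := by
    intro x hx x' hx'
    have h1 : ‖x - c‖ ≤ ‖x - z‖ + ‖z - c‖ := by simpa using norm_add_le (x - z) (z - c)
    have h2 : ‖x' - c‖ ≤ ‖x' - x‖ + ‖x - c‖ := by simpa using norm_add_le (x' - x) (x - c)
    linarith
  refine ⟨?_, ?_, ?_⟩
  · intro x hx
    exact D.y_le x (hin x hx x (by simpa using by positivity))
  · intro x hx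
    have := cauchy_le (f := deriv θ) (M := κ / s) (r := R / 8) (z := x) h.dθ1 (by positivity)
      (fun x' hx' => D.y_le x' (hin x hx x' hx'))
    refine this.trans (le_of_eq ?_)
    field_simp
  · intro x hx
    have := cauchy_le (f := K) (M := 3 * κ ^ 2 / s ^ 2) (r := R / 8) (z := x) h.dK (by positivity)
      (fun x' hx' => D.K_le x' (hin x hx x' hx'))
    refine this.trans (le_of_eq ?_)
    field_simp
    ring

/-- the step estimate in the ball -/
lemma SmallD.st_near (D : SmallD θ K c R s κ) (h : Ent θ H K) {z : ℂ}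
    (hz : ‖z - c‖ ≤ 2 / 3 * R) {e : ℂ} (he : ‖e‖ ≤ 5 * s) :
    ‖st θ H z e - e‖ ≤ 8000 * κ ^ 2 / (s ^ 2 * R) * ‖e‖ ^ 4 := by
  have hs := D.s_pos
  have hR := D.R_pos
  have := StepE599.st_near h (D.good hz) (by linarith) (D.bd h hz he)
  refine this.trans (le_of_eq ?_)
  field_simp
  ring

/-- error functions of the climb -/
def al (R s κ b : ℝ) (t w : ℂ) : ℝ :=
  ‖w‖ / 1000 + 64000 * κ ^ 2 / R * ‖w‖ ^ 2 * ((t.im - b + 4 * s) / w.im)

def be (R s b : ℝ) (t w : ℂ) : ℝ := R / 100 + ‖w‖ / 500 * ((t.im - b + 4 * s) / w.im)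

lemma Wd.im_pos {w : ℂ} (hw : w ∈ Wd s) : 0 < w.im := by
  have h1 := norm_nonneg w
  have h2 := hw.2
  linarith

lemma Wd.ratio {w : ℂ} (hw : w ∈ Wd s) {x : ℝ} (hx : 0 ≤ x) : ‖w‖ * (x / w.im) ≤ 32 * x := by
  have hv := Wd.im_pos hw
  rw [mul_div_assoc', div_le_iff₀ hv]
  nlinarith [hw.2]

/-- height in the column -/
lemma Col.hgt (D : SmallD θ K c R s κ) {t w : ℂ} (ht : (t, w) ∈ Col c R s b) :
    0 < t.im - b + 4 * s ∧ t.im - b + 4 * s ≤ R / 50 := by
  have h1 : b - 4 * s < t.im := ht.2.1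
  have h2 : |t.re - c.re| + 32 * (t.im - b) < R / 2 := ht.2.2
  have h3 := abs_nonneg (t.re - c.re)
  have h4 := D.sR
  have h5 := D.R_pos
  constructor
  · linarith
  · norm_num at h4
    linarith

lemma al_le (D : SmallD θ K c R s κ) {t w : ℂ} (hw : w ∈ Wd s) (h0 : 0 ≤ t.im - b + 4 * s)
    (h1 : t.im - b + 4 * s ≤ R / 50) : al R s κ b t w ≤ ‖w‖ / 500 := by
  have hR := D.R_pos
  have h2 := Wd.ratio hw h0
  have h3 : κ ^ 2 ≤ (1 / 10 ^ 4) ^ 2 := pow_le_pow_left₀ D.κ_pos D.κ_le 2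
  have h4 : ‖w‖ * ((t.im - b + 4 * s) / w.im) ≤ 32 * (R / 50) := by linarith
  have h5 : 64000 * κ ^ 2 / R * ‖w‖ ^ 2 * ((t.im - b + 4 * s) / w.im) ≤
      64000 * κ ^ 2 / R * ‖w‖ * (32 * (R / 50)) := by
    have : 64000 * κ ^ 2 / R * ‖w‖ ^ 2 * ((t.im - b + 4 * s) / w.im) =
        64000 * κ ^ 2 / R * ‖w‖ * (‖w‖ * ((t.im - b + 4 * s) / w.im)) := by ring
    rw [this]
    exact mul_le_mul_of_nonneg_left h4 (by positivity)
  have h6 : 64000 * κ ^ 2 / R * ‖w‖ * (32 * (R / 50)) = 40960 * κ ^ 2 * ‖w‖ := by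
    field_simp
    ring
  have h7 : 40960 * κ ^ 2 * ‖w‖ ≤ ‖w‖ / 1000 := by
    have := norm_nonneg w
    norm_num at h3
    nlinarith
  unfold al
  linarith

lemma be_le (D : SmallD θ K c R s κ) {t w : ℂ} (hw : w ∈ Wd s) (h0 : 0 ≤ t.im - b + 4 * s)
    (h1 : t.im - b + 4 * s ≤ R / 50) : be R s b t w ≤ R / 80 := by
  have hR := D.R_pos
  have h2 := Wd.ratio hw h0
  unfold be
  have h3 : ‖w‖ / 500 * ((t.im - b + 4 * s) / w.im) =
      ‖w‖ * ((t.im - b + 4 * s) / w.im) / 500 := by ring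
  rw [h3]
  linarith

lemma isOpen_Col : IsOpen (Col c R s b) := by
  have h1 : IsOpen {p : ℂ × ℂ | ‖p.2‖ < 2 * s} :=
    isOpen_lt (continuous_norm.comp continuous_snd) continuous_const
  have h2 : IsOpen {p : ℂ × ℂ | ‖p.2‖ < 32 * p.2.im} :=
    isOpen_lt (continuous_norm.comp continuous_snd)
      (continuous_const.mul (Complex.continuous_im.comp continuous_snd))
  have h3 : IsOpen {p : ℂ × ℂ | b - 4 * s < p.1.im} :=
    isOpen_lt continuous_const (Complex.continuous_im.comp continuous_fst)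
  have h4 : IsOpen {p : ℂ × ℂ | |p.1.re - c.re| + 32 * (p.1.im - b) < R / 2} :=
    isOpen_lt (((Complex.continuous_re.comp continuous_fst).sub continuous_const).abs.add
      (continuous_const.mul ((Complex.continuous_im.comp continuous_fst).sub continuous_const)))
      continuous_const
  have h5 : Col c R s b = ({p : ℂ × ℂ | ‖p.2‖ < 2 * s} ∩ {p : ℂ × ℂ | ‖p.2‖ < 32 * p.2.im}) ∩
      ({p : ℂ × ℂ | b - 4 * s < p.1.im} ∩
        {p : ℂ × ℂ | |p.1.re - c.re| + 32 * (p.1.im - b) < R / 2}) := by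
    ext p
    rfl
  rw [h5]
  exact (h1.inter h2).inter (h3.inter h4)

/-- a point of the column is well inside the ball -/
lemma Col.dist (D : SmallD θ K c R s κ) (hb : |b - c.im| ≤ R / 400) {t w : ℂ}
    (ht : (t, w) ∈ Col c R s b) : ‖t - c‖ ≤ 11 / 20 * R := by
  have hR := D.R_pos
  have hsR := D.sR
  have h1 : b - 4 * s < t.im := ht.2.1
  have h2 : |t.re - c.re| + 32 * (t.im - b) < R / 2 := ht.2.2
  have h3 := abs_nonneg (t.re - c.re)
  have h5 := Complex.norm_le_abs_re_add_abs_im (t - c)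
  rw [Complex.sub_re, Complex.sub_im] at h5
  have h6 : |t.im - c.im| ≤ |t.im - b| + |b - c.im| := by
    have := abs_add_le (t.im - b) (b - c.im)
    rwa [show t.im - b + (b - c.im) = t.im - c.im by ring] at this
  have h7 : |t.im - b| ≤ R / 60 := by
    rw [abs_le]
    norm_num at hsR
    constructor <;> linarith
  norm_num at hsR
  linarith

/-- **the column climb** -/
theorem column_climb (D : SmallD θ K c R s κ) (h : Ent θ H K) (hb : |b - c.im| ≤ R / 400)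
    {X₀ : ℂ × ℂ → ℂ}
    (h0d : DifferentiableOn ℂ X₀ {x | x ∈ Col c R s b ∧ x.1.im < b})
    (h0n : ∀ t w : ℂ, (t, w) ∈ Col c R s b → t.im < b → ‖X₀ (t, w) - t‖ ≤ R / 100)
    (h0s : ∀ t w : ℂ, (t, w) ∈ Col c R s b → t.im < b → (t - w, w) ∈ Col c R s b →
      ‖X₀ (t, w) - X₀ (t - w, w) - w‖ ≤ ‖w‖ / 1000)
    (h0l : ∀ t w : ℂ, (t, w) ∈ Col c R s b → t.im < b → (t - w, w) ∈ Col c R s b →
      (t - 2 * w, w) ∈ Col c R s b →
      X₀ (t, w) = X₀ (t - w, w) + st θ H (X₀ (t - w, w)) (X₀ (t - w, w) - X₀ (t - 2 * w, w))) :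
    ∃ X : ℂ × ℂ → ℂ, DifferentiableOn ℂ X (Col c R s b) ∧
      (∀ t w : ℂ, (t, w) ∈ Col c R s b → t.im < b → X (t, w) = X₀ (t, w)) ∧
      (∀ t w : ℂ, (t, w) ∈ Col c R s b → ‖X (t, w) - t‖ ≤ R / 80) ∧
      (∀ t w : ℂ, (t, w) ∈ Col c R s b → (t - w, w) ∈ Col c R s b →
        ‖X (t, w) - X (t - w, w) - w‖ ≤ ‖w‖ / 500) ∧
      (∀ t w : ℂ, (t, w) ∈ Col c R s b → (t - w, w) ∈ Col c R s b →
        (t - 2 * w, w) ∈ Col c R s b →
        X (t, w) = X (t - w, w) + st θ H (X (t - w, w)) (X (t - w, w) - X (t - 2 * w, w))) := by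
  have hs := D.s_pos
  have hR := D.R_pos
  have hsR := D.sR
  set dom : Set (ℂ × ℂ) := {x | ‖x.1 - c‖ < 2 / 3 * R ∧ x.2 ≠ 0 ∧ ‖x.2‖ < 5 * s} with hdom
  have hdo : IsOpen dom := by
    have h1 : IsOpen {x : ℂ × ℂ | ‖x.1 - c‖ < 2 / 3 * R} :=
      isOpen_lt (continuous_fst.sub continuous_const).norm continuous_const
    have h2 : IsOpen {x : ℂ × ℂ | x.2 ≠ 0} :=
      (isOpen_ne (x := (0 : ℂ))).preimage continuous_snd
    have h3 : IsOpen {x : ℂ × ℂ | ‖x.2‖ < 5 * s} :=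
      isOpen_lt continuous_snd.norm continuous_const
    exact h1.inter (h2.inter h3)
  have hDat : ClimbG350.Data (Col c R s b) b (fun x : ℂ × ℂ => st θ H x.1 x.2) dom
      (al R s κ b) (be R s b) := by
    refine ⟨isOpen_Col, fun t w ht => Wd.im_pos ht.1, ?_, hdo, ?_, ?_, ?_⟩
    · intro t w ht hbt
      have hw : w ∈ Wd s := ht.1
      have hv := Wd.im_pos hw
      have hw1 : ‖w‖ < 2 * s := hw.1
      have hw2 : ‖w‖ < 32 * w.im := hw.2
      have hi := Complex.abs_im_le_norm w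
      have hr := Complex.abs_re_le_norm w
      rw [abs_of_pos hv] at hi
      have h2 : |t.re - c.re| + 32 * (t.im - b) < R / 2 := ht.2.2
      have e1 : (t - w).im = t.im - w.im := by simp
      have e2 : (t - 2 * w).im = t.im - 2 * w.im := by simp
      have e3 : (t - w).re = t.re - w.re := by simp
      have e4 : (t - 2 * w).re = t.re - 2 * w.re := by simp
      refine ⟨⟨hw, ?_, ?_⟩, ⟨hw, ?_, ?_⟩⟩
      · show b - 4 * s < (t - w).im
        rw [e1]; linarith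
      · show |(t - w).re - c.re| + 32 * ((t - w).im - b) < R / 2
        rw [e1, e3]
        have : |t.re - w.re - c.re| ≤ |t.re - c.re| + |w.re| := by
          have := abs_sub (t.re - c.re) w.re
          rwa [show t.re - c.re - w.re = t.re - w.re - c.re by ring] at this
        linarith
      · show b - 4 * s < (t - 2 * w).im
        rw [e2]; linarith
      · show |(t - 2 * w).re - c.re| + 32 * ((t - 2 * w).im - b) < R / 2
        rw [e2, e4]
        have : |t.re - 2 * w.re - c.re| ≤ |t.re - c.re| + |2 * w.re| := by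
          have := abs_sub (t.re - c.re) (2 * w.re)
          rwa [show t.re - c.re - 2 * w.re = t.re - 2 * w.re - c.re by ring] at this
        rw [abs_mul, abs_two] at this
        linarith
    · rintro ⟨z, e⟩ ⟨h1, h2, h3⟩
      exact (st_differentiableAt h (D.good h1.le) h2 (by simp only at h3; linarith)).differentiableWithinAt
    · intro t w ht hbt z e hz he
      have hw : w ∈ Wd s := ht.1
      have hv := Wd.im_pos hw
      have hw1 : ‖w‖ < 2 * s := hw.1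
      have hwp : 0 < ‖w‖ := by
        refine norm_pos_iff.2 (fun h => ?_)
        rw [h] at hv
        simp at hv
      have hi := Complex.abs_im_le_norm w
      rw [abs_of_pos hv] at hi
      obtain ⟨g1, g2⟩ := Col.hgt D ht
      have e1 : (t - w).im = t.im - w.im := by simp
      have k0 : 0 ≤ (t - w).im - b + 4 * s := by rw [e1]; linarith
      have k1 : (t - w).im - b + 4 * s ≤ R / 50 := by rw [e1]; linarith
      have a1 := al_le D hw k0 k1
      have b1 := be_le D hw k0 k1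
      have htc := Col.dist D hb ht
      have hzc : ‖z - c‖ < 2 / 3 * R := by
        have : z - c = (z - (t - w)) + ((t - c) - w) := by ring
        rw [this]
        refine (norm_add_le _ _).trans_lt ?_
        have := norm_sub_le (t - c) w
        norm_num at hsR
        linarith
      have hew : ‖e‖ ≤ 11 / 10 * ‖w‖ := by
        have : e = (e - w) + w := by ring
        rw [this]
        refine (norm_add_le _ _).trans ?_
        linarith
      have he0 : e ≠ 0 := by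
        intro h0
        rw [h0, zero_sub, norm_neg] at he
        linarith
      have he5 : ‖e‖ < 5 * s := by linarith
      refine ⟨⟨hzc, he0, he5⟩, ?_⟩
      have st1 := D.st_near h hzc.le he5.le
      have st2 : 8000 * κ ^ 2 / (s ^ 2 * R) * ‖e‖ ^ 4 ≤ 64000 * κ ^ 2 / R * ‖w‖ ^ 2 := by
        have p1 : ‖e‖ ^ 4 ≤ (11 / 10 * ‖w‖) ^ 4 := pow_le_pow_left₀ (norm_nonneg _) hew 4
        have p2 : (11 / 10 * ‖w‖) ^ 4 ≤ 2 * (‖w‖ ^ 2 * ‖w‖ ^ 2) := by
          have : (11 / 10 * ‖w‖) ^ 4 = (11 / 10) ^ 4 * (‖w‖ ^ 2 * ‖w‖ ^ 2) := by ring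
          rw [this]
          have : (0 : ℝ) ≤ ‖w‖ ^ 2 * ‖w‖ ^ 2 := by positivity
          norm_num
          linarith
        have p3 : ‖w‖ ^ 2 ≤ (2 * s) ^ 2 := pow_le_pow_left₀ (norm_nonneg _) hw1.le 2
        have p4 : ‖e‖ ^ 4 ≤ 2 * (‖w‖ ^ 2 * (2 * s) ^ 2) := by
          have : ‖w‖ ^ 2 * ‖w‖ ^ 2 ≤ ‖w‖ ^ 2 * (2 * s) ^ 2 :=
            mul_le_mul_of_nonneg_left p3 (by positivity)
          linarith
        calc 8000 * κ ^ 2 / (s ^ 2 * R) * ‖e‖ ^ 4
            ≤ 8000 * κ ^ 2 / (s ^ 2 * R) * (2 * (‖w‖ ^ 2 * (2 * s) ^ 2)) :=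
              mul_le_mul_of_nonneg_left p4 (by positivity)
          _ = 64000 * κ ^ 2 / R * ‖w‖ ^ 2 := by field_simp; ring
      have hal : al R s κ b t w = al R s κ b (t - w) w + 64000 * κ ^ 2 / R * ‖w‖ ^ 2 := by
        unfold al
        rw [e1]
        have hv' : w.im ≠ 0 := hv.ne'
        field_simp
        ring
      show ‖st θ H z e - e‖ + al R s κ b (t - w) w ≤ al R s κ b t w
      rw [hal]
      linarith
    · intro t w ht hbt
      have hw : w ∈ Wd s := ht.1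
      have hv := Wd.im_pos hw
      obtain ⟨g1, g2⟩ := Col.hgt D ht
      have a1 := al_le D hw g1.le g2
      have e1 : (t - w).im = t.im - w.im := by simp
      have hbe : be R s b t w = be R s b (t - w) w + ‖w‖ / 500 := by
        unfold be
        rw [e1]
        have hv' : w.im ≠ 0 := hv.ne'
        field_simp
        ring
      rw [hbe]
      linarith
  have hset : ClimbG350.SN (Col c R s b) b 0 = {x | x ∈ Col c R s b ∧ x.1.im < b} := by
    ext x
    simp [ClimbG350.SN]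
  have hL0 : ClimbG350.Leaf (fun x : ℂ × ℂ => st θ H x.1 x.2) (al R s κ b) (be R s b)
      (ClimbG350.SN (Col c R s b) b 0) X₀ := by
    rw [hset]
    refine ⟨h0d, ?_, ?_, ?_⟩
    · intro t w ht
      obtain ⟨g1, g2⟩ := Col.hgt D ht.1
      have hv := Wd.im_pos ht.1.1
      refine (h0n t w ht.1 ht.2).trans ?_
      unfold be
      have : 0 ≤ ‖w‖ / 500 * ((t.im - b + 4 * s) / w.im) := by positivity
      linarith
    · intro t w ht ht'
      obtain ⟨g1, g2⟩ := Col.hgt D ht.1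
      have hv := Wd.im_pos ht.1.1
      refine (h0s t w ht.1 ht.2 ht'.1).trans ?_
      unfold al
      have : 0 ≤ 64000 * κ ^ 2 / R * ‖w‖ ^ 2 * ((t.im - b + 4 * s) / w.im) := by positivity
      linarith
    · intro t w ht ht' ht''
      exact h0l t w ht.1 ht.2 ht'.1 ht''.1
  obtain ⟨hL, hE⟩ := hDat.climb hL0
  refine ⟨_, hL.diff, hE, ?_, ?_, ?_⟩
  · intro t w ht
    obtain ⟨g1, g2⟩ := Col.hgt D ht
    exact (hL.near t w ht).trans (be_le D ht.1 g1.le g2)
  · intro t w ht ht'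
    obtain ⟨g1, g2⟩ := Col.hgt D ht
    exact (hL.step t w ht ht').trans (al_le D ht.1 g1.le g2)
  · intro t w ht ht' ht''
    exact hL.law t w ht ht' ht''

/-- the labels of the column stay in the good ball -/
lemma Col.mem (D : SmallD θ K c R s κ) (hb : |b - c.im| ≤ R / 400) {X : ℂ × ℂ → ℂ} {t w : ℂ}
    (ht : (t, w) ∈ Col c R s b) (hX : ‖X (t, w) - t‖ ≤ R / 80) : ‖X (t, w) - c‖ ≤ 2 / 3 * R := by
  have h1 := Col.dist D hb ht
  have hR := D.R_pos
  have : X (t, w) - c = (X (t, w) - t) + (t - c) := by ring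
  rw [this]
  refine (norm_add_le _ _).trans ?_
  linarith

end Crest.Agent.R102.ColE350
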