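import Mathlib
import Crest.Agent.R102.ColE_350
import Crest.Agent.R102.LinkB_350

/-!
Row 102, T1-E, **(CC), part a**: regular lines and labels below the height `b1` (with short steps and
good balls) satisfy the law of `st`; with the column climb they extend over the column.
-/

set_option autoImplicit false
set_option linter.unusedVariables false

open Set Filter Topology Metric

noncomputable section

namespace Crest.Agent.R102.CC350

open Crest.Agent.R102.StepE599 Crest.Agent.R102.ColE350 Crest.Agent.R102.LinkB350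

/-- the domain of the base labels -/
def DL (s b1 : ℝ) : Set (ℂ × ℂ) := {x | x.2 ∈ Wd s ∧ -(4 * s) < x.1.im ∧ x.1.im < b1}

/-- regular lines and labels below the height `b1`, chords in the cone `Wd s` -/
structure BaseL (θ H K : ℂ → ℂ) (Φ P B : ℂ × ℂ → ℂ) (s b1 R : ℝ) : Prop where
  s_pos : 0 < s
  R_pos : 0 < R
  B_diff : DifferentiableOn ℂ B (DL s b1)
  Φ_cont : ContinuousOn Φ (DL s b1)
  near : ∀ t w : ℂ, (t, w) ∈ DL s b1 → ‖B (t, w) - t‖ ≤ R / 100
  step : ∀ t w : ℂ, (t, w) ∈ DL s b1 → (t - w, w) ∈ DL s b1 →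
    ‖B (t, w) - B (t - w, w) - w‖ ≤ ‖w‖ / 1000
  inc : ∀ t w : ℂ, (t, w) ∈ DL s b1 → (t + w / 2, w) ∈ DL s b1 →
    C1.IncS θ H (Φ (t, w)) (P (t, w)) (B (t + w / 2, w))
  inc' : ∀ t w : ℂ, (t, w) ∈ DL s b1 → (t - w / 2, w) ∈ DL s b1 →
    C1.IncS θ H (Φ (t, w)) (P (t, w)) (B (t - w / 2, w))
  refl : ∀ t w : ℂ, (t, w) ∈ DL s b1 → (t - w / 2, w) ∈ DL s b1 → (t + w / 2, w) ∈ DL s b1 →
    Φ (t - w / 2, w) + Φ (t + w / 2, w) = 2 * θ (B (t, w))
  good : ∀ t w : ℂ, (t, w) ∈ DL s b1 → Good θ K (B (t, w)) (10 * s)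
  start : ∃ t w : ℂ, (t, w) ∈ DL s b1 ∧ (t - w / 2, w) ∈ DL s b1 ∧ (t + w / 2, w) ∈ DL s b1 ∧
    ‖Φ (t, w) - θ (B (t - w / 2, w))‖ ≤ 1

variable {θ H K : ℂ → ℂ} {Φ P B : ℂ × ℂ → ℂ} {s b1 R b κ : ℝ} {c : ℂ}

lemma convex_Wd : Convex ℝ (Wd s) := by
  have h1 : Convex ℝ {w : ℂ | ‖w‖ < 2 * s} := by
    have : {w : ℂ | ‖w‖ < 2 * s} = ball 0 (2 * s) := by ext w; simp
    rw [this]
    exact convex_ball _ _
  have h2 : Convex ℝ {w : ℂ | ‖w‖ < 32 * w.im} := by
    intro x hx y hy a b ha hb hab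
    simp only [Set.mem_ofPred_eq] at hx hy ⊢
    have e1 : (a • x + b • y).im = a * x.im + b * y.im := by simp
    rw [e1]
    have e2 : ‖a • x + b • y‖ ≤ a * ‖x‖ + b * ‖y‖ := by
      refine (norm_add_le _ _).trans (le_of_eq ?_)
      rw [norm_smul, norm_smul, Real.norm_of_nonneg ha, Real.norm_of_nonneg hb]
    rcases ha.eq_or_lt with h | h
    · have hb1 : b = 1 := by linarith
      rw [← h, hb1] at e2 ⊢
      linarith
    · have k1 : a * ‖x‖ < a * (32 * x.im) := mul_lt_mul_of_pos_left hx h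
      have k2 : b * ‖y‖ ≤ b * (32 * y.im) := mul_le_mul_of_nonneg_left hy.le hb
      nlinarith
  exact h1.inter h2

/-- pairs of consecutive labels -/
def O1 (s b1 : ℝ) : Set (ℂ × ℂ) :=
  {x | x ∈ DL s b1 ∧ (x.1 + x.2, x.2) ∈ DL s b1}

lemma O1_eq : O1 s b1 = {x : ℂ × ℂ | x.2 ∈ Wd s ∧ -(4 * s) < x.1.im ∧ (x.1 + x.2).im < b1} := by
  ext ⟨t, w⟩
  constructor
  · rintro ⟨⟨h1, h2, h3⟩, ⟨h4, h5, h6⟩⟩
    exact ⟨h1, h2, h6⟩
  · rintro ⟨h1, h2, h3⟩
    have hv : 0 < w.im := Wd.im_pos h1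
    simp only at h2 h3
    have e : (t + w).im = t.im + w.im := by simp
    refine ⟨⟨h1, h2, ?_⟩, ⟨h1, ?_, h3⟩⟩
    · show t.im < b1
      linarith
    · show -(4 * s) < (t + w).im
      rw [e]; linarith

lemma preconn_O1 : IsPreconnected (O1 s b1) := by
  rw [O1_eq]
  refine Convex.isPreconnected ?_
  have h1 : Convex ℝ {x : ℂ × ℂ | x.2 ∈ Wd s} :=
    convex_Wd.linear_preimage (LinearMap.snd ℝ ℂ ℂ)
  have h2 : Convex ℝ {x : ℂ × ℂ | -(4 * s) < x.1.im} :=
    (convex_Ioi (-(4 * s))).linear_preimage (Complex.imLm.comp (LinearMap.fst ℝ ℂ ℂ))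
  have h3 : Convex ℝ {x : ℂ × ℂ | (x.1 + x.2).im < b1} :=
    (convex_Iio b1).linear_preimage
      (Complex.imLm.comp (LinearMap.fst ℝ ℂ ℂ + LinearMap.snd ℝ ℂ ℂ))
  exact h1.inter (h2.inter h3)

lemma isOpen_Wd : IsOpen (Wd s) :=
  (isOpen_lt continuous_norm continuous_const).inter
    (isOpen_lt continuous_norm (continuous_const.mul Complex.continuous_im))

lemma isOpen_DL : IsOpen (DL s b1) :=
  (isOpen_Wd.preimage continuous_snd).inter
    ((isOpen_lt continuous_const (Complex.continuous_im.comp continuous_fst)).inter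
      (isOpen_lt (Complex.continuous_im.comp continuous_fst) continuous_const))

/-- midpoint of two consecutive label positions -/
lemma DL_mid {t w : ℂ} (h1 : (t, w) ∈ DL s b1) (h2 : (t + w, w) ∈ DL s b1) :
    (t + w / 2, w) ∈ DL s b1 := by
  have hv : 0 < w.im := Wd.im_pos h1.1
  have e : (t + w).im = t.im + w.im := by simp
  have e2 : (t + w / 2).im = t.im + w.im / 2 := by
    simp
  have a1 : -(4 * s) < t.im := h1.2.1
  have a2 : (t + w).im < b1 := h2.2.2
  refine ⟨h1.1, ?_, ?_⟩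
  · show -(4 * s) < (t + w / 2).im
    rw [e2]; linarith
  · show (t + w / 2).im < b1
    rw [e2]; linarith

/-- step bounds -/
lemma BaseL.step_le (D : BaseL θ H K Φ P B s b1 R) {t w : ℂ} (h1 : (t, w) ∈ DL s b1)
    (h2 : (t + w, w) ∈ DL s b1) :
    B (t + w, w) ≠ B (t, w) ∧ ‖B (t + w, w) - B (t, w)‖ < 5 * s := by
  have h := D.step (t + w) w h2 (by rwa [add_sub_cancel_right])
  rw [add_sub_cancel_right] at h
  have hv : 0 < w.im := Wd.im_pos h1.1
  have hwp : 0 < ‖w‖ := by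
    refine norm_pos_iff.2 (fun h0 => ?_)
    rw [h0] at hv
    simp at hv
  have hs := D.s_pos
  have hw : ‖w‖ < 2 * s := h1.1.1
  constructor
  · intro h0
    rw [h0, sub_self, zero_sub, norm_neg] at h
    linarith
  · have e : B (t + w, w) - B (t, w) = (B (t + w, w) - B (t, w) - w) + w := by ring
    rw [e]
    refine (norm_add_le _ _).trans_lt ?_
    linarith

/-- **the lines are `ph`, `pp` of the labels** -/
theorem BaseL.line (D : BaseL θ H K Φ P B s b1 R) (h : Ent θ H K) {t w : ℂ}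
    (h1 : (t, w) ∈ DL s b1) (h2 : (t + w, w) ∈ DL s b1) :
    Φ (t + w / 2, w) = ph θ H (B (t, w)) (B (t + w, w) - B (t, w)) ∧
      P (t + w / 2, w) = pp θ H (B (t, w)) (B (t + w, w) - B (t, w)) := by
  have hs := D.s_pos
  have cX : ContinuousOn (fun x : ℂ × ℂ => B (x.1, x.2)) (O1 s b1) :=
    D.B_diff.continuousOn.comp (by fun_prop : ContinuousOn (fun x : ℂ × ℂ => (x.1, x.2)) _)
      (fun x hx => hx.1)
  have cY : ContinuousOn (fun x : ℂ × ℂ => B (x.1 + x.2, x.2)) (O1 s b1) :=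
    D.B_diff.continuousOn.comp
      (by fun_prop : ContinuousOn (fun x : ℂ × ℂ => (x.1 + x.2, x.2)) _) (fun x hx => hx.2)
  have cP : ContinuousOn (fun x : ℂ × ℂ => Φ (x.1 + x.2 / 2, x.2)) (O1 s b1) :=
    D.Φ_cont.comp (by fun_prop : ContinuousOn (fun x : ℂ × ℂ => (x.1 + x.2 / 2, x.2)) _)
      (fun x hx => DL_mid hx.1 hx.2)
  obtain ⟨t0, w0, m1, m2, m3, m4⟩ := D.start
  have e0 : t0 - w0 / 2 + w0 = t0 + w0 / 2 := by ring
  have e0' : t0 - w0 / 2 + w0 / 2 = t0 := by ring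
  have hx0 : (t0 - w0 / 2, w0) ∈ O1 s b1 := ⟨m2, by show (t0 - w0 / 2 + w0, w0) ∈ _; rw [e0]; exact m3⟩
  have := link_line (A := ℂ × ℂ) (O := O1 s b1) (X := fun x => B (x.1, x.2))
    (Y := fun x => B (x.1 + x.2, x.2)) (Ph := fun x => Φ (x.1 + x.2 / 2, x.2))
    (P := fun x => P (x.1 + x.2 / 2, x.2)) (ρ := fun _ => 10 * s) h preconn_O1 cX cY cP
    (fun x hx => D.good x.1 x.2 hx.1) (fun x hx => D.good _ _ hx.2)
    (fun x hx => (D.step_le hx.1 hx.2).1)
    (fun x hx => by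
      have := (D.step_le hx.1 hx.2).2
      linarith)
    (fun x hx => by
      have := D.inc' (x.1 + x.2 / 2) x.2 (DL_mid hx.1 hx.2)
        (by rw [add_sub_cancel_right]; exact hx.1)
      rwa [add_sub_cancel_right] at this)
    (fun x hx => by
      have e : x.1 + x.2 / 2 + x.2 / 2 = x.1 + x.2 := by ring
      have := D.inc (x.1 + x.2 / 2) x.2 (DL_mid hx.1 hx.2) (by rw [e]; exact hx.2)
      rwa [e] at this)
    hx0 (by
      show ‖Φ (t0 - w0 / 2 + w0 / 2, w0) - θ (B (t0 - w0 / 2, w0))‖ ≤ 1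
      rw [e0']
      exact m4)
  exact this (t, w) ⟨h1, h2⟩

/-- `y` is not identically zero -/
lemma BaseL.y_ne (D : BaseL θ H K Φ P B s b1 R) (h : Ent θ H K) : ∃ z, deriv θ z ≠ 0 := by
  obtain ⟨t0, w0, m1, m2, m3, m4⟩ := D.start
  have e0 : t0 - w0 / 2 + w0 = t0 + w0 / 2 := by ring
  have hs := D.s_pos
  have k := D.step_le m2 (by rw [e0]; exact m3)
  rcases y_ne_or h (D.good _ _ m2) (sub_ne_zero.2 k.1) (by linarith [k.2]) with h1 | h1
  · exact ⟨_, h1⟩
  · exact ⟨_, h1⟩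

/-- **the law of `st`** -/
theorem BaseL.law (D : BaseL θ H K Φ P B s b1 R) (h : Ent θ H K) {t w : ℂ}
    (h0 : (t - 2 * w, w) ∈ DL s b1) (h1 : (t - w, w) ∈ DL s b1) (h2 : (t, w) ∈ DL s b1) :
    B (t, w) = B (t - w, w) + st θ H (B (t - w, w)) (B (t - w, w) - B (t - 2 * w, w)) := by
  have hs := D.s_pos
  have hR := D.R_pos
  -- the slice
  set U : Set ℂ := {t' : ℂ | (t' - 2 * w, w) ∈ DL s b1 ∧ (t' - w, w) ∈ DL s b1 ∧
    (t', w) ∈ DL s b1} with hU
  have hUo : IsOpen U := by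
    have k0 : IsOpen {t' : ℂ | (t' - 2 * w, w) ∈ DL s b1} :=
      isOpen_DL.preimage (by fun_prop : Continuous fun t' : ℂ => (t' - 2 * w, w))
    have k1 : IsOpen {t' : ℂ | (t' - w, w) ∈ DL s b1} :=
      isOpen_DL.preimage (by fun_prop : Continuous fun t' : ℂ => (t' - w, w))
    have k2 : IsOpen {t' : ℂ | (t', w) ∈ DL s b1} :=
      isOpen_DL.preimage (by fun_prop : Continuous fun t' : ℂ => (t', w))
    exact k0.inter (k1.inter k2)
  have htU : t ∈ U := ⟨h0, h1, h2⟩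
  have hB : ∀ a : ℂ, (∀ t' ∈ U, (t' - a, w) ∈ DL s b1) →
      ContinuousOn (fun t' : ℂ => B (t' - a, w)) U := by
    intro a ha
    exact D.B_diff.continuousOn.comp
      (by fun_prop : ContinuousOn (fun t' : ℂ => (t' - a, w)) _) (fun x hx => ha x hx)
  have c0 := hB (2 * w) (fun t' ht' => ht'.1)
  have c1 := hB w (fun t' ht' => ht'.2.1)
  have c2 : ContinuousOn (fun t' : ℂ => B (t', w)) U :=
    D.B_diff.continuousOn.comp
      (by fun_prop : ContinuousOn (fun t' : ℂ => (t', w)) _) (fun x hx => hx.2.2)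
  have ea : ∀ t' : ℂ, t' - 2 * w + w = t' - w := fun t' => by ring
  have eb : ∀ t' : ℂ, t' - w + w = t' := fun t' => by ring
  have ec : ∀ t' : ℂ, t' - 2 * w + w / 2 = t' - w - w / 2 := fun t' => by ring
  have ed : ∀ t' : ℂ, t' - w + w / 2 = t' - w / 2 := fun t' => by ring
  have s01 : ∀ t' ∈ U, B (t' - w, w) ≠ B (t' - 2 * w, w) ∧
      ‖B (t' - w, w) - B (t' - 2 * w, w)‖ < 5 * s := by
    intro t' ht'
    have := D.step_le ht'.1 (by rw [ea]; exact ht'.2.1)
    rwa [ea] at this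
  have s12 : ∀ t' ∈ U, B (t', w) ≠ B (t' - w, w) ∧ ‖B (t', w) - B (t' - w, w)‖ < 5 * s := by
    intro t' ht'
    have := D.step_le ht'.2.1 (by rw [eb]; exact ht'.2.2)
    rwa [eb] at this
  -- frequently `y ≠ 0` at the middle label
  have hfr : ∃ᶠ t' in 𝓝 t, deriv θ (B (t' - w, w)) ≠ 0 := by
    set V : Set ℂ := {t' : ℂ | (t' - w, w) ∈ DL s b1} with hV
    have hVo : IsOpen V :=
      isOpen_DL.preimage (by fun_prop : Continuous fun t' : ℂ => (t' - w, w))
    have hVe : V = {t' : ℂ | w ∈ Wd s ∧ -(4 * s) < (t' - w).im ∧ (t' - w).im < b1} := rfl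
    have hVc : IsPreconnected V := by
      refine Convex.isPreconnected ?_
      have e1 : V = Complex.im ⁻¹' Ioo (-(4 * s) + w.im) (b1 + w.im) := by
        ext t'
        rw [hVe]
        simp only [Set.mem_ofPred_eq, mem_preimage, mem_Ioo, Complex.sub_im]
        constructor
        · rintro ⟨_, a1, a2⟩
          constructor <;> linarith
        · rintro ⟨a1, a2⟩
          exact ⟨h1.1, by linarith, by linarith⟩
      rw [e1]
      exact (convex_Ioo _ _).linear_preimage Complex.imLm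
    have hVd : DifferentiableOn ℂ (fun t' : ℂ => B (t' - w, w)) V :=
      D.B_diff.comp (by fun_prop : DifferentiableOn ℂ (fun t' : ℂ => (t' - w, w)) _)
        (fun x hx => hx)
    refine freq_ne h.dθ1 (D.y_ne h) hVo hVc hVd ?_ h1
    have hr : (t + (R : ℝ) - w, w) ∈ DL s b1 := by
      refine ⟨h1.1, ?_, ?_⟩
      · have := h1.2.1
        show -(4 * s) < (t + (R : ℝ) - w).im
        simpa using this
      · have := h1.2.2
        show (t + (R : ℝ) - w).im < b1
        simpa using this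
    refine ⟨t, h1, t + (R : ℝ), hr, ?_⟩
    intro heq
    have n1 := D.near _ _ h1
    have n2 := D.near _ _ hr
    rw [← heq] at n2
    have e3 : (R : ℂ) = (B (t - w, w) - (t - w)) - (B (t - w, w) - (t + (R : ℝ) - w)) := by
      ring
    have e4 : ‖(R : ℂ)‖ = R := by rw [Complex.norm_real]; exact abs_of_pos hR
    have e5 := norm_sub_le (B (t - w, w) - (t - w)) (B (t - w, w) - (t + (R : ℝ) - w))
    rw [← e3, e4] at e5
    linarith
  have hmain := link_law (A := ℂ) (O := U) (X0 := fun t' => B (t' - 2 * w, w))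
    (X1 := fun t' => B (t' - w, w)) (X2 := fun t' => B (t', w)) (ρ := fun _ => 10 * s) (x := t)
    h (hUo.mem_nhds htU) c0 c1 c2 (fun t' ht' => D.good _ _ ht'.1)
    (fun t' ht' => D.good _ _ ht'.2.1) (fun t' ht' => (s01 t' ht').1)
    (fun t' ht' => by
      have := (s01 t' ht').2
      linarith)
    (fun t' ht' => by
      have := (s12 t' ht').2
      linarith)
    (fun t' ht' => by
      have l1 := (D.line h ht'.1 (by rw [ea]; exact ht'.2.1)).1
      have l2 := (D.line h ht'.2.1 (by rw [eb]; exact ht'.2.2)).1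
      rw [ea, ec] at l1
      rw [eb, ed] at l2
      have l3 := D.refl (t' - w) w ht'.2.1
        (by
          rw [← ec]
          exact DL_mid ht'.1 (by rw [ea]; exact ht'.2.1))
        (DL_mid ht'.2.1 (by rw [eb]; exact ht'.2.2))
      rw [ed] at l3
      rw [← l1, ← l2]
      exact l3)
    hfr
  exact hmain

/-- **(CC), part a** -/
theorem BaseL.column (D : BaseL θ H K Φ P B s b1 R) (h : Ent θ H K) (S : SmallD θ K c R s κ)
    (hb : |b - c.im| ≤ R / 400) (hb0 : 0 ≤ b) (hb1 : b ≤ b1) :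
    ∃ X : ℂ × ℂ → ℂ, DifferentiableOn ℂ X (Col c R s b) ∧
      (∀ t w : ℂ, (t, w) ∈ Col c R s b → t.im < b → X (t, w) = B (t, w)) ∧
      (∀ t w : ℂ, (t, w) ∈ Col c R s b → ‖X (t, w) - t‖ ≤ R / 80) ∧
      (∀ t w : ℂ, (t, w) ∈ Col c R s b → Good θ K (X (t, w)) (10 * s)) ∧
      (∀ t w : ℂ, (t, w) ∈ Col c R s b → (t + w, w) ∈ Col c R s b →
        X (t + w, w) ≠ X (t, w) ∧ ‖X (t + w, w) - X (t, w)‖ < 5 * s) ∧
      (∀ t w : ℂ, (t, w) ∈ Col c R s b → (t + w, w) ∈ Col c R s b → (t + w).im < b →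
        Φ (t + w / 2, w) = ph θ H (X (t, w)) (X (t + w, w) - X (t, w)) ∧
        P (t + w / 2, w) = pp θ H (X (t, w)) (X (t + w, w) - X (t, w))) := by
  have hs := D.s_pos
  have hR := D.R_pos
  have hsub : ∀ t w : ℂ, (t, w) ∈ Col c R s b → t.im < b → (t, w) ∈ DL s b1 := by
    intro t w ht h2
    have h1 : b - 4 * s < t.im := ht.2.1
    refine ⟨ht.1, ?_, ?_⟩
    · show -(4 * s) < t.im; linarith
    · show t.im < b1; linarith
  have him : ∀ t w : ℂ, (t, w) ∈ Col c R s b → 0 < w.im := fun t w ht => Wd.im_pos ht.1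
  obtain ⟨X, x1, x2, x3, x4, x5⟩ := column_climb S h hb (X₀ := B)
    (D.B_diff.mono (fun x hx => hsub x.1 x.2 hx.1 hx.2))
    (fun t w ht h2 => D.near t w (hsub t w ht h2))
    (fun t w ht h2 ht' => D.step t w (hsub t w ht h2)
      (hsub _ _ ht' (by
        have := him t w ht
        rw [Complex.sub_im]; linarith)))
    (fun t w ht h2 ht' ht'' => D.law h
      (hsub _ _ ht'' (by
        have := him t w ht
        have e2 : (t - 2 * w).im = t.im - 2 * w.im := by simp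
        rw [e2]; linarith))
      (hsub _ _ ht' (by
        have := him t w ht
        rw [Complex.sub_im]; linarith))
      (hsub t w ht h2))
  refine ⟨X, x1, x2, x3, ?_, ?_, ?_⟩
  · intro t w ht
    exact S.good (Col.mem S hb ht (x3 t w ht))
  · intro t w ht ht'
    have k := x4 (t + w) w ht' (by rwa [add_sub_cancel_right])
    rw [add_sub_cancel_right] at k
    have hv := him t w ht
    have hwp : 0 < ‖w‖ := by
      refine norm_pos_iff.2 (fun h0 => ?_)
      rw [h0] at hv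
      simp at hv
    have hw : ‖w‖ < 2 * s := ht.1.1
    constructor
    · intro h0
      rw [h0, sub_self, zero_sub, norm_neg] at k
      linarith
    · have e : X (t + w, w) - X (t, w) = (X (t + w, w) - X (t, w) - w) + w := by ring
      rw [e]
      refine (norm_add_le _ _).trans_lt ?_
      linarith
  · intro t w ht ht' h3
    have hv := him t w ht
    have h4 : t.im < b := by
      rw [Complex.add_im] at h3
      linarith
    rw [x2 t w ht h4, x2 (t + w) w ht' h3]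
    exact D.line h (hsub t w ht h4) (hsub _ _ ht' h3)

end Crest.Agent.R102.CC350
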