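import Mathlib
import Crest.Agent.R102.ColE_350
import Crest.Agent.R102.StepLV_599
import Crest.Agent.R102.GrowthDefs_314

/-!
Row 102, T1-B, block GROWTH, **(CC) the column climb**, version of `ColE_350` on an open set `V`
(`EntOn`, `GoodOn`).
-/

set_option autoImplicit false
set_option linter.unusedVariables false

open Set Filter Topology Metric

noncomputable section

namespace Crest.Agent.R102.ColS350

open Crest.Agent.R102.StepE599 Crest.Agent.R102.Growth
open Crest.Agent.R102.ColE350 hiding SmallD.good SmallD.bd SmallD.st_near column_climb cauchy_le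

/-- the datum is small on the big ball, which lies in `V` -/
structure SmallV (θ K : ℂ → ℂ) (V : Set ℂ) (c : ℂ) (R s κ : ℝ) : Prop where
  toD : SmallD θ K c R s κ
  sub : closedBall c R ⊆ V

variable {θ H K : ℂ → ℂ} {V : Set ℂ} {c : ℂ} {R s κ b : ℝ}

lemma SmallV.good (D : SmallV θ K V c R s κ) {z : ℂ} (hz : ‖z - c‖ ≤ 2 / 3 * R) :
    GoodOn θ K V z (10 * s) := by
  have g := ColE350.SmallD.good D.toD hz
  have hs := D.toD.s_pos
  have hsR := D.toD.sR
  have hR := D.toD.R_pos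
  refine ⟨g.pos, ?_, g.y_le, g.K_le⟩
  intro x hx
  rw [mem_closedBall_iff_norm] at hx
  refine D.sub ?_
  rw [mem_closedBall_iff_norm]
  have : ‖x - c‖ ≤ ‖x - z‖ + ‖z - c‖ := by simpa using norm_add_le (x - z) (z - c)
  norm_num at hsR
  linarith

lemma dθ1 (h : EntOn θ H K V) : DifferentiableOn ℂ (deriv θ) V := h.dθ.deriv h.Vo

lemma cauchy_le {f : ℂ → ℂ} {M r : ℝ} {z : ℂ} (hf : DifferentiableOn ℂ f (closedBall z r))
    (hr : 0 < r) (hM : ∀ x : ℂ, ‖x - z‖ ≤ r → ‖f x‖ ≤ M) : ‖deriv f z‖ ≤ M / r := by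
  refine Complex.norm_deriv_le_of_forall_mem_sphere_norm_le hr ?_
    (fun x hx => hM x (by rw [mem_sphere_iff_norm] at hx; exact hx.le))
  refine DifferentiableOn.diffContOnCl ?_
  rwa [closure_ball z hr.ne']

lemma SmallV.bd (D : SmallV θ K V c R s κ) (h : EntOn θ H K V) {z : ℂ} (hz : ‖z - c‖ ≤ 2 / 3 * R)
    {e : ℂ} (he : ‖e‖ ≤ 5 * s) :
    Bd θ K z ‖e‖ (κ / s) (8 * κ / (s * R)) (24 * κ ^ 2 / (s ^ 2 * R)) := by
  have hs := D.toD.s_pos
  have hR := D.toD.R_pos
  have hsR := D.toD.sR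
  have hin : ∀ x : ℂ, ‖x - z‖ ≤ ‖e‖ → ∀ x' : ℂ, ‖x' - x‖ ≤ R / 8 → ‖x' - c‖ ≤ R := by
    intro x hx x' hx'
    have h1 : ‖x - c‖ ≤ ‖x - z‖ + ‖z - c‖ := by simpa using norm_add_le (x - z) (z - c)
    have h2 : ‖x' - c‖ ≤ ‖x' - x‖ + ‖x - c‖ := by simpa using norm_add_le (x' - x) (x - c)
    linarith
  have hinV : ∀ x : ℂ, ‖x - z‖ ≤ ‖e‖ → closedBall x (R / 8) ⊆ V := by
    intro x hx x' hx'
    rw [mem_closedBall_iff_norm] at hx'
    exact D.sub (by rw [mem_closedBall_iff_norm]; exact hin x hx x' hx')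
  refine ⟨?_, ?_, ?_⟩
  · intro x hx
    exact D.toD.y_le x (hin x hx x (by simpa using by positivity))
  · intro x hx
    have := cauchy_le (f := deriv θ) (M := κ / s) (r := R / 8) (z := x)
      ((dθ1 h).mono (hinV x hx)) (by positivity)
      (fun x' hx' => D.toD.y_le x' (hin x hx x' hx'))
    refine this.trans (le_of_eq ?_)
    field_simp
  · intro x hx
    have := cauchy_le (f := K) (M := 3 * κ ^ 2 / s ^ 2) (r := R / 8) (z := x)
      (h.dK.mono (hinV x hx)) (by positivity)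
      (fun x' hx' => D.toD.K_le x' (hin x hx x' hx'))
    refine this.trans (le_of_eq ?_)
    field_simp
    ring

/-- the step estimate in the ball -/
lemma SmallV.st_near (D : SmallV θ K V c R s κ) (h : EntOn θ H K V) {z : ℂ}
    (hz : ‖z - c‖ ≤ 2 / 3 * R) {e : ℂ} (he : ‖e‖ ≤ 5 * s) :
    ‖st θ H z e - e‖ ≤ 8000 * κ ^ 2 / (s ^ 2 * R) * ‖e‖ ^ 4 := by
  have hs := D.toD.s_pos
  have hR := D.toD.R_pos
  have := StepV599.st_near h (D.good hz) (by linarith) (D.bd h hz he)
  refine this.trans (le_of_eq ?_)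
  field_simp
  ring

/-- **the column climb** -/
theorem column_climb (D : SmallV θ K V c R s κ) (h : EntOn θ H K V) (hb : |b - c.im| ≤ R / 400)
    {X₀ : ℂ × ℂ → ℂ}
    (h0d : DifferentiableOn ℂ X₀ {x | x ∈ Col c R s b ∧ x.1.im < b})
    (h0n : ∀ t w : ℂ, (t, w) ∈ Col c R s b → t.im < b → ‖X₀ (t, w) - t‖ ≤ R / 100)
    (h0s : ∀ t w : ℂ, (t, w) ∈ Col c R s b → t.im < b → (t - w, w) ∈ Col c R s b →
      ‖X₀ (t, w) - X₀ (t - w, w) - w‖ ≤ ‖w‖ / 1000)
    (h0l : ∀ t w : ℂ, (t, w) ∈ Col c R s b → t.im < b → (t - w, w) ∈ Col c R s b →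
      (t - 2 * w, w) ∈ Col c R s b →
      X₀ (t, w) = X₀ (t - w, w) + st θ H (X₀ (t - w, w)) (X₀ (t - w, w) - X₀ (t - 2 * w, w))) :
    ∃ X : ℂ × ℂ → ℂ, DifferentiableOn ℂ X (Col c R s b) ∧
      (∀ t w : ℂ, (t, w) ∈ Col c R s b → t.im < b → X (t, w) = X₀ (t, w)) ∧
      (∀ t w : ℂ, (t, w) ∈ Col c R s b → ‖X (t, w) - t‖ ≤ R / 80) ∧
      (∀ t w : ℂ, (t, w) ∈ Col c R s b → (t - w, w) ∈ Col c R s b →
        ‖X (t, w) - X (t - w, w) - w‖ ≤ ‖w‖ / 500) ∧
      (∀ t w : ℂ, (t, w) ∈ Col c R s b → (t - w, w) ∈ Col c R s b →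
        (t - 2 * w, w) ∈ Col c R s b →
        X (t, w) = X (t - w, w) + st θ H (X (t - w, w)) (X (t - w, w) - X (t - 2 * w, w))) := by
  have hs := D.toD.s_pos
  have hR := D.toD.R_pos
  have hsR := D.toD.sR
  set dom : Set (ℂ × ℂ) := {x | ‖x.1 - c‖ < 2 / 3 * R ∧ x.2 ≠ 0 ∧ ‖x.2‖ < 5 * s} with hdom
  have hdo : IsOpen dom := by
    have h1 : IsOpen {x : ℂ × ℂ | ‖x.1 - c‖ < 2 / 3 * R} :=
      isOpen_lt (continuous_fst.sub continuous_const).norm continuous_const
    have h2 : IsOpen {x : ℂ × ℂ | x.2 ≠ 0} :=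
      (isOpen_ne (x := (0 : ℂ))).preimage continuous_snd
    have h3 : IsOpen {x : ℂ × ℂ | ‖x.2‖ < 5 * s} :=
      isOpen_lt continuous_snd.norm continuous_const
    exact h1.inter (h2.inter h3)
  have hDat : ClimbG350.Data (Col c R s b) b (fun x : ℂ × ℂ => st θ H x.1 x.2) dom
      (al R s κ b) (be R s b) := by
    refine ⟨isOpen_Col, fun t w ht => Wd.im_pos ht.1, ?_, hdo, ?_, ?_, ?_⟩
    · intro t w ht hbt
      have hw : w ∈ Wd s := ht.1
      have hv := Wd.im_pos hw
      have hw1 : ‖w‖ < 2 * s := hw.1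
      have hw2 : ‖w‖ < 32 * w.im := hw.2
      have hi := Complex.abs_im_le_norm w
      have hr := Complex.abs_re_le_norm w
      rw [abs_of_pos hv] at hi
      have h2 : |t.re - c.re| + 32 * (t.im - b) < R / 2 := ht.2.2
      have e1 : (t - w).im = t.im - w.im := by simp
      have e2 : (t - 2 * w).im = t.im - 2 * w.im := by simp
      have e3 : (t - w).re = t.re - w.re := by simp
      have e4 : (t - 2 * w).re = t.re - 2 * w.re := by simp
      refine ⟨⟨hw, ?_, ?_⟩, ⟨hw, ?_, ?_⟩⟩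
      · show b - 4 * s < (t - w).im
        rw [e1]; linarith
      · show |(t - w).re - c.re| + 32 * ((t - w).im - b) < R / 2
        rw [e1, e3]
        have : |t.re - w.re - c.re| ≤ |t.re - c.re| + |w.re| := by
          have := abs_sub (t.re - c.re) w.re
          rwa [show t.re - c.re - w.re = t.re - w.re - c.re by ring] at this
        linarith
      · show b - 4 * s < (t - 2 * w).im
        rw [e2]; linarith
      · show |(t - 2 * w).re - c.re| + 32 * ((t - 2 * w).im - b) < R / 2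
        rw [e2, e4]
        have : |t.re - 2 * w.re - c.re| ≤ |t.re - c.re| + |2 * w.re| := by
          have := abs_sub (t.re - c.re) (2 * w.re)
          rwa [show t.re - c.re - 2 * w.re = t.re - 2 * w.re - c.re by ring] at this
        rw [abs_mul, abs_two] at this
        linarith
    · rintro ⟨z, e⟩ ⟨h1, h2, h3⟩
      exact (StepV599.st_differentiableAt h (D.good h1.le) h2 (by simp only at h3; linarith)).differentiableWithinAt
    · intro t w ht hbt z e hz he
      have hw : w ∈ Wd s := ht.1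
      have hv := Wd.im_pos hw
      have hw1 : ‖w‖ < 2 * s := hw.1
      have hwp : 0 < ‖w‖ := by
        refine norm_pos_iff.2 (fun h => ?_)
        rw [h] at hv
        simp at hv
      have hi := Complex.abs_im_le_norm w
      rw [abs_of_pos hv] at hi
      obtain ⟨g1, g2⟩ := Col.hgt D.toD ht
      have e1 : (t - w).im = t.im - w.im := by simp
      have k0 : 0 ≤ (t - w).im - b + 4 * s := by rw [e1]; linarith
      have k1 : (t - w).im - b + 4 * s ≤ R / 50 := by rw [e1]; linarith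
      have a1 := al_le D.toD hw k0 k1
      have b1 := be_le D.toD hw k0 k1
      have htc := Col.dist D.toD hb ht
      have hzc : ‖z - c‖ < 2 / 3 * R := by
        have : z - c = (z - (t - w)) + ((t - c) - w) := by ring
        rw [this]
        refine (norm_add_le _ _).trans_lt ?_
        have := norm_sub_le (t - c) w
        norm_num at hsR
        linarith
      have hew : ‖e‖ ≤ 11 / 10 * ‖w‖ := by
        have : e = (e - w) + w := by ring
        rw [this]
        refine (norm_add_le _ _).trans ?_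
        linarith
      have he0 : e ≠ 0 := by
        intro h0
        rw [h0, zero_sub, norm_neg] at he
        linarith
      have he5 : ‖e‖ < 5 * s := by linarith
      refine ⟨⟨hzc, he0, he5⟩, ?_⟩
      have st1 := D.st_near h hzc.le he5.le
      have st2 : 8000 * κ ^ 2 / (s ^ 2 * R) * ‖e‖ ^ 4 ≤ 64000 * κ ^ 2 / R * ‖w‖ ^ 2 := by
        have p1 : ‖e‖ ^ 4 ≤ (11 / 10 * ‖w‖) ^ 4 := pow_le_pow_left₀ (norm_nonneg _) hew 4
        have p2 : (11 / 10 * ‖w‖) ^ 4 ≤ 2 * (‖w‖ ^ 2 * ‖w‖ ^ 2) := by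
          have : (11 / 10 * ‖w‖) ^ 4 = (11 / 10) ^ 4 * (‖w‖ ^ 2 * ‖w‖ ^ 2) := by ring
          rw [this]
          have : (0 : ℝ) ≤ ‖w‖ ^ 2 * ‖w‖ ^ 2 := by positivity
          norm_num
          linarith
        have p3 : ‖w‖ ^ 2 ≤ (2 * s) ^ 2 := pow_le_pow_left₀ (norm_nonneg _) hw1.le 2
        have p4 : ‖e‖ ^ 4 ≤ 2 * (‖w‖ ^ 2 * (2 * s) ^ 2) := by
          have : ‖w‖ ^ 2 * ‖w‖ ^ 2 ≤ ‖w‖ ^ 2 * (2 * s) ^ 2 :=
            mul_le_mul_of_nonneg_left p3 (by positivity)
          linarith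
        calc 8000 * κ ^ 2 / (s ^ 2 * R) * ‖e‖ ^ 4
            ≤ 8000 * κ ^ 2 / (s ^ 2 * R) * (2 * (‖w‖ ^ 2 * (2 * s) ^ 2)) :=
              mul_le_mul_of_nonneg_left p4 (by positivity)
          _ = 64000 * κ ^ 2 / R * ‖w‖ ^ 2 := by field_simp; ring
      have hal : al R s κ b t w = al R s κ b (t - w) w + 64000 * κ ^ 2 / R * ‖w‖ ^ 2 := by
        unfold al
        rw [e1]
        have hv' : w.im ≠ 0 := hv.ne'
        field_simp
        ring
      show ‖st θ H z e - e‖ + al R s κ b (t - w) w ≤ al R s κ b t w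
      rw [hal]
      linarith
    · intro t w ht hbt
      have hw : w ∈ Wd s := ht.1
      have hv := Wd.im_pos hw
      obtain ⟨g1, g2⟩ := Col.hgt D.toD ht
      have a1 := al_le D.toD hw g1.le g2
      have e1 : (t - w).im = t.im - w.im := by simp
      have hbe : be R s b t w = be R s b (t - w) w + ‖w‖ / 500 := by
        unfold be
        rw [e1]
        have hv' : w.im ≠ 0 := hv.ne'
        field_simp
        ring
      rw [hbe]
      linarith
  have hset : ClimbG350.SN (Col c R s b) b 0 = {x | x ∈ Col c R s b ∧ x.1.im < b} := by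
    ext x
    simp [ClimbG350.SN]
  have hL0 : ClimbG350.Leaf (fun x : ℂ × ℂ => st θ H x.1 x.2) (al R s κ b) (be R s b)
      (ClimbG350.SN (Col c R s b) b 0) X₀ := by
    rw [hset]
    refine ⟨h0d, ?_, ?_, ?_⟩
    · intro t w ht
      obtain ⟨g1, g2⟩ := Col.hgt D.toD ht.1
      have hv := Wd.im_pos ht.1.1
      refine (h0n t w ht.1 ht.2).trans ?_
      unfold be
      have : 0 ≤ ‖w‖ / 500 * ((t.im - b + 4 * s) / w.im) := by positivity
      linarith
    · intro t w ht ht'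
      obtain ⟨g1, g2⟩ := Col.hgt D.toD ht.1
      have hv := Wd.im_pos ht.1.1
      refine (h0s t w ht.1 ht.2 ht'.1).trans ?_
      unfold al
      have : 0 ≤ 64000 * κ ^ 2 / R * ‖w‖ ^ 2 * ((t.im - b + 4 * s) / w.im) := by positivity
      linarith
    · intro t w ht ht' ht''
      exact h0l t w ht.1 ht.2 ht'.1 ht''.1
  obtain ⟨hL, hE⟩ := hDat.climb hL0
  refine ⟨_, hL.diff, hE, ?_, ?_, ?_⟩
  · intro t w ht
    obtain ⟨g1, g2⟩ := Col.hgt D.toD ht
    exact (hL.near t w ht).trans (be_le D.toD ht.1 g1.le g2)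
  · intro t w ht ht'
    obtain ⟨g1, g2⟩ := Col.hgt D.toD ht
    exact (hL.step t w ht ht').trans (al_le D.toD ht.1 g1.le g2)
  · intro t w ht ht' ht''
    exact hL.law t w ht ht' ht''


end Crest.Agent.R102.ColS350
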