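import Mathlib
import Crest.Agent.R102.LinkB_350
import Crest.Agent.R102.StepLV_599
import Crest.Agent.R102.GrowthDefs_314

/-!
Row 102, T1-B, block GROWTH, (LINK, downwards), version of `LinkB_350` on an open set `V`
(`EntOn`, `GoodOn`).
-/

set_option autoImplicit false
set_option linter.unusedVariables false

open Complex Metric Set Filter Topology

noncomputable section

namespace Crest.Agent.R102.LinkBS350

open Crest.Agent.R102.Growth
open Crest.Agent.R102.StepE599 (u v chi st ph pp tau Inc)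
open Crest.Agent.R102.LinkB350 (inc_of_incS incS_of_inc zero_of_exp)
open Crest.Agent.R102.StepV599

section pointwise
variable {θ H K : ℂ → ℂ} {V : Set ℂ} {z e φ p : ℂ} {ρ : ℝ}

/-- `y` does not vanish at both ends of a short chord -/
lemma y_ne_or (h : EntOn θ H K V) (g : GoodOn θ K V z ρ) (he0 : e ≠ 0) (he : ‖e‖ ≤ ρ) :
    deriv θ z ≠ 0 ∨ deriv θ (z + e) ≠ 0 := by
  by_contra hc
  push Not at hc
  refine u_ne h g he he0 ?_
  unfold u
  rw [hc.1, hc.2]
  ring

/-- a line through two near labels: its direction mod `π` -/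
lemma key_angle (h : EntOn θ H K V) (g : GoodOn θ K V z ρ) (he0 : e ≠ 0) (he : ‖e‖ ≤ ρ)
    (i1 : Inc θ H z φ p) (i2 : Inc θ H (z + e) φ p) :
    exp (2 * (I * (φ - ph θ H z e))) = 1 := by
  have hu := u_ne h g he he0
  have t1 := tau_le8 h g he
  obtain ⟨α, hα⟩ : ∃ α, α = φ - θ z := ⟨_, rfl⟩
  have hαχ : φ - θ (z + e) = α - chi θ z e := by simp only [hα, chi]; ring
  have i1' : deriv θ z * p = deriv θ z * H z * cos α + deriv H z * sin α := by
    rw [hα]; exact i1
  have i2' : deriv θ (z + e) * p = deriv θ (z + e) * H (z + e) * cos (α - chi θ z e)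
      + deriv H (z + e) * sin (α - chi θ z e) := by
    have := i2
    unfold Inc at this
    rwa [hαχ] at this
  rw [cos_sub α, sin_sub α] at i2'
  have key : u θ H z e * sin α = deriv θ z * v θ H z e * cos α := by
    unfold u v
    linear_combination deriv θ z * i2' - deriv θ (z + e) * i1'
  have m1 := u_mul_tau h g he0 he
  have key2 : sin α = tau θ H z e * cos α := by
    apply mul_left_cancel₀ hu
    rw [key]
    linear_combination -cos α * m1
  have hc : cos α ≠ 0 := by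
    intro hc
    rw [hc, mul_zero] at key2
    have := sin_sq_add_cos_sq α
    rw [hc, key2] at this
    norm_num at this
  have e3 : exp (I * α) = cos α * (1 + I * tau θ H z e) := by
    rw [StepE599.exp_eq_E, key2]; ring
  have e4 : exp (-(I * α)) = cos α * (1 - I * tau θ H z e) := by
    rw [StepE599.exp_eq_E', key2]; ring
  have e5 : (2 : ℂ) * (I * α) = I * α - -(I * α) := by ring
  have h4 : (1 - I * tau θ H z e) ≠ 0 := by
    intro h; rw [h, mul_zero] at e4; exact exp_ne_zero _ e4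
  have h5 : (1 + I * tau θ H z e) ≠ 0 := by
    intro h; rw [h, mul_zero] at e3; exact exp_ne_zero _ e3
  have e6 : exp (2 * (I * α)) = exp (2 * (I * arctan (tau θ H z e))) := by
    rw [StepE599.exp_two_arctan t1, e5, exp_sub, e3, e4]
    field_simp
  have e7 : 2 * (I * (φ - ph θ H z e)) = 2 * (I * α) - 2 * (I * arctan (tau θ H z e)) := by
    unfold ph
    rw [hα]
    ring
  rw [e7, exp_sub, e6, div_self (exp_ne_zero _)]

/-- if the direction is `ph` then the support number is `pp` (also at zeros of `y`) -/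
lemma pp_of_ph (h : EntOn θ H K V) (g : GoodOn θ K V z ρ) (g' : GoodOn θ K V (z + e) ρ) (he0 : e ≠ 0)
    (he : ‖e‖ ≤ ρ) (i1 : Inc θ H z φ p) (i2 : Inc θ H (z + e) φ p) (hφ : φ = ph θ H z e) :
    p = pp θ H z e := by
  rcases y_ne_or h g he0 he with hy | hy
  · refine (line_unique h g he0 he hy ?_ i1 i2).2
    rw [hφ]
    have := alp_le h g he
    have e1 : ph θ H z e - θ z = arctan (tau θ H z e) := by unfold ph; ring
    rw [e1]
    linarith
  · have he0' : -e ≠ 0 := neg_ne_zero.2 he0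
    have he' : ‖-e‖ ≤ ρ := by rwa [norm_neg]
    rw [pp_symm h g g' he0 he]
    have i1' : Inc θ H (z + e + -e) φ p := by rwa [add_neg_cancel_right]
    refine (line_unique h g' he0' he' hy ?_ i2 i1').2
    rw [hφ, ph_symm h g g' he0 he]
    have := alp_le h g' he'
    have e1 : ph θ H (z + e) (-e) - θ (z + e) = arctan (tau θ H (z + e) (-e)) := by
      unfold ph; ring
    rw [e1]
    linarith

end pointwise

section global
variable {A : Type*} [TopologicalSpace A] {O : Set A} {θ H K : ℂ → ℂ} {V : Set ℂ}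

/-- continuity of the line through the labels -/
lemma ph_cont (h : EntOn θ H K V) {X Y : A → ℂ} {ρ : A → ℝ} (hX : ContinuousOn X O)
    (hY : ContinuousOn Y O) (gX : ∀ x ∈ O, GoodOn θ K V (X x) (ρ x)) (hne : ∀ x ∈ O, Y x ≠ X x)
    (hle : ∀ x ∈ O, ‖Y x - X x‖ ≤ ρ x) :
    ContinuousOn (fun x => ph θ H (X x) (Y x - X x)) O := by
  intro x hx
  have h1 := (ph_differentiableAt h (gX x hx) (sub_ne_zero.2 (hne x hx)) (hle x hx)).continuousAt
  exact ContinuousAt.comp_continuousWithinAt (g := fun q : ℂ × ℂ => ph θ H q.1 q.2)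
    (f := fun x => (X x, Y x - X x)) h1 ((hX x hx).prodMk ((hY x hx).sub (hX x hx)))

/-- **(LINK, downwards), lines** -/
theorem link_line (h : EntOn θ H K V) (hO : IsPreconnected O) {X Y Ph P : A → ℂ} {ρ : A → ℝ}
    (hX : ContinuousOn X O) (hY : ContinuousOn Y O) (hPh : ContinuousOn Ph O)
    (gX : ∀ x ∈ O, GoodOn θ K V (X x) (ρ x)) (gY : ∀ x ∈ O, GoodOn θ K V (Y x) (ρ x))
    (hne : ∀ x ∈ O, Y x ≠ X x) (hle : ∀ x ∈ O, ‖Y x - X x‖ ≤ ρ x)
    (i1 : ∀ x ∈ O, C1.IncS θ H (Ph x) (P x) (X x)) (i2 : ∀ x ∈ O, C1.IncS θ H (Ph x) (P x) (Y x))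
    {x0 : A} (hx0 : x0 ∈ O) (h0 : ‖Ph x0 - θ (X x0)‖ ≤ 1) :
    ∀ x ∈ O, Ph x = ph θ H (X x) (Y x - X x) ∧ P x = pp θ H (X x) (Y x - X x) := by
  have hD : ∀ x ∈ O, Ph x - ph θ H (X x) (Y x - X x) = 0 := by
    refine zero_of_exp (D := fun x => Ph x - ph θ H (X x) (Y x - X x)) hO
      (hPh.sub (ph_cont h hX hY gX hne hle)) ?_ hx0 ?_
    · intro x hx
      refine key_angle h (gX x hx) (sub_ne_zero.2 (hne x hx)) (hle x hx)
        (inc_of_incS (i1 x hx)) ?_
      rw [add_sub_cancel]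
      exact inc_of_incS (i2 x hx)
    · show ‖Ph x0 - ph θ H (X x0) (Y x0 - X x0)‖ < 3
      have h1 := alp_le h (gX x0 hx0) (hle x0 hx0)
      have e1 : Ph x0 - ph θ H (X x0) (Y x0 - X x0) =
          (Ph x0 - θ (X x0)) - arctan (tau θ H (X x0) (Y x0 - X x0)) := by
        unfold ph; ring
      rw [e1]
      have := norm_sub_le (Ph x0 - θ (X x0)) (arctan (tau θ H (X x0) (Y x0 - X x0)))
      linarith
  intro x hx
  have h1 := sub_eq_zero.1 (hD x hx)
  refine ⟨h1, pp_of_ph h (gX x hx) ?_ (sub_ne_zero.2 (hne x hx)) (hle x hx)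
    (inc_of_incS (i1 x hx)) ?_ h1⟩
  · rw [add_sub_cancel]; exact gY x hx
  · rw [add_sub_cancel]; exact inc_of_incS (i2 x hx)

/-- **(LINK, downwards), law**: three labels, two lines, reflection -/
theorem link_law (h : EntOn θ H K V) {X0 X1 X2 : A → ℂ} {ρ : A → ℝ} {x : A} (hO : O ∈ 𝓝 x)
    (c0 : ContinuousOn X0 O) (c1 : ContinuousOn X1 O) (c2 : ContinuousOn X2 O)
    (g0 : ∀ x ∈ O, GoodOn θ K V (X0 x) (ρ x)) (g1 : ∀ x ∈ O, GoodOn θ K V (X1 x) (ρ x))
    (hne : ∀ x ∈ O, X1 x ≠ X0 x) (hle : ∀ x ∈ O, ‖X1 x - X0 x‖ < ρ x / 2)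
    (hle2 : ∀ x ∈ O, ‖X2 x - X1 x‖ ≤ ρ x)
    (hr : ∀ x ∈ O, ph θ H (X0 x) (X1 x - X0 x) + ph θ H (X1 x) (X2 x - X1 x) = 2 * θ (X1 x))
    (hf : ∃ᶠ x' in 𝓝 x, deriv θ (X1 x') ≠ 0) :
    X2 x = X1 x + st θ H (X1 x) (X1 x - X0 x) := by
  have hxO : x ∈ O := mem_of_mem_nhds hO
  -- at points with `y ≠ 0`
  have hpt : ∀ x' ∈ O, deriv θ (X1 x') ≠ 0 →
      X2 x' - X1 x' = st θ H (X1 x') (X1 x' - X0 x') := by
    intro x' hx' hy
    have k0 := g0 x' hx'
    have k1 := g1 x' hx'
    have hp := k0.pos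
    refine st_of_refl h k1 (hle x' hx').le (hle2 x' hx') hy ?_
    have hs := ph_symm h k0 (e := X1 x' - X0 x') (by rw [add_sub_cancel]; exact k1)
      (sub_ne_zero.2 (hne x' hx')) (by
        have := hle x' hx'
        linarith)
    rw [add_sub_cancel] at hs
    rw [← hs]
    exact hr x' hx'
  have hcst : ContinuousAt (fun x' => st θ H (X1 x') (X1 x' - X0 x')) x := by
    have h1 := (st_differentiableAt h (g1 x hxO) (sub_ne_zero.2 (hne x hxO)) (hle x hxO)).continuousAt
    exact ContinuousAt.comp (g := fun q : ℂ × ℂ => st θ H q.1 q.2)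
      (f := fun x => (X1 x, X1 x - X0 x)) h1
      ((c1.continuousAt hO).prodMk ((c1.continuousAt hO).sub (c0.continuousAt hO)))
  have hc : ContinuousAt (fun x' => X2 x' - X1 x' - st θ H (X1 x') (X1 x' - X0 x')) x :=
    ((c2.continuousAt hO).sub (c1.continuousAt hO)).sub hcst
  by_contra hcon
  have hne0 : X2 x - X1 x - st θ H (X1 x) (X1 x - X0 x) ≠ 0 := by
    intro h0
    apply hcon
    linear_combination h0
  have hev := hc.eventually_ne hne0
  obtain ⟨x', h1, h2, h3⟩ := (hf.and_eventually (hev.and hO)).exists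
  exact h2 (by rw [hpt x' h3 h1, sub_self])

end global

/-- labels of a slice avoid the zeros of `y` most of the time -/
lemma freq_ne {V : Set ℂ} (hV : IsOpen V) (hVc : IsPreconnected V) {y X : ℂ → ℂ}
    (hy : DifferentiableOn ℂ y V) (hy0 : ∃ z ∈ V, y z ≠ 0) {U : Set ℂ}
    (hU : IsOpen U) (hUc : IsPreconnected U) (hX : DifferentiableOn ℂ X U)
    (hnc : ∃ t1 ∈ U, ∃ t2 ∈ U, X t1 ≠ X t2) {t : ℂ} (ht : t ∈ U) (htV : X t ∈ V) :
    ∃ᶠ t' in 𝓝 t, y (X t') ≠ 0 := by
  intro hc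
  have hc' : ∀ᶠ t' in 𝓝 t, y (X t') = 0 := by
    filter_upwards [hc] with t' h
    by_contra h'
    exact h h'
  have hXa : AnalyticOnNhd ℂ X U := hX.analyticOnNhd hU
  have hall : AnalyticOnNhd ℂ y V := hy.analyticOnNhd hV
  have hya : AnalyticAt ℂ y (X t) := hall _ htV
  rcases hya.eventually_eq_zero_or_eventually_ne_zero with h1 | h1
  · obtain ⟨z, hzV, hz⟩ := hy0
    have := hall.eqOn_zero_of_preconnected_of_eventuallyEq_zero hVc htV h1
    exact hz (this hzV)
  · have hcX : ContinuousAt X t := (hX.differentiableAt (hU.mem_nhds ht)).continuousAt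
    have h2 : ∀ᶠ t' in 𝓝 t, X t' = X t := by
      have h3 : ∀ᶠ x in 𝓝 (X t), x ≠ X t → y x ≠ 0 := by
        rw [eventually_nhdsWithin_iff] at h1
        filter_upwards [h1] with x hx hx'
        exact hx hx'
      filter_upwards [hcX.eventually h3, hc'] with t' k1 k2
      by_contra k3
      exact k1 k3 k2
    have h4 : EqOn X (fun _ => X t) U :=
      hXa.eqOn_of_preconnected_of_eventuallyEq analyticOnNhd_const hUc ht h2
    obtain ⟨t1, ht1, t2, ht2, h5⟩ := hnc
    exact h5 ((h4 ht1).trans (h4 ht2).symm)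

end Crest.Agent.R102.LinkBS350
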