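import Mathlib
import Crest.Agent.R102.CCa_350
import Crest.Agent.R102.ColS_350
import Crest.Agent.R102.LinkBS_350

/-!
Row 102, T1-B, block GROWTH, **(CC), part a**: version of `CCa_350` on an open connected set `V`
(`EntOn`, `GoodOn`).
-/

set_option autoImplicit false
set_option linter.unusedVariables false

open Set Filter Topology Metric

noncomputable section

namespace Crest.Agent.R102.CCS350

open Crest.Agent.R102.Growth
open Crest.Agent.R102.StepE599 (Good Bd u v chi st ph pp tau Inc)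
open Crest.Agent.R102.ColE350 (Wd Col SmallD Wd.im_pos isOpen_Col Col.mem)
open Crest.Agent.R102.CC350 (DL BaseL convex_Wd O1 O1_eq preconn_O1 isOpen_Wd isOpen_DL DL_mid)
open Crest.Agent.R102.ColS350 Crest.Agent.R102.LinkBS350

/-- `BaseL` with labels whose good balls are in `V` -/
structure BaseV (θ H K : ℂ → ℂ) (V : Set ℂ) (Φ P B : ℂ × ℂ → ℂ) (s b1 R : ℝ) : Prop where
  toL : BaseL θ H K Φ P B s b1 R
  sub : ∀ t w : ℂ, (t, w) ∈ DL s b1 → closedBall (B (t, w)) (10 * s) ⊆ V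

/-- constructor from `GoodOn` -/
theorem BaseV.mk' {θ H K : ℂ → ℂ} {V : Set ℂ} {Φ P B : ℂ × ℂ → ℂ} {s b1 R : ℝ}
    (s_pos : 0 < s) (R_pos : 0 < R) (B_diff : DifferentiableOn ℂ B (DL s b1))
    (Φ_cont : ContinuousOn Φ (DL s b1))
    (near : ∀ t w : ℂ, (t, w) ∈ DL s b1 → ‖B (t, w) - t‖ ≤ R / 100)
    (step : ∀ t w : ℂ, (t, w) ∈ DL s b1 → (t - w, w) ∈ DL s b1 →
      ‖B (t, w) - B (t - w, w) - w‖ ≤ ‖w‖ / 1000)
    (inc : ∀ t w : ℂ, (t, w) ∈ DL s b1 → (t + w / 2, w) ∈ DL s b1 →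
      C1.IncS θ H (Φ (t, w)) (P (t, w)) (B (t + w / 2, w)))
    (inc' : ∀ t w : ℂ, (t, w) ∈ DL s b1 → (t - w / 2, w) ∈ DL s b1 →
      C1.IncS θ H (Φ (t, w)) (P (t, w)) (B (t - w / 2, w)))
    (refl : ∀ t w : ℂ, (t, w) ∈ DL s b1 → (t - w / 2, w) ∈ DL s b1 → (t + w / 2, w) ∈ DL s b1 →
      Φ (t - w / 2, w) + Φ (t + w / 2, w) = 2 * θ (B (t, w)))
    (good : ∀ t w : ℂ, (t, w) ∈ DL s b1 → GoodOn θ K V (B (t, w)) (10 * s))
    (start : ∃ t w : ℂ, (t, w) ∈ DL s b1 ∧ (t - w / 2, w) ∈ DL s b1 ∧ (t + w / 2, w) ∈ DL s b1 ∧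
      ‖Φ (t, w) - θ (B (t - w / 2, w))‖ ≤ 1) : BaseV θ H K V Φ P B s b1 R :=
  ⟨⟨s_pos, R_pos, B_diff, Φ_cont, near, step, inc, inc', refl,
    fun t w h => ⟨(good t w h).pos, (good t w h).y_le, (good t w h).K_le⟩, start⟩,
    fun t w h => (good t w h).sub⟩

variable {θ H K : ℂ → ℂ} {V : Set ℂ} {Φ P B : ℂ × ℂ → ℂ} {s b1 R b κ : ℝ} {c : ℂ}

lemma BaseV.good (D : BaseV θ H K V Φ P B s b1 R) (t w : ℂ) (h : (t, w) ∈ DL s b1) :
    GoodOn θ K V (B (t, w)) (10 * s) :=
  ⟨(D.toL.good t w h).pos, D.sub t w h, (D.toL.good t w h).y_le, (D.toL.good t w h).K_le⟩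

/-- **the lines are `ph`, `pp` of the labels** -/
theorem BaseV.line (D : BaseV θ H K V Φ P B s b1 R) (h : EntOn θ H K V) {t w : ℂ}
    (h1 : (t, w) ∈ DL s b1) (h2 : (t + w, w) ∈ DL s b1) :
    Φ (t + w / 2, w) = ph θ H (B (t, w)) (B (t + w, w) - B (t, w)) ∧
      P (t + w / 2, w) = pp θ H (B (t, w)) (B (t + w, w) - B (t, w)) := by
  have hs := D.toL.s_pos
  have cX : ContinuousOn (fun x : ℂ × ℂ => B (x.1, x.2)) (O1 s b1) :=
    D.toL.B_diff.continuousOn.comp (by fun_prop : ContinuousOn (fun x : ℂ × ℂ => (x.1, x.2)) _)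
      (fun x hx => hx.1)
  have cY : ContinuousOn (fun x : ℂ × ℂ => B (x.1 + x.2, x.2)) (O1 s b1) :=
    D.toL.B_diff.continuousOn.comp
      (by fun_prop : ContinuousOn (fun x : ℂ × ℂ => (x.1 + x.2, x.2)) _) (fun x hx => hx.2)
  have cP : ContinuousOn (fun x : ℂ × ℂ => Φ (x.1 + x.2 / 2, x.2)) (O1 s b1) :=
    D.toL.Φ_cont.comp (by fun_prop : ContinuousOn (fun x : ℂ × ℂ => (x.1 + x.2 / 2, x.2)) _)
      (fun x hx => DL_mid hx.1 hx.2)
  obtain ⟨t0, w0, m1, m2, m3, m4⟩ := D.toL.start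
  have e0 : t0 - w0 / 2 + w0 = t0 + w0 / 2 := by ring
  have e0' : t0 - w0 / 2 + w0 / 2 = t0 := by ring
  have hx0 : (t0 - w0 / 2, w0) ∈ O1 s b1 := ⟨m2, by show (t0 - w0 / 2 + w0, w0) ∈ _; rw [e0]; exact m3⟩
  have := link_line (A := ℂ × ℂ) (O := O1 s b1) (X := fun x => B (x.1, x.2))
    (Y := fun x => B (x.1 + x.2, x.2)) (Ph := fun x => Φ (x.1 + x.2 / 2, x.2))
    (P := fun x => P (x.1 + x.2 / 2, x.2)) (ρ := fun _ => 10 * s) h preconn_O1 cX cY cP
    (fun x hx => D.good x.1 x.2 hx.1) (fun x hx => D.good _ _ hx.2)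
    (fun x hx => (D.toL.step_le hx.1 hx.2).1)
    (fun x hx => by
      have := (D.toL.step_le hx.1 hx.2).2
      linarith)
    (fun x hx => by
      have := D.toL.inc' (x.1 + x.2 / 2) x.2 (DL_mid hx.1 hx.2)
        (by rw [add_sub_cancel_right]; exact hx.1)
      rwa [add_sub_cancel_right] at this)
    (fun x hx => by
      have e : x.1 + x.2 / 2 + x.2 / 2 = x.1 + x.2 := by ring
      have := D.toL.inc (x.1 + x.2 / 2) x.2 (DL_mid hx.1 hx.2) (by rw [e]; exact hx.2)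
      rwa [e] at this)
    hx0 (by
      show ‖Φ (t0 - w0 / 2 + w0 / 2, w0) - θ (B (t0 - w0 / 2, w0))‖ ≤ 1
      rw [e0']
      exact m4)
  exact this (t, w) ⟨h1, h2⟩

/-- `y` is not identically zero -/
lemma BaseV.y_ne (D : BaseV θ H K V Φ P B s b1 R) (h : EntOn θ H K V) :
    ∃ z ∈ V, deriv θ z ≠ 0 := by
  obtain ⟨t0, w0, m1, m2, m3, m4⟩ := D.toL.start
  have e0 : t0 - w0 / 2 + w0 = t0 + w0 / 2 := by ring
  have hs := D.toL.s_pos
  have k := D.toL.step_le m2 (by rw [e0]; exact m3)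
  have g := D.good _ _ m2
  rcases y_ne_or h g (sub_ne_zero.2 k.1) (by linarith [k.2]) with h1 | h1
  · exact ⟨_, g.sub (mem_closedBall_self g.pos.le), h1⟩
  · refine ⟨_, g.sub ?_, h1⟩
    rw [mem_closedBall_iff_norm, add_sub_cancel_left]
    linarith [k.2]

/-- **the law of `st`** -/
theorem BaseV.law (D : BaseV θ H K V Φ P B s b1 R) (h : EntOn θ H K V) (hVc : IsPreconnected V) {t w : ℂ}
    (h0 : (t - 2 * w, w) ∈ DL s b1) (h1 : (t - w, w) ∈ DL s b1) (h2 : (t, w) ∈ DL s b1) :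
    B (t, w) = B (t - w, w) + st θ H (B (t - w, w)) (B (t - w, w) - B (t - 2 * w, w)) := by
  have hs := D.toL.s_pos
  have hR := D.toL.R_pos
  -- the slice
  set U : Set ℂ := {t' : ℂ | (t' - 2 * w, w) ∈ DL s b1 ∧ (t' - w, w) ∈ DL s b1 ∧
    (t', w) ∈ DL s b1} with hU
  have hUo : IsOpen U := by
    have k0 : IsOpen {t' : ℂ | (t' - 2 * w, w) ∈ DL s b1} :=
      isOpen_DL.preimage (by fun_prop : Continuous fun t' : ℂ => (t' - 2 * w, w))
    have k1 : IsOpen {t' : ℂ | (t' - w, w) ∈ DL s b1} :=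
      isOpen_DL.preimage (by fun_prop : Continuous fun t' : ℂ => (t' - w, w))
    have k2 : IsOpen {t' : ℂ | (t', w) ∈ DL s b1} :=
      isOpen_DL.preimage (by fun_prop : Continuous fun t' : ℂ => (t', w))
    exact k0.inter (k1.inter k2)
  have htU : t ∈ U := ⟨h0, h1, h2⟩
  have hB : ∀ a : ℂ, (∀ t' ∈ U, (t' - a, w) ∈ DL s b1) →
      ContinuousOn (fun t' : ℂ => B (t' - a, w)) U := by
    intro a ha
    exact D.toL.B_diff.continuousOn.comp
      (by fun_prop : ContinuousOn (fun t' : ℂ => (t' - a, w)) _) (fun x hx => ha x hx)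
  have c0 := hB (2 * w) (fun t' ht' => ht'.1)
  have c1 := hB w (fun t' ht' => ht'.2.1)
  have c2 : ContinuousOn (fun t' : ℂ => B (t', w)) U :=
    D.toL.B_diff.continuousOn.comp
      (by fun_prop : ContinuousOn (fun t' : ℂ => (t', w)) _) (fun x hx => hx.2.2)
  have ea : ∀ t' : ℂ, t' - 2 * w + w = t' - w := fun t' => by ring
  have eb : ∀ t' : ℂ, t' - w + w = t' := fun t' => by ring
  have ec : ∀ t' : ℂ, t' - 2 * w + w / 2 = t' - w - w / 2 := fun t' => by ring
  have ed : ∀ t' : ℂ, t' - w + w / 2 = t' - w / 2 := fun t' => by ring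
  have s01 : ∀ t' ∈ U, B (t' - w, w) ≠ B (t' - 2 * w, w) ∧
      ‖B (t' - w, w) - B (t' - 2 * w, w)‖ < 5 * s := by
    intro t' ht'
    have := D.toL.step_le ht'.1 (by rw [ea]; exact ht'.2.1)
    rwa [ea] at this
  have s12 : ∀ t' ∈ U, B (t', w) ≠ B (t' - w, w) ∧ ‖B (t', w) - B (t' - w, w)‖ < 5 * s := by
    intro t' ht'
    have := D.toL.step_le ht'.2.1 (by rw [eb]; exact ht'.2.2)
    rwa [eb] at this
  -- frequently `y ≠ 0` at the middle label
  have hfr : ∃ᶠ t' in 𝓝 t, deriv θ (B (t' - w, w)) ≠ 0 := by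
    set V1 : Set ℂ := {t' : ℂ | (t' - w, w) ∈ DL s b1} with hV1
    have hVo1 : IsOpen V1 :=
      isOpen_DL.preimage (by fun_prop : Continuous fun t' : ℂ => (t' - w, w))
    have hVe : V1 = {t' : ℂ | w ∈ Wd s ∧ -(4 * s) < (t' - w).im ∧ (t' - w).im < b1} := rfl
    have hVc1 : IsPreconnected V1 := by
      refine Convex.isPreconnected ?_
      have e1 : V1 = Complex.im ⁻¹' Ioo (-(4 * s) + w.im) (b1 + w.im) := by
        ext t'
        rw [hVe]
        simp only [Set.mem_ofPred_eq, mem_preimage, mem_Ioo, Complex.sub_im]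
        constructor
        · rintro ⟨_, a1, a2⟩
          constructor <;> linarith
        · rintro ⟨a1, a2⟩
          exact ⟨h1.1, by linarith, by linarith⟩
      rw [e1]
      exact (convex_Ioo _ _).linear_preimage Complex.imLm
    have hVd : DifferentiableOn ℂ (fun t' : ℂ => B (t' - w, w)) V1 :=
      D.toL.B_diff.comp (by fun_prop : DifferentiableOn ℂ (fun t' : ℂ => (t' - w, w)) _)
        (fun x hx => hx)
    refine freq_ne h.Vo hVc (dθ1 h) (D.y_ne h) hVo1 hVc1 hVd ?_ h1 ((D.good _ _ h1).sub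
      (mem_closedBall_self (D.good _ _ h1).pos.le))
    have hr : (t + (R : ℝ) - w, w) ∈ DL s b1 := by
      refine ⟨h1.1, ?_, ?_⟩
      · have := h1.2.1
        show -(4 * s) < (t + (R : ℝ) - w).im
        simpa using this
      · have := h1.2.2
        show (t + (R : ℝ) - w).im < b1
        simpa using this
    refine ⟨t, h1, t + (R : ℝ), hr, ?_⟩
    intro heq
    have n1 := D.toL.near _ _ h1
    have n2 := D.toL.near _ _ hr
    rw [← heq] at n2
    have e3 : (R : ℂ) = (B (t - w, w) - (t - w)) - (B (t - w, w) - (t + (R : ℝ) - w)) := by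
      ring
    have e4 : ‖(R : ℂ)‖ = R := by rw [Complex.norm_real]; exact abs_of_pos hR
    have e5 := norm_sub_le (B (t - w, w) - (t - w)) (B (t - w, w) - (t + (R : ℝ) - w))
    rw [← e3, e4] at e5
    linarith
  have hmain := link_law (A := ℂ) (O := U) (X0 := fun t' => B (t' - 2 * w, w))
    (X1 := fun t' => B (t' - w, w)) (X2 := fun t' => B (t', w)) (ρ := fun _ => 10 * s) (x := t)
    h (hUo.mem_nhds htU) c0 c1 c2 (fun t' ht' => D.good _ _ ht'.1)
    (fun t' ht' => D.good _ _ ht'.2.1) (fun t' ht' => (s01 t' ht').1)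
    (fun t' ht' => by
      have := (s01 t' ht').2
      linarith)
    (fun t' ht' => by
      have := (s12 t' ht').2
      linarith)
    (fun t' ht' => by
      have l1 := (D.line h ht'.1 (by rw [ea]; exact ht'.2.1)).1
      have l2 := (D.line h ht'.2.1 (by rw [eb]; exact ht'.2.2)).1
      rw [ea, ec] at l1
      rw [eb, ed] at l2
      have l3 := D.toL.refl (t' - w) w ht'.2.1
        (by
          rw [← ec]
          exact DL_mid ht'.1 (by rw [ea]; exact ht'.2.1))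
        (DL_mid ht'.2.1 (by rw [eb]; exact ht'.2.2))
      rw [ed] at l3
      rw [← l1, ← l2]
      exact l3)
    hfr
  exact hmain

/-- **(CC), part a** -/
theorem BaseV.column (D : BaseV θ H K V Φ P B s b1 R) (h : EntOn θ H K V) (hVc : IsPreconnected V) (S : SmallV θ K V c R s κ)
    (hb : |b - c.im| ≤ R / 400) (hb0 : 0 ≤ b) (hb1 : b ≤ b1) :
    ∃ X : ℂ × ℂ → ℂ, DifferentiableOn ℂ X (Col c R s b) ∧
      (∀ t w : ℂ, (t, w) ∈ Col c R s b → t.im < b → X (t, w) = B (t, w)) ∧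
      (∀ t w : ℂ, (t, w) ∈ Col c R s b → ‖X (t, w) - t‖ ≤ R / 80) ∧
      (∀ t w : ℂ, (t, w) ∈ Col c R s b → GoodOn θ K V (X (t, w)) (10 * s)) ∧
      (∀ t w : ℂ, (t, w) ∈ Col c R s b → (t + w, w) ∈ Col c R s b →
        X (t + w, w) ≠ X (t, w) ∧ ‖X (t + w, w) - X (t, w)‖ < 5 * s) ∧
      (∀ t w : ℂ, (t, w) ∈ Col c R s b → (t + w, w) ∈ Col c R s b → (t + w).im < b →
        Φ (t + w / 2, w) = ph θ H (X (t, w)) (X (t + w, w) - X (t, w)) ∧
        P (t + w / 2, w) = pp θ H (X (t, w)) (X (t + w, w) - X (t, w))) := by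
  have hs := D.toL.s_pos
  have hR := D.toL.R_pos
  have hsub : ∀ t w : ℂ, (t, w) ∈ Col c R s b → t.im < b → (t, w) ∈ DL s b1 := by
    intro t w ht h2
    have h1 : b - 4 * s < t.im := ht.2.1
    refine ⟨ht.1, ?_, ?_⟩
    · show -(4 * s) < t.im; linarith
    · show t.im < b1; linarith
  have him : ∀ t w : ℂ, (t, w) ∈ Col c R s b → 0 < w.im := fun t w ht => Wd.im_pos ht.1
  obtain ⟨X, x1, x2, x3, x4, x5⟩ := column_climb S h hb (X₀ := B)
    (D.toL.B_diff.mono (fun x hx => hsub x.1 x.2 hx.1 hx.2))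
    (fun t w ht h2 => D.toL.near t w (hsub t w ht h2))
    (fun t w ht h2 ht' => D.toL.step t w (hsub t w ht h2)
      (hsub _ _ ht' (by
        have := him t w ht
        rw [Complex.sub_im]; linarith)))
    (fun t w ht h2 ht' ht'' => D.law h hVc
      (hsub _ _ ht'' (by
        have := him t w ht
        have e2 : (t - 2 * w).im = t.im - 2 * w.im := by simp
        rw [e2]; linarith))
      (hsub _ _ ht' (by
        have := him t w ht
        rw [Complex.sub_im]; linarith))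
      (hsub t w ht h2))
  refine ⟨X, x1, x2, x3, ?_, ?_, ?_⟩
  · intro t w ht
    exact S.good (Col.mem S.toD hb ht (x3 t w ht))
  · intro t w ht ht'
    have k := x4 (t + w) w ht' (by rwa [add_sub_cancel_right])
    rw [add_sub_cancel_right] at k
    have hv := him t w ht
    have hwp : 0 < ‖w‖ := by
      refine norm_pos_iff.2 (fun h0 => ?_)
      rw [h0] at hv
      simp at hv
    have hw : ‖w‖ < 2 * s := ht.1.1
    constructor
    · intro h0
      rw [h0, sub_self, zero_sub, norm_neg] at k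
      linarith
    · have e : X (t + w, w) - X (t, w) = (X (t + w, w) - X (t, w) - w) + w := by ring
      rw [e]
      refine (norm_add_le _ _).trans_lt ?_
      linarith
  · intro t w ht ht' h3
    have hv := him t w ht
    have h4 : t.im < b := by
      rw [Complex.add_im] at h3
      linarith
    rw [x2 t w ht h4, x2 (t + w) w ht' h3]
    exact D.line h (hsub t w ht h4) (hsub _ _ ht' h3)

end Crest.Agent.R102.CCS350
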