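import Crest.Agent.R102.GrowAsm_314
import Crest.Agent.R102.APLS_628
import Crest.Agent.R102.GrowBase_203
import Crest.Agent.R102.ColK_516
import Crest.Agent.R102.MirS_151
import Crest.Agent.R102.BaseK_350

/-!
Row 102, **GROWTH** (helper314): the theorem `Growth.GrowthP`.
-/

set_option autoImplicit false

open Set Filter Topology Metric
open scoped ComplexConjugate

noncomputable section

namespace Crest.Agent.R102.GrowthT314

open Crest.Agent.R102.T5 Crest.Agent.R102.C0 Crest.Agent.R102.C1 Crest.Agent.R102.A929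
open Crest.Agent.R102.Sh982 Crest.Agent.R102.ColE350 Crest.Agent.R102.ColS350
open Crest.Agent.R102.CC350 Crest.Agent.R102.CCS350 Crest.Agent.R102.Growth
open Crest.Agent.R102.T1EJ712 Crest.Agent.R102.GrowTop314 Crest.Agent.R102.BaseST942
open Crest.Agent.R102.GrowAsm314
open Crest.Agent.R102.T1ETop314 (Om mem_SL)

variable {q : C(ℂ, ℂ)} {η ρ r Bc h0 : ℝ} {b φ p : ℂ × ℂ → ℂ} {m₀ θ H K G : ℂ → ℂ}

lemma app (hD : Spine.DataS q η ρ r Bc b φ p m₀ θ H h0) (hM : MirS q η h0 θ H K G)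
    (hnb : ∀ s : ℂ, s.im = h0 → ¬ Spine.RegB h0 θ H s) : APP φ p ρ r h0 θ G := by
  obtain ⟨C1, T1, h1, h2, -, h3⟩ := ShS628.APLS hD hM hnb
  exact ⟨C1, T1, by linarith, h2, fun τ hτ h _ hh0 hsub => (h3 τ hτ h hh0 hsub).1⟩

lemma bvp (hD : Spine.DataS q η ρ r Bc b φ p m₀ θ H h0) : BVP b φ p ρ r h0 θ H K :=
  fun _ _ _ h1 h2 h3 h4 h5 h6 h7 h8 h9 => GrowBase203.baseV_of hD h1 h2 h3 h4 h5 h6 h7 h8 h9

/-- the boxes of the heights -/
lemma boxes (hD : Spine.DataS q η ρ r Bc b φ p m₀ θ H h0)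
    (hnb : ∀ s : ℂ, s.im = h0 → ¬ Spine.RegB h0 θ H s) {τ : ℝ} (h1 : Real.exp (-τ) < r)
    (hτ : 0 ≤ τ) (h2 : Real.exp (-τ) < MM (Om φ p ρ r) τ) :
    APJ628.Box θ H (-(3 * ρ / 8)) (MM (Om φ p ρ r) τ) (Real.exp (-τ)) (φe φ p ρ r) (pe φ p ρ r)
      (be b h0 ρ r) ∧
    APJ628.BoxV (Str h0) (-(3 * ρ / 8)) (MM (Om φ p ρ r) τ) (Real.exp (-τ)) (be b h0 ρ r) := by
  have hρ := hD.fam.ρ_pos
  have he1 : Real.exp (-τ) ≤ 1 := by
    rw [Real.exp_le_one_iff]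
    linarith
  refine ShS628.boxMS hD (ShS628.rule_vertexS hD hnb) (Real.exp_pos _) he1 h1.le h2 ?_
  rintro ⟨t, w⟩ ⟨⟨b1, b2⟩, b3⟩
  rw [mem_ball_zero_iff] at b3
  exact (mem_SL (by linarith)).2 (mem_MMS hD h1 b3.le b2)

/-- the third order law on the real axis -/
lemma ap3_real (hD : Spine.DataS q η ρ r Bc b φ p m₀ θ H h0) (hM : MirS q η h0 θ H K G) :
    ∃ c₀ : ℂ, ∀ x : ℝ, iteratedDeriv 3 (fun w => APJ628.stp (be b h0 ρ r) (x, w)) 0 =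
      2 / 5 * ((K x - 2 * deriv θ x ^ 2) + deriv θ x ^ 2 / 8) + c₀ := by
  have hρ := hD.fam.ρ_pos
  obtain ⟨c₀, hc₀⟩ := ShS628.ap3S hD hM
  refine ⟨c₀, fun x => ?_⟩
  rw [(ShS628.stp_realS (dat_of hD) x).iteratedDeriv_eq 3, ← hM.G_eq]
  exact hc₀ x (by simpa using hρ)

/-- the base bound -/
lemma base_near (hD : Spine.DataS q η ρ r Bc b φ p m₀ θ H h0) :
    ∀ t w : ℂ, |t.im| ≤ min (ρ / 4) r → ‖w‖ < min (ρ / 4) r →
      ‖be b h0 ρ r (t, w) - t‖ ≤ |Bc| * ‖w‖ ^ 2 := by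
  have hρ := hD.fam.ρ_pos
  intro t w h1 h2
  have h3 : |t.im| ≤ ρ / 4 := h1.trans (min_le_left _ _)
  have h4 : ‖w‖ < r := h2.trans_le (min_le_right _ _)
  have h5 := abs_le.1 h3
  have h6 : (t, w) ∈ K669.Slab (-(ρ / 2)) (ρ / 2) (ball (0 : ℂ) r) :=
    ⟨by simp only; linarith, by simp only; linarith, by simpa using h4⟩
  rw [(dat_of hD).be_slab h6]
  refine (hD.fam.b_near (t, w) ⟨by simp only; linarith, h4⟩).trans ?_
  gcongr
  exact le_abs_self _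

/-- **GROWTH** modulo the base region -/
theorem growthP_of (hBW : ∀ k : ℕ, 2 ≤ k → BWP k)
    (hBS : ∀ (q : C(ℂ, ℂ)) (η ρ r Bc : ℝ) (b φ p : ℂ × ℂ → ℂ) (m₀ θ H K G : ℂ → ℂ) (h0 : ℝ),
      Spine.DataS q η ρ r Bc b φ p m₀ θ H h0 → MirS q η h0 θ H K G →
      (∀ s : ℂ, s.im = h0 → ¬ Spine.RegB h0 θ H s) → ∀ k : ℕ, 2 ≤ k →
      BSP k b φ p ρ r h0 θ K) : GrowthP := by
  intro q η ρ r Bc b φ p m₀ θ H K G h0 hD hM hnb hcount k
  exact growth_one ColK516.colK k hD hM hnb hcount (app hD hM hnb)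
    (hBS q η ρ r Bc b φ p m₀ θ H K G h0 hD hM hnb (k + 2) (by omega)) (hBW (k + 2) (by omega))
    (bvp hD)

/-- the window of the base height -/
lemma bwp (k : ℕ) : BWP k := fun _ hKc =>
  BaseK350.b1_windowK k (C' := 1000) (δ := 1 / 10) (by norm_num) (by norm_num) hKc

/-- the base region of the official sheet -/
theorem bsp (hD : Spine.DataS q η ρ r Bc b φ p m₀ θ H h0) (hM : MirS q η h0 θ H K G)
    (hnb : ∀ s : ℂ, s.im = h0 → ¬ Spine.RegB h0 θ H s) (k : ℕ) : BSP k b φ p ρ r h0 θ K := by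
  have hr := hD.fam.r_pos
  have hρ := hD.fam.ρ_pos
  have hρη := hD.fam.ρ_lt
  have hle := hD.le
  have hh0 : 0 < h0 := (dat_of hD).h_pos
  have hLS : LS (ρ / 2) (ball 0 r) (Om φ p ρ r) := LS.of_LV (lvS hD)
  have hF : ∀ r', 0 < r' → Fin' (Om φ p ρ r) r' := fun r' h => finS hD hnb h
  have htend : Tendsto (MM (Om φ p ρ r)) atTop (𝓝 h0) := MM_tendstoS hD hnb
  have hev1 : ∀ᶠ τ : ℝ in atTop, Real.exp (-τ) < min r (h0 / 2) :=
    (Real.tendsto_exp_neg_atTop_nhds_zero).eventually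
      (gt_mem_nhds (lt_min (by positivity) (by positivity)))
  obtain ⟨B1, hB1⟩ := eventually_atTop.1 (hev1.and
    ((htend.eventually (lt_mem_nhds (show h0 / 2 < h0 by linarith))).and (eventually_ge_atTop 1)))
  have q1 : ∀ τ, B1 ≤ τ → Real.exp (-τ) < r ∧ Real.exp (-τ) < h0 / 2 ∧
      h0 / 2 < MM (Om φ p ρ r) τ ∧ 1 ≤ τ := by
    intro τ hτ
    obtain ⟨a1, a2, a3⟩ := hB1 τ hτ
    exact ⟨a1.trans_le (min_le_left _ _), a1.trans_le (min_le_right _ _), a2, a3⟩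
  obtain ⟨c₀, hc₀⟩ := ap3_real hD hM
  refine ⟨B1, fun T₀ hT₀ => ?_⟩
  have hbx : ∀ τ, T₀ ≤ τ → APJ628.Box θ H (-(3 * ρ / 8)) (MM (Om φ p ρ r) τ) (Real.exp (-τ))
      (φe φ p ρ r) (pe φ p ρ r) (be b h0 ρ r) ∧
      APJ628.BoxV (Str h0) (-(3 * ρ / 8)) (MM (Om φ p ρ r) τ) (Real.exp (-τ))
      (be b h0 ρ r) := by
    intro τ hτ
    obtain ⟨a1, a2, a3, a4⟩ := q1 τ (hT₀.trans hτ)
    exact boxes hD hnb a1 (by linarith) (by linarith)
  obtain ⟨b1', b2', b3', b4'⟩ := q1 T₀ hT₀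
  obtain ⟨Kc, hKc1, hKc⟩ := BaseK350.base_stK k (ShS628.lab_ofS hD hM) hM.ent hM.yper hM.yconj
    hM.Kconj hc₀ b4' (M := MM (Om φ p ρ r)) (fun x hx y _ hxy =>
      MM_mono hLS hF (by have := (q1 x (hT₀.trans hx)).1; linarith) hxy) (by linarith)
    (fun τ hτ => MM_le hD hnb (q1 τ (hT₀.trans hτ)).1) (by linarith)
    (fun τ hτ => (hbx τ hτ).1) (fun τ hτ => (hbx τ hτ).2)
    (lt_min (by positivity) hr) (abs_nonneg _) (base_near hD)
  obtain ⟨T, hT⟩ := hKc Kc le_rfl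
  exact ⟨Kc, hKc1, T, fun τ hτ S hS _ hrec => hT τ hτ S hS hrec⟩

/-- **GROWTH** (T1-B, Case B): if only countably many widths are good, the curve of the mirror grows
slower than `exp (C d^{-1/(k+1)})` for every `k`. -/
theorem growthP : GrowthP :=
  growthP_of (fun k _ => bwp k) fun _ _ _ _ _ _ _ _ _ _ _ _ _ _ hD hM hnb k _ => bsp hD hM hnb k


end Crest.Agent.R102.GrowthT314
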