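import Crest.Agent.R102.GrowAsm_314
import Crest.Agent.R102.Growth_314
import Crest.Agent.R102.BoxMS_628
import Crest.Agent.R102.BaseK_350

/-!
Row 102, T1-B, block **GROWTH**: the base region `BSP` of the main sheets and the theorem
`growthP : Growth.GrowthP`.
-/

set_option autoImplicit false

open Set Filter Topology Metric
open scoped ComplexConjugate

noncomputable section

namespace Crest.Agent.R102.BSP350

open Crest.Agent.R102.T5 Crest.Agent.R102.C0 Crest.Agent.R102.C1 Crest.Agent.R102.A929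
open Crest.Agent.R102.Sh982 Crest.Agent.R102.ColE350
open Crest.Agent.R102.CC350 Crest.Agent.R102.CCS350 Crest.Agent.R102.Growth
open Crest.Agent.R102.T1EJ712 Crest.Agent.R102.GrowTop314 Crest.Agent.R102.BaseST942
open Crest.Agent.R102.GrowAsm314 Crest.Agent.R102.APJ628 Crest.Agent.R102.ShS628
open Crest.Agent.R102.T1ETop314 (Om mem_SL)

variable {q : C(ℂ, ℂ)} {η ρ r Bc h0 : ℝ} {b φ p : ℂ × ℂ → ℂ} {m₀ θ H K G : ℂ → ℂ}

/-- **the base region** -/
theorem bsp (hD : Spine.DataS q η ρ r Bc b φ p m₀ θ H h0) (hM : MirS q η h0 θ H K G)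
    (hnb : ∀ s : ℂ, s.im = h0 → ¬ Spine.RegB h0 θ H s) (k : ℕ) : BSP k b φ p ρ r h0 θ K := by
  have hr := hD.fam.r_pos
  have hρ := hD.fam.ρ_pos
  have D := dat_of hD
  have hh0 : 0 < h0 := D.h_pos
  have hV : RuleVS b φ p ρ r h0 := rule_vertexS hD hnb
  have hLS : LS (ρ / 2) (ball 0 r) (Om φ p ρ r) := LS.of_LV (lvS hD)
  have hF : ∀ r', 0 < r' → Fin' (Om φ p ρ r) r' := fun r' h => finS hD hnb h
  have htend : Tendsto (MM (Om φ p ρ r)) atTop (𝓝 h0) := MM_tendstoS hD hnb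
  have hev1 : ∀ᶠ τ : ℝ in atTop, Real.exp (-τ) < min (r / 2) (min (ρ / 16) (h0 / 8)) :=
    (Real.tendsto_exp_neg_atTop_nhds_zero).eventually
      (gt_mem_nhds (lt_min (by positivity) (lt_min (by positivity) (by positivity))))
  obtain ⟨B0, hB0⟩ := eventually_atTop.1 (hev1.and
    ((htend.eventually (lt_mem_nhds (show h0 / 2 < h0 by linarith))).and
    (eventually_ge_atTop (1 : ℝ))))
  refine ⟨B0, fun T₀ hT₀ => ?_⟩
  have q1 : ∀ τ, T₀ ≤ τ → Real.exp (-τ) < r / 2 ∧ Real.exp (-τ) < ρ / 16 ∧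
      Real.exp (-τ) < h0 / 8 ∧ h0 / 2 < MM (Om φ p ρ r) τ ∧ 1 ≤ τ ∧
      MM (Om φ p ρ r) τ ≤ h0 := by
    intro τ hτ
    obtain ⟨a1, a2, a3⟩ := hB0 τ (hT₀.trans hτ)
    have a1' : Real.exp (-τ) < r / 2 := a1.trans_le (min_le_left _ _)
    exact ⟨a1', a1.trans_le ((min_le_right _ _).trans (min_le_left _ _)),
      a1.trans_le ((min_le_right _ _).trans (min_le_right _ _)), a2, a3,
      MM_le hD hnb (by linarith)⟩
  have hmono : MonotoneOn (MM (Om φ p ρ r)) (Ici T₀) := by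
    intro x hx y hy hxy
    exact MM_mono hLS hF (by have := (q1 x hx).1; linarith) hxy
  -- the boxes
  have hBox : ∀ τ, T₀ ≤ τ → Box θ H (-(3 * ρ / 8)) (MM (Om φ p ρ r) τ) (Real.exp (-τ))
      (φe φ p ρ r) (pe φ p ρ r) (be b h0 ρ r) ∧
      BoxV (Str h0) (-(3 * ρ / 8)) (MM (Om φ p ρ r) τ) (Real.exp (-τ)) (be b h0 ρ r) := by
    intro τ hτ
    obtain ⟨a1, a2, a3, a4, a5, a6⟩ := q1 τ hτ
    have he1 : Real.exp (-τ) < 1 := by
      rw [Real.exp_lt_one_iff]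
      linarith
    refine boxMS hD hV (Real.exp_pos _) he1.le (by linarith) (by linarith) ?_
    rintro ⟨t, w⟩ ⟨⟨b1, b2⟩, b3⟩
    rw [mem_ball_zero_iff] at b3
    exact (mem_SL (by linarith)).2 (mem_MMS hD (by linarith) b3.le b2)
  -- (AP3)
  obtain ⟨c₀, hc₀⟩ := ap3S hD hM
  have hAP3 : ∀ x : ℝ, iteratedDeriv 3 (fun w => stp (be b h0 ρ r) (x, w)) 0 =
      2 / 5 * ((K x - 2 * deriv θ x ^ 2) + deriv θ x ^ 2 / 8) + c₀ := by
    intro x
    rw [(stp_realS D x).iteratedDeriv_eq 3, ← hM.G_eq]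
    exact hc₀ x (by simpa using hρ)
  -- the base bound
  have hbase : ∀ t w : ℂ, |t.im| ≤ min (ρ / 4) (r / 2) → ‖w‖ < min (ρ / 4) (r / 2) →
      ‖be b h0 ρ r (t, w) - t‖ ≤ |Bc| * ‖w‖ ^ 2 := by
    intro t w h1 h2
    have h3 : |t.im| ≤ ρ / 4 := h1.trans (min_le_left _ _)
    have h4 : ‖w‖ < r := h2.trans_le ((min_le_right _ _).trans (by linarith))
    have h5 := abs_le.1 h3
    have h6 : (t, w) ∈ K669.Slab (-(ρ / 2)) (ρ / 2) (ball (0 : ℂ) r) :=
      ⟨by simp only; linarith, by simp only; linarith, by simpa using h4⟩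
    rw [D.be_slab h6]
    refine (hD.fam.b_near (t, w) ⟨by simp only; linarith, h4⟩).trans ?_
    gcongr
    exact le_abs_self _
  have hρh : -h0 ≤ -(3 * ρ / 8) := by
    have := hD.fam.ρ_lt
    have := hD.le
    linarith
  obtain ⟨p2, p3, p3', p4, p5, p6⟩ := q1 T₀ le_rfl
  obtain ⟨Kc, hKc1, hKc⟩ := BaseK350.base_stK k (lab_ofS hD hM) hM.ent hM.yper hM.yconj hM.Kconj
    hAP3 p5 hmono (by linarith) (fun τ hτ => (q1 τ hτ).2.2.2.2.2) hρh (fun τ hτ => (hBox τ hτ).1)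
    (fun τ hτ => (hBox τ hτ).2) (lt_min (by positivity) (by positivity)) (abs_nonneg _) hbase
  obtain ⟨T, hT⟩ := hKc Kc le_rfl
  exact ⟨Kc, hKc1, T, fun τ hτ S hS _ hrec => hT τ hτ S hS hrec⟩

/-- **GROWTH** -/
theorem growthP : GrowthP :=
  GrowthT314.growthP_of
    (fun k _ Kc hKc => BaseK350.b1_windowK k (C' := 1000) (δ := 1 / 10) (by norm_num)
      (by norm_num) hKc)
    (fun _ _ _ _ _ _ _ _ _ _ _ _ _ _ hD hM hnb k _ => bsp hD hM hnb k)

end Crest.Agent.R102.BSP350
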