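import Crest.Agent.R102.GrowAsm_314

/-!
Row 102, block GROWTH: `GrowAsm314.BWP` (the base height of a window of order `k`; `b1_window` of
`BaseST_942` with `(τ ^ k)⁻¹`).
-/

set_option autoImplicit false

open Set Filter Topology Metric

noncomputable section

namespace Crest.Agent.R102.BWP599

open Crest.Agent.R102.BaseST942 (b1 exp_taub)

/-- the base height is within `R / 400` of `M τ`, `R = C' log τ * S` -/
theorem b1_windowK {C' δ Kc : ℝ} (k : ℕ) (hC' : 400 ≤ C') (hδ : δ ≤ 1) (hKc : 1 ≤ Kc) :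
    ∃ T : ℝ, ∀ τ : ℝ, T ≤ τ → ∀ (S : ℝ) (M : ℝ → ℝ), (τ ^ k)⁻¹ ≤ S →
      (∀ β : ℝ, |β| ≤ (C' * Real.log τ) ^ 3 → |M (τ + β) - M τ - S * β| ≤ δ * S) →
      |b1 M Kc τ S - M τ| ≤ C' * Real.log τ * S / 400 ∧
        10 ^ 4 * Real.exp (-τ) ≤ C' * Real.log τ * S ∧
        S ≤ C' * Real.log τ * S / 100 := by
  have hKc0 : 0 < Kc := by linarith
  have hKlog : 0 ≤ Real.log Kc := Real.log_nonneg hKc
  have hev1 : ∀ᶠ τ : ℝ in atTop, 2 * (Real.log Kc + 3) ≤ Real.log τ :=
    Real.tendsto_log_atTop.eventually (eventually_ge_atTop _)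
  have hev2 : ∀ᶠ τ : ℝ in atTop, τ ^ (k + 1) * Real.exp (-τ) * (2 * Kc + 10 ^ 4) ≤ 1 := by
    have h := (Real.tendsto_pow_mul_exp_neg_atTop_nhds_zero (k + 1)).mul_const (2 * Kc + 10 ^ 4)
    rw [zero_mul] at h
    exact (h.eventually (gt_mem_nhds (by norm_num : (0 : ℝ) < 1))).mono fun _ h => le_of_lt h
  obtain ⟨T, hT⟩ := eventually_atTop.1 (hev1.and (hev2.and (eventually_ge_atTop (1 : ℝ))))
  refine ⟨T, ?_⟩
  intro τ hτ S M hS hlin
  obtain ⟨e1, e2, e3⟩ := hT τ hτ
  have hτ0 : 0 < τ := by linarith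
  have hlogτ : 6 ≤ Real.log τ := by linarith
  have hSpos : 0 < S := lt_of_lt_of_le (by positivity) hS
  set s : ℝ := Real.exp (-τ) with hs
  have hs0 : 0 < s := Real.exp_pos _
  have hsmall : s * (2 * Kc * τ + 10 ^ 4) ≤ S := by
    have h1 : s * (2 * Kc * τ + 10 ^ 4) * τ ^ k ≤ 1 := by
      calc s * (2 * Kc * τ + 10 ^ 4) * τ ^ k ≤ s * (2 * Kc * τ + 10 ^ 4 * τ) * τ ^ k := by
            gcongr
            linarith
        _ = τ ^ (k + 1) * s * (2 * Kc + 10 ^ 4) := by ring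
        _ ≤ 1 := e2
    calc s * (2 * Kc * τ + 10 ^ 4) = s * (2 * Kc * τ + 10 ^ 4) * τ ^ k * (τ ^ k)⁻¹ := by
          field_simp
      _ ≤ 1 * (τ ^ k)⁻¹ := by gcongr
      _ ≤ S := by rw [one_mul]; exact hS
  have hrb : Real.exp (-(τ - Real.log Kc - Real.log τ / 2)) ≤ Kc * τ * s := by
    rw [exp_taub hKc0 hτ0]
    have : Real.sqrt τ ≤ τ := by
      rw [Real.sqrt_le_left hτ0.le]
      nlinarith
    gcongr
  have hK2 : 0 ≤ s * (2 * Kc * τ) := by positivity
  have hR : 400 * (Real.log τ * S) ≤ C' * Real.log τ * S := by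
    have : 0 ≤ Real.log τ * S := by positivity
    nlinarith
  refine ⟨?_, ?_, ?_⟩
  · set β : ℝ := -(Real.log Kc + Real.log τ / 2) with hβ
    have hβabs : |β| ≤ (C' * Real.log τ) ^ 3 := by
      have h0 : 0 ≤ Real.log Kc + Real.log τ / 2 := by linarith
      rw [hβ, abs_neg, abs_of_nonneg h0]
      have h1 : 1 ≤ C' * Real.log τ := by nlinarith
      have h2 : C' * Real.log τ ≤ (C' * Real.log τ) ^ 3 := by
        calc C' * Real.log τ = (C' * Real.log τ) ^ 1 := (pow_one _).symm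
          _ ≤ (C' * Real.log τ) ^ 3 := pow_le_pow_right₀ h1 (by norm_num)
      have h3 : Real.log Kc + Real.log τ / 2 ≤ C' * Real.log τ := by nlinarith
      exact h3.trans h2
    have h1 := hlin β hβabs
    have hτb : τ + β = τ - Real.log Kc - Real.log τ / 2 := by rw [hβ]; ring
    rw [hτb] at h1
    have hb : b1 M Kc τ S = M (τ - Real.log Kc - Real.log τ / 2) -
      2 * Real.exp (-(τ - Real.log Kc - Real.log τ / 2)) - S := rfl
    rw [hb]
    have hE := Real.exp_pos (-(τ - Real.log Kc - Real.log τ / 2))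
    have h2 : 2 * Real.exp (-(τ - Real.log Kc - Real.log τ / 2)) ≤ S := by
      have h3 : s * (2 * Kc * τ) ≤ S := by
        have : 0 ≤ s * 10 ^ 4 := by positivity
        linarith
      linarith
    have h4 : S * β = -(S * (Real.log Kc + Real.log τ / 2)) := by rw [hβ]; ring
    rw [h4] at h1
    have h5 : S * (Real.log Kc + Real.log τ / 2) + 3 * S ≤ Real.log τ * S := by
      have : Real.log Kc + Real.log τ / 2 + 3 ≤ Real.log τ := by linarith
      nlinarith
    have h6 : 0 ≤ S * (Real.log Kc + Real.log τ / 2) := by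
      have : 0 ≤ Real.log Kc + Real.log τ / 2 := by linarith
      positivity
    have h7 : δ * S ≤ S := by nlinarith
    rw [abs_le] at h1 ⊢
    constructor
    · linarith [h1.1]
    · linarith [h1.2]
  · have h1 : 10 ^ 4 * s ≤ S := by linarith
    have h2 : 1 * S ≤ Real.log τ * S := by gcongr; linarith
    linarith
  · have h2 : 1 * S ≤ Real.log τ * S := by gcongr; linarith
    linarith


theorem bwp (k : ℕ) : GrowAsm314.BWP k := fun Kc hKc =>
  b1_windowK k (by norm_num) (by norm_num) hKc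

end Crest.Agent.R102.BWP599
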