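import Mathlib
import Crest.Agent.R102.Step5Defs_613

/-!
Row 102, T1-B, III.2 = **SUP** (helper115): from Part II (at a.e. good `u`) to `S5.In5`.

Everything in exact coordinates `q = (t', w)`, `t' = t - Hol w`, `w ∈ HDu u0 R` absolute, ONE
holomorphic `Hol` on the half disc (`Slope_845.slope_NT`).

* `X`  = domain of the vertex `B = B_0` (exact coordinates), `L` = domain of the incoming line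
  `(φ, p) = l_{-1/2}`, i.e. `L = {q | (q.1 + Hol q.2 - q.2/2, q.2) ∈ OmL}`; both contain `Dp u0 R`;
* `E2 X L a g ρ η e` : Part II at the point `e = (s,u)` with precision `ρ`;
* leaves: `ProdBlow`, `ProdUniq`, `AltAe`, `BirthsOf`; result `Sup`.
-/

set_option autoImplicit false

open Set Filter Topology Metric Complex MeasureTheory

noncomputable section

namespace Crest.Agent.R102.Sup115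

open Crest.Agent.R102.End613 Crest.Agent.R102.S5

/-- upper half disc -/
def HDu (u0 R : ℝ) : Set ℂ := ball (u0 : ℂ) R ∩ {w | 0 < w.im}

/-- the product domain, of depth `d` -/
def Dp (u0 R d : ℝ) : Set (ℂ × ℂ) := {q | -d < q.1.im ∧ q.1.im < 0 ∧ q.2 ∈ HDu u0 R}

/-- **LEAF 1**: a.e. restricted nontangential limits at the distinguished boundary -/
def ProdBlow : Prop :=
  ∀ (u0 R d h : ℝ) (B : ℂ × ℂ → ℂ), 0 < R → 0 < d → DifferentiableOn ℂ B (Dp u0 R d) →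
    (∀ q ∈ Dp u0 R d, |(B q).im| ≤ h) →
    ∀ᵐ e : ℝ × ℝ, e.2 ∈ Ioo (u0 - R) (u0 + R) →
      ∃ b : ℂ, ∀ M : ℝ, Tendsto B (𝓝[Cn e M] ((e.1 : ℂ), (e.2 : ℂ))) (𝓝 b)

/-- **LEAF 2**: uniqueness -/
def ProdUniq : Prop :=
  ∀ (u0 R d h : ℝ) (B : ℂ × ℂ → ℂ), 0 < R → 0 < d → DifferentiableOn ℂ B (Dp u0 R d) →
    (∀ q ∈ Dp u0 R d, |(B q).im| ≤ h) → (∃ q ∈ Dp u0 R d, ∃ q' ∈ Dp u0 R d, B q ≠ B q') →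
    ∀ z : ℂ, ∀ᵐ e : ℝ × ℝ, e.2 ∈ Ioo (u0 - R) (u0 + R) →
      ¬ Tendsto B (𝓝[Cn e 8] ((e.1 : ℂ), (e.2 : ℂ))) (𝓝 z)

/-- the alternative of Lemma G at `e`, for `F` (field `alt` of `In5`) -/
def Alt (T0 e0 Cs : ℝ) (F : ℂ × ℂ → ℂ) (e : ℝ × ℝ) : Prop :=
  (∃ r₁ : ℂ, r₁ ≠ 0 ∧ r₁ ≠ 1 ∧ ∀ M : ℝ,
      Tendsto F (𝓝[Cn e M] ((e.1 : ℂ), (e.2 : ℂ))) (𝓝 r₁)) ∨
    ∃ h₁ > 0, ∃ᶠ s : ℝ in 𝓝[>] 0,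
      |Real.log ‖F (ray e s)‖| ≤ T0 ∧ e0 ≤ ‖F (ray e s) - 1‖ ∧
      ∀ s' : ℝ, s ≤ s' → s' < h₁ →
        1 + |Real.log ‖F (ray e s')‖| ≤ Cs * (s' / s) ^ (1 / 2 : ℝ)

/-- **LEAF 3**: Lemma G on the tilted lines `ζ ↦ e + (-ζ, ζ/4)` (planar a.e.) -/
def AltAe : Prop :=
  ∃ T0 e0 Cs : ℝ, 0 < e0 ∧ 1 ≤ Cs ∧ ∀ (P : Set (ℝ × ℝ)) (lam d : ℝ) (F : ℂ × ℂ → ℂ),
    IsClosed P → 0 < lam → lam ≤ 1 / 64 → 0 < d → DifferentiableOn ℂ F (Saw P lam d) →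
    (∀ q ∈ Saw P lam d, F q ≠ 0 ∧ F q ≠ 1) →
    (∀ e ∈ P, ∀ M : ℝ, ∃ δ > 0, ∀ q ∈ Cn e M, -δ < q.1.im →
      DifferentiableAt ℂ F q ∧ F q ≠ 0 ∧ F q ≠ 1) →
    ∀ᵐ e : ℝ × ℝ, e ∈ P → Alt T0 e0 Cs F e

/-- **Part II at `e = (s, u)`**, level `a`, gap `g`, precision `ρ`, scale `η` -/
structure E2 (X L : Set (ℂ × ℂ)) (a g ρ η : ℝ) (e : ℝ × ℝ) : Prop where
  low : Half e η (a - ρ) ⊆ X
  line : Half e η (a + g) ⊆ L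
  dense : ∀ x : ℝ, |x - e.1| < η → ∀ z : ℂ, ‖z‖ < η → 0 < z.im → ρ * ‖z‖ ≤ z.im →
    ∃ q : ℂ × ℂ, q ∉ X ∧ |q.1.re - (x + a * z.re)| ≤ ρ * ‖z‖ ∧
      ‖q.2 - ((e.2 : ℂ) + z)‖ ≤ ρ * ‖z‖ ∧ (a - ρ) * q.2.im ≤ q.1.im ∧ q.1.im ≤ (a + ρ) * q.2.im

/-- maximality of the sheet `X` of `B` (labels in `Str h`) -/
def MaxiX (h : ℝ) (X : Set (ℂ × ℂ)) (B : ℂ × ℂ → ℂ) : Prop :=
  ∀ (q : ℂ × ℂ) (Bt : ℂ × ℂ → ℂ), AnalyticAt ℂ Bt q → |(Bt q).im| < h →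
    (∀ᶠ τ : ℝ in 𝓝[>] 0, (q.1 - τ * I, q.2) ∈ X ∧ Bt =ᶠ[𝓝 (q.1 - τ * I, q.2)] B) → q ∈ X

/-- **LEAF 4**: births -/
def BirthsOf : Prop :=
  ∀ (u0 R d h a g ρ r η : ℝ) (X : Set (ℂ × ℂ)) (L : Set (ℂ × ℂ)) (S : Set ℂ) (Z Zc : ℂ → ℂ)
    (φ p B : ℂ × ℂ → ℂ) (e : ℝ × ℝ),
    0 ≤ a → 0 < g → 0 < r → 0 < ρ → ρ * (16 * (a + 4)) ^ 2 ≤ min r g → 0 < η → IsOpen X →
    0 < d → (∀ q ∈ X, -d < q.1.im ∧ q.2 ∈ HDu u0 R) →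
    (∀ q ∈ X, ∀ y : ℝ, 0 ≤ y → -d < q.1.im - y → (q.1 - y * I, q.2) ∈ X) →
    Dp u0 R d ⊆ X → DifferentiableOn ℂ B X → (∀ b ∈ S, |b.im| < h) → MaxiX h X B →
    e.2 ∈ Ioo (u0 - R) (u0 + R) → E2 X L a g ρ η e →
    ∀ q : ℂ × ℂ, q.1.im = a * q.2.im → closedBall q r ⊆ Gam a g →
      ∃ K ⊆ Low a g ρ, IsCompact K ∧ ∀ᶠ s : ℝ in 𝓝[>] 0,
        ¬ ∃ (G : ℂ × ℂ → ℂ) (V : Set (ℂ × ℂ)), IsOpen V ∧ closedBall q r ⊆ V ∧ V ⊆ Gam a g ∧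
          DifferentiableOn ℂ G V ∧
          (∀ x ∈ V, G x ∈ S ∧ Inc (φ (bl e s x)) (p (bl e s x)) (Z (G x)) (Zc (G x)) = 0) ∧
          ∀ x ∈ K ∩ V, G x = B (bl e s x)

/-- the data of one half disc in exact coordinates -/
structure Dat (u0 R d h : ℝ) (S : Set ℂ) (Z Zc T c : ℂ → ℂ) (φ p B : ℂ × ℂ → ℂ)
    (X L : Set (ℂ × ℂ)) : Prop where
  R_pos : 0 < R
  d_pos : 0 < d
  S_open : IsOpen S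
  S_sub : ∀ b ∈ S, |b.im| < h
  S_count : ({b : ℂ | |b.im| < h} \ S).Countable
  Z_deriv : ∀ b ∈ S, HasDerivAt Z (c b * cexp (I * T b)) b
  Zc_deriv : ∀ b ∈ S, HasDerivAt Zc (c b * cexp (-(I * T b))) b
  T_diff : DifferentiableOn ℂ T S
  c_cont : ContinuousOn c S
  c_ne : ∀ b ∈ S, c b ≠ 0
  X_open : IsOpen X
  L_open : IsOpen L
  X_sub : ∀ q ∈ X, -d < q.1.im ∧ q.2 ∈ HDu u0 R
  L_sub : ∀ q ∈ L, q.2 ∈ HDu u0 R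
  X_star : ∀ q ∈ X, ∀ y : ℝ, 0 ≤ y → -d < q.1.im - y → (q.1 - y * I, q.2) ∈ X
  Dp_X : Dp u0 R d ⊆ X
  Dp_L : Dp u0 R d ⊆ L
  φ_diff : DifferentiableOn ℂ φ L
  p_diff : DifferentiableOn ℂ p L
  B_diff : DifferentiableOn ℂ B X
  B_im : ∀ q ∈ X, |(B q).im| < h
  B_nc : ∃ q ∈ Dp u0 R d, ∃ q' ∈ Dp u0 R d, B q ≠ B q'
  inc : ∀ q ∈ X ∩ L, B q ∈ S → Inc (φ q) (p q) (Z (B q)) (Zc (B q)) = 0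
  omit1 : ∀ q ∈ Dp u0 R d, B q ∈ S → cexp (2 * I * (T (B q) - φ q)) ≠ 1
  maxi : MaxiX h X B

/-- Part II at the real number `u` -/
def GoodU (X L : Set (ℂ × ℂ)) (u s₀ a₀ g₀ : ℝ) : Prop :=
  0 ≤ a₀ ∧ 0 < g₀ ∧ ∀ ρ > 0, ∃ δ > 0, ∀ s : ℝ, |s - s₀| < δ → E2 X L a₀ g₀ ρ δ (s, u)

/-- **SUP**: Step 5 for the sheets: over a.e. good `u`, the limits of `B` are on the edges
`|Im| = h` for a.e. `s` near `s₀`. -/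
def Sup : Prop :=
  ∀ (u0 R d h : ℝ) (S : Set ℂ) (Z Zc T c : ℂ → ℂ) (φ p B : ℂ × ℂ → ℂ) (X L : Set (ℂ × ℂ)),
    Dat u0 R d h S Z Zc T c φ p B X L →
    ∀ᵐ u : ℝ, u ∈ Ioo (u0 - R) (u0 + R) → ∀ s₀ a₀ g₀ : ℝ, GoodU X L u s₀ a₀ g₀ →
      ∃ δ > 0, ∀ᵐ s : ℝ, |s - s₀| < δ → ∃ b : ℂ, |b.im| = h ∧
        ∀ M : ℝ, Tendsto B (𝓝[Cn (s, u) M] ((s : ℂ), (u : ℂ))) (𝓝 b)

end Crest.Agent.R102.Sup115
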