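import Crest.Agent.R102.SideLab_426
import Crest.Agent.R102.SupDefs_115
import Crest.Agent.R102.Limits_151

/-!
Row 102, T1-B, EDGE, leaf **BAL**, compactness step (helper953): windows with interior label which
are not frozen at a zero of `y` have a point near the base point where `|y(B)|` is bounded below.
-/

set_option autoImplicit false

open Set Filter Topology Metric Complex

noncomputable section

namespace Crest.Agent.R102.BalC953

open Crest.Agent.R102.Sup115 (HDu Dp)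
open Crest.Agent.R102.S5 (bl ray)
open Crest.Agent.R102.Side426 (PB side_depth side_dist KA KA_pos LA)

/-- the quarter -/
def Qd : Set (ℂ × ℂ) := {z : ℂ | z.im < 0} ×ˢ {z : ℂ | 0 < z.im}

theorem mem_Qd {q : ℂ × ℂ} : q ∈ Qd ↔ q.1.im < 0 ∧ 0 < q.2.im := Iff.rfl

theorem isOpen_Qd : IsOpen Qd :=
  (isOpen_lt continuous_im continuous_const).prod (isOpen_lt continuous_const continuous_im)

theorem convex_Qd : Convex ℝ Qd := (convex_halfSpace_im_lt 0).prod (convex_halfSpace_im_gt 0)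

theorem compact_bounds {K : Set (ℂ × ℂ)} (hK : IsCompact K) (hKQ : K ⊆ Qd) :
    ∃ A δ : ℝ, 1 ≤ A ∧ 0 < δ ∧ δ ≤ 1 ∧ ∀ q ∈ K, ‖q.1‖ ≤ A ∧ ‖q.2‖ ≤ A ∧ δ ≤ -q.1.im ∧
      δ ≤ q.2.im := by
  obtain ⟨A, hA⟩ := hK.isBounded.exists_norm_le
  have hc : ContinuousOn (fun q : ℂ × ℂ => min (-q.1.im) q.2.im) K := by fun_prop
  rcases K.eq_empty_or_nonempty with rfl | hne
  · exact ⟨1, 1, le_rfl, one_pos, le_rfl, fun q hq => absurd hq (notMem_empty q)⟩
  obtain ⟨q0, hq0, hmin⟩ := hK.exists_isMinOn hne hc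
  have h0 := hKQ hq0
  have hpos : 0 < min (-q0.1.im) q0.2.im :=
    lt_min (by linarith [(mem_Qd.1 h0).1]) (mem_Qd.1 h0).2
  refine ⟨max 1 A, min 1 (min (-q0.1.im) q0.2.im), le_max_left _ _, lt_min one_pos hpos,
    min_le_left _ _, fun q hq => ?_⟩
  have h1 := hA q hq
  have h2 : min (-q0.1.im) q0.2.im ≤ min (-q.1.im) q.2.im := hmin hq
  refine ⟨(norm_fst_le q).trans (h1.trans (le_max_right _ _)),
    (norm_snd_le q).trans (h1.trans (le_max_right _ _)),
    (min_le_right _ _).trans (h2.trans (min_le_left _ _)),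
    (min_le_right _ _).trans (h2.trans (min_le_right _ _))⟩

theorem per_int {y : ℂ → ℂ} {h : ℝ} (hper : ∀ z : ℂ, |z.im| < h → y (z + 1) = y z) (m : ℤ) :
    ∀ z : ℂ, |z.im| < h → y (z + m) = y z := by
  induction m using Int.induction_on with
  | zero => intro z _; simp
  | succ i ih =>
    intro z hz
    have h1 := hper (z + (i : ℤ)) (by simpa using hz)
    have h2 := ih z hz
    push_cast at h1 h2 ⊢
    rw [← add_assoc, h1, h2]
  | pred i ih =>
    intro z hz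
    have h1 := hper (z + ((-(i : ℤ) - 1 : ℤ) : ℂ)) (by simpa using hz)
    have h2 := ih z hz
    rw [← h1, ← h2]
    congr 1
    push_cast
    ring

/-- a holomorphic function on the quarter which is locally constant at one point is constant -/
theorem const_of_eventually {g : ℂ × ℂ → ℂ} (hg : DifferentiableOn ℂ g Qd) {z₀ : ℂ × ℂ}
    (hz₀ : z₀ ∈ Qd) {b : ℂ} (he : ∀ᶠ q in 𝓝 z₀, g q = b) : ∀ Q ∈ Qd, g Q = b := by
  intro Q hQ
  set L : ℂ →ᵃ[ℂ] (ℂ × ℂ) := AffineMap.lineMap z₀ Q with hL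
  have hLc : Differentiable ℂ (fun t : ℂ => L t) := by
    have : (fun t : ℂ => L t) = fun t : ℂ => t • (Q - z₀) + z₀ := by
      ext1 t
      rw [hL, AffineMap.lineMap_apply]
      rfl
    rw [this]
    fun_prop
  set T : Set ℂ := (fun t : ℂ => L t) ⁻¹' Qd with hT
  have hTo : IsOpen T := isOpen_Qd.preimage hLc.continuous
  have hTc : Convex ℝ T := by
    intro t₁ h₁ t₂ h₂ a b ha hb hab
    show L (a • t₁ + b • t₂) ∈ Qd
    have e : L (a • t₁ + b • t₂) = a • L t₁ + b • L t₂ := by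
      rw [hL, AffineMap.lineMap_apply_module', AffineMap.lineMap_apply_module',
        AffineMap.lineMap_apply_module', add_smul, smul_assoc, smul_assoc, smul_add, smul_add]
      have h5 : a • z₀ + b • z₀ = z₀ := by rw [← add_smul, hab, one_smul]
      calc a • t₁ • (Q - z₀) + b • t₂ • (Q - z₀) + z₀
          = a • t₁ • (Q - z₀) + b • t₂ • (Q - z₀) + (a • z₀ + b • z₀) := by rw [h5]
        _ = _ := by abel
    rw [e]
    exact convex_Qd h₁ h₂ ha hb hab
  have hF : DifferentiableOn ℂ (fun t : ℂ => g (L t)) T :=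
    hg.comp hLc.differentiableOn (fun t ht => ht)
  have h0 : (0 : ℂ) ∈ T := by
    rw [hT, mem_preimage, hL, AffineMap.lineMap_apply_zero]
    exact hz₀
  have h1 : (1 : ℂ) ∈ T := by
    rw [hT, mem_preimage, hL, AffineMap.lineMap_apply_one]
    exact hQ
  have he' : (fun t : ℂ => g (L t)) =ᶠ[𝓝 0] fun _ => b := by
    have hc : Tendsto (fun t : ℂ => L t) (𝓝 0) (𝓝 z₀) := by
      have := hLc.continuous.tendsto 0
      rwa [hL, AffineMap.lineMap_apply_zero] at this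
    exact hc.eventually he
  have := (hF.analyticOnNhd hTo).eqOn_of_preconnected_of_eventuallyEq analyticOnNhd_const
    hTc.isPreconnected h0 he' h1
  simpa [hL, AffineMap.lineMap_apply_one] using this

theorem PB_subset {u0 R d u x : ℝ} : PB (x, u) (min d (R - |u - u0|)) ⊆ Dp u0 R d := by
  rintro q ⟨h1, h2, h3, h4⟩
  have k1 : min d (R - |u - u0|) ≤ d := min_le_left _ _
  have k2 : min d (R - |u - u0|) ≤ R - |u - u0| := min_le_right _ _
  have e1 := (Complex.abs_im_le_norm _).trans_lt h1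
  simp only [sub_im, ofReal_im, sub_zero] at e1
  refine ⟨by linarith [(abs_lt.1 e1).1], h3, ?_, h4⟩
  rw [mem_ball, dist_eq_norm]
  have : q.2 - (u0 : ℂ) = (q.2 - (u : ℂ)) + ((u - u0 : ℝ) : ℂ) := by push_cast; ring
  rw [this]
  refine (norm_add_le _ _).trans_lt ?_
  rw [Complex.norm_real, Real.norm_eq_abs]
  linarith

/-- **the compactness step** -/
theorem nondeg {u0 R d h u : ℝ} {B : ℂ × ℂ → ℂ} {y : ℂ → ℂ} (hh : 0 < h) (hd : 0 < d)
    (hu : |u - u0| < R) (hB : DifferentiableOn ℂ B (Dp u0 R d))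
    (hb : ∀ q ∈ Dp u0 R d, |(B q).im| < h)
    (hy : DifferentiableOn ℂ y {z : ℂ | |z.im| < h})
    (hper : ∀ z : ℂ, |z.im| < h → y (z + 1) = y z) (hne : ∃ z : ℂ, |z.im| < h ∧ y z ≠ 0)
    {c₂ d₂ g₂ : ℝ} (hc₂ : 0 < c₂) (hd₂ : 0 < d₂) (hg₂ : 0 < g₂) {x s : ℕ → ℝ}
    (hs : ∀ n, 0 < s n) (hs0 : Tendsto s atTop (𝓝 0))
    (hint : ∀ n, |(B (ray (x n, u) (s n))).im| ≤ h - c₂)
    (hNF : ∀ n, ∀ b0 : ℂ, |b0.im| < h → y b0 = 0 → ∃ Q : ℂ × ℂ, ‖Q.1‖ ≤ 4 ∧ ‖Q.2‖ ≤ 1 ∧
      d₂ ≤ Q.2.im ∧ Q.1.im ≤ -d₂ ∧ g₂ ≤ |(B (bl (x n, u) (s n) Q)).im - b0.im|)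
    (hsm : ∀ n, ∀ q ∈ closedBall ((-I, I / 4) : ℂ × ℂ) (1 / 10),
      ‖y (B (bl (x n, u) (s n) q))‖ < 1 / ((n : ℝ) + 1)) : False := by
  classical
  set ρ : ℝ := min d (R - |u - u0|) with hρ
  have hρ0 : 0 < ρ := lt_min hd (by linarith)
  set m : ℕ → ℤ := fun n => ⌊(B (ray (x n, u) (s n))).re⌋ with hm
  set f : ℕ → ℂ × ℂ → ℂ := fun n q => B (bl (x n, u) (s n) q) - (m n : ℂ) with hf
  set D : ℕ → Set (ℂ × ℂ) := fun n => {q | bl (x n, u) (s n) q ∈ PB (x n, u) ρ} with hD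
  have hBP : ∀ n, DifferentiableOn ℂ B (PB (x n, u) ρ) := fun n => hB.mono PB_subset
  have hbP : ∀ n, ∀ q ∈ PB (x n, u) ρ, |(B q).im| < h := fun n q hq => hb q (PB_subset hq)
  have hfd : ∀ n, DifferentiableOn ℂ (f n) (D n) := by
    intro n
    refine DifferentiableOn.sub_const ?_ _
    refine (hBP n).comp ?_ (fun q hq => hq)
    unfold bl
    fun_prop
  have bl1 : ∀ n q, (bl (x n, u) (s n) q).1 - (((x n, u) : ℝ × ℝ).1 : ℂ) = (s n : ℂ) * q.1 := by
    intro n q; simp [bl]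
  have bl2 : ∀ n q, (bl (x n, u) (s n) q).2 - (((x n, u) : ℝ × ℝ).2 : ℂ) = (s n : ℂ) * q.2 := by
    intro n q; simp [bl]
  have nrm : ∀ n, ∀ z : ℂ, ‖(s n : ℂ) * z‖ = s n * ‖z‖ := by
    intro n z
    rw [norm_mul, Complex.norm_real, Real.norm_of_nonneg (hs n).le]
  have imb1 : ∀ n q, (bl (x n, u) (s n) q).1.im = s n * q.1.im := by
    intro n q; simp [bl]
  have imb2 : ∀ n q, (bl (x n, u) (s n) q).2.im = s n * q.2.im := by
    intro n q; simp [bl]
  -- uniform facts on compacts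
  have hev : ∀ A : ℝ, 0 < A → ∀ᶠ n in atTop, 5 * (A * s n) ≤ ρ ∧ A * s n < ρ := by
    intro A hA
    have h1 : Tendsto (fun n => 5 * (A * s n)) atTop (𝓝 (5 * (A * 0))) :=
      (hs0.const_mul A).const_mul 5
    rw [mul_zero, mul_zero] at h1
    filter_upwards [h1.eventually (gt_mem_nhds hρ0)] with n hn
    have : 0 < A * s n := mul_pos hA (hs n)
    exact ⟨hn.le, by linarith⟩
  have hDK : ∀ K ⊆ Qd, IsCompact K → ∀ᶠ n in atTop, K ⊆ D n := by
    intro K hK hKc
    obtain ⟨A, δ, hA, hδ, hδ1, hb4⟩ := compact_bounds hKc hK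
    filter_upwards [hev A (by linarith)] with n hn q hq
    obtain ⟨a1, a2, a3, a4⟩ := hb4 q hq
    refine ⟨?_, ?_, ?_, ?_⟩
    · rw [bl1, nrm]
      exact lt_of_le_of_lt (by nlinarith [hs n]) hn.2
    · rw [bl2, nrm]
      exact lt_of_le_of_lt (by nlinarith [hs n]) hn.2
    · rw [imb1]; nlinarith [hs n]
    · rw [imb2]; nlinarith [hs n]
  have hbd : ∀ K ⊆ Qd, IsCompact K → ∃ C : ℝ, ∀ᶠ n in atTop, ∀ q ∈ K, ‖f n q‖ ≤ C := by
    intro K hK hKc
    obtain ⟨A, δ, hA, hδ, hδ1, hb4⟩ := compact_bounds hKc hK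
    refine ⟨LA A * h * (1 + Real.log (1 / δ)) + (1 + h), ?_⟩
    filter_upwards [hev A (by linarith)] with n hn q hq
    obtain ⟨a1, a2, a3, a4⟩ := hb4 q hq
    have h1 := side_dist (e := (x n, u)) (ρ := ρ) (B := B) hA (hs n) hn.1 hδ hδ1 hh (hBP n) (hbP n)
      (q := bl (x n, u) (s n) q) (by rw [bl1, nrm]; nlinarith [hs n])
      (by rw [bl2, nrm]; nlinarith [hs n]) (by rw [imb1]; nlinarith [hs n])
      (by rw [imb2]; nlinarith [hs n])
    have h2 : ‖B (ray (x n, u) (s n)) - (m n : ℂ)‖ ≤ 1 + h := by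
      refine (Complex.norm_le_abs_re_add_abs_im _).trans ?_
      have e1 : (B (ray (x n, u) (s n)) - (m n : ℂ)).re =
          Int.fract (B (ray (x n, u) (s n))).re := by
        rw [sub_re, Complex.intCast_re]
        rfl
      have e2 : (B (ray (x n, u) (s n)) - (m n : ℂ)).im = (B (ray (x n, u) (s n))).im := by
        rw [sub_im, Complex.intCast_im, sub_zero]
      rw [e1, e2, abs_of_nonneg (Int.fract_nonneg _)]
      linarith [(Int.fract_lt_one (B (ray (x n, u) (s n))).re).le, hint n]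
    have e3 : f n q = (B (bl (x n, u) (s n) q) - B (ray (x n, u) (s n))) +
        (B (ray (x n, u) (s n)) - (m n : ℂ)) := by rw [hf]; ring
    rw [e3]
    exact (norm_add_le _ _).trans (add_le_add h1 h2)
  obtain ⟨φ, hφ, g, hg, hlim⟩ := Limits151.montel_exh1 isOpen_Qd hfd hDK hbd
  have hz0 : ((-I, I / 4) : ℂ × ℂ) ∈ Qd := by
    rw [mem_Qd]
    have e : ((I : ℂ) / 4).im = 1 / 4 := by
      rw [show (I : ℂ) / 4 = ((1 / 4 : ℝ) : ℂ) * I by push_cast; ring]
      simp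
    simp only [e, neg_im, I_im]
    norm_num
  -- the closed ball
  have hball : ∀ q ∈ closedBall ((-I, I / 4) : ℂ × ℂ) (1 / 10), ‖q.1‖ ≤ 2 ∧ ‖q.2‖ ≤ 2 ∧
      (1 / 10 : ℝ) ≤ -q.1.im ∧ (1 / 10 : ℝ) ≤ q.2.im := by
    intro q hq
    rw [mem_closedBall, dist_eq_norm] at hq
    have a1 := (norm_fst_le _).trans hq
    have a2 := (norm_snd_le _).trans hq
    simp only [Prod.fst_sub, Prod.snd_sub] at a1 a2
    have b1 := (Complex.abs_im_le_norm _).trans a1
    have b2 := (Complex.abs_im_le_norm _).trans a2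
    have e : ((I : ℂ) / 4).im = 1 / 4 := by
      rw [show (I : ℂ) / 4 = ((1 / 4 : ℝ) : ℂ) * I by push_cast; ring]
      simp
    have e' : ‖(I : ℂ) / 4‖ = 1 / 4 := by
      rw [norm_div, Complex.norm_I]; norm_num
    rw [sub_im, neg_im, I_im] at b1
    rw [sub_im, e] at b2
    have c1 := abs_le.1 b1
    have c2 := abs_le.1 b2
    refine ⟨?_, ?_, by linarith [c1.2], by linarith [c2.1]⟩
    · calc ‖q.1‖ = ‖(q.1 - -I) + -I‖ := by ring_nf
        _ ≤ ‖q.1 - -I‖ + ‖-I‖ := norm_add_le _ _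
        _ ≤ 2 := by rw [norm_neg, Complex.norm_I]; linarith
    · calc ‖q.2‖ = ‖(q.2 - I / 4) + I / 4‖ := by ring_nf
        _ ≤ ‖q.2 - I / 4‖ + ‖I / 4‖ := norm_add_le _ _
        _ ≤ 2 := by rw [e']; linarith
  have hballQ : closedBall ((-I, I / 4) : ℂ × ℂ) (1 / 10) ⊆ Qd := by
    intro q hq
    obtain ⟨-, -, a3, a4⟩ := hball q hq
    exact ⟨by show q.1.im < 0; linarith, by show 0 < q.2.im; linarith⟩
  set c₃ : ℝ := c₂ * (1 / 10) ^ 2 / KA 2 with hc₃
  have hc₃0 : 0 < c₃ := div_pos (by positivity) (KA_pos (by norm_num))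
  have him : ∀ q ∈ closedBall ((-I, I / 4) : ℂ × ℂ) (1 / 10), |(g q).im| ≤ h - c₃ := by
    intro q hq
    have h1 := hlim.tendsto_at (hballQ hq)
    have h2 : Tendsto (fun n => |(f (φ n) q).im|) atTop (𝓝 |(g q).im|) :=
      ((Complex.continuous_im.tendsto _).comp h1).abs
    refine le_of_tendsto h2 ?_
    obtain ⟨a1, a2, a3, a4⟩ := hball q hq
    filter_upwards [hφ.tendsto_atTop.eventually (hev 2 (by norm_num))] with n hn
    have h3 := side_depth (e := (x (φ n), u)) (ρ := ρ) (B := B) (A := 2) (by norm_num) (hs (φ n))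
      hn.1 (show (0 : ℝ) < 1 / 10 by norm_num) (hBP _) (fun q hq => (hbP _ q hq).le) hc₂.le
      (hint (φ n)) (q := bl (x (φ n), u) (s (φ n)) q)
      (by rw [bl1, nrm]; nlinarith [hs (φ n)])
      (by rw [bl2, nrm]; nlinarith [hs (φ n)]) (by rw [imb1]; nlinarith [hs (φ n)])
      (by rw [imb2]; nlinarith [hs (φ n)])
    have h4 : (f (φ n) q).im = (B (bl (x (φ n), u) (s (φ n)) q)).im := by
      show (B (bl (x (φ n), u) (s (φ n)) q) - (m (φ n) : ℂ)).im = _
      rw [sub_im, Complex.intCast_im, sub_zero]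
    show |(f (φ n) q).im| ≤ h - c₃
    rw [h4]
    exact h3
  have hyo : IsOpen {z : ℂ | |z.im| < h} :=
    isOpen_lt (continuous_abs.comp Complex.continuous_im) continuous_const
  have hy0 : ∀ q ∈ closedBall ((-I, I / 4) : ℂ × ℂ) (1 / 10), y (g q) = 0 := by
    intro q hq
    have hin : g q ∈ {z : ℂ | |z.im| < h} := by
      have := him q hq
      show |(g q).im| < h
      linarith
    have hca : ContinuousAt y (g q) := (hy.differentiableAt (hyo.mem_nhds hin)).continuousAt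
    have h1 := hca.tendsto.comp (hlim.tendsto_at (hballQ hq))
    have h2 : Tendsto (fun n => y (f (φ n) q)) atTop (𝓝 0) := by
      have h3 : Tendsto (fun n : ℕ => 1 / (((φ n : ℕ) : ℝ) + 1)) atTop (𝓝 0) :=
        tendsto_one_div_add_atTop_nhds_zero_nat.comp hφ.tendsto_atTop
      refine squeeze_zero_norm' ?_ h3
      filter_upwards [hφ.tendsto_atTop.eventually (hDK _ hballQ (isCompact_closedBall _ _))]
        with n hn
      have h4 : |(B (bl (x (φ n), u) (s (φ n)) q)).im| < h := hbP _ _ (hn hq)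
      have h5 := per_int hper (-(m (φ n))) _ h4
      have h6 : f (φ n) q = B (bl (x (φ n), u) (s (φ n)) q) + ((-(m (φ n)) : ℤ) : ℂ) := by
        rw [hf]; push_cast; ring
      rw [h6, h5]
      exact (hsm (φ n) q hq).le
    exact tendsto_nhds_unique h1 h2
  -- the limit is constant
  set b0 : ℂ := g (-I, I / 4) with hb0
  have hz0c : ((-I, I / 4) : ℂ × ℂ) ∈ closedBall ((-I, I / 4) : ℂ × ℂ) (1 / 10) :=
    mem_closedBall_self (by norm_num)
  have hb0h : |b0.im| < h := by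
    have := him _ hz0c
    linarith
  have hyb0 : y b0 = 0 := hy0 _ hz0c
  have hyan : AnalyticOnNhd ℂ y {z : ℂ | |z.im| < h} := hy.analyticOnNhd hyo
  have hconv : Convex ℝ {z : ℂ | |z.im| < h} := by
    have : {z : ℂ | |z.im| < h} = {z | -h < z.im} ∩ {z | z.im < h} := by
      ext z; simp [abs_lt]
    rw [this]
    exact (convex_halfSpace_im_gt _).inter (convex_halfSpace_im_lt _)
  have hloc : ∀ᶠ z in 𝓝 b0, y z = 0 → z = b0 := by
    rcases (hyan b0 hb0h).eventually_eq_zero_or_eventually_ne_zero with h1 | h1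
    · exfalso
      obtain ⟨z, hz, hyz⟩ := hne
      exact hyz (hyan.eqOn_zero_of_preconnected_of_eventuallyEq_zero hconv.isPreconnected hb0h h1
        hz)
    · rw [eventually_nhdsWithin_iff] at h1
      filter_upwards [h1] with z hz hyz
      by_contra hzb
      exact hz hzb hyz
  have hgc : ContinuousAt g (-I, I / 4) :=
    (hg.differentiableAt (isOpen_Qd.mem_nhds hz0)).continuousAt
  have he : ∀ᶠ q in 𝓝 ((-I, I / 4) : ℂ × ℂ), g q = b0 := by
    filter_upwards [hgc.eventually hloc, closedBall_mem_nhds _ (show (0 : ℝ) < 1 / 10 by norm_num)]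
      with q h1 h2
    exact h1 (hy0 q h2)
  have hconst := const_of_eventually hg hz0 he
  -- contradiction with (NF)
  set Kc : Set (ℂ × ℂ) := {Q | ‖Q.1‖ ≤ 4 ∧ ‖Q.2‖ ≤ 1 ∧ d₂ ≤ Q.2.im ∧ Q.1.im ≤ -d₂} with hKc
  have hKcc : IsCompact Kc := by
    refine (isCompact_closedBall (0 : ℂ × ℂ) 4).of_isClosed_subset ?_ ?_
    · have : Kc = {Q : ℂ × ℂ | ‖Q.1‖ ≤ 4} ∩ ({Q | ‖Q.2‖ ≤ 1} ∩ ({Q | d₂ ≤ Q.2.im} ∩
          {Q | Q.1.im ≤ -d₂})) := rfl
      rw [this]
      refine (isClosed_le (by fun_prop) continuous_const).inter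
        ((isClosed_le (by fun_prop) continuous_const).inter
        ((isClosed_le continuous_const (by fun_prop)).inter
        (isClosed_le (by fun_prop) continuous_const)))
    · rintro Q ⟨h1, h2, -, -⟩
      rw [mem_closedBall_zero_iff, Prod.norm_def]
      exact max_le h1 (h2.trans (by norm_num))
  have hKcQ : Kc ⊆ Qd := by
    rintro Q ⟨-, -, h3, h4⟩
    exact ⟨by show Q.1.im < 0; linarith, by show 0 < Q.2.im; linarith⟩
  have hu' := (tendstoLocallyUniformlyOn_iff_tendstoUniformlyOn_of_compact hKcc).1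
    (hlim.mono hKcQ)
  obtain ⟨n, hn⟩ := (Metric.tendstoUniformlyOn_iff.1 hu' g₂ hg₂).exists
  obtain ⟨Q, q1, q2, q3, q4, q5⟩ := hNF (φ n) b0 hb0h hyb0
  have h1 := hn Q ⟨q1, q2, q3, q4⟩
  rw [hconst Q (hKcQ ⟨q1, q2, q3, q4⟩), dist_comm, dist_eq_norm] at h1
  have h2 := (Complex.abs_im_le_norm _).trans_lt h1
  have h3 : (f (φ n) Q - b0).im = (B (bl (x (φ n), u) (s (φ n)) Q)).im - b0.im := by
    simp [hf]
  rw [h3] at h2
  linarith

end Crest.Agent.R102.BalC953
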