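import Mathlib

/-!
# R102: the middle density point (Kolyada), nested intervals

`nest`     : nested halving intervals with EXACTLY the same average (sliding + IVT).
`kolF`     : for `0 ≤ f ≤ 1` with average `κ` on `[p,p+L]` there is `x ∈ [p,p+L]` such that at ALL
             scales `s ≤ L` the window `[x-s,x+s]` has `∫ f ≥ κ s/2` and `∫ (1-f) ≥ (1-κ) s/2`.
`exists_avg` : a set neither null nor conull in `(a,b)` has arbitrarily small intervals
             inside `(a,b)` of average exactly `κ`, for every `κ ∈ (0,1)`.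
`kol`      : the two-sided middle density point with universal constant.
-/

namespace R102.Kol528

open MeasureTheory Set Filter Topology

/-- one sliding step -/
theorem step {F : ℝ → ℝ} (hF : Continuous F) {κ q l : ℝ} (hl : 0 < l)
    (h0 : F (q + l + l) - F q = κ * (l + l)) :
    ∃ t, q ≤ t ∧ t ≤ q + l ∧ F (t + l) - F t = κ * l := by
  set g : ℝ → ℝ := fun t => F (t + l) - F t with hg
  have hgc : Continuous g := by
    have : Continuous (fun t : ℝ => F (t + l)) := hF.comp (continuous_id.add continuous_const)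
    exact this.sub hF
  have hsum : g q + g (q + l) = κ * l + κ * l := by
    simp only [hg]; linarith
  have hle : q ≤ q + l := by linarith
  rcases le_total (g q) (κ * l) with h | h
  · have h2 : κ * l ≤ g (q + l) := by linarith
    obtain ⟨t, ht, hgt⟩ := intermediate_value_Icc hle hgc.continuousOn ⟨h, h2⟩
    exact ⟨t, ht.1, ht.2, hgt⟩
  · have h2 : g (q + l) ≤ κ * l := by linarith
    obtain ⟨t, ht, hgt⟩ := intermediate_value_Icc' hle hgc.continuousOn ⟨h2, h⟩
    exact ⟨t, ht.1, ht.2, hgt⟩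

/-- nested intervals with the exact average -/
theorem nest {F : ℝ → ℝ} (hF : Continuous F) {κ p L : ℝ} (hL : 0 < L)
    (h0 : F (p + L) - F p = κ * L) :
    ∃ P : ℕ → ℝ, P 0 = p ∧ (∀ n, P n ≤ P (n+1) ∧ P (n+1) + L/2^(n+1) ≤ P n + L/2^n) ∧
      ∀ n, F (P n + L/2^n) - F (P n) = κ * (L/2^n) := by
  have key : ∀ n : ℕ, ∀ q : ℝ, F (q + L/2^n) - F q = κ * (L/2^n) →
      ∃ t, q ≤ t ∧ t + L/2^(n+1) ≤ q + L/2^n ∧
        F (t + L/2^(n+1)) - F t = κ * (L/2^(n+1)) := by
    intro n q hq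
    have hpos : 0 < L/2^(n+1) := by positivity
    have h2 : L/2^n = L/2^(n+1) + L/2^(n+1) := by
      rw [pow_succ]; field_simp; ring
    obtain ⟨t, h1, h3, h4⟩ := step (q := q) (κ := κ) hF hpos (by
      have : q + L/2^(n+1) + L/2^(n+1) = q + L/2^n := by rw [h2]; ring
      rw [this, ← h2]; exact hq)
    refine ⟨t, h1, ?_, h4⟩
    rw [h2]; linarith
  choose! f hf1 hf2 hf3 using key
  let P : ℕ → ℝ := fun n => Nat.rec p (fun n q => f n q) n
  have hP0 : P 0 = p := rfl
  have hPs : ∀ n, P (n+1) = f n (P n) := fun n => rfl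
  have hinv : ∀ n, F (P n + L/2^n) - F (P n) = κ * (L/2^n) := by
    intro n
    induction n with
    | zero => rw [hP0]; simpa using h0
    | succ n ih => rw [hPs]; exact hf3 n _ ih
  refine ⟨P, hP0, fun n => ⟨?_, ?_⟩, hinv⟩
  · rw [hPs]; exact hf1 n _ (hinv n)
  · rw [hPs]; exact hf2 n _ (hinv n)

/-- the common point of nested halving intervals -/
theorem nest_point {P : ℕ → ℝ} {L : ℝ} (hL : 0 < L)
    (h : ∀ n, P n ≤ P (n+1) ∧ P (n+1) + L/2^(n+1) ≤ P n + L/2^n) :
    ∃ x, ∀ n, P n ≤ x ∧ x ≤ P n + L/2^n := by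
  have hm : Monotone P := monotone_nat_of_le_succ fun n => (h n).1
  have ha : Antitone (fun n => P n + L/2^n) := antitone_nat_of_succ_le fun n => (h n).2
  have hle : P ≤ fun n => P n + L/2^n := fun n => by
    have : 0 < L/2^n := by positivity
    simp only; linarith
  have := hm.ciSup_mem_iInter_Icc_of_antitone ha hle
  refine ⟨⨆ n, P n, fun n => ?_⟩
  have h3 := mem_iInter.1 this n
  exact ⟨h3.1, h3.2⟩

/-- a scale `s ≤ L` lies in a dyadic block -/
theorem exists_scale {L s : ℝ} (hL : 0 < L) (hs : 0 < s) (hsL : s ≤ L) :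
    ∃ n : ℕ, L/2^n ≤ s ∧ s ≤ 2 * (L/2^n) := by
  have h2 : (1:ℝ) < 2 := by norm_num
  have hex : ∃ n : ℕ, L/2^n ≤ s := by
    obtain ⟨n, hn⟩ := pow_unbounded_of_one_lt (L/s) h2
    refine ⟨n, ?_⟩
    rw [div_le_iff₀ (by positivity)]
    rw [div_lt_iff₀ hs] at hn
    linarith
  classical
  refine ⟨Nat.find hex, Nat.find_spec hex, ?_⟩
  rcases Nat.eq_zero_or_pos (Nat.find hex) with h0 | hpos
  · rw [h0]; simp; linarith
  · have hlt := Nat.find_min hex (m := Nat.find hex - 1) (Nat.sub_lt hpos Nat.one_pos)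
    push Not at hlt
    have : (2:ℝ)^(Nat.find hex) = 2^(Nat.find hex - 1) * 2 := by
      rw [← pow_succ, Nat.sub_add_cancel hpos]
    rw [this]
    have h3 : ∀ m : ℕ, 2 * (L / (2^m * 2)) = L / 2^m := fun m => by field_simp
    rw [h3]; exact hlt.le

/-- **Kolyada point for a function.** -/
theorem kolF {f : ℝ → ℝ} (hfi : ∀ a b, IntervalIntegrable f volume a b)
    (h0 : ∀ x, 0 ≤ f x) (h1 : ∀ x, f x ≤ 1) {p L κ : ℝ} (hL : 0 < L)
    (hav : ∫ u in p..(p+L), f u = κ * L) (hκ0 : 0 ≤ κ) (hκ1 : κ ≤ 1) :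
    ∃ x ∈ Icc p (p+L), ∀ s, 0 < s → s ≤ L →
      κ * s / 2 ≤ ∫ u in (x-s)..(x+s), f u ∧
      (1-κ) * s / 2 ≤ ∫ u in (x-s)..(x+s), (1 - f u) := by
  set F : ℝ → ℝ := fun t => ∫ u in (0:ℝ)..t, f u with hFdef
  have hFc : Continuous F := intervalIntegral.continuous_primitive hfi 0
  have hFd : ∀ a b, F b - F a = ∫ u in a..b, f u := fun a b =>
    intervalIntegral.integral_interval_sub_left (hfi _ _) (hfi _ _)
  obtain ⟨P, hP0, hP, hPa⟩ := nest hFc hL (by rw [hFd]; exact hav)
  obtain ⟨x, hx⟩ := nest_point hL hP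
  have hg1 : ∀ a b, IntervalIntegrable (fun u => 1 - f u) volume a b := fun a b =>
    (intervalIntegrable_const).sub (hfi a b)
  refine ⟨x, ?_, ?_⟩
  · have := hx 0
    rw [hP0] at this
    simpa using this
  · intro s hs hsL
    obtain ⟨n, hn1, hn2⟩ := exists_scale hL hs hsL
    have hxn := hx n
    have hpos : 0 < L/2^n := by positivity
    have e1 : x - s ≤ P n := by linarith
    have e2 : P n + L/2^n ≤ x + s := by linarith
    have hsub : ∀ g : ℝ → ℝ, (∀ a b, IntervalIntegrable g volume a b) → (∀ x, 0 ≤ g x) →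
        ∫ u in (P n)..(P n + L/2^n), g u ≤ ∫ u in (x-s)..(x+s), g u := by
      intro g hgi hg0
      exact intervalIntegral.integral_mono_interval e1 (by linarith) e2
        (Eventually.of_forall hg0) (hgi _ _)
    have hI : ∫ u in (P n)..(P n + L/2^n), f u = κ * (L/2^n) := by
      rw [← hFd]; exact hPa n
    have hI' : ∫ u in (P n)..(P n + L/2^n), (1 - f u) = (1 - κ) * (L/2^n) := by
      rw [intervalIntegral.integral_sub intervalIntegrable_const (hfi _ _), hI]
      simp
      ring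
    constructor
    · refine le_trans ?_ (hsub f hfi h0)
      rw [hI]; nlinarith
    · refine le_trans ?_ (hsub _ hg1 (fun x => by linarith [h1 x]))
      rw [hI']; nlinarith

/-! ### sets -/

/-- the indicator of a measurable set is interval integrable -/
theorem ind_ii {E : Set ℝ} (hE : MeasurableSet E) (a b : ℝ) :
    IntervalIntegrable (E.indicator (fun _ => (1:ℝ))) volume a b := by
  have : IntervalIntegrable (fun _ : ℝ => (1:ℝ)) volume a b := intervalIntegrable_const
  rw [intervalIntegrable_iff] at this ⊢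
  exact this.indicator hE

theorem ind_integral {E : Set ℝ} (hE : MeasurableSet E) {a b : ℝ} (hab : a ≤ b) :
    ∫ u in a..b, E.indicator (fun _ => (1:ℝ)) u = (volume (E ∩ Icc a b)).toReal := by
  rw [intervalIntegral.integral_of_le hab, ← integral_Icc_eq_integral_Ioc,
    integral_indicator hE, Measure.restrict_restrict hE]
  simp [Measure.real]

theorem ind_compl (E : Set ℝ) (u : ℝ) :
    1 - E.indicator (fun _ => (1:ℝ)) u = Eᶜ.indicator (fun _ => (1:ℝ)) u := by
  classical
  by_cases h : u ∈ E <;> simp [h]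

theorem ind_integral' {E : Set ℝ} (hE : MeasurableSet E) {a b : ℝ} (hab : a ≤ b) :
    ∫ u in a..b, (1 - E.indicator (fun _ => (1:ℝ)) u) = (volume (Icc a b \ E)).toReal := by
  simp_rw [ind_compl]
  rw [ind_integral hE.compl hab]
  congr 2
  ext x; simp [and_comm]

/-- density point on one side: arbitrarily small symmetric windows with average `> κ`. -/
theorem dens {a b κ : ℝ} {E : Set ℝ} (h1 : volume (E ∩ Ioo a b) ≠ 0) (hκ : κ < 1) :
    ∃ x ∈ Ioo a b, ∀ᶠ r in 𝓝[>] (0:ℝ),
      κ * (2*r) ≤ (volume (E ∩ Icc (x-r) (x+r))).toReal := by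
  have hae := Besicovitch.ae_tendsto_measure_inter_div (volume : Measure ℝ) (E ∩ Ioo a b)
  have hne : (volume.restrict (E ∩ Ioo a b)) ≠ 0 := by
    intro h; rw [Measure.restrict_eq_zero] at h; exact h1 h
  have hsub : ∀ᵐ x ∂(volume.restrict (E ∩ Ioo a b)), x ∈ Ioo a b := by
    have : ∀ᵐ x ∂(volume.restrict (Ioo a b)), x ∈ Ioo a b :=
      ae_restrict_mem measurableSet_Ioo
    exact ae_mono (Measure.restrict_mono inter_subset_right le_rfl) this
  have hNB : (ae (volume.restrict (E ∩ Ioo a b))).NeBot := ae_neBot.2 hne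
  obtain ⟨x, hx, hxI⟩ := (hae.and hsub).exists
  refine ⟨x, hxI, ?_⟩
  have hκ' : ENNReal.ofReal κ < 1 := by
    rw [ENNReal.ofReal_lt_one]; exact hκ
  filter_upwards [hx.eventually (lt_mem_nhds hκ'), self_mem_nhdsWithin] with r hr hr0
  have hr0 : (0:ℝ) < r := hr0
  rw [Real.closedBall_eq_Icc] at hr
  have hvol : volume (Icc (x-r) (x+r)) = ENNReal.ofReal (2*r) := by
    rw [Real.volume_Icc]; congr 1; ring
  rw [hvol] at hr
  have h2r : ENNReal.ofReal (2*r) ≠ 0 := by
    simp; linarith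
  have h3 : ENNReal.ofReal κ * ENNReal.ofReal (2*r) ≤
      volume (E ∩ Ioo a b ∩ Icc (x-r) (x+r)) := by
    rw [ENNReal.lt_div_iff_mul_lt (Or.inl h2r) (Or.inl ENNReal.ofReal_ne_top)] at hr
    exact hr.le
  have h4 : volume (E ∩ Ioo a b ∩ Icc (x-r) (x+r)) ≤ volume (E ∩ Icc (x-r) (x+r)) :=
    measure_mono (by intro y hy; exact ⟨hy.1.1, hy.2⟩)
  have hfin : volume (E ∩ Icc (x-r) (x+r)) ≠ ⊤ := by
    refine ne_top_of_le_ne_top ?_ (measure_mono (inter_subset_right))
    rw [hvol]; exact ENNReal.ofReal_ne_top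
  have h5 := ENNReal.toReal_mono hfin (h3.trans h4)
  rw [ENNReal.toReal_mul, ENNReal.toReal_ofReal (by linarith : (0:ℝ) ≤ 2*r)] at h5
  refine le_trans ?_ h5
  rcases le_total 0 κ with h | h
  · rw [ENNReal.toReal_ofReal h]
  · rw [ENNReal.ofReal_of_nonpos h]; simp; nlinarith

/-- **arbitrarily small intervals of average exactly `κ`.** -/
theorem exists_avg {a b κ : ℝ} {E : Set ℝ} (hE : MeasurableSet E)
    (h1 : volume (E ∩ Ioo a b) ≠ 0) (h2 : volume (Ioo a b \ E) ≠ 0)
    (hκ0 : 0 < κ) (hκ1 : κ < 1) :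
    ∃ p L, 0 < L ∧ Icc p (p+L) ⊆ Ioo a b ∧
      ∫ u in p..(p+L), E.indicator (fun _ => (1:ℝ)) u = κ * L := by
  obtain ⟨x, hx, hxr⟩ := dens h1 hκ1
  have h2' : volume (Eᶜ ∩ Ioo a b) ≠ 0 := by
    have : Eᶜ ∩ Ioo a b = Ioo a b \ E := by ext; simp [and_comm]
    rwa [this]
  obtain ⟨y, hy, hyr⟩ := dens h2' (show 1 - κ < 1 by linarith)
  have hsm : ∀ᶠ r in 𝓝[>] (0:ℝ), r < min (min (x-a) (b-x)) (min (y-a) (b-y)) := by
    apply mem_nhdsWithin_of_mem_nhds
    apply Iio_mem_nhds
    simp only [lt_inf_iff, lt_min_iff]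
    exact ⟨⟨by linarith [hx.1], by linarith [hx.2]⟩, by linarith [hy.1], by linarith [hy.2]⟩
  obtain ⟨r, ⟨⟨h3, h4⟩, h5⟩, h6⟩ := (((hxr.and hyr).and hsm).and
    (self_mem_nhdsWithin : Ioi (0:ℝ) ∈ 𝓝[>] (0:ℝ))).exists
  have hr : (0:ℝ) < r := h6
  simp only [lt_min_iff] at h5
  obtain ⟨⟨h7, h8⟩, h9, h10⟩ := h5
  set F : ℝ → ℝ := fun t => ∫ u in (0:ℝ)..t, E.indicator (fun _ => (1:ℝ)) u with hFdef
  have hFc : Continuous F := intervalIntegral.continuous_primitive (ind_ii hE) 0
  have hFd : ∀ a b, F b - F a = ∫ u in a..b, E.indicator (fun _ => (1:ℝ)) u := fun a b =>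
    intervalIntegral.integral_interval_sub_left (ind_ii hE _ _) (ind_ii hE _ _)
  set g : ℝ → ℝ := fun c => F (c + r) - F (c - r) with hg
  have hgc : Continuous g := by
    have e1 : Continuous (fun t : ℝ => F (t + r)) := hFc.comp (continuous_id.add continuous_const)
    have e2 : Continuous (fun t : ℝ => F (t - r)) := hFc.comp (continuous_id.sub continuous_const)
    exact e1.sub e2
  have hgx : κ * (2*r) ≤ g x := by
    simp only [hg]; rw [hFd, ind_integral hE (by linarith)]; exact h3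
  have hgy : g y ≤ κ * (2*r) := by
    have e3 : ∫ u in (y-r)..(y+r), (1 - E.indicator (fun _ => (1:ℝ)) u) = 2*r - g y := by
      rw [intervalIntegral.integral_sub intervalIntegrable_const (ind_ii hE _ _)]
      simp only [hg]; rw [hFd]; simp; ring
    have e4 : ∫ u in (y-r)..(y+r), (1 - E.indicator (fun _ => (1:ℝ)) u)
        = (volume (Eᶜ ∩ Icc (y-r) (y+r))).toReal := by
      simp_rw [ind_compl]
      exact ind_integral hE.compl (by linarith)
    rw [e4] at e3
    have e5 : (1-κ) * (2*r) ≤ (volume (Eᶜ ∩ Icc (y-r) (y+r))).toReal := h4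
    linarith
  have hmem : κ * (2*r) ∈ g '' (uIcc x y) := by
    apply intermediate_value_uIcc hgc.continuousOn
    rw [mem_uIcc]; right; exact ⟨hgy, hgx⟩
  obtain ⟨c, hc, hgc'⟩ := hmem
  refine ⟨c - r, 2*r, by linarith, ?_, ?_⟩
  · intro t ht
    have hc1 : min x y ≤ c := hc.1
    have hc2 : c ≤ max x y := hc.2
    have hm1 : a + r < min x y := lt_min (by linarith) (by linarith)
    have hm2 : max x y < b - r := max_lt (by linarith) (by linarith)
    exact ⟨by linarith [ht.1], by linarith [ht.2]⟩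
  · have : c - r + 2*r = c + r := by ring
    rw [this, ← hFd]; exact hgc'

/-- **THE MIDDLE DENSITY POINT** (universal constant): at ALL small scales the window
`[x-s,x+s]` contains at least `s/4` of `E` and at least `s/4` of the complement of `E`. -/
theorem kol {a b : ℝ} {E : Set ℝ} (hE : MeasurableSet E) (h1 : volume (E ∩ Ioo a b) ≠ 0)
    (h2 : volume (Ioo a b \ E) ≠ 0) :
    ∃ x ∈ Ioo a b, ∃ s0 > 0, ∀ s, 0 < s → s ≤ s0 → Icc (x-s) (x+s) ⊆ Ioo a b ∧
      s/4 ≤ (volume (E ∩ Icc (x-s) (x+s))).toReal ∧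
      s/4 ≤ (volume (Icc (x-s) (x+s) \ E)).toReal := by
  obtain ⟨p, L, hL, hsub, hav⟩ := exists_avg hE h1 h2 (κ := 1/2) (by norm_num) (by norm_num)
  have hi0 : ∀ x, 0 ≤ E.indicator (fun _ => (1:ℝ)) x := fun x =>
    indicator_nonneg (fun _ _ => zero_le_one) x
  have hi1 : ∀ x, E.indicator (fun _ => (1:ℝ)) x ≤ 1 := fun x => by
    classical
    by_cases h : x ∈ E <;> simp [h]
  obtain ⟨x, hx, hw⟩ := kolF (ind_ii hE) hi0 hi1 hL hav (by norm_num) (by norm_num)
  have hxI : x ∈ Ioo a b := hsub hx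
  refine ⟨x, hxI, min L (min ((x-a)/2) ((b-x)/2)), ?_, ?_⟩
  · have := hxI.1; have := hxI.2
    exact lt_min hL (lt_min (by linarith) (by linarith))
  · intro s hs hs0
    simp only [le_min_iff] at hs0
    obtain ⟨hsL, hsa, hsb⟩ := hs0
    obtain ⟨e1, e2⟩ := hw s hs hsL
    rw [ind_integral hE (by linarith)] at e1
    rw [ind_integral' hE (by linarith)] at e2
    refine ⟨?_, by linarith, by linarith⟩
    intro t ht
    have := hxI.1; have := hxI.2
    exact ⟨by linarith [ht.1], by linarith [ht.2]⟩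

end R102.Kol528
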