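import Mathlib
import Crest.Agent.R102.Kol_528

/-!
# Windows over a balanced point (helper953)

`be` holomorphic below the segment `(a,b) + iU`, `|Im be| < h`, vertical limits of `Im be` equal to
`h` on `E` and `-h` off `E`. If `x0` is a point with intervals `I_n` of length `L0/2^n`, `x0 ∈ I_n`,
`|E ∩ I_n| / |I_n| ∈ [1/20, 19/20]`, then ALL small windows over `x0` are interior:
`|Im be (x0 + (U - s) i)| ≤ h - c` for all small `s`.  If moreover the averages are `1/3`
infinitely often and `2/3` infinitely often then `Im be` has no limit in a fixed cone.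
-/

set_option autoImplicit false

namespace Crest.Agent.R102.Kol953

open MeasureTheory Set Filter Topology Complex Metric
open scoped Real

/-- derivative bound for functions with bounded imaginary part -/
theorem norm_deriv_le {β : ℂ → ℂ} {c : ℂ} {ρ h : ℝ} (hρ : 0 < ρ) (hh : 0 < h)
    (hβ : DifferentiableOn ℂ β (ball c ρ)) (hb : ∀ z ∈ ball c ρ, |(β z).im| < h) :
    ‖deriv β c‖ ≤ 16 * h / ρ := by
  set g : ℂ → ℂ := fun z => exp (I * β z / h) with hg
  have hhC : (h : ℂ) ≠ 0 := by exact_mod_cast hh.ne'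
  have hre : ∀ z, (I * β z / h).re = -((β z).im) / h := by
    intro z
    rw [div_ofReal_re]
    simp
  have hn : ∀ z, ‖g z‖ = Real.exp (-((β z).im) / h) := by
    intro z
    rw [hg]
    simp only [norm_exp, hre]
  have hgd : DifferentiableOn ℂ g (ball c ρ) := by
    intro z hz
    exact (((differentiableWithinAt_const _).mul (hβ z hz)).div_const _).cexp
  have hc : c ∈ ball c ρ := mem_ball_self hρ
  have hup : ∀ z ∈ ball c ρ, ‖g z‖ ≤ Real.exp 1 := by
    intro z hz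
    rw [hn]
    apply Real.exp_le_exp.2
    rw [div_le_one hh]
    have := abs_lt.1 (hb z hz)
    linarith [this.1]
  have hlow : Real.exp (-1) ≤ ‖g c‖ := by
    rw [hn]
    apply Real.exp_le_exp.2
    rw [le_div_iff₀ hh]
    have := abs_lt.1 (hb c hc)
    linarith [this.2]
  have hmaps : MapsTo g (ball c ρ) (closedBall (g c) (2 * Real.exp 1)) := by
    intro z hz
    rw [mem_closedBall, dist_eq_norm]
    calc ‖g z - g c‖ ≤ ‖g z‖ + ‖g c‖ := norm_sub_le _ _
      _ ≤ _ := by linarith [hup z hz, hup c hc]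
  have h1 := Complex.norm_deriv_le_div_of_mapsTo_ball hgd hmaps hρ
  have hβc : HasDerivAt β (deriv β c) c :=
    ((hβ c hc).differentiableAt (isOpen_ball.mem_nhds hc)).hasDerivAt
  have h2 : HasDerivAt g (g c * (I * deriv β c / h)) c := by
    have := ((hβc.const_mul I).div_const (h : ℂ)).cexp
    simpa [hg] using this
  rw [h2.deriv, norm_mul, norm_div, norm_mul, norm_I, one_mul, Complex.norm_real,
    Real.norm_of_nonneg hh.le] at h1
  have h3 : Real.exp (-1) * (‖deriv β c‖ / h) ≤ 2 * Real.exp 1 / ρ :=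
    le_trans (mul_le_mul_of_nonneg_right hlow (by positivity)) h1
  have he : Real.exp 1 * Real.exp 1 ≤ 8 := by
    have := Real.exp_one_lt_d9
    have h0 := Real.exp_pos 1
    nlinarith
  have h4 : Real.exp 1 * (Real.exp (-1) * (‖deriv β c‖ / h)) = ‖deriv β c‖ / h := by
    rw [← mul_assoc, ← Real.exp_add]
    simp
  have h5 : ‖deriv β c‖ / h ≤ 16 / ρ := by
    rw [← h4]
    calc _ ≤ Real.exp 1 * (2 * Real.exp 1 / ρ) := by gcongr
      _ = 2 * (Real.exp 1 * Real.exp 1) / ρ := by ring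
      _ ≤ 2 * 8 / ρ := by gcongr
      _ = 16 / ρ := by norm_num
  rw [div_le_iff₀ hh] at h5
  calc ‖deriv β c‖ ≤ 16 / ρ * h := h5
    _ = _ := by ring

private lemma re_poisson {g : ℂ → ℂ} {c y : ℂ} {R : ℝ} (hR : 0 < R)
    (hg : DiffContOnCl ℂ g (ball c R)) (hy : y ∈ ball c R) :
    Real.circleAverage
      (fun z => ((z - c + (y - c)) / ((z - c) - (y - c))).re * (g z).re) c R = (g y).re ∧
    CircleIntegrable
      (fun z => ((z - c + (y - c)) / ((z - c) - (y - c))).re * (g z).re) c R := by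
  have h1 := hg.circleAverage_re_herglotzRieszKernel_smul' hy
  have habs : |R| = R := abs_of_pos hR
  have hK : ContinuousOn (fun z => ((z - c + (y - c)) / ((z - c) - (y - c))).re) (sphere c |R|) := by
    have := continuousOn_herglotzRieszKernel_sphere (c := c) (w := y) (R := R) hy
    exact Complex.continuous_re.comp_continuousOn this
  have hgc : ContinuousOn g (sphere c |R|) := by
    rw [habs]
    refine hg.continuousOn.mono ?_
    rw [closure_ball c hR.ne']
    exact sphere_subset_closedBall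
  have hint : CircleIntegrable
      (fun z => ((z - c + (y - c)) / ((z - c) - (y - c))).re • g z) c R :=
    (ContinuousOn.smul hK hgc).circleIntegrable'
  have h2 := Complex.reCLM.circleAverage_comp_comm hint
  constructor
  · rw [h1] at h2
    rw [← Complex.reCLM_apply (g y), ← h2]
    congr 1
    ext z
    simp
  · refine ContinuousOn.circleIntegrable' ?_
    exact hK.mul (Complex.continuous_re.comp_continuousOn hgc)

/-- Harnack's inequality for `Re g ≥ 0`. -/
theorem harnack {g : ℂ → ℂ} {c y q : ℂ} {R : ℝ} (hR : 0 < R)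
    (hg : DiffContOnCl ℂ g (ball c R)) (hpos : ∀ z ∈ sphere c R, 0 ≤ (g z).re)
    (hy : y ∈ ball c R) (hq : q ∈ ball c R) :
    (R - ‖y - c‖) * (R - ‖q - c‖) / (4 * R ^ 2) * (g q).re ≤ (g y).re := by
  obtain ⟨ey, iy⟩ := re_poisson hR hg hy
  obtain ⟨eq, iq⟩ := re_poisson hR hg hq
  have habs : |R| = R := abs_of_pos hR
  have hyn : ‖y - c‖ < R := by simpa [dist_eq_norm] using hy
  have hqn : ‖q - c‖ < R := by simpa [dist_eq_norm] using hq
  set k : ℝ := (R - ‖y - c‖) * (R - ‖q - c‖) / (4 * R ^ 2) with hk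
  have hk0 : 0 ≤ k := by
    rw [hk]; apply div_nonneg (mul_nonneg (by linarith) (by linarith)); positivity
  have hmono : Real.circleAverage
      (fun z => k * (((z - c + (q - c)) / ((z - c) - (q - c))).re * (g z).re)) c R ≤
      Real.circleAverage
      (fun z => ((z - c + (y - c)) / ((z - c) - (y - c))).re * (g z).re) c R := by
    refine Real.circleAverage_mono (CircleIntegrable.const_fun_smul (a := k) iq) iy ?_
    intro z hz
    rw [habs] at hz
    have h1 := _root_.le_re_herglotzRieszKernel (c := c) (w := y) (R := R) hz hy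
    have h2 := _root_.re_herglotzRieszKernel_le (c := c) (w := q) (R := R) hz hq
    have hre : 0 ≤ (g z).re := hpos z hz
    have h4 : k * ((z - c + (q - c)) / ((z - c) - (q - c))).re ≤
        ((z - c + (y - c)) / ((z - c) - (y - c))).re := by
      calc k * ((z - c + (q - c)) / ((z - c) - (q - c))).re
          ≤ k * ((R + ‖q - c‖) / (R - ‖q - c‖)) := by gcongr
        _ = (R - ‖y - c‖) * (R + ‖q - c‖) / (4 * R ^ 2) := by
            rw [hk]; field_simp [show R - ‖q - c‖ ≠ 0 by linarith]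
        _ ≤ (R - ‖y - c‖) / (R + ‖y - c‖) := by
            rw [div_le_div_iff₀ (by positivity) (by positivity)]
            have e1 : (R + ‖q - c‖) * (R + ‖y - c‖) ≤ 4 * R ^ 2 := by
              have a1 : R + ‖q - c‖ ≤ 2 * R := by linarith
              have a2 : R + ‖y - c‖ ≤ 2 * R := by linarith
              calc (R + ‖q - c‖) * (R + ‖y - c‖) ≤ (2 * R) * (2 * R) := by
                    apply mul_le_mul a1 a2 (by positivity) (by positivity)
                _ = 4 * R ^ 2 := by ring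
            have e2 : 0 ≤ R - ‖y - c‖ := by linarith
            nlinarith [mul_le_mul_of_nonneg_left e1 e2]
        _ ≤ _ := h1
    calc k * (((z - c + (q - c)) / ((z - c) - (q - c))).re * (g z).re)
        = (k * ((z - c + (q - c)) / ((z - c) - (q - c))).re) * (g z).re := by ring
      _ ≤ _ := mul_le_mul_of_nonneg_right h4 hre
  have e3 : Real.circleAverage
      (fun z => k * (((z - c + (q - c)) / ((z - c) - (q - c))).re * (g z).re)) c R =
      k * (g q).re := by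
    have := Real.circleAverage_fun_smul (a := k)
      (f := fun z => ((z - c + (q - c)) / ((z - c) - (q - c))).re * (g z).re)
      (c := c) (R := R)
    simp only [smul_eq_mul] at this
    rw [this, eq]
  rw [e3, ey] at hmono
  exact hmono


/-- the half open box below the segment `(a,b) + iU` -/
def Dm (a b U r1 : ℝ) : Set ℂ := {t | t.re ∈ Ioo a b ∧ t.im ∈ Ioo (U - r1) U}

theorem isOpen_Dm (a b U r1 : ℝ) : IsOpen (Dm a b U r1) :=
  (isOpen_Ioo.preimage continuous_re).inter (isOpen_Ioo.preimage continuous_im)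

theorem mem_Dm {a b U r1 x y : ℝ} (hx : x ∈ Ioo a b) (hy : 0 < y) (hy1 : y < r1) :
    (x : ℂ) + ((U - y : ℝ) : ℂ) * I ∈ Dm a b U r1 := by
  refine ⟨⟨?_, ?_⟩, ⟨?_, ?_⟩⟩ <;> simp <;> linarith [hx.1, hx.2]

theorem ball_subset_Dm {a b U r1 x s : ℝ} (h1 : a ≤ x - s) (h2 : x + s ≤ b) (h3 : 2 * s ≤ r1) :
    ball ((x : ℂ) + ((U - s : ℝ) : ℂ) * I) s ⊆ Dm a b U r1 := by
  intro t ht
  rw [mem_ball, dist_eq_norm] at ht
  have e1 := (Complex.abs_re_le_norm _).trans_lt ht
  have e2 := (Complex.abs_im_le_norm _).trans_lt ht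
  simp at e1 e2
  rw [abs_lt] at e1 e2
  refine ⟨⟨by linarith [e1.1], by linarith [e1.2]⟩, ⟨by linarith [e2.1], by linarith [e2.2]⟩⟩

theorem deriv_bd {β : ℂ → ℂ} {a b U h r1 : ℝ} (hh : 0 < h)
    (hβ : DifferentiableOn ℂ β (Dm a b U r1)) (hb : ∀ z ∈ Dm a b U r1, |(β z).im| < h)
    {x s : ℝ} (hs : 0 < s) (h1 : a ≤ x - s) (h2 : x + s ≤ b) (h3 : 2 * s ≤ r1) :
    DifferentiableAt ℂ β ((x : ℂ) + ((U - s : ℝ) : ℂ) * I) ∧
      ‖deriv β ((x : ℂ) + ((U - s : ℝ) : ℂ) * I)‖ ≤ 16 * h / s := by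
  have hsub := ball_subset_Dm (U := U) h1 h2 h3
  refine ⟨?_, norm_deriv_le hs hh (hβ.mono hsub) fun z hz => hb z (hsub hz)⟩
  have hm := hsub (mem_ball_self hs)
  exact (hβ _ hm).differentiableAt ((isOpen_Dm a b U r1).mem_nhds hm)

theorem vert {β : ℂ → ℂ} {a b U h r1 : ℝ} (hh : 0 < h)
    (hβ : DifferentiableOn ℂ β (Dm a b U r1)) (hb : ∀ z ∈ Dm a b U r1, |(β z).im| < h)
    {x d L : ℝ} (hd : 0 < d) (hdL : d ≤ L) (h1 : a ≤ x - L) (h2 : x + L ≤ b) (h3 : 2 * L ≤ r1) :
    ‖β ((x : ℂ) + ((U - L : ℝ) : ℂ) * I) - β ((x : ℂ) + ((U - d : ℝ) : ℂ) * I)‖ ≤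
      16 * h * (Real.log L - Real.log d) := by
  have hda : ∀ s ∈ Icc d L, HasDerivAt (fun s : ℝ => β ((x : ℂ) + ((U - s : ℝ) : ℂ) * I))
      (deriv β ((x : ℂ) + ((U - s : ℝ) : ℂ) * I) * (-I)) s := by
    intro s hs
    obtain ⟨k1, -⟩ := deriv_bd (U := U) (x := x) (s := s) hh hβ hb (by linarith [hs.1])
      (by linarith [hs.2]) (by linarith [hs.2]) (by linarith [hs.2])
    have k2 : HasDerivAt (fun s : ℝ => (x : ℂ) + ((U - s : ℝ) : ℂ) * I) (-I) s := by
      have : HasDerivAt (fun s : ℝ => (x : ℂ) + ((U - s : ℝ) : ℂ) * I)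
          (((0 - 1 : ℝ) : ℂ) * I) s :=
        ((((hasDerivAt_const s U).sub (hasDerivAt_id s)).ofReal_comp).mul_const I).const_add _
      simpa using this
    exact k1.hasDerivAt.comp_of_eq s k2 rfl
  have key := image_norm_le_of_norm_deriv_right_le_deriv_boundary' (a := d) (b := L)
    (f := fun s : ℝ => β ((x : ℂ) + ((U - s : ℝ) : ℂ) * I) - β ((x : ℂ) + ((U - d : ℝ) : ℂ) * I))
    (f' := fun s => deriv β ((x : ℂ) + ((U - s : ℝ) : ℂ) * I) * (-I))
    (B := fun s => 16 * h * (Real.log s - Real.log d)) (B' := fun s => 16 * h / s)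
    (fun s hs => ((hda s hs).continuousAt.sub continuousAt_const).continuousWithinAt)
    (fun s hs => ((hda s ⟨hs.1, hs.2.le⟩).sub_const _).hasDerivWithinAt)
    (by simp) ?_ ?_ ?_
  · exact key ⟨hdL, le_refl _⟩
  · intro s hs
    have hs0 : s ≠ 0 := by linarith [hs.1]
    exact ((Real.continuousAt_log hs0).sub continuousAt_const).const_mul _ |>.continuousWithinAt
  · intro s hs
    have hs0 : s ≠ 0 := by linarith [hs.1]
    have := (((Real.hasDerivAt_log hs0).sub_const (Real.log d)).const_mul (16 * h))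
    simpa [div_eq_mul_inv] using this.hasDerivWithinAt
  · intro s hs
    obtain ⟨-, k1⟩ := deriv_bd (U := U) (x := x) (s := s) hh hβ hb (by linarith [hs.1])
      (by linarith [hs.2]) (by linarith [hs.2]) (by linarith [hs.2])
    simpa using k1

theorem horiz {β : ℂ → ℂ} {a b U h r1 : ℝ} (hh : 0 < h)
    (hβ : DifferentiableOn ℂ β (Dm a b U r1)) (hb : ∀ z ∈ Dm a b U r1, |(β z).im| < h)
    {x1 x2 L : ℝ} (hL : 0 < L) (h12 : x1 ≤ x2) (h1 : a ≤ x1 - L) (h2 : x2 + L ≤ b)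
    (h3 : 2 * L ≤ r1) :
    ‖β ((x2 : ℂ) + ((U - L : ℝ) : ℂ) * I) - β ((x1 : ℂ) + ((U - L : ℝ) : ℂ) * I)‖ ≤
      16 * h / L * (x2 - x1) := by
  have hda : ∀ s ∈ Icc x1 x2, HasDerivAt (fun s : ℝ => β ((s : ℂ) + ((U - L : ℝ) : ℂ) * I))
      (deriv β ((s : ℂ) + ((U - L : ℝ) : ℂ) * I) * 1) s := by
    intro s hs
    obtain ⟨k1, -⟩ := deriv_bd (U := U) (x := s) (s := L) hh hβ hb hL
      (by linarith [hs.1]) (by linarith [hs.2]) h3
    have k2 : HasDerivAt (fun s : ℝ => (s : ℂ) + ((U - L : ℝ) : ℂ) * I) 1 s := by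
      simpa using ((hasDerivAt_id s).ofReal_comp).add_const (((U - L : ℝ) : ℂ) * I)
    exact k1.hasDerivAt.comp_of_eq s k2 rfl
  have key := norm_image_sub_le_of_norm_deriv_le_segment' (a := x1) (b := x2)
    (f := fun s : ℝ => β ((s : ℂ) + ((U - L : ℝ) : ℂ) * I)) (C := 16 * h / L)
    (f' := fun s => deriv β ((s : ℂ) + ((U - L : ℝ) : ℂ) * I) * 1)
    (fun s hs => (hda s hs).hasDerivWithinAt) ?_
  · exact key x2 ⟨h12, le_refl _⟩
  · intro s hs
    obtain ⟨-, k1⟩ := deriv_bd (U := U) (x := s) (s := L) hh hβ hb hL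
      (by linarith [hs.1]) (by linarith [hs.2]) h3
    simpa using k1

theorem log_le_sqrt {x : ℝ} (hx : 1 ≤ x) : 1 + 2 * Real.log x ≤ 4 * √x := by
  have h0 : 0 < x := by linarith
  have h1 : Real.log x = 2 * Real.log (√x) := by
    rw [Real.log_sqrt h0.le]; ring
  have h2 := Real.log_le_sub_one_of_pos (Real.sqrt_pos.2 h0)
  rw [h1]
  linarith

/-- comparison of the two vertical sides -/
theorem sides {β : ℂ → ℂ} {a b U h r1 : ℝ} (hh : 0 < h)
    (hβ : DifferentiableOn ℂ β (Dm a b U r1)) (hb : ∀ z ∈ Dm a b U r1, |(β z).im| < h)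
    {x1 x2 d L : ℝ} (hd : 0 < d) (hdL : d ≤ L) (hx : x2 = x1 + L) (h1 : a ≤ x1 - L)
    (h2 : x2 + L ≤ b) (h3 : 2 * L ≤ r1) :
    ‖β ((x2 : ℂ) + ((U - d : ℝ) : ℂ) * I) - β ((x1 : ℂ) + ((U - d : ℝ) : ℂ) * I)‖ ≤
      64 * h * √(L / d) := by
  have hL : 0 < L := by linarith
  have v1 := vert (U := U) (x := x1) hh hβ hb hd hdL h1 (by linarith) h3
  have v2 := vert (U := U) (x := x2) hh hβ hb hd hdL (by linarith) h2 h3
  have v3 := horiz (U := U) (x1 := x1) (x2 := x2) hh hβ hb hL (by linarith) h1 h2 h3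
  have e : 16 * h / L * (x2 - x1) = 16 * h := by
    rw [hx]; field_simp; ring
  rw [e] at v3
  have hlog : 1 + 2 * (Real.log L - Real.log d) ≤ 4 * √(L / d) := by
    rw [← Real.log_div hL.ne' hd.ne']
    exact log_le_sqrt ((one_le_div hd).2 hdL)
  have tri : ‖β ((x2 : ℂ) + ((U - d : ℝ) : ℂ) * I) - β ((x1 : ℂ) + ((U - d : ℝ) : ℂ) * I)‖ ≤
      ‖β ((x2 : ℂ) + ((U - L : ℝ) : ℂ) * I) - β ((x2 : ℂ) + ((U - d : ℝ) : ℂ) * I)‖ +
      ‖β ((x2 : ℂ) + ((U - L : ℝ) : ℂ) * I) - β ((x1 : ℂ) + ((U - L : ℝ) : ℂ) * I)‖ +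
      ‖β ((x1 : ℂ) + ((U - L : ℝ) : ℂ) * I) - β ((x1 : ℂ) + ((U - d : ℝ) : ℂ) * I)‖ := by
    rw [← norm_neg (β ((x2 : ℂ) + ((U - L : ℝ) : ℂ) * I) - β ((x2 : ℂ) + ((U - d : ℝ) : ℂ) * I))]
    refine le_trans (le_of_eq ?_) (norm_add₃_le)
    congr 1
    ring
  calc _ ≤ 16 * h * (Real.log L - Real.log d) + 16 * h + 16 * h * (Real.log L - Real.log d) := by
        linarith
    _ = 16 * h * (1 + 2 * (Real.log L - Real.log d)) := by ring
    _ ≤ 16 * h * (4 * √(L / d)) := by gcongr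
    _ = _ := by ring


theorem cont_row {β : ℂ → ℂ} {a b U r1 : ℝ} (hβ : DifferentiableOn ℂ β (Dm a b U r1))
    {x1 x2 y : ℝ} (hy : 0 < y) (hy1 : y < r1) (h1 : a < x1) (h2 : x2 < b) (h12 : x1 ≤ x2) :
    ContinuousOn (fun x : ℝ => β ((x : ℂ) + ((U - y : ℝ) : ℂ) * I)) (uIcc x1 x2) := by
  refine hβ.continuousOn.comp (by fun_prop) ?_
  intro x hx
  rw [uIcc_of_le h12] at hx
  refine ⟨⟨?_, ?_⟩, ⟨?_, ?_⟩⟩ <;> simp <;> linarith [hx.1, hx.2]

theorem cont_col {β : ℂ → ℂ} {a b U r1 : ℝ} (hβ : DifferentiableOn ℂ β (Dm a b U r1))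
    {x y D : ℝ} (hy : 0 < y) (hyD : y ≤ D) (hD : D < r1) (h1 : a < x) (h2 : x < b) :
    ContinuousOn (fun t : ℝ => β ((x : ℂ) + (t : ℂ) * I)) (uIcc (U - D) (U - y)) := by
  refine hβ.continuousOn.comp (by fun_prop) ?_
  intro t ht
  rw [uIcc_of_le (by linarith)] at ht
  refine ⟨⟨?_, ?_⟩, ⟨?_, ?_⟩⟩ <;> simp <;> linarith [ht.1, ht.2]

theorem int_sqrt {L y D : ℝ} (hL : 0 < L) (hy : 0 < y) (hyD : y ≤ D) :
    ∫ s in y..D, √(L / s) ≤ 2 * √(L * D) := by
  have hd : ∀ s ∈ uIcc y D, HasDerivAt (fun s => 2 * √L * √s) (√(L / s)) s := by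
    intro s hs
    rw [uIcc_of_le hyD] at hs
    have hs0 : 0 < s := by linarith [hs.1]
    have := (Real.hasDerivAt_sqrt hs0.ne').const_mul (2 * √L)
    refine this.congr_deriv ?_
    rw [Real.sqrt_div hL.le]
    field_simp
  have hc : ContinuousOn (fun s => √(L / s)) (uIcc y D) := by
    intro s hs
    rw [uIcc_of_le hyD] at hs
    have hs0 : s ≠ 0 := by linarith [hs.1]
    exact ((continuousAt_const.div continuousAt_id hs0).sqrt).continuousWithinAt
  rw [intervalIntegral.integral_eq_sub_of_hasDerivAt hd hc.intervalIntegrable,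
    Real.sqrt_mul hL.le]
  have : 0 ≤ 2 * √L * √y := by positivity
  linarith [this, mul_assoc 2 (√L) (√D)]

theorem rect {β : ℂ → ℂ} {a b U h r1 : ℝ} (hh : 0 < h)
    (hβ : DifferentiableOn ℂ β (Dm a b U r1)) (hb : ∀ z ∈ Dm a b U r1, |(β z).im| < h)
    {x1 x2 y D L : ℝ} (hy : 0 < y) (hyD : y ≤ D) (hDL : D ≤ L) (hx : x2 = x1 + L)
    (h1 : a ≤ x1 - L) (h2 : x2 + L ≤ b) (h3 : 2 * L ≤ r1) :
    |(∫ x in x1..x2, (β ((x : ℂ) + ((U - D : ℝ) : ℂ) * I)).im) -
      ∫ x in x1..x2, (β ((x : ℂ) + ((U - y : ℝ) : ℂ) * I)).im| ≤ 128 * h * √(L * D) := by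
  have hL : 0 < L := by linarith
  have h12 : x1 ≤ x2 := by linarith
  have cD := cont_row (U := U) hβ (x1 := x1) (x2 := x2) (y := D) (by linarith) (by linarith)
    (by linarith) (by linarith) h12
  have cy := cont_row (U := U) hβ (x1 := x1) (x2 := x2) (y := y) (by linarith) (by linarith)
    (by linarith) (by linarith) h12
  have c1 := cont_col (U := U) hβ (x := x1) hy hyD (by linarith) (by linarith) (by linarith)
  have c2 := cont_col (U := U) hβ (x := x2) hy hyD (by linarith) (by linarith) (by linarith)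
  have hR := Complex.integral_boundary_rect_eq_zero_of_differentiableOn β
    (⟨x1, U - D⟩ : ℂ) (⟨x2, U - y⟩ : ℂ) (by
      refine hβ.mono ?_
      intro t ht
      rw [mem_reProdIm] at ht
      simp only at ht
      rw [uIcc_of_le h12, uIcc_of_le (by linarith)] at ht
      exact ⟨⟨by linarith [ht.1.1], by linarith [ht.1.2]⟩,
        ⟨by linarith [ht.2.1], by linarith [ht.2.2]⟩⟩)
  simp only at hR
  have e1 : (∫ x in x1..x2, β ((x : ℂ) + ((U - D : ℝ) : ℂ) * I)) -
      (∫ x in x1..x2, β ((x : ℂ) + ((U - y : ℝ) : ℂ) * I)) =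
      -I * ∫ t in (U - D)..(U - y),
        (β ((x2 : ℂ) + (t : ℂ) * I) - β ((x1 : ℂ) + (t : ℂ) * I)) := by
    rw [intervalIntegral.integral_sub c2.intervalIntegrable c1.intervalIntegrable]
    rw [smul_eq_mul, smul_eq_mul] at hR
    linear_combination hR
  have e2 : ‖∫ t in (U - D)..(U - y),
        (β ((x2 : ℂ) + (t : ℂ) * I) - β ((x1 : ℂ) + (t : ℂ) * I))‖ ≤
      ∫ t in (U - D)..(U - y), 64 * h * √(L / (U - t)) := by
    refine intervalIntegral.norm_integral_le_of_norm_le (by linarith) ?_ ?_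
    · refine ae_of_all _ fun t ht => ?_
      have k := sides (U := U) (d := U - t) hh hβ hb (by linarith [ht.2]) (by linarith [ht.1])
        hx h1 h2 h3
      have e : U - (U - t) = t := by ring
      rw [e] at k
      exact k
    · refine ContinuousOn.intervalIntegrable ?_
      intro t ht
      rw [uIcc_of_le (by linarith)] at ht
      have h0 : U - t ≠ 0 := by linarith [ht.2]
      exact (((continuousAt_const.div (continuousAt_const.sub continuousAt_id) h0).sqrt).const_mul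
        _).continuousWithinAt
  have e3 : ∫ t in (U - D)..(U - y), 64 * h * √(L / (U - t)) = ∫ s in y..D, 64 * h * √(L / s) := by
    have := intervalIntegral.integral_comp_sub_left (fun s => 64 * h * √(L / s)) U
      (a := U - D) (b := U - y)
    simpa using this
  rw [e3, intervalIntegral.integral_const_mul] at e2
  have e4 : ∀ {u : ℝ → ℂ}, IntervalIntegrable u volume x1 x2 →
      (∫ x in x1..x2, u x).im = ∫ x in x1..x2, (u x).im := by
    intro u hu
    have := Complex.imCLM.intervalIntegral_comp_comm hu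
    simpa using this.symm
  rw [← e4 cD.intervalIntegrable, ← e4 cy.intervalIntegrable, ← sub_im, e1]
  calc _ ≤ ‖-I * ∫ t in (U - D)..(U - y),
        (β ((x2 : ℂ) + (t : ℂ) * I) - β ((x1 : ℂ) + (t : ℂ) * I))‖ := abs_im_le_norm _
    _ = ‖∫ t in (U - D)..(U - y),
        (β ((x2 : ℂ) + (t : ℂ) * I) - β ((x1 : ℂ) + (t : ℂ) * I))‖ := by simp
    _ ≤ 64 * h * ∫ s in y..D, √(L / s) := e2
    _ ≤ 64 * h * (2 * √(L * D)) := by
        gcongr
        exact int_sqrt hL hy hyD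
    _ = _ := by ring

/-- comparison with the boundary values -/
theorem top_avg {β : ℂ → ℂ} {a b U h r1 : ℝ} (hh : 0 < h)
    (hβ : DifferentiableOn ℂ β (Dm a b U r1)) (hb : ∀ z ∈ Dm a b U r1, |(β z).im| < h)
    {f : ℝ → ℝ} (hf : ∀ᵐ x : ℝ, x ∈ Ioo a b →
      Tendsto (fun y : ℝ => (β ((x : ℂ) + ((U - y : ℝ) : ℂ) * I)).im) (𝓝[>] 0) (𝓝 (f x)))
    {x1 x2 D L : ℝ} (hD : 0 < D) (hDL : D ≤ L) (hx : x2 = x1 + L)
    (h1 : a ≤ x1 - L) (h2 : x2 + L ≤ b) (h3 : 2 * L ≤ r1) :
    |(∫ x in x1..x2, (β ((x : ℂ) + ((U - D : ℝ) : ℂ) * I)).im) - ∫ x in x1..x2, f x| ≤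
      128 * h * √(L * D) := by
  have hL : 0 < L := by linarith
  have h12 : x1 ≤ x2 := by linarith
  have hmem : ∀ᶠ y in 𝓝[>] (0 : ℝ), y ∈ Ioc (0 : ℝ) D := Ioc_mem_nhdsGT hD
  have hT : Tendsto (fun y : ℝ => ∫ x in x1..x2, (β ((x : ℂ) + ((U - y : ℝ) : ℂ) * I)).im)
      (𝓝[>] 0) (𝓝 (∫ x in x1..x2, f x)) := by
    refine intervalIntegral.tendsto_integral_filter_of_dominated_convergence (fun _ => h) ?_ ?_
      (by simp) ?_
    · filter_upwards [hmem] with y hy
      have cy := cont_row (U := U) hβ (x1 := x1) (x2 := x2) (y := y) hy.1 (by linarith [hy.2])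
        (by linarith) (by linarith) h12
      have := (Complex.continuous_im.comp_continuousOn cy).intervalIntegrable (μ := volume)
      rw [uIoc_of_le h12]
      rw [intervalIntegrable_iff_integrableOn_Ioc_of_le h12] at this
      exact this.aestronglyMeasurable
    · filter_upwards [hmem] with y hy
      refine ae_of_all _ fun x hx' => ?_
      rw [uIoc_of_le h12] at hx'
      rw [Real.norm_eq_abs]
      refine (hb _ ⟨⟨?_, ?_⟩, ⟨?_, ?_⟩⟩).le <;> simp <;> linarith [hx'.1, hx'.2, hy.1, hy.2]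
    · filter_upwards [hf] with x hx0 hx'
      rw [uIoc_of_le h12] at hx'
      exact hx0 ⟨by linarith [hx'.1], by linarith [hx'.2]⟩
  have hT2 := (tendsto_const_nhds (x := ∫ x in x1..x2, (β ((x : ℂ) +
    ((U - D : ℝ) : ℂ) * I)).im) (f := 𝓝[>] (0:ℝ))).sub hT |>.abs
  refine le_of_tendsto hT2 ?_
  filter_upwards [hmem] with y hy
  exact rect hh hβ hb hy.1 hy.2 hDL hx h1 h2 h3


/-- one side of a window: if the boundary values have average `≥ -3h/4` on `[x0 - s, x0 + s]` then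
`h + Im β ≥ c h` at depth `s`. -/
theorem side {β : ℂ → ℂ} {a b U h r1 : ℝ} (hh : 0 < h)
    (hβ : DifferentiableOn ℂ β (Dm a b U r1)) (hb : ∀ z ∈ Dm a b U r1, |(β z).im| < h)
    {f : ℝ → ℝ} (hf : ∀ᵐ x : ℝ, x ∈ Ioo a b →
      Tendsto (fun y : ℝ => (β ((x : ℂ) + ((U - y : ℝ) : ℂ) * I)).im) (𝓝[>] 0) (𝓝 (f x)))
    {x0 s : ℝ} (hs : 0 < s) (h1 : a ≤ x0 - 2 ^ 21 * s) (h2 : x0 + 2 ^ 21 * s ≤ b)
    (h3 : 2 ^ 22 * s ≤ r1) (hint : -(3 / 4) * h * (2 * s) ≤ ∫ x in (x0 - s)..(x0 + s), f x) :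
    h / 2 ^ 71 ≤ h + (β ((x0 : ℂ) + ((U - s : ℝ) : ℂ) * I)).im := by
  set L : ℝ := 2 * s with hL
  set D : ℝ := L / 2 ^ 20 with hD
  set R : ℝ := 2 ^ 20 * L with hR
  have hLp : 0 < L := by positivity
  have hDp : 0 < D := by positivity
  have hRp : 0 < R := by positivity
  have hDL : D ≤ L := by rw [hD]; apply div_le_self hLp.le; norm_num
  have htop := top_avg (U := U) hh hβ hb hf (x1 := x0 - s) (x2 := x0 + s) (D := D) (L := L) hDp hDL
    (by rw [hL]; ring) (by rw [hL]; linarith) (by rw [hL]; linarith) (by rw [hL]; linarith)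
  have hsq : √(L * D) = L / 2 ^ 10 := by
    rw [hD, show L * (L / 2 ^ 20) = (L / 2 ^ 10) ^ 2 by ring]
    exact Real.sqrt_sq (by positivity)
  rw [hsq] at htop
  have hlow : -(7 / 8) * h * L ≤ ∫ x in (x0 - s)..(x0 + s),
      (β ((x : ℂ) + ((U - D : ℝ) : ℂ) * I)).im := by
    have := (abs_le.1 htop).1
    have e : 128 * h * (L / 2 ^ 10) = h * L / 8 := by ring
    rw [e] at this
    nlinarith
  -- a good point on the row
  obtain ⟨x, hx, hxb⟩ : ∃ x ∈ Icc (x0 - s) (x0 + s),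
      -(15 / 16) * h < (β ((x : ℂ) + ((U - D : ℝ) : ℂ) * I)).im := by
    by_contra hcon
    push Not at hcon
    have h12 : x0 - s ≤ x0 + s := by linarith
    have cD := cont_row (U := U) hβ (x1 := x0 - s) (x2 := x0 + s) (y := D) hDp
      (by linarith) (by linarith) (by linarith) h12
    have cI := (Complex.continuous_im.comp_continuousOn cD).intervalIntegrable (μ := volume)
    have := intervalIntegral.integral_mono_on h12 cI
      (intervalIntegrable_const (c := -(15 / 16) * h)) (fun x hx => hcon x hx)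
    rw [intervalIntegral.integral_const] at this
    simp only [Function.comp_def, smul_eq_mul] at this
    have hp : 0 < h * L := by positivity
    have e2 : (x0 + s - (x0 - s)) = L := by rw [hL]; ring
    rw [e2] at this
    nlinarith
  -- Harnack
  set c : ℂ := (x0 : ℂ) + ((U - R : ℝ) : ℂ) * I with hc
  set R' : ℝ := R - D / 8 with hR'
  have hDR : D ≤ R / 2 ^ 40 := by rw [hD, hR]; apply le_of_eq; ring
  have hR'p : 0 < R' := by
    have : R / 2 ^ 40 ≤ R := div_le_self hRp.le (by norm_num)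
    linarith
  have hsub : closedBall c R' ⊆ Dm a b U r1 := by
    intro t ht
    rw [mem_closedBall, dist_eq_norm] at ht
    have e1 := (Complex.abs_re_le_norm _).trans ht
    have e2 := (Complex.abs_im_le_norm _).trans ht
    simp [hc] at e1 e2
    rw [abs_le] at e1 e2
    have hR1 : R = 2 ^ 21 * s := by rw [hR, hL]; ring
    refine ⟨⟨by linarith [e1.1], by linarith [e1.2]⟩, ⟨by linarith [e2.1], by linarith [e2.2]⟩⟩
  have hg : DiffContOnCl ℂ (fun z => (h : ℂ) - I * β z) (ball c R') := by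
    apply DifferentiableOn.diffContOnCl
    rw [closure_ball c hR'p.ne']
    exact (differentiableOn_const _).sub ((differentiableOn_const _).mul (hβ.mono hsub))
  have hgre : ∀ z, ((h : ℂ) - I * β z).re = h + (β z).im := by
    intro z
    simp
  have hpos : ∀ z ∈ sphere c R', 0 ≤ ((h : ℂ) - I * β z).re := by
    intro z hz
    rw [hgre]
    have := (abs_lt.1 (hb z (hsub (sphere_subset_closedBall hz)))).1
    linarith
  have hyc : ‖((x0 : ℂ) + ((U - s : ℝ) : ℂ) * I) - c‖ = R - s := by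
    have : ((x0 : ℂ) + ((U - s : ℝ) : ℂ) * I) - c = ((R - s : ℝ) : ℂ) * I := by
      rw [hc]; push_cast; ring
    rw [this, norm_mul, norm_I, mul_one, Complex.norm_real, Real.norm_eq_abs, abs_of_nonneg]
    rw [hR, hL]; nlinarith
  have hqc : ‖((x : ℂ) + ((U - D : ℝ) : ℂ) * I) - c‖ ≤ R - D / 4 := by
    have : ((x : ℂ) + ((U - D : ℝ) : ℂ) * I) - c = ((x - x0 : ℝ) : ℂ) + ((R - D : ℝ) : ℂ) * I := by
      rw [hc]; push_cast; ring
    rw [this, Complex.norm_add_mul_I]
    apply Real.sqrt_le_iff.2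
    constructor
    · have : R / 2 ^ 40 ≤ R := div_le_self hRp.le (by norm_num)
      linarith
    · have e1 : (x - x0) ^ 2 ≤ s ^ 2 := by
        apply sq_le_sq'
        · linarith [hx.1]
        · linarith [hx.2]
      have e2 : D * R = L ^ 2 := by rw [hD, hR]; ring
      have e3 : D ^ 2 ≤ L ^ 2 / 2 := by
        have : D ≤ L / 2 := by
          rw [hD]; apply div_le_div_of_nonneg_left hLp.le (by norm_num) (by norm_num)
        nlinarith
      have e4 : s ^ 2 = L ^ 2 / 4 := by rw [hL]; ring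
      nlinarith
  have hy : ((x0 : ℂ) + ((U - s : ℝ) : ℂ) * I) ∈ ball c R' := by
    rw [mem_ball, dist_eq_norm, hyc, hR']
    have : D ≤ L / 2 := by
      rw [hD]; apply div_le_div_of_nonneg_left hLp.le (by norm_num) (by norm_num)
    linarith
  have hq : ((x : ℂ) + ((U - D : ℝ) : ℂ) * I) ∈ ball c R' := by
    rw [mem_ball, dist_eq_norm, hR']
    linarith
  have key := harnack hR'p hg hpos hy hq
  rw [hgre, hgre] at key
  have hv : h / 16 ≤ h + (β ((x : ℂ) + ((U - D : ℝ) : ℂ) * I)).im := by linarith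
  have hk : 1 / 2 ^ 67 ≤ (R' - ‖((x0 : ℂ) + ((U - s : ℝ) : ℂ) * I) - c‖) *
      (R' - ‖((x : ℂ) + ((U - D : ℝ) : ℂ) * I) - c‖) / (4 * R' ^ 2) := by
    have k1 : s / 2 ≤ R' - ‖((x0 : ℂ) + ((U - s : ℝ) : ℂ) * I) - c‖ := by
      rw [hyc, hR']
      have : D ≤ L / 2 := by
        rw [hD]; apply div_le_div_of_nonneg_left hLp.le (by norm_num) (by norm_num)
      linarith
    have k2 : D / 8 ≤ R' - ‖((x : ℂ) + ((U - D : ℝ) : ℂ) * I) - c‖ := by rw [hR']; linarith
    have k3 : R' ≤ R := by rw [hR']; linarith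
    rw [le_div_iff₀ (by positivity)]
    calc 1 / 2 ^ 67 * (4 * R' ^ 2) ≤ 1 / 2 ^ 67 * (4 * R ^ 2) := by gcongr
      _ = (s / 2) * (D / 8) := by rw [hR, hD, hL]; ring
      _ ≤ _ := by
        apply mul_le_mul k1 k2 (by positivity)
        linarith
  calc h / 2 ^ 71 = 1 / 2 ^ 67 * (h / 16) := by ring
    _ ≤ _ := mul_le_mul hk hv (by positivity) (by
        refine le_trans (by positivity) hk)
    _ ≤ _ := key


/-- **balanced windows**: both sides, from the set form of the boundary values. -/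
theorem kolwin_set {β : ℂ → ℂ} {a b U h r1 : ℝ} (hh : 0 < h) (hr1 : 0 < r1)
    (hβ : DifferentiableOn ℂ β (Dm a b U r1)) (hb : ∀ z ∈ Dm a b U r1, |(β z).im| < h)
    {E : Set ℝ} (hE : MeasurableSet E)
    (hf : ∀ᵐ x : ℝ, x ∈ Ioo a b →
      (x ∈ E → Tendsto (fun y : ℝ => (β ((x : ℂ) + ((U - y : ℝ) : ℂ) * I)).im) (𝓝[>] 0) (𝓝 h)) ∧
      (x ∉ E → Tendsto (fun y : ℝ => (β ((x : ℂ) + ((U - y : ℝ) : ℂ) * I)).im) (𝓝[>] 0)
        (𝓝 (-h))))
    (h1 : volume (E ∩ Ioo a b) ≠ 0) (h2 : volume (Ioo a b \ E) ≠ 0) :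
    ∃ x0 ∈ Ioo a b, ∃ s0 > 0, ∀ s, 0 < s → s ≤ s0 →
      |(β ((x0 : ℂ) + ((U - s : ℝ) : ℂ) * I)).im| ≤ h - h / 2 ^ 71 := by
  classical
  obtain ⟨x0, hx0, s1, hs1, hw⟩ := _root_.R102.Kol528.kol hE h1 h2
  set f : ℝ → ℝ := fun x => h * (2 * E.indicator (fun _ => (1:ℝ)) x - 1) with hfdef
  have hfE : ∀ x, x ∈ E → f x = h := by
    intro x hx; simp [hfdef, hx]; ring
  have hfE' : ∀ x, x ∉ E → f x = -h := by
    intro x hx; simp [hfdef, hx]
  have hlim : ∀ᵐ x : ℝ, x ∈ Ioo a b →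
      Tendsto (fun y : ℝ => (β ((x : ℂ) + ((U - y : ℝ) : ℂ) * I)).im) (𝓝[>] 0) (𝓝 (f x)) := by
    filter_upwards [hf] with x hx hxI
    by_cases hxE : x ∈ E
    · rw [hfE x hxE]; exact (hx hxI).1 hxE
    · rw [hfE' x hxE]; exact (hx hxI).2 hxE
  have hlim' : ∀ᵐ x : ℝ, x ∈ Ioo a b →
      Tendsto (fun y : ℝ => ((fun z => -β z) ((x : ℂ) + ((U - y : ℝ) : ℂ) * I)).im) (𝓝[>] 0)
        (𝓝 (-f x)) := by
    filter_upwards [hlim] with x hx hxI
    simpa using (hx hxI).neg
  have hint : ∀ s, 0 < s → ∫ x in (x0 - s)..(x0 + s), f x =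
      h * (2 * (volume (E ∩ Icc (x0 - s) (x0 + s))).toReal - 2 * s) := by
    intro s hs
    have e1 := _root_.R102.Kol528.ind_integral hE (show x0 - s ≤ x0 + s by linarith)
    have i1 := _root_.R102.Kol528.ind_ii hE (x0 - s) (x0 + s)
    rw [hfdef]
    simp only
    rw [intervalIntegral.integral_const_mul, intervalIntegral.integral_sub (i1.const_mul 2)
      intervalIntegrable_const, intervalIntegral.integral_const_mul, e1,
      intervalIntegral.integral_const]
    simp only [smul_eq_mul]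
    ring
  have hint' : ∀ s, 0 < s → ∫ x in (x0 - s)..(x0 + s), -f x =
      h * (2 * (volume (Icc (x0 - s) (x0 + s) \ E)).toReal - 2 * s) := by
    intro s hs
    have e1 := _root_.R102.Kol528.ind_integral' hE (show x0 - s ≤ x0 + s by linarith)
    have i1 := _root_.R102.Kol528.ind_ii hE (x0 - s) (x0 + s)
    have i2 : IntervalIntegrable (fun u => 1 - E.indicator (fun _ => (1:ℝ)) u) volume
      (x0 - s) (x0 + s) := intervalIntegrable_const.sub i1
    have : ∀ x, -f x = h * (2 * (1 - E.indicator (fun _ => (1:ℝ)) x) - 1) := by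
      intro x; rw [hfdef]; ring
    simp_rw [this]
    rw [intervalIntegral.integral_const_mul, intervalIntegral.integral_sub (i2.const_mul 2)
      intervalIntegrable_const, intervalIntegral.integral_const_mul, e1,
      intervalIntegral.integral_const]
    simp only [smul_eq_mul]
    ring
  obtain ⟨hx0a, hx0b⟩ := hx0
  refine ⟨x0, ⟨hx0a, hx0b⟩, min s1 (min ((x0 - a) / 2 ^ 21) (min ((b - x0) / 2 ^ 21)
    (r1 / 2 ^ 22))), ?_, ?_⟩
  · refine lt_min hs1 (lt_min ?_ (lt_min ?_ (by positivity)))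
    · have : 0 < x0 - a := by linarith
      positivity
    · have : 0 < b - x0 := by linarith
      positivity
  · intro s hs hs0
    simp only [le_min_iff] at hs0
    obtain ⟨q1, q2, q3, q4⟩ := hs0
    rw [le_div_iff₀ (by norm_num)] at q2 q3 q4
    obtain ⟨-, w1, w2⟩ := hw s hs q1
    have lo := side (U := U) (x0 := x0) (s := s) hh hβ hb hlim hs (by linarith) (by linarith)
      (by linarith) (by rw [hint s hs]; nlinarith)
    have up := side (U := U) (x0 := x0) (s := s) (β := fun z => -β z) (f := fun x => -f x) hh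
      hβ.neg (fun z hz => by simpa using hb z hz) hlim' hs (by linarith) (by linarith)
      (by linarith) (by rw [hint' s hs]; nlinarith)
    simp only [neg_im] at up
    rw [abs_le]
    constructor <;> linarith

/-- **KOLWIN** (vertical-limit form). -/
theorem kolwin {β : ℂ → ℂ} {a b U h r1 : ℝ} (hh : 0 < h) (hr1 : 0 < r1)
    (hβ : DifferentiableOn ℂ β (Dm a b U r1)) (hb : ∀ z ∈ Dm a b U r1, |(β z).im| < h)
    (hlim : ∀ᵐ x : ℝ, x ∈ Ioo a b →
      Tendsto (fun y : ℝ => (β ((x : ℂ) + ((U - y : ℝ) : ℂ) * I)).im) (𝓝[>] 0) (𝓝 h) ∨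
      Tendsto (fun y : ℝ => (β ((x : ℂ) + ((U - y : ℝ) : ℂ) * I)).im) (𝓝[>] 0) (𝓝 (-h)))
    (hm1 : ¬ ∀ᵐ x : ℝ, x ∈ Ioo a b →
      Tendsto (fun y : ℝ => (β ((x : ℂ) + ((U - y : ℝ) : ℂ) * I)).im) (𝓝[>] 0) (𝓝 h))
    (hm2 : ¬ ∀ᵐ x : ℝ, x ∈ Ioo a b →
      Tendsto (fun y : ℝ => (β ((x : ℂ) + ((U - y : ℝ) : ℂ) * I)).im) (𝓝[>] 0) (𝓝 (-h))) :
    ∃ x0 ∈ Ioo a b, ∃ s0 > 0, ∀ s, 0 < s → s ≤ s0 →
      |(β ((x0 : ℂ) + ((U - s : ℝ) : ℂ) * I)).im| ≤ h - h / 2 ^ 71 := by
  classical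
  -- the measurable set
  set F : ℕ → ℝ → ℝ := fun n => (Ioo a b).indicator
    (fun x => (β ((x : ℂ) + ((U - r1 / (n + 2) : ℝ) : ℂ) * I)).im) with hF
  have hpos : ∀ n : ℕ, 0 < r1 / ((n : ℝ) + 2) := fun n => by positivity
  have hFm : ∀ n, Measurable (F n) := by
    intro n
    rw [hF]
    have hc : ContinuousOn (fun x : ℝ => (β ((x : ℂ) + ((U - r1 / (n + 2) : ℝ) : ℂ) * I)).im)
        (Ioo a b) := by
      refine Complex.continuous_im.comp_continuousOn
        (hβ.continuousOn.comp (by fun_prop) ?_)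
      intro x hx
      refine mem_Dm hx (hpos n) ?_
      apply div_lt_self hr1
      have : (0:ℝ) ≤ n := Nat.cast_nonneg n
      linarith
    have hm := hc.measurable_piecewise (g := (0 : ℝ → ℝ)) continuousOn_const measurableSet_Ioo
    rw [piecewise_eq_indicator] at hm
    exact hm
  set E : Set ℝ := {x | Tendsto (fun n => F n x) atTop (𝓝 h)} with hE
  have hEm : MeasurableSet E := measurableSet_tendsto _ hFm
  have hseq : Tendsto (fun n : ℕ => r1 / ((n : ℝ) + 2)) atTop (𝓝[>] 0) := by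
    rw [tendsto_nhdsWithin_iff]
    constructor
    · have h5 : Tendsto (fun n : ℕ => (n : ℝ) + 2) atTop atTop :=
        tendsto_atTop_add_const_right _ _ tendsto_natCast_atTop_atTop
      exact h5.const_div_atTop r1
    · exact Eventually.of_forall fun n => hpos n
  have hFl : ∀ x ∈ Ioo a b, ∀ l : ℝ,
      Tendsto (fun y : ℝ => (β ((x : ℂ) + ((U - y : ℝ) : ℂ) * I)).im) (𝓝[>] 0) (𝓝 l) →
      Tendsto (fun n => F n x) atTop (𝓝 l) := by
    intro x hx l hl
    have := hl.comp hseq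
    refine this.congr fun n => ?_
    simp [hF, hx]
  have hf : ∀ᵐ x : ℝ, x ∈ Ioo a b →
      (x ∈ E → Tendsto (fun y : ℝ => (β ((x : ℂ) + ((U - y : ℝ) : ℂ) * I)).im) (𝓝[>] 0) (𝓝 h)) ∧
      (x ∉ E → Tendsto (fun y : ℝ => (β ((x : ℂ) + ((U - y : ℝ) : ℂ) * I)).im) (𝓝[>] 0)
        (𝓝 (-h))) := by
    filter_upwards [hlim] with x hx hxI
    rcases hx hxI with h6 | h6
    · exact ⟨fun _ => h6, fun hn => absurd (hFl x hxI h h6) hn⟩
    · refine ⟨fun hy => ?_, fun _ => h6⟩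
      have h7 := hFl x hxI _ h6
      have h8 : h = -h := tendsto_nhds_unique hy h7
      exfalso; linarith
  refine kolwin_set hh hr1 hβ hb hEm hf ?_ ?_
  · intro h0
    apply hm2
    have : ∀ᵐ x : ℝ, x ∉ E ∩ Ioo a b := by
      rw [ae_iff]; simpa only [not_not, ofPred_mem_eq] using h0
    filter_upwards [this, hf] with x hx hx2 hxI
    exact (hx2 hxI).2 fun hxE => hx ⟨hxE, hxI⟩
  · intro h0
    apply hm1
    have : ∀ᵐ x : ℝ, x ∉ Ioo a b \ E := by
      rw [ae_iff]; simpa only [not_not, ofPred_mem_eq] using h0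
    filter_upwards [this, hf] with x hx hx2 hxI
    exact (hx2 hxI).1 (by_contra fun hxE => hx ⟨hxI, hxE⟩)

end Crest.Agent.R102.Kol953
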