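import Mathlib
import Crest.Agent.R102.KolWin_953

/-!
Row 102, T1-B, EDGE (helper408): balanced point with EXACT densities.

`kolx`: as `Kol953.kolwin`, but all windows over the point `x0` contain an interval of comparable
length with average EXACTLY `v0` (any `v0` with `|v0| ≤ h/2`). Consequences: labels interior at all
scales, the mean of `Im β` at relative depth `(g/256h)^2` is `g`-close to `v0`, and no window is
frozen at a height `v1 ≠ v0` (`nf`).
-/

set_option autoImplicit false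

open MeasureTheory Set Filter Topology Complex Metric
open scoped Real

namespace Crest.Agent.R102.KolX408

open Crest.Agent.R102.Kol953

/-- Harnack between the scales `l ≤ s ≤ 2 l` on the vertical over `x0` -/
theorem vert_harnack {β : ℂ → ℂ} {a b U h r1 : ℝ}
    (hβ : DifferentiableOn ℂ β (Dm a b U r1)) (hb : ∀ z ∈ Dm a b U r1, |(β z).im| < h)
    {x0 l s : ℝ} (hl : 0 < l) (h1 : l ≤ s) (h2 : s ≤ 2 * l) (ha : a < x0 - 2 * l)
    (hb' : x0 + 2 * l < b) (hr : 4 * l < r1) :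
    1 / 32 * (h + (β ((x0 : ℂ) + ((U - l : ℝ) : ℂ) * I)).im) ≤
      h + (β ((x0 : ℂ) + ((U - s : ℝ) : ℂ) * I)).im := by
  set c : ℂ := (x0 : ℂ) + ((U - 2 * l : ℝ) : ℂ) * I with hc
  set R : ℝ := 7 / 4 * l with hR
  have hRp : 0 < R := by rw [hR]; linarith
  have hsub : closedBall c R ⊆ Dm a b U r1 := by
    intro t ht
    rw [mem_closedBall, dist_eq_norm] at ht
    have e1 := (Complex.abs_re_le_norm _).trans ht
    have e2 := (Complex.abs_im_le_norm _).trans ht
    simp [hc] at e1 e2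
    rw [abs_le] at e1 e2
    refine ⟨⟨by linarith [e1.1], by linarith [e1.2]⟩, ⟨by linarith [e2.1], by linarith [e2.2]⟩⟩
  have hg : DiffContOnCl ℂ (fun z => (h : ℂ) - I * β z) (ball c R) := by
    apply DifferentiableOn.diffContOnCl
    rw [closure_ball c hRp.ne']
    exact (differentiableOn_const _).sub ((differentiableOn_const _).mul (hβ.mono hsub))
  have hgre : ∀ z, ((h : ℂ) - I * β z).re = h + (β z).im := by
    intro z
    simp
  have hpos : ∀ z ∈ sphere c R, 0 ≤ ((h : ℂ) - I * β z).re := by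
    intro z hz
    rw [hgre]
    have := (abs_lt.1 (hb z (hsub (sphere_subset_closedBall hz)))).1
    linarith
  have hyc : ‖((x0 : ℂ) + ((U - s : ℝ) : ℂ) * I) - c‖ = 2 * l - s := by
    have : ((x0 : ℂ) + ((U - s : ℝ) : ℂ) * I) - c = ((2 * l - s : ℝ) : ℂ) * I := by
      rw [hc]; push_cast; ring
    rw [this, norm_mul, norm_I, mul_one, Complex.norm_real, Real.norm_eq_abs, abs_of_nonneg]
    linarith
  have hqc : ‖((x0 : ℂ) + ((U - l : ℝ) : ℂ) * I) - c‖ = l := by
    have : ((x0 : ℂ) + ((U - l : ℝ) : ℂ) * I) - c = ((l : ℝ) : ℂ) * I := by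
      rw [hc]; push_cast; ring
    rw [this, norm_mul, norm_I, mul_one, Complex.norm_real, Real.norm_eq_abs, abs_of_nonneg hl.le]
  have hy : ((x0 : ℂ) + ((U - s : ℝ) : ℂ) * I) ∈ ball c R := by
    rw [mem_ball, dist_eq_norm, hyc, hR]; linarith
  have hq : ((x0 : ℂ) + ((U - l : ℝ) : ℂ) * I) ∈ ball c R := by
    rw [mem_ball, dist_eq_norm, hqc, hR]; linarith
  have key := harnack hRp hg hpos hy hq
  rw [hgre, hgre, hyc, hqc] at key
  have hqD := hsub (ball_subset_closedBall hq)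
  have hq0 : 0 ≤ h + (β ((x0 : ℂ) + ((U - l : ℝ) : ℂ) * I)).im := by
    have := (abs_lt.1 (hb _ hqD)).1
    linarith
  refine le_trans (mul_le_mul_of_nonneg_right ?_ hq0) key
  rw [le_div_iff₀ (by positivity), hR]
  nlinarith [mul_pos hl hl]

/-- **exact densities**, from the set form of the boundary values -/
theorem kolx_set {β : ℂ → ℂ} {a b U h r1 v0 : ℝ} (hh : 0 < h) (hr1 : 0 < r1) (hv0 : |v0| ≤ h / 2)
    (hβ : DifferentiableOn ℂ β (Dm a b U r1)) (hb : ∀ z ∈ Dm a b U r1, |(β z).im| < h)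
    {E : Set ℝ} (hE : MeasurableSet E)
    (hf : ∀ᵐ x : ℝ, x ∈ Ioo a b →
      (x ∈ E → Tendsto (fun y : ℝ => (β ((x : ℂ) + ((U - y : ℝ) : ℂ) * I)).im) (𝓝[>] 0) (𝓝 h)) ∧
      (x ∉ E → Tendsto (fun y : ℝ => (β ((x : ℂ) + ((U - y : ℝ) : ℂ) * I)).im) (𝓝[>] 0)
        (𝓝 (-h))))
    (h1 : volume (E ∩ Ioo a b) ≠ 0) (h2 : volume (Ioo a b \ E) ≠ 0) :
    ∃ x0 ∈ Ioo a b, ∃ s0 > 0, x0 + s0 < b ∧ a < x0 - s0 ∧ 2 * s0 ≤ r1 ∧
      (∀ s, 0 < s → s ≤ s0 →
        |(β ((x0 : ℂ) + ((U - s : ℝ) : ℂ) * I)).im| ≤ h - h / 2 ^ 76) ∧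
      (∀ g, 0 < g → g ≤ h → ∀ s, 0 < s → s ≤ s0 → ∃ p l, s / 2 ≤ l ∧ l ≤ s ∧ p ≤ x0 ∧ x0 ≤ p + l ∧
        |(∫ x in p..(p + l), (β ((x : ℂ) + ((U - (g / (256 * h)) ^ 2 * l : ℝ) : ℂ) * I)).im) -
          v0 * l| ≤ g * l) := by
  classical
  obtain ⟨hv1, hv2⟩ := abs_le.1 hv0
  set κ : ℝ := (1 + v0 / h) / 2 with hκ
  have hκv : (2 * κ - 1) * h = v0 := by rw [hκ]; field_simp; ring
  have hκ1 : 1 / 4 ≤ κ := by
    have : -(1 / 2) ≤ v0 / h := by rw [le_div_iff₀ hh]; linarith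
    rw [hκ]; linarith
  have hκ2 : κ ≤ 3 / 4 := by
    have : v0 / h ≤ 1 / 2 := by rw [div_le_iff₀ hh]; linarith
    rw [hκ]; linarith
  obtain ⟨p, L, hL, hsub, hav⟩ := _root_.R102.Kol528.exists_avg hE h1 h2 (κ := κ) (by linarith)
    (by linarith)
  set ind : ℝ → ℝ := E.indicator (fun _ => (1:ℝ)) with hind
  have hi0 : ∀ x, 0 ≤ ind x := fun x => indicator_nonneg (fun _ _ => zero_le_one) x
  have hi1 : ∀ x, ind x ≤ 1 := fun x => by
    by_cases h : x ∈ E <;> simp [hind, h]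
  have hii : ∀ a b, IntervalIntegrable ind volume a b := _root_.R102.Kol528.ind_ii hE
  set F : ℝ → ℝ := fun t => ∫ u in (0:ℝ)..t, ind u with hFdef
  have hFc : Continuous F := intervalIntegral.continuous_primitive hii 0
  have hFd : ∀ a b, F b - F a = ∫ u in a..b, ind u := fun a b =>
    intervalIntegral.integral_interval_sub_left (hii _ _) (hii _ _)
  obtain ⟨P, hP0, hP, hPa⟩ := _root_.R102.Kol528.nest hFc hL (by rw [hFd]; exact hav)
  obtain ⟨x0, hx0⟩ := _root_.R102.Kol528.nest_point hL hP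
  have hx0I : x0 ∈ Ioo a b := by
    have h3 := hx0 0
    rw [hP0] at h3
    exact hsub ⟨h3.1, by simpa using h3.2⟩
  set f : ℝ → ℝ := fun x => h * (2 * ind x - 1) with hfdef
  have hfE : ∀ x, x ∈ E → f x = h := by
    intro x hx; simp [hfdef, hind, hx]; ring
  have hfE' : ∀ x, x ∉ E → f x = -h := by
    intro x hx; simp [hfdef, hind, hx]
  have hlim : ∀ᵐ x : ℝ, x ∈ Ioo a b →
      Tendsto (fun y : ℝ => (β ((x : ℂ) + ((U - y : ℝ) : ℂ) * I)).im) (𝓝[>] 0) (𝓝 (f x)) := by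
    filter_upwards [hf] with x hx hxI
    by_cases hxE : x ∈ E
    · rw [hfE x hxE]; exact (hx hxI).1 hxE
    · rw [hfE' x hxE]; exact (hx hxI).2 hxE
  have hlim' : ∀ᵐ x : ℝ, x ∈ Ioo a b →
      Tendsto (fun y : ℝ => ((fun z => -β z) ((x : ℂ) + ((U - y : ℝ) : ℂ) * I)).im) (𝓝[>] 0)
        (𝓝 (-f x)) := by
    filter_upwards [hlim] with x hx hxI
    simpa using (hx hxI).neg
  have hfint : ∀ a b, ∫ x in a..b, f x = h * (2 * (∫ x in a..b, ind x) - (b - a)) := by
    intro a b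
    rw [hfdef]
    simp only
    rw [intervalIntegral.integral_const_mul, intervalIntegral.integral_sub ((hii a b).const_mul 2)
      intervalIntegrable_const, intervalIntegral.integral_const_mul,
      intervalIntegral.integral_const]
    simp only [smul_eq_mul]
    ring
  have hwin : ∀ n, κ * (L / 2 ^ n) ≤ ∫ x in (x0 - L / 2 ^ n)..(x0 + L / 2 ^ n), ind x := by
    intro n
    have hl : 0 < L / 2 ^ n := by positivity
    rw [← hPa n, hFd]
    have e1 : x0 - L / 2 ^ n ≤ P n := by linarith [(hx0 n).2]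
    have e2 : P n + L / 2 ^ n ≤ x0 + L / 2 ^ n := by linarith [(hx0 n).1]
    exact intervalIntegral.integral_mono_interval e1 (by linarith) e2
      (Eventually.of_forall hi0) (hii _ _)
  have hwin' : ∀ n, (∫ x in (x0 - L / 2 ^ n)..(x0 + L / 2 ^ n), ind x) ≤
      2 * (L / 2 ^ n) - (1 - κ) * (L / 2 ^ n) := by
    intro n
    have hl : 0 < L / 2 ^ n := by positivity
    have hi2 : ∀ a b, IntervalIntegrable (fun u => 1 - ind u) volume a b := fun a b =>
      (intervalIntegrable_const).sub (hii a b)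
    have e1 : x0 - L / 2 ^ n ≤ P n := by linarith [(hx0 n).2]
    have e2 : P n + L / 2 ^ n ≤ x0 + L / 2 ^ n := by linarith [(hx0 n).1]
    have e3 : ∫ x in (P n)..(P n + L / 2 ^ n), (1 - ind x) ≤
        ∫ x in (x0 - L / 2 ^ n)..(x0 + L / 2 ^ n), (1 - ind x) :=
      intervalIntegral.integral_mono_interval e1 (by linarith) e2
        (Eventually.of_forall fun x => by simpa using hi1 x) (hi2 _ _)
    rw [intervalIntegral.integral_sub intervalIntegrable_const (hii _ _),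
      intervalIntegral.integral_sub intervalIntegrable_const (hii _ _),
      intervalIntegral.integral_const, intervalIntegral.integral_const, ← hFd (P n), hPa n] at e3
    simp only [smul_eq_mul, mul_one] at e3
    linarith
  obtain ⟨hx0a, hx0b⟩ := hx0I
  have hxa : 0 < x0 - a := by linarith
  have hxb : 0 < b - x0 := by linarith
  refine ⟨x0, ⟨hx0a, hx0b⟩, min L (min ((x0 - a) / 2 ^ 22) (min ((b - x0) / 2 ^ 22)
    (r1 / 2 ^ 23))), ?_, ?_, ?_, ?_, ?_, ?_⟩
  · refine lt_min hL (lt_min (by positivity) (lt_min (by positivity) (by positivity)))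
  · have := (min_le_right L (min ((x0 - a) / 2 ^ 22) (min ((b - x0) / 2 ^ 22) (r1 / 2 ^ 23)))).trans
      ((min_le_right _ _).trans (min_le_left _ _))
    linarith
  · have := (min_le_right L (min ((x0 - a) / 2 ^ 22) (min ((b - x0) / 2 ^ 22) (r1 / 2 ^ 23)))).trans
      (min_le_left _ _)
    linarith
  · have := (min_le_right L (min ((x0 - a) / 2 ^ 22) (min ((b - x0) / 2 ^ 22) (r1 / 2 ^ 23)))).trans
      ((min_le_right _ _).trans (min_le_right _ _))
    linarith
  · intro s hs hs0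
    simp only [le_min_iff] at hs0
    obtain ⟨q1, q2, q3, q4⟩ := hs0
    rw [le_div_iff₀ (by norm_num)] at q2 q3 q4
    obtain ⟨n, hn1, hn2⟩ := _root_.R102.Kol528.exists_scale hL hs q1
    set l : ℝ := L / 2 ^ n with hl
    have hlp : 0 < l := by positivity
    have w1 := hwin n
    have w2 := hwin' n
    rw [← hl] at w1 w2
    have lo := side (U := U) (x0 := x0) (s := l) hh hβ hb hlim hlp (by linarith) (by linarith)
      (by linarith) (by
        rw [hfint]
        have e : h * (2 * (1 / 4 * l) - 2 * l) ≤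
            h * (2 * (∫ x in (x0 - l)..(x0 + l), ind x) - (x0 + l - (x0 - l))) := by
          apply mul_le_mul_of_nonneg_left _ hh.le
          nlinarith
        linarith)
    have up := side (U := U) (x0 := x0) (s := l) (β := fun z => -β z) (f := fun x => -f x) hh
      hβ.neg (fun z hz => by simpa using hb z hz) hlim' hlp (by linarith) (by linarith)
      (by linarith) (by
        rw [intervalIntegral.integral_neg, hfint]
        have e : h * (2 * (2 * l - 1 / 4 * l) - 2 * l) ≥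
            h * (2 * (∫ x in (x0 - l)..(x0 + l), ind x) - (x0 + l - (x0 - l))) := by
          apply mul_le_mul_of_nonneg_left _ hh.le
          nlinarith
        linarith)
    have lo2 := vert_harnack (U := U) (x0 := x0) hβ hb hlp hn1 hn2 (by linarith) (by linarith)
      (by linarith)
    have up2 := vert_harnack (U := U) (x0 := x0) (β := fun z => -β z) hβ.neg
      (fun z hz => by simpa using hb z hz) hlp hn1 hn2 (by linarith) (by linarith)
      (by linarith)
    simp only [neg_im] at up up2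
    rw [abs_le]
    have e76 : h / 2 ^ 76 = 1 / 32 * (h / 2 ^ 71) := by ring
    constructor <;> linarith
  · intro g hg hgh s hs hs0
    simp only [le_min_iff] at hs0
    obtain ⟨q1, q2, q3, q4⟩ := hs0
    rw [le_div_iff₀ (by norm_num)] at q2 q3 q4
    obtain ⟨n, hn1, hn2⟩ := _root_.R102.Kol528.exists_scale hL hs q1
    set l : ℝ := L / 2 ^ n with hl
    have hlp : 0 < l := by positivity
    refine ⟨P n, l, by linarith, hn1, (hx0 n).1, (hx0 n).2, ?_⟩
    have hPa' : (∫ x in (P n)..(P n + l), ind x) = κ * l := by rw [← hFd, hl]; exact hPa n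
    have hε0 : 0 < g / (256 * h) := by positivity
    have hε1 : g / (256 * h) ≤ 1 := by rw [div_le_one (by positivity)]; linarith
    have hD : 0 < (g / (256 * h)) ^ 2 * l := by positivity
    have hDl : (g / (256 * h)) ^ 2 * l ≤ l := by
      have : (g / (256 * h)) ^ 2 ≤ 1 := pow_le_one₀ hε0.le hε1
      nlinarith
    have hxP := hx0 n
    rw [← hl] at hxP
    have htop := top_avg (U := U) hh hβ hb hlim (x1 := P n) (x2 := P n + l)
      (D := (g / (256 * h)) ^ 2 * l) (L := l) hD hDl rfl (by linarith) (by linarith)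
      (by linarith)
    have hsq : √(l * ((g / (256 * h)) ^ 2 * l)) = g / (256 * h) * l := by
      have : l * ((g / (256 * h)) ^ 2 * l) = (g / (256 * h) * l) ^ 2 := by ring
      rw [this, Real.sqrt_sq (by positivity)]
    rw [hsq, hfint, hPa'] at htop
    have e1 : 128 * h * (g / (256 * h) * l) = g / 2 * l := by field_simp; ring
    have e2 : h * (2 * (κ * l) - (P n + l - P n)) = v0 * l := by rw [← hκv]; ring
    rw [e1, e2] at htop
    refine htop.trans ?_
    nlinarith [mul_pos hg hlp]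

/-- **no window is frozen at another height** -/
theorem nf_of_avg {β : ℂ → ℂ} {a b U h r1 v0 : ℝ} {x0 s0 : ℝ}
    (hβ : DifferentiableOn ℂ β (Dm a b U r1)) (hs0b : x0 + s0 < b) (hs0a : a < x0 - s0)
    (hs0r : 2 * s0 ≤ r1) (hh : 0 < h)
    (hav : ∀ g, 0 < g → g ≤ h → ∀ s, 0 < s → s ≤ s0 → ∃ p l, s / 2 ≤ l ∧ l ≤ s ∧ p ≤ x0 ∧
      x0 ≤ p + l ∧
        |(∫ x in p..(p + l), (β ((x : ℂ) + ((U - (g / (256 * h)) ^ 2 * l : ℝ) : ℂ) * I)).im) -
          v0 * l| ≤ g * l)
    {g v1 : ℝ} (hg : 0 < g) (hgh : g ≤ h) (hv : 2 * g < |v1 - v0|) {s : ℝ} (hs : 0 < s)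
    (hs0 : s ≤ s0) :
    ∃ x ∈ Icc (x0 - s) (x0 + s), ∃ l ∈ Icc (s / 2) s,
      g ≤ |(β ((x : ℂ) + ((U - (g / (256 * h)) ^ 2 * l : ℝ) : ℂ) * I)).im - v1| := by
  obtain ⟨p, l, hl1, hl2, hp1, hp2, hint⟩ := hav g hg hgh s hs hs0
  by_contra hcon
  push Not at hcon
  have hlp : 0 < l := by linarith
  have hε0 : 0 < g / (256 * h) := by positivity
  have hε1 : g / (256 * h) ≤ 1 := by rw [div_le_one (by positivity)]; linarith
  have hD : 0 < (g / (256 * h)) ^ 2 * l := by positivity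
  have hDl : (g / (256 * h)) ^ 2 * l ≤ l := by
    have : (g / (256 * h)) ^ 2 ≤ 1 := pow_le_one₀ hε0.le hε1
    nlinarith
  have hc : ContinuousOn (fun x : ℝ => (β ((x : ℂ) + ((U - (g / (256 * h)) ^ 2 * l : ℝ) : ℂ) *
      I)).im) (uIcc p (p + l)) :=
    Complex.continuous_im.comp_continuousOn (cont_row (U := U) hβ (x1 := p) (x2 := p + l)
      (y := (g / (256 * h)) ^ 2 * l) hD (by linarith) (by linarith) (by linarith) (by linarith))
  have hbd : |∫ x in p..(p + l), ((β ((x : ℂ) + ((U - (g / (256 * h)) ^ 2 * l : ℝ) : ℂ) *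
      I)).im - v1)| ≤ g * |p + l - p| := by
    rw [← Real.norm_eq_abs]
    refine intervalIntegral.norm_integral_le_of_norm_le_const fun x hx => ?_
    rw [uIoc_of_le (by linarith)] at hx
    rw [Real.norm_eq_abs]
    exact (hcon x ⟨by linarith [hx.1], by linarith [hx.2]⟩ l ⟨hl1, hl2⟩).le
  rw [intervalIntegral.integral_sub hc.intervalIntegrable intervalIntegrable_const,
    intervalIntegral.integral_const, show p + l - p = l by ring, abs_of_pos hlp] at hbd
  simp only [smul_eq_mul] at hbd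
  have h3 : |v1 - v0| * l ≤ 2 * g * l := by
    rw [← abs_of_pos hlp, ← abs_mul, abs_of_pos hlp]
    set J := ∫ x in p..(p + l), (β ((x : ℂ) + ((U - (g / (256 * h)) ^ 2 * l : ℝ) : ℂ) * I)).im
    have : (v1 - v0) * l = (J - v0 * l) - (J - l * v1) := by ring
    rw [this]
    refine (abs_sub _ _).trans ?_
    linarith
  have h4 := le_of_mul_le_mul_right h3 hlp
  linarith

/-- **KOLX** (vertical-limit form, exact density `v0`). -/
theorem kolx {β : ℂ → ℂ} {a b U h r1 v0 : ℝ} (hh : 0 < h) (hr1 : 0 < r1) (hv0 : |v0| ≤ h / 2)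
    (hβ : DifferentiableOn ℂ β (Dm a b U r1)) (hb : ∀ z ∈ Dm a b U r1, |(β z).im| < h)
    (hlim : ∀ᵐ x : ℝ, x ∈ Ioo a b →
      Tendsto (fun y : ℝ => (β ((x : ℂ) + ((U - y : ℝ) : ℂ) * I)).im) (𝓝[>] 0) (𝓝 h) ∨
      Tendsto (fun y : ℝ => (β ((x : ℂ) + ((U - y : ℝ) : ℂ) * I)).im) (𝓝[>] 0) (𝓝 (-h)))
    (hm1 : ¬ ∀ᵐ x : ℝ, x ∈ Ioo a b →
      Tendsto (fun y : ℝ => (β ((x : ℂ) + ((U - y : ℝ) : ℂ) * I)).im) (𝓝[>] 0) (𝓝 h))
    (hm2 : ¬ ∀ᵐ x : ℝ, x ∈ Ioo a b →
      Tendsto (fun y : ℝ => (β ((x : ℂ) + ((U - y : ℝ) : ℂ) * I)).im) (𝓝[>] 0) (𝓝 (-h))) :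
    ∃ x0 ∈ Ioo a b, ∃ s0 > 0, x0 + s0 < b ∧ a < x0 - s0 ∧ 2 * s0 ≤ r1 ∧
      (∀ s, 0 < s → s ≤ s0 →
        |(β ((x0 : ℂ) + ((U - s : ℝ) : ℂ) * I)).im| ≤ h - h / 2 ^ 76) ∧
      (∀ g, 0 < g → g ≤ h → ∀ s, 0 < s → s ≤ s0 → ∃ p l, s / 2 ≤ l ∧ l ≤ s ∧ p ≤ x0 ∧ x0 ≤ p + l ∧
        |(∫ x in p..(p + l), (β ((x : ℂ) + ((U - (g / (256 * h)) ^ 2 * l : ℝ) : ℂ) * I)).im) -
          v0 * l| ≤ g * l) ∧
      (∀ g, 0 < g → g ≤ h → ∀ v1, 2 * g < |v1 - v0| → ∀ s, 0 < s → s ≤ s0 →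
        ∃ x ∈ Icc (x0 - s) (x0 + s), ∃ l ∈ Icc (s / 2) s,
          g ≤ |(β ((x : ℂ) + ((U - (g / (256 * h)) ^ 2 * l : ℝ) : ℂ) * I)).im - v1|) := by
  classical
  -- the measurable set
  set F : ℕ → ℝ → ℝ := fun n => (Ioo a b).indicator
    (fun x => (β ((x : ℂ) + ((U - r1 / (n + 2) : ℝ) : ℂ) * I)).im) with hF
  have hpos : ∀ n : ℕ, 0 < r1 / ((n : ℝ) + 2) := fun n => by positivity
  have hFm : ∀ n, Measurable (F n) := by
    intro n
    rw [hF]
    have hc : ContinuousOn (fun x : ℝ => (β ((x : ℂ) + ((U - r1 / (n + 2) : ℝ) : ℂ) * I)).im)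
        (Ioo a b) := by
      refine Complex.continuous_im.comp_continuousOn
        (hβ.continuousOn.comp (by fun_prop) ?_)
      intro x hx
      refine mem_Dm hx (hpos n) ?_
      apply div_lt_self hr1
      have : (0:ℝ) ≤ n := Nat.cast_nonneg n
      linarith
    have hm := hc.measurable_piecewise (g := (0 : ℝ → ℝ)) continuousOn_const measurableSet_Ioo
    rw [piecewise_eq_indicator] at hm
    exact hm
  set E : Set ℝ := {x | Tendsto (fun n => F n x) atTop (𝓝 h)} with hE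
  have hEm : MeasurableSet E := measurableSet_tendsto _ hFm
  have hseq : Tendsto (fun n : ℕ => r1 / ((n : ℝ) + 2)) atTop (𝓝[>] 0) := by
    rw [tendsto_nhdsWithin_iff]
    constructor
    · have h5 : Tendsto (fun n : ℕ => (n : ℝ) + 2) atTop atTop :=
        tendsto_atTop_add_const_right _ _ tendsto_natCast_atTop_atTop
      exact h5.const_div_atTop r1
    · exact Eventually.of_forall fun n => hpos n
  have hFl : ∀ x ∈ Ioo a b, ∀ l : ℝ,
      Tendsto (fun y : ℝ => (β ((x : ℂ) + ((U - y : ℝ) : ℂ) * I)).im) (𝓝[>] 0) (𝓝 l) →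
      Tendsto (fun n => F n x) atTop (𝓝 l) := by
    intro x hx l hl
    have := hl.comp hseq
    refine this.congr fun n => ?_
    simp [hF, hx]
  have hf : ∀ᵐ x : ℝ, x ∈ Ioo a b →
      (x ∈ E → Tendsto (fun y : ℝ => (β ((x : ℂ) + ((U - y : ℝ) : ℂ) * I)).im) (𝓝[>] 0) (𝓝 h)) ∧
      (x ∉ E → Tendsto (fun y : ℝ => (β ((x : ℂ) + ((U - y : ℝ) : ℂ) * I)).im) (𝓝[>] 0)
        (𝓝 (-h))) := by
    filter_upwards [hlim] with x hx hxI
    rcases hx hxI with h6 | h6
    · exact ⟨fun _ => h6, fun hn => absurd (hFl x hxI h h6) hn⟩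
    · refine ⟨fun hy => ?_, fun _ => h6⟩
      have h7 := hFl x hxI _ h6
      have h8 : h = -h := tendsto_nhds_unique hy h7
      exfalso; linarith
  obtain ⟨x0, hx0, s0, hs0, k1, k2, k3, k4, k5⟩ := kolx_set (v0 := v0) hh hr1 hv0 hβ hb hEm hf
    (by
      intro h0
      apply hm2
      have : ∀ᵐ x : ℝ, x ∉ E ∩ Ioo a b := by
        rw [ae_iff]; simpa only [not_not, ofPred_mem_eq] using h0
      filter_upwards [this, hf] with x hx hx2 hxI
      exact (hx2 hxI).2 fun hxE => hx ⟨hxE, hxI⟩)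
    (by
      intro h0
      apply hm1
      have : ∀ᵐ x : ℝ, x ∉ Ioo a b \ E := by
        rw [ae_iff]; simpa only [not_not, ofPred_mem_eq] using h0
      filter_upwards [this, hf] with x hx hx2 hxI
      exact (hx2 hxI).1 (by_contra fun hxE => hx ⟨hxI, hxE⟩))
  refine ⟨x0, hx0, s0, hs0, k1, k2, k3, k4, k5, ?_⟩
  intro g hg hgh v1 hv s hs hs0'
  exact nf_of_avg hβ k1 k2 k3 hh k5 hg hgh hv hs hs0'

end Crest.Agent.R102.KolX408
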