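import Crest.Agent.R102.BirthsOf_150

/-!
Row 102, T1-B (helper150): leaf 5 of `SupDefs_115`: the output of `partII` gives `GoodU`.
-/

set_option autoImplicit false

open Set Filter Topology Metric Complex MeasureTheory
open scoped Real

noncomputable section

namespace Crest.Agent.R102.PartII150

open Crest.Agent.R102.K669 Crest.Agent.R102.Heights150
open Crest.Agent.R102.S5 (Half bl Gam Low)
open Crest.Agent.R102.Sup115
open Crest.Agent.R102.Slope845 (Expn)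

/-- domain of the vertex in exact coordinates (above `-d`) -/
def Xe (u0 R d : ℝ) (G : ℂ → ℂ) (X : Set (ℂ × ℂ)) : Set (ℂ × ℂ) :=
  {q | (-d < q.1.im ∧ q.2 ∈ HDu u0 R) ∧ ex G q ∈ X}

/-- domain of the incoming line in exact coordinates (above `-d`) -/
def Le (u0 R d : ℝ) (G : ℂ → ℂ) (L : Set (ℂ × ℂ)) : Set (ℂ × ℂ) :=
  {q | (-d < q.1.im ∧ q.2 ∈ HDu u0 R) ∧ ln G q ∈ L}

theorem mem_HDu {u0 R u : ℝ} {z : ℂ} (h0 : 0 < z.im) (h1 : ‖z‖ < R - |u - u0|) :
    (u : ℂ) + z ∈ HDu u0 R := by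
  refine ⟨?_, by show 0 < ((u : ℂ) + z).im; simpa using h0⟩
  rw [mem_ball, dist_eq_norm]
  have h2 : (u : ℂ) + z - u0 = ((u - u0 : ℝ) : ℂ) + z := by push_cast; ring
  rw [h2]
  refine (norm_add_le _ _).trans_lt ?_
  rw [Complex.norm_real, Real.norm_eq_abs]
  linarith

theorem goodU {L X : Set (ℂ × ℂ)} {G : ℂ → ℂ} {u u0 R d R' s₀ a₀ c : ℝ} (hR' : 0 < R') (hd : 0 < d)
    (hu : u ∈ Ioo (u0 - R) (u0 + R))
    (hLL : LV 0 (HD R') (half u R' (sft u G) L))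
    (hXX : LV 0 (HD R') (half u R' (sft u G) X)) (O : Out L X u G R' s₀ a₀ c) :
    GoodU (Xe u0 R d G X) (Le u0 R d G L) u s₀ a₀ c := by
  refine ⟨O.a₀_nonneg, O.c_pos, ?_⟩
  intro ρ hρ
  have ha := O.a₀_nonneg
  set R₁ : ℝ := R - |u - u0| with hR₁
  have hR₁0 : 0 < R₁ := by
    have : |u - u0| < R := by rw [abs_lt]; constructor <;> linarith [hu.1, hu.2]
    linarith
  obtain ⟨δ₀, hδ₀, η₁, hη₁, H⟩ := at_of_out hR' hLL hXX O (ε := ρ / 4) (by positivity)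
  have hAt := H a₀ c s₀ δ₀ η₁ (by simp; positivity) le_rfl (by simp) le_rfl
  have hk : (0 : ℝ) < a₀ + 1 := by linarith
  set δ : ℝ := min (min (δ₀ / (4 * (a₀ + 1))) η₁) (min R₁ d) with hδ
  have hδ0 : 0 < δ := lt_min (lt_min (by positivity) hη₁) (lt_min hR₁0 hd)
  have hδ1 : (a₀ + 1) * δ ≤ δ₀ / 4 := by
    have h1 : δ ≤ δ₀ / (4 * (a₀ + 1)) := (min_le_left _ _).trans (min_le_left _ _)
    calc (a₀ + 1) * δ ≤ (a₀ + 1) * (δ₀ / (4 * (a₀ + 1))) := mul_le_mul_of_nonneg_left h1 hk.le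
      _ = δ₀ / 4 := by field_simp
  have hδη : δ ≤ η₁ := (min_le_left _ _).trans (min_le_right _ _)
  have hδR : δ ≤ R₁ := (min_le_right _ _).trans (min_le_left _ _)
  have hδd : δ ≤ d := (min_le_right _ _).trans (min_le_right _ _)
  have hδδ : δ ≤ δ₀ / 4 := by nlinarith
  refine ⟨δ, hδ0, fun s hs => ⟨?_, ?_, ?_⟩⟩
  · rintro q ⟨h1, h2, h3, h4, h5⟩
    simp only at h1 h3
    have hz : q.2 - u ∈ HD η₁ := ⟨by simpa using h4, h3.trans_le hδη⟩
    refine ⟨⟨by linarith, ?_⟩, hAt.low q ?_ hz (by linarith)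
      (h5.trans_le (mul_le_mul_of_nonneg_right (by linarith) h4.le))⟩
    · have := mem_HDu (u0 := u0) (R := R) (u := u) (z := q.2 - u) (by simpa using h4)
        (h3.trans_le hδR)
      rwa [add_sub_cancel] at this
    · calc |q.1.re - s₀| = |(q.1.re - s) + (s - s₀)| := by ring_nf
        _ ≤ |q.1.re - s| + |s - s₀| := abs_add_le _ _
        _ < δ₀ := by linarith
  · rintro q ⟨h1, h2, h3, h4, h5⟩
    simp only at h1 h3
    have hz : q.2 - u ∈ HD η₁ := ⟨by simpa using h4, h3.trans_le hδη⟩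
    refine ⟨⟨by linarith, ?_⟩, hAt.line q ?_ hz (by linarith) h5⟩
    · have := mem_HDu (u0 := u0) (R := R) (u := u) (z := q.2 - u) (by simpa using h4)
        (h3.trans_le hδR)
      rwa [add_sub_cancel] at this
    · calc |q.1.re - s₀| = |(q.1.re - s) + (s - s₀)| := by ring_nf
        _ ≤ |q.1.re - s| + |s - s₀| := abs_add_le _ _
        _ < δ₀ := by linarith
  · intro x hx z hz h0 hc
    simp only at hx ⊢
    have hzp : 0 < ‖z‖ := h0.trans_le ((le_abs_self _).trans (Complex.abs_im_le_norm z))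
    have hare : |a₀ * z.re| ≤ a₀ * δ := by
      rw [abs_mul, abs_of_nonneg ha]
      exact mul_le_mul_of_nonneg_left ((Complex.abs_re_le_norm z).trans hz.le) ha
    obtain ⟨q, h1, h2, h3, h4, h5⟩ := hAt.births (x + a₀ * z.re) (by
      calc |x + a₀ * z.re - s₀| = |(x - s) + (s - s₀) + a₀ * z.re| := by ring_nf
        _ ≤ |(x - s) + (s - s₀)| + |a₀ * z.re| := abs_add_le _ _
        _ ≤ |x - s| + |s - s₀| + |a₀ * z.re| := by linarith [abs_add_le (x - s) (s - s₀)]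
        _ < δ₀ := by linarith) z ⟨h0, hz.trans_le hδη⟩ (by nlinarith)
    have hρz : 0 ≤ ρ * ‖z‖ := by positivity
    have hq2 : 0 < q.2.im := by
      have h6 : |(q.2 - ((u : ℂ) + z)).im| ≤ ρ / 4 * ‖z‖ := (Complex.abs_im_le_norm _).trans h2
      have h7 : (q.2 - ((u : ℂ) + z)).im = q.2.im - z.im := by simp
      rw [h7] at h6
      have := (abs_le.1 h6).1
      linarith
    refine ⟨q, fun hq => h5 hq.2, by linarith, by linarith, le_trans ?_ h3, h4.trans ?_⟩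
    · exact mul_le_mul_of_nonneg_right (by linarith) hq2.le
    · exact mul_le_mul_of_nonneg_right (by linarith) hq2.le

/-- **PART II, output `GoodU`** -/
theorem partII_goodU {b : ℝ} {W : Set ℂ} {L X : Set (ℂ × ℂ)} (P : Pair b W L X) {V : ℂ → ℝ}
    (hVL : ∀ w ∈ W, ∀ t : ℂ, t.im < V w → (t, w) ∈ L)
    (hVX : ∀ w ∈ W, ∀ t : ℂ, t.im < V w → (t, w) ∈ X)
    {u u0 R d α β : ℝ} (hd : 0 < d) {G : ℂ → ℂ} (hball : ball (u0 : ℂ) R ⊆ W) (hu : u ∈ Ioo (u0 - R) (u0 + R))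
    (hN : ∀ x : ℝ, ((x : ℂ) + (V u) * I, (u : ℂ)) ∉ L)
    (hG : DifferentiableOn ℂ G (HDu u0 R)) (hGV : ∀ w ∈ HDu u0 R, (G w).im ≤ V w)
    (hE : Expn G V u α β) :
    ∃ s₀ a₀ c : ℝ, GoodU (Xe u0 R d G X) (Le u0 R d G L) u s₀ a₀ c := by
  set R₁ : ℝ := R - |u - u0| with hR₁
  have hR₁0 : 0 < R₁ := by
    have : |u - u0| < R := by rw [abs_lt]; constructor <;> linarith [hu.1, hu.2]
    linarith
  have huW : (u : ℂ) ∈ W := by
    apply hball
    rw [mem_ball, dist_eq_norm, ← Complex.ofReal_sub, Complex.norm_real, Real.norm_eq_abs]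
    linarith
  have hsubH : ∀ w : ℂ, w - u ∈ HD R₁ → w ∈ HDu u0 R := by
    intro w hw
    have := mem_HDu (u0 := u0) (R := R) (u := u) (z := w - u) hw.1 hw.2
    rwa [add_sub_cancel] at this
  obtain ⟨R', hR'0, -, -, hLL, hXX, s₀, a₀, c, O⟩ := partII P hVL hVX huW
    (R := R₁) (G := G) (fun z hz => hball (mem_HDu (u0 := u0) (R := R) (u := u) hz.1 hz.2).1) hN
    hR₁0 (hG.mono (fun w hw => hsubH w hw)) (fun w hw => hGV w (hsubH w hw)) hE
  exact ⟨s₀, a₀, c, goodU hR'0 hd hu hLL hXX O⟩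

end Crest.Agent.R102.PartII150
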