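import Crest.Agent.R102.SupDatA_150
import Crest.Agent.R102.GoodU_150

/-!
Row 102, T1-B (helper150): the joint `Sup115.Dat` on the official sheets (982 / 559) in the exact
coordinates, and `Pair` for PART II.
-/

set_option autoImplicit false

open Set Filter Topology Metric Complex MeasureTheory
open scoped Real

noncomputable section

namespace Crest.Agent.R102.PartII150

open Crest.Agent.R102.K669
open Crest.Agent.R102.C0 (LineFam OnLine)
open Crest.Agent.R102.Out559 (OmL OmX)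
open Crest.Agent.R102.F300 (Sreg ZZ ZZc)
open Crest.Agent.R102.Rule982 (Sg)
open Crest.Agent.R102.Sup115 (HDu Dp)
open Crest.Agent.R102.Sh982 (Dat SL SB φe pe be sh)
open Crest.Agent.R102.Step7559 (dn)

variable {q : C(ℂ, ℂ)} {η ρ r Bc : ℝ} {b φ p : ℂ × ℂ → ℂ} {m₀ : ℂ → ℂ} {h : ℝ} {ψ H : ℂ → ℂ}

/-- **the official sheets form a `Pair`** -/
theorem pair_of_dat (D : Dat q η ρ r Bc b φ p m₀ h ψ H) (hNB : Rule982.NB h ψ H) :
    Pair (ρ / 2) (ball 0 r) (OmL φ p (-(ρ / 2)) (ρ / 2) r)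
      (OmX b (T5.Str h) (-(ρ / 2)) (ρ / 2) r) := by
  have e1 : ∀ t w : ℂ, sh 1 (t, w) = (t + w / 2, w) := by
    intro t w; simp only [sh]; rw [one_mul]
  have e2 : ∀ t w : ℂ, sh (-1) (t, w) = (t - w / 2, w) := by
    intro t w; simp only [sh]; rw [neg_one_mul, ← sub_eq_add_neg]
  refine ⟨D.lvL', D.lvX', ?_, ?_, ?_⟩
  · intro t w _ h1 h2
    exact D.ruleX hNB (x := (t, w)) (by rw [e1]; exact h2) (by rw [e2]; exact h1)
  · intro t w _ h1 h2
    have := D.ruleL (s := -1) (Or.inr rfl) (x := (t, w)) h1 (by rw [neg_neg, e1]; exact h2)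
    rwa [e2] at this
  · intro t w _ h1 h2
    have := D.ruleL (s := 1) (Or.inl rfl) (x := (t, w)) h2 (by rw [e2]; exact h1)
    rwa [e1] at this

/-- angle, support number of the incoming line and label of the vertex in exact coordinates -/
def φx (φ p : ℂ × ℂ → ℂ) (ρ r : ℝ) (G : ℂ → ℂ) (x : ℂ × ℂ) : ℂ := φe φ p ρ r (ln G x)
def px (φ p : ℂ × ℂ → ℂ) (ρ r : ℝ) (G : ℂ → ℂ) (x : ℂ × ℂ) : ℂ := pe φ p ρ r (ln G x)
def Bx (b : ℂ × ℂ → ℂ) (h ρ r : ℝ) (G : ℂ → ℂ) (x : ℂ × ℂ) : ℂ := be b h ρ r (ex G x)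

/-- **DAT JOINT** -/
theorem supDat (D : Dat q η ρ r Bc b φ p m₀ h ψ H) {G : ℂ → ℂ} {u0 R d : ℝ} (hR : 0 < R)
    (hd : 0 < d) (hdρ : d ≤ ρ / 4) (hball : ball (u0 : ℂ) R ⊆ ball 0 r)
    (hG : DifferentiableOn ℂ G (HDu u0 R)) (hG0 : ∀ w ∈ HDu u0 R, 0 ≤ (G w).im)
    (hGL : ∀ w ∈ HDu u0 R, ∀ t : ℂ, t.im < (G w).im →
      (t, w) ∈ OmL φ p (-(ρ / 2)) (ρ / 2) r)
    (hGX : ∀ w ∈ HDu u0 R, ∀ t : ℂ, t.im < (G w).im →
      (t, w) ∈ OmX b (T5.Str h) (-(ρ / 2)) (ρ / 2) r) :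
    Sup115.Dat u0 R d h (Sreg (Sg h) ψ) (ZZ ψ H) (ZZc ψ H) ψ (fun z => 1 / deriv ψ z ^ 2)
      (φx φ p ρ r G) (px φ p ρ r G) (Bx b h ρ r G)
      (Xe u0 R d G (OmX b (T5.Str h) (-(ρ / 2)) (ρ / 2) r))
      (Le u0 R d G (OmL φ p (-(ρ / 2)) (ρ / 2) r)) := by
  have hρ := D.ρ_pos
  have hHo : IsOpen (HDu u0 R) :=
    isOpen_ball.inter (isOpen_lt continuous_const Complex.continuous_im)
  have hGa : ∀ w ∈ HDu u0 R, AnalyticAt ℂ G w := fun w hw => hG.analyticAt (hHo.mem_nhds hw)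
  set X := OmX b (T5.Str h) (-(ρ / 2)) (ρ / 2) r with hX
  set L := OmL φ p (-(ρ / 2)) (ρ / 2) r with hL
  have hBase : IsOpen {x : ℂ × ℂ | -d < x.1.im ∧ x.2 ∈ HDu u0 R} :=
    (isOpen_lt continuous_const (Complex.continuous_im.comp continuous_fst)).inter
      (hHo.preimage continuous_snd)
  have hXo : IsOpen (Xe u0 R d G X) := by
    have h1 : Xe u0 R d G X = {x : ℂ × ℂ | -d < x.1.im ∧ x.2 ∈ HDu u0 R} ∩ ex G ⁻¹' X := rfl
    rw [h1]
    refine ContinuousOn.isOpen_inter_preimage ?_ hBase Out559.isOpen_OmX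
    intro x hx
    exact (analyticAt_ex (hGa _ hx.2)).continuousAt.continuousWithinAt
  have hLo : IsOpen (Le u0 R d G L) := by
    have h1 : Le u0 R d G L = {x : ℂ × ℂ | -d < x.1.im ∧ x.2 ∈ HDu u0 R} ∩ ln G ⁻¹' L := rfl
    rw [h1]
    refine ContinuousOn.isOpen_inter_preimage ?_ hBase Out559.isOpen_OmL
    intro x hx
    exact (analyticAt_ln (hGa _ hx.2)).continuousAt.continuousWithinAt
  have hSB : ∀ x ∈ Xe u0 R d G X, ex G x ∈ SB b h ρ r := fun x hx =>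
    ex_mem_SB D hG0 hdρ hx.1.1 hx.1.2 hx.2
  have hSL : ∀ x ∈ Le u0 R d G L, ln G x ∈ SL φ p ρ r := fun x hx =>
    ln_mem_SL D hball hG0 hdρ hx.1.1 hx.1.2 hx.2
  have hDX : Dp u0 R d ⊆ Xe u0 R d G X := by
    rintro x ⟨h1, h2, h3⟩
    refine ⟨⟨h1, h3⟩, hGX _ h3 _ ?_⟩
    rw [Complex.add_im]; linarith
  have hDL : Dp u0 R d ⊆ Le u0 R d G L := by
    rintro x ⟨h1, h2, h3⟩
    refine ⟨⟨h1, h3⟩, hGL _ h3 _ ?_⟩
    have h4 : 0 < x.2.im := h3.2
    have h5 : (x.1 + G x.2 - x.2 / 2).im = x.1.im + (G x.2).im - x.2.im / 2 := by simp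
    rw [h5]; linarith
  have hBim : ∀ x ∈ Xe u0 R d G X, |(Bx b h ρ r G x).im| < h := fun x hx => D.be_mem (hSB x hx)
  have hinc : ∀ x ∈ Xe u0 R d G X ∩ Le u0 R d G L, F300.Inc ψ H (φx φ p ρ r G x)
      (px φ p ρ r G x) (Bx b h ρ r G x) := by
    intro x hx
    have h1 := D.inc_all (s := -1) (Or.inr rfl) (hSB x hx.1) (by
      rw [← ln_eq]; exact hSL x hx.2)
    rw [← ln_eq] at h1
    exact h1
  refine
    { R_pos := hR
      d_pos := hd
      S_open := F300.isOpen_Sreg (Rule982.isOpen_Sg h) D.ψ_diff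
      S_sub := fun z hz => hz.1
      S_count := countable_zeros (Rule982.isOpen_Sg h) (by norm_num) D.ψ_diff D.rel
      Z_deriv := ?_
      Zc_deriv := ?_
      T_diff := D.ψ_diff.mono (fun z hz => hz.1)
      c_cont := ?_
      c_ne := fun z hz => div_ne_zero one_ne_zero (pow_ne_zero 2 hz.2)
      X_open := hXo
      L_open := hLo
      X_sub := fun x hx => hx.1
      L_sub := fun x hx => hx.1.2
      X_star := ?_
      Dp_X := hDX
      Dp_L := hDL
      φ_diff := ?_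
      p_diff := ?_
      B_diff := ?_
      B_im := hBim
      B_nc := ?_
      inc := ?_
      omit1 := ?_
      maxi := ?_ }
  · intro z hz
    have h1 := (F300.hasDerivAt_ZZ (Rule982.isOpen_Sg h) D.ψ_diff D.H_diff D.rel hz.1 hz.2).1
    rwa [neg_neg] at h1
  · intro z hz
    have h1 := (F300.hasDerivAt_ZZ (Rule982.isOpen_Sg h) D.ψ_diff D.H_diff D.rel hz.1 hz.2).2
    rwa [neg_neg] at h1
  · intro z hz
    have h1 : ContinuousAt (deriv ψ) z :=
      (D.ψ_diff.analyticAt ((Rule982.isOpen_Sg h).mem_nhds hz.1)).deriv.continuousAt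
    exact (continuousAt_const.div (h1.pow 2) (pow_ne_zero 2 hz.2)).continuousWithinAt
  · intro x hx y hy hlt
    refine ⟨⟨?_, hx.1.2⟩, ?_⟩
    · simpa using hlt
    · have h1 := D.lvX'.star _ hx.2 y hy
      have h2 : ex G (x.1 - y * I, x.2) = ((ex G x).1 - y * I, (ex G x).2) := by
        unfold ex; ext1
        · simp only; ring
        · rfl
      rw [h2]; exact h1
  · intro x hx
    have h1 : AnalyticAt ℂ (φx φ p ρ r G) x :=
      AnalyticAt.comp (g := φe φ p ρ r) (D.φe_an _ (hSL x hx)) (analyticAt_ln (hGa _ hx.1.2))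
    exact h1.differentiableAt.differentiableWithinAt
  · intro x hx
    have h1 : AnalyticAt ℂ (px φ p ρ r G) x :=
      AnalyticAt.comp (g := pe φ p ρ r) (D.pe_an _ (hSL x hx)) (analyticAt_ln (hGa _ hx.1.2))
    exact h1.differentiableAt.differentiableWithinAt
  · intro x hx
    have h1 : AnalyticAt ℂ (Bx b h ρ r G) x :=
      AnalyticAt.comp (g := be b h ρ r) (D.be_an _ (hSB x hx)) (analyticAt_ex (hGa _ hx.1.2))
    exact h1.differentiableAt.differentiableWithinAt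
  · -- periodicity
    have hw : (u0 : ℂ) + ((R / 2 : ℝ) : ℂ) * I ∈ HDu u0 R := by
      refine ⟨?_, ?_⟩
      · rw [mem_ball, dist_eq_norm, add_sub_cancel_left, norm_mul, Complex.norm_I, mul_one,
          Complex.norm_real, Real.norm_eq_abs, abs_of_pos (by positivity)]
        linarith
      · show 0 < ((u0 : ℂ) + ((R / 2 : ℝ) : ℂ) * I).im
        simp; positivity
    set w : ℂ := (u0 : ℂ) + ((R / 2 : ℝ) : ℂ) * I with hwd
    set x : ℂ × ℂ := (-((d / 2 : ℝ) : ℂ) * I, w) with hx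
    have hxi : x.1.im = -(d / 2) := by rw [hx]; simp
    have hxD : x ∈ Dp u0 R d := ⟨by rw [hxi]; linarith, by rw [hxi]; linarith, hw⟩
    refine ⟨x, hxD, (x.1 + 1, x.2), ⟨by simpa using hxD.1, by simpa using hxD.2.1, hw⟩, ?_⟩
    have h1 := (D.per_SB (σ := 1) (Or.inl rfl) (κ := 1) (Or.inl rfl) (hSB x (hDX hxD))).2
    have h2 : ex G (x.1 + 1, x.2) = ((ex G x).1 + ((1 : ℝ) : ℂ), 1 * (ex G x).2) := by
      unfold ex; ext1
      · simp only; push_cast; ring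
      · simp
    unfold Bx
    rw [h2, h1]
    intro hcon
    have h3 : ((1 : ℝ) : ℂ) = 0 := by linear_combination -hcon
    norm_num at h3
  · intro x hx hxS
    exact inc613 hxS.2 (hinc x hx)
  · intro x hx hxS
    refine exp_ne_one ?_
    have h1 := D.sin_ne (s := -1) (Or.inr rfl) (hSB x (hDX hx)) (by
      rw [← ln_eq]; exact hSL x (hDL hx)) (by
        intro h0
        have h2 : 0 < x.2.im := hx.2.2.2
        have h3 : (ex G x).2 = x.2 := rfl
        rw [h3] at h0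
        rw [h0] at h2
        simp at h2) hxS.2
    rw [← ln_eq] at h1
    exact h1
  · intro x g hg hgh hlow
    have hx1 : x.2 ∈ HDu u0 R ∧ -d < x.1.im := by
      obtain ⟨τ, hτ, hτ0⟩ := (hlow.and self_mem_nhdsWithin).exists
      have h1 : (0 : ℝ) < τ := hτ0
      have h2 := hτ.1.1.1
      have h3 : (x.1 - τ * I).im = x.1.im - τ := by simp
      simp only [h3] at h2
      exact ⟨hτ.1.1.2, by linarith⟩
    refine ⟨⟨hx1.2, hx1.1⟩, ?_⟩
    refine maxi_ex D hball hG hG0 hdρ x hx1.2 hx1.1 g hg hgh ?_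
    filter_upwards [hlow] with τ hτ
    exact ⟨hτ.1.2, hτ.2⟩

end Crest.Agent.R102.PartII150
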