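import Crest.Agent.R102.ExitB_812
import Crest.Agent.R102.SupDat_150
import Crest.Agent.R102.KolX_408
import Crest.Agent.R102.GrowthDefs_314

/-!
Row 102, T1-B, EDGE (helper408): the link between the REAL SLICE and the windows of `Dp`.

* `slice_win` : a point of the real slice at depth `y ∈ [ε η, η]` over `|x - x0| ≤ η` is `g`-close
  (values of the label) to a point of the fixed window compact at scale `η`;
* `nf_obj`    : non-frozen windows (exact density) on the objects;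
* `heights`   : a height `v0` far from the heights of all zeros of `ψ'`.
-/

set_option autoImplicit false

open Set Filter Topology Metric Complex MeasureTheory
open scoped Real ComplexConjugate

noncomputable section

namespace Crest.Agent.R102.SliceWin408

open Crest.Agent.R102.Sh982
open Crest.Agent.R102.Exit812
open Crest.Agent.R102.GlueII559 (OL OX VV VV_of_Nn mem_of_lt_VV)
open Crest.Agent.R102.PartII150 (ex ln Xe Le NTL exists_ntl Bx)
open Crest.Agent.R102.Slope845 (Expn)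
open Crest.Agent.R102.Sup115 (HDu GoodU)
open Crest.Agent.R102.S5 (Cn bl)
open Crest.Agent.R102.Kol953 (norm_deriv_le)

section Dat

variable {q : C(ℂ, ℂ)} {η ρ r Bc : ℝ} {b φ p : ℂ × ℂ → ℂ} {m₀ : ℂ → ℂ} {h : ℝ} {ψ H : ℂ → ℂ}
variable (D : Sh982.Dat q η ρ r Bc b φ p m₀ h ψ H)
include D

/-- small moves of `w` at height `y` below the top line move the label a little -/
theorem w_move {u c η0 : ℝ} (hc : 0 < c)
    (hRB : ∀ η : ℝ, 0 < η → η < η0 → ∀ w : ℂ, ‖w - u‖ < c * η →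
      VV b φ p h ρ r u - η < VV b φ p h ρ r w) {y : ℝ} (hy : 0 < y) (hy0 : y < η0)
    (hyr : c * y < r - |u|) (hyρ : -(ρ / 2) < VV b φ p h ρ r u - y) (x : ℝ) {k : ℝ} (hk : 0 < k)
    (hkc : k ≤ c / 4) :
    ‖be b h ρ r ((x : ℂ) + ((VV b φ p h ρ r u - y : ℝ) : ℂ) * I, (u : ℂ)) -
      be b h ρ r ((x : ℂ) + ((VV b φ p h ρ r u - y : ℝ) : ℂ) * I,
        (u : ℂ) + ((k * y : ℝ) : ℂ) * I)‖ ≤ 32 * h * k / c := by
  have hh : 0 < h := D.h_pos
  have him : ((x : ℂ) + ((VV b φ p h ρ r u - y : ℝ) : ℂ) * I).im = VV b φ p h ρ r u - y := by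
    simp
  have hmem : ∀ w ∈ ball (u : ℂ) (c * y),
      ((x : ℂ) + ((VV b φ p h ρ r u - y : ℝ) : ℂ) * I, w) ∈ SB b h ρ r := by
    intro w hw
    rw [mem_ball, dist_eq_norm] at hw
    refine (mem_SB_of D ?_ ?_ ?_).1
    · calc ‖w‖ = ‖(w - u) + u‖ := by ring_nf
        _ ≤ ‖w - u‖ + ‖(u : ℂ)‖ := norm_add_le _ _
        _ < r := by
          rw [Complex.norm_real, Real.norm_eq_abs]
          linarith
    · rw [him]
      exact hyρ
    · rw [him]
      exact hRB y hy hy0 w hw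
  set f : ℂ → ℂ := fun w => be b h ρ r ((x : ℂ) + ((VV b φ p h ρ r u - y : ℝ) : ℂ) * I, w) with hf
  have hfd : DifferentiableOn ℂ f (ball (u : ℂ) (c * y)) := by
    intro w hw
    refine (DifferentiableAt.comp (g := be b h ρ r)
      (f := fun w : ℂ => (((x : ℂ) + ((VV b φ p h ρ r u - y : ℝ) : ℂ) * I, w) : ℂ × ℂ)) w
      (D.be_an _ (hmem w hw)).differentiableAt ?_).differentiableWithinAt
    fun_prop
  have hfb : ∀ w ∈ ball (u : ℂ) (c * y), |(f w).im| < h := fun w hw => D.be_mem (hmem w hw)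
  have hcy : 0 < c * y := mul_pos hc hy
  have hder : ∀ w ∈ ball (u : ℂ) (c * y / 2), ‖deriv f w‖ ≤ 16 * h / (c * y / 2) := by
    intro w hw
    have hsub : ball w (c * y / 2) ⊆ ball (u : ℂ) (c * y) := by
      intro z hz
      rw [mem_ball] at hz hw ⊢
      calc dist z u ≤ dist z w + dist w u := dist_triangle _ _ _
        _ < c * y := by linarith
    exact norm_deriv_le (by positivity) hh (hfd.mono hsub) fun z hz => hfb z (hsub hz)
  have hky : 0 < k * y := mul_pos hk hy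
  have hkn : ‖((k * y : ℝ) : ℂ) * I‖ = k * y := by
    rw [norm_mul, Complex.norm_I, mul_one, Complex.norm_real, Real.norm_eq_abs, abs_of_pos hky]
  have hw0 : (u : ℂ) ∈ ball (u : ℂ) (c * y / 2) := mem_ball_self (by positivity)
  have hw1 : (u : ℂ) + ((k * y : ℝ) : ℂ) * I ∈ ball (u : ℂ) (c * y / 2) := by
    rw [mem_ball, dist_eq_norm, add_sub_cancel_left, hkn]
    have : k * y ≤ c / 4 * y := mul_le_mul_of_nonneg_right hkc hy.le
    linarith
  have hmv := (convex_ball (u : ℂ) (c * y / 2)).norm_image_sub_le_of_norm_deriv_le (f := f)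
    (C := 16 * h / (c * y / 2))
    (fun w hw => (hfd w (ball_subset_ball (by linarith) hw)).differentiableAt
      (isOpen_ball.mem_nhds (ball_subset_ball (by linarith) hw)))
    hder hw1 hw0
  have e1 : ‖(u : ℂ) - ((u : ℂ) + ((k * y : ℝ) : ℂ) * I)‖ = k * y := by
    rw [show (u : ℂ) - ((u : ℂ) + ((k * y : ℝ) : ℂ) * I) = -(((k * y : ℝ) : ℂ) * I) by ring,
      norm_neg, hkn]
  rw [e1] at hmv
  refine hmv.trans (le_of_eq ?_)
  field_simp
  ring

/-- **slice points are window points** -/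
theorem slice_win {G : ℂ → ℂ} {u α β : ℝ} {g0 : ℂ} (hur : |u| < r)
    (hV0 : 0 < VV b φ p h ρ r u)
    (hE : Expn G (VV b φ p h ρ r) u α β) (hg : NTL G u α β g0) (hg0 : g0.im = VV b φ p h ρ r u)
    {ε g1 : ℝ} (hε : 0 < ε) (hε1 : ε ≤ 1) (hg1 : 0 < g1) :
    ∃ d > 0, ∃ η1 > 0, ∀ s sc : ℝ, 0 < sc → sc < η1 → ∀ x y : ℝ, |x - (s + g0.re)| ≤ sc →
      ε * sc ≤ y → y ≤ sc → ∃ Q : ℂ × ℂ, ‖Q.1‖ ≤ 4 ∧ ‖Q.2‖ ≤ 1 ∧ d ≤ Q.2.im ∧ Q.1.im ≤ -d ∧
        ‖be b h ρ r ((x : ℂ) + ((VV b φ p h ρ r u - y : ℝ) : ℂ) * I, (u : ℂ)) -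
          Bx b h ρ r G (bl (s, u) sc Q)‖ ≤ g1 := by
  have hρ := D.ρ_pos
  have hh : 0 < h := D.h_pos
  obtain ⟨c, hc, η0, hη0, hcK, hRB⟩ := realball hE
  set V := VV b φ p h ρ r with hVdef
  set k : ℝ := min (c / 4) (c * g1 / (32 * h)) with hk
  have hk0 : 0 < k := lt_min (by positivity) (by positivity)
  have hkc : k ≤ c / 4 := min_le_left _ _
  have hkg : 32 * h * k / c ≤ g1 := by
    have : k ≤ c * g1 / (32 * h) := min_le_right _ _
    rw [div_le_iff₀ hc]
    rw [le_div_iff₀ (by positivity)] at this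
    linarith
  have hα0 := abs_nonneg α
  have hβ0 := abs_nonneg β
  have hc1 : c ≤ 1 / 2 := by
    have h1 : 0 ≤ |α| + |β| := by positivity
    nlinarith
  have hkα : k * |α| ≤ 1 / 4 := by nlinarith
  have hkβ : k * |β| ≤ 1 / 4 := by nlinarith
  have hk8 : k ≤ 1 / 8 := by linarith
  obtain ⟨δ, hδ, hG⟩ := hg 1 one_pos (1 / 2) (by norm_num)
  refine ⟨min (ε / 2) (k * ε), lt_min (by positivity) (by positivity),
    min (min η0 δ) (min (r - |u|) (V u)),
    lt_min (lt_min hη0 hδ) (lt_min (by linarith) hV0), ?_⟩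
  intro s sc hsc hsc1 x y hx hy1 hy2
  simp only [lt_min_iff] at hsc1
  obtain ⟨⟨m1, m2⟩, m3, m4⟩ := hsc1
  have hy : 0 < y := lt_of_lt_of_le (mul_pos hε hsc) hy1
  have hky : 0 < k * y := mul_pos hk0 hy
  set z : ℂ := ((k * y : ℝ) : ℂ) * I with hz
  have hzn : ‖z‖ = k * y := by
    rw [hz, norm_mul, Complex.norm_I, mul_one, Complex.norm_real, Real.norm_eq_abs,
      abs_of_pos hky]
  have hzi : z.im = k * y := by rw [hz]; simp
  have hmove := w_move D (u := u) hc hRB hy (by linarith) (by nlinarith) (by linarith) x hk0 hkc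
  set t : ℂ := (x : ℂ) + ((V u - y : ℝ) : ℂ) * I with ht
  -- the point in exact coordinates
  have hGz := hG z (by rw [hzi]; exact hky) (by rw [hzn]; nlinarith) (by rw [hzn, hzi, one_mul])
  rw [hzn] at hGz
  set er : ℂ := G (u + z) - g0 - ((β : ℂ) + I * α) * z with her
  have e0 : g0 = (g0.re : ℂ) + (V u : ℂ) * I := by
    rw [← hg0]
    exact (Complex.re_add_im g0).symm
  have hGe : G (u + z) = g0 + ((β : ℂ) + I * α) * z + er := by rw [her]; ring
  set Q1 : ℂ := t - G (u + z) - s with hQ1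
  have hQ1re : Q1.re = x - (s + g0.re) + α * (k * y) - er.re := by
    rw [hQ1, hGe, ht, hz]
    simp
    ring
  have hQ1im : Q1.im = -y - β * (k * y) - er.im := by
    rw [hQ1, hGe, ht, hz]
    have : g0.im = V u := hg0
    simp [this]
    ring
  have hre := (Complex.abs_re_le_norm er).trans hGz
  have hie := (Complex.abs_im_le_norm er).trans hGz
  obtain ⟨hre1, hre2⟩ := abs_le.1 hre
  obtain ⟨hie1, hie2⟩ := abs_le.1 hie
  have hαk : |α * (k * y)| ≤ 1 / 4 * y := by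
    rw [abs_mul, abs_of_pos hky]
    nlinarith
  have hβk : |β * (k * y)| ≤ 1 / 4 * y := by
    rw [abs_mul, abs_of_pos hky]
    nlinarith
  obtain ⟨ha1, ha2⟩ := abs_le.1 hαk
  obtain ⟨hb1, hb2⟩ := abs_le.1 hβk
  obtain ⟨hx1, hx2⟩ := abs_le.1 hx
  have hky8 : k * y ≤ 1 / 8 * y := mul_le_mul_of_nonneg_right hk8 hy.le
  have hscC : (sc : ℂ) ≠ 0 := by exact_mod_cast hsc.ne'
  refine ⟨(Q1 / sc, z / sc), ?_, ?_, ?_, ?_, ?_⟩
  · simp only
    rw [norm_div, Complex.norm_real, Real.norm_eq_abs, abs_of_pos hsc, div_le_iff₀ hsc]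
    refine (Complex.norm_le_abs_re_add_abs_im _).trans ?_
    have r1 : |Q1.re| ≤ 2 * sc := by
      rw [hQ1re, abs_le]; constructor <;> linarith
    have r2 : |Q1.im| ≤ 2 * sc := by
      rw [hQ1im, abs_le]; constructor <;> linarith
    linarith
  · simp only
    rw [norm_div, Complex.norm_real, Real.norm_eq_abs, abs_of_pos hsc, div_le_iff₀ hsc, hzn]
    linarith
  · simp only
    rw [Complex.div_ofReal_im, hzi, le_div_iff₀ hsc]
    have : min (ε / 2) (k * ε) ≤ k * ε := min_le_right _ _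
    nlinarith
  · simp only
    rw [Complex.div_ofReal_im, hQ1im, div_le_iff₀ hsc]
    have : min (ε / 2) (k * ε) ≤ ε / 2 := min_le_left _ _
    nlinarith
  · have hbl : bl (s, u) sc (Q1 / sc, z / sc) = (t - G (u + z), (u : ℂ) + z) := by
      unfold S5.bl
      ext1
      · simp only
        rw [mul_div_cancel₀ _ hscC, hQ1]
        ring
      · simp only
        rw [mul_div_cancel₀ _ hscC]
    have hBx : Bx b h ρ r G (bl (s, u) sc (Q1 / sc, z / sc)) = be b h ρ r (t, (u : ℂ) + z) := by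
      rw [hbl]
      unfold PartII150.Bx PartII150.ex
      simp only
      rw [sub_add_cancel]
    rw [hBx]
    exact hmove.trans hkg

/-- **(NF) on the objects**: no window over the point is frozen at a height `v1`
with `2 g1 < |v1 - v0|` -/
theorem nf_obj {G : ℂ → ℂ} {u α β : ℝ} {g0 : ℂ} (hur : |u| < r)
    (hV0 : 0 < VV b φ p h ρ r u)
    (hE : Expn G (VV b φ p h ρ r) u α β) (hg : NTL G u α β g0) (hg0 : g0.im = VV b φ p h ρ r u)
    {g1 v0 : ℝ} (hg1 : 0 < g1) (hg1h : g1 ≤ h) :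
    ∃ d > 0, ∃ η1 > 0, ∀ s s0 : ℝ,
      (∀ v1, 2 * g1 < |v1 - v0| → ∀ sc, 0 < sc → sc ≤ s0 →
        ∃ x ∈ Icc (s + g0.re - sc) (s + g0.re + sc), ∃ l ∈ Icc (sc / 2) sc,
          g1 ≤ |(be b h ρ r ((x : ℂ) +
            ((VV b φ p h ρ r u - (g1 / (256 * h)) ^ 2 * l : ℝ) : ℂ) * I, (u : ℂ))).im - v1|) →
      ∀ sc, 0 < sc → sc < η1 → sc ≤ s0 → ∀ b0 : ℂ, 2 * g1 < |b0.im - v0| →
        ∃ Q : ℂ × ℂ, ‖Q.1‖ ≤ 4 ∧ ‖Q.2‖ ≤ 1 ∧ d ≤ Q.2.im ∧ Q.1.im ≤ -d ∧
          g1 / 2 ≤ ‖Bx b h ρ r G (bl (s, u) sc Q) - b0‖ ∧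
          g1 / 2 ≤ |(Bx b h ρ r G (bl (s, u) sc Q)).im - b0.im| := by
  have hh : 0 < h := D.h_pos
  have hε0 : 0 < (g1 / (256 * h)) ^ 2 / 2 := by positivity
  have hq1 : g1 / (256 * h) ≤ 1 := by rw [div_le_one (by positivity)]; linarith
  have hε1 : (g1 / (256 * h)) ^ 2 ≤ 1 := pow_le_one₀ (by positivity) hq1
  obtain ⟨d, hd, η1, hη1, hS⟩ := slice_win D hur hV0 hE hg hg0 (ε := (g1 / (256 * h)) ^ 2 / 2)
    (g1 := g1 / 2) hε0 (by linarith) (by linarith)
  refine ⟨d, hd, η1, hη1, ?_⟩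
  intro s s0 hNF sc hsc hsc1 hsc0 b0 hb0
  obtain ⟨x, hx, l, hl, hgl⟩ := hNF b0.im hb0 sc hsc hsc0
  have hxs : |x - (s + g0.re)| ≤ sc := by
    rw [abs_le]; constructor <;> linarith [hx.1, hx.2]
  have hlp : 0 < l := by linarith [hl.1]
  have hE2 : 0 < (g1 / (256 * h)) ^ 2 := by positivity
  obtain ⟨Q, a1, a2, a3, a4, a5⟩ := hS s sc hsc hsc1 x ((g1 / (256 * h)) ^ 2 * l) hxs
    (by nlinarith [hl.1]) (by nlinarith [hl.2])
  have hi : |(be b h ρ r ((x : ℂ) +
      ((VV b φ p h ρ r u - (g1 / (256 * h)) ^ 2 * l : ℝ) : ℂ) * I, (u : ℂ))).im -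
      (Bx b h ρ r G (bl (s, u) sc Q)).im| ≤ g1 / 2 := by
    have := (Complex.abs_im_le_norm _).trans a5
    rwa [Complex.sub_im] at this
  have hfin : g1 / 2 ≤ |(Bx b h ρ r G (bl (s, u) sc Q)).im - b0.im| := by
    have h3 : |(be b h ρ r ((x : ℂ) +
      ((VV b φ p h ρ r u - (g1 / (256 * h)) ^ 2 * l : ℝ) : ℂ) * I, (u : ℂ))).im - b0.im| ≤
      |(be b h ρ r ((x : ℂ) +
      ((VV b φ p h ρ r u - (g1 / (256 * h)) ^ 2 * l : ℝ) : ℂ) * I, (u : ℂ))).im -
      (Bx b h ρ r G (bl (s, u) sc Q)).im| + |(Bx b h ρ r G (bl (s, u) sc Q)).im - b0.im| :=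
      abs_sub_le _ _ _
    linarith
  refine ⟨Q, a1, a2, a3, a4, ?_, hfin⟩
  refine hfin.trans ?_
  rw [← Complex.sub_im]
  exact Complex.abs_im_le_norm _

end Dat

/-- **heights of zeros**: there is a height `v0` in the middle half of the strip at positive distance
from the heights of all zeros of the periodic function `y` -/
theorem heights {h : ℝ} (hh : 0 < h) {y : ℂ → ℂ} (hy : DifferentiableOn ℂ y (T5.Str h))
    (hper : ∀ z ∈ T5.Str h, y (z + 1) = y z) (hne : ∃ z ∈ T5.Str h, y z ≠ 0) :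
    ∃ v0 g1 : ℝ, |v0| ≤ h / 2 ∧ 0 < g1 ∧ g1 ≤ h ∧
      ∀ b0 ∈ T5.Str h, y b0 = 0 → 2 * g1 < |b0.im - v0| := by
  classical
  have hSo : IsOpen (T5.Str h) := by
    have : T5.Str h = {z : ℂ | |z.im| < h} := rfl
    rw [this]
    exact isOpen_lt (by fun_prop) continuous_const
  have hSc : IsPreconnected (T5.Str h) := by
    have e : T5.Str h = Complex.im ⁻¹' (Ioo (-h) h) := by
      ext z
      simp only [T5.Str, mem_ofPred_eq, abs_lt, mem_preimage, mem_Ioo]
    rw [e]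
    have : Convex ℝ (Complex.im ⁻¹' (Ioo (-h) h)) := (convex_Ioo _ _).linear_preimage
      Complex.imLm
    exact this.isPreconnected
  have han : AnalyticOnNhd ℂ y (T5.Str h) := hy.analyticOnNhd hSo
  -- the compact piece
  set K : Set ℂ := {z : ℂ | z.re ∈ Icc (0:ℝ) 1 ∧ z.im ∈ Icc (-(3 / 4 * h)) (3 / 4 * h)} with hK
  have hKc : IsCompact K := by
    have : K = Complex.equivRealProdCLM.symm '' (Icc (0:ℝ) 1 ×ˢ Icc (-(3 / 4 * h)) (3 / 4 * h)) := by
      ext z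
      constructor
      · rintro ⟨h1, h2⟩
        exact ⟨(z.re, z.im), ⟨h1, h2⟩, by apply Complex.ext <;> simp⟩
      · rintro ⟨⟨a, b⟩, ⟨h1, h2⟩, rfl⟩
        simpa [hK] using ⟨h1, h2⟩
    rw [this]
    exact (isCompact_Icc.prod isCompact_Icc).image (ContinuousLinearEquiv.continuous _)
  have hKS : K ⊆ T5.Str h := by
    intro z hz
    change |z.im| < h
    rw [abs_lt]
    constructor <;> linarith [hz.2.1, hz.2.2]
  set Z : Set ℂ := {z ∈ K | y z = 0} with hZ
  have hZf : Z.Finite := by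
    by_contra hinf
    obtain ⟨z0, hz0, hacc⟩ := (Set.not_finite.1 hinf).exists_accPt_of_subset_isCompact hKc
      (fun z hz => hz.1)
    have hfr : ∃ᶠ z in 𝓝[≠] z0, y z = 0 := by
      rw [accPt_iff_frequently_nhdsNE] at hacc
      exact hacc.mono fun z hz => hz.2
    have h0 := han.eqOn_zero_of_preconnected_of_frequently_eq_zero hSc (hKS hz0) hfr
    obtain ⟨z, hz, hzn⟩ := hne
    exact hzn (h0 hz)
  -- heights
  set Hs : Set ℝ := Complex.im '' Z with hHs
  have hHf : Hs.Finite := hZf.image _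
  obtain ⟨v0, hv0, hv0n⟩ : ∃ v0 ∈ Ioo (-(h / 2)) (h / 2), v0 ∉ Hs := by
    have hI : (Ioo (-(h / 2)) (h / 2)).Infinite := Ioo_infinite (by linarith)
    obtain ⟨v, hv⟩ := (hI.sdiff hHf).nonempty
    exact ⟨v, hv.1, hv.2⟩
  obtain ⟨e, he, hes⟩ : ∃ e > 0, ∀ v ∈ Hs, e ≤ |v - v0| := by
    have hcl : IsClosed Hs := hHf.isClosed
    have : Hsᶜ ∈ 𝓝 v0 := hcl.isOpen_compl.mem_nhds hv0n
    obtain ⟨e, he, hsub⟩ := Metric.mem_nhds_iff.1 this
    refine ⟨e, he, fun v hv => ?_⟩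
    by_contra hcon
    push Not at hcon
    exact hsub (by rw [mem_ball, Real.dist_eq]; exact hcon : v ∈ ball v0 e) hv
  refine ⟨v0, min (e / 3) (h / 9), abs_le.2 ⟨hv0.1.le, hv0.2.le⟩, lt_min (by positivity)
    (by positivity), (min_le_right _ _).trans (by linarith), ?_⟩
  intro b0 hb0 hyb
  have m1 : min (e / 3) (h / 9) ≤ e / 3 := min_le_left _ _
  have m2 : min (e / 3) (h / 9) ≤ h / 9 := min_le_right _ _
  rcases le_or_gt |b0.im| (3 / 4 * h) with hc | hc
  · -- translate into `K`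
    have hper' : ∀ n : ℤ, y (b0 + n) = 0 := by
      intro n
      have hmem : ∀ m : ℤ, b0 + m ∈ T5.Str h := by
        intro m
        change |(b0 + m).im| < h
        have h5 : |b0.im| < h := hb0
        simpa using h5
      induction n using Int.induction_on with
      | zero => simpa using hyb
      | succ n ih =>
        have := hper _ (hmem n)
        rw [show b0 + ((n : ℤ) : ℂ) + 1 = b0 + ((n + 1 : ℤ) : ℂ) by push_cast; ring] at this
        rw [this, ih]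
      | pred n ih =>
        have := hper _ (hmem (-(n : ℤ) - 1))
        rw [show b0 + ((-(n : ℤ) - 1 : ℤ) : ℂ) + 1 = b0 + ((-(n : ℤ) : ℤ) : ℂ) by
          push_cast; ring] at this
        rw [← this, ih]
    have hzK : b0 + ((-⌊b0.re⌋ : ℤ) : ℂ) ∈ Z := by
      refine ⟨⟨⟨?_, ?_⟩, ?_⟩, hper' _⟩
      · have := Int.floor_le b0.re
        simp; linarith
      · have := Int.lt_floor_add_one b0.re
        simp; linarith
      · simpa using abs_le.1 hc
    have hv : b0.im ∈ Hs := ⟨_, hzK, by simp⟩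
    have := hes _ hv
    linarith
  · have h1 : |b0.im| ≤ |b0.im - v0| + |v0| := by
      have := abs_add_le (b0.im - v0) v0
      rwa [sub_add_cancel] at this
    have h2 : |v0| ≤ h / 2 := abs_le.2 ⟨hv0.1.le, hv0.2.le⟩
    linarith

end Crest.Agent.R102.SliceWin408
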