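import Crest.Agent.R102.SliceB_812
import Crest.Agent.R102.SliceWin_408

/-!
Row 102, T1-B, EDGE (helper408): the balanced point with exact density on the objects.

`balNF`: if EDGE fails at `(s₀, u)` then there are points `s → s₀` all of whose windows are interior
(real slice form) and none of whose windows is frozen at the height of a zero of `ψ'`.
-/

set_option autoImplicit false

open Set Filter Topology Metric Complex MeasureTheory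
open scoped Real ComplexConjugate

noncomputable section

namespace Crest.Agent.R102.BalNF408

open Crest.Agent.R102.Sh982
open Crest.Agent.R102.Exit812
open Crest.Agent.R102.Chain559
open Crest.Agent.R102.Slice812
open Crest.Agent.R102.SliceWin408
open Crest.Agent.R102.KolX408
open Crest.Agent.R102.GlueII559 (OL OX VV VV_of_Nn mem_of_lt_VV)
open Crest.Agent.R102.PartII150
open Crest.Agent.R102.Sup115 (HDu GoodU)
open Crest.Agent.R102.S5 (Cn bl)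
open Crest.Agent.R102.Kol953 (Dm)

variable {q : C(ℂ, ℂ)} {η ρ r Bc : ℝ} {b φ p : ℂ × ℂ → ℂ} {m₀ : ℂ → ℂ} {h : ℝ} {ψ H K G : ℂ → ℂ}

/-- **BAL + NF** -/
theorem balNF (D : Sh982.Dat q η ρ r Bc b φ p m₀ h ψ H) (hM : Growth.MirS q η h ψ H K G)
    {g : ℂ → ℂ} {u0 R d u α β s₀ a₀ c : ℝ} (hS : Shift b φ p h ρ r u0 R d g)
    (hG : GoodAt b φ p h ρ r u0 R d g u α β s₀ a₀ c) (hSup : SupAt (Bx b h ρ r g) h u s₀)
    (hno : ¬ OneE (Bx b h ρ r g) h u s₀) :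
    ∃ g0 : ℂ, g0.im = VV b φ p h ρ r u ∧ NTL g u α β g0 ∧ 0 < VV b φ p h ρ r u ∧
      ∃ v0 g1 : ℝ, |v0| ≤ h / 2 ∧ 0 < g1 ∧ g1 ≤ h ∧
      (∀ b0 ∈ T5.Str h, deriv ψ b0 = 0 → 4 * g1 < |b0.im - v0|) ∧ ∃ dd > 0,
      ∀ δ > 0, ∃ s : ℝ, |s - s₀| < δ ∧ ∃ η0 > 0,
        (∀ y : ℝ, 0 < y → y ≤ η0 →
          |(bs b h ρ r u (((s + g0.re : ℝ) : ℂ) + ((VV b φ p h ρ r u - y : ℝ) : ℂ) * I)).im| ≤
            h - h / 2 ^ 76) ∧
        (∀ g2, 0 < g2 → g2 ≤ h → ∀ y, 0 < y → y ≤ η0 → ∃ x l, y / 2 ≤ l ∧ l ≤ y ∧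
          x ≤ s + g0.re ∧ s + g0.re ≤ x + l ∧
          |(∫ x' in x..(x + l), (bs b h ρ r u ((x' : ℂ) +
            ((VV b φ p h ρ r u - (g2 / (256 * h)) ^ 2 * l : ℝ) : ℂ) * I)).im) - v0 * l| ≤ g2 * l) ∧
        ∀ sc : ℝ, 0 < sc → sc < η0 → ∀ b0 ∈ T5.Str h, deriv ψ b0 = 0 →
          ∃ Q : ℂ × ℂ, ‖Q.1‖ ≤ 4 ∧ ‖Q.2‖ ≤ 1 ∧ dd ≤ Q.2.im ∧ Q.1.im ≤ -dd ∧
            g1 ≤ ‖Bx b h ρ r g (bl (s, u) sc Q) - b0‖ ∧
            g1 ≤ |(Bx b h ρ r g (bl (s, u) sc Q)).im - b0.im| := by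
  have hh : 0 < h := D.h_pos
  have hρ := D.ρ_pos
  have huB : (u : ℂ) ∈ ball (u0 : ℂ) R := by
    rw [mem_ball, dist_eq_norm, ← Complex.ofReal_sub, Complex.norm_real, Real.norm_eq_abs, abs_lt]
    constructor <;> linarith [hG.mem.1, hG.mem.2]
  have hur : |u| < r := by simpa using hS.ball_sub huB
  obtain ⟨g0, hg0, hg, hV0, δ', hδ', hd1, hd2, hd3, hback⟩ := slice D hS hG hSup
  -- heights of the zeros of `ψ'`
  obtain ⟨v0, g1, hv0, hg1, hg1h, hz⟩ := heights hh (y := deriv ψ)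
    (by
      intro z hz
      exact ((D.ψ_diff.analyticAt ((Rule982.isOpen_Sg h).mem_nhds hz)).deriv).differentiableAt.differentiableWithinAt)
    (fun z hz => hM.yper z hz)
    ⟨0, by change |(0 : ℂ).im| < h; simpa using hh, by
      have := (hM.y_pos 0).1
      intro h0
      simp only [Complex.ofReal_zero] at this
      rw [h0] at this
      simp at this⟩
  obtain ⟨dd, hdd, η1, hη1, hnf⟩ := nf_obj D hur hV0 hG.expn hg hg0 (g1 := g1) (v0 := v0) hg1 hg1h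
  refine ⟨g0, hg0, hg, hV0, v0, g1 / 2, hv0, by positivity, by linarith, ?_, dd, hdd, ?_⟩
  · intro b0 hb0 hb
    have := hz b0 hb0 hb
    linarith
  intro δ hδ
  set δ1 : ℝ := min δ δ' with hδ1
  have hδ1p : 0 < δ1 := lt_min hδ hδ'
  obtain ⟨n1, n2⟩ := not_one (VV b φ p h ρ r u) hback hno δ1 hδ1p (min_le_right _ _)
  have hsubI : Ioo (s₀ + g0.re - δ1) (s₀ + g0.re + δ1) ⊆
      Ioo (s₀ + g0.re - δ') (s₀ + g0.re + δ') := by
    intro x hx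
    have : δ1 ≤ δ' := min_le_right _ _
    exact ⟨by linarith [hx.1], by linarith [hx.2]⟩
  have hsub : Dm (s₀ + g0.re - δ1) (s₀ + g0.re + δ1) (VV b φ p h ρ r u)
      (ρ / 2 + VV b φ p h ρ r u) ⊆ Dm (s₀ + g0.re - δ') (s₀ + g0.re + δ') (VV b φ p h ρ r u)
      (ρ / 2 + VV b φ p h ρ r u) := fun t ht => ⟨hsubI ht.1, ht.2⟩
  obtain ⟨x0, hx0, sc0, hsc0, k1, k2, k3, k4, k5, k6⟩ := kolx (v0 := v0) hh
    (show 0 < ρ / 2 + VV b φ p h ρ r u by linarith) hv0 (hd1.mono hsub)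
    (fun z hz => hd2 z (hsub hz)) (by
      filter_upwards [hd3] with x hx hxI
      exact hx (hsubI hxI)) n1 n2
  have hs : x0 = (x0 - g0.re) + g0.re := by ring
  refine ⟨x0 - g0.re, ?_, min sc0 η1, lt_min hsc0 hη1, ?_, ?_, ?_⟩
  · have : δ1 ≤ δ := min_le_left _ _
    rw [abs_lt]
    constructor <;> linarith [hx0.1, hx0.2]
  · intro y hy hy0
    rw [← hs]
    exact k4 y hy (hy0.trans (min_le_left _ _))
  · intro g2 hg2 hg2h y hy hy0
    rw [← hs]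
    obtain ⟨x, l, e1, e2, e3, e4, e5⟩ := k5 g2 hg2 hg2h y hy (hy0.trans (min_le_left _ _))
    exact ⟨x, l, e1, e2, e3, e4, e5⟩
  · intro sc hsc hsc1 b0 hb0 hbz
    have hz0 := hz b0 hb0 hbz
    obtain ⟨Q, a1, a2, a3, a4, a5, a6⟩ := hnf (x0 - g0.re) sc0 (by
      intro v1 hv1 sc' hsc' hsc0'
      obtain ⟨x, hx, l, hl, hgl⟩ := k6 g1 hg1 hg1h v1 hv1 sc' hsc' hsc0'
      refine ⟨x, ?_, l, hl, hgl⟩
      rw [← hs]
      exact hx) sc hsc (hsc1.trans_le (min_le_right _ _)) (hsc1.le.trans (min_le_left _ _)) b0 hz0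
    exact ⟨Q, a1, a2, a3, a4, a5, a6⟩

end Crest.Agent.R102.BalNF408
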