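import Mathlib
import Crest.Agent.R102.Fatou_472

/-!
Row 102, tools for `[H1]` (helper812): gluing of bounded holomorphic functions across the real
line along a.e. equal vertical limits, and the reflection principle with a.e. boundary values.
-/

set_option autoImplicit false

open Set Filter Topology Metric MeasureTheory Complex
open scoped Real ComplexConjugate

noncomputable section

namespace Crest.Agent.R102.Refl812

/-- the boundary sum of a rectangle -/
def bd (G : ℂ → ℂ) (x₁ x₂ y₁ y₂ : ℝ) : ℂ :=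
  (∫ x : ℝ in x₁..x₂, G (x + y₁ * I)) - (∫ x : ℝ in x₁..x₂, G (x + y₂ * I)) +
    I * (∫ y : ℝ in y₁..y₂, G (x₂ + y * I)) - I * (∫ y : ℝ in y₁..y₂, G (x₁ + y * I))

theorem wedge_add (G : ℂ → ℂ) (z w : ℂ) :
    wedgeIntegral z w G + wedgeIntegral w z G = bd G z.re w.re z.im w.im := by
  rw [wedgeIntegral_add_wedgeIntegral_eq]
  simp only [bd, smul_eq_mul]

/-- data of the gluing lemma -/
structure Gl (c r M : ℝ) (G : ℂ → ℂ) : Prop where
  diff : ∀ z ∈ ball (c : ℂ) r, z.im ≠ 0 → DifferentiableAt ℂ G z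
  bdd : ∀ z ∈ ball (c : ℂ) r, ‖G z‖ ≤ M
  lim : ∀ᵐ x : ℝ, (x : ℂ) ∈ ball (c : ℂ) r →
    Tendsto (fun y : ℝ => G (x + y * I)) (𝓝[≠] 0) (𝓝 (G x))

variable {c r M : ℝ} {G : ℂ → ℂ}

theorem mem_ball_mono_im {x y y' : ℝ} (h : ((x : ℂ) + y * I) ∈ ball (c : ℂ) r) (hy : |y'| ≤ |y|) :
    ((x : ℂ) + y' * I) ∈ ball (c : ℂ) r := by
  rw [mem_ball, dist_eq_norm] at h ⊢
  refine lt_of_le_of_lt ?_ h
  have e : ∀ y : ℝ, ‖(x : ℂ) + y * I - c‖ = √((x - c) ^ 2 + y ^ 2) := by
    intro y
    rw [show (x : ℂ) + y * I - c = ((x - c : ℝ) : ℂ) + y * I by push_cast; ring,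
      Complex.norm_add_mul_I]
  rw [e, e]
  apply Real.sqrt_le_sqrt
  have := sq_le_sq.2 hy
  linarith

theorem vert_meas (h : Gl c r M G) {x y₁ y₂ : ℝ} (h1 : ((x : ℂ) + y₁ * I) ∈ ball (c : ℂ) r)
    (h2 : ((x : ℂ) + y₂ * I) ∈ ball (c : ℂ) r) :
    IntervalIntegrable (fun y : ℝ => G (x + y * I)) volume y₁ y₂ := by
  have hb : ∀ y ∈ uIcc y₁ y₂, ((x : ℂ) + y * I) ∈ ball (c : ℂ) r := by
    intro y hy
    rcases le_total |y₁| |y₂| with h3 | h3
    · refine mem_ball_mono_im h2 ?_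
      rcases mem_uIcc.1 hy with h4 | h4
      · exact abs_le_max_abs_abs h4.1 h4.2 |>.trans (by rw [max_eq_right h3])
      · exact abs_le_max_abs_abs h4.1 h4.2 |>.trans (by rw [max_eq_left h3])
    · refine mem_ball_mono_im h1 ?_
      rcases mem_uIcc.1 hy with h4 | h4
      · exact abs_le_max_abs_abs h4.1 h4.2 |>.trans (by rw [max_eq_left h3])
      · exact abs_le_max_abs_abs h4.1 h4.2 |>.trans (by rw [max_eq_right h3])
  have hM : ∀ y ∈ uIcc y₁ y₂, ‖G (x + y * I)‖ ≤ M := fun y hy => h.bdd _ (hb y hy)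
  have hcont : ContinuousOn (fun y : ℝ => G (x + y * I)) (uIcc y₁ y₂ \ {0}) := by
    intro y hy
    have hy0 : ((x : ℂ) + y * I).im ≠ 0 := by
      simpa using hy.2
    have := (h.diff _ (hb y hy.1) hy0).continuousAt
    have h5 : ContinuousAt (fun y : ℝ => (x : ℂ) + y * I) y := by fun_prop
    exact (ContinuousAt.comp (f := fun y : ℝ => (x : ℂ) + y * I) this h5).continuousWithinAt
  have hms : AEStronglyMeasurable (fun y : ℝ => G (x + y * I))
      (volume.restrict (uIcc y₁ y₂ \ {0})) :=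
    hcont.aestronglyMeasurable (measurableSet_uIcc.diff (measurableSet_singleton 0))
  have hms2 : AEStronglyMeasurable (fun y : ℝ => G (x + y * I)) (volume.restrict (uIcc y₁ y₂)) := by
    have : (uIcc y₁ y₂ \ {0} : Set ℝ) =ᵐ[volume] uIcc y₁ y₂ := by
      apply sdiff_null_ae_eq_self
      simp
    rwa [Measure.restrict_congr_set this] at hms
  rw [intervalIntegrable_iff']
  have : IsFiniteMeasure (volume.restrict (uIcc y₁ y₂)) := ⟨by
    rw [Measure.restrict_apply_univ, uIcc, Real.volume_Icc]; exact ENNReal.ofReal_lt_top⟩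
  exact Integrable.of_bound hms2 M ((ae_restrict_iff' measurableSet_uIcc).2 (ae_of_all _ hM))

theorem real_mem {x y : ℝ} (h : ((x : ℂ) + y * I) ∈ ball (c : ℂ) r) :
    (x : ℂ) ∈ ball (c : ℂ) r := by
  have := mem_ball_mono_im (y' := 0) h (by simp)
  simpa using this

/-- horizontal slices: membership along a segment with fixed height -/
theorem horiz_mem {x₁ x₂ x y : ℝ} (h1 : ((x₁ : ℂ) + y * I) ∈ ball (c : ℂ) r)
    (h2 : ((x₂ : ℂ) + y * I) ∈ ball (c : ℂ) r) (hx : x ∈ uIcc x₁ x₂) :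
    ((x : ℂ) + y * I) ∈ ball (c : ℂ) r := by
  have hc : Convex ℝ ((fun x : ℝ => (x : ℂ) + y * I) ⁻¹' ball (c : ℂ) r) := by
    have h3 : IsLinearMap ℝ (fun x : ℝ => (x : ℂ)) := ⟨by intros; push_cast; rfl, by intros; simp⟩
    have h4 := (((convex_ball (c : ℂ) r).translate_preimage_left ((y : ℂ) * I)).is_linear_preimage
      h3)
    exact h4
  exact hc.ordConnected.uIcc_subset h1 h2 hx

theorem slice_meas (h : Gl c r M G) {x₁ x₂ y : ℝ} (h1 : ((x₁ : ℂ) + y * I) ∈ ball (c : ℂ) r)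
    (h2 : ((x₂ : ℂ) + y * I) ∈ ball (c : ℂ) r) (hy : y ≠ 0) :
    ContinuousOn (fun x : ℝ => G (x + y * I)) (uIcc x₁ x₂) := by
  intro x hx
  have hm := horiz_mem h1 h2 hx
  have := (h.diff _ hm (by simpa using hy)).continuousAt
  have h5 : ContinuousAt (fun x : ℝ => (x : ℂ) + y * I) x := by fun_prop
  exact (ContinuousAt.comp (f := fun x : ℝ => (x : ℂ) + y * I) this h5).continuousWithinAt

theorem eventually_horiz {x₁ x₂ : ℝ} (h1 : (x₁ : ℂ) ∈ ball (c : ℂ) r)
    (h2 : (x₂ : ℂ) ∈ ball (c : ℂ) r) :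
    ∀ᶠ y : ℝ in 𝓝 0, ∀ x ∈ uIcc x₁ x₂, ((x : ℂ) + y * I) ∈ ball (c : ℂ) r := by
  have h3 : ∀ x : ℝ, (x : ℂ) ∈ ball (c : ℂ) r → ∀ᶠ y : ℝ in 𝓝 0, ((x : ℂ) + y * I) ∈
      ball (c : ℂ) r := by
    intro x hx
    have : ContinuousAt (fun y : ℝ => (x : ℂ) + y * I) 0 := by fun_prop
    apply this.eventually_mem
    simpa using isOpen_ball.mem_nhds hx
  filter_upwards [h3 _ h1, h3 _ h2] with y hy1 hy2 x hx
  exact horiz_mem hy1 hy2 hx

theorem horiz_lim (h : Gl c r M G) {x₁ x₂ : ℝ} (h1 : (x₁ : ℂ) ∈ ball (c : ℂ) r)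
    (h2 : (x₂ : ℂ) ∈ ball (c : ℂ) r) :
    Tendsto (fun ε : ℝ => ∫ x : ℝ in x₁..x₂, G (x + ε * I)) (𝓝[≠] 0)
      (𝓝 (∫ x : ℝ in x₁..x₂, G x)) := by
  have hev := eventually_horiz h1 h2
  refine intervalIntegral.tendsto_integral_filter_of_dominated_convergence (fun _ => M) ?_ ?_
    intervalIntegrable_const ?_
  · filter_upwards [hev.filter_mono nhdsWithin_le_nhds, self_mem_nhdsWithin] with y hy hy0
    exact ((slice_meas h (hy _ left_mem_uIcc) (hy _ right_mem_uIcc) hy0).mono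
      uIoc_subset_uIcc).aestronglyMeasurable measurableSet_uIoc
  · filter_upwards [hev.filter_mono nhdsWithin_le_nhds] with y hy
    exact ae_of_all _ fun x hx => h.bdd _ (hy x (uIoc_subset_uIcc hx))
  · filter_upwards [h.lim] with x hx hx2
    apply hx
    have := hev.self_of_nhds x (uIoc_subset_uIcc hx2)
    simpa using this

theorem real_integrable (h : Gl c r M G) {x₁ x₂ : ℝ} (h1 : (x₁ : ℂ) ∈ ball (c : ℂ) r)
    (h2 : (x₂ : ℂ) ∈ ball (c : ℂ) r) :
    IntervalIntegrable (fun x : ℝ => G x) volume x₁ x₂ := by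
  have hev := (eventually_horiz h1 h2).filter_mono (nhdsWithin_le_nhds (s := {0}ᶜ))
  obtain ⟨u, hu0, hu⟩ := exists_seq_forall_of_frequently (hev.and self_mem_nhdsWithin).frequently
  have hmem : ∀ x ∈ uIcc x₁ x₂, (x : ℂ) ∈ ball (c : ℂ) r := by
    intro x hx
    have := (eventually_horiz h1 h2).self_of_nhds x hx
    simpa using this
  have hms : AEStronglyMeasurable (fun x : ℝ => G x) (volume.restrict (uIcc x₁ x₂)) := by
    refine aestronglyMeasurable_of_tendsto_ae atTop (f := fun n (x : ℝ) => G (x + u n * I)) ?_ ?_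
    · intro n
      exact (slice_meas h ((hu n).1 _ left_mem_uIcc) ((hu n).1 _ right_mem_uIcc)
        (hu n).2).aestronglyMeasurable measurableSet_uIcc
    · rw [ae_restrict_iff' measurableSet_uIcc]
      filter_upwards [h.lim] with x hx hx2
      exact (hx (hmem x hx2)).comp hu0
  rw [intervalIntegrable_iff']
  have : IsFiniteMeasure (volume.restrict (uIcc x₁ x₂)) := ⟨by
    rw [Measure.restrict_apply_univ, uIcc, Real.volume_Icc]; exact ENNReal.ofReal_lt_top⟩
  exact Integrable.of_bound hms M ((ae_restrict_iff' measurableSet_uIcc).2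
    (ae_of_all _ fun x hx => h.bdd _ (hmem x hx)))

theorem bd_add {x₁ x₂ y₁ y₂ y₃ : ℝ} {F : ℂ → ℂ}
    (h1 : IntervalIntegrable (fun y : ℝ => F (x₁ + y * I)) volume y₁ y₂)
    (h2 : IntervalIntegrable (fun y : ℝ => F (x₁ + y * I)) volume y₂ y₃)
    (h3 : IntervalIntegrable (fun y : ℝ => F (x₂ + y * I)) volume y₁ y₂)
    (h4 : IntervalIntegrable (fun y : ℝ => F (x₂ + y * I)) volume y₂ y₃) :
    bd F x₁ x₂ y₁ y₃ = bd F x₁ x₂ y₁ y₂ + bd F x₁ x₂ y₂ y₃ := by
  unfold bd
  rw [← intervalIntegral.integral_add_adjacent_intervals h1 h2,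
    ← intervalIntegral.integral_add_adjacent_intervals h3 h4]
  ring

theorem bd_neg {x₁ x₂ y₁ y₂ : ℝ} {F : ℂ → ℂ} :
    bd F x₁ x₂ y₁ y₂ = -bd F x₁ x₂ y₂ y₁ := by
  unfold bd
  rw [intervalIntegral.integral_symm y₁ y₂, intervalIntegral.integral_symm y₁ y₂]
  ring

/-- a sequence of heights shrinking to zero, on the same side as `y` -/
theorem bd_zero (h : Gl c r M G) {x₁ x₂ y : ℝ} (h1 : ((x₁ : ℂ) + y * I) ∈ ball (c : ℂ) r)
    (h2 : ((x₂ : ℂ) + y * I) ∈ ball (c : ℂ) r) : bd G x₁ x₂ 0 y = 0 := by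
  rcases eq_or_ne y 0 with rfl | hy
  · simp [bd]
  have h10 := real_mem h1
  have h20 := real_mem h2
  obtain ⟨u, hu⟩ : ∃ u : ℕ → ℝ, u = fun n : ℕ => y * (1 / ((n : ℝ) + 1)) := ⟨_, rfl⟩
  have hu0 : Tendsto u atTop (𝓝 0) := by
    rw [hu]
    simpa using tendsto_one_div_add_atTop_nhds_zero_nat.const_mul y
  have hun : ∀ n, u n ≠ 0 := fun n => by
    rw [hu]; have : (0 : ℝ) < (n : ℝ) + 1 := by positivity
    exact mul_ne_zero hy (by positivity)
  have hu0' : Tendsto u atTop (𝓝[≠] 0) :=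
    tendsto_nhdsWithin_iff.2 ⟨hu0, Eventually.of_forall hun⟩
  have hk : ∀ n : ℕ, 0 < 1 / ((n : ℝ) + 1) ∧ 1 / ((n : ℝ) + 1) ≤ 1 := by
    intro n
    have h3 : (0 : ℝ) < (n : ℝ) + 1 := by positivity
    refine ⟨by positivity, ?_⟩
    rw [div_le_one h3]
    have : (0 : ℝ) ≤ n := Nat.cast_nonneg n
    linarith
  have hzero : ∀ n, bd G x₁ x₂ (u n) y = 0 := by
    intro n
    have hC := integral_boundary_rect_eq_zero_of_differentiableOn G ((x₁ : ℂ) + u n * I)
      ((x₂ : ℂ) + y * I) ?_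
    · simpa [bd] using hC
    · intro z hz
      have hzr : z.re ∈ uIcc x₁ x₂ := by simpa using hz.1
      have hzi : z.im ∈ uIcc (u n) y := by simpa using hz.2
      have hz' : z = (z.re : ℂ) + z.im * I := (re_add_im z).symm
      have habs : |z.im| ≤ |y| ∧ z.im ≠ 0 := by
        have h5 : u n = y * (1 / ((n : ℝ) + 1)) := by rw [hu]
        obtain ⟨k1, k2⟩ := hk n
        rcases lt_or_gt_of_ne hy with hneg | hpos
        · have : y ≤ u n := by rw [h5]; nlinarith
          rw [uIcc_of_ge this] at hzi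
          have h6 : u n < 0 := by rw [h5]; nlinarith
          have h7 : z.im < 0 := lt_of_le_of_lt hzi.2 h6
          exact ⟨by rw [abs_of_neg h7, abs_of_neg hneg]; linarith [hzi.1], h7.ne⟩
        · have : u n ≤ y := by rw [h5]; nlinarith
          rw [uIcc_of_le this] at hzi
          have h6 : 0 < u n := by rw [h5]; positivity
          have h7 : 0 < z.im := lt_of_lt_of_le h6 hzi.1
          exact ⟨by rw [abs_of_pos h7, abs_of_pos hpos]; exact hzi.2, h7.ne'⟩
      have hm : z ∈ ball (c : ℂ) r := by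
        rw [hz']
        exact mem_ball_mono_im (horiz_mem h1 h2 hzr) habs.1
      exact (h.diff z hm habs.2).differentiableWithinAt
  have hvert : ∀ x : ℝ, ((x : ℂ) + y * I) ∈ ball (c : ℂ) r →
      Tendsto (fun n => ∫ t : ℝ in (u n)..y, G (x + t * I)) atTop
        (𝓝 (∫ t : ℝ in (0 : ℝ)..y, G (x + t * I))) := by
    intro x hx
    have hx0 : ((x : ℂ) + (0 : ℝ) * I) ∈ ball (c : ℂ) r := by simpa using real_mem hx
    have hxn : ∀ n, ((x : ℂ) + (u n) * I) ∈ ball (c : ℂ) r := by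
      intro n
      refine mem_ball_mono_im hx ?_
      obtain ⟨k1, k2⟩ := hk n
      rw [hu]; simp only [abs_mul, abs_of_pos k1]
      exact mul_le_of_le_one_right (abs_nonneg _) k2
    have h3 : ∀ n, ∫ t : ℝ in (u n)..y, G (x + t * I) =
        (∫ t : ℝ in (0 : ℝ)..y, G (x + t * I)) - ∫ t : ℝ in (0 : ℝ)..(u n), G (x + t * I) := by
      intro n
      rw [← intervalIntegral.integral_add_adjacent_intervals (vert_meas h hx0 (hxn n))
        (vert_meas h (hxn n) hx)]
      ring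
    simp_rw [h3]
    have h4 : Tendsto (fun n => ∫ t : ℝ in (0 : ℝ)..(u n), G (x + t * I)) atTop (𝓝 0) := by
      have h5 : Tendsto (fun n => M * |u n|) atTop (𝓝 0) := by
        have := hu0.abs.const_mul M
        simpa using this
      refine squeeze_zero_norm (fun n => ?_) h5
      have := intervalIntegral.norm_integral_le_of_norm_le_const (a := 0) (b := u n) (C := M)
        (f := fun t : ℝ => G (x + t * I)) (fun t ht => h.bdd _ (by
          refine mem_ball_mono_im (hxn n) ?_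
          have := uIoc_subset_uIcc ht
          rcases mem_uIcc.1 this with h6 | h6
          · rw [abs_of_nonneg h6.1, abs_of_nonneg (h6.1.trans h6.2)]; exact h6.2
          · rw [abs_of_nonpos h6.2, abs_of_nonpos (h6.1.trans h6.2)]; linarith [h6.1]))
      simpa using this
    simpa using tendsto_const_nhds.sub h4
  have hh := (horiz_lim h h10 h20).comp hu0'
  have hlim : Tendsto (fun n => bd G x₁ x₂ (u n) y) atTop (𝓝 (bd G x₁ x₂ 0 y)) := by
    unfold bd
    have h3 := ((hh.sub (tendsto_const_nhds (x := ∫ x : ℝ in x₁..x₂, G (x + y * I)))).add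
      ((hvert x₂ h2).const_mul I)).sub ((hvert x₁ h1).const_mul I)
    simpa using h3
  have h3 : Tendsto (fun n => bd G x₁ x₂ (u n) y) atTop (𝓝 0) := by
    simp_rw [hzero]; exact tendsto_const_nhds
  exact tendsto_nhds_unique hlim h3

theorem bd_zero_of_cont {F : ℂ → ℂ} (hc : ContinuousOn F (ball (c : ℂ) r))
    (hd : ∀ z ∈ ball (c : ℂ) r, z.im ≠ 0 → DifferentiableAt ℂ F z) {x₁ x₂ y : ℝ}
    (h1 : ((x₁ : ℂ) + y * I) ∈ ball (c : ℂ) r)
    (h2 : ((x₂ : ℂ) + y * I) ∈ ball (c : ℂ) r) : bd F x₁ x₂ 0 y = 0 := by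
  have hmem : ∀ z : ℂ, z.re ∈ uIcc x₁ x₂ → z.im ∈ uIcc 0 y → z ∈ ball (c : ℂ) r := by
    intro z hzr hzi
    have hz' : z = (z.re : ℂ) + z.im * I := (re_add_im z).symm
    rw [hz']
    refine mem_ball_mono_im (horiz_mem h1 h2 hzr) ?_
    rcases mem_uIcc.1 hzi with h6 | h6
    · rw [abs_of_nonneg h6.1, abs_of_nonneg (h6.1.trans h6.2)]; exact h6.2
    · rw [abs_of_nonpos h6.2, abs_of_nonpos (h6.1.trans h6.2)]; linarith [h6.1]
  have hC := integral_boundary_rect_eq_zero_of_continuousOn_of_differentiableOn F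
    ((x₁ : ℂ) + (0 : ℝ) * I) ((x₂ : ℂ) + y * I) ?_ ?_
  · simpa [bd] using hC
  · refine hc.mono fun z hz => hmem z (by simpa using hz.1) (by simpa using hz.2)
  · intro z hz
    have hzr : z.re ∈ Ioo (min x₁ x₂) (max x₁ x₂) := by simpa using hz.1
    have hzi : z.im ∈ Ioo (min 0 y) (max 0 y) := by simpa using hz.2
    refine (hd z (hmem z ?_ ?_) ?_).differentiableWithinAt
    · exact ⟨hzr.1.le, hzr.2.le⟩
    · exact ⟨hzi.1.le, hzi.2.le⟩
    · intro h0
      rw [h0] at hzi
      rcases le_total 0 y with h | h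
      · rw [min_eq_left h] at hzi; exact lt_irrefl _ hzi.1
      · rw [max_eq_left h] at hzi; exact lt_irrefl _ hzi.2

theorem vert_cont {F : ℂ → ℂ} (hc : ContinuousOn F (ball (c : ℂ) r)) {x y₁ y₂ : ℝ}
    (h1 : ((x : ℂ) + y₁ * I) ∈ ball (c : ℂ) r) (h2 : ((x : ℂ) + y₂ * I) ∈ ball (c : ℂ) r) :
    IntervalIntegrable (fun y : ℝ => F (x + y * I)) volume y₁ y₂ := by
  apply ContinuousOn.intervalIntegrable
  have hb : ∀ y ∈ uIcc y₁ y₂, ((x : ℂ) + y * I) ∈ ball (c : ℂ) r := by
    intro y hy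
    have hcv : Convex ℝ ((fun y : ℝ => (x : ℂ) + y * I) ⁻¹' ball (c : ℂ) r) := by
      have h3 : IsLinearMap ℝ (fun y : ℝ => (y : ℂ) * I) :=
        ⟨by intros; push_cast; ring, by intros; simp [mul_assoc]⟩
      exact ((convex_ball (c : ℂ) r).translate_preimage_right (x : ℂ)).is_linear_preimage h3
    exact hcv.ordConnected.uIcc_subset h1 h2 hy
  exact hc.comp (by fun_prop) hb

/-- **removability of the real line for continuous functions** -/
theorem differentiableOn_of_continuousOn {F : ℂ → ℂ} (hc : ContinuousOn F (ball (c : ℂ) r))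
    (hd : ∀ z ∈ ball (c : ℂ) r, z.im ≠ 0 → DifferentiableAt ℂ F z) :
    DifferentiableOn ℂ F (ball (c : ℂ) r) := by
  rw [← isConservativeOn_and_continuousOn_iff_isDifferentiableOn isOpen_ball]
  refine ⟨fun z w hzw => ?_, hc⟩
  rw [← add_eq_zero_iff_eq_neg, wedge_add]
  have hcor : ∀ x ∈ uIcc z.re w.re, ∀ y ∈ uIcc z.im w.im, ((x : ℂ) + y * I) ∈ ball (c : ℂ) r := by
    intro x hx y hy
    apply hzw
    simp only [Rectangle, mem_reProdIm]
    simpa using ⟨hx, hy⟩
  have a1 := hcor _ left_mem_uIcc _ left_mem_uIcc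
  have a2 := hcor _ left_mem_uIcc _ right_mem_uIcc
  have a3 := hcor _ right_mem_uIcc _ left_mem_uIcc
  have a4 := hcor _ right_mem_uIcc _ right_mem_uIcc
  have b1 : ((z.re : ℂ) + (0 : ℝ) * I) ∈ ball (c : ℂ) r := by simpa using real_mem a1
  have b2 : ((w.re : ℂ) + (0 : ℝ) * I) ∈ ball (c : ℂ) r := by simpa using real_mem a3
  rw [bd_add (y₂ := 0) (vert_cont hc a1 b1) (vert_cont hc b1 a2) (vert_cont hc a3 b2)
    (vert_cont hc b2 a4), bd_neg, bd_zero_of_cont hc hd a1 a3, bd_zero_of_cont hc hd a2 a4]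
  simp

/-- the primitive -/
def Pr (c : ℝ) (G : ℂ → ℂ) (z : ℂ) : ℂ := wedgeIntegral (c : ℂ) z G

theorem Pr_sub (h : Gl c r M G) {z z₀ : ℂ} (hz : z ∈ ball (c : ℂ) r)
    (hz₀ : z₀ ∈ ball (c : ℂ) r) (hc : ((z.re : ℂ) + z₀.im * I) ∈ ball (c : ℂ) r) :
    Pr c G z = Pr c G z₀ + wedgeIntegral z₀ z G := by
  have hz' : ((z.re : ℂ) + z.im * I) ∈ ball (c : ℂ) r := by rwa [re_add_im]
  have hz₀' : ((z₀.re : ℂ) + z₀.im * I) ∈ ball (c : ℂ) r := by rwa [re_add_im]
  have hr : 0 < r := pos_of_mem_ball hz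
  have hcc : (c : ℂ) ∈ ball (c : ℂ) r := mem_ball_self hr
  have hzero := bd_zero h hz₀' hc
  have e1 := intervalIntegral.integral_add_adjacent_intervals
    (real_integrable h hcc (real_mem hz₀')) (real_integrable h (real_mem hz₀') (real_mem hz'))
  have e2 := intervalIntegral.integral_add_adjacent_intervals
    (vert_meas h (y₁ := 0) (y₂ := z₀.im) (x := z.re) (by simpa using real_mem hz') hc)
    (vert_meas h (y₂ := z.im) hc hz')
  unfold bd at hzero
  simp only [Pr, wedgeIntegral, smul_eq_mul, ofReal_re, ofReal_im, ofReal_zero, zero_mul,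
    add_zero] at hzero e1 e2 ⊢
  rw [← e1, ← e2]
  linear_combination hzero

theorem eventually_Pr (h : Gl c r M G) {z₀ : ℂ} (hz₀ : z₀ ∈ ball (c : ℂ) r) :
    ∀ᶠ z in 𝓝 z₀, Pr c G z = Pr c G z₀ + wedgeIntegral z₀ z G := by
  have h1 : ∀ᶠ z in 𝓝 z₀, ((z.re : ℂ) + z₀.im * I) ∈ ball (c : ℂ) r := by
    have : ContinuousAt (fun z : ℂ => (z.re : ℂ) + z₀.im * I) z₀ := by fun_prop
    apply this.eventually_mem
    simpa [re_add_im] using isOpen_ball.mem_nhds hz₀
  filter_upwards [h1, isOpen_ball.mem_nhds hz₀] with z hz hz2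
  exact Pr_sub h hz2 hz₀ hz

theorem norm_wedge_le (h : Gl c r M G) {z z₀ : ℂ} (hz : z ∈ ball (c : ℂ) r)
    (hz₀ : z₀ ∈ ball (c : ℂ) r) (hc : ((z.re : ℂ) + z₀.im * I) ∈ ball (c : ℂ) r) :
    ‖wedgeIntegral z₀ z G‖ ≤ M * |z.re - z₀.re| + M * |z.im - z₀.im| := by
  have hz' : ((z.re : ℂ) + z.im * I) ∈ ball (c : ℂ) r := by rwa [re_add_im]
  have hz₀' : ((z₀.re : ℂ) + z₀.im * I) ∈ ball (c : ℂ) r := by rwa [re_add_im]
  unfold wedgeIntegral
  refine (norm_add_le _ _).trans (add_le_add ?_ ?_)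
  · refine intervalIntegral.norm_integral_le_of_norm_le_const fun x hx => h.bdd _ ?_
    exact horiz_mem hz₀' hc (uIoc_subset_uIcc hx)
  · rw [norm_smul, Complex.norm_I, one_mul]
    refine intervalIntegral.norm_integral_le_of_norm_le_const fun y hy => h.bdd _ ?_
    have hcv : Convex ℝ ((fun y : ℝ => (z.re : ℂ) + y * I) ⁻¹' ball (c : ℂ) r) := by
      have h3 : IsLinearMap ℝ (fun y : ℝ => (y : ℂ) * I) :=
        ⟨by intros; push_cast; ring, by intros; simp [mul_assoc]⟩
      exact ((convex_ball (c : ℂ) r).translate_preimage_right (z.re : ℂ)).is_linear_preimage h3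
    exact hcv.ordConnected.uIcc_subset hc hz' (uIoc_subset_uIcc hy)

theorem continuousOn_Pr (h : Gl c r M G) : ContinuousOn (Pr c G) (ball (c : ℂ) r) := by
  intro z₀ hz₀
  apply ContinuousAt.continuousWithinAt
  have h1 : ∀ᶠ z in 𝓝 z₀, ((z.re : ℂ) + z₀.im * I) ∈ ball (c : ℂ) r := by
    have : ContinuousAt (fun z : ℂ => (z.re : ℂ) + z₀.im * I) z₀ := by fun_prop
    apply this.eventually_mem
    simpa [re_add_im] using isOpen_ball.mem_nhds hz₀
  have h2 : Tendsto (fun z : ℂ => M * |z.re - z₀.re| + M * |z.im - z₀.im|) (𝓝 z₀) (𝓝 0) := by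
    have : Continuous fun z : ℂ => M * |z.re - z₀.re| + M * |z.im - z₀.im| := by fun_prop
    simpa using this.tendsto z₀
  have h3 : Tendsto (fun z => wedgeIntegral z₀ z G) (𝓝 z₀) (𝓝 0) := by
    refine squeeze_zero_norm' ?_ h2
    filter_upwards [h1, isOpen_ball.mem_nhds hz₀] with z hz hz2
    exact norm_wedge_le h hz2 hz₀ hz
  have h4 : Tendsto (fun z => Pr c G z₀ + wedgeIntegral z₀ z G) (𝓝 z₀) (𝓝 (Pr c G z₀)) := by
    simpa using (tendsto_const_nhds (x := Pr c G z₀)).add h3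
  exact h4.congr' ((eventually_Pr h hz₀).mono fun z hz => hz.symm)

theorem hasDerivAt_Pr (h : Gl c r M G) {z₀ : ℂ} (hz₀ : z₀ ∈ ball (c : ℂ) r) (hi : z₀.im ≠ 0) :
    HasDerivAt (Pr c G) (G z₀) z₀ := by
  have h1 : ∀ᶠ z in 𝓝 z₀, z ∈ ball (c : ℂ) r ∧ z.im ≠ 0 := by
    filter_upwards [isOpen_ball.mem_nhds hz₀,
      (Complex.continuous_im.continuousAt (x := z₀)).eventually_ne hi] with z h1 h2
    exact ⟨h1, h2⟩
  obtain ⟨δ, hδ, hb⟩ := Metric.eventually_nhds_iff_ball.1 h1
  have hd : DifferentiableOn ℂ G (ball z₀ δ) := fun z hz =>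
    (h.diff z (hb z hz).1 (hb z hz).2).differentiableWithinAt
  have h2 := hd.isConservativeOn.hasDerivAt_wedgeIntegral hd.continuousOn (mem_ball_self hδ)
  have h3 := h2.const_add (Pr c G z₀)
  exact h3.congr_of_eventuallyEq (eventually_Pr h hz₀)

/-- **(GLUE)** a bounded function, holomorphic off the real line, whose two vertical limits agree
almost everywhere with its value on the line, agrees off the line with a holomorphic function. -/
theorem glue (h : Gl c r M G) : ∃ F : ℂ → ℂ, DifferentiableOn ℂ F (ball (c : ℂ) r) ∧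
    ∀ z ∈ ball (c : ℂ) r, z.im ≠ 0 → F z = G z := by
  have h1 : DifferentiableOn ℂ (Pr c G) (ball (c : ℂ) r) :=
    differentiableOn_of_continuousOn (continuousOn_Pr h)
      fun z hz hi => (hasDerivAt_Pr h hz hi).differentiableAt
  exact ⟨deriv (Pr c G), h1.deriv isOpen_ball, fun z hz hi => (hasDerivAt_Pr h hz hi).deriv⟩

/-- **(GLUE), two functions.** -/
theorem glue_two {c r M : ℝ} {Fp Fm : ℂ → ℂ}
    (hp : ∀ z ∈ ball (c : ℂ) r, 0 < z.im → DifferentiableAt ℂ Fp z)
    (hm : ∀ z ∈ ball (c : ℂ) r, z.im < 0 → DifferentiableAt ℂ Fm z)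
    (bp : ∀ z ∈ ball (c : ℂ) r, 0 < z.im → ‖Fp z‖ ≤ M)
    (bm : ∀ z ∈ ball (c : ℂ) r, z.im < 0 → ‖Fm z‖ ≤ M)
    (hl : ∀ᵐ x : ℝ, (x : ℂ) ∈ ball (c : ℂ) r → ∃ l : ℂ,
      Tendsto (fun y : ℝ => Fp (x + y * I)) (𝓝[>] 0) (𝓝 l) ∧
      Tendsto (fun y : ℝ => Fm (x + y * I)) (𝓝[<] 0) (𝓝 l)) :
    ∃ F : ℂ → ℂ, DifferentiableOn ℂ F (ball (c : ℂ) r) ∧
      (∀ z ∈ ball (c : ℂ) r, 0 < z.im → F z = Fp z) ∧
      ∀ z ∈ ball (c : ℂ) r, z.im < 0 → F z = Fm z := by
  classical
  rcases le_or_gt r 0 with hr | hr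
  · have : ball (c : ℂ) r = ∅ := ball_eq_empty.2 hr
    refine ⟨0, by rw [this]; exact differentiableOn_empty, ?_, ?_⟩ <;>
      · intro z hz; rw [this] at hz; exact hz.elim
  -- bounded limit values
  have hM : ∀ x : ℝ, (x : ℂ) ∈ ball (c : ℂ) r → ∀ l : ℂ,
      Tendsto (fun y : ℝ => Fp (x + y * I)) (𝓝[>] 0) (𝓝 l) → ‖l‖ ≤ M := by
    intro x hx l hl
    refine le_of_tendsto hl.norm ?_
    have h1 : ∀ᶠ y : ℝ in 𝓝 0, ((x : ℂ) + y * I) ∈ ball (c : ℂ) r := by
      have : ContinuousAt (fun y : ℝ => (x : ℂ) + y * I) 0 := by fun_prop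
      apply this.eventually_mem
      simpa using isOpen_ball.mem_nhds hx
    filter_upwards [h1.filter_mono nhdsWithin_le_nhds, self_mem_nhdsWithin] with y hy hy0
    exact bp _ hy (by simpa using hy0)
  let L : ℝ → ℂ := fun x => if hx : ((x : ℂ) ∈ ball (c : ℂ) r ∧ ∃ l : ℂ,
      Tendsto (fun y : ℝ => Fp (x + y * I)) (𝓝[>] 0) (𝓝 l) ∧
      Tendsto (fun y : ℝ => Fm (x + y * I)) (𝓝[<] 0) (𝓝 l)) then Classical.choose hx.2 else 0
  have hMnn : 0 ≤ M := by
    have hh := bp ((c : ℂ) + (r / 2 : ℝ) * I) (by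
      rw [mem_ball, dist_eq_norm, add_sub_cancel_left, norm_mul, Complex.norm_I, mul_one,
        Complex.norm_real, Real.norm_of_nonneg (by positivity)]
      linarith) (by simp; linarith)
    exact (norm_nonneg _).trans hh
  have hL : ∀ x : ℝ, ‖L x‖ ≤ M := by
    intro x
    by_cases hx : ((x : ℂ) ∈ ball (c : ℂ) r ∧ ∃ l : ℂ,
      Tendsto (fun y : ℝ => Fp (x + y * I)) (𝓝[>] 0) (𝓝 l) ∧
      Tendsto (fun y : ℝ => Fm (x + y * I)) (𝓝[<] 0) (𝓝 l))
    · have e : L x = Classical.choose hx.2 := dif_pos hx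
      rw [e]
      exact hM x hx.1 _ (Classical.choose_spec hx.2).1
    · have e : L x = 0 := dif_neg hx
      rw [e, norm_zero]; exact hMnn
  let G : ℂ → ℂ := fun z => if 0 < z.im then Fp z else if z.im < 0 then Fm z else L z.re
  have hGp : ∀ z : ℂ, 0 < z.im → G z = Fp z := fun z hz => if_pos hz
  have hGm : ∀ z : ℂ, z.im < 0 → G z = Fm z := fun z hz => by
    show (if 0 < z.im then Fp z else if z.im < 0 then Fm z else L z.re) = _
    rw [if_neg (not_lt.2 hz.le), if_pos hz]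
  have hG0 : ∀ x : ℝ, G x = L x := fun x => by
    show (if 0 < (x : ℂ).im then Fp x else if (x : ℂ).im < 0 then Fm x else L (x : ℂ).re) = _
    simp
  have hgl : Gl c r M G := by
    refine ⟨?_, ?_, ?_⟩
    · intro z hz hi
      rcases lt_or_gt_of_ne hi with h | h
      · refine (hm z hz h).congr_of_eventuallyEq ?_
        filter_upwards [(Complex.continuous_im.isOpen_preimage _ isOpen_Iio).mem_nhds
          (show z ∈ Complex.im ⁻¹' Iio 0 from h)] with w hw
        exact hGm w hw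
      · refine (hp z hz h).congr_of_eventuallyEq ?_
        filter_upwards [(Complex.continuous_im.isOpen_preimage _ isOpen_Ioi).mem_nhds
          (show z ∈ Complex.im ⁻¹' Ioi 0 from h)] with w hw
        exact hGp w hw
    · intro z hz
      rcases lt_trichotomy z.im 0 with h | h | h
      · rw [hGm z h]; exact bm z hz h
      · have : z = (z.re : ℂ) := by rw [← re_add_im z, h]; simp
        rw [this, hG0]; exact hL _
      · rw [hGp z h]; exact bp z hz h
    · filter_upwards [hl] with x hx hxb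
      have hx' : ((x : ℂ) ∈ ball (c : ℂ) r ∧ ∃ l : ℂ,
        Tendsto (fun y : ℝ => Fp (x + y * I)) (𝓝[>] 0) (𝓝 l) ∧
        Tendsto (fun y : ℝ => Fm (x + y * I)) (𝓝[<] 0) (𝓝 l)) := ⟨hxb, hx hxb⟩
      have e : L x = Classical.choose hx'.2 := dif_pos hx'
      have hs := Classical.choose_spec hx'.2
      rw [hG0, e]
      have hsplit : (𝓝[≠] (0 : ℝ)) = 𝓝[<] 0 ⊔ 𝓝[>] 0 := (nhdsLT_sup_nhdsGT 0).symm
      rw [hsplit, tendsto_sup]
      constructor
      · refine hs.2.congr' ?_
        filter_upwards [self_mem_nhdsWithin] with y hy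
        exact (hGm _ (by simpa using hy)).symm
      · refine hs.1.congr' ?_
        filter_upwards [self_mem_nhdsWithin] with y hy
        exact (hGp _ (by simpa using hy)).symm
  obtain ⟨F, hF, hFe⟩ := glue hgl
  refine ⟨F, hF, fun z hz h => ?_, fun z hz h => ?_⟩
  · rw [hFe z hz h.ne', hGp z h]
  · rw [hFe z hz h.ne, hGm z h]

/-! ### Reflection -/

theorem exists_log_ball {E : ℂ → ℂ} {a : ℂ} {r : ℝ} (hr : 0 < r)
    (hE : DifferentiableOn ℂ E (ball a r)) (h0 : ∀ z ∈ ball a r, E z ≠ 0) :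
    ∃ g : ℂ → ℂ, DifferentiableOn ℂ g (ball a r) ∧ ∀ z ∈ ball a r, cexp (g z) = E z := by
  have h1 : DifferentiableOn ℂ (fun z => deriv E z / E z) (ball a r) :=
    (hE.deriv isOpen_ball).div hE h0
  obtain ⟨g, hg0, hg⟩ := h1.isExactOn_ball.with_val_at a (log (E a))
  have ha : a ∈ ball a r := mem_ball_self hr
  refine ⟨g, fun z hz => (hg z hz).differentiableAt.differentiableWithinAt, ?_⟩
  have hd : ∀ z ∈ ball a r, HasDerivAt (fun z => E z * cexp (-g z)) 0 z := by
    intro z hz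
    have h2 := ((hE.differentiableAt (isOpen_ball.mem_nhds hz)).hasDerivAt).mul
      ((hg z hz).neg.cexp)
    have h3 : E z * (deriv E z / E z) = deriv E z := mul_div_cancel₀ _ (h0 z hz)
    have h4 : deriv E z * cexp (-g z) + E z * (cexp (-g z) * -(deriv E z / E z)) = 0 := by
      linear_combination (-cexp (-g z)) * h3
    exact h2.congr_deriv h4
  have hconst : ∀ z ∈ ball a r, E z * cexp (-g z) = E a * cexp (-g a) := by
    intro z hz
    exact (convex_ball a r).is_const_of_fderivWithin_eq_zero (𝕜 := ℂ)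
      (fun z hz => (hd z hz).differentiableAt.differentiableWithinAt) (fun z hz => by
        rw [fderivWithin_of_isOpen isOpen_ball hz]
        have := (hd z hz).hasFDerivAt.fderiv
        rw [this]
        ext; simp) hz ha
  intro z hz
  have h3 := hconst z hz
  rw [hg0, Complex.exp_neg, Complex.exp_neg, Complex.exp_log (h0 a ha),
    mul_inv_cancel₀ (h0 a ha)] at h3
  have h4 := Complex.exp_ne_zero (g z)
  field_simp at h3
  exact h3.symm

theorem convex_upper {c r : ℝ} : Convex ℝ (ball (c : ℂ) r ∩ {z | 0 < z.im}) :=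
  (convex_ball _ _).inter (convex_halfSpace_im_gt 0)

/-- **(REFL)**, upper half disc. -/
theorem refl_upper {c r m h : ℝ} {B : ℂ → ℂ}
    (hB : ∀ z ∈ ball (c : ℂ) r, 0 < z.im → DifferentiableAt ℂ B z)
    (hb : ∀ z ∈ ball (c : ℂ) r, 0 < z.im → |(B z).im| ≤ m)
    (hl : ∀ᵐ x : ℝ, (x : ℂ) ∈ ball (c : ℂ) r →
      Tendsto (fun y : ℝ => (B (x + y * I)).im) (𝓝[>] 0) (𝓝 h)) :
    ∃ F : ℂ → ℂ, DifferentiableOn ℂ F (ball (c : ℂ) r) ∧
      (∀ z ∈ ball (c : ℂ) r, 0 < z.im → F z = B z) ∧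
      (∀ x : ℝ, (x : ℂ) ∈ ball (c : ℂ) r → (F x).im = h) ∧
      ∀ z ∈ ball (c : ℂ) r, F (conj z) = conj (F z) + 2 * h * I := by
  rcases le_or_gt r 0 with hr | hr
  · have : ball (c : ℂ) r = ∅ := ball_eq_empty.2 hr
    refine ⟨0, by rw [this]; exact differentiableOn_empty, ?_, ?_, ?_⟩ <;>
      · intro z hz; rw [this] at hz; exact hz.elim
  have hconjmem : ∀ z ∈ ball (c : ℂ) r, conj z ∈ ball (c : ℂ) r := by
    intro z hz
    rw [mem_ball, dist_eq_norm] at hz ⊢
    rw [← Complex.norm_conj, map_sub, Complex.conj_conj, Complex.conj_ofReal]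
    exact hz
  set V : Set ℂ := ball (c : ℂ) r ∩ {z | 0 < z.im} with hV
  have hVo : IsOpen V := isOpen_ball.inter (isOpen_lt continuous_const Complex.continuous_im)
  obtain ⟨Ep, hEp⟩ : ∃ Ep : ℂ → ℂ, Ep = fun z => cexp (I * (B z - h * I)) := ⟨_, rfl⟩
  obtain ⟨Em, hEm⟩ : ∃ Em : ℂ → ℂ, Em = fun z => conj (Ep (conj z))⁻¹ := ⟨_, rfl⟩
  have hEpn : ∀ z, Ep z ≠ 0 := fun z => by rw [hEp]; exact Complex.exp_ne_zero _
  have hnorm : ∀ z, ‖Ep z‖ = Real.exp (h - (B z).im) := by
    intro z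
    rw [hEp]; simp only
    rw [Complex.norm_exp]
    congr 1
    simp
  have hEpd : ∀ z ∈ ball (c : ℂ) r, 0 < z.im → DifferentiableAt ℂ Ep z := by
    intro z hz hi
    rw [hEp]
    exact (((hB z hz hi).sub_const _).const_mul _).cexp
  have hK1 : ∀ z ∈ ball (c : ℂ) r, 0 < z.im → ‖Ep z‖ ≤ Real.exp (|h| + m) := by
    intro z hz hi
    rw [hnorm]
    have h1 := abs_le.1 (hb z hz hi)
    have h2 := le_abs_self h
    exact Real.exp_le_exp.2 (by linarith [h1.1])
  have hK2 : ∀ z ∈ ball (c : ℂ) r, 0 < z.im → Real.exp (-(|h| + m)) ≤ ‖Ep z‖ := by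
    intro z hz hi
    rw [hnorm]
    have h1 := abs_le.1 (hb z hz hi)
    have h2 := neg_abs_le h
    exact Real.exp_le_exp.2 (by linarith [h1.2])
  -- vertical limits
  have hfat := LP472.fatou_local hVo (f := Ep) (fun z hz =>
    (hEpd z hz.1 hz.2).differentiableWithinAt) (a := 1) one_pos
    (E := {x : ℝ | (x : ℂ) ∈ ball (c : ℂ) r}) (by
      intro x hx
      have hx' : (x : ℂ) ∈ ball (c : ℂ) r := hx
      obtain ⟨ε, hε, hsub⟩ := Metric.isOpen_iff.1 isOpen_ball _ hx'
      refine ⟨ε / 2, by positivity, Real.exp (|h| + m), ?_⟩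
      have hc1 : LP472.Cone 1 (ε / 2) x ⊆ V := by
        intro z hz
        have h1 := LP472.Cone_subset_ball (b := 1) (δ := ε / 2) (x := x) (r := ε) one_pos
          (by linarith) hz
        exact ⟨hsub h1, hz.1⟩
      exact ⟨hc1, fun z hz => hK1 z (hc1 hz).1 (hc1 hz).2⟩)
  have hvert : ∀ᵐ x : ℝ, (x : ℂ) ∈ ball (c : ℂ) r → ∃ l : ℂ,
      Tendsto (fun y : ℝ => Ep (x + y * I)) (𝓝[>] 0) (𝓝 l) := by
    filter_upwards [hfat] with x hx hxb
    obtain ⟨l, hl⟩ := hx hxb
    obtain ⟨δ, hδ, -, hlim⟩ := hl 1 one_pos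
    refine ⟨l, hlim.comp ?_⟩
    rw [tendsto_nhdsWithin_iff]
    constructor
    · have : Continuous fun y : ℝ => (x : ℂ) + y * I := by fun_prop
      have h2 := this.tendsto 0
      simp only [ofReal_zero, zero_mul, add_zero] at h2
      exact h2.mono_left nhdsWithin_le_nhds
    · have h2 : ∀ᶠ y : ℝ in 𝓝[>] 0, y < δ := nhdsWithin_le_nhds (gt_mem_nhds hδ)
      filter_upwards [h2, self_mem_nhdsWithin] with y hy hy0
      have hy0' : 0 < y := hy0
      rw [LP472.mem_Cone]
      simp [hy, hy0']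
  have hae : ∀ᵐ x : ℝ, (x : ℂ) ∈ ball (c : ℂ) r → ∃ l : ℂ, ‖l‖ = 1 ∧
      Tendsto (fun y : ℝ => Ep (x + y * I)) (𝓝[>] 0) (𝓝 l) ∧
      Tendsto (fun y : ℝ => Em (x + y * I)) (𝓝[<] 0) (𝓝 l) := by
    filter_upwards [hvert, hl] with x hx1 hx2 hxb
    obtain ⟨l, hl1⟩ := hx1 hxb
    have hl2 := hx2 hxb
    have hn1 : ‖l‖ = 1 := by
      have h1 := hl1.norm
      have h2 : Tendsto (fun y : ℝ => ‖Ep (x + y * I)‖) (𝓝[>] 0) (𝓝 1) := by
        simp_rw [hnorm]
        have h3 : Tendsto (fun y : ℝ => Real.exp (h - (B (x + y * I)).im)) (𝓝[>] 0)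
            (𝓝 (Real.exp (h - h))) :=
          (Real.continuous_exp.tendsto _).comp (tendsto_const_nhds.sub hl2)
        simpa using h3
      exact tendsto_nhds_unique h1 h2
    have hl0 : l ≠ 0 := by
      intro h0; rw [h0, norm_zero] at hn1; exact zero_ne_one hn1
    refine ⟨l, hn1, hl1, ?_⟩
    have hneg : Tendsto (fun y : ℝ => -y) (𝓝[<] 0) (𝓝[>] 0) := by
      rw [tendsto_nhdsWithin_iff]
      constructor
      · have := (continuous_neg (G := ℝ)).tendsto 0
        rw [neg_zero] at this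
        exact this.mono_left nhdsWithin_le_nhds
      · filter_upwards [self_mem_nhdsWithin] with y hy
        have hy' : y < 0 := hy
        simpa using hy'
    have h1 := hl1.comp hneg
    have h2 : Tendsto (fun y : ℝ => conj (Ep (x + ((-y : ℝ) : ℂ) * I))⁻¹) (𝓝[<] 0)
        (𝓝 (conj l⁻¹)) := (Complex.continuous_conj.tendsto _).comp (h1.inv₀ hl0)
    have h3 : conj l⁻¹ = l := by
      have h4 := Complex.mul_conj' l
      rw [hn1] at h4
      rw [map_inv₀, inv_eq_iff_eq_inv]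
      apply eq_inv_of_mul_eq_one_left
      rw [mul_comm, h4]
      simp
    rw [h3] at h2
    refine h2.congr fun y => ?_
    rw [hEm]
    simp only [map_add, map_mul, Complex.conj_ofReal, Complex.conj_I]
    congr 3
    push_cast; ring
  have hEmd : ∀ z ∈ ball (c : ℂ) r, z.im < 0 → DifferentiableAt ℂ Em z := by
    intro z hz hi
    have h1 : DifferentiableAt ℂ (fun w => (Ep w)⁻¹) (conj z) :=
      (hEpd _ (hconjmem z hz) (by simpa using hi)).inv (hEpn _)
    have h2 := h1.conj_conj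
    rw [Complex.conj_conj] at h2
    rw [hEm]
    exact h2
  have hEmb : ∀ z ∈ ball (c : ℂ) r, z.im < 0 → ‖Em z‖ ≤ Real.exp (|h| + m) := by
    intro z hz hi
    rw [hEm]; simp only
    rw [Complex.norm_conj, norm_inv, hnorm, ← Real.exp_neg]
    have h1 := abs_le.1 (hb _ (hconjmem z hz) (by simpa using hi))
    have h2 := neg_abs_le h
    exact Real.exp_le_exp.2 (by linarith [h1.2])
  obtain ⟨E, hEd, hE1, hE2⟩ := glue_two hEpd hEmd hK1 hEmb (hae.mono fun x hx hxb => by
    obtain ⟨l, -, h1, h2⟩ := hx hxb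
    exact ⟨l, h1, h2⟩)
  -- modulus one on the diameter
  have hmod : ∀ x : ℝ, (x : ℂ) ∈ ball (c : ℂ) r → ‖E x‖ = 1 := by
    have hclosed : ∀ᵐ x : ℝ, (x : ℂ) ∈ ball (c : ℂ) r → ‖E x‖ = 1 := by
      filter_upwards [hae] with x hx hxb
      obtain ⟨l, hl1, hl2, -⟩ := hx hxb
      have h1 : Tendsto (fun y : ℝ => E (x + y * I)) (𝓝[>] 0) (𝓝 (E x)) := by
        have h3 := (hEd.differentiableAt (isOpen_ball.mem_nhds hxb)).continuousAt
        have h4 : Tendsto (fun y : ℝ => (x : ℂ) + y * I) (𝓝[>] 0) (𝓝 (x : ℂ)) := by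
          have : Continuous fun y : ℝ => (x : ℂ) + y * I := by fun_prop
          have h2 := this.tendsto 0
          simp only [ofReal_zero, zero_mul, add_zero] at h2
          exact h2.mono_left nhdsWithin_le_nhds
        exact h3.tendsto.comp h4
      have h2 : Tendsto (fun y : ℝ => E (x + y * I)) (𝓝[>] 0) (𝓝 l) := by
        refine hl2.congr' ?_
        have h5 : ∀ᶠ y : ℝ in 𝓝 0, ((x : ℂ) + y * I) ∈ ball (c : ℂ) r := by
          have : ContinuousAt (fun y : ℝ => (x : ℂ) + y * I) 0 := by fun_prop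
          apply this.eventually_mem
          simpa using isOpen_ball.mem_nhds hxb
        filter_upwards [h5.filter_mono nhdsWithin_le_nhds, self_mem_nhdsWithin] with y hy hy0
        exact (hE1 _ hy (by simpa using hy0)).symm
      rw [tendsto_nhds_unique h1 h2, hl1]
    intro x hxb
    by_contra hne
    have hop : IsOpen {x : ℝ | (x : ℂ) ∈ ball (c : ℂ) r ∧ ‖E x‖ ≠ 1} := by
      have h1 : ContinuousOn (fun x : ℝ => ‖E x‖) {x : ℝ | (x : ℂ) ∈ ball (c : ℂ) r} :=
        (hEd.continuousOn.comp Complex.continuous_ofReal.continuousOn fun x hx => hx).norm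
      have h2 : IsOpen {x : ℝ | (x : ℂ) ∈ ball (c : ℂ) r} :=
        isOpen_ball.preimage Complex.continuous_ofReal
      have := h1.isOpen_inter_preimage h2 (isOpen_ne (x := (1 : ℝ)))
      exact this
    have hpos := hop.measure_pos volume ⟨x, hxb, hne⟩
    rw [ae_iff] at hclosed
    have : {x : ℝ | (x : ℂ) ∈ ball (c : ℂ) r ∧ ‖E x‖ ≠ 1} =
        {a : ℝ | ¬((a : ℂ) ∈ ball (c : ℂ) r → ‖E a‖ = 1)} := by
      ext x; simp
    rw [this, hclosed] at hpos
    exact lt_irrefl _ hpos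
  have hEn : ∀ z ∈ ball (c : ℂ) r, E z ≠ 0 := by
    intro z hz
    rcases lt_trichotomy z.im 0 with h1 | h1 | h1
    · rw [hE2 z hz h1, hEm]
      simp only [ne_eq, map_eq_zero, inv_eq_zero]
      exact hEpn _
    · have : z = (z.re : ℂ) := by rw [← re_add_im z, h1]; simp
      intro h0
      have h2 := hmod z.re (by rw [← this]; exact hz)
      rw [← this, h0, norm_zero] at h2
      exact zero_ne_one h2
    · rw [hE1 z hz h1]; exact hEpn _
  obtain ⟨g, hgd, hg⟩ := exists_log_ball hr hEd hEn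
  -- the integer ambiguity
  have hint : ∀ z ∈ V, ∃ n : ℤ, g z = I * (B z - h * I) + n * (2 * π * I) := by
    intro z hz
    have h1 := hg z hz.1
    rw [hE1 z hz.1 hz.2, hEp] at h1
    exact Complex.exp_eq_exp_iff_exists_int.1 h1
  have hVne : ((c : ℂ) + (r / 2 : ℝ) * I) ∈ V := by
    refine ⟨?_, by simp; positivity⟩
    rw [mem_ball, dist_eq_norm, add_sub_cancel_left, norm_mul, Complex.norm_I, mul_one,
      Complex.norm_real, Real.norm_of_nonneg (by positivity)]
    linarith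
  obtain ⟨n₀, hn₀⟩ := hint _ hVne
  have hcont : ContinuousOn (fun z => (g z - I * (B z - h * I)) / (2 * π * I)) V := by
    refine ((hgd.continuousOn.mono inter_subset_left).sub ?_).div_const _
    intro z hz
    exact ((((hB z hz.1 hz.2).sub_const _).const_mul _).continuousAt).continuousWithinAt
  have hpi : (2 * π * I : ℂ) ≠ 0 := Complex.two_pi_I_ne_zero
  have hconst : ∀ z ∈ V, g z = I * (B z - h * I) + n₀ * (2 * π * I) := by
    have hpc : IsPreconnected V := convex_upper.isPreconnected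
    have himg := hpc.image _ hcont
    have hsub : (fun z => (g z - I * (B z - h * I)) / (2 * π * I)) '' V ⊆
        range (fun n : ℤ => (n : ℂ)) := by
      rintro _ ⟨z, hz, rfl⟩
      obtain ⟨n, hn⟩ := hint z hz
      refine ⟨n, ?_⟩
      show (n : ℂ) = (g z - I * (B z - h * I)) / (2 * π * I)
      rw [hn, eq_div_iff hpi]; ring
    have hdisc : (range (fun n : ℤ => (n : ℂ))).Countable := countable_range _
    have hss := (hdisc.mono hsub).isTotallyDisconnected
    have hsing := hss _ subset_rfl himg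
    intro z hz
    have h1 : (g z - I * (B z - h * I)) / (2 * π * I) =
        (g ((c : ℂ) + (r / 2 : ℝ) * I) - I * (B ((c : ℂ) + (r / 2 : ℝ) * I) - h * I)) /
          (2 * π * I) := hsing (mem_image_of_mem _ hz) (mem_image_of_mem _ hVne)
    rw [hn₀, div_left_inj' hpi] at h1
    have h2 : g z - I * (B z - h * I) = n₀ * (2 * π * I) := by
      linear_combination h1
    linear_combination h2
  obtain ⟨F, hFd⟩ : ∃ F : ℂ → ℂ, F = fun z => -I * (g z - n₀ * (2 * π * I)) + h * I := ⟨_, rfl⟩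
  have hFD : DifferentiableOn ℂ F (ball (c : ℂ) r) := by
    rw [hFd]
    exact ((hgd.sub_const _).const_mul _).add_const _
  have hFim : ∀ x : ℝ, (x : ℂ) ∈ ball (c : ℂ) r → (F x).im = h := by
    intro x hx
    have h1 := hmod x hx
    rw [← hg x hx, Complex.norm_exp, Real.exp_eq_one_iff] at h1
    rw [hFd]
    simp [h1]
  refine ⟨F, hFD, ?_, hFim, ?_⟩
  · intro z hz hi
    rw [hFd]; simp only
    rw [hconst z ⟨hz, hi⟩]
    linear_combination (-(B z - h * I)) * Complex.I_sq
  · -- symmetry by the identity theorem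
    obtain ⟨F2, hF2⟩ : ∃ F2 : ℂ → ℂ, F2 = fun z => conj (F (conj z)) + 2 * h * I := ⟨_, rfl⟩
    have hF2d : DifferentiableOn ℂ F2 (ball (c : ℂ) r) := by
      intro z hz
      have h1 := (hFD.differentiableAt (isOpen_ball.mem_nhds (hconjmem z hz))).conj_conj
      rw [Complex.conj_conj] at h1
      rw [hF2]
      exact (h1.add_const _).differentiableWithinAt
    have heq : EqOn F F2 (ball (c : ℂ) r) := by
      refine (hFD.analyticOnNhd isOpen_ball).eqOn_of_preconnected_of_frequently_eq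
        (hF2d.analyticOnNhd isOpen_ball) (convex_ball _ _).isPreconnected (mem_ball_self hr) ?_
      have h1 : Tendsto (fun t : ℝ => ((c + t : ℝ) : ℂ)) (𝓝[>] 0) (𝓝[≠] (c : ℂ)) := by
        rw [tendsto_nhdsWithin_iff]
        constructor
        · have : Continuous fun t : ℝ => ((c + t : ℝ) : ℂ) := by fun_prop
          have h2 := this.tendsto 0
          rw [add_zero] at h2
          exact h2.mono_left nhdsWithin_le_nhds
        · filter_upwards [self_mem_nhdsWithin] with t ht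
          have ht' : 0 < t := ht
          simp [ht'.ne']
      refine h1.frequently (Eventually.frequently ?_)
      have h3 : ∀ᶠ t : ℝ in 𝓝[>] 0, t < r := nhdsWithin_le_nhds (gt_mem_nhds hr)
      filter_upwards [h3, self_mem_nhdsWithin] with t ht ht0
      have ht0' : 0 < t := ht0
      have hm : ((c + t : ℝ) : ℂ) ∈ ball (c : ℂ) r := by
        rw [mem_ball, dist_eq_norm, ← Complex.ofReal_sub, Complex.norm_real, add_sub_cancel_left,
          Real.norm_of_nonneg ht0'.le]
        exact ht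
      rw [hF2]
      simp only [Complex.conj_ofReal]
      have h5 := hFim (c + t) hm
      apply Complex.ext
      · simp
      · simp only [Complex.add_im, Complex.conj_im, h5]
        simp
        ring
    intro z hz
    have h1 := heq (hconjmem z hz)
    rw [h1, hF2]
    simp only [Complex.conj_conj]

/-- **Hopf**: a holomorphic function with `Im F = h` on the real line and `Im F > h` above has a
positive derivative on the line. -/
theorem hopf_upper {F : ℂ → ℂ} {x₀ h : ℝ} (hF : AnalyticAt ℂ F x₀)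
    (hr : ∀ᶠ x : ℝ in 𝓝 x₀, (F x).im = h) (hp : ∀ᶠ z in 𝓝 (x₀ : ℂ), 0 < z.im → h < (F z).im) :
    (deriv F x₀).im = 0 ∧ 0 < (deriv F x₀).re := by
  have hd := hF.differentiableAt.hasDerivAt
  have him : (deriv F x₀).im = 0 := by
    have h1 : HasDerivAt (fun x : ℝ => F x) (deriv F x₀) x₀ := hd.comp_ofReal
    have h2 : HasDerivAt (fun x : ℝ => (F x).im) (deriv F x₀).im x₀ := by
      have := (Complex.imCLM.hasFDerivAt (x := F x₀)).comp_hasDerivAt x₀ h1
      exact this
    have h3 : HasDerivAt (fun x : ℝ => (F x).im) 0 x₀ :=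
      (hasDerivAt_const x₀ h).congr_of_eventuallyEq hr
    exact h2.unique h3
  have hvert : Tendsto (fun y : ℝ => (x₀ : ℂ) + y * I) (𝓝[>] 0) (𝓝 (x₀ : ℂ)) := by
    have : Continuous fun y : ℝ => (x₀ : ℂ) + y * I := by fun_prop
    have h2 := this.tendsto 0
    simp only [ofReal_zero, zero_mul, add_zero] at h2
    exact h2.mono_left nhdsWithin_le_nhds
  have hne : deriv F x₀ ≠ 0 := by
    intro h0
    have hf0 : AnalyticAt ℂ (fun z => F z - F x₀) x₀ := hF.sub analyticAt_const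
    rcases hf0.eventually_eq_zero_or_eventually_ne_zero with hz | hz
    · have h1 := hvert.eventually (hz.and hp)
      obtain ⟨y, ⟨hy1, hy2⟩, hy0⟩ := (h1.and self_mem_nhdsWithin).exists
      have hy0' : 0 < y := hy0
      have h2 := hy2 (by simpa using hy0')
      have h3 := congrArg Complex.im hy1
      rw [Complex.sub_im, hr.self_of_nhds] at h3
      simp at h3
      linarith
    · have hnz : ¬∀ᶠ z in 𝓝 (x₀ : ℂ), (fun z => F z - F x₀) z = 0 := by
        intro h1
        have h2 := (h1.filter_mono nhdsWithin_le_nhds).and hz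
        obtain ⟨w, hw1, hw2⟩ := h2.exists
        exact hw2 hw1
      obtain ⟨k, u, hu, hu0, hk⟩ := hf0.exists_eventuallyEq_pow_smul_nonzero_iff.2 hnz
      have hk2 : 2 ≤ k := by
        by_contra hlt
        have hcases : k = 0 ∨ k = 1 := by omega
        rcases hcases with rfl | rfl
        · have := hk.self_of_nhds
          simp at this
          exact hu0 this.symm
        · have h1 : (fun z => F z - F x₀) =ᶠ[𝓝 (x₀ : ℂ)] fun z => (z - x₀) ^ 1 • u z := hk
          have h2 := h1.deriv_eq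
          have h3 : deriv (fun z => F z - F x₀) x₀ = deriv F x₀ := by
            rw [deriv_sub_const]
          have h4 : HasDerivAt (fun z : ℂ => (z - x₀) ^ 1 • u z) (u x₀) (x₀ : ℂ) := by
            have h5 := ((hasDerivAt_id (x₀ : ℂ)).sub_const (x₀ : ℂ)).mul
              hu.differentiableAt.hasDerivAt
            refine (h5.congr_deriv ?_).congr_of_eventuallyEq (Eventually.of_forall fun z => ?_)
            · simp
            · simp
          rw [h3, h4.deriv, h0] at h2
          exact hu0 h2.symm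
      -- directions
      have hdir : ∀ θ : ℝ, 0 < θ → θ < π → 0 ≤ (cexp (k * θ * I) * u x₀).im := by
        intro θ h1 h2
        have hsin := Real.sin_pos_of_pos_of_lt_pi h1 h2
        have hray : Tendsto (fun t : ℝ => (x₀ : ℂ) + t * cexp (θ * I)) (𝓝[>] 0) (𝓝 (x₀ : ℂ)) := by
          have : Continuous fun t : ℝ => (x₀ : ℂ) + t * cexp (θ * I) := by fun_prop
          have h2 := this.tendsto 0
          simp only [ofReal_zero, zero_mul, add_zero] at h2
          exact h2.mono_left nhdsWithin_le_nhds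
        have h3 : Tendsto (fun t : ℝ => (cexp (k * θ * I) * u ((x₀ : ℂ) + t * cexp (θ * I))).im)
            (𝓝[>] 0) (𝓝 (cexp (k * θ * I) * u x₀).im) := by
          have h4 := (hu.continuousAt.tendsto.comp hray).const_mul (cexp (k * θ * I))
          exact (Complex.continuous_im.tendsto _).comp h4
        refine ge_of_tendsto h3 ?_
        filter_upwards [hray.eventually (hk.and hp), self_mem_nhdsWithin] with t ht ht0
        have ht0' : 0 < t := ht0
        obtain ⟨ht1, ht2⟩ := ht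
        have h5 : 0 < ((x₀ : ℂ) + t * cexp (θ * I)).im := by
          have : ((x₀ : ℂ) + t * cexp (θ * I)).im = t * Real.sin θ := by
            rw [Complex.add_im, Complex.ofReal_im, Complex.im_ofReal_mul,
              Complex.exp_ofReal_mul_I_im]
            ring
          rw [this]; positivity
        have h6 := ht2 h5
        have h7 := congrArg Complex.im ht1
        rw [Complex.sub_im, hr.self_of_nhds, add_sub_cancel_left, mul_pow, ← Complex.exp_nat_mul,
          smul_eq_mul] at h7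
        have h8 : ((t : ℂ) ^ k * cexp ((k : ℂ) * (θ * I)) * u ((x₀ : ℂ) + t * cexp (θ * I))).im =
            t ^ k * (cexp (k * θ * I) * u ((x₀ : ℂ) + t * cexp (θ * I))).im := by
          rw [show ((k : ℂ) * (θ * I)) = k * θ * I by ring, mul_assoc, ← Complex.ofReal_pow,
            Complex.im_ofReal_mul]
        rw [h8] at h7
        have h9 : 0 < t ^ k * (cexp (k * θ * I) * u ((x₀ : ℂ) + t * cexp (θ * I))).im := by
          rw [← h7]; linarith
        exact (pos_of_mul_pos_right h9 (by positivity)).le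
      have hkr : (2 : ℝ) ≤ k := by exact_mod_cast hk2
      have hk0 : (k : ℝ) ≠ 0 := by positivity
      have hpi := Real.pi_pos
      have key : ∀ a : ℝ, 0 < a → a ≤ π / 2 → (cexp (a * I) * u x₀).im = 0 := by
        intro a ha1 ha2
        have e1 := hdir (a / k) (by positivity) (by
          rw [div_lt_iff₀ (by positivity)]; nlinarith)
        have e2 := hdir ((a + π) / k) (by positivity) (by
          rw [div_lt_iff₀ (by positivity)]; nlinarith)
        have e3 : (k : ℂ) * ((a / k : ℝ) : ℂ) * I = a * I := by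
          have : (k : ℂ) ≠ 0 := by exact_mod_cast hk0
          push_cast; field_simp
        have e4 : (k : ℂ) * (((a + π) / k : ℝ) : ℂ) * I = a * I + π * I := by
          have : (k : ℂ) ≠ 0 := by exact_mod_cast hk0
          push_cast; field_simp
        rw [e3] at e1
        rw [e4, Complex.exp_add, Complex.exp_pi_mul_I] at e2
        have e5 : (cexp (a * I) * -1 * u x₀).im = -(cexp (a * I) * u x₀).im := by
          rw [show cexp (a * I) * -1 * u x₀ = -(cexp (a * I) * u x₀) by ring, Complex.neg_im]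
        rw [e5] at e2
        linarith
      have k1 := key (π / 2) (by positivity) le_rfl
      have k2 := key (π / 4) (by positivity) (by linarith)
      rw [show (((π / 2 : ℝ) : ℂ) * I) = π / 2 * I by push_cast; rfl, Complex.exp_pi_div_two_mul_I,
        Complex.mul_im] at k1
      rw [Complex.mul_im, Complex.exp_ofReal_mul_I_re, Complex.exp_ofReal_mul_I_im,
        Real.cos_pi_div_four, Real.sin_pi_div_four] at k2
      simp at k1
      rw [k1] at k2
      have hs : (0 : ℝ) < √2 / 2 := by positivity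
      have k3 : (u x₀).im = 0 := by
        rcases mul_eq_zero.1 (show √2 / 2 * (u x₀).im = 0 by linarith) with h | h
        · exact absurd h hs.ne'
        · exact h
      exact hu0 (Complex.ext k1 k3)
  refine ⟨him, lt_of_le_of_ne ?_ ?_⟩
  · -- nonnegative
    have h1 : HasDerivAt (fun y : ℝ => F ((x₀ : ℂ) + y * I)) (deriv F x₀ * I) 0 := by
      have h2 : HasDerivAt (fun y : ℝ => (x₀ : ℂ) + y * I) I 0 := by
        have := ((Complex.ofRealCLM.hasDerivAt (x := (0 : ℝ))).mul_const I).const_add (x₀ : ℂ)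
        simpa using this
      have h3 : HasDerivAt F (deriv F x₀) ((x₀ : ℂ) + ((0 : ℝ) : ℂ) * I) := by simpa using hd
      exact h3.comp (0 : ℝ) h2
    have h2 : HasDerivAt (fun y : ℝ => (F ((x₀ : ℂ) + y * I)).im) (deriv F x₀).re 0 := by
      have := (Complex.imCLM.hasFDerivAt (x := F ((x₀ : ℂ) + ((0 : ℝ) : ℂ) * I))).comp_hasDerivAt
        (0 : ℝ) h1
      refine this.congr_deriv ?_
      simp
    have h3 := h2.tendsto_slope_zero_right
    refine ge_of_tendsto h3 ?_
    filter_upwards [hvert.eventually hp, self_mem_nhdsWithin] with y hy hy0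
    have hy0' : 0 < y := hy0
    have h4 := hy (by simpa using hy0')
    have h5 : (F ((x₀ : ℂ) + ((0 : ℝ) : ℂ) * I)).im = h := by
      simpa using hr.self_of_nhds
    rw [zero_add, smul_eq_mul, h5]
    have h6 : 0 < y⁻¹ := inv_pos.2 hy0'
    exact (mul_pos h6 (by linarith)).le
  · intro h0
    exact hne (Complex.ext h0.symm him)

/-- **(REFL)**, lower half disc. -/
theorem refl_lower {c r m h : ℝ} {B : ℂ → ℂ}
    (hB : ∀ z ∈ ball (c : ℂ) r, z.im < 0 → DifferentiableAt ℂ B z)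
    (hb : ∀ z ∈ ball (c : ℂ) r, z.im < 0 → |(B z).im| ≤ m)
    (hl : ∀ᵐ x : ℝ, (x : ℂ) ∈ ball (c : ℂ) r →
      Tendsto (fun y : ℝ => (B (x + y * I)).im) (𝓝[<] 0) (𝓝 h)) :
    ∃ F : ℂ → ℂ, DifferentiableOn ℂ F (ball (c : ℂ) r) ∧
      (∀ z ∈ ball (c : ℂ) r, z.im < 0 → F z = B z) ∧
      (∀ x : ℝ, (x : ℂ) ∈ ball (c : ℂ) r → (F x).im = h) ∧
      ∀ z ∈ ball (c : ℂ) r, F (conj z) = conj (F z) + 2 * h * I := by
  have hconjmem : ∀ z ∈ ball (c : ℂ) r, conj z ∈ ball (c : ℂ) r := by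
    intro z hz
    rw [mem_ball, dist_eq_norm] at hz ⊢
    rw [← Complex.norm_conj, map_sub, Complex.conj_conj, Complex.conj_ofReal]
    exact hz
  obtain ⟨F, hF, h1, h2, h3⟩ := refl_upper (c := c) (r := r) (m := m) (h := -h)
    (B := fun z => conj (B (conj z)))
    (fun z hz hi => by
      have h1 : DifferentiableAt ℂ B (conj z) := hB _ (hconjmem z hz) (by simpa using hi)
      have h2 := h1.conj_conj
      rw [Complex.conj_conj] at h2
      exact h2)
    (fun z hz hi => by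
      have h1 := hb _ (hconjmem z hz) (by simpa using hi)
      simpa using h1)
    (by
      filter_upwards [hl] with x hx hxb
      have hneg : Tendsto (fun y : ℝ => -y) (𝓝[>] 0) (𝓝[<] 0) := by
        rw [tendsto_nhdsWithin_iff]
        constructor
        · have := (continuous_neg (G := ℝ)).tendsto 0
          rw [neg_zero] at this
          exact this.mono_left nhdsWithin_le_nhds
        · filter_upwards [self_mem_nhdsWithin] with y hy
          have hy' : 0 < y := hy
          simpa using hy'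
      have h4 := ((hx hxb).comp hneg).neg
      refine h4.congr fun y => ?_
      simp)
  refine ⟨fun z => conj (F (conj z)), ?_, ?_, ?_, ?_⟩
  · intro z hz
    have h4 := (hF.differentiableAt (isOpen_ball.mem_nhds (hconjmem z hz))).conj_conj
    rw [Complex.conj_conj] at h4
    exact h4.differentiableWithinAt
  · intro z hz hi
    show conj (F (conj z)) = B z
    rw [h1 _ (hconjmem z hz) (by simpa using hi)]
    simp
  · intro x hx
    simp only [Complex.conj_ofReal, Complex.conj_im]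
    rw [h2 x hx]; ring
  · intro z hz
    have h4 := h3 (conj z) (hconjmem z hz)
    rw [Complex.conj_conj] at h4
    show conj (F (conj (conj z))) = conj (conj (F (conj z))) + 2 * h * I
    rw [Complex.conj_conj, h4]
    simp only [map_add, Complex.conj_conj, map_mul, Complex.conj_ofReal, Complex.conj_I]
    push_cast
    simp only [map_ofNat]
    ring

/-- **Hopf**, lower side. -/
theorem hopf_lower {F : ℂ → ℂ} {x₀ h : ℝ} (hF : AnalyticAt ℂ F x₀)
    (hr : ∀ᶠ x : ℝ in 𝓝 x₀, (F x).im = h) (hp : ∀ᶠ z in 𝓝 (x₀ : ℂ), z.im < 0 → (F z).im < h) :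
    (deriv F x₀).im = 0 ∧ 0 < (deriv F x₀).re := by
  have h1 : AnalyticAt ℂ (fun z => -F (2 * x₀ - z)) x₀ := by
    have h2 : AnalyticAt ℂ (fun z : ℂ => 2 * (x₀ : ℂ) - z) x₀ := analyticAt_const.sub analyticAt_id
    have h3 : AnalyticAt ℂ F ((fun z : ℂ => 2 * (x₀ : ℂ) - z) x₀) := by
      simpa [two_mul] using hF
    exact (h3.comp h2).neg
  have hr' : ∀ᶠ x : ℝ in 𝓝 x₀, (-F (2 * x₀ - x)).im = -h := by
    have h2 : Tendsto (fun x : ℝ => 2 * x₀ - x) (𝓝 x₀) (𝓝 x₀) := by
      have : Continuous fun x : ℝ => 2 * x₀ - x := by fun_prop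
      simpa [two_mul] using this.tendsto x₀
    filter_upwards [h2.eventually hr] with x hx
    rw [Complex.neg_im]
    rw [← hx]; push_cast; rfl
  have hp' : ∀ᶠ z in 𝓝 (x₀ : ℂ), 0 < z.im → -h < (-F (2 * x₀ - z)).im := by
    have h2 : Tendsto (fun z : ℂ => 2 * (x₀ : ℂ) - z) (𝓝 (x₀ : ℂ)) (𝓝 (x₀ : ℂ)) := by
      have : Continuous fun z : ℂ => 2 * (x₀ : ℂ) - z := by fun_prop
      simpa [two_mul] using this.tendsto (x₀ : ℂ)
    filter_upwards [h2.eventually hp] with z hz hi
    rw [Complex.neg_im]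
    have := hz (by simp [hi])
    linarith
  have h4 := hopf_upper h1 hr' hp'
  have h5 : deriv (fun z => -F (2 * x₀ - z)) (x₀ : ℂ) = deriv F x₀ := by
    have h6 : HasDerivAt F (deriv F x₀) (2 * (x₀ : ℂ) - x₀) := by
      simpa [two_mul] using hF.differentiableAt.hasDerivAt
    have h7 : HasDerivAt (fun z : ℂ => -F (2 * x₀ - z)) (-(deriv F x₀ * -1)) (x₀ : ℂ) :=
      (h6.comp (x₀ : ℂ) ((hasDerivAt_id (x₀ : ℂ)).const_sub (2 * (x₀ : ℂ)))).neg
    rw [h7.deriv]; ring
  rw [h5] at h4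
  exact h4

end Crest.Agent.R102.Refl812
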