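import Crest.Agent.R102.HartR_948
import Crest.Agent.R102.Refl_812

/-!
Row 102, T1-B, step 6 of R1_523 (helper811): joint Schwarz reflection.

`D` open in `ℂ × ℂ` (coordinates `(t, w)`), `B` holomorphic on `D` with bounded imaginary part; for
`u ∈ F` the slice of `D` at `w = u` contains the rectangle below the height `U u`, and `Im B → h`
along a.e. vertical line of the slice.  Then for a.e. `u ∈ F` the function `B` extends
holomorphically to a full neighbourhood of every point `(x₀ + i U(u), u)`, `a < x₀ < b`.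
No regularity of `U` or `F` is needed.
-/

set_option autoImplicit false

open Set Filter Topology Metric MeasureTheory Complex
open scoped Real ComplexConjugate

noncomputable section

namespace Crest.Agent.R102.Step6811

/-- extension of one slice by reflection -/
theorem slice_ext {D : Set (ℂ × ℂ)} (hD : IsOpen D) {B : ℂ × ℂ → ℂ} (hB : DifferentiableOn ℂ B D)
    {m h a b d : ℝ} (hm : ∀ q ∈ D, |(B q).im| ≤ m) {V u : ℝ}
    (hsl : ∀ t : ℂ, a < t.re → t.re < b → V - d < t.im → t.im < V → (t, (u : ℂ)) ∈ D)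
    (hbd : ∀ᵐ x : ℝ, x ∈ Ioo a b →
      Tendsto (fun y : ℝ => (B ((x : ℂ) + ((V - y : ℝ) : ℂ) * I, (u : ℂ))).im) (𝓝[>] 0) (𝓝 h))
    {x0 ρ : ℝ} (h1 : a ≤ x0 - ρ) (h2 : x0 + ρ ≤ b) (h3 : ρ ≤ d) :
    ∃ F : ℂ → ℂ, DifferentiableOn ℂ F (ball (x0 : ℂ) ρ) ∧
      (∀ z ∈ ball (x0 : ℂ) ρ, z.im < 0 → F z = B (z + (V : ℂ) * I, (u : ℂ))) ∧
      (∀ x : ℝ, (x : ℂ) ∈ ball (x0 : ℂ) ρ → (F x).im = h) := by
  have hmem : ∀ z ∈ ball (x0 : ℂ) ρ, z.im < 0 → (z + (V : ℂ) * I, (u : ℂ)) ∈ D := by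
    intro z hz hi
    rw [mem_ball, dist_eq_norm] at hz
    have e1 := (abs_lt.1 ((Complex.abs_re_le_norm (z - x0)).trans_lt hz))
    have e2 := (abs_lt.1 ((Complex.abs_im_le_norm (z - x0)).trans_lt hz))
    simp only [sub_re, ofReal_re, sub_im, ofReal_im, sub_zero] at e1 e2
    apply hsl
    · simp only [add_re, mul_re, ofReal_re, I_re, ofReal_im, I_im]; linarith [e1.1]
    · simp only [add_re, mul_re, ofReal_re, I_re, ofReal_im, I_im]; linarith [e1.2]
    · simp only [add_im, mul_im, ofReal_re, I_re, ofReal_im, I_im]; linarith [e2.1]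
    · simp only [add_im, mul_im, ofReal_re, I_re, ofReal_im, I_im]; linarith [e2.1]
  obtain ⟨F, hF1, hF2, hF3, -⟩ := Refl812.refl_lower (c := x0) (r := ρ) (m := m) (h := h)
    (B := fun z => B (z + (V : ℂ) * I, (u : ℂ)))
    (fun z hz hi => by
      have := hB.differentiableAt (hD.mem_nhds (hmem z hz hi))
      exact this.comp z (by fun_prop : DifferentiableAt ℂ (fun z : ℂ => (z + (V : ℂ) * I, (u : ℂ))) z))
    (fun z hz hi => hm _ (hmem z hz hi))
    (by
      filter_upwards [hbd] with x hx hxb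
      have hxab : x ∈ Ioo a b := by
        rw [mem_ball, dist_eq_norm] at hxb
        have e1 := (abs_lt.1 ((Complex.abs_re_le_norm ((x : ℂ) - x0)).trans_lt hxb))
        simp only [sub_re, ofReal_re] at e1
        constructor <;> linarith [e1.1, e1.2]
      have hneg : Tendsto (fun y : ℝ => -y) (𝓝[<] 0) (𝓝[>] 0) := by
        have h4 : Tendsto (fun y : ℝ => -y) (𝓝[<] 0) (𝓝 0) := by
          have : Tendsto (fun y : ℝ => -y) (𝓝 0) (𝓝 (-0)) := continuous_neg.tendsto 0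
          rw [neg_zero] at this
          exact this.mono_left nhdsWithin_le_nhds
        refine tendsto_nhdsWithin_iff.2 ⟨h4, ?_⟩
        filter_upwards [self_mem_nhdsWithin] with y hy
        exact neg_pos.2 (mem_Iio.1 hy)
      refine ((hx hxab).comp hneg).congr fun y => ?_
      simp only [Function.comp_apply]
      congr 3
      push_cast
      ring)
  exact ⟨F, hF1, hF2, hF3⟩

/-- the set of `w` such that a closed disc in the `t`-direction lies in `D` -/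
def W (D : Set (ℂ × ℂ)) (t0 : ℂ) (r : ℝ) : Set ℂ := {w | ∀ t ∈ closedBall t0 r, (t, w) ∈ D}

/-- tube lemma in the form used here -/
theorem tube {D : Set (ℂ × ℂ)} (hD : IsOpen D) {K : Set ℂ} (hK : IsCompact K) {w : ℂ}
    (h : ∀ t ∈ K, (t, w) ∈ D) : ∃ δ > 0, ∀ t, t ∈ Metric.thickening δ K → ∀ v ∈ ball w δ,
      (t, v) ∈ D := by
  obtain ⟨A, V, hA, hV, hKA, hwV, hAV⟩ := generalized_tube_lemma hK (isCompact_singleton (x := w))
    hD (by rintro ⟨t, v⟩ ⟨ht, hv⟩; rw [mem_singleton_iff] at hv; subst hv; exact h t ht)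
  obtain ⟨δ1, hδ1, h1⟩ := hK.exists_thickening_subset_open hA hKA
  obtain ⟨δ2, hδ2, h2⟩ := Metric.isOpen_iff.1 hV w (hwV rfl)
  refine ⟨min δ1 δ2, lt_min hδ1 hδ2, fun t ht v hv => hAV ⟨h1 ?_, h2 ?_⟩⟩
  · exact Metric.thickening_mono (min_le_left _ _) _ ht
  · exact ball_subset_ball (min_le_right _ _) hv

theorem isOpen_W {D : Set (ℂ × ℂ)} (hD : IsOpen D) (t0 : ℂ) (r : ℝ) : IsOpen (W D t0 r) := by
  rw [Metric.isOpen_iff]
  intro w hw
  obtain ⟨δ, hδ, h⟩ := tube hD (isCompact_closedBall t0 r) hw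
  exact ⟨δ, hδ, fun v hv t ht => h t (Metric.self_subset_thickening hδ _ ht) v hv⟩

/-- identity theorem along a segment -/
theorem segment_eq {O : Set (ℂ × ℂ)} (hO : IsOpen O) {f g : ℂ × ℂ → ℂ}
    (hf : AnalyticOnNhd ℂ f O) (hg : AnalyticOnNhd ℂ g O) {t0 t w : ℂ}
    (hseg : ∀ s ∈ segment ℝ t0 t, (s, w) ∈ O) (heq : ∀ᶠ q in 𝓝 (t0, w), f q = g q) :
    ∀ᶠ q in 𝓝 (t, w), f q = g q := by
  have hK : IsCompact (segment ℝ t0 t) := by
    rw [segment_eq_image ℝ t0 t]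
    exact isCompact_Icc.image (by fun_prop)
  obtain ⟨δ, hδ, h⟩ := tube hO hK hseg
  set P : Set (ℂ × ℂ) := Metric.thickening δ (segment ℝ t0 t) ×ˢ ball w δ with hP
  have hPO : P ⊆ O := by
    rintro ⟨s, v⟩ ⟨hs, hv⟩
    exact h s hs v hv
  have hPopen : IsOpen P := Metric.isOpen_thickening.prod isOpen_ball
  have hPconv : Convex ℝ P := ((convex_segment t0 t).thickening δ).prod (convex_ball w δ)
  have h0P : (t0, w) ∈ P :=
    ⟨Metric.self_subset_thickening hδ _ (left_mem_segment ℝ t0 t), mem_ball_self hδ⟩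
  have h1P : (t, w) ∈ P :=
    ⟨Metric.self_subset_thickening hδ _ (right_mem_segment ℝ t0 t), mem_ball_self hδ⟩
  have := (hf.mono hPO).eqOn_of_preconnected_of_eventuallyEq (hg.mono hPO)
    hPconv.isPreconnected h0P heq
  filter_upwards [hPopen.mem_nhds h1P] with q hq
  exact this hq

/-- the output data of step 6 at the point `(x₀ + i V, u)` -/
structure Ext (D : Set (ℂ × ℂ)) (B : ℂ × ℂ → ℂ) (h V u x0 r : ℝ) (Bt : ℂ × ℂ → ℂ) : Prop where
  an : AnalyticOnNhd ℂ Bt (ball ((x0 : ℂ) + (V : ℂ) * I) r ×ˢ ball (u : ℂ) r)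
  low : ∀ t ∈ ball ((x0 : ℂ) + (V : ℂ) * I) r, t.im < V →
    ∀ᶠ q in 𝓝 (t, (u : ℂ)), q ∈ D ∧ Bt q = B q
  real : ∀ x : ℝ, (x : ℂ) + (V : ℂ) * I ∈ ball ((x0 : ℂ) + (V : ℂ) * I) r →
    (Bt ((x : ℂ) + (V : ℂ) * I, (u : ℂ))).im = h
  hopf : (∀ q ∈ D, (B q).im < h) →
    (deriv (fun t => Bt (t, (u : ℂ))) ((x0 : ℂ) + (V : ℂ) * I)).im = 0 ∧
    0 < (deriv (fun t => Bt (t, (u : ℂ))) ((x0 : ℂ) + (V : ℂ) * I)).re

theorem Ext.mono {D : Set (ℂ × ℂ)} {B : ℂ × ℂ → ℂ} {h V u x0 r r' : ℝ} {Bt : ℂ × ℂ → ℂ}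
    (hE : Ext D B h V u x0 r Bt) (hr : r' ≤ r) : Ext D B h V u x0 r' Bt :=
  ⟨hE.an.mono (prod_mono (ball_subset_ball hr) (ball_subset_ball hr)),
    fun t ht => hE.low t (ball_subset_ball hr ht), fun x hx => hE.real x (ball_subset_ball hr hx),
    hE.hopf⟩

/-- **STEP 6** (joint Schwarz reflection). -/
theorem step6 {D : Set (ℂ × ℂ)} (hD : IsOpen D) {B : ℂ × ℂ → ℂ} (hB : DifferentiableOn ℂ B D)
    {m h a b d : ℝ} (hd : 0 < d) (hm : ∀ q ∈ D, |(B q).im| ≤ m) {U : ℝ → ℝ} {F : Set ℝ}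
    (hsl : ∀ u ∈ F, ∀ t : ℂ, a < t.re → t.re < b → U u - d < t.im → t.im < U u →
      (t, (u : ℂ)) ∈ D)
    (hbd : ∀ u ∈ F, ∀ᵐ x : ℝ, x ∈ Ioo a b →
      Tendsto (fun y : ℝ => (B ((x : ℂ) + ((U u - y : ℝ) : ℂ) * I, (u : ℂ))).im) (𝓝[>] 0) (𝓝 h)) :
    ∀ᵐ u : ℝ, u ∈ F → ∀ x0 ∈ Ioo a b, ∃ r > 0, ∃ Bt : ℂ × ℂ → ℂ, Ext D B h (U u) u x0 r Bt := by
  have hBan : AnalyticOnNhd ℂ B D := R266.SCV.analyticOnNhd_of_differentiableOn hD hB
  -- the countable family
  set FF : ℂ → ℝ → ℝ → Set ℝ := fun t0 s R => {u | u ∈ F ∧ (u : ℂ) ∈ W D t0 s ∧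
    ∃ g : ℂ → ℂ, DifferentiableOn ℂ g (ball t0 R) ∧ ∀ᶠ t in 𝓝 t0, g t = B (t, (u : ℂ))} with hFF
  have hae : ∀ q1 q2 s R : ℚ, ∀ᵐ u : ℝ, (0 : ℝ) < s →
      u ∈ FF ((q1 : ℂ) + (q2 : ℂ) * I) s R → ∀ R' < (R : ℝ), ∀ ε > 0, ∃ r > 0, r < ε ∧
        ball (u : ℂ) r ⊆ W D ((q1 : ℂ) + (q2 : ℂ) * I) s ∧ ∃ G : ℂ × ℂ → ℂ,
        AnalyticOnNhd ℂ G (ball (u : ℂ) r ×ˢ ball ((q1 : ℂ) + (q2 : ℂ) * I) R') ∧
        ∀ w ∈ ball (u : ℂ) r, ∀ t ∈ ball ((q1 : ℂ) + (q2 : ℂ) * I) (min (s : ℝ) R'),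
          G (w, t) = B (t, w) := by
    intro q1 q2 s R
    by_cases hs : (0 : ℝ) < s
    · have h1 := M948.extend_ae (f := fun p : ℂ × ℂ => B (p.2, p.1))
        (isOpen_W hD ((q1 : ℂ) + (q2 : ℂ) * I) s) (t0 := (q1 : ℂ) + (q2 : ℂ) * I) hs
        (by
          have h2 : DifferentiableOn ℂ (fun p : ℂ × ℂ => ((p.2, p.1) : ℂ × ℂ))
              (W D ((q1 : ℂ) + (q2 : ℂ) * I) s ×ˢ ball ((q1 : ℂ) + (q2 : ℂ) * I) s) := by fun_prop
          exact hB.comp h2 (fun p hp => hp.1 p.2 (ball_subset_closedBall hp.2)))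
        (R := R) (F := FF ((q1 : ℂ) + (q2 : ℂ) * I) s R)
        (fun u hu => ⟨hu.2.1, hu.2.2⟩)
      filter_upwards [h1] with u hu _ using hu
    · exact Eventually.of_forall fun u hs' => absurd hs' hs
  have hae' := ae_all_iff.2 fun q1 => ae_all_iff.2 fun q2 => ae_all_iff.2 fun s =>
    ae_all_iff.2 fun R => hae q1 q2 s R
  filter_upwards [hae'] with u hu huF x0 hx0
  set V := U u with hV
  set ρ : ℝ := min (min (x0 - a) (b - x0)) d with hρ
  have hρ0 : 0 < ρ := lt_min (lt_min (sub_pos.2 hx0.1) (sub_pos.2 hx0.2)) hd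
  have hρa : a ≤ x0 - ρ := by
    have : ρ ≤ x0 - a := (min_le_left _ _).trans (min_le_left _ _)
    linarith
  have hρb : x0 + ρ ≤ b := by
    have : ρ ≤ b - x0 := (min_le_left _ _).trans (min_le_right _ _)
    linarith
  have hρd : ρ ≤ d := min_le_right _ _
  obtain ⟨g, hg1, hg2, hg3⟩ := slice_ext hD hB hm (hsl u huF) (hbd u huF) hρa hρb hρd
  set c : ℂ := (x0 : ℂ) + (V : ℂ) * I with hc
  -- rational data
  obtain ⟨q1, hq1a, hq1b⟩ := exists_rat_btwn (show x0 - ρ / 32 < x0 + ρ / 32 by linarith)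
  obtain ⟨q2, hq2a, hq2b⟩ := exists_rat_btwn
    (show V - ρ / 4 - ρ / 32 < V - ρ / 4 + ρ / 32 by linarith)
  obtain ⟨s, hs0, hs1⟩ := exists_rat_btwn (show (0 : ℝ) < ρ / 16 by positivity)
  obtain ⟨R, hRa, hRb⟩ := exists_rat_btwn (show 10 * ρ / 16 < 11 * ρ / 16 by linarith)
  set t0 : ℂ := (q1 : ℂ) + (q2 : ℂ) * I with ht0
  have ht0re : t0.re = q1 := by simp [ht0]
  have ht0im : t0.im = q2 := by simp [ht0]
  have hcre : c.re = x0 := by simp [hc]
  have hcim : c.im = V := by simp [hc]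
  have ht0c : ‖t0 - c‖ ≤ 5 * ρ / 16 := by
    have e1 := Complex.norm_le_abs_re_add_abs_im (t0 - c)
    have e2 : |(t0 - c).re| ≤ ρ / 32 := by
      rw [sub_re, ht0re, hcre, abs_le]; constructor <;> linarith
    have e3 : |(t0 - c).im| ≤ ρ / 4 + ρ / 32 := by
      rw [sub_im, ht0im, hcim, abs_le]; constructor <;> linarith
    linarith
  have hball : ∀ t, ‖t - t0‖ < 11 * ρ / 16 → ‖t - c‖ < ρ := by
    intro t ht
    have := norm_sub_le_norm_sub_add_norm_sub t t0 c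
    linarith
  have hslice : ∀ t : ℂ, ‖t - c‖ < ρ → t.im < V → (t, (u : ℂ)) ∈ D := by
    intro t ht hi
    have e1 := abs_lt.1 ((Complex.abs_re_le_norm (t - c)).trans_lt ht)
    have e2 := abs_lt.1 ((Complex.abs_im_le_norm (t - c)).trans_lt ht)
    rw [sub_re, hcre] at e1
    rw [sub_im, hcim] at e2
    exact hsl u huF t (by linarith [e1.1]) (by linarith [e1.2]) (by linarith [e2.1]) hi
  have hgB : ∀ t : ℂ, ‖t - c‖ < ρ → t.im < V → g (t - (V : ℂ) * I) = B (t, (u : ℂ)) := by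
    intro t ht hi
    have h1 := hg2 (t - (V : ℂ) * I) (by
      rw [mem_ball, dist_eq_norm]
      rw [show t - (V : ℂ) * I - (x0 : ℂ) = t - c by rw [hc]; ring]
      exact ht) (by
      simp only [sub_im, mul_im, ofReal_re, I_im, ofReal_im, I_re]
      linarith)
    rw [h1]
    congr 2
    ring
  have hgd : DifferentiableOn ℂ (fun t => g (t - (V : ℂ) * I)) (ball c ρ) := by
    refine hg1.comp (by fun_prop) ?_
    intro t ht
    rw [mem_ball, dist_eq_norm] at ht ⊢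
    rwa [show t - (V : ℂ) * I - (x0 : ℂ) = t - c by rw [hc]; ring]
  have hclosed : ∀ t ∈ closedBall t0 (s : ℝ), ‖t - c‖ < ρ ∧ t.im < V := by
    intro t ht
    rw [mem_closedBall, dist_eq_norm] at ht
    refine ⟨hball t (by linarith), ?_⟩
    have e2 := (Complex.abs_im_le_norm (t - t0)).trans ht
    rw [sub_im, ht0im] at e2
    have := (abs_le.1 e2).2
    linarith
  have huFF : u ∈ FF t0 s R := by
    refine ⟨huF, fun t ht => hslice t (hclosed t ht).1 (hclosed t ht).2,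
      fun t => g (t - (V : ℂ) * I), ?_, ?_⟩
    · apply hgd.mono
      intro t ht
      rw [mem_ball, dist_eq_norm] at ht ⊢
      exact hball t (by linarith)
    · filter_upwards [Metric.ball_mem_nhds t0 (ε := (s : ℝ)) (by exact_mod_cast hs0)] with t ht
      have := hclosed t (ball_subset_closedBall ht)
      exact hgB t this.1 this.2
  have hs0' : (0 : ℝ) < s := by exact_mod_cast hs0
  obtain ⟨r1, hr1, -, hr1W, G, hG, hGB⟩ := hu q1 q2 s R hs0' huFF (9 * ρ / 16) (by linarith) 1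
    one_pos
  have hmin : min (s : ℝ) (9 * ρ / 16) = s := min_eq_left (by linarith)
  rw [← ht0, hmin] at hGB
  rw [← ht0] at hG
  set r : ℝ := min r1 (ρ / 4) with hr
  have hr0 : 0 < r := lt_min hr1 (by positivity)
  have hsub : ball c r ⊆ ball t0 (9 * ρ / 16) := by
    intro t ht
    rw [mem_ball, dist_eq_norm] at ht ⊢
    have e1 := norm_sub_le_norm_sub_add_norm_sub t c t0
    rw [← norm_neg (c - t0), neg_sub] at e1
    have : r ≤ ρ / 4 := min_le_right _ _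
    linarith
  set Bt : ℂ × ℂ → ℂ := fun q => G (q.2, q.1) with hBt
  set O1 : Set (ℂ × ℂ) := ball t0 (9 * ρ / 16) ×ˢ ball (u : ℂ) r1 with hO1
  have hBtan : AnalyticOnNhd ℂ Bt O1 := by
    intro q hq
    have h1 : AnalyticAt ℂ G (q.2, q.1) := hG (q.2, q.1) ⟨hq.2, hq.1⟩
    have h2 : AnalyticAt ℂ (fun q : ℂ × ℂ => ((q.2, q.1) : ℂ × ℂ)) q :=
      analyticAt_snd.prod analyticAt_fst
    exact AnalyticAt.fun_comp (g := G) (f := fun q : ℂ × ℂ => ((q.2, q.1) : ℂ × ℂ)) h1 h2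
  have hO1o : IsOpen O1 := isOpen_ball.prod isOpen_ball
  set O : Set (ℂ × ℂ) := D ∩ O1 with hO
  have hOo : IsOpen O := hD.inter hO1o
  have heq0 : ∀ᶠ q in 𝓝 (t0, (u : ℂ)), Bt q = B q := by
    have : ball t0 (s : ℝ) ×ˢ ball (u : ℂ) r1 ∈ 𝓝 (t0, (u : ℂ)) :=
      (isOpen_ball.prod isOpen_ball).mem_nhds ⟨mem_ball_self hs0', mem_ball_self hr1⟩
    filter_upwards [this] with q hq
    exact hGB q.2 hq.2 q.1 hq.1
  have hlow : ∀ t ∈ ball t0 (9 * ρ / 16), t.im < V →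
      ∀ᶠ q in 𝓝 (t, (u : ℂ)), q ∈ D ∧ Bt q = B q := by
    intro t ht hi
    have hseg : ∀ x ∈ segment ℝ t0 t, (x, (u : ℂ)) ∈ O := by
      have hconv : Convex ℝ (ball t0 (9 * ρ / 16) ∩ {z : ℂ | z.im < V}) :=
        (convex_ball _ _).inter (convex_halfSpace_im_lt V)
      have h0 : t0 ∈ ball t0 (9 * ρ / 16) ∩ {z : ℂ | z.im < V} :=
        ⟨mem_ball_self (by positivity), (hclosed t0 (mem_closedBall_self hs0'.le)).2⟩
      intro x hx
      have hx' := hconv.segment_subset h0 ⟨ht, hi⟩ hx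
      refine ⟨hslice x (hball x ?_) hx'.2, hx'.1, mem_ball_self hr1⟩
      have := hx'.1
      rw [mem_ball, dist_eq_norm] at this
      linarith
    have h1 := segment_eq hOo (hBtan.mono inter_subset_right) (hBan.mono inter_subset_left)
      hseg heq0
    have h2 : ∀ᶠ q in 𝓝 (t, (u : ℂ)), q ∈ D :=
      hD.mem_nhds (hseg t (right_mem_segment ℝ t0 t)).1
    exact h2.and h1
  have hident : ∀ t ∈ ball c r, Bt (t, (u : ℂ)) = g (t - (V : ℂ) * I) := by
    have ha1 : AnalyticOnNhd ℂ (fun t : ℂ => Bt (t, (u : ℂ))) (ball c r) := by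
      intro t ht
      exact AnalyticAt.fun_comp (g := Bt) (f := fun t : ℂ => ((t, (u : ℂ)) : ℂ × ℂ))
        (hBtan (t, (u : ℂ)) ⟨hsub ht, mem_ball_self hr1⟩) (analyticAt_id.prod analyticAt_const)
    have ha2 : AnalyticOnNhd ℂ (fun t : ℂ => g (t - (V : ℂ) * I)) (ball c r) := by
      apply (hgd.mono (ball_subset_ball ?_)).analyticOnNhd isOpen_ball
      have : r ≤ ρ / 4 := min_le_right _ _
      linarith
    have hpt : c - ((r / 2 : ℝ) : ℂ) * I ∈ ball c r := by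
      rw [mem_ball, dist_eq_norm, sub_sub_cancel_left, norm_neg, norm_mul, Complex.norm_real,
        Complex.norm_I, mul_one, Real.norm_of_nonneg (by positivity)]
      linarith
    have hptim : (c - ((r / 2 : ℝ) : ℂ) * I).im < V := by
      rw [sub_im, hcim]
      simp only [mul_im, ofReal_re, I_im, ofReal_im, I_re]
      linarith
    have hev : (fun t : ℂ => Bt (t, (u : ℂ))) =ᶠ[𝓝 (c - ((r / 2 : ℝ) : ℂ) * I)]
        (fun t : ℂ => g (t - (V : ℂ) * I)) := by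
      have h1a : ∀ᶠ t in 𝓝 (c - ((r / 2 : ℝ) : ℂ) * I), t ∈ ball c r := isOpen_ball.mem_nhds hpt
      have h1b : ∀ᶠ t in 𝓝 (c - ((r / 2 : ℝ) : ℂ) * I), t.im < V :=
        (isOpen_lt continuous_im continuous_const).mem_nhds hptim
      have h1 := h1a.and h1b
      filter_upwards [h1] with t ht
      have h2 := (hlow t (hsub ht.1) ht.2).self_of_nhds.2
      rw [h2, hgB t _ ht.2]
      have h3 := ht.1
      rw [mem_ball, dist_eq_norm] at h3
      have : r ≤ ρ / 4 := min_le_right _ _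
      linarith
    exact ha1.eqOn_of_preconnected_of_eventuallyEq ha2 (convex_ball c r).isPreconnected hpt hev
  refine ⟨r, hr0, Bt, ?_, ?_, ?_, ?_⟩
  · apply hBtan.mono
    exact prod_mono hsub (ball_subset_ball (min_le_left _ _))
  · intro t ht hi
    exact hlow t (hsub ht) hi
  · intro x hx
    rw [hident _ hx, add_sub_cancel_right]
    apply hg3
    rw [mem_ball, dist_eq_norm] at hx ⊢
    rw [show (x : ℂ) - x0 = (x : ℂ) + (V : ℂ) * I - c by rw [hc]; ring]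
    have : r ≤ ρ / 4 := min_le_right _ _
    have h3 : ‖(x : ℂ) + (V : ℂ) * I - c‖ < r := hx
    linarith
  · intro hlt
    have hgan : AnalyticAt ℂ g (x0 : ℂ) :=
      hg1.analyticAt (isOpen_ball.mem_nhds (mem_ball_self hρ0))
    have h1 : ∀ᶠ x : ℝ in 𝓝 x0, (g (x : ℂ)).im = h := by
      have h2 : ∀ᶠ x : ℝ in 𝓝 x0, (x : ℂ) ∈ ball (x0 : ℂ) ρ :=
        Complex.continuous_ofReal.continuousAt.eventually_mem
          (isOpen_ball.mem_nhds (mem_ball_self hρ0))
      filter_upwards [h2] with x hx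
      exact hg3 x hx
    have h3 : ∀ᶠ z in 𝓝 (x0 : ℂ), z.im < 0 → (g z).im < h := by
      filter_upwards [isOpen_ball.mem_nhds (mem_ball_self hρ0)] with z hz hi
      rw [hg2 z hz hi]
      apply hlt
      apply hslice
      · rw [mem_ball, dist_eq_norm] at hz
        rwa [show z + (V : ℂ) * I - c = z - x0 by rw [hc]; ring]
      · simp only [add_im, mul_im, ofReal_re, I_im, ofReal_im, I_re]; linarith
    have h4 := Refl812.hopf_lower hgan h1 h3
    have h5 : deriv (fun t => Bt (t, (u : ℂ))) c = deriv g x0 := by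
      have h6 : (fun t => Bt (t, (u : ℂ))) =ᶠ[𝓝 c] fun t => g (t - (V : ℂ) * I) := by
        filter_upwards [isOpen_ball.mem_nhds (mem_ball_self hr0)] with t ht
        exact hident t ht
      rw [h6.deriv_eq, deriv_comp_sub_const]
      congr 1
      rw [hc]; ring
    rw [h5]
    exact h4

/-- Main-sheet form: if `D` is closed under moving vertically downwards (above the level `L`),
then after shrinking `r` the extension agrees with `B` on all of `D` inside the bidisc. -/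
theorem Ext.eq_on {D : Set (ℂ × ℂ)} (hD : IsOpen D) {B : ℂ × ℂ → ℂ} (hB : DifferentiableOn ℂ B D)
    {h V u x0 r L : ℝ} (hr : 0 < r) {Bt : ℂ × ℂ → ℂ} (hE : Ext D B h V u x0 r Bt) (hL : L < V)
    (hv : ∀ t w : ℂ, (t, w) ∈ D → ∀ s : ℝ, 0 ≤ s → L < t.im - s → (t - (s : ℂ) * I, w) ∈ D) :
    ∃ r' > 0, r' ≤ r ∧ Ext D B h V u x0 r' Bt ∧
      ∀ q ∈ ball ((x0 : ℂ) + (V : ℂ) * I) r' ×ˢ ball (u : ℂ) r', q ∈ D → Bt q = B q := by
  have hBan : AnalyticOnNhd ℂ B D := R266.SCV.analyticOnNhd_of_differentiableOn hD hB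
  set c : ℂ := (x0 : ℂ) + (V : ℂ) * I with hc
  have hcre : c.re = x0 := by simp [hc]
  have hcim : c.im = V := by simp [hc]
  set r2 : ℝ := min (r / 4) ((V - L) / 4) with hr2
  have hr20 : 0 < r2 := lt_min (by positivity) (by linarith)
  have hr2r : r2 ≤ r / 4 := min_le_left _ _
  have hr2L : r2 ≤ (V - L) / 4 := min_le_right _ _
  -- the compact box
  set K : Set ℂ := Icc (x0 - r2) (x0 + r2) ×ℂ Icc (V - 2 * r2) (V - r2) with hK
  have hKc : IsCompact K := isCompact_Icc.reProdIm isCompact_Icc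
  have hKb : ∀ t ∈ K, t ∈ ball c r ∧ t.im < V := by
    intro t ht
    obtain ⟨h1, h2⟩ := Complex.mem_reProdIm.1 ht
    refine ⟨?_, by linarith [h2.2]⟩
    rw [mem_ball, dist_eq_norm]
    have e1 := Complex.norm_le_abs_re_add_abs_im (t - c)
    have e2 : |(t - c).re| ≤ r2 := by
      rw [sub_re, hcre, abs_le]; constructor <;> linarith [h1.1, h1.2]
    have e3 : |(t - c).im| ≤ 2 * r2 := by
      rw [sub_im, hcim, abs_le]; constructor <;> linarith [h2.1, h2.2]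
    linarith
  set O : Set (ℂ × ℂ) := interior {q | q ∈ D ∧ Bt q = B q} with hO
  obtain ⟨δ, hδ, hδK⟩ := tube (D := O) isOpen_interior hKc (w := (u : ℂ)) (fun t ht => by
    have h1 := hKb t ht
    rw [hO, mem_interior_iff_mem_nhds]
    exact hE.low t h1.1 h1.2)
  set r' : ℝ := min r2 δ with hr'
  have hr'0 : 0 < r' := lt_min hr20 hδ
  have hr'2 : r' ≤ r2 := min_le_left _ _
  have hr'r : r' ≤ r := by linarith
  refine ⟨r', hr'0, hr'r, hE.mono hr'r, ?_⟩
  rintro ⟨t, w⟩ ⟨ht, hw⟩ htD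
  simp only [mem_ball, dist_eq_norm] at ht hw
  have e1 := abs_lt.1 ((Complex.abs_re_le_norm (t - c)).trans_lt ht)
  have e2 := abs_lt.1 ((Complex.abs_im_le_norm (t - c)).trans_lt ht)
  rw [sub_re, hcre] at e1
  rw [sub_im, hcim] at e2
  set s1 : ℝ := t.im - (V - 3 / 2 * r2) with hs1
  have hs10 : 0 < s1 := by rw [hs1]; linarith [e2.1]
  set t1 : ℂ := t - (s1 : ℂ) * I with ht1
  have ht1re : t1.re = t.re := by simp [ht1]
  have ht1im : t1.im = V - 3 / 2 * r2 := by simp [ht1, hs1]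
  have ht1K : t1 ∈ K := by
    rw [hK, Complex.mem_reProdIm, ht1re, ht1im]
    refine ⟨⟨by linarith [e1.1], by linarith [e1.2]⟩, ⟨by linarith, by linarith⟩⟩
  have hwδ : w ∈ ball (u : ℂ) δ := by
    rw [mem_ball, dist_eq_norm]; exact hw.trans_le (min_le_right _ _)
  -- neighbourhood of the vertical segment
  set O' : Set (ℂ × ℂ) := D ∩ (ball c r ×ˢ ball (u : ℂ) r) with hO'
  have hO'o : IsOpen O' := hD.inter (isOpen_ball.prod isOpen_ball)
  have hseg : ∀ x ∈ segment ℝ t1 t, (x, w) ∈ O' := by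
    intro x hx
    obtain ⟨α, β, hα, hβ, hαβ, rfl⟩ := hx
    have hx1 : α • t1 + β • t = t - ((α * s1 : ℝ) : ℂ) * I := by
      have hβ' : (β : ℂ) = 1 - (α : ℂ) := by
        have : β = 1 - α := by linarith
        rw [this]; push_cast; ring
      simp only [Complex.real_smul, ht1, hβ']
      push_cast
      ring
    have hα1 : α ≤ 1 := by linarith
    have hαs : 0 ≤ α * s1 := by positivity
    have hαs1 : α * s1 ≤ s1 := by nlinarith
    refine ⟨?_, ?_, ?_⟩
    · rw [hx1]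
      apply hv t w htD _ hαs
      have : L < V - 3 / 2 * r2 := by linarith
      linarith [hαs1, hs1]
    · have hconv := convex_ball c r
      exact hconv.segment_subset (hKb t1 ht1K).1 (by
        rw [mem_ball, dist_eq_norm]; exact ht.trans_le hr'r) ⟨α, β, hα, hβ, hαβ, rfl⟩
    · show w ∈ ball (u : ℂ) r
      rw [mem_ball, dist_eq_norm]; exact hw.trans_le hr'r
  have h0 : ∀ᶠ q in 𝓝 (t1, w), Bt q = B q := by
    have h1 := hδK t1 (Metric.self_subset_thickening hδ _ ht1K) w hwδ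
    rw [hO, mem_interior_iff_mem_nhds] at h1
    filter_upwards [h1] with q hq using hq.2
  exact (segment_eq hO'o (hE.an.mono inter_subset_right) (hBan.mono inter_subset_left)
    hseg h0).self_of_nhds

end Crest.Agent.R102.Step6811
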