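import Crest.Agent.R102.SheetD_982
import Crest.Agent.R102.Step6_811

/-!
Row 102 (T1-B), glue II/III -> IV (helper812): steps 6 (811) + 7 (559) on the main sheets (982),
in the slab coordinates `(t, w)`.
* `step67`  : generic main sheets, upper edge;
* `step67'` : the same for both edges (`e = h0` or `e = -h0`);
* `Sit`     : the situation at a real width `u`: the label is regular on the whole slab below the
  height `U > 0`, on some interval `(a', b')` its imaginary part tends a.e. to one edge `e = ± h`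
  at the height `U`, and over every point of the interval there are births on the main sheet
  (`(t, w)` not in the sheet of the label, `(t - w/2, w)` in the sheet of the lines);
* `noSit`   : for a.e. `u` in `(0, r)` this does not happen.
-/

set_option autoImplicit false

open Set Filter Topology Metric Complex MeasureTheory
open scoped Real

noncomputable section

namespace Crest.Agent.R102.Glue4812

open Crest.Agent.R102.B821 Crest.Agent.R102.F300 Crest.Agent.R102.Step7559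
open Crest.Agent.R102.Step6811 (Ext step6)
open Crest.Agent.R102.Sh982
open Crest.Agent.R102.Out559 (OmL OmX)

/-- steps 6 + 7 for a positive measure set of widths: impossible (upper edge) -/
theorem step67 {h0 : ℝ} (h0pos : 0 < h0) {ψ H : ℂ → ℂ} {c : ℂ} (hc : c ≠ 0)
    (hψ : DifferentiableOn ℂ ψ {z : ℂ | |z.im| < h0})
    (hH : DifferentiableOn ℂ H {z : ℂ | |z.im| < h0})
    (hrel : Rel {z : ℂ | |z.im| < h0} ψ H c)
    (hNB : ∀ s : ℂ, s.im = h0 → ¬ RegAt {z : ℂ | |z.im| < h0} ψ H s)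
    {ΩX Ωl : Set (ℂ × ℂ)} (hX : IsOpen ΩX) (hl : IsOpen Ωl)
    {y1 : ℝ} (hstar : ∀ q ∈ Ωl, ∀ τ : ℝ, 0 ≤ τ → y1 < q.1.im - τ → dn q τ ∈ Ωl)
    {B φ p : ℂ × ℂ → ℂ} (hBd : DifferentiableOn ℂ B ΩX) (hB : ∀ q ∈ ΩX, |(B q).im| < h0)
    (hφ : AnalyticOnNhd ℂ φ Ωl) (hp : AnalyticOnNhd ℂ p Ωl)
    (har : ∀ q ∈ Ωl, q.2 ≠ 0 → q1 φ q * q2 p q - q2 φ q * q1 p q ≠ 0)
    (hinc : ∀ q ∈ ΩX, (q.1 - q.2 / 2, q.2) ∈ Ωl →
      Inc ψ H (φ (q.1 - q.2 / 2, q.2)) (p (q.1 - q.2 / 2, q.2)) (B q))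
    (hmax : Maxi h0 ΩX B)
    {a b d : ℝ} (hab : a < b) (hd : 0 < d) {U : ℝ → ℝ} {F : Set ℝ}
    (hF0 : ∀ u ∈ F, u ≠ 0) (hFU : ∀ u ∈ F, y1 + d ≤ U u)
    (hsl : ∀ u ∈ F, ∀ t : ℂ, a < t.re → t.re < b → y1 < t.im → t.im < U u →
      (t, (u : ℂ)) ∈ ΩX)
    (hbd : ∀ u ∈ F, ∀ᵐ x : ℝ, x ∈ Ioo a b →
      Tendsto (fun y : ℝ => (B ((x : ℂ) + ((U u - y : ℝ) : ℂ) * I, (u : ℂ))).im) (𝓝[>] 0) (𝓝 h0))
    (hsing : ∀ u ∈ F, ∀ x0 ∈ Ioo a b, ∀ ε > 0, ∃ q ∈ ball ((x0 : ℂ) + (U u : ℂ) * I, (u : ℂ)) ε,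
      q ∉ ΩX ∧ (q.1 - q.2 / 2, q.2) ∈ Ωl) : ∀ᵐ u : ℝ, u ∉ F := by
  have h6 := step6 hX hBd (m := h0) (h := h0) (a := a) (b := b) hd (fun q hq => (hB q hq).le)
    (U := U) (F := F)
    (fun u hu t h1 h2 h3 h4 => hsl u hu t h1 h2 (by linarith [hFU u hu]) h4) hbd
  filter_upwards [h6] with u hu huF
  set x0 : ℝ := (a + b) / 2 with hx0
  have hx0m : x0 ∈ Ioo a b := ⟨by rw [hx0]; linarith, by rw [hx0]; linarith⟩
  obtain ⟨r, hr, Bt, hE⟩ := hu huF x0 hx0m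
  set P : ℂ × ℂ := ((x0 : ℂ) + (U u : ℂ) * I, (u : ℂ)) with hP
  have hPr : ball P r = ball ((x0 : ℂ) + (U u : ℂ) * I) r ×ˢ ball (u : ℂ) r :=
    (ball_prod_same _ _ _).symm
  have hBt : AnalyticOnNhd ℂ Bt (ball P r) := by
    rw [hPr]
    exact hE.an
  have hBP : (Bt P).im = h0 := hE.real x0 (mem_ball_self hr)
  have hhopf := hE.hopf (fun q hq => (abs_lt.1 (hB q hq)).2)
  -- positivity of the derivative near `P`
  have hq1 : ∀ q ∈ ball P r, q1 Bt q = deriv (fun t => Bt (t, q.2)) q.1 := by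
    intro q hq
    have h1 : HasDerivAt (fun s : ℂ => ((s, q.2) : ℂ × ℂ)) ((1, 0) : ℂ × ℂ) q.1 :=
      (hasDerivAt_id q.1).prodMk (hasDerivAt_const q.1 q.2)
    exact ((hBt q hq).differentiableAt.hasFDerivAt.comp_hasDerivAt q.1 h1).deriv.symm
  have hcq1 : ContinuousAt (q1 Bt) P := by
    have h1 : ContinuousAt (fderiv ℂ Bt) P := (hBt P (mem_ball_self hr)).fderiv.continuousAt
    exact h1.clm_apply continuousAt_const
  have hposP : 0 < (q1 Bt P).re := by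
    rw [hq1 P (mem_ball_self hr)]
    exact hhopf.2
  obtain ⟨r1, hr1, hr1r, hpos⟩ : ∃ r1 > 0, r1 ≤ r ∧ ∀ q ∈ ball P r1, 0 < (q1 Bt q).re := by
    have h1 : ∀ᶠ q in 𝓝 P, 0 < (q1 Bt q).re :=
      (Complex.continuous_re.continuousAt.comp hcq1).eventually (lt_mem_nhds hposP)
    obtain ⟨r1, hr1, h2⟩ := Metric.eventually_nhds_iff_ball.1 h1
    exact ⟨min r1 r, lt_min hr1 hr, min_le_right _ _, fun q hq =>
      h2 q (ball_subset_ball (min_le_left _ _) hq)⟩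
  -- below `P`
  have hdeep : ∀ᶠ τ : ℝ in 𝓝[>] 0, dn P τ ∈ Gd ΩX B Bt := by
    filter_upwards [Ioo_mem_nhdsGT hr] with τ hτ
    have e1 : dn P τ = ((x0 : ℂ) + (U u : ℂ) * I - τ * I, (u : ℂ)) := rfl
    have h1 : (x0 : ℂ) + (U u : ℂ) * I - τ * I ∈ ball ((x0 : ℂ) + (U u : ℂ) * I) r := by
      rw [mem_ball, dist_eq_norm, show (x0 : ℂ) + (U u : ℂ) * I - τ * I -
        ((x0 : ℂ) + (U u : ℂ) * I) = -((τ : ℂ) * I) by ring, norm_neg, norm_mul,
        Complex.norm_I, mul_one, Complex.norm_real, Real.norm_eq_abs, abs_of_pos hτ.1]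
      exact hτ.2
    have h2 : ((x0 : ℂ) + (U u : ℂ) * I - τ * I).im < U u := by
      simp
      exact hτ.1
    have h3 := hE.low _ h1 h2
    rw [e1]
    refine ⟨h3.self_of_nhds.1, ?_⟩
    filter_upwards [h3] with q hq using hq.2
  have hPim : y1 < (P.1 - P.2 / 2).im := by
    have e5 : ∀ z : ℂ, (z / 2).im = z.im / 2 := fun z => by
      rw [show (2 : ℂ) = ((2 : ℝ) : ℂ) by norm_num, Complex.div_ofReal_im]
    rw [hP]
    simp only [sub_im, e5, add_im, ofReal_im, mul_im, I_re, I_im, ofReal_re]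
    linarith [hFU u huF]
  refine step7' h0pos hc hψ hH hrel hNB hX hl hstar (fun q hq => (abs_lt.1 (hB q hq)).2) hφ hp har
    hinc hmax hPim hr1 (hBt.mono (ball_subset_ball hr1r)) hBP (fun q hq => ?_) hdeep ?_
  · rw [← hq1 q (ball_subset_ball hr1r hq)]
    exact hpos q hq
  · intro ε hε
    have hu0 : 0 < ‖(u : ℂ)‖ := by
      rw [norm_pos_iff]
      exact_mod_cast hF0 u huF
    obtain ⟨q, hq, hqX, hql⟩ := hsing u huF x0 hx0m (min ε ‖(u : ℂ)‖) (lt_min hε hu0)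
    refine ⟨q, ball_subset_ball (min_le_left _ _) hq, ?_, hqX, hql⟩
    intro h0
    have h1 : dist q.2 (u : ℂ) < ‖(u : ℂ)‖ := by
      rw [mem_ball, Prod.dist_eq, max_lt_iff] at hq
      exact hq.2.trans_le (min_le_right _ _)
    rw [h0, dist_zero_left] at h1
    exact lt_irrefl _ h1

/-! ### the reflection `b ↦ -b` of the label -/

lemma deriv_neg_comp (f : ℂ → ℂ) (z : ℂ) : deriv (fun z => f (-z)) z = -deriv f (-z) := by
  simpa using deriv_comp_neg f z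

lemma strip_neg {h0 : ℝ} {z : ℂ} (hz : z ∈ {z : ℂ | |z.im| < h0}) :
    -z ∈ {z : ℂ | |z.im| < h0} := by
  simpa using hz

lemma diff_neg {h0 : ℝ} {f : ℂ → ℂ} (hf : DifferentiableOn ℂ f {z : ℂ | |z.im| < h0}) :
    DifferentiableOn ℂ (fun z => f (-z)) {z : ℂ | |z.im| < h0} :=
  hf.comp differentiableOn_id.neg (fun _ hz => strip_neg hz)

lemma deriv2_neg_comp (f : ℂ → ℂ) (z : ℂ) :
    deriv (deriv (fun z => f (-z))) z = deriv (deriv f) (-z) := by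
  have h1 : deriv (fun z => f (-z)) = fun z => -deriv f (-z) := funext (deriv_neg_comp f)
  rw [h1]
  have h2 : deriv (fun z => -deriv f (-z)) z = -deriv (fun z => deriv f (-z)) z := by
    simp
  rw [h2, deriv_neg_comp, neg_neg]

lemma rel_neg {h0 : ℝ} {ψ H : ℂ → ℂ} {c : ℂ} (h : Rel {z : ℂ | |z.im| < h0} ψ H c) :
    Rel {z : ℂ | |z.im| < h0} (fun z => ψ (-z)) (fun z => H (-z)) (-c) := by
  intro z hz
  have h1 := h (-z) (strip_neg hz)
  rw [deriv_neg_comp, deriv_neg_comp, deriv2_neg_comp, deriv2_neg_comp, ← h1]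
  ring

lemma inc_neg {ψ H : ℂ → ℂ} {φ p b : ℂ} (h : Inc ψ H φ p b) :
    Inc (fun z => ψ (-z)) (fun z => H (-z)) φ p (-b) := by
  unfold Inc at h ⊢
  rw [deriv_neg_comp, deriv_neg_comp]
  simp only [neg_neg]
  linear_combination -h

lemma reg_neg {h0 : ℝ} {ψ H : ℂ → ℂ} {s : ℂ}
    (h : RegAt {z : ℂ | |z.im| < h0} (fun z => ψ (-z)) (fun z => H (-z)) s) :
    RegAt {z : ℂ | |z.im| < h0} ψ H (-s) := by
  obtain ⟨r, hr, g1, g2, h1, h2, h3⟩ := h
  have hb : ∀ z ∈ ball (-s) r, -z ∈ ball s r := by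
    intro z hz
    rw [mem_ball, dist_eq_norm] at hz ⊢
    rw [show -z - s = -(z - -s) by ring, norm_neg]
    exact hz
  refine ⟨r, hr, fun z => g1 (-z), fun z => g2 (-z), h1.comp differentiableOn_id.neg hb,
    h2.comp differentiableOn_id.neg hb, ?_⟩
  intro z hz hzS
  have h4 := h3 (-z) (hb z hz) (strip_neg hzS)
  simpa using h4

lemma maxi_neg {h0 : ℝ} {ΩX : Set (ℂ × ℂ)} {B : ℂ × ℂ → ℂ} (h : Maxi h0 ΩX B) :
    Maxi h0 ΩX (fun q => -B q) := by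
  intro q Bt hBt hq hlow
  have h1 := h q (fun q => -Bt q) hBt.neg (by simpa using hq) (by
    filter_upwards [hlow] with τ hτ
    refine ⟨hτ.1, ?_⟩
    filter_upwards [hτ.2] with z hz
    rw [hz, neg_neg])
  refine ⟨h1.1, ?_⟩
  filter_upwards [h1.2] with z hz
  rw [← hz, neg_neg]

/-- steps 6 + 7 for a positive measure set of widths: impossible (both edges) -/
theorem step67' {h0 : ℝ} (h0pos : 0 < h0) {ψ H : ℂ → ℂ} {c : ℂ} (hc : c ≠ 0)
    (hψ : DifferentiableOn ℂ ψ {z : ℂ | |z.im| < h0})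
    (hH : DifferentiableOn ℂ H {z : ℂ | |z.im| < h0})
    (hrel : Rel {z : ℂ | |z.im| < h0} ψ H c)
    (hNB : ∀ s : ℂ, |s.im| = h0 → ¬ RegAt {z : ℂ | |z.im| < h0} ψ H s)
    {ΩX Ωl : Set (ℂ × ℂ)} (hX : IsOpen ΩX) (hl : IsOpen Ωl)
    {y1 : ℝ} (hstar : ∀ q ∈ Ωl, ∀ τ : ℝ, 0 ≤ τ → y1 < q.1.im - τ → dn q τ ∈ Ωl)
    {B φ p : ℂ × ℂ → ℂ} (hBd : DifferentiableOn ℂ B ΩX) (hB : ∀ q ∈ ΩX, |(B q).im| < h0)
    (hφ : AnalyticOnNhd ℂ φ Ωl) (hp : AnalyticOnNhd ℂ p Ωl)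
    (har : ∀ q ∈ Ωl, q.2 ≠ 0 → q1 φ q * q2 p q - q2 φ q * q1 p q ≠ 0)
    (hinc : ∀ q ∈ ΩX, (q.1 - q.2 / 2, q.2) ∈ Ωl →
      Inc ψ H (φ (q.1 - q.2 / 2, q.2)) (p (q.1 - q.2 / 2, q.2)) (B q))
    (hmax : Maxi h0 ΩX B)
    {a b d e : ℝ} (he : e = h0 ∨ e = -h0) (hab : a < b) (hd : 0 < d) {U : ℝ → ℝ} {F : Set ℝ}
    (hF0 : ∀ u ∈ F, u ≠ 0) (hFU : ∀ u ∈ F, y1 + d ≤ U u)
    (hsl : ∀ u ∈ F, ∀ t : ℂ, a < t.re → t.re < b → y1 < t.im → t.im < U u →
      (t, (u : ℂ)) ∈ ΩX)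
    (hbd : ∀ u ∈ F, ∀ᵐ x : ℝ, x ∈ Ioo a b →
      Tendsto (fun y : ℝ => (B ((x : ℂ) + ((U u - y : ℝ) : ℂ) * I, (u : ℂ))).im) (𝓝[>] 0) (𝓝 e))
    (hsing : ∀ u ∈ F, ∀ x0 ∈ Ioo a b, ∀ ε > 0, ∃ q ∈ ball ((x0 : ℂ) + (U u : ℂ) * I, (u : ℂ)) ε,
      q ∉ ΩX ∧ (q.1 - q.2 / 2, q.2) ∈ Ωl) : ∀ᵐ u : ℝ, u ∉ F := by
  rcases he with rfl | rfl
  · exact step67 h0pos hc hψ hH hrel (fun s hs => hNB s (by rw [hs, abs_of_pos h0pos])) hX hl
      hstar hBd hB hφ hp har hinc hmax hab hd hF0 hFU hsl hbd hsing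
  · refine step67 h0pos (neg_ne_zero.2 hc) (diff_neg hψ) (diff_neg hH) (rel_neg hrel)
      (fun s hs hcon => hNB (-s) (by rw [neg_im, hs, abs_neg, abs_of_pos h0pos]) (reg_neg hcon))
      hX hl hstar (B := fun q => -B q) hBd.fun_neg (fun q hq => by simpa using hB q hq) hφ hp har
      (fun q hq1 hq2 => inc_neg (hinc q hq1 hq2)) (maxi_neg hmax) hab hd hF0 hFU hsl ?_ hsing
    intro u hu
    filter_upwards [hbd u hu] with x hx hx'
    have := (hx hx').neg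
    simpa using this

/-! ### the main sheets -/

variable {q : C(ℂ, ℂ)} {η ρ r Bc : ℝ} {b φ p : ℂ × ℂ → ℂ} {m₀ : ℂ → ℂ} {h : ℝ} {ψ H : ℂ → ℂ}

/-- the situation at the real width `u` and height `U`, on the interval `(a, b')`, for the edge
`Im = e` -/
structure SitE (b φ p : ℂ × ℂ → ℂ) (h ρ r : ℝ) (u U e a' b' : ℝ) : Prop where
  pos : 0 < U
  ax : ∀ t : ℂ, -(ρ / 2) < t.im → t.im < U → (t, (u : ℂ)) ∈ SB b h ρ r
  edge : ∀ᵐ x : ℝ, x ∈ Ioo a' b' →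
    Tendsto (fun y : ℝ => (be b h ρ r ((x : ℂ) + ((U - y : ℝ) : ℂ) * I, (u : ℂ))).im)
      (𝓝[>] 0) (𝓝 e)
  births : ∀ x0 ∈ Ioo a' b', ∀ ε > 0, ∃ t w : ℂ, ‖t - ((x0 : ℂ) + (U : ℂ) * I)‖ < ε ∧
    ‖w - u‖ < ε ∧ (t, w) ∉ OmX b (T5.Str h) (-(ρ / 2)) (ρ / 2) r ∧
    (t - w / 2, w) ∈ OmL φ p (-(ρ / 2)) (ρ / 2) r

/-- the situation at the real width `u` -/
def Sit (b φ p : ℂ × ℂ → ℂ) (h ρ r : ℝ) (u : ℝ) : Prop :=
  ∃ U e a' b' : ℝ, (e = h ∨ e = -h) ∧ a' < b' ∧ SitE b φ p h ρ r u U e a' b'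

lemma SitE.mono {u U e a' b' a'' b'' : ℝ} (hs : SitE b φ p h ρ r u U e a' b') (h1 : a' ≤ a'')
    (h2 : b'' ≤ b') : SitE b φ p h ρ r u U e a'' b'' :=
  ⟨hs.pos, hs.ax, by
    filter_upwards [hs.edge] with x hx hx'
    exact hx ⟨h1.trans_lt hx'.1, hx'.2.trans_le h2⟩,
    fun x0 hx0 => hs.births x0 ⟨h1.trans_lt hx0.1, hx0.2.trans_le h2⟩⟩

/-- **T1-B, part IV on the main sheets**: for a.e. width `u` the situation does not occur. -/
theorem noSit (D : Dat q η ρ r Bc b φ p m₀ h ψ H) (hNB : Rule982.NB h ψ H) :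
    ∀ᵐ u : ℝ, u ∈ Ioo 0 r → ¬ Sit b φ p h ρ r u := by
  have hρ := D.ρ_pos
  have h0pos : 0 < h := D.h_pos
  -- one interval with rational ends, one edge
  have hone : ∀ (a' b' e : ℝ), a' < b' → (e = h ∨ e = -h) →
      ∀ᵐ u : ℝ, u ∈ Ioo 0 r → ¬ ∃ U, SitE b φ p h ρ r u U e a' b' := by
    intro a' b' e hab he
    set F : Set ℝ := {u | u ∈ Ioo 0 r ∧ ∃ U, SitE b φ p h ρ r u U e a' b'} with hF
    classical
    set U : ℝ → ℝ := fun u => if hu : ∃ U, SitE b φ p h ρ r u U e a' b' then hu.choose else 0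
      with hU
    have hUs : ∀ u ∈ F, SitE b φ p h ρ r u (U u) e a' b' := by
      intro u hu
      have h1 : U u = hu.2.choose := by
        rw [hU]
        exact dif_pos hu.2
      rw [h1]
      exact hu.2.choose_spec
    have hmain : ∀ᵐ u : ℝ, u ∉ F := by
      refine step67' h0pos (c := -1) (by norm_num) D.ψ_diff D.H_diff D.rel ?_
        (isOpen_SB (b := b) (h := h) (ρ := ρ) (r := r)) (isOpen_SL (φ := φ) (p := p) (ρ := ρ)
        (r := r)) (y1 := -(ρ / 2)) ?_ (B := be b h ρ r) (φ := φe φ p ρ r) (p := pe φ p ρ r)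
        D.be_an.differentiableOn (fun q hq => D.be_mem hq) D.φe_an D.pe_an
        (fun q hq hq2 => D.area_ne hq hq2) ?_ ?_ (e := e) (d := ρ / 2) he hab (by linarith) (U := U)
        (F := F) (fun u hu => ne_of_gt hu.1.1) ?_ ?_ ?_ ?_
      · intro s hs hcon
        obtain ⟨r', hr', g1, g2, h1, h2, h3⟩ := hcon
        exact hNB s hs ⟨r', hr', g1, g2, h1, h2, fun z hz => (h3 z hz.1 hz.2).1,
          fun z hz => (h3 z hz.1 hz.2).2⟩
      · intro x hx τ hτ hlt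
        refine Sht_low isOpen_ball D.Fl_diff Fl_maps hx ?_ rfl ?_ (Or.inl ?_)
        · unfold dn
          simp
        · unfold dn
          simpa using hlt
        · unfold dn
          simp
          exact hτ
      · intro x hx hx'
        have e1 : sh (-1) x = (x.1 - x.2 / 2, x.2) := by
          unfold sh
          ext
          · simp only
            ring
          · rfl
        have h1 := D.inc_all (s := -1) (Or.inr rfl) hx (by rw [e1]; exact hx')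
        rwa [e1] at h1
      · have h1 := Maxi_Sh (F := b) (h0 := h) (y1 := -(ρ / 2)) (y0 := ρ / 2) (W := ball (0 : ℂ) r)
          D.h10 isOpen_ball D.b_diff D.b_maps
        have e1 : SB b h ρ r = Sh b {z : ℂ | |z.im| < h} (-(ρ / 2)) (ρ / 2) (ball 0 r) := by
          ext x
          exact ⟨fun hx => ⟨hx.2.2, hx.2.1⟩, fun hx => ⟨mem_W hx.1, hx.2, hx.1⟩⟩
        rw [e1]
        exact h1
      · intro u hu
        have := (hUs u hu).pos
        linarith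
      · intro u hu t _ _ h3 h4
        exact (hUs u hu).ax t h3 h4
      · intro u hu
        exact (hUs u hu).edge
      · intro u hu x0 hx0 ε hε
        have hUp := (hUs u hu).pos
        obtain ⟨t, w, h1, h2, h3, h4⟩ := (hUs u hu).births x0 hx0 (min ε (ρ / 4))
          (lt_min hε (by linarith))
        refine ⟨(t, w), ?_, fun hcon => h3 (SB_iff.1 hcon).1, SL_iff.2 ⟨h4, ?_⟩⟩
        · rw [mem_ball, Prod.dist_eq, max_lt_iff, dist_eq_norm, dist_eq_norm]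
          exact ⟨h1.trans_le (min_le_left _ _), h2.trans_le (min_le_left _ _)⟩
        · have e5 : ∀ z : ℂ, (z / 2).im = z.im / 2 := fun z => by
            rw [show (2 : ℂ) = ((2 : ℝ) : ℂ) by norm_num, Complex.div_ofReal_im]
          have e3 := (abs_lt.1 ((abs_im_le_norm _).trans_lt h1)).1
          have e4 := (abs_lt.1 ((abs_im_le_norm _).trans_lt h2)).2
          have m1 := min_le_right ε (ρ / 4)
          simp only [sub_im, add_im, mul_im, ofReal_im, ofReal_re, I_re, I_im, e5] at e3 e4 ⊢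
          linarith
    filter_upwards [hmain] with u hu hu0 hcon
    exact hu ⟨hu0, hcon⟩
  have hall : ∀ᵐ u : ℝ, ∀ a' b' : ℚ, (a' : ℝ) < b' → u ∈ Ioo 0 r →
      (¬ ∃ U, SitE b φ p h ρ r u U h a' b') ∧ ¬ ∃ U, SitE b φ p h ρ r u U (-h) a' b' := by
    rw [ae_all_iff]
    intro a'
    rw [ae_all_iff]
    intro b'
    by_cases hab : (a' : ℝ) < b'
    · filter_upwards [hone a' b' h hab (Or.inl rfl), hone a' b' (-h) hab (Or.inr rfl)] with u h1 h2 _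
        hu
      exact ⟨h1 hu, h2 hu⟩
    · exact Eventually.of_forall fun u h1 => absurd h1 hab
  filter_upwards [hall] with u hu hu0 hsit
  obtain ⟨U, e, a', b', he, hab, hs⟩ := hsit
  obtain ⟨a'', h1, h2⟩ := exists_rat_btwn hab
  obtain ⟨b'', h3, h4⟩ := exists_rat_btwn h2
  have hs' := hs.mono h1.le h4.le
  rcases he with rfl | rfl
  · exact (hu a'' b'' h3 hu0).1 ⟨U, hs'⟩
  · exact (hu a'' b'' h3 hu0).2 ⟨U, hs'⟩

end Crest.Agent.R102.Glue4812
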