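import Crest.Agent.R102.GlueII_559
import Crest.Agent.R102.SupDat_150
import Crest.Agent.R102.GlueIV_812
import Crest.Agent.R102.T1BOut_559
import Crest.Agent.R102.GrowthDefs_314
import Crest.Agent.R102.MirS_151

/-!
Row 102, T1-B, the final CHAIN (helper559):
`Nn` (OUT) → `GoodU` (Part II) → one edge (Sup + EDGE) → `Sit` (EXIT) → `noSit` (Part IV).

* `Grow`    : near-edge growth = conclusion of GROWTH (`Growth.GrowthP`);
* `OneE`    : the output of EDGE (cone limits, one edge);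
* `EdgeO`   : EDGE on the official sheets;
* `ExitO`   : EXIT on the official sheets;
* `T1B_of_count` : the outer joint, with `GoodW` countable given to the core;
* **`T1B_of_blocks (hG : Growth.GrowthP) (hE : EdgeO) (hX : ExitO) : Spine.T1B`**.
-/

set_option autoImplicit false

open Set Filter Topology Metric MeasureTheory
open scoped ComplexConjugate

noncomputable section

namespace Crest.Agent.R102.Chain559

open Crest.Agent.R102.T5 Crest.Agent.R102.C0 Crest.Agent.R102.K669 Crest.Agent.R102.Out559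
open Crest.Agent.R102.GlueII559 Crest.Agent.R102.PartII150
open Crest.Agent.R102.Slope845 (Expn)
open Crest.Agent.R102.Sup115 (HDu GoodU)
open Crest.Agent.R102.S5 (Cn)
open Crest.Agent.R102.Glue4812 (Sit noSit)

/-- near-edge growth of the curve (conclusion of GROWTH) -/
def Grow (h : ℝ) (θ G : ℂ → ℂ) : Prop :=
  ∀ k : ℕ, ∃ C : ℝ, 0 < C ∧ ∀ d : ℝ, 0 < d → d < h → ∀ z : ℂ, |z.im| ≤ h - d →
    Real.log (1 + ‖deriv θ z‖ + ‖G z‖) ≤ C * d ^ (-(1 / ((k : ℝ) + 1)))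

/-- the output of EDGE at the real width `u`: cone limits on ONE edge near `s₀` -/
def OneE (B : ℂ × ℂ → ℂ) (h u s₀ : ℝ) : Prop :=
  ∃ δ > 0, ∃ e : ℝ, (e = h ∨ e = -h) ∧ ∀ᵐ s : ℝ, |s - s₀| < δ → ∃ b1 : ℂ, b1.im = e ∧
    ∀ M : ℝ, Tendsto B (𝓝[Cn (s, u) M] ((s : ℂ), (u : ℂ))) (𝓝 b1)

/-- the shift of a half disc (output of `goodU_ae`) -/
structure Shift (b φ p : ℂ × ℂ → ℂ) (h ρ r u0 R d : ℝ) (g : ℂ → ℂ) : Prop where
  R_pos : 0 < R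
  d_pos : 0 < d
  d_le : d ≤ ρ / 4
  ball_sub : ball (u0 : ℂ) R ⊆ ball (0 : ℂ) r
  diff : DifferentiableOn ℂ g (HDu u0 R)
  im_nonneg : ∀ w ∈ HDu u0 R, 0 ≤ (g w).im
  im_le : ∀ w ∈ HDu u0 R, (g w).im ≤ VV b φ p h ρ r w
  bdry : ∀ u ∈ Ioo (u0 - R) (u0 + R), Tendsto (fun y : ℝ => (g (u + y * Complex.I)).im) (𝓝[>] 0)
    (𝓝 (VV b φ p h ρ r u))

/-- Part II at the real width `u` -/
structure GoodAt (b φ p : ℂ × ℂ → ℂ) (h ρ r u0 R d : ℝ) (g : ℂ → ℂ) (u α β s₀ a₀ c : ℝ) :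
    Prop where
  mem : u ∈ Ioo (u0 - R) (u0 + R)
  pos : 0 < u
  nn : Nn b φ p (Str h) (-(ρ / 2)) (ρ / 2) r h u
  expn : Expn g (VV b φ p h ρ r) u α β
  good : GoodU (Xe u0 R d g (OX b h ρ r)) (Le u0 R d g (OL φ p ρ r)) u s₀ a₀ c

/-- **EDGE on the official sheets** -/
def EdgeO : Prop :=
  ∀ (q : C(ℂ, ℂ)) (η ρ r Bc : ℝ) (b φ p : ℂ × ℂ → ℂ) (m₀ : ℂ → ℂ) (h : ℝ) (ψ H K G : ℂ → ℂ),
    Sh982.Dat q η ρ r Bc b φ p m₀ h ψ H → Rule982.NB h ψ H → Growth.MirS q η h ψ H K G →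
    Grow h ψ G → ∀ (u0 R d : ℝ) (g : ℂ → ℂ), Shift b φ p h ρ r u0 R d g →
    ∀ᵐ u : ℝ, ∀ α β s₀ a₀ c : ℝ, GoodAt b φ p h ρ r u0 R d g u α β s₀ a₀ c →
      OneE (Bx b h ρ r g) h u s₀

/-- **EXIT on the official sheets** -/
def ExitO : Prop :=
  ∀ (q : C(ℂ, ℂ)) (η ρ r Bc : ℝ) (b φ p : ℂ × ℂ → ℂ) (m₀ : ℂ → ℂ) (h : ℝ) (ψ H : ℂ → ℂ),
    Sh982.Dat q η ρ r Bc b φ p m₀ h ψ H → Rule982.NB h ψ H →
    ∀ (u0 R d : ℝ) (g : ℂ → ℂ), Shift b φ p h ρ r u0 R d g →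
    ∀ u α β s₀ a₀ c : ℝ, GoodAt b φ p h ρ r u0 R d g u α β s₀ a₀ c →
      OneE (Bx b h ρ r g) h u s₀ → Sit b φ p h ρ r u

/-- the outer joint, with the countable set given to the core -/
theorem T1B_of_count
    (hcore : ∀ (q : C(ℂ, ℂ)) (η ρ r B : ℝ) (b φ p : ℂ × ℂ → ℂ) (m₀ : ℂ → ℂ) (θ H : ℂ → ℂ)
      (h0 : ℝ), Spine.DataS q η ρ r B b φ p m₀ θ H h0 →
      (∀ s : ℂ, s.im = h0 → ¬ Spine.RegB h0 θ H s) →
      {w0 : ℝ | Spine.GoodW ρ r b φ p (Str h0) w0}.Countable →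
      ∃ y1 y0 r' : ℝ, -ρ ≤ y1 ∧ y1 < 0 ∧ 0 < y0 ∧ y0 ≤ ρ ∧ 0 < r' ∧ r' ≤ r ∧
        (∀ u : ℝ, u ∈ Ioo 0 r' → Rule3 b φ p (Str h0) y1 y0 r' u) ∧
        ¬ ∀ᵐ u : ℝ, u ∈ Ioo 0 r' → Nn b φ p (Str h0) y1 y0 r' h0 u) : Spine.T1B := by
  intro q η ρ r B b φ p m₀ θ H h0 hD hsing hcount
  obtain ⟨y1, y0, r', h1, hy1, hy0, h0', hr'0, hr, hR, hnot⟩ :=
    hcore q η ρ r B b φ p m₀ θ H h0 hD hsing hcount
  apply hnot
  have hL := hD.fam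
  have hrat : (range ((↑) : ℚ → ℝ)).Countable := countable_range _
  filter_upwards [hcount.ae_notMem volume, hrat.ae_notMem volume] with u hgood hirr hu
  have huabs : |u| < r' := by rw [abs_of_pos hu.1]; exact hu.2
  have hu' : ‖(u : ℂ)‖ < r' := by simpa using huabs
  obtain ⟨U, hU, hUle, hreg, s0, hs0, hsing0⟩ :=
    exists_height hL hD.le h1 hy1 hy0 h0' hr huabs (hR u hu)
  refine ⟨U, hU, hUle, hreg, ?_⟩
  by_contra hcon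
  push Not at hcon
  obtain ⟨s1, hs1, hs1r⟩ := hcon
  apply hgood
  refine ⟨hirr, hu.1, lt_of_lt_of_le hu.2 hr, U, hU, ?_, ⟨s0, hs0, ?_⟩, ⟨s1, hs1, ?_⟩⟩
  · intro s hs hsU
    obtain ⟨a1, a2⟩ := hreg s hs hsU
    exact ⟨(regL_iff hL.φ_diff hL.p_diff hL.ρ_pos h1 hy1 hy0 h0' hr hu').2 a1,
      regAt_of_isReg hL.b_diff hy1 hy0 a2⟩
  · intro h
    exact hsing0 ((regL_iff hL.φ_diff hL.p_diff hL.ρ_pos h1 hy1 hy0 h0' hr hu').1 h)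
  · exact (regL_iff hL.φ_diff hL.p_diff hL.ρ_pos h1 hy1 hy0 h0' hr hu').2 hs1r

/-- `Nn` at a.e. width gives the situation of Part IV at a.e. width -/
theorem sit_ae {q : C(ℂ, ℂ)} {η ρ r Bc : ℝ} {b φ p : ℂ × ℂ → ℂ} {m₀ : ℂ → ℂ} {h : ℝ}
    {ψ H K G : ℂ → ℂ} (hE : EdgeO) (hX : ExitO) (D : Sh982.Dat q η ρ r Bc b φ p m₀ h ψ H)
    (hNB : Rule982.NB h ψ H) (hM : Growth.MirS q η h ψ H K G) (hG : Grow h ψ G) :
    ∀ᵐ u : ℝ, u ∈ Ioo 0 r → Nn b φ p (Str h) (-(ρ / 2)) (ρ / 2) r h u → Sit b φ p h ρ r u := by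
  have hρ := D.ρ_pos
  have key : ∀ᵐ u : ℝ, u ∈ Ioo 0 r →
      (0 < u → Nn b φ p (Str h) (-(ρ / 2)) (ρ / 2) r h u → Sit b φ p h ρ r u) := by
    refine ae_of_local fun u0 R hR hball => ?_
    obtain ⟨g, hg, hgb, hgt, hga⟩ := goodU_ae D hNB (d := ρ / 4) hR (by positivity) hball
    have hS : Shift b φ p h ρ r u0 R (ρ / 4) g :=
      ⟨hR, by positivity, le_rfl, hball, hg, fun w hw => (hgb w hw).1, fun w hw => (hgb w hw).2,
        hgt⟩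
    filter_upwards [hga, hE q η ρ r Bc b φ p m₀ h ψ H K G D hNB hM hG u0 R (ρ / 4) g hS]
      with u h1 h2 hu hu0 hN
    obtain ⟨⟨α, β, hex⟩, s₀, a₀, c, hgood⟩ := h1 hu hN
    have hGA : GoodAt b φ p h ρ r u0 R (ρ / 4) g u α β s₀ a₀ c := ⟨hu, hu0, hN, hex, hgood⟩
    exact hX q η ρ r Bc b φ p m₀ h ψ H D hNB u0 R (ρ / 4) g hS u α β s₀ a₀ c hGA
      (h2 α β s₀ a₀ c hGA)
  filter_upwards [key] with u hu hu0
  exact hu hu0 hu0.1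

/-- **T1-B from its last blocks** -/
theorem T1B_of_blocks (hGP : Growth.GrowthP) (hE : EdgeO) (hX : ExitO) : Spine.T1B := by
  refine T1B_of_count ?_
  intro q η ρ r B b φ p m₀ θ H h0 hD hsing hcount
  have D := Sh982.dat_of hD
  have hNB := Sh982.NB_of hD hsing
  have hρ := D.ρ_pos
  have hr := D.fam.r_pos
  obtain ⟨K, G, hM⟩ := MirS151.mirS q η ρ r B b φ p m₀ θ H h0 hD
  have hG : Grow h0 θ G := hGP q η ρ r B b φ p m₀ θ H K G h0 hD hM hsing hcount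
  refine ⟨-(ρ / 2), ρ / 2, r, by linarith, by linarith, by linarith, by linarith, hr, le_rfl,
    fun u _ => D.rule3_real hNB u, ?_⟩
  intro hN
  have h1 := sit_ae hE hX D hNB hM hG
  have h2 := noSit D hNB
  have h3 : ∀ᵐ u : ℝ, u ∉ Ioo 0 r := by
    filter_upwards [hN, h1, h2] with u a1 a2 a3 hu
    exact a3 hu (a2 hu (a1 hu))
  have h4 : volume (Ioo 0 r) = 0 := by
    have h5 := ae_iff.1 h3
    have h6 : {a : ℝ | ¬ a ∉ Ioo 0 r} = Ioo 0 r := by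
      ext a
      simp only [mem_ofPred_eq, not_not]
    rwa [h6] at h5
  rw [Real.volume_Ioo, sub_zero, ENNReal.ofReal_eq_zero] at h4
  linarith

end Crest.Agent.R102.Chain559
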