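import Crest.Agent.R102.ExitO_812
import Crest.Agent.R102.KolWin_953

/-!
Row 102 (T1-B), the real slice at a good width (helper812): the label on `{Im t < VV u} × {u}`, its
vertical limits on the two edges (from the cone limits of SUP by `Exit812.link`), and the way back.
-/

set_option autoImplicit false

open Set Filter Topology Metric Complex MeasureTheory
open scoped Real ComplexConjugate

noncomputable section

namespace Crest.Agent.R102.Slice812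

open Crest.Agent.R102.Sh982
open Crest.Agent.R102.Exit812
open Crest.Agent.R102.Chain559
open Crest.Agent.R102.GlueII559 (OL OX VV VV_of_Nn mem_of_lt_VV)
open Crest.Agent.R102.PartII150
open Crest.Agent.R102.Sup115 (HDu GoodU)
open Crest.Agent.R102.S5 (Cn)
open Crest.Agent.R102.Kol953 (Dm)

/-- the conclusion of SUP at `(s₀, u)` -/
def SupAt (B : ℂ × ℂ → ℂ) (h u s₀ : ℝ) : Prop :=
  ∃ δ > 0, ∀ᵐ s : ℝ, |s - s₀| < δ → ∃ bb : ℂ, |bb.im| = h ∧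
    ∀ M : ℝ, Tendsto B (𝓝[Cn (s, u) M] ((s : ℂ), (u : ℂ))) (𝓝 bb)

/-- the label on the real slice -/
def bs (b : ℂ × ℂ → ℂ) (h ρ r u : ℝ) (t : ℂ) : ℂ := be b h ρ r (t, (u : ℂ))

/-- vertical limit on the real slice -/
def VLim (b : ℂ × ℂ → ℂ) (h ρ r u U x e : ℝ) : Prop :=
  Tendsto (fun y : ℝ => (bs b h ρ r u ((x : ℂ) + ((U - y : ℝ) : ℂ) * I)).im) (𝓝[>] 0) (𝓝 e)

variable {q : C(ℂ, ℂ)} {η ρ r Bc : ℝ} {b φ p : ℂ × ℂ → ℂ} {m₀ : ℂ → ℂ} {h : ℝ} {ψ H : ℂ → ℂ}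

theorem ae_shift {P : ℝ → Prop} (g : ℝ) (hP : ∀ᵐ s : ℝ, P s) : ∀ᵐ x : ℝ, P (x - g) :=
  (measurePreserving_sub_right volume g).quasiMeasurePreserving.ae hP

theorem ae_shift' {P : ℝ → Prop} (g : ℝ) (hP : ∀ᵐ x : ℝ, P x) : ∀ᵐ s : ℝ, P (s + g) :=
  (measurePreserving_add_right volume g).quasiMeasurePreserving.ae hP

/-- **the real slice** -/
theorem slice (D : Sh982.Dat q η ρ r Bc b φ p m₀ h ψ H) {g : ℂ → ℂ}
    {u0 R d u α β s₀ a₀ c : ℝ} (hS : Shift b φ p h ρ r u0 R d g)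
    (hG : GoodAt b φ p h ρ r u0 R d g u α β s₀ a₀ c) (hSup : SupAt (Bx b h ρ r g) h u s₀) :
    ∃ g0 : ℂ, g0.im = VV b φ p h ρ r u ∧ NTL g u α β g0 ∧ 0 < VV b φ p h ρ r u ∧ ∃ δ > 0,
      DifferentiableOn ℂ (bs b h ρ r u)
        (Dm (s₀ + g0.re - δ) (s₀ + g0.re + δ) (VV b φ p h ρ r u) (ρ / 2 + VV b φ p h ρ r u)) ∧
      (∀ z ∈ Dm (s₀ + g0.re - δ) (s₀ + g0.re + δ) (VV b φ p h ρ r u)
        (ρ / 2 + VV b φ p h ρ r u), |(bs b h ρ r u z).im| < h) ∧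
      (∀ᵐ x : ℝ, x ∈ Ioo (s₀ + g0.re - δ) (s₀ + g0.re + δ) →
        VLim b h ρ r u (VV b φ p h ρ r u) x h ∨ VLim b h ρ r u (VV b φ p h ρ r u) x (-h)) ∧
      ∀ e s1 δ1 : ℝ, |s1 - s₀| + δ1 ≤ δ →
        (∀ᵐ x : ℝ, x ∈ Ioo (s1 + g0.re - δ1) (s1 + g0.re + δ1) →
          VLim b h ρ r u (VV b φ p h ρ r u) x e) →
        ∀ᵐ s : ℝ, |s - s1| < δ1 → ∃ bb : ℂ, bb.im = e ∧
          ∀ M : ℝ, Tendsto (Bx b h ρ r g) (𝓝[Cn (s, u) M] ((s : ℂ), (u : ℂ))) (𝓝 bb) := by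
  have huB : (u : ℂ) ∈ ball (u0 : ℂ) R := by
    rw [mem_ball, dist_eq_norm, ← Complex.ofReal_sub, Complex.norm_real, Real.norm_eq_abs, abs_lt]
    constructor <;> linarith [hG.mem.1, hG.mem.2]
  have hur : |u| < r := by simpa using hS.ball_sub huB
  obtain ⟨hV0, -, hreg, -⟩ := VV_of_Nn D hur hG.nn
  obtain ⟨g0, hg0, hg⟩ := exists_ntl hG.mem hS.diff hG.expn
  obtain ⟨δ, hδ, hae⟩ := hSup
  have hmem : ∀ t : ℂ, t.im ∈ Ioo (VV b φ p h ρ r u - (ρ / 2 + VV b φ p h ρ r u))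
      (VV b φ p h ρ r u) → (t, (u : ℂ)) ∈ SB b h ρ r := by
    intro t ht
    exact (mem_SB_of D (by rw [Complex.norm_real, Real.norm_eq_abs]; exact hur)
      (by linarith [ht.1]) ht.2).1
  -- the link
  have hlink : ∀ (s : ℝ) (bb : ℂ), |bb.im| = h →
      (∀ M : ℝ, Tendsto (Bx b h ρ r g) (𝓝[Cn (s, u) M] ((s : ℂ), (u : ℂ))) (𝓝 bb)) →
      VLim b h ρ r u (VV b φ p h ρ r u) (s + g0.re) bb.im := by
    intro s bb hbb hl
    exact link D hur hV0 hG.expn hg hg0 hl (eq_or_eq_neg_of_abs_eq hbb)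
  refine ⟨g0, hg0, hg, hV0, δ, hδ, ?_, ?_, ?_, ?_⟩
  · intro t ht
    refine (DifferentiableAt.comp (g := be b h ρ r) (f := fun t : ℂ => ((t, (u : ℂ)) : ℂ × ℂ)) t
      (D.be_an _ (hmem t ht.2)).differentiableAt ?_).differentiableWithinAt
    fun_prop
  · intro t ht
    exact D.be_mem (hmem t ht.2)
  · filter_upwards [ae_shift g0.re hae] with x hx hxI
    obtain ⟨bb, hbb, hl⟩ := hx (by
      rw [abs_lt]
      constructor <;> linarith [hxI.1, hxI.2])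
    have h1 := hlink _ bb hbb hl
    rw [sub_add_cancel] at h1
    rcases eq_or_eq_neg_of_abs_eq hbb with h2 | h2
    · left
      rwa [h2] at h1
    · right
      rwa [h2] at h1
  · intro e s1 δ1 hδ1 hx
    filter_upwards [hae, ae_shift' g0.re hx] with s h1 h2 hs
    obtain ⟨bb, hbb, hl⟩ := h1 (by
      calc |s - s₀| = |(s - s1) + (s1 - s₀)| := by ring_nf
        _ ≤ |s - s1| + |s1 - s₀| := abs_add_le _ _
        _ < δ := by linarith)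
    have h3 := h2 (by
      have := abs_lt.1 hs
      constructor <;> linarith [this.1, this.2])
    exact ⟨bb, tendsto_nhds_unique (hlink s bb hbb hl) h3, hl⟩

/-- not one edge near `s₀` ⟹ both edges are met on every small interval of the real slice -/
theorem not_one {g : ℂ → ℂ} {u s₀ δ : ℝ} {g0 : ℂ} (U : ℝ)
    (hback : ∀ e s1 δ1 : ℝ, |s1 - s₀| + δ1 ≤ δ →
        (∀ᵐ x : ℝ, x ∈ Ioo (s1 + g0.re - δ1) (s1 + g0.re + δ1) → VLim b h ρ r u U x e) →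
        ∀ᵐ s : ℝ, |s - s1| < δ1 → ∃ bb : ℂ, bb.im = e ∧
          ∀ M : ℝ, Tendsto (Bx b h ρ r g) (𝓝[Cn (s, u) M] ((s : ℂ), (u : ℂ))) (𝓝 bb))
    (hno : ¬ OneE (Bx b h ρ r g) h u s₀) :
    ∀ δ1 : ℝ, 0 < δ1 → δ1 ≤ δ →
      (¬ ∀ᵐ x : ℝ, x ∈ Ioo (s₀ + g0.re - δ1) (s₀ + g0.re + δ1) → VLim b h ρ r u U x h) ∧
      ¬ ∀ᵐ x : ℝ, x ∈ Ioo (s₀ + g0.re - δ1) (s₀ + g0.re + δ1) → VLim b h ρ r u U x (-h) := by
  intro δ1 hδ1 hle
  constructor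
  · intro hcon
    exact hno ⟨δ1, hδ1, h, Or.inl rfl, hback h s₀ δ1 (by simpa using hle) hcon⟩
  · intro hcon
    exact hno ⟨δ1, hδ1, -h, Or.inr rfl, hback (-h) s₀ δ1 (by simpa using hle) hcon⟩

end Crest.Agent.R102.Slice812
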