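import Crest.Agent.R102.ExitB_812
import Crest.Agent.R102.Chain_559
import Crest.Agent.R102.SliceB_812
import Crest.Agent.R102.SliceWin_408
import Crest.Agent.R102.KolX_408

/-!
Row 102, T1-B, EDGE, leaf **BAL** (helper953): balanced points on the objects.

If EDGE fails at `(u, s₀)` then arbitrarily near `s₀` there is `s` such that ALL small windows over
`(s, u)` have an interior label: `|Im B (ray (s,u) η)| ≤ h - c₂` for all small `η`, with `c₂`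
depending on `(α, β, h)` only.
-/

set_option autoImplicit false

open Set Filter Topology Metric Complex MeasureTheory
open scoped Real ComplexConjugate

noncomputable section

namespace Crest.Agent.R102.Bal953

open Crest.Agent.R102.Sh982
open Crest.Agent.R102.GlueII559 (OL OX VV VV_of_Nn mem_of_lt_VV)
open Crest.Agent.R102.PartII150 (ex ln Xe Le NTL exists_ntl Bx)
open Crest.Agent.R102.Slope845 (Expn)
open Crest.Agent.R102.Sup115 (HDu GoodU Dp)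
open Crest.Agent.R102.S5 (Cn bl ray)
open Crest.Agent.R102.Out559 (OmL OmX Nn)
open Crest.Agent.R102.Exit812 (realball mem_SB_of cmp link)
open Crest.Agent.R102.Chain559 (OneE Shift GoodAt)
open Crest.Agent.R102.Kol953 (harnack Dm kolwin)

/-! ### Harnack in a half plane, two points of one window -/

/-- two points `z₁, z₂` with `‖z‖ ≤ A σ`, `Im z ≥ κ σ`; the disc of centre `i A² σ / κ` -/
theorem hp {f : ℂ → ℂ} {A κ σ : ℝ} (hA : 0 < A) (hκ : 0 < κ) (hκA : κ ≤ A) (hσ : 0 < σ)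
    (hf : DifferentiableOn ℂ f (closedBall (((A ^ 2 * σ / κ : ℝ) : ℂ) * I)
      (A ^ 2 * σ / κ - κ * σ / 4)))
    (hpos : ∀ z ∈ closedBall (((A ^ 2 * σ / κ : ℝ) : ℂ) * I) (A ^ 2 * σ / κ - κ * σ / 4),
      0 ≤ (f z).re) {z₁ z₂ : ℂ} (h1 : ‖z₁‖ ≤ A * σ) (h1' : κ * σ ≤ z₁.im)
    (h2 : ‖z₂‖ ≤ A * σ) (h2' : κ * σ ≤ z₂.im) :
    κ ^ 4 / (64 * A ^ 4) * (f z₁).re ≤ (f z₂).re := by
  set P : ℝ := A ^ 2 * σ / κ with hP
  have hPp : 0 < P := by positivity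
  have hPκ : P * (κ * σ) = A ^ 2 * σ ^ 2 := by rw [hP]; field_simp
  have hκP : κ * σ ≤ P := by
    rw [hP, le_div_iff₀ hκ]
    nlinarith [mul_le_mul hκA hκA hκ.le hA.le]
  have hR : 0 < P - κ * σ / 4 := by
    have : 0 < κ * σ := by positivity
    linarith
  have key : ∀ z : ℂ, ‖z‖ ≤ A * σ → κ * σ ≤ z.im → ‖z - (P : ℂ) * I‖ ≤ P - κ * σ / 2 := by
    intro z hz hz'
    have hn : ‖z‖ ^ 2 = z.re ^ 2 + z.im ^ 2 := by
      rw [Complex.sq_norm, Complex.normSq_apply]; ring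
    have hn2 : ‖z - (P : ℂ) * I‖ ^ 2 = z.re ^ 2 + (z.im - P) ^ 2 := by
      rw [Complex.sq_norm, Complex.normSq_apply]; simp; ring
    have hz2 : ‖z‖ ^ 2 ≤ (A * σ) ^ 2 := pow_le_pow_left₀ (norm_nonneg _) hz 2
    have h0 : 0 ≤ P - κ * σ / 2 := by
      have : 0 < κ * σ := by positivity
      linarith
    refine le_of_sq_le_sq ?_ h0
    rw [hn2]
    have e1 : P * (κ * σ) ≤ P * z.im := mul_le_mul_of_nonneg_left hz' hPp.le
    have e2 : 0 ≤ (κ * σ) ^ 2 := by positivity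
    nlinarith
  have hc : closure (ball ((P : ℂ) * I) (P - κ * σ / 4)) =
      closedBall ((P : ℂ) * I) (P - κ * σ / 4) := closure_ball _ hR.ne'
  have hd : DiffContOnCl ℂ f (ball ((P : ℂ) * I) (P - κ * σ / 4)) := by
    apply DifferentiableOn.diffContOnCl
    rw [hc]
    exact hf
  have k1 := key z₁ h1 h1'
  have k2 := key z₂ h2 h2'
  have hκσ : 0 < κ * σ := by positivity
  have m1 : z₁ ∈ ball ((P : ℂ) * I) (P - κ * σ / 4) := by
    rw [mem_ball, dist_eq_norm]; linarith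
  have m2 : z₂ ∈ ball ((P : ℂ) * I) (P - κ * σ / 4) := by
    rw [mem_ball, dist_eq_norm]; linarith
  have H := harnack hR hd (fun z hz => hpos z (sphere_subset_closedBall hz)) m2 m1
  have hre : 0 ≤ (f z₁).re := hpos z₁ (ball_subset_closedBall m1)
  have hk : κ ^ 4 / (64 * A ^ 4) ≤ (P - κ * σ / 4 - ‖z₂ - (P : ℂ) * I‖) *
      (P - κ * σ / 4 - ‖z₁ - (P : ℂ) * I‖) / (4 * (P - κ * σ / 4) ^ 2) := by
    rw [le_div_iff₀ (by positivity)]
    calc κ ^ 4 / (64 * A ^ 4) * (4 * (P - κ * σ / 4) ^ 2)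
        ≤ κ ^ 4 / (64 * A ^ 4) * (4 * P ^ 2) := by
          gcongr
          linarith
      _ = (κ * σ / 4) * (κ * σ / 4) := by rw [hP]; field_simp; ring
      _ ≤ _ := by
          apply mul_le_mul
          · linarith
          · linarith
          · positivity
          · linarith
  exact le_trans (mul_le_mul_of_nonneg_right hk hre) H

/-- the window in blow-up coordinates -/
def Win (A κ : ℝ) : Set (ℂ × ℂ) :=
  {x | ‖x.1‖ ≤ A ∧ ‖x.2‖ ≤ A ∧ κ ≤ x.2.im ∧ x.1.im ≤ -κ}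

/-- **two points of one window in the product domain** (function with nonnegative real part) -/
theorem prod_pos {P : ℂ × ℂ → ℂ} {u0 R d u s : ℝ}
    (hP : DifferentiableOn ℂ P (Dp u0 R d)) (hpos : ∀ q ∈ Dp u0 R d, 0 ≤ (P q).re)
    {A κ : ℝ} (hA : 0 < A) (hκ : 0 < κ) (hκA : κ ≤ A) {σ : ℝ} (hσ : 0 < σ)
    (hσd : 2 * (A ^ 2 * σ / κ) < d) (hσR : 2 * (A ^ 2 * σ / κ) < R - |u - u0|)
    {x x' : ℂ × ℂ} (hx : x ∈ Win A κ) (hx' : x' ∈ Win A κ) :
    (κ ^ 4 / (64 * A ^ 4)) ^ 2 * (P (bl (s, u) σ x)).re ≤ (P (bl (s, u) σ x')).re := by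
  set D : ℝ := A ^ 2 * σ / κ with hD
  have hDp : 0 < D := by positivity
  have hκσ : 0 < κ * σ := by positivity
  have hκD : κ * σ ≤ D := by
    rw [hD, le_div_iff₀ hκ]
    nlinarith [mul_le_mul hκA hκA hκ.le hA.le]
  have hAD : A * σ ≤ D := by
    rw [hD, le_div_iff₀ hκ]
    nlinarith [mul_le_mul_of_nonneg_left hκA hA.le]
  have hDpopen : IsOpen (Dp u0 R d) := by
    have e : Dp u0 R d = {q : ℂ × ℂ | -d < q.1.im} ∩ ({q | q.1.im < 0} ∩
      ((fun q : ℂ × ℂ => q.2) ⁻¹' (ball (u0 : ℂ) R) ∩ {q | 0 < q.2.im})) := by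
      ext q
      simp only [Sup115.Dp, Sup115.HDu, mem_ofPred_eq, mem_inter_iff, mem_preimage]
    rw [e]
    refine (isOpen_lt continuous_const (by fun_prop)).inter
      ((isOpen_lt (by fun_prop) continuous_const).inter
      ((isOpen_ball.preimage continuous_snd).inter (isOpen_lt continuous_const (by fun_prop))))
  -- membership
  have mem : ∀ τ ζ : ℂ, -(2 * D) < τ.im → τ.im < 0 → ‖ζ‖ < 2 * D → 0 < ζ.im →
      (((s : ℂ) + τ, (u : ℂ) + ζ) : ℂ × ℂ) ∈ Dp u0 R d := by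
    intro τ ζ h1 h2 h3 h4
    refine ⟨?_, ?_, ?_, ?_⟩
    · simp; linarith
    · simpa using h2
    · rw [mem_ball, dist_eq_norm]
      have : ((u : ℂ) + ζ) - (u0 : ℂ) = ((u - u0 : ℝ) : ℂ) + ζ := by push_cast; ring
      rw [this]
      refine (norm_add_le _ _).trans_lt ?_
      rw [Complex.norm_real, Real.norm_eq_abs]
      linarith
    · simpa using h4
  -- balls
  have cbIm : ∀ z ∈ closedBall ((D : ℂ) * I) (D - κ * σ / 4), 0 < z.im ∧ ‖z‖ < 2 * D ∧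
      z.im < 2 * D := by
    intro z hz
    rw [mem_closedBall, dist_eq_norm] at hz
    have e1 := (Complex.abs_im_le_norm _).trans hz
    simp at e1
    rw [abs_le] at e1
    refine ⟨by linarith [e1.1], ?_, by linarith [e1.2]⟩
    calc ‖z‖ = ‖(z - (D : ℂ) * I) + (D : ℂ) * I‖ := by ring_nf
      _ ≤ ‖z - (D : ℂ) * I‖ + ‖(D : ℂ) * I‖ := norm_add_le _ _
      _ ≤ (D - κ * σ / 4) + D := by
          have : ‖(D : ℂ) * I‖ = D := by
            rw [norm_mul, Complex.norm_I, mul_one, Complex.norm_real, Real.norm_of_nonneg hDp.le]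
          linarith
      _ < 2 * D := by linarith
  obtain ⟨a1, a2, a3, a4⟩ := hx
  obtain ⟨b1, b2, b3, b4⟩ := hx'
  have nσ : ∀ z : ℂ, ‖z‖ ≤ A → ‖(σ : ℂ) * z‖ ≤ A * σ := by
    intro z hz
    rw [norm_mul, Complex.norm_real, Real.norm_of_nonneg hσ.le, mul_comm]
    gcongr
  have iσ : ∀ z : ℂ, ((σ : ℂ) * z).im = σ * z.im := by intro z; simp
  -- step 1: move `w`
  have s1 : κ ^ 4 / (64 * A ^ 4) * (P ((s : ℂ) + σ * x.1, (u : ℂ) + σ * x.2)).re ≤
      (P ((s : ℂ) + σ * x.1, (u : ℂ) + σ * x'.2)).re := by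
    have t1 : -(2 * D) < ((σ : ℂ) * x.1).im := by
      have h3 := (Complex.abs_im_le_norm ((σ : ℂ) * x.1)).trans (nσ _ a1)
      have h4 := (abs_le.1 h3).1
      linarith
    have t2 : ((σ : ℂ) * x.1).im < 0 := by rw [iσ]; nlinarith
    refine hp (f := fun ζ => P ((s : ℂ) + σ * x.1, (u : ℂ) + ζ)) hA hκ hκA hσ ?_ ?_ (nσ _ a2)
      (by rw [iσ]; nlinarith) (nσ _ b2) (by rw [iσ]; nlinarith)
    · intro ζ hζ
      obtain ⟨c1, c2, c3⟩ := cbIm ζ hζ
      have hm := mem _ ζ t1 t2 c2 c1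
      refine (DifferentiableAt.comp (g := P)
        (f := fun ζ : ℂ => (((s : ℂ) + σ * x.1, (u : ℂ) + ζ) : ℂ × ℂ)) ζ
        ((hP _ hm).differentiableAt (hDpopen.mem_nhds hm)) ?_).differentiableWithinAt
      fun_prop
    · intro ζ hζ
      obtain ⟨c1, c2, c3⟩ := cbIm ζ hζ
      exact hpos _ (mem _ ζ t1 t2 c2 c1)
  -- step 2: move `t`
  have s2 : κ ^ 4 / (64 * A ^ 4) * (P ((s : ℂ) + σ * x.1, (u : ℂ) + σ * x'.2)).re ≤
      (P ((s : ℂ) + σ * x'.1, (u : ℂ) + σ * x'.2)).re := by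
    have t1 : ‖(σ : ℂ) * x'.2‖ < 2 * D := by
      have := nσ _ b2
      linarith
    have t2 : 0 < ((σ : ℂ) * x'.2).im := by rw [iσ]; nlinarith
    have h5 := hp (f := fun ζ => P ((s : ℂ) - ζ, (u : ℂ) + σ * x'.2)) (z₁ := -((σ : ℂ) * x.1))
      (z₂ := -((σ : ℂ) * x'.1)) hA hκ hκA hσ ?_ ?_ (by rw [norm_neg]; exact nσ _ a1)
      (by rw [neg_im, iσ]; nlinarith) (by rw [norm_neg]; exact nσ _ b1)
      (by rw [neg_im, iσ]; nlinarith)
    · simpa only [sub_neg_eq_add] using h5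
    · intro ζ hζ
      obtain ⟨c1, c2, c3⟩ := cbIm ζ hζ
      have hm := mem (-ζ) _ (by rw [neg_im]; linarith) (by rw [neg_im]; linarith) t1 t2
      rw [← sub_eq_add_neg] at hm
      refine (DifferentiableAt.comp (g := P)
        (f := fun ζ : ℂ => (((s : ℂ) - ζ, (u : ℂ) + σ * x'.2) : ℂ × ℂ)) ζ
        ((hP _ hm).differentiableAt (hDpopen.mem_nhds hm)) ?_).differentiableWithinAt
      fun_prop
    · intro ζ hζ
      obtain ⟨c1, c2, c3⟩ := cbIm ζ hζ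
      have hm := mem (-ζ) _ (by rw [neg_im]; linarith) (by rw [neg_im]; linarith) t1 t2
      rw [← sub_eq_add_neg] at hm
      exact hpos _ hm
  have hk : 0 ≤ κ ^ 4 / (64 * A ^ 4) := by positivity
  calc (κ ^ 4 / (64 * A ^ 4)) ^ 2 * (P (bl (s, u) σ x)).re
      = κ ^ 4 / (64 * A ^ 4) *
        (κ ^ 4 / (64 * A ^ 4) * (P ((s : ℂ) + σ * x.1, (u : ℂ) + σ * x.2)).re) := by
        simp only [bl]; ring
    _ ≤ κ ^ 4 / (64 * A ^ 4) * (P ((s : ℂ) + σ * x.1, (u : ℂ) + σ * x'.2)).re :=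
        mul_le_mul_of_nonneg_left s1 hk
    _ ≤ _ := s2

/-- **two points of one window, label form** -/
theorem prod_label {B : ℂ × ℂ → ℂ} {u0 R d u s h : ℝ}
    (hB : DifferentiableOn ℂ B (Dp u0 R d)) (hb : ∀ q ∈ Dp u0 R d, |(B q).im| < h)
    {A κ : ℝ} (hA : 0 < A) (hκ : 0 < κ) (hκA : κ ≤ A) {σ : ℝ} (hσ : 0 < σ)
    (hσd : 2 * (A ^ 2 * σ / κ) < d) (hσR : 2 * (A ^ 2 * σ / κ) < R - |u - u0|)
    {x x' : ℂ × ℂ} (hx : x ∈ Win A κ) (hx' : x' ∈ Win A κ) :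
    (κ ^ 4 / (64 * A ^ 4)) ^ 2 * (h - (B (bl (s, u) σ x)).im) ≤ h - (B (bl (s, u) σ x')).im ∧
    (κ ^ 4 / (64 * A ^ 4)) ^ 2 * (h + (B (bl (s, u) σ x)).im) ≤ h + (B (bl (s, u) σ x')).im := by
  have e1 : ∀ y : ℂ, ((h : ℂ) + I * y).re = h - y.im := fun y => by simp; ring
  have e2 : ∀ y : ℂ, ((h : ℂ) - I * y).re = h + y.im := fun y => by simp
  constructor
  · have := prod_pos (s := s) (P := fun q => (h : ℂ) + I * B q) ((hB.const_mul I).const_add _)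
      (fun q hq => by rw [e1]; linarith [(abs_lt.1 (hb q hq)).2]) hA hκ hκA hσ hσd hσR hx hx'
    simpa only [e1] using this
  · have := prod_pos (s := s) (P := fun q => (h : ℂ) - I * B q) ((hB.const_mul I).const_sub _)
      (fun q hq => by rw [e2]; linarith [(abs_lt.1 (hb q hq)).1]) hA hκ hκA hσ hσd hσR hx hx'
    simpa only [e2] using this

/-! ### the objects -/

section Obj

variable {q : C(ℂ, ℂ)} {η ρ r Bc : ℝ} {b φ p : ℂ × ℂ → ℂ} {m₀ : ℂ → ℂ} {h : ℝ} {ψ H : ℂ → ℂ}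

theorem ex_mem (D : Sh982.Dat q η ρ r Bc b φ p m₀ h ψ H) {g : ℂ → ℂ} {u0 R d : ℝ}
    (hS : Shift b φ p h ρ r u0 R d g) {x : ℂ × ℂ} (hx : x ∈ Dp u0 R d) :
    ex g x ∈ SB b h ρ r := by
  obtain ⟨h1, h2, h3⟩ := hx
  have hρ := D.ρ_pos
  have hw : ‖x.2‖ < r := by simpa using hS.ball_sub h3.1
  have e : (x.1 + g x.2).im = x.1.im + (g x.2).im := by simp
  have k1 := hS.im_nonneg x.2 h3
  have k2 := hS.im_le x.2 h3
  have k3 := hS.d_le
  exact (mem_SB_of D hw (by rw [e]; linarith) (by rw [e]; linarith)).1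

theorem bx_diff (D : Sh982.Dat q η ρ r Bc b φ p m₀ h ψ H) {g : ℂ → ℂ} {u0 R d : ℝ}
    (hS : Shift b φ p h ρ r u0 R d g) : DifferentiableOn ℂ (Bx b h ρ r g) (Dp u0 R d) := by
  intro x hx
  have hHo : IsOpen (HDu u0 R) :=
    isOpen_ball.inter (isOpen_lt continuous_const Complex.continuous_im)
  have hgd : DifferentiableAt ℂ g x.2 := (hS.diff x.2 hx.2.2).differentiableAt
    (hHo.mem_nhds hx.2.2)
  have h1 := (D.be_an _ (ex_mem D hS hx)).differentiableAt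
  have h2 : DifferentiableAt ℂ (ex g) x := by
    have h3 : DifferentiableAt ℂ (fun q : ℂ × ℂ => g q.2) x :=
      DifferentiableAt.comp (g := g) (f := fun q : ℂ × ℂ => q.2) x hgd differentiableAt_snd
    exact (differentiableAt_fst.add h3).prodMk differentiableAt_snd
  exact (DifferentiableAt.comp (g := be b h ρ r) (f := ex g) x h1 h2).differentiableWithinAt

theorem bx_im (D : Sh982.Dat q η ρ r Bc b φ p m₀ h ψ H) {g : ℂ → ℂ} {u0 R d : ℝ}
    (hS : Shift b φ p h ρ r u0 R d g) : ∀ x ∈ Dp u0 R d, |(Bx b h ρ r g x).im| < h :=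
  fun _ hx => D.be_mem (ex_mem D hS hx)

/-- **BAL**: balanced points on the objects, with the nondegeneracy (NF) -/
theorem bal (D : Sh982.Dat q η ρ r Bc b φ p m₀ h ψ H) {g : ℂ → ℂ}
    {u0 R d u α β s₀ a₀ c : ℝ} (hS : Shift b φ p h ρ r u0 R d g)
    (hG : GoodAt b φ p h ρ r u0 R d g u α β s₀ a₀ c)
    (hSup : Slice812.SupAt (Bx b h ρ r g) h u s₀) (hno : ¬ OneE (Bx b h ρ r g) h u s₀)
    {y : ℂ → ℂ} (hy : DifferentiableOn ℂ y (T5.Str h)) (hper : ∀ z ∈ T5.Str h, y (z + 1) = y z)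
    (hne : ∃ z ∈ T5.Str h, y z ≠ 0) :
    ∃ c₂ > 0, ∃ d₂ > 0, ∃ g₂ > 0, ∀ δ > 0, ∃ s : ℝ, |s - s₀| < δ ∧ ∃ η₀ > 0, ∀ σ : ℝ, 0 < σ →
      σ < η₀ → |(Bx b h ρ r g (ray (s, u) σ)).im| ≤ h - c₂ ∧
      ∀ b0 ∈ T5.Str h, y b0 = 0 → ∃ Q : ℂ × ℂ, ‖Q.1‖ ≤ 4 ∧ ‖Q.2‖ ≤ 1 ∧ d₂ ≤ Q.2.im ∧
        Q.1.im ≤ -d₂ ∧ g₂ ≤ |(Bx b h ρ r g (bl (s, u) σ Q)).im - b0.im| := by
  have hh : 0 < h := D.h_pos
  have hρ := D.ρ_pos
  obtain ⟨v0, g1, hv0, hg1, hg1h, hheights⟩ := SliceWin408.heights hh hy hper hne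
  have huB : (u : ℂ) ∈ ball (u0 : ℂ) R := by
    rw [mem_ball, dist_eq_norm, ← Complex.ofReal_sub, Complex.norm_real, Real.norm_eq_abs, abs_lt]
    constructor <;> linarith [hG.mem.1, hG.mem.2]
  have hur : |u| < r := by simpa using hS.ball_sub huB
  obtain ⟨g0, hg0, hg, hV0, δ₀, hδ₀, hβ, hb, hlim, hback⟩ := Slice812.slice D hS hG hSup
  have hnot := Slice812.not_one (b := b) (h := h) (ρ := ρ) (r := r) (VV b φ p h ρ r u) hback hno
  -- transfer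
  obtain ⟨dw, hdw, ηw, hηw, hwin⟩ := SliceWin408.slice_win D hur hV0 hG.expn hg hg0
    (ε := 1) (g1 := h / 2 ^ 77) one_pos le_rfl (by positivity)
  obtain ⟨dn, hdn, ηn, hηn, hnf⟩ := SliceWin408.nf_obj D hur hV0 hG.expn hg hg0 (v0 := v0)
    hg1 hg1h
  set κ : ℝ := min dw (1 / 4) with hκ
  have hκ0 : 0 < κ := lt_min hdw (by norm_num)
  have hκw : κ ≤ dw := min_le_left _ _
  have hκ4 : κ ≤ 1 / 4 := min_le_right _ _
  set K : ℝ := (κ ^ 4 / (64 * 4 ^ 4)) ^ 2 with hK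
  have hK0 : 0 < K := by positivity
  have huR : 0 < R - |u - u0| := by
    have : |u - u0| < R := by rw [abs_lt]; constructor <;> linarith [hG.mem.1, hG.mem.2]
    linarith
  have hBd := bx_diff D hS
  have hBi := bx_im D hS
  refine ⟨K * (h / 2 ^ 77), by positivity, dn, hdn, g1 / 2, by positivity, fun δ hδ => ?_⟩
  set δ₁ : ℝ := min δ δ₀ with hδ₁
  have hδ₁0 : 0 < δ₁ := lt_min hδ hδ₀
  have hsub : Dm (s₀ + g0.re - δ₁) (s₀ + g0.re + δ₁) (VV b φ p h ρ r u)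
      (ρ / 2 + VV b φ p h ρ r u) ⊆ Dm (s₀ + g0.re - δ₀) (s₀ + g0.re + δ₀) (VV b φ p h ρ r u)
      (ρ / 2 + VV b φ p h ρ r u) := by
    intro t ht
    have k1 : δ₁ ≤ δ₀ := min_le_right _ _
    exact ⟨⟨by linarith [ht.1.1], by linarith [ht.1.2]⟩, ht.2⟩
  obtain ⟨n1, n2⟩ := hnot δ₁ hδ₁0 (min_le_right _ _)
  have hlim₁ : ∀ᵐ x : ℝ, x ∈ Ioo (s₀ + g0.re - δ₁) (s₀ + g0.re + δ₁) →
      Slice812.VLim b h ρ r u (VV b φ p h ρ r u) x h ∨
        Slice812.VLim b h ρ r u (VV b φ p h ρ r u) x (-h) := by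
    filter_upwards [hlim] with x hx hxI
    have k1 : δ₁ ≤ δ₀ := min_le_right _ _
    exact hx ⟨by linarith [hxI.1], by linarith [hxI.2]⟩
  obtain ⟨x0, hx0, sx, hsx, -, -, -, hint, -, hNF⟩ := KolX408.kolx (v0 := v0) hh
    (show 0 < ρ / 2 + VV b φ p h ρ r u by linarith) hv0 (hβ.mono hsub)
    (fun z hz => hb z (hsub hz)) hlim₁ n1 n2
  refine ⟨x0 - g0.re, ?_, ?_⟩
  · rw [abs_lt]
    have k1 : δ₁ ≤ δ := min_le_left _ _
    constructor <;> linarith [hx0.1, hx0.2]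
  set sS : ℝ := x0 - g0.re with hsS
  have hxs : sS + g0.re = x0 := by rw [hsS]; ring
  refine ⟨min (min ηw ηn) (min sx (min (κ * d / 64) (κ * (R - |u - u0|) / 64))), ?_, ?_⟩
  · have := hS.d_pos
    exact lt_min (lt_min hηw hηn) (lt_min hsx (lt_min (by positivity) (by positivity)))
  intro σ hσ hσ0
  have m1 : σ < ηw := hσ0.trans_le ((min_le_left _ _).trans (min_le_left _ _))
  have m2 : σ < ηn := hσ0.trans_le ((min_le_left _ _).trans (min_le_right _ _))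
  have m3 : σ < sx := hσ0.trans_le ((min_le_right _ _).trans (min_le_left _ _))
  have m4 : σ < κ * d / 64 :=
    hσ0.trans_le ((min_le_right _ _).trans ((min_le_right _ _).trans (min_le_left _ _)))
  have m5 : σ < κ * (R - |u - u0|) / 64 :=
    hσ0.trans_le ((min_le_right _ _).trans ((min_le_right _ _).trans (min_le_right _ _)))
  constructor
  · obtain ⟨Q, q1, q2, q3, q4, q5⟩ := hwin sS σ hσ m1 x0 σ (by rw [hxs]; simpa using hσ.le)
      (by linarith) le_rfl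
    have k1 := hint σ hσ m3.le
    have k1' : |(be b h ρ r ((x0 : ℂ) + ((VV b φ p h ρ r u - σ : ℝ) : ℂ) * I, (u : ℂ))).im| ≤
      h - h / 2 ^ 76 := k1
    have k2 := (Complex.abs_im_le_norm _).trans q5
    rw [Complex.sub_im] at k2
    have k3 := abs_le.1 k1'
    have k4 := abs_le.1 k2
    have e76 : h / 2 ^ 76 = h / 2 ^ 77 + h / 2 ^ 77 := by ring
    have hQ : Q ∈ Win 4 κ := ⟨q1, q2.trans (by norm_num), hκw.trans q3, by linarith⟩
    have hR : ((-I, I / 4) : ℂ × ℂ) ∈ Win 4 κ := by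
      refine ⟨by simp, ?_, ?_, ?_⟩
      · simp; norm_num
      · have : ((I : ℂ) / 4).im = 1 / 4 := by
          rw [show (I : ℂ) / 4 = ((1 / 4 : ℝ) : ℂ) * I by push_cast; ring]
          simp
        simpa [this] using hκ4
      · simp; linarith
    have hd1 : 2 * ((4 : ℝ) ^ 2 * σ / κ) < d := by
      rw [mul_div_assoc', div_lt_iff₀ hκ0]
      linarith
    have hd2 : 2 * ((4 : ℝ) ^ 2 * σ / κ) < R - |u - u0| := by
      rw [mul_div_assoc', div_lt_iff₀ hκ0]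
      linarith
    obtain ⟨t1, t2⟩ := prod_label (s := sS) (u := u) hBd hBi (A := 4) (by norm_num) hκ0
      (by linarith) hσ hd1 hd2 hQ hR
    rw [← hK] at t1 t2
    have t3 : h / 2 ^ 77 ≤ h - (Bx b h ρ r g (bl (sS, u) σ Q)).im := by
      linarith [k4.1, k3.2]
    have t4 : h / 2 ^ 77 ≤ h + (Bx b h ρ r g (bl (sS, u) σ Q)).im := by
      linarith [k4.2, k3.1]
    have t5 := mul_le_mul_of_nonneg_left t3 hK0.le
    have t6 := mul_le_mul_of_nonneg_left t4 hK0.le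
    have e : ray (sS, u) σ = bl (sS, u) σ (-I, I / 4) := rfl
    rw [e, abs_le]
    constructor
    · linarith
    · linarith
  · intro b0 hb0 hyb
    obtain ⟨Q, q1, q2, q3, q4, -, q6⟩ := hnf sS sx (by
      intro v1 hv1 sc hsc hsc'
      rw [hxs]
      exact hNF g1 hg1 hg1h v1 hv1 sc hsc hsc') σ hσ m2 m3.le b0 (hheights b0 hb0 hyb)
    exact ⟨Q, q1, q2, q3, q4, q6⟩

end Obj

end Crest.Agent.R102.Bal953
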