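import Crest.Agent.R102.EdgeDefs_255
import Crest.Agent.R102.Bal_953
import Crest.Agent.R102.BalC_953

/-!
Row 102, T1-B, EDGE, leaf **BAL** (helper953): `balP : Edge255.BalP`.
-/

set_option autoImplicit false

open Set Filter Topology Metric Complex MeasureTheory

noncomputable section

namespace Crest.Agent.R102.BalP953

open Crest.Agent.R102.Edge255
open Crest.Agent.R102.S5 (bl ray)
open Crest.Agent.R102.PartII150 (Bx)

/-- **(EDGE-BAL)** -/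
theorem balP : BalP := by
  intro q η ρ r Bc b φ p m₀ h ψ H K G D hNB hM u0 R d g hS u α β s₀ a₀ c hG hSup hno
  have hh : 0 < h := D.h_pos
  have hyd : DifferentiableOn ℂ (deriv ψ) (T5.Str h) := by
    intro z hz
    exact ((D.ψ_diff.analyticAt ((Rule982.isOpen_Sg h).mem_nhds
      hz)).deriv).differentiableAt.differentiableWithinAt
  have hper : ∀ z ∈ T5.Str h, deriv ψ (z + 1) = deriv ψ z := fun z hz => hM.yper z hz
  have hne : ∃ z ∈ T5.Str h, deriv ψ z ≠ 0 := by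
    refine ⟨0, by change |(0 : ℂ).im| < h; simpa using hh, ?_⟩
    have h1 := (hM.y_pos 0).1
    intro h0
    simp only [Complex.ofReal_zero] at h1
    rw [h0] at h1
    simp at h1
  obtain ⟨c₂, hc₂, d₂, hd₂, g₂, hg₂, hbal⟩ := Bal953.bal D hS hG hSup hno hyd hper hne
  by_contra hneg
  unfold Edge255.Balanced at hneg
  push Not at hneg
  have key : ∀ n : ℕ, ∃ x s : ℝ, 0 < s ∧ s < 1 / ((n : ℝ) + 1) ∧
      |(Bx b h ρ r g (ray (x, u) s)).im| ≤ h - c₂ ∧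
      (∀ b0 ∈ T5.Str h, deriv ψ b0 = 0 → ∃ Q : ℂ × ℂ, ‖Q.1‖ ≤ 4 ∧ ‖Q.2‖ ≤ 1 ∧ d₂ ≤ Q.2.im ∧
        Q.1.im ≤ -d₂ ∧ g₂ ≤ |(Bx b h ρ r g (bl (x, u) s Q)).im - b0.im|) ∧
      ∀ q ∈ closedBall ((-I, I / 4) : ℂ × ℂ) (1 / 10),
        ‖deriv ψ (Bx b h ρ r g (bl (x, u) s q))‖ < 1 / ((n : ℝ) + 1) := by
    intro n
    have hn : (0 : ℝ) < 1 / ((n : ℝ) + 1) := by positivity
    obtain ⟨δ, hδ, h1⟩ := hneg (min c₂ (1 / ((n : ℝ) + 1))) (lt_min hc₂ hn)
    obtain ⟨x, hx, η₀, hη₀, h2⟩ := hbal δ hδ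
    obtain ⟨s, hs, h3⟩ := h1 x hx (min η₀ (1 / ((n : ℝ) + 1))) (lt_min hη₀ hn)
    obtain ⟨h4, h5⟩ := h2 s hs.1 (hs.2.trans_le (min_le_left _ _))
    refine ⟨x, s, hs.1, hs.2.trans_le (min_le_right _ _), h4, h5, fun q hq => ?_⟩
    by_contra h6
    rw [not_lt] at h6
    exact h3 ⟨h4.trans (sub_le_sub_left (min_le_left _ _) _), q, hq, (min_le_right _ _).trans h6⟩
  choose x s k1 k2 k3 k4 k5 using key
  have hs0 : Tendsto s atTop (𝓝 0) :=
    squeeze_zero (fun n => (k1 n).le) (fun n => (k2 n).le) tendsto_one_div_add_atTop_nhds_zero_nat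
  have hu : |u - u0| < R := by rw [abs_lt]; constructor <;> linarith [hG.mem.1, hG.mem.2]
  exact BalC953.nondeg (u0 := u0) (R := R) (d := d) hh hS.d_pos hu (Bal953.bx_diff D hS)
    (Bal953.bx_im D hS) hyd hper hne hc₂ hd₂ hg₂ k1 hs0 k3 k4 k5

end Crest.Agent.R102.BalP953
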