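import Crest.Agent.R102.End_613

/-!
Row 102, T1-B, EDGE-BAL (helper249): a label which is frozen at `b0` on the small ball
`closedBall (-I, I/4) (1/10)` of the model window is frozen on every compact product window.
-/

set_option autoImplicit false

open Set Filter Topology Metric Complex

noncomputable section

namespace Crest.Agent.R102.BalTr249

open Crest.Agent.R102.End613 Crest.Agent.R264 Crest.Agent.R266.SCV

/-- the base point of the model window (= `Edge255.z0`) -/
def z0 : ℂ × ℂ := (-I, I / 4)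

/-- the product model domain -/
def Dm : Set (ℂ × ℂ) := {q | q.1.im < 0 ∧ 0 < q.2.im ∧ ‖q.1‖ < 8 ∧ ‖q.2‖ < 8}

/-- compact product windows -/
def Qc (d : ℝ) : Set (ℂ × ℂ) := {q | ‖q.1‖ ≤ 4 ∧ ‖q.2‖ ≤ 1 ∧ d ≤ q.2.im ∧ q.1.im ≤ -d}

lemma isOpen_Dm : IsOpen Dm := by
  have h1 : Continuous fun q : ℂ × ℂ => q.1.im := Complex.continuous_im.comp continuous_fst
  have h2 : Continuous fun q : ℂ × ℂ => q.2.im := Complex.continuous_im.comp continuous_snd
  exact (isOpen_lt h1 continuous_const).inter ((isOpen_lt continuous_const h2).inter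
    ((isOpen_lt continuous_fst.norm continuous_const).inter
      (isOpen_lt continuous_snd.norm continuous_const)))

lemma convex_Dm : Convex ℝ Dm := by
  intro p hp q hq a b ha hb hab
  obtain ⟨p1, p2, p3, p4⟩ := hp
  obtain ⟨q1, q2, q3, q4⟩ := hq
  have hn : ∀ x y : ℂ, ‖x‖ < 8 → ‖y‖ < 8 → ‖a • x + b • y‖ < 8 := by
    intro x y hx hy
    have := (convex_ball (0 : ℂ) 8) (x := x) (by simpa using hx) (y := y) (by simpa using hy)
      ha hb hab
    simpa using this
  have hi : ∀ x y : ℂ, (a • x + b • y).im = a * x.im + b * y.im := by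
    intro x y; simp
  refine ⟨?_, ?_, hn _ _ p3 q3, hn _ _ p4 q4⟩
  · show (a • p.1 + b • q.1).im < 0
    rw [hi]
    rcases ha.eq_or_lt with rfl | ha'
    · have : b = 1 := by linarith
      subst this; linarith
    · nlinarith
  · show 0 < (a • p.2 + b • q.2).im
    rw [hi]
    rcases ha.eq_or_lt with rfl | ha'
    · have : b = 1 := by linarith
      subst this; linarith
    · nlinarith

lemma z0_ball_sub : closedBall z0 (1 / 10) ⊆ Dm := by
  intro q hq
  rw [mem_closedBall, Prod.dist_eq, max_le_iff] at hq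
  obtain ⟨h1, h2⟩ := hq
  rw [dist_eq_norm] at h1 h2
  have a1 : |(q.1 - z0.1).im| ≤ 1 / 10 := (abs_im_le_norm _).trans h1
  have a2 : |(q.2 - z0.2).im| ≤ 1 / 10 := (abs_im_le_norm _).trans h2
  have e1 : (q.1 - z0.1).im = q.1.im + 1 := by simp [z0]
  have e2 : (q.2 - z0.2).im = q.2.im - 1 / 4 := by
    simp [z0]
  rw [e1, abs_le] at a1
  rw [e2, abs_le] at a2
  have n1 : ‖z0.1‖ = 1 := by simp [z0]
  have n2 : ‖z0.2‖ = 1 / 4 := by simp [z0]
  have b1 : ‖q.1‖ ≤ ‖q.1 - z0.1‖ + ‖z0.1‖ := by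
    simpa using norm_add_le (q.1 - z0.1) z0.1
  have b2 : ‖q.2‖ ≤ ‖q.2 - z0.2‖ + ‖z0.2‖ := by
    simpa using norm_add_le (q.2 - z0.2) z0.2
  refine ⟨by linarith, by linarith, by linarith, by linarith⟩

lemma z0_mem : z0 ∈ Dm := z0_ball_sub (mem_closedBall_self (by norm_num))

lemma Qc_sub {d : ℝ} (hd : 0 < d) : Qc d ⊆ Dm := fun q hq =>
  ⟨by linarith [hq.2.2.2], by linarith [hq.2.2.1], by linarith [hq.1], by linarith [hq.2.1]⟩

lemma isCompact_Qc (d : ℝ) : IsCompact (Qc d) := by
  have h1 : Continuous fun q : ℂ × ℂ => q.1.im := Complex.continuous_im.comp continuous_fst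
  have h2 : Continuous fun q : ℂ × ℂ => q.2.im := Complex.continuous_im.comp continuous_snd
  have hcl : IsClosed (Qc d) :=
    (isClosed_le continuous_fst.norm continuous_const).inter
      ((isClosed_le continuous_snd.norm continuous_const).inter
        ((isClosed_le continuous_const h2).inter (isClosed_le h1 continuous_const)))
  refine (isCompact_closedBall (0 : ℂ × ℂ) 4).of_isClosed_subset hcl fun q hq => ?_
  rw [mem_closedBall, dist_zero_right, Prod.norm_def, max_le_iff]
  exact ⟨hq.1, hq.2.1.trans (by norm_num)⟩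

/-- **frozen transfer** -/
theorem frozen_transfer {h d g1 : ℝ} (hd : 0 < d) (hg : 0 < g1) :
    ∃ e1 > 0, ∀ (B : ℂ × ℂ → ℂ) (b0 : ℂ), DifferentiableOn ℂ B Dm →
      (∀ q ∈ Dm, |(B q).im| ≤ h) → (∀ q ∈ closedBall z0 (1 / 10), ‖B q - b0‖ ≤ e1) →
      ∀ Q ∈ Qc d, ‖B Q - b0‖ < g1 := by
  by_contra hcon
  push Not at hcon
  have hex : ∀ n : ℕ, ∃ (B : ℂ × ℂ → ℂ) (b0 : ℂ), DifferentiableOn ℂ B Dm ∧
      (∀ q ∈ Dm, |(B q).im| ≤ h) ∧ (∀ q ∈ closedBall z0 (1 / 10), ‖B q - b0‖ ≤ 1 / ((n : ℝ) + 1)) ∧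
      ∃ Q ∈ Qc d, g1 ≤ ‖B Q - b0‖ := fun n => by
    obtain ⟨B, b0, h1, h2, h3, h4⟩ := hcon (1 / ((n : ℝ) + 1)) (by positivity)
    exact ⟨B, b0, h1, h2, h3, h4⟩
  choose B b0 hBd hBi hBn Q hQ hQg using hex
  set u : Ultrafilter ℕ := hyperfilter ℕ with hu
  have hua : (u : Filter ℕ) ≤ atTop := by
    rw [← Nat.cofinite_eq_atTop]; exact hyperfilter_le_cofinite
  set f : ℕ → ℂ × ℂ → ℂ := fun n q => cexp (I * (B n q - b0 n)) with hf
  have hb0 : ∀ n, |(b0 n).im| ≤ h + 1 := by
    intro n
    have h1 := hBn n z0 (mem_closedBall_self (by norm_num))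
    have h2 : |(B n z0 - b0 n).im| ≤ 1 := by
      refine (abs_im_le_norm _).trans (h1.trans ?_)
      rw [div_le_one (by positivity)]
      have : (0 : ℝ) ≤ n := Nat.cast_nonneg n
      linarith
    have h3 := hBi n z0 z0_mem
    rw [sub_im, abs_le] at h2
    rw [abs_le] at h3 ⊢
    constructor <;> linarith [h2.1, h2.2, h3.1, h3.2]
  have hbd : ∀ n, ∀ q ∈ Dm, ‖f n q‖ ≤ Real.exp (2 * h + 1) := by
    intro n q hq
    rw [hf]
    simp only
    rw [Complex.norm_exp]
    refine Real.exp_le_exp.2 ?_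
    have e1 : (I * (B n q - b0 n)).re = (b0 n).im - (B n q).im := by simp
    rw [e1]
    have h1 := abs_le.1 (hb0 n)
    have h2 := abs_le.1 (hBi n q hq)
    linarith [h1.1, h1.2, h2.1, h2.2]
  have hfd : ∀ n, DifferentiableOn ℂ (f n) Dm := fun n =>
    ((differentiableOn_const _).mul ((hBd n).sub (differentiableOn_const _))).cexp
  obtain ⟨g, hg1, hg2⟩ := montel_ev u isOpen_Dm (f := f) (fun x hx => by
    obtain ⟨r, hr, hrs⟩ := Metric.isOpen_iff.1 isOpen_Dm x hx
    exact ⟨r, hr, Real.exp (2 * h + 1), hrs, Eventually.of_forall fun n =>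
      ⟨(hfd n).mono hrs, fun w hw => hbd n w (hrs hw)⟩⟩)
  -- the limit is one near `z0`
  have hone : ∀ q ∈ closedBall z0 (1 / 10), g q = 1 := by
    intro q hq
    have h1 : Tendsto (fun n => f n q) u (𝓝 (g q)) := hg2.tendsto_at (z0_ball_sub hq)
    have h2 : Tendsto (fun n => f n q) u (𝓝 1) := by
      have h3 : Tendsto (fun n => B n q - b0 n) atTop (𝓝 0) := by
        rw [tendsto_zero_iff_norm_tendsto_zero]
        exact squeeze_zero (fun _ => norm_nonneg _) (fun n => hBn n q hq)
          tendsto_one_div_add_atTop_nhds_zero_nat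
      have h4 : Tendsto (fun n => f n q) atTop (𝓝 (cexp (I * 0))) :=
        (Complex.continuous_exp.tendsto _).comp (h3.const_mul I)
      simp only [mul_zero, Complex.exp_zero] at h4
      exact h4.mono_left hua
    exact tendsto_nhds_unique h1 h2
  have hg3 : AnalyticOnNhd ℂ g Dm := analyticOnNhd_of_differentiableOn isOpen_Dm hg1
  have hg4 : EqOn g (fun _ => 1) Dm := by
    refine hg3.eqOn_of_preconnected_of_eventuallyEq analyticOnNhd_const
      convex_Dm.isPreconnected z0_mem ?_
    filter_upwards [closedBall_mem_nhds z0 (show (0 : ℝ) < 1 / 10 by norm_num)] with q hq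
    exact hone q hq
  -- uniform convergence on the compact hull of `z0` and `Qc d`
  set d' : ℝ := min d (1 / 4) with hd'
  have hd'0 : 0 < d' := lt_min hd (by norm_num)
  have hz0Q : z0 ∈ Qc d' := by
    refine ⟨by simp [z0], by simp [z0]; norm_num, ?_, ?_⟩
    · have : d' ≤ 1 / 4 := min_le_right _ _
      simp [z0]; linarith
    · have : d' ≤ 1 / 4 := min_le_right _ _
      simp [z0]; linarith
  have hQQ : Qc d ⊆ Qc d' := fun q hq =>
    ⟨hq.1, hq.2.1, (min_le_left _ _).trans hq.2.2.1,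
      hq.2.2.2.trans (neg_le_neg (min_le_left _ _))⟩
  have hcvx : Convex ℝ (Qc d') := by
    intro p hp q hq a b ha hb hab
    have hn : ∀ (R : ℝ) (x y : ℂ), ‖x‖ ≤ R → ‖y‖ ≤ R → ‖a • x + b • y‖ ≤ R := by
      intro R x y hx hy
      have := (convex_closedBall (0 : ℂ) R) (x := x) (by simpa using hx) (y := y)
        (by simpa using hy) ha hb hab
      simpa using this
    have hi : ∀ x y : ℂ, (a • x + b • y).im = a * x.im + b * y.im := by
      intro x y; simp
    refine ⟨hn _ _ _ hp.1 hq.1, hn _ _ _ hp.2.1 hq.2.1, ?_, ?_⟩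
    · show d' ≤ (a • p.2 + b • q.2).im
      rw [hi]
      have h1 := mul_le_mul_of_nonneg_left hp.2.2.1 ha
      have h2 := mul_le_mul_of_nonneg_left hq.2.2.1 hb
      have h3 : d' = a * d' + b * d' := by rw [← add_mul, hab, one_mul]
      linarith
    · show (a • p.1 + b • q.1).im ≤ -d'
      rw [hi]
      have h1 := mul_le_mul_of_nonneg_left hp.2.2.2 ha
      have h2 := mul_le_mul_of_nonneg_left hq.2.2.2 hb
      have h3 : -d' = a * -d' + b * -d' := by rw [← add_mul, hab, one_mul]
      linarith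
  have hunif : TendstoUniformlyOn f g u (Qc d') :=
    (tendstoLocallyUniformlyOn_iff_forall_isCompact isOpen_Dm).1 hg2 _ (Qc_sub hd'0)
      (isCompact_Qc _)
  -- small neighbourhood of one
  obtain ⟨δ, hδ, hlog⟩ : ∃ δ > 0, ∀ z : ℂ, ‖cexp (I * z) - 1‖ < δ → |z.re| ≤ Real.pi →
      ‖z‖ < min g1 1 := by
    by_contra hc
    push Not at hc
    have : ∀ n : ℕ, ∃ z : ℂ, ‖cexp (I * z) - 1‖ < 1 / ((n : ℝ) + 1) ∧ |z.re| ≤ Real.pi ∧
        min g1 1 ≤ ‖z‖ := fun n => hc _ (by positivity)
    choose z hz1 hz2 hz3 using this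
    have hlim : Tendsto (fun n => cexp (I * z n)) u (𝓝 1) := by
      rw [tendsto_iff_norm_sub_tendsto_zero]
      exact (squeeze_zero (fun _ => norm_nonneg _) (fun n => (hz1 n).le)
        tendsto_one_div_add_atTop_nhds_zero_nat).mono_left hua
    have him : Tendsto (fun n => (z n).im) u (𝓝 0) := by
      have h1 : Tendsto (fun n => ‖cexp (I * z n)‖) u (𝓝 1) := by simpa using hlim.norm
      have h2 : Tendsto (fun n => Real.log ‖cexp (I * z n)‖) u (𝓝 (Real.log 1)) :=
        h1.log one_ne_zero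
      simp only [Complex.norm_exp, Real.log_exp, Real.log_one] at h2
      have h3 : (fun n => (I * z n).re) = fun n => -(z n).im := by ext n; simp
      rw [h3] at h2
      simpa using h2.neg
    -- the real parts stay in a compact set
    have hmem : ∀ n, (z n).re ∈ Icc (-Real.pi) Real.pi := fun n => abs_le.1 (hz2 n)
    obtain ⟨x, hx, hxl⟩ := isCompact_Icc.ultrafilter_le_nhds (u.map fun n => (z n).re) (by
      rw [Ultrafilter.coe_map, Filter.le_principal_iff, Filter.mem_map]
      exact Eventually.of_forall hmem)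
    have hre : Tendsto (fun n => (z n).re) u (𝓝 x) := hxl
    have hzl : Tendsto z u (𝓝 (x : ℂ)) := by
      have h1 : Tendsto (fun n => (((z n).re : ℝ) : ℂ) + (((z n).im : ℝ) : ℂ) * I) u
          (𝓝 ((x : ℂ) + ((0 : ℝ) : ℂ) * I)) :=
        ((Complex.continuous_ofReal.tendsto x).comp hre).add
          (((Complex.continuous_ofReal.tendsto 0).comp him).mul_const I)
      simpa [Complex.re_add_im] using h1
    have h5 : Tendsto (fun n => cexp (I * z n)) u (𝓝 (cexp (I * x))) :=
      (Complex.continuous_exp.tendsto _).comp (hzl.const_mul I)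
    have h6 : cexp (I * x) = 1 := tendsto_nhds_unique h5 hlim
    rw [mul_comm, Complex.exp_eq_one_iff] at h6
    obtain ⟨m, hm⟩ := h6
    have h7 : (x : ℂ) = m * (2 * Real.pi) := by
      have : (x : ℂ) * I = (m * (2 * Real.pi)) * I := by rw [hm]; ring
      exact mul_right_cancel₀ I_ne_zero this
    have h8 : x = m * (2 * Real.pi) := by exact_mod_cast h7
    have hpi := Real.pi_pos
    have h9 : m = 0 := by
      have a1 : (m : ℝ) * (2 * Real.pi) ≤ Real.pi := by rw [← h8]; exact hx.2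
      have a2 : -Real.pi ≤ (m : ℝ) * (2 * Real.pi) := by rw [← h8]; exact hx.1
      have b1 : (m : ℝ) < 1 := by
        by_contra hc1
        have : (1 : ℝ) * (2 * Real.pi) ≤ m * (2 * Real.pi) :=
          mul_le_mul_of_nonneg_right (not_lt.1 hc1) (by positivity)
        linarith
      have b2 : (-1 : ℝ) < m := by
        by_contra hc1
        have : (m : ℝ) * (2 * Real.pi) ≤ -1 * (2 * Real.pi) :=
          mul_le_mul_of_nonneg_right (not_lt.1 hc1) (by positivity)
        linarith
      have b1' : m < 1 := by exact_mod_cast b1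
      have b2' : -1 < m := by exact_mod_cast b2
      omega
    rw [h9] at h8
    have hx0 : x = 0 := by simpa using h8
    rw [hx0] at hzl
    have h10 : Tendsto (fun n => ‖z n‖) u (𝓝 0) := by simpa using hzl.norm
    have h11 : min g1 1 ≤ 0 := ge_of_tendsto h10 (Eventually.of_forall hz3)
    have : 0 < min g1 1 := lt_min hg one_pos
    linarith
  have hev1 : ∀ᶠ n in (u : Filter ℕ), ∀ q ∈ Qc d', ‖f n q - 1‖ < δ := by
    have := Metric.tendstoUniformlyOn_iff.1 hunif δ hδ
    filter_upwards [this] with n hn q hq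
    have h1 := hn q hq
    rw [hg4 (Qc_sub hd'0 hq), dist_comm, dist_eq_norm] at h1
    exact h1
  have hev2 : ∀ᶠ n : ℕ in (u : Filter ℕ), 1 / ((n : ℝ) + 1) < 1 := by
    have : ∀ᶠ n : ℕ in atTop, 1 / ((n : ℝ) + 1) < 1 := by
      filter_upwards [eventually_ge_atTop 1] with n hn
      rw [div_lt_one (by positivity)]
      have : (1 : ℝ) ≤ n := by exact_mod_cast hn
      linarith
    exact hua this
  obtain ⟨n, hn1, hn2⟩ := (hev1.and hev2).exists
  -- connectedness along the convex set
  have hcont : ContinuousOn (fun q => B n q - b0 n) (Qc d') :=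
    ((hBd n).mono (Qc_sub hd'0)).continuousOn.sub continuousOn_const
  have hdich : ∀ q ∈ Qc d', ‖B n q - b0 n‖ < min g1 1 ∨ 3 ≤ ‖B n q - b0 n‖ := by
    intro q hq
    by_cases hre : |(B n q - b0 n).re| ≤ Real.pi
    · left
      exact hlog _ (hn1 q hq) hre
    · right
      have h1 : Real.pi < ‖B n q - b0 n‖ := lt_of_lt_of_le (not_le.1 hre) (abs_re_le_norm _)
      linarith [Real.pi_gt_three]
  have hstay : ∀ q ∈ Qc d', ‖B n q - b0 n‖ < min g1 1 := by
    intro q hq
    rcases hdich q hq with h1 | h1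
    · exact h1
    · exfalso
      have hpre := (hcvx.isPreconnected).image _ hcont.norm
      have hz : ‖B n z0 - b0 n‖ ∈ (fun q => ‖B n q - b0 n‖) '' Qc d' := mem_image_of_mem _ hz0Q
      have hq' : ‖B n q - b0 n‖ ∈ (fun q => ‖B n q - b0 n‖) '' Qc d' := mem_image_of_mem _ hq
      have hz2 : ‖B n z0 - b0 n‖ ≤ 2 := by
        have := hBn n z0 (mem_closedBall_self (by norm_num))
        linarith
      have h2 : (2 : ℝ) ∈ (fun q => ‖B n q - b0 n‖) '' Qc d' :=
        hpre.ordConnected.out hz hq' ⟨hz2, by linarith⟩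
      obtain ⟨q2, hq2, h3⟩ := h2
      rcases hdich q2 hq2 with h4 | h4
      · have : min g1 1 ≤ 1 := min_le_right _ _
        simp only at h3
        linarith
      · simp only at h3
        linarith
  have := hstay (Q n) (hQQ (hQ n))
  have h5 := hQg n
  have h6 : min g1 1 ≤ g1 := min_le_left _ _
  linarith

end Crest.Agent.R102.BalTr249
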