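import Mathlib

/-!
Row 102, T1-E, base of the climb: a label function `X (t, w)` near the real axis
(holomorphic, `X (t + 1, w) = X (t, w) + 1`, `X (t, 0) = t`, even in `w`) satisfies
`|X - t| ≤ B |w|²`, `|X (t, w) - X (t - w, w) - w| ≤ C₀ |w|³`.
-/

set_option autoImplicit false
set_option linter.unusedVariables false

open Set Filter Topology Metric

noncomputable section

namespace Crest.Agent.R102.BaseE350

/-- a double zero at `0` -/
lemma schwarz2 {f : ℂ → ℂ} {R M : ℝ} (hR : 0 < R) (hM : 0 < M)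
    (hf : DifferentiableOn ℂ f (ball 0 R)) (hb : ∀ w ∈ ball (0 : ℂ) R, ‖f w‖ < M)
    (h0 : f 0 = 0) (h1 : deriv f 0 = 0) {w : ℂ} (hw : w ∈ ball (0 : ℂ) R) :
    ‖f w‖ ≤ 2 * M / R ^ 2 * ‖w‖ ^ 2 := by
  have m1 : MapsTo f (ball 0 R) (ball (f 0) M) := by
    intro z hz
    rw [h0, mem_ball_zero_iff]
    exact hb z hz
  have hd1 : DifferentiableOn ℂ (dslope f 0) (ball 0 R) :=
    (Complex.differentiableOn_dslope (ball_mem_nhds 0 hR)).2 hf
  have b1 : ∀ z ∈ ball (0 : ℂ) R, ‖dslope f 0 z‖ ≤ M / R := fun z hz =>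
    Complex.norm_dslope_le_div_of_mapsTo_ball hf (fun x hx => ball_subset_closedBall (m1 hx)) hz
  have z1 : dslope f 0 0 = 0 := by rw [dslope_same]; exact h1
  have hMR : 0 < M / R := div_pos hM hR
  have m2 : MapsTo (dslope f 0) (ball 0 R) (ball (dslope f 0 0) (2 * (M / R))) := by
    intro z hz
    rw [z1, mem_ball_zero_iff]
    have := b1 z hz
    linarith
  have b2 := Complex.norm_dslope_le_div_of_mapsTo_ball hd1
    (fun x hx => ball_subset_closedBall (m2 hx)) hw
  have e1 : f w = w ^ 2 * dslope (dslope f 0) 0 w := by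
    have k1 := sub_smul_dslope f 0 w
    have k2 := sub_smul_dslope (dslope f 0) 0 w
    rw [z1] at k2
    rw [h0] at k1
    simp only [sub_zero, smul_eq_mul] at k1 k2
    rw [← k1, ← k2]
    ring
  rw [e1, norm_mul, norm_pow]
  have e2 : 2 * M / R ^ 2 = 2 * (M / R) / R := by field_simp
  rw [e2, mul_comm]
  exact mul_le_mul_of_nonneg_right b2 (by positivity)

/-- periodic functions are bounded on strips -/
lemma bdd_strip {r1 r r2 r' : ℝ} (hr2 : r2 < r1) (hr' : r' < r) {g : ℂ × ℂ → ℂ}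
    (hd : ContinuousOn g ({t : ℂ | |t.im| < r1} ×ˢ ball 0 r))
    (hper : ∀ t w : ℂ, |t.im| < r1 → ‖w‖ < r → g (t + 1, w) = g (t, w)) :
    ∃ M : ℝ, 0 < M ∧ ∀ t w : ℂ, |t.im| ≤ r2 → ‖w‖ ≤ r' → ‖g (t, w)‖ < M := by
  have hK : IsCompact ((Icc (0 : ℝ) 1 ×ℂ Icc (-r2) r2) ×ˢ closedBall (0 : ℂ) r') :=
    (isCompact_Icc.reProdIm isCompact_Icc).prod (isCompact_closedBall _ _)
  have hsub : ((Icc (0 : ℝ) 1 ×ℂ Icc (-r2) r2) ×ˢ closedBall (0 : ℂ) r') ⊆
      ({t : ℂ | |t.im| < r1} ×ˢ ball 0 r) := by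
    rintro ⟨t, w⟩ ⟨h1, h2⟩
    refine ⟨?_, ?_⟩
    · have := h1.2
      have h3 : t.im ∈ Icc (-r2) r2 := this
      exact lt_of_le_of_lt (abs_le.2 ⟨h3.1, h3.2⟩) hr2
    · have h3 : ‖w‖ ≤ r' := by simpa using h2
      simpa using lt_of_le_of_lt h3 hr'
  obtain ⟨M, hM⟩ := hK.exists_bound_of_continuousOn (hd.mono hsub)
  have hnat : ∀ (n : ℕ) (t w : ℂ), |t.im| < r1 → ‖w‖ < r → g (t + n, w) = g (t, w) := by
    intro n
    induction n with
    | zero => intro t w _ _; simp
    | succ n ih =>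
      intro t w ht hw
      have e1 : t + ((n + 1 : ℕ) : ℂ) = (t + n) + 1 := by push_cast; ring
      rw [e1, hper _ _ (by simpa using ht) hw, ih t w ht hw]
  have hint : ∀ (n : ℤ) (t w : ℂ), |t.im| < r1 → ‖w‖ < r → g (t + n, w) = g (t, w) := by
    intro n t w ht hw
    obtain ⟨m, hm | hm⟩ := n.eq_nat_or_neg
    · rw [hm]; exact_mod_cast hnat m t w ht hw
    · rw [hm]
      have := hnat m (t - m) w (by simpa using ht) hw
      rw [sub_add_cancel] at this
      rw [this]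
      congr 2
      push_cast
      ring
  refine ⟨max M 0 + 1, by positivity, ?_⟩
  intro t w ht hw
  have e1 := hint (-⌊t.re⌋) t w (lt_of_le_of_lt ht hr2) (lt_of_le_of_lt hw hr')
  rw [← e1]
  have hmem : (t + ((-⌊t.re⌋ : ℤ) : ℂ), w) ∈
      ((Icc (0 : ℝ) 1 ×ℂ Icc (-r2) r2) ×ˢ closedBall (0 : ℂ) r') := by
    refine ⟨⟨?_, ?_⟩, ?_⟩
    · show (t + ((-⌊t.re⌋ : ℤ) : ℂ)).re ∈ Icc (0 : ℝ) 1
      have h1 := Int.floor_le t.re
      have h2 := Int.lt_floor_add_one t.re
      have e3 : (t + ((-⌊t.re⌋ : ℤ) : ℂ)).re = t.re - ⌊t.re⌋ := by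
        simp [sub_eq_add_neg]
      rw [e3]
      constructor <;> linarith
    · show (t + ((-⌊t.re⌋ : ℤ) : ℂ)).im ∈ Icc (-r2) r2
      have e3 : (t + ((-⌊t.re⌋ : ℤ) : ℂ)).im = t.im := by simp
      rw [e3]
      exact abs_le.1 ht
    · simpa using hw
  have h4 := hM _ hmem
  have h5 := le_max_left M 0
  linarith

/-- **the base bounds** -/
theorem base_bounds {r1 r r2 : ℝ} (hr : 0 < r) (h2 : r2 < r1) {X : ℂ × ℂ → ℂ}
    (hd : DifferentiableOn ℂ X ({t : ℂ | |t.im| < r1} ×ˢ ball 0 r))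
    (hper : ∀ t w : ℂ, |t.im| < r1 → ‖w‖ < r → X (t + 1, w) = X (t, w) + 1)
    (h0 : ∀ t : ℂ, |t.im| < r1 → X (t, 0) = t)
    (hev : ∀ t w : ℂ, |t.im| < r1 → ‖w‖ < r → X (t, -w) = X (t, w)) :
    ∃ B C0 : ℝ, 0 < B ∧ 0 < C0 ∧
      (∀ t w : ℂ, |t.im| ≤ r2 → ‖w‖ < r / 2 → ‖X (t, w) - t‖ ≤ B * ‖w‖ ^ 2) ∧
      (∀ t w : ℂ, |t.im| ≤ r2 → |(t - w).im| ≤ r2 → ‖w‖ < r / 2 →
        ‖X (t, w) - X (t - w, w) - w‖ ≤ C0 * ‖w‖ ^ 3) := by
  set g : ℂ × ℂ → ℂ := fun p => X p - p.1 with hg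
  have hgd : DifferentiableOn ℂ g ({t : ℂ | |t.im| < r1} ×ˢ ball 0 r) :=
    hd.sub differentiableOn_fst
  obtain ⟨r3, h23, h31⟩ := exists_between h2
  obtain ⟨M, hM0, hM⟩ := bdd_strip (g := g) (r2 := r3) (r' := r / 2) h31 (by linarith)
    hgd.continuousOn (by
      intro t w ht hw
      show X (t + 1, w) - (t + 1) = X (t, w) - t
      rw [hper t w ht hw]; ring)
  -- slices
  have hslw : ∀ t : ℂ, |t.im| < r1 → DifferentiableOn ℂ (fun w => g (t, w)) (ball 0 r) := by
    intro t ht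
    exact hgd.comp (by fun_prop : DifferentiableOn ℂ (fun w : ℂ => (t, w)) _)
      (fun w hw => ⟨ht, hw⟩)
  have hslt : ∀ w : ℂ, ‖w‖ < r → DifferentiableOn ℂ (fun t => g (t, w)) {t : ℂ | |t.im| < r1} := by
    intro w hw
    exact hgd.comp (by fun_prop : DifferentiableOn ℂ (fun t : ℂ => (t, w)) _)
      (fun t ht => ⟨ht, by simpa using hw⟩)
  have b1 : ∀ t w : ℂ, |t.im| ≤ r3 → ‖w‖ < r / 2 →
      ‖g (t, w)‖ ≤ 2 * M / (r / 2) ^ 2 * ‖w‖ ^ 2 := by
    intro t w ht hw
    have ht1 := lt_of_le_of_lt ht h31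
    have hs := hslw t ht1
    have d0 : DifferentiableAt ℂ (fun w => g (t, w)) 0 :=
      hs.differentiableAt (ball_mem_nhds 0 hr)
    have hder : deriv (fun w => g (t, w)) 0 = 0 := by
      have e1 : (fun w => g (t, w)) =ᶠ[𝓝 0] fun w => (fun w => g (t, w)) (-w) := by
        filter_upwards [ball_mem_nhds (0 : ℂ) hr] with w hw
        show X (t, w) - t = X (t, -w) - t
        rw [hev t w ht1 (by simpa using hw)]
      have e2 : deriv (fun w => (fun w => g (t, w)) (-w)) 0 = -deriv (fun w => g (t, w)) 0 := by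
        have := deriv_comp_neg (fun w => g (t, w)) (0 : ℂ)
        rw [neg_zero] at this
        exact this
      have e3 := e1.deriv_eq
      rw [e2] at e3
      have : (2 : ℂ) * deriv (fun w => g (t, w)) 0 = 0 := by
        linear_combination e3
      simpa using this
    refine schwarz2 (f := fun w => g (t, w)) (R := r / 2) (M := M) (by linarith) hM0
      (hs.mono (ball_subset_ball (by linarith))) ?_ ?_ hder (by simpa using hw)
    · intro w hw
      exact hM t w ht (by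
        have : ‖w‖ < r / 2 := by simpa using hw
        exact this.le)
    · show X (t, 0) - t = 0
      rw [h0 t ht1, sub_self]
  set B : ℝ := 2 * M / (r / 2) ^ 2 with hB
  have hBp : 0 < B := by positivity
  have hδ : 0 < r3 - r2 := by linarith
  refine ⟨B, B / (r3 - r2), hBp, div_pos hBp hδ, ?_, ?_⟩
  · intro t w ht hw
    exact b1 t w (by linarith) hw
  · intro t w ht htw hw
    have hwr : ‖w‖ < r := by linarith
    have hconv : Convex ℝ {t : ℂ | |t.im| ≤ r2} := by
      have : {t : ℂ | |t.im| ≤ r2} = Complex.im ⁻¹' Icc (-r2) r2 := by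
        ext z; simp [abs_le]
      rw [this]
      exact (convex_Icc _ _).linear_preimage Complex.imLm
    have hder : ∀ z ∈ {t : ℂ | |t.im| ≤ r2},
        ‖deriv (fun t => g (t, w)) z‖ ≤ B * ‖w‖ ^ 2 / (r3 - r2) := by
      intro z hz
      have hin : ∀ x ∈ closedBall z (r3 - r2), |x.im| ≤ r3 := by
        intro x hx
        have h1 : |x.im - z.im| ≤ ‖x - z‖ := by
          rw [← Complex.sub_im]; exact Complex.abs_im_le_norm _
        have h2 : ‖x - z‖ ≤ r3 - r2 := by simpa [dist_eq_norm] using hx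
        have h3 : |x.im| ≤ |x.im - z.im| + |z.im| := by
          have := abs_add_le (x.im - z.im) z.im
          rwa [sub_add_cancel] at this
        have h4 : |z.im| ≤ r2 := hz
        linarith
      refine Complex.norm_deriv_le_of_forall_mem_sphere_norm_le hδ ?_ ?_
      · refine DifferentiableOn.diffContOnCl ?_
        rw [closure_ball z hδ.ne']
        exact (hslt w hwr).mono (fun x hx => lt_of_le_of_lt (hin x hx) h31)
      · intro x hx
        exact b1 x w (hin x (sphere_subset_closedBall hx)) hw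
    have hdiff : ∀ z ∈ {t : ℂ | |t.im| ≤ r2}, DifferentiableAt ℂ (fun t => g (t, w)) z := by
      intro z hz
      have ho : IsOpen {t : ℂ | |t.im| < r1} :=
        isOpen_lt (continuous_abs.comp Complex.continuous_im) continuous_const
      exact (hslt w hwr).differentiableAt (ho.mem_nhds (lt_of_le_of_lt hz h2))
    have := hconv.norm_image_sub_le_of_norm_deriv_le hdiff hder htw ht
    have e1 : X (t, w) - X (t - w, w) - w = g (t, w) - g (t - w, w) := by
      show _ = (X (t, w) - t) - (X (t - w, w) - (t - w))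
      ring
    rw [e1]
    have e2 : t - (t - w) = w := by ring
    rw [e2] at this
    refine this.trans (le_of_eq ?_)
    field_simp

end Crest.Agent.R102.BaseE350
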