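import Mathlib
import Crest.Agent.R102.CCa_350
import Crest.Agent.R102.SheetA_982

/-!
Row 102, T1-E, **(CC), final form**: the main sheet `SL φ p ρ r` of the lines contains the column.
-/

set_option autoImplicit false
set_option linter.unusedVariables false

open Set Filter Topology Metric

noncomputable section

namespace Crest.Agent.R102.CC350

open Crest.Agent.R102.StepE599 Crest.Agent.R102.ColE350 Crest.Agent.R102.LinkB350
open Crest.Agent.R102.Sh982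
open Crest.Agent.R102.VH982 (pt pt_eta pt_snd pt_re pt_im)
open Crest.Agent.R102.K669 (Slab IsReg isReg_of_local isOpen_isReg)

section General

variable {E : Type*} [NormedAddCommGroup E] [NormedSpace ℂ E] [CompleteSpace E]

/-- **gluing on the main sheet along a vertical segment** -/
theorem sht_glue {F : ℂ × ℂ → E} {C : Set E} {y1 y0 : ℝ} {W : Set ℂ} (h10 : y1 < y0)
    (hW : IsOpen W) (hF : DifferentiableOn ℂ F (Slab y1 y0 W))
    (hC : ∀ q ∈ Slab y1 y0 W, F q ∈ C) {x y2 y3 : ℝ} {w : ℂ}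
    (h2 : pt x y2 w ∈ Sht F C y1 y0 W) {N : Set (ℂ × ℂ)} (hN : IsOpen N)
    (hseg : ∀ y : ℝ, y2 ≤ y → y ≤ y3 → pt x y w ∈ N) {G : ℂ × ℂ → E}
    (hG : DifferentiableOn ℂ G N) (hGC : ∀ q ∈ N, G q ∈ C)
    (hGe : G =ᶠ[𝓝 (pt x y2 w)] K669.ext F C y1 y0 W) (h23 : y2 ≤ y3) :
    pt x y3 w ∈ Sht F C y1 y0 W := by
  have hw : w ∈ W := h2.1
  have h12 : y1 < y2 := by
    have := h2.2.1
    rwa [pt_im] at this
  refine ⟨hw, by rw [pt_im]; linarith, ?_⟩
  refine reg_up hW hF hC (x := pt x y3 w) hw ?_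
  rw [pt_re, pt_im, pt_snd]
  intro y hy0 hy3 hlow
  rcases le_or_gt y y2 with hy | hy
  · exact h2.2.2.below (by simp) (by simp) (by simpa using hy)
  · have hyN : pt x y w ∈ N := hseg y hy.le hy3
    refine isReg_of_local h10 hW hF hC (p := pt x y w) (by rw [pt_im]; linarith) hN hyN hG hGC hw ?_
    intro η hη
    have hlt1 : max y2 (y - η / 2) < y := max_lt hy (by linarith)
    refine ⟨max y2 (y - η / 2), ?_, ?_, ?_⟩
    · rw [pt_im]
      have := le_max_right y2 (y - η / 2)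
      linarith
    · rw [pt_im]; exact hlt1
    · rw [pt_re, pt_snd]
      have hΩ : IsOpen (Sht F C y1 y0 W ∩ N) := (isOpen_Sht hW).inter hN
      have hGa : AnalyticOnNhd ℂ G N :=
        Crest.Agent.R266.SCV.analyticOnNhd_of_differentiableOn hN hG
      have hmem : ∀ y' ∈ uIcc y2 (max y2 (y - η / 2)), pt x y' w ∈ Sht F C y1 y0 W ∩ N := by
        intro y' hy'
        rw [uIcc_of_le (le_max_left _ _)] at hy'
        have k1 : y' < y := lt_of_le_of_lt hy'.2 hlt1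
        exact ⟨⟨hw, by rw [pt_im]; linarith [hy'.1], hlow y' k1⟩, hseg y' hy'.1 (by linarith)⟩
      have hev := ev_along hΩ (hGa.mono inter_subset_right)
        ((ext_an h10 hW).mono inter_subset_left) hmem hGe
      have hin := hΩ.mem_nhds (hmem _ right_mem_uIcc)
      rw [pt_mk] at hev hin
      filter_upwards [hev, hin] with q k1 k2
      exact ⟨k2.1.2.2, k1⟩

end General

variable {q : C(ℂ, ℂ)} {η ρ r Bc : ℝ} {bb φ p : ℂ × ℂ → ℂ} {m₀ : ℂ → ℂ}
variable {θ H K : ℂ → ℂ} {B : ℂ × ℂ → ℂ} {s b1 R κ : ℝ} {c : ℂ}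

/-- positions of lines between two labels of the column -/
def NN (c : ℂ) (R s b : ℝ) : Set (ℂ × ℂ) :=
  {x | (x.1 - x.2 / 2, x.2) ∈ Col c R s b ∧ (x.1 + x.2 / 2, x.2) ∈ Col c R s b}

lemma isOpen_NN {b : ℝ} : IsOpen (NN c R s b) :=
  (isOpen_Col.preimage (by fun_prop : Continuous fun x : ℂ × ℂ => (x.1 - x.2 / 2, x.2))).inter
    (isOpen_Col.preimage (by fun_prop : Continuous fun x : ℂ × ℂ => (x.1 + x.2 / 2, x.2)))

/-- points of `NN` -/
lemma mem_NN {b : ℝ} (hs : 0 < s) (hsR : 10 ^ 4 * s ≤ R) {t w : ℂ} (hw : w ∈ Wd s)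
    (h1 : b - 3 * s < t.im) (h2 : |t.re - c.re| + 32 * (t.im - b) < R / 2 - 34 * s) :
    (t, w) ∈ NN c R s b := by
  have hv := Wd.im_pos hw
  have hw1 : ‖w‖ < 2 * s := hw.1
  have a1 := Complex.abs_im_le_norm w
  have a2 := Complex.abs_re_le_norm w
  have b1 := abs_le.1 (a1.trans hw1.le)
  have e1 : (t - w / 2).im = t.im - w.im / 2 := by simp
  have e2 : (t + w / 2).im = t.im + w.im / 2 := by simp
  have e3 : (t - w / 2).re = t.re - w.re / 2 := by simp
  have e4 : (t + w / 2).re = t.re + w.re / 2 := by simp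
  have c1 : |w.re / 2| ≤ s := by
    rw [abs_div, abs_two]
    linarith
  refine ⟨⟨hw, ?_, ?_⟩, ⟨hw, ?_, ?_⟩⟩
  · show b - 4 * s < (t - w / 2).im
    rw [e1]; linarith
  · show |(t - w / 2).re - c.re| + 32 * ((t - w / 2).im - b) < R / 2
    rw [e1, e3]
    have := abs_sub (t.re - c.re) (w.re / 2)
    rw [show t.re - c.re - w.re / 2 = t.re - w.re / 2 - c.re by ring] at this
    linarith
  · show b - 4 * s < (t + w / 2).im
    rw [e2]; linarith
  · show |(t + w / 2).re - c.re| + 32 * ((t + w / 2).im - b) < R / 2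
    rw [e2, e4]
    have := abs_add_le (t.re - c.re) (w.re / 2)
    rw [show t.re - c.re + w.re / 2 = t.re + w.re / 2 - c.re by ring] at this
    linarith

/-- **(CC)** upper cone -/
theorem cc_up (fam : C0.LineFam q η ρ r Bc bb φ p m₀) (h : Ent θ H K)
    (S : SmallD θ K c R s κ) (D : BaseL θ H K (φe φ p ρ r) (pe φ p ρ r) B s b1 R)
    (hb : |b1 - c.im| ≤ R / 400) (hb0 : 0 ≤ b1) (hr : 2 * s ≤ r)
    (hSL : ∀ t w : ℂ, w ∈ Wd s → -(ρ / 2) < t.im → t.im < b1 → (t, w) ∈ SL φ p ρ r)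
    {t w : ℂ} (ht1 : |t.re - c.re| < R / 12) (ht2 : -(ρ / 2) < t.im)
    (ht3 : t.im < c.im + R / 120) (hw : w ∈ Wd s) : (t, w) ∈ SL φ p ρ r := by
  have hs := D.s_pos
  have hR := D.R_pos
  have hsR := S.sR
  rcases lt_or_ge t.im b1 with hlt | hge
  · exact hSL t w hw ht2 hlt
  obtain ⟨X, x1, x2, x3, x4, x5, x6⟩ := D.column h S hb hb0 le_rfl
  have hρ : 0 < ρ := fam.ρ_pos
  have hrρ : 4 * r ≤ ρ := fam.r_le
  have h10 : -(ρ / 2) < ρ / 2 := by linarith
  have hv := Wd.im_pos hw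
  have hw1 : ‖w‖ < 2 * s := hw.1
  have hwim : w.im < 2 * s := by
    have := Complex.abs_im_le_norm w
    rw [abs_of_pos hv] at this
    linarith
  have hslab : Slab (-(ρ / 2)) (ρ / 2) (ball 0 r) ⊆ C0.PD ρ r := slab_PD hρ
  have hF : DifferentiableOn ℂ (Fl φ p) (Slab (-(ρ / 2)) (ρ / 2) (ball 0 r)) :=
    (fam.φ_diff.mono hslab).prodMk (fam.p_diff.mono hslab)
  set e : ℂ × ℂ → ℂ := fun x => X (x.1 + x.2 / 2, x.2) - X (x.1 - x.2 / 2, x.2) with he
  set G : ℂ × ℂ → ℂ × ℂ := fun x =>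
    (ph θ H (X (x.1 - x.2 / 2, x.2)) (e x), pp θ H (X (x.1 - x.2 / 2, x.2)) (e x)) with hG
  -- facts on `NN`
  have hstep : ∀ x ∈ NN c R s b1, e x ≠ 0 ∧ ‖e x‖ < 5 * s := by
    intro x hx
    have e0 : x.1 - x.2 / 2 + x.2 = x.1 + x.2 / 2 := by ring
    have := x5 (x.1 - x.2 / 2) x.2 hx.1 (by rw [e0]; exact hx.2)
    rw [e0] at this
    exact ⟨sub_ne_zero.2 this.1, this.2⟩
  have hXm : DifferentiableOn ℂ (fun x : ℂ × ℂ => X (x.1 - x.2 / 2, x.2)) (NN c R s b1) :=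
    x1.comp (by fun_prop : DifferentiableOn ℂ (fun x : ℂ × ℂ => (x.1 - x.2 / 2, x.2)) _)
      (fun x hx => hx.1)
  have hXp : DifferentiableOn ℂ (fun x : ℂ × ℂ => X (x.1 + x.2 / 2, x.2)) (NN c R s b1) :=
    x1.comp (by fun_prop : DifferentiableOn ℂ (fun x : ℂ × ℂ => (x.1 + x.2 / 2, x.2)) _)
      (fun x hx => hx.2)
  have hed : DifferentiableOn ℂ e (NN c R s b1) := hXp.sub hXm
  have hGd : DifferentiableOn ℂ G (NN c R s b1) := by
    intro x hx
    have g := x4 _ _ hx.1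
    obtain ⟨k1, k2⟩ := hstep x hx
    have d1 := ph_differentiableAt h g k1 (by linarith)
    have d2 := pp_differentiableAt h g k1 (by linarith)
    have d0 : DifferentiableWithinAt ℂ (fun x : ℂ × ℂ => (X (x.1 - x.2 / 2, x.2), e x))
        (NN c R s b1) x := (hXm x hx).prodMk (hed x hx)
    exact (DifferentiableAt.comp_differentiableWithinAt (g := fun u : ℂ × ℂ => ph θ H u.1 u.2)
      (f := fun x : ℂ × ℂ => (X (x.1 - x.2 / 2, x.2), e x)) x d1 d0).prodMk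
      (DifferentiableAt.comp_differentiableWithinAt (g := fun u : ℂ × ℂ => pp θ H u.1 u.2)
      (f := fun x : ℂ × ℂ => (X (x.1 - x.2 / 2, x.2), e x)) x d2 d0)
  -- the start
  have hb1s : b1 - 2 * s > -(ρ / 2) := by
    have : s ≤ r / 2 := by linarith
    linarith
  have hcb := abs_le.1 hb
  norm_num at hsR
  have hmemN : ∀ y : ℝ, b1 - 2 * s ≤ y → y ≤ t.im → pt t.re y w ∈ NN c R s b1 := by
    intro y hy1 hy2
    rw [pt_mk]
    refine mem_NN hs S.sR hw ?_ ?_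
    · show b1 - 3 * s < y
      linarith
    · show |t.re - c.re| + 32 * (y - b1) < R / 2 - 34 * s
      linarith
  have hstart : pt t.re (b1 - 2 * s) w ∈ SL φ p ρ r := by
    rw [pt_mk]
    exact hSL _ w hw (by show -(ρ / 2) < b1 - 2 * s; linarith)
      (by show b1 - 2 * s < b1; linarith)
  have hGe : G =ᶠ[𝓝 (pt t.re (b1 - 2 * s) w)] LE φ p ρ r := by
    have o1 : NN c R s b1 ∈ 𝓝 (pt t.re (b1 - 2 * s) w) :=
      isOpen_NN.mem_nhds (hmemN _ le_rfl (by linarith))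
    have o2 : {x : ℂ × ℂ | (x.1 + x.2 / 2).im < b1} ∈ 𝓝 (pt t.re (b1 - 2 * s) w) := by
      refine (isOpen_lt (Complex.continuous_im.comp (by fun_prop)) continuous_const).mem_nhds ?_
      show ((pt t.re (b1 - 2 * s) w).1 + (pt t.re (b1 - 2 * s) w).2 / 2).im < b1
      rw [Complex.add_im, pt_im, pt_snd]
      have : (w / 2).im = w.im / 2 := by simp
      rw [this]
      linarith
    filter_upwards [o1, o2] with x hx1 hx2
    have e0 : x.1 - x.2 / 2 + x.2 = x.1 + x.2 / 2 := by ring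
    have e1 : x.1 - x.2 / 2 + x.2 / 2 = x.1 := by ring
    have k := x6 (x.1 - x.2 / 2) x.2 hx1.1 (by rw [e0]; exact hx1.2) (by rw [e0]; exact hx2)
    rw [e0, e1] at k
    have k1 : φe φ p ρ r x = (G x).1 := k.1
    have k2 : pe φ p ρ r x = (G x).2 := k.2
    exact Prod.ext k1.symm k2.symm
  have := sht_glue (x := t.re) (y2 := b1 - 2 * s) (y3 := t.im) (w := w) h10 isOpen_ball hF
    (fun _ _ => mem_univ _) hstart isOpen_NN hmemN hGd (fun _ _ => mem_univ _) hGe (by linarith)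
  rwa [show (t, w) = pt t.re t.im w from (pt_eta (t, w)).symm]

/-- **(CC)** -/
theorem cc (fam : C0.LineFam q η ρ r Bc bb φ p m₀) (h : Ent θ H K)
    (S : SmallD θ K c R s κ) (D : BaseL θ H K (φe φ p ρ r) (pe φ p ρ r) B s b1 R)
    (hb : |b1 - c.im| ≤ R / 400) (hb0 : 0 ≤ b1) (hr : 2 * s ≤ r)
    (hSL : ∀ t w : ℂ, w ∈ Wd s → -(ρ / 2) < t.im → t.im < b1 → (t, w) ∈ SL φ p ρ r)
    (hev : ∀ t w : ℂ, (t, w) ∈ SL φ p ρ r → (t, -w) ∈ SL φ p ρ r) :
    ∀ t w : ℂ, |t.re - c.re| < R / 12 → -(ρ / 2) < t.im → t.im < c.im + R / 120 →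
      ‖w‖ < 2 * s → ‖w‖ < 32 * |w.im| → (t, w) ∈ SL φ p ρ r := by
  intro t w h1 h2 h3 h4 h5
  rcases le_or_gt 0 w.im with hw | hw
  · rw [abs_of_nonneg hw] at h5
    exact cc_up fam h S D hb hb0 hr hSL h1 h2 h3 ⟨h4, h5⟩
  · rw [abs_of_neg hw] at h5
    have hmem : -w ∈ Wd s := by
      refine ⟨by rwa [norm_neg], ?_⟩
      show ‖-w‖ < 32 * (-w).im
      rw [norm_neg, Complex.neg_im]
      exact h5
    have := hev _ _ (cc_up fam h S D hb hb0 hr hSL h1 h2 h3 hmem)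
    rwa [neg_neg] at this

end Crest.Agent.R102.CC350
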