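import Crest.Agent.R102.SheetD_982
import Crest.Agent.R102.T1BOut_559
import Crest.Agent.R102.C1K_821
import Crest.Agent.R102.MM_712

/-!
Row 102, T1-E (helper314): the official line set of Case E (`Out559.OmL` with base `ρ/2`) is an
`LV` set, 1-periodic, even in `w`, contains `{Im t < c} × {‖w‖ < δ(c)}` for every `c`; and
`Spine.GoodW` from a top line carrying a regular and a singular point.
-/

set_option autoImplicit false

open Set Filter Topology Metric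
open scoped ComplexConjugate

noncomputable section

namespace Crest.Agent.R102.T1ETop314

open Crest.Agent.R102.T5 Crest.Agent.R102.C0 Crest.Agent.R102.C1 Crest.Agent.R102.K669
open Crest.Agent.R102.Sh982 Crest.Agent.R102.Out559 Crest.Agent.R102.Spine

/-- the official line set of T1-E -/
abbrev Om (φ p : ℂ × ℂ → ℂ) (ρ r : ℝ) : Set (ℂ × ℂ) := Out559.OmL φ p (-(ρ / 2)) (ρ / 2) r

variable {q : C(ℂ, ℂ)} {η ρ r B : ℝ} {b φ p : ℂ × ℂ → ℂ} {m₀ θ H : ℂ → ℂ}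

lemma datE (D : DataE q η ρ r B b φ p m₀ θ H) {h : ℝ} (hh : η ≤ h) :
    Sh982.Dat q η ρ r B b φ p m₀ h θ H :=
  ⟨D.fam, hh, D.ext.θ_diff.mono (subset_univ _), D.ext.H_diff.mono (subset_univ _),
    D.ext.θ_eq, D.ext.H_eq⟩

lemma lvE (D : DataE q η ρ r B b φ p m₀ θ H) : LV (ρ / 2) (ball 0 r) (Om φ p ρ r) :=
  (datE D le_rfl).lvL'

lemma lowE (D : DataE q η ρ r B b φ p m₀ θ H) {t w : ℂ} (ht : t.im < ρ / 2) (hw : ‖w‖ < r) :
    (t, w) ∈ Om φ p ρ r := by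
  have := D.fam.ρ_pos
  exact Out559.slab_OmL D.fam (by linarith) (by linarith) le_rfl ht hw

lemma perE (D : DataE q η ρ r B b φ p m₀ θ H) : T1EJ712.Per (Om φ p ρ r) 1 := by
  intro t w n h
  have := D.fam.ρ_pos
  have h1 := (Out559.OmL_add_int D.fam (y1 := -(ρ / 2)) (y0 := ρ / 2) (r' := r) (t := t) (w := w)
    (by linarith) (by linarith) le_rfl n).2 h
  simpa using h1

lemma mem_SL {t w : ℂ} (h1 : -(ρ / 2) < t.im) : (t, w) ∈ SL φ p ρ r ↔ (t, w) ∈ Om φ p ρ r := by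
  constructor
  · intro h
    exact (Sh982.SL_iff.1 h).1
  · intro h
    exact Sh982.SL_iff.2 ⟨h, h1⟩

lemma norm_lt (D : DataE q η ρ r B b φ p m₀ θ H) {t w : ℂ} (h : (t, w) ∈ Om φ p ρ r) : ‖w‖ < r := by
  have := (lvE D).sub _ h
  simpa using this

lemma evenE (D : DataE q η ρ r B b φ p m₀ θ H) {t w : ℂ} (h : (t, w) ∈ Om φ p ρ r) :
    (t, -w) ∈ Om φ p ρ r := by
  have hρ := D.fam.ρ_pos
  have hw := norm_lt D h
  rcases lt_or_ge t.im (ρ / 2) with h1 | h1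
  · exact lowE D h1 (by rwa [norm_neg])
  have h2 : (t, w) ∈ SL φ p ρ r := (mem_SL (by linarith)).2 h
  have h3 := ((datE D le_rfl).per_SL (σ := 1) (Or.inl rfl) (κ := -1) (Or.inr rfl) h2).1
  simp only [Complex.ofReal_one, neg_one_mul] at h3
  have h4 : (t + 1, -w) ∈ Om φ p ρ r := (Sh982.SL_iff.1 h3).1
  have h5 := perE D (t + 1) (-w) (-1) h4
  simpa using h5

/-- `{Im t < c} × {‖w‖ < δ}` is in the line set -/
theorem hextE (D : DataE q η ρ r B b φ p m₀ θ H) (c : ℝ) :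
    ∃ δ > 0, ∀ w : ℂ, ‖w‖ < δ → ∀ t : ℂ, t.im < c → (t, w) ∈ Om φ p ρ r := by
  have hρ := D.fam.ρ_pos
  set h' : ℝ := max (c + 1) (ρ + 1) with hh'
  have hc : c + 1 ≤ h' := le_max_left _ _
  have hρh : ρ + 1 ≤ h' := le_max_right _ _
  obtain ⟨r', B', b', φ', p', hr0, hrr, F, hag, -, -⟩ := extS q η ρ r B b φ p m₀ D.fam θ H univ
    (h' + 1) h' D.ext (subset_univ _) (by linarith) (by linarith)
  refine ⟨r', hr0, fun w hw t ht => ?_⟩
  rcases lt_or_ge t.im (ρ / 2) with h1 | h1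
  · exact lowE D h1 (hw.trans_le hrr)
  set ε : ℝ := min (r' - ‖w‖) 1 with hε
  have hε0 : 0 < ε := lt_min (by linarith) one_pos
  have e1 : ε ≤ r' - ‖w‖ := min_le_left _ _
  have e2 : ε ≤ 1 := min_le_right _ _
  have hn : ∀ z : ℂ, ‖z - w‖ < ε → ‖z‖ < r' := by
    intro z hz
    have := norm_add_le (z - w) w
    rw [sub_add_cancel] at this
    linarith
  have hsub : K669.Tube (-(ρ / 2)) (t, w) ε ⊆ Str h' ×ˢ ball 0 r' := by
    rintro ⟨t', w'⟩ ⟨a1, a2, a3, a4⟩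
    simp only at a1 a2 a3 a4
    refine ⟨?_, ?_⟩
    · change |t'.im| < h'
      exact abs_lt.2 ⟨by linarith, by linarith⟩
    · rw [mem_ball_zero_iff]
      exact hn _ a4
  refine ⟨ε, hε0, ?_, fun x => (φ' x, p' x), (F.φ_diff.mono hsub).prodMk (F.p_diff.mono hsub),
    fun _ _ => mem_univ _, ?_⟩
  · intro z hz
    rw [mem_ball, dist_eq_norm] at hz
    rw [mem_ball_zero_iff]
    exact (hn z hz).trans_le hrr
  · rintro ⟨t', w'⟩ ⟨a1, a2, a3, a4⟩ h2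
    simp only at a1 a2 a3 a4 h2
    have h3 : (t', w') ∈ PD ρ r' := ⟨abs_lt.2 ⟨by simp only; linarith, by simp only; linarith⟩,
      hn _ a4⟩
    obtain ⟨-, h4, h5⟩ := hag t' w' h3
    simp only [h4, h5]

/-- the label set of Case E -/
abbrev OmB (b : ℂ × ℂ → ℂ) (ρ r : ℝ) : Set (ℂ × ℂ) := Out559.OmX b univ (-(ρ / 2)) (ρ / 2) r

/-- **`GoodW` from a top line with a regular and a singular point** -/
theorem goodW (D : DataE q η ρ r B b φ p m₀ θ H) {u U : ℝ} (hu : 0 < u) (hur : u < r)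
    (hirr : Irrational u)
    (hrule : ∀ t : ℂ, 0 ≤ t.im → (t - u / 2, (u : ℂ)) ∈ Om φ p ρ r →
      (t + u / 2, (u : ℂ)) ∈ Om φ p ρ r → (t, (u : ℂ)) ∈ OmB b ρ r)
    (hlow : ∀ t : ℂ, t.im < U → (t, (u : ℂ)) ∈ Om φ p ρ r)
    (hs : ∃ s : ℂ, s.im = U ∧ (s, (u : ℂ)) ∉ Om φ p ρ r)
    (hg : ∃ s : ℂ, s.im = U ∧ (s, (u : ℂ)) ∈ Om φ p ρ r) : GoodW ρ r b φ p univ u := by
  have hρ := D.fam.ρ_pos
  have hun : ‖(u : ℂ)‖ < r := by rwa [Complex.norm_real, Real.norm_of_nonneg hu.le]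
  have hL : ∀ s : ℂ, Spine.RegL ρ r φ p s u ↔ (s, (u : ℂ)) ∈ Om φ p ρ r := fun s =>
    regL_iff D.fam.φ_diff D.fam.p_diff hρ (by linarith) (by linarith) (by linarith)
      (by linarith) le_rfl hun
  have hX : ∀ s : ℂ, Spine.RegAt ρ r b univ s u ↔ (s, (u : ℂ)) ∈ OmB b ρ r := fun s =>
    regAt_iff D.fam.b_diff (fun _ _ => mem_univ _) hρ (by linarith) (by linarith) (by linarith)
      (by linarith) le_rfl hun
  have hU : 0 < U := by
    obtain ⟨s, hs1, hs2⟩ := hs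
    by_contra hcon
    push Not at hcon
    exact hs2 (lowE D (by linarith) hun)
  refine ⟨hirr, hu, hur, U, hU, fun s h0 h1 => ⟨(hL s).2 (hlow s h1), (hX s).2 ?_⟩, ?_, ?_⟩
  · refine hrule s h0 (hlow _ ?_) (hlow _ ?_)
    · have : (s - u / 2).im = s.im := by simp
      rw [this]
      exact h1
    · have : (s + u / 2).im = s.im := by simp
      rw [this]
      exact h1
  · obtain ⟨s, hs1, hs2⟩ := hs
    exact ⟨s, hs1, fun h => hs2 ((hL s).1 h)⟩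
  · obtain ⟨s, hs1, hs2⟩ := hg
    exact ⟨s, hs1, (hL s).2 hs2⟩

end Crest.Agent.R102.T1ETop314
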