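import Mathlib
import Crest.Agent.R102.APL_628
import Crest.Agent.R102.BaseST_942
import Crest.Agent.R102.CC_350
import Crest.Agent.R102.T1ETop_314

/-!
Row 102, part (C), T1-E, **the base labels of the main sheet** (helper628): helper942's start
estimate `base_st` for the main sheet of Case E, in the form of helper350's `CC350.BaseL`.
-/

set_option autoImplicit false

open Set Filter Topology Metric
open scoped ComplexConjugate

noncomputable section

namespace Crest.Agent.R102.ShE628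

open Crest.Agent.R102.K669 (Slab)
open Crest.Agent.R102.C0 Crest.Agent.R102.C1
open Crest.Agent.R102.Sh982 Crest.Agent.R102.APJ628 Crest.Agent.R102.StepT628
open Crest.Agent.R102.Out559 (OmL OmX)
open Crest.Agent.R102.Mir151 (MirE)
open Crest.Agent.R102.StepE599 (Ent Good)
open Crest.Agent.R102.T1EJ712 (MM mm Fin' LS MM_mono MM_tendsto mem_of_lt_mm)
open Crest.Agent.R102.T1ETop314 (Om lvE lowE perE evenE mem_SL hextE)
open Crest.Agent.R102.CC350 (BaseL DL)
open Crest.Agent.R102.BaseST942 (b1 base_st)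

variable {q : C(ℂ, ℂ)} {η ρ r Bc : ℝ} {b φ p : ℂ × ℂ → ℂ} {m₀ : ℂ → ℂ} {θ H K G : ℂ → ℂ}

/-- the box of the main sheet below the height `h` -/
theorem boxE (hD : Spine.DataE q η ρ r Bc b φ p m₀ θ H) (hM : MirE q η θ H K G) {h r' : ℝ}
    (hr' : 0 < r') (hr1 : r' ≤ 1) (hrr : r' ≤ r) (hh : r' < h)
    (hOm : ∀ t w : ℂ, t.im < h → ‖w‖ < r' → (t, w) ∈ Om φ p ρ r) :
    Box θ H (-(3 * ρ / 8)) h r' (φe φ p ρ r) (pe φ p ρ r) (beE b ρ r) := by
  have hρ := hD.fam.ρ_pos
  refine boxM hD (rule_vertexE hD hM) hr' hr1 hrr hh ?_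
  rintro x ⟨⟨h1, h2⟩, h3⟩
  rw [mem_ball_zero_iff] at h3
  exact SL_iff.2 ⟨hOm x.1 x.2 h2 h3, by linarith⟩

/-- base bound of the labels -/
lemma base_bound (hD : Spine.DataE q η ρ r Bc b φ p m₀ θ H) {t w : ℂ} (ht : |t.im| < ρ / 2)
    (hw : ‖w‖ < r) : ‖beE b ρ r (t, w) - t‖ ≤ |Bc| * ‖w‖ ^ 2 := by
  have hρ := hD.fam.ρ_pos
  obtain ⟨h1, h2⟩ := abs_lt.1 ht
  have hs : (t, w) ∈ Slab (-(ρ / 2)) (ρ / 2) (ball (0 : ℂ) r) :=
    ⟨h1, h2, by simpa using hw⟩
  rw [beE_slab hD hs]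
  refine (hD.fam.b_near _ (slab_PD hρ hs)).trans ?_
  exact mul_le_mul_of_nonneg_right (le_abs_self _) (by positivity)

/-- **base labels of the main sheet** -/
theorem baseM (hD : Spine.DataE q η ρ r Bc b φ p m₀ θ H) (hM : MirE q η θ H K G)
    (hF : ∀ s : ℝ, 0 < s → Fin' (Om φ p ρ r) s) :
    ∃ B0 : ℝ, 1 ≤ B0 ∧ ∀ T₀ ≥ B0, ∃ Kc : ℝ, 1 ≤ Kc ∧ ∃ T : ℝ, ∀ τ ≥ T, ∀ S R : ℝ,
      (τ ^ 2)⁻¹ ≤ S → S ≤ R / 100 →
      (∀ t'' t' : ℝ, T₀ ≤ t'' → t'' ≤ t' → t' ≤ τ →
        MM (Om φ p ρ r) t' - MM (Om φ p ρ r) t'' ≤ 2 * S * (τ / t'') ^ 2 * (t' - t'')) →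
      Real.exp (-τ) < b1 (MM (Om φ p ρ r)) Kc τ S →
      BaseL θ H K (φe φ p ρ r) (pe φ p ρ r) (beE b ρ r) (Real.exp (-τ))
        (b1 (MM (Om φ p ρ r)) Kc τ S) R ∧
      (∀ t w : ℂ, w ∈ ColE350.Wd (Real.exp (-τ)) → -(ρ / 2) < t.im →
        t.im < b1 (MM (Om φ p ρ r)) Kc τ S → (t, w) ∈ SL φ p ρ r) := by
  have hρ := hD.fam.ρ_pos
  have hr := hD.fam.r_pos
  have hrρ := hD.fam.r_le
  have hLS : LS (ρ / 2) (ball 0 r) (Om φ p ρ r) := LS.of_LV (lvE hD)
  set M : ℝ → ℝ := MM (Om φ p ρ r) with hMdef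
  have htend : Tendsto M atTop atTop := MM_tendsto hF (hextE hD)
  obtain ⟨B1, hB1⟩ := eventually_atTop.1 (htend.eventually (eventually_ge_atTop (1 : ℝ)))
  set B0 : ℝ := max 1 (max B1 (-Real.log r + 1)) with hB0
  have hB01 : 1 ≤ B0 := le_max_left _ _
  refine ⟨B0, hB01, fun T₀ hT₀ => ?_⟩
  have hT1 : 1 ≤ T₀ := hB01.trans hT₀
  have hT2 : B1 ≤ T₀ := ((le_max_left _ _).trans (le_max_right _ _)).trans hT₀
  have hT3 : -Real.log r + 1 ≤ T₀ := ((le_max_right _ _).trans (le_max_right _ _)).trans hT₀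
  have hexp : ∀ τ, T₀ ≤ τ → Real.exp (-τ) < r := by
    intro τ hτ
    rw [← Real.lt_log_iff_exp_lt hr]
    linarith
  have hmono : MonotoneOn M (Ici T₀) := by
    intro x hx y _ hxy
    exact MM_mono hLS hF (hexp x hx) hxy
  have hM1 : 1 ≤ M T₀ := hB1 T₀ hT2
  have hOmM : ∀ τ, T₀ ≤ τ → ∀ t w : ℂ, t.im < M τ → ‖w‖ ≤ Real.exp (-τ) →
      (t, w) ∈ Om φ p ρ r := fun τ hτ t w ht hw => mem_of_lt_mm hLS (hexp τ hτ) hw ht
  have hBox : ∀ τ, T₀ ≤ τ → Box θ H (-(3 * ρ / 8)) (M τ) (Real.exp (-τ)) (φe φ p ρ r)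
      (pe φ p ρ r) (beE b ρ r) := by
    intro τ hτ
    have h1 : Real.exp (-τ) < 1 := by
      rw [Real.exp_lt_one_iff]; linarith
    have h2 : M T₀ ≤ M τ := hmono (mem_Ici.2 le_rfl) (mem_Ici.2 hτ) hτ
    exact boxE hD hM (Real.exp_pos _) h1.le (hexp τ hτ).le (by linarith)
      (fun t w ht hw => hOmM τ hτ t w ht hw.le)
  obtain ⟨c₀, hc₀⟩ := ap3 hD hM
  have hAP3 : ∀ x : ℝ, iteratedDeriv 3 (fun w => stp (beE b ρ r) (x, w)) 0 =
      2 / 5 * ((K x - 2 * deriv θ x ^ 2) + deriv θ x ^ 2 / 8) + c₀ := by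
    intro x
    rw [(stp_real hD x).iteratedDeriv_eq 3, hc₀ x (by simpa using hρ), hM.G_eq]
  obtain ⟨Kc₀, hKc₀, hst⟩ := base_st (r2 := min (r / 2) (ρ / 4)) (CB := |Bc|) (lab_of hM) (ent_of hM)
    hM.yper hM.yconj hM.Kconj hAP3 hT1 hmono hM1 hBox (lt_min (by linarith) (by linarith))
    (abs_nonneg _) (by
      intro t w ht hw
      refine base_bound hD (ht.trans_lt ?_) (hw.trans_le ?_)
      · have := min_le_right (r / 2) (ρ / 4)
        linarith
      · have := min_le_left (r / 2) (ρ / 4)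
        linarith)
  obtain ⟨T, hT⟩ := hst Kc₀ le_rfl
  -- eventual smallness
  have ev1 : ∀ᶠ τ : ℝ in atTop, T₀ ≤ τ - Real.log Kc₀ - Real.log τ / 2 := by
    have h1 : Tendsto (fun τ : ℝ => Real.log τ / τ) atTop (𝓝 0) := by
      have := Real.isLittleO_log_id_atTop.tendsto_div_nhds_zero
      simpa using this
    have h2 : ∀ᶠ τ : ℝ in atTop, Real.log τ / τ < 1 := h1.eventually (gt_mem_nhds one_pos)
    filter_upwards [h2, eventually_ge_atTop (2 * (T₀ + Real.log Kc₀)), eventually_gt_atTop 0]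
      with τ a1 a2 a3
    rw [div_lt_one a3] at a1
    linarith
  have ev2 : ∀ᶠ τ : ℝ in atTop, 4 * Real.exp (-(τ - Real.log Kc₀ - Real.log τ / 2)) < ρ := by
    have h1 : Tendsto (fun τ : ℝ => Real.sqrt τ * Real.exp (-τ)) atTop (𝓝 0) := by
      have h2 : Tendsto (fun τ : ℝ => τ ^ 1 * Real.exp (-τ)) atTop (𝓝 0) :=
        Real.tendsto_pow_mul_exp_neg_atTop_nhds_zero 1
      refine squeeze_zero' (g := fun τ : ℝ => τ ^ 1 * Real.exp (-τ)) ?_ ?_ h2
      · filter_upwards with τ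
        positivity
      · filter_upwards [eventually_ge_atTop 1] with τ hτ
        refine mul_le_mul_of_nonneg_right ?_ (Real.exp_pos _).le
        rw [pow_one]
        rw [Real.sqrt_le_left (by linarith)]
        nlinarith
    have h3 : Tendsto (fun τ : ℝ => 4 * Kc₀ * (Real.sqrt τ * Real.exp (-τ))) atTop (𝓝 0) := by
      have := h1.const_mul (4 * Kc₀)
      rwa [mul_zero] at this
    filter_upwards [h3.eventually (gt_mem_nhds hρ), eventually_gt_atTop 0] with τ a1 a2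
    have e1 : Real.exp (-(τ - Real.log Kc₀ - Real.log τ / 2)) =
        Kc₀ * (Real.sqrt τ * Real.exp (-τ)) := by
      have : -(τ - Real.log Kc₀ - Real.log τ / 2) = Real.log Kc₀ + Real.log τ / 2 + -τ := by ring
      rw [this, Real.exp_add, Real.exp_add, Real.exp_log (by linarith)]
      have : Real.exp (Real.log τ / 2) = Real.sqrt τ := by
        rw [Real.sqrt_eq_rpow, Real.rpow_def_of_pos a2]
        congr 1
        ring
      rw [this]
      ring
    rw [e1]
    linarith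
  have ev3 : ∀ᶠ τ : ℝ in atTop, 4 ≤ τ := eventually_ge_atTop 4
  have ev4 : ∀ᶠ τ : ℝ in atTop, 32 * Real.exp (-τ) < ρ := by
    have h1 : Tendsto (fun τ : ℝ => 32 * Real.exp (-τ)) atTop (𝓝 (32 * 0)) :=
      (Real.tendsto_exp_neg_atTop_nhds_zero).const_mul 32
    rw [mul_zero] at h1
    exact h1.eventually (gt_mem_nhds hρ)
  obtain ⟨T2, hT2'⟩ := eventually_atTop.1 (ev1.and (ev2.and (ev3.and ev4)))
  refine ⟨Kc₀, hKc₀, max T T2, fun τ hτ S R hS hSR hrec hb => ?_⟩
  have hτT : T ≤ τ := (le_max_left _ _).trans hτ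
  obtain ⟨k1, k2, k3, k4⟩ := hT2' τ ((le_max_right _ _).trans hτ)
  obtain ⟨s1, s2, s3⟩ := hT τ hτT S hS hrec
  set s : ℝ := Real.exp (-τ) with hs
  have hs0 : 0 < s := Real.exp_pos _
  set τb : ℝ := τ - Real.log Kc₀ - Real.log τ / 2 with hτb
  have hS0 : 0 < S := lt_of_lt_of_le (by positivity) hS
  have hb1def : b1 M Kc₀ τ S = M τb - 2 * Real.exp (-τb) - S := rfl
  -- `2 s ≤ e^{-τb}`
  have h2s : 2 * s ≤ Real.exp (-τb) := by
    have h1 : Real.log 2 ≤ Real.log Kc₀ + Real.log τ / 2 := by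
      have h2 : Real.log 4 ≤ Real.log τ := Real.log_le_log (by norm_num) k3
      have h3 : Real.log 4 = 2 * Real.log 2 := by
        rw [show (4 : ℝ) = 2 ^ 2 by norm_num, Real.log_pow]
        norm_num
      have h4 : 0 ≤ Real.log Kc₀ := Real.log_nonneg hKc₀
      linarith
    calc 2 * s = Real.exp (Real.log 2) * Real.exp (-τ) := by
          rw [Real.exp_log (by norm_num)]
      _ = Real.exp (Real.log 2 + -τ) := by rw [Real.exp_add]
      _ ≤ Real.exp (-τb) := Real.exp_le_exp.2 (by rw [hτb]; linarith)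
  have hDLSL : ∀ t w : ℂ, w ∈ ColE350.Wd s → -(ρ / 2) < t.im → t.im < b1 M Kc₀ τ S →
      (t, w) ∈ SL φ p ρ r := by
    intro t w hw h1 h2
    rw [mem_SL h1]
    refine hOmM τb k1 t w ?_ ?_
    · rw [hb1def] at h2
      have := Real.exp_pos (-τb)
      linarith
    · have := hw.1
      linarith
  have hSL : ∀ x ∈ DL s (b1 M Kc₀ τ S), x ∈ SL φ p ρ r := by
    rintro ⟨t, w⟩ ⟨h1, h2, h3⟩
    simp only at h1 h2 h3
    exact hDLSL t w h1 (by linarith) h3
  have hSBE : ∀ x ∈ DL s (b1 M Kc₀ τ S), x ∈ SBE b ρ r := by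
    rintro ⟨t, w⟩ ⟨h1, h2, h3⟩
    simp only at h1 h2 h3
    rw [hb1def] at h3
    have hw2 := h1.1
    have he := Real.exp_pos (-τb)
    refine box_SBE (rule_vertexE hD hM) (h := M τb) (r' := Real.exp (-τb)) he ?_ ⟨?_, ?_⟩ ?_
    · rintro x ⟨⟨a1, a2⟩, a3⟩
      rw [mem_ball_zero_iff] at a3
      exact SL_iff.2 ⟨hOmM τb k1 x.1 x.2 a2 a3.le, by linarith⟩
    · linarith
    · linarith
    · linarith
  refine ⟨⟨hs0, by linarith, ?_, ?_, ?_, s2, ?_, ?_, ?_, s3, ?_⟩, hDLSL⟩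
  · exact (beE_an hD).differentiableOn.mono hSBE
  · exact (φe_anE hD).continuousOn.mono hSL
  · intro t w htw
    exact (s1 t w htw).trans hSR
  · intro t w h1 h2
    have e1 : sh (-1) (t + w / 2, w) = (t, w) := by
      unfold sh
      refine Prod.ext ?_ rfl
      simp only
      ring
    have := inc_allE hD (Or.inr rfl) (hSBE _ h2) (by rw [e1]; exact hSL _ h1)
    rw [e1] at this
    exact incS_of this
  · intro t w h1 h2
    have e1 : sh 1 (t - w / 2, w) = (t, w) := by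
      unfold sh
      refine Prod.ext ?_ rfl
      simp only
      ring
    have := inc_allE hD (Or.inl rfl) (hSBE _ h2) (by rw [e1]; exact hSL _ h1)
    rw [e1] at this
    exact incS_of this
  · intro t w h1 h2 h3
    have e1 : sh 1 (t, w) = (t + w / 2, w) := by
      unfold sh
      rw [one_mul]
    have e2 : sh (-1) (t, w) = (t - w / 2, w) := by
      unfold sh
      rw [neg_one_mul, ← sub_eq_add_neg]
    have := refl_allE hD (s := 1) (Or.inl rfl) (hSBE _ h1) (by rw [e1]; exact hSL _ h3)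
      (by rw [e2]; exact hSL _ h2)
    rw [e1, e2] at this
    exact this
  · -- the starting chord
    refine ⟨0, (s : ℂ) * Complex.I, ?_, ?_, ?_, ?_⟩
    · refine ⟨⟨?_, ?_⟩, ?_, ?_⟩
      · simp only [norm_mul, Complex.norm_I, mul_one, Complex.norm_real, Real.norm_eq_abs,
          abs_of_pos hs0]
        linarith
      · simp only [norm_mul, Complex.norm_I, mul_one, Complex.norm_real, Real.norm_eq_abs,
          abs_of_pos hs0, Complex.mul_im, Complex.ofReal_re, Complex.I_im, Complex.ofReal_im,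
          Complex.I_re, mul_zero, add_zero]
        linarith
      · simp only [Complex.zero_im]; linarith
      · simp only [Complex.zero_im]; linarith
    · refine ⟨⟨?_, ?_⟩, ?_, ?_⟩
      · simp only [norm_mul, Complex.norm_I, mul_one, Complex.norm_real, Real.norm_eq_abs,
          abs_of_pos hs0]
        linarith
      · simp only [norm_mul, Complex.norm_I, mul_one, Complex.norm_real, Real.norm_eq_abs,
          abs_of_pos hs0, Complex.mul_im, Complex.ofReal_re, Complex.I_im, Complex.ofReal_im,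
          Complex.I_re, mul_zero, add_zero]
        linarith
      · simp; linarith
      · simp; linarith
    · refine ⟨⟨?_, ?_⟩, ?_, ?_⟩
      · simp only [norm_mul, Complex.norm_I, mul_one, Complex.norm_real, Real.norm_eq_abs,
          abs_of_pos hs0]
        linarith
      · simp only [norm_mul, Complex.norm_I, mul_one, Complex.norm_real, Real.norm_eq_abs,
          abs_of_pos hs0, Complex.mul_im, Complex.ofReal_re, Complex.I_im, Complex.ofReal_im,
          Complex.I_re, mul_zero, add_zero]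
        linarith
      · simp; linarith
      · simp; linarith
    · have hwr : ‖(s : ℂ) * Complex.I‖ < r := by
        simp only [norm_mul, Complex.norm_I, mul_one, Complex.norm_real, Real.norm_eq_abs,
          abs_of_pos hs0]
        have := hexp τb k1
        linarith
      have him : ((s : ℂ) * Complex.I / 2).im = s / 2 := by
        simp
      have m1 : ((0 : ℂ), (s : ℂ) * Complex.I) ∈ Slab (-(ρ / 2)) (ρ / 2) (ball (0 : ℂ) r) := by
        refine ⟨?_, ?_, by rw [mem_ball_zero_iff]; exact hwr⟩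
        · simp only [Complex.zero_im]; linarith
        · simp only [Complex.zero_im]; linarith
      have m2 : ((0 : ℂ) - (s : ℂ) * Complex.I / 2, (s : ℂ) * Complex.I) ∈
          Slab (-(ρ / 2)) (ρ / 2) (ball (0 : ℂ) r) := by
        refine ⟨?_, ?_, by rw [mem_ball_zero_iff]; exact hwr⟩
        · simp only [Complex.sub_im, Complex.zero_im, him]; linarith
        · simp only [Complex.sub_im, Complex.zero_im, him]; linarith
      have D := datE hD (h := η) le_rfl
      rw [D.φe_slab m1, beE_slab hD m2]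
      have n2 := slab_PD hρ m2
      have hθ1 : θ (b ((0 : ℂ) - (s : ℂ) * Complex.I / 2, (s : ℂ) * Complex.I)) =
          Tc q (b ((0 : ℂ) - (s : ℂ) * Complex.I / 2, (s : ℂ) * Complex.I)) :=
        D.ψ_eq _ (D.b_mem_Str n2)
      rw [hθ1]
      have e1 : (0 : ℂ) - (s : ℂ) * Complex.I / 2 + (s : ℂ) * Complex.I / 2 = 0 := by ring
      have := hD.fam.δ_small _ _ n2 (by rw [e1]; exact slab_PD hρ m1)
      rw [e1] at this
      linarith

end Crest.Agent.R102.ShE628
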