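import Crest.Agent.R102.Dir_540

/-!
Row 102, part (B), lemma B4 (helper540): Lipschitz bound for the Taylor remainder of the
Euler-Lagrange function and the second order Taylor bound of the Lagrangian.
-/

set_option autoImplicit false

open Set Filter Topology Metric Complex MeasureTheory
open scoped Real ContDiff ComplexConjugate

noncomputable section

namespace Crest.Agent.R102.B540

open Crest.Agent.R102.B821 Crest.Agent.R266.SCV

/-- Lipschitz estimate of the second order remainder -/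
lemma lip_rem {F : ℂ × ℂ → ℂ} {p h h' : ℂ × ℂ} {s K m : ℝ} (hs : 0 < s)
    (hF : AnalyticOnNhd ℂ F (ball p s)) (hK : ∀ q ∈ ball p s, ‖F q‖ ≤ K) (hh : ‖h‖ ≤ m)
    (hh' : ‖h'‖ ≤ m) (hm : 4 * m < s) :
    ‖F (p + h) - F (p + h') - fderiv ℂ F p (h - h')‖ ≤ 8 * K / s ^ 2 * m * ‖h - h'‖ := by
  have hm0 : 0 ≤ m := (norm_nonneg _).trans hh
  have h1 : ∀ x ∈ ball p (s / 2), ‖fderiv ℂ F x‖ ≤ K / (s / 2) := by
    intro x hx
    have hsub : ball x (s / 2) ⊆ ball p s := by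
      refine ball_subset_ball' ?_
      rw [mem_ball] at hx
      linarith
    exact norm_fderiv_le_of_ball (by linarith) (hF.differentiableOn.mono hsub)
      (fun y hy => hK y (hsub hy))
  have hF' : AnalyticOnNhd ℂ (fderiv ℂ F) (ball p s) := hF.fderiv
  have h2 : ∀ x ∈ ball p (s / 4), ‖fderiv ℂ (fderiv ℂ F) x‖ ≤ K / (s / 2) / (s / 4) := by
    intro x hx
    have hsub : ball x (s / 4) ⊆ ball p (s / 2) := by
      refine ball_subset_ball' ?_
      rw [mem_ball] at hx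
      linarith
    exact norm_fderiv_le_of_ball (by linarith)
      (hF'.differentiableOn.mono (hsub.trans (ball_subset_ball (by linarith))))
      (fun y hy => h1 y (hsub hy))
  have hK0 : 0 ≤ K := (norm_nonneg _).trans (hK p (mem_ball_self hs))
  have hcb : closedBall p m ⊆ ball p (s / 4) := closedBall_subset_ball (by linarith)
  have h3 : ∀ x ∈ closedBall p m, ‖fderiv ℂ F x - fderiv ℂ F p‖ ≤ 8 * K / s ^ 2 * m := by
    intro x hx
    have h4 := (convex_closedBall p m).norm_image_sub_le_of_norm_hasFDerivWithin_le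
      (f := fderiv ℂ F) (f' := fun x => fderiv ℂ (fderiv ℂ F) x)
      (C := K / (s / 2) / (s / 4)) (𝕜 := ℂ)
      (fun y hy => ((hF' y (ball_subset_ball (by linarith) (hcb hy))).differentiableAt).hasFDerivAt.hasFDerivWithinAt)
      (fun y hy => h2 y (hcb hy)) (mem_closedBall_self hm0) hx
    refine h4.trans ?_
    have h5 : ‖x - p‖ ≤ m := by rwa [mem_closedBall, dist_eq_norm] at hx
    have e : K / (s / 2) / (s / 4) = 8 * K / s ^ 2 := by field_simp; ring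
    rw [e]
    exact mul_le_mul_of_nonneg_left h5 (by positivity)
  have hx1 : p + h ∈ closedBall p m := by
    rw [mem_closedBall, dist_eq_norm, add_sub_cancel_left]; exact hh
  have hx2 : p + h' ∈ closedBall p m := by
    rw [mem_closedBall, dist_eq_norm, add_sub_cancel_left]; exact hh'
  have h6 := (convex_closedBall p m).norm_image_sub_le_of_norm_hasFDerivWithin_le'
    (f := F) (f' := fun x => fderiv ℂ F x) (φ := fderiv ℂ F p) (C := 8 * K / s ^ 2 * m) (𝕜 := ℂ)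
    (fun y hy => ((hF y (ball_subset_ball (by linarith) (hcb hy))).differentiableAt).hasFDerivAt.hasFDerivWithinAt)
    (fun y hy => h3 y hy) hx2 hx1
  have e : p + h - (p + h') = h - h' := by abel
  rw [e] at h6
  exact h6

variable {ρ₀ ε₀ : ℝ} {L Ψ : ℂ × ℂ → ℂ}

/-- Lipschitz remainder of `EL` and Taylor remainder of `L` -/
theorem exists_bounds2 (h : IsLag ρ₀ ε₀ L Ψ) :
    ∃ K δ₀ : ℝ, 1 ≤ K ∧ 0 < δ₀ ∧
      (∀ x y z x' y' z' x'' y'' z'' : ℂ, ∀ m δ : ℝ, (x, y) ∈ Dg (3 / 4 * ρ₀) (ε₀ / 2) →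
        (y, z) ∈ Dg (3 / 4 * ρ₀) (ε₀ / 2) → ‖x'‖ ≤ m → ‖y'‖ ≤ m → ‖z'‖ ≤ m →
        ‖x''‖ ≤ m → ‖y''‖ ≤ m → ‖z''‖ ≤ m → ‖x' - x''‖ ≤ δ → ‖y' - y''‖ ≤ δ →
        ‖z' - z''‖ ≤ δ → m ≤ δ₀ →
        ‖EL L (x + x') (y + y') (z + z') - EL L (x + x'') (y + y'') (z + z'') -
          dEL L x y z (x' - x'') (y' - y'') (z' - z'')‖ ≤ K * m * δ) ∧
      (∀ x y x' y' : ℂ, ∀ m : ℝ, (x, y) ∈ Dg (3 / 4 * ρ₀) (ε₀ / 2) → ‖x'‖ ≤ m → ‖y'‖ ≤ m →
        m ≤ δ₀ → ‖L (x + x', y + y') - L (x, y) - (q1 L (x, y) * x' + q2 L (x, y) * y')‖ ≤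
          K * m ^ 2) := by
  obtain ⟨K0, hK0⟩ := h.bdd
  have hρ := h.ρ_pos
  have hε := h.ε_pos
  set s : ℝ := min (ρ₀ / 32) (ε₀ / 32) with hs
  have hs0 : 0 < s := lt_min (by linarith) (by linarith)
  have hs1 : s ≤ ρ₀ / 32 := min_le_left _ _
  have hs2 : s ≤ ε₀ / 32 := min_le_right _ _
  have hKn : 0 ≤ K0 := by
    have hmem : ((0 : ℂ), (0 : ℂ)) ∈ Dg ρ₀ ε₀ := by
      refine ⟨by simpa using hρ, by simpa using hρ, by simpa using hε⟩
    exact (norm_nonneg _).trans (hK0 _ hmem)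
  have hmono : ∀ {ρ₁ ε₁ : ℝ}, ρ₁ ≤ ρ₀ → ε₁ ≤ ε₀ → Dg ρ₁ ε₁ ⊆ Dg ρ₀ ε₀ := fun h1 h2 => Dg_mono h1 h2
  set KL : ℝ := ε₀ ^ 3 * K0 with hKL
  have hKL0 : 0 ≤ KL := by positivity
  have hLb : ∀ p ∈ Dg ρ₀ ε₀, ‖L p‖ ≤ KL := by
    intro p hp
    rw [h.eq p.1 p.2 hp, norm_mul, norm_pow]
    exact mul_le_mul (pow_le_pow_left₀ (norm_nonneg _) hp.2.2.le 3) (hK0 _ hp) (norm_nonneg _)
      (by positivity)
  have hL1 : ∀ p ∈ Dg (3 / 4 * ρ₀ + 3 * s) (ε₀ / 2 + 6 * s), ‖fderiv ℂ L p‖ ≤ KL / s :=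
    fderiv_bound_Dg hs0 (h.diffL.mono (hmono (by linarith) (by linarith)))
      (fun p hp => hLb p (hmono (by linarith) (by linarith) hp))
  refine ⟨2 * (8 * (KL / s) / s ^ 2) + 6 * KL / s ^ 2 + 1, s / 5, ?_, by linarith, ?_, ?_⟩
  · have : 0 ≤ 2 * (8 * (KL / s) / s ^ 2) + 6 * KL / s ^ 2 := by positivity
    linarith
  · intro x y z x' y' z' x'' y'' z'' m δ hxy hyz hx' hy' hz' hx'' hy'' hz'' dx dy dz hm
    have hm0 : 0 ≤ m := (norm_nonneg _).trans hx'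
    have hδ0 : 0 ≤ δ := (norm_nonneg _).trans dx
    have key : ∀ (F : ℂ × ℂ → ℂ) (a b a' b' a'' b'' : ℂ), AnalyticOnNhd ℂ F (Dg ρ₀ ε₀) →
        (∀ q ∈ Dg (3 / 4 * ρ₀ + 3 * s) (ε₀ / 2 + 6 * s), ‖F q‖ ≤ KL / s) →
        (a, b) ∈ Dg (3 / 4 * ρ₀) (ε₀ / 2) → ‖a'‖ ≤ m → ‖b'‖ ≤ m → ‖a''‖ ≤ m → ‖b''‖ ≤ m →
        ‖a' - a''‖ ≤ δ → ‖b' - b''‖ ≤ δ →
        ‖F (a + a', b + b') - F (a + a'', b + b'') -
          (q1 F (a, b) * (a' - a'') + q2 F (a, b) * (b' - b''))‖ ≤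
          8 * (KL / s) / s ^ 2 * m * δ := by
      intro F a b a' b' a'' b'' hF hFb hab ha' hb' ha'' hb'' da db
      have hh : ‖((a', b') : ℂ × ℂ)‖ ≤ m := by
        rw [Prod.norm_def]; exact max_le ha' hb'
      have hh' : ‖((a'', b'') : ℂ × ℂ)‖ ≤ m := by
        rw [Prod.norm_def]; exact max_le ha'' hb''
      have hd : ‖((a', b') : ℂ × ℂ) - (a'', b'')‖ ≤ δ := by
        rw [Prod.mk_sub_mk, Prod.norm_def]; exact max_le da db
      have hsub : ball ((a, b) : ℂ × ℂ) s ⊆ Dg (3 / 4 * ρ₀ + s) (ε₀ / 2 + 2 * s) :=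
        ball_subset_Dg hab
      have h1 := lip_rem (F := F) (p := ((a, b) : ℂ × ℂ)) (h := ((a', b') : ℂ × ℂ))
        (h' := ((a'', b'') : ℂ × ℂ)) hs0
        (hF.mono (hsub.trans (hmono (by linarith) (by linarith))))
        (fun q hq => hFb q (Dg_mono (by linarith) (by linarith) (hsub hq))) hh hh'
        (by linarith)
      rw [Prod.mk_sub_mk, fderiv_eq_q] at h1
      rw [Prod.mk_sub_mk] at hd
      refine h1.trans ?_
      exact mul_le_mul_of_nonneg_left hd (by positivity)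
    have k1 := key (q2 L) x y x' y' x'' y'' (ana_q2 h.anaL)
      (fun q hq => (norm_q2_le _ _).trans (hL1 q hq)) hxy hx' hy' hx'' hy'' dx dy
    have k2 := key (q1 L) y z y' z' y'' z'' (ana_q1 h.anaL)
      (fun q hq => (norm_q1_le _ _).trans (hL1 q hq)) hyz hy' hz' hy'' hz'' dy dz
    have hxy' : (x, y) ∈ Dg ρ₀ ε₀ := hmono (by linarith) (by linarith) hxy
    have e : EL L (x + x') (y + y') (z + z') - EL L (x + x'') (y + y'') (z + z'') -
          dEL L x y z (x' - x'') (y' - y'') (z' - z'') =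
        (q2 L (x + x', y + y') - q2 L (x + x'', y + y'') -
          (q1 (q2 L) (x, y) * (x' - x'') + q2 (q2 L) (x, y) * (y' - y''))) +
        (q1 L (y + y', z + z') - q1 L (y + y'', z + z'') -
          (q1 (q1 L) (y, z) * (y' - y'') + q2 (q1 L) (y, z) * (z' - z''))) := by
      unfold EL dEL
      rw [q_symm (h.anaL _ hxy')]
      ring
    rw [e]
    refine (norm_add_le _ _).trans ((add_le_add k1 k2).trans ?_)
    have h0 : 0 ≤ (6 * KL / s ^ 2 + 1) * (m * δ) := by positivity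
    have e2 : (2 * (8 * (KL / s) / s ^ 2) + 6 * KL / s ^ 2 + 1) * m * δ =
      8 * (KL / s) / s ^ 2 * m * δ + 8 * (KL / s) / s ^ 2 * m * δ +
        (6 * KL / s ^ 2 + 1) * (m * δ) := by ring
    rw [e2]
    linarith
  · intro x y x' y' m hxy hx' hy' hm
    have hm0 : 0 ≤ m := (norm_nonneg _).trans hx'
    have hh : ‖((x', y') : ℂ × ℂ)‖ ≤ m := by
      rw [Prod.norm_def]; exact max_le hx' hy'
    have hsub : ball ((x, y) : ℂ × ℂ) s ⊆ Dg (3 / 4 * ρ₀ + s) (ε₀ / 2 + 2 * s) :=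
      ball_subset_Dg hxy
    have hsub' : ball ((x, y) : ℂ × ℂ) s ⊆ Dg ρ₀ ε₀ :=
      hsub.trans (hmono (by linarith) (by linarith))
    have h1 := taylor_ball (F := L) (p := ((x, y) : ℂ × ℂ)) (h := ((x', y') : ℂ × ℂ)) hs0
      (h.diffL.mono hsub') (fun q hq => hLb q (hsub' hq)) (by linarith)
    rw [fderiv_eq_q] at h1
    refine h1.trans ?_
    have h2 : ‖((x', y') : ℂ × ℂ)‖ ^ 2 ≤ m ^ 2 := pow_le_pow_left₀ (norm_nonneg _) hh 2
    have h3 : 0 ≤ 6 * KL / s ^ 2 := by positivity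
    have h4 : 0 ≤ (2 * (8 * (KL / s) / s ^ 2) + 1) * m ^ 2 := by positivity
    calc 6 * KL / s ^ 2 * ‖((x', y') : ℂ × ℂ)‖ ^ 2 ≤ 6 * KL / s ^ 2 * m ^ 2 :=
          mul_le_mul_of_nonneg_left h2 h3
      _ ≤ _ := by nlinarith

end Crest.Agent.R102.B540
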