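import Crest.Agent.R102.In5II_150
import Crest.Agent.R102.SupDefs_115

/-!
Row 102, T1-B (helper150): leaf 4 of `SupDefs_115`.
-/

set_option autoImplicit false

open Set Filter Topology Metric Complex MeasureTheory
open scoped Real

noncomputable section

namespace Crest.Agent.R102.PartII150

open Crest.Agent.R102.Heights150 (HD HD_mono)
open Crest.Agent.R102.S5 (Half bl Gam Low)
open Crest.Agent.R102.Sup115

theorem ex_zero (q : ℂ × ℂ) : ex (fun _ => 0) q = q := by unfold ex; simp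

/-- `E2` gives `At` with the zero shift -/
theorem at_of_E2 {u0 R d a g ρ η : ℝ} {X L : Set (ℂ × ℂ)} {e : ℝ × ℝ} (ha : 0 ≤ a) (hρ : 0 < ρ)
    (hη : 0 < η) (hd : 0 < d) (hD : Dp u0 R d ⊆ X) (he : e.2 ∈ Ioo (u0 - R) (u0 + R)) (hE : E2 X L a g ρ η e) :
    ∃ δ > 0, ∃ η' > 0, (∀ z ∈ HD η', ((e.2 : ℂ) + z) ∈ HDu u0 R) ∧
      At univ X (fun _ => 0) a 0 ρ e.1 δ η' e.2 := by
  set R₁ : ℝ := R - |e.2 - u0| with hR₁
  have hR₁0 : 0 < R₁ := by
    have : |e.2 - u0| < R := by rw [abs_lt]; constructor <;> linarith [he.1, he.2]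
    linarith
  set η' : ℝ := min (min R₁ η) d / (4 * (a + ρ + 2)) with hη'
  have hk : (0 : ℝ) < a + ρ + 2 := by linarith
  have hmin : 0 < min (min R₁ η) d := lt_min (lt_min hR₁0 hη) hd
  have hη'0 : 0 < η' := by positivity
  have hm : 4 * ((a + ρ + 2) * η') = min (min R₁ η) d := by rw [hη']; field_simp
  have hmd : 4 * ((a + ρ + 2) * η') ≤ d := by rw [hm]; exact min_le_right _ _
  have hmR : 4 * ((a + ρ + 2) * η') ≤ R₁ := by rw [hm]; exact (min_le_left _ _).trans (min_le_left _ _)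
  have hmη : 4 * ((a + ρ + 2) * η') ≤ η := by rw [hm]; exact (min_le_left _ _).trans (min_le_right _ _)
  have hη'k : η' ≤ (a + ρ + 2) * η' := by nlinarith
  have hHD : ∀ z : ℂ, 0 < z.im → ‖z‖ < R₁ → ((e.2 : ℂ) + z) ∈ HDu u0 R := by
    intro z h0 h1
    refine ⟨?_, by show 0 < ((e.2 : ℂ) + z).im; simpa using h0⟩
    rw [mem_ball, dist_eq_norm]
    have h2 : (e.2 : ℂ) + z - u0 = ((e.2 - u0 : ℝ) : ℂ) + z := by push_cast; ring
    rw [h2]
    refine (norm_add_le _ _).trans_lt ?_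
    rw [Complex.norm_real, Real.norm_eq_abs]
    linarith
  refine ⟨η / 4, by positivity, η', hη'0, ?_, ?_, ?_, ?_⟩
  · intro z hz
    exact hHD z hz.1 (by linarith [hz.2])
  · intro q hq hz hq0 him
    have hz0 : 0 < q.2.im := by simpa using hz.1
    rw [ex_zero]
    rcases lt_or_ge q.1.im 0 with h | h
    · refine hD ⟨by linarith, h, ?_⟩
      have := hHD _ hz.1 (by linarith [hz.2])
      rwa [add_sub_cancel] at this
    · exact hE.low ⟨by linarith, by linarith, by linarith [hz.2], hz0, him⟩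
  · intro q _ _ _ _
    exact mem_univ _
  · intro x hx z hz hzc
    have hz0 := hz.1
    have hzn : 0 ≤ ‖z‖ := norm_nonneg z
    have hre : |z.re| ≤ ‖z‖ := Complex.abs_re_le_norm z
    have hare : |a * z.re| ≤ a * ‖z‖ := by
      rw [abs_mul, abs_of_nonneg ha]; exact mul_le_mul_of_nonneg_left hre ha
    have han : (a + ρ + 2) * ‖z‖ ≤ (a + ρ + 2) * η' := mul_le_mul_of_nonneg_left hz.2.le hk.le
    have han' : a * ‖z‖ ≤ η / 4 := by nlinarith
    have hρn' : ρ * ‖z‖ ≤ η / 4 := by nlinarith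
    have hρR : ρ * ‖z‖ + ‖z‖ ≤ R₁ / 4 := by nlinarith
    have hρη : ρ * ‖z‖ + ‖z‖ ≤ η / 4 := by nlinarith
    obtain ⟨q, hqX, h1, h2, h3, h4⟩ := hE.dense (x - a * z.re) (by
      calc |x - a * z.re - e.1| = |(x - e.1) + (-(a * z.re))| := by ring_nf
        _ ≤ |x - e.1| + |-(a * z.re)| := abs_add_le _ _
        _ < η := by rw [abs_neg]; linarith) z (by linarith [hz.2]) hz0 (by
          have := mul_nonneg hρ.le hzn; linarith)
    rw [sub_add_cancel] at h1
    exact ⟨q, h1, h2, h3, h4, by rw [ex_zero]; exact hqX⟩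

/-- **LEAF 4 of `SupDefs_115`** -/
theorem birthsOf : BirthsOf := by
  intro u0 R d h a g ρ r η X L S Z Zc φ p B e ha hg hr hρ hρr hη hXo hd hX2 hstar hD hB hSh hmaxi
    he hE q hq hGam
  obtain ⟨δ, hδ, η', hη', hH, hAt⟩ := at_of_E2 ha hρ hη hd hD he hE
  -- `r < a + 4`
  have hra : r < a + 4 := by
    have h1 : ((q.1, q.2 - ((r : ℝ) : ℂ) * I) : ℂ × ℂ) ∈ closedBall q r := by
      rw [mem_closedBall, Prod.dist_eq, dist_self, dist_eq_norm]
      have h2 : q.2 - ((r : ℝ) : ℂ) * I - q.2 = -(((r : ℝ) : ℂ) * I) := by ring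
      simp only [h2, norm_neg, norm_mul, Complex.norm_I, mul_one, Complex.norm_real,
        Real.norm_eq_abs, abs_of_pos hr]
      exact max_le hr.le le_rfl
    have h3 := (hGam h1).2.2.1
    have h4 : (q.2 - ((r : ℝ) : ℂ) * I).im = q.2.im - r := by simp
    simp only [h4] at h3
    have h5 := (hGam (mem_closedBall_self hr.le)).2.1
    have h6 := ((le_abs_self _).trans (Complex.abs_im_le_norm q.2))
    linarith
  have ha4 : 4 ≤ a + 4 := by linarith
  have hρr' : ρ * (16 * (a + 4)) ^ 2 ≤ r := hρr.trans (min_le_left _ _)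
  have hK : ρ * (a + 4) ^ 2 ≤ r / 256 := by nlinarith
  have hρa : 0 ≤ ρ * (a + 4) := by positivity
  have h4 : ρ * (a + 4) * 4 ≤ ρ * (a + 4) ^ 2 := by nlinarith
  have hρ4 : ρ * (a + 4) ≤ 1 / 256 := by
    have h5 : ρ * (a + 4) * (a + 4) ≤ 1 / 256 * (a + 4) := by nlinarith
    exact le_of_mul_le_mul_right h5 (by linarith)
  obtain ⟨K, hKL, hKc, hK'⟩ := hAt.births_dense hXo hη' (N := HDu u0 R) (y1 := -1)
    (isOpen_ball.inter (isOpen_lt continuous_const Complex.continuous_im))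
    (differentiableOn_const _) hH (fun w _ => by simp) (by norm_num) (S := S) (B := B)
    (fun q hq _ => by
      exact Crest.Agent.R266.SCV.analyticOnNhd_of_differentiableOn hXo hB q hq)
    (fun q _ _ g hg hgS hτ => hmaxi q g hg (hSh _ hgS) hτ)
    (g := g) (r := r) (ρ := ρ) (a := a) ha hr (by linarith) (by simp; positivity) hρ
    (by nlinarith) (by linarith) (e := e) (by simpa using hδ) rfl q hq hGam
  refine ⟨K, hKL, hKc, ?_⟩
  filter_upwards [hK'] with s hs
  rintro ⟨G, V, h1, h2, h3, h4, h5, h6⟩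
  refine hs ⟨G, V, h1, h2, h4, fun x hx => (h5 x hx).1, fun x hx => ?_⟩
  rw [ex_zero]
  exact h6 x hx

end Crest.Agent.R102.PartII150
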