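import Crest.Agent.R102.BishopDefs_120

/-!
# R102, T1-B, step 5: assembly of the Bishop disc (helper942)

`local_of : Disc → Contact → AeDeriv → Angular → Local` (literal statements of `BishopDefs_120`):
density square, shear, scaling, periodization, contact point with a boundary derivative.
-/

open MeasureTheory Metric Set Filter Topology

namespace Crest.Agent.R102.BishopAsm942

open Bishop120

/-! ## Fourier series calculus -/

theorem norm_term_le (g : ℕ → ℂ) (n : ℕ) {z : ℂ} (hz : 0 ≤ z.im) :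
    ‖g n * Complex.exp (2 * Real.pi * Complex.I * n * z)‖ ≤ ‖g n‖ := by
  rw [norm_mul, Complex.norm_exp]
  have h1 : (2 * (Real.pi : ℂ) * Complex.I * n * z).re = - (2 * Real.pi * n * z.im) := by
    have : (2 * (Real.pi : ℂ) * Complex.I * n * z) = ((2 * Real.pi * n : ℝ) : ℂ) * (Complex.I * z) := by
      push_cast; ring
    rw [this, Complex.re_ofReal_mul]
    simp
  rw [h1]
  have h2 : Real.exp (-(2 * Real.pi * n * z.im)) ≤ 1 := by
    apply Real.exp_le_one_iff.2
    have : 0 ≤ 2 * Real.pi * n * z.im := by positivity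
    linarith
  calc ‖g n‖ * Real.exp (-(2 * Real.pi * n * z.im)) ≤ ‖g n‖ * 1 :=
        mul_le_mul_of_nonneg_left h2 (norm_nonneg _)
    _ = ‖g n‖ := mul_one _

theorem FS_continuousOn {g : ℕ → ℂ} (hg : Summable fun n => ‖g n‖) : ContinuousOn (FS g) HC := by
  unfold FS
  refine continuousOn_tsum (u := fun n => ‖g n‖) (fun n => ?_) hg (fun n z hz => norm_term_le g n hz)
  exact Continuous.continuousOn (by fun_prop)

theorem isOpen_HO : IsOpen HO := by
  unfold HO
  exact isOpen_lt continuous_const Complex.continuous_im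

theorem FS_differentiableOn {g : ℕ → ℂ} (hg : Summable fun n => ‖g n‖) :
    DifferentiableOn ℂ (FS g) HO := by
  unfold FS
  refine Complex.differentiableOn_tsum_of_summable_norm (u := fun n => ‖g n‖) hg (fun n => ?_)
    isOpen_HO (fun n z hz => norm_term_le g n (le_of_lt hz))
  exact Differentiable.differentiableOn (by fun_prop)

theorem FS_norm_le {g : ℕ → ℂ} (hg : Summable fun n => ‖g n‖) {z : ℂ} (hz : z ∈ HC) :
    ‖FS g z‖ ≤ ∑' n, ‖g n‖ := by
  unfold FS
  exact tsum_of_norm_bounded hg.hasSum (fun n => norm_term_le g n hz)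

theorem FS_periodic (g : ℕ → ℂ) (z : ℂ) : FS g (z + 1) = FS g z := by
  unfold FS
  refine tsum_congr (fun n => ?_)
  have : 2 * (Real.pi : ℂ) * Complex.I * n * (z + 1) =
      2 * (Real.pi : ℂ) * Complex.I * n * z + (n : ℂ) * (2 * Real.pi * Complex.I) := by ring
  rw [this, Complex.exp_add, Complex.exp_nat_mul_two_pi_mul_I, mul_one]

theorem ofReal_mem_HC (x : ℝ) : (x : ℂ) ∈ HC := by simp [HC]

theorem FS_real_continuous {g : ℕ → ℂ} (hg : Summable fun n => ‖g n‖) :
    Continuous fun r : ℝ => FS g r :=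
  (FS_continuousOn hg).comp_continuous Complex.continuous_ofReal ofReal_mem_HC

/-- maximum principle for the imaginary part in the upper half plane -/
theorem im_nonpos {G : ℂ → ℂ} (hc : ContinuousOn G HC) (hd : DifferentiableOn ℂ G HO) {M : ℝ}
    (hM : ∀ z ∈ HC, ‖G z‖ ≤ M) (hr : ∀ x : ℝ, (G x).im ≤ 0) : ∀ z ∈ HC, (G z).im ≤ 0 := by
  intro z hz
  set f : ℂ → ℂ := fun w => Complex.exp (-Complex.I * G (Complex.I * w)) with hf
  have hfn : ∀ w, ‖f w‖ = Real.exp ((G (Complex.I * w)).im) := by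
    intro w
    rw [hf]
    simp only [Complex.norm_exp]
    congr 1
    simp
  have hmO : MapsTo (fun w : ℂ => Complex.I * w) {w : ℂ | 0 < w.re} HO := by
    intro w hw
    simp only [HO, mem_ofPred_eq] at hw ⊢
    simpa using hw
  have hmC : MapsTo (fun w : ℂ => Complex.I * w) {w : ℂ | 0 ≤ w.re} HC := by
    intro w hw
    simp only [HC, mem_ofPred_eq] at hw ⊢
    simpa using hw
  have hdc : DiffContOnCl ℂ f {w : ℂ | 0 < w.re} := by
    constructor
    · have h1 : DifferentiableOn ℂ (fun w => G (Complex.I * w)) {w : ℂ | 0 < w.re} :=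
        hd.comp (Differentiable.differentiableOn (by fun_prop)) hmO
      exact (h1.const_mul (-Complex.I)).cexp
    · have hcl : closure {w : ℂ | 0 < w.re} = {w : ℂ | 0 ≤ w.re} := Complex.closure_setOfPred_lt_re 0
      rw [hcl]
      have h1 : ContinuousOn (fun w => G (Complex.I * w)) {w : ℂ | 0 ≤ w.re} :=
        hc.comp (Continuous.continuousOn (by fun_prop)) hmC
      exact (continuousOn_const.mul h1).cexp
  have hbd : ∀ w : ℂ, 0 ≤ w.re → ‖f w‖ ≤ Real.exp M := by
    intro w hw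
    rw [hfn]
    apply Real.exp_le_exp.2
    exact (Complex.abs_im_le_norm _ |> le_trans (le_abs_self _)).trans (hM _ (hmC hw))
  have key : ‖f (-Complex.I * z)‖ ≤ 1 := by
    refine PhragmenLindelof.right_half_plane_of_bounded_on_real hdc ⟨1, by norm_num, 0, ?_⟩ ?_ ?_ ?_
    · refine Asymptotics.IsBigO.of_bound (Real.exp M) ?_
      have : ∀ᶠ w : ℂ in 𝓟 {w : ℂ | 0 < w.re}, w ∈ {w : ℂ | 0 < w.re} := mem_principal_self _
      filter_upwards [this.filter_mono inf_le_right] with w hw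
      simp only [zero_mul, Real.exp_zero, norm_one, mul_one]
      exact hbd w (le_of_lt hw)
    · refine ⟨Real.exp M, ?_⟩
      rw [eventually_map]
      filter_upwards [eventually_ge_atTop (0 : ℝ)] with x hx
      exact hbd _ (by simpa using hx)
    · intro x
      rw [hfn]
      apply Real.exp_le_one_iff.2
      have : Complex.I * ((x : ℂ) * Complex.I) = ((-x : ℝ) : ℂ) := by
        have h2 : Complex.I * ((x : ℂ) * Complex.I) = (x : ℂ) * (Complex.I * Complex.I) := by ring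
        rw [h2, Complex.I_mul_I]; push_cast; ring
      rw [this]
      exact hr (-x)
    · simp only [HC, mem_ofPred_eq] at hz
      simpa using hz
  rw [hfn] at key
  have h3 : Complex.I * (-Complex.I * z) = z := by
    have : Complex.I * (-Complex.I * z) = -(Complex.I * Complex.I) * z := by ring
    rw [this, Complex.I_mul_I]; ring
  rw [h3] at key
  exact Real.exp_le_one_iff.1 key

/-! ## Density square, shear -/

/-- a square in which the set has density at least `9/10` -/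
theorem density_square {P : Set (ℝ × ℝ)} (h0 : 0 < volume P) :
    ∃ a b l : ℝ, 0 < l ∧ ENNReal.ofReal (9 / 10) ≤
      volume ({q : ℝ × ℝ | (a + l * q.1, b + l * q.2) ∈ P} ∩ Icc (0 : ℝ) 1 ×ˢ Icc (0 : ℝ) 1) := by
  have hres : (volume.restrict P) ≠ 0 := by
    intro h
    exact h0.ne' (Measure.restrict_eq_zero.1 h)
  have : (ae ((volume : Measure (ℝ × ℝ)).restrict P)).NeBot := ae_neBot.2 hres
  obtain ⟨x, hx⟩ := (Besicovitch.ae_tendsto_measure_inter_div (volume : Measure (ℝ × ℝ)) P).exists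
  have hlt : ENNReal.ofReal (9 / 10) < 1 := by
    rw [← ENNReal.ofReal_one]
    exact (ENNReal.ofReal_lt_ofReal_iff (by norm_num)).2 (by norm_num)
  have hev : ∀ᶠ r in 𝓝[>] (0 : ℝ),
      ENNReal.ofReal (9 / 10) < volume (P ∩ closedBall x r) / volume (closedBall x r) :=
    hx.eventually (lt_mem_nhds hlt)
  obtain ⟨t, ht, htpos⟩ := (hev.and self_mem_nhdsWithin).exists
  have htp : 0 < t := htpos
  have hl : (0 : ℝ) < 2 * t := by linarith
  refine ⟨x.1 - t, x.2 - t, 2 * t, hl, ?_⟩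
  have hB : volume (closedBall x t) = ENNReal.ofReal ((2 * t) ^ 2) := by
    have hx2 : closedBall x t = closedBall x.1 t ×ˢ closedBall x.2 t := by
      rw [closedBall_prod_same]
    rw [hx2, Measure.volume_eq_prod, Measure.prod_prod, Real.volume_closedBall,
      Real.volume_closedBall, ← ENNReal.ofReal_mul hl.le, pow_two]
  have hB0 : volume (closedBall x t) ≠ 0 := by
    rw [hB]
    simp only [ne_eq, ENNReal.ofReal_eq_zero, not_le]
    positivity
  have hBt : volume (closedBall x t) ≠ ⊤ := by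
    rw [hB]; exact ENNReal.ofReal_ne_top
  have hA : ENNReal.ofReal (9 / 10) * volume (closedBall x t) ≤ volume (P ∩ closedBall x t) :=
    (ENNReal.le_div_iff_mul_le (Or.inl hB0) (Or.inl hBt)).1 ht.le
  have hset : ({q : ℝ × ℝ | (x.1 - t + 2 * t * q.1, x.2 - t + 2 * t * q.2) ∈ P} ∩
      Icc (0 : ℝ) 1 ×ˢ Icc (0 : ℝ) 1) =
      ((2 * t) • ·) ⁻¹' (((x.1 - t, x.2 - t) + ·) ⁻¹' (P ∩ closedBall x t)) := by
    ext q
    simp only [mem_inter_iff, mem_ofPred_eq, mem_prod, mem_Icc, mem_preimage]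
    have e1 : ((x.1 - t, x.2 - t) : ℝ × ℝ) + (2 * t) • q
        = (x.1 - t + 2 * t * q.1, x.2 - t + 2 * t * q.2) := by
      ext <;> simp
    rw [e1]
    have e2 : (x.1 - t + 2 * t * q.1, x.2 - t + 2 * t * q.2) ∈ closedBall x t ↔
        (0 ≤ q.1 ∧ q.1 ≤ 1) ∧ (0 ≤ q.2 ∧ q.2 ≤ 1) := by
      rw [mem_closedBall, Prod.dist_eq, max_le_iff, Real.dist_eq, Real.dist_eq, abs_le, abs_le]
      constructor
      · rintro ⟨⟨h1, h2⟩, h3, h4⟩
        refine ⟨⟨?_, ?_⟩, ?_, ?_⟩ <;> nlinarith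
      · rintro ⟨⟨h1, h2⟩, h3, h4⟩
        refine ⟨⟨?_, ?_⟩, ?_, ?_⟩ <;> nlinarith
    rw [e2]
  rw [hset, Measure.addHaar_preimage_smul volume hl.ne', measure_preimage_add]
  have hfr : Module.finrank ℝ (ℝ × ℝ) = 2 := by
    rw [Module.finrank_prod, Module.finrank_self]
  rw [hfr]
  calc ENNReal.ofReal (9 / 10) = ENNReal.ofReal |((2 * t) ^ 2)⁻¹| *
        (ENNReal.ofReal (9 / 10) * ENNReal.ofReal ((2 * t) ^ 2)) := by
        rw [← ENNReal.ofReal_mul (by norm_num), ← ENNReal.ofReal_mul (abs_nonneg _)]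
        congr 1
        rw [abs_of_pos (by positivity)]
        field_simp
    _ ≤ ENNReal.ofReal |((2 * t) ^ 2)⁻¹| * volume (P ∩ closedBall x t) := by
        rw [← hB]
        gcongr

/-- the shear `(ξ, r) ↦ (ξ + σ r, r)` -/
noncomputable def shear (σ : ℝ) : ℝ × ℝ →ₗ[ℝ] ℝ × ℝ :=
  LinearMap.prod (LinearMap.fst ℝ ℝ ℝ + σ • LinearMap.snd ℝ ℝ ℝ) (LinearMap.snd ℝ ℝ ℝ)

theorem shear_apply (σ : ℝ) (q : ℝ × ℝ) : shear σ q = (q.1 + σ * q.2, q.2) := by
  simp [shear]

theorem shear_pre_pos (σ : ℝ) {P : Set (ℝ × ℝ)} (h0 : 0 < volume P) :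
    0 < volume (shear σ ⁻¹' P) := by
  by_contra hcon
  have hz : volume (shear σ ⁻¹' P) = 0 := by simpa using hcon
  have him : shear σ '' (shear σ ⁻¹' P) = P := by
    apply image_preimage_eq
    intro q
    refine ⟨(q.1 - σ * q.2, q.2), ?_⟩
    rw [shear_apply]
    ext <;> simp
  have := Measure.addHaar_image_linearMap (volume : Measure (ℝ × ℝ)) (shear σ) (shear σ ⁻¹' P)
  rw [him, hz, mul_zero] at this
  exact h0.ne' this

theorem dist_shear_le (σ : ℝ) (p q : ℝ × ℝ) :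
    dist (shear σ p) (shear σ q) ≤ (1 + |σ|) * dist p q := by
  rw [shear_apply, shear_apply, Prod.dist_eq, Prod.dist_eq]
  set m := max (dist p.1 q.1) (dist p.2 q.2) with hm
  have h1 : dist p.1 q.1 ≤ m := le_max_left _ _
  have h2 : dist p.2 q.2 ≤ m := le_max_right _ _
  have hm0 : 0 ≤ m := dist_nonneg.trans h1
  have hs : 0 ≤ |σ| := abs_nonneg σ
  rw [Real.dist_eq] at h1 h2
  apply max_le
  · rw [Real.dist_eq]
    have : p.1 + σ * p.2 - (q.1 + σ * q.2) = (p.1 - q.1) + σ * (p.2 - q.2) := by ring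
    simp only
    rw [this]
    calc |(p.1 - q.1) + σ * (p.2 - q.2)| ≤ |p.1 - q.1| + |σ * (p.2 - q.2)| := abs_add_le _ _
      _ = |p.1 - q.1| + |σ| * |p.2 - q.2| := by rw [abs_mul]
      _ ≤ m + |σ| * m := by gcongr
      _ = (1 + |σ|) * m := by ring
  · rw [Real.dist_eq]
    simp only
    nlinarith

/-! ## Periodization -/

/-- periodization in the second variable -/
def per (Q : Set (ℝ × ℝ)) : Set (ℝ × ℝ) := {q | ∃ n : ℤ, (q.1, q.2 + n) ∈ Q}

theorem subset_per (Q : Set (ℝ × ℝ)) : Q ⊆ per Q := by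
  intro q hq
  exact ⟨0, by simpa using hq⟩

theorem per_shift (Q : Set (ℝ × ℝ)) : (fun q : ℝ × ℝ => q + (0, 1)) '' per Q = per Q := by
  ext q
  constructor
  · rintro ⟨q', ⟨n, hn⟩, rfl⟩
    refine ⟨n - 1, ?_⟩
    have : ((q' + (0, 1) : ℝ × ℝ).1, (q' + (0, 1) : ℝ × ℝ).2 + ((n - 1 : ℤ) : ℝ)) =
        (q'.1, q'.2 + n) := by
      ext
      · simp
      · simp
    rw [this]; exact hn
  · rintro ⟨n, hn⟩
    refine ⟨(q.1, q.2 - 1), ⟨n + 1, ?_⟩, ?_⟩
    · have : (((q.1, q.2 - 1) : ℝ × ℝ).1, ((q.1, q.2 - 1) : ℝ × ℝ).2 + ((n + 1 : ℤ) : ℝ)) =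
          (q.1, q.2 + n) := by
        ext
        · simp
        · simp only [Int.cast_add, Int.cast_one]; ring
      rw [this]; exact hn
    · ext <;> simp

theorem infDist_per (Q : Set (ℝ × ℝ)) (ξ r : ℝ) :
    infDist (ξ, r + 1) (per Q) = infDist (ξ, r) (per Q) := by
  have hiso : Isometry (fun q : ℝ × ℝ => q + (0, 1)) :=
    (IsometryEquiv.addRight ((0, 1) : ℝ × ℝ)).isometry
  have h := Metric.infDist_image hiso (x := (ξ, r)) (t := per Q)
  rw [per_shift] at h
  rw [← h]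
  congr 1
  ext <;> simp

/-- near an interior point of the strip the periodization is not closer than the set itself -/
theorem infDist_le_per {Q : Set (ℝ × ℝ)} (hQ : ∀ q ∈ Q, q.2 ∈ Icc (0 : ℝ) 1) {p q : ℝ × ℝ}
    (hp : p ∈ Q) (h1 : dist q p ≤ p.2 / 2) (h2 : dist q p ≤ (1 - p.2) / 2) :
    infDist q Q ≤ infDist q (per Q) := by
  have hne : (per Q).Nonempty := ⟨p, subset_per Q hp⟩
  refine (le_infDist hne).2 ?_
  intro y hy
  obtain ⟨n, hn⟩ := hy
  have hpq : infDist q Q ≤ dist q p := infDist_le_dist_of_mem hp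
  have hd2 : |q.2 - p.2| ≤ dist q p := by
    rw [Prod.dist_eq, ← Real.dist_eq]; exact le_max_right _ _
  have hdy : |q.2 - y.2| ≤ dist q y := by
    rw [Prod.dist_eq, ← Real.dist_eq]; exact le_max_right _ _
  have hy2 := hQ _ hn
  simp only [mem_Icc] at hy2
  have hp2 := hQ _ hp
  simp only [mem_Icc] at hp2
  rcases lt_trichotomy n 0 with hneg | hzero | hpos
  · have hn1 : (n : ℝ) ≤ -1 := by exact_mod_cast Int.le_sub_one_of_lt hneg
    have : (1 : ℝ) ≤ y.2 := by linarith [hy2.1]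
    rw [abs_le] at hd2
    have := neg_abs_le (q.2 - y.2)
    linarith [hd2.2]
  · subst hzero
    simp only [Int.cast_zero, add_zero] at hn
    exact infDist_le_dist_of_mem hn
  · have hn1 : (1 : ℝ) ≤ (n : ℝ) := by exact_mod_cast hpos
    have : y.2 ≤ 0 := by linarith [hy2.2]
    rw [abs_le] at hd2
    have := le_abs_self (q.2 - y.2)
    linarith [hd2.1]

/-! ## The unit square -/

theorem unit_square (hD : Disc) (hC : Contact) (hA : AeDeriv) (hN : Angular) (c₁ : ℝ)
    (hc : 0 < c₁) :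
    ∃ lam : ℝ, 0 < lam ∧ ∀ P : Set (ℝ × ℝ), IsClosed P →
      ENNReal.ofReal (9 / 10) ≤ volume (P ∩ Icc (0 : ℝ) 1 ×ˢ Icc (0 : ℝ) 1) →
      ∃ p ∈ P, ∃ rho : ℝ, 0 < rho ∧ ∃ κ : ℝ, |κ| ≤ c₁ ∧ ∃ G : ℂ → ℂ,
        ContinuousOn G HC ∧ DifferentiableOn ℂ G HO ∧ G 0 = 0 ∧
        (∀ z ∈ HC, (G z).im ≤ 0) ∧
        HasDerivWithinAt G (κ : ℂ) HC 0 ∧
        ∀ x : ℝ, |x| ≤ rho → lam * infDist (p.1 + (G x).re, p.2 + x) P ≤ -(G x).im := by
  obtain ⟨C, hC0, hDisc⟩ := hD
  set lam : ℝ := min (1 / 16) (min (1 / (100 * C)) (c₁ / (10 * C))) with hlam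
  have hlam0 : 0 < lam := by
    rw [hlam]; positivity
  have hl1 : lam ≤ 1 / 16 := min_le_left _ _
  have hl2 : C * lam ≤ 1 / 100 := by
    have h : lam ≤ 1 / (100 * C) := (min_le_right _ _).trans (min_le_left _ _)
    calc C * lam ≤ C * (1 / (100 * C)) := by gcongr
      _ = 1 / 100 := by field_simp
  have hl3 : C * lam ≤ c₁ / 10 := by
    have h : lam ≤ c₁ / (10 * C) := (min_le_right _ _).trans (min_le_right _ _)
    calc C * lam ≤ C * (c₁ / (10 * C)) := by gcongr
      _ = c₁ / 10 := by field_simp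
  refine ⟨lam, hlam0, ?_⟩
  intro P hPc hPv
  set Q : Set (ℝ × ℝ) := P ∩ Icc (0 : ℝ) 1 ×ˢ Icc (0 : ℝ) 1 with hQ
  have hQc : IsClosed Q := hPc.inter (isClosed_Icc.prod isClosed_Icc)
  have hQP : Q ⊆ P := inter_subset_left
  have hQ2 : ∀ q ∈ Q, q.2 ∈ Icc (0 : ℝ) 1 := fun q hq => hq.2.2
  set Φ : ℝ → ℝ → ℝ := fun ξ r => lam * min 1 (infDist (ξ, r) (per Q)) with hΦ
  have hΦ1 : ∀ ξ r, 0 ≤ Φ ξ r ∧ Φ ξ r ≤ lam := by
    intro ξ r
    have h0 : 0 ≤ min 1 (infDist (ξ, r) (per Q)) := le_min zero_le_one infDist_nonneg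
    have h1 : min 1 (infDist (ξ, r) (per Q)) ≤ 1 := min_le_left _ _
    refine ⟨mul_nonneg hlam0.le h0, ?_⟩
    calc Φ ξ r = lam * min 1 (infDist (ξ, r) (per Q)) := rfl
      _ ≤ lam * 1 := by gcongr
      _ = lam := mul_one _
  have hΦ2 : ∀ ξ ξ' r r', |Φ ξ r - Φ ξ' r'| ≤ lam * (|ξ - ξ'| + |r - r'|) := by
    intro ξ ξ' r r'
    have e1 : Φ ξ r - Φ ξ' r' =
        lam * (min 1 (infDist (ξ, r) (per Q)) - min 1 (infDist (ξ', r') (per Q))) := by
      simp only [hΦ]; ring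
    rw [e1, abs_mul, abs_of_pos hlam0]
    have e2 := abs_min_sub_min_le_max (1 : ℝ) (infDist (ξ, r) (per Q)) 1 (infDist (ξ', r') (per Q))
    rw [sub_self, abs_zero] at e2
    have e3 : |infDist (ξ, r) (per Q) - infDist (ξ', r') (per Q)| ≤ dist (ξ, r) (ξ', r') := by
      rw [abs_le]
      have a1 := infDist_le_infDist_add_dist (s := per Q) (x := (ξ, r)) (y := (ξ', r'))
      have a2 := infDist_le_infDist_add_dist (s := per Q) (x := (ξ', r')) (y := (ξ, r))
      rw [dist_comm] at a2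
      constructor <;> linarith
    have e4 : dist (ξ, r) (ξ', r') ≤ |ξ - ξ'| + |r - r'| := by
      rw [Prod.dist_eq, Real.dist_eq, Real.dist_eq]
      exact max_le_add_of_nonneg (abs_nonneg _) (abs_nonneg _)
    have e5 : max 0 |infDist (ξ, r) (per Q) - infDist (ξ', r') (per Q)| ≤ |ξ - ξ'| + |r - r'| :=
      max_le (by positivity) (e3.trans e4)
    exact mul_le_mul_of_nonneg_left (e2.trans e5) hlam0.le
  have hΦ3 : ∀ ξ r, Φ ξ (r + 1) = Φ ξ r := by
    intro ξ r
    simp only [hΦ]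
    rw [infDist_per]
  obtain ⟨g, hs, hsum, him, hdiff, hstab⟩ := hDisc lam hlam0 hl1 Φ hΦ1 hΦ2 hΦ3
  set k : ℝ → ℝ → ℝ := fun ξ r => (FS (g ξ) r).re with hk
  have hkc : ∀ ξ, Continuous (k ξ) := fun ξ =>
    Complex.continuous_re.comp (FS_real_continuous (hs ξ))
  have hkb : ∀ ξ r, |k ξ r| ≤ 1 / 100 := by
    intro ξ r
    exact ((Complex.abs_re_le_norm _).trans (FS_norm_le (hs ξ) (ofReal_mem_HC r))).trans
      ((hsum ξ).trans hl2)
  have hkL : ∀ ξ ξ' : ℝ, ∫ r in (0 : ℝ)..1, (k ξ r - k ξ' r) ^ 2 ≤ ((ξ - ξ') / 10) ^ 2 := by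
    intro ξ ξ'
    have c1 : Continuous fun r : ℝ => (k ξ r - k ξ' r) ^ 2 := ((hkc ξ).sub (hkc ξ')).pow 2
    have c2 : Continuous fun r : ℝ => ‖FS (g ξ) r - FS (g ξ') r‖ ^ 2 :=
      ((FS_real_continuous (hs ξ)).sub (FS_real_continuous (hs ξ'))).norm.pow 2
    have h1 : ∫ r in (0 : ℝ)..1, (k ξ r - k ξ' r) ^ 2 ≤
        ∫ r in (0 : ℝ)..1, ‖FS (g ξ) r - FS (g ξ') r‖ ^ 2 := by
      refine intervalIntegral.integral_mono_on zero_le_one (c1.intervalIntegrable _ _)
        (c2.intervalIntegrable _ _) ?_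
      intro r _
      have h2 : |k ξ r - k ξ' r| ≤ ‖FS (g ξ) r - FS (g ξ') r‖ := by
        have : k ξ r - k ξ' r = (FS (g ξ) r - FS (g ξ') r).re := by
          simp only [hk, Complex.sub_re]
        rw [this]
        exact Complex.abs_re_le_norm _
      rw [← sq_abs (k ξ r - k ξ' r)]
      gcongr
    refine (h1.trans (hstab ξ ξ')).trans ?_
    have h3 : (C * lam * (ξ - ξ')) ^ 2 = (C * lam) ^ 2 * (ξ - ξ') ^ 2 := by ring
    have h4 : ((ξ - ξ') / 10) ^ 2 = (1 / 10) ^ 2 * (ξ - ξ') ^ 2 := by ring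
    rw [h3, h4]
    have h5 : C * lam ≤ 1 / 10 := hl2.trans (by norm_num)
    gcongr
  have hQvol : ENNReal.ofReal (9 / 10) ≤ volume (Q ∩ Icc (0 : ℝ) 1 ×ˢ Icc (0 : ℝ) 1) := by
    have : Q ∩ Icc (0 : ℝ) 1 ×ˢ Icc (0 : ℝ) 1 = Q := by
      rw [hQ, inter_assoc, inter_self]
    rw [this]; exact hPv
  obtain ⟨ξ, hξ, hvol⟩ := hC k hkc hkb hkL Q hQc hQvol
  set b : ℝ → ℂ := fun r => FS (g ξ) r with hb
  have hbc : Continuous b := FS_real_continuous (hs ξ)
  have hbp : ∀ r, b (r + 1) = b r := by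
    intro r
    simp only [hb]
    rw [Complex.ofReal_add, Complex.ofReal_one, FS_periodic]
  have hK0 : 0 ≤ C * lam := by positivity
  have hAe := hA b hbc hbp (C * lam) hK0 (fun h => hdiff ξ h) c₁ hc
  have hAe2 : ENNReal.ofReal ((C * lam / c₁) ^ 2) ≤ ENNReal.ofReal (1 / 100) := by
    apply ENNReal.ofReal_le_ofReal
    have : C * lam / c₁ ≤ 1 / 10 := by
      rw [div_le_iff₀ hc]; linarith
    have h0 : 0 ≤ C * lam / c₁ := by positivity
    calc (C * lam / c₁) ^ 2 ≤ (1 / 10) ^ 2 := by gcongr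
      _ = 1 / 100 := by norm_num
  have hex : ∃ r : ℝ, (r ∈ Icc (0 : ℝ) 1 ∧ (ξ + k ξ r, r) ∈ Q) ∧
      (DifferentiableAt ℝ b r ∧ ‖deriv b r‖ ≤ c₁) ∧ r ≠ 0 ∧ r ≠ 1 := by
    by_contra hcon
    push Not at hcon
    have hsub : {r : ℝ | r ∈ Icc (0 : ℝ) 1 ∧ (ξ + k ξ r, r) ∈ Q} ⊆
        {r : ℝ | r ∈ Icc (0 : ℝ) 1 ∧ ¬ (DifferentiableAt ℝ b r ∧ ‖deriv b r‖ ≤ c₁)} ∪
          ({0} ∪ {1}) := by
      intro r hr
      by_cases hd : DifferentiableAt ℝ b r ∧ ‖deriv b r‖ ≤ c₁
      · right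
        by_cases h0 : r = 0
        · left; exact h0
        · right; exact hcon r hr hd h0
      · left; exact ⟨hr.1, hd⟩
    have h01 : volume (({0} : Set ℝ) ∪ {1}) = 0 := by
      refine le_antisymm ((measure_union_le _ _).trans ?_) bot_le
      simp
    have hle : volume {r : ℝ | r ∈ Icc (0 : ℝ) 1 ∧ (ξ + k ξ r, r) ∈ Q} ≤ ENNReal.ofReal (1 / 100) :=
      calc volume {r : ℝ | r ∈ Icc (0 : ℝ) 1 ∧ (ξ + k ξ r, r) ∈ Q} ≤ _ := measure_mono hsub
        _ ≤ _ := measure_union_le _ _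
        _ ≤ ENNReal.ofReal (1 / 100) + 0 := by
            rw [h01]
            gcongr
            exact hAe.trans hAe2
        _ = ENNReal.ofReal (1 / 100) := add_zero _
    have hbad := hvol.trans hle
    rw [ENNReal.ofReal_le_ofReal_iff (by norm_num)] at hbad
    norm_num at hbad
  obtain ⟨r0, ⟨hr0I, hr0Q⟩, ⟨hdiffb, hderiv⟩, hr00, hr01⟩ := hex
  have hr0p : 0 < r0 := lt_of_le_of_ne hr0I.1 (Ne.symm hr00)
  have hr0q : r0 < 1 := lt_of_le_of_ne hr0I.2 hr01
  have him' : ∀ r : ℝ, (b r).im = -Φ (ξ + k ξ r) r := fun r => him ξ r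
  have hble : ∀ r : ℝ, (b r).im ≤ 0 := by
    intro r
    rw [him']
    linarith [(hΦ1 (ξ + k ξ r) r).1]
  have hb0 : (b r0).im = 0 := by
    rw [him']
    have : infDist (ξ + k ξ r0, r0) (per Q) = 0 := infDist_zero_of_mem (subset_per Q hr0Q)
    simp only [hΦ, this]
    simp
  have hmax := im_nonpos (FS_continuousOn (hs ξ)) (FS_differentiableOn (hs ξ))
    (fun z hz => FS_norm_le (hs ξ) hz) hble
  set κc : ℂ := deriv b r0 with hκ
  have hder : HasDerivAt b κc r0 := hdiffb.hasDerivAt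
  have hκim : κc.im = 0 := by
    have h1 : HasDerivAt (fun r : ℝ => (b r).im) κc.im r0 :=
      Complex.imCLM.hasFDerivAt.comp_hasDerivAt r0 hder
    have h2 : IsLocalMax (fun r : ℝ => (b r).im) r0 := by
      refine Eventually.of_forall (fun r => ?_)
      simp only [hb0]
      exact hble r
    exact h2.hasDerivAt_eq_zero h1
  have hκr : ((κc.re : ℝ) : ℂ) = κc := by
    apply Complex.ext
    · simp
    · simp [hκim]
  have hang : HasDerivWithinAt (FS (g ξ)) κc HC (r0 : ℂ) :=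
    hN (FS (g ξ)) (FS_continuousOn (hs ξ)) (FS_differentiableOn (hs ξ)) r0 κc hder
  have hmC : MapsTo (fun z : ℂ => (r0 : ℂ) + z) HC HC := by
    intro z hz
    simp only [HC, mem_ofPred_eq] at hz ⊢
    simpa using hz
  have hmO : MapsTo (fun z : ℂ => (r0 : ℂ) + z) HO HO := by
    intro z hz
    simp only [HO, mem_ofPred_eq] at hz ⊢
    simpa using hz
  set G : ℂ → ℂ := fun z => FS (g ξ) (r0 + z) - FS (g ξ) r0 with hG
  refine ⟨(ξ + k ξ r0, r0), hQP hr0Q, ?_⟩
  -- the size of the window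
  set d0 : ℝ := min (r0 / 2) ((1 - r0) / 2) with hd0
  have hd0p : 0 < d0 := by
    rw [hd0]
    exact lt_min (by linarith) (by linarith)
  have hcont : Continuous fun x : ℝ => ((ξ + (b (r0 + x)).re, r0 + x) : ℝ × ℝ) := by
    have : Continuous fun x : ℝ => b (r0 + x) := hbc.comp (by fun_prop)
    exact (continuous_const.add (Complex.continuous_re.comp this)).prodMk (by fun_prop)
  have hnear : ∀ᶠ x : ℝ in 𝓝 0,
      dist ((ξ + (b (r0 + x)).re, r0 + x) : ℝ × ℝ) (ξ + k ξ r0, r0) < min 1 d0 := by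
    have h := hcont.tendsto 0
    simp only [add_zero] at h
    have h2 := (Metric.tendsto_nhds.1 h) (min 1 d0) (lt_min one_pos hd0p)
    exact h2
  obtain ⟨rho', hrho'p, hrho'⟩ := Metric.eventually_nhds_iff.1 hnear
  refine ⟨rho' / 2, by linarith, κc.re, (Complex.abs_re_le_norm _).trans hderiv, G, ?_, ?_, ?_, ?_,
    ?_, ?_⟩
  · exact ((FS_continuousOn (hs ξ)).comp (Continuous.continuousOn (by fun_prop)) hmC).sub
      continuousOn_const
  · exact ((FS_differentiableOn (hs ξ)).comp (Differentiable.differentiableOn (by fun_prop))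
      hmO).sub_const _
  · simp [hG]
  · intro z hz
    have : (G z).im = (FS (g ξ) (r0 + z)).im := by
      simp only [hG, Complex.sub_im]
      have : (FS (g ξ) r0).im = 0 := hb0
      rw [this, sub_zero]
    rw [this]
    exact hmax _ (hmC hz)
  · rw [hκr]
    have h1 : HasDerivWithinAt (fun z : ℂ => (r0 : ℂ) + z) 1 HC 0 :=
      ((hasDerivAt_id (0 : ℂ)).const_add (r0 : ℂ)).hasDerivWithinAt
    have h2 : HasDerivWithinAt (FS (g ξ)) κc HC ((fun z : ℂ => (r0 : ℂ) + z) 0) := by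
      simpa using hang
    have h3 := h2.comp 0 h1 hmC
    rw [mul_one] at h3
    exact h3.sub_const _
  · intro x hx
    have hx' : dist x 0 < rho' := by
      rw [Real.dist_eq, sub_zero]; linarith
    have hd := hrho' hx'
    set q : ℝ × ℝ := (ξ + (b (r0 + x)).re, r0 + x) with hq
    have hbx : b (r0 + x) = FS (g ξ) ((r0 : ℂ) + (x : ℂ)) := by
      simp only [hb]
      rw [Complex.ofReal_add]
    have hGre : (G x).re = (b (r0 + x)).re - k ξ r0 := by
      simp only [hG, Complex.sub_re, hbx, hk]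
    have hGim : (G x).im = (b (r0 + x)).im := by
      simp only [hG, Complex.sub_im, hbx]
      have : (FS (g ξ) r0).im = 0 := hb0
      rw [this, sub_zero]
    have hpt : ((ξ + k ξ r0, r0) : ℝ × ℝ).1 + (G x).re = ξ + (b (r0 + x)).re := by
      rw [hGre]; ring
    rw [hpt, hGim, him']
    have hkx : k ξ (r0 + x) = (b (r0 + x)).re := rfl
    rw [hkx]
    show lam * infDist q P ≤ - -Φ (ξ + (b (r0 + x)).re) (r0 + x)
    rw [neg_neg]
    show lam * infDist q P ≤ lam * min 1 (infDist q (per Q))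
    apply mul_le_mul_of_nonneg_left _ hlam0.le
    have hqd : dist q (ξ + k ξ r0, r0) < min 1 d0 := hd
    have hdd := lt_min_iff.1 hqd
    have hdd2 := lt_min_iff.1 (hd0 ▸ hdd.2)
    have hPQ : infDist q P ≤ infDist q Q :=
      infDist_le_infDist_of_subset hQP ⟨_, hr0Q⟩
    apply le_min
    · exact (infDist_le_dist_of_mem (hQP hr0Q)).trans hdd.1.le
    · exact hPQ.trans (infDist_le_per hQ2 hr0Q hdd2.1.le hdd2.2.le)

/-! ## The assembly -/

/-- **Assembly**: the four leaves imply the local Bishop disc. -/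
theorem local_of (hD : Disc) (hC : Contact) (hA : AeDeriv) (hN : Angular) : Local := by
  intro σ c₁ hc
  obtain ⟨lam0, hlam0, H⟩ := unit_square hD hC hA hN c₁ hc
  have hσ : 0 < 1 + |σ| := by positivity
  refine ⟨lam0 / (1 + |σ|), by positivity, ?_⟩
  intro P hPc hPv
  have hshc : Continuous (shear σ) := LinearMap.continuous_of_finiteDimensional _
  obtain ⟨a, b, l, hl, hden⟩ := density_square (shear_pre_pos σ hPv)
  set T : ℝ × ℝ → ℝ × ℝ := fun q => shear σ (a + l * q.1, b + l * q.2) with hT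
  have hTc : Continuous T := hshc.comp (by fun_prop)
  set P2 : Set (ℝ × ℝ) := {q : ℝ × ℝ | (a + l * q.1, b + l * q.2) ∈ shear σ ⁻¹' P} with hP2
  have hP2T : P2 = T ⁻¹' P := rfl
  have hP2c : IsClosed P2 := by
    rw [hP2T]
    exact hPc.preimage hTc
  obtain ⟨p, hp, rho, hrho, κ, hκ, G, hGc, hGd, hG0, hGim, hGder, hGx⟩ := H P2 hP2c hden
  have hTdist : ∀ q w : ℝ × ℝ, dist (T q) (T w) ≤ (1 + |σ|) * l * dist q w := by
    intro q w
    refine (dist_shear_le σ _ _).trans ?_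
    rw [mul_assoc]
    apply mul_le_mul_of_nonneg_left _ hσ.le
    rw [Prod.dist_eq, Prod.dist_eq, Real.dist_eq, Real.dist_eq, Real.dist_eq, Real.dist_eq]
    have e1 : a + l * q.1 - (a + l * w.1) = l * (q.1 - w.1) := by ring
    have e2 : b + l * q.2 - (b + l * w.2) = l * (q.2 - w.2) := by ring
    simp only
    rw [e1, e2, abs_mul, abs_mul, abs_of_pos hl]
    exact max_le (mul_le_mul_of_nonneg_left (le_max_left _ _) hl.le)
      (mul_le_mul_of_nonneg_left (le_max_right _ _) hl.le)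
  have hinf : ∀ q : ℝ × ℝ, infDist (T q) P ≤ (1 + |σ|) * l * infDist q P2 := by
    intro q
    have hpos : 0 < (1 + |σ|) * l := by positivity
    have h1 : infDist (T q) P / ((1 + |σ|) * l) ≤ infDist q P2 := by
      refine (le_infDist ⟨p, hp⟩).2 ?_
      intro w hw
      rw [div_le_iff₀ hpos, mul_comm]
      exact (infDist_le_dist_of_mem (show T w ∈ P from hw)).trans (hTdist q w)
    rw [div_le_iff₀ hpos] at h1
    linarith
  have hmC : MapsTo (fun z : ℂ => z / (l : ℂ)) HC HC := by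
    intro z hz
    simp only [HC, mem_ofPred_eq] at hz ⊢
    rw [Complex.div_ofReal_im]
    positivity
  have hmO : MapsTo (fun z : ℂ => z / (l : ℂ)) HO HO := by
    intro z hz
    simp only [HO, mem_ofPred_eq] at hz ⊢
    rw [Complex.div_ofReal_im]
    positivity
  have hlC : (l : ℂ) ≠ 0 := by exact_mod_cast hl.ne'
  refine ⟨T p, hp, l * rho, by positivity, κ, hκ, fun z => (l : ℂ) * G (z / l), ?_, ?_, ?_, ?_,
    ?_, ?_⟩
  · exact continuousOn_const.mul (hGc.comp (Continuous.continuousOn (by fun_prop)) hmC)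
  · exact (hGd.comp (Differentiable.differentiableOn (by fun_prop)) hmO).const_mul _
  · simp [hG0]
  · intro z hz
    simp only [Complex.im_ofReal_mul]
    exact mul_nonpos_of_nonneg_of_nonpos hl.le (hGim _ (hmC hz))
  · have h1 : HasDerivWithinAt (fun z : ℂ => z / (l : ℂ)) (1 / (l : ℂ)) HC 0 :=
      ((hasDerivAt_id (0 : ℂ)).div_const (l : ℂ)).hasDerivWithinAt
    have h2 : HasDerivWithinAt G (κ : ℂ) HC ((fun z : ℂ => z / (l : ℂ)) 0) := by
      simpa using hGder
    have h3 := (h2.comp 0 h1 hmC).const_mul (l : ℂ)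
    have h4 : (l : ℂ) * ((κ : ℂ) * (1 / (l : ℂ))) = κ := by field_simp
    rw [h4] at h3
    exact h3
  · intro x hx
    have hy : |x / l| ≤ rho := by
      rw [abs_div, abs_of_pos hl, div_le_iff₀ hl]
      linarith
    have h := hGx (x / l) hy
    have hcast : ((x / l : ℝ) : ℂ) = (x : ℂ) / (l : ℂ) := by push_cast; ring
    rw [hcast] at h
    set w : ℂ := G ((x : ℂ) / (l : ℂ)) with hw
    have e1 : (T p).1 + σ * x + ((l : ℂ) * w).re = (T (p.1 + w.re, p.2 + x / l)).1 := by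
      simp only [hT, shear_apply, Complex.re_ofReal_mul]
      field_simp
      ring
    have e2 : (T p).2 + x = (T (p.1 + w.re, p.2 + x / l)).2 := by
      simp only [hT, shear_apply]
      field_simp
      ring
    simp only
    rw [e1, e2, Complex.im_ofReal_mul]
    calc lam0 / (1 + |σ|) * infDist (T (p.1 + w.re, p.2 + x / l)) P
        ≤ lam0 / (1 + |σ|) * ((1 + |σ|) * l * infDist (p.1 + w.re, p.2 + x / l) P2) := by
          apply mul_le_mul_of_nonneg_left (hinf _) (by positivity)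
      _ = l * (lam0 * infDist (p.1 + w.re, p.2 + x / l) P2) := by field_simp
      _ ≤ l * (-w.im) := mul_le_mul_of_nonneg_left h hl.le
      _ = -(l * w.im) := by ring

end Crest.Agent.R102.BishopAsm942
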