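import Mathlib

/-!
# R102, Bishop disc: the operator `A = P_{n ≥ 0} + P_{n ≥ 1}` on `L²(𝕋)`
-/

open MeasureTheory Set AddCircle
open scoped InnerProductSpace ComplexConjugate

namespace Crest.Agent.R102.Bishop120

local notation "μT" => (haarAddCircle : Measure (AddCircle (1 : ℝ)))

/-- the Hilbert space `L²(𝕋)` -/
noncomputable abbrev E2 := Lp ℂ 2 μT

/-- Fourier coefficient as inner product -/
theorem coeff_eq (f : E2) (n : ℤ) : fourierCoeff f n = ⟪(fourierLp 2 n : E2), f⟫_ℂ := by
  rw [← fourierBasis_repr, fourierBasis.repr_apply_apply, coe_fourierBasis]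

theorem ext_coeff {f g : E2} (h : ∀ n : ℤ, fourierCoeff f n = fourierCoeff g n) : f = g := by
  apply fourierBasis.repr.injective
  ext n
  simpa [fourierBasis_repr] using h n

theorem coeff_fourierLp (m n : ℤ) :
    ⟪(fourierLp 2 n : E2), fourierLp 2 m⟫_ℂ = if n = m then 1 else 0 :=
  (orthonormal_iff_ite.1 (orthonormal_fourier (T := (1 : ℝ)))) n m

/-- functions whose Fourier coefficients `n < m` vanish -/
noncomputable def Km (m : ℤ) : Submodule ℂ E2 :=
  (Submodule.span ℂ (Set.range fun n : {n : ℤ // n < m} => (fourierLp 2 (n : ℤ) : E2)))ᗮ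

noncomputable instance (m : ℤ) : (Km m).HasOrthogonalProjection := by
  unfold Km; infer_instance

theorem mem_Km {m : ℤ} {f : E2} : f ∈ Km m ↔ ∀ n < m, fourierCoeff f n = 0 := by
  unfold Km
  rw [Submodule.mem_orthogonal]
  constructor
  · intro h n hn
    rw [coeff_eq]
    exact h _ (Submodule.subset_span ⟨⟨n, hn⟩, rfl⟩)
  · intro h u hu
    induction hu using Submodule.span_induction with
    | mem x hx =>
      obtain ⟨⟨n, hn⟩, rfl⟩ := hx
      rw [← coeff_eq]; exact h n hn
    | zero => simp
    | add x y _ _ hx hy => rw [inner_add_left, hx, hy, add_zero]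
    | smul a x _ hx => rw [inner_smul_left, hx, mul_zero]

theorem coeff_proj (m : ℤ) (f : E2) (n : ℤ) :
    fourierCoeff ((Km m).starProjection f) n = if m ≤ n then fourierCoeff f n else 0 := by
  split_ifs with h
  · rw [coeff_eq, coeff_eq, ← Submodule.inner_starProjection_left_eq_right]
    congr 1
    rw [Submodule.starProjection_eq_self_iff, mem_Km]
    intro k hk
    rw [coeff_eq, coeff_fourierLp, if_neg (by omega)]
  · have := (Km m).starProjection_apply_mem f
    exact mem_Km.1 this n (by omega)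

/-- `A f = f̂(0) + 2 Σ_{n ≥ 1} f̂(n) e_n` -/
noncomputable def AA : E2 →L[ℂ] E2 := (Km 0).starProjection + (Km 1).starProjection

theorem coeff_add (f g : E2) (n : ℤ) :
    fourierCoeff (f + g : E2) n = fourierCoeff f n + fourierCoeff g n := by
  rw [coeff_eq, coeff_eq, coeff_eq, inner_add_right]

theorem coeff_sub (f g : E2) (n : ℤ) :
    fourierCoeff (f - g : E2) n = fourierCoeff f n - fourierCoeff g n := by
  rw [coeff_eq, coeff_eq, coeff_eq, inner_sub_right]

theorem coeff_AA (f : E2) (n : ℤ) :
    fourierCoeff (AA f) n = (if 0 ≤ n then fourierCoeff f n else 0)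
      + (if 1 ≤ n then fourierCoeff f n else 0) := by
  unfold AA
  rw [add_apply, coeff_add, coeff_proj, coeff_proj]

theorem norm_AA (f : E2) : ‖AA f‖ ≤ 2 * ‖f‖ := by
  unfold AA
  rw [add_apply]
  have h0 := (Km 0).norm_starProjection_apply_le f
  have h1 := (Km 1).norm_starProjection_apply_le f
  calc _ ≤ _ := norm_add_le _ _
    _ ≤ ‖f‖ + ‖f‖ := add_le_add h0 h1
    _ = _ := by ring

/-! translations -/

theorem mp_add (h : AddCircle (1 : ℝ)) : MeasurePreserving (fun x => x + h) μT μT :=
  measurePreserving_add_right _ h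

/-- translation `τ_h f (x) = f (x + h)` -/
noncomputable def tau (h : AddCircle (1 : ℝ)) (f : E2) : E2 :=
  Lp.compMeasurePreserving (fun x => x + h) (mp_add h) f

theorem tau_coe (h : AddCircle (1 : ℝ)) (f : E2) : tau h f =ᵐ[μT] fun x => f (x + h) :=
  Lp.coeFn_compMeasurePreserving f (mp_add h)

theorem fourier_add_pt (n : ℤ) (x y : AddCircle (1 : ℝ)) :
    fourier n (x + y) = fourier n x * fourier n y := by
  simp only [fourier_apply, smul_add, toCircle_add, Circle.coe_mul]

theorem coeff_tau (h : AddCircle (1 : ℝ)) (f : E2) (n : ℤ) :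
    fourierCoeff (tau h f) n = fourier n h * fourierCoeff f n := by
  rw [fourierCoeff_congr_ae (tau_coe h f)]
  unfold fourierCoeff
  have h1 : ∫ t, fourier (-n) t • f (t + h) ∂μT
      = ∫ t, fourier (-n) (t - h) • f t ∂μT := by
    rw [← integral_add_right_eq_self (μ := μT) (fun t => fourier (-n) (t - h) • f t) h]
    simp
  rw [h1, ← integral_const_mul]
  congr 1
  ext t
  rw [sub_eq_add_neg, fourier_add_pt]
  have : fourier (-n) (-h) = fourier n h := by
    simp [fourier_apply]
  rw [this]
  simp only [smul_eq_mul]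
  ring

theorem tau_sub (h : AddCircle (1 : ℝ)) (f g : E2) : tau h (f - g) = tau h f - tau h g := by
  unfold tau; exact map_sub _ _ _

theorem norm_tau (h : AddCircle (1 : ℝ)) (f : E2) : ‖tau h f‖ = ‖f‖ :=
  Lp.norm_compMeasurePreserving f (mp_add h)

theorem AA_tau (h : AddCircle (1 : ℝ)) (f : E2) : AA (tau h f) = tau h (AA f) := by
  apply ext_coeff
  intro n
  rw [coeff_AA, coeff_tau, coeff_tau, coeff_AA]
  split_ifs <;> ring

end Crest.Agent.R102.Bishop120
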