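import Mathlib
import Crest.Agent.R102.BishopOp_120

/-!
# R102, Bishop disc: the contraction, translations, Fourier bounds
-/

open MeasureTheory Set AddCircle
open scoped InnerProductSpace ComplexConjugate NNReal ENNReal

namespace Crest.Agent.R102.Bishop120

local notation "μT" => (haarAddCircle : Measure (AddCircle (1 : ℝ)))

section Fix

variable {lam : ℝ} {Φ Ψ : ℝ → AddCircle (1 : ℝ) → ℝ}

theorem memN (hc : Continuous (Function.uncurry Φ)) (hb : ∀ s x, |Φ s x| ≤ lam) (f : E2) :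
    MemLp (fun x => ((Φ ((AA f x).im) x : ℝ) : ℂ)) 2 μT := by
  apply MemLp.of_bound (C := lam)
  · have h1 : AEStronglyMeasurable (fun x => ((AA f x).im, x)) μT := by
      apply AEStronglyMeasurable.prodMk
      · exact Complex.continuous_im.comp_aestronglyMeasurable (Lp.aestronglyMeasurable _)
      · exact aestronglyMeasurable_id
    exact (Complex.continuous_ofReal.comp hc).comp_aestronglyMeasurable h1
  · filter_upwards with x
    rw [Complex.norm_real]; exact hb _ _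

/-- the nonlinear map -/
noncomputable def NN (hc : Continuous (Function.uncurry Φ)) (hb : ∀ s x, |Φ s x| ≤ lam) (f : E2) :
    E2 := (memN hc hb f).toLp _

theorem NN_coe (hc : Continuous (Function.uncurry Φ)) (hb : ∀ s x, |Φ s x| ≤ lam) (f : E2) :
    NN hc hb f =ᵐ[μT] fun x => ((Φ ((AA f x).im) x : ℝ) : ℂ) := MemLp.coeFn_toLp _

theorem NN_lip (hc : Continuous (Function.uncurry Φ)) (hb : ∀ s x, |Φ s x| ≤ lam)
    (hL : ∀ s s' x, |Φ s x - Φ s' x| ≤ lam * |s - s'|) (f g : E2) :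
    ‖NN hc hb f - NN hc hb g‖ ≤ lam * ‖AA f - AA g‖ := by
  apply Lp.norm_le_mul_norm_of_ae_le_mul
  filter_upwards [Lp.coeFn_sub (NN hc hb f) (NN hc hb g), NN_coe hc hb f, NN_coe hc hb g,
    Lp.coeFn_sub (AA f) (AA g)] with x h1 h2 h3 h4
  rw [h1, Pi.sub_apply, h2, h3, h4, Pi.sub_apply, ← Complex.ofReal_sub, Complex.norm_real]
  refine (hL _ _ x).trans ?_
  have h0 : 0 ≤ lam ∨ ∀ s s' x, |Φ s x - Φ s' x| ≤ 0 := by
    by_cases h : 0 ≤ lam
    · exact Or.inl h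
    · exact Or.inr fun s s' x => (hL s s' x).trans (by nlinarith [abs_nonneg (s - s')])
  by_cases hl : 0 ≤ lam
  · apply mul_le_mul_of_nonneg_left _ hl
    rw [← Complex.sub_im]
    exact Complex.abs_im_le_norm _
  · exfalso
    have := (abs_nonneg _).trans (hb 0 x)
    exact hl this

theorem NN_diff (hc : Continuous (Function.uncurry Φ)) (hb : ∀ s x, |Φ s x| ≤ lam)
    (hc' : Continuous (Function.uncurry Ψ)) (hb' : ∀ s x, |Ψ s x| ≤ lam) {ε : ℝ} (hε : 0 ≤ ε)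
    (hd : ∀ s x, |Φ s x - Ψ s x| ≤ ε) (f : E2) :
    ‖NN hc hb f - NN hc' hb' f‖ ≤ ε := by
  have h : ∀ᵐ x ∂μT, ‖(NN hc hb f - NN hc' hb' f : E2) x‖ ≤ ε := by
    filter_upwards [Lp.coeFn_sub (NN hc hb f) (NN hc' hb' f), NN_coe hc hb f, NN_coe hc' hb' f]
      with x h1 h2 h3
    rw [h1, Pi.sub_apply, h2, h3, ← Complex.ofReal_sub, Complex.norm_real]
    exact hd _ _
  have := Lp.norm_le_of_ae_bound hε h
  have h1 : measureUnivNNReal μT = 1 := by
    ext; simp [measureUnivNNReal]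
  rw [h1] at this
  simpa using this

/-- stability of fixed points -/
theorem fix_stab (hc : Continuous (Function.uncurry Φ)) (hb : ∀ s x, |Φ s x| ≤ lam)
    (hc' : Continuous (Function.uncurry Ψ)) (hb' : ∀ s x, |Ψ s x| ≤ lam) {ε : ℝ} (hε : 0 ≤ ε)
    (hlam : lam ≤ 1 / 16)
    (hL : ∀ s s' x, |Φ s x - Φ s' x| ≤ lam * |s - s'|)
    (hd : ∀ s x, |Φ s x - Ψ s x| ≤ ε) {f g : E2} (hf : NN hc hb f = f) (hg : NN hc' hb' g = g) :
    ‖f - g‖ ≤ 2 * ε := by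
  have h1 : ‖f - g‖ ≤ lam * ‖AA f - AA g‖ + ε := by
    calc ‖f - g‖ = ‖(NN hc hb f - NN hc hb g) + (NN hc hb g - NN hc' hb' g)‖ := by
          rw [hf, hg]; congr 1; abel
      _ ≤ _ := norm_add_le _ _
      _ ≤ _ := add_le_add (NN_lip hc hb hL f g) (NN_diff hc hb hc' hb' hε hd g)
  have h2 : ‖AA f - AA g‖ ≤ 2 * ‖f - g‖ := by
    rw [← map_sub]; exact norm_AA _
  have h3 : 0 ≤ lam := (abs_nonneg _).trans (hb 0 0)
  have h4 : 0 ≤ ‖f - g‖ := norm_nonneg _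
  nlinarith [mul_le_mul_of_nonneg_left h2 h3]

theorem exists_fix (hc : Continuous (Function.uncurry Φ)) (hb : ∀ s x, |Φ s x| ≤ lam)
    (hlam : lam ≤ 1 / 16)
    (hL : ∀ s s' x, |Φ s x - Φ s' x| ≤ lam * |s - s'|) : ∃ f : E2, NN hc hb f = f := by
  have h3 : 0 ≤ lam := (abs_nonneg _).trans (hb 0 0)
  have hcw : ContractingWith (1 / 2 : ℝ≥0) (NN hc hb) := by
    refine ⟨by norm_num, LipschitzWith.of_dist_le_mul fun f g => ?_⟩
    rw [dist_eq_norm, dist_eq_norm]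
    have h2 : ‖AA f - AA g‖ ≤ 2 * ‖f - g‖ := by
      rw [← map_sub]; exact norm_AA _
    have h4 : 0 ≤ ‖f - g‖ := norm_nonneg _
    have h5 := NN_lip hc hb hL f g
    push_cast
    nlinarith [mul_le_mul_of_nonneg_left h2 h3]
  exact ⟨hcw.fixedPoint, hcw.fixedPoint_isFixedPt⟩

theorem ae_shift (h : AddCircle (1 : ℝ)) {p : AddCircle (1 : ℝ) → Prop} (hp : ∀ᵐ x ∂μT, p x) :
    ∀ᵐ x ∂μT, p (x + h) :=
  (mp_add h).quasiMeasurePreserving.ae hp

theorem fix_tau (hc : Continuous (Function.uncurry Φ)) (hb : ∀ s x, |Φ s x| ≤ lam)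
    (h : AddCircle (1 : ℝ)) (hc' : Continuous (Function.uncurry Ψ)) (hb' : ∀ s x, |Ψ s x| ≤ lam)
    (hΨ : ∀ s x, Ψ s x = Φ s (x + h))
    {f : E2} (hf : NN hc hb f = f) : NN hc' hb' (tau h f) = tau h f := by
  apply Lp.ext
  have h1 := NN_coe hc' hb' (tau h f)
  have h2 := tau_coe h f
  have h3 : (AA (tau h f) : E2) =ᵐ[μT] fun x => AA f (x + h) := by
    rw [AA_tau]; exact tau_coe h _
  have h4 : ∀ᵐ x ∂μT, f x = ((Φ ((AA f x).im) x : ℝ) : ℂ) := by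
    have := NN_coe hc hb f
    rw [hf] at this
    exact this
  have h5 : ∀ᵐ x ∂μT, f (x + h) = ((Φ ((AA f (x + h)).im) (x + h) : ℝ) : ℂ) :=
    ae_shift h (p := fun x => f x = ((Φ ((AA f x).im) x : ℝ) : ℂ)) h4
  filter_upwards [h1, h2, h3, h5] with x g1 g2 g3 g5
  rw [g1, g2, g5, g3, hΨ]

end Fix

/-! Fourier bounds -/

theorem bessel (f : E2) (s : Finset ℤ) : ∑ n ∈ s, ‖fourierCoeff f n‖ ^ 2 ≤ ‖f‖ ^ 2 := by
  have h := (orthonormal_fourier (T := (1 : ℝ))).sum_inner_products_le (x := f) (s := s)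
  simpa [coeff_eq] using h

theorem deriv_bound {f : E2} {L : ℝ} (hf : ∀ h : ℝ, ‖tau (h : AddCircle (1 : ℝ)) f - f‖ ≤ L * |h|)
    (s : Finset ℤ) : ∑ n ∈ s, (2 * Real.pi * n) ^ 2 * ‖fourierCoeff f n‖ ^ 2 ≤ L ^ 2 := by
  have hL : 0 ≤ L := by
    have := (norm_nonneg _).trans (hf 1)
    simpa using this
  have key : ∀ h : ℝ, h ≠ 0 →
      ∑ n ∈ s, ‖h⁻¹ • (fourier n ((h : ℝ) : AddCircle (1 : ℝ)) - 1)‖ ^ 2 * ‖fourierCoeff f n‖ ^ 2
        ≤ L ^ 2 := by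
    intro h hh
    have h1 := (bessel (tau (h : AddCircle (1 : ℝ)) f - f) s).trans
      (pow_le_pow_left₀ (norm_nonneg _) (hf h) 2)
    have h2 : ∀ n ∈ s, ‖h⁻¹ • (fourier n ((h : ℝ) : AddCircle (1 : ℝ)) - 1)‖ ^ 2
        * ‖fourierCoeff f n‖ ^ 2
        = (h⁻¹) ^ 2 * ‖fourierCoeff (tau (h : AddCircle (1 : ℝ)) f - f : E2) n‖ ^ 2 := by
      intro n _
      rw [coeff_sub, coeff_tau]
      have : fourier n ((h : ℝ) : AddCircle (1 : ℝ)) * fourierCoeff f n - fourierCoeff f n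
        = (fourier n ((h : ℝ) : AddCircle (1 : ℝ)) - 1) * fourierCoeff f n := by ring
      rw [this, norm_smul, norm_mul, mul_pow, mul_pow, Real.norm_eq_abs, sq_abs]
      ring
    rw [Finset.sum_congr rfl h2, ← Finset.mul_sum]
    calc (h⁻¹) ^ 2 * _ ≤ (h⁻¹) ^ 2 * (L * |h|) ^ 2 := by gcongr
      _ = L ^ 2 := by
        rw [mul_pow, sq_abs]; field_simp
  have hlim : Filter.Tendsto (fun h : ℝ =>
      ∑ n ∈ s, ‖h⁻¹ • (fourier n ((h : ℝ) : AddCircle (1 : ℝ)) - 1)‖ ^ 2 * ‖fourierCoeff f n‖ ^ 2)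
      (nhdsWithin 0 {0}ᶜ)
      (nhds (∑ n ∈ s, (2 * Real.pi * n) ^ 2 * ‖fourierCoeff f n‖ ^ 2)) := by
    apply tendsto_finsetSum
    intro n _
    apply Filter.Tendsto.mul_const
    have hd := hasDerivAt_fourier (1 : ℝ) n 0
    rw [hasDerivAt_iff_tendsto_slope_zero] at hd
    have h1 := (hd.norm).pow 2
    have h2 : ‖2 * (Real.pi : ℂ) * Complex.I * n / ((1 : ℝ) : ℂ)
        * fourier n ((0 : ℝ) : AddCircle (1 : ℝ))‖ ^ 2 = (2 * Real.pi * n) ^ 2 := by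
      have : ((0 : ℝ) : AddCircle (1 : ℝ)) = 0 := by simp
      rw [this, fourier_eval_zero]
      simp [mul_pow, abs_of_pos Real.pi_pos]
    rw [h2] at h1
    refine h1.congr fun h => ?_
    simp [fourier_eval_zero]
  exact le_of_tendsto hlim (by
    filter_upwards [self_mem_nhdsWithin] with h hh using key h hh)

/-- `ζ(2)`-type constant -/
noncomputable def Z2 : ℝ := ∑' n : ℤ, 1 / (n : ℝ) ^ 2

theorem sum_inv_le (s : Finset ℤ) : ∑ n ∈ s, 1 / (n : ℝ) ^ 2 ≤ Z2 := by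
  have hs : Summable fun n : ℤ => 1 / (n : ℝ) ^ 2 := Real.summable_one_div_int_pow.2 (by norm_num)
  exact hs.sum_le_tsum s (fun n _ => by positivity)

theorem l1_bound {f : E2} {L : ℝ} (hL : 0 ≤ L)
    (hf : ∀ h : ℝ, ‖tau (h : AddCircle (1 : ℝ)) f - f‖ ≤ L * |h|)
    (s : Finset ℤ) : ∑ n ∈ s, ‖fourierCoeff f n‖ ≤ ‖f‖ + √Z2 * L := by
  classical
  have h0 : ‖fourierCoeff f 0‖ ≤ ‖f‖ := by
    have := bessel f {0}
    simp only [Finset.sum_singleton] at this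
    exact (sq_le_sq₀ (norm_nonneg _) (norm_nonneg _)).1 this
  have h1 : ∑ n ∈ s.erase 0, ‖fourierCoeff f n‖ ≤ √Z2 * L := by
    have hcs := Finset.sum_mul_sq_le_sq_mul_sq (s.erase 0) (fun n : ℤ => 1 / |(n : ℝ)|)
      (fun n : ℤ => |(n : ℝ)| * ‖fourierCoeff f n‖)
    have e1 : ∑ n ∈ s.erase 0, (1 / |(n : ℝ)|) * (|(n : ℝ)| * ‖fourierCoeff f n‖)
        = ∑ n ∈ s.erase 0, ‖fourierCoeff f n‖ := by
      apply Finset.sum_congr rfl
      intro n hn
      have : (|(n : ℝ)|) ≠ 0 := by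
        have : n ≠ 0 := Finset.ne_of_mem_erase hn
        positivity
      field_simp
    have e2 : ∑ n ∈ s.erase 0, (1 / |(n : ℝ)|) ^ 2 ≤ Z2 := by
      simpa [div_pow, sq_abs] using sum_inv_le (s.erase 0)
    have e3 : ∑ n ∈ s.erase 0, (|(n : ℝ)| * ‖fourierCoeff f n‖) ^ 2 ≤ L ^ 2 := by
      refine le_trans ?_ (deriv_bound hf (s.erase 0))
      apply Finset.sum_le_sum
      intro n _
      rw [mul_pow, sq_abs]
      apply mul_le_mul_of_nonneg_right _ (by positivity)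
      have : (1 : ℝ) ≤ (2 * Real.pi) ^ 2 := by
        have := Real.pi_gt_three
        nlinarith
      rw [mul_pow]
      nlinarith [sq_nonneg (n : ℝ)]
    rw [e1] at hcs
    have hZ : 0 ≤ Z2 := tsum_nonneg fun n => by positivity
    have hS : 0 ≤ ∑ n ∈ s.erase 0, ‖fourierCoeff f n‖ := Finset.sum_nonneg fun _ _ => norm_nonneg _
    have : (∑ n ∈ s.erase 0, ‖fourierCoeff f n‖) ^ 2 ≤ (√Z2 * L) ^ 2 := by
      rw [mul_pow, Real.sq_sqrt hZ]
      refine hcs.trans ?_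
      apply mul_le_mul e2 e3 (Finset.sum_nonneg fun _ _ => by positivity) hZ
    exact (sq_le_sq₀ hS (by positivity)).1 this
  have h2 : ∑ n ∈ s, ‖fourierCoeff f n‖ ≤ ‖fourierCoeff f 0‖ + ∑ n ∈ s.erase 0, ‖fourierCoeff f n‖ := by
    by_cases hs : (0 : ℤ) ∈ s
    · rw [← Finset.add_sum_erase s _ hs]
    · rw [Finset.erase_eq_of_notMem hs]
      linarith [norm_nonneg (fourierCoeff f 0)]
  linarith

end Crest.Agent.R102.Bishop120
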