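import Mathlib
import Crest.Agent.R102.BishopDefs_120
import Crest.Agent.R102.BishopFix_120

/-!
# R102, Bishop disc: leaf `Disc`
-/

open MeasureTheory Set AddCircle
open scoped InnerProductSpace ComplexConjugate NNReal ENNReal

namespace Crest.Agent.R102.Bishop120

local notation "μT" => (haarAddCircle : Measure (AddCircle (1 : ℝ)))

/-- continuous representative -/
theorem exists_cont {f : E2} (hs : Summable fun n : ℤ => ‖fourierCoeff f n‖) :
    ∃ W : C(AddCircle (1 : ℝ), ℂ), (f =ᵐ[μT] W) ∧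
      ∀ x, HasSum (fun n : ℤ => fourierCoeff f n * fourier n x) (W x) := by
  have h1 : Summable fun n : ℤ => fourierCoeff f n • (fourier n : C(AddCircle (1 : ℝ), ℂ)) := by
    apply Summable.of_norm
    simpa [norm_smul, fourier_norm] using hs
  obtain ⟨W, h2⟩ := h1
  have h3 := (ContinuousMap.toLp (E := ℂ) 2 μT ℂ).hasSum h2
  have h4 := hasSum_fourier_series_L2 f
  have h5 : ContinuousMap.toLp (E := ℂ) 2 μT ℂ W = f := by
    refine HasSum.unique h3 ?_
    convert h4 using 1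
    ext n : 1
    simp
  refine ⟨W, ?_, fun x => ?_⟩
  · have := ContinuousMap.coeFn_toLp (p := 2) μT (𝕜 := ℂ) W
    rw [h5] at this
    exact this
  · have := (ContinuousMap.evalCLM ℂ x).hasSum h2
    simpa using this

theorem norm_sq_eq (f : E2) : ∫ t, ‖f t‖ ^ 2 ∂μT = ‖f‖ ^ 2 := by
  rw [← tsum_sq_fourierCoeff]
  have H₁ : HasSum (fun i => ‖fourierBasis.repr f i‖ ^ 2) (‖fourierBasis.repr f‖ ^ 2) := by
    apply_mod_cast lp.hasSum_norm ?_ (fourierBasis.repr f)
    simp
  have H₂ : ‖fourierBasis.repr f‖ ^ 2 = ‖f‖ ^ 2 := by simp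
  rw [H₂] at H₁
  simpa only [fourierBasis_repr] using H₁.tsum_eq

theorem int_sq (f : E2) (V : AddCircle (1 : ℝ) → ℂ) (hV : f =ᵐ[μT] V) :
    ∫ r in (0 : ℝ)..1, ‖V (r : AddCircle (1 : ℝ))‖ ^ 2 = ‖f‖ ^ 2 := by
  rw [← norm_sq_eq]
  have h1 := AddCircle.intervalIntegral_preimage (1 : ℝ) 0 (fun x => ‖V x‖ ^ 2)
  rw [zero_add] at h1
  rw [h1]
  have h2 := integral_haarAddCircle (T := (1 : ℝ)) (f := fun x => ‖V x‖ ^ 2)
  simp only [inv_one, one_smul] at h2
  rw [← h2]
  apply integral_congr_ae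
  filter_upwards [hV] with x hx
  rw [hx]

theorem conj_coeff {f : E2} (hf : ∀ᵐ x ∂μT, conj (f x) = f x) (n : ℤ) :
    fourierCoeff f (-n) = conj (fourierCoeff f n) := by
  unfold fourierCoeff
  rw [← integral_conj]
  apply integral_congr_ae
  filter_upwards [hf] with x hx
  simp only [smul_eq_mul, map_mul, hx, neg_neg]
  rw [fourier_neg, Complex.conj_conj]

/-- For real `f` the continuous representatives satisfy `Re (A f) = f`. -/
theorem re_AA {f : E2} (hf : ∀ᵐ x ∂μT, conj (f x) = f x)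
    {W V : AddCircle (1 : ℝ) → ℂ} {x : AddCircle (1 : ℝ)}
    (hW : HasSum (fun n : ℤ => fourierCoeff f n * fourier n x) (W x))
    (hV : HasSum (fun n : ℤ => fourierCoeff (AA f) n * fourier n x) (V x)) :
    (W x) = ((V x).re : ℂ) := by
  have h0 : conj (fourierCoeff f 0) = fourierCoeff f 0 := by
    have := conj_coeff hf 0
    simpa using this.symm
  have H1 := HasSum.nat_add_neg hW
  have H2 : HasSum (fun n : ℕ => fourierCoeff (AA f) (n : ℤ) * fourier (n : ℤ) x) (V x) := by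
    have := (Nat.cast_injective (R := ℤ)).hasSum_iff (f := fun n : ℤ =>
      fourierCoeff (AA f) n * fourier n x) (a := V x) ?_
    · exact this.2 hV
    · intro n hn
      have hn' : n < 0 := by
        by_contra h
        push Not at h
        exact hn ⟨n.toNat, by simp [h]⟩
      rw [coeff_AA, if_neg (by omega), if_neg (by omega)]
      simp
  have H2c : HasSum (fun n : ℕ => conj (fourierCoeff (AA f) (n : ℤ) * fourier (n : ℤ) x))
      (conj (V x)) := (Complex.hasSum_conj' ).2 (by simpa using H2)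
  have H3 : HasSum (fun n : ℕ => if n = 0 then 2 * fourierCoeff f 0 else 0)
      (2 * fourierCoeff f 0) := by
    simpa using hasSum_ite_eq (0 : ℕ) (2 * fourierCoeff f 0)
  have H4 := (H2.add H2c).add H3
  have H5 := H1.mul_left 2
  have H6 : (fun n : ℕ => 2 * (fourierCoeff f (n : ℤ) * fourier (n : ℤ) x
      + fourierCoeff f (-(n : ℤ)) * fourier (-(n : ℤ)) x))
      = fun n : ℕ => fourierCoeff (AA f) (n : ℤ) * fourier (n : ℤ) x
        + conj (fourierCoeff (AA f) (n : ℤ) * fourier (n : ℤ) x)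
        + (if n = 0 then 2 * fourierCoeff f 0 else 0) := by
    ext n
    rw [coeff_AA, conj_coeff hf]
    rcases Nat.eq_zero_or_pos n with rfl | hn
    · simp [h0]; ring
    · rw [if_pos (by omega), if_pos (by omega), if_neg (by omega), fourier_neg]
      simp only [map_mul, map_add]
      ring
  rw [H6] at H5
  have H7 := H4.unique H5
  have h8 : fourierCoeff f 0 * fourier 0 x = fourierCoeff f 0 := by simp
  rw [h8] at H7
  have h9 : V x + conj (V x) = 2 * ((V x).re : ℂ) := by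
    rw [Complex.add_conj]; push_cast; ring
  rw [h9] at H7
  have : (2 : ℂ) * W x = 2 * ((V x).re : ℂ) := by linear_combination -H7
  exact mul_left_cancel₀ two_ne_zero this

/-- everything for one fixed `Φ` on the circle -/
theorem one_disc {lam : ℝ} (hlam : lam ≤ 1 / 16) {Φ : ℝ → AddCircle (1 : ℝ) → ℝ}
    (hc : Continuous (Function.uncurry Φ)) (hb : ∀ s x, |Φ s x| ≤ lam)
    (hL : ∀ s s' x, |Φ s x - Φ s' x| ≤ lam * |s - s'|)
    (hT : ∀ s x (h : ℝ), |Φ s (x + (h : AddCircle (1 : ℝ))) - Φ s x| ≤ lam * |h|) :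
    ∃ f : E2, ∃ V : C(AddCircle (1 : ℝ), ℂ), NN hc hb f = f ∧
      (∀ h : ℝ, ‖tau (h : AddCircle (1 : ℝ)) f - f‖ ≤ 2 * lam * |h|) ∧
      (Summable fun n : ℤ => ‖fourierCoeff (AA f) n‖) ∧
      (∑' n : ℤ, ‖fourierCoeff (AA f) n‖ ≤ 2 * lam + √Z2 * (4 * lam)) ∧
      (AA f : E2) =ᵐ[μT] V ∧
      (∀ x, HasSum (fun n : ℤ => fourierCoeff (AA f) n * fourier n x) (V x)) ∧
      (∀ x, (V x).re = Φ ((V x).im) x) := by
  have hl0 : 0 ≤ lam := (abs_nonneg _).trans (hb 0 0)
  obtain ⟨f, hf⟩ := exists_fix hc hb hlam hL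
  have htau : ∀ h : ℝ, ‖tau (h : AddCircle (1 : ℝ)) f - f‖ ≤ 2 * lam * |h| := by
    intro h
    have hc' : Continuous (Function.uncurry fun s x => Φ s (x + (h : AddCircle (1 : ℝ)))) := by
      have : (Function.uncurry fun s x => Φ s (x + (h : AddCircle (1 : ℝ))))
        = Function.uncurry Φ ∘ (fun p : ℝ × AddCircle (1 : ℝ) => (p.1, p.2 + h)) := rfl
      rw [this]
      exact hc.comp (by fun_prop)
    have hb' : ∀ s x, |(fun s x => Φ s (x + (h : AddCircle (1 : ℝ)))) s x| ≤ lam :=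
      fun s x => hb _ _
    have h1 := fix_tau hc hb (h : AddCircle (1 : ℝ)) hc' hb' (fun s x => rfl) hf
    have h2 := fix_stab hc' hb' hc hb (ε := lam * |h|) (by positivity) hlam
      (fun s s' x => hL _ _ _) (fun s x => hT s x h) h1 hf
    linarith
  have hnorm : ‖f‖ ≤ lam := by
    have h1 : ∀ᵐ x ∂μT, ‖f x‖ ≤ lam := by
      have := NN_coe hc hb f
      rw [hf] at this
      filter_upwards [this] with x hx
      rw [hx, Complex.norm_real]; exact hb _ _
    have := Lp.norm_le_of_ae_bound hl0 h1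
    have h1 : measureUnivNNReal μT = 1 := by
      ext; simp [measureUnivNNReal]
    rw [h1] at this
    simpa using this
  have htauA : ∀ h : ℝ, ‖tau (h : AddCircle (1 : ℝ)) (AA f) - AA f‖ ≤ 4 * lam * |h| := by
    intro h
    rw [← AA_tau, ← map_sub]
    refine (norm_AA _).trans ?_
    linarith [htau h]
  have hs1 : ∀ s : Finset ℤ, ∑ n ∈ s, ‖fourierCoeff (AA f) n‖ ≤ 2 * lam + √Z2 * (4 * lam) := by
    intro s
    refine (l1_bound (by positivity) htauA s).trans ?_
    have := norm_AA f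
    linarith
  have hs2 : ∀ s : Finset ℤ, ∑ n ∈ s, ‖fourierCoeff f n‖ ≤ lam + √Z2 * (2 * lam) := by
    intro s
    refine (l1_bound (by positivity) htau s).trans ?_
    linarith
  have hsA : Summable fun n : ℤ => ‖fourierCoeff (AA f) n‖ :=
    summable_of_sum_le (fun n => norm_nonneg _) hs1
  have hsf : Summable fun n : ℤ => ‖fourierCoeff f n‖ :=
    summable_of_sum_le (fun n => norm_nonneg _) hs2
  obtain ⟨V, hV1, hV2⟩ := exists_cont hsA
  obtain ⟨W, hW1, hW2⟩ := exists_cont hsf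
  have hreal : ∀ᵐ x ∂μT, f x = ((Φ ((AA f x).im) x : ℝ) : ℂ) := by
    have := NN_coe hc hb f
    rw [hf] at this
    exact this
  have hconj : ∀ᵐ x ∂μT, conj (f x) = f x := by
    filter_upwards [hreal] with x hx
    rw [hx, Complex.conj_ofReal]
  have hWV : ∀ x, W x = ((V x).re : ℂ) := fun x => re_AA hconj (hW2 x) (hV2 x)
  have hcont : Continuous fun x => ((Φ ((V x).im) x : ℝ) : ℂ) := by
    apply Complex.continuous_ofReal.comp
    exact hc.comp ((Complex.continuous_im.comp V.continuous).prodMk continuous_id)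
  have hae : (fun x => W x) =ᵐ[μT] fun x => ((Φ ((V x).im) x : ℝ) : ℂ) := by
    filter_upwards [hW1, hreal, hV1] with x h1 h2 h3
    rw [← h1, h2, h3]
  have heq := (Continuous.ae_eq_iff_eq μT W.continuous hcont).1 hae
  refine ⟨f, V, hf, htau, hsA, ?_, hV1, hV2, fun x => ?_⟩
  · exact hsA.tsum_le_of_sum_le hs1
  · have h1 := congrFun heq x
    rw [hWV x] at h1
    exact_mod_cast h1

theorem FS_eq {f : E2} {V : C(AddCircle (1 : ℝ), ℂ)}
    (hV : ∀ x, HasSum (fun n : ℤ => fourierCoeff (AA f) n * fourier n x) (V x)) (r : ℝ) :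
    FS (fun n : ℕ => -Complex.I * fourierCoeff (AA f) (n : ℤ)) (r : ℂ)
      = -Complex.I * V (r : AddCircle (1 : ℝ)) := by
  have H2 : HasSum (fun n : ℕ => fourierCoeff (AA f) (n : ℤ)
      * fourier (n : ℤ) (r : AddCircle (1 : ℝ))) (V (r : AddCircle (1 : ℝ))) := by
    have := (Nat.cast_injective (R := ℤ)).hasSum_iff (f := fun n : ℤ =>
      fourierCoeff (AA f) n * fourier n (r : AddCircle (1 : ℝ)))
        (a := V (r : AddCircle (1 : ℝ))) ?_
    · exact this.2 (hV _)
    · intro n hn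
      have hn' : n < 0 := by
        by_contra h
        push Not at h
        exact hn ⟨n.toNat, by simp [h]⟩
      rw [coeff_AA, if_neg (by omega), if_neg (by omega)]
      simp
  unfold FS
  rw [← (H2.mul_left (-Complex.I)).tsum_eq]
  congr 1
  ext n
  rw [fourier_coe_apply]
  simp only [Int.cast_natCast, Complex.ofReal_one, div_one]
  ring

theorem disc : Disc := by
  refine ⟨4 + 4 * √Z2 + 4, by positivity, ?_⟩
  intro lam hl0 hlam Φ hb hL hper
  -- lift to the circle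
  set Ψ : ℝ → AddCircle (1 : ℝ) → ℝ := fun s => Function.Periodic.lift (hper s) with hΨ
  have hΨc : ∀ s (r : ℝ), Ψ s (r : AddCircle (1 : ℝ)) = Φ s r := fun s r => rfl
  have hΦcont : Continuous (Function.uncurry Φ) := by
    have : LipschitzWith (Real.toNNReal (2 * lam)) (Function.uncurry Φ) := by
      apply LipschitzWith.of_dist_le_mul
      rintro ⟨a, b⟩ ⟨a', b'⟩
      rw [Real.coe_toNNReal _ (by positivity), Real.dist_eq, Prod.dist_eq]
      refine (hL a a' b b').trans ?_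
      have h1 : |a - a'| ≤ max (dist a a') (dist b b') := le_max_left _ _
      have h2 : |b - b'| ≤ max (dist a a') (dist b b') := le_max_right _ _
      simp only
      nlinarith
    exact this.continuous
  have hq : IsOpenQuotientMap (Prod.map (id : ℝ → ℝ) (fun r : ℝ => (r : AddCircle (1 : ℝ)))) :=
    IsOpenQuotientMap.id.prodMap QuotientAddGroup.isOpenQuotientMap_mk
  have hΨcont : Continuous (Function.uncurry Ψ) := by
    rw [hq.isQuotientMap.continuous_iff]
    exact hΦcont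
  have hbΨ : ∀ s x, 0 ≤ Ψ s x ∧ Ψ s x ≤ lam := by
    intro s x
    obtain ⟨r, rfl⟩ := QuotientAddGroup.mk_surjective x
    exact hb s r
  have hLΨ : ∀ s s' x, |Ψ s x - Ψ s' x| ≤ lam * |s - s'| := by
    intro s s' x
    obtain ⟨r, rfl⟩ := QuotientAddGroup.mk_surjective x
    have h1 : |Φ s r - Φ s' r| ≤ lam * |s - s'| := by
      have := hL s s' r r
      simpa using this
    exact h1
  have hTΨ : ∀ s x (h : ℝ), |Ψ s (x + (h : AddCircle (1 : ℝ))) - Ψ s x| ≤ lam * |h| := by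
    intro s x h
    obtain ⟨r, rfl⟩ := QuotientAddGroup.mk_surjective x
    have h1 : |Φ s (r + h) - Φ s r| ≤ lam * |h| := by
      have := hL s s (r + h) r
      simpa using this
    exact h1
  -- the translated functions
  have hcξ : ∀ ξ : ℝ, Continuous (Function.uncurry fun s x => Ψ (ξ + s) x) := by
    intro ξ
    have : (Function.uncurry fun s x => Ψ (ξ + s) x)
      = Function.uncurry Ψ ∘ (fun p : ℝ × AddCircle (1 : ℝ) => (ξ + p.1, p.2)) := rfl
    rw [this]
    exact hΨcont.comp (by fun_prop)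
  have hbξ : ∀ ξ : ℝ, ∀ s x, |(fun s x => Ψ (ξ + s) x) s x| ≤ lam := by
    intro ξ s x
    rw [abs_of_nonneg (hbΨ _ _).1]; exact (hbΨ _ _).2
  have hLξ : ∀ ξ : ℝ, ∀ s s' x, |(fun s x => Ψ (ξ + s) x) s x - (fun s x => Ψ (ξ + s) x) s' x|
      ≤ lam * |s - s'| := by
    intro ξ s s' x
    have := hLΨ (ξ + s) (ξ + s') x
    simpa using this
  have key := fun ξ : ℝ => one_disc hlam (hcξ ξ) (hbξ ξ) (hLξ ξ) (fun s x h => hTΨ _ x h)
  choose f V hfix htau hsum hsumle hV1 hV2 hV3 using key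
  refine ⟨fun ξ n => -Complex.I * fourierCoeff (AA (f ξ)) (n : ℤ), ?_, ?_, ?_, ?_, ?_⟩
  · intro ξ
    have := (hsum ξ).comp_injective (Nat.cast_injective (R := ℤ))
    simpa [Function.comp_def] using this
  · intro ξ
    have h1 := (hsum ξ).comp_injective (Nat.cast_injective (R := ℤ))
    have h2 : ∑' n : ℕ, ‖-Complex.I * fourierCoeff (AA (f ξ)) (n : ℤ)‖
        ≤ ∑' n : ℤ, ‖fourierCoeff (AA (f ξ)) n‖ := by
      have : ∀ n : ℕ, ‖-Complex.I * fourierCoeff (AA (f ξ)) (n : ℤ)‖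
        = ((fun n : ℤ => ‖fourierCoeff (AA (f ξ)) n‖) ∘ (Nat.cast : ℕ → ℤ)) n := by
        intro n; simp
      simp_rw [this]
      exact tsum_comp_le_tsum_of_inj (hsum ξ) (fun _ => norm_nonneg _)
        (Nat.cast_injective (R := ℤ))
    refine h2.trans ((hsumle ξ).trans ?_)
    nlinarith [Real.sqrt_nonneg Z2]
  · intro ξ r
    rw [FS_eq (hV2 ξ)]
    have := hV3 ξ (r : AddCircle (1 : ℝ))
    simp only [neg_mul, Complex.neg_im, Complex.neg_re, Complex.mul_im, Complex.mul_re,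
      Complex.I_re, Complex.I_im, zero_mul, one_mul, zero_add, zero_sub, neg_neg, zero_add]
    rw [this, hΨc]
  · intro ξ h
    have h1 : ∫ r in (0 : ℝ)..1, ‖FS (fun n : ℕ => -Complex.I * fourierCoeff (AA (f ξ)) (n : ℤ))
        ((r + h : ℝ) : ℂ) - FS (fun n : ℕ => -Complex.I * fourierCoeff (AA (f ξ)) (n : ℤ)) r‖ ^ 2
        = ‖tau (h : AddCircle (1 : ℝ)) (AA (f ξ)) - AA (f ξ)‖ ^ 2 := by
      rw [← int_sq _ (fun x => V ξ (x + (h : AddCircle (1 : ℝ))) - V ξ x)]
      · congr 1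
        ext r
        rw [FS_eq (hV2 ξ), FS_eq (hV2 ξ), ← mul_sub, norm_mul]
        simp
      · filter_upwards [Lp.coeFn_sub (tau (h : AddCircle (1 : ℝ)) (AA (f ξ))) (AA (f ξ)),
          tau_coe (h : AddCircle (1 : ℝ)) (AA (f ξ)), hV1 ξ,
          ae_shift (h : AddCircle (1 : ℝ)) (p := fun x => (AA (f ξ) : E2) x = V ξ x) (hV1 ξ)]
          with x e1 e2 e3 e4
        rw [e1, Pi.sub_apply, e2, e3, e4]
    rw [h1]
    have h2 : ‖tau (h : AddCircle (1 : ℝ)) (AA (f ξ)) - AA (f ξ)‖ ≤ 4 * lam * |h| := by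
      rw [← AA_tau, ← map_sub]
      refine (norm_AA _).trans ?_
      linarith [htau ξ h]
    calc _ ≤ (4 * lam * |h|) ^ 2 := pow_le_pow_left₀ (norm_nonneg _) h2 2
      _ = 16 * (lam * h) ^ 2 := by rw [mul_pow, sq_abs]; ring
      _ ≤ (4 + 4 * √Z2 + 4) ^ 2 * (lam * h) ^ 2 := by
        gcongr
        nlinarith [Real.sqrt_nonneg Z2]
      _ = _ := by ring
  · intro ξ ξ'
    have h1 : ∫ r in (0 : ℝ)..1, ‖FS (fun n : ℕ => -Complex.I * fourierCoeff (AA (f ξ)) (n : ℤ)) r
        - FS (fun n : ℕ => -Complex.I * fourierCoeff (AA (f ξ')) (n : ℤ)) r‖ ^ 2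
        = ‖AA (f ξ) - AA (f ξ')‖ ^ 2 := by
      rw [← int_sq _ (fun x => V ξ x - V ξ' x)]
      · congr 1
        ext r
        rw [FS_eq (hV2 ξ), FS_eq (hV2 ξ'), ← mul_sub, norm_mul]
        simp
      · filter_upwards [Lp.coeFn_sub (AA (f ξ)) (AA (f ξ')), hV1 ξ, hV1 ξ'] with x e1 e2 e3
        rw [e1, Pi.sub_apply, e2, e3]
    rw [h1]
    have h2 : ‖f ξ - f ξ'‖ ≤ 2 * (lam * |ξ - ξ'|) := by
      apply fix_stab (hcξ ξ) (hbξ ξ) (hcξ ξ') (hbξ ξ') (by positivity) hlam (hLξ ξ) ?_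
        (hfix ξ) (hfix ξ')
      intro s x
      have := hLΨ (ξ + s) (ξ' + s) x
      simpa using this
    have h3 : ‖AA (f ξ) - AA (f ξ')‖ ≤ 4 * lam * |ξ - ξ'| := by
      rw [← map_sub]
      refine (norm_AA _).trans ?_
      linarith
    calc _ ≤ (4 * lam * |ξ - ξ'|) ^ 2 := pow_le_pow_left₀ (norm_nonneg _) h3 2
      _ = 16 * (lam * (ξ - ξ')) ^ 2 := by rw [mul_pow, sq_abs]; ring
      _ ≤ (4 + 4 * √Z2 + 4) ^ 2 * (lam * (ξ - ξ')) ^ 2 := by
        gcongr
        nlinarith [Real.sqrt_nonneg Z2]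
      _ = _ := by ring

end Crest.Agent.R102.Bishop120
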