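import Mathlib

/-! # The contact lemma for Bishop discs (120 #25549 (c), discrete proof)

`contact`: a family `g ξ : Ω → ℝ`, `ξ ∈ [a,b]`, Lipschitz in `ξ` with values in `L²(μ)`, which starts
below `0` and ends above `1`, has a member whose graph meets a given closed set
`P ⊆ [0,1] × Ω` of positive measure in a set of positive measure.
-/

open Set Filter Metric MeasureTheory
open scoped Topology ENNReal

namespace Crest.Agent.R102.Contact239

variable {Ω : Type*} [PseudoMetricSpace Ω]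

/-- Lipschitz approximation of the indicator of `P` -/
noncomputable def chi (P : Set (ℝ × Ω)) (n : ℕ) (p : ℝ × Ω) : ℝ := max 0 (1 - n * infDist p P)

theorem chi_nonneg (P : Set (ℝ × Ω)) (n : ℕ) (p : ℝ × Ω) : 0 ≤ chi P n p := le_max_left _ _

theorem chi_le_one (P : Set (ℝ × Ω)) (n : ℕ) (p : ℝ × Ω) : chi P n p ≤ 1 := by
  unfold chi
  have : 0 ≤ (n : ℝ) * infDist p P := mul_nonneg (Nat.cast_nonneg _) infDist_nonneg
  exact max_le zero_le_one (by linarith)

theorem continuous_chi (P : Set (ℝ × Ω)) (n : ℕ) : Continuous (chi P n) :=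
  continuous_const.max (continuous_const.sub (continuous_const.mul (continuous_infDist_pt P)))

theorem chi_anti (P : Set (ℝ × Ω)) {m n : ℕ} (h : m ≤ n) (p : ℝ × Ω) : chi P n p ≤ chi P m p := by
  unfold chi
  have h1 : (m : ℝ) ≤ n := by exact_mod_cast h
  have h2 : (m : ℝ) * infDist p P ≤ n * infDist p P :=
    mul_le_mul_of_nonneg_right h1 infDist_nonneg
  exact max_le_max le_rfl (by linarith)

theorem chi_eq_one {P : Set (ℝ × Ω)} {n : ℕ} {p : ℝ × Ω} (hp : p ∈ P) : chi P n p = 1 := by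
  unfold chi
  rw [infDist_zero_of_mem hp]; norm_num

theorem chi_lip (P : Set (ℝ × Ω)) (n : ℕ) (y y' : ℝ) (r : Ω) :
    |chi P n (y, r) - chi P n (y', r)| ≤ n * |y - y'| := by
  unfold chi
  have key : |max 0 (1 - (n : ℝ) * infDist (y, r) P) - max 0 (1 - (n : ℝ) * infDist (y', r) P)| ≤
      |(1 - (n : ℝ) * infDist (y, r) P) - (1 - (n : ℝ) * infDist (y', r) P)| := by
    rw [max_comm 0, max_comm 0]
    exact abs_max_sub_max_le_abs _ _ _
  refine key.trans ?_
  · have e : (1 - (n : ℝ) * infDist (y, r) P) - (1 - (n : ℝ) * infDist (y', r) P) =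
        -((n : ℝ) * (infDist (y, r) P - infDist (y', r) P)) := by ring
    rw [e, abs_neg, abs_mul, Nat.abs_cast]
    refine mul_le_mul_of_nonneg_left ?_ (Nat.cast_nonneg _)
    have h1 : infDist (y, r) P ≤ infDist (y', r) P + dist (y, r) (y', r) :=
      infDist_le_infDist_add_dist
    have h2 : infDist (y', r) P ≤ infDist (y, r) P + dist (y', r) (y, r) :=
      infDist_le_infDist_add_dist
    have h3 : dist (y, r) (y', r) = |y - y'| := by
      simp [Prod.dist_eq, Real.dist_eq]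
    rw [dist_comm (y', r) (y, r)] at h2
    rw [h3] at h1 h2
    rw [abs_le]; constructor <;> linarith

theorem tendsto_chi {P : Set (ℝ × Ω)} (hP : IsClosed P) (hne : P.Nonempty) (p : ℝ × Ω) :
    Tendsto (fun n => chi P n p) atTop (𝓝 (P.indicator (fun _ => (1 : ℝ)) p)) := by
  by_cases hp : p ∈ P
  · rw [indicator_of_mem hp]
    exact tendsto_const_nhds.congr fun n => (chi_eq_one hp).symm
  · rw [indicator_of_notMem hp]
    have hd : 0 < infDist p P := (hP.notMem_iff_infDist_pos hne).1 hp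
    obtain ⟨N, hN⟩ := exists_nat_ge (1 / infDist p P)
    apply tendsto_const_nhds.congr'
    filter_upwards [eventually_ge_atTop N] with n hn
    unfold chi
    have h1 : (N : ℝ) ≤ n := by exact_mod_cast hn
    have h2 : 1 ≤ (n : ℝ) * infDist p P := by
      rw [← div_le_iff₀ hd]; linarith
    rw [max_eq_left (by linarith)]

/-- one step of the primitive -/
theorem prim_step {φ : ℝ → ℝ} (hc : Continuous φ) {n : ℝ} (hn : 0 ≤ n)
    (hLip : ∀ y y', |φ y - φ y'| ≤ n * |y - y'|) (y y' : ℝ) :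
    ∫ t in y..y', φ t ≤ φ y * (y' - y) + n * (y' - y) ^ 2 := by
  have h1 : ∫ t in y..y', φ t = (∫ t in y..y', (φ t - φ y)) + φ y * (y' - y) := by
    rw [intervalIntegral.integral_sub (hc.intervalIntegrable _ _)
      (continuous_const.intervalIntegrable _ _), intervalIntegral.integral_const, smul_eq_mul]
    ring
  have h2 : ‖∫ t in y..y', (φ t - φ y)‖ ≤ n * |y' - y| * |y' - y| := by
    apply intervalIntegral.norm_integral_le_of_norm_le_const
    intro t ht
    rw [Real.norm_eq_abs]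
    refine (hLip t y).trans ?_
    refine mul_le_mul_of_nonneg_left ?_ hn
    rcases le_total y y' with h | h
    · rw [uIoc_of_le h] at ht
      rw [abs_of_nonneg (by linarith [ht.1]), abs_of_nonneg (by linarith)]
      linarith [ht.2]
    · rw [uIoc_of_ge h] at ht
      rw [abs_of_nonpos (by linarith [ht.2]), abs_of_nonpos (by linarith)]
      linarith [ht.1]
  have h3 := (le_abs_self _).trans ((Real.norm_eq_abs _).symm.le.trans h2)
  have h4 : n * |y' - y| * |y' - y| = n * (y' - y) ^ 2 := by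
    rw [mul_assoc, abs_mul_abs_self, pow_two]
  linarith

/-- telescoping along a grid, for a fixed parameter -/
theorem grid_point {φ : ℝ → ℝ} (hc : Continuous φ) (h0 : ∀ y, 0 ≤ φ y) {n : ℝ} (hn : 0 ≤ n)
    (hLip : ∀ y y', |φ y - φ y'| ≤ n * |y - y'|) (N : ℕ) (u : ℕ → ℝ) (hu0 : u 0 ≤ 0)
    (huN : 1 ≤ u N) :
    ∫ t in (0 : ℝ)..1, φ t ≤
      ∑ i ∈ Finset.range N, (φ (u i) * (u (i + 1) - u i) + n * (u (i + 1) - u i) ^ 2) := by
  have hi : ∀ x y, IntervalIntegrable φ volume x y := fun x y => hc.intervalIntegrable _ _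
  have h1 : ∫ t in (0 : ℝ)..1, φ t ≤ ∫ t in u 0..u N, φ t := by
    have e1 : ∫ t in u 0..u N, φ t = (∫ t in u 0..0, φ t) + (∫ t in (0 : ℝ)..1, φ t) +
        ∫ t in (1 : ℝ)..u N, φ t := by
      rw [intervalIntegral.integral_add_adjacent_intervals (hi _ _) (hi _ _),
        intervalIntegral.integral_add_adjacent_intervals (hi _ _) (hi _ _)]
    have e2 := intervalIntegral.integral_nonneg (μ := volume) hu0 fun t _ => h0 t
    have e3 := intervalIntegral.integral_nonneg (μ := volume) huN fun t _ => h0 t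
    linarith
  refine h1.trans ?_
  have h2 : ∫ t in u 0..u N, φ t = ∑ i ∈ Finset.range N, ∫ t in u i..u (i + 1), φ t :=
    (intervalIntegral.sum_integral_adjacent_intervals (a := u) (n := N)
      (fun k _ => hi _ _)).symm
  rw [h2]
  exact Finset.sum_le_sum fun i _ => prim_step hc hn hLip _ _

variable [MeasurableSpace Ω] [OpensMeasurableSpace Ω] {μ : Measure Ω} [IsProbabilityMeasure μ]

omit [PseudoMetricSpace Ω] [OpensMeasurableSpace Ω] in
theorem measurable_graph {g : Ω → ℝ} (hg : Measurable g) : Measurable fun r => ((g r, r) : ℝ × Ω) :=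
  hg.prodMk measurable_id

theorem integrable_chi (P : Set (ℝ × Ω)) (n : ℕ) {g : Ω → ℝ} (hg : Measurable g) :
    Integrable (fun r => chi P n (g r, r)) μ := by
  refine Integrable.of_bound
    ((continuous_chi P n).measurable.comp (measurable_graph hg)).aestronglyMeasurable 1
    (Eventually.of_forall fun r => ?_)
  rw [Real.norm_eq_abs, abs_of_nonneg (chi_nonneg _ _ _)]
  exact chi_le_one _ _ _

/-- the quantity of contact -/
noncomputable def Mn (μ : Measure Ω) (P : Set (ℝ × Ω)) (g : ℝ → Ω → ℝ) (n : ℕ) (ξ : ℝ) : ℝ :=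
  ∫ r, chi P n (g ξ r, r) ∂μ

/-- area of `χ_n` -/
noncomputable def An (μ : Measure Ω) (P : Set (ℝ × Ω)) (n : ℕ) : ℝ :=
  ∫ r, (∫ t in (0 : ℝ)..1, chi P n (t, r)) ∂μ

omit [MeasurableSpace Ω] [OpensMeasurableSpace Ω] in
theorem continuous_slice (P : Set (ℝ × Ω)) (n : ℕ) :
    Continuous fun r => ∫ t in (0 : ℝ)..1, chi P n (t, r) := by
  apply intervalIntegral.continuous_parametric_intervalIntegral_of_continuous'
  exact (continuous_chi P n).comp (continuous_snd.prodMk continuous_fst)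

omit [MeasurableSpace Ω] [OpensMeasurableSpace Ω] in
theorem slice_bound (P : Set (ℝ × Ω)) (n : ℕ) (r : Ω) :
    0 ≤ (∫ t in (0 : ℝ)..1, chi P n (t, r)) ∧ (∫ t in (0 : ℝ)..1, chi P n (t, r)) ≤ 1 := by
  have hc : Continuous fun t => chi P n (t, r) :=
    (continuous_chi P n).comp (continuous_id.prodMk continuous_const)
  constructor
  · exact intervalIntegral.integral_nonneg zero_le_one fun t _ => chi_nonneg _ _ _
  · have := intervalIntegral.integral_mono_on (zero_le_one' ℝ) (hc.intervalIntegrable (μ := volume) _ _)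
      (continuous_const (y := (1:ℝ)) |>.intervalIntegrable (μ := volume) 0 1)
      fun t _ => chi_le_one P n (t, r)
    simpa using this

theorem integrable_slice (P : Set (ℝ × Ω)) (n : ℕ) :
    Integrable (fun r => ∫ t in (0 : ℝ)..1, chi P n (t, r)) μ := by
  refine Integrable.of_bound (continuous_slice P n).measurable.aestronglyMeasurable 1
    (Eventually.of_forall fun r => ?_)
  rw [Real.norm_eq_abs, abs_of_nonneg (slice_bound P n r).1]
  exact (slice_bound P n r).2

/-- hypotheses on the family -/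
structure Fam (μ : Measure Ω) (g : ℝ → Ω → ℝ) (a b L : ℝ) : Prop where
  le : a ≤ b
  meas : ∀ ξ, Measurable (g ξ)
  int : ∀ ξ ∈ Icc a b, ∀ ξ' ∈ Icc a b, Integrable (fun r => (g ξ r - g ξ' r) ^ 2) μ
  lip : ∀ ξ ∈ Icc a b, ∀ ξ' ∈ Icc a b, ∫ r, (g ξ r - g ξ' r) ^ 2 ∂μ ≤ L ^ 2 * (ξ - ξ') ^ 2
  low : ∀ᵐ r ∂μ, g a r ≤ 0
  high : ∀ᵐ r ∂μ, 1 ≤ g b r

theorem grid {g : ℝ → Ω → ℝ} {a b L : ℝ} (hF : Fam μ g a b L) (P : Set (ℝ × Ω)) (n : ℕ) {M : ℝ}
    (hM : ∀ ξ ∈ Icc a b, Mn μ P g n ξ ≤ M) {κ : ℝ} (hκ : 0 < κ) (N : ℕ) (hN : 0 < N) :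
    An μ P n ≤ (κ * M + (L * (b - a)) ^ 2 / κ) / 2 + n * (L * (b - a)) ^ 2 / N := by
  have hN' : (0 : ℝ) < N := by exact_mod_cast hN
  have hab := hF.le
  set xs : ℕ → ℝ := fun i => a + (b - a) * (i / N) with hxs
  have hx0 : xs 0 = a := by simp [hxs]
  have hxN : xs N = b := by simp only [hxs]; rw [div_self hN'.ne']; ring
  have hxm : ∀ i, i ≤ N → xs i ∈ Icc a b := by
    intro i hi
    have h1 : (i : ℝ) ≤ N := by exact_mod_cast hi
    have h2 : (i : ℝ) / N ≤ 1 := by rw [div_le_one hN']; exact h1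
    have h3 : 0 ≤ (i : ℝ) / N := by positivity
    simp only [hxs]
    constructor <;> nlinarith
  have hstep : ∀ i, (xs (i + 1) - xs i) = (b - a) / N := by
    intro i; simp only [hxs]; push_cast; field_simp; ring
  -- pointwise
  have hpt : ∀ᵐ r ∂μ, (∫ t in (0 : ℝ)..1, chi P n (t, r)) ≤ ∑ i ∈ Finset.range N,
      ((κ / N * chi P n (g (xs i) r, r) + N / κ * (g (xs (i + 1)) r - g (xs i) r) ^ 2) / 2 +
        n * (g (xs (i + 1)) r - g (xs i) r) ^ 2) := by
    filter_upwards [hF.low, hF.high] with r h0 h1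
    have hc : Continuous fun t => chi P n (t, r) :=
      (continuous_chi P n).comp (continuous_id.prodMk continuous_const)
    refine (grid_point hc (fun y => chi_nonneg _ _ _) (Nat.cast_nonneg n)
      (fun y y' => chi_lip P n y y' r) N (fun i => g (xs i) r) (by simp only [hx0]; exact h0)
      (by simp only [hxN]; exact h1)).trans ?_
    refine Finset.sum_le_sum fun i _ => ?_
    have hc0 := chi_nonneg P n (g (xs i) r, r)
    have hc1 := chi_le_one P n (g (xs i) r, r)
    set c := chi P n (g (xs i) r, r)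
    set d := g (xs (i + 1)) r - g (xs i) r
    have hq : 0 < κ / N := by positivity
    have hqi : N / κ = (κ / N)⁻¹ := by rw [inv_div]
    rw [hqi]
    set q := κ / N
    have h2 : c * d ≤ (q * c + q⁻¹ * d ^ 2) / 2 := by
      have h3 : 0 ≤ q * (c - q⁻¹ * d) ^ 2 := by positivity
      have h4 : q * (c - q⁻¹ * d) ^ 2 = q * c ^ 2 - 2 * (c * d) + q⁻¹ * d ^ 2 := by
        field_simp
        ring
      have h5 : q * c ^ 2 ≤ q * c := by
        apply mul_le_mul_of_nonneg_left _ hq.le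
        nlinarith
      linarith
    linarith
  have hi1 : ∀ i, Integrable (fun r => chi P n (g (xs i) r, r)) μ := fun i =>
    integrable_chi P n (hF.meas _)
  have hi2 : ∀ i ∈ Finset.range N, Integrable (fun r => (g (xs (i + 1)) r - g (xs i) r) ^ 2) μ :=
    fun i hi => hF.int _ (hxm _ (Finset.mem_range.1 hi)) _ (hxm _ (Finset.mem_range.1 hi).le)
  have hiT : ∀ i ∈ Finset.range N, Integrable (fun r =>
      ((κ / N * chi P n (g (xs i) r, r) + N / κ * (g (xs (i + 1)) r - g (xs i) r) ^ 2) / 2 +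
        n * (g (xs (i + 1)) r - g (xs i) r) ^ 2)) μ := fun i hi =>
    ((((hi1 i).const_mul _).add ((hi2 i hi).const_mul _)).div_const 2).add
      ((hi2 i hi).const_mul _)
  have h1 := integral_mono_ae (integrable_slice P n) (integrable_finsetSum _ hiT) hpt
  rw [integral_finsetSum _ hiT] at h1
  refine h1.trans ?_
  have h2 : ∀ i ∈ Finset.range N, (∫ r, ((κ / N * chi P n (g (xs i) r, r) +
      N / κ * (g (xs (i + 1)) r - g (xs i) r) ^ 2) / 2 +
        n * (g (xs (i + 1)) r - g (xs i) r) ^ 2) ∂μ) ≤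
      (κ / N * M + N / κ * (L ^ 2 * ((b - a) / N) ^ 2)) / 2 + n * (L ^ 2 * ((b - a) / N) ^ 2) := by
    intro i hi
    have e1 := hF.lip _ (hxm _ (Finset.mem_range.1 hi)) _ (hxm _ (Finset.mem_range.1 hi).le)
    rw [hstep] at e1
    have e2 := hM _ (hxm _ (Finset.mem_range.1 hi).le)
    unfold Mn at e2
    have i1 : Integrable (fun r => κ / N * chi P n (g (xs i) r, r)) μ := (hi1 i).const_mul _
    have i2 : Integrable (fun r => N / κ * (g (xs (i + 1)) r - g (xs i) r) ^ 2) μ :=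
      (hi2 i hi).const_mul _
    have i3 : Integrable (fun r => (κ / N * chi P n (g (xs i) r, r) +
      N / κ * (g (xs (i + 1)) r - g (xs i) r) ^ 2) / 2) μ := (i1.add i2).div_const 2
    have i4 : Integrable (fun r => (n : ℝ) * (g (xs (i + 1)) r - g (xs i) r) ^ 2) μ :=
      (hi2 i hi).const_mul _
    rw [integral_add i3 i4, integral_div, integral_add i1 i2, integral_const_mul,
      integral_const_mul, integral_const_mul]
    have q1 : κ / N * ∫ r, chi P n (g (xs i) r, r) ∂μ ≤ κ / N * M :=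
      mul_le_mul_of_nonneg_left e2 (by positivity)
    have q2 : N / κ * ∫ r, (g (xs (i + 1)) r - g (xs i) r) ^ 2 ∂μ ≤
        N / κ * (L ^ 2 * ((b - a) / N) ^ 2) := mul_le_mul_of_nonneg_left e1 (by positivity)
    have q3 : (n : ℝ) * ∫ r, (g (xs (i + 1)) r - g (xs i) r) ^ 2 ∂μ ≤
        n * (L ^ 2 * ((b - a) / N) ^ 2) := mul_le_mul_of_nonneg_left e1 (by positivity)
    linarith
  refine (Finset.sum_le_sum h2).trans (le_of_eq ?_)
  rw [Finset.sum_const, Finset.card_range, nsmul_eq_mul]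
  field_simp

omit [OpensMeasurableSpace Ω] [IsProbabilityMeasure μ] in
theorem An_nonneg (P : Set (ℝ × Ω)) (n : ℕ) : 0 ≤ An μ P n :=
  integral_nonneg fun r => (slice_bound P n r).1

omit [OpensMeasurableSpace Ω] [IsProbabilityMeasure μ] in
theorem Mn_nonneg (P : Set (ℝ × Ω)) (g : ℝ → Ω → ℝ) (n : ℕ) (ξ : ℝ) : 0 ≤ Mn μ P g n ξ :=
  integral_nonneg fun _ => chi_nonneg _ _ _

theorem An_sq_le {g : ℝ → Ω → ℝ} {a b L : ℝ} (hF : Fam μ g a b L) (P : Set (ℝ × Ω)) (n : ℕ) {M : ℝ}
    (hM : ∀ ξ ∈ Icc a b, Mn μ P g n ξ ≤ M) : An μ P n ^ 2 ≤ (L * (b - a)) ^ 2 * M := by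
  have hA := An_nonneg (μ := μ) P n
  have hM0 : 0 ≤ M := (Mn_nonneg P g n a).trans (hM a ⟨le_rfl, hF.le⟩)
  set A := An μ P n
  set D := L * (b - a)
  have h1 : ∀ κ : ℝ, 0 < κ → A ≤ (κ * M + D ^ 2 / κ) / 2 := by
    intro κ hκ
    have ht : Tendsto (fun N : ℕ => (κ * M + D ^ 2 / κ) / 2 + n * D ^ 2 / (N : ℝ)) atTop
        (𝓝 ((κ * M + D ^ 2 / κ) / 2 + 0)) :=
      tendsto_const_nhds.add (tendsto_const_div_atTop_nhds_zero_nat _)
    rw [add_zero] at ht
    refine ge_of_tendsto ht ?_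
    filter_upwards [eventually_gt_atTop 0] with N hN
    exact grid hF P n hM hκ N hN
  have h2 : ∀ κ : ℝ, 0 ≤ M * (κ * κ) + (-(2 * A)) * κ + D ^ 2 := by
    intro κ
    rcases le_or_gt κ 0 with hκ | hκ
    · have : 0 ≤ M * (κ * κ) := mul_nonneg hM0 (mul_self_nonneg _)
      nlinarith [sq_nonneg D, mul_nonneg hA (neg_nonneg.2 hκ)]
    · have h3 := mul_le_mul_of_nonneg_right (h1 κ hκ) hκ.le
      have h4 : (κ * M + D ^ 2 / κ) / 2 * κ = (M * (κ * κ) + D ^ 2) / 2 := by
        field_simp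
      rw [h4] at h3
      linarith
  have h3 := discrim_le_zero h2
  unfold discrim at h3
  nlinarith

theorem Mn_sub_le {g : ℝ → Ω → ℝ} {a b L : ℝ} (hF : Fam μ g a b L) (P : Set (ℝ × Ω)) (n : ℕ)
    {ξ ξ' : ℝ} (h : ξ ∈ Icc a b) (h' : ξ' ∈ Icc a b) :
    (Mn μ P g n ξ - Mn μ P g n ξ') ^ 2 ≤ n ^ 2 * (L ^ 2 * (ξ - ξ') ^ 2) := by
  unfold Mn
  have hi : ∀ ξ, Integrable (fun r => chi P n (g ξ r, r)) μ := fun ξ => integrable_chi P n (hF.meas ξ)
  rw [← integral_sub (hi _) (hi _)]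
  set f : Ω → ℝ := fun r => chi P n (g ξ r, r) - chi P n (g ξ' r, r) with hf
  have hfi : Integrable f μ := (hi ξ).sub (hi ξ')
  have hfb : ∀ r, |f r| ≤ 1 := by
    intro r
    have a1 := chi_nonneg P n (g ξ r, r)
    have a2 := chi_le_one P n (g ξ r, r)
    have a3 := chi_nonneg P n (g ξ' r, r)
    have a4 := chi_le_one P n (g ξ' r, r)
    simp only [hf]
    rw [abs_le]; constructor <;> linarith
  have hf2 : Integrable (fun r => f r ^ 2) μ := by
    refine Integrable.of_bound (hfi.aestronglyMeasurable.pow 2) 1 (Eventually.of_forall fun r => ?_)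
    rw [norm_pow, Real.norm_eq_abs]
    exact pow_le_one₀ (abs_nonneg _) (hfb r)
  have h1 : (∫ r, f r ∂μ) ^ 2 ≤ ∫ r, f r ^ 2 ∂μ := by
    have h2 : 0 ≤ ∫ r, (f r - ∫ r', f r' ∂μ) ^ 2 ∂μ := integral_nonneg fun _ => sq_nonneg _
    have h3 : ∫ r, (f r - ∫ r', f r' ∂μ) ^ 2 ∂μ =
        (∫ r, f r ^ 2 ∂μ) - (∫ r, f r ∂μ) ^ 2 := by
      set m := ∫ r', f r' ∂μ with hm
      have e : (fun r => (f r - m) ^ 2) = fun r => f r ^ 2 - 2 * m * f r + m ^ 2 := by
        funext r; ring
      have j1 : Integrable (fun r => 2 * m * f r) μ := hfi.const_mul _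
      have j2 : Integrable (fun r => f r ^ 2 - 2 * m * f r) μ := hf2.sub j1
      rw [e, integral_add j2 (integrable_const _), integral_sub hf2 j1, integral_const_mul]
      simp only [integral_const, probReal_univ, smul_eq_mul, one_mul]
      rw [← hm]; ring
    linarith
  refine h1.trans ?_
  have h4 : ∫ r, f r ^ 2 ∂μ ≤ ∫ r, (n : ℝ) ^ 2 * (g ξ r - g ξ' r) ^ 2 ∂μ := by
    refine integral_mono hf2 ((hF.int _ h _ h').const_mul _) fun r => ?_
    have := chi_lip P n (g ξ r) (g ξ' r) r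
    simp only [hf]
    rw [← mul_pow, ← sq_abs, ← sq_abs ((n : ℝ) * _), abs_mul, Nat.abs_cast]
    exact pow_le_pow_left₀ (abs_nonneg _) this 2
  refine h4.trans ?_
  rw [integral_const_mul]
  exact mul_le_mul_of_nonneg_left (hF.lip _ h _ h') (sq_nonneg _)

theorem continuousOn_Mn {g : ℝ → Ω → ℝ} {a b L : ℝ} (hF : Fam μ g a b L) (P : Set (ℝ × Ω))
    (n : ℕ) : ContinuousOn (Mn μ P g n) (Icc a b) := by
  have hl : ∀ ξ ∈ Icc a b, ∀ ξ' ∈ Icc a b,
      dist (Mn μ P g n ξ) (Mn μ P g n ξ') ≤ (n * |L|) * dist ξ ξ' := by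
    intro ξ h ξ' h'
    rw [Real.dist_eq, Real.dist_eq]
    have h1 := Mn_sub_le hF P n h h'
    have h2 : (n : ℝ) ^ 2 * (L ^ 2 * (ξ - ξ') ^ 2) = (n * |L| * |ξ - ξ'|) ^ 2 := by
      rw [mul_pow, mul_pow, sq_abs, sq_abs]; ring
    rw [h2] at h1
    exact abs_le_of_sq_le_sq h1 (by positivity)
  have : LipschitzOnWith (Real.toNNReal (n * |L|)) (Mn μ P g n) (Icc a b) := by
    apply LipschitzOnWith.of_dist_le_mul
    intro ξ h ξ' h'
    rw [Real.coe_toNNReal _ (by positivity)]
    exact hl ξ h ξ' h'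
  exact this.continuousOn

theorem volume_le_An {P : Set (ℝ × Ω)} (hP : IsClosed P) (hsub : ∀ p ∈ P, p.1 ∈ Icc (0 : ℝ) 1)
    (n : ℕ) : ((volume : Measure ℝ).prod μ).real P ≤ An μ P n := by
  set ν : Measure ℝ := volume.restrict (Icc 0 1) with hν
  have : IsFiniteMeasure ν := by
    rw [hν]; exact isFiniteMeasure_restrict.2 (by rw [Real.volume_Icc]; exact ENNReal.ofReal_ne_top)
  have h1 : ((volume : Measure ℝ).prod μ) P = (ν.prod μ) P := by
    have e1 : ν.prod μ = ((volume : Measure ℝ).prod μ).restrict (Icc 0 1 ×ˢ univ) := by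
      rw [hν, ← Measure.prod_restrict, Measure.restrict_univ]
    rw [e1, Measure.restrict_apply hP.measurableSet, inter_eq_left.2]
    exact fun p hp => ⟨hsub p hp, mem_univ _⟩
  have hi : Integrable (chi P n) (ν.prod μ) := by
    refine Integrable.of_bound (continuous_chi P n).measurable.aestronglyMeasurable 1
      (Eventually.of_forall fun r => ?_)
    rw [Real.norm_eq_abs, abs_of_nonneg (chi_nonneg _ _ _)]
    exact chi_le_one _ _ _
  have h2 : (ν.prod μ).real P ≤ ∫ p, chi P n p ∂(ν.prod μ) := by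
    rw [← integral_indicator_one hP.measurableSet]
    refine integral_mono ((integrable_const 1).indicator hP.measurableSet) hi fun p => ?_
    by_cases hp : p ∈ P
    · rw [indicator_of_mem hp, chi_eq_one hp]; rfl
    · rw [indicator_of_notMem hp]; exact chi_nonneg _ _ _
  have h3 : ∫ p, chi P n p ∂(ν.prod μ) = An μ P n := by
    rw [integral_prod_symm _ hi]
    unfold An
    refine integral_congr_ae (Eventually.of_forall fun r => ?_)
    simp only
    rw [intervalIntegral.integral_of_le zero_le_one, hν, integral_Icc_eq_integral_Ioc]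
  rw [measureReal_def, h1, ← measureReal_def, ← h3]
  exact h2

/-- **Contact lemma.** -/
theorem contact {g : ℝ → Ω → ℝ} {a b L : ℝ} (hF : Fam μ g a b L) {P : Set (ℝ × Ω)}
    (hP : IsClosed P) (hsub : ∀ p ∈ P, p.1 ∈ Icc (0 : ℝ) 1) :
    ∃ ξ ∈ Icc a b, ((volume : Measure ℝ).prod μ).real P ^ 2 ≤
      (L * (b - a)) ^ 2 * μ.real {r | (g ξ r, r) ∈ P} := by
  rcases P.eq_empty_or_nonempty with rfl | hne
  · exact ⟨a, ⟨le_rfl, hF.le⟩, by simp⟩
  set V := ((volume : Measure ℝ).prod μ).real P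
  set D := L * (b - a)
  set K : ℕ → Set ℝ := fun n => {ξ | ξ ∈ Icc a b ∧ V ^ 2 ≤ D ^ 2 * Mn μ P g n ξ} with hK
  have hKc : ∀ n, IsCompact (K n) := by
    intro n
    have h1 : ContinuousOn (fun ξ => D ^ 2 * Mn μ P g n ξ) (Icc a b) :=
      continuousOn_const.mul (continuousOn_Mn hF P n)
    have h2 : K n = Icc a b ∩ (fun ξ => D ^ 2 * Mn μ P g n ξ) ⁻¹' Ici (V ^ 2) := by
      ext ξ; rfl
    rw [h2]
    exact isCompact_Icc.of_isClosed_subset (h1.preimage_isClosed_of_isClosed isClosed_Icc isClosed_Ici)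
      inter_subset_left
  have hKne : ∀ n, (K n).Nonempty := by
    intro n
    obtain ⟨ξ, hξ, hmax⟩ := isCompact_Icc.exists_isMaxOn ⟨a, le_rfl, hF.le⟩ (continuousOn_Mn hF P n)
    refine ⟨ξ, hξ, ?_⟩
    have h1 := An_sq_le hF P n (M := Mn μ P g n ξ) (fun ξ' h' => hmax h')
    refine le_trans ?_ h1
    exact pow_le_pow_left₀ measureReal_nonneg (volume_le_An hP hsub n) 2
  have hKanti : ∀ n, K (n + 1) ⊆ K n := by
    intro n ξ hξ
    refine ⟨hξ.1, hξ.2.trans ?_⟩
    refine mul_le_mul_of_nonneg_left ?_ (sq_nonneg _)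
    exact integral_mono (integrable_chi P _ (hF.meas ξ)) (integrable_chi P _ (hF.meas ξ))
      fun r => chi_anti P (Nat.le_succ n) _
  obtain ⟨ξ, hξ⟩ := IsCompact.nonempty_iInter_of_sequence_nonempty_isCompact_isClosed K hKanti hKne
    (hKc 0) (fun n => (hKc n).isClosed)
  rw [mem_iInter] at hξ
  refine ⟨ξ, (hξ 0).1, ?_⟩
  have hms : MeasurableSet {r | (g ξ r, r) ∈ P} :=
    (measurable_graph (hF.meas ξ)) hP.measurableSet
  have ht : Tendsto (fun n => Mn μ P g n ξ) atTop (𝓝 (μ.real {r | (g ξ r, r) ∈ P})) := by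
    rw [← integral_indicator_one hms]
    unfold Mn
    refine tendsto_integral_of_dominated_convergence (fun _ => (1 : ℝ)) (fun n =>
      (integrable_chi P n (hF.meas ξ)).aestronglyMeasurable) (integrable_const _)
      (fun n => Eventually.of_forall fun r => ?_) (Eventually.of_forall fun r => ?_)
    · rw [Real.norm_eq_abs, abs_of_nonneg (chi_nonneg _ _ _)]
      exact chi_le_one _ _ _
    · have := tendsto_chi hP hne (g ξ r, r)
      simpa [indicator] using this
  exact ge_of_tendsto' (tendsto_const_nhds.mul ht) fun n => (hξ n).2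

end Crest.Agent.R102.Contact239
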