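import Crest.Agent.R102.BishopDefs_120
import Crest.Agent.R102.Contact_239

/-! # The literal contact leaf `Bishop120.Contact` -/

open Set Filter Metric MeasureTheory
open scoped Topology ENNReal

namespace Crest.Agent.R102.Contact239

/-- telescoping along a grid, for a fixed parameter, general end points -/
theorem grid_point' {φ : ℝ → ℝ} (hc : Continuous φ) (h0 : ∀ y, 0 ≤ φ y) {n : ℝ} (hn : 0 ≤ n)
    (hLip : ∀ y y', |φ y - φ y'| ≤ n * |y - y'|) (N : ℕ) (u : ℕ → ℝ) {c d : ℝ} (hu0 : u 0 ≤ c)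
    (huN : d ≤ u N) :
    ∫ t in c..d, φ t ≤
      ∑ i ∈ Finset.range N, (φ (u i) * (u (i + 1) - u i) + n * (u (i + 1) - u i) ^ 2) := by
  have hi : ∀ x y, IntervalIntegrable φ volume x y := fun x y => hc.intervalIntegrable _ _
  have h1 : ∫ t in c..d, φ t ≤ ∫ t in u 0..u N, φ t := by
    have e1 : ∫ t in u 0..u N, φ t = (∫ t in u 0..c, φ t) + (∫ t in c..d, φ t) +
        ∫ t in d..u N, φ t := by
      rw [intervalIntegral.integral_add_adjacent_intervals (hi _ _) (hi _ _),
        intervalIntegral.integral_add_adjacent_intervals (hi _ _) (hi _ _)]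
    have e2 := intervalIntegral.integral_nonneg (μ := volume) hu0 fun t _ => h0 t
    have e3 := intervalIntegral.integral_nonneg (μ := volume) huN fun t _ => h0 t
    linarith
  refine h1.trans ?_
  have h2 : ∫ t in u 0..u N, φ t = ∑ i ∈ Finset.range N, ∫ t in u i..u (i + 1), φ t :=
    (intervalIntegral.sum_integral_adjacent_intervals (a := u) (n := N)
      (fun k _ => hi _ _)).symm
  rw [h2]
  exact Finset.sum_le_sum fun i _ => prim_step hc hn hLip _ _

/-- Lebesgue measure on `[0,1]` -/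
noncomputable def mu : Measure ℝ := volume.restrict (Icc 0 1)

instance : IsProbabilityMeasure mu :=
  ⟨by rw [mu, Measure.restrict_apply_univ, Real.volume_Icc]; norm_num⟩

theorem integral_mu (f : ℝ → ℝ) : ∫ r in (0 : ℝ)..1, f r = ∫ r, f r ∂mu := by
  rw [intervalIntegral.integral_of_le zero_le_one, mu, integral_Icc_eq_integral_Ioc]

theorem integrable_mu {f : ℝ → ℝ} (hf : Continuous f) : Integrable f mu :=
  hf.continuousOn.integrableOn_compact isCompact_Icc

/-- hypotheses on `k` -/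
structure Kam (k : ℝ → ℝ → ℝ) : Prop where
  cont : ∀ ξ, Continuous (k ξ)
  small : ∀ ξ r, |k ξ r| ≤ 1 / 100
  lip : ∀ ξ ξ' : ℝ, ∫ r, (k ξ r - k ξ' r) ^ 2 ∂mu ≤ ((ξ - ξ') / 10) ^ 2

theorem Kam.fam {k : ℝ → ℝ → ℝ} (h : Kam k) :
    Fam mu (fun ξ r => ξ + k ξ r) (-(1 / 100)) (101 / 100) 2 where
  le := by norm_num
  meas := fun ξ => (continuous_const.add (h.cont ξ)).measurable
  int := fun ξ _ ξ' _ => integrable_mu
    (((continuous_const.add (h.cont ξ)).sub (continuous_const.add (h.cont ξ'))).pow 2)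
  lip := by
    intro ξ _ ξ' _
    have h1 : ∫ r, ((ξ + k ξ r) - (ξ' + k ξ' r)) ^ 2 ∂mu ≤
        ∫ r, (2 * (ξ - ξ') ^ 2 + 2 * (k ξ r - k ξ' r) ^ 2) ∂mu := by
      refine integral_mono (integrable_mu
        (((continuous_const.add (h.cont ξ)).sub (continuous_const.add (h.cont ξ'))).pow 2))
        (integrable_mu (continuous_const.add (continuous_const.mul
          (((h.cont ξ).sub (h.cont ξ')).pow 2)))) fun r => ?_
      simp only
      nlinarith [sq_nonneg ((ξ - ξ') - (k ξ r - k ξ' r))]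
    refine h1.trans ?_
    have j1 : Integrable (fun r => 2 * (k ξ r - k ξ' r) ^ 2) mu := integrable_mu
      (continuous_const.mul (((h.cont ξ).sub (h.cont ξ')).pow 2))
    have j2 : ∫ r, 2 * (k ξ r - k ξ' r) ^ 2 ∂mu = 2 * ∫ r, (k ξ r - k ξ' r) ^ 2 ∂mu :=
      integral_const_mul _ _
    rw [integral_add (integrable_const _) j1, j2, integral_const]
    simp only [probReal_univ, smul_eq_mul, one_mul]
    have := h.lip ξ ξ'
    nlinarith [sq_nonneg (ξ - ξ')]
  low := Eventually.of_forall fun r => by have := abs_le.1 (h.small (-(1 / 100)) r); linarith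
  high := Eventually.of_forall fun r => by have := abs_le.1 (h.small (101 / 100) r); linarith

theorem grid' {k : ℝ → ℝ → ℝ} (h : Kam k) (P : Set (ℝ × ℝ)) (n : ℕ)
    (hM : ∀ ξ ∈ Icc (0 : ℝ) 1, Mn mu P (fun ξ r => ξ + k ξ r) n ξ ≤ 3 / 4) (N : ℕ) (hN : 0 < N) :
    ∫ r, (∫ t in (1 / 100 : ℝ)..(99 / 100), chi P n (t, r)) ∂mu ≤ 84 / 100 + n * 3 / N := by
  have hN' : (0 : ℝ) < N := by exact_mod_cast hN
  set g : ℝ → ℝ → ℝ := fun ξ r => ξ + k ξ r with hg
  set xs : ℕ → ℝ := fun i => i / N with hxs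
  have hx0 : xs 0 = 0 := by simp [hxs]
  have hxN : xs N = 1 := by simp only [hxs]; rw [div_self hN'.ne']
  have hxm : ∀ i, i ≤ N → xs i ∈ Icc (0 : ℝ) 1 := by
    intro i hi
    have h1 : (i : ℝ) ≤ N := by exact_mod_cast hi
    exact ⟨by simp only [hxs]; positivity, by simp only [hxs]; rw [div_le_one hN']; exact h1⟩
  have hstep : ∀ i, (xs (i + 1) - xs i) = 1 / N := by
    intro i; simp only [hxs]; push_cast; field_simp; ring
  have hchi : ∀ ξ, Continuous fun r => chi P n (g ξ r, r) := fun ξ =>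
    (continuous_chi P n).comp ((continuous_const.add (h.cont ξ)).prodMk continuous_id)
  have hcs : Continuous fun r => ∫ t in (1 / 100 : ℝ)..(99 / 100), chi P n (t, r) := by
    apply intervalIntegral.continuous_parametric_intervalIntegral_of_continuous'
    exact (continuous_chi P n).comp (continuous_snd.prodMk continuous_fst)
  -- pointwise
  have hpt : ∀ r, (∫ t in (1 / 100 : ℝ)..(99 / 100), chi P n (t, r)) ≤ ∑ i ∈ Finset.range N,
      ((1 / N + 1 / (16 * N)) * chi P n (g (xs i) r, r) + n * 2 * (1 / N) ^ 2 +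
        (4 * N + n * 2) * (k (xs (i + 1)) r - k (xs i) r) ^ 2) := by
    intro r
    have hc : Continuous fun t => chi P n (t, r) :=
      (continuous_chi P n).comp (continuous_id.prodMk continuous_const)
    refine (grid_point' hc (fun y => chi_nonneg _ _ _) (Nat.cast_nonneg n)
      (fun y y' => chi_lip P n y y' r) N (fun i => g (xs i) r) (c := 1 / 100) (d := 99 / 100)
      (by have := abs_le.1 (h.small 0 r); simp only [hx0, hg]; linarith)
      (by have := abs_le.1 (h.small 1 r); simp only [hxN, hg]; linarith)).trans ?_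
    refine Finset.sum_le_sum fun i _ => ?_
    have hc0 := chi_nonneg P n (g (xs i) r, r)
    have hc1 := chi_le_one P n (g (xs i) r, r)
    have hd : g (xs (i + 1)) r - g (xs i) r = 1 / N + (k (xs (i + 1)) r - k (xs i) r) := by
      rw [← hstep i]; simp only [hg]; ring
    rw [hd]
    set c := chi P n (g (xs i) r, r)
    set e := k (xs (i + 1)) r - k (xs i) r
    have h2 : c * e ≤ 1 / (16 * N) * c + 4 * N * e ^ 2 := by
      have h3 : 0 ≤ 4 * N * (e - c / (8 * N)) ^ 2 := by positivity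
      have h4 : 4 * N * (e - c / (8 * N)) ^ 2 = 4 * N * e ^ 2 - c * e + 1 / (16 * N) * c ^ 2 := by
        field_simp; ring
      have h5 : 1 / (16 * N) * c ^ 2 ≤ 1 / (16 * N) * c :=
        mul_le_mul_of_nonneg_left (by nlinarith) (by positivity)
      linarith
    have h6 : (n : ℝ) * (1 / N + e) ^ 2 ≤ n * (2 * (1 / N) ^ 2 + 2 * e ^ 2) :=
      mul_le_mul_of_nonneg_left (by nlinarith [sq_nonneg (1 / (N : ℝ) - e)]) (Nat.cast_nonneg n)
    nlinarith
  have hkc : ∀ i : ℕ, Continuous fun r => (k (xs (i + 1)) r - k (xs i) r) ^ 2 := fun i =>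
    ((h.cont _).sub (h.cont _)).pow 2
  have hiT : ∀ i ∈ Finset.range N, Integrable (fun r =>
      ((1 / (N : ℝ) + 1 / (16 * N)) * chi P n (g (xs i) r, r) + n * 2 * (1 / (N : ℝ)) ^ 2 +
        (4 * (N : ℝ) + n * 2) * (k (xs (i + 1)) r - k (xs i) r) ^ 2)) mu := fun i _ =>
    integrable_mu (((continuous_const.mul (hchi _)).add continuous_const).add
      (continuous_const.mul (hkc i)))
  have h1 := integral_mono (integrable_mu hcs) (integrable_finsetSum _ hiT) hpt
  rw [integral_finsetSum _ hiT] at h1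
  refine h1.trans ?_
  have h2 : ∀ i ∈ Finset.range N, (∫ r, ((1 / (N : ℝ) + 1 / (16 * N)) * chi P n (g (xs i) r, r) +
      n * 2 * (1 / (N : ℝ)) ^ 2 + (4 * (N : ℝ) + n * 2) * (k (xs (i + 1)) r - k (xs i) r) ^ 2) ∂mu) ≤
      (1 / (N : ℝ) + 1 / (16 * N)) * (3 / 4) + n * 2 * (1 / (N : ℝ)) ^ 2 +
        (4 * (N : ℝ) + n * 2) * (1 / (N : ℝ) / 10) ^ 2 := by
    intro i hi
    have e1 := h.lip (xs (i + 1)) (xs i)
    rw [hstep] at e1
    have e2 := hM _ (hxm _ (Finset.mem_range.1 hi).le)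
    unfold Mn at e2
    have i1 : Integrable (fun r => (1 / (N : ℝ) + 1 / (16 * N)) * chi P n (g (xs i) r, r)) mu :=
      integrable_mu (continuous_const.mul (hchi _))
    have i2 : Integrable (fun r => (1 / (N : ℝ) + 1 / (16 * N)) * chi P n (g (xs i) r, r) +
        n * 2 * (1 / N) ^ 2) mu := i1.add (integrable_const _)
    have i3 : Integrable (fun r => (4 * (N : ℝ) + n * 2) *
        (k (xs (i + 1)) r - k (xs i) r) ^ 2) mu := integrable_mu (continuous_const.mul (hkc i))
    have i4 : ∫ r, (4 * (N : ℝ) + n * 2) * (k (xs (i + 1)) r - k (xs i) r) ^ 2 ∂mu =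
        (4 * (N : ℝ) + n * 2) * ∫ r, (k (xs (i + 1)) r - k (xs i) r) ^ 2 ∂mu :=
      integral_const_mul _ _
    have i5 : ∫ r, (1 / (N : ℝ) + 1 / (16 * N)) * chi P n (g (xs i) r, r) ∂mu =
        (1 / (N : ℝ) + 1 / (16 * N)) * ∫ r, chi P n (g (xs i) r, r) ∂mu := integral_const_mul _ _
    rw [integral_add i2 i3, integral_add i1 (integrable_const _), i4, i5, integral_const]
    simp only [probReal_univ, smul_eq_mul, one_mul]
    have q1 := mul_le_mul_of_nonneg_left e2 (show 0 ≤ 1 / (N : ℝ) + 1 / (16 * N) by positivity)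
    have q2 := mul_le_mul_of_nonneg_left e1 (show 0 ≤ 4 * (N : ℝ) + n * 2 by positivity)
    linarith
  refine (Finset.sum_le_sum h2).trans ?_
  rw [Finset.sum_const, Finset.card_range, nsmul_eq_mul]
  have e : (N : ℝ) * ((1 / N + 1 / (16 * N)) * (3 / 4) + n * 2 * (1 / N) ^ 2 +
      (4 * N + n * 2) * (1 / N / 10) ^ 2) = (17 / 16 * (3 / 4) + 4 / 100) +
        n * (2 + 2 / 100) / N := by
    field_simp
    ring
  rw [e]
  have : (n : ℝ) * (2 + 2 / 100) / N ≤ n * 3 / N := by
    apply div_le_div_of_nonneg_right _ hN'.le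
    nlinarith [Nat.cast_nonneg (α := ℝ) n]
  norm_num at this ⊢
  linarith

/-- **LEAF 2** of the Bishop disc -/
theorem contact_leaf : Bishop120.Contact := by
  intro k hkc hks hkl P0 hP0 hvol
  have h : Kam k := ⟨hkc, hks, fun ξ ξ' => by rw [← integral_mu]; exact hkl ξ ξ'⟩
  set P : Set (ℝ × ℝ) := P0 ∩ Icc (1 / 100 : ℝ) (99 / 100) ×ˢ Icc (0 : ℝ) 1 with hPdef
  have hP : IsClosed P := hP0.inter (isClosed_Icc.prod isClosed_Icc)
  set g : ℝ → ℝ → ℝ := fun ξ r => ξ + k ξ r with hg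
  -- area
  have hV : 88 / 100 ≤ (volume : Measure (ℝ × ℝ)).real P := by
    have hfin : volume (P0 ∩ Icc (0 : ℝ) 1 ×ˢ Icc (0 : ℝ) 1) ≠ ⊤ :=
      ne_top_of_le_ne_top (isCompact_Icc.prod isCompact_Icc).measure_lt_top.ne
        (measure_mono inter_subset_right)
    have h1 : (9 / 10 : ℝ) ≤ volume.real (P0 ∩ Icc (0 : ℝ) 1 ×ˢ Icc (0 : ℝ) 1) := by
      rw [measureReal_def]
      exact (ENNReal.ofReal_le_iff_le_toReal hfin).1 hvol
    have hsub : P0 ∩ Icc (0 : ℝ) 1 ×ˢ Icc (0 : ℝ) 1 ⊆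
        P ∪ (Icc (0 : ℝ) (1 / 100) ×ˢ Icc (0 : ℝ) 1 ∪ Icc (99 / 100 : ℝ) 1 ×ˢ Icc (0 : ℝ) 1) := by
      rintro ⟨x, r⟩ ⟨hp, hx, hr⟩
      simp only at hx hr
      by_cases h1 : x < 1 / 100
      · exact Or.inr (Or.inl ⟨⟨hx.1, h1.le⟩, hr⟩)
      by_cases h2 : 99 / 100 < x
      · exact Or.inr (Or.inr ⟨⟨h2.le, hx.2⟩, hr⟩)
      push Not at h1 h2
      exact Or.inl ⟨hp, ⟨h1, h2⟩, hr⟩
    have hfP : volume P ≠ ⊤ := ne_top_of_le_ne_top (isCompact_Icc.prod isCompact_Icc).measure_lt_top.ne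
        (measure_mono inter_subset_right)
    have hfA : volume (Icc (0 : ℝ) (1 / 100) ×ˢ Icc (0 : ℝ) 1) ≠ ⊤ :=
      (isCompact_Icc.prod isCompact_Icc).measure_lt_top.ne
    have hfB : volume (Icc (99 / 100 : ℝ) 1 ×ˢ Icc (0 : ℝ) 1) ≠ ⊤ :=
      (isCompact_Icc.prod isCompact_Icc).measure_lt_top.ne
    have h2 := measureReal_mono (μ := (volume : Measure (ℝ × ℝ))) hsub
      (measure_union_ne_top hfP (measure_union_ne_top hfA hfB))
    have h3 := h2.trans (measureReal_union_le _ _)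
    have h4 := measureReal_union_le (μ := (volume : Measure (ℝ × ℝ)))
      (Icc (0 : ℝ) (1 / 100) ×ˢ Icc (0 : ℝ) 1) (Icc (99 / 100 : ℝ) 1 ×ˢ Icc (0 : ℝ) 1)
    have h5 : (volume : Measure (ℝ × ℝ)).real (Icc (0 : ℝ) (1 / 100) ×ˢ Icc (0 : ℝ) 1) = 1 / 100 := by
      rw [measureReal_def, Measure.volume_eq_prod, Measure.prod_prod, Real.volume_Icc,
        Real.volume_Icc, ← ENNReal.ofReal_mul (by norm_num), ENNReal.toReal_ofReal (by norm_num)]
      norm_num
    have h6 : (volume : Measure (ℝ × ℝ)).real (Icc (99 / 100 : ℝ) 1 ×ˢ Icc (0 : ℝ) 1) = 1 / 100 := by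
      rw [measureReal_def, Measure.volume_eq_prod, Measure.prod_prod, Real.volume_Icc,
        Real.volume_Icc, ← ENNReal.ofReal_mul (by norm_num), ENNReal.toReal_ofReal (by norm_num)]
      norm_num
    rw [h5, h6] at h4
    linarith
  have hA : ∀ n, 88 / 100 ≤ ∫ r, (∫ t in (1 / 100 : ℝ)..(99 / 100), chi P n (t, r)) ∂mu := by
    intro n
    refine hV.trans ?_
    set ν : Measure ℝ := volume.restrict (Icc (1 / 100) (99 / 100)) with hν
    have : IsFiniteMeasure ν := by
      rw [hν]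
      exact isFiniteMeasure_restrict.2 (by rw [Real.volume_Icc]; exact ENNReal.ofReal_ne_top)
    have h1 : volume P = (ν.prod mu) P := by
      have e1 : ν.prod mu = (volume : Measure (ℝ × ℝ)).restrict
          (Icc (1 / 100) (99 / 100) ×ˢ Icc 0 1) := by
        rw [hν, mu, Measure.prod_restrict, Measure.volume_eq_prod]
      rw [e1, Measure.restrict_apply hP.measurableSet, inter_eq_left.2]
      exact inter_subset_right
    have hi : Integrable (chi P n) (ν.prod mu) := by
      refine Integrable.of_bound (continuous_chi P n).measurable.aestronglyMeasurable 1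
        (Eventually.of_forall fun r => ?_)
      rw [Real.norm_eq_abs, abs_of_nonneg (chi_nonneg _ _ _)]
      exact chi_le_one _ _ _
    have h2 : (ν.prod mu).real P ≤ ∫ p, chi P n p ∂(ν.prod mu) := by
      rw [← integral_indicator_one hP.measurableSet]
      refine integral_mono ((integrable_const 1).indicator hP.measurableSet) hi fun p => ?_
      by_cases hp : p ∈ P
      · rw [indicator_of_mem hp, chi_eq_one hp]; rfl
      · rw [indicator_of_notMem hp]; exact chi_nonneg _ _ _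
    have h3 : ∫ p, chi P n p ∂(ν.prod mu) =
        ∫ r, (∫ t in (1 / 100 : ℝ)..(99 / 100), chi P n (t, r)) ∂mu := by
      rw [integral_prod_symm _ hi]
      refine integral_congr_ae (Eventually.of_forall fun r => ?_)
      simp only
      rw [intervalIntegral.integral_of_le (by norm_num), hν, integral_Icc_eq_integral_Ioc]
    rw [measureReal_def, h1, ← measureReal_def, ← h3]
    exact h2
  have hne : P.Nonempty := by
    rw [nonempty_iff_ne_empty]
    intro he
    rw [he] at hV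
    simp at hV
    norm_num at hV
  set K : ℕ → Set ℝ := fun n => {ξ | ξ ∈ Icc (0 : ℝ) 1 ∧ 3 / 4 ≤ Mn mu P g n ξ} with hK
  have hcont : ∀ n, ContinuousOn (Mn mu P g n) (Icc 0 1) := fun n =>
    (continuousOn_Mn h.fam P n).mono (Icc_subset_Icc (by norm_num) (by norm_num))
  have hKc : ∀ n, IsCompact (K n) := by
    intro n
    have h2 : K n = Icc 0 1 ∩ (Mn mu P g n) ⁻¹' Ici (3 / 4) := by
      ext ξ; rfl
    rw [h2]
    exact isCompact_Icc.of_isClosed_subset
      ((hcont n).preimage_isClosed_of_isClosed isClosed_Icc isClosed_Ici) inter_subset_left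
  have hKne : ∀ n, (K n).Nonempty := by
    intro n
    by_contra hcon
    rw [not_nonempty_iff_eq_empty] at hcon
    have hM : ∀ ξ ∈ Icc (0 : ℝ) 1, Mn mu P g n ξ ≤ 3 / 4 := by
      intro ξ hξ
      by_contra hlt
      push Not at hlt
      have : ξ ∈ K n := ⟨hξ, hlt.le⟩
      rw [hcon] at this
      exact this
    have ht : Tendsto (fun N : ℕ => 84 / 100 + (n : ℝ) * 3 / (N : ℝ)) atTop (𝓝 (84 / 100 + 0)) :=
      tendsto_const_nhds.add (tendsto_const_div_atTop_nhds_zero_nat _)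
    have h1 : ∫ r, (∫ t in (1 / 100 : ℝ)..(99 / 100), chi P n (t, r)) ∂mu ≤ 84 / 100 + 0 := by
      refine ge_of_tendsto ht ?_
      filter_upwards [eventually_gt_atTop 0] with N hN
      exact grid' h P n hM N hN
    have h2 := hA n
    linarith
  have hKanti : ∀ n, K (n + 1) ⊆ K n := by
    intro n ξ hξ
    refine ⟨hξ.1, hξ.2.trans ?_⟩
    exact integral_mono (integrable_chi P _ (h.fam.meas ξ)) (integrable_chi P _ (h.fam.meas ξ))
      fun r => chi_anti P (Nat.le_succ n) _
  obtain ⟨ξ, hξ⟩ := IsCompact.nonempty_iInter_of_sequence_nonempty_isCompact_isClosed K hKanti hKne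
    (hKc 0) (fun n => (hKc n).isClosed)
  rw [mem_iInter] at hξ
  refine ⟨ξ, (hξ 0).1, ?_⟩
  have hms : MeasurableSet {r | (g ξ r, r) ∈ P} :=
    (measurable_graph (h.fam.meas ξ)) hP.measurableSet
  have ht : Tendsto (fun n => Mn mu P g n ξ) atTop (𝓝 (mu.real {r | (g ξ r, r) ∈ P})) := by
    rw [← integral_indicator_one hms]
    unfold Mn
    refine tendsto_integral_of_dominated_convergence (fun _ => (1 : ℝ)) (fun n =>
      (integrable_chi P n (h.fam.meas ξ)).aestronglyMeasurable) (integrable_const _)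
      (fun n => Eventually.of_forall fun r => ?_) (Eventually.of_forall fun r => ?_)
    · rw [Real.norm_eq_abs, abs_of_nonneg (chi_nonneg _ _ _)]
      exact chi_le_one _ _ _
    · have := tendsto_chi hP hne (g ξ r, r)
      simpa [indicator] using this
  have h1 : 3 / 4 ≤ mu.real {r | (g ξ r, r) ∈ P} := ge_of_tendsto' ht fun n => (hξ n).2
  have h2 : mu {r | (g ξ r, r) ∈ P} ≤ volume {r : ℝ | r ∈ Icc (0 : ℝ) 1 ∧ (ξ + k ξ r, r) ∈ P0} := by
    rw [mu, Measure.restrict_apply hms]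
    apply measure_mono
    rintro r ⟨hr1, hr2⟩
    exact ⟨hr2, hr1.1⟩
  refine le_trans ?_ h2
  exact (ENNReal.ofReal_le_iff_le_toReal (measure_ne_top _ _)).2 h1

end Crest.Agent.R102.Contact239
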