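import Crest.Agent.R102.BishopAsm_942
import Crest.Agent.R102.BishopDisc_120
import Crest.Agent.R102.ContactB_239
import Crest.Agent.R102.AeDeriv_532
import Crest.Agent.R102.Angular_966

/-!
# R102, T1-B, step 5: the Bishop disc (`Bishop120.Local`) is proved
-/

namespace Crest.Agent.R102.Bishop942

open Bishop120

/-- **The local Bishop disc over a closed set of positive measure.** -/
theorem bishop : Local :=
  BishopAsm942.local_of disc Contact239.contact_leaf Bishop532.aeDeriv Ang966.angular

end Crest.Agent.R102.Bishop942
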