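import Mathlib

/-!
# Lusin–Privalov uniqueness theorem (one fixed aperture, no class assumption)

`Cone a h x` is the open truncated Stolz angle with vertex `x : ℝ`.
`lusin_privalov`: a function holomorphic on an open set which contains a truncated cone at every
point of a set `E ⊆ ℝ` of positive outer measure, with limit `0` along these cones, vanishes
identically near some point.
Proof: sawtooth domain, explicit barrier, maximum principle.
-/

namespace Crest.Agent.R102.LP472

open MeasureTheory Set Filter Topology Complex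
open scoped Real

/-- truncated open cone with vertex `x` -/
def Cone (a h x : ℝ) : Set ℂ := {z | 0 < z.im ∧ z.im < h ∧ |z.re - x| < a * z.im}

theorem mem_Cone {a h x : ℝ} {z : ℂ} :
    z ∈ Cone a h x ↔ 0 < z.im ∧ z.im < h ∧ |z.re - x| < a * z.im := Iff.rfl

theorem isOpen_Cone (a h x : ℝ) : IsOpen (Cone a h x) := by
  have h1 : IsOpen {z : ℂ | 0 < z.im} := isOpen_lt continuous_const Complex.continuous_im
  have h2 : IsOpen {z : ℂ | z.im < h} := isOpen_lt Complex.continuous_im continuous_const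
  have h3 : IsOpen {z : ℂ | |z.re - x| < a * z.im} :=
    isOpen_lt ((Complex.continuous_re.sub continuous_const).abs)
      (continuous_const.mul Complex.continuous_im)
  exact h1.inter (h2.inter h3)

theorem Cone_mono {a h h' x : ℝ} (hh : h' ≤ h) : Cone a h' x ⊆ Cone a h x :=
  fun _ hz => ⟨hz.1, hz.2.1.trans_le hh, hz.2.2⟩

/-! ### the Poisson kernel of the upper half plane -/

/-- Poisson kernel at the point `u + i v`. -/
noncomputable def pk (u v t : ℝ) : ℝ := π⁻¹ * (v / ((t - u) ^ 2 + v ^ 2))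

theorem pk_eq {v : ℝ} (hv : 0 < v) (u t : ℝ) :
    pk u v t = π⁻¹ * v⁻¹ * (1 + ((t - u) / v) ^ 2)⁻¹ := by
  unfold pk
  have h1 : (t - u) ^ 2 + v ^ 2 ≠ 0 := by positivity
  have h2 : (1 + ((t - u) / v) ^ 2) ≠ 0 := by positivity
  have : v / ((t - u) ^ 2 + v ^ 2) = v⁻¹ * (1 + ((t - u) / v) ^ 2)⁻¹ := by
    field_simp
    ring
  rw [this]; ring

theorem pk_nonneg {v : ℝ} (hv : 0 < v) (u t : ℝ) : 0 ≤ pk u v t := by
  unfold pk; positivity

theorem integrable_pk {v : ℝ} (hv : 0 < v) (u : ℝ) : Integrable (pk u v) := by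
  have h0 := integrable_inv_one_add_sq
  have h1 : Integrable fun t : ℝ => (1 + (t / v) ^ 2)⁻¹ := h0.comp_div hv.ne'
  have h2 : Integrable fun t : ℝ => (1 + ((t - u) / v) ^ 2)⁻¹ := h1.comp_sub_right u
  have h3 := h2.const_mul (π⁻¹ * v⁻¹)
  refine h3.congr (Eventually.of_forall fun t => ?_)
  simp only [pk_eq hv]

theorem integral_pk {v : ℝ} (hv : 0 < v) (u : ℝ) : ∫ t, pk u v t = 1 := by
  simp only [pk_eq hv]
  rw [integral_const_mul]
  rw [integral_sub_right_eq_self (fun x : ℝ => (1 + (x / v) ^ 2)⁻¹) u,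
    Measure.integral_comp_div (fun x : ℝ => (1 + x ^ 2)⁻¹) v, integral_univ_inv_one_add_sq,
    abs_of_pos hv, smul_eq_mul]
  field_simp

theorem integral_pk_symm {v b : ℝ} (hv : 0 < v) (hb : 0 < b) (u : ℝ) :
    ∫ t in (u - b * v)..(u + b * v), pk u v t = 2 / π * Real.arctan b := by
  simp only [pk_eq hv]
  rw [intervalIntegral.integral_const_mul]
  have e1 : ∫ t in (u - b * v)..(u + b * v), (1 + ((t - u) / v) ^ 2)⁻¹
      = ∫ t in (-(b * v))..(b * v), (1 + (t / v) ^ 2)⁻¹ := by
    rw [intervalIntegral.integral_comp_sub_right (fun x : ℝ => (1 + (x / v) ^ 2)⁻¹) u]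
    congr 1 <;> ring
  rw [e1, intervalIntegral.integral_comp_div (fun x : ℝ => (1 + x ^ 2)⁻¹) hv.ne',
    integral_inv_one_add_sq]
  have e2 : -(b * v) / v = -b := by field_simp
  have e3 : b * v / v = b := by field_simp
  rw [e2, e3, Real.arctan_neg, smul_eq_mul]
  field_simp
  ring

/-- Poisson mass of a set is at most one. -/
theorem setIntegral_pk_le_one {v : ℝ} (hv : 0 < v) (u : ℝ) (S : Set ℝ) :
    ∫ t in S, pk u v t ≤ 1 := by
  rw [← integral_pk hv u]
  exact setIntegral_le_integral (integrable_pk hv u) (Eventually.of_forall (pk_nonneg hv u))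

theorem setIntegral_pk_le_of_disjoint {v b : ℝ} (hv : 0 < v) (hb : 0 < b) (u : ℝ) {K : Set ℝ}
    (hd : ∀ x ∈ K, b * v ≤ |u - x|) :
    ∫ t in K, pk u v t ≤ 1 - 2 / π * Real.arctan b := by
  have hI : ∫ t in Ioo (u - b * v) (u + b * v), pk u v t = 2 / π * Real.arctan b := by
    rw [← integral_pk_symm hv hb u, intervalIntegral.integral_of_le (by nlinarith),
      integral_Ioc_eq_integral_Ioo]
  have hdis : Disjoint K (Ioo (u - b * v) (u + b * v)) := by
    rw [Set.disjoint_left]
    intro x hx hx2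
    have h1 := hd x hx
    have h2 : |u - x| < b * v := by
      rw [abs_lt]; constructor <;> linarith [hx2.1, hx2.2]
    linarith
  have hU := setIntegral_union hdis measurableSet_Ioo (integrable_pk hv u).integrableOn
    (integrable_pk hv u).integrableOn
  have h1 := setIntegral_pk_le_one hv u (K ∪ Ioo (u - b * v) (u + b * v))
  rw [hU, hI] at h1
  linarith

/-- Poisson mass of the complement from the density: explicit bound. -/
theorem one_sub_pk_le {v b : ℝ} (hv : 0 < v) (hb : 0 < b) (u : ℝ) {K : Set ℝ}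
    (hK : MeasurableSet K) :
    1 - ∫ t in K, pk u v t ≤ (π * v)⁻¹ * volume.real (Icc (u - b * v) (u + b * v) \ K)
      + (1 - 2 / π * Real.arctan b) := by
  set I := Icc (u - b * v) (u + b * v) with hIdef
  have hI : ∫ t in I, pk u v t = 2 / π * Real.arctan b := by
    rw [← integral_pk_symm hv hb u, intervalIntegral.integral_of_le (by nlinarith),
      integral_Icc_eq_integral_Ioc]
  have hInt := integrable_pk hv u
  -- I = (I ∩ K) ∪ (I \ K)
  have h1 : ∫ t in I, pk u v t = (∫ t in I ∩ K, pk u v t) + ∫ t in I \ K, pk u v t :=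
    (integral_inter_add_sdiff hK hInt.integrableOn).symm
  have h2 : ∫ t in I ∩ K, pk u v t ≤ ∫ t in K, pk u v t :=
    setIntegral_mono_set hInt.integrableOn (Eventually.of_forall (pk_nonneg hv u))
      (LE.le.eventuallyLE inter_subset_right)
  have hfin : volume (I \ K) ≠ ⊤ := by
    refine ne_top_of_le_ne_top ?_ (measure_mono sdiff_subset)
    rw [hIdef, Real.volume_Icc]; exact ENNReal.ofReal_ne_top
  have h3 : ∫ t in I \ K, pk u v t ≤ (π * v)⁻¹ * volume.real (I \ K) := by
    have : ∫ t in I \ K, pk u v t ≤ ∫ _t in I \ K, (π * v)⁻¹ := by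
      refine setIntegral_mono hInt.integrableOn ?_ ?_
      · exact integrableOn_const hfin
      · intro t
        unfold pk
        have hpi := Real.pi_pos
        have : v / ((t - u) ^ 2 + v ^ 2) ≤ v⁻¹ := by
          rw [div_le_iff₀ (by positivity)]
          have : v⁻¹ * ((t - u) ^ 2 + v ^ 2) = v⁻¹ * (t - u) ^ 2 + v := by
            field_simp
          rw [this]
          have : 0 ≤ v⁻¹ * (t - u) ^ 2 := by positivity
          linarith
        calc π⁻¹ * (v / ((t - u) ^ 2 + v ^ 2)) ≤ π⁻¹ * v⁻¹ := by gcongr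
          _ = (π * v)⁻¹ := by rw [mul_inv]
    rw [setIntegral_const, smul_eq_mul, mul_comm] at this
    exact this
  rw [hI] at h1
  linarith

/-! ### the Cauchy type integral with real part the Poisson mass -/

/-- holomorphic function on the upper half plane whose real part is the Poisson mass of `K`. -/
noncomputable def Om (K : Set ℝ) (z : ℂ) : ℂ := (-(π : ℂ)⁻¹ * I) * ∫ t in K, ((t : ℂ) - z)⁻¹

theorem ofReal_sub_ne {z : ℂ} (hz : 0 < z.im) (t : ℝ) : (t : ℂ) - z ≠ 0 := by
  intro h
  have := congrArg Complex.im h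
  simp at this
  linarith

theorem integrableOn_cauchy {K : Set ℝ} (hK : IsCompact K) {z : ℂ} (hz : 0 < z.im) :
    IntegrableOn (fun t : ℝ => ((t : ℂ) - z)⁻¹) K := by
  apply ContinuousOn.integrableOn_compact hK
  apply Continuous.continuousOn
  exact (Complex.continuous_ofReal.sub continuous_const).inv₀ (ofReal_sub_ne hz)

theorem Om_re {K : Set ℝ} (hK : IsCompact K) {z : ℂ} (hz : 0 < z.im) :
    (Om K z).re = ∫ t in K, pk z.re z.im t := by
  unfold Om
  have hI := integrableOn_cauchy hK hz
  have h1 : ((-(π : ℂ)⁻¹ * I) * ∫ t in K, ((t : ℂ) - z)⁻¹).re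
      = π⁻¹ * (∫ t in K, ((t : ℂ) - z)⁻¹).im := by
    rw [Complex.mul_re]
    have e : (-(π : ℂ)⁻¹ * I) = ((-(π)⁻¹ : ℝ) : ℂ) * I := by push_cast; ring
    rw [e]
    simp
  rw [h1]
  have h2 : (∫ t in K, ((t : ℂ) - z)⁻¹).im = ∫ t in K, (((t : ℂ) - z)⁻¹).im := by
    have := (Complex.imCLM.integral_comp_comm hI)
    simpa using this.symm
  rw [h2, ← integral_const_mul]
  congr 1
  ext t
  unfold pk
  rw [Complex.inv_im]
  simp only [sub_im, ofReal_im, zero_sub, neg_neg, Complex.normSq_apply, sub_re, ofReal_re]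
  congr 2
  ring

theorem Om_differentiableAt {K : Set ℝ} (hK : IsCompact K) {z : ℂ} (hz : 0 < z.im) :
    DifferentiableAt ℂ (Om K) z := by
  unfold Om
  apply DifferentiableAt.const_mul
  -- differentiate under the integral
  set r := z.im / 2 with hr
  have hrpos : 0 < r := by positivity
  have hball : ∀ w ∈ Metric.ball z r, r ≤ w.im := by
    intro w hw
    have h1 : |w.im - z.im| ≤ ‖w - z‖ := by
      have := Complex.abs_im_le_norm (w - z); simpa using this
    have h2 : ‖w - z‖ < r := by simpa [dist_eq_norm] using hw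
    have := (abs_le.1 (h1.trans h2.le)).1
    rw [hr] at this ⊢
    linarith
  have key := hasDerivAt_integral_of_dominated_loc_of_deriv_le (μ := volume.restrict K)
    (F := fun (w : ℂ) (t : ℝ) => ((t : ℂ) - w)⁻¹)
    (F' := fun (w : ℂ) (t : ℝ) => (((t : ℂ) - w) ^ 2)⁻¹) (x₀ := z)
    (bound := fun _ => (r ^ 2)⁻¹) (s := Metric.ball z r) (Metric.ball_mem_nhds z hrpos)
    (Metric.isOpen_ball.eventually_mem (Metric.mem_ball_self hrpos) |>.mono fun w hw =>
      (integrableOn_cauchy hK (lt_of_lt_of_le hrpos (hball w hw))).aestronglyMeasurable)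
    (integrableOn_cauchy hK hz)
    (by
      have hc : Continuous fun t : ℝ => (((t : ℂ) - z) ^ 2)⁻¹ :=
        ((Complex.continuous_ofReal.sub continuous_const).pow 2).inv₀
          (fun t => pow_ne_zero 2 (ofReal_sub_ne hz t))
      exact hc.aestronglyMeasurable)
    (by
      refine Eventually.of_forall fun t w hw => ?_
      have h1 := hball w hw
      have h2 : r ≤ ‖(t : ℂ) - w‖ := by
        have h3 : |((t : ℂ) - w).im| ≤ ‖(t : ℂ) - w‖ := Complex.abs_im_le_norm _
        have h4 : |((t : ℂ) - w).im| = w.im := by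
          simp [abs_of_pos (lt_of_lt_of_le hrpos h1)]
        rw [h4] at h3; linarith
      rw [norm_inv, norm_pow]
      gcongr)
    (by
      have : IsFiniteMeasure (volume.restrict K) := ⟨by
        rw [Measure.restrict_apply_univ]; exact hK.measure_lt_top⟩
      exact integrable_const _)
    (by
      refine Eventually.of_forall fun t w hw => ?_
      have hne : (t : ℂ) - w ≠ 0 := ofReal_sub_ne (lt_of_lt_of_le hrpos (hball w hw)) t
      have h1 : HasDerivAt (fun w : ℂ => (t : ℂ) - w) (-1) w := by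
        simpa using (hasDerivAt_id w).const_sub (t : ℂ)
      have h2 : HasDerivAt (fun w : ℂ => ((t : ℂ) - w)⁻¹) (- -1 / ((t : ℂ) - w) ^ 2) w :=
        h1.inv hne
      have h3 : (- -1 / ((t : ℂ) - w) ^ 2) = (((t : ℂ) - w) ^ 2)⁻¹ := by
        rw [neg_neg, one_div]
      rw [h3] at h2
      exact h2)
  exact key.2.differentiableAt

/-! ### the barrier -/

/-- the barrier: `Re (G) = 1 - c⁻¹ (1 - ω(z,K)) - Im z / h`. -/
noncomputable def G (K : Set ℝ) (c h : ℝ) (z : ℂ) : ℂ :=
  (1 - c⁻¹ : ℝ) + (c⁻¹ : ℝ) * Om K z + I * z / (h : ℂ)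

theorem G_re {K : Set ℝ} (hK : IsCompact K) (c : ℝ) {h : ℝ} {z : ℂ} (hz : 0 < z.im) :
    (G K c h z).re = 1 - c⁻¹ * (1 - ∫ t in K, pk z.re z.im t) - z.im / h := by
  unfold G
  rw [Complex.add_re, Complex.add_re, Complex.re_ofReal_mul, Om_re hK hz, Complex.ofReal_re,
    Complex.div_ofReal_re]
  simp only [Complex.mul_re, Complex.I_re, Complex.I_im, zero_mul, one_mul, zero_sub]
  ring

theorem G_differentiableAt {K : Set ℝ} (hK : IsCompact K) (c h : ℝ) {z : ℂ} (hz : 0 < z.im) :
    DifferentiableAt ℂ (G K c h) z := by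
  unfold G
  have := Om_differentiableAt hK hz
  fun_prop

theorem G_re_le_one {K : Set ℝ} (hK : IsCompact K) {c h : ℝ} (hc : 0 < c) (hh : 0 < h) {z : ℂ}
    (hz : 0 < z.im) : (G K c h z).re ≤ 1 := by
  rw [G_re hK c hz]
  have h1 := setIntegral_pk_le_one hz z.re K
  have h2 : 0 ≤ c⁻¹ * (1 - ∫ t in K, pk z.re z.im t) := by
    apply mul_nonneg (by positivity); linarith
  have h3 : 0 ≤ z.im / h := by positivity
  linarith

theorem G_re_nonpos_top {K : Set ℝ} (hK : IsCompact K) {c h : ℝ} (hc : 0 < c) (hh : 0 < h) {z : ℂ}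
    (hz : h ≤ z.im) : (G K c h z).re ≤ 0 := by
  have hz0 : 0 < z.im := hh.trans_le hz
  rw [G_re hK c hz0]
  have h1 := setIntegral_pk_le_one hz0 z.re K
  have h2 : 0 ≤ c⁻¹ * (1 - ∫ t in K, pk z.re z.im t) := by
    apply mul_nonneg (by positivity); linarith
  have h3 : 1 ≤ z.im / h := by rwa [one_le_div hh]
  linarith

theorem G_re_nonpos_side {K : Set ℝ} (hK : IsCompact K) {b h : ℝ} (hb : 0 < b) (hh : 0 < h)
    {z : ℂ} (hz : 0 < z.im) (hd : ∀ x ∈ K, b * z.im ≤ |z.re - x|) :
    (G K (2 / π * Real.arctan b) h z).re ≤ 0 := by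
  have hc : 0 < 2 / π * Real.arctan b := by
    have := Real.pi_pos
    have := Real.arctan_pos.2 hb
    positivity
  rw [G_re hK _ hz]
  have h1 := setIntegral_pk_le_of_disjoint hz hb z.re hd
  have h2 : 1 ≤ (2 / π * Real.arctan b)⁻¹ * (1 - ∫ t in K, pk z.re z.im t) := by
    rw [inv_mul_eq_div, one_le_div hc]; linarith
  have h3 : 0 ≤ z.im / h := by positivity
  linarith

/-- near a density point of `K` the barrier is positive on the vertical. -/
theorem exists_G_re_pos {K : Set ℝ} (hK : IsCompact K) (hpos : volume K ≠ 0) {c h δ : ℝ}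
    (hc : 0 < c) (hh : 0 < h) (hδ : 0 < δ) :
    ∃ x ∈ K, ∃ y, 0 < y ∧ y < δ ∧ 0 < (G K c h (x + y * I)).re := by
  have hae := Besicovitch.ae_tendsto_measure_inter_div (μ := volume) K
  -- a density point in K
  have hex : ∃ x ∈ K, Tendsto (fun r => volume (K ∩ Metric.closedBall x r) /
      volume (Metric.closedBall x r)) (𝓝[>] 0) (𝓝 1) := by
    by_contra hcon
    push Not at hcon
    rw [ae_restrict_iff' hK.measurableSet] at hae
    have : ∀ᵐ x ∂(volume : Measure ℝ), x ∉ K := by
      filter_upwards [hae] with x hx hxK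
      exact hcon x hxK (hx hxK)
    have h0 : volume K = 0 := by
      have := measure_eq_zero_iff_ae_notMem.2 this
      exact this
    exact hpos h0
  obtain ⟨x, hxK, hx⟩ := hex
  refine ⟨x, hxK, ?_⟩
  -- choose b with 1 - 2/π arctan b small
  have hlim : Tendsto (fun b : ℝ => c⁻¹ * (1 - 2 / π * Real.arctan b)) atTop (𝓝 0) := by
    have h1 : Tendsto Real.arctan atTop (𝓝 (π / 2)) :=
      tendsto_nhds_of_tendsto_nhdsWithin Real.tendsto_arctan_atTop
    have h2 : Tendsto (fun b : ℝ => c⁻¹ * (1 - 2 / π * Real.arctan b)) atTop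
        (𝓝 (c⁻¹ * (1 - 2 / π * (π / 2)))) := (((h1.const_mul _).const_sub _).const_mul _)
    have h3 : c⁻¹ * (1 - 2 / π * (π / 2)) = 0 := by
      have := Real.pi_ne_zero
      field_simp; ring
    rwa [h3] at h2
  obtain ⟨b, hbpos, hb⟩ : ∃ b : ℝ, 0 < b ∧ c⁻¹ * (1 - 2 / π * Real.arctan b) < 1 / 4 := by
    have := (hlim.eventually (gt_mem_nhds (show (0 : ℝ) < 1 / 4 by norm_num))).and
      (eventually_gt_atTop 0)
    obtain ⟨b, h1, h2⟩ := this.exists
    exact ⟨b, h2, h1⟩
  -- deficiency of the density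
  set η : ℝ := c * π / (8 * b) with hη
  have hηpos : 0 < η := by have := Real.pi_pos; positivity
  have hdens : ∀ᶠ r in 𝓝[>] (0 : ℝ), volume.real (Icc (x - r) (x + r) \ K) ≤ η * (2 * r) / 2 := by
    have h1 : ∀ᶠ r in 𝓝[>] (0 : ℝ), ENNReal.ofReal (1 - η / 2) <
        volume (K ∩ Metric.closedBall x r) / volume (Metric.closedBall x r) := by
      apply hx.eventually (lt_mem_nhds _)
      rw [ENNReal.ofReal_lt_one]; linarith
    filter_upwards [h1, self_mem_nhdsWithin] with r hr hr0
    have hr0' : (0 : ℝ) < r := hr0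
    rw [Real.closedBall_eq_Icc] at hr
    have hvol : volume (Icc (x - r) (x + r)) = ENNReal.ofReal (2 * r) := by
      rw [Real.volume_Icc]; congr 1; ring
    have hfin : volume (Icc (x - r) (x + r)) ≠ ⊤ := by rw [hvol]; exact ENNReal.ofReal_ne_top
    have hfin2 : volume (K ∩ Icc (x - r) (x + r)) ≠ ⊤ :=
      ne_top_of_le_ne_top hfin (measure_mono inter_subset_right)
    have h2 : (1 - η / 2) * (2 * r) ≤ volume.real (K ∩ Icc (x - r) (x + r)) := by
      have h3 := hr.le
      rw [ENNReal.le_div_iff_mul_le (Or.inl (by rw [hvol]; simpa using hr0'))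
        (Or.inl hfin), hvol] at h3
      by_cases hs : 0 ≤ 1 - η / 2
      · rw [← ENNReal.ofReal_mul hs] at h3
        have := ENNReal.toReal_mono hfin2 h3
        rw [ENNReal.toReal_ofReal (by positivity)] at this
        exact this
      · have : (1 - η / 2) * (2 * r) ≤ 0 := by nlinarith
        exact this.trans measureReal_nonneg
    have h4 : volume.real (Icc (x - r) (x + r) \ K) =
        volume.real (Icc (x - r) (x + r)) - volume.real (K ∩ Icc (x - r) (x + r)) := by
      have := measureReal_inter_add_sdiff (μ := volume) (s := Icc (x - r) (x + r))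
        hK.measurableSet hfin
      rw [inter_comm] at this
      linarith
    rw [h4]
    have h5 : volume.real (Icc (x - r) (x + r)) = 2 * r := by
      rw [Measure.real, hvol, ENNReal.toReal_ofReal (by positivity)]
    rw [h5]
    nlinarith
  have hbr : Tendsto (fun y : ℝ => b * y) (𝓝[>] 0) (𝓝[>] 0) := by
    apply tendsto_nhdsWithin_of_tendsto_nhds_of_eventually_within
    · have : Tendsto (fun y : ℝ => b * y) (𝓝 0) (𝓝 (b * 0)) := (continuous_const_mul b).tendsto 0
      rw [mul_zero] at this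
      exact this.mono_left nhdsWithin_le_nhds
    · filter_upwards [self_mem_nhdsWithin] with y hy
      exact mul_pos hbpos hy
  have hE1 : ∀ᶠ y in 𝓝[>] (0 : ℝ), y ∈ Ioo 0 δ := Ioo_mem_nhdsGT hδ
  have hE2 : ∀ᶠ y in 𝓝[>] (0 : ℝ), y ∈ Ioo 0 (h / 4) :=
    Ioo_mem_nhdsGT (show (0 : ℝ) < h / 4 by positivity)
  have hfinal := (hbr.eventually hdens).and (hE1.and hE2)
  obtain ⟨y, hy1, hy2, hy3⟩ := hfinal.exists
  refine ⟨y, hy2.1, hy2.2, ?_⟩
  have hy0 : 0 < y := hy2.1
  have him : ((x : ℂ) + y * I).im = y := by simp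
  have hre : ((x : ℂ) + y * I).re = x := by simp
  rw [G_re hK c (by rw [him]; exact hy0), him, hre]
  have h1 := one_sub_pk_le hy0 hbpos x hK.measurableSet
  have h2 : (π * y)⁻¹ * volume.real (Icc (x - b * y) (x + b * y) \ K) ≤ (π * y)⁻¹ *
      (η * (2 * (b * y)) / 2) := by
    have := Real.pi_pos
    exact mul_le_mul_of_nonneg_left hy1 (by positivity)
  have h3 : (π * y)⁻¹ * (η * (2 * (b * y)) / 2) = c / 8 := by
    rw [hη]
    have := Real.pi_pos
    field_simp
  have h4 : c⁻¹ * (1 - ∫ t in K, pk x y t) ≤ c⁻¹ * (c / 8 + (1 - 2 / π * Real.arctan b)) := by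
    apply mul_le_mul_of_nonneg_left _ (by positivity)
    linarith
  have h5 : c⁻¹ * (c / 8 + (1 - 2 / π * Real.arctan b)) =
      1 / 8 + c⁻¹ * (1 - 2 / π * Real.arctan b) := by
    rw [mul_add]
    congr 1
    field_simp
  have h6 : y / h < 1 / 4 := by
    rw [div_lt_iff₀ hh]; linarith [hy3.2]
  linarith

/-! ### the core estimate on a sawtooth domain -/

/-- closed saw-tooth hull -/
def Hull (a h : ℝ) (K : Set ℝ) : Set ℂ := {z | 0 ≤ z.im ∧ z.im ≤ h ∧ ∃ x ∈ K, |z.re - x| ≤ a * z.im}

theorem isCompact_Hull {a h : ℝ} (ha : 0 < a) {K : Set ℝ} (hK : IsCompact K) :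
    IsCompact (Hull a h K) := by
  obtain ⟨R, hR⟩ := hK.isBounded.subset_closedBall 0
  have hcp : IsCompact ({p : ℂ × ℝ | 0 ≤ p.1.im ∧ p.1.im ≤ h ∧ p.2 ∈ K ∧
      |p.1.re - p.2| ≤ a * p.1.im}) := by
    apply Metric.isCompact_of_isClosed_isBounded
    · apply IsClosed.inter (isClosed_le continuous_const (Complex.continuous_im.comp continuous_fst))
      apply IsClosed.inter (isClosed_le (Complex.continuous_im.comp continuous_fst)
        continuous_const)
      apply IsClosed.inter (hK.isClosed.preimage continuous_snd)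
      exact isClosed_le (((Complex.continuous_re.comp continuous_fst).sub continuous_snd).abs)
        (continuous_const.mul (Complex.continuous_im.comp continuous_fst))
    · rw [isBounded_iff_forall_norm_le]
      refine ⟨max (|R| + a * |h| + |h|) |R|, ?_⟩
      rintro ⟨z, x⟩ ⟨h1, h2, h3, h4⟩
      have h5 : |x| ≤ R := by simpa [Real.norm_eq_abs] using hR h3
      have h5' : |x| ≤ |R| := h5.trans (le_abs_self R)
      simp only at h1 h2 h4
      have h6 : ‖z‖ ≤ |z.re| + |z.im| := Complex.norm_le_abs_re_add_abs_im z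
      have h7 : |z.re| ≤ |x| + a * z.im := by
        have := abs_add_le (z.re - x) x
        rw [sub_add_cancel] at this
        linarith
      have h8 : |z.im| ≤ |h| := by
        rw [abs_of_nonneg h1]; exact h2.trans (le_abs_self h)
      have h9 : a * z.im ≤ a * |h| := by
        apply mul_le_mul_of_nonneg_left (h2.trans (le_abs_self h)) ha.le
      rw [Prod.norm_def]
      apply max_le_max
      · linarith
      · simpa using h5'
  have : Hull a h K = Prod.fst '' ({p : ℂ × ℝ | 0 ≤ p.1.im ∧ p.1.im ≤ h ∧ p.2 ∈ K ∧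
      |p.1.re - p.2| ≤ a * p.1.im}) := by
    ext z
    constructor
    · rintro ⟨h1, h2, x, hx, h3⟩
      exact ⟨(z, x), ⟨h1, h2, hx, h3⟩, rfl⟩
    · rintro ⟨⟨w, x⟩, ⟨h1, h2, hx, h3⟩, rfl⟩
      exact ⟨h1, h2, x, hx, h3⟩
  rw [this]
  exact hcp.image continuous_fst

theorem core {V : Set ℂ} (hV : IsOpen V) {f : ℂ → ℂ} (hf : DifferentiableOn ℂ f V) {a h : ℝ}
    (ha : 0 < a) (hh : 0 < h) {K : Set ℝ} (hK : IsCompact K) (hpos : volume K ≠ 0)
    (hV1 : ∀ x ∈ K, Cone a h x ⊆ V) (hb : ∀ x ∈ K, ∀ z ∈ Cone a h x, ‖f z‖ ≤ 1)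
    (hu : ∀ j : ℕ, ∃ δ > 0, ∀ x ∈ K, ∀ z ∈ Cone a δ x, ‖f z‖ ≤ Real.exp (-j)) :
    ∃ z ∈ V, f =ᶠ[𝓝 z] 0 := by
  set c : ℝ := 2 / π * Real.arctan (a / 2) with hcdef
  have hc : 0 < c := by
    have := Real.pi_pos
    have := Real.arctan_pos.2 (show 0 < a / 2 by positivity)
    positivity
  set h' : ℝ := h / 2 with hh'
  have hh'0 : 0 < h' := by positivity
  set W : Set ℂ := ⋃ x ∈ K, Cone a h' x with hW
  have hWo : IsOpen W := isOpen_biUnion fun x _ => isOpen_Cone a h' x
  have hWsub : W ⊆ Hull a h' K := by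
    intro z hz
    simp only [hW, mem_iUnion, exists_prop] at hz
    obtain ⟨x, hx, h1, h2, h3⟩ := hz
    exact ⟨h1.le, h2.le, x, hx, h3.le⟩
  have hcl : closure W ⊆ Hull a h' K := closure_minimal hWsub (isCompact_Hull ha hK).isClosed
  have hbd : Bornology.IsBounded W := (isCompact_Hull ha hK).isBounded.subset hWsub
  -- main estimate
  have main : ∀ j : ℕ, ∀ z ∈ W, ‖f z‖ * Real.exp (j * (G K c h' z).re) ≤ 1 := by
    intro j z hz
    obtain ⟨δ, hδ, hδf⟩ := hu j
    have hzim : 0 < z.im := by
      simp only [hW, mem_iUnion, exists_prop] at hz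
      obtain ⟨x, hx, h1, h2, h3⟩ := hz
      exact h1
    have hzV : z ∈ V := by
      simp only [hW, mem_iUnion, exists_prop] at hz
      obtain ⟨x, hx, h1⟩ := hz
      exact hV1 x hx (Cone_mono (by rw [hh']; linarith) h1)
    -- the estimate for shifted functions
    have shift : ∀ s : ℝ, 0 < s → s < h / 2 → s < δ / 2 →
        ‖f (z + s * I) * Complex.exp (j * G K c h' (z + s * I))‖ ≤ 1 := by
      intro s hs hs1 hs2
      have imS : ∀ w : ℂ, (w + s * I).im = w.im + s := fun w => by simp
      have reS : ∀ w : ℂ, (w + s * I).re = w.re := fun w => by simp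
      have inCone : ∀ w ∈ Hull a h' K, ∃ x ∈ K, (w + s * I) ∈ Cone a h x ∧ |w.re - x| ≤ a * w.im := by
        rintro w ⟨h1, h2, x, hx, h3⟩
        refine ⟨x, hx, ⟨?_, ?_, ?_⟩, h3⟩
        · rw [imS]; linarith
        · rw [imS]; rw [hh'] at h2; linarith
        · rw [imS, reS]; nlinarith
      have hdiff : DifferentiableOn ℂ
          (fun w => f (w + s * I) * Complex.exp (j * G K c h' (w + s * I))) (closure W) := by
        intro w hw
        have hw' := hcl hw
        obtain ⟨x, hx, hwx, _⟩ := inCone w hw'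
        have hwV : w + s * I ∈ V := hV1 x hx hwx
        have hfd : DifferentiableAt ℂ f (w + s * I) := hf.differentiableAt (hV.mem_nhds hwV)
        have hsh : DifferentiableAt ℂ (fun w : ℂ => w + s * I) w := by fun_prop
        have hGd : DifferentiableAt ℂ (G K c h') (w + s * I) :=
          G_differentiableAt hK c h' (by rw [imS]; have := hw'.1; linarith)
        have e1 : DifferentiableAt ℂ (fun w : ℂ => f (w + s * I)) w :=
          DifferentiableAt.comp w hfd hsh
        have e2 : DifferentiableAt ℂ (fun w : ℂ => G K c h' (w + s * I)) w :=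
          DifferentiableAt.comp (g := G K c h') (f := fun w : ℂ => w + s * I) w hGd hsh
        exact (e1.mul ((e2.const_mul _).cexp)).differentiableWithinAt
      have hfr : ∀ w ∈ frontier W,
          ‖f (w + s * I) * Complex.exp (j * G K c h' (w + s * I))‖ ≤ 1 := by
        intro w hw
        have hwcl : w ∈ closure W := frontier_subset_closure hw
        have hwn : w ∉ W := by
          have := hw.2
          rwa [hWo.interior_eq] at this
        obtain ⟨h1, h2, _⟩ := hcl hwcl
        obtain ⟨x, hx, hwx, h3⟩ := inCone w (hcl hwcl)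
        rw [norm_mul, Complex.norm_exp]
        have hre : ((j : ℂ) * G K c h' (w + s * I)).re = j * (G K c h' (w + s * I)).re := by
          have : ((j : ℂ)) = ((j : ℝ) : ℂ) := by simp
          rw [this, Complex.re_ofReal_mul]
        rw [hre]
        have him : 0 < (w + s * I).im := by rw [imS]; linarith
        rcases lt_or_ge w.im s with hlt | hge
        · -- close to the real axis
          have hf1 : ‖f (w + s * I)‖ ≤ Real.exp (-j) := by
            apply hδf x hx
            refine ⟨him, ?_, hwx.2.2⟩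
            rw [imS]; linarith
          have hG1 := G_re_le_one hK hc hh'0 him
          have hj : (0 : ℝ) ≤ j := Nat.cast_nonneg j
          calc ‖f (w + s * I)‖ * Real.exp (j * (G K c h' (w + s * I)).re)
              ≤ Real.exp (-j) * Real.exp (j * 1) := by
                gcongr
            _ = 1 := by rw [← Real.exp_add]; simp
        · -- far from the real axis : the barrier is nonpositive
          have hf1 : ‖f (w + s * I)‖ ≤ 1 := hb x hx _ hwx
          have hG1 : (G K c h' (w + s * I)).re ≤ 0 := by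
            rcases le_or_gt h' w.im with h5 | h5
            · exact G_re_nonpos_top hK hc hh'0 (by rw [imS]; linarith)
            · apply G_re_nonpos_side hK (by positivity) hh'0 him
              intro t ht
              rw [imS, reS]
              have h6 : w ∉ Cone a h' t := fun hcon => hwn (by
                simp only [hW, mem_iUnion, exists_prop]; exact ⟨t, ht, hcon⟩)
              have h7 : a * w.im ≤ |w.re - t| := by
                by_contra hcon
                push Not at hcon
                exact h6 ⟨by linarith, h5, hcon⟩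
              nlinarith
          have hj : (0 : ℝ) ≤ j := Nat.cast_nonneg j
          calc ‖f (w + s * I)‖ * Real.exp (j * (G K c h' (w + s * I)).re)
              ≤ 1 * Real.exp 0 := by
                gcongr
                nlinarith
            _ = 1 := by simp
      exact Complex.norm_le_of_forall_mem_frontier_norm_le hbd hdiff.diffContOnCl hfr
        (subset_closure hz)
    -- let s → 0
    have hcont : ContinuousAt (fun s : ℝ => ‖f (z + s * I) * Complex.exp (j * G K c h' (z + s * I))‖)
        0 := by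
      have hsh : ContinuousAt (fun s : ℝ => z + (s : ℂ) * I) 0 := by fun_prop
      have hz0 : z + ((0 : ℝ) : ℂ) * I = z := by simp
      have hfc : ContinuousAt f (z + ((0 : ℝ) : ℂ) * I) := by
        rw [hz0]; exact (hf.differentiableAt (hV.mem_nhds hzV)).continuousAt
      have hGc : ContinuousAt (G K c h') (z + ((0 : ℝ) : ℂ) * I) := by
        rw [hz0]; exact (G_differentiableAt hK c h' hzim).continuousAt
      have e1 : ContinuousAt (fun s : ℝ => f (z + (s : ℂ) * I)) 0 :=
        ContinuousAt.comp (f := fun s : ℝ => z + (s : ℂ) * I) hfc hsh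
      have e2 : ContinuousAt (fun s : ℝ => G K c h' (z + (s : ℂ) * I)) 0 :=
        ContinuousAt.comp (f := fun s : ℝ => z + (s : ℂ) * I) hGc hsh
      exact (e1.mul ((continuousAt_const.mul e2).cexp)).norm
    have hlim : Tendsto (fun s : ℝ => ‖f (z + s * I) * Complex.exp (j * G K c h' (z + s * I))‖)
        (𝓝[>] 0) (𝓝 ‖f z * Complex.exp (j * G K c h' z)‖) := by
      have := hcont.tendsto
      simp only [Complex.ofReal_zero, zero_mul, add_zero] at this
      exact this.mono_left nhdsWithin_le_nhds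
    have hle : ‖f z * Complex.exp (j * G K c h' z)‖ ≤ 1 := by
      apply le_of_tendsto hlim
      have hE1 : ∀ᶠ y in 𝓝[>] (0 : ℝ), y ∈ Ioo 0 (h / 2) :=
        Ioo_mem_nhdsGT (by positivity)
      have hE2 : ∀ᶠ y in 𝓝[>] (0 : ℝ), y ∈ Ioo 0 (δ / 2) := Ioo_mem_nhdsGT (by positivity)
      filter_upwards [hE1, hE2] with s hs1 hs2
      exact shift s hs1.1 hs1.2 hs2.2
    rw [norm_mul, Complex.norm_exp] at hle
    have hre : ((j : ℂ) * G K c h' z).re = j * (G K c h' z).re := by
      have : ((j : ℂ)) = ((j : ℝ) : ℂ) := by simp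
      rw [this, Complex.re_ofReal_mul]
    rwa [hre] at hle
  -- vanishing where the barrier is positive
  have vanish : ∀ z ∈ W, 0 < (G K c h' z).re → f z = 0 := by
    intro z hz hg
    by_contra hne
    have hn : 0 < ‖f z‖ := norm_pos_iff.2 hne
    have hT : Tendsto (fun j : ℕ => ‖f z‖ * Real.exp (j * (G K c h' z).re)) atTop atTop := by
      apply Tendsto.const_mul_atTop hn
      apply Real.tendsto_exp_atTop.comp
      exact Tendsto.atTop_mul_const hg tendsto_natCast_atTop_atTop
    obtain ⟨j, hj⟩ := (hT.eventually (eventually_gt_atTop 1)).exists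
    exact absurd (main j z hz) (not_le.2 hj)
  obtain ⟨x, hxK, y, hy0, hy1, hg⟩ := exists_G_re_pos hK hpos hc hh'0 (δ := h') hh'0
  have him : ((x : ℂ) + y * I).im = y := by simp
  have hre : ((x : ℂ) + y * I).re = x := by simp
  have hzc : ((x : ℂ) + y * I) ∈ Cone a h' x := by
    refine ⟨by rw [him]; exact hy0, by rw [him]; exact hy1, ?_⟩
    rw [him, hre]; simp; positivity
  have hzW : ((x : ℂ) + y * I) ∈ W := by
    simp only [hW, mem_iUnion, exists_prop]; exact ⟨x, hxK, hzc⟩
  refine ⟨(x : ℂ) + y * I, hV1 x hxK (Cone_mono (by rw [hh']; linarith) hzc), ?_⟩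
  have hGc : ContinuousAt (fun z => (G K c h' z).re) ((x : ℂ) + y * I) :=
    (Complex.continuous_re.continuousAt).comp
      (G_differentiableAt hK c h' (by rw [him]; exact hy0)).continuousAt
  filter_upwards [hWo.mem_nhds hzW, hGc.eventually (lt_mem_nhds hg)] with w hw1 hw2
  exact vanish w hw1 hw2

/-! ### the theorem -/

theorem lusin_privalov {V : Set ℂ} (hV : IsOpen V) {f : ℂ → ℂ} (hf : DifferentiableOn ℂ f V)
    {a : ℝ} (ha : 0 < a) {E : Set ℝ} (hE : volume E ≠ 0)
    (hlim : ∀ x ∈ E, ∃ h > 0, Cone a h x ⊆ V ∧ Tendsto f (𝓝[Cone a h x] (x : ℂ)) (𝓝 0)) :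
    ∃ z ∈ V, f =ᶠ[𝓝 z] 0 := by
  -- the closed sets
  set F : ℕ → ℕ → Set ℝ := fun j k =>
    {x | ∀ z ∈ Cone a (1 / (k + 1)) x, z ∈ V ∧ ‖f z‖ ≤ Real.exp (-j)} with hF
  have hFcl : ∀ j k, IsClosed (F j k) := by
    intro j k
    apply IsSeqClosed.isClosed
    intro xs x hxs hx z hz
    have h1 : ∀ᶠ n in atTop, z ∈ Cone a (1 / (k + 1)) (xs n) := by
      have h2 : Tendsto (fun n => |z.re - xs n|) atTop (𝓝 |z.re - x|) :=
        (tendsto_const_nhds.sub hx).abs
      filter_upwards [h2.eventually (gt_mem_nhds hz.2.2)] with n hn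
      exact ⟨hz.1, hz.2.1, hn⟩
    obtain ⟨n, hn⟩ := h1.exists
    exact hxs n z hn
  have hFmono : ∀ j, Monotone (F j) := by
    intro j k l hkl x hx z hz
    apply hx z
    refine Cone_mono ?_ hz
    apply one_div_le_one_div_of_le (by positivity)
    have : (k : ℝ) ≤ l := by exact_mod_cast hkl
    linarith
  have hEF : ∀ x ∈ E, ∀ j, ∃ k, x ∈ F j k := by
    intro x hx j
    obtain ⟨h, hh, hcV, hlimx⟩ := hlim x hx
    have h1 : ∀ᶠ z in 𝓝[Cone a h x] (x : ℂ), ‖f z‖ < Real.exp (-j) := by
      have := hlimx.norm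
      rw [norm_zero] at this
      exact this.eventually (gt_mem_nhds (Real.exp_pos _))
    rw [Filter.Eventually, Metric.mem_nhdsWithin_iff] at h1
    obtain ⟨r, hr, hsub⟩ := h1
    obtain ⟨k, hk⟩ := exists_nat_one_div_lt (show 0 < min h (r / (a + 1)) by positivity)
    refine ⟨k, fun z hz => ?_⟩
    have hzc : z ∈ Cone a h x := Cone_mono (hk.le.trans (min_le_left _ _)) hz
    refine ⟨hcV hzc, ?_⟩
    have hzr : z ∈ Metric.ball (x : ℂ) r := by
      rw [Metric.mem_ball, dist_eq_norm]
      have e1 : ‖z - x‖ ≤ |(z - x).re| + |(z - x).im| := Complex.norm_le_abs_re_add_abs_im _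
      simp only [sub_re, ofReal_re, sub_im, ofReal_im, sub_zero] at e1
      rw [abs_of_pos hz.1] at e1
      have e2 : z.im < r / (a + 1) := hz.2.1.trans (hk.trans_le (min_le_right _ _))
      rw [lt_div_iff₀ (by positivity)] at e2
      have e3 := hz.2.2
      linarith
    exact (hsub ⟨hzr, hzc⟩).le
  -- bounded measurable piece of positive measure
  have hpiece : ∃ R : ℕ, volume (E ∩ Icc (-(R : ℝ)) R) ≠ 0 := by
    by_contra hcon
    push Not at hcon
    apply hE
    have : E ⊆ ⋃ R : ℕ, E ∩ Icc (-(R : ℝ)) R := by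
      intro x hx
      obtain ⟨R, hR⟩ := exists_nat_ge |x|
      rw [mem_iUnion]
      exact ⟨R, hx, (abs_le.1 hR).1, (abs_le.1 hR).2⟩
    exact measure_mono_null this (measure_iUnion_null hcon)
  obtain ⟨R, hR⟩ := hpiece
  set S : Set ℝ := Icc (-(R : ℝ)) R ∩ ⋂ j, ⋃ k, F j k with hS
  have hSpos : volume S ≠ 0 := by
    intro h0
    apply hR
    refine measure_mono_null ?_ h0
    rintro x ⟨hx1, hx2⟩
    refine ⟨hx2, mem_iInter.2 fun j => mem_iUnion.2 (hEF x hx1 j)⟩
  have hSmeas : MeasurableSet S :=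
    measurableSet_Icc.inter (MeasurableSet.iInter fun j => MeasurableSet.iUnion fun k =>
      (hFcl j k).measurableSet)
  have hSfin : volume S ≠ ⊤ :=
    ne_top_of_le_ne_top (by rw [Real.volume_Icc]; exact ENNReal.ofReal_ne_top)
      (measure_mono inter_subset_left)
  obtain ⟨ε, hεpos, hεsum⟩ := ENNReal.exists_pos_sum_of_countable' hSpos ℕ
  have hk : ∀ j, ∃ k, volume (S \ F j k) < ε j := by
    intro j
    have h1 : Tendsto (fun k => volume (S \ F j k)) atTop (𝓝 (volume (⋂ k, S \ F j k))) := by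
      apply tendsto_measure_iInter_atTop
      · intro k; exact (hSmeas.diff (hFcl j k).measurableSet).nullMeasurableSet
      · intro k l hkl
        exact sdiff_subset_sdiff_right (hFmono j hkl)
      · exact ⟨0, ne_top_of_le_ne_top hSfin (measure_mono sdiff_subset)⟩
    have h2 : ⋂ k, S \ F j k = ∅ := by
      rw [eq_empty_iff_forall_notMem]
      intro x hx
      rw [mem_iInter] at hx
      have := (hx 0).1.2
      rw [mem_iInter] at this
      obtain ⟨k, hk⟩ := mem_iUnion.1 (this j)
      exact (hx k).2 hk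
    rw [h2, measure_empty] at h1
    exact (h1.eventually (gt_mem_nhds (hεpos j))).exists
  choose k hk using hk
  set K : Set ℝ := Icc (-(R : ℝ)) R ∩ ⋂ j, F j (k j) with hK
  have hKc : IsCompact K := isCompact_Icc.inter_right (isClosed_iInter fun j => hFcl j (k j))
  have hKpos : volume K ≠ 0 := by
    intro h0
    have h1 : S ⊆ K ∪ ⋃ j, (S \ F j (k j)) := by
      intro x hx
      by_cases hxK : x ∈ K
      · exact Or.inl hxK
      · right
        have : ∃ j, x ∉ F j (k j) := by
          by_contra hcon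
          push Not at hcon
          exact hxK ⟨hx.1, mem_iInter.2 hcon⟩
        obtain ⟨j, hj⟩ := this
        exact mem_iUnion.2 ⟨j, hx, hj⟩
    have h2 : volume S ≤ ∑' j, ε j := by
      calc volume S ≤ volume (K ∪ ⋃ j, (S \ F j (k j))) := measure_mono h1
        _ ≤ volume K + volume (⋃ j, (S \ F j (k j))) := measure_union_le _ _
        _ ≤ 0 + ∑' j, volume (S \ F j (k j)) := by
            rw [h0]; gcongr; exact measure_iUnion_le _
        _ ≤ ∑' j, ε j := by
            rw [zero_add]; exact ENNReal.tsum_le_tsum fun j => (hk j).le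
    exact absurd hεsum (not_lt.2 h2)
  have hKF : ∀ x ∈ K, ∀ j, x ∈ F j (k j) := fun x hx j => mem_iInter.1 hx.2 j
  refine core hV hf ha (h := 1 / (k 0 + 1)) (by positivity) hKc hKpos ?_ ?_ ?_
  · intro x hx z hz
    exact (hKF x hx 0 z hz).1
  · intro x hx z hz
    have := (hKF x hx 0 z hz).2
    simpa using this
  · intro j
    exact ⟨1 / (k j + 1), by positivity, fun x hx z hz => (hKF x hx j z hz).2⟩

end Crest.Agent.R102.LP472
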