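import Mathlib
import Crest.Agent.R102.LP_472

/-!
# Row 102, classical input (F3): the Bloch-exponential lemma (helper682)

`S h = {0 < Im z < h}`, `G` holomorphic on `S h`, `‖G'(z)‖ ≤ B / Im z`, `G (z+1) = G z + τ i`.

* `mean_growth` : `∫_c^{c+1} exp (p Re G(x+iy)) dx ≤ C y^{-p/2}` for `p B² ≤ 1/2`.
* `ae_summable` : for a.e. `x` the sum `∑ y_n exp (Re G (x + i y_n))`, `y_n = h 2^{-n-1}`, is finite.
* `ae_ntlim` : every `f` with `f' = exp G` on `S h` has, for a.e. real `x`, a nontangential limit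
  (all apertures) at `x`.
-/

set_option autoImplicit false

open MeasureTheory Filter Topology Set Metric
open scoped ComplexConjugate

noncomputable section

namespace Crest.Agent.R102.BE682

/-- the strip `0 < Im z < h` -/
def S (h : ℝ) : Set ℂ := {z | 0 < z.im ∧ z.im < h}

theorem isOpen_S (h : ℝ) : IsOpen (S h) :=
  (isOpen_lt continuous_const Complex.continuous_im).inter
    (isOpen_lt Complex.continuous_im continuous_const)

/-- the point `x + i y` -/
def pt (x y : ℝ) : ℂ := ⟨x, y⟩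

@[simp] theorem pt_re (x y : ℝ) : (pt x y).re = x := rfl
@[simp] theorem pt_im (x y : ℝ) : (pt x y).im = y := rfl

theorem pt_eq (x y : ℝ) : pt x y = x + y * Complex.I := by
  apply Complex.ext <;> simp [pt]

theorem pt_mem {h x y : ℝ} (h1 : 0 < y) (h2 : y < h) : pt x y ∈ S h := ⟨h1, h2⟩

theorem continuous_pt : Continuous fun q : ℝ × ℝ => pt q.1 q.2 := by
  have : (fun q : ℝ × ℝ => pt q.1 q.2) = fun q : ℝ × ℝ => (q.1 : ℂ) + q.2 * Complex.I :=
    funext fun q => pt_eq _ _
  rw [this]; fun_prop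

theorem hasDerivAt_pt_y (x y : ℝ) : HasDerivAt (fun y : ℝ => pt x y) Complex.I y := by
  have : (fun y : ℝ => pt x y) = fun y : ℝ => (x : ℂ) + y * Complex.I := funext fun y => pt_eq _ _
  rw [this]
  have h := (Complex.ofRealCLM.hasDerivAt (x := y)).mul_const Complex.I
  simpa using h.const_add (x : ℂ)

theorem hasDerivAt_pt_x (x y : ℝ) : HasDerivAt (fun x : ℝ => pt x y) 1 x := by
  have : (fun x : ℝ => pt x y) = fun x : ℝ => (x : ℂ) + y * Complex.I := funext fun x => pt_eq _ _
  rw [this]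
  have h := (Complex.ofRealCLM.hasDerivAt (x := x)).add_const (y * Complex.I)
  simpa using h

/-! ## differentiation under the integral -/

theorem hasDerivAt_param {c y₀ ε : ℝ} (hε : 0 < ε) {φ φ' : ℝ → ℝ → ℝ}
    (hφ : ContinuousOn (fun q : ℝ × ℝ => φ q.1 q.2) (Icc c (c + 1) ×ˢ Icc (y₀ - ε) (y₀ + ε)))
    (hφ' : ContinuousOn (fun q : ℝ × ℝ => φ' q.1 q.2) (Icc c (c + 1) ×ˢ Icc (y₀ - ε) (y₀ + ε)))
    (hd : ∀ x ∈ Icc c (c + 1), ∀ y ∈ Ioo (y₀ - ε) (y₀ + ε), HasDerivAt (φ x) (φ' x y) y) :
    HasDerivAt (fun y => ∫ x in c..(c + 1), φ x y) (∫ x in c..(c + 1), φ' x y₀) y₀ := by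
  obtain ⟨C, hC⟩ := (isCompact_Icc.prod isCompact_Icc).exists_bound_of_continuousOn hφ'
  have hsec : ∀ {ψ : ℝ → ℝ → ℝ}, ContinuousOn (fun q : ℝ × ℝ => ψ q.1 q.2)
      (Icc c (c + 1) ×ˢ Icc (y₀ - ε) (y₀ + ε)) → ∀ y ∈ Icc (y₀ - ε) (y₀ + ε),
      ContinuousOn (fun x => ψ x y) (Icc c (c + 1)) := fun {ψ} hψ y hy =>
    hψ.comp (by fun_prop : Continuous fun x : ℝ => (x, y)).continuousOn fun x hx => ⟨hx, hy⟩
  have hcc : c ≤ c + 1 := by linarith
  have hu : uIoc c (c + 1) ⊆ Icc c (c + 1) := by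
    rw [uIoc_of_le hcc]; exact Ioc_subset_Icc_self
  have hy0 : y₀ ∈ Icc (y₀ - ε) (y₀ + ε) := ⟨by linarith, by linarith⟩
  refine (intervalIntegral.hasDerivAt_integral_of_dominated_loc_of_deriv_le
    (F := fun y x => φ x y) (F' := fun y x => φ' x y) (x₀ := y₀) (s := Ioo (y₀ - ε) (y₀ + ε))
    (bound := fun _ => C) (Ioo_mem_nhds (by linarith) (by linarith)) ?_ ?_ ?_ ?_ ?_ ?_).2
  · filter_upwards [Ioo_mem_nhds (by linarith : y₀ - ε < y₀) (by linarith : y₀ < y₀ + ε)] with y hy
    exact ((hsec hφ y (Ioo_subset_Icc_self hy)).mono hu).aestronglyMeasurable measurableSet_uIoc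
  · exact ((hsec hφ y₀ hy0).mono (by rw [uIcc_of_le hcc])).intervalIntegrable
  · exact ((hsec hφ' y₀ hy0).mono hu).aestronglyMeasurable measurableSet_uIoc
  · exact Eventually.of_forall fun x hx y hy => hC (x, y) ⟨hu hx, Ioo_subset_Icc_self hy⟩
  · exact intervalIntegrable_const
  · exact Eventually.of_forall fun x hx y hy => hd x (hu hx) y hy

/-! ## the integral mean -/

section mean

variable {h B τ : ℝ} {H : ℂ → ℂ} {k : ℂ}

/-- `∫ |H|²` on the segment at height `y` -/
def Im0 (H : ℂ → ℂ) (c y : ℝ) : ℝ := ∫ x in c..(c + 1), Complex.normSq (H (pt x y))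

/-- its derivative -/
def Im1 (H : ℂ → ℂ) (c y : ℝ) : ℝ :=
  ∫ x in c..(c + 1), -2 * (conj (H (pt x y)) * deriv H (pt x y)).im

/-- the second derivative -/
def Im2 (H : ℂ → ℂ) (c y : ℝ) : ℝ := ∫ x in c..(c + 1), 4 * Complex.normSq (deriv H (pt x y))

theorem cont_rect {f : ℂ → ℂ} (hf : ContinuousOn f (S h)) {c y₀ ε : ℝ} (h1 : 0 < y₀ - ε)
    (h2 : y₀ + ε < h) :
    ContinuousOn (fun q : ℝ × ℝ => f (pt q.1 q.2)) (Icc c (c + 1) ×ˢ Icc (y₀ - ε) (y₀ + ε)) :=
  hf.comp continuous_pt.continuousOn fun _ hq =>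
    pt_mem (h1.trans_le hq.2.1) (hq.2.2.trans_lt h2)

theorem exists_eps {y : ℝ} (h1 : 0 < y) (h2 : y < h) : ∃ ε > 0, 0 < y - ε ∧ y + ε < h := by
  refine ⟨min y (h - y) / 2, by have := lt_min h1 (sub_pos.2 h2); positivity, ?_, ?_⟩
  · have := min_le_left y (h - y); linarith
  · have := min_le_right y (h - y); linarith

theorem hasDerivAt_Im0 (hH : DifferentiableOn ℂ H (S h)) (c : ℝ) {y : ℝ} (h1 : 0 < y)
    (h2 : y < h) : HasDerivAt (Im0 H c) (Im1 H c y) y := by
  obtain ⟨ε, hε, e1, e2⟩ := exists_eps h1 h2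
  have hcd : ContinuousOn (deriv H) (S h) := (hH.deriv (isOpen_S h)).continuousOn
  have a1 := cont_rect hH.continuousOn (c := c) e1 e2
  have a2 := cont_rect hcd (c := c) e1 e2
  refine hasDerivAt_param hε (φ := fun x y => Complex.normSq (H (pt x y)))
    (φ' := fun x y => -2 * (conj (H (pt x y)) * deriv H (pt x y)).im) ?_ ?_ ?_
  · exact Complex.continuous_normSq.comp_continuousOn a1
  · exact continuousOn_const.mul (Complex.continuous_im.comp_continuousOn
      ((Complex.continuous_conj.comp_continuousOn a1).mul a2))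
  · intro x hx t ht
    have hm : pt x t ∈ S h := pt_mem (e1.trans ht.1) (ht.2.trans e2)
    have b1 : HasDerivAt (fun t => H (pt x t)) (deriv H (pt x t) * Complex.I) t :=
      ((hH.differentiableAt ((isOpen_S h).mem_nhds hm)).hasDerivAt).comp t (hasDerivAt_pt_y x t)
    have b2 : HasDerivAt (fun t => (H (pt x t)).re) ((deriv H (pt x t) * Complex.I).re) t :=
      Complex.reCLM.hasFDerivAt.comp_hasDerivAt t b1
    have b3 : HasDerivAt (fun t => (H (pt x t)).im) ((deriv H (pt x t) * Complex.I).im) t :=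
      Complex.imCLM.hasFDerivAt.comp_hasDerivAt t b1
    have b4 := (b2.mul b2).add (b3.mul b3)
    refine (b4.congr_deriv ?_).congr_of_eventuallyEq (Eventually.of_forall fun t => ?_)
    · simp only [Complex.mul_re, Complex.mul_im, Complex.I_re, Complex.I_im, Complex.conj_re,
        Complex.conj_im]
      ring
    · simp only [Complex.normSq_apply, Pi.add_apply, Pi.mul_apply]

/-- quasi-periodicity passes to the derivative -/
theorem deriv_per (hk : ∀ z ∈ S h, H (z + 1) = k * H z) {z : ℂ} (hz : z ∈ S h) :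
    deriv H (z + 1) = k * deriv H z := by
  have h1 : (fun w => H (w + 1)) =ᶠ[𝓝 z] fun w => k * H w := by
    filter_upwards [(isOpen_S h).mem_nhds hz] with w hw using hk w hw
  have h2 := h1.deriv_eq
  rw [deriv_comp_add_const] at h2
  rw [h2]
  exact deriv_const_mul_field k

theorem hasDerivAt_Im1 (hH : DifferentiableOn ℂ H (S h)) (hk : ∀ z ∈ S h, H (z + 1) = k * H z)
    (hk1 : ‖k‖ = 1) (c : ℝ) {y : ℝ} (h1 : 0 < y) (h2 : y < h) :
    HasDerivAt (Im1 H c) (Im2 H c y) y := by
  obtain ⟨ε, hε, e1, e2⟩ := exists_eps h1 h2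
  have hd1 : DifferentiableOn ℂ (deriv H) (S h) := hH.deriv (isOpen_S h)
  have hd2 : DifferentiableOn ℂ (deriv (deriv H)) (S h) := hd1.deriv (isOpen_S h)
  have a1 := cont_rect hH.continuousOn (c := c) e1 e2
  have a2 := cont_rect hd1.continuousOn (c := c) e1 e2
  have a3 := cont_rect hd2.continuousOn (c := c) e1 e2
  have key := hasDerivAt_param hε
    (φ := fun x y => -2 * (conj (H (pt x y)) * deriv H (pt x y)).im)
    (φ' := fun x y => 2 * Complex.normSq (deriv H (pt x y)) -
      2 * (conj (H (pt x y)) * deriv (deriv H) (pt x y)).re)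
    (continuousOn_const.mul (Complex.continuous_im.comp_continuousOn
      ((Complex.continuous_conj.comp_continuousOn a1).mul a2)))
    ((continuousOn_const.mul (Complex.continuous_normSq.comp_continuousOn a2)).sub
      (continuousOn_const.mul (Complex.continuous_re.comp_continuousOn
        ((Complex.continuous_conj.comp_continuousOn a1).mul a3)))) ?_
  · refine key.congr_deriv ?_
    -- integration by parts in `x`
    have hm : ∀ x, pt x y ∈ S h := fun x => pt_mem h1 h2
    have hcs : ∀ {f : ℂ → ℂ}, ContinuousOn f (S h) → Continuous fun x : ℝ => f (pt x y) :=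
      fun {f} hf => continuous_iff_continuousAt.2 fun x =>
        (hf.continuousAt ((isOpen_S h).mem_nhds (hm x))).comp
          (f := fun x : ℝ => pt x y) (by
            have : (fun x : ℝ => pt x y) = fun x : ℝ => (x : ℂ) + y * Complex.I :=
              funext fun x => pt_eq _ _
            rw [this]; fun_prop)
    have c1 := hcs hH.continuousOn
    have c2 := hcs hd1.continuousOn
    have c3 := hcs hd2.continuousOn
    have d0 : ∀ x, HasDerivAt (fun x : ℝ => conj (H (pt x y)) * deriv H (pt x y))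
        (conj (deriv H (pt x y)) * deriv H (pt x y) +
          conj (H (pt x y)) * deriv (deriv H) (pt x y)) x := by
      intro x
      have b1 : HasDerivAt (fun x => H (pt x y)) (deriv H (pt x y) * 1) x :=
        ((hH.differentiableAt ((isOpen_S h).mem_nhds (hm x))).hasDerivAt).comp x
          (hasDerivAt_pt_x x y)
      have b2 : HasDerivAt (fun x => deriv H (pt x y)) (deriv (deriv H) (pt x y) * 1) x :=
        HasDerivAt.comp (h₂ := deriv H) x
          ((hd1.differentiableAt ((isOpen_S h).mem_nhds (hm x))).hasDerivAt)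
          (hasDerivAt_pt_x x y)
      rw [mul_one] at b1 b2
      exact b1.star.mul b2
    have d1 : ∫ x in c..(c + 1), (conj (deriv H (pt x y)) * deriv H (pt x y) +
          conj (H (pt x y)) * deriv (deriv H) (pt x y)) = 0 := by
      rw [intervalIntegral.integral_eq_sub_of_hasDerivAt (fun x _ => d0 x)]
      · have e3 : pt (c + 1) y = pt c y + 1 := by apply Complex.ext <;> simp [pt]
        rw [e3, hk _ (hm c), deriv_per hk (hm c)]
        have e4 : conj k * k = 1 := by
          rw [mul_comm, Complex.mul_conj, Complex.normSq_eq_norm_sq, hk1]; norm_num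
        have e5 : conj (k * H (pt c y)) * (k * deriv H (pt c y)) =
            (conj k * k) * (conj (H (pt c y)) * deriv H (pt c y)) := by
          rw [map_mul]; ring
        rw [e5, e4, one_mul, sub_self]
      · refine Continuous.intervalIntegrable ?_ _ _
        exact ((Complex.continuous_conj.comp c2).mul c2).add
          ((Complex.continuous_conj.comp c1).mul c3)
    have d2 : ∫ x in c..(c + 1), (Complex.normSq (deriv H (pt x y)) +
          (conj (H (pt x y)) * deriv (deriv H) (pt x y)).re) = 0 := by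
      have e6 := congrArg Complex.re d1
      have e7 : (∫ x in c..(c + 1), (conj (deriv H (pt x y)) * deriv H (pt x y) +
          conj (H (pt x y)) * deriv (deriv H) (pt x y))).re =
          ∫ x in c..(c + 1), (conj (deriv H (pt x y)) * deriv H (pt x y) +
          conj (H (pt x y)) * deriv (deriv H) (pt x y)).re := by
        have := Complex.reCLM.intervalIntegral_comp_comm (μ := volume) (a := c) (b := c + 1)
          (f := fun x => (conj (deriv H (pt x y)) * deriv H (pt x y) +
          conj (H (pt x y)) * deriv (deriv H) (pt x y))) (Continuous.intervalIntegrable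
            (((Complex.continuous_conj.comp c2).mul c2).add
              ((Complex.continuous_conj.comp c1).mul c3)) _ _)
        exact this.symm
      rw [e7, Complex.zero_re] at e6
      rw [← e6]
      refine intervalIntegral.integral_congr fun x _ => ?_
      simp only [Complex.add_re, Complex.normSq_apply, Complex.mul_re, Complex.conj_re,
        Complex.conj_im]
      ring
    have i1 : IntervalIntegrable (fun x => Complex.normSq (deriv H (pt x y))) volume c (c + 1) :=
      (Complex.continuous_normSq.comp c2).intervalIntegrable _ _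
    have i2 : IntervalIntegrable (fun x => (conj (H (pt x y)) * deriv (deriv H) (pt x y)).re)
        volume c (c + 1) :=
      (Complex.continuous_re.comp ((Complex.continuous_conj.comp c1).mul c3)).intervalIntegrable
        _ _
    rw [intervalIntegral.integral_add i1 i2] at d2
    unfold Im2
    rw [intervalIntegral.integral_sub (i1.const_mul _) (i2.const_mul _),
      intervalIntegral.integral_const_mul, intervalIntegral.integral_const_mul,
      intervalIntegral.integral_const_mul]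
    linarith
  · intro x hx t ht
    have hm : pt x t ∈ S h := pt_mem (e1.trans ht.1) (ht.2.trans e2)
    have b1 : HasDerivAt (fun t => H (pt x t)) (deriv H (pt x t) * Complex.I) t :=
      ((hH.differentiableAt ((isOpen_S h).mem_nhds hm)).hasDerivAt).comp t (hasDerivAt_pt_y x t)
    have b2 : HasDerivAt (fun t => deriv H (pt x t)) (deriv (deriv H) (pt x t) * Complex.I) t :=
      ((hd1.differentiableAt ((isOpen_S h).mem_nhds hm)).hasDerivAt).comp t (hasDerivAt_pt_y x t)
    have b3 := b1.star.mul b2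
    have b4 : HasDerivAt (fun t => (star (H (pt x t)) * deriv H (pt x t)).im) _ t :=
      Complex.imCLM.hasFDerivAt.comp_hasDerivAt t b3
    refine (b4.const_mul (-2)).congr_deriv ?_
    simp only [Complex.imCLM_apply, Complex.star_def, Complex.add_im, Complex.mul_re,
      Complex.mul_im, Complex.I_re, Complex.I_im, Complex.conj_re,
      Complex.conj_im, Complex.normSq_apply]
    ring

end mean

/-! ## the comparison argument -/

theorem growth {I I1 I2 : ℝ → ℝ} {h k : ℝ} (hh : 0 < h) (hk : 0 < k)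
    (hI : ∀ y ∈ Ioo 0 h, HasDerivAt I (I1 y) y)
    (hI1 : ∀ y ∈ Ioo 0 h, HasDerivAt I1 (I2 y) y)
    (hle : ∀ y ∈ Ioo 0 h, I2 y ≤ k * (k + 1) / y ^ 2 * I y) :
    ∃ C : ℝ, 0 ≤ C ∧ ∀ y, 0 < y → y ≤ h / 2 → I y ≤ C * y ^ (-k) := by
  have hJ : ∀ (r : ℝ) {y : ℝ}, 0 < y → HasDerivAt (fun y => y ^ r) (r * y ^ (r - 1)) y :=
    fun r y hy => Real.hasDerivAt_rpow_const (Or.inl hy.ne')
  -- the Wronskian
  set W : ℝ → ℝ := fun y => I1 y * y ^ (-k) + k * (I y * y ^ (-k - 1)) with hW
  have dW : ∀ y ∈ Ioo 0 h, HasDerivAt W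
      ((I2 y - k * (k + 1) / y ^ 2 * I y) * y ^ (-k)) y := by
    intro y hy
    have h1 := ((hI1 y hy).mul (hJ (-k) hy.1)).add
      (((hI y hy).mul (hJ (-k - 1) hy.1)).const_mul k)
    refine h1.congr_deriv ?_
    have e1 : y ^ (-k - 1 - 1) = y ^ (-k) / y ^ 2 := by
      rw [show -k - 1 - 1 = -k - (2 : ℕ) by push_cast; ring, Real.rpow_sub hy.1,
        Real.rpow_natCast]
    have e2 : y ^ (-k - 1) = y ^ (-k) / y := by
      rw [Real.rpow_sub hy.1, Real.rpow_one]
    rw [e1, e2]
    have hy0 := hy.1.ne'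
    field_simp
    ring
  have hy₀ : h / 2 ∈ Ioo 0 h := ⟨by linarith, by linarith⟩
  have hanti : AntitoneOn W (Ioc 0 (h / 2)) := by
    refine antitoneOn_of_deriv_nonpos (convex_Ioc _ _) ?_ ?_ ?_
    · intro y hy
      exact (dW y ⟨hy.1, by linarith [hy.2]⟩).continuousAt.continuousWithinAt
    · intro y hy
      rw [interior_Ioc] at hy
      exact (dW y ⟨hy.1, by linarith [hy.2]⟩).differentiableAt.differentiableWithinAt
    · intro y hy
      rw [interior_Ioc] at hy
      have hy' : y ∈ Ioo 0 h := ⟨hy.1, by linarith [hy.2]⟩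
      rw [(dW y hy').deriv]
      exact mul_nonpos_of_nonpos_of_nonneg (by linarith [hle y hy']) (Real.rpow_nonneg hy.1.le _)
  set w : ℝ := |W (h / 2)| with hw
  have hWl : ∀ y ∈ Ioc 0 (h / 2), -w ≤ W y := fun y hy =>
    (neg_abs_le _).trans (hanti hy ⟨by linarith, le_rfl⟩ hy.2)
  -- the comparison function
  set Φ : ℝ → ℝ := fun y => I y * y ^ k + w / (2 * k + 1) * y ^ (2 * k + 1) with hΦ
  have dΦ : ∀ y ∈ Ioo 0 h, HasDerivAt Φ ((W y + w) * y ^ (2 * k)) y := by
    intro y hy
    have h1 := ((hI y hy).mul (hJ k hy.1)).add ((hJ (2 * k + 1) hy.1).const_mul (w / (2 * k + 1)))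
    refine h1.congr_deriv ?_
    have e1 : y ^ (2 * k) = y ^ k * y ^ k := by rw [← Real.rpow_add hy.1]; ring_nf
    have e2 : y ^ (-k) * y ^ k = 1 := by rw [← Real.rpow_add hy.1]; simp
    have e3 : y ^ (-k - 1) = y ^ (-k) / y := by rw [Real.rpow_sub hy.1, Real.rpow_one]
    have e4 : y ^ (k - 1) = y ^ k / y := by rw [Real.rpow_sub hy.1, Real.rpow_one]
    have e5 : (2 * k + 1 : ℝ) - 1 = 2 * k := by ring
    have hy0 := hy.1.ne'
    have e6 : W y * y ^ (2 * k) = I1 y * y ^ k + k * (I y * (y ^ k / y)) := by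
      rw [hW, e1]
      simp only
      rw [e3]
      calc (I1 y * y ^ (-k) + k * (I y * (y ^ (-k) / y))) * (y ^ k * y ^ k)
          = (y ^ (-k) * y ^ k) * (I1 y * y ^ k + k * (I y * (y ^ k / y))) := by ring
        _ = _ := by rw [e2, one_mul]
    rw [add_mul (W y), e6, e5, e4]
    have h2k : (2 * k + 1 : ℝ) ≠ 0 := by positivity
    field_simp
  have hmono : MonotoneOn Φ (Ioc 0 (h / 2)) := by
    refine monotoneOn_of_deriv_nonneg (convex_Ioc _ _) ?_ ?_ ?_
    · intro y hy
      exact (dΦ y ⟨hy.1, by linarith [hy.2]⟩).continuousAt.continuousWithinAt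
    · intro y hy
      rw [interior_Ioc] at hy
      exact (dΦ y ⟨hy.1, by linarith [hy.2]⟩).differentiableAt.differentiableWithinAt
    · intro y hy
      rw [interior_Ioc] at hy
      have hy' : y ∈ Ioo 0 h := ⟨hy.1, by linarith [hy.2]⟩
      rw [(dΦ y hy').deriv]
      exact mul_nonneg (by linarith [hWl y ⟨hy.1, hy.2.le⟩]) (Real.rpow_nonneg hy.1.le _)
  refine ⟨max (Φ (h / 2)) 0, le_max_right _ _, fun y hy1 hy2 => ?_⟩
  have h3 : Φ y ≤ Φ (h / 2) := hmono ⟨hy1, hy2⟩ ⟨by linarith, le_rfl⟩ hy2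
  have h4 : I y * y ^ k ≤ max (Φ (h / 2)) 0 := by
    refine le_trans ?_ (h3.trans (le_max_left _ _))
    have : 0 ≤ w / (2 * k + 1) * y ^ (2 * k + 1) := by
      have := Real.rpow_nonneg hy1.le (2 * k + 1)
      positivity
    simp only [hΦ]
    linarith
  have h5 : y ^ k * y ^ (-k) = 1 := by rw [← Real.rpow_add hy1]; simp
  calc I y = I y * y ^ k * y ^ (-k) := by rw [mul_assoc, h5, mul_one]
    _ ≤ _ := mul_le_mul_of_nonneg_right h4 (Real.rpow_nonneg hy1.le _)

/-! ## the Bloch data -/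

/-- `G` holomorphic on the strip, `‖G'‖ ≤ B / Im z`, `G(z+1) = G(z) + τ i`. -/
structure Bloch (G : ℂ → ℂ) (h B τ : ℝ) : Prop where
  hh : 0 < h
  hB : 0 ≤ B
  hol : DifferentiableOn ℂ G (S h)
  bd : ∀ z ∈ S h, ‖deriv G z‖ ≤ B / z.im
  per : ∀ z ∈ S h, G (z + 1) = G z + τ * Complex.I

section bloch

variable {G : ℂ → ℂ} {h B τ : ℝ}

theorem mean_growth (hG : Bloch G h B τ) {p : ℝ} (hp : 0 < p) (hpB : p * B ^ 2 ≤ 1 / 2) (c : ℝ) :
    ∃ C : ℝ, 0 ≤ C ∧ ∀ y, 0 < y → y ≤ h / 2 →
      ∫ x in c..(c + 1), Real.exp (p * (G (pt x y)).re) ≤ C * y ^ (-(p / 2)) := by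
  set H : ℂ → ℂ := fun z => Complex.exp ((p / 2 : ℝ) * G z) with hH
  have dH : ∀ z ∈ S h, HasDerivAt H (((p / 2 : ℝ) * deriv G z) * H z) z := by
    intro z hz
    have h1 := (hG.hol.differentiableAt ((isOpen_S h).mem_nhds hz)).hasDerivAt
    have h2 := (h1.const_mul ((p / 2 : ℝ) : ℂ)).cexp
    refine h2.congr_deriv ?_
    simp only [hH]; ring
  have hol : DifferentiableOn ℂ H (S h) := fun z hz => (dH z hz).differentiableAt.differentiableWithinAt
  have hnorm : ∀ z, Complex.normSq (H z) = Real.exp (p * (G z).re) := by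
    intro z
    rw [Complex.normSq_eq_norm_sq, hH]
    simp only
    rw [Complex.norm_exp, ← Real.exp_nat_mul]
    congr 1
    rw [Complex.re_ofReal_mul]
    push_cast; ring
  set k : ℂ := Complex.exp ((p / 2 : ℝ) * (τ * Complex.I)) with hk
  have hk1 : ‖k‖ = 1 := by
    rw [hk, Complex.norm_exp]
    simp
  have hkH : ∀ z ∈ S h, H (z + 1) = k * H z := by
    intro z hz
    simp only [hH, hk]
    rw [hG.per z hz, ← Complex.exp_add]
    congr 1
    ring
  obtain ⟨C, hC0, hC⟩ := growth (I := Im0 H c) (I1 := Im1 H c) (I2 := Im2 H c) hG.hh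
    (by positivity : 0 < p / 2)
    (fun y hy => hasDerivAt_Im0 hol c hy.1 hy.2)
    (fun y hy => hasDerivAt_Im1 hol hkH hk1 c hy.1 hy.2) (fun y hy => by
      unfold Im2 Im0
      rw [← intervalIntegral.integral_const_mul]
      have hcs : ∀ {f : ℂ → ℂ}, ContinuousOn f (S h) → Continuous fun x : ℝ => f (pt x y) :=
        fun {f} hf => continuous_iff_continuousAt.2 fun x =>
          (hf.continuousAt ((isOpen_S h).mem_nhds (pt_mem hy.1 hy.2))).comp
            (f := fun x : ℝ => pt x y) (by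
              have : (fun x : ℝ => pt x y) = fun x : ℝ => (x : ℂ) + y * Complex.I :=
                funext fun x => pt_eq _ _
              rw [this]; fun_prop)
      refine intervalIntegral.integral_mono_on (by linarith) ?_ ?_ fun x _ => ?_
      · exact ((Complex.continuous_normSq.comp
          (hcs (hol.deriv (isOpen_S h)).continuousOn)).intervalIntegrable _ _).const_mul _
      · exact ((Complex.continuous_normSq.comp
          (hcs hol.continuousOn)).intervalIntegrable _ _).const_mul _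
      · have hm : pt x y ∈ S h := pt_mem hy.1 hy.2
        rw [(dH _ hm).deriv, map_mul, ← mul_assoc]
        refine mul_le_mul_of_nonneg_right ?_ (Complex.normSq_nonneg _)
        rw [map_mul, Complex.normSq_ofReal, Complex.normSq_eq_norm_sq]
        have h1 : ‖deriv G (pt x y)‖ ^ 2 ≤ (B / y) ^ 2 :=
          pow_le_pow_left₀ (norm_nonneg _) (hG.bd _ hm) 2
        have hy2 : 0 < y ^ 2 := by have := hy.1; positivity
        rw [div_pow] at h1
        calc 4 * (p / 2 * (p / 2) * ‖deriv G (pt x y)‖ ^ 2)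
            = p ^ 2 * ‖deriv G (pt x y)‖ ^ 2 := by ring
          _ ≤ p ^ 2 * (B ^ 2 / y ^ 2) := by gcongr
          _ = (p * (p * B ^ 2)) / y ^ 2 := by ring
          _ ≤ p / 2 * (p / 2 + 1) / y ^ 2 := by
              refine div_le_div_of_nonneg_right ?_ hy2.le
              nlinarith)
  refine ⟨C, hC0, fun y hy1 hy2 => ?_⟩
  have h1 := hC y hy1 hy2
  unfold Im0 at h1
  simp only [hnorm] at h1
  exact h1

/-! ## almost everywhere summability -/

/-- the dyadic heights -/
def yn (h : ℝ) (n : ℕ) : ℝ := h / 2 ^ (n + 1)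

theorem yn_pos (hh : 0 < h) (n : ℕ) : 0 < yn h n := by unfold yn; positivity

theorem yn_le (hh : 0 < h) (n : ℕ) : yn h n ≤ h / 2 := by
  unfold yn
  refine div_le_div_of_nonneg_left hh.le (by norm_num) ?_
  calc (2 : ℝ) = 2 ^ 1 := by norm_num
    _ ≤ 2 ^ (n + 1) := pow_le_pow_right₀ (by norm_num) (by omega)

theorem yn_lt (hh : 0 < h) (n : ℕ) : yn h n < h := (yn_le hh n).trans_lt (by linarith)

theorem yn_succ (n : ℕ) : yn h (n + 1) = yn h n / 2 := by
  unfold yn; rw [pow_succ _ (n + 1)]; field_simp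

theorem yn_tendsto : Tendsto (yn h) atTop (𝓝 0) := by
  have h1 : Tendsto (fun n : ℕ => h / 2 * (1 / 2 : ℝ) ^ n) atTop (𝓝 (h / 2 * 0)) :=
    (tendsto_pow_atTop_nhds_zero_of_lt_one (by norm_num) (by norm_num)).const_mul _
  rw [mul_zero] at h1
  refine h1.congr fun n => ?_
  unfold yn
  rw [pow_succ, one_div, inv_pow]
  field_simp

theorem summable_yn_rpow (hh : 0 < h) {q : ℝ} (hq : 0 < q) :
    Summable fun n => (yn h n) ^ q := by
  have h1 : Summable fun n : ℕ => (h / 2) ^ q * ((1 / 2 : ℝ) ^ q) ^ n := by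
    refine Summable.mul_left _ (summable_geometric_of_lt_one (by positivity) ?_)
    exact Real.rpow_lt_one (by norm_num) (by norm_num) hq
  refine h1.congr fun n => ?_
  have e1 : yn h n = h / 2 * (1 / 2 : ℝ) ^ n := by
    unfold yn
    rw [pow_succ, one_div, inv_pow]
    field_simp
  rw [e1, Real.mul_rpow (by positivity) (by positivity), ← Real.rpow_natCast, ← Real.rpow_natCast,
    ← Real.rpow_mul (by norm_num), ← Real.rpow_mul (by norm_num), mul_comm q]

theorem cont_hor {f : ℂ → ℂ} (hf : ContinuousOn f (S h)) {y : ℝ} (h1 : 0 < y) (h2 : y < h) :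
    Continuous fun x : ℝ => f (pt x y) :=
  continuous_iff_continuousAt.2 fun x =>
    (hf.continuousAt ((isOpen_S h).mem_nhds (pt_mem h1 h2))).comp
      (f := fun x : ℝ => pt x y) (by
        have : (fun x : ℝ => pt x y) = fun x : ℝ => (x : ℂ) + y * Complex.I :=
          funext fun x => pt_eq _ _
        rw [this]; fun_prop)

/-- the numbers `a_n(x) = y_n exp Re G(x + i y_n)` -/
def an (G : ℂ → ℂ) (h x : ℝ) (n : ℕ) : ℝ := yn h n * Real.exp (G (pt x (yn h n))).re

theorem an_pos (hh : 0 < h) (x : ℝ) (n : ℕ) : 0 < an G h x n :=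
  mul_pos (yn_pos hh n) (Real.exp_pos _)

theorem ae_summable_Ioc (hG : Bloch G h B τ) (c : ℝ) :
    ∀ᵐ x ∂(volume.restrict (Ioc c (c + 1))), Summable (an G h x) := by
  have hh := hG.hh
  set p : ℝ := 1 / (2 * B ^ 2 + 2) with hp
  have hp0 : 0 < p := by positivity
  have hp1 : p ≤ 1 := by
    rw [hp, div_le_one (by positivity)]; nlinarith [sq_nonneg B]
  have hpB : p * B ^ 2 ≤ 1 / 2 := by
    rw [hp, div_mul_eq_mul_div, one_mul, div_le_div_iff₀ (by positivity) (by norm_num)]
    nlinarith [sq_nonneg B]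
  obtain ⟨C, hC0, hC⟩ := mean_growth hG hp0 hpB c
  have hcont : ∀ n, Continuous fun x => (yn h n) ^ p * Real.exp (p * (G (pt x (yn h n))).re) :=
    fun n => continuous_const.mul (Real.continuous_exp.comp (continuous_const.mul
      (Complex.continuous_re.comp (cont_hor hG.hol.continuousOn (yn_pos hh n) (yn_lt hh n)))))
  have hint : ∀ n, ∫⁻ x in Ioc c (c + 1),
      ENNReal.ofReal ((yn h n) ^ p * Real.exp (p * (G (pt x (yn h n))).re)) ≤
      ENNReal.ofReal (C * (yn h n) ^ (p / 2)) := by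
    intro n
    have hy := yn_pos hh n
    rw [← ofReal_integral_eq_lintegral_ofReal
      (((hcont n).integrableOn_Icc).mono_set Ioc_subset_Icc_self)
      (Eventually.of_forall fun x => by positivity)]
    refine ENNReal.ofReal_le_ofReal ?_
    rw [← intervalIntegral.integral_of_le (by linarith), intervalIntegral.integral_const_mul]
    have h1 := hC (yn h n) hy (yn_le hh n)
    calc (yn h n) ^ p * ∫ x in c..(c + 1), Real.exp (p * (G (pt x (yn h n))).re)
        ≤ (yn h n) ^ p * (C * (yn h n) ^ (-(p / 2))) :=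
          mul_le_mul_of_nonneg_left h1 (by positivity)
      _ = C * ((yn h n) ^ p * (yn h n) ^ (-(p / 2))) := by ring
      _ = C * (yn h n) ^ (p / 2) := by
          rw [← Real.rpow_add hy]; congr 2; ring
  have htot : ∫⁻ x in Ioc c (c + 1), ∑' n,
      ENNReal.ofReal ((yn h n) ^ p * Real.exp (p * (G (pt x (yn h n))).re)) ≠ ⊤ := by
    rw [lintegral_tsum fun n => ((hcont n).measurable.ennreal_ofReal).aemeasurable]
    refine ne_top_of_le_ne_top ?_ (ENNReal.tsum_le_tsum hint)
    rw [← ENNReal.ofReal_tsum_of_nonneg (fun n => mul_nonneg hC0 (Real.rpow_nonneg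
      (yn_pos hh n).le _)) ((summable_yn_rpow hh (by positivity)).mul_left C)]
    exact ENNReal.ofReal_ne_top
  have hae := ae_lt_top' (AEMeasurable.tsum fun n =>
    ((hcont n).measurable.ennreal_ofReal).aemeasurable) htot
  filter_upwards [hae] with x hx
  have hs : Summable fun n => (an G h x n) ^ p := by
    have h1 : Summable fun n => (yn h n) ^ p * Real.exp (p * (G (pt x (yn h n))).re) := by
      have h2 := ENNReal.summable_toReal hx.ne
      refine h2.congr fun n => ?_
      rw [ENNReal.toReal_ofReal]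
      have := yn_pos hh n
      positivity
    refine h1.congr fun n => ?_
    unfold an
    rw [Real.mul_rpow (yn_pos hh n).le (Real.exp_pos _).le, ← Real.exp_mul, mul_comm p]
  have hev : ∀ᶠ n in atTop, an G h x n ≤ (an G h x n) ^ p := by
    have h1 := hs.tendsto_atTop_zero.eventually (gt_mem_nhds (by norm_num : (0 : ℝ) < 1))
    filter_upwards [h1] with n hn
    have h3 : an G h x n ≤ 1 := by
      by_contra hcon
      push Not at hcon
      exact absurd hn (not_lt.2 (Real.one_le_rpow hcon.le hp0.le))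
    calc an G h x n = (an G h x n) ^ (1 : ℝ) := (Real.rpow_one _).symm
      _ ≤ _ := Real.rpow_le_rpow_of_exponent_ge (an_pos hh x n) h3 hp1
  refine Summable.of_norm_bounded_eventually_nat hs ?_
  filter_upwards [hev] with n hn
  rw [Real.norm_of_nonneg (an_pos hh x n).le]
  exact hn

theorem ae_summable (hG : Bloch G h B τ) : ∀ᵐ x : ℝ, Summable (an G h x) := by
  have h1 : ∀ m : ℤ, ∀ᵐ x ∂(volume.restrict (Ioc (m : ℝ) (m + 1))), Summable (an G h x) :=
    fun m => ae_summable_Ioc hG m
  have h2 : ∀ᵐ x ∂(volume.restrict (⋃ m : ℤ, Ioc (m : ℝ) (m + 1))), Summable (an G h x) :=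
    (ae_restrict_iUnion_iff _ _).2 h1
  rwa [iUnion_Ioc_intCast, Measure.restrict_univ] at h2

/-! ## nontangential limits -/

theorem convex_box (x a y1 y2 : ℝ) :
    Convex ℝ {z : ℂ | y1 ≤ z.im ∧ z.im ≤ y2 ∧ |z.re - x| ≤ a * z.im} := by
  have e : {z : ℂ | y1 ≤ z.im ∧ z.im ≤ y2 ∧ |z.re - x| ≤ a * z.im} =
      {z : ℂ | y1 ≤ z.im} ∩ ({z : ℂ | z.im ≤ y2} ∩
        ({z : ℂ | z.re - a * z.im ≤ x} ∩ {z : ℂ | x ≤ z.re + a * z.im})) := by
    ext z
    simp only [mem_setOf_eq, mem_inter_iff, abs_le]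
    constructor
    · rintro ⟨h1, h2, h3, h4⟩; exact ⟨h1, h2, by linarith, by linarith⟩
    · rintro ⟨h1, h2, h3, h4⟩; exact ⟨h1, h2, by linarith, by linarith⟩
  rw [e]
  have l1 : IsLinearMap ℝ fun z : ℂ => z.im := ⟨fun _ _ => rfl, fun c z => by simp⟩
  have l2 : IsLinearMap ℝ fun z : ℂ => z.re - a * z.im :=
    ⟨fun z w => by simp only [Complex.add_re, Complex.add_im]; ring, fun c z => by
      simp only [Complex.real_smul, Complex.re_ofReal_mul, Complex.im_ofReal_mul, smul_eq_mul]
      ring⟩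
  have l3 : IsLinearMap ℝ fun z : ℂ => z.re + a * z.im :=
    ⟨fun z w => by simp only [Complex.add_re, Complex.add_im]; ring, fun c z => by
      simp only [Complex.real_smul, Complex.re_ofReal_mul, Complex.im_ofReal_mul, smul_eq_mul]
      ring⟩
  exact (convex_halfSpace_ge l1 _).inter ((convex_halfSpace_le l1 _).inter
    ((convex_halfSpace_le l2 _).inter (convex_halfSpace_ge l3 _)))

/-- the basic estimate in the `n`-th box of the cone -/
theorem box_est (hG : Bloch G h B τ) {f : ℂ → ℂ}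
    (hf : ∀ z ∈ S h, HasDerivAt f (Complex.exp (G z)) z) {a x : ℝ} (ha : 0 ≤ a) (n : ℕ) {z : ℂ}
    (h1 : yn h (n + 1) ≤ z.im) (h2 : z.im ≤ yn h n) (h3 : |z.re - x| ≤ a * z.im) :
    ‖f z - f (pt x (yn h n))‖ ≤ (a + 1) * Real.exp (2 * B * (a + 1)) * an G h x n := by
  have hh := hG.hh
  have hy := yn_pos hh n
  have hy' := yn_pos hh (n + 1)
  have hs := yn_succ (h := h) n
  set D : Set ℂ := {z : ℂ | yn h (n + 1) ≤ z.im ∧ z.im ≤ yn h n ∧ |z.re - x| ≤ a * z.im} with hD
  have hDc : Convex ℝ D := convex_box _ _ _ _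
  have hDS : D ⊆ S h := fun w hw => ⟨hy'.trans_le hw.1, hw.2.1.trans_lt (yn_lt hh n)⟩
  have hzD : z ∈ D := ⟨h1, h2, h3⟩
  have hcD : pt x (yn h n) ∈ D := by
    refine ⟨?_, le_rfl, ?_⟩
    · rw [pt_im, hs]; linarith
    · rw [pt_re, sub_self, abs_zero, pt_im]; positivity
  have hdist : ∀ w ∈ D, ‖w - pt x (yn h n)‖ ≤ (a + 1) * yn h n := by
    intro w hw
    refine (Complex.norm_le_abs_re_add_abs_im _).trans ?_
    rw [Complex.sub_re, Complex.sub_im, pt_re, pt_im]
    have e1 : |w.re - x| ≤ a * yn h n := hw.2.2.trans (by have := hw.2.1; gcongr)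
    have e2 : |w.im - yn h n| ≤ yn h n := by
      rw [abs_le]; constructor
      · have := hy'.le.trans hw.1; linarith
      · linarith [hw.2.1]
    linarith
  have hGw : ∀ w ∈ D, (G w).re ≤ (G (pt x (yn h n))).re + 2 * B * (a + 1) := by
    intro w hw
    have k1 : ‖G w - G (pt x (yn h n))‖ ≤ B / yn h (n + 1) * ‖w - pt x (yn h n)‖ := by
      refine hDc.norm_image_sub_le_of_norm_deriv_le (f := G) ?_ ?_ hcD hw
      · intro v hv
        exact hG.hol.differentiableAt ((isOpen_S h).mem_nhds (hDS hv))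
      · intro v hv
        refine (hG.bd v (hDS hv)).trans ?_
        exact div_le_div_of_nonneg_left hG.hB hy' hv.1
    have k2 : B / yn h (n + 1) * ‖w - pt x (yn h n)‖ ≤ 2 * B * (a + 1) := by
      calc B / yn h (n + 1) * ‖w - pt x (yn h n)‖
          ≤ B / yn h (n + 1) * ((a + 1) * yn h n) :=
            mul_le_mul_of_nonneg_left (hdist w hw) (div_nonneg hG.hB hy'.le)
        _ = 2 * B * (a + 1) := by rw [hs]; field_simp
    have k3 : (G w).re - (G (pt x (yn h n))).re ≤ ‖G w - G (pt x (yn h n))‖ := by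
      rw [← Complex.sub_re]; exact Complex.re_le_norm _
    linarith
  have hfin : ‖f z - f (pt x (yn h n))‖ ≤
      (Real.exp (2 * B * (a + 1)) * Real.exp (G (pt x (yn h n))).re) *
        ‖z - pt x (yn h n)‖ := by
    refine hDc.norm_image_sub_le_of_norm_deriv_le (f := f) ?_ ?_ hcD hzD
    · intro v hv
      exact (hf v (hDS hv)).differentiableAt
    · intro v hv
      rw [(hf v (hDS hv)).deriv, Complex.norm_exp, ← Real.exp_add]
      exact Real.exp_le_exp.2 (by linarith [hGw v hv])
  refine hfin.trans ?_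
  calc (Real.exp (2 * B * (a + 1)) * Real.exp (G (pt x (yn h n))).re) * ‖z - pt x (yn h n)‖
      ≤ (Real.exp (2 * B * (a + 1)) * Real.exp (G (pt x (yn h n))).re) *
        ((a + 1) * yn h n) := mul_le_mul_of_nonneg_left (hdist z hzD) (by positivity)
    _ = _ := by unfold an; ring

/-- every height below `h/2` lies in a dyadic box -/
theorem exists_box {y : ℝ} (hy : 0 < y) (hy2 : y ≤ yn h 0) :
    ∃ n, yn h (n + 1) ≤ y ∧ y ≤ yn h n := by
  have h1 : ∃ n, yn h n < y := by
    have := (yn_tendsto (h := h)).eventually (gt_mem_nhds hy)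
    exact this.exists
  classical
  set m := Nat.find h1 with hm
  have hm1 : yn h m < y := Nat.find_spec h1
  have hm0 : m ≠ 0 := by
    intro h0
    rw [h0] at hm1
    exact absurd hm1 (not_lt.2 hy2)
  obtain ⟨n, hn⟩ := Nat.exists_eq_succ_of_ne_zero hm0
  refine ⟨n, ?_, ?_⟩
  · rw [hn] at hm1; exact hm1.le
  · have := Nat.find_min h1 (m := n) (by omega)
    exact not_lt.1 this

theorem ntlim_of_summable (hG : Bloch G h B τ) {f : ℂ → ℂ}
    (hf : ∀ z ∈ S h, HasDerivAt f (Complex.exp (G z)) z) {x : ℝ} (hx : Summable (an G h x)) :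
    ∃ L : ℂ, ∀ a > 0, ∀ k > 0, Tendsto f (𝓝[LP472.Cone a k x] (x : ℂ)) (𝓝 L) := by
  have hh := hG.hh
  set c : ℕ → ℂ := fun n => f (pt x (yn h n)) with hc
  have hstep : ∀ n, dist (c n) (c (n + 1)) ≤ 1 * Real.exp (2 * B * 1) * an G h x n := by
    intro n
    have hy := yn_pos hh n
    have hy' := yn_pos hh (n + 1)
    have hs := yn_succ (h := h) n
    rw [dist_comm, dist_eq_norm]
    have := box_est hG hf (a := 0) (x := x) le_rfl n (z := pt x (yn h (n + 1))) le_rfl
      (by rw [pt_im, hs]; linarith) (by simp)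
    simpa using this
  have hcau : CauchySeq c := cauchySeq_of_dist_le_of_summable _ hstep (hx.mul_left _)
  obtain ⟨L, hL⟩ := cauchySeq_tendsto_of_complete hcau
  refine ⟨L, fun a ha k hk => ?_⟩
  rw [Metric.tendsto_nhds]
  intro ε hε
  have e1 : ∀ᶠ n in atTop, (a + 1) * Real.exp (2 * B * (a + 1)) * an G h x n < ε / 2 := by
    have := (hx.tendsto_atTop_zero.const_mul ((a + 1) * Real.exp (2 * B * (a + 1))))
    rw [mul_zero] at this
    exact this.eventually (gt_mem_nhds (by positivity))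
  have e2 : ∀ᶠ n in atTop, dist (c n) L < ε / 2 :=
    hL.eventually (Metric.ball_mem_nhds _ (by positivity))
  obtain ⟨N, hN⟩ := eventually_atTop.1 (e1.and e2)
  have hyN := yn_pos hh N
  have h5 : ∀ᶠ z : ℂ in 𝓝 (x : ℂ), z.im < yn h N := by
    have : ContinuousAt (fun z : ℂ => z.im) (x : ℂ) := Complex.continuous_im.continuousAt
    exact this.eventually (gt_mem_nhds (by simpa using hyN))
  filter_upwards [nhdsWithin_le_nhds h5, self_mem_nhdsWithin] with z hz1 hz2
  obtain ⟨hz3, _, hz4⟩ := hz2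
  have hy0 : z.im ≤ yn h 0 := by
    refine hz1.le.trans ?_
    unfold yn
    refine div_le_div_of_nonneg_left hh.le (by norm_num) ?_
    exact pow_le_pow_right₀ (by norm_num) (by omega)
  obtain ⟨n, hn1, hn2⟩ := exists_box hz3 hy0
  have hnN : N ≤ n := by
    by_contra hcon
    push Not at hcon
    have h6 : yn h N ≤ yn h (n + 1) := by
      unfold yn
      refine div_le_div_of_nonneg_left hh.le (by positivity) ?_
      exact pow_le_pow_right₀ (by norm_num) (by omega)
    linarith
  have h7 := box_est hG hf (x := x) ha.le n hn1 hn2 hz4.le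
  obtain ⟨h8, h9⟩ := hN n hnN
  calc dist (f z) L ≤ dist (f z) (c n) + dist (c n) L := dist_triangle _ _ _
    _ < ε / 2 + ε / 2 := by
        refine add_lt_add_of_le_of_lt ?_ h9
        rw [dist_eq_norm]
        exact h7.trans h8.le
    _ = ε := by ring

/-- **Bloch-exponential lemma, nontangential limits.** -/
theorem ae_ntlim (hG : Bloch G h B τ) {f : ℂ → ℂ}
    (hf : ∀ z ∈ S h, HasDerivAt f (Complex.exp (G z)) z) :
    ∀ᵐ x : ℝ, ∃ L : ℂ, ∀ a > 0, ∀ k > 0, Tendsto f (𝓝[LP472.Cone a k x] (x : ℂ)) (𝓝 L) := by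
  filter_upwards [ae_summable hG] with x hx using ntlim_of_summable hG hf hx

end bloch

end Crest.Agent.R102.BE682

end
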