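import Mathlib

/-! # Bloch's theorem (with explicit, non optimal constants)

* `landau`: if `‖f'‖ ≤ 2 ‖f' a‖` on `ball a R` then `f '' closedBall a (R/8)` contains
  `ball (f a) (R ‖f' a‖ / 32)`.
* `bloch`: the image of `ball c R` contains a ball of radius `R ‖f' c‖ / 128`.
* `norm_deriv_le_of_no_ball`: if the image of `ball c R` contains no ball of radius `1`, then
  `‖f' z‖ ≤ 128 / (R - ‖z - c‖)`.
-/

open Set Filter Metric Complex Topology

namespace Crest.Agent.R102.M948

theorem landau {f : ℂ → ℂ} {a : ℂ} {R : ℝ} (hR : 0 < R) (hf : DifferentiableOn ℂ f (ball a R))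
    (hb : ∀ z ∈ ball a R, ‖deriv f z‖ ≤ 2 * ‖deriv f a‖) :
    ball (f a) (R * ‖deriv f a‖ / 32) ⊆ f '' closedBall a (R / 8) := by
  set D : ℝ := ‖deriv f a‖ with hD
  rcases eq_or_lt_of_le (norm_nonneg (deriv f a)) with h0 | h0
  · have : D = 0 := by rw [hD]; exact h0.symm
    rw [this]; simp
  have hDpos : 0 < D := h0
  have hd : ∀ z ∈ ball a R, DifferentiableAt ℂ f z := fun z hz =>
    hf.differentiableAt (isOpen_ball.mem_nhds hz)
  have hd' : DifferentiableOn ℂ (deriv f) (ball a R) := hf.deriv isOpen_ball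
  have hmaps : MapsTo (deriv f) (ball a R) (closedBall (deriv f a) (3 * D)) := by
    intro z hz
    rw [mem_closedBall, dist_eq_norm]
    calc ‖deriv f z - deriv f a‖ ≤ ‖deriv f z‖ + ‖deriv f a‖ := norm_sub_le _ _
      _ ≤ 2 * D + D := by
        have := hb z hz
        linarith
      _ = 3 * D := by ring
  have hS : ∀ z ∈ closedBall a (R / 8), ‖deriv f z - deriv f a‖ ≤ 3 * D / 8 := by
    intro z hz
    have hz' : z ∈ ball a R := by
      rw [mem_ball]; rw [mem_closedBall] at hz; linarith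
    have h1 := dist_le_div_mul_dist_of_mapsTo_ball hd' hmaps hz'
    rw [dist_eq_norm] at h1
    refine h1.trans ?_
    rw [mem_closedBall] at hz
    calc 3 * D / R * dist z a ≤ 3 * D / R * (R / 8) := by gcongr
      _ = 3 * D / 8 := by field_simp
  -- the remainder
  set A : ℂ → ℂ := fun z => f z - deriv f a * z with hA
  have hsub : closedBall a (R / 8) ⊆ ball a R := by
    intro z hz
    rw [mem_ball]; rw [mem_closedBall] at hz; linarith
  have hAd : ∀ z ∈ closedBall a (R / 8), HasDerivAt A (deriv f z - deriv f a) z := by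
    intro z hz
    have h1 : HasDerivAt f (deriv f z) z := (hd z (hsub hz)).hasDerivAt
    have h2 : HasDerivAt (fun z : ℂ => deriv f a * z) (deriv f a) z := by
      simpa using (hasDerivAt_id z).const_mul (deriv f a)
    exact h1.sub h2
  have hAb : ∀ z ∈ closedBall a (R / 8), ‖A z - A a‖ ≤ 3 * D / 8 * ‖z - a‖ := by
    intro z hz
    refine Convex.norm_image_sub_le_of_norm_deriv_le (s := closedBall a (R / 8)) (𝕜 := ℂ)
      (fun x hx => (hAd x hx).differentiableAt) ?_ (convex_closedBall a (R / 8))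
      (mem_closedBall_self (by positivity)) hz
    intro x hx
    rw [(hAd x hx).deriv]
    exact hS x hx
  have hsph : ∀ z ∈ sphere a (R / 8), R * D / 16 ≤ ‖f z - f a‖ := by
    intro z hz
    have hzc : z ∈ closedBall a (R / 8) := sphere_subset_closedBall hz
    have h1 := hAb z hzc
    have h2 : ‖z - a‖ = R / 8 := by
      rw [mem_sphere, dist_eq_norm] at hz; exact hz
    have h3 : deriv f a * (z - a) = (f z - f a) - (A z - A a) := by
      simp only [hA]; ring
    have h4 : D * (R / 8) = ‖(f z - f a) - (A z - A a)‖ := by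
      rw [← h3, norm_mul, h2]
    have h5 : ‖(f z - f a) - (A z - A a)‖ ≤ ‖f z - f a‖ + ‖A z - A a‖ := norm_sub_le _ _
    rw [h2] at h1
    nlinarith [mul_pos hR hDpos]
  have hcl : DiffContOnCl ℂ f (ball a (R / 8)) := by
    refine ⟨hf.mono (ball_subset_ball (by linarith)), ?_⟩
    rw [closure_ball a (by positivity)]
    exact hf.continuousOn.mono hsub
  have hfr : ∃ᶠ z in 𝓝 a, f z ≠ f a := by
    rw [Filter.Frequently]
    intro hev
    have hev' : f =ᶠ[𝓝 a] fun _ => f a := by
      filter_upwards [hev] with z hz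
      by_contra h
      exact hz h
    have : deriv f a = 0 := by
      rw [hev'.deriv_eq]; simp
    rw [hD, this] at hDpos
    simp at hDpos
  have key := hcl.ball_subset_image_closedBall (by positivity) hsph hfr
  have e : R * D / 16 / 2 = R * D / 32 := by ring
  rw [e] at key
  exact key

theorem bloch {f : ℂ → ℂ} {c : ℂ} {R : ℝ} (hR : 0 < R) (hf : DifferentiableOn ℂ f (ball c R)) :
    ∃ w, ball w (R * ‖deriv f c‖ / 128) ⊆ f '' ball c R := by
  have hd' : DifferentiableOn ℂ (deriv f) (ball c R) := hf.deriv isOpen_ball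
  have hsub : closedBall c (R / 2) ⊆ ball c R := by
    intro z hz
    rw [mem_ball]; rw [mem_closedBall] at hz; linarith
  have hcont : ContinuousOn (fun z => (R / 2 - ‖z - c‖) * ‖deriv f z‖) (closedBall c (R / 2)) := by
    refine ContinuousOn.mul ?_ ?_
    · fun_prop
    · exact (hd'.continuousOn.mono hsub).norm
  obtain ⟨a, ha, hmax⟩ := (isCompact_closedBall c (R / 2)).exists_isMaxOn
    ⟨c, mem_closedBall_self (by positivity)⟩ hcont
  have hmax' : ∀ z ∈ closedBall c (R / 2),
      (R / 2 - ‖z - c‖) * ‖deriv f z‖ ≤ (R / 2 - ‖a - c‖) * ‖deriv f a‖ := fun z hz => hmax hz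
  have hc0 : R / 2 * ‖deriv f c‖ ≤ (R / 2 - ‖a - c‖) * ‖deriv f a‖ := by
    have := hmax' c (mem_closedBall_self (by positivity))
    simpa using this
  have hac : ‖a - c‖ ≤ R / 2 := by
    rw [mem_closedBall, dist_eq_norm] at ha; exact ha
  set ρ : ℝ := (R / 2 - ‖a - c‖) / 2 with hρ
  have hρ0 : 0 ≤ ρ := by rw [hρ]; linarith
  refine ⟨f a, ?_⟩
  rcases eq_or_lt_of_le hρ0 with h0 | h0
  · have h1 : R / 2 - ‖a - c‖ = 0 := by linarith
    rw [h1, zero_mul] at hc0
    have h2 : ‖deriv f c‖ = 0 := by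
      have := norm_nonneg (deriv f c)
      nlinarith
    rw [h2]; simp
  have hball : ball a ρ ⊆ ball c R := by
    intro z hz
    rw [mem_ball, dist_eq_norm] at hz ⊢
    have : ‖z - c‖ ≤ ‖z - a‖ + ‖a - c‖ := by
      have := norm_add_le (z - a) (a - c)
      simpa using this
    have h3 : ‖a - c‖ = R / 2 - 2 * ρ := by rw [hρ]; ring
    nlinarith [norm_nonneg (a - c)]
  have hb : ∀ z ∈ ball a ρ, ‖deriv f z‖ ≤ 2 * ‖deriv f a‖ := by
    intro z hz
    rw [mem_ball, dist_eq_norm] at hz
    have h1 : ‖z - c‖ ≤ ‖z - a‖ + ‖a - c‖ := by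
      have := norm_add_le (z - a) (a - c)
      simpa using this
    have h3 : ‖a - c‖ = R / 2 - 2 * ρ := by rw [hρ]; ring
    have h4 : ρ ≤ R / 2 - ‖z - c‖ := by linarith
    have h5 := hmax' z (by rw [mem_closedBall, dist_eq_norm]; linarith)
    have h6 : ρ * ‖deriv f z‖ ≤ (R / 2 - ‖z - c‖) * ‖deriv f z‖ :=
      mul_le_mul_of_nonneg_right h4 (norm_nonneg _)
    have h7 : R / 2 - ‖a - c‖ = 2 * ρ := by rw [hρ]; ring
    rw [h7] at h5
    have h8 : ρ * ‖deriv f z‖ ≤ ρ * (2 * ‖deriv f a‖) := by linarith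
    exact le_of_mul_le_mul_left h8 h0
  have hL := landau h0 (hf.mono hball) hb
  refine Subset.trans ?_ (hL.trans ?_)
  · apply ball_subset_ball
    have h7 : R / 2 - ‖a - c‖ = 2 * ρ := by rw [hρ]; ring
    rw [h7] at hc0
    linarith
  · apply image_mono
    intro z hz
    apply hball
    rw [mem_ball]; rw [mem_closedBall] at hz; linarith

theorem norm_deriv_center_le {f : ℂ → ℂ} {c : ℂ} {R : ℝ} (hR : 0 < R)
    (hf : DifferentiableOn ℂ f (ball c R)) (hno : ∀ w, ¬ ball w 1 ⊆ f '' ball c R) :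
    ‖deriv f c‖ ≤ 128 / R := by
  by_contra hlt
  push Not at hlt
  obtain ⟨w, hw⟩ := bloch hR hf
  refine hno w (Subset.trans (ball_subset_ball ?_) hw)
  rw [div_lt_iff₀ hR] at hlt
  linarith

theorem norm_deriv_le_of_no_ball {f : ℂ → ℂ} {c : ℂ} {R : ℝ}
    (hf : DifferentiableOn ℂ f (ball c R)) (hno : ∀ w, ¬ ball w 1 ⊆ f '' ball c R)
    {z : ℂ} (hz : z ∈ ball c R) : ‖deriv f z‖ ≤ 128 / (R - ‖z - c‖) := by
  rw [mem_ball, dist_eq_norm] at hz
  have hsub : ball z (R - ‖z - c‖) ⊆ ball c R := by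
    intro x hx
    rw [mem_ball, dist_eq_norm] at hx ⊢
    have := norm_add_le (x - z) (z - c)
    simp only [sub_add_sub_cancel] at this
    linarith
  refine norm_deriv_center_le (by linarith) (hf.mono hsub) fun w hw => hno w (hw.trans ?_)
  exact image_mono hsub

end Crest.Agent.R102.M948
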