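import Mathlib
import Crest.Agent.R102.Blow_971

/-!
# Row 102, T1-B (f): existence of nontangential limits at a.e. point of the plane (helper971)

* `measurableSet_NT` : the set of points `(x,u)` with a nontangential limit is measurable;
* `ae_NT_of_slices` : if every slice has nontangential limits at a.e. `x`, then they exist at
  a.e. `(x,u)`.
-/

set_option autoImplicit false

namespace Crest.Agent.R102.Blow971

open MeasureTheory Set Filter Topology Metric Complex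
open scoped ENNReal NNReal

section cauchy

variable {E : Type*} [PseudoMetricSpace E] [CompleteSpace E]

/-- the point at offset `(q, s)` below the top point over `(x,u)` -/
noncomputable def off (U : ℝ → ℝ) (q s : ℝ) (p : ℝ × ℝ) : ℂ := (p.1 + q : ℝ) + I * (U p.2 - s : ℝ)

theorem off_re (U : ℝ → ℝ) (q s : ℝ) (p : ℝ × ℝ) : (off U q s p).re = p.1 + q := by
  simp [off]

theorem off_im (U : ℝ → ℝ) (q s : ℝ) (p : ℝ × ℝ) : (off U q s p).im = U p.2 - s := by
  simp [off]

theorem off_mem (U : ℝ → ℝ) (p : ℝ × ℝ) {A δ q s : ℝ} (hs0 : 0 < s) (hs : s < δ)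
    (hq : |q| ≤ A * s) : off U q s p ∈ DCone A δ (U p.2) p.1 := by
  refine ⟨?_, ?_, ?_⟩
  · rw [off_im]; linarith
  · rw [off_im]; linarith
  · rw [off_re, off_im]
    have e1 : p.1 + q - p.1 = q := by ring
    have e2 : U p.2 - (U p.2 - s) = s := by ring
    rw [e1, e2]
    exact hq

/-- Cauchy criterion along rational offsets -/
theorem NT_iff (F : ℂ → ℂ → E) (U : ℝ → ℝ) (p : ℝ × ℝ) {κ : ℝ} (hκ : 0 < κ)
    (hc : ContinuousOn (fun t : ℂ => F t p.2) {t | U p.2 - κ < t.im ∧ t.im < U p.2}) :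
    (∃ b, NT F U p b) ↔ ∀ A n : ℕ, ∃ m : ℕ, ∀ q s q' s' : ℚ,
      0 < s → (s : ℝ) < κ → (s : ℝ) < 1 / ((m : ℝ) + 1) → |(q : ℝ)| < ((A : ℝ) + 1) * s →
      0 < s' → (s' : ℝ) < κ → (s' : ℝ) < 1 / ((m : ℝ) + 1) → |(q' : ℝ)| < ((A : ℝ) + 1) * s' →
      dist (F (off U q s p) p.2) (F (off U q' s' p) p.2) ≤ 1 / ((n : ℝ) + 1) := by
  constructor
  · rintro ⟨b, hb⟩ A n
    obtain ⟨δ, hδ, h⟩ := hb ((A : ℝ) + 1) (by positivity) (1 / (2 * ((n : ℝ) + 1))) (by positivity)
    obtain ⟨m, hm⟩ := exists_nat_one_div_lt hδ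
    refine ⟨m, fun q s q' s' h1 h2 h3 h4 h1' h2' h3' h4' => ?_⟩
    have k1 := h _ (off_mem U p (A := (A : ℝ) + 1) (δ := δ) (q := q) (s := s)
      (by exact_mod_cast h1) (h3.trans hm) h4.le)
    have k2 := h _ (off_mem U p (A := (A : ℝ) + 1) (δ := δ) (q := q') (s := s')
      (by exact_mod_cast h1') (h3'.trans hm) h4'.le)
    calc _ ≤ _ := dist_triangle_right _ _ b
      _ ≤ 1 / (2 * ((n : ℝ) + 1)) + 1 / (2 * ((n : ℝ) + 1)) := add_le_add k1 k2
      _ = 1 / ((n : ℝ) + 1) := by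
        field_simp
        norm_num
  · intro H
    -- the Cauchy property on the whole open cone
    have H2 : ∀ A n : ℕ, ∃ m : ℕ, ∀ t t' : ℂ,
        t.im < U p.2 → U p.2 - κ < t.im → U p.2 - 1 / ((m : ℝ) + 1) < t.im →
          |t.re - p.1| < ((A : ℝ) + 1) * (U p.2 - t.im) →
        t'.im < U p.2 → U p.2 - κ < t'.im → U p.2 - 1 / ((m : ℝ) + 1) < t'.im →
          |t'.re - p.1| < ((A : ℝ) + 1) * (U p.2 - t'.im) →
        dist (F t p.2) (F t' p.2) ≤ 1 / ((n : ℝ) + 1) := by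
      intro A n
      obtain ⟨m, hm⟩ := H A n
      refine ⟨m, ?_⟩
      set O : Set ℂ := {t | t.im < U p.2 ∧ U p.2 - κ < t.im ∧ U p.2 - 1 / ((m : ℝ) + 1) < t.im ∧
        |t.re - p.1| < ((A : ℝ) + 1) * (U p.2 - t.im)} with hO
      have hOo : IsOpen O := by
        have c1 : Continuous fun t : ℂ => t.im := Complex.continuous_im
        have c2 : Continuous fun t : ℂ => |t.re - p.1| :=
          (Complex.continuous_re.sub continuous_const).abs
        have c3 : Continuous fun t : ℂ => ((A : ℝ) + 1) * (U p.2 - t.im) :=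
          continuous_const.mul (continuous_const.sub c1)
        exact (isOpen_lt c1 continuous_const).inter ((isOpen_lt continuous_const c1).inter
          ((isOpen_lt continuous_const c1).inter (isOpen_lt c2 c3)))
      set R : Set ℂ := {t | ∃ q s : ℚ, t = off U q s p} with hR
      have hRd : Dense R := by
        have h1 : DenseRange (fun x : ℚ × ℚ => ((x.1 : ℝ), (x.2 : ℝ))) :=
          Rat.denseRange_cast.prodMap Rat.denseRange_cast
        have h2 : Function.Surjective (fun x : ℝ × ℝ => off U x.1 x.2 p) := by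
          intro t
          refine ⟨(t.re - p.1, U p.2 - t.im), ?_⟩
          apply Complex.ext
          · rw [off_re]; ring
          · rw [off_im]; ring
        have h3 : Continuous (fun x : ℝ × ℝ => off U x.1 x.2 p) := by
          unfold off
          fun_prop
        have h4 := h2.denseRange.comp h1 h3
        refine h4.mono ?_
        rintro _ ⟨x, rfl⟩
        exact ⟨x.1, x.2, rfl⟩
      have hcO : ContinuousOn (fun t : ℂ => F t p.2) O :=
        hc.mono fun t ht => ⟨ht.2.1, ht.1⟩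
      have hRO : ∀ t ∈ O, ∀ t' ∈ O, t ∈ R → t' ∈ R →
          dist (F t p.2) (F t' p.2) ≤ 1 / ((n : ℝ) + 1) := by
        rintro t ht t' ht' ⟨q, s, rfl⟩ ⟨q', s', rfl⟩
        obtain ⟨a1, a2, a3, a4⟩ := ht
        obtain ⟨b1, b2, b3, b4⟩ := ht'
        rw [off_im] at a1 a2 a3 a4 b1 b2 b3 b4
        rw [off_re] at a4 b4
        have e1 : p.1 + (q : ℝ) - p.1 = q := by ring
        have e2 : U p.2 - (U p.2 - (s : ℝ)) = s := by ring
        have e1' : p.1 + (q' : ℝ) - p.1 = q' := by ring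
        have e2' : U p.2 - (U p.2 - (s' : ℝ)) = s' := by ring
        rw [e1, e2] at a4
        rw [e1', e2'] at b4
        have s0 : (0 : ℝ) < s := by linarith
        have s0' : (0 : ℝ) < s' := by linarith
        exact hm q s q' s' (by exact_mod_cast s0) (by linarith) (by linarith) a4
          (by exact_mod_cast s0') (by linarith) (by linarith) b4
      intro t t' a1 a2 a3 a4 b1 b2 b3 b4
      have ht : t ∈ O := ⟨a1, a2, a3, a4⟩
      have ht' : t' ∈ O := ⟨b1, b2, b3, b4⟩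
      have hcl : (t, t') ∈ closure ((O ∩ R) ×ˢ (O ∩ R)) := by
        rw [closure_prod_eq, mem_prod]
        exact ⟨hRd.open_subset_closure_inter hOo ht, hRd.open_subset_closure_inter hOo ht'⟩
      have hcc : ContinuousWithinAt (fun x : ℂ × ℂ => dist (F x.1 p.2) (F x.2 p.2))
          ((O ∩ R) ×ˢ (O ∩ R)) (t, t') := by
        have k1 : ContinuousWithinAt (fun x : ℂ × ℂ => F x.1 p.2) ((O ∩ R) ×ˢ (O ∩ R)) (t, t') :=
          ContinuousWithinAt.comp (g := fun t => F t p.2) (f := Prod.fst) (t := O) (hcO t ht)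
            continuous_fst.continuousWithinAt (fun (x : ℂ × ℂ) hx => hx.1.1)
        have k2 : ContinuousWithinAt (fun x : ℂ × ℂ => F x.2 p.2) ((O ∩ R) ×ˢ (O ∩ R)) (t, t') :=
          ContinuousWithinAt.comp (g := fun t => F t p.2) (f := Prod.snd) (t := O) (hcO t' ht')
            continuous_snd.continuousWithinAt (fun (x : ℂ × ℂ) hx => hx.2.1)
        exact k1.dist k2
      have hne : (𝓝[(O ∩ R) ×ˢ (O ∩ R)] (t, t')).NeBot := mem_closure_iff_nhdsWithin_neBot.1 hcl
      refine le_of_tendsto hcc.tendsto ?_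
      filter_upwards [self_mem_nhdsWithin] with x hx
      exact hRO _ hx.1.1 _ hx.2.1 hx.1.2 hx.2.2
    -- the limit along the vertical
    set v : ℕ → ℂ := fun k => off U 0 (1 / ((k : ℝ) + 1)) p with hv
    have hvO : ∀ A m : ℕ, ∀ᶠ k in atTop, (v k).im < U p.2 ∧ U p.2 - κ < (v k).im ∧
        U p.2 - 1 / ((m : ℝ) + 1) < (v k).im ∧
        |(v k).re - p.1| < ((A : ℝ) + 1) * (U p.2 - (v k).im) := by
      intro A m
      have h1 : Tendsto (fun k : ℕ => 1 / ((k : ℝ) + 1)) atTop (𝓝 0) :=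
        tendsto_one_div_add_atTop_nhds_zero_nat
      have h2 := h1.eventually (gt_mem_nhds hκ)
      have h3 := h1.eventually (gt_mem_nhds (show (0 : ℝ) < 1 / ((m : ℝ) + 1) by positivity))
      filter_upwards [h2, h3] with k hk1 hk2
      have hk0 : (0 : ℝ) < 1 / ((k : ℝ) + 1) := by positivity
      rw [hv]
      simp only [off_im, off_re, add_zero, sub_self, abs_zero]
      refine ⟨by linarith, by linarith, by linarith, ?_⟩
      have e2 : U p.2 - (U p.2 - 1 / ((k : ℝ) + 1)) = 1 / ((k : ℝ) + 1) := by ring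
      rw [e2]
      positivity
    have hcau : CauchySeq fun k => F (v k) p.2 := by
      rw [Metric.cauchySeq_iff']
      intro ε hε
      obtain ⟨n, hn⟩ := exists_nat_one_div_lt hε
      obtain ⟨m, hm⟩ := H2 0 n
      obtain ⟨N, hN⟩ := eventually_atTop.1 (hvO 0 m)
      refine ⟨N, fun k hk => ?_⟩
      obtain ⟨a1, a2, a3, a4⟩ := hN k hk
      obtain ⟨b1, b2, b3, b4⟩ := hN N le_rfl
      exact (hm _ _ a1 a2 a3 a4 b1 b2 b3 b4).trans_lt hn
    obtain ⟨b, hb⟩ := cauchySeq_tendsto_of_complete hcau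
    refine ⟨b, fun A hA ε hε => ?_⟩
    obtain ⟨A', hA'⟩ := exists_nat_ge A
    obtain ⟨n, hn⟩ := exists_nat_one_div_lt hε
    obtain ⟨m, hm⟩ := H2 A' n
    refine ⟨min κ (1 / ((m : ℝ) + 1)), lt_min hκ (by positivity), fun t ht => ?_⟩
    obtain ⟨t1, t2, t3⟩ := ht
    have hmin1 := min_le_left κ (1 / ((m : ℝ) + 1))
    have hmin2 := min_le_right κ (1 / ((m : ℝ) + 1))
    have hpos : 0 < U p.2 - t.im := by linarith
    have t4 : |t.re - p.1| < ((A' : ℝ) + 1) * (U p.2 - t.im) := by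
      refine lt_of_le_of_lt t3 ?_
      nlinarith
    have hlim : Tendsto (fun k => dist (F t p.2) (F (v k) p.2)) atTop (𝓝 (dist (F t p.2) b)) :=
      tendsto_const_nhds.dist hb
    refine (le_of_tendsto hlim ?_).trans hn.le
    filter_upwards [hvO A' m] with k hk
    exact hm _ _ t1 (by linarith) (by linarith) t4 hk.1 hk.2.1 hk.2.2.1 hk.2.2.2

/-- the region just below the top line -/
def Strip (U : ℝ → ℝ) (I : Set ℝ) (κ : ℝ) : Set (ℂ × ℝ) :=
  {x | x.2 ∈ I ∧ U x.2 - κ < x.1.im ∧ x.1.im < U x.2}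

theorem measurableSet_Strip {U : ℝ → ℝ} (hU : Measurable U) {I : Set ℝ} (hI : MeasurableSet I)
    (κ : ℝ) : MeasurableSet (Strip U I κ) := by
  have h1 : MeasurableSet {x : ℂ × ℝ | x.2 ∈ I} := measurable_snd hI
  have h2 : MeasurableSet {x : ℂ × ℝ | U x.2 - κ < x.1.im} :=
    measurableSet_lt ((hU.comp measurable_snd).sub_const κ)
      (Complex.measurable_im.comp measurable_fst)
  have h3 : MeasurableSet {x : ℂ × ℝ | x.1.im < U x.2} :=
    measurableSet_lt (Complex.measurable_im.comp measurable_fst) (hU.comp measurable_snd)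
  exact h1.inter (h2.inter h3)

theorem measurable_off {U : ℝ → ℝ} (hU : Measurable U) (q s : ℝ) : Measurable (off U q s) := by
  unfold off
  have h1 : Measurable fun p : ℝ × ℝ => ((p.1 + q : ℝ) : ℂ) :=
    Complex.measurable_ofReal.comp (measurable_fst.add_const q)
  have h2 : Measurable fun p : ℝ × ℝ => ((U p.2 - s : ℝ) : ℂ) :=
    Complex.measurable_ofReal.comp ((hU.comp measurable_snd).sub_const s)
  exact h1.add (h2.const_mul I)

/-- **Measurability of the set of points with a nontangential limit.** -/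
theorem measurableSet_NT (F : ℂ → ℂ → E) {U : ℝ → ℝ} (hU : Measurable U) {I : Set ℝ}
    (hI : MeasurableSet I) {κ : ℝ} (hκ : 0 < κ)
    (hc : ContinuousOn (fun x : ℂ × ℝ => F x.1 x.2) (Strip U I κ)) :
    MeasurableSet {p : ℝ × ℝ | p.2 ∈ I ∧ ∃ b, NT F U p b} := by
  have hcs : ∀ u ∈ I, ContinuousOn (fun t : ℂ => F t u) {t | U u - κ < t.im ∧ t.im < U u} := by
    intro u hu
    have h1 : ContinuousOn (fun t : ℂ => ((t, u) : ℂ × ℝ)) {t | U u - κ < t.im ∧ t.im < U u} :=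
      (Continuous.prodMk continuous_id continuous_const).continuousOn
    exact hc.comp h1 fun t ht => ⟨hu, ht.1, ht.2⟩
  have hbase : MeasurableSet {p : ℝ × ℝ | p.2 ∈ I} := measurable_snd hI
  have key : ∀ (c : ℝ) (q s q' s' : ℚ), 0 < s → (s : ℝ) < κ → 0 < s' → (s' : ℝ) < κ →
      MeasurableSet {p : ℝ × ℝ | p.2 ∈ I ∧
        dist (F (off U q s p) p.2) (F (off U q' s' p) p.2) ≤ c} := by
    intro c q s q' s' hs0 hs hs0' hs'
    have hs0r : (0 : ℝ) < s := by exact_mod_cast hs0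
    have hs0r' : (0 : ℝ) < s' := by exact_mod_cast hs0'
    set D := Strip U I κ with hD
    have hDm : MeasurableSet (D ×ˢ D) :=
      (measurableSet_Strip hU hI κ).prod (measurableSet_Strip hU hI κ)
    have hcc : ContinuousOn (fun x : (ℂ × ℝ) × (ℂ × ℝ) =>
        dist (F x.1.1 x.1.2) (F x.2.1 x.2.2)) (D ×ˢ D) := by
      have k1 : ContinuousOn (fun x : (ℂ × ℝ) × (ℂ × ℝ) => F x.1.1 x.1.2) (D ×ˢ D) :=
        ContinuousOn.comp (g := fun x : ℂ × ℝ => F x.1 x.2) (f := Prod.fst) (t := D) hc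
          continuous_fst.continuousOn (fun x hx => hx.1)
      have k2 : ContinuousOn (fun x : (ℂ × ℝ) × (ℂ × ℝ) => F x.2.1 x.2.2) (D ×ˢ D) :=
        ContinuousOn.comp (g := fun x : ℂ × ℝ => F x.1 x.2) (f := Prod.snd) (t := D) hc
          continuous_snd.continuousOn (fun x hx => hx.2)
      exact continuous_dist.comp_continuousOn (k1.prodMk k2)
    obtain ⟨C, hC, hCe⟩ := continuousOn_iff_isClosed.1 hcc (Iic c) isClosed_Iic
    have hΦ : Measurable fun p : ℝ × ℝ => ((off U q s p, p.2), (off U q' s' p, p.2)) :=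
      ((measurable_off hU q s).prodMk measurable_snd).prodMk
        ((measurable_off hU q' s').prodMk measurable_snd)
    have hm : MeasurableSet ({p : ℝ × ℝ | p.2 ∈ I} ∩
        (fun p : ℝ × ℝ => ((off U q s p, p.2), (off U q' s' p, p.2))) ⁻¹' (C ∩ D ×ˢ D)) :=
      hbase.inter (hΦ (hC.measurableSet.inter hDm))
    convert hm using 1
    ext p
    have hiff : (((off U q s p, p.2), (off U q' s' p, p.2)) : (ℂ × ℝ) × (ℂ × ℝ)) ∈ C ∩ D ×ˢ D ↔
        dist (F (off U q s p) p.2) (F (off U q' s' p) p.2) ≤ c ∧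
          (((off U q s p, p.2), (off U q' s' p, p.2)) : (ℂ × ℝ) × (ℂ × ℝ)) ∈ D ×ˢ D := by
      rw [← hCe]
      exact Iff.rfl
    change (p.2 ∈ I ∧ dist (F (off U q s p) p.2) (F (off U q' s' p) p.2) ≤ c) ↔
      (p.2 ∈ I ∧ (((off U q s p, p.2), (off U q' s' p, p.2)) : (ℂ × ℝ) × (ℂ × ℝ)) ∈ C ∩ D ×ˢ D)
    rw [hiff]
    constructor
    · rintro ⟨h1, h2⟩
      refine ⟨h1, h2, ⟨h1, ?_, ?_⟩, ⟨h1, ?_, ?_⟩⟩
      · change U p.2 - κ < (off U q s p).im
        rw [off_im]; linarith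
      · change (off U q s p).im < U p.2
        rw [off_im]; linarith
      · change U p.2 - κ < (off U q' s' p).im
        rw [off_im]; linarith
      · change (off U q' s' p).im < U p.2
        rw [off_im]; linarith
    · rintro ⟨h1, h2, -⟩
      exact ⟨h1, h2⟩
  have hrw : {p : ℝ × ℝ | p.2 ∈ I ∧ ∃ b, NT F U p b} =
      ⋂ A : ℕ, ⋂ n : ℕ, ⋃ m : ℕ, ⋂ q : ℚ, ⋂ s : ℚ, ⋂ q' : ℚ, ⋂ s' : ℚ,
        {p : ℝ × ℝ | p.2 ∈ I ∧ (0 < s → (s : ℝ) < κ → (s : ℝ) < 1 / ((m : ℝ) + 1) →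
          |(q : ℝ)| < ((A : ℝ) + 1) * s → 0 < s' → (s' : ℝ) < κ → (s' : ℝ) < 1 / ((m : ℝ) + 1) →
          |(q' : ℝ)| < ((A : ℝ) + 1) * s' →
          dist (F (off U q s p) p.2) (F (off U q' s' p) p.2) ≤ 1 / ((n : ℝ) + 1))} := by
    ext p
    simp only [mem_iInter, mem_iUnion, Set.mem_ofPred_eq]
    constructor
    · rintro ⟨hp, hb⟩ A n
      obtain ⟨m, hm⟩ := (NT_iff F U p hκ (hcs p.2 hp)).1 hb A n
      exact ⟨m, fun q s q' s' => ⟨hp, hm q s q' s'⟩⟩
    · intro H
      have hp : p.2 ∈ I := by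
        obtain ⟨m, hm⟩ := H 0 0
        exact (hm 0 0 0 0).1
      refine ⟨hp, (NT_iff F U p hκ (hcs p.2 hp)).2 fun A n => ?_⟩
      obtain ⟨m, hm⟩ := H A n
      exact ⟨m, fun q s q' s' => (hm q s q' s').2⟩
  rw [hrw]
  refine MeasurableSet.iInter fun A => MeasurableSet.iInter fun n => MeasurableSet.iUnion fun m =>
    MeasurableSet.iInter fun q => MeasurableSet.iInter fun s => MeasurableSet.iInter fun q' =>
    MeasurableSet.iInter fun s' => ?_
  by_cases h : 0 < s ∧ (s : ℝ) < κ ∧ (s : ℝ) < 1 / ((m : ℝ) + 1) ∧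
      |(q : ℝ)| < ((A : ℝ) + 1) * s ∧ 0 < s' ∧ (s' : ℝ) < κ ∧ (s' : ℝ) < 1 / ((m : ℝ) + 1) ∧
      |(q' : ℝ)| < ((A : ℝ) + 1) * s'
  · obtain ⟨a1, a2, a3, a4, b1, b2, b3, b4⟩ := h
    have := key (1 / ((n : ℝ) + 1)) q s q' s' a1 a2 b1 b2
    convert this using 1
    ext p
    constructor
    · rintro ⟨h1, h2⟩
      exact ⟨h1, h2 a1 a2 a3 a4 b1 b2 b3 b4⟩
    · rintro ⟨h1, h2⟩
      exact ⟨h1, fun _ _ _ _ _ _ _ _ => h2⟩
  · convert hbase using 1
    ext p
    constructor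
    · rintro ⟨h1, -⟩
      exact h1
    · intro h1
      exact ⟨h1, fun a1 a2 a3 a4 b1 b2 b3 b4 => absurd ⟨a1, a2, a3, a4, b1, b2, b3, b4⟩ h⟩

/-- slicewise existence of nontangential limits gives existence a.e. in the plane -/
theorem ae_NT_of_slices (F : ℂ → ℂ → E) {U : ℝ → ℝ} (hU : Measurable U) {I J : Set ℝ}
    (hI : MeasurableSet I) (hJ : MeasurableSet J) {κ : ℝ} (hκ : 0 < κ)
    (hc : ContinuousOn (fun x : ℂ × ℝ => F x.1 x.2) (Strip U I κ))
    (hs : ∀ᵐ u : ℝ, u ∈ I → ∀ᵐ x : ℝ, x ∈ J → ∃ b, NT F U (x, u) b) :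
    ∀ᵐ p : ℝ × ℝ, p.1 ∈ J → p.2 ∈ I → ∃ b, NT F U p b := by
  have hM := measurableSet_NT F hU hI hκ hc
  set S : Set (ℝ × ℝ) := (J ×ˢ I) \ {p : ℝ × ℝ | p.2 ∈ I ∧ ∃ b, NT F U p b} with hS
  have hSm : MeasurableSet S := (hJ.prod hI).diff hM
  have h0 : volume S = 0 := by
    rw [Measure.volume_eq_prod, Measure.prod_apply_symm hSm, lintegral_eq_zero_iff' ?_]
    · filter_upwards [hs] with u hu
      by_cases huI : u ∈ I
      · have h1 := hu huI
        rw [ae_iff] at h1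
        refine measure_mono_null ?_ h1
        rintro x ⟨⟨hx1, hx2⟩, hx3⟩
        simp only [Set.mem_ofPred_eq, not_and] at hx3
        simp only [Set.mem_ofPred_eq, Classical.not_imp]
        exact ⟨hx1, hx3 hx2⟩
      · have : (fun x => (x, u)) ⁻¹' S = ∅ := by
          ext x
          simp only [mem_preimage, mem_empty_iff_false, iff_false]
          rintro ⟨⟨-, hx2⟩, -⟩
          exact huI hx2
        rw [this]
        simp
    · exact (measurable_measure_prodMk_right hSm).aemeasurable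
  rw [ae_iff]
  refine measure_mono_null ?_ h0
  rintro p hp
  simp only [Set.mem_ofPred_eq, Classical.not_imp] at hp
  exact ⟨⟨hp.1, hp.2.1⟩, fun h => hp.2.2 h.2⟩

end cauchy

end Crest.Agent.R102.Blow971
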