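import Crest.Agent.R102.Refl_812
import Crest.Agent.R102.HartR_948
import Crest.Agent.R102.BigMontel_948
import Crest.Agent.R264.MontelU

/-!
Row 102, T1-B (f) (helper362): constant blow-ups, part A.
A bounded family on half planes whose boundary functions tend to a constant in `L¹_loc`
tends to this constant.
-/

set_option autoImplicit false

open Set Filter Topology Metric Complex MeasureTheory Interval

noncomputable section

namespace Crest.Agent.R102.Blow362

/-- a disc in the lower half plane -/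
theorem ball_lower (R : ℝ) : ball (-(R : ℂ) * I) R ⊆ {z : ℂ | z.im < 0} := by
  intro z hz
  rw [mem_ball, dist_eq_norm] at hz
  have h1 := (Complex.abs_im_le_norm (z - -(R : ℂ) * I)).trans_lt hz
  have h2 : (z - -(R : ℂ) * I).im = z.im + R := by simp
  rw [h2] at h1
  have := (abs_lt.1 h1).2
  simp only [mem_ofPred_eq]
  linarith

theorem mem_ball_lower {R : ℝ} (hR : 0 < R) {z : ℂ}
    (h : z.re ^ 2 + z.im ^ 2 + 2 * z.im * R < 0) : z ∈ ball (-(R : ℂ) * I) R := by
  rw [mem_ball, dist_eq_norm]
  have h2 : ‖z - -(R : ℂ) * I‖ ^ 2 = z.re ^ 2 + (z.im + R) ^ 2 := by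
    rw [← Complex.normSq_eq_norm_sq, Complex.normSq_apply]
    simp
    ring
  have h3 : ‖z - -(R : ℂ) * I‖ ^ 2 < R ^ 2 := by rw [h2]; nlinarith
  exact lt_of_pow_lt_pow_left₀ 2 hR.le h3

/-- horizontal averages are holomorphic -/
theorem gs_diff {f : ℂ → ℂ} (hf : DifferentiableOn ℂ f {z | z.im < 0}) (s : ℝ) {z : ℂ}
    (hz : z.im < 0) : DifferentiableAt ℂ (fun z => ∫ x in (0 : ℝ)..s, f (z + x)) z := by
  set A : ℝ := (|z.re| + |s|) ^ 2 + z.im ^ 2 with hA
  set R : ℝ := A / (-z.im) + 1 with hR
  have hA0 : 0 ≤ A := by positivity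
  have hzi : 0 < -z.im := by linarith
  have hR0 : 0 < R := by positivity
  have hRz : z.im * R = -A + z.im := by
    have h0 : z.im ≠ 0 := hz.ne
    rw [hR, div_neg]
    have h1 : z.im * (A / z.im) = A := by field_simp
    linear_combination -h1
  have hin : ∀ w : ℂ, w.im = z.im → |w.re| ≤ |z.re| + |s| → w ∈ ball (-(R : ℂ) * I) R := by
    intro w hw1 hw2
    apply mem_ball_lower hR0
    have h1 : w.re ^ 2 ≤ (|z.re| + |s|) ^ 2 := by
      rw [← sq_abs w.re]; gcongr
    have h2 : 2 * w.im * R = 2 * (-A + z.im) := by rw [hw1, ← hRz]; ring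
    rw [h2, hw1]
    nlinarith
  have hex := (hf.mono (ball_lower R)).isExactOn_ball
  obtain ⟨P, hP⟩ := hex
  have h1 : ∀ᶠ w : ℂ in 𝓝 z, w ∈ ball (-(R : ℂ) * I) R :=
    isOpen_ball.mem_nhds (hin z rfl (by linarith [abs_nonneg s]))
  have h2 : ∀ᶠ w : ℂ in 𝓝 z, w + (s : ℂ) ∈ ball (-(R : ℂ) * I) R := by
    have hc : ContinuousAt (fun w : ℂ => w + s) z := by fun_prop
    refine hc.eventually (isOpen_ball.mem_nhds (hin (z + s) (by simp) ?_))
    simp only [Complex.add_re, Complex.ofReal_re]
    exact abs_add_le _ _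
  have heq : (fun w => ∫ x in (0 : ℝ)..s, f (w + x)) =ᶠ[𝓝 z] fun w => P (w + s) - P w := by
    filter_upwards [h1, h2] with w hw1 hw2
    have hseg : ∀ x ∈ uIcc (0 : ℝ) s, w + (x : ℂ) ∈ ball (-(R : ℂ) * I) R := by
      intro x hx
      have hc := convex_ball (-(R : ℂ) * I) R
      rw [← segment_eq_uIcc] at hx
      obtain ⟨a, b, ha, hb, hab, hx⟩ := hx
      have := hc hw1 hw2 ha hb hab
      convert this using 1
      rw [← hx]
      simp only [smul_eq_mul, mul_zero, zero_add, Complex.real_smul, Complex.ofReal_mul]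
      have : (a : ℂ) + b = 1 := by exact_mod_cast hab
      linear_combination (-w) * this
    have hd : ∀ x ∈ uIcc (0 : ℝ) s, HasDerivAt (fun x : ℝ => P (w + x)) (f (w + x)) x := by
      intro x hx
      have h3 := hP _ (hseg x hx)
      have h4 : HasDerivAt (fun x : ℝ => w + (x : ℂ)) 1 x := by
        simpa using (Complex.ofRealCLM.hasDerivAt (x := x)).const_add w
      have h5 := h3.comp x h4
      rw [mul_one] at h5
      exact h5
    have hcont : ContinuousOn (fun x : ℝ => f (w + x)) (uIcc 0 s) := by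
      refine (hf.mono (ball_lower R)).continuousOn.comp (by fun_prop) ?_
      intro x hx
      exact hseg x hx
    rw [intervalIntegral.integral_eq_sub_of_hasDerivAt hd hcont.intervalIntegrable]
    simp
  refine DifferentiableAt.congr_of_eventuallyEq ?_ heq
  have e1 : DifferentiableAt ℂ P (z + s) := (hP _ h2.self_of_nhds).differentiableAt
  have e2 : DifferentiableAt ℂ P z := (hP _ h1.self_of_nhds).differentiableAt
  have e3 : DifferentiableAt ℂ (fun w => P (w + s)) z := by
    have : DifferentiableAt ℂ (fun w : ℂ => w + s) z := by fun_prop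
    exact DifferentiableAt.comp z e1 this
  exact e3.sub e2

theorem shift_int (f : ℂ → ℂ) (s : ℝ) (z : ℂ) :
    ∫ x in (0 : ℝ)..s, f (z + x) = ∫ x in z.re..(z.re + s), f (x + z.im * I) := by
  have h := intervalIntegral.integral_comp_add_left (fun x : ℝ => f (x + z.im * I)) z.re
    (a := 0) (b := s)
  rw [add_zero] at h
  rw [← h]
  congr 1
  ext x
  congr 1
  conv_lhs => rw [← Complex.re_add_im z]
  push_cast
  ring

/-- **rigidity**: small horizontal integrals near the boundary force `f = 0` -/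
theorem rigid0 {f : ℂ → ℂ} {C : ℝ} (hf : DifferentiableOn ℂ f {z | z.im < 0})
    (hC : ∀ a b y : ℝ, y < 0 → ‖∫ x in a..b, f (x + y * I)‖ ≤ C * (-y)) {z : ℂ}
    (hz : z.im < 0) : f z = 0 := by
  have key : ∀ s : ℝ, ∫ x in (0 : ℝ)..s, f (z + x) = 0 := by
    intro s
    set g : ℂ → ℂ := fun z => ∫ x in (0 : ℝ)..s, f (z + x) with hg
    have hgb : ∀ w : ℂ, w.im < 0 → ‖g w‖ ≤ C * (-w.im) := by
      intro w hw
      rw [hg]
      simp only
      rw [shift_int]
      exact hC _ _ _ hw
    set F : ℂ → ℂ := fun w => if w.im < 0 then g w else 0 with hF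
    have hFneg : ∀ w : ℂ, w.im < 0 → F =ᶠ[𝓝 w] g := by
      intro w hw
      have : ∀ᶠ v : ℂ in 𝓝 w, v.im < 0 := Complex.continuous_im.continuousAt.eventually (gt_mem_nhds hw)
      filter_upwards [this] with v hv
      simp [hF, hv]
    have hFpos : ∀ w : ℂ, 0 < w.im → F =ᶠ[𝓝 w] fun _ => 0 := by
      intro w hw
      have : ∀ᶠ v : ℂ in 𝓝 w, 0 < v.im := Complex.continuous_im.continuousAt.eventually (lt_mem_nhds hw)
      filter_upwards [this] with v hv
      simp [hF, hv.le]
    have hFd : ∀ w : ℂ, w.im ≠ 0 → DifferentiableAt ℂ F w := by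
      intro w hw
      rcases lt_or_gt_of_ne hw with h | h
      · exact (gs_diff hf s h).congr_of_eventuallyEq (hFneg w h)
      · exact (differentiableAt_const (0 : ℂ)).congr_of_eventuallyEq (hFpos w h)
    have hFc : Continuous F := by
      rw [continuous_iff_continuousAt]
      intro w
      by_cases hw : w.im = 0
      · have hFw : F w = 0 := by simp [hF, hw]
        rw [ContinuousAt, hFw, tendsto_zero_iff_norm_tendsto_zero]
        have hb : ∀ v : ℂ, ‖F v‖ ≤ |C| * |v.im| := by
          intro v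
          by_cases hv : v.im < 0
          · have h1 := hgb v hv
            have h2 : F v = g v := by simp [hF, hv]
            rw [h2, abs_of_neg hv]
            refine h1.trans ?_
            have : C ≤ |C| := le_abs_self C
            nlinarith
          · have h2 : F v = 0 := by simp [hF, hv]
            rw [h2, norm_zero]; positivity
        have hlim : Tendsto (fun v : ℂ => |C| * |v.im|) (𝓝 w) (𝓝 0) := by
          have : Continuous (fun v : ℂ => |C| * |v.im|) := by fun_prop
          have h := this.tendsto w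
          simpa [hw] using h
        exact squeeze_zero (fun _ => norm_nonneg _) hb hlim
      · exact (hFd w hw).continuousAt
    have hFe : Differentiable ℂ F := by
      intro w
      have h1 := Refl812.differentiableOn_of_continuousOn (c := w.re) (r := |w.im| + 1)
        (F := F) hFc.continuousOn (fun v _ hv => hFd v hv)
      refine h1.differentiableAt (isOpen_ball.mem_nhds ?_)
      rw [mem_ball, dist_eq_norm]
      have : w - (w.re : ℂ) = w.im * I := by
        apply Complex.ext <;> simp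
      rw [this]
      simp
    have hzero : F = fun _ => 0 := by
      have hA : AnalyticOnNhd ℂ F univ := hFe.differentiableOn.analyticOnNhd isOpen_univ
      have hB : AnalyticOnNhd ℂ (fun _ : ℂ => (0 : ℂ)) univ := analyticOnNhd_const
      exact hA.eq_of_eventuallyEq hB (z₀ := I) (hFpos I (by simp))
    have : F z = 0 := by rw [hzero]
    have h2 : F z = g z := by simp [hF, hz]
    show g z = 0
    rw [← h2, this]
  have hcont : ContinuousAt f z := (hf.differentiableAt
    ((isOpen_lt Complex.continuous_im continuous_const).mem_nhds hz)).continuousAt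
  have hc2 : Continuous (fun x : ℝ => f (z + x)) := by
    rw [continuous_iff_continuousAt]
    intro x
    have hzx : (z + (x : ℂ)).im < 0 := by simpa using hz
    have h1 : ContinuousAt f (z + x) := (hf.differentiableAt
      ((isOpen_lt Complex.continuous_im continuous_const).mem_nhds hzx)).continuousAt
    have h2 : ContinuousAt (fun x : ℝ => z + (x : ℂ)) x := by fun_prop
    exact ContinuousAt.comp (g := f) (f := fun x : ℝ => z + (x : ℂ)) h1 h2
  have h1 := intervalIntegral.integral_hasDerivAt_right (a := (0:ℝ)) (b := (0:ℝ))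
    (hc2.intervalIntegrable 0 0) (hc2.stronglyMeasurableAtFilter _ _) hc2.continuousAt
  have h2 : (fun u : ℝ => ∫ x in (0 : ℝ)..u, f (z + x)) = fun _ => 0 := by
    ext u; exact key u
  rw [h2] at h1
  have h3 := h1.unique (hasDerivAt_const (0:ℝ) (0:ℂ))
  simpa using h3

theorem rigid {f : ℂ → ℂ} {h C : ℝ} (hf : DifferentiableOn ℂ f {z | z.im < h})
    (hC : ∀ a b y : ℝ, y < h → ‖∫ x in a..b, f (x + y * I)‖ ≤ C * (h - y)) {z : ℂ}
    (hz : z.im < h) : f z = 0 := by
  have h0 : DifferentiableOn ℂ (fun z => f (z + h * I)) {z | z.im < 0} := by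
    refine hf.comp (by fun_prop) ?_
    intro w hw
    simp only [mem_ofPred_eq] at hw ⊢
    simp; exact hw
  have h1 := rigid0 (C := C) h0 (z := z - h * I) (fun a b y hy => ?_) (by simp; exact hz)
  · simpa using h1
  · have := hC a b (y + h) (by linarith)
    have e : ∀ x : ℝ, ((x : ℂ) + y * I + h * I) = (x : ℂ) + ((y + h : ℝ) : ℂ) * I := by
      intro x; push_cast; ring
    simp only [e]
    refine this.trans (le_of_eq (by ring))

/-- comparison of two horizontal integrals -/
theorem rect_le {f : ℂ → ℂ} {A H M : ℝ}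
    (hf : DifferentiableOn ℂ f {z | -A < z.im ∧ z.im < H})
    (hM : ∀ z : ℂ, -A < z.im → z.im < H → ‖f z‖ ≤ M) (a b : ℝ) {y y' : ℝ} (hy : -A < y)
    (hyy : y ≤ y') (hy' : y' < H) :
    ‖(∫ x in a..b, f (x + y * I)) - ∫ x in a..b, f (x + y' * I)‖ ≤ 2 * M * (y' - y) := by
  have hsub : [[((a : ℂ) + y * I).re, ((b : ℂ) + y' * I).re]] ×ℂ
      [[((a : ℂ) + y * I).im, ((b : ℂ) + y' * I).im]] ⊆ {z : ℂ | -A < z.im ∧ z.im < H} := by
    intro z hz
    rw [mem_reProdIm] at hz
    have h2 := hz.2
    simp only [Complex.add_im, Complex.ofReal_im, Complex.mul_im, Complex.ofReal_re, Complex.I_im,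
      mul_one, Complex.I_re, mul_zero, add_zero, zero_add, uIcc_of_le hyy] at h2
    exact ⟨hy.trans_le h2.1, h2.2.trans_lt hy'⟩
  have h := Complex.integral_boundary_rect_eq_zero_of_differentiableOn f ((a : ℂ) + y * I)
    ((b : ℂ) + y' * I) (hf.mono hsub)
  simp only [Complex.add_im, Complex.ofReal_im, Complex.mul_im, Complex.ofReal_re, Complex.I_im,
      mul_one, Complex.I_re, mul_zero, add_zero, zero_add, Complex.add_re, Complex.mul_re,
      sub_self] at h
  have hs : ∀ v : ℝ, ‖∫ u in y..y', f (v + u * I)‖ ≤ M * (y' - y) := by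
    intro v
    have := intervalIntegral.norm_integral_le_of_norm_le_const (a := y) (b := y')
      (f := fun u : ℝ => f (v + u * I)) (C := M) (fun u hu => by
        rw [uIoc_of_le hyy] at hu
        apply hM <;> simp
        · linarith [hu.1]
        · linarith [hu.2])
    rwa [abs_of_nonneg (by linarith)] at this
  have e : (∫ x in a..b, f (x + y * I)) - ∫ x in a..b, f (x + y' * I) =
      I • (∫ u in y..y', f (a + u * I)) - I • (∫ u in y..y', f (b + u * I)) := by
    linear_combination h
  rw [e]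
  refine (norm_sub_le _ _).trans ?_
  rw [norm_smul, norm_smul, Complex.norm_I, one_mul, one_mul]
  linarith [hs a, hs b]

/-- comparison with the boundary integral -/
theorem rect_bd {f : ℂ → ℂ} {A H M : ℝ}
    (hf : DifferentiableOn ℂ f {z | -A < z.im ∧ z.im < H})
    (hM : ∀ z : ℂ, -A < z.im → z.im < H → ‖f z‖ ≤ M) {F : ℝ → ℂ}
    (hl : ∀ᵐ x : ℝ, Tendsto (fun y : ℝ => f (x + y * I)) (𝓝[<] H) (𝓝 (F x)))
    (a b : ℝ) {y : ℝ} (hy : -A < y) (hy' : y < H) :
    ‖(∫ x in a..b, f (x + y * I)) - ∫ x in a..b, F x‖ ≤ 2 * M * (H - y) := by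
  have hlim : Tendsto (fun u : ℝ => ∫ x in a..b, f (x + u * I)) (𝓝[<] H)
      (𝓝 (∫ x in a..b, F x)) := by
    have hev : ∀ᶠ u in 𝓝[<] H, -A < u ∧ u < H := by
      have h1 : ∀ᶠ u in 𝓝[<] H, u < H := self_mem_nhdsWithin
      have h2 : ∀ᶠ u in 𝓝[<] H, -A < u :=
        (lt_mem_nhds (hy.trans hy')).filter_mono nhdsWithin_le_nhds
      filter_upwards [h1, h2] with u a b using ⟨b, a⟩
    refine intervalIntegral.tendsto_integral_filter_of_dominated_convergence (fun _ => M) ?_ ?_
      (by simp) ?_
    · filter_upwards [hev] with u hu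
      have hc : Continuous (fun x : ℝ => f (x + u * I)) := by
        rw [continuous_iff_continuousAt]
        intro x
        have hx : ((x : ℂ) + u * I) ∈ {z : ℂ | -A < z.im ∧ z.im < H} := by simpa using hu
        have ho : IsOpen {z : ℂ | -A < z.im ∧ z.im < H} :=
          (isOpen_lt continuous_const Complex.continuous_im).inter
            (isOpen_lt Complex.continuous_im continuous_const)
        have h1 : ContinuousAt f ((x : ℂ) + u * I) :=
          (hf.differentiableAt (ho.mem_nhds hx)).continuousAt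
        have h2 : ContinuousAt (fun x : ℝ => (x : ℂ) + u * I) x := by fun_prop
        exact ContinuousAt.comp (g := f) (f := fun x : ℝ => (x : ℂ) + u * I) h1 h2
      exact hc.aestronglyMeasurable
    · filter_upwards [hev] with u hu
      exact Eventually.of_forall fun x _ => hM _ (by simpa using hu.1) (by simpa using hu.2)
    · filter_upwards [hl] with x hx _ using hx
  have h1 : Tendsto (fun u : ℝ => ‖(∫ x in a..b, f (x + y * I)) - ∫ x in a..b, f (x + u * I)‖)
      (𝓝[<] H) (𝓝 ‖(∫ x in a..b, f (x + y * I)) - ∫ x in a..b, F x‖) :=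
    (tendsto_const_nhds.sub hlim).norm
  have h2 : Tendsto (fun u : ℝ => 2 * M * (u - y)) (𝓝[<] H) (𝓝 (2 * M * (H - y))) := by
    have : Continuous (fun u : ℝ => 2 * M * (u - y)) := by fun_prop
    exact (this.tendsto H).mono_left nhdsWithin_le_nhds
  refine le_of_tendsto_of_tendsto h1 h2 ?_
  have h3 : ∀ᶠ u in 𝓝[<] H, u < H := self_mem_nhdsWithin
  have h4 : ∀ᶠ u in 𝓝[<] H, y < u := (lt_mem_nhds hy').filter_mono nhdsWithin_le_nhds
  filter_upwards [h3, h4] with u hu hu'
  exact rect_le hf hM a b hy hu'.le hu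

/-! ### Montel for families defined on growing domains -/

theorem montel_exh {E : Type*} [NormedAddCommGroup E] [NormedSpace ℂ E] {ι : Type*}
    [FiniteDimensional ℂ E] (u : Ultrafilter ι) {D : Set E} (hD : IsOpen D) {f : ι → E → ℂ}
    {M : ℝ} (hf : ∀ z ∈ D, ∃ r > 0, ∀ᶠ k in (u : Filter ι), DifferentiableOn ℂ (f k) (ball z r) ∧
      ∀ w ∈ ball z r, ‖f k w‖ ≤ M) :
    ∃ g : E → ℂ, DifferentiableOn ℂ g D ∧ TendstoLocallyUniformlyOn f g u D := by
  classical
  have hlim : ∀ z, ∃ w, z ∈ D → Tendsto (fun k => f k z) u (𝓝 w) := by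
    intro z
    by_cases hz : z ∈ D
    · obtain ⟨r, hr, hM⟩ := hf z hz
      have hK : IsCompact (closedBall (0 : ℂ) M) := isCompact_closedBall _ _
      have hle : ((u.map (fun k => f k z) : Ultrafilter ℂ) : Filter ℂ) ≤
          𝓟 (closedBall (0 : ℂ) M) := by
        rw [le_principal_iff]
        show (fun k => f k z) ⁻¹' closedBall (0 : ℂ) M ∈ (u : Filter ι)
        filter_upwards [hM] with k hk
        simpa using hk.2 z (mem_ball_self hr)
      obtain ⟨w, hw, hw'⟩ := hK.ultrafilter_le_nhds _ hle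
      exact ⟨w, fun _ => hw'⟩
    · exact ⟨0, fun h => (hz h).elim⟩
  choose g hg using hlim
  have key : ∀ z ∈ D, ∃ r > 0, ball z r ⊆ D ∧ DifferentiableOn ℂ g (ball z r) ∧
      TendstoLocallyUniformlyOn f g u (ball z r) := by
    intro z hz
    obtain ⟨r, hr, hM⟩ := hf z hz
    obtain ⟨s, hs, hsD⟩ := Metric.isOpen_iff.1 hD z hz
    have hsub : ball z (min r s) ⊆ ball z r := ball_subset_ball (min_le_left _ _)
    have hsub' : ball z (min r s) ⊆ D := (ball_subset_ball (min_le_right _ _)).trans hsD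
    have h2 : TendstoLocallyUniformlyOn f g u (ball z (min r s)) :=
      R264.tlu_of_pointwise isOpen_ball (hM.mono fun k hk => hk.1.mono hsub)
        (hM.mono fun k hk w hw => hk.2 w (hsub hw)) (fun w hw => hg w (hsub' hw))
    exact ⟨min r s, lt_min hr hs, hsub', (R266.SCV.analyticOnNhd_of_tendstoLocallyUniformlyOn
      isOpen_ball h2 (hM.mono fun k hk => hk.1.mono hsub)).differentiableOn, h2⟩
  refine ⟨g, fun z hz => ?_, ?_⟩
  · obtain ⟨r, hr, -, hd, -⟩ := key z hz
    exact (hd.differentiableAt (ball_mem_nhds z hr)).differentiableWithinAt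
  · rw [Metric.tendstoLocallyUniformlyOn_iff]
    intro ε hε x hx
    obtain ⟨r, hr, -, -, h2⟩ := key x hx
    obtain ⟨t, ht, htu⟩ := (Metric.tendstoLocallyUniformlyOn_iff.1 h2) ε hε x (mem_ball_self hr)
    refine ⟨t, ?_, htu⟩
    rw [isOpen_ball.nhdsWithin_eq (mem_ball_self hr)] at ht
    exact mem_nhdsWithin_of_mem_nhds ht

theorem halfplane_limit0 {ι : Type*} (u : Ultrafilter ι) {f : ι → ℂ → ℂ} {F : ι → ℝ → ℂ}
    {A H : ι → ℝ} {h M : ℝ} (hA : Tendsto A u atTop) (hH : Tendsto H u (𝓝 h))
    (hf : ∀ᶠ k in (u : Filter ι), DifferentiableOn ℂ (f k) {z | -A k < z.im ∧ z.im < H k})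
    (hM : ∀ᶠ k in (u : Filter ι), ∀ z : ℂ, -A k < z.im → z.im < H k → ‖f k z‖ ≤ M)
    (hl : ∀ᶠ k in (u : Filter ι), ∀ᵐ x : ℝ,
      Tendsto (fun y : ℝ => f k (x + y * I)) (𝓝[<] (H k)) (𝓝 (F k x)))
    (hF : ∀ a b : ℝ, Tendsto (fun k => ∫ x in a..b, F k x) u (𝓝 0))
    {z : ℂ} (hz : z.im < h) : Tendsto (fun k => f k z) u (𝓝 0) := by
  have hD : IsOpen {z : ℂ | z.im < h} := isOpen_lt Complex.continuous_im continuous_const
  have hloc : ∀ z ∈ {z : ℂ | z.im < h}, ∃ r > 0, ∀ᶠ k in (u : Filter ι),
      DifferentiableOn ℂ (f k) (ball z r) ∧ ∀ w ∈ ball z r, ‖f k w‖ ≤ M := by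
    intro z hz
    simp only [mem_ofPred_eq] at hz
    refine ⟨(h - z.im) / 2, by linarith, ?_⟩
    have h1 : ∀ᶠ k in (u : Filter ι), (z.im + h) / 2 < H k :=
      hH.eventually (lt_mem_nhds (by linarith))
    have h2 : ∀ᶠ k in (u : Filter ι), -z.im + (h - z.im) / 2 < A k := hA.eventually_gt_atTop _
    filter_upwards [hf, hM, h1, h2] with k a b c d
    have hsub : ball z ((h - z.im) / 2) ⊆ {z | -A k < z.im ∧ z.im < H k} := by
      intro w hw
      rw [mem_ball, dist_eq_norm] at hw
      have h1 := (Complex.abs_im_le_norm (w - z)).trans_lt hw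
      rw [Complex.sub_im, abs_lt] at h1
      constructor <;> linarith [h1.1, h1.2]
    exact ⟨a.mono hsub, fun w hw => b w (hsub hw).1 (hsub hw).2⟩
  obtain ⟨g, hg, hu⟩ := montel_exh u hD hloc
  have hz0 : g z = 0 := by
    refine rigid (C := 2 * M) hg (fun a b y hy => ?_) hz
    have hcs : IsCompact ((fun x : ℝ => (x : ℂ) + y * I) '' (uIcc a b)) :=
      isCompact_uIcc.image (by fun_prop)
    have hcsub : ((fun x : ℝ => (x : ℂ) + y * I) '' (uIcc a b)) ⊆ {z : ℂ | z.im < h} := by
      rintro _ ⟨x, -, rfl⟩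
      simpa using hy
    have hun := (tendstoLocallyUniformlyOn_iff_forall_isCompact hD).1 hu _ hcsub hcs
    have hgc : ContinuousOn g {z : ℂ | z.im < h} := hg.continuousOn
    have hgi : IntervalIntegrable (fun x : ℝ => g (x + y * I)) volume a b := by
      refine (hgc.comp (by fun_prop) ?_).intervalIntegrable
      intro x _
      simpa using hy
    have hlim : Tendsto (fun k => ∫ x in a..b, f k (x + y * I)) u
        (𝓝 (∫ x in a..b, g (x + y * I))) := by
      rw [Metric.tendsto_nhds]
      intro ε hε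
      have hη : 0 < ε / (|b - a| + 1) := by positivity
      have h1 : ∀ᶠ k in (u : Filter ι), y < H k := hH.eventually (lt_mem_nhds hy)
      have h2 : ∀ᶠ k in (u : Filter ι), -y < A k := hA.eventually_gt_atTop _
      filter_upwards [Metric.tendstoUniformlyOn_iff.1 hun _ hη, hf, h1, h2] with k hk hfk hk1 hk2
      have hki : IntervalIntegrable (fun x : ℝ => f k (x + y * I)) volume a b := by
        refine (hfk.continuousOn.comp (by fun_prop) ?_).intervalIntegrable
        intro x _
        simp only [mem_ofPred_eq]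
        constructor
        · simp; linarith
        · simpa using hk1
      rw [dist_eq_norm, ← intervalIntegral.integral_sub hki hgi]
      have h3 := intervalIntegral.norm_integral_le_of_norm_le_const (a := a) (b := b)
        (f := fun x : ℝ => f k (x + y * I) - g (x + y * I)) (C := ε / (|b - a| + 1))
        (fun x hx => by
          have := hk _ ⟨x, uIoc_subset_uIcc hx, rfl⟩
          rw [dist_eq_norm, norm_sub_rev] at this
          exact this.le)
      refine h3.trans_lt ?_
      rw [div_mul_eq_mul_div, div_lt_iff₀ (by positivity)]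
      nlinarith [abs_nonneg (b - a)]
    have hb : ∀ᶠ k in (u : Filter ι), ‖(∫ x in a..b, f k (x + y * I)) - ∫ x in a..b, F k x‖ ≤
        2 * M * (H k - y) := by
      have h1 : ∀ᶠ k in (u : Filter ι), y < H k := hH.eventually (lt_mem_nhds hy)
      have h2 : ∀ᶠ k in (u : Filter ι), -y < A k := hA.eventually_gt_atTop _
      filter_upwards [hf, hM, hl, h1, h2] with k k1 k2 k3 k4 k5
      exact rect_bd k1 k2 k3 a b (by linarith) k4
    have h3 : Tendsto (fun k => ‖(∫ x in a..b, f k (x + y * I)) - ∫ x in a..b, F k x‖) u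
        (𝓝 ‖(∫ x in a..b, g (x + y * I)) - 0‖) := (hlim.sub (hF a b)).norm
    rw [sub_zero] at h3
    have h4 : Tendsto (fun k => 2 * M * (H k - y)) u (𝓝 (2 * M * (h - y))) :=
      (hH.sub_const y).const_mul _
    exact le_of_tendsto_of_tendsto h3 h4 hb
  rw [← hz0]
  exact hu.tendsto_at hz

/-- **bounded functions on half planes with nearly constant boundary values** -/
theorem halfplane_limit {ι : Type*} (u : Ultrafilter ι) {f : ι → ℂ → ℂ} {F : ι → ℝ → ℂ}
    {A H : ι → ℝ} {h M : ℝ} {c : ℂ} (hA : Tendsto A u atTop) (hH : Tendsto H u (𝓝 h))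
    (hf : ∀ᶠ k in (u : Filter ι), DifferentiableOn ℂ (f k) {z | -A k < z.im ∧ z.im < H k})
    (hM : ∀ᶠ k in (u : Filter ι), ∀ z : ℂ, -A k < z.im → z.im < H k → ‖f k z‖ ≤ M)
    (hl : ∀ᶠ k in (u : Filter ι), ∀ᵐ x : ℝ,
      Tendsto (fun y : ℝ => f k (x + y * I)) (𝓝[<] (H k)) (𝓝 (F k x)))
    (hF : ∀ a b : ℝ, Tendsto (fun k => ∫ x in a..b, (F k x - c)) u (𝓝 0))
    {z : ℂ} (hz : z.im < h) : Tendsto (fun k => f k z) u (𝓝 c) := by
  have h1 := halfplane_limit0 u (f := fun k z => f k z - c) (F := fun k x => F k x - c)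
    (M := M + ‖c‖) hA hH ?_ ?_ ?_ hF hz
  · have := h1.add_const c
    simpa using this
  · filter_upwards [hf] with k hk using hk.sub_const c
  · filter_upwards [hM] with k hk z h1 h2
    exact (norm_sub_le _ _).trans (by linarith [hk z h1 h2])
  · filter_upwards [hl] with k hk
    filter_upwards [hk] with x hx using hx.sub_const c

end Crest.Agent.R102.Blow362
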