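import Crest.Agent.R102.BlowA_362
import Crest.Agent.R102.Fatou_472

/-!
Row 102, T1-B (f) (helper362): constant blow-ups, part B.
Joint measurability of the vertical boundary values and Lebesgue points.
-/

set_option autoImplicit false

open Set Filter Topology Metric Complex MeasureTheory Interval

noncomputable section

namespace Crest.Agent.R102.Blow362

/-- quantitative form of `halfplane_limit` -/
theorem halfplane_quant (M C : ℝ) (c τ : ℂ) (hτ : τ.im < -C) {ε : ℝ} (hε : 0 < ε) :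
    ∃ R > 0, ∃ κ > 0, ∀ (f : ℂ → ℂ) (F : ℝ → ℂ) (H : ℝ), |H| ≤ C →
      DifferentiableOn ℂ f {z | -R < z.im ∧ z.im < H} →
      (∀ z : ℂ, -R < z.im → z.im < H → ‖f z‖ ≤ M) →
      (∀ᵐ x : ℝ, Tendsto (fun y : ℝ => f (x + y * I)) (𝓝[<] H) (𝓝 (F x))) →
      (∀ a b : ℝ, |a| ≤ R → |b| ≤ R → ‖∫ x in a..b, (F x - c)‖ ≤ κ) → ‖f τ - c‖ ≤ ε := by
  by_contra hcon
  push Not at hcon
  have := fun n : ℕ => hcon ((n : ℝ) + 1) (by positivity) (1 / ((n : ℝ) + 1)) (by positivity)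
  choose f F H hH hf hM hl hF hb using this
  set u : Ultrafilter ℕ := hyperfilter ℕ
  have hu : (u : Filter ℕ) ≤ atTop := by
    rw [← Nat.cofinite_eq_atTop]; exact hyperfilter_le_cofinite
  obtain ⟨h, hh, hHl⟩ : ∃ h, h ∈ Icc (-C) C ∧ Tendsto H u (𝓝 h) := by
    have hle : ((u.map H : Ultrafilter ℝ) : Filter ℝ) ≤ 𝓟 (Icc (-C) C) := by
      rw [le_principal_iff]
      show H ⁻¹' Icc (-C) C ∈ (u : Filter ℕ)
      exact Filter.mem_of_superset univ_mem (fun k _ => abs_le.1 (hH k))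
    obtain ⟨w, hw, hw'⟩ := isCompact_Icc.ultrafilter_le_nhds _ hle
    exact ⟨w, hw, hw'⟩
  have hA : Tendsto (fun n : ℕ => (n : ℝ) + 1) u atTop :=
    (tendsto_atTop_add_const_right _ _ tendsto_natCast_atTop_atTop).mono_left hu
  have hlim := halfplane_limit u (f := f) (F := F) (A := fun n => (n : ℝ) + 1) (H := H) (h := h)
    (M := M) (c := c) hA hHl (Eventually.of_forall hf) (Eventually.of_forall hM)
    (Eventually.of_forall hl) ?_ (z := τ) (hτ.trans_le hh.1)
  · have h1 : Tendsto (fun n => ‖f n τ - c‖) u (𝓝 0) := by simpa using (hlim.sub_const c).norm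
    obtain ⟨n, hn⟩ := (h1.eventually (gt_mem_nhds hε)).exists
    exact absurd hn (not_lt.2 (hb n).le)
  · intro a b
    rw [tendsto_zero_iff_norm_tendsto_zero]
    have h1 : Tendsto (fun n : ℕ => 1 / ((n : ℝ) + 1)) u (𝓝 0) :=
      tendsto_one_div_add_atTop_nhds_zero_nat.mono_left hu
    refine squeeze_zero' (Eventually.of_forall fun _ => norm_nonneg _) ?_ h1
    filter_upwards [hA.eventually_ge_atTop |a|, hA.eventually_ge_atTop |b|] with n h1 h2
    exact hF n a b h1 h2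

theorem ae_affine {p : ℝ → Prop} (h : ∀ᵐ x : ℝ, p x) (a : ℝ) {η : ℝ} (hη : η ≠ 0) :
    ∀ᵐ x : ℝ, p (a + η * x) := by
  have h1 : volume ((fun x => a + x) ⁻¹' {x | ¬ p x}) = 0 := by
    rw [measure_preimage_add]; exact h
  rw [ae_iff]
  have h2 : {x | ¬ p (a + η * x)} = (fun x => η * x) ⁻¹' ((fun x => a + x) ⁻¹' {x | ¬ p x}) := rfl
  rw [h2, Real.volume_preimage_mul_left hη, h1, mul_zero]

theorem vol_affine (E : Set ℝ) (a : ℝ) {η : ℝ} (hη : 0 < η) :
    volume ((fun x => a + η * x) ⁻¹' E) = ENNReal.ofReal η⁻¹ * volume E := by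
  have h2 : (fun x => a + η * x) ⁻¹' E = (fun x => η * x) ⁻¹' ((fun x => a + x) ⁻¹' E) := rfl
  rw [h2, Real.volume_preimage_mul_left hη.ne', measure_preimage_add, abs_of_pos (inv_pos.2 hη)]

theorem fatou_slice {f : ℂ → ℂ} {δ M v : ℝ} (hδ : 0 < δ)
    (hf : DifferentiableOn ℂ f {z | v - δ < z.im ∧ z.im < v})
    (hM : ∀ z : ℂ, v - δ < z.im → z.im < v → ‖f z‖ ≤ M) :
    ∀ᵐ x : ℝ, ∃ l, Tendsto (fun y : ℝ => f (x + (v - y) * I)) (𝓝[>] 0) (𝓝 l) := by
  set V : Set ℂ := {z | 0 < z.im ∧ z.im < δ} with hV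
  have hVo : IsOpen V := (isOpen_lt continuous_const Complex.continuous_im).inter
    (isOpen_lt Complex.continuous_im continuous_const)
  have him : ∀ z : ℂ, (-z + v * I).im = v - z.im := by
    intro z; simp; ring
  have hmaps : MapsTo (fun z : ℂ => -z + v * I) V {z | v - δ < z.im ∧ z.im < v} := by
    intro z hz
    simp only [mem_ofPred_eq]
    rw [him]
    constructor <;> linarith [hz.1, hz.2]
  have hg : DifferentiableOn ℂ (fun z => f (-z + v * I)) V :=
    hf.comp (by fun_prop) hmaps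
  have h1 := LP472.fatou_bounded hVo hg (M := M)
    (fun z hz => hM _ (hmaps hz).1 (hmaps hz).2) one_pos (E := univ)
    (fun x _ => ⟨δ, hδ, fun z hz => ⟨hz.1, hz.2.1⟩⟩)
  have h2 := ae_affine h1 0 (η := -1) (by norm_num)
  filter_upwards [h2] with x hx
  obtain ⟨l, hl⟩ := hx (mem_univ _)
  refine ⟨l, ?_⟩
  obtain ⟨h, hh, -, ht⟩ := hl 1 one_pos
  have hx0 : (0 : ℝ) + -1 * x = -x := by ring
  rw [hx0] at ht
  have hT : Tendsto (fun y : ℝ => ((-x : ℝ) : ℂ) + y * I) (𝓝[>] 0)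
      (𝓝[LP472.Cone 1 h (-x)] ((-x : ℝ) : ℂ)) := by
    rw [tendsto_nhdsWithin_iff]
    constructor
    · have : Continuous (fun y : ℝ => ((-x : ℝ) : ℂ) + y * I) := by fun_prop
      have h3 := (this.tendsto 0).mono_left (nhdsWithin_le_nhds (s := Ioi 0))
      simpa using h3
    · have : Ioo 0 h ∈ 𝓝[>] (0 : ℝ) := Ioo_mem_nhdsGT hh
      filter_upwards [this] with y hy
      rw [LP472.mem_Cone]
      simp
      exact ⟨hy.1, hy.2, hy.1⟩
  have h3 := ht.comp hT
  refine h3.congr fun y => ?_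
  simp only [Function.comp]
  congr 1
  push_cast
  ring

/-- limits along rational numbers -/
theorem tendsto_of_rat {φ : ℝ → ℂ} {δ : ℝ} (hδ : 0 < δ) (hφ : ContinuousOn φ (Ioo 0 δ)) {c : ℂ}
    (h : Tendsto (fun q : ℚ => φ q) (comap (fun q : ℚ => (q : ℝ)) (𝓝[>] 0)) (𝓝 c)) :
    Tendsto φ (𝓝[>] 0) (𝓝 c) := by
  rw [Metric.tendsto_nhds] at h ⊢
  intro ε hε
  have h1 := h (ε / 2) (by positivity)
  rw [eventually_comap] at h1
  obtain ⟨η, hη, hsub⟩ := mem_nhdsGT_iff_exists_Ioo_subset.1 h1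
  have hmem : Ioo 0 (min η δ) ∈ 𝓝[>] (0 : ℝ) := Ioo_mem_nhdsGT (lt_min hη hδ)
  filter_upwards [hmem] with y hy
  by_contra hcon
  have hgt : ε / 2 < dist (φ y) c := by
    have := not_lt.1 hcon
    linarith
  have hy2 : y ∈ Ioo 0 δ := ⟨hy.1, hy.2.trans_le (min_le_right _ _)⟩
  have hc : ContinuousAt φ y := hφ.continuousAt (Ioo_mem_nhds hy2.1 hy2.2)
  have h2 : ∀ᶠ z in 𝓝 y, ε / 2 < dist (φ z) c ∧ z ∈ Ioo 0 (min η δ) :=
    ((hc.dist continuousAt_const).eventually (lt_mem_nhds hgt)).and (Ioo_mem_nhds hy.1 hy.2)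
  obtain ⟨W, hW, hWo, hyW⟩ := _root_.mem_nhds_iff.1 h2
  obtain ⟨q, hq⟩ := (Rat.denseRange_cast (𝕜 := ℝ)).exists_mem_open hWo ⟨y, hyW⟩
  have h3 := hW hq
  have h4 := hsub ⟨h3.2.1, h3.2.2.trans_le (min_le_left _ _)⟩ q rfl
  exact absurd h4 (not_lt.2 h3.1.le)

/-- the vertical slices of `G` below the graph of `U` -/
def Gv (G : ℂ × ℂ → ℂ) (D : Set (ℂ × ℂ)) (S : Set ℝ) (U : ℝ → ℝ) (y : ℝ) (p : ℝ × ℝ) : ℂ :=
  open Classical in
  if p.1 ∈ S then D.indicator G ((p.2 : ℂ) + ((U p.1 : ℂ) - y) * I, (p.1 : ℂ)) else 0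

theorem meas_Gv {D : Set (ℂ × ℂ)} (hD : IsOpen D) {G : ℂ × ℂ → ℂ} (hG : ContinuousOn G D)
    {S : Set ℝ} (hS : MeasurableSet S) {U : ℝ → ℝ} (hU : Measurable U) (y : ℝ) :
    Measurable (Gv G D S U y) := by
  classical
  have h1 : Measurable (D.indicator G) := by
    rw [← Set.piecewise_eq_indicator]
    exact ContinuousOn.measurable_piecewise hG continuousOn_const hD.measurableSet
  have h2 : Measurable (fun p : ℝ × ℝ => (((p.2 : ℂ) + ((U p.1 : ℂ) - y) * I, (p.1 : ℂ)) : ℂ × ℂ)) := by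
    fun_prop
  unfold Gv
  refine Measurable.ite ?_ (h1.comp h2) measurable_const
  exact measurable_fst hS

theorem exists_joint {D : Set (ℂ × ℂ)} (hD : IsOpen D) {G : ℂ × ℂ → ℂ} {M : ℝ}
    (hG : DifferentiableOn ℂ G D) (hM : ∀ p ∈ D, ‖G p‖ ≤ M) {S : Set ℝ} (hS : MeasurableSet S)
    {U : ℝ → ℝ} (hU : Measurable U) {δ : ℝ} (hδ : 0 < δ)
    (hsl : ∀ u ∈ S, ∀ t : ℂ, U u - δ < t.im → t.im < U u → (t, (u : ℂ)) ∈ D) :
    ∃ L : ℝ × ℝ → ℂ, Measurable L ∧ ∀ᵐ p : ℝ × ℝ, ‖L p‖ ≤ |M| ∧ (p.1 ∈ S →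
      Tendsto (fun y : ℝ => G ((p.2 : ℂ) + ((U p.1 : ℂ) - y) * I, (p.1 : ℂ))) (𝓝[>] 0)
        (𝓝 (L p))) := by
  classical
  set l : Filter ℚ := comap (fun q : ℚ => (q : ℝ)) (𝓝[>] 0) with hl
  have : l.NeBot := by
    rw [hl, comap_neBot_iff]
    intro t ht
    obtain ⟨ε, hε, hsub⟩ := mem_nhdsGT_iff_exists_Ioo_subset.1 ht
    obtain ⟨q, hq1, hq2⟩ := exists_rat_btwn (show (0 : ℝ) < ε from hε)
    exact ⟨q, hsub ⟨hq1, hq2⟩⟩
  have : l.IsCountablyGenerated := by rw [hl]; infer_instance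
  have hpos : ∀ᶠ q : ℚ in l, (q : ℝ) ∈ Ioo 0 δ := by
    have : ∀ᶠ y : ℝ in 𝓝[>] 0, y ∈ Ioo 0 δ := Ioo_mem_nhdsGT hδ
    exact tendsto_comap.eventually this
  have hin : ∀ u ∈ S, ∀ x y : ℝ, y ∈ Ioo 0 δ →
      ((x : ℂ) + ((U u : ℂ) - y) * I, (u : ℂ)) ∈ D := by
    intro u hu x y hy
    apply hsl u hu
    · simp; exact hy.2
    · simp; exact hy.1
  have hval : ∀ u ∈ S, ∀ x y : ℝ, y ∈ Ioo 0 δ →
      Gv G D S U y (u, x) = G ((x : ℂ) + ((U u : ℂ) - y) * I, (u : ℂ)) := by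
    intro u hu x y hy
    simp only [Gv, if_pos hu]
    exact Set.indicator_of_mem (hin u hu x y hy) _
  have hm := fun q : ℚ => meas_Gv hD hG.continuousOn hS hU (q : ℝ)
  have hE : MeasurableSet {p : ℝ × ℝ | ∃ c, Tendsto (fun q : ℚ => Gv G D S U q p) l (𝓝 c)} :=
    StronglyMeasurable.measurableSet_exists_tendsto (fun q => (hm q).stronglyMeasurable)
  have hae : ∀ᵐ p : ℝ × ℝ, ∃ c, Tendsto (fun q : ℚ => Gv G D S U q p) l (𝓝 c) := by
    rw [ae_iff, Measure.volume_eq_prod]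
    refine (Measure.measure_prod_null hE.compl).2 (Eventually.of_forall fun u => ?_)
    by_cases hu : u ∈ S
    · have h1 := fatou_slice (f := fun t => G (t, (u : ℂ))) (δ := δ) (M := M) (v := U u) hδ ?_
        (fun z h1 h2 => hM _ (hsl u hu z h1 h2))
      · show volume _ = 0
        refine measure_mono_null ?_ (ae_iff.1 h1)
        intro x hx hx2
        apply hx
        obtain ⟨c, hc⟩ := hx2
        refine ⟨c, ?_⟩
        have h2 := hc.comp (tendsto_comap (f := fun q : ℚ => (q : ℝ)) (x := 𝓝[>] (0 : ℝ)))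
        refine h2.congr' ?_
        filter_upwards [hpos] with q hq
        exact (hval u hu x q hq).symm
      · refine hG.comp (by fun_prop) ?_
        intro z hz
        exact hsl u hu z hz.1 hz.2
    · show volume _ = 0
      have : (Prod.mk u ⁻¹' {p : ℝ × ℝ | ∃ c, Tendsto (fun q : ℚ => Gv G D S U q p) l (𝓝 c)}ᶜ)
          = ∅ := by
        ext x
        simp only [mem_preimage, mem_compl_iff, mem_ofPred_eq, mem_empty_iff_false, iff_false,
          not_not]
        refine ⟨0, ?_⟩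
        simp only [Gv, if_neg hu]
        exact tendsto_const_nhds
      rw [this, measure_empty]
  obtain ⟨L, hLm, hL⟩ := measurable_limit_of_tendsto_metrizable_ae
    (fun q => (hm q).aemeasurable) hae
  refine ⟨L, hLm, ?_⟩
  filter_upwards [hL] with p hp
  constructor
  · refine le_of_tendsto hp.norm (Eventually.of_forall fun q => ?_)
    unfold Gv
    split_ifs with h
    · by_cases hd : ((p.2 : ℂ) + ((U p.1 : ℂ) - (q : ℝ)) * I, (p.1 : ℂ)) ∈ D
      · rw [Set.indicator_of_mem hd]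
        exact (hM _ hd).trans (le_abs_self _)
      · rw [Set.indicator_of_notMem hd, norm_zero]
        positivity
    · rw [norm_zero]; positivity
  · intro hpS
    refine tendsto_of_rat hδ ?_ (hp.congr' ?_)
    · refine hG.continuousOn.comp (by fun_prop) ?_
      intro y hy
      exact hin _ hpS _ _ hy
    · filter_upwards [hpos] with q hq
      exact hval _ hpS _ _ hq

/-- Lebesgue points of a bounded function on the plane -/
theorem lebesgue_pt {L : ℝ × ℝ → ℂ} (hL : Measurable L) {M : ℝ} (hb : ∀ᵐ p : ℝ × ℝ, ‖L p‖ ≤ M) :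
    ∀ᵐ p : ℝ × ℝ, ∀ R > 0, ∀ κ > 0, ∀ᶠ η : ℝ in 𝓝[>] 0,
      ∫⁻ q in closedBall p (η * R), ‖L q - L p‖ₑ ≤ ENNReal.ofReal (κ * η ^ 2) := by
  have hli : LocallyIntegrable L := by
    rw [MeasureTheory.locallyIntegrable_iff]
    intro K hK
    exact Measure.integrableOn_of_bounded (M := M) hK.measure_lt_top.ne hL.aestronglyMeasurable
      (ae_restrict_of_ae hb)
  have h := IsUnifLocDoublingMeasure.ae_tendsto_average_norm_sub (μ := (volume : Measure (ℝ × ℝ)))
    hli 1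
  filter_upwards [h] with p hp R hR κ hκ
  have h1 : Tendsto (fun η : ℝ => η * R) (𝓝[>] 0) (𝓝[>] 0) := by
    rw [tendsto_nhdsWithin_iff]
    constructor
    · have : Continuous (fun η : ℝ => η * R) := by fun_prop
      have h3 := (this.tendsto 0).mono_left (nhdsWithin_le_nhds (s := Ioi 0))
      simpa using h3
    · filter_upwards [self_mem_nhdsWithin] with η hη
      exact mul_pos hη hR
  have h2 := hp (fun _ => p) (fun η : ℝ => η * R) h1 (by
    filter_upwards [self_mem_nhdsWithin] with η hη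
    exact mem_closedBall_self (by have := mul_pos (show (0 : ℝ) < η from hη) hR; linarith))
  have hκ' : 0 < κ / (4 * R ^ 2) := by positivity
  filter_upwards [h2.eventually (gt_mem_nhds hκ'), self_mem_nhdsWithin] with η hη hη0
  have hη0' : (0 : ℝ) < η := hη0
  have hvol : volume.real (closedBall p (η * R)) = (2 * (η * R)) ^ 2 := by
    rw [← Prod.mk.eta (p := p), ← closedBall_prod_same, Measure.volume_eq_prod,
      measureReal_def, Measure.prod_prod, Real.volume_closedBall, Real.volume_closedBall,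
      ENNReal.toReal_mul, ENNReal.toReal_ofReal (by positivity)]
    ring
  rw [setAverage_eq, hvol, smul_eq_mul] at hη
  have hint : Integrable (fun q => L q - L p) (volume.restrict (closedBall p (η * R))) := by
    refine Integrable.sub ?_ ?_
    · exact hli.integrableOn_isCompact (isCompact_closedBall _ _)
    · exact integrableOn_const (hs := (isCompact_closedBall p (η * R)).measure_lt_top.ne)
  rw [← ofReal_integral_norm_eq_lintegral_enorm hint]
  apply ENNReal.ofReal_le_ofReal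
  rw [inv_mul_lt_iff₀ (by positivity)] at hη
  refine hη.le.trans (le_of_eq ?_)
  field_simp
  norm_num

/-- few bad horizontal lines near a Lebesgue point -/
theorem few_bad {L : ℝ × ℝ → ℂ} (hL : Measurable L) {u0 x0 : ℝ} {c : ℂ}
    (hleb : ∀ R > 0, ∀ κ > 0, ∀ᶠ η : ℝ in 𝓝[>] 0,
      ∫⁻ q in closedBall (u0, x0) (η * R), ‖L q - c‖ₑ ≤ ENNReal.ofReal (κ * η ^ 2))
    {R κ s : ℝ} (hR : 0 < R) (hκ : 0 < κ) (hs : 0 < s) : ∀ᶠ η : ℝ in 𝓝[>] 0,
      volume ({u | ENNReal.ofReal (κ * η) ≤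
        ∫⁻ x in closedBall x0 (η * R), ‖L (u, x) - c‖ₑ} ∩ closedBall u0 (η * R)) ≤
        ENNReal.ofReal (s / 2 * η) := by
  filter_upwards [hleb R hR (κ * (s / 2)) (by positivity), self_mem_nhdsWithin] with η hη hη0
  have hη0' : (0 : ℝ) < η := hη0
  have hme : Measurable (fun q : ℝ × ℝ => ‖L q - c‖ₑ) := by fun_prop
  have hΦ : Measurable (fun u : ℝ => ∫⁻ x in closedBall x0 (η * R), ‖L (u, x) - c‖ₑ) :=
    hme.lintegral_prod_right'
  rw [← closedBall_prod_same, Measure.volume_eq_prod, ← Measure.prod_restrict,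
    lintegral_prod _ hme.aemeasurable] at hη
  have hne : ENNReal.ofReal (κ * η) ≠ 0 := by
    rw [Ne, ENNReal.ofReal_eq_zero, not_le]; positivity
  have h1 := meas_ge_le_lintegral_div (μ := volume.restrict (closedBall u0 (η * R)))
    hΦ.aemeasurable hne ENNReal.ofReal_ne_top
  rw [Measure.restrict_apply (measurableSet_le measurable_const hΦ)] at h1
  refine h1.trans ?_
  refine (ENNReal.div_le_div_right hη _).trans ?_
  rw [← ENNReal.ofReal_div_of_pos (by positivity)]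
  apply ENNReal.ofReal_le_ofReal
  rw [div_le_iff₀ (by positivity)]
  nlinarith

end Crest.Agent.R102.Blow362
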