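import Crest.Agent.R102.BlowB_362

/-!
Row 102, T1-B (f) (helper362): constant blow-ups, part C: the bounded case.
-/

set_option autoImplicit false

open Set Filter Topology Metric Complex MeasureTheory Interval

noncomputable section

namespace Crest.Agent.R102.Blow362

/-- on most real lines `ζ` the blow-up is almost constant -/
theorem most_lines {D : Set (ℂ × ℂ)} {G : ℂ × ℂ → ℂ} {M : ℝ}
    (hG : DifferentiableOn ℂ G D) (hM : ∀ p ∈ D, ‖G p‖ ≤ M) {S : Set ℝ}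
    {U : ℝ → ℝ} {δ : ℝ} (hδ : 0 < δ)
    (hsl : ∀ u ∈ S, ∀ t : ℂ, U u - δ < t.im → t.im < U u → (t, (u : ℂ)) ∈ D)
    {L : ℝ × ℝ → ℂ} (hL : Measurable L) {N : Set ℝ} (hN : volume N = 0)
    (hgood : ∀ u ∈ S, u ∉ N → ∀ᵐ x : ℝ,
      Tendsto (fun y : ℝ => G ((x : ℂ) + ((U u : ℂ) - y) * I, (u : ℂ))) (𝓝[>] 0) (𝓝 (L (u, x))))
    {u0 x0 : ℝ} {c : ℂ}
    (hleb : ∀ R > 0, ∀ κ > 0, ∀ᶠ η : ℝ in 𝓝[>] 0,
      ∫⁻ q in closedBall (u0, x0) (η * R), ‖L q - c‖ₑ ≤ ENNReal.ofReal (κ * η ^ 2))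
    {C s : ℝ} (hs : 0 < s)
    (hC : ∀ᶠ r : ℝ in 𝓝[>] 0, (∀ u ∈ S, |u - u0| ≤ r → U u0 - C * r ≤ U u) ∧
      ENNReal.ofReal (3 / 2 * r) ≤ volume {u ∈ S | |u - u0| ≤ r ∧ U u ≤ U u0 + C * r})
    {τ : ℂ} (hτ : τ.im < -(C * s)) {ε : ℝ} (hε : 0 < ε) :
    ∀ᶠ η : ℝ in 𝓝[>] 0, ∃ Z ⊆ Icc (-s) s, ENNReal.ofReal s ≤ volume Z ∧
      ∀ ζ ∈ Z, ‖G ((x0 : ℂ) + U u0 * I + η * τ, (u0 : ℂ) + η * (ζ : ℂ)) - c‖ ≤ ε := by
  obtain ⟨R, hR, κ, hκ, hq⟩ := halfplane_quant M (C * s) c τ hτ hε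
  set R' : ℝ := max R s with hR'
  have hR'0 : 0 < R' := lt_max_of_lt_left hR
  have hηs : Tendsto (fun η : ℝ => η * s) (𝓝[>] 0) (𝓝[>] 0) := by
    rw [tendsto_nhdsWithin_iff]
    constructor
    · have : Continuous (fun η : ℝ => η * s) := by fun_prop
      have h3 := (this.tendsto 0).mono_left (nhdsWithin_le_nhds (s := Ioi 0))
      simpa using h3
    · filter_upwards [self_mem_nhdsWithin] with η hη
      exact mul_pos hη hs
  have hsmall : ∀ᶠ η : ℝ in 𝓝[>] 0, η * (C * s + R) < δ := by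
    have : Continuous (fun η : ℝ => η * (C * s + R)) := by fun_prop
    have h3 := (this.tendsto 0).mono_left (nhdsWithin_le_nhds (s := Ioi 0))
    simp only [zero_mul] at h3
    exact h3.eventually (gt_mem_nhds hδ)
  filter_upwards [few_bad hL hleb hR'0 hκ hs, hηs.eventually hC, hsmall, self_mem_nhdsWithin]
    with η hbad hCη hδη hη0
  have hη : (0 : ℝ) < η := hη0
  set Bad : Set ℝ := {u | ENNReal.ofReal (κ * η) ≤
        ∫⁻ x in closedBall x0 (η * R'), ‖L (u, x) - c‖ₑ} ∩ closedBall u0 (η * R') with hBad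
  set A : Set ℝ := {u ∈ S | |u - u0| ≤ η * s ∧ U u ≤ U u0 + C * (η * s)} with hA
  have hvolA : ENNReal.ofReal (η * s) ≤ volume (A \ (N ∪ Bad)) := by
    refine le_trans ?_ (le_measure_sdiff)
    have h1 : volume (N ∪ Bad) ≤ ENNReal.ofReal (s / 2 * η) := by
      refine (measure_union_le _ _).trans ?_
      rw [hN, zero_add]
      exact hbad
    calc ENNReal.ofReal (η * s) = ENNReal.ofReal (3 / 2 * (η * s) - s / 2 * η) := by
          congr 1; ring
      _ = ENNReal.ofReal (3 / 2 * (η * s)) - ENNReal.ofReal (s / 2 * η) :=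
          ENNReal.ofReal_sub _ (by positivity)
      _ ≤ volume A - volume (N ∪ Bad) := tsub_le_tsub hCη.2 h1
  refine ⟨(fun ζ : ℝ => u0 + η * ζ) ⁻¹' (A \ (N ∪ Bad)), ?_, ?_, ?_⟩
  · intro ζ hζ
    have h1 : |u0 + η * ζ - u0| ≤ η * s := hζ.1.2.1
    rw [add_sub_cancel_left, abs_mul, abs_of_pos hη] at h1
    exact abs_le.1 (le_of_mul_le_mul_left h1 hη)
  · rw [vol_affine _ _ hη]
    calc ENNReal.ofReal s = ENNReal.ofReal η⁻¹ * ENNReal.ofReal (η * s) := by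
          rw [← ENNReal.ofReal_mul (by positivity)]
          congr 1; field_simp
      _ ≤ _ := by gcongr
  · intro ζ hζ
    set u : ℝ := u0 + η * ζ with hu
    have huA : u ∈ A := hζ.1
    have huS : u ∈ S := huA.1
    have hulo : U u0 - C * (η * s) ≤ U u := hCη.1 u huS huA.2.1
    have huhi : U u ≤ U u0 + C * (η * s) := huA.2.2
    have huN : u ∉ N := fun h => hζ.2 (Or.inl h)
    have huB : ∫⁻ x in closedBall x0 (η * R'), ‖L (u, x) - c‖ₑ < ENNReal.ofReal (κ * η) := by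
      by_contra hcon
      refine hζ.2 (Or.inr ⟨not_lt.1 hcon, ?_⟩)
      rw [mem_closedBall, Real.dist_eq]
      refine huA.2.1.trans ?_
      gcongr
      exact le_max_right _ _
    set H : ℝ := (U u - U u0) / η with hH
    have hHη : U u = U u0 + η * H := by rw [hH]; field_simp; ring
    have hHle : |H| ≤ C * s := by
      rw [abs_le]
      constructor
      · rw [hH, le_div_iff₀ hη]; nlinarith
      · rw [hH, div_le_iff₀ hη]; nlinarith
    have hucast : (u0 : ℂ) + η * (ζ : ℂ) = (u : ℂ) := by rw [hu]; push_cast; ring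
    rw [hucast]
    have him : ∀ z : ℂ, ((x0 : ℂ) + U u0 * I + η * z).im = U u0 + η * z.im := by
      intro z; simp
    have hmaps : ∀ z : ℂ, -R < z.im → z.im < H →
        ((x0 : ℂ) + U u0 * I + η * z, (u : ℂ)) ∈ D := by
      intro z h1 h2
      apply hsl u huS
      · rw [him]
        have h3 : η * -R < η * z.im := by gcongr
        have h4 : η * H ≤ η * (C * s) := by
          gcongr; exact (abs_le.1 hHle).2
        nlinarith
      · rw [him, hHη]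
        gcongr
    refine hq (fun z => G ((x0 : ℂ) + U u0 * I + η * z, (u : ℂ))) (fun x => L (u, x0 + η * x)) H
      hHle ?_ ?_ ?_ ?_
    · refine hG.comp (by fun_prop) ?_
      intro z hz
      exact hmaps z hz.1 hz.2
    · intro z h1 h2
      exact hM _ (hmaps z h1 h2)
    · have h1 := ae_affine (hgood u huS huN) x0 hη.ne'
      filter_upwards [h1] with x hx
      have h2 : Tendsto (fun y : ℝ => η * (H - y)) (𝓝[<] H) (𝓝[>] 0) := by
        rw [tendsto_nhdsWithin_iff]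
        constructor
        · have : Continuous (fun y : ℝ => η * (H - y)) := by fun_prop
          have h3 := (this.tendsto H).mono_left (nhdsWithin_le_nhds (s := Iio H))
          simpa using h3
        · filter_upwards [self_mem_nhdsWithin] with y hy
          exact mul_pos hη (sub_pos.2 hy)
      have h3 := hx.comp h2
      refine h3.congr fun y => ?_
      simp only [Function.comp]
      congr 2
      rw [hHη]
      push_cast
      ring
    · intro a b ha hb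
      rw [intervalIntegral.integral_comp_add_mul (fun x => L (u, x) - c) hη.ne' x0, norm_smul,
        Real.norm_eq_abs, abs_of_pos (inv_pos.2 hη), inv_mul_le_iff₀ hη]
      rw [intervalIntegral.norm_intervalIntegral_eq]
      have hsub : Ι (x0 + η * a) (x0 + η * b) ⊆ closedBall x0 (η * R') := by
        refine uIoc_subset_uIcc.trans ?_
        rw [Real.closedBall_eq_Icc]
        have hRR : R ≤ R' := le_max_left _ _
        have ha' := abs_le.1 (ha.trans hRR)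
        have hb' := abs_le.1 (hb.trans hRR)
        apply uIcc_subset_Icc
        · constructor <;> nlinarith [ha'.1, ha'.2]
        · constructor <;> nlinarith [hb'.1, hb'.2]
      have h1 : ‖∫ x in Ι (x0 + η * a) (x0 + η * b), (L (u, x) - c)‖ₑ ≤
          ENNReal.ofReal (κ * η) :=
        (enorm_integral_le_lintegral_enorm _).trans
          ((lintegral_mono_set hsub).trans huB.le)
      rw [← ofReal_norm, ENNReal.ofReal_le_ofReal_iff (by positivity)] at h1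
      rw [mul_comm η κ]
      exact h1

/-- the blow-up is asymptotically constant near `(τ, 0)` -/
theorem near_real {D : Set (ℂ × ℂ)} {G : ℂ × ℂ → ℂ} {M : ℝ}
    (hG : DifferentiableOn ℂ G D) (hM : ∀ p ∈ D, ‖G p‖ ≤ M) {X : ℂ} {u0 : ℝ} {c : ℂ} {s ρ : ℝ}
    (hs : 0 < s) (hρ : 0 < ρ) (hsρ : s ≤ ρ / 96) {τ : ℂ}
    (hdom : ∀ᶠ η : ℝ in 𝓝[>] 0, ∀ ζ ∈ ball (0 : ℂ) ρ, (X + η * τ, (u0 : ℂ) + η * ζ) ∈ D)
    (hml : ∀ ε > 0, ∀ᶠ η : ℝ in 𝓝[>] 0, ∃ Z ⊆ Icc (-s) s, ENNReal.ofReal s ≤ volume Z ∧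
      ∀ ζ ∈ Z, ‖G (X + η * τ, (u0 : ℂ) + η * (ζ : ℂ)) - c‖ ≤ ε) {ζ : ℂ} (hζ : ‖ζ‖ ≤ s) :
    Tendsto (fun η : ℝ => G (X + η * τ, (u0 : ℂ) + η * ζ)) (𝓝[>] 0) (𝓝 c) := by
  have hM0 : 0 ≤ M := by
    obtain ⟨η, hη⟩ := hdom.exists
    exact (norm_nonneg _).trans (hM _ (hη 0 (mem_ball_self hρ)))
  rw [Metric.tendsto_nhds]
  intro ε hε
  set K : ℝ := M + ‖c‖ with hK
  have hK0 : 0 ≤ K := by positivity
  obtain ⟨d, hd⟩ : ∃ d : ℕ, 3 * 24 ^ d * (4 * K * (1 / 48) ^ (d + 1)) < ε / 2 := by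
    have h1 : Tendsto (fun d : ℕ => (3 * (4 * K) / 48) * ((1 : ℝ) / 2) ^ d) atTop
        (𝓝 ((3 * (4 * K) / 48) * 0)) :=
      (tendsto_pow_atTop_nhds_zero_of_lt_one (by norm_num) (by norm_num)).const_mul _
    rw [mul_zero] at h1
    obtain ⟨d, hd⟩ := (h1.eventually (gt_mem_nhds (half_pos hε))).exists
    refine ⟨d, lt_of_eq_of_lt ?_ hd⟩
    have : ((1 : ℝ) / 2) ^ d = 24 ^ d * (1 / 48) ^ d := by rw [← mul_pow]; norm_num
    rw [this]
    ring
  set ε' : ℝ := ε / (4 * (3 * 24 ^ d)) with hε'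
  have hε'0 : 0 < ε' := by positivity
  filter_upwards [hml ε' hε'0, hdom] with η ⟨Z, hZ, hvol, hZb⟩ hD
  have h1 := M948.small_propagation (b := fun ζ => G (X + η * τ, (u0 : ℂ) + η * ζ) - c)
    (c := 0) (ρ := ρ) (M := K) hρ ?_ ?_ hs (by linarith) (E := Z) (by simpa using hZ) hvol
    (m := ε') hZb d (z := ζ) (by simpa using hζ)
  · rw [dist_eq_norm]
    refine h1.trans_lt ?_
    have h2 : (2 * s / ρ) ^ (d + 1) ≤ (1 / 48) ^ (d + 1) := by
      refine pow_le_pow_left₀ (by positivity) ?_ _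
      rw [div_le_iff₀ hρ]; linarith
    have h3 : 3 * 24 ^ d * (4 * K * (2 * s / ρ) ^ (d + 1)) ≤
        3 * 24 ^ d * (4 * K * (1 / 48) ^ (d + 1)) := by gcongr
    have h4 : 3 * 24 ^ d * ε' = ε / 4 := by rw [hε']; field_simp
    rw [mul_add, h4]
    linarith
  · refine (hG.comp (by fun_prop) ?_).sub_const c
    intro z hz
    exact hD z (by simpa using hz)
  · intro z hz
    refine (norm_sub_le _ _).trans ?_
    have := hM _ (hD z (by simpa using hz))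
    linarith

/-- **constant blow-ups, bounded case, at a point** -/
theorem blow_point {D : Set (ℂ × ℂ)} {G : ℂ × ℂ → ℂ} {M : ℝ}
    (hG : DifferentiableOn ℂ G D) (hM : ∀ p ∈ D, ‖G p‖ ≤ M) {S : Set ℝ}
    {U : ℝ → ℝ} {δ : ℝ} (hδ : 0 < δ)
    (hsl : ∀ u ∈ S, ∀ t : ℂ, U u - δ < t.im → t.im < U u → (t, (u : ℂ)) ∈ D)
    {L : ℝ × ℝ → ℂ} (hL : Measurable L) {N : Set ℝ} (hN : volume N = 0)
    (hgood : ∀ u ∈ S, u ∉ N → ∀ᵐ x : ℝ,
      Tendsto (fun y : ℝ => G ((x : ℂ) + ((U u : ℂ) - y) * I, (u : ℂ))) (𝓝[>] 0) (𝓝 (L (u, x))))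
    {u0 x0 : ℝ} {c : ℂ}
    (hleb : ∀ R > 0, ∀ κ > 0, ∀ᶠ η : ℝ in 𝓝[>] 0,
      ∫⁻ q in closedBall (u0, x0) (η * R), ‖L q - c‖ₑ ≤ ENNReal.ofReal (κ * η ^ 2))
    {C : ℝ} (hC : ∀ᶠ r : ℝ in 𝓝[>] 0, (∀ u ∈ S, |u - u0| ≤ r → U u0 - C * r ≤ U u) ∧
      ENNReal.ofReal (3 / 2 * r) ≤ volume {u ∈ S | |u - u0| ≤ r ∧ U u ≤ U u0 + C * r})
    {Ω : Set (ℂ × ℂ)} (hΩ : IsOpen Ω) (hΩc : IsPreconnected Ω) {τ0 : ℂ} (hτ0 : τ0.im < 0)
    (hmem : (τ0, (0 : ℂ)) ∈ Ω)
    (hexh : ∀ K ⊆ Ω, IsCompact K → ∀ᶠ η : ℝ in 𝓝[>] 0, ∀ p ∈ K,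
      ((x0 : ℂ) + U u0 * I + η * p.1, (u0 : ℂ) + η * p.2) ∈ D) :
    TendstoLocallyUniformlyOn
      (fun (η : ℝ) (p : ℂ × ℂ) => G ((x0 : ℂ) + U u0 * I + η * p.1, (u0 : ℂ) + η * p.2))
      (fun _ => c) (𝓝[>] 0) Ω := by
  obtain ⟨r, hr, hrΩ⟩ := Metric.isOpen_iff.1 hΩ _ hmem
  set v : ℝ := -τ0.im with hv
  have hv0 : 0 < v := by rw [hv]; linarith
  set ρ : ℝ := min (r / 2) (v / 2) with hρ
  have hρ0 : 0 < ρ := lt_min (by positivity) (by positivity)
  set s : ℝ := min (ρ / 96) (v / (4 * (|C| + 1))) with hs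
  have hs0 : 0 < s := lt_min (by positivity) (by positivity)
  have hCs : C * s < v / 2 := by
    have h1 : s ≤ v / (4 * (|C| + 1)) := min_le_right _ _
    have h2 : C * s ≤ (|C| + 1) * s := by
      gcongr; linarith [le_abs_self C]
    have h3 : (|C| + 1) * s ≤ (|C| + 1) * (v / (4 * (|C| + 1))) := by gcongr
    have h4 : (|C| + 1) * (v / (4 * (|C| + 1))) = v / 4 := by
      have : |C| + 1 ≠ 0 := by positivity
      field_simp
    linarith
  have hcb : closedBall (τ0, (0 : ℂ)) ρ ⊆ Ω :=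
    (closedBall_subset_ball (by have := min_le_left (r / 2) (v / 2); linarith)).trans hrΩ
  -- pointwise convergence near (τ0, 0)
  have hpt : ∀ τ ∈ ball τ0 ρ, ∀ ζ ∈ ball (0 : ℂ) s,
      Tendsto (fun η : ℝ => G ((x0 : ℂ) + U u0 * I + η * τ, (u0 : ℂ) + η * ζ)) (𝓝[>] 0) (𝓝 c) := by
    intro τ hτ ζ hζ
    refine near_real hG hM hs0 hρ0 (min_le_left _ _) ?_ (fun ε hε => ?_)
      (by simpa using (mem_ball.1 hζ).le)
    · filter_upwards [hexh _ hcb (isCompact_closedBall _ _)] with η hη ζ hζ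
      exact hη (τ, ζ) (by
        rw [← closedBall_prod_same]
        exact ⟨ball_subset_closedBall hτ, ball_subset_closedBall hζ⟩)
    · refine most_lines hG hM hδ hsl hL hN hgood hleb hs0 hC ?_ hε
      rw [mem_ball, dist_eq_norm] at hτ
      have h1 := (Complex.abs_im_le_norm (τ - τ0)).trans_lt hτ
      rw [Complex.sub_im, abs_lt] at h1
      have h2 : ρ ≤ v / 2 := min_le_right _ _
      linarith [h1.2]
  have hfin : FiniteDimensional ℂ (ℂ × ℂ) := inferInstance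
  refine M948.tlu_of_ultra hΩ fun 𝒰 h𝒰 => ?_
  have hloc : ∀ z ∈ Ω, ∃ r > 0, ∀ᶠ η : ℝ in (𝒰 : Filter ℝ),
      DifferentiableOn ℂ (fun p : ℂ × ℂ => G ((x0 : ℂ) + U u0 * I + η * p.1,
        (u0 : ℂ) + η * p.2)) (ball z r) ∧ ∀ w ∈ ball z r,
        ‖G ((x0 : ℂ) + U u0 * I + η * w.1, (u0 : ℂ) + η * w.2)‖ ≤ M := by
    intro z hz
    obtain ⟨r', hr', hr'Ω⟩ := Metric.isOpen_iff.1 hΩ z hz
    refine ⟨r' / 2, by positivity, ?_⟩
    have h1 := h𝒰 (hexh (closedBall z (r' / 2))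
      ((closedBall_subset_ball (by linarith)).trans hr'Ω) (isCompact_closedBall _ _))
    filter_upwards [h1] with η hη
    refine ⟨hG.comp (by fun_prop) ?_, fun w hw => hM _ (hη w (ball_subset_closedBall hw))⟩
    intro w hw
    exact hη w (ball_subset_closedBall hw)
  obtain ⟨g, hg, hgu⟩ := montel_exh 𝒰 hΩ hloc
  have heq : EqOn g (fun _ => c) Ω := by
    have han : AnalyticOnNhd ℂ g Ω := by
      have h1 : TendstoLocallyUniformlyOn (fun _ : ℝ => g) g 𝒰 Ω := fun v hv x hx =>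
        ⟨univ, univ_mem, Eventually.of_forall fun _ y _ => refl_mem_uniformity hv⟩
      exact R266.SCV.analyticOnNhd_of_tendstoLocallyUniformlyOn hΩ h1
        (Eventually.of_forall fun _ => hg)
    refine han.eqOn_of_preconnected_of_eventuallyEq analyticOnNhd_const hΩc hmem ?_
    have hnb : ball τ0 ρ ×ˢ ball (0 : ℂ) s ∈ 𝓝 (τ0, (0 : ℂ)) :=
      prod_mem_nhds (ball_mem_nhds _ hρ0) (ball_mem_nhds _ hs0)
    filter_upwards [hnb, hΩ.mem_nhds hmem] with p hp hpΩ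
    exact tendsto_nhds_unique (hgu.tendsto_at hpΩ) ((hpt p.1 hp.1 p.2 hp.2).mono_left h𝒰)
  exact hgu.congr_right heq

end Crest.Agent.R102.Blow362
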