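import Crest.Agent.R102.EdgeDefs_255

/-!
Row 102, T1-B, EDGE / SLOW, leaf N1, **bootstrap** `φ ⟹ label` on one column (helper172).

* `mod_cont`  : uniform continuity of `ψ`, `ψ'` on closed substrips (periodicity);
* `inj_near`  : injectivity of `ψ` near a label;
* `near_zero` : `exp (2 i z)` near `1`, `‖z‖ ≤ 1` : `z` near `0`;
* `boot`      : the label stays near `b0` as long as the angle stays near `φ0`, given the collapse
  at every scale down to which the label is near `b0`.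
-/

set_option autoImplicit false

open Set Filter Topology Metric MeasureTheory Complex

noncomputable section

namespace Crest.Agent.R102.Boot172

open Crest.Agent.R102.Edge255

/-! ### the curve -/

section Curve

variable {h : ℝ} {ψ H : ℂ → ℂ}

lemma str_mem {b : ℂ} {c : ℝ} (hc : 0 < c) (hb : |b.im| ≤ h - c) : b ∈ T5.Str h := by
  show |b.im| < h
  linarith

lemma per_nat (D : Curve h ψ H) (n : ℕ) : ∀ z ∈ T5.Str h, ψ (z + n) = ψ z + 2 * Real.pi * n := by
  induction n with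
  | zero => intro z _; simp
  | succ n ih =>
    intro z hz
    have hz' : z + n ∈ T5.Str h := by
      have hz1 : |z.im| < h := hz
      show |(z + n).im| < h
      simpa using hz1
    have := D.ψ_per (z + n) hz'
    push_cast
    rw [show z + ((n : ℂ) + 1) = z + n + 1 by ring, this, ih z hz]
    ring

lemma per_int (D : Curve h ψ H) (n : ℤ) : ∀ z ∈ T5.Str h, ψ (z + n) = ψ z + 2 * Real.pi * n := by
  intro z hz
  obtain ⟨m, hm | hm⟩ := n.eq_nat_or_neg
  · subst hm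
    simpa using per_nat D m z hz
  · subst hm
    have hz' : z - m ∈ T5.Str h := by
      have hz1 : |z.im| < h := hz
      show |(z - m).im| < h
      simpa using hz1
    have := per_nat D m (z - m) hz'
    rw [sub_add_cancel] at this
    push_cast
    rw [this, show z + -(m : ℂ) = z - m by ring]
    ring

lemma dper_int (D : Curve h ψ H) (n : ℤ) : ∀ z ∈ T5.Str h, deriv ψ (z + n) = deriv ψ z := by
  intro z hz
  have ho : T5.Str h ∈ 𝓝 z := (T5.isOpen_Str h).mem_nhds hz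
  have h1 : (fun w => ψ (w + n)) =ᶠ[𝓝 z] fun w => ψ w + 2 * Real.pi * n := by
    filter_upwards [ho] with w hw
    exact per_int D n w hw
  have h2 := h1.deriv_eq
  rw [deriv_add_const] at h2
  rw [← h2]
  exact (deriv_comp_add_const (f := ψ) (n : ℂ) z).symm

/-- uniform continuity of `ψ` and `ψ'` on closed substrips -/
theorem mod_cont (D : Curve h ψ H) {κ ε : ℝ} (hκ : 0 < κ) (hε : 0 < ε) :
    ∃ k > 0, ∀ b b' : ℂ, |b.im| ≤ h - κ → ‖b' - b‖ ≤ k →
      ‖ψ b' - ψ b‖ ≤ ε ∧ ‖deriv ψ b' - deriv ψ b‖ ≤ ε := by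
  set C : Set ℂ := {z | |z.re| ≤ 2 ∧ |z.im| ≤ h - κ / 2} with hC
  have hCc : IsCompact C := by
    apply Metric.isCompact_of_isClosed_isBounded
    · exact (isClosed_le (f := fun z : ℂ => |z.re|) (by fun_prop) continuous_const).inter
        (isClosed_le (f := fun z : ℂ => |z.im|) (by fun_prop) continuous_const)
    · rw [isBounded_iff_forall_norm_le]
      exact ⟨2 + (h - κ / 2), fun z hz => (Complex.norm_le_abs_re_add_abs_im z).trans
        (add_le_add hz.1 hz.2)⟩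
  have hCs : C ⊆ T5.Str h := fun z hz => str_mem (half_pos hκ) hz.2
  have hψ : ContinuousOn ψ C := D.ψ_diff.continuousOn.mono hCs
  have hψ' : ContinuousOn (deriv ψ) C :=
    ((D.ψ_diff.deriv (T5.isOpen_Str h)).continuousOn).mono hCs
  have h1 := Metric.uniformContinuousOn_iff.1 (hCc.uniformContinuousOn_of_continuous hψ) ε hε
  have h2 := Metric.uniformContinuousOn_iff.1 (hCc.uniformContinuousOn_of_continuous hψ') ε hε
  obtain ⟨k1, hk1, h1⟩ := h1
  obtain ⟨k2, hk2, h2⟩ := h2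
  refine ⟨min (min (k1 / 2) (k2 / 2)) (min (κ / 2) 1), by positivity, ?_⟩
  intro b b' hb hbb
  have a1 : ‖b' - b‖ ≤ k1 / 2 := hbb.trans ((min_le_left _ _).trans (min_le_left _ _))
  have a2 : ‖b' - b‖ ≤ k2 / 2 := hbb.trans ((min_le_left _ _).trans (min_le_right _ _))
  have a3 : ‖b' - b‖ ≤ κ / 2 := hbb.trans ((min_le_right _ _).trans (min_le_left _ _))
  have a4 : ‖b' - b‖ ≤ 1 := hbb.trans ((min_le_right _ _).trans (min_le_right _ _))
  set n : ℤ := -⌊b.re⌋ with hn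
  have f1 : 0 ≤ b.re + n := by rw [hn]; push_cast; linarith [Int.floor_le b.re]
  have f2 : b.re + n ≤ 1 := by rw [hn]; push_cast; linarith [(Int.lt_floor_add_one b.re).le]
  have g1 : b + n ∈ C := by
    refine ⟨?_, ?_⟩
    · have : (b + n).re = b.re + n := by simp
      rw [this, abs_of_nonneg f1]; linarith
    · have : (b + n).im = b.im := by simp
      rw [this]; linarith
  have g2 : b' + n ∈ C := by
    have r1 := (abs_le.1 ((Complex.abs_re_le_norm (b' - b)).trans a4))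
    have r2 := (abs_le.1 ((Complex.abs_im_le_norm (b' - b)).trans a3))
    rw [Complex.sub_re] at r1
    rw [Complex.sub_im] at r2
    have hb' := abs_le.1 hb
    refine ⟨?_, ?_⟩
    · have : (b' + n).re = b'.re + n := by simp
      rw [this, abs_le]; constructor <;> linarith [r1.1, r1.2]
    · have : (b' + n).im = b'.im := by simp
      rw [this, abs_le]; constructor <;> linarith [r2.1, r2.2, hb'.1, hb'.2]
  have m1 : b ∈ T5.Str h := str_mem hκ hb
  have m2 : b' ∈ T5.Str h := by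
    have := hCs g2
    show |b'.im| < h
    have e : |(b' + n).im| < h := this
    simpa using e
  have d0 : dist (b' + n) (b + n) = ‖b' - b‖ := by rw [dist_eq_norm]; congr 1; ring
  constructor
  · have := h1 _ g2 _ g1 (by rw [d0]; linarith)
    rw [dist_eq_norm, per_int D n b' m2, per_int D n b m1] at this
    have e : ψ b' + 2 * Real.pi * n - (ψ b + 2 * Real.pi * n) = ψ b' - ψ b := by ring
    rw [e] at this
    exact this.le
  · have := h2 _ g2 _ g1 (by rw [d0]; linarith)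
    rw [dist_eq_norm, dper_int D n b' m2, dper_int D n b m1] at this
    exact this.le

/-- injectivity of `ψ` near a label, from `mod_cont` -/
theorem inj_near {κ : ℝ} (D : Curve h ψ H) (hκ : 0 < κ) : ∃ k > 0, k ≤ κ / 2 ∧
    ∀ b0 : ℂ, |b0.im| ≤ h - κ → κ ≤ ‖deriv ψ b0‖ → ∀ b ∈ closedBall b0 k, ∀ b' ∈ closedBall b0 k,
      κ / 2 * ‖b - b'‖ ≤ ‖ψ b - ψ b'‖ := by
  obtain ⟨k, hk, hk'⟩ := mod_cont D hκ (half_pos hκ)
  refine ⟨min k (κ / 2), by positivity, min_le_right _ _, ?_⟩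
  intro b0 hb0 hd b hb b' hb'
  set r := min k (κ / 2) with hr
  have hsub : ∀ z ∈ closedBall b0 r, z ∈ T5.Str h := by
    intro z hz
    rw [mem_closedBall, dist_eq_norm] at hz
    have h1 := (Complex.abs_im_le_norm (z - b0)).trans (hz.trans (min_le_right _ _))
    rw [Complex.sub_im, abs_le] at h1
    have h2 := abs_le.1 hb0
    refine str_mem (half_pos hκ) (abs_le.2 ⟨?_, ?_⟩) <;> linarith [h1.1, h1.2, h2.1, h2.2]
  have hder : ∀ z ∈ closedBall b0 r,
      HasDerivWithinAt (fun z => ψ z - deriv ψ b0 * z) (deriv ψ z - deriv ψ b0)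
        (closedBall b0 r) z := by
    intro z hz
    have h1 := ((D.ψ_diff z (hsub z hz)).differentiableAt
      ((T5.isOpen_Str h).mem_nhds (hsub z hz))).hasDerivAt
    have h2 := h1.sub ((hasDerivAt_id z).const_mul (deriv ψ b0))
    rw [mul_one] at h2
    exact h2.hasDerivWithinAt
  have hbd : ∀ z ∈ closedBall b0 r, ‖deriv ψ z - deriv ψ b0‖ ≤ κ / 2 := by
    intro z hz
    rw [mem_closedBall, dist_eq_norm] at hz
    exact (hk' b0 z hb0 (hz.trans (min_le_left _ _))).2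
  have h3 := (convex_closedBall b0 r).norm_image_sub_le_of_norm_hasDerivWithin_le hder hbd hb' hb
  have h4 : deriv ψ b0 * (b - b') = (ψ b - ψ b')
      - ((ψ b - deriv ψ b0 * b) - (ψ b' - deriv ψ b0 * b')) := by ring
  have h5 : ‖deriv ψ b0‖ * ‖b - b'‖ ≤ ‖ψ b - ψ b'‖ + κ / 2 * ‖b - b'‖ := by
    rw [← norm_mul, h4]
    exact (norm_sub_le _ _).trans (by gcongr)
  have h6 : κ * ‖b - b'‖ ≤ ‖deriv ψ b0‖ * ‖b - b'‖ := by gcongr
  linarith


/-- `cexp (2 I z)` near `1` and `z` not far from `0`: `z` is near `0` -/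
theorem near_zero {z : ℂ} {ε : ℝ} (hε : ε ≤ 1 / 4) (h1 : ‖cexp (2 * I * z) - 1‖ ≤ ε)
    (h2 : ‖z‖ ≤ 1) : ‖z‖ ≤ ε := by
  have hpi := Real.pi_gt_three
  have h3 : Complex.log (cexp (2 * I * z)) = 2 * I * z := by
    apply Complex.log_exp
    · have : (2 * I * z).im = 2 * z.re := by simp
      rw [this]
      have := abs_le.1 ((Complex.abs_re_le_norm z).trans h2)
      linarith [this.1]
    · have : (2 * I * z).im = 2 * z.re := by simp
      rw [this]
      have := abs_le.1 ((Complex.abs_re_le_norm z).trans h2)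
      linarith [this.2]
  have h4 := Complex.norm_log_one_add_half_le_self (z := cexp (2 * I * z) - 1) (by linarith)
  rw [add_sub_cancel, h3] at h4
  have h5 : ‖2 * I * z‖ = 2 * ‖z‖ := by simp
  rw [h5] at h4
  have := norm_nonneg (cexp (2 * I * z) - 1)
  linarith

/-- **BOOTSTRAP** -/
theorem boot (D : Curve h ψ H) {κ k₀ : ℝ} (hκ : 0 < κ) (hk₀ : 0 < k₀) :
    ∃ k > 0, k ≤ k₀ ∧ k ≤ κ / 2 ∧ ∃ kφ > 0, ∃ ε > 0, ∀ (s s1 : ℝ) (B φ : ℝ → ℂ) (b0 φ0 : ℂ),
      s ≤ s1 → ContinuousOn B (Icc s s1) → |b0.im| ≤ h - κ → κ ≤ ‖deriv ψ b0‖ →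
      ‖cexp (2 * I * (φ0 - ψ b0)) - 1‖ ≤ ε → ‖B s1 - b0‖ ≤ k →
      (∀ t ∈ Icc s s1, ‖φ t - φ0‖ ≤ kφ) →
      (∀ t ∈ Icc s s1, (∀ t' ∈ Icc t s1, ‖B t' - b0‖ ≤ k) →
        ‖cexp (2 * I * (φ t - ψ (B t))) - 1‖ ≤ ε) →
      ∀ t ∈ Icc s s1, ‖B t - b0‖ ≤ k / 2 ∧ κ / 2 * ‖B t - b0‖ ≤ ‖φ t - φ0‖ + 4 * ε ∧
        ‖(φ t - ψ (B t)) - (φ0 - ψ b0)‖ ≤ 4 * ε ∧ κ / 2 ≤ ‖deriv ψ (B t)‖ ∧
        |(B t).im| ≤ h - κ / 2 := by
  obtain ⟨k1, hk1, hk1κ, hinj⟩ := inj_near D hκ
  obtain ⟨k2, hk2, hmod⟩ := mod_cont D hκ (show 0 < min (1 / 4) (κ / 2) by positivity)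
  set k : ℝ := min (min k1 k2) k₀ with hk
  have hk0 : 0 < k := by positivity
  have kk1 : k ≤ k1 := (min_le_left _ _).trans (min_le_left _ _)
  have kk2 : k ≤ k2 := (min_le_left _ _).trans (min_le_right _ _)
  set ε : ℝ := min (1 / 16) (κ * k / 32) with hε
  have hε0 : 0 < ε := by positivity
  have hε1 : ε ≤ 1 / 16 := min_le_left _ _
  have hε2 : ε ≤ κ * k / 32 := min_le_right _ _
  set kφ : ℝ := min (1 / 4) (κ * k / 8) with hkφ
  have hkφ1 : kφ ≤ 1 / 4 := min_le_left _ _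
  have hkφ2 : kφ ≤ κ * k / 8 := min_le_right _ _
  refine ⟨k, hk0, min_le_right _ _, kk1.trans hk1κ, kφ, by positivity, ε, hε0, ?_⟩
  intro s s1 B φ b0 φ0 hs hB hb0 hd hroot htop hφ hcol
  have hφ00 : ‖φ0 - φ0‖ = 0 := by simp
  -- pointwise step
  have key : ∀ t ∈ Icc s s1, (∀ t' ∈ Icc t s1, ‖B t' - b0‖ ≤ k) →
      ‖B t - b0‖ ≤ k / 2 ∧ κ / 2 * ‖B t - b0‖ ≤ ‖φ t - φ0‖ + 4 * ε ∧
        ‖(φ t - ψ (B t)) - (φ0 - ψ b0)‖ ≤ 4 * ε ∧ κ / 2 ≤ ‖deriv ψ (B t)‖ ∧
        |(B t).im| ≤ h - κ / 2 := by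
    intro t ht hc
    have hBt := hc t (left_mem_Icc.2 ht.2)
    have c1 := hcol t ht hc
    have c2 := hmod b0 (B t) hb0 (hBt.trans kk2)
    have c3 : ‖ψ (B t) - ψ b0‖ ≤ 1 / 4 := c2.1.trans (min_le_left _ _)
    have c4 : ‖deriv ψ (B t) - deriv ψ b0‖ ≤ κ / 2 := c2.2.trans (min_le_right _ _)
    set z : ℂ := (φ t - ψ (B t)) - (φ0 - ψ b0) with hz
    have hz1 : ‖z‖ ≤ 1 := by
      have e : z = (φ t - φ0) - (ψ (B t) - ψ b0) := by rw [hz]; ring
      rw [e]
      refine (norm_sub_le _ _).trans ?_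
      have := hφ t ht
      linarith
    have hE : ‖cexp (2 * I * z) - 1‖ ≤ 4 * ε := by
      set E1 := cexp (2 * I * (φ t - ψ (B t))) with hE1
      set E0 := cexp (2 * I * (φ0 - ψ b0)) with hE0
      have e1 : cexp (2 * I * z) = E1 / E0 := by
        rw [hE1, hE0, ← Complex.exp_sub, hz]; congr 1; ring
      have hE0n : 1 / 2 ≤ ‖E0‖ := by
        have h1 : ‖(1 : ℂ)‖ ≤ ‖E0‖ + ‖E0 - 1‖ := by
          have := norm_sub_le E0 (E0 - 1)
          simpa using this
        rw [norm_one] at h1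
        linarith
      have hE0' : E0 ≠ 0 := Complex.exp_ne_zero _
      have e2 : E1 / E0 - 1 = ((E1 - 1) - (E0 - 1)) / E0 := by field_simp; ring
      rw [e1, e2, norm_div, div_le_iff₀ (by linarith)]
      refine (norm_sub_le _ _).trans ?_
      nlinarith
    have hzε : ‖z‖ ≤ 4 * ε := near_zero (by linarith) hE hz1
    have hi := hinj b0 hb0 hd (B t) (by rw [mem_closedBall, dist_eq_norm]; exact hBt.trans kk1)
      b0 (by rw [mem_closedBall, dist_self]; exact hk1.le)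
    have hψ : ‖ψ (B t) - ψ b0‖ ≤ ‖φ t - φ0‖ + 4 * ε := by
      have e : ψ (B t) - ψ b0 = (φ t - φ0) - z := by rw [hz]; ring
      rw [e]
      exact (norm_sub_le _ _).trans (by linarith)
    have hi2 : κ / 2 * ‖B t - b0‖ ≤ ‖φ t - φ0‖ + 4 * ε := hi.trans hψ
    have hi3 : ‖B t - b0‖ ≤ k / 2 := by
      have h1 := hφ t ht
      have h2 : κ / 2 * ‖B t - b0‖ ≤ κ / 2 * (k / 2) := by
        calc κ / 2 * ‖B t - b0‖ ≤ ‖φ t - φ0‖ + 4 * ε := hi2
          _ ≤ κ * k / 8 + 4 * (κ * k / 32) := by linarith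
          _ = κ / 2 * (k / 2) := by ring
      exact le_of_mul_le_mul_left h2 (by positivity)
    refine ⟨hi3, hi2, hzε, ?_, ?_⟩
    · have h1 : ‖deriv ψ b0‖ ≤ ‖deriv ψ (B t)‖ + ‖deriv ψ (B t) - deriv ψ b0‖ := by
        have := norm_sub_le (deriv ψ (B t)) (deriv ψ (B t) - deriv ψ b0)
        simpa using this
      linarith
    · have h1 := (Complex.abs_im_le_norm (B t - b0)).trans hi3
      rw [Complex.sub_im, abs_le] at h1
      have h2 := abs_le.1 hb0
      have h3 : k ≤ κ / 2 := kk1.trans hk1κ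
      rw [abs_le]
      constructor <;> linarith [h1.1, h1.2, h2.1, h2.2]
  -- continuity
  have main : ∀ t ∈ Icc s s1, ∀ t' ∈ Icc t s1, ‖B t' - b0‖ ≤ k := by
    by_contra hcon
    push Not at hcon
    obtain ⟨t0, ht0, t0', ht0', hbad⟩ := hcon
    have ht0s : t0' ∈ Icc s s1 := ⟨ht0.1.trans ht0'.1, ht0'.2⟩
    -- the set of scales above which the label is good
    set S : Set ℝ := {t | t ∈ Icc s s1 ∧ k < ‖B t - b0‖} with hS
    have hSne : S.Nonempty := ⟨t0', ht0s, hbad⟩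
    have hSb : BddAbove S := ⟨s1, fun t ht => ht.1.2⟩
    set τ : ℝ := sSup S with hτ
    have hτ1 : t0' ≤ τ := le_csSup hSb ⟨ht0s, hbad⟩
    have hτ2 : τ ≤ s1 := csSup_le hSne fun t ht => ht.1.2
    have hτI : τ ∈ Icc s s1 := ⟨ht0s.1.trans hτ1, hτ2⟩
    have hcont : ContinuousOn (fun t => ‖B t - b0‖) (Icc s s1) :=
      (hB.sub continuousOn_const).norm
    have habove : ∀ t, τ < t → t ≤ s1 → ‖B t - b0‖ ≤ k := by
      intro t h1 h2
      by_contra h3
      push Not at h3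
      exact absurd (le_csSup hSb (show t ∈ S from ⟨⟨hτI.1.trans h1.le, h2⟩, h3⟩)) (not_le.2 h1)
    have hτle : ‖B τ - b0‖ ≤ k := by
      rcases eq_or_lt_of_le hτ2 with h1 | h1
      · rw [h1]; exact htop
      · have h2 : Tendsto (fun t => ‖B t - b0‖) (𝓝[Ioc τ s1] τ) (𝓝 ‖B τ - b0‖) :=
          (hcont τ hτI).mono (fun t ht => ⟨hτI.1.trans ht.1.le, ht.2⟩)
        have hne : (𝓝[Ioc τ s1] τ).NeBot := by
          rw [← mem_closure_iff_nhdsWithin_neBot, closure_Ioc h1.ne]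
          exact left_mem_Icc.2 h1.le
        exact le_of_tendsto h2 (eventually_nhdsWithin_of_forall fun t ht => habove t ht.1 ht.2)
    have hk2 := (key τ hτI (fun t' ht' => by
      rcases eq_or_lt_of_le ht'.1 with h1 | h1
      · rw [← h1]; exact hτle
      · exact habove t' h1 ht'.2)).1
    -- near τ the label is good: contradiction with the supremum
    have h3 : ∀ᶠ t in 𝓝[Icc s s1] τ, ‖B t - b0‖ < k :=
      (hcont τ hτI).eventually (gt_mem_nhds (by linarith))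
    obtain ⟨r, hr, h4⟩ := Metric.mem_nhdsWithin_iff.1 h3
    obtain ⟨t, htS, htτ⟩ := exists_lt_of_lt_csSup hSne (show τ - r < sSup S by rw [← hτ]; linarith)
    have h5 : t ≤ τ := le_csSup hSb htS
    have h6 : ‖B t - b0‖ < k := h4 ⟨by
      rw [mem_ball, Real.dist_eq, abs_lt]; constructor <;> linarith, htS.1⟩
    exact absurd htS.2 (not_lt.2 h6.le)
  intro t ht
  exact key t ht (main t ht)

end Curve

end Crest.Agent.R102.Boot172
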