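import Mathlib
import Crest.Agent.R102.SheetA_982

/-!
# Row 102, T1-E: bridge between the two forms of the main sheet (helper151)

`VH982.Reg ρ r F C` (maximal vertically convex domain over `|Im t| < ρ`) and
`Sh982.Sht F C (-(ρ/2)) (ρ/2) (ball 0 r)` (points with a regular vertical tube) agree above the
height `-(ρ/2)`, and so do the extensions.
-/

set_option autoImplicit false

open Set Filter Topology Metric

noncomputable section

namespace Crest.Agent.R102.Bridge151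

open Crest.Agent.R102.VH982 (pt pt_eta pt_snd pt_re pt_im tube_mem eq_along continuous_pt_y Bs
  VDom IsExt)
open Crest.Agent.R102.K669 (Slab Tube IsReg isOpen_tube mem_tube_self)
open Crest.Agent.R102.Sh982

variable {E : Type*} [NormedAddCommGroup E] [NormedSpace ℂ E] [CompleteSpace E]
variable {F : ℂ × ℂ → E} {C : Set E} {ρ r : ℝ}

/-- from the maximal domain to a tube -/
lemma tube_of_dom {Ω : Set (ℂ × ℂ)} (hρ : 0 < ρ) (h : VDom ρ r Ω) {x : ℂ × ℂ} (hx : x ∈ Ω)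
    (h1 : -(ρ / 2) < x.1.im) :
    ∃ ε > 0, ball x.2 ε ⊆ ball (0 : ℂ) r ∧ Tube (-(ρ / 2)) x ε ⊆ Ω := by
  have hw : ‖x.2‖ < r := h.sub _ hx
  have hx' : pt x.1.re x.1.im x.2 ∈ Ω := by rwa [pt_eta]
  have hb : pt x.1.re (-(ρ / 2)) x.2 ∈ Ω := by
    refine h.base ⟨?_, hw⟩
    rw [pt_im, abs_neg, abs_of_pos (by positivity)]
    linarith
  obtain ⟨δ, hδ, hδN⟩ := tube_mem h.isOpen (x₁ := x.1.re) (y₁ := -(ρ / 2)) (y₂ := x.1.im)
    (w₁ := x.2) (fun y hy => h.vert' hb hx' hy)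
  refine ⟨min δ (r - ‖x.2‖), lt_min hδ (by linarith), ?_, ?_⟩
  · intro z hz
    rw [mem_ball_zero_iff]
    rw [mem_ball, dist_eq_norm] at hz
    have h2 : ‖z‖ ≤ ‖z - x.2‖ + ‖x.2‖ := by simpa using norm_add_le (z - x.2) x.2
    have h3 := min_le_right δ (r - ‖x.2‖)
    linarith
  · rintro z ⟨a1, a2, a3, a4⟩
    have h3 := min_le_left δ (r - ‖x.2‖)
    rw [← pt_eta z]
    refine hδN _ _ _ (by linarith) ?_ ?_ (by linarith)
    · rw [min_eq_left h1.le]
      linarith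
    · rw [max_eq_right h1.le]
      linarith

lemma slab_sub_Bs : Slab (-(ρ / 2)) (ρ / 2) (ball (0 : ℂ) r) ⊆ Bs ρ r := by
  rintro z ⟨h1, h2, h3⟩
  rw [mem_ball_zero_iff] at h3
  refine ⟨?_, h3⟩
  rw [abs_lt]
  constructor <;> linarith

/-- from the maximal domain to the sheet -/
lemma sht_of_isExt (hρ : 0 < ρ) {Ω : Set (ℂ × ℂ)} {G : ℂ × ℂ → E} (hG : IsExt ρ r F C Ω G)
    {x : ℂ × ℂ} (hx : x ∈ Ω) (h1 : -(ρ / 2) < x.1.im) :
    x ∈ Sht F C (-(ρ / 2)) (ρ / 2) (ball 0 r) ∧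
      K669.ext F C (-(ρ / 2)) (ρ / 2) (ball 0 r) x = G x := by
  obtain ⟨ε, hε, hW, hT⟩ := tube_of_dom hρ hG.dom hx h1
  have hGd : DifferentiableOn ℂ G (Tube (-(ρ / 2)) x ε) := (hG.an.mono hT).differentiableOn
  have hGC : ∀ q ∈ Tube (-(ρ / 2)) x ε, G q ∈ C := fun q hq => hG.maps (hT hq)
  have hGF : ∀ q ∈ Tube (-(ρ / 2)) x ε, q.1.im < ρ / 2 → G q = F q := by
    intro q hq hq2
    refine hG.eq (slab_sub_Bs ⟨hq.2.1, hq2, hW ?_⟩)
    rw [mem_ball, dist_eq_norm]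
    exact hq.2.2.2
  refine ⟨⟨?_, h1, ε, hε, hW, G, hGd, hGC, hGF⟩, ?_⟩
  · rw [mem_ball_zero_iff]
    exact hG.dom.sub _ hx
  · exact K669.ext_eq (by linarith) hW hGd hGC hGF (mem_tube_self h1 hε)

/-- from the sheet to the maximal domain -/
lemma reg_of_sht (hρ : 0 < ρ) (hF : AnalyticOnNhd ℂ F (Bs ρ r)) (hC : ∀ z ∈ Bs ρ r, F z ∈ C)
    {x : ℂ × ℂ} (hx : x ∈ Sht F C (-(ρ / 2)) (ρ / 2) (ball 0 r)) :
    x ∈ VH982.Reg ρ r F C := by
  obtain ⟨hxW, h1, ε, hε, hW, G, hGd, hGC, hGF⟩ := hx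
  set T := Tube (-(ρ / 2)) x ε with hT
  have hTo : IsOpen T := isOpen_tube _ _ _
  have hGan : AnalyticOnNhd ℂ G T :=
    Crest.Agent.R266.SCV.analyticOnNhd_of_differentiableOn hTo hGd
  have hTr : ∀ z ∈ T, ‖z.2‖ < r := by
    intro z hz
    have : z.2 ∈ ball (0 : ℂ) r := hW (by rw [mem_ball, dist_eq_norm]; exact hz.2.2.2)
    rwa [mem_ball_zero_iff] at this
  -- equality on the overlap
  have hEq : ∀ z ∈ T, |z.1.im| < ρ → G z = F z := by
    intro z hz hzρ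
    by_cases h2 : z.1.im < ρ / 2
    · exact hGF z hz h2
    · push Not at h2
      rw [← pt_eta z]
      have hseg : ∀ y ∈ uIcc 0 z.1.im, pt z.1.re y z.2 ∈ T ∩ Bs ρ r := by
        intro y hy
        rw [uIcc_of_le (by linarith)] at hy
        refine ⟨⟨by rw [pt_re]; exact hz.1, by rw [pt_im]; linarith [hy.1],
          by rw [pt_im]; exact lt_of_le_of_lt hy.2 hz.2.2.1, by rw [pt_snd]; exact hz.2.2.2⟩, ?_, ?_⟩
        · rw [pt_im, abs_of_nonneg hy.1]
          exact lt_of_le_of_lt hy.2 (lt_of_le_of_lt (le_abs_self _) hzρ)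
        · rw [pt_snd]
          exact hTr z hz
      refine eq_along (Ω := T ∩ Bs ρ r) (hGan.mono inter_subset_left)
        (hF.mono inter_subset_right) (y₁ := 0) hseg ?_
      have h0 : pt z.1.re 0 z.2 ∈ T := (hseg 0 left_mem_uIcc).1
      have ho : IsOpen {q : ℂ × ℂ | q.1.im < ρ / 2} :=
        isOpen_lt (Complex.continuous_im.comp continuous_fst) continuous_const
      have h3 : pt z.1.re 0 z.2 ∈ {q : ℂ × ℂ | q.1.im < ρ / 2} := by
        change (pt z.1.re 0 z.2).1.im < ρ / 2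
        rw [pt_im]
        positivity
      filter_upwards [hTo.mem_nhds h0, ho.mem_nhds h3] with q hq hq2
      exact hGF q hq hq2
  classical
  set G' : ℂ × ℂ → E := fun z => if z ∈ Bs ρ r then F z else G z with hG'
  have e1 : EqOn G' F (Bs ρ r) := fun z hz => if_pos hz
  have e2 : EqOn G' G T := by
    intro z hz
    by_cases h2 : z ∈ Bs ρ r
    · simp only [hG', if_pos h2]
      exact (hEq z hz h2.1).symm
    · simp only [hG', if_neg h2]
  have hdom : VDom ρ r (Bs ρ r ∪ T) := by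
    refine ⟨(VH982.isOpen_Bs ρ r).union hTo, subset_union_left, ?_, ?_⟩
    · rintro z (hz | hz)
      · exact hz.2
      · exact hTr z hz
    · intro a y₁ y₂ y w h2 h3 h4 h5
      have hbs : ∀ y : ℝ, pt a y w ∈ Bs ρ r ↔ |y| < ρ ∧ ‖w‖ < r := by
        intro y
        have : pt a y w ∈ Bs ρ r ↔ |(pt a y w).1.im| < ρ ∧ ‖(pt a y w).2‖ < r := Iff.rfl
        rw [this, pt_im, pt_snd]
      have htb : ∀ y : ℝ, pt a y w ∈ T ↔ |a - x.1.re| < ε ∧ -(ρ / 2) < y ∧ y < x.1.im + ε ∧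
          ‖w - x.2‖ < ε := by
        intro y
        have : pt a y w ∈ T ↔ |(pt a y w).1.re - x.1.re| < ε ∧ -(ρ / 2) < (pt a y w).1.im ∧
          (pt a y w).1.im < x.1.im + ε ∧ ‖(pt a y w).2 - x.2‖ < ε := Iff.rfl
        rw [this, pt_im, pt_re, pt_snd]
      have hwr : ‖w‖ < r := by
        rcases h2 with h2 | h2
        · exact ((hbs _).1 h2).2
        · have := hTr _ h2
          rwa [pt_snd] at this
      rw [mem_union, hbs, htb]
      by_cases h6 : |y| < ρ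
      · exact Or.inl ⟨h6, hwr⟩
      · right
        -- `y` is outside of the base, so it lies above it and below `y₂` in the tube
        rcases h3 with h3 | h3
        · have h7 := (hbs _).1 h3
          rcases h2 with h2 | h2
          · have h8 := (hbs _).1 h2
            exfalso
            apply h6
            rw [abs_lt] at h7 h8 ⊢
            exact ⟨by linarith [h8.1.1], by linarith [h7.1.2]⟩
          · have h8 := (htb _).1 h2
            exfalso
            apply h6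
            rw [abs_lt] at h7 ⊢
            exact ⟨by linarith [h8.2.1], by linarith [h7.1.2]⟩
        · have h7 := (htb _).1 h3
          refine ⟨h7.1, ?_, lt_of_le_of_lt h5 h7.2.2.1, h7.2.2.2⟩
          rcases h2 with h2 | h2
          · have h8 := (hbs _).1 h2
            by_contra h9
            apply h6
            push Not at h9
            rw [abs_lt] at h8 ⊢
            exact ⟨by linarith [h8.1.1], by linarith⟩
          · have h8 := (htb _).1 h2
            linarith [h8.2.1]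
  refine ⟨Bs ρ r ∪ T, G', ⟨hdom, ?_, ?_, e1⟩, Or.inr (mem_tube_self h1 hε)⟩
  · rintro z (hz | hz)
    · refine (hF z hz).congr ?_
      filter_upwards [(VH982.isOpen_Bs ρ r).mem_nhds hz] with q hq
      exact (e1 hq).symm
    · refine (hGan z hz).congr ?_
      filter_upwards [hTo.mem_nhds hz] with q hq
      exact (e2 hq).symm
  · rintro z (hz | hz)
    · rw [e1 hz]
      exact hC z hz
    · rw [e2 hz]
      exact hGC z hz

/-- **bridge**: the two main sheets agree above the height `-(ρ/2)` -/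
theorem mem_reg_iff (hρ : 0 < ρ) (hF : AnalyticOnNhd ℂ F (Bs ρ r)) (hC : ∀ z ∈ Bs ρ r, F z ∈ C)
    {x : ℂ × ℂ} (h1 : -(ρ / 2) < x.1.im) :
    x ∈ VH982.Reg ρ r F C ↔ x ∈ Sht F C (-(ρ / 2)) (ρ / 2) (ball 0 r) := by
  constructor
  · rintro ⟨Ω, G, hG, hx⟩
    exact (sht_of_isExt hρ hG hx h1).1
  · exact reg_of_sht hρ hF hC

/-- **bridge**: the two extensions agree -/
theorem ext_eq (hρ : 0 < ρ) {x : ℂ × ℂ} (h1 : -(ρ / 2) < x.1.im) (hx : x ∈ VH982.Reg ρ r F C) :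
    VH982.ext ρ r F C x = K669.ext F C (-(ρ / 2)) (ρ / 2) (ball 0 r) x := by
  obtain ⟨Ω, G, hG, hxΩ⟩ := hx
  rw [(sht_of_isExt hρ hG hxΩ h1).2]
  exact hG.ext_eq hρ hxΩ

/-- the extensions agree near a point -/
theorem ext_ev (h : VH982.Bd ρ r F C) {x : ℂ × ℂ} (h1 : -(ρ / 2) < x.1.im)
    (hx : x ∈ VH982.Reg ρ r F C) :
    VH982.ext ρ r F C =ᶠ[𝓝 x] K669.ext F C (-(ρ / 2)) (ρ / 2) (ball 0 r) := by
  have ho : IsOpen {q : ℂ × ℂ | -(ρ / 2) < q.1.im} :=
    isOpen_lt continuous_const (Complex.continuous_im.comp continuous_fst)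
  filter_upwards [h.isOpen.mem_nhds hx, ho.mem_nhds h1] with z hz hz1
  exact ext_eq h.ρ_pos hz1 hz

section Bd

variable (h : VH982.Bd ρ r F C)
include h

/-- the sheet is the part of the maximal domain above `-(ρ/2)` -/
theorem sht_eq : Sht F C (-(ρ / 2)) (ρ / 2) (ball 0 r) =
    VH982.Reg ρ r F C ∩ {x | -(ρ / 2) < x.1.im} := by
  ext x
  constructor
  · intro hx
    exact ⟨reg_of_sht h.ρ_pos h.an h.maps hx, hx.2.1⟩
  · rintro ⟨h1, h2⟩
    exact (mem_reg_iff h.ρ_pos h.an h.maps h2).1 h1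

theorem ext_eq_of_sht {x : ℂ × ℂ} (hx : x ∈ Sht F C (-(ρ / 2)) (ρ / 2) (ball 0 r)) :
    VH982.ext ρ r F C x = K669.ext F C (-(ρ / 2)) (ρ / 2) (ball 0 r) x :=
  ext_eq h.ρ_pos hx.2.1 (reg_of_sht h.ρ_pos h.an h.maps hx)

end Bd

/-- base data from differentiability on `PD ρ r` -/
lemma bd_of (hρ : 0 < ρ) (hF : DifferentiableOn ℂ F (Bs ρ r)) (hC : ∀ z ∈ Bs ρ r, F z ∈ C) :
    VH982.Bd ρ r F C :=
  ⟨hρ, Crest.Agent.R266.SCV.analyticOnNhd_of_differentiableOn (VH982.isOpen_Bs ρ r) hF, hC⟩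

/-- **bridge**, differentiable form -/
theorem mem_reg_iff' (hρ : 0 < ρ) (hF : DifferentiableOn ℂ F (Bs ρ r))
    (hC : ∀ z ∈ Bs ρ r, F z ∈ C) {x : ℂ × ℂ} (h1 : -(ρ / 2) < x.1.im) :
    x ∈ VH982.Reg ρ r F C ↔ x ∈ Sht F C (-(ρ / 2)) (ρ / 2) (ball 0 r) :=
  mem_reg_iff hρ (bd_of hρ hF hC).an hC h1

lemma PD_eq : C0.PD ρ r = Bs ρ r := rfl

end Crest.Agent.R102.Bridge151
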