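import Mathlib
import Crest.Agent.R102.C1E_821
import Crest.Agent.R266.SCV

/-!
# Row 102, part (C), **C1-SECTOR** (helper963)

Continuation of a leaf function with locally uniform radius, up to and around a singular point.

* `LeafLoc k K X` : `X` is a leaf function near every point of `K` (locally uniform radius);
* `compact_unif`, `leafOn_thick` : uniformity on compact sets;
* `germ_eq`, `slice_eq` : identity theorems for germs along `w = 0`;
* `grow_loc` : extension through half discs with variable radii.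
-/

set_option autoImplicit false

open Set Filter Topology Metric
open scoped ComplexConjugate

noncomputable section

namespace Crest.Agent.R102.C1Sec963

open Crest.Agent.R102.C1

/-- leaf function with locally uniform radius -/
def LeafLoc (k : ℂ × ℂ → ℂ) (K : Set ℂ) (X : ℂ × ℂ → ℂ) : Prop :=
  ∀ c ∈ K, ∃ s > 0, ∃ r > 0, ∃ B : ℝ, LeafOn k (ball c s) r B X

/-- momentum function with locally uniform constants -/
def KLoc (V : Set ℂ) (k : ℂ × ℂ → ℂ) : Prop :=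
  ∀ c ∈ V, ∃ s > 0, ∃ ε > 0, ∃ C : ℝ, KMap (ball c s) ε C k

lemma KMap.mono' {V V' : Set ℂ} {ε ε' C C' : ℝ} {k : ℂ × ℂ → ℂ} (h : KMap V ε C k) (hV : V' ⊆ V)
    (hε : ε' ≤ ε) (hC : C ≤ C') : KMap V' ε' C' k :=
  ⟨h.diff.mono (prod_mono hV (ball_subset_ball hε)), fun y hy e he =>
    (h.near y (hV hy) e (he.trans_le hε)).trans (by gcongr)⟩

lemma LeafLoc.mono {k X : ℂ × ℂ → ℂ} {K K' : Set ℂ} (h : LeafLoc k K X) (hK : K' ⊆ K) :
    LeafLoc k K' X := fun c hc => h c (hK hc)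

lemma KLoc.mono {k : ℂ × ℂ → ℂ} {V V' : Set ℂ} (h : KLoc V k) (hV : V' ⊆ V) :
    KLoc V' k := fun c hc => h c (hV hc)

/-- uniformity on compact sets -/
theorem compact_unif {k X : ℂ × ℂ → ℂ} {K Q : Set ℂ} (h : LeafLoc k K X) (hQ : IsCompact Q)
    (hQK : Q ⊆ K) : ∃ s > 0, ∃ r > 0, ∃ B : ℝ, ∀ q ∈ Q, LeafOn k (ball q s) r B X := by
  refine hQ.induction_on (p := fun Q' => ∃ s > 0, ∃ r > 0, ∃ B : ℝ, ∀ q ∈ Q',
    LeafOn k (ball q s) r B X) ?_ ?_ ?_ ?_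
  · exact ⟨1, one_pos, 1, one_pos, 0, fun q hq => absurd hq (notMem_empty q)⟩
  · rintro A B hAB ⟨s, hs, r, hr, B', hB'⟩
    exact ⟨s, hs, r, hr, B', fun q hq => hB' q (hAB hq)⟩
  · rintro A A' ⟨s, hs, r, hr, B, hB⟩ ⟨s', hs', r', hr', B', hB'⟩
    refine ⟨min s s', lt_min hs hs', min r r', lt_min hr hr', max B B', ?_⟩
    rintro q (hq | hq)
    · exact (hB q hq).mono (ball_subset_ball (min_le_left _ _)) (min_le_left _ _) (le_max_left _ _)
    · exact (hB' q hq).mono (ball_subset_ball (min_le_right _ _)) (min_le_right _ _)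
        (le_max_right _ _)
  · intro x hx
    obtain ⟨s, hs, r, hr, B, hB⟩ := h x (hQK hx)
    refine ⟨ball x (s / 2), mem_nhdsWithin_of_mem_nhds (ball_mem_nhds x (half_pos hs)), s / 2,
      half_pos hs, r, hr, B, fun q hq => hB.mono ?_ le_rfl le_rfl⟩
    intro y hy
    rw [mem_ball] at hy hq ⊢
    calc dist y x ≤ dist y q + dist q x := dist_triangle _ _ _
      _ < s := by linarith

/-- leaf function on a neighbourhood of a compact set -/
theorem leafOn_thick {k X : ℂ × ℂ → ℂ} {Q : Set ℂ} {s r B : ℝ} (hs : 0 < s)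
    (h : ∀ q ∈ Q, LeafOn k (ball q s) r B X) :
    LeafOn k (thickening (s / 2) Q) (min r (s / 2)) B X := by
  have key : ∀ t ∈ thickening (s / 2) Q, ∃ q ∈ Q, dist t q < s / 2 := fun t ht =>
    mem_thickening_iff.1 ht
  refine ⟨?_, ?_, ?_⟩
  · intro p hp
    obtain ⟨q, hq, hd⟩ := key p.1 hp.1
    have h1 : p ∈ ball q s ×ˢ ball (0 : ℂ) r := by
      refine ⟨?_, ball_subset_ball (min_le_left _ _) hp.2⟩
      rw [mem_ball]; linarith
    exact ((h q hq).diff.differentiableAt ((isOpen_ball.prod isOpen_ball).mem_nhds h1)).differentiableWithinAt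
  · intro t ht w hw
    obtain ⟨q, hq, hd⟩ := key t ht
    exact (h q hq).near t (by rw [mem_ball]; linarith) w (hw.trans_le (min_le_left _ _))
  · intro t w hw h1 h2 h3
    obtain ⟨q, hq, hd⟩ := key t h2
    have hw1 := hw.trans_le (min_le_left r (s / 2))
    have hw2 := hw.trans_le (min_le_right r (s / 2))
    refine (h q hq).law t w hw1 ?_ ?_ ?_
    · rw [mem_ball, dist_eq_norm] at *
      calc ‖t - w - q‖ = ‖(t - q) - w‖ := by ring_nf
        _ ≤ ‖t - q‖ + ‖w‖ := norm_sub_le _ _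
        _ < s := by linarith
    · rw [mem_ball]; linarith
    · rw [mem_ball, dist_eq_norm] at *
      calc ‖t + w - q‖ = ‖(t - q) + w‖ := by ring_nf
        _ ≤ ‖t - q‖ + ‖w‖ := norm_add_le _ _
        _ < s := by linarith

/-- uniformity of the momentum function on compact sets -/
theorem kmap_compact {k : ℂ × ℂ → ℂ} {V Q : Set ℂ} (h : KLoc V k) (hQ : IsCompact Q)
    (hQV : Q ⊆ V) : ∃ ε > 0, ∃ C : ℝ, KMap Q ε C k := by
  obtain ⟨s, hs, ε, hε, C, hC⟩ : ∃ s > 0, ∃ ε > 0, ∃ C : ℝ, ∀ q ∈ Q, KMap (ball q s) ε C k := by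
    refine hQ.induction_on (p := fun Q' => ∃ s > 0, ∃ ε > 0, ∃ C : ℝ, ∀ q ∈ Q',
      KMap (ball q s) ε C k) ?_ ?_ ?_ ?_
    · exact ⟨1, one_pos, 1, one_pos, 0, fun q hq => absurd hq (notMem_empty q)⟩
    · rintro A B hAB ⟨s, hs, r, hr, B', hB'⟩
      exact ⟨s, hs, r, hr, B', fun q hq => hB' q (hAB hq)⟩
    · rintro A A' ⟨s, hs, r, hr, B, hB⟩ ⟨s', hs', r', hr', B', hB'⟩
      refine ⟨min s s', lt_min hs hs', min r r', lt_min hr hr', max B B', ?_⟩
      rintro q (hq | hq)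
      · exact KMap.mono' (hB q hq) (ball_subset_ball (min_le_left _ _)) (min_le_left _ _)
          (le_max_left _ _)
      · exact KMap.mono' (hB' q hq) (ball_subset_ball (min_le_right _ _)) (min_le_right _ _)
          (le_max_right _ _)
    · intro x hx
      obtain ⟨s, hs, r, hr, B, hB⟩ := h x (hQV hx)
      refine ⟨ball x (s / 2), mem_nhdsWithin_of_mem_nhds (ball_mem_nhds x (half_pos hs)), s / 2,
        half_pos hs, r, hr, B, fun q hq => KMap.mono' hB ?_ le_rfl le_rfl⟩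
      intro y hy
      rw [mem_ball] at hy hq ⊢
      calc dist y x ≤ dist y q + dist q x := dist_triangle _ _ _
        _ < s := by linarith
  refine ⟨ε, hε, C, ?_, fun y hy e he => (hC y hy).near y (mem_ball_self hs) e he⟩
  intro p hp
  exact ((hC p.1 hp.1).diff.differentiableAt ((isOpen_ball.prod isOpen_ball).mem_nhds
    ⟨mem_ball_self hs, hp.2⟩)).differentiableWithinAt

/-! ### identity theorems -/

lemma eq_prod {t : ℂ} {s r : ℝ} {f g : ℂ × ℂ → ℂ}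
    (hf : DifferentiableOn ℂ f (ball t s ×ˢ ball 0 r))
    (hg : DifferentiableOn ℂ g (ball t s ×ˢ ball 0 r)) {z : ℂ × ℂ}
    (hz : z ∈ ball t s ×ˢ ball (0 : ℂ) r) (h : ∀ᶠ p in 𝓝 z, f p = g p) :
    ∀ p ∈ ball t s ×ˢ ball (0 : ℂ) r, f p = g p := by
  have ho : IsOpen (ball t s ×ˢ ball (0 : ℂ) r) := isOpen_ball.prod isOpen_ball
  have hc : IsPreconnected (ball t s ×ˢ ball (0 : ℂ) r) :=
    ((convex_ball t s).prod (convex_ball (0 : ℂ) r)).isPreconnected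
  have h1 := Crest.Agent.R266.SCV.analyticOnNhd_of_differentiableOn ho hf
  have h2 := Crest.Agent.R266.SCV.analyticOnNhd_of_differentiableOn ho hg
  exact fun p hp => h1.eqOn_of_preconnected_of_eventuallyEq h2 hc hz h hp

/-- the identity theorem for germs along `w = 0` -/
theorem germ_eq {S : Set ℂ} (hS : IsPreconnected S) {f g : ℂ × ℂ → ℂ}
    (hf : ∀ t ∈ S, ∃ s > 0, ∃ r > 0, DifferentiableOn ℂ f (ball t s ×ˢ ball 0 r))
    (hg : ∀ t ∈ S, ∃ s > 0, ∃ r > 0, DifferentiableOn ℂ g (ball t s ×ˢ ball 0 r))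
    {t₀ : ℂ} (ht₀ : t₀ ∈ S) (h0 : ∀ᶠ p in 𝓝 ((t₀, 0) : ℂ × ℂ), f p = g p) :
    ∀ t ∈ S, ∀ᶠ p in 𝓝 ((t, 0) : ℂ × ℂ), f p = g p := by
  set u : Set ℂ := {t | ∀ᶠ p in 𝓝 ((t, 0) : ℂ × ℂ), f p = g p} with hu
  have huo : IsOpen u := by
    have h1 : IsOpen {x : ℂ × ℂ | ∀ᶠ p in 𝓝 x, f p = g p} := isOpen_setOfPred_eventually_nhds
    exact h1.preimage (by fun_prop : Continuous fun t : ℂ => ((t, 0) : ℂ × ℂ))
  have hsub : S ⊆ u := by
    refine hS.subset_of_closure_inter_subset huo ⟨t₀, ht₀, h0⟩ ?_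
    rintro t ⟨ht, htS⟩
    obtain ⟨s, hs, r, hr, h1⟩ := hf t htS
    obtain ⟨s', hs', r', hr', h2⟩ := hg t htS
    set a := min s s' with ha
    set b := min r r' with hb
    have ha0 : 0 < a := lt_min hs hs'
    have hb0 : 0 < b := lt_min hr hr'
    have h1' : DifferentiableOn ℂ f (ball t a ×ˢ ball 0 b) :=
      h1.mono (prod_mono (ball_subset_ball (min_le_left _ _)) (ball_subset_ball (min_le_left _ _)))
    have h2' : DifferentiableOn ℂ g (ball t a ×ˢ ball 0 b) :=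
      h2.mono (prod_mono (ball_subset_ball (min_le_right _ _)) (ball_subset_ball (min_le_right _ _)))
    obtain ⟨t', ht'b, ht'u⟩ := mem_closure_iff.1 ht (ball t a) isOpen_ball (mem_ball_self ha0)
    have h3 := eq_prod h1' h2' (z := (t', 0)) ⟨ht'b, mem_ball_self hb0⟩ ht'u
    have h4 : ball t a ×ˢ ball (0 : ℂ) b ∈ 𝓝 ((t, 0) : ℂ × ℂ) :=
      (isOpen_ball.prod isOpen_ball).mem_nhds ⟨mem_ball_self ha0, mem_ball_self hb0⟩
    filter_upwards [h4] with p hp using h3 p hp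
  exact fun t ht => hsub ht

/-- germ equality at `(t, 0)` implies equality on the whole common disc in `w` -/
theorem slice_eq {f g : ℂ × ℂ → ℂ} {t : ℂ} {r : ℝ} (hr : 0 < r)
    (hf : ∃ s > 0, DifferentiableOn ℂ f (ball t s ×ˢ ball 0 r))
    (hg : ∃ s > 0, DifferentiableOn ℂ g (ball t s ×ˢ ball 0 r))
    (h : ∀ᶠ p in 𝓝 ((t, 0) : ℂ × ℂ), f p = g p) {w : ℂ} (hw : ‖w‖ < r) : f (t, w) = g (t, w) := by
  obtain ⟨s, hs, hf⟩ := hf
  obtain ⟨s', hs', hg⟩ := hg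
  have h1 : 0 < min s s' := lt_min hs hs'
  refine eq_prod (t := t) (s := min s s') (r := r)
    (hf.mono (prod_mono (ball_subset_ball (min_le_left _ _)) le_rfl))
    (hg.mono (prod_mono (ball_subset_ball (min_le_right _ _)) le_rfl)) (z := (t, 0))
    ⟨mem_ball_self h1, mem_ball_self hr⟩ h (t, w) ⟨mem_ball_self h1, ?_⟩
  rwa [mem_ball, dist_zero_right]

lemma LeafLoc.germ {k X : ℂ × ℂ → ℂ} {K : Set ℂ} (h : LeafLoc k K X) :
    ∀ t ∈ K, ∃ s > 0, ∃ r > 0, DifferentiableOn ℂ X (ball t s ×ˢ ball 0 r) := by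
  intro t ht
  obtain ⟨s, hs, r, hr, B, hB⟩ := h t ht
  exact ⟨s, hs, r, hr, hB.diff⟩

lemma LeafOn.germ {k X : ℂ × ℂ → ℂ} {c : ℂ} {s r B : ℝ} (h : LeafOn k (ball c s) r B X) {t : ℂ}
    (ht : t ∈ ball c s) : ∃ s' > 0, DifferentiableOn ℂ X (ball t s' ×ˢ ball 0 r) := by
  obtain ⟨s', hs', hsub⟩ := Metric.isOpen_iff.1 isOpen_ball t ht
  exact ⟨s', hs', h.diff.mono (prod_mono hsub le_rfl)⟩

/-! ### growing -/

/-- one centre -/
theorem one_centre {k X : ℂ × ℂ → ℂ} {K V : Set ℂ} (hX : LeafLoc k K X)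
    (hk : KLoc V k) {c u : ℂ} {η : ℝ} (hη : 0 < η) (hu : ‖u‖ = 1)
    (hH : {t : ℂ | ‖t - c‖ ≤ η ∧ ((t - c) * conj u).im ≤ -(η / 4000)} ⊆ K)
    (hV : closedBall c (2 * η) ⊆ V) (hcn : IsPreconnected (K ∩ ball c (η / 2000))) :
    ∃ r > 0, ∃ B : ℝ, ∃ Y : ℂ × ℂ → ℂ, LeafOn k (ball c (η / 2000)) r B Y ∧
      ∀ t ∈ K, t ∈ ball c (η / 2000) → ∀ᶠ p in 𝓝 ((t, 0) : ℂ × ℂ), Y p = X p := by
  -- the closed half disc is compact
  have hcl : IsClosed {t : ℂ | ‖t - c‖ ≤ η ∧ ((t - c) * conj u).im ≤ -(η / 4000)} := by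
    have h1 : IsClosed {t : ℂ | ‖t - c‖ ≤ η} := isClosed_le (by fun_prop) continuous_const
    have h2 : IsClosed {t : ℂ | ((t - c) * conj u).im ≤ -(η / 4000)} :=
      isClosed_le (Complex.continuous_im.comp (by fun_prop)) continuous_const
    exact h1.inter h2
  have hcomp : IsCompact {t : ℂ | ‖t - c‖ ≤ η ∧ ((t - c) * conj u).im ≤ -(η / 4000)} := by
    refine (isCompact_closedBall c η).of_isClosed_subset hcl (fun t ht => ?_)
    rw [mem_closedBall, dist_eq_norm]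
    exact ht.1
  obtain ⟨s, hs, r₀, hr₀, B₀, hB₀⟩ := compact_unif hX hcomp hH
  have hth := leafOn_thick hs hB₀
  have hsub : Half c u η (η / 4000) ⊆ thickening (s / 2)
      {t : ℂ | ‖t - c‖ ≤ η ∧ ((t - c) * conj u).im ≤ -(η / 4000)} := by
    intro t ht
    refine self_subset_thickening (half_pos hs) _ ⟨?_, ht.2.le⟩
    have := ht.1
    rw [mem_ball, dist_eq_norm] at this
    exact this.le
  have hL := hth.mono hsub le_rfl (le_max_left B₀ 0)
  obtain ⟨ε, hε, C, hC⟩ := kmap_compact hk (isCompact_closedBall c (2 * η)) hV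
  obtain ⟨r, B, hr, hrr, hloc⟩ := loc_aux (C := C) (B := max B₀ 0) hη hε
    (lt_min hr₀ (half_pos hs)) (le_max_right _ _)
  obtain ⟨Y, y1, y2⟩ := hloc c u k X hu (KMap.mono' hC ball_subset_closedBall le_rfl le_rfl) hL
  have hbs := ball_sub_cen (c := c) hu hη
  have y1' : LeafOn k (ball c (η / 2000)) r B Y := y1.mono hbs le_rfl le_rfl
  refine ⟨r, hr, B, Y, y1', ?_⟩
  -- a point of the half disc in the ball
  set z₀ : ℂ := c - Complex.I * ((η / 3000 : ℝ) : ℂ) * u with hz₀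
  have hn : ‖z₀ - c‖ = η / 3000 := by
    rw [hz₀, show c - Complex.I * ((η / 3000 : ℝ) : ℂ) * u - c =
      -(Complex.I * ((η / 3000 : ℝ) : ℂ) * u) by
      ring, norm_neg, norm_mul, norm_mul, Complex.norm_I, hu, Complex.norm_real,
      Real.norm_eq_abs, abs_of_pos (by positivity)]
    ring
  have hzH : z₀ ∈ Half c u η (η / 4000) := by
    refine mem_Half.2 ⟨by rw [hn]; linarith, ?_⟩
    have h1 : u * conj u = 1 := by
      rw [Complex.mul_conj, Complex.normSq_eq_norm_sq, hu]; norm_num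
    have h2 : (z₀ - c) * conj u = -(Complex.I * ((η / 3000 : ℝ) : ℂ)) := by
      rw [hz₀]
      linear_combination -(Complex.I * ((η / 3000 : ℝ) : ℂ)) * h1
    rw [h2, Complex.neg_im]
    simp
    linarith
  have hzb : z₀ ∈ ball c (η / 2000) := by rw [mem_ball, dist_eq_norm, hn]; linarith
  have hzK : z₀ ∈ K := hH ⟨by rw [hn]; linarith, (mem_Half.1 hzH).2.le⟩
  have hg0 : ∀ᶠ p in 𝓝 ((z₀, 0) : ℂ × ℂ), Y p = X p := by
    have h1 : (Half c u η (η / 4000) ∩ ball c (η / 2000)) ×ˢ ball (0 : ℂ) r ∈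
        𝓝 ((z₀, 0) : ℂ × ℂ) :=
      (((isOpen_Half c u η (η / 4000)).inter isOpen_ball).prod isOpen_ball).mem_nhds
        ⟨⟨hzH, hzb⟩, mem_ball_self hr⟩
    filter_upwards [h1] with p hp
    have := hp.2
    rw [mem_ball, dist_zero_right] at this
    exact y2 p.1 (hbs hp.1.2) hp.1.1 p.2 this
  intro t ht htb
  refine germ_eq hcn (f := Y) (g := X) ?_ ?_ (t₀ := z₀) ⟨hzK, hzb⟩ hg0 t ⟨ht, htb⟩
  · intro t' ht'
    obtain ⟨s', hs', h'⟩ := LeafOn.germ y1' ht'.2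
    exact ⟨s', hs', r, hr, h'⟩
  · intro t' ht'
    exact hX.germ t' ht'.1

/-- **(GROW, locally uniform version)** -/
theorem grow_loc {k X : ℂ × ℂ → ℂ} {K V F : Set ℂ} (hK : IsOpen K) (hX : LeafLoc k K X)
    (hk : KLoc V k) (hF : F ⊆ closure K) {η : ℂ → ℝ} {u : ℂ → ℂ} (hη : ∀ c ∈ F, 0 < η c)
    (hu : ∀ c ∈ F, ‖u c‖ = 1)
    (hH : ∀ c ∈ F, {t : ℂ | ‖t - c‖ ≤ η c ∧ ((t - c) * conj (u c)).im ≤ -(η c / 4000)} ⊆ K)
    (hV : ∀ c ∈ F, closedBall c (2 * η c) ⊆ V)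
    (hcn : ∀ c ∈ F, IsPreconnected (K ∩ ball c (η c / 2000))) :
    ∃ X' : ℂ × ℂ → ℂ, LeafLoc k (K ∪ ⋃ c ∈ F, ball c (η c / 6000)) X' ∧
      ∀ t ∈ K, ∀ᶠ p in 𝓝 ((t, 0) : ℂ × ℂ), X' p = X p := by
  classical
  have hex : ∀ c ∈ F, ∃ r > 0, ∃ B : ℝ, ∃ Y : ℂ × ℂ → ℂ, LeafOn k (ball c (η c / 2000)) r B Y ∧
      ∀ t ∈ K, t ∈ ball c (η c / 2000) → ∀ᶠ p in 𝓝 ((t, 0) : ℂ × ℂ), Y p = X p :=
    fun c hc => one_centre hX hk (hη c hc) (hu c hc) (hH c hc) (hV c hc) (hcn c hc)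
  choose! r hr B Y hY hYX using hex
  have h32 : ∀ c ∈ F, ball c (η c / 6000) ⊆ ball c (η c / 2000) := fun c hc =>
    ball_subset_ball (by have := hη c hc; linarith)
  -- consistency
  have hcons : ∀ c ∈ F, ∀ c' ∈ F, ∀ t ∈ ball c (η c / 6000), t ∈ ball c' (η c' / 6000) →
      ∀ w : ℂ, ‖w‖ < r c → ‖w‖ < r c' → Y c (t, w) = Y c' (t, w) := by
    -- it is enough to treat `η c' ≤ η c`
    have haux : ∀ c ∈ F, ∀ c' ∈ F, η c' ≤ η c → ∀ t ∈ ball c (η c / 6000),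
        t ∈ ball c' (η c' / 6000) → ∀ᶠ p in 𝓝 ((t, 0) : ℂ × ℂ), Y c p = Y c' p := by
      intro c hc c' hc' hle t ht ht'
      have hc0 := hη c hc
      have hc0' := hη c' hc'
      have hcc : c' ∈ ball c (η c / 2000) := by
        rw [mem_ball] at ht ht' ⊢
        calc dist c' c ≤ dist c' t + dist t c := dist_triangle _ _ _
          _ < η c / 2000 := by rw [dist_comm c' t]; linarith
      have hopen : IsOpen (ball c (η c / 2000) ∩ ball c' (η c' / 2000)) :=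
        isOpen_ball.inter isOpen_ball
      obtain ⟨z₀, hz₀, hz₀K⟩ := mem_closure_iff.1 (hF hc') _ hopen
        ⟨hcc, mem_ball_self (by positivity)⟩
      refine germ_eq ((convex_ball _ _).inter (convex_ball _ _)).isPreconnected
        (f := Y c) (g := Y c') ?_ ?_ (t₀ := z₀) hz₀ ?_ t ⟨h32 c hc ht, h32 c' hc' ht'⟩
      · intro x hx
        obtain ⟨s', hs', h'⟩ := LeafOn.germ (hY c hc) hx.1
        exact ⟨s', hs', r c, hr c hc, h'⟩
      · intro x hx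
        obtain ⟨s', hs', h'⟩ := LeafOn.germ (hY c' hc') hx.2
        exact ⟨s', hs', r c', hr c' hc', h'⟩
      · filter_upwards [hYX c hc z₀ hz₀K hz₀.1, hYX c' hc' z₀ hz₀K hz₀.2] with p h1 h2
        rw [h1, h2]
    intro c hc c' hc' t ht ht' w hw hw'
    have hgerm : ∀ᶠ p in 𝓝 ((t, 0) : ℂ × ℂ), Y c p = Y c' p := by
      rcases le_total (η c') (η c) with h | h
      · exact haux c hc c' hc' h t ht ht'
      · filter_upwards [haux c' hc' c hc h t ht' ht] with p hp using hp.symm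
    have hm : 0 < min (r c) (r c') := lt_min (hr c hc) (hr c' hc')
    refine slice_eq hm ?_ ?_ hgerm (lt_min hw hw')
    · obtain ⟨s', hs', h'⟩ := LeafOn.germ (hY c hc) (h32 c hc ht)
      exact ⟨s', hs', h'.mono (prod_mono le_rfl (ball_subset_ball (min_le_left _ _)))⟩
    · obtain ⟨s', hs', h'⟩ := LeafOn.germ (hY c' hc') (h32 c' hc' ht')
      exact ⟨s', hs', h'.mono (prod_mono le_rfl (ball_subset_ball (min_le_right _ _)))⟩
  let X' : ℂ × ℂ → ℂ := fun p =>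
    if h : ∃ c ∈ F, p.1 ∈ ball c (η c / 6000) ∧ ‖p.2‖ < r c then Y h.choose p else X p
  have P1 : ∀ c ∈ F, ∀ t ∈ ball c (η c / 6000), ∀ w : ℂ, ‖w‖ < r c → X' (t, w) = Y c (t, w) := by
    intro c hc t ht w hw
    have h : ∃ c ∈ F, t ∈ ball c (η c / 6000) ∧ ‖w‖ < r c := ⟨c, hc, ht, hw⟩
    have e : X' (t, w) = Y h.choose (t, w) := by
      simp only [X']
      rw [dif_pos h]
    rw [e]
    exact hcons _ h.choose_spec.1 c hc t h.choose_spec.2.1 ht w h.choose_spec.2.2 hw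
  have P2 : ∀ t₀ ∈ K, ∀ s r₀ B₀ : ℝ, 0 < r₀ → ball t₀ s ⊆ K → LeafOn k (ball t₀ s) r₀ B₀ X →
      ∀ t ∈ ball t₀ s, ∀ w : ℂ, ‖w‖ < r₀ → X' (t, w) = X (t, w) := by
    intro t₀ ht₀ s r₀ B₀ hr₀ hsK hL t ht w hw
    by_cases h : ∃ c ∈ F, t ∈ ball c (η c / 6000) ∧ ‖w‖ < r c
    · have e : X' (t, w) = Y h.choose (t, w) := by
        simp only [X']
        rw [dif_pos h]
      rw [e]
      obtain ⟨hc, htc, hwc⟩ := h.choose_spec
      set c := h.choose
      have hm : 0 < min (r c) r₀ := lt_min (hr c hc) hr₀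
      refine slice_eq hm ?_ ?_ (hYX c hc t (hsK ht) (h32 c hc htc)) (lt_min hwc hw)
      · obtain ⟨s', hs', h'⟩ := LeafOn.germ (hY c hc) (h32 c hc htc)
        exact ⟨s', hs', h'.mono (prod_mono le_rfl (ball_subset_ball (min_le_left _ _)))⟩
      · obtain ⟨s', hs', h'⟩ := LeafOn.germ hL ht
        exact ⟨s', hs', h'.mono (prod_mono le_rfl (ball_subset_ball (min_le_right _ _)))⟩
    · simp only [X']
      rw [dif_neg h]
  -- transfer of `LeafOn`
  have tr : ∀ (t₀ : ℂ) (s r₀ B₀ : ℝ) (Z : ℂ × ℂ → ℂ), LeafOn k (ball t₀ s) r₀ B₀ Z →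
      (∀ t ∈ ball t₀ s, ∀ w : ℂ, ‖w‖ < r₀ → X' (t, w) = Z (t, w)) →
      LeafOn k (ball t₀ s) r₀ B₀ X' := by
    intro t₀ s r₀ B₀ Z hZ he
    refine ⟨hZ.diff.congr (fun p hp => ?_), ?_, ?_⟩
    · have := hp.2
      rw [mem_ball, dist_zero_right] at this
      exact he p.1 hp.1 p.2 this
    · intro t ht w hw
      rw [he t ht w hw]
      exact hZ.near t ht w hw
    · intro t w hw h1 h2 h3
      rw [he t h2 w hw, he _ h3 w hw, he _ h1 w hw]
      exact hZ.law t w hw h1 h2 h3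
  have hKloc : ∀ t₀ ∈ K, ∃ s > 0, ∃ r₀ > 0, ∃ B₀ : ℝ, ball t₀ s ⊆ K ∧
      LeafOn k (ball t₀ s) r₀ B₀ X := by
    intro t₀ ht₀
    obtain ⟨s, hs, r₀, hr₀, B₀, hL⟩ := hX t₀ ht₀
    obtain ⟨s', hs', hsub⟩ := Metric.isOpen_iff.1 hK t₀ ht₀
    exact ⟨min s s', lt_min hs hs', r₀, hr₀, B₀, (ball_subset_ball (min_le_right _ _)).trans hsub,
      hL.mono (ball_subset_ball (min_le_left _ _)) le_rfl le_rfl⟩
  refine ⟨X', ?_, ?_⟩
  · rintro t₀ (ht₀ | ht₀)
    · obtain ⟨s, hs, r₀, hr₀, B₀, hsK, hL⟩ := hKloc t₀ ht₀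
      exact ⟨s, hs, r₀, hr₀, B₀, tr t₀ s r₀ B₀ X hL (P2 t₀ ht₀ s r₀ B₀ hr₀ hsK hL)⟩
    · simp only [mem_iUnion] at ht₀
      obtain ⟨c, hc, htc⟩ := ht₀
      obtain ⟨s, hs, hsub⟩ := Metric.isOpen_iff.1 isOpen_ball t₀ htc
      refine ⟨s, hs, r c, hr c hc, B c, tr t₀ s (r c) (B c) (Y c)
        ((hY c hc).mono (hsub.trans (h32 c hc)) le_rfl le_rfl) ?_⟩
      intro t ht w hw
      exact P1 c hc t (hsub ht) w hw
  · intro t₀ ht₀
    obtain ⟨s, hs, r₀, hr₀, B₀, hsK, hL⟩ := hKloc t₀ ht₀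
    have h1 : ball t₀ s ×ˢ ball (0 : ℂ) r₀ ∈ 𝓝 ((t₀, 0) : ℂ × ℂ) :=
      (isOpen_ball.prod isOpen_ball).mem_nhds ⟨mem_ball_self hs, mem_ball_self hr₀⟩
    filter_upwards [h1] with p hp
    have h2 := hp.2
    rw [mem_ball, dist_zero_right] at h2
    exact P2 t₀ ht₀ s r₀ B₀ hr₀ hsK hL p.1 hp.1 p.2 h2

end Crest.Agent.R102.C1Sec963
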