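import Mathlib
import Crest.Agent.R102.C1Sec_963

/-!
# Row 102, part (C), **C1-SECTOR**, the sector theorem (helper963)

`sector` : a leaf function with locally uniform radius on the planar sector
`0 < ‖t‖ < ρ, α < arg t < β` extends to `0 < ‖t‖ < ρ', α < arg t < β₁` for every `β₁ < β₂ ≤ π`
such that the momentum function is given on the sector `α < arg t < β₂`.
-/

set_option autoImplicit false

open Set Filter Topology Metric
open scoped ComplexConjugate Real

noncomputable section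

namespace Crest.Agent.R102.C1Sec963

open Crest.Agent.R102.C1

/-- planar sector -/
def Sct (ρ α β : ℝ) : Set ℂ := {t | 0 < ‖t‖ ∧ ‖t‖ < ρ ∧ α < Complex.arg t ∧ Complex.arg t < β}

lemma Sct_open (ρ α β : ℝ) (hβ : β ≤ π) : IsOpen (Sct ρ α β) := by
  rw [isOpen_iff_mem_nhds]
  rintro t ⟨h1, h2, h3, h4⟩
  have hs : t ∈ Complex.slitPlane := by
    rw [Complex.mem_slitPlane_iff_arg]
    exact ⟨(h4.trans_le hβ).ne, norm_pos_iff.1 h1⟩
  have hc := Complex.continuousAt_arg hs
  have hn : ContinuousAt (fun t : ℂ => ‖t‖) t := continuous_norm.continuousAt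
  filter_upwards [hn.eventually (lt_mem_nhds h1), hn.eventually (gt_mem_nhds h2),
    hc.eventually (lt_mem_nhds h3), hc.eventually (gt_mem_nhds h4)] with x a1 a2 a3 a4
  exact ⟨a1, a2, a3, a4⟩

lemma Sct_mono {ρ ρ' α α' β β' : ℝ} (h1 : ρ ≤ ρ') (h2 : α' ≤ α) (h3 : β ≤ β') :
    Sct ρ α β ⊆ Sct ρ' α' β' := fun _ ht =>
  ⟨ht.1, ht.2.1.trans_le h1, h2.trans_lt ht.2.2.1, ht.2.2.2.trans_le h3⟩

/-- unit vector -/
def ei (φ : ℝ) : ℂ := Complex.exp (φ * Complex.I)

lemma ei_norm (φ : ℝ) : ‖ei φ‖ = 1 := Complex.norm_exp_ofReal_mul_I φ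

lemma ei_ne (φ : ℝ) : ei φ ≠ 0 := Complex.exp_ne_zero _

lemma ei_conj (φ : ℝ) : ei φ * conj (ei φ) = 1 := by
  rw [Complex.mul_conj, Complex.normSq_eq_norm_sq, ei_norm]; norm_num

lemma ei_arg {φ : ℝ} (h : φ ∈ Ioc (-π) π) : Complex.arg (ei φ) = φ := by
  rw [ei, Complex.exp_mul_I]
  exact Complex.arg_cos_add_sin_mul_I h

lemma arg_ei_mul {φ : ℝ} (hφ : φ ∈ Ioc (-π) π) {z : ℂ} (hz : z ≠ 0)
    (h : φ + Complex.arg z ∈ Ioc (-π) π) : Complex.arg (ei φ * z) = φ + Complex.arg z := by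
  have h1 : Complex.arg (ei φ) + Complex.arg z ∈ Ioc (-π) π := by rw [ei_arg hφ]; exact h
  rw [Complex.arg_mul (ei_ne φ) hz h1, ei_arg hφ]

/-- `|arg z| ≤ |im z| / re z` in the right half plane -/
lemma abs_arg_le {z : ℂ} (hz : 0 < z.re) : |Complex.arg z| ≤ |z.im| / z.re := by
  have h1 : |Complex.arg z| < π / 2 := Complex.abs_arg_lt_pi_div_two_iff.2 (Or.inl hz)
  have h2 := Real.le_tan (abs_nonneg _) h1
  have h3 : Real.tan |Complex.arg z| = |z.im| / z.re := by
    rcases le_total 0 (Complex.arg z) with h | h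
    · rw [abs_of_nonneg h, Complex.tan_arg, abs_of_nonneg]
      exact Complex.arg_nonneg_iff.1 h
    · rw [abs_of_nonpos h, Real.tan_neg, Complex.tan_arg]
      have h4 : z.im ≤ 0 := by
        by_contra hc
        push Not at hc
        have h5 : 0 ≤ Complex.arg z := Complex.arg_nonneg_iff.2 hc.le
        have h6 : Complex.arg z = 0 := le_antisymm h h5
        rw [Complex.arg_eq_zero_iff] at h6
        linarith [h6.2]
      rw [abs_of_nonpos h4]
      ring
  linarith

/-- coordinates near the point `R e^{iφ}` -/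
lemma near_ray {φ R d : ℝ} (hR : 0 < R) (hd : 0 ≤ d) (hdR : 2 * d ≤ R)
    (hφ1 : -π < φ - 2 * d / R) (hφ2 : φ + 2 * d / R ≤ π) {t : ℂ} (ht : ‖t - R * ei φ‖ ≤ d) :
    ∃ z : ℂ, t = ei φ * z ∧ ‖t‖ = ‖z‖ ∧ 0 < z.re ∧ |Complex.arg z| ≤ 2 * d / R ∧
      Complex.arg t = φ + Complex.arg z ∧ z = R + (t - R * ei φ) * conj (ei φ) := by
  set z : ℂ := t * conj (ei φ) with hz
  have hc := ei_conj φ
  have h1 : t = ei φ * z := by rw [hz]; linear_combination -t * hc
  have h2 : z = R + (t - R * ei φ) * conj (ei φ) := by rw [hz]; linear_combination R * hc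
  have h3 : ‖z - R‖ ≤ d := by
    rw [h2, add_sub_cancel_left, norm_mul, RCLike.norm_conj, ei_norm, mul_one]
    exact ht
  have h4 : |z.re - R| ≤ d := by
    have := Complex.abs_re_le_norm (z - R)
    simp only [Complex.sub_re, Complex.ofReal_re] at this
    exact this.trans h3
  have h5 : |z.im| ≤ d := by
    have := Complex.abs_im_le_norm (z - R)
    simp only [Complex.sub_im, Complex.ofReal_im, sub_zero] at this
    exact this.trans h3
  have h6 : R / 2 ≤ z.re := by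
    have := (abs_le.1 h4).1
    linarith
  have h7 : 0 < z.re := by linarith
  have hz0 : z ≠ 0 := by
    intro h
    rw [h] at h7
    simp at h7
  have h8 : |Complex.arg z| ≤ 2 * d / R := by
    refine (abs_arg_le h7).trans ?_
    rw [div_le_div_iff₀ h7 hR]
    nlinarith [abs_nonneg z.im]
  have hq : 0 ≤ 2 * d / R := by positivity
  have h9 := abs_le.1 h8
  refine ⟨z, h1, ?_, h7, h8, ?_, h2⟩
  · rw [h1, norm_mul, ei_norm, one_mul]
  · rw [h1]
    exact arg_ei_mul ⟨by linarith, by linarith⟩ hz0 ⟨by linarith [h9.1], by linarith [h9.2]⟩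

/-- one rotation step -/
theorem step {k X : ℂ × ℂ → ℂ} {ρ α β β₂ δ : ℝ} (hα : -π ≤ α) (hβ₂ : β₂ ≤ π)
    (hδ : 0 < δ) (hδ4 : δ ≤ 1 / 4) (h1 : α < β - 4 * δ) (h2 : β + 4 * δ < β₂)
    (hk : KLoc (Sct ρ α β₂) k) (hX : LeafLoc k (Sct ρ α β) X) :
    ∃ X' : ℂ × ℂ → ℂ, LeafLoc k (Sct (ρ / 2) α (β + δ / 6000)) X' ∧
      ∀ t ∈ Sct (ρ / 2) α β, ∀ᶠ p in 𝓝 ((t, 0) : ℂ × ℂ), X' p = X p := by
  have hβπ : β ≤ π := by linarith
  set K := Sct ρ α β with hK
  have hKo : IsOpen K := Sct_open ρ α β hβπ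
  set F : Set ℂ := {c | ∃ R : ℝ, 0 < R ∧ R < ρ / 2 ∧ c = R * ei β} with hF
  set η : ℂ → ℝ := fun c => δ * ‖c‖ with hη
  have hnorm : ∀ R : ℝ, 0 < R → ‖(R : ℂ) * ei β‖ = R := by
    intro R hR
    rw [norm_mul, ei_norm, mul_one, Complex.norm_real, Real.norm_eq_abs, abs_of_pos hR]
  have hgrow := grow_loc (F := F) (η := η) (u := fun _ => ei β) hKo hX hk ?_ ?_ ?_ ?_ ?_ ?_
  · obtain ⟨X', x1, x2⟩ := hgrow
    have hsub0 : Sct (ρ / 2) α β ⊆ K := by
      rintro t ⟨a1, a2, a3, a4⟩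
      exact ⟨a1, by linarith, a3, a4⟩
    refine ⟨X', x1.mono ?_, fun t ht => x2 t (hsub0 ht)⟩
    rintro t ⟨a1, a2, a3, a4⟩
    by_cases hlt : Complex.arg t < β
    · exact Or.inl (hsub0 ⟨a1, a2, a3, hlt⟩)
    · right
      push Not at hlt
      simp only [mem_iUnion]
      refine ⟨‖t‖ * ei β, ⟨‖t‖, a1, a2, rfl⟩, ?_⟩
      rw [mem_ball, dist_eq_norm]
      have e1 : t = ‖t‖ * ei (Complex.arg t) := (Complex.norm_mul_exp_arg_mul_I t).symm
      have e2 : t - ‖t‖ * ei β = ‖t‖ * (ei β * (Complex.exp (((Complex.arg t - β : ℝ) : ℂ) *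
          Complex.I) - 1)) := by
        have e3 : ei (Complex.arg t) = ei β * Complex.exp (((Complex.arg t - β : ℝ) : ℂ) *
            Complex.I) := by
          rw [ei, ei, ← Complex.exp_add]
          congr 1
          push_cast
          ring
        have e4 : t - ‖t‖ * ei β = ‖t‖ * ei (Complex.arg t) - ‖t‖ * ei β := by rw [← e1]
        rw [e4, e3]
        ring
      have e5 : ‖Complex.exp (((Complex.arg t - β : ℝ) : ℂ) * Complex.I) - 1‖ ≤
          |Complex.arg t - β| := by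
        rw [mul_comm]
        exact (Real.norm_exp_I_mul_ofReal_sub_one_le (x := Complex.arg t - β))
      have e6 : |Complex.arg t - β| < δ / 6000 := by
        rw [abs_of_nonneg (by linarith)]
        linarith
      rw [e2, norm_mul, norm_mul, ei_norm, one_mul, Complex.norm_real, norm_norm]
      simp only [hη]
      rw [hnorm _ a1]
      calc ‖t‖ * ‖Complex.exp (((Complex.arg t - β : ℝ) : ℂ) * Complex.I) - 1‖
          < ‖t‖ * (δ / 6000) := mul_lt_mul_of_pos_left (e5.trans_lt e6) a1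
        _ = δ * ‖t‖ / 6000 := by ring
  · -- `F ⊆ closure K`
    rintro c ⟨R, hR, hR2, rfl⟩
    have hcont : ContinuousWithinAt (fun φ : ℝ => (R : ℂ) * ei φ) (Ioo (β - 4 * δ) β) β := by
      unfold ei
      exact Continuous.continuousWithinAt (by fun_prop)
    have hmem : β ∈ closure (Ioo (β - 4 * δ) β) := by
      rw [closure_Ioo (by linarith)]
      exact ⟨by linarith, le_rfl⟩
    refine hcont.mem_closure hmem (fun φ hφ => ?_)
    have hφI : φ ∈ Ioc (-π) π := ⟨by linarith [hφ.1], by linarith [hφ.2]⟩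
    have ha : Complex.arg ((R : ℂ) * ei φ) = φ := by
      rw [Complex.arg_real_mul _ hR, ei_arg hφI]
    have hn : ‖(R : ℂ) * ei φ‖ = R := by
      rw [norm_mul, ei_norm, mul_one, Complex.norm_real, Real.norm_eq_abs, abs_of_pos hR]
    refine ⟨by rw [hn]; exact hR, by rw [hn]; linarith, ?_, ?_⟩
    · rw [ha]; linarith [hφ.1]
    · rw [ha]; exact hφ.2
  · rintro c ⟨R, hR, hR2, rfl⟩
    simp only [hη]
    rw [hnorm R hR]
    positivity
  · intro c _
    exact ei_norm β
  · -- half disc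
    rintro c ⟨R, hR, hR2, rfl⟩ t ⟨ht1, ht2⟩
    simp only [hη] at ht1 ht2
    rw [hnorm R hR] at ht1 ht2
    have hd : 2 * (δ * R) / R = 2 * δ := by field_simp
    obtain ⟨z, b1, b2, b3, b4, b5, b6⟩ := near_ray (φ := β) (R := R) (d := δ * R) hR (by positivity)
      (by nlinarith) (by rw [hd]; linarith) (by rw [hd]; linarith) ht1
    have him : z.im < 0 := by
      have : z.im = ((t - R * ei β) * conj (ei β)).im := by
        rw [b6]; simp
      rw [this]
      have : 0 < δ * R / 4000 := by positivity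
      linarith
    have harg : Complex.arg z < 0 := Complex.arg_neg_iff.2 him
    rw [hd] at b4
    have h4 := (abs_le.1 b4).1
    have hz1 : ‖z‖ ≤ R + δ * R := by
      rw [← b2]
      calc ‖t‖ = ‖(t - R * ei β) + R * ei β‖ := by ring_nf
        _ ≤ ‖t - R * ei β‖ + ‖(R : ℂ) * ei β‖ := norm_add_le _ _
        _ ≤ R + δ * R := by rw [hnorm R hR]; linarith
    have hz0 : 0 < ‖z‖ := norm_pos_iff.2 (by intro h; rw [h] at b3; simp at b3)
    refine ⟨by rw [b2]; exact hz0, ?_, ?_, ?_⟩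
    · rw [b2]
      nlinarith
    · rw [b5]; linarith
    · rw [b5]; linarith
  · -- closed ball in `V`
    rintro c ⟨R, hR, hR2, rfl⟩ t ht
    simp only [hη] at ht
    rw [mem_closedBall, dist_eq_norm, hnorm R hR] at ht
    have hd : 2 * (2 * (δ * R)) / R = 4 * δ := by field_simp; ring
    obtain ⟨z, b1, b2, b3, b4, b5, b6⟩ := near_ray (φ := β) (R := R) (d := 2 * (δ * R)) hR
      (by positivity) (by nlinarith) (by rw [hd]; linarith) (by rw [hd]; linarith) ht
    rw [hd] at b4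
    have h4 := abs_le.1 b4
    have hz1 : ‖z‖ ≤ R + 2 * (δ * R) := by
      rw [← b2]
      calc ‖t‖ = ‖(t - R * ei β) + R * ei β‖ := by ring_nf
        _ ≤ ‖t - R * ei β‖ + ‖(R : ℂ) * ei β‖ := norm_add_le _ _
        _ ≤ R + 2 * (δ * R) := by rw [hnorm R hR]; linarith
    have hz0 : 0 < ‖z‖ := norm_pos_iff.2 (by intro h; rw [h] at b3; simp at b3)
    refine ⟨by rw [b2]; exact hz0, ?_, ?_, ?_⟩
    · rw [b2]
      nlinarith
    · rw [b5]; linarith [h4.1]
    · rw [b5]; linarith [h4.2]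
  · -- preconnected
    rintro c ⟨R, hR, hR2, rfl⟩
    simp only [hη]
    rw [hnorm R hR]
    have hd : 2 * (δ * R / 2000) / R = δ / 1000 := by field_simp; ring
    have heq : K ∩ ball ((R : ℂ) * ei β) (δ * R / 2000) =
        {t : ℂ | (t * conj (ei β)).im < 0} ∩ ball ((R : ℂ) * ei β) (δ * R / 2000) := by
      ext t
      simp only [mem_inter_iff]
      refine and_congr_left (fun htb => ?_)
      rw [mem_ball, dist_eq_norm] at htb
      obtain ⟨z, b1, b2, b3, b4, b5, b6⟩ := near_ray (φ := β) (R := R) (d := δ * R / 2000) hR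
        (by positivity) (by nlinarith) (by rw [hd]; linarith) (by rw [hd]; linarith) htb.le
      rw [hd] at b4
      have h4 := abs_le.1 b4
      have hzt : t * conj (ei β) = z := by
        rw [b1]; linear_combination z * ei_conj β
      have hz1 : ‖z‖ ≤ R + δ * R / 2000 := by
        rw [← b2]
        calc ‖t‖ = ‖(t - R * ei β) + R * ei β‖ := by ring_nf
          _ ≤ ‖t - R * ei β‖ + ‖(R : ℂ) * ei β‖ := norm_add_le _ _
          _ ≤ R + δ * R / 2000 := by rw [hnorm R hR]; linarith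
      have hz0 : 0 < ‖z‖ := norm_pos_iff.2 (by intro h; rw [h] at b3; simp at b3)
      constructor
      · rintro ⟨_, _, _, a4⟩
        rw [b5] at a4
        change (t * conj (ei β)).im < 0
        rw [hzt]
        exact Complex.arg_neg_iff.1 (by linarith)
      · intro him
        have him' : (t * conj (ei β)).im < 0 := him
        rw [hzt] at him'
        have harg : Complex.arg z < 0 := Complex.arg_neg_iff.2 him'
        refine ⟨by rw [b2]; exact hz0, by rw [b2]; nlinarith, ?_, ?_⟩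
        · rw [b5]; linarith [h4.1]
        · rw [b5]; linarith
    rw [heq]
    refine Convex.isPreconnected (Convex.inter ?_ (convex_ball _ _))
    intro x hx y hy a b ha hb hab
    simp only [mem_ofPred_eq] at hx hy ⊢
    have h3 : ((a • x + b • y) * conj (ei β)).im = a * (x * conj (ei β)).im +
        b * (y * conj (ei β)).im := by
      simp only [Complex.real_smul, add_mul, Complex.add_im, mul_assoc, Complex.im_ofReal_mul]
    rw [h3]
    rcases eq_or_lt_of_le ha with h | h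
    · have : b = 1 := by linarith
      rw [← h, this]; linarith
    · nlinarith

/-- **C1-SECTOR** -/
theorem sector {k X : ℂ × ℂ → ℂ} {ρ α β β₁ β₂ : ℝ} (hρ : 0 < ρ) (hα : -π ≤ α) (hαβ : α < β)
    (hβ₁ : β ≤ β₁) (h12 : β₁ < β₂) (hβ₂ : β₂ ≤ π) (hk : KLoc (Sct ρ α β₂) k)
    (hX : LeafLoc k (Sct ρ α β) X) :
    ∃ ρ' : ℝ, 0 < ρ' ∧ ρ' ≤ ρ ∧ ∃ X' : ℂ × ℂ → ℂ, LeafLoc k (Sct ρ' α β₁) X' ∧
      ∀ t ∈ Sct ρ' α β, ∀ᶠ p in 𝓝 ((t, 0) : ℂ × ℂ), X' p = X p := by
  obtain ⟨δ, hδ, hδ4, d1, d2⟩ : ∃ δ : ℝ, 0 < δ ∧ δ ≤ 1 / 4 ∧ α < β - 4 * δ ∧ β₁ + 4 * δ < β₂ := by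
    refine ⟨min (1 / 4) (min ((β - α) / 5) ((β₂ - β₁) / 5)), ?_, min_le_left _ _, ?_, ?_⟩
    · refine lt_min (by norm_num) (lt_min (by linarith) (by linarith))
    · have := (min_le_right (1 / 4 : ℝ) (min ((β - α) / 5) ((β₂ - β₁) / 5))).trans (min_le_left _ _)
      linarith
    · have := (min_le_right (1 / 4 : ℝ) (min ((β - α) / 5) ((β₂ - β₁) / 5))).trans (min_le_right _ _)
      linarith
  obtain ⟨N, hN⟩ := exists_nat_gt ((β₁ - β) / (δ / 6000))
  have hN0 : (0 : ℝ) < N := lt_of_le_of_lt (by apply div_nonneg <;> linarith) hN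
  rw [div_lt_iff₀ (by positivity)] at hN
  set e : ℝ := (β₁ - β) / N with he
  have he0 : 0 ≤ e := div_nonneg (by linarith) hN0.le
  have he1 : e ≤ δ / 6000 := by
    rw [he, div_le_iff₀ hN0]
    linarith
  have heN : N * e = β₁ - β := by rw [he]; field_simp
  have main : ∀ n : ℕ, n ≤ N → ∃ X' : ℂ × ℂ → ℂ, LeafLoc k (Sct (ρ / 2 ^ n) α (β + n * e)) X' ∧
      ∀ t ∈ Sct (ρ / 2 ^ n) α β, ∀ᶠ p in 𝓝 ((t, 0) : ℂ × ℂ), X' p = X p := by
    intro n
    induction n with
    | zero =>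
      intro _
      refine ⟨X, ?_, fun t _ => Eventually.of_forall (fun _ => rfl)⟩
      simpa using hX
    | succ n ih =>
      intro hn
      obtain ⟨Y, y1, y2⟩ := ih (by omega)
      have hnN : (n : ℝ) + 1 ≤ N := by exact_mod_cast hn
      have hn0 : (0 : ℝ) ≤ n := Nat.cast_nonneg n
      have hle : (n : ℝ) * e ≤ β₁ - β := by
        rw [← heN]
        exact mul_le_mul_of_nonneg_right (by linarith) he0
      have hne : 0 ≤ (n : ℝ) * e := mul_nonneg hn0 he0
      have hρn : ρ / 2 ^ n ≤ ρ := div_le_self hρ.le (one_le_pow₀ (by norm_num))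
      obtain ⟨X', x1, x2⟩ := step (k := k) (X := Y) (ρ := ρ / 2 ^ n) (α := α) (β := β + n * e)
        (β₂ := β₂) (δ := δ) hα hβ₂ hδ hδ4 (by linarith) (by linarith)
        (hk.mono (Sct_mono hρn le_rfl le_rfl)) y1
      have hρe : ρ / 2 ^ n / 2 = ρ / 2 ^ (n + 1) := by rw [pow_succ]; field_simp
      rw [hρe] at x1 x2
      refine ⟨X', x1.mono (Sct_mono le_rfl le_rfl ?_), ?_⟩
      · push_cast
        linarith
      · intro t ht
        have h1 : t ∈ Sct (ρ / 2 ^ (n + 1)) α (β + n * e) :=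
          Sct_mono le_rfl le_rfl (by linarith) ht
        have h2 : t ∈ Sct (ρ / 2 ^ n) α β := by
          refine Sct_mono ?_ le_rfl le_rfl ht
          rw [← hρe]
          have : 0 < ρ / 2 ^ n := by positivity
          linarith
        filter_upwards [x2 t h1, y2 t h2] with p hp1 hp2
        rw [hp1, hp2]
  obtain ⟨X', x1, x2⟩ := main N le_rfl
  rw [heN, add_sub_cancel] at x1
  exact ⟨ρ / 2 ^ N, by positivity, div_le_self hρ.le (one_le_pow₀ (by norm_num)), X', x1, x2⟩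

end Crest.Agent.R102.C1Sec963
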