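import Mathlib
import Crest.Agent.R102.CC_350
import Crest.Agent.R102.CCaS_350

/-!
Row 102, T1-B, block GROWTH, **(CC), final form** on an open connected set `V`: the main sheet
`SL φ p ρ r` of the lines contains the column.
-/

set_option autoImplicit false
set_option linter.unusedVariables false

open Set Filter Topology Metric

noncomputable section

namespace Crest.Agent.R102.CCS350

open Crest.Agent.R102.Growth
open Crest.Agent.R102.StepE599 (Good Bd u v chi st ph pp tau Inc)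
open Crest.Agent.R102.ColE350 (Wd Col SmallD Wd.im_pos isOpen_Col Col.mem)
open Crest.Agent.R102.CC350 (DL BaseL convex_Wd O1 O1_eq preconn_O1 isOpen_Wd isOpen_DL DL_mid
  sht_glue NN isOpen_NN mem_NN)
open Crest.Agent.R102.ColS350 Crest.Agent.R102.LinkBS350
open Crest.Agent.R102.StepV599 (ph_differentiableAt pp_differentiableAt)
open Crest.Agent.R102.Sh982
open Crest.Agent.R102.VH982 (pt pt_eta pt_snd pt_re pt_im)
open Crest.Agent.R102.K669 (Slab IsReg isReg_of_local isOpen_isReg)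

variable {q : C(ℂ, ℂ)} {η ρ r Bc : ℝ} {bb φ p : ℂ × ℂ → ℂ} {m₀ : ℂ → ℂ}
variable {θ H K : ℂ → ℂ} {V : Set ℂ} {B : ℂ × ℂ → ℂ} {s b1 R κ : ℝ} {c : ℂ}

/-- **(CC)** upper cone -/
theorem cc_up (fam : C0.LineFam q η ρ r Bc bb φ p m₀) (h : EntOn θ H K V)
    (hVc : IsPreconnected V) (S : SmallV θ K V c R s κ)
    (D : BaseV θ H K V (φe φ p ρ r) (pe φ p ρ r) B s b1 R)
    (hb : |b1 - c.im| ≤ R / 400) (hb0 : 0 ≤ b1) (hr : 2 * s ≤ r)
    (hSL : ∀ t w : ℂ, w ∈ Wd s → -(ρ / 2) < t.im → t.im < b1 → (t, w) ∈ SL φ p ρ r)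
    {t w : ℂ} (ht1 : |t.re - c.re| < R / 12) (ht2 : -(ρ / 2) < t.im)
    (ht3 : t.im < c.im + R / 120) (hw : w ∈ Wd s) : (t, w) ∈ SL φ p ρ r := by
  have hs := D.toL.s_pos
  have hR := D.toL.R_pos
  have hsR := S.toD.sR
  rcases lt_or_ge t.im b1 with hlt | hge
  · exact hSL t w hw ht2 hlt
  obtain ⟨X, x1, x2, x3, x4, x5, x6⟩ := D.column h hVc S hb hb0 le_rfl
  have hρ : 0 < ρ := fam.ρ_pos
  have hrρ : 4 * r ≤ ρ := fam.r_le
  have h10 : -(ρ / 2) < ρ / 2 := by linarith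
  have hv := Wd.im_pos hw
  have hw1 : ‖w‖ < 2 * s := hw.1
  have hwim : w.im < 2 * s := by
    have := Complex.abs_im_le_norm w
    rw [abs_of_pos hv] at this
    linarith
  have hslab : Slab (-(ρ / 2)) (ρ / 2) (ball 0 r) ⊆ C0.PD ρ r := slab_PD hρ
  have hF : DifferentiableOn ℂ (Fl φ p) (Slab (-(ρ / 2)) (ρ / 2) (ball 0 r)) :=
    (fam.φ_diff.mono hslab).prodMk (fam.p_diff.mono hslab)
  set e : ℂ × ℂ → ℂ := fun x => X (x.1 + x.2 / 2, x.2) - X (x.1 - x.2 / 2, x.2) with he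
  set G : ℂ × ℂ → ℂ × ℂ := fun x =>
    (ph θ H (X (x.1 - x.2 / 2, x.2)) (e x), pp θ H (X (x.1 - x.2 / 2, x.2)) (e x)) with hG
  -- facts on `NN`
  have hstep : ∀ x ∈ NN c R s b1, e x ≠ 0 ∧ ‖e x‖ < 5 * s := by
    intro x hx
    have e0 : x.1 - x.2 / 2 + x.2 = x.1 + x.2 / 2 := by ring
    have := x5 (x.1 - x.2 / 2) x.2 hx.1 (by rw [e0]; exact hx.2)
    rw [e0] at this
    exact ⟨sub_ne_zero.2 this.1, this.2⟩
  have hXm : DifferentiableOn ℂ (fun x : ℂ × ℂ => X (x.1 - x.2 / 2, x.2)) (NN c R s b1) :=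
    x1.comp (by fun_prop : DifferentiableOn ℂ (fun x : ℂ × ℂ => (x.1 - x.2 / 2, x.2)) _)
      (fun x hx => hx.1)
  have hXp : DifferentiableOn ℂ (fun x : ℂ × ℂ => X (x.1 + x.2 / 2, x.2)) (NN c R s b1) :=
    x1.comp (by fun_prop : DifferentiableOn ℂ (fun x : ℂ × ℂ => (x.1 + x.2 / 2, x.2)) _)
      (fun x hx => hx.2)
  have hed : DifferentiableOn ℂ e (NN c R s b1) := hXp.sub hXm
  have hGd : DifferentiableOn ℂ G (NN c R s b1) := by
    intro x hx
    have g := x4 _ _ hx.1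
    obtain ⟨k1, k2⟩ := hstep x hx
    have d1 := ph_differentiableAt h g k1 (by linarith)
    have d2 := pp_differentiableAt h g k1 (by linarith)
    have d0 : DifferentiableWithinAt ℂ (fun x : ℂ × ℂ => (X (x.1 - x.2 / 2, x.2), e x))
        (NN c R s b1) x := (hXm x hx).prodMk (hed x hx)
    exact (DifferentiableAt.comp_differentiableWithinAt (g := fun u : ℂ × ℂ => ph θ H u.1 u.2)
      (f := fun x : ℂ × ℂ => (X (x.1 - x.2 / 2, x.2), e x)) x d1 d0).prodMk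
      (DifferentiableAt.comp_differentiableWithinAt (g := fun u : ℂ × ℂ => pp θ H u.1 u.2)
      (f := fun x : ℂ × ℂ => (X (x.1 - x.2 / 2, x.2), e x)) x d2 d0)
  -- the start
  have hb1s : b1 - 2 * s > -(ρ / 2) := by
    have : s ≤ r / 2 := by linarith
    linarith
  have hcb := abs_le.1 hb
  norm_num at hsR
  have hmemN : ∀ y : ℝ, b1 - 2 * s ≤ y → y ≤ t.im → pt t.re y w ∈ NN c R s b1 := by
    intro y hy1 hy2
    rw [pt_mk]
    refine mem_NN hs S.toD.sR hw ?_ ?_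
    · show b1 - 3 * s < y
      linarith
    · show |t.re - c.re| + 32 * (y - b1) < R / 2 - 34 * s
      linarith
  have hstart : pt t.re (b1 - 2 * s) w ∈ SL φ p ρ r := by
    rw [pt_mk]
    exact hSL _ w hw (by show -(ρ / 2) < b1 - 2 * s; linarith)
      (by show b1 - 2 * s < b1; linarith)
  have hGe : G =ᶠ[𝓝 (pt t.re (b1 - 2 * s) w)] LE φ p ρ r := by
    have o1 : NN c R s b1 ∈ 𝓝 (pt t.re (b1 - 2 * s) w) :=
      isOpen_NN.mem_nhds (hmemN _ le_rfl (by linarith))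
    have o2 : {x : ℂ × ℂ | (x.1 + x.2 / 2).im < b1} ∈ 𝓝 (pt t.re (b1 - 2 * s) w) := by
      refine (isOpen_lt (Complex.continuous_im.comp (by fun_prop)) continuous_const).mem_nhds ?_
      show ((pt t.re (b1 - 2 * s) w).1 + (pt t.re (b1 - 2 * s) w).2 / 2).im < b1
      rw [Complex.add_im, pt_im, pt_snd]
      have : (w / 2).im = w.im / 2 := by simp
      rw [this]
      linarith
    filter_upwards [o1, o2] with x hx1 hx2
    have e0 : x.1 - x.2 / 2 + x.2 = x.1 + x.2 / 2 := by ring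
    have e1 : x.1 - x.2 / 2 + x.2 / 2 = x.1 := by ring
    have k := x6 (x.1 - x.2 / 2) x.2 hx1.1 (by rw [e0]; exact hx1.2) (by rw [e0]; exact hx2)
    rw [e0, e1] at k
    have k1 : φe φ p ρ r x = (G x).1 := k.1
    have k2 : pe φ p ρ r x = (G x).2 := k.2
    exact Prod.ext k1.symm k2.symm
  have := sht_glue (x := t.re) (y2 := b1 - 2 * s) (y3 := t.im) (w := w) h10 isOpen_ball hF
    (fun _ _ => mem_univ _) hstart isOpen_NN hmemN hGd (fun _ _ => mem_univ _) hGe (by linarith)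
  rwa [show (t, w) = pt t.re t.im w from (pt_eta (t, w)).symm]

/-- **(CC)** -/
theorem ccS (fam : C0.LineFam q η ρ r Bc bb φ p m₀) (h : EntOn θ H K V)
    (hVc : IsPreconnected V) (S : SmallV θ K V c R s κ)
    (D : BaseV θ H K V (φe φ p ρ r) (pe φ p ρ r) B s b1 R)
    (hb : |b1 - c.im| ≤ R / 400) (hb0 : 0 ≤ b1) (hr : 2 * s ≤ r)
    (hSL : ∀ t w : ℂ, w ∈ Wd s → -(ρ / 2) < t.im → t.im < b1 → (t, w) ∈ SL φ p ρ r)
    (hev : ∀ t w : ℂ, (t, w) ∈ SL φ p ρ r → (t, -w) ∈ SL φ p ρ r) :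
    ∀ t w : ℂ, |t.re - c.re| < R / 12 → -(ρ / 2) < t.im → t.im < c.im + R / 120 →
      ‖w‖ < 2 * s → ‖w‖ < 32 * |w.im| → (t, w) ∈ SL φ p ρ r := by
  intro t w h1 h2 h3 h4 h5
  rcases le_or_gt 0 w.im with hw | hw
  · rw [abs_of_nonneg hw] at h5
    exact cc_up fam h hVc S D hb hb0 hr hSL h1 h2 h3 ⟨h4, h5⟩
  · rw [abs_of_neg hw] at h5
    have hmem : -w ∈ Wd s := by
      refine ⟨by rwa [norm_neg], ?_⟩
      show ‖-w‖ < 32 * (-w).im
      rw [norm_neg, Complex.neg_im]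
      exact h5
    have := hev _ _ (cc_up fam h hVc S D hb hb0 hr hSL h1 h2 h3 hmem)
    rwa [neg_neg] at this

end Crest.Agent.R102.CCS350
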