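import Mathlib

/-!
# Row 102, block CT, leaf END (575 #25983 (4))

Pencil argument: a polynomial relation between `m`, `bh` with coefficients functions of `c + om`
restricts to a point of the graph, and the pencil of lines through this point makes the
graph of `gh` algebraic.
-/

open Filter Topology

namespace Crest.Agent.R102.CTEnd289

theorem coef_zero {M : ℕ} (a : Fin M → ℂ) (S : Set ℂ) (hS : S.Infinite)
    (h : ∀ t ∈ S, ∑ n, a n * t ^ (n : ℕ) = 0) : ∀ n, a n = 0 := by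
  classical
  set p : Polynomial ℂ := ∑ n : Fin M, Polynomial.C (a n) * Polynomial.X ^ (n : ℕ) with hp
  have hp0 : p = 0 := by
    apply Polynomial.eq_zero_of_infinite_isRoot
    refine hS.mono fun t ht => ?_
    have := h t ht
    simp only [Set.mem_ofPred_eq, Polynomial.IsRoot.def, hp, Polynomial.eval_finsetSum,
      Polynomial.eval_mul, Polynomial.eval_C, Polynomial.eval_pow, Polynomial.eval_X]
    exact this
  intro n
  have h1 : p.coeff (n : ℕ) = a n := by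
    simp only [hp, Polynomial.finsetSum_coeff, Polynomial.coeff_C_mul, Polynomial.coeff_X_pow]
    rw [Finset.sum_eq_single n]
    · simp
    · intro b _ hb
      have : ¬ ((n : ℕ) = (b : ℕ)) := fun h => hb (Fin.ext h.symm)
      simp [this]
    · intro hn
      exact absurd (Finset.mem_univ n) hn
  rw [← h1, hp0, Polynomial.coeff_zero]

/-- the derivative of `m` in the direction of the pencil -/
theorem dir_ne {g : ℂ → ℂ} {c0 : ℂ} {m k : ℂ × ℂ → ℂ}
    (hg2 : deriv (deriv g) c0 ≠ 0) (hm : AnalyticAt ℂ m (c0, 0))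
    (h1 : ∀ᶠ p in 𝓝 ((c0, 0) : ℂ × ℂ), g (p.1 + p.2) = m p * (p.1 + p.2) + k p)
    (h2 : ∀ᶠ p in 𝓝 ((c0, 0) : ℂ × ℂ), g (p.1 - p.2) = m p * (p.1 - p.2) + k p)
    (h0 : ∀ᶠ c in 𝓝 c0, m (c, 0) = deriv g c) :
    fderiv ℂ m (c0, 0) (1, -1) ≠ 0 := by
  have hd : HasFDerivAt m (fderiv ℂ m (c0, 0)) (c0, 0) := hm.differentiableAt.hasFDerivAt
  -- first direction
  have e1 : fderiv ℂ m (c0, 0) (1, 0) = deriv (deriv g) c0 := by
    have hc : HasDerivAt (fun c : ℂ => ((c, 0) : ℂ × ℂ)) ((1, 0) : ℂ × ℂ) c0 :=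
      (hasDerivAt_id c0).prodMk (hasDerivAt_const c0 (0 : ℂ))
    have h := hd.comp_hasDerivAt c0 hc
    have h' : deriv (fun c : ℂ => m (c, 0)) c0 = fderiv ℂ m (c0, 0) (1, 0) := h.deriv
    rw [← h']
    exact Filter.EventuallyEq.deriv_eq h0
  -- second direction
  have e2 : fderiv ℂ m (c0, 0) (0, 1) = 0 := by
    have hc : HasDerivAt (fun w : ℂ => ((c0, w) : ℂ × ℂ)) ((0, 1) : ℂ × ℂ) 0 :=
      (hasDerivAt_const (0 : ℂ) c0).prodMk (hasDerivAt_id (0 : ℂ))
    have hcn : HasDerivAt (fun w : ℂ => ((c0, -w) : ℂ × ℂ)) ((0, -1) : ℂ × ℂ) 0 :=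
      (hasDerivAt_const (0 : ℂ) c0).prodMk (hasDerivAt_neg (0 : ℂ))
    have h := hd.comp_hasDerivAt (0 : ℂ) hc
    have hd' : HasFDerivAt m (fderiv ℂ m (c0, 0)) ((fun w : ℂ => ((c0, -w) : ℂ × ℂ)) 0) := by
      simpa using hd
    have hn := hd'.comp_hasDerivAt (0 : ℂ) hcn
    have hev : (fun w : ℂ => m (c0, w)) =ᶠ[𝓝 0] fun w : ℂ => m (c0, -w) := by
      have t1 : Tendsto (fun w : ℂ => ((c0, w) : ℂ × ℂ)) (𝓝 0) (𝓝 (c0, 0)) := hc.continuousAt
      have t2 : Tendsto (fun w : ℂ => ((c0, -w) : ℂ × ℂ)) (𝓝 0) (𝓝 (c0, 0)) := by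
        have := hcn.continuousAt
        simpa [ContinuousAt] using this
      filter_upwards [t1.eventually h1, t1.eventually h2, t2.eventually h1, t2.eventually h2]
        with w a1 a2 a3 a4
      by_cases hw : w = 0
      · simp [hw]
      · have b1 : g (c0 + w) = m (c0, w) * (c0 + w) + k (c0, w) := a1
        have b2 : g (c0 - w) = m (c0, w) * (c0 - w) + k (c0, w) := a2
        have b3 : g (c0 + -w) = m (c0, -w) * (c0 + -w) + k (c0, -w) := a3
        have b4 : g (c0 - -w) = m (c0, -w) * (c0 - -w) + k (c0, -w) := a4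
        rw [← sub_eq_add_neg] at b3
        rw [sub_neg_eq_add] at b4
        have : (m (c0, w) - m (c0, -w)) * (2 * w) = 0 := by linear_combination b2 - b1 + b4 - b3
        rcases mul_eq_zero.mp this with h | h
        · exact sub_eq_zero.mp h
        · exact absurd h (by simpa using hw)
    have d1 : deriv (fun w : ℂ => m (c0, w)) 0 = fderiv ℂ m (c0, 0) (0, 1) := h.deriv
    have d2 : deriv (fun w : ℂ => m (c0, -w)) 0 = fderiv ℂ m (c0, 0) (0, -1) := hn.deriv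
    have d3 := hev.deriv_eq
    rw [d1, d2] at d3
    have d4 : fderiv ℂ m (c0, 0) (0, -1) = - fderiv ℂ m (c0, 0) (0, 1) := by
      rw [← map_neg]; simp
    rw [d4] at d3
    have : (2 : ℂ) * fderiv ℂ m (c0, 0) (0, 1) = 0 := by linear_combination d3
    simpa using this
  have e3 : ((1, -1) : ℂ × ℂ) = (1, 0) - (0, 1) := by simp
  rw [e3, map_sub, e1, e2, sub_zero]
  exact hg2

/-- product of two analytic germs on `ℂ × ℂ` is not zero -/
theorem freq_mul {F Q : ℂ × ℂ → ℂ} {x : ℂ × ℂ} (hF : AnalyticAt ℂ F x) (hQ : AnalyticAt ℂ Q x)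
    (hF0 : ¬ ∀ᶠ p in 𝓝 x, F p = 0) (hQ0 : ¬ ∀ᶠ p in 𝓝 x, Q p = 0) :
    ∃ᶠ p in 𝓝 x, F p ≠ 0 ∧ Q p ≠ 0 := by
  intro hcon
  obtain ⟨r, hr, hball⟩ := Metric.eventually_nhds_iff_ball.mp
    (hF.eventually_analyticAt.and (hQ.eventually_analyticAt.and hcon))
  have hpre : IsPreconnected (Metric.ball x r) := (convex_ball x r).isPreconnected
  have hQa : AnalyticOnNhd ℂ Q (Metric.ball x r) := fun p hp => (hball p hp).2.1
  apply hF0
  filter_upwards [Metric.ball_mem_nhds x hr] with p hp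
  by_contra hFp
  apply hQ0
  have hnear : ∀ᶠ p' in 𝓝 p, Q p' = 0 := by
    have c1 : ∀ᶠ p' in 𝓝 p, F p' ≠ 0 := (hball p hp).1.continuousAt.eventually_ne hFp
    filter_upwards [c1, Metric.isOpen_ball.mem_nhds hp] with p' h1 h2
    by_contra h3
    exact (hball p' h2).2.2 ⟨h1, h3⟩
  have hz := hQa.eqOn_zero_of_preconnected_of_eventuallyEq_zero hpre hp hnear
  filter_upwards [Metric.ball_mem_nhds x hr] with p' hp'
  exact hz hp'

/-- the polynomial -/
noncomputable def RR {I M : ℕ} (a : Fin I → Fin M → ℂ) (β y : ℂ) : MvPolynomial (Fin 2) ℂ :=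
  ∑ i, ∑ n, MvPolynomial.C (a i n) * (MvPolynomial.X 1 - MvPolynomial.C y) ^ (n : ℕ) *
    (MvPolynomial.X 0 - MvPolynomial.C β) ^ (M - (n : ℕ)) * MvPolynomial.X 0 ^ (i : ℕ)

theorem RR_eval {I M : ℕ} (a : Fin I → Fin M → ℂ) (β y z w : ℂ) :
    MvPolynomial.eval ![z, w] (RR a β y) =
      ∑ i, ∑ n, a i n * (w - y) ^ (n : ℕ) * (z - β) ^ (M - (n : ℕ)) * z ^ (i : ℕ) := by
  simp [RR]

theorem RR_line {I M : ℕ} (a : Fin I → Fin M → ℂ) (β y z t : ℂ) :
    MvPolynomial.eval ![z, y + t * (z - β)] (RR a β y) =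
      (z - β) ^ M * ∑ i, ∑ n, a i n * t ^ (n : ℕ) * z ^ (i : ℕ) := by
  rw [RR_eval, Finset.mul_sum]
  refine Finset.sum_congr rfl fun i _ => ?_
  rw [Finset.mul_sum]
  refine Finset.sum_congr rfl fun n _ => ?_
  have hn : (n : ℕ) + (M - (n : ℕ)) = M := Nat.add_sub_cancel' n.isLt.le
  have e : (z - β) ^ M = (z - β) ^ (n : ℕ) * (z - β) ^ (M - (n : ℕ)) := by rw [← pow_add, hn]
  rw [e, add_sub_cancel_left, mul_pow]
  ring

theorem RR_ne {I M : ℕ} (a : Fin I → Fin M → ℂ) (β y : ℂ) {i0 : Fin I} {n0 : Fin M}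
    (h : a i0 n0 ≠ 0) : RR a β y ≠ 0 := by
  intro h0
  apply h
  have key : ∀ z : ℂ, z ≠ β → ∀ t : ℂ, ∑ i, ∑ n, a i n * t ^ (n : ℕ) * z ^ (i : ℕ) = 0 := by
    intro z hz t
    have := RR_line a β y z t
    rw [h0, map_zero] at this
    rcases mul_eq_zero.mp this.symm with h | h
    · exact absurd h (pow_ne_zero _ (sub_ne_zero.mpr hz))
    · exact h
  have key2 : ∀ z : ℂ, z ≠ β → ∀ n : Fin M, ∑ i, a i n * z ^ (i : ℕ) = 0 := by
    intro z hz
    refine coef_zero (fun n => ∑ i, a i n * z ^ (i : ℕ)) Set.univ Set.infinite_univ ?_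
    intro t _
    rw [← key z hz t, Finset.sum_comm]
    refine Finset.sum_congr rfl fun n _ => ?_
    rw [Finset.sum_mul]
    exact Finset.sum_congr rfl fun i _ => by ring
  have hinf : ({β}ᶜ : Set ℂ).Infinite := (Set.finite_singleton β).infinite_compl
  exact coef_zero (fun i => a i n0) _ hinf (fun z hz => key2 z (by simpa using hz) n0) i0

theorem ct_end {g gh : ℂ → ℂ} {c0 : ℂ} {m k bh : ℂ × ℂ → ℂ}
    (_hg : AnalyticAt ℂ g c0) (hg2 : deriv (deriv g) c0 ≠ 0)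
    (hm : AnalyticAt ℂ m (c0, 0)) (_hk : AnalyticAt ℂ k (c0, 0)) (hb : AnalyticAt ℂ bh (c0, 0))
    (h1 : ∀ᶠ p in 𝓝 ((c0, 0) : ℂ × ℂ), g (p.1 + p.2) = m p * (p.1 + p.2) + k p)
    (h2 : ∀ᶠ p in 𝓝 ((c0, 0) : ℂ × ℂ), g (p.1 - p.2) = m p * (p.1 - p.2) + k p)
    (h0 : ∀ᶠ c in 𝓝 c0, m (c, 0) = deriv g c)
    (hgh : AnalyticAt ℂ gh (bh (c0, 0)))
    (h3 : ∀ᶠ p in 𝓝 ((c0, 0) : ℂ × ℂ), gh (bh p) = m p * bh p + k p)
    (htr : deriv gh (bh (c0, 0)) ≠ m (c0, 0)) {I M : ℕ} {q : Fin I → Fin M → ℂ → ℂ}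
    (hq : ∀ i n, AnalyticAt ℂ (q i n) c0) (hq0 : ∃ i n, ¬ ∀ᶠ z in 𝓝 c0, q i n z = 0)
    (hrel : ∀ᶠ p in 𝓝 ((c0, 0) : ℂ × ℂ),
      ∑ i, ∑ n, q i n (p.1 + p.2) * m p ^ (n : ℕ) * bh p ^ (i : ℕ) = 0) :
    ∃ R : MvPolynomial (Fin 2) ℂ, R ≠ 0 ∧
      ∀ᶠ z in 𝓝 (bh (c0, 0)), MvPolynomial.eval ![z, gh z] R = 0 := by
  obtain ⟨i0, n0, hqn⟩ := hq0
  have hdir := dir_ne hg2 hm h1 h2 h0
  have tc : Tendsto (fun c : ℂ => ((c, 0) : ℂ × ℂ)) (𝓝 c0) (𝓝 (c0, 0)) := by
    have : Continuous (fun c : ℂ => ((c, 0) : ℂ × ℂ)) := by fun_prop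
    exact this.tendsto c0
  have hsum : AnalyticAt ℂ (fun p : ℂ × ℂ => p.1 + p.2) (c0, 0) := analyticAt_fst.add analyticAt_snd
  have hF : AnalyticAt ℂ (fun p : ℂ × ℂ => bh p - (p.1 + p.2)) (c0, 0) := hb.sub hsum
  have hQ : AnalyticAt ℂ (fun p : ℂ × ℂ => q i0 n0 (p.1 + p.2)) (c0, 0) := by
    have : AnalyticAt ℂ (q i0 n0) ((fun p : ℂ × ℂ => p.1 + p.2) (c0, 0)) := by
      simpa using hq i0 n0
    exact AnalyticAt.comp (g := q i0 n0) (f := fun p : ℂ × ℂ => p.1 + p.2) this hsum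
  have hF0 : ¬ ∀ᶠ p in 𝓝 ((c0, 0) : ℂ × ℂ), bh p - (p.1 + p.2) = 0 := by
    intro hz
    apply htr
    have hb0 : bh (c0, 0) = c0 := by
      have := hz.self_of_nhds
      simpa [sub_eq_zero] using this
    have hgg : gh =ᶠ[𝓝 c0] g := by
      filter_upwards [tc.eventually hz, tc.eventually h1, tc.eventually h3] with c a1 a2 a3
      have b1 : bh (c, 0) = c := by simpa [sub_eq_zero] using a1
      simp only [add_zero] at a2
      rw [b1] at a3
      rw [a3, a2]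
    rw [hb0, hgg.deriv_eq]
    exact h0.self_of_nhds.symm
  have hQ0 : ¬ ∀ᶠ p in 𝓝 ((c0, 0) : ℂ × ℂ), q i0 n0 (p.1 + p.2) = 0 := by
    intro hz
    apply hqn
    filter_upwards [tc.eventually hz] with c hc
    simpa using hc
  have hfreq := freq_mul hF hQ hF0 hQ0
  -- the ball where `gh` is analytic
  obtain ⟨r, hr, hghr⟩ := Metric.eventually_nhds_iff_ball.mp hgh.eventually_analyticAt
  have evb : ∀ᶠ p in 𝓝 ((c0, 0) : ℂ × ℂ), bh p ∈ Metric.ball (bh (c0, 0)) r :=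
    hb.continuousAt.eventually (Metric.ball_mem_nhds _ hr)
  have evd : ∀ᶠ p in 𝓝 ((c0, 0) : ℂ × ℂ), fderiv ℂ m p (1, -1) ≠ 0 := by
    have hc : ContinuousAt (fun p : ℂ × ℂ => fderiv ℂ m p (1, -1)) (c0, 0) :=
      hm.fderiv.continuousAt.clm_apply continuousAt_const
    exact hc.eventually_ne hdir
  obtain ⟨p, ⟨hFp, hQp⟩, hpm, hpb, hp1, hp3, hprel, hpball, hpd⟩ :=
    (hfreq.and_eventually (hm.eventually_analyticAt.and (hb.eventually_analyticAt.and
      ((eventually_eventually_nhds.mpr h1).and ((eventually_eventually_nhds.mpr h3).and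
        ((eventually_eventually_nhds.mpr hrel).and (evb.and evd))))))).exists
  set β : ℂ := p.1 + p.2 with hβ
  -- the pencil
  let γ : ℂ → ℂ × ℂ := fun s => (p.1 + s, p.2 - s)
  have hγ0 : γ 0 = p := by simp [γ]
  have hγd : HasDerivAt γ ((1, -1) : ℂ × ℂ) 0 := by
    have a1 : HasDerivAt (fun s : ℂ => p.1 + s) 1 0 := (hasDerivAt_id (0 : ℂ)).const_add p.1
    have a2 : HasDerivAt (fun s : ℂ => p.2 - s) (-1) 0 := (hasDerivAt_id (0 : ℂ)).const_sub p.2
    exact a1.prodMk a2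
  have hγt : Tendsto γ (𝓝 0) (𝓝 p) := by
    have := hγd.continuousAt
    rwa [ContinuousAt, hγ0] at this
  have hγa : AnalyticAt ℂ γ 0 := by
    apply AnalyticAt.prod
    · exact analyticAt_const.add analyticAt_id
    · exact analyticAt_const.sub analyticAt_id
  have hγs : ∀ s, (γ s).1 + (γ s).2 = β := by
    intro s; simp only [γ, hβ]; ring
  have hmd : HasDerivAt (fun s => m (γ s)) (fderiv ℂ m p (1, -1)) 0 := by
    have : HasFDerivAt m (fderiv ℂ m p) (γ 0) := by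
      rw [hγ0]; exact hpm.differentiableAt.hasFDerivAt
    exact this.comp_hasDerivAt 0 hγd
  have hBa : AnalyticAt ℂ (fun s => bh (γ s)) 0 := by
    have : AnalyticAt ℂ bh (γ 0) := by rw [hγ0]; exact hpb
    exact this.fun_comp hγa
  have hB0 : bh (γ 0) = bh p := by rw [hγ0]
  have hBd : HasDerivAt (fun s => bh (γ s)) (deriv (fun s => bh (γ s)) 0) 0 :=
    hBa.differentiableAt.hasDerivAt
  have hghd : HasDerivAt gh (deriv gh (bh (γ 0))) (bh (γ 0)) := by
    rw [hB0]; exact (hghr _ hpball).differentiableAt.hasDerivAt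
  have hEq : ∀ᶠ s in 𝓝 (0 : ℂ), gh (bh (γ s)) = g β + m (γ s) * (bh (γ s) - β) := by
    filter_upwards [hγt.eventually hp1, hγt.eventually hp3] with s a1 a3
    rw [hγs s] at a1
    rw [a3]
    linear_combination -a1
  have hdB : deriv (fun s => bh (γ s)) 0 ≠ 0 := by
    intro hz
    rw [hz] at hBd
    have l1 : HasDerivAt (fun s => gh (bh (γ s))) (deriv gh (bh (γ 0)) * 0) 0 :=
      HasDerivAt.comp (0 : ℂ) hghd hBd
    have l2 : HasDerivAt (fun s => g β + m (γ s) * (bh (γ s) - β))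
        (fderiv ℂ m p (1, -1) * (bh (γ 0) - β) + m (γ 0) * 0) 0 :=
      (hmd.mul (hBd.sub_const β)).const_add (g β)
    have l3 := (l2.congr_of_eventuallyEq hEq).unique l1
    rw [mul_zero, mul_zero, add_zero, hB0] at l3
    rcases mul_eq_zero.mp l3 with h | h
    · exact hpd h
    · exact hFp h
  have hstrict : HasStrictDerivAt (fun s => bh (γ s)) (deriv (fun s => bh (γ s)) 0) 0 :=
    hBa.hasStrictDerivAt
  have hmap : map (fun s => bh (γ s)) (𝓝 0) = 𝓝 (bh (γ 0)) := hstrict.map_nhds_eq hdB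
  -- the polynomial
  refine ⟨RR (fun i n => q i n β) β (g β), RR_ne _ _ _ (i0 := i0) (n0 := n0) hQp, ?_⟩
  have hnear : ∀ᶠ z in 𝓝 (bh p),
      MvPolynomial.eval ![z, gh z] (RR (fun i n => q i n β) β (g β)) = 0 := by
    rw [← hB0, ← hmap, eventually_map]
    filter_upwards [hEq, hγt.eventually hprel] with s a1 a2
    rw [a1, RR_line]
    rw [hγs s] at a2
    rw [a2, mul_zero]
  have hfa : AnalyticOnNhd ℂ
      (fun z => MvPolynomial.eval ![z, gh z] (RR (fun i n => q i n β) β (g β)))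
      (Metric.ball (bh (c0, 0)) r) := by
    intro z hz
    have hgz := hghr z hz
    have he : (fun z => MvPolynomial.eval ![z, gh z] (RR (fun i n => q i n β) β (g β))) =
        fun z => ∑ i, ∑ n, q i n β * (gh z - g β) ^ (n : ℕ) * (z - β) ^ (M - (n : ℕ)) *
          z ^ (i : ℕ) := by
      funext z; exact RR_eval _ _ _ _ _
    rw [he]
    refine Finset.analyticAt_fun_sum _ fun i _ => Finset.analyticAt_fun_sum _ fun n _ => ?_
    exact ((analyticAt_const.mul ((hgz.sub analyticAt_const).pow _)).mul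
      ((analyticAt_id.sub analyticAt_const).pow _)).mul (analyticAt_id.pow _)
  have hz := hfa.eqOn_zero_of_preconnected_of_eventuallyEq_zero
    (convex_ball _ _).isPreconnected hpball hnear
  filter_upwards [Metric.ball_mem_nhds _ hr] with z hz'
  exact hz hz'

end Crest.Agent.R102.CTEnd289
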