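import Crest.Agent.R102.F7_389
import Crest.Agent.R102.F1d_201

/-!
# Row 102, [H3], THEOREM (RAT): literal interfaces RUN / PENCIL / CT (helper926)
-/

set_option autoImplicit false

open Set Filter Topology Metric TopologicalSpace

noncomputable section

namespace Crest.Agent.R102.RAT

open Crest.Agent.R102.H3

/-- finite differential type: `A ⊆ Hol (ball c₀ r)` is a finitely generated differential algebra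
containing the coordinate, `G = g`, `1 / g'`, `1 / g''` -/
structure FT (g : ℂ → ℂ) (c₀ : ℂ) (r : ℝ) (A : Subalgebra ℂ (Hol (bO c₀ r)))
    (G : Hol (bO c₀ r)) : Prop where
  r_pos : 0 < r
  G_eq : ∀ z : bO c₀ r, (G : bO c₀ r → ℂ) z = g z
  fg : A.FG
  stable : ∀ f ∈ A, DH _ f ∈ A
  z_mem : zH _ ∈ A
  G_mem : G ∈ A
  inv₁ : ∃ f ∈ A, f * DH _ G = 1
  inv₂ : ∃ f ∈ A, f * DH _ (DH _ G) = 1

/-- the far mirror `gh`, on `ball y r'`, satisfies the same differential relations as `g` -/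
structure Far {c₀ : ℂ} {r : ℝ} (A : Subalgebra ℂ (Hol (bO c₀ r))) (G : Hol (bO c₀ r)) (y : ℂ)
    (r' : ℝ) (ι : A →ₐ[ℂ] Hol (bO y r')) (gh : ℂ → ℂ) : Prop where
  r'_pos : 0 < r'
  inj : Function.Injective ι
  z_eq : ∀ h : zH _ ∈ A, ι ⟨zH _, h⟩ = zH _
  G_eq : ∀ (h : G ∈ A) (z : bO y r'), (ι ⟨G, h⟩ : bO y r' → ℂ) z = gh z
  d_eq : ∀ f f' : A, (f' : Hol (bO c₀ r)) = DH _ (f : Hol (bO c₀ r)) → DH _ (ι f) = ι f'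

/-- the observables of a chain: `m₀, k₀` and `a (b_j)`, `a ∈ A`, `j < N` -/
def obs {c₀ : ℂ} {r : ℝ} (A : Subalgebra ℂ (Hol (bO c₀ r))) (N : ℕ) (β m k : ℕ → ℂ × ℂ → ℂ)
    (x : ℂ × ℂ) : Fin 2 ⊕ (Fin N × A) → ℂ :=
  Sum.elim ![m 0 x, k 0 x]
    (fun ja => ext0 ((ja.2 : Hol (bO c₀ r)) : bO c₀ r → ℂ) (x.1 + x.2 * β ja.1 x))

/-- `u` is algebraic over `ℂ(m₀, k₀, a (b_j))` near `p` -/
def Rel {c₀ : ℂ} {r : ℝ} (A : Subalgebra ℂ (Hol (bO c₀ r))) (N : ℕ) (β m k : ℕ → ℂ × ℂ → ℂ)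
    (p : ℂ × ℂ) (u : ℂ × ℂ → ℂ) : Prop :=
  ∃ P : Polynomial (MvPolynomial (Fin 2 ⊕ (Fin N × A)) ℂ),
    (∀ᶠ x in 𝓝 p, P.eval₂ (MvPolynomial.eval (obs A N β m k x)) (u x) = 0) ∧
    ∃ i, ¬ ∀ᶠ x in 𝓝 p, MvPolynomial.eval (obs A N β m k x) (P.coeff i) = 0

/-- **output of RUN** (58) for the chain with `N` vertices (in its own chord coordinates) -/
def RunOut (g : ℂ → ℂ) (c₀ : ℂ) {r : ℝ} (A : Subalgebra ℂ (Hol (bO c₀ r))) (G : Hol (bO c₀ r))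
    (N : ℕ) (ρ : ℝ) (β m k : ℕ → ℂ × ℂ → ℂ) (δ ρ' : ℝ) : Prop :=
  ∃ p ∈ ball c₀ δ ×ˢ ball (0 : ℂ) δ, p.2 ≠ 0 ∧
    ∃ (y : ℂ) (r' : ℝ) (ι : A →ₐ[ℂ] Hol (bO y r')) (gh : ℂ → ℂ), Far A G y r' ι gh ∧
    ∃ u : ℂ × ℂ → ℂ, AnalyticAt ℂ u p ∧ u p = y ∧
      (∀ᶠ x in 𝓝 p, gh (u x) = m 0 x * u x + k 0 x) ∧ deriv gh y ≠ m 0 p ∧
      (y ∈ ball c₀ ρ → g y ≠ gh y) ∧
      (∀ t ∈ closedBall c₀ ρ', deriv g t = deriv gh y → g t + deriv g t * (y - t) ≠ gh y) ∧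
      Rel A N β m k p u

/-- **CT** (575): collapse theorem at the grazing point `t` -/
def CTStmt : Prop :=
  ∀ (g : ℂ → ℂ) (c₀ : ℂ) (r : ℝ) (A : Subalgebra ℂ (Hol (bO c₀ r))) (G : Hol (bO c₀ r)),
    FT g c₀ r A G → ∀ (t : ℂ) (N : ℕ) (ρ : ℝ) (β m k q q' : ℕ → ℂ × ℂ → ℂ), 0 < N →
    F7389.Chain g t N ρ β m k q q' →
    (∀ x ∈ ball t ρ ×ˢ ball (0 : ℂ) ρ, x.1 - x.2 ∈ ball c₀ r ∧
      ∀ j ≤ N, x.1 + x.2 * β j x ∈ ball c₀ r) →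
    ∀ (y : ℂ) (r' : ℝ) (ι : A →ₐ[ℂ] Hol (bO y r')) (gh : ℂ → ℂ), Far A G y r' ι gh → y ≠ t →
    gh y = g t + deriv g t * (y - t) → deriv gh y ≠ deriv g t →
    ∀ u : ℂ × ℂ → ℂ, AnalyticAt ℂ u (t, 0) → u (t, 0) = y →
    (∀ᶠ x in 𝓝 ((t, 0) : ℂ × ℂ), gh (u x) = m 0 x * u x + k 0 x) →
    Rel A N β m k (t, 0) u →
    ∃ P : MvPolynomial (Fin 2) ℂ, P ≠ 0 ∧ ∀ᶠ z in 𝓝 t, MvPolynomial.eval ![z, g z] P = 0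

end Crest.Agent.R102.RAT
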