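import Crest.Agent.R102.TransB_575

/-!
# Row 102, [H3], (CT): leaves TAYEND and EVEN (helper201)
-/

set_option autoImplicit false
set_option linter.unusedSectionVars false

namespace Crest.Agent.R102.TayEnd201

open H3 Glue798 PowerSeries Finset Set Topology TopologicalSpace Metric Filter CT575

noncomputable section

variable {t : ℂ} {ρ ρ' : ℝ}

theorem UU_le (h : ρ' ≤ ρ) : UU t ρ' ≤ UU t ρ :=
  prod_mono (ball_subset_ball h) (ball_subset_ball h)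

theorem bO_le (h : ρ' ≤ ρ) : bO t ρ' ≤ bO t ρ := ball_subset_ball h

/-- restriction of functions of one variable -/
def rD (t : ℂ) (h : ρ' ≤ ρ) : Hol (bO t ρ) →ₐ[ℂ] Hol (bO t ρ') := Hol.res (bO_le h)

/-- restriction of functions of two variables -/
def rU (t : ℂ) (h : ρ' ≤ ρ) : Hol (UU t ρ) →ₐ[ℂ] Hol (UU t ρ') := Hol.res (UU_le h)

/-- the Taylor expansion commutes with restriction -/
theorem TO_res (hρ : 0 < ρ) (hρ' : 0 < ρ') (h : ρ' ≤ ρ) (F : Hol (UU t ρ)) :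
    TO (UU_h0 hρ') (rU t h F) =
      PowerSeries.map (rD t h : Hol (bO t ρ) →+* Hol (bO t ρ')) (TO (UU_h0 hρ) F) := by
  refine PowerSeries.ext fun n => ?_
  ext c
  rw [coeff_map]
  change _ = (Hol.res (bO_le h) (coeff n (TO (UU_h0 hρ) F)) : bO t ρ' → ℂ) c
  rw [Hol.res_apply, coeff_TO, coeff_TO]
  congr 1
  apply Filter.EventuallyEq.iteratedDeriv_eq
  have h1 : ∀ᶠ w in 𝓝 (0 : ℂ), w ∈ ball (0 : ℂ) ρ' := ball_mem_nhds 0 hρ'
  filter_upwards [h1] with w hw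
  have h2 : ((c : ℂ), w) ∈ UU t ρ' := ⟨c.2, hw⟩
  change ext0 (Hol.res (UU_le h) F : UU t ρ' → ℂ) ((c : ℂ), w) = ext0 (F : UU t ρ → ℂ) ((c : ℂ), w)
  rw [ext0_of_mem _ h2, ext0_of_mem _ (UU_le h h2), Hol.res_apply]

theorem Ty_res (h : ρ' ≤ ρ) (a : Hol (bO t ρ)) :
    Ty (DH (bO t ρ')) (rD t h a) =
      PowerSeries.map (rD t h : Hol (bO t ρ) →+* Hol (bO t ρ')) (Ty (DH (bO t ρ)) a) := by
  refine PowerSeries.ext fun n => ?_
  rw [coeff_map, coeff_Ty, coeff_Ty]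
  have h1 : ∀ n (a : Hol (bO t ρ)), (DH (bO t ρ'))^[n] (rD t h a) =
      rD t h ((DH (bO t ρ))^[n] a) := by
    intro n
    induction n with
    | zero => intro a; rfl
    | succ n ih =>
      intro a
      rw [Function.iterate_succ_apply, Function.iterate_succ_apply]
      have := DH_res (bO_le (t := t) h) a
      change DH (bO t ρ') (rD t h a) = rD t h (DH (bO t ρ) a) at this
      rw [this, ih]
  rw [dn, dn, h1]
  exact (map_smul (rD t h) _ _).symm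

/-- the function `c + ω` -/
def sH (t : ℂ) (ρ' : ℝ) : Hol (UU t ρ') := hU t ρ' (fun p => p.1 + p.2)

theorem an_s (s : Set (ℂ × ℂ)) : AnalyticOnNhd ℂ (fun p : ℂ × ℂ => p.1 + p.2) s :=
  fun _ _ => analyticAt_fst.add analyticAt_snd

theorem sH_apply (p : UU t ρ') : (sH t ρ' : UU t ρ' → ℂ) p = (p : ℂ × ℂ).1 + (p : ℂ × ℂ).2 :=
  toH_apply (an_s _) p

theorem sH_mem (p : UU t (ρ / 2)) : (sH t (ρ / 2) : UU t (ρ / 2) → ℂ) p ∈ bO t ρ := by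
  rw [sH_apply]
  have h1 : dist (p : ℂ × ℂ).1 t < ρ / 2 := p.2.1
  have h2 : dist (p : ℂ × ℂ).2 0 < ρ / 2 := p.2.2
  rw [dist_eq_norm] at h1 h2
  rw [sub_zero] at h2
  change dist ((p : ℂ × ℂ).1 + (p : ℂ × ℂ).2) t < ρ
  rw [dist_eq_norm]
  calc ‖(p : ℂ × ℂ).1 + (p : ℂ × ℂ).2 - t‖ = ‖((p : ℂ × ℂ).1 - t) + (p : ℂ × ℂ).2‖ := by ring_nf
    _ ≤ _ := norm_add_le _ _
    _ < ρ := by linarith

/-- `a ↦ a (c + ω)` -/
def SS (t : ℂ) (ρ : ℝ) : Hol (bO t ρ) →ₐ[ℂ] Hol (UU t (ρ / 2)) := compH (sH t (ρ / 2)) sH_mem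

theorem TO_sH (hρ' : 0 < ρ') : TO (UU_h0 hρ') (sH t ρ') = C (zH (bO t ρ')) + X := by
  have e1 : sH t ρ' = hU t ρ' (fun p => p.1) + omH t ρ' := by
    ext p
    rw [sH_apply]
    change _ = (hU t ρ' (fun p => p.1) : UU t ρ' → ℂ) p + (omH t ρ' : UU t ρ' → ℂ) p
    rw [toH_apply analyticOnNhd_fst, toH_apply analyticOnNhd_snd]
  have e2 : hU t ρ' (fun p => p.1) =
      Hol.pull Prod.fst analyticOnNhd_fst UU_h1 (zH (bO t ρ')) := by
    ext x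
    rw [hU, toH_apply analyticOnNhd_fst, Hol.pull_apply]
    rfl
  rw [e1, map_add, e2, TO_fst]
  congr 1
  rw [omH, hU, toH_eq analyticOnNhd_snd]
  exact TO_om _ analyticOnNhd_snd

theorem pt_X {H : Type*} [CommRing H] [Algebra ℂ H] (d : Derivation ℂ H H) {y : H⟦X⟧}
    (hy : X ∣ y) (he : y = X) : pt d C y hy = Ty d := by
  subst he
  refine RingHom.ext fun f => ?_
  rw [pt_apply]
  have h3 := evS_unique (RingHom.id H⟦X⟧) (C : H →+* _) (y := X) hy (fun a => rfl) rfl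
  rw [← h3]
  rfl

theorem TO_SS (hρ : 0 < ρ) (a : Hol (bO t ρ)) :
    TO (UU_h0 (half_pos hρ)) (SS t ρ a) =
      Ty (DH (bO t (ρ / 2))) (rD t (half_le_self hρ.le) a) := by
  have h1 := TO_sH (t := t) (half_pos hρ)
  have he0 : TO (UU_h0 (half_pos hρ)) (sH t (ρ / 2)) - C (zH (bO t (ρ / 2))) = X := by
    rw [h1]; ring
  have he : (X : (Hol (bO t (ρ / 2)))⟦X⟧) ∣ TO (UU_h0 (half_pos hρ)) (sH t (ρ / 2)) -
      C (zH (bO t (ρ / 2))) := ⟨1, by rw [he0, mul_one]⟩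
  have key := TO_compH (bO_le (t := t) (half_le_self hρ.le)) (UU_h0 (half_pos hρ)) UU_h1
    (sH t (ρ / 2)) sH_mem (fun c hc => by rw [sH_apply]; simp) he a
  have h2 := pt_X (DH (bO t (ρ / 2))) he he0
  refine key.trans ?_
  exact congrArg (fun Φ : Hol (bO t (ρ / 2)) →+* (Hol (bO t (ρ / 2)))⟦X⟧ =>
    Φ (rD t (half_le_self hρ.le) a)) h2

/-- **TAYEND** -/
theorem tayend (hρ : 0 < ρ) (f h : Hol (UU t ρ)) (q : Polynomial (Polynomial (Hol (bO t ρ))))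
    (hq : q.eval₂ (Polynomial.eval₂RingHom (Ty (DH (bO t ρ))) (TO (UU_h0 hρ) f))
      (TO (UU_h0 hρ) h) = 0) :
    ∀ᶠ p in 𝓝 ((t, 0) : ℂ × ℂ), ∑ i ∈ range (q.natDegree + 1),
      ∑ n ∈ range ((q.coeff i).natDegree + 1),
        ext0 (((q.coeff i).coeff n : Hol (bO t ρ)) : bO t ρ → ℂ) (p.1 + p.2) *
          ext0 (f : UU t ρ → ℂ) p ^ n * ext0 (h : UU t ρ → ℂ) p ^ i = 0 := by
  have hρ' := half_pos hρ
  have hle : ρ / 2 ≤ ρ := half_le_self hρ.le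
  -- the element of `Hol U'`
  set Q : Hol (UU t (ρ / 2)) := ∑ i ∈ range (q.natDegree + 1),
      ∑ n ∈ range ((q.coeff i).natDegree + 1),
        SS t ρ ((q.coeff i).coeff n) * (rU t hle f) ^ n * (rU t hle h) ^ i with hQ
  have hQ0 : Q = 0 := by
    apply TO_injective (c₀ := t) hρ'
    rw [map_zero, hQ, map_sum]
    have h1 := congrArg (PowerSeries.map (rD t hle : Hol (bO t ρ) →+* Hol (bO t (ρ / 2)))) hq
    rw [map_zero, Polynomial.eval₂_eq_sum_range, map_sum] at h1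
    rw [← h1]
    refine Finset.sum_congr rfl fun i _ => ?_
    rw [map_sum, Polynomial.coe_eval₂RingHom, Polynomial.eval₂_eq_sum_range, Finset.sum_mul,
      map_sum]
    refine Finset.sum_congr rfl fun n _ => ?_
    rw [map_mul, map_mul, map_mul, map_mul, map_pow, map_pow, map_pow, map_pow, TO_SS hρ,
      TO_res hρ hρ' hle, TO_res hρ hρ' hle, Ty_res]
  have hnh : (UU t (ρ / 2) : Set (ℂ × ℂ)) ∈ 𝓝 ((t, 0) : ℂ × ℂ) :=
    (UU t (ρ / 2)).isOpen.mem_nhds ⟨mem_ball_self hρ', mem_ball_self hρ'⟩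
  filter_upwards [hnh] with p hp
  have h2 := congrArg (evH (⟨p, hp⟩ : UU t (ρ / 2))) hQ0
  rw [map_zero, hQ, map_sum] at h2
  rw [← h2]
  refine Finset.sum_congr rfl fun i _ => ?_
  rw [map_sum]
  refine Finset.sum_congr rfl fun n _ => ?_
  rw [map_mul, map_mul, map_pow, map_pow]
  have e1 : ∀ F : Hol (UU t ρ), evH (⟨p, hp⟩ : UU t (ρ / 2)) (rU t hle F) =
      ext0 (F : UU t ρ → ℂ) p := by
    intro F
    change (Hol.res (UU_le hle) F : UU t (ρ / 2) → ℂ) ⟨p, hp⟩ = _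
    rw [Hol.res_apply, ext0_of_mem _ (UU_le hle hp)]
  have e2 : ∀ a : Hol (bO t ρ), evH (⟨p, hp⟩ : UU t (ρ / 2)) (SS t ρ a) =
      ext0 (a : bO t ρ → ℂ) (p.1 + p.2) := by
    intro a
    rw [evH_apply, SS, compH_apply]
    have h3 := sH_mem (t := t) (ρ := ρ) ⟨p, hp⟩
    rw [sH_apply] at h3
    rw [ext0_of_mem _ h3]
    refine congrArg (a : bO t ρ → ℂ) (Subtype.ext ?_)
    exact sH_apply _
  rw [e1, e1, e2]

/-- **EVEN** -/
theorem even_of (hρ : 0 < ρ) (u m k : Hol (UU t ρ)) (gh : ℂ → ℂ)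
    (hgh : AnalyticAt ℂ gh ((u : UU t ρ → ℂ) ⟨(t, 0), UU_h0 hρ t (mem_ball_self hρ)⟩))
    (hm : fl t ρ m = m) (hk : fl t ρ k = k)
    (hinc : ∀ᶠ p in 𝓝 ((t, 0) : ℂ × ℂ), gh (ext0 (u : UU t ρ → ℂ) p) =
      ext0 (m : UU t ρ → ℂ) p * ext0 (u : UU t ρ → ℂ) p + ext0 (k : UU t ρ → ℂ) p)
    (htr : deriv gh (ext0 (u : UU t ρ → ℂ) (t, 0)) ≠ ext0 (m : UU t ρ → ℂ) (t, 0)) :
    fl t ρ u = u := by
  have hc : ((t, 0) : ℂ × ℂ) ∈ UU t ρ := UU_h0 hρ t (mem_ball_self hρ)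
  rw [← ext0_of_mem (u : UU t ρ → ℂ) hc] at hgh
  set y := ext0 (u : UU t ρ → ℂ) (t, 0) with hy
  -- the flip
  have hflip : Tendsto (fun p : ℂ × ℂ => ((p.1, -p.2) : ℂ × ℂ)) (𝓝 (t, 0)) (𝓝 (t, 0)) := by
    have : Continuous (fun p : ℂ × ℂ => ((p.1, -p.2) : ℂ × ℂ)) := by fun_prop
    simpa using this.tendsto ((t, 0) : ℂ × ℂ)
  have hfl : ∀ F : Hol (UU t ρ), fl t ρ F = F → ∀ p ∈ UU t ρ,
      ext0 (F : UU t ρ → ℂ) (p.1, -p.2) = ext0 (F : UU t ρ → ℂ) p := by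
    intro F hF p hp
    have h1 := congrArg (fun G : Hol (UU t ρ) => (G : UU t ρ → ℂ) ⟨p, hp⟩) hF
    simp only [HolXY289.flip_apply] at h1
    rw [ext0_of_mem _ (UU_flip p hp), ext0_of_mem _ hp]
    exact h1
  have hcu : ContinuousAt (ext0 (u : UU t ρ → ℂ)) (t, 0) := (Hol.an u _ hc).continuousAt
  have hcm : ContinuousAt (ext0 (m : UU t ρ → ℂ)) (t, 0) := (Hol.an m _ hc).continuousAt
  -- strict differentiability
  have hs := hgh.hasStrictDerivAt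
  have hd : (0 : ℝ) < ‖ext0 (m : UU t ρ → ℂ) (t, 0) - deriv gh y‖ / 2 := by
    have : 0 < ‖ext0 (m : UU t ρ → ℂ) (t, 0) - deriv gh y‖ :=
      norm_pos_iff.2 (sub_ne_zero.2 (Ne.symm htr))
    linarith
  set d := ‖ext0 (m : UU t ρ → ℂ) (t, 0) - deriv gh y‖ / 2 with hdd
  have h1 : ∀ᶠ z in 𝓝 ((y, y) : ℂ × ℂ), ‖gh z.1 - gh z.2 - (z.1 - z.2) • deriv gh y‖ ≤
      d * ‖z.1 - z.2‖ := by
    have := hs.hasStrictFDerivAt.isLittleO.def hd
    simpa using this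
  have h2 : Tendsto (fun p : ℂ × ℂ => ((ext0 (u : UU t ρ → ℂ) p,
      ext0 (u : UU t ρ → ℂ) (p.1, -p.2)) : ℂ × ℂ)) (𝓝 (t, 0)) (𝓝 (y, y)) :=
    hcu.tendsto.prodMk_nhds (hcu.tendsto.comp hflip)
  have h3 := h2.eventually h1
  have h4 : ∀ᶠ p in 𝓝 ((t, 0) : ℂ × ℂ), d < ‖ext0 (m : UU t ρ → ℂ) p - deriv gh y‖ := by
    have h5 : ContinuousAt (fun p => ‖ext0 (m : UU t ρ → ℂ) p - deriv gh y‖) (t, 0) :=
      (hcm.sub continuousAt_const).norm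
    refine h5.eventually (lt_mem_nhds ?_)
    rw [hdd]
    linarith
  have h6 : ∀ᶠ p in 𝓝 ((t, 0) : ℂ × ℂ), p ∈ UU t ρ := (UU t ρ).isOpen.mem_nhds hc
  have hloc : ∀ᶠ p in 𝓝 ((t, 0) : ℂ × ℂ),
      ext0 (u : UU t ρ → ℂ) (p.1, -p.2) = ext0 (u : UU t ρ → ℂ) p := by
    filter_upwards [h3, h4, h6, hinc, hflip.eventually hinc] with p a1 a2 a3 a4 a5
    rw [hfl m hm p a3, hfl k hk p a3] at a5
    set A := ext0 (u : UU t ρ → ℂ) p
    set B := ext0 (u : UU t ρ → ℂ) (p.1, -p.2)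
    have a6 : gh A - gh B - (A - B) • deriv gh y =
        (ext0 (m : UU t ρ → ℂ) p - deriv gh y) * (A - B) := by
      rw [a4, a5, smul_eq_mul]; ring
    rw [a6, norm_mul] at a1
    by_contra hne
    have a7 : 0 < ‖A - B‖ := norm_pos_iff.2 (sub_ne_zero.2 (Ne.symm hne))
    have a8 := le_of_mul_le_mul_right a1 a7
    linarith
  -- identity theorem
  have hz : fl t ρ u - u = 0 := by
    refine Hol.eq_zero_of_eventually (UU_preconnected t ρ) _ (x := ⟨(t, 0), hc⟩) ?_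
    filter_upwards [hloc, h6] with p a1 a3
    rw [ext0_of_mem _ a3]
    change (fl t ρ u : UU t ρ → ℂ) ⟨p, a3⟩ - (u : UU t ρ → ℂ) ⟨p, a3⟩ = 0
    rw [HolXY289.flip_apply, sub_eq_zero]
    rw [ext0_of_mem _ (UU_flip p a3), ext0_of_mem _ a3] at a1
    exact a1
  exact sub_eq_zero.1 hz

end

end Crest.Agent.R102.TayEnd201
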