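import Crest.Agent.R102.Chain_864

/-!
Row 102, T1-B / EDGE (helper864): generic Harnack chains in the tilted sawtooth `S5.Saw`.

* `Step W K0 Λ`   : one step property of a functional `Λ` (Schottky height `HE F`, Harnack, ...).
* `sawChainGen`   : `Λ q ≤ C (r / D)^S Λ (ray e (K r))` AND the reverse, `C, S, K` chosen before `lam`.
* `step_HE`, `step_im` (Harnack for `Im g`, `g` holomorphic with positive imaginary part).
* `label_depth`   : `h - |Im B q| ≥ (D / r)^S / C * (h - |Im B (ray e (K r))|)`.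
-/

set_option autoImplicit false

open Set Filter Metric Complex Topology

namespace Crest.Agent.R102.Chain864

open Crest.Agent.R102.G864 Crest.Agent.R102.F300 Crest.Agent.R102.S5

/-- one step property -/
def Step {E : Type*} [NormedAddCommGroup E] (W : Set E) (K0 : ℝ) (Λ : E → ℝ) : Prop :=
  ∀ (w w' : E) (r : ℝ), 0 < r → ball w r ⊆ W → ‖w' - w‖ ≤ r / 2 → Λ w' ≤ K0 * Λ w

theorem step_HE {E : Type*} [NormedAddCommGroup E] [NormedSpace ℂ E] {W : Set E} {F : E → ℂ}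
    (h : OmE W F) : Step W K1 (HE F) := fun _ _ _ hr hb hw => HE_step h hr hb hw

/-- Harnack -/
theorem step_im {E : Type*} [NormedAddCommGroup E] [NormedSpace ℂ E] {W : Set E} {g : E → ℂ}
    (hg : DifferentiableOn ℂ g W) (hpos : ∀ q ∈ W, 0 < (g q).im) :
    Step W 3 (fun q => (g q).im) := by
  intro w w' r hr hb hw
  have hw0 : w ∈ W := hb (mem_ball_self hr)
  have hw' : w' ∈ ball w r := by
    rw [mem_ball, dist_eq_norm]; linarith
  obtain ⟨a, ha⟩ : ∃ a : ℂ, a = g w := ⟨_, rfl⟩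
  have ha0 : 0 < a.im := by rw [ha]; exact hpos w hw0
  have hne : ∀ q ∈ W, g q - (starRingEnd ℂ) a ≠ 0 := by
    intro q hq h0
    have h1 := congrArg Complex.im h0
    simp only [sub_im, conj_im, zero_im] at h1
    have := hpos q hq
    linarith
  obtain ⟨f, hf⟩ : ∃ f : E → ℂ, f = fun q => (g q - a) / (g q - (starRingEnd ℂ) a) := ⟨_, rfl⟩
  have hfd : DifferentiableOn ℂ f (ball w r) := by
    have e : f = fun q => (g q - a) * (g q - (starRingEnd ℂ) a)⁻¹ := by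
      rw [hf]; funext q; rw [div_eq_mul_inv]
    rw [e]
    exact ((hg.mono hb).sub_const _).mul
      (((hg.mono hb).sub_const _).inv (fun q hq => hne q (hb hq)))
  have hfw : f w = 0 := by rw [hf]; simp [ha]
  have hfle : ∀ q ∈ ball w r, ‖f q‖ ≤ 1 := by
    intro q hq
    have hp := hpos q (hb hq)
    rw [hf]
    simp only
    rw [norm_div, div_le_one (norm_pos_iff.2 (hne q (hb hq)))]
    rw [← sq_le_sq₀ (norm_nonneg _) (norm_nonneg _), Complex.sq_norm, Complex.sq_norm,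
      normSq_apply, normSq_apply]
    simp only [sub_re, sub_im, conj_re, conj_im]
    nlinarith [mul_pos hp ha0]
  have hmaps : MapsTo f (ball w r) (closedBall (f w) 1) := by
    intro q hq
    rw [hfw, mem_closedBall, dist_zero_right]
    exact hfle q hq
  have h1 := dist_le_div_mul_dist_of_mapsTo_ball hfd hmaps hw'
  rw [hfw, dist_zero_right, dist_eq_norm] at h1
  have h2 : ‖f w'‖ ≤ 1 / 2 := by
    refine h1.trans ?_
    calc 1 / r * ‖w' - w‖ ≤ 1 / r * (r / 2) := mul_le_mul_of_nonneg_left hw (by positivity)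
      _ = 1 / 2 := by field_simp
  -- read off
  have hp := hpos w' (hb hw')
  have h3 : ‖g w' - a‖ ≤ 1 / 2 * ‖g w' - (starRingEnd ℂ) a‖ := by
    rw [hf] at h2
    simp only at h2
    rw [norm_div, div_le_iff₀ (norm_pos_iff.2 (hne w' (hb hw')))] at h2
    exact h2
  have h4 : ‖g w' - a‖ ^ 2 ≤ 1 / 4 * ‖g w' - (starRingEnd ℂ) a‖ ^ 2 := by
    have := mul_self_le_mul_self (norm_nonneg _) h3
    nlinarith
  rw [Complex.sq_norm, Complex.sq_norm, normSq_apply, normSq_apply] at h4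
  simp only [sub_re, sub_im, conj_re, conj_im] at h4
  simp only
  rw [← ha]
  -- (y - a)^2 * 3/4 part: 3 x^2 + 4 (y - a)^2 ≤ (y + a)^2
  have h5 : 4 * ((g w').im - a.im) ^ 2 ≤ ((g w').im + a.im) ^ 2 := by
    nlinarith [sq_nonneg ((g w').re - a.re)]
  by_contra hcon
  push Not at hcon
  nlinarith

/-- balls along the tilted ray issued from `q` -/
theorem ball_sh {lam μ : ℝ} (hlam : 0 ≤ lam) (hlam1 : lam ≤ 1 / 8) (hμ : 0 < μ) (hμ1 : μ ≤ 1 / 8)
    {P : Set (ℝ × ℝ)} {d : ℝ} {e : ℝ × ℝ} (he : e ∈ P)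
    {q : ℂ × ℂ} {D : ℝ} (hD : D = -q.1.im) (hD0 : 0 < D) (h1 : (lam + μ) * D ≤ q.2.im)
    (h2 : lam * X q e ≤ (1 - μ) * D) {T τ : ℝ} (h3 : (1 + μ / 2) * (D + T) ≤ d) (h0 : 0 ≤ τ)
    (hτ : τ ≤ T) : ball (sh q τ) (μ / 2 * (D + τ)) ⊆ Saw P lam d := by
  have hX := X_sh q e h0
  refine ball_sub_Saw hlam he ?_ ?_ ?_ ?_
  · rw [sh_im]; nlinarith
  · rw [sh_im]
    have : (1 + μ / 2) * (D + τ) ≤ (1 + μ / 2) * (D + T) :=
      mul_le_mul_of_nonneg_left (by linarith) (by linarith)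
    nlinarith
  · rw [sh_im, sh_im2, ← sub_nonneg]
    have h5 : -(q.1.im - τ) = D + τ := by linarith
    rw [h5]
    have h6 : 0 ≤ (1 / 4 - lam - μ) * τ := mul_nonneg (by linarith) (by linarith)
    have h7 : (1 + lam) * (μ / 2 * (D + τ)) ≤ μ * (D + τ) := by
      have : 0 ≤ μ * (D + τ) := by positivity
      nlinarith
    nlinarith
  · rw [sh_im, ← sub_nonneg]
    have h5 : -(q.1.im - τ) = D + τ := by linarith
    rw [h5]
    have h6 : lam * X (sh q τ) e ≤ (1 - μ) * D + lam * (τ / 4) := by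
      have := mul_le_mul_of_nonneg_left hX hlam
      linarith
    have h7 : (1 + 2 * lam) * (μ / 2 * (D + τ)) ≤ μ * (D + τ) := by
      have : 0 ≤ μ * (D + τ) := by positivity
      nlinarith
    have h8 : 0 ≤ (1 - lam / 4 - μ) * τ := mul_nonneg (by linarith) (by linarith)
    nlinarith

/-- iteration of a two sided one step estimate along `D + τ` -/
theorem iter_gen {K0 μ D T : ℝ} (hK : 1 ≤ K0) (hμ : 0 < μ) (hD0 : 0 < D) (hT : 0 ≤ T)
    {Φ : ℝ → ℝ} (hΦ : ∀ τ, 0 ≤ τ → τ ≤ T → 0 ≤ Φ τ)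
    (hstep : ∀ τ τ' : ℝ, 0 ≤ τ → τ ≤ τ' → D + τ' ≤ (1 + μ / 4) * (D + τ) → τ' ≤ T →
      Φ τ ≤ K0 * Φ τ' ∧ Φ τ' ≤ K0 * Φ τ) :
    Φ 0 ≤ K0 * ((D + T) / D) ^ (Real.log K0 / Real.log (1 + μ / 4)) * Φ T ∧
    Φ T ≤ K0 * ((D + T) / D) ^ (Real.log K0 / Real.log (1 + μ / 4)) * Φ 0 := by
  have hKp : 0 < K0 := by linarith
  have hL : 0 < Real.log (1 + μ / 4) := Real.log_pos (by linarith)
  have hβ0 : 0 < 1 + μ / 4 := by linarith
  have hiter : ∀ (N : ℕ) (τ τ' : ℝ), 0 ≤ τ → τ ≤ τ' → D + τ' ≤ (1 + μ / 4) ^ N * (D + τ) → τ' ≤ T →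
      Φ τ ≤ K0 ^ N * Φ τ' ∧ Φ τ' ≤ K0 ^ N * Φ τ := by
    intro N
    induction N with
    | zero =>
      intro a b hb hba hab ha
      have : a = b := le_antisymm hba (by simpa using hab)
      rw [this]; simp
    | succ N ih =>
      intro a b ha hab hb hbT
      by_cases hc : D + b ≤ (1 + μ / 4) * (D + a)
      · have h1 := hstep a b ha hab hc hbT
        have h4 : K0 ≤ K0 ^ (N + 1) := by
          calc K0 = K0 ^ 1 := (pow_one _).symm
            _ ≤ K0 ^ (N + 1) := pow_le_pow_right₀ hK (by omega)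
        exact ⟨h1.1.trans (mul_le_mul_of_nonneg_right h4 (hΦ b (ha.trans hab) hbT)),
          h1.2.trans (mul_le_mul_of_nonneg_right h4 (hΦ a ha (hab.trans hbT)))⟩
      · push Not at hc
        have hm : D + ((1 + μ / 4) * (D + a) - D) = (1 + μ / 4) * (D + a) := by ring
        have hma : a ≤ (1 + μ / 4) * (D + a) - D := by
          have : 0 ≤ μ / 4 * (D + a) := by positivity
          linarith
        have h1 := hstep a ((1 + μ / 4) * (D + a) - D) ha hma hm.le (by linarith)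
        have h2 := ih ((1 + μ / 4) * (D + a) - D) b (ha.trans hma) (by linarith)
          (by rw [hm]; rw [pow_succ] at hb; nlinarith) hbT
        constructor
        · calc Φ a ≤ K0 * Φ ((1 + μ / 4) * (D + a) - D) := h1.1
            _ ≤ K0 * (K0 ^ N * Φ b) := mul_le_mul_of_nonneg_left h2.1 hKp.le
            _ = K0 ^ (N + 1) * Φ b := by ring
        · calc Φ b ≤ K0 ^ N * Φ ((1 + μ / 4) * (D + a) - D) := h2.2
            _ ≤ K0 ^ N * (K0 * Φ a) := mul_le_mul_of_nonneg_left h1.2 (by positivity)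
            _ = K0 ^ (N + 1) * Φ a := by ring
  have hrd : 1 ≤ (D + T) / D := by rw [le_div_iff₀ hD0]; linarith
  have hrdp : 0 < (D + T) / D := by linarith
  set N : ℕ := ⌈Real.log ((D + T) / D) / Real.log (1 + μ / 4)⌉₊ with hN
  have hlog0 : 0 ≤ Real.log ((D + T) / D) / Real.log (1 + μ / 4) :=
    div_nonneg (Real.log_nonneg hrd) hL.le
  have hN1 : Real.log ((D + T) / D) / Real.log (1 + μ / 4) ≤ N := Nat.le_ceil _
  have hN2 : (N : ℝ) < Real.log ((D + T) / D) / Real.log (1 + μ / 4) + 1 := Nat.ceil_lt_add_one hlog0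
  have hpow : D + T ≤ (1 + μ / 4) ^ N * D := by
    have h1 : Real.log ((D + T) / D) ≤ N * Real.log (1 + μ / 4) := by
      rwa [div_le_iff₀ hL] at hN1
    have h2 : (D + T) / D ≤ (1 + μ / 4) ^ N := by
      rw [← Real.log_le_log_iff hrdp (by positivity), Real.log_pow]
      exact h1
    rwa [div_le_iff₀ hD0] at h2
  have h3 := hiter N 0 T le_rfl hT (by simpa using hpow) le_rfl
  have h4 : K0 ^ N ≤ K0 * ((D + T) / D) ^ (Real.log K0 / Real.log (1 + μ / 4)) := by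
    have e1 : ((D + T) / D) ^ (Real.log K0 / Real.log (1 + μ / 4))
        = K0 ^ (Real.log ((D + T) / D) / Real.log (1 + μ / 4)) := by
      rw [Real.rpow_def_of_pos hrdp, Real.rpow_def_of_pos hKp]
      congr 1
      ring
    rw [e1, ← Real.rpow_natCast K0 N]
    calc K0 ^ (N : ℝ) ≤ K0 ^ (1 + Real.log ((D + T) / D) / Real.log (1 + μ / 4)) :=
          Real.rpow_le_rpow_of_exponent_le hK (by linarith)
      _ = K0 * K0 ^ (Real.log ((D + T) / D) / Real.log (1 + μ / 4)) := by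
          rw [Real.rpow_add hKp, Real.rpow_one]
  exact ⟨h3.1.trans (mul_le_mul_of_nonneg_right h4 (hΦ T hT le_rfl)),
    h3.2.trans (mul_le_mul_of_nonneg_right h4 (hΦ 0 le_rfl hT))⟩

set_option maxHeartbeats 1600000 in
/-- **generic chain** in the tilted sawtooth, both directions -/
theorem sawChainGen (K0 μ : ℝ) (hK : 1 ≤ K0) (hμ : 0 < μ) (hμ1 : μ ≤ 1 / 4) :
    ∃ C S K : ℝ, 1 ≤ C ∧ 1 ≤ S ∧ 1 ≤ K ∧
  ∀ lam : ℝ, 0 < lam → lam ≤ μ / 8 → ∀ (P : Set (ℝ × ℝ)) (ρ₀ : ℝ), 0 < ρ₀ → ∀ Λ : ℂ × ℂ → ℝ,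
    (∀ q ∈ Saw P lam ρ₀, 0 ≤ Λ q) → Step (Saw P lam ρ₀) K0 Λ →
    ∀ (e e' : ℝ × ℝ), e' ∈ P → ∀ (q : ℂ × ℂ) (r : ℝ), 0 < -q.1.im → μ * (-q.1.im) ≤ q.2.im →
      2 * lam * (|q.1.re - e'.1| + ‖q.2 - (e'.2 : ℂ)‖) ≤ -q.1.im →
      |q.1.re - e.1| + ‖q.2 - (e.2 : ℂ)‖ ≤ r → -q.1.im ≤ r → 2 * (K * r) < ρ₀ →
      Λ q ≤ C * (r / (-q.1.im)) ^ S * Λ (ray e (K * r)) ∧
      Λ (ray e (K * r)) ≤ C * (r / (-q.1.im)) ^ S * Λ q := by
  have hKp : 0 < K0 := by linarith
  have hL : 0 < Real.log (1 + μ / 2 / 4) := Real.log_pos (by linarith)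
  have hS0 : 0 ≤ Real.log K0 / Real.log (1 + μ / 2 / 4) := div_nonneg (Real.log_nonneg hK) hL.le
  obtain ⟨S, hS⟩ : ∃ S : ℝ, S = Real.log K0 / Real.log (1 + μ / 2 / 4) := ⟨_, rfl⟩
  rw [← hS] at hS0
  obtain ⟨K, hKd⟩ : ∃ K : ℝ, K = 32 / μ := ⟨_, rfl⟩
  have hKμ : K * μ = 32 := by rw [hKd]; field_simp
  have hK32 : 128 ≤ K := by
    rw [hKd, le_div_iff₀ hμ]; linarith
  have hKS : (1 : ℝ) ≤ (2 * K) ^ S := Real.one_le_rpow (by linarith) hS0
  refine ⟨K0 * (2 * K) ^ S * K0, S + 1, K, ?_, by linarith, by linarith, ?_⟩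
  · have h1 : 1 ≤ K0 * (2 * K) ^ S := by nlinarith
    nlinarith
  intro lam hlam hlamμ P ρ₀ hρ₀ Λ hΛ hstep e e' he' q r hD0' h1 h2 hX hDr hKr
  obtain ⟨D, hD⟩ : ∃ D : ℝ, D = -q.1.im := ⟨_, rfl⟩
  rw [← hD] at hD0' h1 h2 hDr ⊢
  have hD0 : 0 < D := hD0'
  have hr : 0 < r := hD0.trans_le hDr
  have hKr0 : 0 < K * r := by positivity
  have h2' : lam * X q e' ≤ D / 2 := by unfold X; linarith
  have hDKr : (1 + μ / 2 / 2) * (D + K * r) ≤ ρ₀ := by nlinarith
  have hballs : ∀ τ : ℝ, 0 ≤ τ → τ ≤ K * r →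
      ball (sh q τ) (μ / 2 / 2 * (D + τ)) ⊆ Saw P lam ρ₀ := by
    intro τ h0 hτ
    exact ball_sh hlam.le (by linarith) (μ := μ / 2) (by positivity) (by linarith) he' hD hD0
      (by nlinarith) (by nlinarith) hDKr h0 hτ
  -- the descent
  have hS1 : Λ (sh q 0) ≤ K0 * ((D + K * r) / D) ^ S * Λ (sh q (K * r)) ∧
      Λ (sh q (K * r)) ≤ K0 * ((D + K * r) / D) ^ S * Λ (sh q 0) := by
    rw [hS]
    refine iter_gen (Φ := fun τ => Λ (sh q τ)) hK (by positivity) hD0 hKr0.le ?_ ?_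
    · intro τ h0 hτ
      exact hΛ _ (hballs τ h0 hτ (mem_ball_self (by have : 0 < D + τ := by linarith
                                                    positivity)))
    · intro τ τ' h0 h01 h02 h03
      have hDτ : 0 < D + τ := by linarith
      have hDτ' : 0 < D + τ' := by linarith
      constructor
      · refine hstep _ _ _ (by positivity) (hballs τ' (h0.trans h01) h03) ?_
        rw [norm_sh_sub, abs_sub_comm, abs_of_nonneg (by linarith)]
        have : 0 ≤ μ * (τ' - τ) := mul_nonneg hμ.le (by linarith)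
        nlinarith
      · refine hstep _ _ _ (by positivity) (hballs τ h0 (h01.trans h03)) ?_
        rw [norm_sh_sub, abs_of_nonneg (by linarith)]
        linarith
  rw [sh_zero] at hS1
  -- the last step
  obtain ⟨T, hT⟩ : ∃ T : ℝ, T = K * r := ⟨_, rfl⟩
  have hμT : μ * T = 32 * r := by rw [hT, ← mul_assoc, mul_comm μ K, hKμ]
  have hT128 : 128 * r ≤ T := by rw [hT]; nlinarith
  have hball : ball (sh q T) (μ / 4 * (D + T)) ⊆ Saw P lam ρ₀ := by
    have h := hballs T (by linarith) (by rw [hT])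
    have e1 : μ / 2 / 2 = μ / 4 := by ring
    rwa [e1] at h
  have hDT : 0 < D + T := by linarith
  have hdist : ‖sh q T - ray e T‖ ≤ μ / 4 * (D + T) / 4 := by
    have ev : sh q T - ray e T = (q.1 - e.1, q.2 - e.2) := by
      rw [ray_eq]
      refine Prod.ext ?_ ?_
      · simp only [sh, Prod.fst_sub]; ring
      · simp only [sh, Prod.snd_sub]; ring
    have hX0 : |q.1.re - e.1| + ‖q.2 - (e.2 : ℂ)‖ ≤ r := hX
    have b1 : ‖q.1 - (e.1 : ℂ)‖ ≤ |q.1.re - e.1| + D := by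
      refine (norm_le_abs_re_add_abs_im _).trans ?_
      simp only [sub_re, ofReal_re, sub_im, ofReal_im, sub_zero]
      have : |q.1.im| = D := by rw [hD, abs_of_neg (by linarith)]
      rw [this]
    have b2 := norm_nonneg (q.2 - (e.2 : ℂ))
    have b3 := abs_nonneg (q.1.re - e.1)
    have b4 : 2 * r ≤ μ / 4 * (D + T) / 4 := by nlinarith
    rw [ev, Prod.norm_def]
    refine max_le ?_ ?_
    · simp only; linarith
    · simp only; linarith
  have hpos4 : 0 < μ / 4 * (D + T) := by positivity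
  have s2 : Λ (sh q T) ≤ K0 * Λ (ray e T) := by
    refine hstep (ray e T) _ (μ / 4 * (D + T) / 2) (by positivity) ?_ (by linarith)
    refine (ball_subset_ball' ?_).trans hball
    rw [dist_comm, dist_eq_norm]
    linarith
  have s3 : Λ (ray e T) ≤ K0 * Λ (sh q T) := by
    refine hstep (sh q T) _ (μ / 4 * (D + T)) hpos4 hball ?_
    rw [norm_sub_rev]
    linarith
  have hΛs : 0 ≤ Λ (sh q T) := hΛ _ (hball (mem_ball_self hpos4))
  have hΛr : 0 ≤ Λ (ray e T) := by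
    refine hΛ _ (hball ?_)
    rw [mem_ball, dist_comm, dist_eq_norm]
    linarith
  have hΛq : 0 ≤ Λ q := by
    have h := hballs 0 le_rfl hKr0.le
    rw [sh_zero] at h
    exact hΛ _ (h (mem_ball_self (by positivity)))
  rw [← hT] at hS1
  have hrD : 1 ≤ r / D := by rw [le_div_iff₀ hD0]; linarith
  have hrD0 : 0 < r / D := by linarith
  have hle : ((D + T) / D) ^ S ≤ (2 * K) ^ S * (r / D) ^ (S + 1) := by
    have a1 : (D + T) / D ≤ 2 * K * (r / D) := by
      rw [add_div, div_self hD0.ne', hT, mul_div_assoc]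
      nlinarith
    have a0 : 0 ≤ (D + T) / D := div_nonneg (by linarith) hD0.le
    calc ((D + T) / D) ^ S ≤ (2 * K * (r / D)) ^ S :=
          Real.rpow_le_rpow a0 a1 hS0
      _ = (2 * K) ^ S * (r / D) ^ S := Real.mul_rpow (by linarith) hrD0.le
      _ ≤ (2 * K) ^ S * (r / D) ^ (S + 1) := by
          gcongr
          · linarith
  rw [← hT]
  have hprod0 : 0 ≤ (2 * K) ^ S * (r / D) ^ (S + 1) := by positivity
  constructor
  · calc Λ q ≤ K0 * ((D + T) / D) ^ S * Λ (sh q T) := hS1.1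
      _ ≤ K0 * ((2 * K) ^ S * (r / D) ^ (S + 1)) * (K0 * Λ (ray e T)) := by gcongr
      _ = K0 * (2 * K) ^ S * K0 * (r / D) ^ (S + 1) * Λ (ray e T) := by ring
  · calc Λ (ray e T) ≤ K0 * Λ (sh q T) := s3
      _ ≤ K0 * (K0 * ((D + T) / D) ^ S * Λ q) := mul_le_mul_of_nonneg_left hS1.2 hKp.le
      _ ≤ K0 * (K0 * ((2 * K) ^ S * (r / D) ^ (S + 1)) * Λ q) := by gcongr
      _ = K0 * (2 * K) ^ S * K0 * (r / D) ^ (S + 1) * Λ q := by ring

/-- **depth of the label** in the strip `|Im| < h` -/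
theorem label_depth (μ : ℝ) (hμ : 0 < μ) (hμ1 : μ ≤ 1 / 4) :
    ∃ C S K : ℝ, 1 ≤ C ∧ 1 ≤ S ∧ 1 ≤ K ∧
  ∀ lam : ℝ, 0 < lam → lam ≤ μ / 8 → ∀ (P : Set (ℝ × ℝ)) (ρ₀ : ℝ), 0 < ρ₀ → ∀ (h : ℝ) (B : ℂ × ℂ → ℂ),
    DifferentiableOn ℂ B (Saw P lam ρ₀) → (∀ q ∈ Saw P lam ρ₀, |(B q).im| < h) →
    ∀ (e e' : ℝ × ℝ), e' ∈ P → ∀ (q : ℂ × ℂ) (r : ℝ), 0 < -q.1.im → μ * (-q.1.im) ≤ q.2.im →
      2 * lam * (|q.1.re - e'.1| + ‖q.2 - (e'.2 : ℂ)‖) ≤ -q.1.im →
      |q.1.re - e.1| + ‖q.2 - (e.2 : ℂ)‖ ≤ r → -q.1.im ≤ r → 2 * (K * r) < ρ₀ →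
      h - |(B (ray e (K * r))).im| ≤ C * (r / (-q.1.im)) ^ S * (h - |(B q).im|) ∧
      h - |(B q).im| ≤ C * (r / (-q.1.im)) ^ S * (h - |(B (ray e (K * r))).im|) := by
  obtain ⟨C, S, K, hC, hS, hK, H⟩ := sawChainGen 3 μ (by norm_num) hμ hμ1
  refine ⟨C, S, K, hC, hS, hK, ?_⟩
  intro lam hlam hlamμ P ρ₀ hρ₀ h B hB hBh e e' he' q r hD0 h1 h2 hX hDr hKr
  have g1 := H lam hlam hlamμ P ρ₀ hρ₀ (fun q => ((h : ℂ) * I - B q).im)
    (fun q hq => by
      have := abs_lt.1 (hBh q hq)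
      simp; linarith)
    (step_im (by fun_prop) (fun q hq => by
      have := abs_lt.1 (hBh q hq)
      simp; linarith)) e e' he' q r hD0 h1 h2 hX hDr hKr
  have g2 := H lam hlam hlamμ P ρ₀ hρ₀ (fun q => ((h : ℂ) * I + B q).im)
    (fun q hq => by
      have := abs_lt.1 (hBh q hq)
      simp; linarith)
    (step_im (by fun_prop) (fun q hq => by
      have := abs_lt.1 (hBh q hq)
      simp; linarith)) e e' he' q r hD0 h1 h2 hX hDr hKr
  simp only [sub_im, add_im, mul_im, ofReal_re, I_im, mul_one, ofReal_im, I_re, mul_zero,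
    add_zero] at g1 g2
  have hD : 0 < r / (-q.1.im) := div_pos (hD0.trans_le hDr) hD0
  have hM : 0 ≤ C * (r / (-q.1.im)) ^ S := by positivity
  constructor
  · rcases le_total 0 (B q).im with hs | hs
    · rw [abs_of_nonneg hs]
      have := le_abs_self (B (ray e (K * r))).im
      linarith [g1.2]
    · rw [abs_of_nonpos hs]
      have := neg_le_abs (B (ray e (K * r))).im
      have e1 : h - -(B q).im = h + (B q).im := by ring
      rw [e1]
      linarith [g2.2]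
  · rcases le_total 0 (B (ray e (K * r))).im with hs | hs
    · rw [abs_of_nonneg hs]
      have := le_abs_self (B q).im
      linarith [g1.1]
    · rw [abs_of_nonpos hs]
      have := neg_le_abs (B q).im
      have e1 : h - -(B (ray e (K * r))).im = h + (B (ray e (K * r))).im := by ring
      rw [e1]
      linarith [g2.1]

end Crest.Agent.R102.Chain864
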