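import Mathlib

/-!
Row 102, T1-B, EDGE / SLOW (helper654): a label moves little along a chain of small steps as long as
the tangent angle `T` of the label moves little, uniformly on a closed band of labels.
-/

set_option autoImplicit false

open Set Filter Topology Metric Complex

noncomputable section

namespace Crest.Agent.R102.ChainT654

/-- local form -/
theorem chain_local {T : ℂ → ℂ} {U : Set ℂ} (hU : IsOpen U) (hT : ContinuousOn T U) {bs : ℂ}
    (hbs : bs ∈ U) (hne : ∀ᶠ b in 𝓝[≠] bs, T b ≠ T bs) {k₀ : ℝ} (hk₀ : 0 < k₀) :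
    ∃ η > 0, ∃ c > 0, ∃ e > 0, ∀ (m : ℕ) (b : ℕ → ℂ), (∀ i ≤ m, b i ∈ U) → dist (b 0) bs < η →
      (∀ i < m, dist (b (i + 1)) (b i) ≤ e) → (∀ i ≤ m, dist (T (b i)) (T (b 0)) ≤ c) →
      ∀ i ≤ m, dist (b i) (b 0) ≤ k₀ := by
  obtain ⟨r1, hr1, h1⟩ := Metric.isOpen_iff.1 hU bs hbs
  rw [eventually_nhdsWithin_iff, Metric.eventually_nhds_iff] at hne
  obtain ⟨r2, hr2, h2⟩ := hne
  -- the annulus
  let r : ℝ := min (min (r1 / 4) (r2 / 4)) (k₀ / 4)
  have hr : 0 < r := by
    simp only [r]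
    positivity
  have e1 : r ≤ r1 / 4 := (min_le_left _ _).trans (min_le_left _ _)
  have e2 : r ≤ r2 / 4 := (min_le_left _ _).trans (min_le_right _ _)
  have e3 : r ≤ k₀ / 4 := min_le_right _ _
  let A : Set ℂ := closedBall bs (2 * r) \ ball bs r
  have hAc : IsCompact A := (isCompact_closedBall _ _).diff isOpen_ball
  have hAU : A ⊆ U := fun b hb => h1 (mem_ball.2 (by
    have := mem_closedBall.1 hb.1
    linarith))
  have hAne : ∀ b ∈ A, T b ≠ T bs := by
    intro b hb
    have h3 := mem_closedBall.1 hb.1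
    have h4 : r ≤ dist b bs := by
      have := hb.2
      rw [mem_ball, not_lt] at this
      exact this
    refine h2 (by linarith) ?_
    rintro rfl
    rw [dist_self] at h4
    linarith
  obtain ⟨c0, hc0, hc⟩ : ∃ c0 > 0, ∀ b ∈ A, c0 ≤ dist (T b) (T bs) := by
    rcases A.eq_empty_or_nonempty with hA | hA
    · exact ⟨1, one_pos, by simp [hA]⟩
    · have hcont : ContinuousOn (fun b => dist (T b) (T bs)) A :=
        continuous_dist.comp_continuousOn ((hT.mono hAU).prodMk continuousOn_const)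
      obtain ⟨x, hx, hmin⟩ := hAc.exists_isMinOn hA hcont
      exact ⟨dist (T x) (T bs), dist_pos.2 (hAne x hx), fun b hb => hmin hb⟩
  have hTc : ContinuousAt T bs := hT.continuousAt (hU.mem_nhds hbs)
  obtain ⟨η1, hη1, h5⟩ := Metric.continuousAt_iff.1 hTc (c0 / 3) (by positivity)
  refine ⟨min η1 r, lt_min hη1 hr, c0 / 3, by positivity, r, hr, ?_⟩
  intro m b hbU hb0 hstep hTb
  have hb0' := hb0.trans_le (min_le_right _ _)
  have hT0 := h5 (hb0.trans_le (min_le_left _ _))
  have key : ∀ i ≤ m, dist (b i) bs < r := by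
    intro i
    induction i with
    | zero => intro _; exact hb0'
    | succ i ih =>
      intro hi
      have h6 := ih (by omega)
      have h7 := hstep i (by omega)
      by_contra hcon
      rw [not_lt] at hcon
      have h8 : dist (b (i + 1)) bs ≤ 2 * r := by
        have := dist_triangle (b (i + 1)) (b i) bs
        linarith
      have h9 := hc (b (i + 1)) ⟨mem_closedBall.2 h8, by
        rw [mem_ball, not_lt]
        exact hcon⟩
      have h10 := dist_triangle (T (b (i + 1))) (T (b 0)) (T bs)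
      have h11 := hTb (i + 1) hi
      linarith
  intro i hi
  have h12 := key i hi
  have h13 := dist_triangle_right (b i) (b 0) bs
  linarith

theorem T_add_int {T : ℂ → ℂ} {h : ℝ} {k : ℂ} (hper : ∀ b, |b.im| < h → T (b + 1) = T b + k)
    (n : ℤ) {b : ℂ} (hb : |b.im| < h) : T (b + n) = T b + n * k := by
  have hnat : ∀ (n : ℕ) (b : ℂ), |b.im| < h → T (b + n) = T b + n * k := by
    intro n
    induction n with
    | zero => intro b _; simp
    | succ n ih =>
      intro b hb
      have h1 : b + ((n + 1 : ℕ) : ℂ) = (b + n) + 1 := by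
        push_cast
        ring
      rw [h1, hper _ (by simpa using hb), ih b hb]
      push_cast
      ring
  rcases n.eq_nat_or_neg with ⟨m, rfl | rfl⟩
  · simpa using hnat m b hb
  · have h2 := hnat m (b + ((-(m : ℤ) : ℤ) : ℂ)) (by simpa using hb)
    have h3 : b + ((-(m : ℤ) : ℤ) : ℂ) + m = b := by
      push_cast
      ring
    rw [h3] at h2
    rw [h2]
    push_cast
    ring

/-- uniform form on a closed band -/
theorem chainT {T : ℂ → ℂ} {h h' k₀ : ℝ} {k : ℂ} (hT : DifferentiableOn ℂ T {b | |b.im| < h})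
    (hper : ∀ b, |b.im| < h → T (b + 1) = T b + k)
    (hnc : ∃ b b' : ℂ, |b.im| < h ∧ |b'.im| < h ∧ T b ≠ T b') (hh : h' < h) (hk₀ : 0 < k₀) :
    ∃ c > 0, ∃ e > 0, ∀ (m : ℕ) (b : ℕ → ℂ), (∀ i ≤ m, |(b i).im| ≤ h') →
      (∀ i < m, dist (b (i + 1)) (b i) ≤ e) → (∀ i ≤ m, dist (T (b i)) (T (b 0)) ≤ c) →
      ∀ i ≤ m, dist (b i) (b 0) ≤ k₀ := by
  have hUeq : {b : ℂ | |b.im| < h} = Complex.im ⁻¹' Ioo (-h) h := by
    ext b
    simp [abs_lt]
  have hU : IsOpen {b : ℂ | |b.im| < h} := by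
    rw [hUeq]
    exact isOpen_Ioo.preimage Complex.continuous_im
  have hUc : IsPreconnected {b : ℂ | |b.im| < h} := by
    rw [hUeq]
    exact ((convex_Ioo (-h) h).linear_preimage Complex.imLm).isPreconnected
  have hTa : AnalyticOnNhd ℂ T {b | |b.im| < h} := hT.analyticOnNhd hU
  -- `T` is nowhere locally constant
  have hloc : ∀ bs : ℂ, |bs.im| < h → ∀ᶠ b in 𝓝[≠] bs, T b ≠ T bs := by
    intro bs hbs
    rcases (hTa bs hbs).eventually_eq_or_eventually_ne (analyticAt_const (v := T bs)) with h1 | h1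
    · exfalso
      have h2 : EqOn T (fun _ => T bs) {b | |b.im| < h} :=
        hTa.eqOn_of_preconnected_of_eventuallyEq analyticOnNhd_const hUc hbs h1
      obtain ⟨b, b', hb, hb', hbb⟩ := hnc
      exact hbb ((h2 hb).trans (h2 hb').symm)
    · exact h1
  let P : Set ℂ → Prop := fun s => ∃ c > 0, ∃ e > 0, ∀ (m : ℕ) (b : ℕ → ℂ),
    (∀ i ≤ m, |(b i).im| ≤ h') → b 0 ∈ s →
      (∀ i < m, dist (b (i + 1)) (b i) ≤ e) → (∀ i ≤ m, dist (T (b i)) (T (b 0)) ≤ c) →
      ∀ i ≤ m, dist (b i) (b 0) ≤ k₀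
  have hK : IsCompact (Icc (0 : ℝ) 1 ×ℂ Icc (-h') h') := isCompact_Icc.reProdIm isCompact_Icc
  have hP : P (Icc (0 : ℝ) 1 ×ℂ Icc (-h') h') := by
    refine hK.induction_on (p := P) ?_ ?_ ?_ ?_
    · exact ⟨1, one_pos, 1, one_pos, fun m b _ h0 => absurd h0 (notMem_empty _)⟩
    · rintro s t hst ⟨c, hc, e, he, H⟩
      exact ⟨c, hc, e, he, fun m b h1 h2 => H m b h1 (hst h2)⟩
    · rintro s t ⟨c, hc, e, he, H⟩ ⟨c', hc', e', he', H'⟩
      refine ⟨min c c', lt_min hc hc', min e e', lt_min he he', fun m b h1 h2 h3 h4 => ?_⟩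
      rcases h2 with h2 | h2
      · exact H m b h1 h2 (fun i hi => (h3 i hi).trans (min_le_left _ _))
          (fun i hi => (h4 i hi).trans (min_le_left _ _))
      · exact H' m b h1 h2 (fun i hi => (h3 i hi).trans (min_le_right _ _))
          (fun i hi => (h4 i hi).trans (min_le_right _ _))
    · intro bs hbs
      have hbs' : |bs.im| < h := by
        have := hbs.2
        exact (abs_le.2 this).trans_lt hh
      obtain ⟨η, hη, c, hc, e, he, H⟩ := chain_local hU hT.continuousOn hbs' (hloc bs hbs') hk₀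
      refine ⟨ball bs η, mem_nhdsWithin_of_mem_nhds (ball_mem_nhds _ hη), c, hc, e, he,
        fun m b h1 h2 h3 h4 => H m b (fun i hi => (h1 i hi).trans_lt hh) h2 h3 h4⟩
  obtain ⟨c, hc, e, he, H⟩ := hP
  refine ⟨c, hc, e, he, fun m b h1 h3 h4 i hi => ?_⟩
  let n : ℤ := ⌊(b 0).re⌋
  have hT' : ∀ i ≤ m, T (b i - n) = T (b i) - n * k := by
    intro i hi
    have := T_add_int hper n (b := b i - n) (by simpa using (h1 i hi).trans_lt hh)
    rw [sub_add_cancel] at this
    rw [this]
    ring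
  have h5 := H m (fun i => b i - n) (fun i hi => by simpa using h1 i hi) ?_ (fun i hi => ?_)
    (fun i hi => ?_) i hi
  · simpa using h5
  · have h6 := abs_le.1 (h1 0 (Nat.zero_le _))
    refine ⟨⟨?_, ?_⟩, ?_⟩
    · simp [n]
    · simpa [n] using (Int.fract_lt_one (b 0).re).le
    · simpa using h6
  · simpa using h3 i hi
  · show dist (T (b i - n)) (T (b 0 - n)) ≤ c
    rw [hT' i hi, hT' 0 (Nat.zero_le _), dist_sub_right]
    exact h4 i hi

end Crest.Agent.R102.ChainT654
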