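import Crest.Agent.R102.Bds_540

/-!
Row 102, part (B), lemma B4 (helper540): the Dirichlet chain near an approximate leaf.
-/

set_option autoImplicit false

open Set Filter Topology Metric Complex MeasureTheory
open scoped Real ContDiff ComplexConjugate

noncomputable section

namespace Crest.Agent.R102.B540

open Crest.Agent.R102.B821 Crest.Agent.R266.SCV

/-- the data of B4, with all smallness conditions -/
structure Dat (ρ₀ ε₀ ρ d w ε K δ₀ b : ℝ) (n j : ℕ) (L Ψ : ℂ × ℂ → ℂ) (X : ℂ → ℂ) : Prop where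
  lag : IsLag ρ₀ ε₀ L Ψ
  q12 : ∀ x y : ℂ, (x, y) ∈ Dg (3 / 4 * ρ₀) (ε₀ / 2) → ‖y - x‖ ≤ 2 * w →
    ‖q2 (q1 L) (x, y) + (y - x)‖ ≤ 1 / 100 * ‖y - x‖
  lip : ∀ x y z x' y' z' x'' y'' z'' : ℂ, ∀ m δ : ℝ, (x, y) ∈ Dg (3 / 4 * ρ₀) (ε₀ / 2) →
        (y, z) ∈ Dg (3 / 4 * ρ₀) (ε₀ / 2) → ‖x'‖ ≤ m → ‖y'‖ ≤ m → ‖z'‖ ≤ m →
        ‖x''‖ ≤ m → ‖y''‖ ≤ m → ‖z''‖ ≤ m → ‖x' - x''‖ ≤ δ → ‖y' - y''‖ ≤ δ →
        ‖z' - z''‖ ≤ δ → m ≤ δ₀ →
        ‖EL L (x + x') (y + y') (z + z') - EL L (x + x'') (y + y'') (z + z'') -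
          dEL L x y z (x' - x'') (y' - y'') (z' - z'')‖ ≤ K * m * δ
  tay : ∀ x y x' y' : ℂ, ∀ m : ℝ, (x, y) ∈ Dg (3 / 4 * ρ₀) (ε₀ / 2) → ‖x'‖ ≤ m → ‖y'‖ ≤ m →
        m ≤ δ₀ → ‖L (x + x', y + y') - L (x, y) - (q1 L (x, y) * x' + q2 L (x, y) * y')‖ ≤
          K * m ^ 2
  K_pos : 0 ≤ K
  d_pos : 0 < d
  d_lt : d < ρ
  ρ_le : ρ ≤ ρ₀ / 2
  n_pos : 0 < n
  hw : w = j / n
  w_pos : 0 < w
  w_lt : 4 * w < ε₀
  ε_nn : 0 ≤ ε
  hb : b = 5 * n ^ 2 / w * ε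
  b_w : b ≤ w / 8
  b_ρ : b ≤ ρ₀ / 20
  b_δ : 2 * b ≤ δ₀
  contr : 10 * n ^ 2 / w * (ε / d + K * b) ≤ 1
  Xd : DifferentiableOn ℂ X {t | |t.im| < ρ}
  Xper : ∀ t : ℂ, |t.im| < ρ → X (t + 1) = X t + 1
  Xre : ∀ t : ℝ, (X t).im = 0
  Xid : ∀ t : ℂ, |t.im| < ρ → ‖X t - t‖ ≤ ρ₀ / 8
  X' : ∀ t : ℂ, |t.im| < ρ → ‖deriv X t - 1‖ ≤ 1 / 100
  XE : ∀ t : ℂ, |t.im| < ρ → ‖deriv X t * EL L (X (t - w)) (X t) (X (t + w))‖ ≤ ε

variable {ρ₀ ε₀ ρ d w ε K δ₀ b : ℝ} {n j : ℕ} {L Ψ : ℂ × ℂ → ℂ} {X : ℂ → ℂ}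

/-- leaf points -/
def XX (X : ℂ → ℂ) (w : ℝ) (t : ℂ) (i : ℕ) : ℂ := X (t + i * w)

/-- leaf derivatives -/
def DX (X : ℂ → ℂ) (w : ℝ) (t : ℂ) (i : ℕ) : ℂ := deriv X (t + i * w)

/-- the coefficients -/
def aa (L : ℂ × ℂ → ℂ) (X : ℂ → ℂ) (w : ℝ) (t : ℂ) (l : ℕ) : ℂ :=
  q2 (q1 L) (XX X w t l, XX X w t (l + 1)) * (DX X w t l * DX X w t (l + 1))

/-- perturbed points -/
def yy (X : ℂ → ℂ) (w : ℝ) (t : ℂ) (v : ℕ → ℂ) (i : ℕ) : ℂ := XX X w t i + DX X w t i * v i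

/-- the right hand side, at the interior index `m + 1` -/
def gg (L : ℂ × ℂ → ℂ) (X : ℂ → ℂ) (w : ℝ) (t : ℂ) (v : ℕ → ℂ) (m : ℕ) : ℂ :=
  aa L X w t (m + 1) * (v (m + 1 + 1) - v (m + 1)) - aa L X w t m * (v (m + 1) - v m) -
    DX X w t (m + 1) * EL L (yy X w t v m) (yy X w t v (m + 1)) (yy X w t v (m + 1 + 1))

/-- the right hand side -/
def ff (L : ℂ × ℂ → ℂ) (X : ℂ → ℂ) (w : ℝ) (t : ℂ) (v : ℕ → ℂ) (m : ℕ) : ℂ :=
  gg L X w t v (m - 1)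

/-- the fixed point map -/
def TT (L : ℂ × ℂ → ℂ) (X : ℂ → ℂ) (w : ℝ) (n : ℕ) (t : ℂ) (v : ℕ → ℂ) (i : ℕ) : ℂ :=
  dinv (aa L X w t) (ff L X w t v) n i

lemma im_shift (t : ℂ) (i : ℕ) (w : ℝ) : (t + i * w).im = t.im := by simp

lemma Dat.ρ_pos (D : Dat ρ₀ ε₀ ρ d w ε K δ₀ b n j L Ψ X) : 0 < ρ := D.d_pos.trans D.d_lt

lemma Dat.ρ₀_pos (D : Dat ρ₀ ε₀ ρ d w ε K δ₀ b n j L Ψ X) : 0 < ρ₀ := by
  have := D.ρ_pos; have := D.ρ_le; linarith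

lemma Dat.b_nn (D : Dat ρ₀ ε₀ ρ d w ε K δ₀ b n j L Ψ X) : 0 ≤ b := by
  have h1 := D.ε_nn
  have h2 := D.w_pos
  rw [D.hb]; positivity

lemma Dat.DX_sub (D : Dat ρ₀ ε₀ ρ d w ε K δ₀ b n j L Ψ X) {t : ℂ} (ht : |t.im| < ρ) (i : ℕ) :
    ‖DX X w t i - 1‖ ≤ 1 / 100 := D.X' _ (by rwa [im_shift])

lemma Dat.DX_le (D : Dat ρ₀ ε₀ ρ d w ε K δ₀ b n j L Ψ X) {t : ℂ} (ht : |t.im| < ρ) (i : ℕ) :
    ‖DX X w t i‖ ≤ 101 / 100 := by
  have h := D.DX_sub ht i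
  have := norm_add_le (DX X w t i - 1) 1
  rw [sub_add_cancel, norm_one] at this
  linarith

lemma Dat.DX_ge (D : Dat ρ₀ ε₀ ρ d w ε K δ₀ b n j L Ψ X) {t : ℂ} (ht : |t.im| < ρ) (i : ℕ) :
    99 / 100 ≤ ‖DX X w t i‖ := by
  have h := D.DX_sub ht i
  have := norm_sub_le (DX X w t i) (DX X w t i - 1)
  rw [sub_sub_cancel, norm_one] at this
  linarith

lemma Dat.DX_ne (D : Dat ρ₀ ε₀ ρ d w ε K δ₀ b n j L Ψ X) {t : ℂ} (ht : |t.im| < ρ) (i : ℕ) :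
    DX X w t i ≠ 0 := by
  intro h0
  have := D.DX_ge ht i
  rw [h0, norm_zero] at this
  linarith

lemma Dat.XX_im (D : Dat ρ₀ ε₀ ρ d w ε K δ₀ b n j L Ψ X) {t : ℂ} (ht : |t.im| < ρ) (i : ℕ) :
    |(XX X w t i).im| < 5 / 8 * ρ₀ := by
  have h := D.Xid (t + i * w) (by rwa [im_shift])
  have h1 := Complex.abs_im_le_norm (X (t + i * w) - (t + i * w))
  rw [Complex.sub_im, im_shift] at h1
  have h2 := abs_sub_abs_le_abs_sub (X (t + i * w)).im t.im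
  have h3 := D.ρ_le
  unfold XX
  linarith

lemma Dat.XX_step (D : Dat ρ₀ ε₀ ρ d w ε K δ₀ b n j L Ψ X) {t : ℂ} (ht : |t.im| < ρ) (i : ℕ) :
    ‖XX X w t (i + 1) - XX X w t i - w‖ ≤ w / 100 := by
  have ho : IsOpen {t : ℂ | |t.im| < ρ} := isOpen_lt (by fun_prop) continuous_const
  have h1 := (convex_strip ρ).norm_image_sub_le_of_norm_hasDerivWithin_le
    (f := fun s => X s - s) (f' := fun s => deriv X s - 1) (C := 1 / 100)
    (fun s hs => (((D.Xd.differentiableAt (ho.mem_nhds hs)).hasDerivAt).sub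
      (hasDerivAt_id s)).hasDerivWithinAt) (fun s hs => D.X' s hs)
    (show t + i * w ∈ {t : ℂ | |t.im| < ρ} by simpa using ht)
    (show t + (i + 1 : ℕ) * w ∈ {t : ℂ | |t.im| < ρ} by simpa using ht)
  have e1 : t + ((i + 1 : ℕ) : ℂ) * w - (t + i * w) = w := by push_cast; ring
  have e2 : ‖(w : ℂ)‖ = w := by rw [Complex.norm_real, Real.norm_of_nonneg D.w_pos.le]
  rw [e1, e2] at h1
  have e3 : XX X w t (i + 1) - XX X w t i - w =
      X (t + ((i + 1 : ℕ) : ℂ) * w) - (t + ((i + 1 : ℕ) : ℂ) * w) -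
        (X (t + i * w) - (t + i * w)) := by
    unfold XX
    push_cast
    ring
  rw [e3]
  linarith

lemma Dat.XX_step' (D : Dat ρ₀ ε₀ ρ d w ε K δ₀ b n j L Ψ X) {t : ℂ} (ht : |t.im| < ρ) (i : ℕ) :
    ‖XX X w t (i + 1) - XX X w t i‖ ≤ 101 / 100 * w := by
  have h := D.XX_step ht i
  have e2 : ‖(w : ℂ)‖ = w := by rw [Complex.norm_real, Real.norm_of_nonneg D.w_pos.le]
  have := norm_add_le (XX X w t (i + 1) - XX X w t i - w) w
  rw [sub_add_cancel, e2] at this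
  linarith

lemma Dat.XX_Dg (D : Dat ρ₀ ε₀ ρ d w ε K δ₀ b n j L Ψ X) {t : ℂ} (ht : |t.im| < ρ) (i : ℕ) :
    (XX X w t i, XX X w t (i + 1)) ∈ Dg (3 / 4 * ρ₀) (ε₀ / 2) := by
  have h0 := D.ρ₀_pos
  have h1 := D.w_lt
  have h2 := D.w_pos
  refine ⟨?_, ?_, ?_⟩
  · have := D.XX_im ht i
    simp only; linarith
  · have := D.XX_im ht (i + 1)
    simp only; linarith
  · have := D.XX_step' ht i
    simp only; linarith

lemma Dat.coef (D : Dat ρ₀ ε₀ ρ d w ε K δ₀ b n j L Ψ X) {t : ℂ} (ht : |t.im| < ρ) :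
    Coef (aa L X w t) w n := by
  have hw := D.w_pos
  refine ⟨hw, D.n_pos, fun l _ => ?_⟩
  set x := XX X w t l with hx
  set y := XX X w t (l + 1) with hy
  set A := DX X w t l with hA
  set B := DX X w t (l + 1) with hB
  set Λ := q2 (q1 L) (x, y) with hΛ
  have haf : aa L X w t l = Λ * (A * B) := rfl
  have s1 : ‖y - x - w‖ ≤ w / 100 := D.XX_step ht l
  have s2 : ‖y - x‖ ≤ 101 / 100 * w := D.XX_step' ht l
  have s3 : ‖Λ + (y - x)‖ ≤ 1 / 100 * ‖y - x‖ := D.q12 x y (D.XX_Dg ht l) (by linarith)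
  have u1 : ‖A - 1‖ ≤ 1 / 100 := D.DX_sub ht l
  have u2 : ‖B - 1‖ ≤ 1 / 100 := D.DX_sub ht (l + 1)
  have nB : ‖B‖ ≤ 101 / 100 := D.DX_le ht (l + 1)
  have nAB : ‖A * B - 1‖ ≤ 3 / 100 := by
    have e : A * B - 1 = (A - 1) * B + (B - 1) := by ring
    rw [e]
    refine (norm_add_le _ _).trans ?_
    rw [norm_mul]
    have := norm_nonneg (A - 1)
    have := norm_nonneg B
    nlinarith
  have nAB' : ‖A * B‖ ≤ 103 / 100 := by
    have := norm_add_le (A * B - 1) 1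
    rw [sub_add_cancel, norm_one] at this
    linarith
  have e5 : aa L X w t l + w = (Λ + (y - x)) * (A * B) - (y - x) * (A * B - 1) -
      (y - x - w) := by
    rw [haf]
    ring
  rw [e5]
  have t1 := norm_sub_le ((Λ + (y - x)) * (A * B) - (y - x) * (A * B - 1)) (y - x - w)
  have t2 := norm_sub_le ((Λ + (y - x)) * (A * B)) ((y - x) * (A * B - 1))
  have t3 : ‖(Λ + (y - x)) * (A * B)‖ ≤ 1 / 100 * ‖y - x‖ * (103 / 100) := by
    rw [norm_mul]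
    exact mul_le_mul s3 nAB' (norm_nonneg _) (by positivity)
  have t4 : ‖(y - x) * (A * B - 1)‖ ≤ ‖y - x‖ * (3 / 100) := by
    rw [norm_mul]
    exact mul_le_mul_of_nonneg_left nAB (norm_nonneg _)
  linarith

lemma Dat.DXv_le (D : Dat ρ₀ ε₀ ρ d w ε K δ₀ b n j L Ψ X) {t : ℂ} (ht : |t.im| < ρ)
    {u : ℂ} {m : ℝ} (hu : ‖u‖ ≤ m) (i : ℕ) : ‖DX X w t i * u‖ ≤ 101 / 100 * m := by
  rw [norm_mul]
  exact mul_le_mul (D.DX_le ht i) hu (norm_nonneg _) (by norm_num)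

/-- derivative of the defect -/
lemma Dat.dE (D : Dat ρ₀ ε₀ ρ d w ε K δ₀ b n j L Ψ X) {t : ℂ} (ht : |t.im| < ρ - d) (m : ℕ) :
    ‖dEL L (XX X w t m) (XX X w t (m + 1)) (XX X w t (m + 1 + 1)) (DX X w t m)
      (DX X w t (m + 1)) (DX X w t (m + 1 + 1))‖ ≤ 100 / 99 * ε / d := by
  have hd := D.d_pos
  have ho : IsOpen {t : ℂ | |t.im| < ρ} := isOpen_lt (by fun_prop) continuous_const
  have hsubDg : Dg (3 / 4 * ρ₀) (ε₀ / 2) ⊆ Dg ρ₀ ε₀ :=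
    Dg_mono (by have := D.ρ₀_pos; linarith) (by have := D.lag.ε_pos; linarith)
  set Ef : ℂ → ℂ := fun s => EL L (X (s + m * w)) (X (s + (m + 1 : ℕ) * w))
    (X (s + (m + 1 + 1 : ℕ) * w)) with hEf
  have hX : ∀ (i : ℕ) (s : ℂ), |s.im| < ρ →
      HasDerivAt (fun s => X (s + i * w)) (DX X w s i) s := by
    intro i s hs
    have h1 : HasDerivAt X (deriv X (s + i * w)) (s + i * w) :=
      (D.Xd.differentiableAt (ho.mem_nhds (by simpa using hs))).hasDerivAt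
    have h2 : HasDerivAt (fun s : ℂ => s + i * w) 1 s := (hasDerivAt_id s).add_const _
    have := h1.comp s h2
    rw [mul_one] at this
    exact this
  have hder : ∀ s : ℂ, |s.im| < ρ → HasDerivAt Ef (dEL L (XX X w s m) (XX X w s (m + 1))
      (XX X w s (m + 1 + 1)) (DX X w s m) (DX X w s (m + 1)) (DX X w s (m + 1 + 1))) s := by
    intro s hs
    exact D.lag.hasDerivAt_EL (hsubDg (D.XX_Dg hs m)) (hsubDg (D.XX_Dg hs (m + 1)))
      (hX m s hs) (hX (m + 1) s hs) (hX (m + 1 + 1) s hs)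
  have hbd : ∀ s : ℂ, |s.im| < ρ → ‖Ef s‖ ≤ 100 / 99 * ε := by
    intro s hs
    have h1 := D.XE (s + (m + 1 : ℕ) * w) (by simpa using hs)
    have e1 : s + ((m + 1 : ℕ) : ℂ) * w - w = s + m * w := by push_cast; ring
    have e2 : s + ((m + 1 : ℕ) : ℂ) * w + w = s + ((m + 1 + 1 : ℕ) : ℂ) * w := by push_cast; ring
    rw [e1, e2, norm_mul] at h1
    have h2 : 99 / 100 ≤ ‖deriv X (s + ((m + 1 : ℕ) : ℂ) * w)‖ := D.DX_ge hs (m + 1)
    have h3 : 99 / 100 * ‖Ef s‖ ≤ ε :=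
      (mul_le_mul_of_nonneg_right h2 (norm_nonneg _)).trans h1
    linarith
  have hcb : closedBall t d ⊆ {s : ℂ | |s.im| < ρ} := by
    intro s hs
    rw [mem_closedBall, dist_eq_norm] at hs
    have h1 := Complex.abs_im_le_norm (s - t)
    rw [Complex.sub_im] at h1
    have h2 := abs_sub_abs_le_abs_sub s.im t.im
    simp only [Set.mem_ofPred_eq]
    linarith
  have hdiff : DifferentiableOn ℂ Ef {s : ℂ | |s.im| < ρ} := fun s hs =>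
    (hder s hs).differentiableAt.differentiableWithinAt
  have h4 := norm_deriv_le_of_forall_mem_sphere_norm_le hd
    ((hdiff.mono hcb).diffContOnCl_ball subset_rfl)
    (fun s hs => hbd s (hcb (sphere_subset_closedBall hs)))
  rw [(hder t (by linarith)).deriv] at h4
  exact h4

lemma ff_succ (v : ℕ → ℂ) (t : ℂ) (m : ℕ) : ff L X w t v (m + 1) = gg L X w t v m := rfl

/-- Lipschitz bound of the right hand side -/
lemma Dat.gg_lip (D : Dat ρ₀ ε₀ ρ d w ε K δ₀ b n j L Ψ X) {t : ℂ} (ht : |t.im| < ρ - d)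
    {v v' : ℕ → ℂ} {δ : ℝ} (hv : ∀ i ≤ n, ‖v i‖ ≤ b) (hv' : ∀ i ≤ n, ‖v' i‖ ≤ b)
    (hδ : ∀ i ≤ n, ‖v i - v' i‖ ≤ δ) {m : ℕ} (hm : m + 1 < n) :
    ‖gg L X w t v m - gg L X w t v' m‖ ≤ 2 * (ε / d + K * b) * δ := by
  have hd := D.d_pos
  have hbn := D.b_nn
  have hK := D.K_pos
  have ht' : |t.im| < ρ := by linarith
  have hδ0 : 0 ≤ δ := (norm_nonneg _).trans (hδ 0 (Nat.zero_le _))
  have i0 : m ≤ n := by omega
  have i1 : m + 1 ≤ n := by omega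
  have i2 : m + 1 + 1 ≤ n := by omega
  set x := XX X w t m with hx
  set y := XX X w t (m + 1) with hy
  set z := XX X w t (m + 1 + 1) with hz
  set A := DX X w t m with hA
  set B := DX X w t (m + 1) with hB
  set C := DX X w t (m + 1 + 1) with hC
  have hdiff : ∀ i ≤ n, ‖DX X w t i * v i - DX X w t i * v' i‖ ≤ 101 / 100 * δ := by
    intro i hi
    rw [← mul_sub]
    exact D.DXv_le ht' (hδ i hi) i
  have h1 := D.lip x y z (A * v m) (B * v (m + 1)) (C * v (m + 1 + 1)) (A * v' m)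
    (B * v' (m + 1)) (C * v' (m + 1 + 1)) (101 / 100 * b) (101 / 100 * δ) (D.XX_Dg ht' m)
    (D.XX_Dg ht' (m + 1)) (D.DXv_le ht' (hv _ i0) _) (D.DXv_le ht' (hv _ i1) _)
    (D.DXv_le ht' (hv _ i2) _) (D.DXv_le ht' (hv' _ i0) _) (D.DXv_le ht' (hv' _ i1) _)
    (D.DXv_le ht' (hv' _ i2) _) (hdiff _ i0) (hdiff _ i1) (hdiff _ i2)
    (by have := D.b_δ; linarith)
  set R := EL L (x + A * v m) (y + B * v (m + 1)) (z + C * v (m + 1 + 1)) -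
    EL L (x + A * v' m) (y + B * v' (m + 1)) (z + C * v' (m + 1 + 1)) -
    dEL L x y z (A * v m - A * v' m) (B * v (m + 1) - B * v' (m + 1))
      (C * v (m + 1 + 1) - C * v' (m + 1 + 1)) with hR
  have e : gg L X w t v m - gg L X w t v' m =
      -(B * (dEL L x y z A B C * (v (m + 1) - v' (m + 1)))) - B * R := by
    rw [hR]
    unfold gg yy aa dEL
    rw [← hx, ← hy, ← hz, ← hA, ← hB, ← hC]
    ring
  rw [e]
  have t1 := norm_sub_le (-(B * (dEL L x y z A B C * (v (m + 1) - v' (m + 1))))) (B * R)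
  have t2 : ‖-(B * (dEL L x y z A B C * (v (m + 1) - v' (m + 1))))‖ ≤
      101 / 100 * (100 / 99 * ε / d * δ) := by
    rw [norm_neg]
    refine D.DXv_le ht' ?_ (m + 1)
    rw [norm_mul]
    exact mul_le_mul (D.dE ht m) (hδ _ i1) (norm_nonneg _) (by have := D.ε_nn; positivity)
  have t3 : ‖B * R‖ ≤ 101 / 100 * (K * (101 / 100 * b) * (101 / 100 * δ)) :=
    D.DXv_le ht' h1 (m + 1)
  have t4 : 0 ≤ ε / d * δ := by have := D.ε_nn; positivity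
  have t5 : 0 ≤ K * b * δ := by positivity
  have e1 : 101 / 100 * (100 / 99 * ε / d * δ) = 101 / 99 * (ε / d * δ) := by ring
  have e2 : 101 / 100 * (K * (101 / 100 * b) * (101 / 100 * δ)) =
    (101 / 100) ^ 3 * (K * b * δ) := by ring
  have e3 : 2 * (ε / d + K * b) * δ = 2 * (ε / d * δ) + 2 * (K * b * δ) := by ring
  rw [e1] at t2
  rw [e2] at t3
  rw [e3]
  have : ((101 : ℝ) / 100) ^ 3 ≤ 2 := by norm_num
  have t6 : (101 / 100) ^ 3 * (K * b * δ) ≤ 2 * (K * b * δ) :=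
    mul_le_mul_of_nonneg_right this t5
  linarith

lemma Dat.gg_zero (D : Dat ρ₀ ε₀ ρ d w ε K δ₀ b n j L Ψ X) {t : ℂ} (ht : |t.im| < ρ) (m : ℕ) :
    ‖gg L X w t (fun _ => 0) m‖ ≤ ε := by
  have h1 := D.XE (t + (m + 1 : ℕ) * w) (by simpa using ht)
  have e1 : t + ((m + 1 : ℕ) : ℂ) * w - w = t + m * w := by push_cast; ring
  have e2 : t + ((m + 1 : ℕ) : ℂ) * w + w = t + ((m + 1 + 1 : ℕ) : ℂ) * w := by push_cast; ring
  rw [e1, e2] at h1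
  have e3 : gg L X w t (fun _ => 0) m =
      -(deriv X (t + ((m + 1 : ℕ) : ℂ) * w) * EL L (X (t + m * w))
        (X (t + ((m + 1 : ℕ) : ℂ) * w)) (X (t + ((m + 1 + 1 : ℕ) : ℂ) * w))) := by
    unfold gg yy XX DX
    simp
  rw [e3, norm_neg]
  exact h1

lemma Dat.TT_lip (D : Dat ρ₀ ε₀ ρ d w ε K δ₀ b n j L Ψ X) {t : ℂ} (ht : |t.im| < ρ - d)
    {v v' : ℕ → ℂ} {δ : ℝ} (hv : ∀ i ≤ n, ‖v i‖ ≤ b) (hv' : ∀ i ≤ n, ‖v' i‖ ≤ b)
    (hδ : ∀ i ≤ n, ‖v i - v' i‖ ≤ δ) {i : ℕ} (hi : i ≤ n) :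
    ‖TT L X w n t v i - TT L X w n t v' i‖ ≤ δ / 2 := by
  have hd := D.d_pos
  have hbn := D.b_nn
  have hK := D.K_pos
  have hε := D.ε_nn
  have hw := D.w_pos
  have hδ0 : 0 ≤ δ := (norm_nonneg _).trans (hδ 0 (Nat.zero_le _))
  have ht' : |t.im| < ρ := by linarith
  unfold TT
  rw [← dinv_sub]
  have h1 := (D.coef ht').dinv_le (f := fun m => ff L X w t v m - ff L X w t v' m)
    (φ := 2 * (ε / d + K * b) * δ) (by positivity) (fun m hm1 hm2 => by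
      obtain ⟨k, rfl⟩ : ∃ k, m = k + 1 := ⟨m - 1, by omega⟩
      exact D.gg_lip ht hv hv' hδ hm2) hi
  refine h1.trans ?_
  have h2 := D.contr
  have e : 5 / 2 * (n : ℝ) ^ 2 / w * (2 * (ε / d + K * b) * δ) =
    (10 * n ^ 2 / w * (ε / d + K * b)) * (δ / 2) := by ring
  rw [e]
  have := mul_le_mul_of_nonneg_right h2 (show 0 ≤ δ / 2 by positivity)
  linarith

lemma Dat.TT_zero (D : Dat ρ₀ ε₀ ρ d w ε K δ₀ b n j L Ψ X) {t : ℂ} (ht : |t.im| < ρ)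
    {i : ℕ} (hi : i ≤ n) : ‖TT L X w n t (fun _ => 0) i‖ ≤ b / 2 := by
  unfold TT
  have h1 := (D.coef ht).dinv_le (f := ff L X w t (fun _ => 0)) (φ := ε) D.ε_nn
    (fun m hm1 hm2 => by
      obtain ⟨k, rfl⟩ : ∃ k, m = k + 1 := ⟨m - 1, by omega⟩
      exact D.gg_zero ht k) hi
  refine h1.trans (le_of_eq ?_)
  rw [D.hb]; ring

/-- Picard iterates -/
def VV (L : ℂ × ℂ → ℂ) (X : ℂ → ℂ) (w : ℝ) (n : ℕ) (t : ℂ) : ℕ → ℕ → ℂ
  | 0 => fun _ => 0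
  | k + 1 => TT L X w n t (VV L X w n t k)

lemma Dat.VV_bd (D : Dat ρ₀ ε₀ ρ d w ε K δ₀ b n j L Ψ X) {t : ℂ} (ht : |t.im| < ρ - d) (k : ℕ) :
    (∀ i ≤ n, ‖VV L X w n t k i‖ ≤ b - b / 2 ^ k) ∧
      ∀ i ≤ n, ‖VV L X w n t (k + 1) i - VV L X w n t k i‖ ≤ b / 2 / 2 ^ k := by
  have hd := D.d_pos
  have hbn := D.b_nn
  have ht' : |t.im| < ρ := by linarith
  induction k with
  | zero =>
    refine ⟨fun i _ => ?_, fun i hi => ?_⟩
    · simp [VV]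
    · have := D.TT_zero ht' hi
      simpa [VV] using this
  | succ k ih =>
    have h1 : ∀ i ≤ n, ‖VV L X w n t (k + 1) i‖ ≤ b - b / 2 ^ (k + 1) := by
      intro i hi
      have h2 := norm_add_le (VV L X w n t (k + 1) i - VV L X w n t k i) (VV L X w n t k i)
      rw [sub_add_cancel] at h2
      have h3 := ih.1 i hi
      have h4 := ih.2 i hi
      have e : b / 2 ^ (k + 1) = b / 2 / 2 ^ k := by rw [pow_succ]; ring
      have e2 : b / 2 ^ k = 2 * (b / 2 / 2 ^ k) := by ring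
      rw [e]
      linarith
    refine ⟨h1, fun i hi => ?_⟩
    have hle : ∀ m, b - b / 2 ^ m ≤ b := fun m => by
      have : 0 ≤ b / 2 ^ m := by positivity
      linarith
    have h5 := D.TT_lip ht (v := VV L X w n t (k + 1)) (v' := VV L X w n t k)
      (fun i hi => (h1 i hi).trans (hle _)) (fun i hi => (ih.1 i hi).trans (hle _)) ih.2 hi
    refine h5.trans (le_of_eq ?_)
    rw [pow_succ]; ring

lemma Dat.VV_le (D : Dat ρ₀ ε₀ ρ d w ε K δ₀ b n j L Ψ X) {t : ℂ} (ht : |t.im| < ρ - d) (k : ℕ)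
    {i : ℕ} (hi : i ≤ n) : ‖VV L X w n t k i‖ ≤ b := by
  have h := (D.VV_bd ht k).1 i hi
  have hbn := D.b_nn
  have : 0 ≤ b / 2 ^ k := by positivity
  linarith

/-- the solution -/
def WW (L : ℂ × ℂ → ℂ) (X : ℂ → ℂ) (w : ℝ) (n : ℕ) (t : ℂ) (i : ℕ) : ℂ :=
  limUnder atTop (fun k => VV L X w n t k i)

lemma Dat.tendsto_WW (D : Dat ρ₀ ε₀ ρ d w ε K δ₀ b n j L Ψ X) {t : ℂ} (ht : |t.im| < ρ - d)
    {i : ℕ} (hi : i ≤ n) : Tendsto (fun k => VV L X w n t k i) atTop (𝓝 (WW L X w n t i)) := by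
  have h1 : CauchySeq (fun k => VV L X w n t k i) := by
    refine cauchySeq_of_le_geometric_two (C := b) (fun k => ?_)
    rw [dist_comm, dist_eq_norm]
    exact (D.VV_bd ht k).2 i hi
  exact CauchySeq.tendsto_limUnder h1

lemma Dat.dist_WW (D : Dat ρ₀ ε₀ ρ d w ε K δ₀ b n j L Ψ X) {t : ℂ} (ht : |t.im| < ρ - d)
    {i : ℕ} (hi : i ≤ n) (k : ℕ) : ‖VV L X w n t k i - WW L X w n t i‖ ≤ b / 2 ^ k := by
  rw [← dist_eq_norm]
  refine dist_le_of_le_geometric_two_of_tendsto (C := b) (fun k => ?_) (D.tendsto_WW ht hi) k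
  rw [dist_comm, dist_eq_norm]
  exact (D.VV_bd ht k).2 i hi

lemma Dat.WW_le (D : Dat ρ₀ ε₀ ρ d w ε K δ₀ b n j L Ψ X) {t : ℂ} (ht : |t.im| < ρ - d)
    {i : ℕ} (hi : i ≤ n) : ‖WW L X w n t i‖ ≤ b :=
  le_of_tendsto (D.tendsto_WW ht hi).norm (Eventually.of_forall (fun k => D.VV_le ht k hi))

lemma Dat.WW_fix (D : Dat ρ₀ ε₀ ρ d w ε K δ₀ b n j L Ψ X) {t : ℂ} (ht : |t.im| < ρ - d)
    {i : ℕ} (hi : i ≤ n) : WW L X w n t i = TT L X w n t (WW L X w n t) i := by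
  have h1 := (tendsto_add_atTop_iff_nat 1).2 (D.tendsto_WW ht hi)
  refine tendsto_nhds_unique h1 ?_
  rw [tendsto_iff_norm_sub_tendsto_zero]
  have hbn := D.b_nn
  have h2 : ∀ k, ‖VV L X w n t (k + 1) i - TT L X w n t (WW L X w n t) i‖ ≤ b / 2 ^ k / 2 :=
    fun k => D.TT_lip ht (v := VV L X w n t k) (v' := WW L X w n t)
      (fun i hi => D.VV_le ht k hi) (fun i hi => D.WW_le ht hi)
      (fun i hi => D.dist_WW ht hi k) hi
  refine squeeze_zero (fun k => norm_nonneg _) h2 ?_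
  have h3 : Tendsto (fun k : ℕ => b / 2 * (1 / 2 : ℝ) ^ k) atTop (𝓝 (b / 2 * 0)) :=
    (tendsto_pow_atTop_nhds_zero_of_lt_one (by norm_num) (by norm_num)).const_mul _
  rw [mul_zero] at h3
  refine h3.congr (fun k => ?_)
  rw [div_pow, one_pow]
  ring

lemma Dat.WW_zero (D : Dat ρ₀ ε₀ ρ d w ε K δ₀ b n j L Ψ X) {t : ℂ} (ht : |t.im| < ρ - d) :
    WW L X w n t 0 = 0 := by
  rw [D.WW_fix ht (Nat.zero_le _)]
  exact dinv_zero

lemma Dat.WW_end (D : Dat ρ₀ ε₀ ρ d w ε K δ₀ b n j L Ψ X) {t : ℂ} (ht : |t.im| < ρ - d) :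
    WW L X w n t n = 0 := by
  have ht' : |t.im| < ρ := by have := D.d_pos; linarith
  rw [D.WW_fix ht le_rfl]
  exact dinv_end (D.coef ht').sum_ne

/-- the chain satisfies the reflection law at the interior points -/
lemma Dat.EL_zero (D : Dat ρ₀ ε₀ ρ d w ε K δ₀ b n j L Ψ X) {t : ℂ} (ht : |t.im| < ρ - d)
    {m : ℕ} (hm : m + 1 < n) :
    EL L (yy X w t (WW L X w n t) m) (yy X w t (WW L X w n t) (m + 1))
      (yy X w t (WW L X w n t) (m + 1 + 1)) = 0 := by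
  have ht' : |t.im| < ρ := by have := D.d_pos; linarith
  have hc := D.coef ht'
  have h1 := dinv_eq (a := aa L X w t) (f := ff L X w t (WW L X w n t)) (n := n) (i := m)
    (hc.ne (by omega)) (hc.ne hm)
  have f0 := D.WW_fix ht (i := m) (by omega)
  have f1 := D.WW_fix ht (i := m + 1) (by omega)
  have f2 := D.WW_fix ht (i := m + 1 + 1) (by omega)
  unfold TT at f0 f1 f2
  rw [← f0, ← f1, ← f2, ff_succ] at h1
  unfold gg at h1
  have h2 : DX X w t (m + 1) * EL L (yy X w t (WW L X w n t) m)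
      (yy X w t (WW L X w n t) (m + 1)) (yy X w t (WW L X w n t) (m + 1 + 1)) = 0 := by
    linear_combination h1
  exact (mul_eq_zero.1 h2).resolve_left (D.DX_ne ht' _)

end Crest.Agent.R102.B540
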