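import Mathlib

/-!
# R102/Chain_859: the chain lemma of the slow label regime (kernel form), pure real analysis

Windows are pairs `(p, s)`, `p = (x, u) : ℝ × ℝ` (sup distance), `s > 0` the scale.
`rho` is the kernel `(s / r) ^ th * (s' / r) ^ 2`, `r = max s s' (dist p p')`.
If no window is a record for the kernel (`hrec`), the labels stay near `b0` under a whole
interval of windows over `p0.2`, as soon as the Marcinkiewicz integral of the closed set of good
parameters is small at `p0.2`.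
-/

open Set Metric MeasureTheory

namespace Crest.Agent.R102.Chain859

/-- joint scale of two windows -/
noncomputable def rr (p : ℝ × ℝ) (s : ℝ) (p' : ℝ × ℝ) (s' : ℝ) : ℝ :=
  max (max s s') (dist p p')

/-- the kernel -/
noncomputable def rho (th : ℝ) (p : ℝ × ℝ) (s : ℝ) (p' : ℝ × ℝ) (s' : ℝ) : ℝ :=
  (s / rr p s p' s') ^ th * (s' / rr p s p' s') ^ 2

/-- windows all of whose ancestors have label within `k` of `b0` -/
def V {E : Type*} [NormedAddCommGroup E] (b : ℝ × ℝ → ℝ → E) (b0 : E) (s1 : ℝ) (p0 : ℝ × ℝ)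
    (k : ℝ) (p : ℝ × ℝ) (s : ℝ) : Prop :=
  0 < s ∧ s ≤ s1 ∧ dist p p0 ≤ s1 ∧ ∀ s', s ≤ s' → s' ≤ s1 → ‖b p s' - b0‖ ≤ k

lemma V_up {E : Type*} [NormedAddCommGroup E] {b : ℝ × ℝ → ℝ → E} {b0 : E} {s1 k k' : ℝ}
    {p0 p : ℝ × ℝ} {s s' : ℝ} (h : V b b0 s1 p0 k p s)
    (hk : k ≤ k') (hs : s ≤ s') (hs' : s' ≤ s1) : V b b0 s1 p0 k' p s' :=
  ⟨lt_of_lt_of_le h.1 hs, hs', h.2.2.1, fun t ht ht' => (h.2.2.2 t (hs.trans ht) ht').trans hk⟩

lemma le_rr_left (p : ℝ × ℝ) (s : ℝ) (p' : ℝ × ℝ) (s' : ℝ) : s ≤ rr p s p' s' :=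
  (le_max_left _ _).trans (le_max_left _ _)

lemma le_rr_right (p : ℝ × ℝ) (s : ℝ) (p' : ℝ × ℝ) (s' : ℝ) : s' ≤ rr p s p' s' :=
  (le_max_right _ _).trans (le_max_left _ _)

lemma dist_le_rr (p : ℝ × ℝ) (s : ℝ) (p' : ℝ × ℝ) (s' : ℝ) : dist p p' ≤ rr p s p' s' :=
  le_max_right _ _

lemma rr_pos {p : ℝ × ℝ} {s : ℝ} (p' : ℝ × ℝ) (s' : ℝ) (hs : 0 < s) : 0 < rr p s p' s' :=
  lt_of_lt_of_le hs (le_rr_left _ _ _ _)

lemma rho_pos {th : ℝ} {p : ℝ × ℝ} {s : ℝ} {p' : ℝ × ℝ} {s' : ℝ} (hs : 0 < s) (hs' : 0 < s') :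
    0 < rho th p s p' s' := by
  have hr : 0 < rr p s p' s' := rr_pos _ _ hs
  unfold rho
  positivity

lemma rho_le {th : ℝ} (hth : 0 ≤ th) {p : ℝ × ℝ} {s : ℝ} {p' : ℝ × ℝ} {s' : ℝ} (hs : 0 < s)
    (hs' : 0 < s') : rho th p s p' s' ≤ (s / rr p s p' s') ^ th := by
  have hr : 0 < rr p s p' s' := rr_pos _ _ hs
  have h1 : (s' / rr p s p' s') ^ 2 ≤ 1 := by
    apply pow_le_one₀ (by positivity)
    rw [div_le_one hr]
    exact le_rr_right _ _ _ _
  unfold rho
  have h2 : 0 ≤ (s / rr p s p' s') ^ th := by positivity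
  nlinarith

lemma rho_le_one {th : ℝ} (hth : 0 ≤ th) {p : ℝ × ℝ} {s : ℝ} {p' : ℝ × ℝ} {s' : ℝ} (hs : 0 < s)
    (hs' : 0 < s') : rho th p s p' s' ≤ 1 := by
  have hr : 0 < rr p s p' s' := rr_pos _ _ hs
  refine (rho_le hth hs hs').trans ?_
  apply Real.rpow_le_one (by positivity) _ hth
  rw [div_le_one hr]
  exact le_rr_left _ _ _ _

/-- lower bound for the kernel when the joint scale is at most `r` -/
lemma le_rho {th : ℝ} (hth : 0 ≤ th) {p : ℝ × ℝ} {s : ℝ} {p' : ℝ × ℝ} {s' r : ℝ} (hs : 0 < s)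
    (hs' : 0 < s') (hr : rr p s p' s' ≤ r) : (s / r) ^ th * (s' / r) ^ 2 ≤ rho th p s p' s' := by
  have h0 : 0 < rr p s p' s' := rr_pos _ _ hs
  have hr0 : 0 < r := lt_of_lt_of_le h0 hr
  unfold rho
  have h1 : s / r ≤ s / rr p s p' s' := by gcongr
  have h2 : s' / r ≤ s' / rr p s p' s' := by gcongr
  have h3 : (s / r) ^ th ≤ (s / rr p s p' s') ^ th :=
    Real.rpow_le_rpow (by positivity) h1 hth
  have h4 : (s' / r) ^ 2 ≤ (s' / rr p s p' s') ^ 2 := by gcongr
  exact mul_le_mul h3 h4 (by positivity) (by positivity)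

/-- the kernel is quasi-submultiplicative -/
lemma rho_mul {th : ℝ} (hth : 0 ≤ th) (hth1 : th ≤ 1) {p : ℝ × ℝ} {s : ℝ} {p' : ℝ × ℝ} {s' : ℝ}
    {p'' : ℝ × ℝ} {s'' : ℝ} (hs : 0 < s) (hs' : 0 < s') (hs'' : 0 < s'') :
    rho th p s p' s' * rho th p' s' p'' s'' ≤ 8 * rho th p s p'' s'' := by
  set r := rr p s p' s' with hr
  set r' := rr p' s' p'' s'' with hr'
  have r0 : 0 < r := rr_pos _ _ hs
  have r'0 : 0 < r' := rr_pos _ _ hs'
  have a1 : s ≤ r := le_rr_left _ _ _ _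
  have a2 : s' ≤ r := le_rr_right _ _ _ _
  have a3 : dist p p' ≤ r := dist_le_rr _ _ _ _
  have b1 : s' ≤ r' := le_rr_left _ _ _ _
  have b2 : s'' ≤ r' := le_rr_right _ _ _ _
  have b3 : dist p' p'' ≤ r' := dist_le_rr _ _ _ _
  have e1 : rho th p s p' s' = (s / r) ^ th * (s' / r) ^ 2 := rfl
  have e2 : rho th p' s' p'' s'' = (s' / r') ^ th * (s'' / r') ^ 2 := rfl
  have two : (2 : ℝ) ^ th ≤ 2 := by
    calc (2 : ℝ) ^ th ≤ 2 ^ (1 : ℝ) := Real.rpow_le_rpow_of_exponent_le (by norm_num) hth1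
      _ = 2 := by norm_num
  have key : ∀ R : ℝ, 0 < R → r ≤ R → r' ≤ R →
      (s / R) ^ th * (s'' / R) ^ 2 ≤ 8 * rho th p s p'' s'' := by
    intro R hR h1 h2
    have hrr : rr p s p'' s'' ≤ 2 * R := by
      refine max_le (max_le (by linarith) (by linarith)) ?_
      calc dist p p'' ≤ dist p p' + dist p' p'' := dist_triangle _ _ _
        _ ≤ 2 * R := by linarith
    have h3 := le_rho (p := p) (p' := p'') hth hs hs'' hrr
    have h4 : (s / (2 * R)) ^ th = (s / R) ^ th / 2 ^ th := by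
      rw [show s / (2 * R) = (s / R) / 2 by field_simp]
      exact Real.div_rpow (by positivity) (by norm_num) _
    have h5 : (s / R) ^ th / 2 ≤ (s / (2 * R)) ^ th := by
      rw [h4]
      gcongr
    have h6 : (s'' / (2 * R)) ^ 2 = (s'' / R) ^ 2 / 4 := by field_simp; ring
    have h7 : 0 ≤ (s'' / R) ^ 2 := by positivity
    rw [h6] at h3
    nlinarith
  rw [e1, e2]
  rcases le_total r r' with h | h
  · refine le_trans ?_ (key r' r'0 h le_rfl)
    have h1 : (s / r) ^ th * (s' / r') ^ th ≤ (s / r') ^ th := by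
      rw [← Real.mul_rpow (by positivity) (by positivity)]
      apply Real.rpow_le_rpow (by positivity) _ hth
      rw [show s / r * (s' / r') = (s / r') * (s' / r) by field_simp]
      have : s' / r ≤ 1 := by rw [div_le_one r0]; exact a2
      have h0 : 0 ≤ s / r' := by positivity
      nlinarith
    have h2 : (s' / r) ^ 2 ≤ 1 := by
      apply pow_le_one₀ (by positivity)
      rw [div_le_one r0]; exact a2
    calc (s / r) ^ th * (s' / r) ^ 2 * ((s' / r') ^ th * (s'' / r') ^ 2)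
        = ((s / r) ^ th * (s' / r') ^ th) * ((s' / r) ^ 2 * (s'' / r') ^ 2) := by ring
      _ ≤ (s / r') ^ th * (1 * (s'' / r') ^ 2) := by gcongr
      _ = (s / r') ^ th * (s'' / r') ^ 2 := by ring
  · refine le_trans ?_ (key r r0 le_rfl h)
    have h1 : (s' / r') ^ th ≤ 1 := by
      apply Real.rpow_le_one (by positivity) _ hth
      rw [div_le_one r'0]; exact b1
    have h2 : (s' / r) ^ 2 * (s'' / r') ^ 2 ≤ (s'' / r) ^ 2 := by
      rw [show (s' / r) ^ 2 * (s'' / r') ^ 2 = (s'' / r) ^ 2 * (s' / r') ^ 2 by field_simp]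
      have : (s' / r') ^ 2 ≤ 1 := by
        apply pow_le_one₀ (by positivity)
        rw [div_le_one r'0]; exact b1
      have h0 : 0 ≤ (s'' / r) ^ 2 := by positivity
      nlinarith
    calc (s / r) ^ th * (s' / r) ^ 2 * ((s' / r') ^ th * (s'' / r') ^ 2)
        = ((s / r) ^ th * (s' / r') ^ th) * ((s' / r) ^ 2 * (s'' / r') ^ 2) := by ring
      _ ≤ ((s / r) ^ th * 1) * (s'' / r) ^ 2 := by gcongr
      _ = (s / r) ^ th * (s'' / r) ^ 2 := by ring

/-- almost maximal window for the kernel at `(p, s)` -/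
lemma exists_near_max {P : ℝ × ℝ → ℝ → Prop} {e : ℝ × ℝ → ℝ → ℝ} {th : ℝ} (hth : 0 ≤ th)
    {p : ℝ × ℝ} {s : ℝ} (hs : 0 < s) (hP : ∀ p' s', P p' s' → 0 < s')
    (he : ∀ p s, 0 ≤ e p s ∧ e p s ≤ 1) {p1 : ℝ × ℝ} {s1 : ℝ} (h1 : P p1 s1)
    (hpos : 0 < rho th p s p1 s1 * e p1 s1) :
    ∃ p' s', P p' s' ∧ rho th p s p1 s1 * e p1 s1 ≤ 2 * (rho th p s p' s' * e p' s') ∧
      ∀ p'' s'', P p'' s'' → rho th p s p'' s'' * e p'' s'' ≤ 2 * (rho th p s p' s' * e p' s') := by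
  set T : Set ℝ := {t | ∃ p' s', P p' s' ∧ t = rho th p s p' s' * e p' s'} with hT
  have hb : BddAbove T := by
    refine ⟨1, ?_⟩
    rintro t ⟨p', s', h, rfl⟩
    have h2 := rho_le_one (p := p) (p' := p') hth hs (hP _ _ h)
    have h3 := rho_pos (th := th) (p := p) (p' := p') hs (hP _ _ h)
    have h4 := he p' s'
    nlinarith
  have hmem : rho th p s p1 s1 * e p1 s1 ∈ T := ⟨p1, s1, h1, rfl⟩
  have hS : rho th p s p1 s1 * e p1 s1 ≤ sSup T := le_csSup hb hmem
  have hS0 : 0 < sSup T := lt_of_lt_of_le hpos hS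
  obtain ⟨t, ⟨p', s', h, rfl⟩, ht⟩ := exists_lt_of_lt_csSup ⟨_, hmem⟩ (show sSup T / 2 < sSup T by linarith)
  refine ⟨p', s', h, by linarith, ?_⟩
  intro p'' s'' h''
  have := le_csSup hb (show rho th p s p'' s'' * e p'' s'' ∈ T from ⟨p'', s'', h'', rfl⟩)
  linarith

/-- vertical descent -/
lemma descent {E : Type*} [NormedAddCommGroup E] {b : ℝ → E} {e : ℝ → ℝ} {Cl η s' r : ℝ}
    (hCl : 0 ≤ Cl) (hη : 0 ≤ η) (hs' : 0 < s')
    (hv : ∀ t t', s' ≤ t' → t' ≤ t → t ≤ r → t / 2 ≤ t' → ‖b t - b t'‖ ≤ Cl * e t)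
    (he : ∀ t, s' ≤ t → t ≤ r → e t ≤ 2 * (s' / t) ^ 2 * η) :
    ∀ n : ℕ, ∀ t, s' ≤ t → t ≤ r → r ≤ 2 ^ n * t → ‖b r - b t‖ ≤ 2 * Cl * η * (s' / t) ^ 2 := by
  intro n
  induction n with
  | zero =>
    intro t h1 h2 h3
    have : t = r := le_antisymm h2 (by simpa using h3)
    subst this
    have h0 : 0 < t := lt_of_lt_of_le hs' h1
    rw [sub_self, norm_zero]
    positivity
  | succ n ih =>
    intro t h1 h2 h3
    have h0 : 0 < t := lt_of_lt_of_le hs' h1
    rcases le_total r (2 * t) with h | h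
    · have h4 := hv r t h1 h2 le_rfl (by linarith)
      have h5 := he r (h1.trans h2) le_rfl
      have hr0 : 0 < r := lt_of_lt_of_le h0 h2
      have h6 : (s' / r) ^ 2 ≤ (s' / t) ^ 2 := by
        apply pow_le_pow_left₀ (by positivity)
        gcongr
      calc ‖b r - b t‖ ≤ Cl * e r := h4
        _ ≤ Cl * (2 * (s' / r) ^ 2 * η) := by gcongr
        _ ≤ Cl * (2 * (s' / t) ^ 2 * η) := by gcongr
        _ = _ := by ring
    · have h4 := ih (2 * t) (by linarith) h (by rw [pow_succ] at h3; linarith)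
      have h5 := hv (2 * t) t h1 (by linarith) h (by linarith)
      have h6 := he (2 * t) (by linarith) h
      have h7 : (s' / (2 * t)) ^ 2 = (s' / t) ^ 2 / 4 := by field_simp; ring
      rw [h7] at h4 h6
      have h8 : Cl * e (2 * t) ≤ Cl * (2 * ((s' / t) ^ 2 / 4) * η) := by gcongr
      have h9 : ‖b r - b t‖ ≤ ‖b r - b (2 * t)‖ + ‖b (2 * t) - b t‖ :=
        norm_sub_le_norm_sub_add_norm_sub _ _ _
      have h10 : 0 ≤ Cl * η * (s' / t) ^ 2 := by positivity
      nlinarith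

/-- one step of the chain: the columns over the next window are displaced by at most
`4 * Cl * e(next)` -/
lemma step {E : Type*} [NormedAddCommGroup E] {C : Set ℝ} {e : ℝ × ℝ → ℝ → ℝ}
    {b : ℝ × ℝ → ℝ → E} {b0 : E} {th Cl k κ s1 kW : ℝ} {p0 p p' : ℝ × ℝ} {s s' : ℝ}
    (hth : 0 < th) (hth1 : th < 1) (hCl : 0 ≤ Cl) (hκ : 0 < κ)
    (he : ∀ p s, 0 ≤ e p s ∧ e p s ≤ 1)
    (hvert : ∀ p s s', V b b0 s1 p0 k p s → infDist p.2 C ≤ κ * s → s / 2 ≤ s' → s' ≤ s →
      ‖b p s - b p s'‖ ≤ Cl * e p s)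
    (hlat : ∀ p p' s, V b b0 s1 p0 k p s → infDist p.2 C ≤ κ * s → dist p p' ≤ s →
      ‖b p s - b p' s‖ ≤ Cl * (dist p p' / s) * e p s)
    (hkW : kW ≤ k) (hW : V b b0 s1 p0 kW p s) (hgW : infDist p.2 C ≤ κ * s)
    (hW' : V b b0 s1 p0 k p' s') (hgW' : infDist p'.2 C ≤ κ * s')
    (hr : dist p p' ≤ s1)
    (hmax : ∀ p'' s'', V b b0 s1 p0 k p'' s'' →
      rho th p s p'' s'' * e p'' s'' ≤ 2 * (rho th p s p' s' * e p' s')) :
    V b b0 s1 p0 (kW + 4 * Cl * e p' s') p' s' := by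
  have s0 : 0 < s := hW.1
  have s'0 : 0 < s' := hW'.1
  set r := rr p s p' s' with hrdef
  have r0 : 0 < r := rr_pos _ _ s0
  have rs1 : r ≤ s1 := max_le (max_le hW.2.1 hW'.2.1) hr
  have a1 : s ≤ r := le_rr_left _ _ _ _
  have a2 : s' ≤ r := le_rr_right _ _ _ _
  have a3 : dist p p' ≤ r := dist_le_rr _ _ _ _
  have erho : rho th p s p' s' = (s / r) ^ th * (s' / r) ^ 2 := rfl
  have hη := he p' s'
  -- column over `p`, scales above `r`
  have up : ∀ t, r ≤ t → t ≤ s1 → e p t ≤ 2 * (t / r) ^ th * e p' s' := by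
    intro t h1 h2
    have t0 : 0 < t := lt_of_lt_of_le r0 h1
    have h3 := hmax p t (V_up hW hkW (a1.trans h1) h2)
    have h4 : rr p s p t ≤ t := by
      refine max_le (max_le (a1.trans h1) le_rfl) ?_
      rw [dist_self]; exact t0.le
    have h5 := le_rho (p := p) (p' := p) hth.le s0 t0 h4
    rw [div_self t0.ne', one_pow, mul_one] at h5
    have h6 : (s' / r) ^ 2 ≤ 1 := by
      apply pow_le_one₀ (by positivity)
      rw [div_le_one r0]; exact a2
    have h7 : (s / t) ^ th * e p t ≤ 2 * ((s / r) ^ th * e p' s') := by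
      calc (s / t) ^ th * e p t ≤ rho th p s p t * e p t :=
            mul_le_mul_of_nonneg_right h5 (he p t).1
        _ ≤ 2 * (rho th p s p' s' * e p' s') := h3
        _ ≤ 2 * ((s / r) ^ th * e p' s') := by
            rw [erho]
            have h8 : 0 ≤ (s / r) ^ th * e p' s' := mul_nonneg (by positivity) hη.1
            nlinarith
    have h8 : (s / r) ^ th = (t / r) ^ th * (s / t) ^ th := by
      rw [← Real.mul_rpow (by positivity) (by positivity)]
      congr 1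
      field_simp
    have h9 : 0 < (s / t) ^ th := by positivity
    rw [h8] at h7
    have h10 : (s / t) ^ th * e p t ≤ (s / t) ^ th * (2 * (t / r) ^ th * e p' s') := by
      linarith [h7, show (s / t) ^ th * (2 * (t / r) ^ th * e p' s')
        = 2 * ((t / r) ^ th * (s / t) ^ th * e p' s') by ring]
    exact le_of_mul_le_mul_left h10 h9
  -- column over `p'`, scales between `s'` and `r`
  have down : ∀ t, s' ≤ t → t ≤ r → e p' t ≤ 2 * (s' / t) ^ 2 * e p' s' := by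
    intro t h1 h2
    have t0 : 0 < t := lt_of_lt_of_le s'0 h1
    have h3 := hmax p' t (V_up hW' le_rfl h1 (h2.trans rs1))
    have h4 : rr p s p' t ≤ r := max_le (max_le a1 h2) a3
    have h5 := le_rho (p := p) (p' := p') hth.le s0 t0 h4
    have h7 : (s / r) ^ th * (t / r) ^ 2 * e p' t ≤ 2 * ((s / r) ^ th * (s' / r) ^ 2 * e p' s') := by
      calc (s / r) ^ th * (t / r) ^ 2 * e p' t ≤ rho th p s p' t * e p' t :=
            mul_le_mul_of_nonneg_right h5 (he p' t).1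
        _ ≤ 2 * (rho th p s p' s' * e p' s') := h3
        _ = _ := by rw [erho]
    have h9 : 0 < (s / r) ^ th * (t / r) ^ 2 := by positivity
    have h10 : (s / r) ^ th * (t / r) ^ 2 * e p' t
        ≤ (s / r) ^ th * (t / r) ^ 2 * (2 * (s' / t) ^ 2 * e p' s') := by
      have : (s / r) ^ th * (t / r) ^ 2 * (2 * (s' / t) ^ 2 * e p' s')
          = 2 * ((s / r) ^ th * (s' / r) ^ 2 * e p' s') := by field_simp
      linarith
    exact le_of_mul_le_mul_left h10 h9
  -- lateral displacement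
  have lat : ∀ t, r ≤ t → t ≤ s1 → ‖b p t - b p' t‖ ≤ 2 * Cl * e p' s' := by
    intro t h1 h2
    have t0 : 0 < t := lt_of_lt_of_le r0 h1
    have h3 := hlat p p' t (V_up hW hkW (a1.trans h1) h2)
      (hgW.trans (by have := a1.trans h1; nlinarith)) (a3.trans h1)
    have h4 := up t h1 h2
    have h5 : dist p p' / t ≤ r / t := by gcongr
    have h6 : r / t * (t / r) ^ th ≤ 1 := by
      have q : 1 ≤ t / r := by rw [one_le_div r0]; exact h1
      have q2 : (t / r) ^ th ≤ (t / r) ^ (1 : ℝ) := Real.rpow_le_rpow_of_exponent_le q hth1.le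
      rw [Real.rpow_one] at q2
      calc r / t * (t / r) ^ th ≤ r / t * (t / r) := by gcongr
        _ = 1 := by field_simp
    calc ‖b p t - b p' t‖ ≤ Cl * (dist p p' / t) * e p t := h3
      _ ≤ Cl * (r / t) * (2 * (t / r) ^ th * e p' s') := by
          have := (he p t).1
          gcongr
      _ = 2 * Cl * e p' s' * (r / t * (t / r) ^ th) := by ring
      _ ≤ 2 * Cl * e p' s' * 1 := by
          have := hη.1
          gcongr
      _ = _ := by ring
  refine ⟨s'0, hW'.2.1, hW'.2.2.1, ?_⟩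
  intro t h1 h2
  have t0 : 0 < t := lt_of_lt_of_le s'0 h1
  rcases le_total r t with h | h
  · have h3 := lat t h h2
    have h4 := hW.2.2.2 t (a1.trans h) h2
    have h5 : ‖b p' t - b0‖ ≤ ‖b p' t - b p t‖ + ‖b p t - b0‖ := norm_sub_le_norm_sub_add_norm_sub _ _ _
    rw [norm_sub_rev] at h3
    have h6 : 0 ≤ Cl * e p' s' := mul_nonneg hCl hη.1
    linarith
  · have h3 := lat r le_rfl rs1
    have h4 := hW.2.2.2 r a1 rs1
    obtain ⟨n, hn⟩ := pow_unbounded_of_one_lt (r / t) (show (1 : ℝ) < 2 by norm_num)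
    have h5 := descent (b := b p') (e := e p') hCl hη.1 s'0
      (fun u v hu1 hu2 hu3 hu4 => hvert p' u v (V_up hW' le_rfl (hu1.trans hu2) (hu3.trans rs1))
        (hgW'.trans (by have := hu1.trans hu2; nlinarith)) hu4 hu2) down n t h1 h
      (by rw [div_lt_iff₀ t0] at hn; exact hn.le)
    have h6 : (s' / t) ^ 2 ≤ 1 := by
      apply pow_le_one₀ (by positivity)
      rw [div_le_one t0]; exact h1
    have h7 : 0 ≤ Cl * e p' s' := mul_nonneg hCl hη.1
    have h8 : ‖b p' r - b p' t‖ ≤ 2 * Cl * e p' s' := by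
      refine h5.trans ?_
      nlinarith
    have h9 : ‖b p' t - b0‖ ≤ ‖b p' t - b p' r‖ + ‖b p' r - b p r‖ + ‖b p r - b0‖ := by
      calc ‖b p' t - b0‖ = ‖(b p' t - b p' r) + (b p' r - b p r) + (b p r - b0)‖ := by
            congr 1; abel
        _ ≤ _ := norm_add₃_le
    rw [norm_sub_rev] at h3 h8
    linarith

/-- **The chain lemma.** -/
theorem chain {E : Type*} [NormedAddCommGroup E] {C : Set ℝ} {e : ℝ × ℝ → ℝ → ℝ}
    {b : ℝ × ℝ → ℝ → E} {b0 : E} {th Cl k κ A ε s1 : ℝ} {p0 : ℝ × ℝ}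
    (hth : 0 < th) (hth1 : th < 1) (hCl : 0 ≤ Cl) (hκ : 0 < κ) (hA : 16 ≤ A)
    (hε : 32 * Cl * ε ≤ k) (hε1 : ε < 1)
    (he : ∀ p s, 0 ≤ e p s ∧ e p s ≤ 1)
    (hsmall : ∀ p s, V b b0 s1 p0 k p s → infDist p.2 C ≤ κ * s → e p s ≤ ε)
    (hvert : ∀ p s s', V b b0 s1 p0 k p s → infDist p.2 C ≤ κ * s → s / 2 ≤ s' → s' ≤ s →
      ‖b p s - b p s'‖ ≤ Cl * e p s)
    (hlat : ∀ p p' s, V b b0 s1 p0 k p s → infDist p.2 C ≤ κ * s → dist p p' ≤ s →
      ‖b p s - b p' s‖ ≤ Cl * (dist p p' / s) * e p s)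
    (hrec : ∀ p s, V b b0 s1 p0 (3 * k / 4) p s → infDist p.2 C ≤ κ * s → dist p p0 ≤ s1 / 2 →
      (s / s1) ^ th ≤ e p s →
      ∃ p' s', V b b0 s1 p0 k p' s' ∧ A * e p s < rho th p s p' s' * e p' s') :
    ∀ n : ℕ, ∀ p s, V b b0 s1 p0 k p s → V b b0 s1 p0 (k / 2 + 8 * Cl * e p s) p s →
      infDist p.2 C ≤ κ * s → dist p p0 ≤ s1 / 2 → 1 ≤ 2 ^ n * e p s →
      e p s ≤ (s / s1) ^ th ∨ ∃ p' s', V b b0 s1 p0 k p' s' ∧
        (κ * s' < infDist p'.2 C ∨ s1 / 2 < dist p' p0) ∧ e p s ≤ rho th p s p' s' := by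
  intro n
  induction n with
  | zero =>
    intro p s hVk hV hg hd hn
    have := hsmall p s hVk hg
    rw [pow_zero, one_mul] at hn
    exact absurd (hn.trans this) (not_le.2 hε1)
  | succ n ih =>
    intro p s hVk hV hg hd hn
    have s0 : 0 < s := hV.1
    have hes := he p s
    have heps := hsmall p s hVk hg
    have hCe : Cl * e p s ≤ Cl * ε := mul_le_mul_of_nonneg_left heps hCl
    have hk2 : k / 2 + 8 * Cl * e p s ≤ 3 * k / 4 := by linarith
    have hk1 : k / 2 + 8 * Cl * e p s ≤ k := by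
      have : 0 ≤ Cl * e p s := mul_nonneg hCl hes.1
      linarith
    by_cases hsm : (s / s1) ^ th ≤ e p s
    swap
    · exact Or.inl (not_le.1 hsm).le
    obtain ⟨p1, t1, hV1, h1⟩ := hrec p s (V_up hV hk2 le_rfl hV.2.1) hg hd hsm
    have hpos : 0 < rho th p s p1 t1 * e p1 t1 :=
      lt_of_le_of_lt (mul_nonneg (by linarith) hes.1) h1
    obtain ⟨p', s', hV', h2, hmax⟩ := exists_near_max (P := V b b0 s1 p0 k) hth.le s0
      (fun _ _ h => h.1) he hV1 hpos
    have hes' := he p' s'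
    have s'0 : 0 < s' := hV'.1
    have hr1 := rho_le_one (p := p) (p' := p') hth.le s0 s'0
    have hr0 := rho_pos (th := th) (p := p) (p' := p') s0 s'0
    have hmain : e p s ≤ rho th p s p' s' * e p' s' / 8 := by nlinarith
    by_cases hterm : κ * s' < infDist p'.2 C ∨ s1 / 2 < dist p' p0
    · refine Or.inr ⟨p', s', hV', hterm, ?_⟩
      nlinarith
    · push_neg at hterm
      obtain ⟨hg', hd'⟩ := hterm
      have hdd : dist p p' ≤ s1 := by
        calc dist p p' ≤ dist p p0 + dist p' p0 := dist_triangle_right _ _ _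
          _ ≤ s1 := by linarith
      have hst := step hth hth1 hCl hκ he hvert hlat hk1 hV hg hV' hg' hdd hmax
      have hee : e p s ≤ e p' s' / 8 := by nlinarith
      have hCee : Cl * e p s ≤ Cl * (e p' s' / 8) := mul_le_mul_of_nonneg_left hee hCl
      have hCe' : 0 ≤ Cl * e p' s' := mul_nonneg hCl hes'.1
      have hVn : V b b0 s1 p0 (k / 2 + 8 * Cl * e p' s') p' s' :=
        V_up hst (by linarith) le_rfl hst.2.1
      have hn' : 1 ≤ 2 ^ n * e p' s' := by
        rw [pow_succ] at hn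
        have : (0 : ℝ) < 2 ^ n := by positivity
        nlinarith
      rcases ih p' s' hV' hVn hg' hd' hn' with h | ⟨p'', s'', hV'', ht'', h''⟩
      · left
        have h3 := rho_le (p := p) (p' := p') hth.le s0 s'0
        set r := rr p s p' s' with hr
        have r0 : 0 < r := rr_pos _ _ s0
        have hs1 : 0 < s1 := lt_of_lt_of_le s0 hV.2.1
        have h4 : (s / r) ^ th * (s' / s1) ^ th ≤ (s / s1) ^ th := by
          rw [← Real.mul_rpow (by positivity) (by positivity)]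
          apply Real.rpow_le_rpow (by positivity) _ hth.le
          rw [show s / r * (s' / s1) = (s / s1) * (s' / r) by field_simp]
          have : s' / r ≤ 1 := by rw [div_le_one r0]; exact le_rr_right _ _ _ _
          have h0 : 0 ≤ s / s1 := by positivity
          nlinarith
        have h5 : rho th p s p' s' * e p' s' ≤ (s / r) ^ th * (s' / s1) ^ th :=
          mul_le_mul h3 h hes'.1 (by positivity)
        have h6 : 0 ≤ rho th p s p' s' * e p' s' := mul_nonneg hr0.le hes'.1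
        linarith
      · right
        refine ⟨p'', s'', hV'', ht'', ?_⟩
        have h3 := rho_mul (p := p) (p' := p') (p'' := p'') hth.le hth1.le s0 s'0 hV''.1
        have h4 : rho th p s p' s' * e p' s' ≤ rho th p s p' s' * rho th p' s' p'' s'' :=
          mul_le_mul_of_nonneg_left h'' hr0.le
        linarith

end Crest.Agent.R102.Chain859
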