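import Mathlib

/-!
(copy of `H3DER_703` (helper703) with `import Mathlib` only, to avoid the name clash
`H3.Chain` of `H3Defs_337` / `Inner_575`.)

Row 102, [H3], leaf **DER** (helper703): in characteristic zero a transcendental element has a
derivation not killing it.
-/

set_option autoImplicit false

noncomputable section

open TensorProduct KaehlerDifferential

namespace Crest.Agent.R102.DerX575

/-- derivations extend along formally étale algebras -/
theorem extend {R S T : Type} [CommRing R] [CommRing S] [CommRing T] [Algebra R S] [Algebra R T]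
    [Algebra S T] [IsScalarTower R S T] [Algebra.FormallyEtale S T] (D₀ : Derivation R S T) :
    ∃ D : Derivation R T T, ∀ s : S, D (algebraMap S T s) = D₀ s := by
  classical
  let L : T ⊗[S] Ω[S⁄R] →ₗ[T] T := D₀.liftKaehlerDifferential.liftBaseChange T
  let F : Ω[T⁄R] →ₗ[T] T := L ∘ₗ (tensorKaehlerEquivOfFormallyEtale R S T).symm.toLinearMap
  refine ⟨F.compDer (D R T), fun s => ?_⟩
  have h1 : (tensorKaehlerEquivOfFormallyEtale R S T).symm (D R T (algebraMap S T s)) =
      1 ⊗ₜ D R S s := tensorKaehlerEquivOfFormallyEtale_symm_D_algebraMap R S T s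
  show F (D R T (algebraMap S T s)) = D₀ s
  show L ((tensorKaehlerEquivOfFormallyEtale R S T).symm (D R T (algebraMap S T s))) = D₀ s
  rw [h1]
  simp [L]

open scoped IntermediateField.algebraAdjoinAdjoin in
theorem der {k K : Type} [Field k] [Field K] [Algebra k K] [CharZero k] {ι : Type} (v : ι → K)
    (hv : IsTranscendenceBasis k v) (i : ι) :
    ∃ D : Derivation k K K, D (v i) = 1 := by
  classical
  have hind := hv.1
  set A := Algebra.adjoin k (Set.range v) with hA
  set F := IntermediateField.adjoin k (Set.range v) with hF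
  have e1 : Algebra.FormallyEtale A F := Algebra.FormallyEtale.of_isLocalization (nonZeroDivisors _)
  have halg : Algebra.IsAlgebraic F K := hv.isAlgebraic_field
  have : CharZero F := charZero_of_injective_algebraMap (algebraMap k F).injective
  have hsep : Algebra.IsSeparable F K := inferInstance
  have e2 : Algebra.FormallyEtale F K := Algebra.FormallyEtale.of_isSeparable F K
  have e3 : Algebra.FormallyEtale A K := Algebra.FormallyEtale.comp A F K
  -- the derivation `∂ / ∂ v i` on `A`
  let e : MvPolynomial ι k ≃ₐ[k] A := hind.aevalEquiv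
  let δ : Derivation k (MvPolynomial ι k) (MvPolynomial ι k) := MvPolynomial.pderiv i
  let Δ : A →ₗ[k] K := (Algebra.linearMap A K).restrictScalars k ∘ₗ e.toLinearMap ∘ₗ
    (δ : MvPolynomial ι k →ₗ[k] MvPolynomial ι k) ∘ₗ e.symm.toLinearMap
  have hΔ : ∀ a : A, Δ a = algebraMap A K (e (δ (e.symm a))) := fun a => rfl
  let D₀ : Derivation k A K :=
    { toLinearMap := Δ
      map_one_eq_zero' := by
        rw [hΔ]
        simp
      leibniz' := by
        intro a b
        rw [hΔ, hΔ, hΔ, map_mul, Derivation.leibniz]
        simp only [map_add, smul_eq_mul, map_mul, AlgEquiv.apply_symm_apply]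
        simp only [Algebra.smul_def] }
  obtain ⟨D, hD⟩ := extend (R := k) (S := A) (T := K) D₀
  refine ⟨D, ?_⟩
  have h1 : algebraMap A K (e (MvPolynomial.X i)) = v i := by
    rw [show e = hind.aevalEquiv from rfl, AlgebraicIndependent.algebraMap_aevalEquiv]
    simp
  rw [← h1, hD]
  show Δ (e (MvPolynomial.X i)) = 1
  rw [hΔ]
  simp [δ]

/-- **DER** -/
theorem leafDER (k K : Type) [Field k] [Field K] [Algebra k K] [CharZero k] (x : K)
    (hx : Transcendental k x) : ∃ D : Derivation k K K, D x = 1 := by
  have h0 : AlgebraicIndepOn k id ({x} : Set K) := by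
    have h := (algebraicIndependent_singleton_iff (R := k)
      (x := fun y : ({x} : Set K) => id (y : K)) ⟨x, rfl⟩).mpr hx
    exact h
  obtain ⟨t, ht, hb⟩ := exists_isTranscendenceBasis_superset h0
  obtain ⟨D, hD⟩ := der (fun y : t => (y : K)) hb ⟨x, ht rfl⟩
  exact ⟨D, hD⟩

end Crest.Agent.R102.DerX575
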