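import Crest.Agent.R102.TransA_575
import Crest.Agent.R102.Psi_867

/-!
Row 102, part (C), leaf H3, CT: the choice of the deformation.  From the output of `Psi867.psi`
at one point we get a deformation `ψ` and deformed mirrors `Φ j : A₀ → (Hol V)⟦ε⟧` with pairwise
distinct nonzero first variations `coeff 1 (Φ j g₀)`.
-/

set_option linter.unusedSectionVars false
set_option autoImplicit false

namespace Crest.Agent.R102.CT575

open H3 PowerSeries Finset TopologicalSpace Metric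

noncomputable section

section lin

/-- avoid finitely many proper conditions -/
theorem exists_avoid {E F ι : Type*} [AddCommGroup E] [Module ℂ E] [AddCommGroup F] [Module ℂ F]
    (s : Finset ι) (T : ι → (E →ₗ[ℂ] F)) (hT : ∀ i ∈ s, T i ≠ 0) : ∃ d, ∀ i ∈ s, T i d ≠ 0 := by
  classical
  by_contra hcon
  push Not at hcon
  have h1 : ⋃ p ∈ s.image (fun i => LinearMap.ker (T i)), (p : Set E) = Set.univ := by
    rw [Set.eq_univ_iff_forall]
    intro d
    obtain ⟨i, hi, hd⟩ := hcon d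
    simp only [Finset.mem_image, Set.iUnion_exists, Set.mem_iUnion]
    exact ⟨LinearMap.ker (T i), i, ⟨hi, rfl⟩, hd⟩
  refine Subspace.biUnion_ne_univ_of_top_notMem (k := ℂ) (E := E) ?_ h1
  simp only [Finset.mem_image, not_exists, not_and]
  intro i hi htop
  exact hT i hi (LinearMap.ker_eq_top.1 htop)

end lin

section pt1

variable {H : Type*} [CommRing H] [Algebra ℂ H]

/-- first order expansion of `pt` -/
theorem coeff_one_pt (d : Derivation ℂ H H) (φ : H →+* ℂ⟦X⟧) {y : ℂ⟦X⟧} (hy : X ∣ y) (f : H) :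
    coeff 1 (pt d φ y hy f) = coeff 1 (φ f) + coeff 1 y * constantCoeff (φ (d f)) := by
  obtain ⟨q, hq⟩ := pt_eq d φ hy f 2
  rw [hq, Finset.sum_range_succ, Finset.sum_range_one]
  obtain ⟨w, hw⟩ := hy
  simp only [dn_zero, dn_one, pow_zero, mul_one, pow_one]
  rw [hw]
  have e1 : (X * w) ^ 2 * q = X ^ 2 * (w ^ 2 * q) := by ring
  have e2 : φ (d f) * (X * w) = X * (φ (d f) * w) := by ring
  rw [e1, e2, map_add, map_add, coeff_X_pow_mul', if_neg (by norm_num), add_zero]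
  have e3 : ∀ F : ℂ⟦X⟧, coeff 1 (X * F) = constantCoeff F := fun F => by
    have := coeff_succ_X_mul 0 F
    simpa using this
  rw [e3, e3, map_mul, mul_comm (constantCoeff w)]

/-- `pt` as an algebra homomorphism -/
def ptA (d : Derivation ℂ H H) (φ : H →ₐ[ℂ] ℂ⟦X⟧) {y : ℂ⟦X⟧} (hy : X ∣ y) : H →ₐ[ℂ] ℂ⟦X⟧ :=
  { pt d (φ : H →+* ℂ⟦X⟧) y hy with
    commutes' := fun c => by
      change pt d (φ : H →+* ℂ⟦X⟧) y hy (algebraMap ℂ H c) = _
      rw [pt_const575 d _ hy (d.map_algebraMap c)]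
      exact φ.commutes c }

theorem ptA_apply (d : Derivation ℂ H H) (φ : H →ₐ[ℂ] ℂ⟦X⟧) {y : ℂ⟦X⟧} (hy : X ∣ y) (f : H) :
    ptA d φ hy f = pt d (φ : H →+* ℂ⟦X⟧) y hy f := rfl

end pt1

section choice

variable {c₀ : ℂ} {r : ℝ} {A A0 : Type} [CommRing A] [Algebra ℂ A] [CommRing A0] [Algebra ℂ A0]

/-- uniqueness: a compatible family vanishing at one point vanishes -/
theorem delta_zero {V : Opens ℂ} (hV : IsPreconnected (V : Set ℂ)) (b : V) {del : A0 → A0}
    (F : A0 → Hol V) (h1 : ∀ a, DH V (F a) = F (del a)) (h2 : ∀ a, evH b (F a) = 0) (a : A0) :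
    F a = 0 := by
  refine idt_H hV b (F a) fun n => ?_
  have h3 : ∀ n, (DH V)^[n] (F a) = F (del^[n] a) := by
    intro n
    induction n with
    | zero => rfl
    | succ n ih => rw [Function.iterate_succ_apply', ih, h1, Function.iterate_succ_apply']
  rw [h3]
  exact h2 _

theorem X_dvd_shift {φ : A0 →ₐ[ℂ] ℂ⟦X⟧} {z : A0} {b : ℂ} (h : constantCoeff (φ z) = b) :
    (X : ℂ⟦X⟧) ∣ C b - φ z := by
  rw [X_dvd_iff, map_sub, constantCoeff_C, h, sub_self]

/-- deformed mirror with a prescribed normalized germ -/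
theorem exists_mirror [Algebra.FiniteType ℂ A0] (b : bO c₀ r) {del : Derivation ℂ A0 A0}
    {z0 : A0} (hz : del z0 = 1) {ρ : A0 →ₐ[ℂ] Hol (bO c₀ r)}
    (hρ : ∀ a, ρ (del a) = DH _ (ρ a)) (hρz : ρ z0 = zH _)
    {φ : A0 →ₐ[ℂ] ℂ⟦X⟧} (hφ : ∀ a, constantCoeff (φ a) = evH b (ρ a))
    (hs : (X : ℂ⟦X⟧) ∣ C (b : ℂ) - φ z0) :
    ∃ Φ : A0 →ₐ[ℂ] (Hol (bO c₀ r))⟦X⟧, (∀ a, Φ (del a) = cD (DH _) (Φ a)) ∧
      (∀ a, constantCoeff (Φ a) = ρ a) ∧ Φ z0 = C (zH _) ∧
      (∀ a, PowerSeries.map (evH b : Hol (bO c₀ r) →+* ℂ) (Φ a) = ptA del φ hs a) := by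
  obtain ⟨Φ, h1, h2, h3⟩ := exists_Phi_H b hρ (ψ := ptA del φ hs) (fun a => by
    rw [ptA_apply, constantCoeff_pt]
    exact hφ a)
  refine ⟨Φ, h1, h2, ?_, h3⟩
  ext1 n
  -- `coeff n (Φ z0) - coeff n (C z)` has zero derivative and vanishes at `b`
  rw [← sub_eq_zero]
  refine idt_H (bO_preconnected c₀ r) b _ fun k => ?_
  rcases k with _ | k
  · have h4 := congrArg (coeff n) (h3 z0)
    rw [ptA_apply, pt_coord del _ _ hz] at h4
    have h5 : (φ : A0 →+* ℂ⟦X⟧) z0 + (C (b : ℂ) - φ z0) = C (b : ℂ) := by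
      rw [RingHom.coe_coe]; ring
    rw [h5, coeff_map] at h4
    rw [Function.iterate_zero, id_eq, map_sub]
    have h6 : evH b (coeff n (C (zH (bO c₀ r)) : (Hol (bO c₀ r))⟦X⟧)) = coeff n (C (b : ℂ) : ℂ⟦X⟧) := by
      rw [coeff_C, coeff_C]
      split_ifs
      · rfl
      · exact map_zero _
    rw [h6, sub_eq_zero]
    exact h4
  · have h4 := congrArg (coeff n) (h1 z0)
    rw [hz, map_one, coeff_cD] at h4
    have h5 : DH (bO c₀ r) (coeff n (Φ z0) - coeff n (C (zH (bO c₀ r)))) = 0 := by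
      rw [map_sub, ← h4, sub_eq_zero, coeff_one, coeff_C]
      split_ifs
      · exact (DH_zH _).symm
      · exact (map_zero _).symm
    rw [Function.iterate_succ_apply, h5]
    have h6 : ∀ k, (DH (bO c₀ r))^[k] (0 : Hol (bO c₀ r)) = 0 := by
      intro k
      induction k with
      | zero => rfl
      | succ k ih => rw [Function.iterate_succ_apply', ih, map_zero]
    rw [h6, map_zero]

set_option maxHeartbeats 1000000 in
/-- **the choice of the deformation** -/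
theorem choice [Algebra.FiniteType ℂ A0] {N : ℕ} {m0 k0 : A} {t : ℕ → (A0 →ₐ[ℂ] A)}
    {ev : A →ₐ[ℂ] ℂ} {del : Derivation ℂ A0 A0} {z0 g0 : A0} (hz : del z0 = 1)
    {ρ : A0 →ₐ[ℂ] Hol (bO c₀ r)}
    (hρ : ∀ a, ρ (del a) = DH _ (ρ a)) (hρz : ρ z0 = zH _) (b : ℕ → bO c₀ r)
    (hb : ∀ j < N, ∀ a, ev (t j a) = evH (b j) (ρ a))
    (P1 : ∀ d, Psi867.TV m0 k0 ev d → ∃ ψ : A →ₐ[ℂ] ℂ⟦X⟧,
        (∀ a, constantCoeff (ψ a) = ev a ∧ coeff 1 (ψ a) = d a) ∧
        ψ m0 = C (ev m0) ∧ ψ k0 = C (ev k0))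
    (P2 : ∀ i < N, ∀ j < N, i ≠ j → ∃ d, Psi867.TV m0 k0 ev d ∧
        (∀ a, d (t i a) = ev (t i (del a)) * d (t i z0)) ∧
        d (t j g0) ≠ ev (t j (del g0)) * d (t j z0))
    (P3 : ∀ j < N, ∃ d, Psi867.TV m0 k0 ev d ∧ d (t j g0) ≠ ev (t j (del g0)) * d (t j z0)) :
    ∃ ψ : A →ₐ[ℂ] ℂ⟦X⟧, (∀ a, constantCoeff (ψ a) = ev a) ∧ ψ m0 = C (ev m0) ∧
      ψ k0 = C (ev k0) ∧ ∃ Φ : ℕ → (A0 →ₐ[ℂ] (Hol (bO c₀ r))⟦X⟧),
      (∀ j < N, (∀ a, Φ j (del a) = cD (DH _) (Φ j a)) ∧ (∀ a, constantCoeff (Φ j a) = ρ a) ∧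
        Φ j z0 = C (zH _) ∧ ∃ hs : (X : ℂ⟦X⟧) ∣ C (b j : ℂ) - ψ (t j z0), ∀ a,
        PowerSeries.map (evH (b j) : Hol (bO c₀ r) →+* ℂ) (Φ j a) =
          ptA del (ψ.comp (t j)) hs a) ∧
      (∀ i < N, ∀ j < N, i ≠ j → coeff 1 (Φ i g0) ≠ coeff 1 (Φ j g0)) ∧
      (∀ j < N, coeff 1 (Φ j g0) ≠ 0) := by
  classical
  -- the space of admissible tangent vectors
  let TVs : Submodule ℂ (A →ₗ[ℂ] ℂ) :=
    { carrier := {d | Psi867.TV m0 k0 ev d}
      add_mem' := by
        rintro d d' ⟨h1, h2, h3⟩ ⟨h1', h2', h3'⟩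
        refine ⟨fun a b => ?_, ?_, ?_⟩
        · simp only [LinearMap.add_apply, h1, h1']; ring
        · simp only [LinearMap.add_apply, h2, h2', add_zero]
        · simp only [LinearMap.add_apply, h3, h3', add_zero]
      zero_mem' := ⟨fun a b => by simp, by simp, by simp⟩
      smul_mem' := by
        rintro c d ⟨h1, h2, h3⟩
        refine ⟨fun a b => ?_, ?_, ?_⟩
        · simp only [LinearMap.smul_apply, h1, smul_eq_mul]; ring
        · simp only [LinearMap.smul_apply, h2, smul_zero]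
        · simp only [LinearMap.smul_apply, h3, smul_zero] }
  have hmem : ∀ d, d ∈ TVs ↔ Psi867.TV m0 k0 ev d := fun d => Iff.rfl
  choose ψ hψ using fun d : TVs => P1 d.1 d.2
  have hφ : ∀ (d : TVs) (j : ℕ), j < N → ∀ a, constantCoeff ((ψ d).comp (t j) a) =
      evH (b j) (ρ a) := by
    intro d j hj a
    rw [← hb j hj a]
    exact ((hψ d).1 (t j a)).1
  have hs : ∀ (d : TVs) (j : ℕ), j < N → (X : ℂ⟦X⟧) ∣ C (b j : ℂ) - ψ d (t j z0) := by
    intro d j hj
    refine X_dvd_shift (φ := (ψ d).comp (t j)) ?_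
    rw [hφ d j hj, hρz]
    rfl
  have hex : ∀ (d : TVs) (j : ℕ), ∃ Φ : A0 →ₐ[ℂ] (Hol (bO c₀ r))⟦X⟧, j < N →
      ((∀ a, Φ (del a) = cD (DH _) (Φ a)) ∧ (∀ a, constantCoeff (Φ a) = ρ a) ∧
        Φ z0 = C (zH _) ∧ ∃ hs : (X : ℂ⟦X⟧) ∣ C (b j : ℂ) - ψ d (t j z0), ∀ a,
        PowerSeries.map (evH (b j) : Hol (bO c₀ r) →+* ℂ) (Φ a) =
          ptA del ((ψ d).comp (t j)) hs a) := by
    intro d j
    by_cases hj : j < N
    · obtain ⟨Φ, h1, h2, h3, h4⟩ := exists_mirror (b j) hz hρ hρz (hφ d j hj) (hs d j hj)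
      exact ⟨Φ, fun _ => ⟨h1, h2, h3, hs d j hj, h4⟩⟩
    · exact ⟨{ (C : Hol (bO c₀ r) →+* _).comp (ρ : A0 →+* _) with
        commutes' := fun c => by
          change C (ρ (algebraMap ℂ A0 c)) = _
          rw [ρ.commutes, PowerSeries.algebraMap_apply] }, fun h => absurd h hj⟩
  choose Φ hΦ using hex
  -- values of the first variation at the base point
  have hval : ∀ (d : TVs) (j : ℕ), j < N → ∀ a, evH (b j) (coeff 1 (Φ d j a)) =
      d.1 (t j a) - d.1 (t j z0) * ev (t j (del a)) := by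
    intro d j hj a
    obtain ⟨h1, h2, h3, h4, h5⟩ := hΦ d j hj
    have h6 := congrArg (coeff 1) (h5 a)
    rw [coeff_map, ptA_apply, coeff_one_pt] at h6
    have h7 : coeff 1 (((ψ d).comp (t j) : A0 →ₐ[ℂ] ℂ⟦X⟧) a) = d.1 (t j a) :=
      ((hψ d).1 (t j a)).2
    have h8 : coeff 1 (C (b j : ℂ) - ψ d (t j z0)) = - d.1 (t j z0) := by
      rw [map_sub, ((hψ d).1 (t j z0)).2, coeff_C, if_neg one_ne_zero, zero_sub]
    have h9 : constantCoeff (((ψ d).comp (t j) : A0 →ₐ[ℂ] ℂ⟦X⟧) (del a)) = ev (t j (del a)) :=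
      ((hψ d).1 (t j (del a))).1
    rw [RingHom.coe_coe] at h6
    rw [RingHom.coe_coe, h7, h8, h9] at h6
    rw [h6]; ring
  have hder : ∀ (d : TVs) (j : ℕ), j < N → ∀ a, DH _ (coeff 1 (Φ d j a)) =
      coeff 1 (Φ d j (del a)) := by
    intro d j hj a
    rw [(hΦ d j hj).1, coeff_cD]
  -- linearity
  let T : ℕ → (TVs →ₗ[ℂ] Hol (bO c₀ r)) := fun j => if hj : j < N then
    { toFun := fun d => coeff 1 (Φ d j g0)
      map_add' := by
        intro d d'
        have h := delta_zero (bO_preconnected c₀ r) (b j) (del := del)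
          (fun a => coeff 1 (Φ (d + d') j a) - (coeff 1 (Φ d j a) + coeff 1 (Φ d' j a)))
          (fun a => by simp only [map_sub, map_add, hder _ j hj])
          (fun a => by
            simp only [map_sub, map_add, hval _ j hj]
            simp only [Submodule.coe_add, LinearMap.add_apply]
            ring) g0
        exact sub_eq_zero.1 h
      map_smul' := by
        intro c d
        have h := delta_zero (bO_preconnected c₀ r) (b j) (del := del)
          (fun a => coeff 1 (Φ (c • d) j a) - c • coeff 1 (Φ d j a))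
          (fun a => by
            simp only [map_sub, hder _ j hj]
            rw [Derivation.map_smul, hder _ j hj])
          (fun a => by
            simp only [map_sub, map_smul, hval _ j hj]
            simp only [Submodule.coe_smul, LinearMap.smul_apply, smul_eq_mul]
            ring) g0
        exact sub_eq_zero.1 h } else 0
  have hT : ∀ j (_ : j < N) d, T j d = coeff 1 (Φ d j g0) := by
    intro j hj d
    simp only [T, dif_pos hj]
    rfl
  have hT0 : ∀ j < N, T j ≠ 0 := by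
    intro j hj h0
    obtain ⟨d, hd, hd2⟩ := P3 j hj
    have h1 : T j ⟨d, hd⟩ = 0 := by rw [h0]; rfl
    rw [hT j hj] at h1
    have h2 := hval ⟨d, hd⟩ j hj g0
    rw [h1, map_zero] at h2
    apply hd2
    simp only at h2
    linear_combination -h2
  have hTij : ∀ i < N, ∀ j < N, i ≠ j → T i - T j ≠ 0 := by
    intro i hi j hj hij h0
    obtain ⟨d, hd, hdi, hdj⟩ := P2 i hi j hj hij
    have h1 : T i ⟨d, hd⟩ = T j ⟨d, hd⟩ := by
      have := congrArg (fun F : TVs →ₗ[ℂ] Hol (bO c₀ r) => F ⟨d, hd⟩) h0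
      simp only [LinearMap.sub_apply, LinearMap.zero_apply] at this
      exact sub_eq_zero.1 this
    have h2 : coeff 1 (Φ ⟨d, hd⟩ i g0) = 0 := by
      refine delta_zero (bO_preconnected c₀ r) (b i) (del := del)
        (fun a => coeff 1 (Φ ⟨d, hd⟩ i a)) (fun a => hder _ i hi a) (fun a => ?_) g0
      rw [hval _ i hi, hdi a]
      ring
    rw [hT i hi, hT j hj, h2] at h1
    have h3 := hval ⟨d, hd⟩ j hj g0
    rw [← h1, map_zero] at h3
    apply hdj
    simp only at h3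
    linear_combination -h3
  -- avoid
  let s : Finset (ℕ × ℕ) := (range N ×ˢ range (N + 1)).filter (fun p => p.1 ≠ p.2)
  let S : ℕ × ℕ → (TVs →ₗ[ℂ] Hol (bO c₀ r)) := fun p => if p.2 < N then T p.1 - T p.2 else T p.1
  obtain ⟨d, hd⟩ := exists_avoid s S (fun p hp => by
    simp only [s, Finset.mem_filter, Finset.mem_product, Finset.mem_range] at hp
    obtain ⟨⟨h1, h2⟩, h3⟩ := hp
    simp only [S]
    split_ifs with h
    · exact hTij _ h1 _ h h3
    · exact hT0 _ h1)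
  refine ⟨ψ d, fun a => ((hψ d).1 a).1, (hψ d).2.1, (hψ d).2.2, Φ d, fun j hj => hΦ d j hj,
    fun i hi j hj hij h => ?_, fun j hj h => ?_⟩
  · have h1 := hd (i, j) (by
      simp only [s, Finset.mem_filter, Finset.mem_product, Finset.mem_range]
      exact ⟨⟨hi, by omega⟩, hij⟩)
    apply h1
    simp only [S, if_pos hj, LinearMap.sub_apply]
    rw [hT i hi, hT j hj, h, sub_self]
  · have h1 := hd (j, N) (by
      simp only [s, Finset.mem_filter, Finset.mem_product, Finset.mem_range]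
      exact ⟨⟨hj, by omega⟩, by omega⟩)
    apply h1
    simp only [S, lt_irrefl, if_false]
    rw [hT j hj, h]

end choice

end

end Crest.Agent.R102.CT575
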