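import Mathlib

/-!
Row 102, T1-E, (E3): **the climb** (abstract, jointly in `(t, w)`).

`E (z, e)` = step map (`X (t + w) = X t + E (X t, X t - X (t - w))`), nearly the identity:
`‖E (z, e) - e‖ ≤ C ‖e‖⁴ d (Im z)`.  A leaf function `X₀ (t, w)` known for `|Im t| < ρ`, `w ∈ W`
(`Im w > 0`) extends to `-ρ < Im t < hh w`, with the bounds
`‖X (t, w) - X (t - w, w) - w‖ ≤ α w (Im t)`, `‖X (t, w) - t‖ ≤ β w (Im t)`, as soon as
`α w τ + 16 C ‖w‖⁴ d (τ + s) ≤ α w (τ + Im w)`, `β w τ + α w (τ + Im w) ≤ β w (τ + Im w)`,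
`α ≤ ‖w‖`, `β ≤ s`.
-/

set_option autoImplicit false
set_option linter.unusedVariables false

open Set Filter Topology Metric

noncomputable section

namespace Crest.Agent.R102.Climb350

/-- the data of the climb -/
structure Data (W : Set ℂ) (hh : ℂ → ℝ) (ρ s ε' C : ℝ) (d : ℝ → ℝ) (E : ℂ × ℂ → ℂ) (Z : Set ℂ)
    (α β : ℂ → ℝ → ℝ) : Prop where
  W_open : IsOpen W
  hh_cont : ContinuousOn hh W
  W_im : ∀ w ∈ W, 0 < w.im
  W_small : ∀ w ∈ W, w.im < ρ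
  W_eps : ∀ w ∈ W, 2 * ‖w‖ < ε'
  ρ_pos : 0 < ρ
  C_nn : 0 ≤ C
  d_mono : Monotone d
  d_nn : ∀ τ, 0 ≤ d τ
  Z_open : IsOpen Z
  Z_mem : ∀ w ∈ W, ∀ z : ℂ, -ρ - s < z.im → z.im < hh w + s → z ∈ Z
  E_diff : DifferentiableOn ℂ E (Z ×ˢ ball 0 ε')
  E_near : ∀ z ∈ Z, ∀ e : ℂ, ‖e‖ < ε' → ‖E (z, e) - e‖ ≤ C * ‖e‖ ^ 4 * d z.im
  rec_α : ∀ w ∈ W, ∀ τ : ℝ, -ρ < τ → τ + w.im < hh w →
    α w τ + 16 * C * ‖w‖ ^ 4 * d (τ + s) ≤ α w (τ + w.im)
  rec_β : ∀ w ∈ W, ∀ τ : ℝ, -ρ < τ → τ + w.im < hh w → β w τ + α w (τ + w.im) ≤ β w (τ + w.im)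
  α_le : ∀ w ∈ W, ∀ τ : ℝ, -ρ < τ → τ < hh w → α w τ ≤ ‖w‖
  β_le : ∀ w ∈ W, ∀ τ : ℝ, -ρ < τ → τ < hh w → β w τ < s

/-- the domain -/
def Om (W : Set ℂ) (hh : ℂ → ℝ) (ρ : ℝ) : Set (ℂ × ℂ) :=
  {p | p.2 ∈ W ∧ -ρ < p.1.im ∧ p.1.im < hh p.2}

/-- leaf on a set -/
structure Leaf (E : ℂ × ℂ → ℂ) (α β : ℂ → ℝ → ℝ) (S : Set (ℂ × ℂ)) (X : ℂ × ℂ → ℂ) : Prop where
  diff : DifferentiableOn ℂ X S
  near : ∀ t w : ℂ, (t, w) ∈ S → ‖X (t, w) - t‖ ≤ β w t.im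
  step : ∀ t w : ℂ, (t, w) ∈ S → (t - w, w) ∈ S → ‖X (t, w) - X (t - w, w) - w‖ ≤ α w t.im
  law : ∀ t w : ℂ, (t, w) ∈ S → (t - w, w) ∈ S → (t - 2 * w, w) ∈ S →
    X (t, w) = X (t - w, w) + E (X (t - w, w), X (t - w, w) - X (t - 2 * w, w))

variable {W : Set ℂ} {hh : ℂ → ℝ} {ρ s ε' C : ℝ} {d : ℝ → ℝ} {E : ℂ × ℂ → ℂ} {Z : Set ℂ}
  {α β : ℂ → ℝ → ℝ} {X₀ : ℂ × ℂ → ℂ}

/-- the domain after `n` steps -/
def OmN (W : Set ℂ) (hh : ℂ → ℝ) (ρ : ℝ) (n : ℕ) : Set (ℂ × ℂ) :=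
  {p | p ∈ Om W hh ρ ∧ p.1.im < ρ + n * p.2.im}

lemma Data.isOpen_Om (D : Data W hh ρ s ε' C d E Z α β) : IsOpen (Om W hh ρ) := by
  have h1 : IsOpen {p : ℂ × ℂ | p.2 ∈ W} := D.W_open.preimage continuous_snd
  have h2 : IsOpen {p : ℂ × ℂ | -ρ < p.1.im} :=
    isOpen_lt continuous_const (Complex.continuous_im.comp continuous_fst)
  have h3 : ContinuousOn (fun p : ℂ × ℂ => hh p.2 - p.1.im) {p : ℂ × ℂ | p.2 ∈ W} :=
    (D.hh_cont.comp continuousOn_snd (fun p hp => hp)).sub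
      (Complex.continuous_im.comp continuous_fst).continuousOn
  have h4 : IsOpen ({p : ℂ × ℂ | p.2 ∈ W} ∩ (fun p : ℂ × ℂ => hh p.2 - p.1.im) ⁻¹' Ioi 0) :=
    h3.isOpen_inter_preimage h1 isOpen_Ioi
  have h5 : Om W hh ρ = ({p : ℂ × ℂ | p.2 ∈ W} ∩ (fun p : ℂ × ℂ => hh p.2 - p.1.im) ⁻¹' Ioi 0) ∩
      {p : ℂ × ℂ | -ρ < p.1.im} := by
    ext p
    show (p.2 ∈ W ∧ -ρ < p.1.im ∧ p.1.im < hh p.2) ↔
      ((p.2 ∈ W ∧ 0 < hh p.2 - p.1.im) ∧ -ρ < p.1.im)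
    rw [sub_pos]
    tauto
  rw [h5]
  exact h4.inter h2

lemma Data.isOpen_OmN (D : Data W hh ρ s ε' C d E Z α β) (n : ℕ) : IsOpen (OmN W hh ρ n) := by
  have : OmN W hh ρ n = Om W hh ρ ∩ {p | p.1.im < ρ + n * p.2.im} := rfl
  rw [this]
  refine D.isOpen_Om.inter (isOpen_lt ?_ ?_)
  · exact Complex.continuous_im.comp continuous_fst
  · exact continuous_const.add (continuous_const.mul (Complex.continuous_im.comp continuous_snd))

/-- the value forced by the law -/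
def nxt (E : ℂ × ℂ → ℂ) (X : ℂ × ℂ → ℂ) (p : ℂ × ℂ) : ℂ :=
  X (p.1 - p.2, p.2) + E (X (p.1 - p.2, p.2), X (p.1 - p.2, p.2) - X (p.1 - 2 * p.2, p.2))

/-- the iterates -/
def Xs (E : ℂ × ℂ → ℂ) (X₀ : ℂ × ℂ → ℂ) (ρ : ℝ) : ℕ → ℂ × ℂ → ℂ
  | 0 => X₀
  | n + 1 => fun p => if p.1.im < ρ + n * p.2.im then Xs E X₀ ρ n p else nxt E (Xs E X₀ ρ n) p

lemma OmN_succ (D : Data W hh ρ s ε' C d E Z α β) {n : ℕ} {p : ℂ × ℂ} (h : p ∈ OmN W hh ρ n) :
    p ∈ OmN W hh ρ (n + 1) := by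
  refine ⟨h.1, lt_of_lt_of_le h.2 ?_⟩
  have := D.W_im p.2 h.1.1
  push_cast
  nlinarith

/-- the step: bounds of the next value -/
lemma Data.nxt_bounds (D : Data W hh ρ s ε' C d E Z α β) {n : ℕ} {X : ℂ × ℂ → ℂ}
    (hX : Leaf E α β (OmN W hh ρ n) X) {t w : ℂ} (ht : (t, w) ∈ OmN W hh ρ (n + 1))
    (h2 : -ρ < t.im - 2 * w.im) :
    (X (t - w, w) ∈ Z ∧ ‖X (t - w, w) - X (t - 2 * w, w)‖ < ε') ∧
    ‖nxt E X (t, w) - X (t - w, w) - w‖ ≤ α w t.im ∧ ‖nxt E X (t, w) - t‖ ≤ β w t.im := by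
  have hw : w ∈ W := ht.1.1
  have hv := D.W_im w hw
  have hth : t.im < hh w := ht.1.2.2
  have htn : t.im < ρ + (n + 1 : ℕ) * w.im := ht.2
  push_cast at htn
  have e1 : (t - w).im = t.im - w.im := by simp
  have e2 : (t - 2 * w).im = t.im - 2 * w.im := by simp
  have m1 : (t - w, w) ∈ OmN W hh ρ n := by
    refine ⟨⟨hw, ?_, ?_⟩, ?_⟩
    · show -ρ < (t - w).im; rw [e1]; linarith
    · show (t - w).im < hh w; rw [e1]; linarith
    · show (t - w).im < ρ + n * w.im; rw [e1]; linarith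
  have m2 : (t - 2 * w, w) ∈ OmN W hh ρ n := by
    refine ⟨⟨hw, ?_, ?_⟩, ?_⟩
    · show -ρ < (t - 2 * w).im; rw [e2]; linarith
    · show (t - 2 * w).im < hh w; rw [e2]; linarith
    · show (t - 2 * w).im < ρ + n * w.im; rw [e2]; linarith
  have e3 : t - w - w = t - 2 * w := by ring
  have b1 := hX.near _ _ m1
  have b2 := hX.step (t - w) w m1 (by rw [e3]; exact m2)
  rw [e3] at b2
  rw [e1] at b1 b2
  set a := X (t - w, w) with ha
  set b := X (t - 2 * w, w) with hb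
  have hτ1 : -ρ < t.im - w.im := by linarith
  have hτ2 : t.im - w.im + w.im < hh w := by linarith
  have c1 := D.α_le w hw (t.im - w.im) hτ1 (by linarith)
  have c2 := D.β_le w hw (t.im - w.im) hτ1 (by linarith)
  have hab : ‖a - b‖ ≤ 2 * ‖w‖ := by
    have : a - b = (a - b - w) + w := by ring
    rw [this]
    exact (norm_add_le _ _).trans (by linarith)
  have him : |a.im - (t.im - w.im)| < s := by
    have h3 := Complex.abs_im_le_norm (a - (t - w))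
    rw [Complex.sub_im, e1] at h3
    linarith
  rw [abs_lt] at him
  have haZ : a ∈ Z := D.Z_mem w hw a (by linarith) (by linarith)
  have habε : ‖a - b‖ < ε' := lt_of_le_of_lt hab (D.W_eps w hw)
  have hE := D.E_near a haZ (a - b) habε
  have hd : d a.im ≤ d (t.im - w.im + s) := D.d_mono (by linarith)
  have hd0 : 0 ≤ ‖E (a, a - b) - (a - b)‖ := norm_nonneg _
  have hE2 : ‖E (a, a - b) - (a - b)‖ ≤ 16 * C * ‖w‖ ^ 4 * d (t.im - w.im + s) := by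
    have k1 : C * ‖a - b‖ ^ 4 * d a.im ≤ C * ‖a - b‖ ^ 4 * d (t.im - w.im + s) :=
      mul_le_mul_of_nonneg_left hd (mul_nonneg D.C_nn (by positivity))
    have h0 := D.d_nn (t.im - w.im + s)
    have k2 : ‖a - b‖ ^ 4 ≤ (2 * ‖w‖) ^ 4 := pow_le_pow_left₀ (norm_nonneg _) hab 4
    have k3 : C * ‖a - b‖ ^ 4 * d (t.im - w.im + s) ≤
        C * (2 * ‖w‖) ^ 4 * d (t.im - w.im + s) :=
      mul_le_mul_of_nonneg_right (mul_le_mul_of_nonneg_left k2 D.C_nn) h0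
    have k4 : C * (2 * ‖w‖) ^ 4 * d (t.im - w.im + s) =
        16 * C * ‖w‖ ^ 4 * d (t.im - w.im + s) := by ring
    linarith
  have hn : nxt E X (t, w) = a + E (a, a - b) := rfl
  refine ⟨⟨haZ, habε⟩, ?_, ?_⟩
  · rw [hn]
    have r1 := D.rec_α w hw (t.im - w.im) hτ1 hτ2
    rw [sub_add_cancel] at r1
    have : a + E (a, a - b) - a - w = (E (a, a - b) - (a - b)) + (a - b - w) := by ring
    rw [this]
    refine (norm_add_le _ _).trans ?_
    linarith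
  · rw [hn]
    have r1 := D.rec_α w hw (t.im - w.im) hτ1 hτ2
    have r2 := D.rec_β w hw (t.im - w.im) hτ1 hτ2
    rw [sub_add_cancel] at r1 r2
    have : a + E (a, a - b) - t = (E (a, a - b) - (a - b)) + (a - b - w) + (a - (t - w)) := by ring
    rw [this]
    refine (norm_add_le _ _).trans ?_
    have := norm_add_le (E (a, a - b) - (a - b)) (a - b - w)
    linarith

/-- differentiability of the next value -/
lemma Data.nxt_diff (D : Data W hh ρ s ε' C d E Z α β) {n : ℕ} {X : ℂ × ℂ → ℂ}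
    (hX : Leaf E α β (OmN W hh ρ n) X) :
    DifferentiableOn ℂ (nxt E X) {p | p ∈ OmN W hh ρ (n + 1) ∧ -ρ < p.1.im - 2 * p.2.im} := by
  have hm : ∀ p ∈ {p : ℂ × ℂ | p ∈ OmN W hh ρ (n + 1) ∧ -ρ < p.1.im - 2 * p.2.im},
      (p.1 - p.2, p.2) ∈ OmN W hh ρ n ∧ (p.1 - 2 * p.2, p.2) ∈ OmN W hh ρ n := by
    rintro ⟨t, w⟩ ⟨ht, h2⟩
    have hw : w ∈ W := ht.1.1
    have hv := D.W_im w hw
    have hth : t.im < hh w := ht.1.2.2
    have htn : t.im < ρ + (n + 1 : ℕ) * w.im := ht.2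
    push_cast at htn
    have e1 : (t - w).im = t.im - w.im := by simp
    have e2 : (t - 2 * w).im = t.im - 2 * w.im := by simp
    simp only at h2
    refine ⟨⟨⟨hw, ?_, ?_⟩, ?_⟩, ⟨⟨hw, ?_, ?_⟩, ?_⟩⟩
    · show -ρ < (t - w).im; rw [e1]; linarith
    · show (t - w).im < hh w; rw [e1]; linarith
    · show (t - w).im < ρ + n * w.im; rw [e1]; linarith
    · show -ρ < (t - 2 * w).im; rw [e2]; linarith
    · show (t - 2 * w).im < hh w; rw [e2]; linarith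
    · show (t - 2 * w).im < ρ + n * w.im; rw [e2]; linarith
  have d1 : DifferentiableOn ℂ (fun p : ℂ × ℂ => X (p.1 - p.2, p.2))
      {p | p ∈ OmN W hh ρ (n + 1) ∧ -ρ < p.1.im - 2 * p.2.im} :=
    hX.diff.comp (by fun_prop : DifferentiableOn ℂ (fun p : ℂ × ℂ => (p.1 - p.2, p.2)) _)
      (fun p hp => (hm p hp).1)
  have d2 : DifferentiableOn ℂ (fun p : ℂ × ℂ => X (p.1 - 2 * p.2, p.2))
      {p | p ∈ OmN W hh ρ (n + 1) ∧ -ρ < p.1.im - 2 * p.2.im} :=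
    hX.diff.comp (by fun_prop : DifferentiableOn ℂ (fun p : ℂ × ℂ => (p.1 - 2 * p.2, p.2)) _)
      (fun p hp => (hm p hp).2)
  refine d1.add (D.E_diff.comp (d1.prodMk (d1.sub d2)) ?_)
  rintro ⟨t, w⟩ ⟨ht, h2⟩
  have := (D.nxt_bounds hX ht (by simpa using h2)).1
  exact ⟨this.1, by simpa using this.2⟩

/-- **the induction** -/
theorem Data.leaf_n (D : Data W hh ρ s ε' C d E Z α β) (h0 : Leaf E α β (OmN W hh ρ 0) X₀)
    (n : ℕ) : Leaf E α β (OmN W hh ρ n) (Xs E X₀ ρ n) := by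
  induction n with
  | zero => exact h0
  | succ n ih =>
    -- `nxt = Xs n` on the overlap
    have ov : ∀ t w : ℂ, (t, w) ∈ OmN W hh ρ n → -ρ < t.im - 2 * w.im →
        nxt E (Xs E X₀ ρ n) (t, w) = Xs E X₀ ρ n (t, w) := by
      intro t w ht h2
      have hw : w ∈ W := ht.1.1
      have hv := D.W_im w hw
      have hth : t.im < hh w := ht.1.2.2
      have htn : t.im < ρ + n * w.im := ht.2
      have e1 : (t - w).im = t.im - w.im := by simp
      have e2 : (t - 2 * w).im = t.im - 2 * w.im := by simp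
      refine (ih.law t w ht ⟨⟨hw, ?_, ?_⟩, ?_⟩ ⟨⟨hw, ?_, ?_⟩, ?_⟩).symm
      · show -ρ < (t - w).im; rw [e1]; linarith
      · show (t - w).im < hh w; rw [e1]; linarith
      · show (t - w).im < ρ + n * w.im; rw [e1]; linarith
      · show -ρ < (t - 2 * w).im; rw [e2]; linarith
      · show (t - 2 * w).im < hh w; rw [e2]; linarith
      · show (t - 2 * w).im < ρ + n * w.im; rw [e2]; linarith
    -- value of `Xs (n+1)`
    have val1 : ∀ p : ℂ × ℂ, p ∈ OmN W hh ρ n → Xs E X₀ ρ (n + 1) p = Xs E X₀ ρ n p := by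
      intro p hp
      show (if p.1.im < ρ + n * p.2.im then Xs E X₀ ρ n p else nxt E (Xs E X₀ ρ n) p) = _
      rw [if_pos hp.2]
    have val2 : ∀ t w : ℂ, (t, w) ∈ OmN W hh ρ (n + 1) → -ρ < t.im - 2 * w.im →
        Xs E X₀ ρ (n + 1) (t, w) = nxt E (Xs E X₀ ρ n) (t, w) := by
      intro t w ht h2
      by_cases hlt : t.im < ρ + n * w.im
      · rw [val1 _ ⟨ht.1, hlt⟩, ov t w ⟨ht.1, hlt⟩ h2]
      · show (if t.im < ρ + n * w.im then _ else _) = _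
        rw [if_neg hlt]
    have deep : ∀ t w : ℂ, (t, w) ∈ OmN W hh ρ (n + 1) → ¬ (t, w) ∈ OmN W hh ρ n →
        -ρ < t.im - 2 * w.im := by
      intro t w ht hn
      have hw : w ∈ W := ht.1.1
      have hv := D.W_im w hw
      have hv2 := D.W_small w hw
      have : ¬ t.im < ρ + n * w.im := fun h => hn ⟨ht.1, h⟩
      rw [not_lt] at this
      have hnn : (0 : ℝ) ≤ n * w.im := mul_nonneg (Nat.cast_nonneg n) hv.le
      linarith
    have low : ∀ t w : ℂ, (t, w) ∈ OmN W hh ρ (n + 1) → -ρ < (t - w).im →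
        (t - w, w) ∈ OmN W hh ρ n := by
      intro t w ht h1
      have hw : w ∈ W := ht.1.1
      have hv := D.W_im w hw
      have hth : t.im < hh w := ht.1.2.2
      have htn : t.im < ρ + (n + 1 : ℕ) * w.im := ht.2
      push_cast at htn
      have e1 : (t - w).im = t.im - w.im := by simp
      refine ⟨⟨hw, h1, ?_⟩, ?_⟩
      · show (t - w).im < hh w; rw [e1]; linarith
      · show (t - w).im < ρ + n * w.im; rw [e1]; linarith
    refine ⟨?_, ?_, ?_, ?_⟩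
    · -- differentiability
      rintro ⟨t, w⟩ ht
      by_cases hn : (t, w) ∈ OmN W hh ρ n
      · have h1 := ih.diff.differentiableAt ((D.isOpen_OmN n).mem_nhds hn)
        have h2 : Xs E X₀ ρ (n + 1) =ᶠ[𝓝 (t, w)] Xs E X₀ ρ n := by
          filter_upwards [(D.isOpen_OmN n).mem_nhds hn] with p hp
          exact val1 p hp
        exact (h1.congr_of_eventuallyEq h2).differentiableWithinAt
      · have hS : IsOpen {p : ℂ × ℂ | p ∈ OmN W hh ρ (n + 1) ∧ -ρ < p.1.im - 2 * p.2.im} := by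
          have ho : IsOpen {p : ℂ × ℂ | -ρ < p.1.im - 2 * p.2.im} :=
            isOpen_lt continuous_const ((Complex.continuous_im.comp continuous_fst).sub
              (continuous_const.mul (Complex.continuous_im.comp continuous_snd)))
          exact (D.isOpen_OmN (n + 1)).inter ho
        have hmem : (t, w) ∈ {p : ℂ × ℂ | p ∈ OmN W hh ρ (n + 1) ∧ -ρ < p.1.im - 2 * p.2.im} :=
          ⟨ht, deep t w ht hn⟩
        have h1 := (D.nxt_diff ih).differentiableAt (hS.mem_nhds hmem)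
        have h2 : Xs E X₀ ρ (n + 1) =ᶠ[𝓝 (t, w)] nxt E (Xs E X₀ ρ n) := by
          filter_upwards [hS.mem_nhds hmem] with p hp
          exact val2 p.1 p.2 hp.1 hp.2
        exact (h1.congr_of_eventuallyEq h2).differentiableWithinAt
    · intro t w ht
      by_cases hn : (t, w) ∈ OmN W hh ρ n
      · rw [val1 _ hn]; exact ih.near t w hn
      · have h2 := deep t w ht hn
        rw [val2 t w ht h2]
        exact (D.nxt_bounds ih ht h2).2.2
    · intro t w ht hm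
      have hm1 : (t - w, w) ∈ OmN W hh ρ n := low t w ht hm.1.2.1
      rw [val1 _ hm1]
      by_cases hn : (t, w) ∈ OmN W hh ρ n
      · rw [val1 _ hn]; exact ih.step t w hn hm1
      · have h2 := deep t w ht hn
        rw [val2 t w ht h2]
        exact (D.nxt_bounds ih ht h2).2.1
    · intro t w ht hm hm'
      have hm1 : (t - w, w) ∈ OmN W hh ρ n := low t w ht hm.1.2.1
      have hm2 : (t - 2 * w, w) ∈ OmN W hh ρ n := by
        have := low (t - w) w (OmN_succ D hm1) (by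
          have := hm'.1.2.1
          simp only at this
          rwa [show t - w - w = t - 2 * w by ring])
        rwa [show t - w - w = t - 2 * w by ring] at this
      have h2 : -ρ < t.im - 2 * w.im := by
        have := hm2.1.2.1
        simpa using this
      rw [val1 _ hm1, val1 _ hm2, val2 t w ht h2]
      rfl

/-- number of steps -/
def Nst (ρ : ℝ) (p : ℂ × ℂ) : ℕ := ⌈p.1.im / p.2.im⌉₊

/-- the extended leaf -/
def Xf (E : ℂ × ℂ → ℂ) (X₀ : ℂ × ℂ → ℂ) (ρ : ℝ) (p : ℂ × ℂ) : ℂ := Xs E X₀ ρ (Nst ρ p) p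

lemma Data.mem_Nst (D : Data W hh ρ s ε' C d E Z α β) {p : ℂ × ℂ} (hp : p ∈ Om W hh ρ) :
    p ∈ OmN W hh ρ (Nst ρ p) := by
  refine ⟨hp, ?_⟩
  have hv := D.W_im p.2 hp.1
  have h1 := Nat.le_ceil (p.1.im / p.2.im)
  have h2 : p.1.im ≤ (Nst ρ p : ℝ) * p.2.im := by
    rw [div_le_iff₀ hv] at h1
    exact h1
  have := D.ρ_pos
  linarith

lemma Data.Xs_stable (D : Data W hh ρ s ε' C d E Z α β) {p : ℂ × ℂ} {n m : ℕ}
    (hp : p ∈ OmN W hh ρ n) (hnm : n ≤ m) : Xs E X₀ ρ m p = Xs E X₀ ρ n p := by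
  induction m, hnm using Nat.le_induction with
  | base => rfl
  | succ m hm ih =>
    have h1 : p ∈ OmN W hh ρ m := by
      refine ⟨hp.1, lt_of_lt_of_le hp.2 ?_⟩
      have hv := D.W_im p.2 hp.1.1
      have : (n : ℝ) ≤ m := by exact_mod_cast hm
      nlinarith
    show (if p.1.im < ρ + m * p.2.im then Xs E X₀ ρ m p else nxt E (Xs E X₀ ρ m) p) = _
    rw [if_pos h1.2, ih]

lemma Data.Xf_eq (D : Data W hh ρ s ε' C d E Z α β) {p : ℂ × ℂ} {n : ℕ}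
    (hp : p ∈ OmN W hh ρ n) : Xf E X₀ ρ p = Xs E X₀ ρ n p := by
  unfold Xf
  rcases le_total n (Nst ρ p) with h | h
  · exact D.Xs_stable hp h
  · exact (D.Xs_stable (D.mem_Nst hp.1) h).symm

/-- **the climb**: the leaf function extends to `-ρ < Im t < hh w`, jointly in `(t, w)` -/
theorem Data.climb (D : Data W hh ρ s ε' C d E Z α β) (h0 : Leaf E α β (OmN W hh ρ 0) X₀) :
    Leaf E α β (Om W hh ρ) (Xf E X₀ ρ) ∧
      ∀ t w : ℂ, (t, w) ∈ Om W hh ρ → t.im < ρ → Xf E X₀ ρ (t, w) = X₀ (t, w) := by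
  have up : ∀ {p : ℂ × ℂ} {n m : ℕ}, p ∈ OmN W hh ρ n → n ≤ m → p ∈ OmN W hh ρ m := by
    intro p n m hp hnm
    refine ⟨hp.1, lt_of_lt_of_le hp.2 ?_⟩
    have hv := D.W_im p.2 hp.1.1
    have : (n : ℝ) ≤ m := by exact_mod_cast hnm
    nlinarith
  refine ⟨⟨?_, ?_, ?_, ?_⟩, ?_⟩
  · intro p hp
    have hn := D.mem_Nst hp
    have h1 := (D.leaf_n h0 (Nst ρ p)).diff.differentiableAt ((D.isOpen_OmN _).mem_nhds hn)
    have h2 : Xf E X₀ ρ =ᶠ[𝓝 p] Xs E X₀ ρ (Nst ρ p) := by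
      filter_upwards [(D.isOpen_OmN _).mem_nhds hn] with q hq
      exact D.Xf_eq hq
    exact (h1.congr_of_eventuallyEq h2).differentiableWithinAt
  · intro t w ht
    have hn := D.mem_Nst ht
    rw [D.Xf_eq hn]
    exact (D.leaf_n h0 _).near t w hn
  · intro t w ht ht'
    set n := max (Nst ρ (t, w)) (Nst ρ (t - w, w)) with hnd
    have m1 := up (D.mem_Nst ht) (le_max_left _ (Nst ρ (t - w, w)))
    have m2 := up (D.mem_Nst ht') (le_max_right (Nst ρ (t, w)) _)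
    rw [D.Xf_eq m1, D.Xf_eq m2]
    exact (D.leaf_n h0 _).step t w m1 m2
  · intro t w ht ht' ht''
    set n := max (max (Nst ρ (t, w)) (Nst ρ (t - w, w))) (Nst ρ (t - 2 * w, w)) with hnd
    have m1 : (t, w) ∈ OmN W hh ρ n :=
      up (D.mem_Nst ht) ((le_max_left _ _).trans (le_max_left _ _))
    have m2 : (t - w, w) ∈ OmN W hh ρ n :=
      up (D.mem_Nst ht') ((le_max_right _ _).trans (le_max_left _ _))
    have m3 : (t - 2 * w, w) ∈ OmN W hh ρ n := up (D.mem_Nst ht'') (le_max_right _ _)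
    rw [D.Xf_eq m1, D.Xf_eq m2, D.Xf_eq m3]
    exact (D.leaf_n h0 _).law t w m1 m2 m3
  · intro t w ht h
    have : (t, w) ∈ OmN W hh ρ 0 := ⟨ht, by simpa using h⟩
    rw [D.Xf_eq this]
    rfl

end Crest.Agent.R102.Climb350
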