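import Mathlib

/-!
Row 102, part (C), Case E (`h0 = ∞`), T1-E: **the good column** (helper516), part A:
* `Per y G`: `y'' = G y`, `y` entire, 1-periodic, positive on the real line;
* `mean`    : `Re G (x + i m) < 0` for all real `x` is impossible;
* `GA`, `GC`: bounds for `G` and `G + 1/S²` from Lemma Z.
-/

set_option autoImplicit false

open Set Filter Metric Complex Topology MeasureTheory
open scoped ComplexConjugate

noncomputable section

namespace Crest.Agent.R102.Col516

/-- Lemma Z (329), with constant `C` -/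
def LemZ (C : ℝ) : Prop :=
  ∀ (q : ℂ → ℂ) (p : ℂ) (R a : ℝ), 0 < R → 1 ≤ a → Differentiable ℂ q → q p ≠ 0 →
    (∀ z ∈ closedBall p R, ‖q z‖ ≤ Real.exp a * ‖q p‖) →
    ∃ ρ ∈ Icc (R / 4) (R / 2), ∀ z ∈ sphere p ρ, q z ≠ 0 ∧ ‖deriv q z / q z‖ ≤ C * a ^ 2 / R ∧
      ‖deriv (deriv q) z / q z‖ ≤ C * a ^ 4 / R ^ 2

/-- the data of Case E used here -/
structure Per (y G : ℂ → ℂ) : Prop where
  hy : Differentiable ℂ y
  hG : Differentiable ℂ G
  ode : ∀ z, deriv (deriv y) z = G z * y z
  per : ∀ z, y (z + 1) = y z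
  pos : ∀ x : ℝ, (y x).im = 0 ∧ 0 < (y x).re

variable {y G : ℂ → ℂ}

theorem Per.y0 (P : Per y G) (x : ℝ) : y x ≠ 0 := by
  intro h
  have := (P.pos x).2
  rw [h] at this
  simp at this

theorem Per.hy1 (P : Per y G) : Differentiable ℂ (deriv y) := by
  intro z
  exact (P.hy.analyticAt z).deriv.differentiableAt

theorem Per.per1 (P : Per y G) (z : ℂ) : deriv y (z + 1) = deriv y z := by
  have h : (fun z => y (z + 1)) = y := funext P.per
  rw [← deriv_comp_add_const, h]

theorem Per.per2 (P : Per y G) (z : ℂ) : deriv (deriv y) (z + 1) = deriv (deriv y) z := by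
  have h : (fun z => deriv y (z + 1)) = deriv y := funext P.per1
  rw [← deriv_comp_add_const, h]

theorem Per.perG (P : Per y G) (z : ℂ) : G (z + 1) = G z := by
  have h1 : AnalyticOnNhd ℂ (fun z => G (z + 1)) univ := fun w _ =>
    (P.hG.comp (differentiable_id.add_const 1)).analyticAt w
  have h2 : AnalyticOnNhd ℂ G univ := fun w _ => P.hG.analyticAt w
  have hne : ∀ᶠ z in 𝓝 (0 : ℂ), y z ≠ 0 :=
    P.hy.continuous.continuousAt.eventually_ne (by simpa using P.y0 0)
  have h3 : (fun z => G (z + 1)) =ᶠ[𝓝 (0 : ℂ)] G := by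
    filter_upwards [hne] with z hz
    have e1 := P.ode (z + 1)
    rw [P.per2, P.ode z, P.per] at e1
    exact (mul_right_cancel₀ hz e1).symm
  have := h1.eqOn_of_preconnected_of_eventuallyEq h2 isPreconnected_univ (mem_univ 0) h3
  exact this (mem_univ z)

/-- the derivative is real on the real line -/
theorem Per.real1 (P : Per y G) (x : ℝ) : (deriv y x).im = 0 := by
  have h1 : HasDerivAt (fun t : ℝ => y t) (deriv y x) x := (P.hy x).hasDerivAt.comp_ofReal
  have h2 : HasDerivAt (fun t : ℝ => (y t).im) ((deriv y x).im) x := by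
    exact (Complex.imCLM.hasFDerivAt.comp_hasDerivAt x h1)
  have h3 : (fun t : ℝ => (y t).im) = fun _ => 0 := funext fun t => (P.pos t).1
  rw [h3] at h2
  exact (h2.unique (hasDerivAt_const x (0 : ℝ)))

/-- the mean of `G` over a period of the real line is `≥ 0` -/
theorem Per.mean0 (P : Per y G) : 0 ≤ (∫ x in (0 : ℝ)..1, G x).re := by
  set u : ℝ → ℂ := fun x => deriv y x / y x with hu
  have hud : ∀ x : ℝ, HasDerivAt u (G x - (u x) ^ 2) x := by
    intro x
    have h1 : HasDerivAt (fun t : ℝ => deriv y t) (deriv (deriv y) x) x :=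
      (P.hy1 x).hasDerivAt.comp_ofReal
    have h2 : HasDerivAt (fun t : ℝ => y t) (deriv y x) x := (P.hy x).hasDerivAt.comp_ofReal
    have h3 := h1.div h2 (P.y0 x)
    refine h3.congr_deriv ?_
    rw [P.ode, hu]
    have := P.y0 x
    field_simp
  have hGc : Continuous fun x : ℝ => G x := P.hG.continuous.comp continuous_ofReal
  have huc : Continuous u := continuous_iff_continuousAt.2 fun x => (hud x).continuousAt
  have hu2 : Continuous fun x : ℝ => u x ^ 2 := huc.pow 2
  have h4 : ∫ x in (0 : ℝ)..1, (G x - (u x) ^ 2) = u 1 - u 0 :=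
    intervalIntegral.integral_eq_sub_of_hasDerivAt (fun x _ => hud x)
      ((hGc.sub hu2).intervalIntegrable 0 1)
  have h5 : u 1 = u 0 := by
    simp only [hu]
    have e1 := P.per 0
    have e2 := P.per1 0
    simp only [zero_add] at e1 e2
    norm_num [e1, e2]
  rw [h5, sub_self, intervalIntegral.integral_sub (hGc.intervalIntegrable 0 1)
    (hu2.intervalIntegrable 0 1), sub_eq_zero] at h4
  rw [h4]
  have h6 : (∫ x in (0 : ℝ)..1, (u x) ^ 2).re = ∫ x in (0 : ℝ)..1, ((u x) ^ 2).re := by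
    have := Complex.reCLM.intervalIntegral_comp_comm (μ := volume) (hu2.intervalIntegrable 0 1)
    simpa using this.symm
  rw [h6]
  refine intervalIntegral.integral_nonneg zero_le_one fun x _ => ?_
  have h7 : (u x).im = 0 := by
    simp only [hu, Complex.div_im, P.real1 x, (P.pos x).1]
    simp
  have h8 : ((u x) ^ 2).re = (u x).re ^ 2 := by
    rw [sq, Complex.mul_re, h7]
    ring
  rw [h8]
  positivity

/-- the mean of `G` does not depend on the height -/
theorem Per.mean_shift (P : Per y G) (m : ℝ) :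
    ∫ x in (0 : ℝ)..1, G (x + m * I) = ∫ x in (0 : ℝ)..1, G x := by
  have h := Complex.integral_boundary_rect_eq_zero_of_differentiableOn G 0 (1 + m * I)
    P.hG.differentiableOn
  simp only [zero_re, zero_im, add_re, one_re, mul_re, ofReal_re, I_re, mul_zero, ofReal_im, I_im,
    mul_one, sub_self, add_zero, add_im, one_im, mul_im, zero_add, ofReal_zero, zero_mul,
    ofReal_one] at h
  have e : ∀ t : ℝ, G (1 + t * I) = G (t * I) := fun t => by rw [add_comm, P.perG]
  simp only [e] at h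
  have := sub_eq_zero.1 (by simpa using h : (∫ x in (0 : ℝ)..1, G x) -
    ∫ x in (0 : ℝ)..1, G (x + m * I) = 0)
  exact this.symm

/-- **(D)** `Re G < 0` on a whole horizontal line is impossible -/
theorem Per.mean (P : Per y G) (m : ℝ) (h : ∀ x : ℝ, (G (x + m * I)).re < 0) : False := by
  have h1 := P.mean0
  rw [← P.mean_shift m] at h1
  have hc : Continuous fun x : ℝ => G (x + m * I) :=
    P.hG.continuous.comp (by fun_prop)
  have h6 : (∫ x in (0 : ℝ)..1, G (x + m * I)).re = ∫ x in (0 : ℝ)..1, (G (x + m * I)).re := by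
    have := Complex.reCLM.intervalIntegral_comp_comm (μ := volume) (hc.intervalIntegrable 0 1)
    simpa using this.symm
  rw [h6] at h1
  have h2 : 0 < ∫ x in (0 : ℝ)..1, -(G (x + m * I)).re := by
    refine intervalIntegral.intervalIntegral_pos_of_pos ?_ (fun x => by linarith [h x]) one_pos
    exact ((Complex.continuous_re.comp hc).neg).intervalIntegrable 0 1
  rw [intervalIntegral.integral_neg] at h2
  linarith

theorem max_ball {f : ℂ → ℂ} (hf : Differentiable ℂ f) {p : ℂ} {ρ M : ℝ} (hρ : 0 < ρ)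
    (h : ∀ z ∈ sphere p ρ, ‖f z‖ ≤ M) : ∀ z ∈ closedBall p ρ, ‖f z‖ ≤ M := by
  intro z hz
  refine Complex.norm_le_of_forall_mem_frontier_norm_le (U := ball p ρ) isBounded_ball
    hf.diffContOnCl (fun w hw => ?_) ?_
  · rw [frontier_ball p hρ.ne'] at hw
    exact h w hw
  · rwa [closure_ball p hρ.ne']

/-- **(A)** polynomial bound for `G` where `log |y|` is not too small -/
theorem Per.GA (P : Per y G) {C : ℝ} (hZ : LemZ C) {p : ℂ} {R a : ℝ} (hR : 0 < R) (ha : 1 ≤ a)
    (hp : y p ≠ 0) (hb : ∀ z ∈ closedBall p R, ‖y z‖ ≤ Real.exp a * ‖y p‖) :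
    ∀ z ∈ closedBall p (R / 4), ‖G z‖ ≤ C * a ^ 4 / R ^ 2 := by
  obtain ⟨ρ, hρ, h⟩ := hZ y p R a hR ha P.hy hp hb
  have hρ0 : 0 < ρ := by
    have := hρ.1
    linarith
  intro z hz
  refine max_ball P.hG hρ0 (fun w hw => ?_) z (closedBall_subset_closedBall hρ.1 hz)
  obtain ⟨h1, -, h3⟩ := h w hw
  rwa [P.ode w, mul_div_assoc, div_self h1, mul_one] at h3

/-- **(C)** `G + 1/S²` is small if `y e^{i (z - c) / S}` has small logarithmic derivative -/
theorem Per.GC (P : Per y G) {C : ℝ} (hZ : LemZ C) {p c : ℂ} {R a S : ℝ} (hR : 0 < R)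
    (ha : 1 ≤ a) (hS : 0 < S) (hp : y p ≠ 0)
    (hb : ∀ z ∈ closedBall p R, ‖y z * Complex.exp (I * (z - c) / S)‖ ≤
      Real.exp a * ‖y p * Complex.exp (I * (p - c) / S)‖) :
    ∀ z ∈ closedBall p (R / 4), ‖G z + 1 / (S : ℂ) ^ 2‖ ≤
      C * a ^ 4 / R ^ 2 + 2 / S * (C * a ^ 2 / R) := by
  set E : ℂ → ℂ := fun z => Complex.exp (I * (z - c) / S) with hE
  have hEd : ∀ z, HasDerivAt E (E z * (I / S)) z := by
    intro z
    have h1 : HasDerivAt (fun z : ℂ => I * (z - c) / S) (I * 1 / S) z :=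
      (((hasDerivAt_id z).sub_const c).const_mul I).div_const _
    simpa [hE, mul_one] using h1.cexp
  have hE0 : ∀ z, E z ≠ 0 := fun z => Complex.exp_ne_zero _
  set q : ℂ → ℂ := fun z => y z * E z with hq
  have hq1 : ∀ z, HasDerivAt q ((deriv y z + I / S * y z) * E z) z := by
    intro z
    refine ((P.hy z).hasDerivAt.mul (hEd z)).congr_deriv ?_
    ring
  have hq1' : deriv q = fun z => (deriv y z + I / S * y z) * E z := funext fun z => (hq1 z).deriv
  have hq2 : ∀ z, deriv (deriv q) z =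
      (G z * y z + 2 * (I / S) * deriv y z - 1 / (S : ℂ) ^ 2 * y z) * E z := by
    intro z
    rw [hq1']
    have h1 : HasDerivAt (fun z => (deriv y z + I / (S : ℂ) * y z) * E z)
        ((deriv (deriv y) z + I / (S : ℂ) * deriv y z) * E z +
          (deriv y z + I / (S : ℂ) * y z) * (E z * (I / S))) z :=
      (((P.hy1 z).hasDerivAt.add ((P.hy z).hasDerivAt.const_mul (I / (S : ℂ)))).mul (hEd z))
    rw [h1.deriv, P.ode]
    have hI : (I / (S : ℂ)) * (I / S) = - (1 / (S : ℂ) ^ 2) := by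
      rw [div_mul_div_comm, I_mul_I, ← sq]
      ring
    have e : (G z * y z + I / ↑S * deriv y z) * E z + (deriv y z + I / ↑S * y z) * (E z * (I / ↑S)) =
        (G z * y z + 2 * (I / S) * deriv y z + ((I / (S : ℂ)) * (I / S)) * y z) * E z := by ring
    rw [e, hI]
    ring
  have hqd : Differentiable ℂ q := fun z => (hq1 z).differentiableAt
  obtain ⟨ρ, hρ, h⟩ := hZ q p R a hR ha hqd (mul_ne_zero hp (hE0 p)) hb
  have hρ0 : 0 < ρ := by
    have := hρ.1
    linarith
  intro z hz
  refine max_ball (f := fun z => G z + 1 / (S : ℂ) ^ 2) (P.hG.add_const _) hρ0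
    (fun w hw => ?_) z (closedBall_subset_closedBall hρ.1 hz)
  obtain ⟨h1, h2, h3⟩ := h w hw
  have hy0 : y w ≠ 0 := left_ne_zero_of_mul h1
  have hSc : (S : ℂ) ≠ 0 := by exact_mod_cast hS.ne'
  have e1 : G w + 1 / (S : ℂ) ^ 2 =
      deriv (deriv q) w / q w - 2 * (I / S) * (deriv q w / q w) := by
    rw [hq2, hq1', hq]
    have hEw := hE0 w
    have hI : (I : ℂ) ^ 2 = -1 := I_sq
    field_simp
    ring_nf
    rw [hI]
    ring
  rw [e1]
  refine (norm_sub_le _ _).trans (add_le_add h3 ?_)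
  rw [norm_mul]
  have : ‖(2 : ℂ) * (I / S)‖ = 2 / S := by
    rw [norm_mul, norm_div, Complex.norm_I, Complex.norm_of_nonneg hS.le]
    norm_num
    ring
  rw [this]
  gcongr

end Crest.Agent.R102.Col516
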