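import Mathlib

/-!
Row 102, T1-E, COL (B): dichotomy by connectedness.
-/

set_option autoImplicit false

open Set Filter Topology Metric

noncomputable section

namespace Crest.Agent.R102.ColB329

/-- **COL (B)** -/
theorem dich {y : ℂ → ℂ} (hy : Continuous y) (m r a b : ℝ) (hab : a < b)
    (h : ∀ x : ℝ, (∀ z ∈ closedBall ((x : ℂ) + m * Complex.I) r, ‖y z‖ < b) →
      ∀ z ∈ closedBall ((x : ℂ) + m * Complex.I) r, ‖y z‖ ≤ a) :
    (∀ x : ℝ, ∀ z ∈ closedBall ((x : ℂ) + m * Complex.I) r, ‖y z‖ ≤ a) ∨
      ∀ x : ℝ, ∃ z ∈ closedBall ((x : ℂ) + m * Complex.I) r, b ≤ ‖y z‖ := by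
  set φ : ℝ → ℂ → ℝ := fun x w => ‖y ((x : ℂ) + m * Complex.I + w)‖ with hφ
  have hφc : Continuous fun p : ℝ × ℂ => φ p.1 p.2 := by
    simp only [hφ]
    fun_prop
  have hball : ∀ (x : ℝ) (p : ℂ → Prop), (∀ z ∈ closedBall ((x : ℂ) + m * Complex.I) r, p z) ↔
      ∀ w ∈ closedBall (0 : ℂ) r, p ((x : ℂ) + m * Complex.I + w) := by
    intro x p
    constructor
    · intro hz w hw
      refine hz _ ?_
      rw [mem_closedBall, dist_zero_right] at hw
      rw [mem_closedBall, dist_eq_norm, add_sub_cancel_left]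
      exact hw
    · intro hw z hz
      rw [mem_closedBall, dist_eq_norm] at hz
      have := hw (z - ((x : ℂ) + m * Complex.I)) (by rwa [mem_closedBall, dist_zero_right])
      rwa [add_sub_cancel] at this
  set S : Set ℝ := {x | ∀ w ∈ closedBall (0 : ℂ) r, φ x w < b} with hS
  have hopen : IsOpen S := by
    rw [isOpen_iff_eventually]
    intro x hx
    refine IsCompact.eventually_forall_of_forall_eventually (isCompact_closedBall (0 : ℂ) r)
      (fun w hw => ?_)
    exact (hφc.tendsto (x, w)).eventually_lt_const (hx w hw)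
  have hcl : IsClosed S := by
    have : S = {x | ∀ w ∈ closedBall (0 : ℂ) r, φ x w ≤ a} := by
      ext x
      constructor
      · intro hx
        exact (hball x (fun z => ‖y z‖ ≤ a)).1 (h x ((hball x (fun z => ‖y z‖ < b)).2 hx))
      · intro hx w hw
        exact (hx w hw).trans_lt hab
    rw [this]
    simp only [ofPred_forall]
    refine isClosed_iInter fun w => isClosed_iInter fun _ => ?_
    exact isClosed_le (hφc.comp (by fun_prop : Continuous fun x : ℝ => (x, w))) continuous_const
  rcases isClopen_iff.1 ⟨hcl, hopen⟩ with h1 | h1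
  · right
    intro x
    by_contra hno
    push Not at hno
    have : x ∈ S := (hball x (fun z => ‖y z‖ < b)).1 hno
    rw [h1] at this
    exact this
  · left
    intro x
    refine h x ((hball x (fun z => ‖y z‖ < b)).2 ?_)
    have : x ∈ S := by rw [h1]; trivial
    exact this

end Crest.Agent.R102.ColB329
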