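import Mathlib

/-!
Row 102, T1-E, "quiet column": windows of an entire periodic function `y` with `y'' = P y`,
`P` entire.

* `Win y h ν N A ε`: on `|Im z - h| ≤ A/ν` one has `|y z| ≤ exp (N + ν (Im z - h) + ε)`.
* `quiet`: if `P` is not constant, then for every `R` every window with `h`, `A` large contains a
  point `x` with `|y| ≤ exp N` on `closedBall (x + i h) (R/ν)`.
* `deriv_ge`: at a point with `|y| = exp N` the derivative is `≥ ν exp N (1 - e/A)`.
-/

set_option autoImplicit false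

open Set Filter Topology Metric
open scoped ComplexConjugate

noncomputable section

namespace Crest.Agent.R102.Q329

/-- `y'' = P y` with `y`, `P` entire, `y` 1-periodic, real -/
structure YP (y P : ℂ → ℂ) : Prop where
  y_diff : Differentiable ℂ y
  P_diff : Differentiable ℂ P
  ode : ∀ z, deriv (deriv y) z = P z * y z
  y_per : ∀ z, y (z + 1) = y z
  P_per : ∀ z, P (z + 1) = P z
  y_conj : ∀ z, y (conj z) = conj (y z)
  P_conj : ∀ z, P (conj z) = conj (P z)

/-- window at height `h` -/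
def Win (y : ℂ → ℂ) (h ν N A ε : ℝ) : Prop :=
  ∀ z : ℂ, |z.im - h| ≤ A / ν → ‖y z‖ ≤ Real.exp (N + ν * (z.im - h) + ε)

/-- local form: `g = y exp(iν(z-z0))` -/
def gw (y : ℂ → ℂ) (ν : ℝ) (z0 z : ℂ) : ℂ := y z * Complex.exp (Complex.I * ν * (z - z0))

variable {y P : ℂ → ℂ} {h ν N A ε : ℝ}

lemma norm_gw (ν : ℝ) (z0 z : ℂ) :
    ‖gw y ν z0 z‖ = ‖y z‖ * Real.exp (-(ν * (z.im - z0.im))) := by
  unfold gw
  rw [norm_mul, Complex.norm_exp]
  congr 2
  simp

lemma gw_le (hw : Win y h ν N A ε) {z0 z : ℂ} (h0 : z0.im = h)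
    (hz : ‖z - z0‖ ≤ A / ν) : ‖gw y ν z0 z‖ ≤ Real.exp (N + ε) := by
  have h1 : |z.im - h| ≤ A / ν := by
    refine le_trans ?_ hz
    rw [← h0, ← Complex.sub_im]
    exact Complex.abs_im_le_norm _
  rw [norm_gw, h0]
  calc ‖y z‖ * Real.exp (-(ν * (z.im - h)))
      ≤ Real.exp (N + ν * (z.im - h) + ε) * Real.exp (-(ν * (z.im - h))) := by
        gcongr; exact hw z h1
    _ = Real.exp (N + ε) := by rw [← Real.exp_add]; ring_nf

lemma gw_diff (hy : Differentiable ℂ y) (ν : ℝ) (z0 : ℂ) : Differentiable ℂ (gw y ν z0) := by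
  unfold gw
  fun_prop

lemma gw_self (ν : ℝ) (z0 : ℂ) : gw y ν z0 z0 = y z0 := by
  simp [gw]

/-- Cauchy estimate for `g'` on the half radius -/
lemma gw_deriv_le (hy : Differentiable ℂ y) (hw : Win y h ν N A ε) (hν : 0 < ν) (hA : 0 < A)
    {z0 z : ℂ} (h0 : z0.im = h) (hz : ‖z - z0‖ ≤ A / (2 * ν)) :
    ‖deriv (gw y ν z0) z‖ ≤ 2 * ν / A * Real.exp (N + ε) := by
  have hr : 0 < A / (2 * ν) := by positivity
  have := Complex.norm_deriv_le_of_forall_mem_sphere_norm_le (c := z) (f := gw y ν z0)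
    (C := Real.exp (N + ε)) hr (gw_diff hy ν z0).diffContOnCl (by
      intro w hw'
      refine gw_le hw h0 ?_
      rw [mem_sphere, dist_eq_norm] at hw'
      calc ‖w - z0‖ ≤ ‖w - z‖ + ‖z - z0‖ := by
            have := norm_add_le (w - z) (z - z0)
            simpa using this
        _ ≤ A / (2 * ν) + A / (2 * ν) := by rw [hw']; linarith
        _ = A / ν := by field_simp; ring)
  refine this.trans (le_of_eq ?_)
  field_simp

lemma gw_sub_le (hy : Differentiable ℂ y) (hw : Win y h ν N A ε) (hν : 0 < ν) (hA : 0 < A)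
    {z0 z : ℂ} (h0 : z0.im = h) (hz : ‖z - z0‖ ≤ A / (2 * ν)) :
    ‖gw y ν z0 z - gw y ν z0 z0‖ ≤ 2 * ν / A * Real.exp (N + ε) * ‖z - z0‖ := by
  refine (convex_closedBall z0 (A / (2 * ν))).norm_image_sub_le_of_norm_deriv_le
    (fun w _ => (gw_diff hy ν z0).differentiableAt) (fun w hw' => ?_)
    (mem_closedBall_self (by positivity)) (by rw [mem_closedBall, dist_eq_norm]; exact hz)
  refine gw_deriv_le hy hw hν hA h0 ?_
  rwa [mem_closedBall, dist_eq_norm] at hw'

/-- Cauchy estimate for `g''` at the centre -/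
lemma gw_deriv2_le (hy : Differentiable ℂ y) (hw : Win y h ν N A ε) (hν : 0 < ν) (hA : 0 < A)
    {z0 : ℂ} (h0 : z0.im = h) :
    ‖deriv (deriv (gw y ν z0)) z0‖ ≤ 4 * ν ^ 2 / A ^ 2 * Real.exp (N + ε) := by
  have hr : 0 < A / (2 * ν) := by positivity
  have hd : Differentiable ℂ (deriv (gw y ν z0)) := (gw_diff hy ν z0).deriv
  have := Complex.norm_deriv_le_of_forall_mem_sphere_norm_le (c := z0) (f := deriv (gw y ν z0))
    (C := 2 * ν / A * Real.exp (N + ε)) hr hd.diffContOnCl (by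
      intro w hw'
      refine gw_deriv_le hy hw hν hA h0 ?_
      rw [mem_sphere, dist_eq_norm] at hw'
      exact hw'.le)
  refine this.trans (le_of_eq ?_)
  field_simp
  ring


lemma gw_hasDerivAt (hy : Differentiable ℂ y) (ν : ℝ) (z0 z : ℂ) :
    HasDerivAt (gw y ν z0) ((deriv y z + Complex.I * ν * y z) *
      Complex.exp (Complex.I * ν * (z - z0))) z := by
  have h1 : HasDerivAt (fun z : ℂ => Complex.exp (Complex.I * ν * (z - z0)))
      (Complex.exp (Complex.I * ν * (z - z0)) * (Complex.I * ν * 1)) z :=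
    (((hasDerivAt_id z).sub_const z0).const_mul (Complex.I * (ν : ℂ))).cexp
  refine ((hy z).hasDerivAt.mul h1).congr_deriv ?_
  ring

lemma deriv_gw (hy : Differentiable ℂ y) (ν : ℝ) (z0 : ℂ) :
    deriv (gw y ν z0) = fun z => (deriv y z + Complex.I * ν * y z) *
      Complex.exp (Complex.I * ν * (z - z0)) :=
  funext fun z => (gw_hasDerivAt hy ν z0 z).deriv

lemma deriv2_gw (hy : Differentiable ℂ y) (ν : ℝ) (z0 : ℂ) :
    deriv (deriv (gw y ν z0)) z0 =
      deriv (deriv y) z0 + 2 * Complex.I * ν * deriv y z0 - ν ^ 2 * y z0 := by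
  rw [deriv_gw hy]
  have h1 : HasDerivAt (fun z : ℂ => Complex.exp (Complex.I * ν * (z - z0)))
      (Complex.exp (Complex.I * ν * (z0 - z0)) * (Complex.I * ν * 1)) z0 :=
    (((hasDerivAt_id z0).sub_const z0).const_mul (Complex.I * (ν : ℂ))).cexp
  have h2 : HasDerivAt (deriv y) (deriv (deriv y) z0) z0 := (hy.deriv z0).hasDerivAt
  have h3 : HasDerivAt (fun z : ℂ => deriv y z + Complex.I * ν * y z)
      (deriv (deriv y) z0 + Complex.I * ν * deriv y z0) z0 :=
    h2.add ((hy z0).hasDerivAt.const_mul (Complex.I * (ν : ℂ)))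
  rw [(h3.fun_mul h1).deriv]
  have hI := Complex.I_sq
  simp only [sub_self, mul_zero, Complex.exp_zero]
  linear_combination ν ^ 2 * y z0 * hI

/-- `P z0 = -ν² + small` if `y z0` is not small -/
lemma P_near (Y : YP y P) (hw : Win y h ν N A ε) (hν : 0 < ν) (hA : 1 ≤ A) {z0 : ℂ}
    (h0 : z0.im = h) :
    ‖P z0 + ν ^ 2‖ * ‖y z0‖ ≤ 8 * ν ^ 2 / A * Real.exp (N + ε) := by
  have hA0 : 0 < A := by linarith
  have e1 := deriv2_gw Y.y_diff ν z0
  have e2 : deriv (gw y ν z0) z0 = deriv y z0 + Complex.I * ν * y z0 := by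
    rw [deriv_gw Y.y_diff]; simp
  have hI := Complex.I_sq
  have e3 : (P z0 + ν ^ 2) * y z0 = deriv (deriv (gw y ν z0)) z0 -
      2 * Complex.I * ν * deriv (gw y ν z0) z0 := by
    rw [e1, e2, Y.ode]
    linear_combination 2 * ν ^ 2 * y z0 * hI
  have b1 := gw_deriv_le Y.y_diff hw hν hA0 (z := z0) h0 (by simp; positivity)
  have b2 := gw_deriv2_le Y.y_diff hw hν hA0 h0
  rw [← norm_mul, e3]
  have hE := Real.exp_pos (N + ε)
  calc ‖deriv (deriv (gw y ν z0)) z0 - 2 * Complex.I * ν * deriv (gw y ν z0) z0‖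
      ≤ ‖deriv (deriv (gw y ν z0)) z0‖ + ‖2 * Complex.I * ν * deriv (gw y ν z0) z0‖ :=
        norm_sub_le _ _
    _ = ‖deriv (deriv (gw y ν z0)) z0‖ + 2 * ν * ‖deriv (gw y ν z0) z0‖ := by
        rw [norm_mul, norm_mul, norm_mul, Complex.norm_I, Complex.norm_real, Real.norm_eq_abs,
          abs_of_pos hν]
        simp
    _ ≤ 4 * ν ^ 2 / A ^ 2 * Real.exp (N + ε) + 2 * ν * (2 * ν / A * Real.exp (N + ε)) := by
        gcongr
    _ ≤ 4 * ν ^ 2 / A * Real.exp (N + ε) + 2 * ν * (2 * ν / A * Real.exp (N + ε)) := by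
        gcongr
        nlinarith
    _ = 8 * ν ^ 2 / A * Real.exp (N + ε) := by ring

/-- quiet point over `x` in the window at height `h` -/
def QuietAt (y : ℂ → ℂ) (x h ν N R : ℝ) : Prop :=
  ∀ z : ℂ, ‖z - (x + h * Complex.I)‖ ≤ R / ν → ‖y z‖ ≤ Real.exp N

/-- non quiet points: `P` is close to `-ν²` -/
lemma P_near_of_not_quiet (Y : YP y P) (hw : Win y h ν N A ε) (hν : 0 < ν) {R : ℝ} (hR : 0 ≤ R)
    (hε : 0 ≤ ε) (hA2 : 4 * (R + 1) * Real.exp (ε + R) ≤ A) {x : ℝ}
    (hx : ¬ QuietAt y x h ν N R) :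
    ‖P (x + h * Complex.I) + ν ^ 2‖ ≤ 16 * Real.exp (ε + R) / A * ν ^ 2 := by
  unfold QuietAt at hx
  push Not at hx
  obtain ⟨z, hz, hyz⟩ := hx
  set z0 : ℂ := x + h * Complex.I with hz0
  have h0 : z0.im = h := by simp [hz0]
  have hE1 : 1 ≤ Real.exp (ε + R) := Real.one_le_exp (by linarith)
  have hA1 : 1 ≤ A := by nlinarith
  have hA0 : 0 < A := by linarith
  have hRA : R / ν ≤ A / (2 * ν) := by
    rw [div_le_div_iff₀ hν (by positivity)]
    have : 2 * R ≤ A := by nlinarith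
    nlinarith
  have h1 : |z.im - z0.im| ≤ R / ν := by
    refine le_trans ?_ hz
    rw [← Complex.sub_im]
    exact Complex.abs_im_le_norm _
  have h2 : ν * (z.im - z0.im) ≤ R := by
    have := (le_abs_self _).trans h1
    rw [le_div_iff₀ hν] at this
    linarith
  have g1 : Real.exp (N - R) ≤ ‖gw y ν z0 z‖ := by
    rw [norm_gw]
    calc Real.exp (N - R) ≤ Real.exp (N + -(ν * (z.im - z0.im))) := Real.exp_le_exp.2 (by linarith)
      _ = Real.exp N * Real.exp (-(ν * (z.im - z0.im))) := Real.exp_add _ _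
      _ ≤ _ := by gcongr
  have g2 := gw_sub_le Y.y_diff hw hν hA0 h0 (hz.trans hRA)
  have g3 : 2 * ν / A * Real.exp (N + ε) * ‖z - z0‖ ≤ Real.exp (N - R) / 2 := by
    calc 2 * ν / A * Real.exp (N + ε) * ‖z - z0‖ ≤ 2 * ν / A * Real.exp (N + ε) * (R / ν) := by
          gcongr
      _ = 2 * R * Real.exp (ε + R) / A * Real.exp (N - R) := by
          have : Real.exp (N + ε) = Real.exp (ε + R) * Real.exp (N - R) := by
            rw [← Real.exp_add]; ring_nf
          rw [this]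
          field_simp
      _ ≤ 1 / 2 * Real.exp (N - R) := by
          refine mul_le_mul_of_nonneg_right ?_ (Real.exp_pos _).le
          rw [div_le_iff₀ hA0]
          nlinarith
      _ = Real.exp (N - R) / 2 := by ring
  have g4 : Real.exp (N - R) / 2 ≤ ‖y z0‖ := by
    have := norm_sub_norm_le (gw y ν z0 z) (gw y ν z0 z0)
    rw [gw_self] at this
    rw [gw_self] at g2
    linarith
  have g5 := P_near Y hw hν hA1 h0
  have g6 : 0 < Real.exp (N - R) / 2 := by positivity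
  have g7 : ‖P z0 + ν ^ 2‖ * (Real.exp (N - R) / 2) ≤ 8 * ν ^ 2 / A * Real.exp (N + ε) :=
    (mul_le_mul_of_nonneg_left g4 (norm_nonneg _)).trans g5
  rw [← le_div_iff₀ g6] at g7
  refine g7.trans (le_of_eq ?_)
  have : Real.exp (N + ε) = Real.exp (ε + R) * Real.exp (N - R) := by
    rw [← Real.exp_add]; ring_nf
  rw [this]
  have := Real.exp_ne_zero (N - R)
  field_simp
  ring

lemma bdd_strip {f : ℂ → ℂ} (hf : Differentiable ℂ f) (hp : ∀ z, f (z + 1) = f z) (h : ℝ) :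
    ∃ B : ℝ, ∀ z : ℂ, |z.im| ≤ h → ‖f z‖ ≤ B := by
  have hc : IsCompact (Icc (0 : ℝ) 1 ×ℂ Icc (-h) h) := isCompact_Icc.reProdIm isCompact_Icc
  obtain ⟨B, hB⟩ := hc.exists_bound_of_continuousOn hf.continuous.continuousOn
  refine ⟨B, fun z hz => ?_⟩
  have hint : ∀ n : ℤ, f (z + n) = f z := by
    intro n
    induction n using Int.induction_on with
    | zero => simp
    | succ n ih => rw [Int.cast_add, Int.cast_one, ← add_assoc, hp, ih]
    | pred n ih =>
      rw [← ih, ← hp (z + ((-(n : ℤ) - 1 : ℤ) : ℂ))]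
      congr 1
      push_cast
      ring
  have := hint (-⌊z.re⌋)
  rw [← this]
  refine hB _ ?_
  rw [Complex.mem_reProdIm]
  have e1 : (z + ((-⌊z.re⌋ : ℤ) : ℂ)).re = z.re - ⌊z.re⌋ := by
    simp [sub_eq_add_neg]
  have e2 : (z + ((-⌊z.re⌋ : ℤ) : ℂ)).im = z.im := by simp
  rw [e1, e2]
  refine ⟨⟨?_, ?_⟩, abs_le.1 hz⟩
  · linarith [Int.floor_le z.re]
  · linarith [(Int.lt_floor_add_one z.re).le]

/-- maximum principle in a strip, for periodic entire functions -/
lemma strip_max {f : ℂ → ℂ} (hf : Differentiable ℂ f) (hp : ∀ z, f (z + 1) = f z) {h C : ℝ}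
    (hh : 0 < h) (hb : ∀ z : ℂ, |z.im| = h → ‖f z‖ ≤ C) :
    ∀ z : ℂ, |z.im| ≤ h → ‖f z‖ ≤ C := by
  intro z hz
  obtain ⟨B, hB⟩ := bdd_strip hf hp h
  refine PhragmenLindelof.horizontal_strip (a := -h) (b := h) hf.diffContOnCl ?_ ?_ ?_
    (abs_le.1 hz).1 (abs_le.1 hz).2
  · have h2 : 0 < h - -h := by linarith
    refine ⟨0, by positivity, 0, ?_⟩
    refine Asymptotics.IsBigO.of_bound B ?_
    rw [eventually_inf_principal]
    filter_upwards with w hw
    have : |w.im| ≤ h := by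
      rw [mem_preimage, mem_Ioo] at hw
      exact abs_le.2 ⟨hw.1.le, hw.2.le⟩
    simpa using hB w this
  · intro w hw
    exact hb w (by rw [hw, abs_neg, abs_of_pos hh])
  · intro w hw
    exact hb w (by rw [hw, abs_of_pos hh])

/-- **quiet window**: if `P` is not constant -/
theorem quiet (Y : YP y P) {z1 : ℂ} (hz1 : 3 * ‖P 0‖ < ‖P z1‖) (hw : Win y h ν N A ε)
    (hν : 0 < ν) {R : ℝ} (hR : 0 ≤ R) (hε : 0 ≤ ε) (hh : 0 < h) (hh1 : |z1.im| ≤ h)
    (hA : 32 * (R + 1) * Real.exp (ε + R) ≤ A) : ∃ x : ℝ, QuietAt y x h ν N R := by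
  by_contra hno
  push Not at hno
  have hE1 : 1 ≤ Real.exp (ε + R) := Real.one_le_exp (by linarith)
  have hE0 := Real.exp_pos (ε + R)
  have hA0 : 0 < A := by nlinarith
  have key : ∀ x : ℝ, ‖P (x + h * Complex.I) + ν ^ 2‖ ≤ ν ^ 2 / 2 := by
    intro x
    refine (P_near_of_not_quiet Y hw hν hR hε (by nlinarith) (hno x)).trans ?_
    have : 16 * Real.exp (ε + R) / A ≤ 1 / 2 := by
      rw [div_le_iff₀ hA0]
      nlinarith
    calc 16 * Real.exp (ε + R) / A * ν ^ 2 ≤ 1 / 2 * ν ^ 2 := by gcongr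
      _ = ν ^ 2 / 2 := by ring
  have hall : ∀ z : ℂ, |z.im| ≤ h → ‖P z + ν ^ 2‖ ≤ ν ^ 2 / 2 := by
    refine strip_max (f := fun z => P z + (ν : ℂ) ^ 2) (Y.P_diff.add_const _)
      (fun z => by simp only [Y.P_per]) hh ?_
    intro z hz
    rcases abs_cases z.im with h1 | h1
    · have : z = (z.re : ℂ) + h * Complex.I := by
        rw [← hz, h1.1]; exact (Complex.re_add_im z).symm
      rw [this]
      exact key z.re
    · have e : conj z = (z.re : ℂ) + h * Complex.I := by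
        apply Complex.ext
        · simp
        · simp; linarith
      have e2 := key z.re
      rw [← e, Y.P_conj] at e2
      have e3 : (conj (P z) + (ν : ℂ) ^ 2) = conj (P z + (ν : ℂ) ^ 2) := by
        rw [map_add, map_pow, Complex.conj_ofReal]
      rwa [e3, Complex.norm_conj] at e2
  have h0 := hall 0 (by simpa using hh.le)
  have h1 := hall z1 hh1
  have hn : ‖((ν : ℂ) ^ 2)‖ = ν ^ 2 := by
    rw [norm_pow, Complex.norm_real, Real.norm_eq_abs, sq_abs]
  have h2 : ‖P z1‖ ≤ ν ^ 2 / 2 + ν ^ 2 := by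
    have := norm_sub_le (P z1 + (ν : ℂ) ^ 2) ((ν : ℂ) ^ 2)
    rw [add_sub_cancel_right, hn] at this
    linarith
  have h3 : ν ^ 2 - ν ^ 2 / 2 ≤ ‖P 0‖ := by
    have := norm_sub_le (P 0 + (ν : ℂ) ^ 2) (P 0)
    rw [add_sub_cancel_left, hn] at this
    linarith
  linarith

/-- at a point with `|y| = exp N` on the line `Im z = h` -/
theorem deriv_ge (Y : YP y P) (hw : Win y h ν N A ε) (hν : 0 < ν) (hA : 0 < A) {z0 : ℂ}
    (h0 : z0.im = h) (hz : ‖y z0‖ = Real.exp N) :
    ν * Real.exp N * (1 - 2 * Real.exp ε / A) ≤ ‖deriv y z0‖ := by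
  have b1 := gw_deriv_le Y.y_diff hw hν hA (z := z0) h0 (by simp; positivity)
  rw [deriv_gw Y.y_diff] at b1
  simp only [sub_self, mul_zero, Complex.exp_zero, mul_one] at b1
  have h2 : ‖Complex.I * ν * y z0‖ = ν * Real.exp N := by
    rw [norm_mul, norm_mul, Complex.norm_I, Complex.norm_real, Real.norm_eq_abs, abs_of_pos hν,
      hz, one_mul]
  have h3 := norm_sub_le (deriv y z0 + Complex.I * ν * y z0) (deriv y z0)
  rw [add_sub_cancel_left, h2] at h3
  have h4 : 2 * ν / A * Real.exp (N + ε) = ν * Real.exp N * (2 * Real.exp ε / A) := by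
    rw [Real.exp_add]; ring
  linarith

end Crest.Agent.R102.Q329
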