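import Crest.Agent.R102.ColA_516
import Crest.Agent.R102.Quiet_329

/-!
Row 102, part (C), Case E (`h0 = ∞`), T1-E: **the good column** (helper516), part B:
`Per.column` (with numeric hypotheses) and `good_column` (for `L ≥ L0`).
-/

set_option autoImplicit false

open Set Filter Metric Complex Topology MeasureTheory
open scoped ComplexConjugate

noncomputable section

namespace Crest.Agent.R102.Col516

variable {y G : ℂ → ℂ}

theorem Per.conj (P : Per y G) (z : ℂ) : y (conj z) = conj (y z) := by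
  have hd : Differentiable ℂ (fun z => conj (y (conj z))) := by
    intro w
    have := (P.hy (conj w)).conj_conj
    simpa [Function.comp_def] using this
  have h1 : AnalyticOnNhd ℂ (fun z => conj (y (conj z))) univ := fun w _ => hd.analyticAt w
  have h2 : AnalyticOnNhd ℂ y univ := fun w _ => P.hy.analyticAt w
  have h3 : ∃ᶠ w in 𝓝[≠] (0 : ℂ), conj (y (conj w)) = y w := by
    have hT : Tendsto (fun n : ℕ => (((1 : ℝ) / ((n : ℝ) + 1) : ℝ) : ℂ)) atTop (𝓝[≠] (0 : ℂ)) := by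
      rw [tendsto_nhdsWithin_iff]
      constructor
      · have := (Complex.continuous_ofReal.tendsto 0).comp
          (tendsto_one_div_add_atTop_nhds_zero_nat (𝕜 := ℝ))
        simpa [Function.comp_def] using this
      · filter_upwards with n
        have : (0 : ℝ) < 1 / ((n : ℝ) + 1) := by positivity
        simpa using (by exact_mod_cast this.ne' : (((1 : ℝ) / ((n : ℝ) + 1) : ℝ) : ℂ) ≠ 0)
    refine hT.frequently (Frequently.of_forall fun n => ?_)
    rw [conj_ofReal]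
    exact conj_eq_iff_im.2 (P.pos _).1
  have h4 := h1.eqOn_of_preconnected_of_frequently_eq h2 isPreconnected_univ (mem_univ 0) h3
  have h5 : conj (y (conj (conj z))) = y (conj z) := h4 (mem_univ (conj z))
  rw [conj_conj] at h5
  exact h5.symm

/-- `y` cannot be small on a whole horizontal line -/
theorem Per.strip (P : Per y G) {m M : ℝ} (hm : 0 < m) (h : ∀ x : ℝ, ‖y (x + m * I)‖ ≤ M) :
    ‖y 0‖ ≤ M := by
  refine Q329.strip_max P.hy P.per hm (fun z hz => ?_) 0 (by simpa using hm.le)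
  rcases abs_cases z.im with h1 | h1
  · have : z = (z.re : ℂ) + m * Complex.I := by
      rw [← hz, h1.1]; exact (Complex.re_add_im z).symm
    rw [this]
    exact h z.re
  · have e : conj z = (z.re : ℂ) + m * Complex.I := by
      apply Complex.ext
      · simp
      · simp; linarith
    have e2 := h z.re
    rw [← e, P.conj, RCLike.norm_conj] at e2
    exact e2

theorem norm_expI (z c : ℂ) (S : ℝ) :
    ‖Complex.exp (I * (z - c) / S)‖ = Real.exp (-((z.im - c.im) / S)) := by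
  rw [Complex.norm_exp]
  congr 1
  rw [Complex.div_ofReal_re]
  simp
  ring

section col

variable {C C1 κ A L m S : ℝ}

/-- the window bound in the form `|y z| ≤ C₁ √L exp (L + (Im z - m) / S)` -/
theorem F1 (hL : 1 ≤ L) (n9 : A ^ 3 ≤ L / 2) (hS0 : 0 < S) (hm : S * L / 2 ≤ m)
    (hb : ∀ β : ℝ, |β| ≤ A ^ 3 → ∀ z : ℂ, |z.im| ≤ m + S * β →
      ‖y z‖ ≤ C1 * √L * Real.exp (L + β)) {z : ℂ} (hz : |z.im - m| ≤ A ^ 3 * S) :
    ‖y z‖ ≤ C1 * √L * Real.exp (L + (z.im - m) / S) := by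
  refine hb ((z.im - m) / S) ?_ z ?_
  · rw [abs_div, abs_of_pos hS0, div_le_iff₀ hS0]
    exact hz
  · have h1 : S * ((z.im - m) / S) = z.im - m := by field_simp
    rw [h1]
    have h2 := (abs_le.1 hz).1
    have h3 : A ^ 3 * S ≤ L / 2 * S := by gcongr
    have h4 : 0 ≤ z.im := by nlinarith
    rw [abs_of_nonneg h4]
    linarith

theorem im_sub_le {z c : ℂ} {r : ℝ} (h : z ∈ closedBall c r) : |z.im - c.im| ≤ r := by
  rw [← Complex.sub_im]
  exact (Complex.abs_im_le_norm _).trans (by simpa [mem_closedBall, dist_eq_norm] using h)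

/-- **(A')** -/
theorem Per.colA (P : Per y G) (hZ : LemZ C) (hC : 0 ≤ C) (hC1 : 0 < C1) (hκ : 0 < κ)
    (hA : 4 ≤ A) (hL : 1 ≤ L)
    (n3 : C1 * √L * Real.exp (L + 9 * A) ≤ Real.exp (2 * L))
    (n4 : 4 * C * L ^ 8 ≤ κ ^ 2 * Real.exp (2 * L)) (n9 : A ^ 3 ≤ L / 2)
    (hS : 1 / L ^ 2 ≤ S) (hm : S * L / 2 ≤ m)
    (hb : ∀ β : ℝ, |β| ≤ A ^ 3 → ∀ z : ℂ, |z.im| ≤ m + S * β →
      ‖y z‖ ≤ C1 * √L * Real.exp (L + β)) {x : ℝ} {p : ℂ}
    (hp : p ∈ closedBall ((x : ℂ) + m * I) (A * S)) (hyp : Real.exp (-(2 * L)) ≤ ‖y p‖) :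
    ∀ z ∈ closedBall ((x : ℂ) + m * I) (A * S), ‖G z‖ ≤ κ ^ 2 * Real.exp (2 * L) := by
  have hS0 : 0 < S := lt_of_lt_of_le (by positivity) hS
  have hA3 : 9 * A ≤ A ^ 3 := by nlinarith [mul_nonneg (by linarith : (0:ℝ) ≤ A - 4) (by linarith : (0:ℝ) ≤ A + 4)]
  have hp1 : |p.im - m| ≤ A * S := by simpa using im_sub_le hp
  have h1 : ∀ z ∈ closedBall p (8 * (A * S)), ‖y z‖ ≤ Real.exp (4 * L) * ‖y p‖ := by
    intro z hz
    have hz1 := im_sub_le hz
    have hz2 : |z.im - m| ≤ 9 * (A * S) := by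
      have := abs_add_le (z.im - p.im) (p.im - m)
      rw [sub_add_sub_cancel] at this
      linarith
    have hz3 : |z.im - m| ≤ A ^ 3 * S := hz2.trans (by nlinarith)
    have hz4 : (z.im - m) / S ≤ 9 * A := by
      rw [div_le_iff₀ hS0]
      have := (abs_le.1 hz2).2
      linarith
    calc ‖y z‖ ≤ C1 * √L * Real.exp (L + (z.im - m) / S) := F1 hL n9 hS0 hm hb hz3
      _ ≤ C1 * √L * Real.exp (L + 9 * A) := by gcongr
      _ ≤ Real.exp (2 * L) := n3
      _ = Real.exp (4 * L) * Real.exp (-(2 * L)) := by rw [← Real.exp_add]; ring_nf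
      _ ≤ Real.exp (4 * L) * ‖y p‖ := by gcongr
  have hyp0 : y p ≠ 0 := by
    intro h
    rw [h, norm_zero] at hyp
    exact absurd hyp (not_le.2 (Real.exp_pos _))
  have h2 := P.GA hZ (R := 8 * (A * S)) (a := 4 * L) (by positivity) (by linarith) hyp0 h1
  intro z hz
  have hz1 : z ∈ closedBall p (8 * (A * S) / 4) := by
    rw [mem_closedBall] at hz hp ⊢
    have := dist_triangle_right z p ((x : ℂ) + m * I)
    linarith
  refine (h2 z hz1).trans (le_trans ?_ n4)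
  have hLS : 1 ≤ L ^ 2 * S := by
    rw [div_le_iff₀ (by positivity)] at hS
    linarith
  have hA2 : 1 ≤ A ^ 2 := by nlinarith
  rw [div_le_iff₀ (by positivity)]
  have e : 4 * C * L ^ 8 * (8 * (A * S)) ^ 2 = C * (4 * L) ^ 4 * (A ^ 2 * (L ^ 2 * S) ^ 2) := by
    ring
  rw [e]
  refine le_mul_of_one_le_right (by positivity) ?_
  exact one_le_mul_of_one_le_of_one_le hA2 (one_le_pow₀ hLS)

/-- **(C')** -/
theorem Per.colC (P : Per y G) (hZ : LemZ C) (hC : 0 ≤ C) (hC1 : 0 < C1) (hκ : 0 < κ)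
    (hA : 4 ≤ A) (hL : 1 ≤ L) (n7 : C1 * √L ≤ κ * Real.exp A)
    (n8 : 64 * C / A ^ 2 + 16 * C / A ≤ 1 / 2) (n9 : A ^ 3 ≤ L / 2)
    (hS0 : 0 < S) (hm : S * L / 2 ≤ m)
    (hb : ∀ β : ℝ, |β| ≤ A ^ 3 → ∀ z : ℂ, |z.im| ≤ m + S * β →
      ‖y z‖ ≤ C1 * √L * Real.exp (L + β)) {x : ℝ} {p : ℂ}
    (hp : p ∈ closedBall ((x : ℂ) + m * I) (A * S)) (hyp : κ * Real.exp L < ‖y p‖) :
    (G ((x : ℂ) + m * I)).re < 0 := by
  set c : ℂ := (x : ℂ) + m * I with hc
  have hcim : c.im = m := by simp [hc]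
  have hp1 : |p.im - m| ≤ A * S := by simpa [hcim] using im_sub_le hp
  have hA3 : A + A ^ 3 / 2 ≤ A ^ 3 := by
    nlinarith [mul_nonneg (by linarith : (0:ℝ) ≤ A - 4) (by linarith : (0:ℝ) ≤ A + 4)]
  have h1 : ∀ z ∈ closedBall p (A ^ 3 * S / 2), ‖y z * Complex.exp (I * (z - c) / S)‖ ≤
      Real.exp (2 * A) * ‖y p * Complex.exp (I * (p - c) / S)‖ := by
    intro z hz
    have hz1 := im_sub_le hz
    have hz2 : |z.im - m| ≤ A * S + A ^ 3 * S / 2 := by
      have := abs_add_le (z.im - p.im) (p.im - m)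
      rw [sub_add_sub_cancel] at this
      linarith
    have hz3 : |z.im - m| ≤ A ^ 3 * S := hz2.trans (by nlinarith)
    have hp2 : (p.im - m) / S ≤ A := by
      rw [div_le_iff₀ hS0]
      exact (abs_le.1 hp1).2
    rw [norm_mul, norm_mul, norm_expI, norm_expI, hcim]
    calc ‖y z‖ * Real.exp (-((z.im - m) / S))
        ≤ C1 * √L * Real.exp (L + (z.im - m) / S) * Real.exp (-((z.im - m) / S)) := by
          gcongr
          exact F1 hL n9 hS0 hm hb hz3
      _ = C1 * √L * Real.exp L := by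
          rw [mul_assoc, ← Real.exp_add]
          ring_nf
      _ ≤ κ * Real.exp A * Real.exp L := by gcongr
      _ = Real.exp (2 * A) * (κ * Real.exp L * Real.exp (-A)) := by
          have : Real.exp A = Real.exp (2 * A) * Real.exp (-A) := by
            rw [← Real.exp_add]; ring_nf
          rw [this]
          ring
      _ ≤ Real.exp (2 * A) * (‖y p‖ * Real.exp (-((p.im - m) / S))) := by
          gcongr
  have hyp0 : y p ≠ 0 := by
    intro h
    rw [h, norm_zero] at hyp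
    exact absurd hyp (not_lt.2 (by positivity))
  have h2 := P.GC hZ (R := A ^ 3 * S / 2) (a := 2 * A) (c := c) (by positivity) (by linarith)
    hS0 hyp0 h1
  have hcp : c ∈ closedBall p (A ^ 3 * S / 2 / 4) := by
    rw [mem_closedBall, dist_comm]
    rw [mem_closedBall] at hp
    refine hp.trans ?_
    have : A * 8 ≤ A ^ 3 := by
      nlinarith [mul_nonneg (by linarith : (0:ℝ) ≤ A - 4) (by linarith : (0:ℝ) ≤ A + 4)]
    nlinarith
  have h3 := h2 c hcp
  have e : C * (2 * A) ^ 4 / (A ^ 3 * S / 2) ^ 2 + 2 / S * (C * (2 * A) ^ 2 / (A ^ 3 * S / 2)) =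
      (64 * C / A ^ 2 + 16 * C / A) / S ^ 2 := by
    have : A ≠ 0 := by positivity
    field_simp
    ring
  rw [e] at h3
  have h4 : (64 * C / A ^ 2 + 16 * C / A) / S ^ 2 ≤ 1 / 2 / S ^ 2 := by gcongr
  have h5 : |(G c + 1 / (S : ℂ) ^ 2).re| ≤ 1 / 2 / S ^ 2 :=
    (Complex.abs_re_le_norm _).trans (h3.trans h4)
  have h6 : (G c + 1 / (S : ℂ) ^ 2).re = (G c).re + 1 / S ^ 2 := by
    rw [add_re]
    congr 1
    have : (1 / (S : ℂ) ^ 2) = ((1 / S ^ 2 : ℝ) : ℂ) := by push_cast; rfl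
    rw [this, ofReal_re]
  rw [h6] at h5
  have h7 := (abs_le.1 h5).2
  have h8 : 1 / 2 / S ^ 2 < 1 / S ^ 2 := by
    gcongr
    norm_num
  linarith

/-- **the good column**, with numeric hypotheses -/
theorem Per.column (P : Per y G) (hZ : LemZ C) (hC : 0 ≤ C) (hC1 : 0 < C1) (hκ : 0 < κ)
    (hA : 4 ≤ A) (hL : 1 ≤ L)
    (n3 : C1 * √L * Real.exp (L + 9 * A) ≤ Real.exp (2 * L))
    (n4 : 4 * C * L ^ 8 ≤ κ ^ 2 * Real.exp (2 * L))
    (n5 : Real.exp (-(2 * L)) < κ * Real.exp L) (n6 : Real.exp (-(2 * L)) < ‖y 0‖)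
    (n7 : C1 * √L ≤ κ * Real.exp A)
    (n8 : 64 * C / A ^ 2 + 16 * C / A ≤ 1 / 2) (n9 : A ^ 3 ≤ L / 2)
    (hS : 1 / L ^ 2 ≤ S) (hm : S * L / 2 ≤ m)
    (hb : ∀ β : ℝ, |β| ≤ A ^ 3 → ∀ z : ℂ, |z.im| ≤ m + S * β →
      ‖y z‖ ≤ C1 * √L * Real.exp (L + β)) :
    ∃ x : ℝ, ∀ z ∈ closedBall ((x : ℂ) + m * I) (A * S),
      ‖y z‖ ≤ κ * Real.exp L ∧ ‖G z‖ ≤ κ ^ 2 * Real.exp (2 * L) := by
  have hS0 : 0 < S := lt_of_lt_of_le (by positivity) hS
  have hm0 : 0 < m := lt_of_lt_of_le (by positivity) hm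
  by_contra hcon
  push Not at hcon
  have hyc : Continuous y := P.hy.continuous
  set V1 : Set ℝ := {x | ∃ ζ ∈ closedBall (0 : ℂ) (A * S), κ * Real.exp L < ‖y ((x : ℂ) + m * I + ζ)‖}
    with hV1
  set V2 : Set ℝ := {x | ∀ ζ ∈ closedBall (0 : ℂ) (A * S), ‖y ((x : ℂ) + m * I + ζ)‖ < Real.exp (-(2 * L))}
    with hV2
  have hball : ∀ (x : ℝ) (z : ℂ), z ∈ closedBall ((x : ℂ) + m * I) (A * S) →
      z - ((x : ℂ) + m * I) ∈ closedBall (0 : ℂ) (A * S) := by
    intro x z hz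
    simpa [mem_closedBall, dist_eq_norm] using hz
  have hball' : ∀ (x : ℝ) (ζ : ℂ), ζ ∈ closedBall (0 : ℂ) (A * S) →
      (x : ℂ) + m * I + ζ ∈ closedBall ((x : ℂ) + m * I) (A * S) := by
    intro x ζ hζ
    simpa [mem_closedBall, dist_eq_norm] using hζ
  have hcov : ∀ x, x ∈ V1 ∨ x ∈ V2 := by
    intro x
    obtain ⟨z, hz, hz2⟩ := hcon x
    by_cases h1 : ‖y z‖ ≤ κ * Real.exp L
    · right
      have h2 := hz2 h1
      intro ζ hζ
      by_contra h3
      have := P.colA hZ hC hC1 hκ hA hL n3 n4 n9 hS hm hb (hball' x ζ hζ) (not_lt.1 h3) z hz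
      linarith
    · left
      refine ⟨z - ((x : ℂ) + m * I), hball x z hz, ?_⟩
      rw [add_sub_cancel]
      exact not_le.1 h1
  have hdisj : ∀ x, x ∈ V1 → x ∈ V2 → False := by
    rintro x ⟨ζ, hζ, h1⟩ h2
    have := h2 ζ hζ
    linarith
  have ho1 : IsOpen V1 := by
    have : V1 = ⋃ ζ ∈ closedBall (0 : ℂ) (A * S),
        {x : ℝ | κ * Real.exp L < ‖y ((x : ℂ) + m * I + ζ)‖} := by
      ext x
      simp only [hV1, mem_setOf_eq, mem_iUnion, exists_prop]
    rw [this]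
    refine isOpen_biUnion fun ζ _ => isOpen_lt continuous_const ?_
    exact (hyc.comp (by fun_prop)).norm
  have ho2 : IsOpen V2 := by
    rw [isOpen_iff_mem_nhds]
    intro x hx
    refine (isCompact_closedBall (0 : ℂ) (A * S)).eventually_forall_of_forall_eventually
      (fun ζ hζ => ?_)
    have hcont : Continuous fun q : ℝ × ℂ => ‖y ((q.1 : ℂ) + m * I + q.2)‖ :=
      (hyc.comp (by fun_prop)).norm
    exact hcont.continuousAt.eventually_lt continuousAt_const (hx ζ hζ)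
  have hcl1 : IsClosed V1 := by
    have : V1 = V2ᶜ := by
      ext x
      constructor
      · intro h1 h2
        exact hdisj x h1 h2
      · intro h2
        exact (hcov x).resolve_right h2
    rw [this]
    exact ho2.isClosed_compl
  rcases V1.eq_empty_or_nonempty with h | h
  · have h1 : ∀ x : ℝ, ‖y (x + m * I)‖ ≤ Real.exp (-(2 * L)) := by
      intro x
      have h2 : x ∈ V2 := (hcov x).resolve_left (by rw [h]; exact notMem_empty x)
      have := h2 0 (by simpa using (by positivity : (0:ℝ) ≤ A * S))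
      rw [add_zero] at this
      exact this.le
    have := P.strip hm0 h1
    linarith
  · have h1 : V1 = univ := IsClopen.eq_univ ⟨hcl1, ho1⟩ h
    refine P.mean m fun x => ?_
    have hx : x ∈ V1 := by rw [h1]; trivial
    obtain ⟨ζ, hζ, h2⟩ := hx
    exact P.colC hZ hC hC1 hκ hA hL n7 n8 n9 hS0 hm hb (hball' x ζ hζ) h2

end col

theorem LemZ.nonneg {C : ℝ} (hZ : LemZ C) : 0 ≤ C := by
  obtain ⟨ρ, hρ, h⟩ := hZ (fun _ => 1) 0 1 1 one_pos le_rfl (differentiable_const _) one_ne_zero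
    (fun z _ => by simp)
  have hρ0 : 0 ≤ ρ := by linarith [hρ.1]
  have h1 := (h (ρ : ℂ) (by simp [mem_sphere, abs_of_nonneg hρ0])).2.1
  have h2 := (norm_nonneg _).trans h1
  simpa using h2

/-- **THE GOOD COLUMN** -/
theorem good_column (P : Per y G) {C : ℝ} (hZ : LemZ C) {C' C1 κ : ℝ} (hC' : 1 ≤ C')
    (hC1 : 0 < C1) (hκ : 0 < κ) :
    ∃ L0 : ℝ, ∀ L ≥ L0, ∀ m S : ℝ, 1 / L ^ 2 ≤ S → S * L / 2 ≤ m →
      (∀ β : ℝ, |β| ≤ (C' * Real.log L) ^ 3 → ∀ z : ℂ, |z.im| ≤ m + S * β →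
        ‖y z‖ ≤ C1 * √L * Real.exp (L + β)) →
      ∃ x : ℝ, ∀ z ∈ closedBall ((x : ℂ) + m * I) (C' * Real.log L * S),
        ‖y z‖ ≤ κ * Real.exp L ∧ ‖G z‖ ≤ κ ^ 2 * Real.exp (2 * L) := by
  have hC := hZ.nonneg
  have hC'0 : 0 < C' := by linarith
  have hlog : Tendsto (fun L : ℝ => C' * Real.log L) atTop atTop :=
    Real.tendsto_log_atTop.const_mul_atTop hC'0
  have e1 : ∀ᶠ L : ℝ in atTop, 4 ≤ C' * Real.log L := hlog.eventually_ge_atTop 4
  have e2 : ∀ᶠ L : ℝ in atTop, 1 ≤ L := eventually_ge_atTop 1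
  have e3a : ∀ᶠ L : ℝ in atTop, 9 * (C' * Real.log L) ≤ L / 2 := by
    have := Real.isLittleO_log_id_atTop.bound (c := 1 / (18 * C')) (by positivity)
    filter_upwards [this, e2] with L h1 h2
    rw [Real.norm_of_nonneg (Real.log_nonneg h2), id, Real.norm_of_nonneg (by linarith)] at h1
    have h3 : 9 * C' * Real.log L ≤ 9 * C' * (1 / (18 * C') * L) := by gcongr
    have h4 : 9 * C' * (1 / (18 * C') * L) = L / 2 := by
      field_simp
      ring
    linarith
  have e3b : ∀ᶠ L : ℝ in atTop, C1 * √L ≤ Real.exp (L / 2) := by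
    have h0 : Tendsto (fun L : ℝ => L ^ 1 * Real.exp (-L)) atTop (𝓝 0) :=
      Real.tendsto_pow_mul_exp_neg_atTop_nhds_zero 1
    have h00 : Tendsto (fun L : ℝ => (L / 2) ^ 1 * Real.exp (-(L / 2))) atTop (𝓝 0) :=
      h0.comp (tendsto_id.atTop_div_const (by norm_num))
    have h1 := h00.eventually_lt_const (u := 1 / (2 * C1)) (by positivity)
    filter_upwards [h1, e2] with L h1 h2
    have h3 : √L ≤ L := Real.sqrt_le_iff.2 ⟨by linarith, by nlinarith⟩
    rw [pow_one, Real.exp_neg, ← div_eq_mul_inv, div_lt_div_iff₀ (Real.exp_pos _) (by positivity)]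
      at h1
    have h4 : C1 * √L ≤ C1 * L := by gcongr
    nlinarith
  have e4 : ∀ᶠ L : ℝ in atTop, 4 * C * L ^ 8 ≤ κ ^ 2 * Real.exp (2 * L) := by
    have h0 := (Real.tendsto_pow_mul_exp_neg_atTop_nhds_zero 8).const_mul (4 * C)
    rw [mul_zero] at h0
    have h1 := h0.eventually_lt_const (u := κ ^ 2) (by positivity)
    filter_upwards [h1, e2] with L h1 h2
    rw [← mul_assoc, Real.exp_neg, ← div_eq_mul_inv, div_lt_iff₀ (Real.exp_pos _)] at h1
    refine h1.le.trans ?_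
    gcongr
    linarith
  have h5 : Tendsto (fun L : ℝ => Real.exp (-(2 * L))) atTop (𝓝 0) :=
    Real.tendsto_exp_neg_atTop_nhds_zero.comp (tendsto_id.const_mul_atTop (by norm_num))
  have e5 : ∀ᶠ L : ℝ in atTop, Real.exp (-(2 * L)) < κ * Real.exp L := by
    filter_upwards [h5.eventually_lt_const hκ, e2] with L h1 h2
    exact h1.trans_le (le_mul_of_one_le_right hκ.le (Real.one_le_exp (by linarith)))
  have e6 : ∀ᶠ L : ℝ in atTop, Real.exp (-(2 * L)) < ‖y 0‖ :=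
    h5.eventually_lt_const (norm_pos_iff.2 (by simpa using P.y0 0))
  have e7 : ∀ᶠ L : ℝ in atTop, C1 * √L ≤ κ * Real.exp (C' * Real.log L) := by
    have h1 := (Real.tendsto_sqrt_atTop.const_mul_atTop hκ).eventually_ge_atTop C1
    filter_upwards [h1, e2] with L h1 h2
    have h3 : 0 ≤ Real.log L := Real.log_nonneg h2
    have h4 : Real.exp (Real.log L) ≤ Real.exp (C' * Real.log L) :=
      Real.exp_le_exp.2 (le_mul_of_one_le_left h3 hC')
    rw [Real.exp_log (by linarith)] at h4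
    calc C1 * √L ≤ κ * √L * √L := by gcongr
      _ = κ * L := by rw [mul_assoc, Real.mul_self_sqrt (by linarith)]
      _ ≤ _ := by gcongr
  have e8 : ∀ᶠ L : ℝ in atTop,
      64 * C / (C' * Real.log L) ^ 2 + 16 * C / (C' * Real.log L) ≤ 1 / 2 := by
    have h1 : Tendsto (fun A : ℝ => 64 * C / A ^ 2 + 16 * C / A) atTop (𝓝 0) := by
      have h2 : Tendsto (fun A : ℝ => 64 * C / A ^ 2) atTop (𝓝 0) :=
        (tendsto_pow_atTop two_ne_zero).const_div_atTop _
      have h3 : Tendsto (fun A : ℝ => 16 * C / A) atTop (𝓝 0) :=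
        tendsto_id.const_div_atTop _
      simpa using h2.add h3
    exact (hlog.eventually (h1.eventually_lt_const (u := 1 / 2) (by norm_num))).mono
      fun L h => h.le
  have e9 : ∀ᶠ L : ℝ in atTop, (C' * Real.log L) ^ 3 ≤ L / 2 := by
    have := (Real.isLittleO_pow_log_id_atTop (n := 3)).bound (c := 1 / (2 * C' ^ 3)) (by positivity)
    filter_upwards [this, e2] with L h1 h2
    rw [Real.norm_of_nonneg (pow_nonneg (Real.log_nonneg h2) 3), id,
      Real.norm_of_nonneg (by linarith)] at h1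
    have h3 : C' ^ 3 * Real.log L ^ 3 ≤ C' ^ 3 * (1 / (2 * C' ^ 3) * L) := by gcongr
    have h4 : C' ^ 3 * (1 / (2 * C' ^ 3) * L) = L / 2 := by
      field_simp
    rw [mul_pow]
    linarith
  have hev := e1.and (e2.and (e3a.and (e3b.and (e4.and (e5.and (e6.and (e7.and (e8.and e9))))))))
  obtain ⟨L0, hL0⟩ := eventually_atTop.1 hev
  refine ⟨L0, fun L hL m S hS hm hb => ?_⟩
  obtain ⟨f1, f2, f3a, f3b, f4, f5, f6, f7, f8, f9⟩ := hL0 L hL
  refine P.column hZ hC hC1 hκ f1 f2 ?_ f4 f5 f6 f7 f8 f9 hS hm hb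
  calc C1 * √L * Real.exp (L + 9 * (C' * Real.log L))
      ≤ Real.exp (L / 2) * Real.exp (L + L / 2) := by gcongr
    _ = Real.exp (2 * L) := by rw [← Real.exp_add]; ring_nf

end Crest.Agent.R102.Col516
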