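import Mathlib

/-!
Row 102, T1-B, block GROWTH: **the good column on a strip** (helper516), part A:
* `PerS y G h`: `y'' = G y` on `|Im z| < h`, `y` holomorphic, 1-periodic, positive on the real line;
* `mean`    : `Re G (x + i m) < 0` for all real `x` is impossible;
* `GA`, `GC`: bounds for `G` and `G + 1/S²` from Lemma Z.
-/

set_option autoImplicit false

open Set Filter Metric Complex Topology MeasureTheory
open scoped ComplexConjugate

noncomputable section

namespace Crest.Agent.R102.ColK516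

/-- the strip -/
abbrev St (h : ℝ) : Set ℂ := {z | |z.im| < h}

theorem isOpen_St (h : ℝ) : IsOpen (St h) :=
  isOpen_lt (continuous_abs.comp continuous_im) continuous_const

theorem isPreconnected_St (h : ℝ) : IsPreconnected (St h) := by
  have : St h = Complex.imLm ⁻¹' Ioo (-h) h := by
    ext z
    simp [St, abs_lt]
  rw [this]
  exact ((convex_Ioo (-h) h).linear_preimage Complex.imLm).isPreconnected

/-- Lemma Z (329), with constant `C` -/
def LemZ (C : ℝ) : Prop :=
  ∀ (q : ℂ → ℂ) (p : ℂ) (R a : ℝ), 0 < R → 1 ≤ a → AnalyticOnNhd ℂ q (closedBall p R) →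
    q p ≠ 0 → (∀ z ∈ closedBall p R, ‖q z‖ ≤ Real.exp a * ‖q p‖) →
    ∃ ρ ∈ Icc (R / 4) (R / 2), ∀ z ∈ sphere p ρ, q z ≠ 0 ∧ ‖deriv q z / q z‖ ≤ C * a ^ 2 / R ∧
      ‖deriv (deriv q) z / q z‖ ≤ C * a ^ 4 / R ^ 2

/-- the data -/
structure PerS (y G : ℂ → ℂ) (h : ℝ) : Prop where
  h0 : 0 < h
  hy : DifferentiableOn ℂ y (St h)
  hG : DifferentiableOn ℂ G (St h)
  ode : ∀ z ∈ St h, deriv (deriv y) z = G z * y z
  per : ∀ z ∈ St h, y (z + 1) = y z
  pos : ∀ x : ℝ, (y x).im = 0 ∧ 0 < (y x).re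

variable {y G : ℂ → ℂ} {h : ℝ}

theorem PerS.real (P : PerS y G h) (x : ℝ) : (x : ℂ) ∈ St h := by
  simp [St, P.h0]

theorem PerS.dy (P : PerS y G h) {z : ℂ} (hz : z ∈ St h) : DifferentiableAt ℂ y z :=
  P.hy.differentiableAt ((isOpen_St h).mem_nhds hz)

theorem PerS.dG (P : PerS y G h) {z : ℂ} (hz : z ∈ St h) : DifferentiableAt ℂ G z :=
  P.hG.differentiableAt ((isOpen_St h).mem_nhds hz)

theorem PerS.hy1 (P : PerS y G h) : DifferentiableOn ℂ (deriv y) (St h) :=
  P.hy.deriv (isOpen_St h)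

theorem PerS.dy1 (P : PerS y G h) {z : ℂ} (hz : z ∈ St h) : DifferentiableAt ℂ (deriv y) z :=
  P.hy1.differentiableAt ((isOpen_St h).mem_nhds hz)

theorem PerS.y0 (P : PerS y G h) (x : ℝ) : y x ≠ 0 := by
  intro h
  have := (P.pos x).2
  rw [h] at this
  simp at this

theorem St_add {z : ℂ} (hz : z ∈ St h) : z + 1 ∈ St h := by
  simpa [St] using hz

theorem PerS.per1 (P : PerS y G h) {z : ℂ} (hz : z ∈ St h) : deriv y (z + 1) = deriv y z := by
  have h1 : (fun w => y (w + 1)) =ᶠ[𝓝 z] y := by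
    filter_upwards [(isOpen_St h).mem_nhds hz] with w hw
    exact P.per w hw
  rw [← h1.deriv_eq, deriv_comp_add_const]

theorem PerS.per2 (P : PerS y G h) {z : ℂ} (hz : z ∈ St h) :
    deriv (deriv y) (z + 1) = deriv (deriv y) z := by
  have h1 : (fun w => deriv y (w + 1)) =ᶠ[𝓝 z] deriv y := by
    filter_upwards [(isOpen_St h).mem_nhds hz] with w hw
    exact P.per1 hw
  rw [← h1.deriv_eq, deriv_comp_add_const]

theorem PerS.perG (P : PerS y G h) {z : ℂ} (hz : z ∈ St h) : G (z + 1) = G z := by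
  have hd : DifferentiableOn ℂ (fun z => G (z + 1)) (St h) := fun w hw =>
    ((P.dG (St_add hw)).comp w (differentiableAt_id.add_const 1)).differentiableWithinAt
  have h1 : AnalyticOnNhd ℂ (fun z => G (z + 1)) (St h) := hd.analyticOnNhd (isOpen_St h)
  have h2 : AnalyticOnNhd ℂ G (St h) := P.hG.analyticOnNhd (isOpen_St h)
  have h0 : (0 : ℂ) ∈ St h := by simpa using P.real 0
  have hne : ∀ᶠ z in 𝓝 (0 : ℂ), y z ≠ 0 :=
    (P.dy h0).continuousAt.eventually_ne (by simpa using P.y0 0)
  have h3 : (fun z => G (z + 1)) =ᶠ[𝓝 (0 : ℂ)] G := by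
    filter_upwards [hne, (isOpen_St h).mem_nhds h0] with z hz hz'
    have e1 := P.ode (z + 1) (St_add hz')
    rw [P.per2 hz', P.ode z hz', P.per z hz'] at e1
    exact (mul_right_cancel₀ hz e1).symm
  exact h1.eqOn_of_preconnected_of_eventuallyEq h2 (isPreconnected_St h) h0 h3 hz

/-- the derivative is real on the real line -/
theorem PerS.real1 (P : PerS y G h) (x : ℝ) : (deriv y x).im = 0 := by
  have h1 : HasDerivAt (fun t : ℝ => y t) (deriv y x) x := (P.dy (P.real x)).hasDerivAt.comp_ofReal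
  have h2 : HasDerivAt (fun t : ℝ => (y t).im) ((deriv y x).im) x := by
    exact (Complex.imCLM.hasFDerivAt.comp_hasDerivAt x h1)
  have h3 : (fun t : ℝ => (y t).im) = fun _ => 0 := funext fun t => (P.pos t).1
  rw [h3] at h2
  exact (h2.unique (hasDerivAt_const x (0 : ℝ)))

/-- the mean of `G` over a period of the real line is `≥ 0` -/
theorem PerS.mean0 (P : PerS y G h) : 0 ≤ (∫ x in (0 : ℝ)..1, G x).re := by
  set u : ℝ → ℂ := fun x => deriv y x / y x with hu
  have hud : ∀ x : ℝ, HasDerivAt u (G x - (u x) ^ 2) x := by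
    intro x
    have h1 : HasDerivAt (fun t : ℝ => deriv y t) (deriv (deriv y) x) x :=
      (P.dy1 (P.real x)).hasDerivAt.comp_ofReal
    have h2 : HasDerivAt (fun t : ℝ => y t) (deriv y x) x :=
      (P.dy (P.real x)).hasDerivAt.comp_ofReal
    have h3 := h1.div h2 (P.y0 x)
    refine h3.congr_deriv ?_
    rw [P.ode x (P.real x), hu]
    have := P.y0 x
    field_simp
  have hGc : Continuous fun x : ℝ => G x := by
    refine continuous_iff_continuousAt.2 fun x => ?_
    have h1 : ContinuousAt G (x : ℂ) := (P.dG (P.real x)).continuousAt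
    exact ContinuousAt.comp (f := fun x : ℝ => (x : ℂ)) h1 continuous_ofReal.continuousAt
  have huc : Continuous u := continuous_iff_continuousAt.2 fun x => (hud x).continuousAt
  have hu2 : Continuous fun x : ℝ => u x ^ 2 := huc.pow 2
  have h4 : ∫ x in (0 : ℝ)..1, (G x - (u x) ^ 2) = u 1 - u 0 :=
    intervalIntegral.integral_eq_sub_of_hasDerivAt (fun x _ => hud x)
      ((hGc.sub hu2).intervalIntegrable 0 1)
  have h5 : u 1 = u 0 := by
    simp only [hu]
    have e1 := P.per (0 : ℝ) (P.real 0)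
    have e2 := P.per1 (P.real 0)
    simp only [ofReal_zero, zero_add] at e1 e2
    norm_num [e1, e2]
  rw [h5, sub_self, intervalIntegral.integral_sub (hGc.intervalIntegrable 0 1)
    (hu2.intervalIntegrable 0 1), sub_eq_zero] at h4
  rw [h4]
  have h6 : (∫ x in (0 : ℝ)..1, (u x) ^ 2).re = ∫ x in (0 : ℝ)..1, ((u x) ^ 2).re := by
    have := Complex.reCLM.intervalIntegral_comp_comm (μ := volume) (hu2.intervalIntegrable 0 1)
    simpa using this.symm
  rw [h6]
  refine intervalIntegral.integral_nonneg zero_le_one fun x _ => ?_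
  have h7 : (u x).im = 0 := by
    simp only [hu, Complex.div_im, P.real1 x, (P.pos x).1]
    simp
  have h8 : ((u x) ^ 2).re = (u x).re ^ 2 := by
    rw [sq, Complex.mul_re, h7]
    ring
  rw [h8]
  positivity

theorem St_line {m x : ℝ} (hm : 0 ≤ m) (hmh : m < h) : (x : ℂ) + m * I ∈ St h := by
  simp [St, abs_of_nonneg hm, hmh]

/-- the mean of `G` does not depend on the height -/
theorem PerS.mean_shift (P : PerS y G h) {m : ℝ} (hm : 0 ≤ m) (hmh : m < h) :
    ∫ x in (0 : ℝ)..1, G (x + m * I) = ∫ x in (0 : ℝ)..1, G x := by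
  have hsub : uIcc (0 : ℂ).re (1 + m * I).re ×ℂ uIcc (0 : ℂ).im (1 + m * I).im ⊆ St h := by
    intro z hz
    rw [Complex.mem_reProdIm] at hz
    have h2 := hz.2
    simp only [zero_im, add_im, one_im, mul_im, ofReal_re, I_im, mul_one, ofReal_im, I_re,
      mul_zero, add_zero, zero_add] at h2
    rw [uIcc_of_le hm] at h2
    simp only [St, mem_ofPred_eq]
    rw [abs_of_nonneg h2.1]
    exact h2.2.trans_lt hmh
  have hh := Complex.integral_boundary_rect_eq_zero_of_differentiableOn G 0 (1 + m * I)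
    (P.hG.mono hsub)
  simp only [zero_re, zero_im, add_re, one_re, mul_re, ofReal_re, I_re, mul_zero, ofReal_im, I_im,
    mul_one, sub_self, add_zero, add_im, one_im, mul_im, zero_add, ofReal_zero, zero_mul,
    ofReal_one] at hh
  have e : ∫ t in (0 : ℝ)..m, G (1 + t * I) = ∫ t in (0 : ℝ)..m, G (t * I) := by
    refine intervalIntegral.integral_congr fun t ht => ?_
    rw [uIcc_of_le hm] at ht
    have h1 : (t : ℂ) * I ∈ St h := by
      have := St_line (x := 0) ht.1 (ht.2.trans_lt hmh)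
      simpa using this
    show G (1 + t * I) = G (t * I)
    rw [add_comm, P.perG h1]
  rw [e] at hh
  have := sub_eq_zero.1 (by simpa using hh : (∫ x in (0 : ℝ)..1, G x) -
    ∫ x in (0 : ℝ)..1, G (x + m * I) = 0)
  exact this.symm

/-- **(D)** `Re G < 0` on a whole horizontal line is impossible -/
theorem PerS.mean (P : PerS y G h) {m : ℝ} (hm : 0 ≤ m) (hmh : m < h)
    (h : ∀ x : ℝ, (G (x + m * I)).re < 0) : False := by
  have h1 := P.mean0
  rw [← P.mean_shift hm hmh] at h1
  have hc : Continuous fun x : ℝ => G (x + m * I) := by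
    refine continuous_iff_continuousAt.2 fun x => ?_
    have h1 : ContinuousAt G ((x : ℂ) + m * I) := (P.dG (St_line hm hmh)).continuousAt
    have h2 : ContinuousAt (fun x : ℝ => (x : ℂ) + m * I) x := by fun_prop
    exact ContinuousAt.comp (f := fun x : ℝ => (x : ℂ) + m * I) h1 h2
  have h6 : (∫ x in (0 : ℝ)..1, G (x + m * I)).re = ∫ x in (0 : ℝ)..1, (G (x + m * I)).re := by
    have := Complex.reCLM.intervalIntegral_comp_comm (μ := volume) (hc.intervalIntegrable 0 1)
    simpa using this.symm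
  rw [h6] at h1
  have h2 : 0 < ∫ x in (0 : ℝ)..1, -(G (x + m * I)).re := by
    refine intervalIntegral.intervalIntegral_pos_of_pos ?_ (fun x => by linarith [h x]) one_pos
    exact ((Complex.continuous_re.comp hc).neg).intervalIntegrable 0 1
  rw [intervalIntegral.integral_neg] at h2
  linarith

theorem max_ball {f : ℂ → ℂ} {U : Set ℂ} (hf : DifferentiableOn ℂ f U) {p : ℂ} {ρ M : ℝ}
    (hρ : 0 < ρ) (hU : closedBall p ρ ⊆ U)
    (h : ∀ z ∈ sphere p ρ, ‖f z‖ ≤ M) : ∀ z ∈ closedBall p ρ, ‖f z‖ ≤ M := by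
  intro z hz
  refine Complex.norm_le_of_forall_mem_frontier_norm_le (U := ball p ρ) isBounded_ball
    (hf.diffContOnCl_ball hU) (fun w hw => ?_) ?_
  · rw [frontier_ball p hρ.ne'] at hw
    exact h w hw
  · rwa [closure_ball p hρ.ne']

/-- **(A)** polynomial bound for `G` where `log |y|` is not too small -/
theorem PerS.GA (P : PerS y G h) {C : ℝ} (hZ : LemZ C) {p : ℂ} {R a : ℝ} (hR : 0 < R)
    (ha : 1 ≤ a) (hp : y p ≠ 0) (hsub : closedBall p R ⊆ St h)
    (hb : ∀ z ∈ closedBall p R, ‖y z‖ ≤ Real.exp a * ‖y p‖) :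
    ∀ z ∈ closedBall p (R / 4), ‖G z‖ ≤ C * a ^ 4 / R ^ 2 := by
  have han : AnalyticOnNhd ℂ y (closedBall p R) := fun w hw =>
    P.hy.analyticAt ((isOpen_St h).mem_nhds (hsub hw))
  obtain ⟨ρ, hρ, h⟩ := hZ y p R a hR ha han hp hb
  have hρ0 : 0 < ρ := by
    have := hρ.1
    linarith
  have hρR : closedBall p ρ ⊆ St _ :=
    (closedBall_subset_closedBall (by linarith [hρ.2])).trans hsub
  intro z hz
  refine max_ball P.hG hρ0 hρR (fun w hw => ?_) z (closedBall_subset_closedBall hρ.1 hz)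
  obtain ⟨h1, -, h3⟩ := h w hw
  rwa [P.ode w (hρR (sphere_subset_closedBall hw)), mul_div_assoc, div_self h1, mul_one] at h3

/-- **(C)** `G + 1/S²` is small if `y e^{i (z - c) / S}` has small logarithmic derivative -/
theorem PerS.GC (P : PerS y G h) {C : ℝ} (hZ : LemZ C) {p c : ℂ} {R a S : ℝ} (hR : 0 < R)
    (ha : 1 ≤ a) (hS : 0 < S) (hp : y p ≠ 0) (hsub : closedBall p R ⊆ St h)
    (hb : ∀ z ∈ closedBall p R, ‖y z * Complex.exp (I * (z - c) / S)‖ ≤
      Real.exp a * ‖y p * Complex.exp (I * (p - c) / S)‖) :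
    ∀ z ∈ closedBall p (R / 4), ‖G z + 1 / (S : ℂ) ^ 2‖ ≤
      C * a ^ 4 / R ^ 2 + 2 / S * (C * a ^ 2 / R) := by
  set E : ℂ → ℂ := fun z => Complex.exp (I * (z - c) / S) with hE
  have hEd : ∀ z, HasDerivAt E (E z * (I / S)) z := by
    intro z
    have h1 : HasDerivAt (fun z : ℂ => I * (z - c) / S) (I * 1 / S) z :=
      (((hasDerivAt_id z).sub_const c).const_mul I).div_const _
    simpa [hE, mul_one] using h1.cexp
  have hE0 : ∀ z, E z ≠ 0 := fun z => Complex.exp_ne_zero _
  set q : ℂ → ℂ := fun z => y z * E z with hq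
  have hq1 : ∀ z ∈ St h, HasDerivAt q ((deriv y z + I / S * y z) * E z) z := by
    intro z hz
    refine ((P.dy hz).hasDerivAt.mul (hEd z)).congr_deriv ?_
    ring
  have hq1' : ∀ z ∈ St h, deriv q z = (deriv y z + I / S * y z) * E z := fun z hz =>
    (hq1 z hz).deriv
  have hq2 : ∀ z ∈ St h, deriv (deriv q) z =
      (G z * y z + 2 * (I / S) * deriv y z - 1 / (S : ℂ) ^ 2 * y z) * E z := by
    intro z hz
    have he : deriv q =ᶠ[𝓝 z] fun z => (deriv y z + I / (S : ℂ) * y z) * E z := by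
      filter_upwards [(isOpen_St h).mem_nhds hz] with w hw
      exact hq1' w hw
    rw [he.deriv_eq]
    have h1 : HasDerivAt (fun z => (deriv y z + I / (S : ℂ) * y z) * E z)
        ((deriv (deriv y) z + I / (S : ℂ) * deriv y z) * E z +
          (deriv y z + I / (S : ℂ) * y z) * (E z * (I / S))) z :=
      (((P.dy1 hz).hasDerivAt.add ((P.dy hz).hasDerivAt.const_mul (I / (S : ℂ)))).mul (hEd z))
    rw [h1.deriv, P.ode z hz]
    have hI : (I / (S : ℂ)) * (I / S) = - (1 / (S : ℂ) ^ 2) := by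
      rw [div_mul_div_comm, I_mul_I, ← sq]
      ring
    have e : (G z * y z + I / ↑S * deriv y z) * E z + (deriv y z + I / ↑S * y z) * (E z * (I / ↑S)) =
        (G z * y z + 2 * (I / S) * deriv y z + ((I / (S : ℂ)) * (I / S)) * y z) * E z := by ring
    rw [e, hI]
    ring
  have hqd : DifferentiableOn ℂ q (St h) := fun z hz =>
    (hq1 z hz).differentiableAt.differentiableWithinAt
  have han : AnalyticOnNhd ℂ q (closedBall p R) := fun w hw =>
    hqd.analyticAt ((isOpen_St h).mem_nhds (hsub hw))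
  obtain ⟨ρ, hρ, h'⟩ := hZ q p R a hR ha han (mul_ne_zero hp (hE0 p)) hb
  have hρ0 : 0 < ρ := by
    have := hρ.1
    linarith
  have hρR : closedBall p ρ ⊆ St h :=
    (closedBall_subset_closedBall (by linarith [hρ.2])).trans hsub
  intro z hz
  refine max_ball (f := fun z => G z + 1 / (S : ℂ) ^ 2) (P.hG.add_const _) hρ0 hρR
    (fun w hw => ?_) z (closedBall_subset_closedBall hρ.1 hz)
  obtain ⟨h1, h2, h3⟩ := h' w hw
  have hwS := hρR (sphere_subset_closedBall hw)
  have hy0 : y w ≠ 0 := left_ne_zero_of_mul h1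
  have hSc : (S : ℂ) ≠ 0 := by exact_mod_cast hS.ne'
  have e1 : G w + 1 / (S : ℂ) ^ 2 =
      deriv (deriv q) w / q w - 2 * (I / S) * (deriv q w / q w) := by
    rw [hq2 w hwS, hq1' w hwS, hq]
    have hEw := hE0 w
    have hI : (I : ℂ) ^ 2 = -1 := I_sq
    field_simp
    ring_nf
    rw [hI]
    ring
  rw [e1]
  refine (norm_sub_le _ _).trans (add_le_add h3 ?_)
  rw [norm_mul]
  have : ‖(2 : ℂ) * (I / S)‖ = 2 / S := by
    rw [norm_mul, norm_div, Complex.norm_I, Complex.norm_of_nonneg hS.le]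
    norm_num
    ring
  rw [this]
  gcongr

theorem PerS.conj (P : PerS y G h) {z : ℂ} (hz : z ∈ St h) : y (conj z) = conj (y z) := by
  have hc : ∀ w ∈ St h, conj w ∈ St h := fun w hw => by simpa [St] using hw
  have hd : DifferentiableOn ℂ (fun z => conj (y (conj z))) (St h) := by
    intro w hw
    have := (P.dy (hc w hw)).conj_conj
    simpa [Function.comp_def] using this.differentiableWithinAt
  have h1 : AnalyticOnNhd ℂ (fun z => conj (y (conj z))) (St h) := hd.analyticOnNhd (isOpen_St h)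
  have h2 : AnalyticOnNhd ℂ y (St h) := P.hy.analyticOnNhd (isOpen_St h)
  have h3 : ∃ᶠ w in 𝓝[≠] (0 : ℂ), conj (y (conj w)) = y w := by
    have hT : Tendsto (fun n : ℕ => (((1 : ℝ) / ((n : ℝ) + 1) : ℝ) : ℂ)) atTop (𝓝[≠] (0 : ℂ)) := by
      rw [tendsto_nhdsWithin_iff]
      constructor
      · have := (Complex.continuous_ofReal.tendsto 0).comp
          (tendsto_one_div_add_atTop_nhds_zero_nat (𝕜 := ℝ))
        simpa [Function.comp_def] using this
      · filter_upwards with n
        have : (0 : ℝ) < 1 / ((n : ℝ) + 1) := by positivity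
        simpa using (by exact_mod_cast this.ne' : (((1 : ℝ) / ((n : ℝ) + 1) : ℝ) : ℂ) ≠ 0)
    refine hT.frequently (Frequently.of_forall fun n => ?_)
    rw [conj_ofReal]
    exact conj_eq_iff_im.2 (P.pos _).1
  have h4 := h1.eqOn_of_preconnected_of_frequently_eq h2 (isPreconnected_St h)
    (by simpa using P.real 0) h3
  have h5 : conj (y (conj (conj z))) = y (conj z) := h4 (hc z hz)
  rw [conj_conj] at h5
  exact h5.symm

/-- `y` cannot be small on a whole horizontal line -/
theorem PerS.strip (P : PerS y G h) {m M B : ℝ} (hm : 0 < m) (hmh : m < h)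
    (hB : ∀ z : ℂ, |z.im| ≤ m → ‖y z‖ ≤ B)
    (hM : ∀ x : ℝ, ‖y (x + m * I)‖ ≤ M) : ‖y 0‖ ≤ M := by
  have hcl : closure (im ⁻¹' Ioo (-m) m) ⊆ St h := by
    refine (closure_minimal (t := im ⁻¹' Icc (-m) m) (preimage_mono Ioo_subset_Icc_self)
      (isClosed_Icc.preimage continuous_im)).trans ?_
    intro z hz
    exact (abs_le.2 hz).trans_lt hmh
  refine PhragmenLindelof.horizontal_strip (a := -m) (b := m) (P.hy.mono hcl).diffContOnCl
    ?_ ?_ ?_ (z := 0) (by simp [hm.le]) (by simp [hm.le])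
  · have h2 : 0 < m - -m := by linarith
    refine ⟨0, by positivity, 0, ?_⟩
    refine Asymptotics.IsBigO.of_bound B ?_
    rw [eventually_inf_principal]
    filter_upwards with w hw
    have : |w.im| ≤ m := by
      rw [mem_preimage, mem_Ioo] at hw
      exact abs_le.2 ⟨hw.1.le, hw.2.le⟩
    simpa using hB w this
  · intro w hw
    have e : conj w = (w.re : ℂ) + m * Complex.I := by
      apply Complex.ext
      · simp
      · simp; linarith
    have hwS : w ∈ St h := by
      simp only [St, mem_ofPred_eq, hw, abs_neg, abs_of_pos hm]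
      exact hmh
    have e2 := hM w.re
    rw [← e, P.conj hwS, RCLike.norm_conj] at e2
    exact e2
  · intro w hw
    have : w = (w.re : ℂ) + m * Complex.I := by
      rw [← hw]; exact (Complex.re_add_im w).symm
    rw [this]
    exact hM w.re

end Crest.Agent.R102.ColK516
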