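import Crest.Agent.R102.ColKA_516

/-!
Row 102, T1-B, block GROWTH: **the good column on a strip** (helper516), part B:
`PerS.column` (with numeric hypotheses) and `good_column` (for `L ≥ L0`).
-/

set_option autoImplicit false

open Set Filter Metric Complex Topology MeasureTheory
open scoped ComplexConjugate

noncomputable section

namespace Crest.Agent.R102.ColK516

variable {y G : ℂ → ℂ} {h : ℝ}

theorem norm_expI (z c : ℂ) (S : ℝ) :
    ‖Complex.exp (I * (z - c) / S)‖ = Real.exp (-((z.im - c.im) / S)) := by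
  rw [Complex.norm_exp]
  congr 1
  rw [Complex.div_ofReal_re]
  simp
  ring

section col

variable {C C1 κ A L m S : ℝ} {k : ℕ}

/-- the window bound in the form `|y z| ≤ C₁ √L exp (L + (Im z - m) / S)` -/
theorem F1 (n9 : A ^ 3 ≤ L / 2) (hS0 : 0 < S) (hm : S * L / 2 ≤ m)
    (hb : ∀ β : ℝ, |β| ≤ A ^ 3 → ∀ z : ℂ, |z.im| ≤ m + S * β →
      ‖y z‖ ≤ C1 * √L * Real.exp (L + β)) {z : ℂ} (hz : |z.im - m| ≤ A ^ 3 * S) :
    ‖y z‖ ≤ C1 * √L * Real.exp (L + (z.im - m) / S) := by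
  refine hb ((z.im - m) / S) ?_ z ?_
  · rw [abs_div, abs_of_pos hS0, div_le_iff₀ hS0]
    exact hz
  · have h1 : S * ((z.im - m) / S) = z.im - m := by field_simp
    rw [h1]
    have h2 := (abs_le.1 hz).1
    have h3 : A ^ 3 * S ≤ L / 2 * S := by gcongr
    have h4 : 0 ≤ z.im := by nlinarith
    rw [abs_of_nonneg h4]
    linarith

theorem im_sub_le {z c : ℂ} {r : ℝ} (h : z ∈ closedBall c r) : |z.im - c.im| ≤ r := by
  rw [← Complex.sub_im]
  exact (Complex.abs_im_le_norm _).trans (by simpa [mem_closedBall, dist_eq_norm] using h)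

/-- points near height `m` are in the strip -/
theorem mem_St (n9 : A ^ 3 ≤ L / 2) (hS0 : 0 < S) (hm : S * L / 2 ≤ m)
    (hh : m + S * A ^ 3 < h) {z : ℂ} (hz : |z.im - m| ≤ A ^ 3 * S) : z ∈ St h := by
  have h2 := abs_le.1 hz
  have h3 : A ^ 3 * S ≤ L / 2 * S := by gcongr
  have h4 : 0 ≤ z.im := by nlinarith
  simp only [St, mem_ofPred_eq]
  rw [abs_of_nonneg h4]
  linarith

/-- **(A')** -/
theorem PerS.colA (P : PerS y G h) (hZ : LemZ C) (hC : 0 ≤ C) (hC1 : 0 < C1)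
    (hA : 4 ≤ A) (hL : 1 ≤ L)
    (n3 : C1 * √L * Real.exp (L + 9 * A) ≤ Real.exp (2 * L))
    (n4 : 4 * C * L ^ (4 + 2 * k) ≤ κ ^ 2 * Real.exp (2 * L)) (n9 : A ^ 3 ≤ L / 2)
    (hS : 1 / L ^ k ≤ S) (hm : S * L / 2 ≤ m) (hh : m + S * A ^ 3 < h)
    (hb : ∀ β : ℝ, |β| ≤ A ^ 3 → ∀ z : ℂ, |z.im| ≤ m + S * β →
      ‖y z‖ ≤ C1 * √L * Real.exp (L + β)) {x : ℝ} {p : ℂ}
    (hp : p ∈ closedBall ((x : ℂ) + m * I) (A * S)) (hyp : Real.exp (-(2 * L)) ≤ ‖y p‖) :
    ∀ z ∈ closedBall ((x : ℂ) + m * I) (A * S), ‖G z‖ ≤ κ ^ 2 * Real.exp (2 * L) := by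
  have hS0 : 0 < S := lt_of_lt_of_le (by positivity) hS
  have hA3 : 9 * A ≤ A ^ 3 := by nlinarith [mul_nonneg (by linarith : (0:ℝ) ≤ A - 4) (by linarith : (0:ℝ) ≤ A + 4)]
  have hp1 : |p.im - m| ≤ A * S := by simpa using im_sub_le hp
  have h0 : ∀ z ∈ closedBall p (8 * (A * S)), |z.im - m| ≤ 9 * (A * S) := by
    intro z hz
    have hz1 := im_sub_le hz
    have := abs_add_le (z.im - p.im) (p.im - m)
    rw [sub_add_sub_cancel] at this
    linarith
  have hsub : closedBall p (8 * (A * S)) ⊆ St h := fun z hz =>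
    mem_St n9 hS0 hm hh ((h0 z hz).trans (by nlinarith))
  have h1 : ∀ z ∈ closedBall p (8 * (A * S)), ‖y z‖ ≤ Real.exp (4 * L) * ‖y p‖ := by
    intro z hz
    have hz2 := h0 z hz
    have hz3 : |z.im - m| ≤ A ^ 3 * S := hz2.trans (by nlinarith)
    have hz4 : (z.im - m) / S ≤ 9 * A := by
      rw [div_le_iff₀ hS0]
      have := (abs_le.1 hz2).2
      linarith
    calc ‖y z‖ ≤ C1 * √L * Real.exp (L + (z.im - m) / S) := F1 n9 hS0 hm hb hz3
      _ ≤ C1 * √L * Real.exp (L + 9 * A) := by gcongr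
      _ ≤ Real.exp (2 * L) := n3
      _ = Real.exp (4 * L) * Real.exp (-(2 * L)) := by rw [← Real.exp_add]; ring_nf
      _ ≤ Real.exp (4 * L) * ‖y p‖ := by gcongr
  have hyp0 : y p ≠ 0 := by
    intro h
    rw [h, norm_zero] at hyp
    exact absurd hyp (not_le.2 (Real.exp_pos _))
  have h2 := P.GA hZ (R := 8 * (A * S)) (a := 4 * L) (by positivity) (by linarith) hyp0 hsub h1
  intro z hz
  have hz1 : z ∈ closedBall p (8 * (A * S) / 4) := by
    rw [mem_closedBall] at hz hp ⊢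
    have := dist_triangle_right z p ((x : ℂ) + m * I)
    linarith
  refine (h2 z hz1).trans (le_trans ?_ n4)
  have hLS : 1 ≤ L ^ k * S := by
    rw [div_le_iff₀ (by positivity)] at hS
    linarith
  have hA2 : 1 ≤ A ^ 2 := by nlinarith
  rw [div_le_iff₀ (by positivity)]
  have e : 4 * C * L ^ (4 + 2 * k) * (8 * (A * S)) ^ 2 =
      C * (4 * L) ^ 4 * (A ^ 2 * (L ^ k * S) ^ 2) := by
    rw [pow_add, pow_mul']
    ring
  rw [e]
  refine le_mul_of_one_le_right (by positivity) ?_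
  exact one_le_mul_of_one_le_of_one_le hA2 (one_le_pow₀ hLS)

/-- **(C')** -/
theorem PerS.colC (P : PerS y G h) (hZ : LemZ C) (hC1 : 0 < C1) (hκ : 0 < κ)
    (hA : 4 ≤ A) (n7 : C1 * √L ≤ κ * Real.exp A)
    (n8 : 64 * C / A ^ 2 + 16 * C / A ≤ 1 / 2) (n9 : A ^ 3 ≤ L / 2)
    (hS0 : 0 < S) (hm : S * L / 2 ≤ m) (hh : m + S * A ^ 3 < h)
    (hb : ∀ β : ℝ, |β| ≤ A ^ 3 → ∀ z : ℂ, |z.im| ≤ m + S * β →
      ‖y z‖ ≤ C1 * √L * Real.exp (L + β)) {x : ℝ} {p : ℂ}
    (hp : p ∈ closedBall ((x : ℂ) + m * I) (A * S)) (hyp : κ * Real.exp L < ‖y p‖) :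
    (G ((x : ℂ) + m * I)).re < 0 := by
  set c : ℂ := (x : ℂ) + m * I with hc
  have hcim : c.im = m := by simp [hc]
  have hp1 : |p.im - m| ≤ A * S := by simpa [hcim] using im_sub_le hp
  have hA3 : A + A ^ 3 / 2 ≤ A ^ 3 := by
    nlinarith [mul_nonneg (by linarith : (0:ℝ) ≤ A - 4) (by linarith : (0:ℝ) ≤ A + 4)]
  have h0 : ∀ z ∈ closedBall p (A ^ 3 * S / 2), |z.im - m| ≤ A ^ 3 * S := by
    intro z hz
    have hz1 := im_sub_le hz
    have hz2 : |z.im - m| ≤ A * S + A ^ 3 * S / 2 := by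
      have := abs_add_le (z.im - p.im) (p.im - m)
      rw [sub_add_sub_cancel] at this
      linarith
    exact hz2.trans (by nlinarith)
  have hsub : closedBall p (A ^ 3 * S / 2) ⊆ St h := fun z hz => mem_St n9 hS0 hm hh (h0 z hz)
  have h1 : ∀ z ∈ closedBall p (A ^ 3 * S / 2), ‖y z * Complex.exp (I * (z - c) / S)‖ ≤
      Real.exp (2 * A) * ‖y p * Complex.exp (I * (p - c) / S)‖ := by
    intro z hz
    have hz3 := h0 z hz
    have hp2 : (p.im - m) / S ≤ A := by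
      rw [div_le_iff₀ hS0]
      exact (abs_le.1 hp1).2
    rw [norm_mul, norm_mul, norm_expI, norm_expI, hcim]
    calc ‖y z‖ * Real.exp (-((z.im - m) / S))
        ≤ C1 * √L * Real.exp (L + (z.im - m) / S) * Real.exp (-((z.im - m) / S)) := by
          gcongr
          exact F1 n9 hS0 hm hb hz3
      _ = C1 * √L * Real.exp L := by
          rw [mul_assoc, ← Real.exp_add]
          ring_nf
      _ ≤ κ * Real.exp A * Real.exp L := by gcongr
      _ = Real.exp (2 * A) * (κ * Real.exp L * Real.exp (-A)) := by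
          have : Real.exp A = Real.exp (2 * A) * Real.exp (-A) := by
            rw [← Real.exp_add]; ring_nf
          rw [this]
          ring
      _ ≤ Real.exp (2 * A) * (‖y p‖ * Real.exp (-((p.im - m) / S))) := by
          gcongr
  have hyp0 : y p ≠ 0 := by
    intro h
    rw [h, norm_zero] at hyp
    exact absurd hyp (not_lt.2 (by positivity))
  have h2 := P.GC hZ (R := A ^ 3 * S / 2) (a := 2 * A) (c := c) (by positivity) (by linarith)
    hS0 hyp0 hsub h1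
  have hcp : c ∈ closedBall p (A ^ 3 * S / 2 / 4) := by
    rw [mem_closedBall, dist_comm]
    rw [mem_closedBall] at hp
    refine hp.trans ?_
    have : A * 8 ≤ A ^ 3 := by
      nlinarith [mul_nonneg (by linarith : (0:ℝ) ≤ A - 4) (by linarith : (0:ℝ) ≤ A + 4)]
    nlinarith
  have h3 := h2 c hcp
  have e : C * (2 * A) ^ 4 / (A ^ 3 * S / 2) ^ 2 + 2 / S * (C * (2 * A) ^ 2 / (A ^ 3 * S / 2)) =
      (64 * C / A ^ 2 + 16 * C / A) / S ^ 2 := by
    have : A ≠ 0 := by positivity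
    field_simp
    ring
  rw [e] at h3
  have h4 : (64 * C / A ^ 2 + 16 * C / A) / S ^ 2 ≤ 1 / 2 / S ^ 2 := by gcongr
  have h5 : |(G c + 1 / (S : ℂ) ^ 2).re| ≤ 1 / 2 / S ^ 2 :=
    (Complex.abs_re_le_norm _).trans (h3.trans h4)
  have h6 : (G c + 1 / (S : ℂ) ^ 2).re = (G c).re + 1 / S ^ 2 := by
    rw [add_re]
    congr 1
    have : (1 / (S : ℂ) ^ 2) = ((1 / S ^ 2 : ℝ) : ℂ) := by push_cast; rfl
    rw [this, ofReal_re]
  rw [h6] at h5
  have h7 := (abs_le.1 h5).2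
  have h8 : 1 / 2 / S ^ 2 < 1 / S ^ 2 := by
    gcongr
    norm_num
  linarith

/-- **the good column**, with numeric hypotheses -/
theorem PerS.column (P : PerS y G h) (hZ : LemZ C) (hC : 0 ≤ C) (hC1 : 0 < C1) (hκ : 0 < κ)
    (hA : 4 ≤ A) (hL : 1 ≤ L)
    (n3 : C1 * √L * Real.exp (L + 9 * A) ≤ Real.exp (2 * L))
    (n4 : 4 * C * L ^ (4 + 2 * k) ≤ κ ^ 2 * Real.exp (2 * L))
    (n5 : Real.exp (-(2 * L)) < κ * Real.exp L) (n6 : Real.exp (-(2 * L)) < ‖y 0‖)
    (n7 : C1 * √L ≤ κ * Real.exp A)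
    (n8 : 64 * C / A ^ 2 + 16 * C / A ≤ 1 / 2) (n9 : A ^ 3 ≤ L / 2)
    (hS : 1 / L ^ k ≤ S) (hm : S * L / 2 ≤ m) (hh : m + S * A ^ 3 < h)
    (hb : ∀ β : ℝ, |β| ≤ A ^ 3 → ∀ z : ℂ, |z.im| ≤ m + S * β →
      ‖y z‖ ≤ C1 * √L * Real.exp (L + β)) :
    ∃ x : ℝ, ∀ z ∈ closedBall ((x : ℂ) + m * I) (A * S),
      ‖y z‖ ≤ κ * Real.exp L ∧ ‖G z‖ ≤ κ ^ 2 * Real.exp (2 * L) := by
  have hS0 : 0 < S := lt_of_lt_of_le (by positivity) hS
  have hm0 : 0 < m := lt_of_lt_of_le (by positivity) hm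
  have hA0 : 0 < A := by linarith
  have hmh : m < h := lt_of_le_of_lt (le_add_of_nonneg_right (by positivity)) hh
  have hAA : A ≤ A ^ 3 := by
    nlinarith [mul_nonneg (by linarith : (0:ℝ) ≤ A - 4) (by linarith : (0:ℝ) ≤ A + 4)]
  by_contra hcon
  push Not at hcon
  -- points over the discs are in the strip
  have hin : ∀ (x : ℝ) (ζ : ℂ), ζ ∈ closedBall (0 : ℂ) (A * S) → (x : ℂ) + m * I + ζ ∈ St h := by
    intro x ζ hζ
    refine mem_St n9 hS0 hm hh ?_
    have h1 := im_sub_le hζ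
    simp only [zero_im, sub_zero] at h1
    have : ((x : ℂ) + m * I + ζ).im - m = ζ.im := by simp
    rw [this]
    exact h1.trans (by gcongr)
  have hyc : ∀ (x : ℝ) (ζ : ℂ), ζ ∈ closedBall (0 : ℂ) (A * S) →
      ContinuousAt (fun q : ℝ × ℂ => ‖y ((q.1 : ℂ) + m * I + q.2)‖) (x, ζ) := by
    intro x ζ hζ
    have h1 : ContinuousAt y ((fun q : ℝ × ℂ => (q.1 : ℂ) + m * I + q.2) (x, ζ)) :=
      (P.dy (hin x ζ hζ)).continuousAt
    exact (ContinuousAt.comp (f := fun q : ℝ × ℂ => (q.1 : ℂ) + m * I + q.2) h1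
      (by fun_prop)).norm
  set V1 : Set ℝ := {x | ∃ ζ ∈ closedBall (0 : ℂ) (A * S), κ * Real.exp L < ‖y ((x : ℂ) + m * I + ζ)‖}
    with hV1
  set V2 : Set ℝ := {x | ∀ ζ ∈ closedBall (0 : ℂ) (A * S), ‖y ((x : ℂ) + m * I + ζ)‖ < Real.exp (-(2 * L))}
    with hV2
  have hball : ∀ (x : ℝ) (z : ℂ), z ∈ closedBall ((x : ℂ) + m * I) (A * S) →
      z - ((x : ℂ) + m * I) ∈ closedBall (0 : ℂ) (A * S) := by
    intro x z hz
    simpa [mem_closedBall, dist_eq_norm] using hz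
  have hball' : ∀ (x : ℝ) (ζ : ℂ), ζ ∈ closedBall (0 : ℂ) (A * S) →
      (x : ℂ) + m * I + ζ ∈ closedBall ((x : ℂ) + m * I) (A * S) := by
    intro x ζ hζ
    simpa [mem_closedBall, dist_eq_norm] using hζ
  have hcov : ∀ x, x ∈ V1 ∨ x ∈ V2 := by
    intro x
    obtain ⟨z, hz, hz2⟩ := hcon x
    by_cases h1 : ‖y z‖ ≤ κ * Real.exp L
    · right
      have h2 := hz2 h1
      intro ζ hζ
      by_contra h3
      have := P.colA hZ hC hC1 hA hL n3 n4 n9 hS hm hh hb (hball' x ζ hζ) (not_lt.1 h3) z hz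
      linarith
    · left
      refine ⟨z - ((x : ℂ) + m * I), hball x z hz, ?_⟩
      rw [add_sub_cancel]
      exact not_le.1 h1
  have hdisj : ∀ x, x ∈ V1 → x ∈ V2 → False := by
    rintro x ⟨ζ, hζ, h1⟩ h2
    have := h2 ζ hζ
    linarith
  have ho1 : IsOpen V1 := by
    rw [isOpen_iff_mem_nhds]
    rintro x ⟨ζ, hζ, h1⟩
    have hcont : ContinuousAt (fun x : ℝ => ‖y ((x : ℂ) + m * I + ζ)‖) x :=
      ContinuousAt.comp (f := fun x : ℝ => (x, ζ))
        (g := fun q : ℝ × ℂ => ‖y ((q.1 : ℂ) + m * I + q.2)‖) (hyc x ζ hζ) (by fun_prop)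
    filter_upwards [hcont.eventually (lt_mem_nhds h1)] with x' hx'
    exact ⟨ζ, hζ, hx'⟩
  have ho2 : IsOpen V2 := by
    rw [isOpen_iff_mem_nhds]
    intro x hx
    refine (isCompact_closedBall (0 : ℂ) (A * S)).eventually_forall_of_forall_eventually
      (fun ζ hζ => ?_)
    exact (hyc x ζ hζ).eventually_lt continuousAt_const (hx ζ hζ)
  have hcl1 : IsClosed V1 := by
    have : V1 = V2ᶜ := by
      ext x
      constructor
      · intro h1 h2
        exact hdisj x h1 h2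
      · intro h2
        exact (hcov x).resolve_right h2
    rw [this]
    exact ho2.isClosed_compl
  rcases V1.eq_empty_or_nonempty with h | h
  · have h1 : ∀ x : ℝ, ‖y (x + m * I)‖ ≤ Real.exp (-(2 * L)) := by
      intro x
      have h2 : x ∈ V2 := (hcov x).resolve_left (by rw [h]; exact notMem_empty x)
      have := h2 0 (by simpa using (by positivity : (0:ℝ) ≤ A * S))
      rw [add_zero] at this
      exact this.le
    have := P.strip hm0 hmh (B := C1 * √L * Real.exp (L + 0)) (fun z hz => by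
      refine hb 0 (by rw [abs_zero]; positivity) z ?_
      simpa using hz) h1
    linarith
  · have h1 : V1 = univ := IsClopen.eq_univ ⟨hcl1, ho1⟩ h
    refine P.mean hm0.le hmh fun x => ?_
    have hx : x ∈ V1 := by rw [h1]; trivial
    obtain ⟨ζ, hζ, h2⟩ := hx
    exact P.colC hZ hC1 hκ hA n7 n8 n9 hS0 hm hh hb (hball' x ζ hζ) h2

end col

theorem LemZ.nonneg {C : ℝ} (hZ : LemZ C) : 0 ≤ C := by
  obtain ⟨ρ, hρ, h⟩ := hZ (fun _ => 1) 0 1 1 one_pos le_rfl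
    (fun z _ => analyticAt_const) one_ne_zero (fun z _ => by simp)
  have hρ0 : 0 ≤ ρ := by linarith [hρ.1]
  have h1 := (h (ρ : ℂ) (by simp [abs_of_nonneg hρ0])).2.1
  have h2 := (norm_nonneg _).trans h1
  simpa using h2

/-- **THE GOOD COLUMN** on a strip -/
theorem good_column (P : PerS y G h) {C : ℝ} (hZ : LemZ C) (k : ℕ) {C' C1 κ : ℝ} (hC' : 1 ≤ C')
    (hC1 : 0 < C1) (hκ : 0 < κ) :
    ∃ L0 : ℝ, ∀ L ≥ L0, ∀ m S : ℝ, 1 / L ^ k ≤ S → S * L / 2 ≤ m →
      m + S * (C' * Real.log L) ^ 3 < h →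
      (∀ β : ℝ, |β| ≤ (C' * Real.log L) ^ 3 → ∀ z : ℂ, |z.im| ≤ m + S * β →
        ‖y z‖ ≤ C1 * √L * Real.exp (L + β)) →
      ∃ x : ℝ, ∀ z ∈ closedBall ((x : ℂ) + m * I) (C' * Real.log L * S),
        ‖y z‖ ≤ κ * Real.exp L ∧ ‖G z‖ ≤ κ ^ 2 * Real.exp (2 * L) := by
  have hC := hZ.nonneg
  have hC'0 : 0 < C' := by linarith
  have hlog : Tendsto (fun L : ℝ => C' * Real.log L) atTop atTop :=
    Real.tendsto_log_atTop.const_mul_atTop hC'0
  have e1 : ∀ᶠ L : ℝ in atTop, 4 ≤ C' * Real.log L := hlog.eventually_ge_atTop 4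
  have e2 : ∀ᶠ L : ℝ in atTop, 1 ≤ L := eventually_ge_atTop 1
  have e3a : ∀ᶠ L : ℝ in atTop, 9 * (C' * Real.log L) ≤ L / 2 := by
    have := Real.isLittleO_log_id_atTop.bound (c := 1 / (18 * C')) (by positivity)
    filter_upwards [this, e2] with L h1 h2
    rw [Real.norm_of_nonneg (Real.log_nonneg h2), id, Real.norm_of_nonneg (by linarith)] at h1
    have h3 : 9 * C' * Real.log L ≤ 9 * C' * (1 / (18 * C') * L) := by gcongr
    have h4 : 9 * C' * (1 / (18 * C') * L) = L / 2 := by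
      field_simp
      ring
    linarith
  have e3b : ∀ᶠ L : ℝ in atTop, C1 * √L ≤ Real.exp (L / 2) := by
    have h0 : Tendsto (fun L : ℝ => L ^ 1 * Real.exp (-L)) atTop (𝓝 0) :=
      Real.tendsto_pow_mul_exp_neg_atTop_nhds_zero 1
    have h00 : Tendsto (fun L : ℝ => (L / 2) ^ 1 * Real.exp (-(L / 2))) atTop (𝓝 0) :=
      h0.comp (tendsto_id.atTop_div_const (by norm_num))
    have h1 := h00.eventually_lt_const (u := 1 / (2 * C1)) (by positivity)
    filter_upwards [h1, e2] with L h1 h2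
    have h3 : √L ≤ L := Real.sqrt_le_iff.2 ⟨by linarith, by nlinarith⟩
    rw [pow_one, Real.exp_neg, ← div_eq_mul_inv, div_lt_div_iff₀ (Real.exp_pos _) (by positivity)]
      at h1
    have h4 : C1 * √L ≤ C1 * L := by gcongr
    nlinarith
  have e4 : ∀ᶠ L : ℝ in atTop, 4 * C * L ^ (4 + 2 * k) ≤ κ ^ 2 * Real.exp (2 * L) := by
    have h0 := (Real.tendsto_pow_mul_exp_neg_atTop_nhds_zero (4 + 2 * k)).const_mul (4 * C)
    rw [mul_zero] at h0
    have h1 := h0.eventually_lt_const (u := κ ^ 2) (by positivity)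
    filter_upwards [h1, e2] with L h1 h2
    rw [← mul_assoc, Real.exp_neg, ← div_eq_mul_inv, div_lt_iff₀ (Real.exp_pos _)] at h1
    refine h1.le.trans ?_
    gcongr
    linarith
  have h5 : Tendsto (fun L : ℝ => Real.exp (-(2 * L))) atTop (𝓝 0) :=
    Real.tendsto_exp_neg_atTop_nhds_zero.comp (tendsto_id.const_mul_atTop (by norm_num))
  have e5 : ∀ᶠ L : ℝ in atTop, Real.exp (-(2 * L)) < κ * Real.exp L := by
    filter_upwards [h5.eventually_lt_const hκ, e2] with L h1 h2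
    exact h1.trans_le (le_mul_of_one_le_right hκ.le (Real.one_le_exp (by linarith)))
  have e6 : ∀ᶠ L : ℝ in atTop, Real.exp (-(2 * L)) < ‖y 0‖ :=
    h5.eventually_lt_const (norm_pos_iff.2 (by simpa using P.y0 0))
  have e7 : ∀ᶠ L : ℝ in atTop, C1 * √L ≤ κ * Real.exp (C' * Real.log L) := by
    have h1 := (Real.tendsto_sqrt_atTop.const_mul_atTop hκ).eventually_ge_atTop C1
    filter_upwards [h1, e2] with L h1 h2
    have h3 : 0 ≤ Real.log L := Real.log_nonneg h2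
    have h4 : Real.exp (Real.log L) ≤ Real.exp (C' * Real.log L) :=
      Real.exp_le_exp.2 (le_mul_of_one_le_left h3 hC')
    rw [Real.exp_log (by linarith)] at h4
    calc C1 * √L ≤ κ * √L * √L := by gcongr
      _ = κ * L := by rw [mul_assoc, Real.mul_self_sqrt (by linarith)]
      _ ≤ _ := by gcongr
  have e8 : ∀ᶠ L : ℝ in atTop,
      64 * C / (C' * Real.log L) ^ 2 + 16 * C / (C' * Real.log L) ≤ 1 / 2 := by
    have h1 : Tendsto (fun A : ℝ => 64 * C / A ^ 2 + 16 * C / A) atTop (𝓝 0) := by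
      have h2 : Tendsto (fun A : ℝ => 64 * C / A ^ 2) atTop (𝓝 0) :=
        (tendsto_pow_atTop two_ne_zero).const_div_atTop _
      have h3 : Tendsto (fun A : ℝ => 16 * C / A) atTop (𝓝 0) :=
        tendsto_id.const_div_atTop _
      simpa using h2.add h3
    exact (hlog.eventually (h1.eventually_lt_const (u := 1 / 2) (by norm_num))).mono
      fun L h => h.le
  have e9 : ∀ᶠ L : ℝ in atTop, (C' * Real.log L) ^ 3 ≤ L / 2 := by
    have := (Real.isLittleO_pow_log_id_atTop (n := 3)).bound (c := 1 / (2 * C' ^ 3)) (by positivity)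
    filter_upwards [this, e2] with L h1 h2
    rw [Real.norm_of_nonneg (pow_nonneg (Real.log_nonneg h2) 3), id,
      Real.norm_of_nonneg (by linarith)] at h1
    have h3 : C' ^ 3 * Real.log L ^ 3 ≤ C' ^ 3 * (1 / (2 * C' ^ 3) * L) := by gcongr
    have h4 : C' ^ 3 * (1 / (2 * C' ^ 3) * L) = L / 2 := by
      field_simp
    rw [mul_pow]
    linarith
  have hev := e1.and (e2.and (e3a.and (e3b.and (e4.and (e5.and (e6.and (e7.and (e8.and e9))))))))
  obtain ⟨L0, hL0⟩ := eventually_atTop.1 hev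
  refine ⟨L0, fun L hL m S hS hm hh hb => ?_⟩
  obtain ⟨f1, f2, f3a, f3b, f4, f5, f6, f7, f8, f9⟩ := hL0 L hL
  refine P.column hZ hC hC1 hκ f1 f2 ?_ f4 f5 f6 f7 f8 f9 hS hm hh hb
  calc C1 * √L * Real.exp (L + 9 * (C' * Real.log L))
      ≤ Real.exp (L / 2) * Real.exp (L + L / 2) := by gcongr
    _ = Real.exp (2 * L) := by rw [← Real.exp_add]; ring_nf

end Crest.Agent.R102.ColK516
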