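import Crest.Agent.R102.EdgeDefs_255

/-! Row 102, EDGE / SLOW, S-JOIN (helper486): J1, the last line: labels over `(x, u)` which stay
interior for all `x` near `x0` contradict the edge limits. -/

set_option autoImplicit false

open Set Filter Topology Metric MeasureTheory Complex

noncomputable section

namespace Crest.Agent.R102.SlowJ1

open Crest.Agent.R102.S5 (Half bl ray Cn)
open Crest.Agent.R102.Edge255

lemma ray_fst (e : ℝ × ℝ) (s : ℝ) : (ray e s).1 = (e.1 : ℂ) + s * (-I) := rfl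
lemma ray_snd (e : ℝ × ℝ) (s : ℝ) : (ray e s).2 = (e.2 : ℂ) + s * (I / 4) := rfl


lemma ray_im1 (e : ℝ × ℝ) (s : ℝ) : (ray e s).1.im = -s := by simp [ray_fst]
lemma ray_im2 (e : ℝ × ℝ) (s : ℝ) : (ray e s).2.im = s / 4 := by
  have h : (ray e s).2 = (e.2 : ℂ) + ((s / 4 : ℝ) : ℂ) * I := by
    rw [ray_snd]; push_cast; ring
  rw [h]; simp

lemma ray_mem_Cn (e : ℝ × ℝ) {s : ℝ} (hs : 0 < s) : ray e s ∈ Cn e 4 := by
  refine ⟨?_, ?_, ?_⟩
  · rw [ray_im1]; linarith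
  · rw [ray_im1, ray_im2]; linarith
  · have h : (ray e s).1.re = e.1 := by simp [ray_fst]
    have h2 : ‖(ray e s).2 - (e.2 : ℂ)‖ = s / 4 := by
      rw [ray_snd, add_sub_cancel_left, norm_mul, norm_div, Complex.norm_I, Complex.norm_real,
        Real.norm_eq_abs, abs_of_pos hs]
      norm_num
      ring
    rw [h, ray_im1, h2]
    simp
    linarith

lemma tendsto_ray (e : ℝ × ℝ) :
    Tendsto (ray e) (𝓝[>] 0) (𝓝[Cn e 4] ((e.1 : ℂ), (e.2 : ℂ))) := by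
  refine tendsto_nhdsWithin_iff.2 ⟨?_, ?_⟩
  · have h : Continuous (ray e) := by unfold ray bl; fun_prop
    have h2 := h.tendsto 0
    have h3 : ray e 0 = ((e.1 : ℂ), (e.2 : ℂ)) := by simp [ray, bl]
    rw [h3] at h2
    exact h2.mono_left nhdsWithin_le_nhds
  · filter_upwards [self_mem_nhdsWithin] with s hs
    exact ray_mem_Cn e hs

/-- **J1** -/
theorem not_lims {h κ s1 x0 s₀ u δ : ℝ} {B : ℂ × ℂ → ℂ}
    (hlim : ∀ᵐ x : ℝ, |x - s₀| < δ → ∃ b : ℂ, |b.im| = h ∧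
      ∀ M : ℝ, Tendsto B (𝓝[Cn (x, u) M] ((x : ℂ), (u : ℂ))) (𝓝 b))
    (hx0 : |x0 - s₀| < δ) (hs1 : 0 < s1) (hκ : 0 < κ)
    (H : ∀ x : ℝ, |x - x0| < s1 → ∀ᶠ s : ℝ in 𝓝[>] 0, |(B (ray (x, u) s)).im| ≤ h - κ) :
    False := by
  have hpos : 0 < volume (ball x0 (min s1 (δ - |x0 - s₀|))) := by
    rw [Real.volume_ball]
    have : 0 < min s1 (δ - |x0 - s₀|) := lt_min hs1 (by linarith)
    positivity
  obtain ⟨x, hx, hxP⟩ : ∃ x ∈ ball x0 (min s1 (δ - |x0 - s₀|)), |x - s₀| < δ →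
      ∃ b : ℂ, |b.im| = h ∧
      ∀ M : ℝ, Tendsto B (𝓝[Cn (x, u) M] ((x : ℂ), (u : ℂ))) (𝓝 b) := by
    by_contra hc
    push Not at hc
    have : volume (ball x0 (min s1 (δ - |x0 - s₀|))) = 0 := by
      refine measure_mono_null ?_ hlim
      intro x hx
      simp only [mem_compl_iff, mem_ofPred_eq]
      intro h1
      obtain ⟨h2, h3⟩ := hc x hx
      obtain ⟨b, hb, hb2⟩ := h1 h2
      obtain ⟨M, hM⟩ := h3 b hb
      exact hM (hb2 M)
    exact hpos.ne' this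
  rw [mem_ball, Real.dist_eq, lt_min_iff] at hx
  have hxs : |x - s₀| < δ := by
    calc |x - s₀| = |(x - x0) + (x0 - s₀)| := by ring_nf
      _ ≤ |x - x0| + |x0 - s₀| := abs_add_le _ _
      _ < δ := by linarith [hx.2]
  obtain ⟨b, hb, hT⟩ := hxP hxs
  have h1 : Tendsto (fun s : ℝ => |(B (ray (x, u) s)).im|) (𝓝[>] 0) (𝓝 |b.im|) :=
    (continuous_abs.comp Complex.continuous_im).continuousAt.tendsto.comp
      ((hT 4).comp (tendsto_ray (x, u)))
  have h2 : |b.im| ≤ h - κ := le_of_tendsto h1 (H x hx.1)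
  linarith

end Crest.Agent.R102.SlowJ1
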