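import Mathlib

/-!
Row 102, T1-B, EDGE / SLOW: the Marcinkiewicz sum at ONE point (helper292); Mathlib only.

* `marc_sum`   : `∑_j (D_j / ρ_j)² ≤ 11 ε` from the Marcinkiewicz integral at `u`;
* **`kernel_sum`** : `∑_i (s_i / r_i)^θ (dist (y_i, F) / r_i)² ≤ C (ε + (s₀ / r₁)^θ)`, `s_i = s₀ / 2^i`,
  for ANY choice of radii `r_i ≥ s_i` and points `|y_i - u| ≤ r_i`.
-/

set_option autoImplicit false

open Set Filter Topology Metric MeasureTheory
open scoped ENNReal

noncomputable section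

namespace Crest.Agent.R102.MarcSum292

/-- the radii -/
def rh (r₁ : ℝ) (j : ℕ) : ℝ := r₁ / 2 ^ (j + 1)

theorem rh_pos {r₁ : ℝ} (h : 0 < r₁) (j : ℕ) : 0 < rh r₁ j := by unfold rh; positivity

theorem rh_succ (r₁ : ℝ) (j : ℕ) : rh r₁ (j + 1) = rh r₁ j / 2 := by
  unfold rh; rw [pow_succ 2 (j + 1)]; field_simp

theorem rh_anti {r₁ : ℝ} (h : 0 < r₁) : Antitone (rh r₁) := by
  refine antitone_nat_of_succ_le fun n => ?_
  rw [rh_succ]
  linarith [rh_pos h n]

/-- geometric sum of `1 / ρ_j²` -/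
theorem geo {r₁ : ℝ} (h : 0 < r₁) (N : ℕ) :
    ∑ j ∈ Finset.range N, 1 / rh r₁ j ^ 2 ≤ 1 / 3 * (1 / rh r₁ N ^ 2) := by
  induction N with
  | zero =>
    simp only [Finset.range_zero, Finset.sum_empty]
    have := rh_pos h 0
    positivity
  | succ N ih =>
    rw [Finset.sum_range_succ, rh_succ]
    have h1 := rh_pos h N
    have h2 : 1 / 3 * (1 / (rh r₁ N / 2) ^ 2) = 4 / 3 * (1 / rh r₁ N ^ 2) := by
      field_simp
      ring
    rw [h2]
    linarith

/-- pointwise sum -/
theorem ptw {r₁ : ℝ} (h : 0 < r₁) {t : ℝ} (ht : t ≠ 0) (N : ℕ) :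
    ∑ j ∈ Finset.range N, (if |t| < 2 * rh r₁ j then 1 / rh r₁ j ^ 2 else 0) ≤ 16 / 3 / t ^ 2 := by
  induction N with
  | zero =>
    simp only [Finset.range_zero, Finset.sum_empty]
    positivity
  | succ N ih =>
    by_cases hc : |t| < 2 * rh r₁ N
    · have h1 : ∑ j ∈ Finset.range (N + 1), (if |t| < 2 * rh r₁ j then 1 / rh r₁ j ^ 2 else 0) ≤
          ∑ j ∈ Finset.range (N + 1), 1 / rh r₁ j ^ 2 := by
        refine Finset.sum_le_sum fun j _ => ?_
        have := rh_pos h j
        split_ifs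
        · exact le_rfl
        · positivity
      refine h1.trans ((geo h (N + 1)).trans ?_)
      rw [rh_succ]
      have h2 := rh_pos h N
      have h3 : t ^ 2 < 4 * rh r₁ N ^ 2 := by
        have := abs_nonneg t
        rw [← sq_abs]
        nlinarith
      have ht2 : 0 < t ^ 2 := by positivity
      have h4 : 1 / 3 * (1 / (rh r₁ N / 2) ^ 2) = 4 / 3 / rh r₁ N ^ 2 := by
        field_simp
        ring
      rw [h4, div_le_div_iff₀ (by positivity) ht2]
      nlinarith
    · rw [Finset.sum_range_succ, if_neg hc, add_zero]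
      exact ih

/-- one radius -/
theorem one {F : Set ℝ} {u ρ y : ℝ} (hu : u ∈ closure F) (hρ : 0 < ρ) (hy : |y - u| ≤ ρ) :
    ENNReal.ofReal ((infDist y F / ρ) ^ 2) ≤
      2 * ∫⁻ t in Ioo (-(2 * ρ)) (2 * ρ), ENNReal.ofReal (infDist (u + t) F * (1 / ρ ^ 2)) := by
  set d := infDist y F with hd
  have hd0 : 0 ≤ d := infDist_nonneg
  have hF : F.Nonempty := closure_nonempty_iff.1 ⟨u, hu⟩
  have hu0 : infDist u F = 0 := (mem_closure_iff_infDist_zero hF).1 hu
  have hdρ : d ≤ ρ := by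
    have h1 := infDist_le_infDist_add_dist (s := F) (x := y) (y := u)
    rw [hu0, zero_add, Real.dist_eq] at h1
    exact h1.trans hy
  have hab := abs_le.1 hy
  have hsub : Ioo (y - u - d / 2) (y - u + d / 2) ⊆ Ioo (-(2 * ρ)) (2 * ρ) := by
    intro t ht
    constructor <;> linarith [ht.1, ht.2, hab.1, hab.2]
  have hlow : ∀ t ∈ Ioo (y - u - d / 2) (y - u + d / 2),
      ENNReal.ofReal (d / 2 * (1 / ρ ^ 2)) ≤ ENNReal.ofReal (infDist (u + t) F * (1 / ρ ^ 2)) := by
    intro t ht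
    refine ENNReal.ofReal_le_ofReal (mul_le_mul_of_nonneg_right ?_ (by positivity))
    have h1 := infDist_le_infDist_add_dist (s := F) (x := y) (y := u + t)
    have h2 : dist y (u + t) ≤ d / 2 := by
      rw [Real.dist_eq, abs_le]
      constructor <;> linarith [ht.1, ht.2]
    linarith
  calc ENNReal.ofReal ((d / ρ) ^ 2)
      = 2 * (ENNReal.ofReal (d / 2 * (1 / ρ ^ 2)) * ENNReal.ofReal d) := by
        rw [← ENNReal.ofReal_mul (by positivity), show (2 : ℝ≥0∞) = ENNReal.ofReal 2 by simp,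
          ← ENNReal.ofReal_mul (by norm_num)]
        congr 1
        field_simp
    _ = 2 * ∫⁻ _ in Ioo (y - u - d / 2) (y - u + d / 2), ENNReal.ofReal (d / 2 * (1 / ρ ^ 2)) := by
        rw [setLIntegral_const, Real.volume_Ioo]
        congr 3
        ring
    _ ≤ 2 * ∫⁻ t in Ioo (y - u - d / 2) (y - u + d / 2),
          ENNReal.ofReal (infDist (u + t) F * (1 / ρ ^ 2)) := by
        gcongr 2 * ?_
        exact setLIntegral_mono' measurableSet_Ioo hlow
    _ ≤ 2 * ∫⁻ t in Ioo (-(2 * ρ)) (2 * ρ), ENNReal.ofReal (infDist (u + t) F * (1 / ρ ^ 2)) := by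
        gcongr 2 * ?_
        exact lintegral_mono_set hsub

/-- **the Marcinkiewicz sum** -/
theorem marc_sum {F : Set ℝ} {u ε r₁ : ℝ} (hu : u ∈ closure F) (hr : 0 < r₁) (hε : 0 ≤ ε)
    (h : ∫⁻ t in Ioo (-r₁) r₁, ENNReal.ofReal (infDist (u + t) F / t ^ 2) ≤ ENNReal.ofReal ε)
    (N : ℕ) {y : ℕ → ℝ} (hy : ∀ j, |y j - u| ≤ rh r₁ j) :
    ∑ j ∈ Finset.range N, (infDist (y j) F / rh r₁ j) ^ 2 ≤ 11 * ε := by
  have hF : F.Nonempty := closure_nonempty_iff.1 ⟨u, hu⟩
  have hu0 : infDist u F = 0 := (mem_closure_iff_infDist_zero hF).1 hu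
  have key : ENNReal.ofReal (∑ j ∈ Finset.range N, (infDist (y j) F / rh r₁ j) ^ 2) ≤
      ENNReal.ofReal (11 * ε) := by
    rw [ENNReal.ofReal_sum_of_nonneg fun j _ => sq_nonneg _]
    calc ∑ j ∈ Finset.range N, ENNReal.ofReal ((infDist (y j) F / rh r₁ j) ^ 2)
        ≤ ∑ j ∈ Finset.range N, 2 * ∫⁻ t in Ioo (-r₁) r₁,
            ENNReal.ofReal (infDist (u + t) F *
              (if |t| < 2 * rh r₁ j then 1 / rh r₁ j ^ 2 else 0)) := by
          refine Finset.sum_le_sum fun j _ => ?_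
          refine (one hu (rh_pos hr j) (hy j)).trans ?_
          gcongr 2 * ?_
          have h2 : 2 * rh r₁ j ≤ r₁ := by
            have : rh r₁ j ≤ rh r₁ 0 := rh_anti hr (Nat.zero_le j)
            have h0 : rh r₁ 0 = r₁ / 2 := by simp [rh]
            linarith
          calc ∫⁻ t in Ioo (-(2 * rh r₁ j)) (2 * rh r₁ j),
                ENNReal.ofReal (infDist (u + t) F * (1 / rh r₁ j ^ 2))
              = ∫⁻ t in Ioo (-(2 * rh r₁ j)) (2 * rh r₁ j), ENNReal.ofReal (infDist (u + t) F *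
                  (if |t| < 2 * rh r₁ j then 1 / rh r₁ j ^ 2 else 0)) := by
                refine setLIntegral_congr_fun measurableSet_Ioo fun t ht => ?_
                rw [if_pos (abs_lt.2 ht)]
            _ ≤ _ := lintegral_mono_set (Ioo_subset_Ioo (by linarith) h2)
      _ = 2 * ∫⁻ t in Ioo (-r₁) r₁, ∑ j ∈ Finset.range N, ENNReal.ofReal (infDist (u + t) F *
              (if |t| < 2 * rh r₁ j then 1 / rh r₁ j ^ 2 else 0)) := by
          rw [← Finset.mul_sum]
          congr 1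
          rw [lintegral_finsetSum]
          intro j _
          refine ENNReal.measurable_ofReal.comp ?_
          refine Measurable.mul ?_ ?_
          · exact (continuous_infDist_pt F).measurable.comp (measurable_const.add measurable_id)
          · refine Measurable.ite ?_ measurable_const measurable_const
            exact measurableSet_lt (measurable_id.abs) measurable_const
      _ ≤ 2 * ∫⁻ t in Ioo (-r₁) r₁,
            ENNReal.ofReal (16 / 3) * ENNReal.ofReal (infDist (u + t) F / t ^ 2) := by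
          gcongr 2 * ?_
          refine lintegral_mono fun t => ?_
          simp only
          rw [← ENNReal.ofReal_sum_of_nonneg, ← ENNReal.ofReal_mul (by norm_num),
            ← Finset.mul_sum]
          · refine ENNReal.ofReal_le_ofReal ?_
            rcases eq_or_ne t 0 with rfl | ht
            · rw [add_zero, hu0]; simp
            · have h1 := mul_le_mul_of_nonneg_left (ptw hr ht N)
                (infDist_nonneg (x := u + t) (s := F))
              refine h1.trans (le_of_eq ?_)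
              ring
          · intro j _
            refine mul_nonneg infDist_nonneg ?_
            have := rh_pos hr j
            split_ifs
            · positivity
            · exact le_rfl
      _ = 2 * (ENNReal.ofReal (16 / 3) *
            ∫⁻ t in Ioo (-r₁) r₁, ENNReal.ofReal (infDist (u + t) F / t ^ 2)) := by
          rw [lintegral_const_mul']
          exact ENNReal.ofReal_ne_top
      _ ≤ 2 * (ENNReal.ofReal (16 / 3) * ENNReal.ofReal ε) := by gcongr
      _ ≤ ENNReal.ofReal (11 * ε) := by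
          rw [← ENNReal.ofReal_mul (by norm_num), show (2 : ℝ≥0∞) = ENNReal.ofReal 2 by simp,
            ← ENNReal.ofReal_mul (by norm_num)]
          exact ENNReal.ofReal_le_ofReal (by linarith)
  exact (ENNReal.ofReal_le_ofReal_iff (by positivity)).1 key

/-- maximisers -/
theorem exists_max (F : Set ℝ) (u : ℝ) {ρ : ℝ} (hρ : 0 ≤ ρ) :
    ∃ z : ℝ, |z - u| ≤ ρ ∧ ∀ y : ℝ, |y - u| ≤ ρ → infDist y F ≤ infDist z F := by
  obtain ⟨z, hz, hm⟩ := (isCompact_closedBall u ρ).exists_isMaxOn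
    ⟨u, mem_closedBall_self hρ⟩ (continuous_infDist_pt F).continuousOn
  refine ⟨z, by simpa [Real.dist_eq] using hz, fun y hy => ?_⟩
  exact hm (by simpa [Real.dist_eq] using hy)

/-- geometric column sum -/
theorem col {θ : ℝ} (hθ : 0 < θ) {s₀ ρ : ℝ} (hs : 0 < s₀) (hρ : 0 < ρ) (N : ℕ) :
    ∑ i ∈ Finset.range N, (if s₀ / 2 ^ i ≤ ρ then ((s₀ / 2 ^ i) / ρ) ^ θ else 0) ≤
      1 / (1 - (1 / 2 : ℝ) ^ θ) := by
  set q : ℝ := (1 / 2 : ℝ) ^ θ with hq
  have hq0 : 0 < q := by rw [hq]; positivity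
  have hq1 : q < 1 := Real.rpow_lt_one (by norm_num) (by norm_num) hθ
  -- the sum starting at the first good index
  have main : ∀ N : ℕ, ∀ s : ℝ, 0 < s → s ≤ ρ →
      ∑ i ∈ Finset.range N, (if s / 2 ^ i ≤ ρ then ((s / 2 ^ i) / ρ) ^ θ else 0) ≤
        1 / (1 - q) := by
    intro N s hs0 hsρ
    have h1 : ∀ i ∈ Finset.range N,
        (if s / 2 ^ i ≤ ρ then ((s / 2 ^ i) / ρ) ^ θ else 0) ≤ q ^ i := by
      intro i _
      split_ifs
      · have h2 : (s / 2 ^ i) / ρ ≤ (1 / 2 : ℝ) ^ i := by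
          rw [div_le_iff₀ hρ, one_div, inv_pow, div_eq_mul_inv, mul_comm s]
          exact mul_le_mul_of_nonneg_left hsρ (by positivity)
        calc ((s / 2 ^ i) / ρ) ^ θ ≤ ((1 / 2 : ℝ) ^ i) ^ θ :=
              Real.rpow_le_rpow (by positivity) h2 hθ.le
          _ = q ^ i := by
              rw [hq, ← Real.rpow_natCast, ← Real.rpow_mul (by norm_num), mul_comm,
                Real.rpow_mul (by norm_num), Real.rpow_natCast]
      · positivity
    calc _ ≤ ∑ i ∈ Finset.range N, q ^ i := Finset.sum_le_sum h1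
      _ ≤ ∑' i, q ^ i := (summable_geometric_of_lt_one hq0.le hq1).sum_le_tsum _
          (fun i _ => by positivity)
      _ = 1 / (1 - q) := by rw [tsum_geometric_of_lt_one hq0.le hq1, one_div]
  -- shift
  have gen : ∀ N : ℕ, ∀ s : ℝ, 0 < s →
      ∑ i ∈ Finset.range N, (if s / 2 ^ i ≤ ρ then ((s / 2 ^ i) / ρ) ^ θ else 0) ≤
        1 / (1 - q) := by
    intro N
    induction N with
    | zero =>
      intro s _
      simp only [Finset.range_zero, Finset.sum_empty]
      have : 0 < 1 - q := by linarith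
      positivity
    | succ N ih =>
      intro s hs0
      by_cases hc : s ≤ ρ
      · exact main _ s hs0 hc
      · rw [Finset.sum_range_succ']
        have e : ∀ i : ℕ, s / 2 ^ (i + 1) = (s / 2) / 2 ^ i := fun i => by
          rw [pow_succ]; field_simp
        simp only [e]
        rw [if_neg (by simpa using hc), add_zero]
        exact ih (s / 2) (by positivity)
  exact gen N s₀ hs

/-- **the kernel sum at a Marcinkiewicz point** -/
theorem kernel_sum {θ : ℝ} (hθ : 0 < θ) : ∃ C : ℝ, 0 < C ∧ ∀ (F : Set ℝ) (u ε r₁ s₀ : ℝ),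
    u ∈ closure F → 0 < r₁ → 0 ≤ ε → 0 < s₀ →
    ∫⁻ t in Ioo (-r₁) r₁, ENNReal.ofReal (infDist (u + t) F / t ^ 2) ≤ ENNReal.ofReal ε →
    ∀ (N : ℕ) (r y : ℕ → ℝ), (∀ i, s₀ / 2 ^ i ≤ r i) → (∀ i, |y i - u| ≤ r i) →
      ∑ i ∈ Finset.range N, ((s₀ / 2 ^ i) / r i) ^ θ * (infDist (y i) F / r i) ^ 2 ≤
        C * (ε + (s₀ / r₁) ^ θ) := by
  set q : ℝ := (1 / 2 : ℝ) ^ θ with hq
  have hq0 : 0 < q := by rw [hq]; positivity
  have hq1 : q < 1 := Real.rpow_lt_one (by norm_num) (by norm_num) hθ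
  have hq2 : 0 < 1 - q := by linarith
  have h2θ : 0 < (2 : ℝ) ^ θ := by positivity
  refine ⟨(44 + 1) * 2 ^ θ * (1 / (1 - q)), by positivity, ?_⟩
  intro F u ε r₁ s₀ hu hr hε hs h N r y hsr hy
  have hF : F.Nonempty := closure_nonempty_iff.1 ⟨u, hu⟩
  have hu0 : infDist u F = 0 := (mem_closure_iff_infDist_zero hF).1 hu
  choose z hz hzm using fun j : ℕ => exists_max F u (rh_pos hr j).le
  -- number of radii
  obtain ⟨J, hJ⟩ : ∃ J : ℕ, rh r₁ J < s₀ / 2 ^ N := by
    obtain ⟨J, hJ⟩ := pow_unbounded_of_one_lt (r₁ / (s₀ / 2 ^ N)) (show (1 : ℝ) < 2 by norm_num)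
    refine ⟨J, ?_⟩
    unfold rh
    rw [div_lt_iff₀ (by positivity)] at hJ ⊢
    rw [pow_succ]
    have : 0 < (2 : ℝ) ^ J * (s₀ / 2 ^ N) := by positivity
    linarith
  have hri : ∀ i, 0 < r i := fun i => lt_of_lt_of_le (by positivity) (hsr i)
  have hdist : ∀ i, infDist (y i) F ≤ r i := by
    intro i
    have h1 := infDist_le_infDist_add_dist (s := F) (x := y i) (y := u)
    rw [hu0, zero_add, Real.dist_eq] at h1
    exact h1.trans (hy i)
  have term : ∀ i ∈ Finset.range N,
      ((s₀ / 2 ^ i) / r i) ^ θ * (infDist (y i) F / r i) ^ 2 ≤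
        2 ^ θ * (s₀ / r₁) ^ θ * q ^ i +
        ∑ j ∈ Finset.range J, 4 * 2 ^ θ *
          ((if s₀ / 2 ^ i ≤ rh r₁ j then ((s₀ / 2 ^ i) / rh r₁ j) ^ θ else 0) *
            (infDist (z j) F / rh r₁ j) ^ 2) := by
    intro i hi
    have hiN : i < N := Finset.mem_range.1 hi
    have hr0 := hri i
    have hsi : 0 < s₀ / 2 ^ i := by positivity
    have hnn : 0 ≤ ∑ j ∈ Finset.range J, 4 * 2 ^ θ *
          ((if s₀ / 2 ^ i ≤ rh r₁ j then ((s₀ / 2 ^ i) / rh r₁ j) ^ θ else 0) *
            (infDist (z j) F / rh r₁ j) ^ 2) := by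
      refine Finset.sum_nonneg fun j _ => ?_
      have := rh_pos hr j
      refine mul_nonneg (by positivity) (mul_nonneg ?_ (sq_nonneg _))
      split_ifs
      · positivity
      · exact le_rfl
    rcases lt_or_ge (r₁ / 2) (r i) with hfar | hnear
    · have h1 : (infDist (y i) F / r i) ^ 2 ≤ 1 := by
        have h2 : infDist (y i) F / r i ≤ 1 := by
          rw [div_le_one hr0]; exact hdist i
        have h3 : 0 ≤ infDist (y i) F / r i := div_nonneg infDist_nonneg hr0.le
        nlinarith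
      have h2 : ((s₀ / 2 ^ i) / r i) ^ θ ≤ 2 ^ θ * (s₀ / r₁) ^ θ * q ^ i := by
        have h3 : (s₀ / 2 ^ i) / r i ≤ 2 * (s₀ / r₁) * (1 / 2) ^ i := by
          rw [div_le_iff₀ hr0]
          have h4 : s₀ / 2 ^ i = 2 * (s₀ / r₁) * (1 / 2) ^ i * (r₁ / 2) := by
            rw [one_div, inv_pow]; field_simp
          rw [h4]
          exact mul_le_mul_of_nonneg_left hfar.le (by positivity)
        refine (Real.rpow_le_rpow (by positivity) h3 hθ.le).trans (le_of_eq ?_)
        rw [Real.mul_rpow (by positivity) (by positivity), Real.mul_rpow (by norm_num)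
          (by positivity), hq, ← Real.rpow_natCast, ← Real.rpow_mul (by norm_num), mul_comm (i : ℝ),
          Real.rpow_mul (by norm_num), Real.rpow_natCast]
      calc _ ≤ ((s₀ / 2 ^ i) / r i) ^ θ * 1 :=
            mul_le_mul_of_nonneg_left h1 (by positivity)
        _ ≤ _ := by rw [mul_one]; linarith
    · -- near
      obtain ⟨j, hj1, hj2⟩ := exists_nat_pow_near_of_lt_one (x := 2 * r i / r₁) (y := (1 / 2 : ℝ))
        (by positivity) (by rw [div_le_one hr]; linarith) (by norm_num) (by norm_num)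
      have hρj := rh_pos hr j
      have e1 : r i ≤ rh r₁ j := by
        unfold rh
        rw [div_le_iff₀ hr, one_div, inv_pow] at hj2
        rw [le_div_iff₀ (by positivity), pow_succ]
        have h5 : (2 : ℝ) ^ j * ((2 ^ j)⁻¹ * r₁) = r₁ := by field_simp
        have h6 : (0 : ℝ) < 2 ^ j := by positivity
        nlinarith [mul_le_mul_of_nonneg_left hj2 h6.le]
      have e2 : rh r₁ j ≤ 2 * r i := by
        unfold rh
        rw [lt_div_iff₀ hr, one_div, inv_pow] at hj1
        rw [div_le_iff₀ (by positivity)]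
        have h5 : (2 : ℝ) ^ (j + 1) * ((2 ^ (j + 1))⁻¹ * r₁) = r₁ := by field_simp
        have h6 : (0 : ℝ) < 2 ^ (j + 1) := by positivity
        nlinarith [mul_le_mul_of_nonneg_left hj1.le h6.le]
      have hjJ : j < J := by
        by_contra hcon
        push Not at hcon
        have h7 : rh r₁ j ≤ rh r₁ J := rh_anti hr hcon
        have h8 : s₀ / 2 ^ N ≤ s₀ / 2 ^ i := by
          apply div_le_div_of_nonneg_left hs.le (by positivity)
          exact pow_le_pow_right₀ (by norm_num) hiN.le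
        linarith [hsr i]
      have hD : infDist (y i) F ≤ infDist (z j) F := hzm j _ ((hy i).trans e1)
      have hw : s₀ / 2 ^ i ≤ rh r₁ j := (hsr i).trans e1
      have t1 : ((s₀ / 2 ^ i) / r i) ^ θ ≤ 2 ^ θ * ((s₀ / 2 ^ i) / rh r₁ j) ^ θ := by
        rw [← Real.mul_rpow (by norm_num) (by positivity)]
        refine Real.rpow_le_rpow (by positivity) ?_ hθ.le
        rw [div_le_iff₀ hr0]
        have h9 : 2 * ((s₀ / 2 ^ i) / rh r₁ j) * r i = (s₀ / 2 ^ i) * (2 * r i / rh r₁ j) := by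
          ring
        rw [h9]
        have h10 : 1 ≤ 2 * r i / rh r₁ j := by rw [le_div_iff₀ hρj]; linarith
        nlinarith
      have t2 : (infDist (y i) F / r i) ^ 2 ≤ 4 * (infDist (z j) F / rh r₁ j) ^ 2 := by
        have h11 : infDist (y i) F / r i ≤ 2 * (infDist (z j) F / rh r₁ j) := by
          rw [div_le_iff₀ hr0]
          have h12 : 2 * (infDist (z j) F / rh r₁ j) * r i
              = infDist (z j) F * (2 * r i / rh r₁ j) := by ring
          rw [h12]
          have h10 : 1 ≤ 2 * r i / rh r₁ j := by rw [le_div_iff₀ hρj]; linarith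
          have h13 : 0 ≤ infDist (z j) F := infDist_nonneg
          nlinarith
        have h14 : 0 ≤ infDist (y i) F / r i := div_nonneg infDist_nonneg hr0.le
        nlinarith
      have hsing : 4 * 2 ^ θ *
          ((if s₀ / 2 ^ i ≤ rh r₁ j then ((s₀ / 2 ^ i) / rh r₁ j) ^ θ else 0) *
            (infDist (z j) F / rh r₁ j) ^ 2) ≤
          ∑ j ∈ Finset.range J, 4 * 2 ^ θ *
          ((if s₀ / 2 ^ i ≤ rh r₁ j then ((s₀ / 2 ^ i) / rh r₁ j) ^ θ else 0) *
            (infDist (z j) F / rh r₁ j) ^ 2) := by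
        refine Finset.single_le_sum (f := fun j => 4 * 2 ^ θ *
          ((if s₀ / 2 ^ i ≤ rh r₁ j then ((s₀ / 2 ^ i) / rh r₁ j) ^ θ else 0) *
            (infDist (z j) F / rh r₁ j) ^ 2)) (fun k _ => ?_) (Finset.mem_range.2 hjJ)
        have := rh_pos hr k
        refine mul_nonneg (by positivity) (mul_nonneg ?_ (sq_nonneg _))
        split_ifs
        · positivity
        · exact le_rfl
      rw [if_pos hw] at hsing
      have hA : 0 ≤ 2 ^ θ * (s₀ / r₁) ^ θ * q ^ i := by positivity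
      have hprod : ((s₀ / 2 ^ i) / r i) ^ θ * (infDist (y i) F / r i) ^ 2 ≤
          (2 ^ θ * ((s₀ / 2 ^ i) / rh r₁ j) ^ θ) * (4 * (infDist (z j) F / rh r₁ j) ^ 2) :=
        mul_le_mul t1 t2 (sq_nonneg _) (by positivity)
      calc _ ≤ _ := hprod
        _ = 4 * 2 ^ θ * (((s₀ / 2 ^ i) / rh r₁ j) ^ θ * (infDist (z j) F / rh r₁ j) ^ 2) := by ring
        _ ≤ _ := by linarith
  -- the two sums
  have hA : ∑ i ∈ Finset.range N, 2 ^ θ * (s₀ / r₁) ^ θ * q ^ i ≤
      2 ^ θ * (s₀ / r₁) ^ θ * (1 / (1 - q)) := by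
    rw [← Finset.mul_sum]
    refine mul_le_mul_of_nonneg_left ?_ (by positivity)
    calc ∑ i ∈ Finset.range N, q ^ i ≤ ∑' i, q ^ i :=
          (summable_geometric_of_lt_one hq0.le hq1).sum_le_tsum _ (fun i _ => by positivity)
      _ = 1 / (1 - q) := by rw [tsum_geometric_of_lt_one hq0.le hq1, one_div]
  have hB : ∑ i ∈ Finset.range N, ∑ j ∈ Finset.range J, 4 * 2 ^ θ *
          ((if s₀ / 2 ^ i ≤ rh r₁ j then ((s₀ / 2 ^ i) / rh r₁ j) ^ θ else 0) *
            (infDist (z j) F / rh r₁ j) ^ 2) ≤ 4 * 2 ^ θ * ((1 / (1 - q)) * (11 * ε)) := by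
    rw [Finset.sum_comm]
    have h1 : ∀ j ∈ Finset.range J, ∑ i ∈ Finset.range N, 4 * 2 ^ θ *
          ((if s₀ / 2 ^ i ≤ rh r₁ j then ((s₀ / 2 ^ i) / rh r₁ j) ^ θ else 0) *
            (infDist (z j) F / rh r₁ j) ^ 2) ≤
        4 * 2 ^ θ * ((1 / (1 - q)) * (infDist (z j) F / rh r₁ j) ^ 2) := by
      intro j _
      rw [← Finset.mul_sum, ← Finset.sum_mul]
      refine mul_le_mul_of_nonneg_left ?_ (by positivity)
      exact mul_le_mul_of_nonneg_right (col hθ hs (rh_pos hr j) N) (sq_nonneg _)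
    refine (Finset.sum_le_sum h1).trans ?_
    rw [← Finset.mul_sum, ← Finset.mul_sum]
    refine mul_le_mul_of_nonneg_left ?_ (by positivity)
    refine mul_le_mul_of_nonneg_left ?_ (by positivity)
    exact marc_sum hu hr hε h J hz
  refine (Finset.sum_le_sum term).trans ?_
  rw [Finset.sum_add_distrib]
  refine (add_le_add hA hB).trans ?_
  have hX : 0 ≤ (s₀ / r₁) ^ θ := by positivity
  have hY : 0 < 1 / (1 - q) := by positivity
  have e : (44 + 1) * 2 ^ θ * (1 / (1 - q)) * (ε + (s₀ / r₁) ^ θ)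
      = 2 ^ θ * (s₀ / r₁) ^ θ * (1 / (1 - q)) + 4 * 2 ^ θ * ((1 / (1 - q)) * (11 * ε))
        + 2 ^ θ * (1 / (1 - q)) * (ε + 44 * (s₀ / r₁) ^ θ) := by ring
  rw [e]
  have : 0 ≤ 2 ^ θ * (1 / (1 - q)) * (ε + 44 * (s₀ / r₁) ^ θ) := by positivity
  linarith

end Crest.Agent.R102.MarcSum292
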