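import Crest.Agent.R102.Chain_859
import Crest.Agent.R102.MarcSum_292

/-!
# R102/Stay_859: chain + Marcinkiewicz sum: the labels stay (slow label regime)
-/

open Set Metric MeasureTheory

namespace Crest.Agent.R102.Chain859

/-- what the chain says at a window over `u`, in the form of the kernel sum -/
def Alt (C : Set ℝ) (th κ s1 u s x : ℝ) : Prop :=
  ∃ r y : ℝ, s ≤ r ∧ |y - u| ≤ r ∧
    x ≤ (4 * s / s1) ^ th + κ⁻¹ ^ 2 * ((s / r) ^ th * (infDist y C / r) ^ 2)

lemma geo_sum {q : ℝ} (hq0 : 0 ≤ q) (hq1 : q < 1) (N : ℕ) :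
    ∑ i ∈ Finset.range N, q ^ i ≤ 1 / (1 - q) := by
  have h := geom_sum_mul_neg q N
  have h1 : 0 < 1 - q := by linarith
  rw [le_div_iff₀ h1, h]
  have : 0 ≤ q ^ N := by positivity
  linarith

/-- **END**: the sum of the alternatives -/
lemma sum_alt {th κ : ℝ} (hth : 0 < th) :
    ∃ M : ℝ, 0 < M ∧ ∀ (C : Set ℝ) (u δ r1 s0 s1 : ℝ) (e : ℝ → ℝ), u ∈ closure C → 0 < r1 →
      0 ≤ δ → 0 < s0 → 0 < s1 → s1 ≤ r1 →
      ∫⁻ t in Ioo (-r1) r1, ENNReal.ofReal (infDist (u + t) C / t ^ 2) ≤ ENNReal.ofReal δ →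
      ∀ N : ℕ, (∀ i < N, Alt C th κ s1 u (s0 / 2 ^ i) (e (s0 / 2 ^ i))) →
      ∑ i ∈ Finset.range N, e (s0 / 2 ^ i) ≤ M * (δ + (s0 / s1) ^ th) := by
  obtain ⟨C0, hC0, H⟩ := MarcSum292.kernel_sum hth
  set q : ℝ := (1 / 2 : ℝ) ^ th with hq
  have hq0 : 0 < q := by rw [hq]; positivity
  have hq1 : q < 1 := Real.rpow_lt_one (by norm_num) (by norm_num) hth
  have hq2 : 0 < 1 - q := by linarith
  refine ⟨4 ^ th * (1 / (1 - q)) + κ⁻¹ ^ 2 * C0, by positivity, ?_⟩
  intro C u δ r1 s0 s1 e hu hr1 hδ hs0 hs1 hsr hint N hN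
  have hch : ∀ i : ℕ, ∃ r y : ℝ, s0 / 2 ^ i ≤ r ∧ |y - u| ≤ r ∧ (i < N →
      e (s0 / 2 ^ i) ≤ (4 * (s0 / 2 ^ i) / s1) ^ th +
        κ⁻¹ ^ 2 * (((s0 / 2 ^ i) / r) ^ th * (infDist y C / r) ^ 2)) := by
    intro i
    by_cases hi : i < N
    · obtain ⟨r, y, h1, h2, h3⟩ := hN i hi
      exact ⟨r, y, h1, h2, fun _ => h3⟩
    · refine ⟨s0 / 2 ^ i, u, le_rfl, ?_, fun h => absurd h hi⟩
      rw [sub_self, abs_zero]; positivity
  choose r y h1 h2 h3 using hch
  have hK := H C u δ r1 s0 hu hr1 hδ hs0 hint N r y h1 h2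
  have hterm : ∀ i ∈ Finset.range N, e (s0 / 2 ^ i) ≤
      4 ^ th * (s0 / s1) ^ th * q ^ i +
        κ⁻¹ ^ 2 * (((s0 / 2 ^ i) / r i) ^ th * (infDist (y i) C / r i) ^ 2) := by
    intro i hi
    have h4 := h3 i (Finset.mem_range.1 hi)
    have h5 : (4 * (s0 / 2 ^ i) / s1) ^ th = 4 ^ th * (s0 / s1) ^ th * q ^ i := by
      have : 4 * (s0 / 2 ^ i) / s1 = 4 * (s0 / s1) * (1 / 2) ^ i := by
        rw [one_div, inv_pow]; field_simp
      rw [this, Real.mul_rpow (by positivity) (by positivity),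
        Real.mul_rpow (by norm_num) (by positivity), hq, ← Real.rpow_natCast,
        ← Real.rpow_mul (by norm_num), mul_comm (i : ℝ), Real.rpow_mul (by norm_num),
        Real.rpow_natCast]
    rw [h5] at h4
    exact h4
  have hle : (s0 / r1) ^ th ≤ (s0 / s1) ^ th := by
    apply Real.rpow_le_rpow (by positivity) _ hth.le
    gcongr
  have hg := geo_sum hq0.le hq1 N
  have h00 : 0 ≤ (s0 / s1) ^ th := by positivity
  calc ∑ i ∈ Finset.range N, e (s0 / 2 ^ i)
      ≤ ∑ i ∈ Finset.range N, (4 ^ th * (s0 / s1) ^ th * q ^ i +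
        κ⁻¹ ^ 2 * (((s0 / 2 ^ i) / r i) ^ th * (infDist (y i) C / r i) ^ 2)) :=
        Finset.sum_le_sum hterm
    _ = 4 ^ th * (s0 / s1) ^ th * ∑ i ∈ Finset.range N, q ^ i +
        κ⁻¹ ^ 2 * ∑ i ∈ Finset.range N, ((s0 / 2 ^ i) / r i) ^ th * (infDist (y i) C / r i) ^ 2 := by
        rw [Finset.sum_add_distrib, Finset.mul_sum, Finset.mul_sum]
    _ ≤ 4 ^ th * (s0 / s1) ^ th * (1 / (1 - q)) + κ⁻¹ ^ 2 * (C0 * (δ + (s0 / r1) ^ th)) := by
        gcongr
    _ ≤ 4 ^ th * (s0 / s1) ^ th * (1 / (1 - q)) + κ⁻¹ ^ 2 * (C0 * (δ + (s0 / s1) ^ th)) := by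
        gcongr
    _ ≤ (4 ^ th * (1 / (1 - q)) + κ⁻¹ ^ 2 * C0) * (δ + (s0 / s1) ^ th) := by
        have : 0 ≤ 4 ^ th * (1 / (1 - q)) * δ := by positivity
        nlinarith

/-- **(CHAIN) + (END).** -/
theorem stay {E : Type*} [NormedAddCommGroup E] {th Cl k κ : ℝ} (hth : 0 < th) (hth1 : th < 1)
    (hCl : 0 ≤ Cl) (hk : 0 < k) (hκ : 0 < κ) :
    ∃ K : ℝ, 4 ≤ K ∧ ∃ δ : ℝ, 0 < δ ∧ ∀ (C : Set ℝ) (e : ℝ × ℝ → ℝ → ℝ) (b : ℝ × ℝ → ℝ → E)
      (b0 : E) (A ε s1 r1 : ℝ) (p0 : ℝ × ℝ), 16 ≤ A → 32 * Cl * ε ≤ k → ε < 1 → 0 < s1 → s1 ≤ r1 →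
      (∀ p s, 0 ≤ e p s ∧ e p s ≤ 1) →
      (∀ p s, V b b0 s1 p0 k p s → infDist p.2 C ≤ κ * s → e p s ≤ ε) →
      (∀ p s s', V b b0 s1 p0 k p s → infDist p.2 C ≤ κ * s → s / 2 ≤ s' → s' ≤ s →
        ‖b p s - b p s'‖ ≤ Cl * e p s) →
      (∀ p p' s, V b b0 s1 p0 k p s → infDist p.2 C ≤ κ * s → dist p p' ≤ s →
        ‖b p s - b p' s‖ ≤ Cl * (dist p p' / s) * e p s) →
      (∀ p s, V b b0 s1 p0 (3 * k / 4) p s → infDist p.2 C ≤ κ * s → dist p p0 ≤ s1 / 2 →
        (s / s1) ^ th ≤ e p s →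
        ∃ p' s', V b b0 s1 p0 k p' s' ∧ A * e p s < rho th p s p' s' * e p' s') →
      p0.2 ∈ closure C →
      ∫⁻ t in Ioo (-r1) r1, ENNReal.ofReal (infDist (p0.2 + t) C / t ^ 2) ≤ ENNReal.ofReal δ →
      (∀ s, s1 / K ≤ s → s ≤ s1 → ‖b p0 s - b0‖ ≤ k / 16) →
      ∀ x, |x - p0.1| ≤ s1 / K → ∀ s, 0 < s → s ≤ s1 → ‖b (x, p0.2) s - b0‖ ≤ k / 2 := by
  obtain ⟨M, hM, HM⟩ := sum_alt (κ := κ) hth
  -- the constants
  obtain ⟨δ, hδ, hδM⟩ : ∃ δ : ℝ, 0 < δ ∧ Cl * (M * δ) ≤ k / 8 := by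
    refine ⟨k / (8 * (Cl + 1) * M), by positivity, ?_⟩
    rw [show Cl * (M * (k / (8 * (Cl + 1) * M))) = (Cl / (Cl + 1)) * (k / 8) by field_simp]
    have : Cl / (Cl + 1) ≤ 1 := by rw [div_le_one (by positivity)]; linarith
    nlinarith
  obtain ⟨K, hK4, hKM⟩ : ∃ K : ℝ, 4 ≤ K ∧ (1 / K) ^ th ≤ δ := by
    refine ⟨max 4 (1 / δ ^ (1 / th)), le_max_left _ _, ?_⟩
    have h1 : 0 < δ ^ (1 / th) := by positivity
    have h2 : 1 / max 4 (1 / δ ^ (1 / th)) ≤ δ ^ (1 / th) := by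
      rw [div_le_iff₀ (by positivity)]
      calc (1 : ℝ) = δ ^ (1 / th) * (1 / δ ^ (1 / th)) := by field_simp
        _ ≤ _ := by
          gcongr
          exact le_max_right _ _
    calc (1 / max 4 (1 / δ ^ (1 / th))) ^ th ≤ (δ ^ (1 / th)) ^ th :=
          Real.rpow_le_rpow (by positivity) h2 hth.le
      _ = δ := by
          rw [← Real.rpow_mul hδ.le, one_div_mul_cancel hth.ne', Real.rpow_one]
  refine ⟨K, hK4, δ, hδ, ?_⟩
  intro C e b b0 A ε s1 r1 p0 hA hε hε1 hs1 hsr he hsmall hvert hlat hrec hu hint hroot x hx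
  have hK0 : 0 < K := by linarith
  set s0 : ℝ := s1 / K with hs0def
  have hs0 : 0 < s0 := by positivity
  have hs0' : s0 ≤ s1 / 4 := by rw [hs0def]; gcongr
  set p : ℝ × ℝ := (x, p0.2) with hp
  have hCn : C.Nonempty := closure_nonempty_iff.1 ⟨_, hu⟩
  have hinf0 : infDist p0.2 C = 0 := (mem_closure_iff_infDist_zero hCn).1 hu
  have hdist : dist p p0 ≤ s0 := by
    rw [Prod.dist_eq]
    refine max_le ?_ ?_
    · rw [Real.dist_eq]; exact hx
    · rw [dist_self]; exact hs0.le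
  have hng : ∀ s, 0 < s → infDist p.2 C ≤ κ * s := by
    intro s hs
    show infDist p0.2 C ≤ κ * s
    rw [hinf0]; positivity
  -- start
  have hCε : Cl * ε ≤ k / 32 := by linarith
  have start : ∀ s, s0 ≤ s → s ≤ s1 → ‖b p s - b0‖ ≤ k / 8 := by
    intro s h1 h2
    have hs : 0 < s := lt_of_lt_of_le hs0 h1
    have hV : V b b0 s1 p0 k p0 s := by
      refine ⟨hs, h2, by rw [dist_self]; exact hs1.le, ?_⟩
      intro s' h3 h4
      exact (hroot s' (h1.trans h3) h4).trans (by linarith)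
    have hg0 : infDist p0.2 C ≤ κ * s := by rw [hinf0]; positivity
    have h3 := hlat p0 p s hV hg0 (by rw [dist_comm]; exact hdist.trans h1)
    have h4 := hsmall p0 s hV hg0
    have h5 : dist p0 p / s ≤ 1 := by
      rw [div_le_one hs, dist_comm]; exact hdist.trans h1
    have h6 : ‖b p0 s - b p s‖ ≤ Cl * ε := by
      calc ‖b p0 s - b p s‖ ≤ Cl * (dist p0 p / s) * e p0 s := h3
        _ ≤ Cl * 1 * ε := by
            have := (he p0 s).1
            have h7 : 0 ≤ dist p0 p / s := by positivity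
            gcongr
        _ = Cl * ε := by ring
    have h7 : ‖b p s - b0‖ ≤ ‖b p s - b p0 s‖ + ‖b p0 s - b0‖ := norm_sub_le_norm_sub_add_norm_sub _ _ _
    rw [norm_sub_rev] at h6
    have := hroot s h1 h2
    linarith
  -- alternative at a window
  have alt : ∀ s, 0 < s → s ≤ s0 → V b b0 s1 p0 (k / 2) p s →
      Alt C th κ s1 p0.2 s (e p s) := by
    intro s hs hss hV
    have hes := he p s
    rcases hes.1.eq_or_lt with h0 | h0
    · refine ⟨s, p0.2, le_rfl, by rw [sub_self, abs_zero]; exact hs.le, ?_⟩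
      rw [← h0]
      positivity
    obtain ⟨n, hn⟩ := pow_unbounded_of_one_lt (1 / e p s) (show (1 : ℝ) < 2 by norm_num)
    rw [div_lt_iff₀ h0] at hn
    have hCe : 0 ≤ Cl * e p s := mul_nonneg hCl hes.1
    have := chain hth hth1 hCl hκ hA hε hε1 he hsmall hvert hlat hrec n p s
      (V_up hV (by linarith) le_rfl hV.2.1) (V_up hV (by linarith) le_rfl hV.2.1) (hng s hs)
      (hdist.trans (by linarith)) hn.le
    rcases this with h | ⟨p', s', hV', ht, h⟩
    · refine ⟨s, p0.2, le_rfl, by rw [sub_self, abs_zero]; exact hs.le, ?_⟩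
      have h1 : (s / s1) ^ th ≤ (4 * s / s1) ^ th := by
        apply Real.rpow_le_rpow (by positivity) _ hth.le
        gcongr
        linarith
      have h2 : 0 ≤ κ⁻¹ ^ 2 * ((s / s) ^ th * (infDist p0.2 C / s) ^ 2) := by positivity
      linarith
    · have hs' := hV'.1
      rcases ht with hgap | hfar
      · refine ⟨rr p s p' s', p'.2, le_rr_left _ _ _ _, ?_, ?_⟩
        · have h1 := dist_le_rr p s p' s'
          have h2 : |p'.2 - p0.2| ≤ dist p p' := by
            rw [Prod.dist_eq]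
            refine le_trans ?_ (le_max_right _ _)
            rw [dist_comm, Real.dist_eq]
          exact h2.trans h1
        · have hr : 0 < rr p s p' s' := rr_pos _ _ hs
          have h1 : s' ≤ κ⁻¹ * infDist p'.2 C := by
            rw [inv_mul_eq_div, le_div_iff₀ hκ, mul_comm]; exact hgap.le
          have h2 : (s' / rr p s p' s') ^ 2 ≤ κ⁻¹ ^ 2 * (infDist p'.2 C / rr p s p' s') ^ 2 := by
            rw [← mul_pow]
            apply pow_le_pow_left₀ (by positivity)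
            rw [← mul_div_assoc]
            gcongr
          have h3 : 0 ≤ (4 * s / s1) ^ th := by positivity
          calc e p s ≤ rho th p s p' s' := h
            _ = (s / rr p s p' s') ^ th * (s' / rr p s p' s') ^ 2 := rfl
            _ ≤ (s / rr p s p' s') ^ th * (κ⁻¹ ^ 2 * (infDist p'.2 C / rr p s p' s') ^ 2) := by
                gcongr
            _ ≤ _ := by
                have h4 : (s / rr p s p' s') ^ th * (κ⁻¹ ^ 2 * (infDist p'.2 C / rr p s p' s') ^ 2)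
                  = κ⁻¹ ^ 2 * ((s / rr p s p' s') ^ th * (infDist p'.2 C / rr p s p' s') ^ 2) := by
                  ring
                linarith
      · refine ⟨s, p0.2, le_rfl, by rw [sub_self, abs_zero]; exact hs.le, ?_⟩
        have hr : 0 < rr p s p' s' := rr_pos _ _ hs
        have h1 : s1 / 4 ≤ rr p s p' s' := by
          have h2 := dist_le_rr p s p' s'
          have h3 : dist p' p0 ≤ dist p p' + dist p p0 := by
            calc dist p' p0 ≤ dist p' p + dist p p0 := dist_triangle _ _ _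
              _ = _ := by rw [dist_comm p' p]
          linarith
        have h2 := (h.trans (rho_le hth.le hs hs'))
        have h3 : (s / rr p s p' s') ^ th ≤ (4 * s / s1) ^ th := by
          apply Real.rpow_le_rpow (by positivity) _ hth.le
          rw [div_le_div_iff₀ hr hs1]
          nlinarith
        have h4 : 0 ≤ κ⁻¹ ^ 2 * ((s / s) ^ th * (infDist p0.2 C / s) ^ 2) := by positivity
        linarith
  -- induction
  have hratio : (s0 / s1) ^ th ≤ δ := by
    rw [show s0 / s1 = 1 / K by rw [hs0def]; field_simp]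
    exact hKM
  have main : ∀ N : ℕ, (∀ i < N, Alt C th κ s1 p0.2 (s0 / 2 ^ i) (e p (s0 / 2 ^ i))) ∧
      ∀ s, s0 / 2 ^ N ≤ s → s ≤ s1 →
        ‖b p s - b0‖ ≤ k / 8 + Cl * ∑ i ∈ Finset.range N, e p (s0 / 2 ^ i) := by
    intro N
    induction N with
    | zero =>
      refine ⟨fun i hi => absurd hi (Nat.not_lt_zero _), ?_⟩
      intro s h1 h2
      rw [pow_zero, div_one] at h1
      simpa using start s h1 h2
    | succ N ih =>
      obtain ⟨ih1, ih2⟩ := ih
      have hsum := HM C p0.2 δ r1 s0 s1 (fun t => e p t) hu (lt_of_lt_of_le hs1 hsr) hδ.le hs0 hs1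
        hsr hint N ih1
      have hsum2 : Cl * ∑ i ∈ Finset.range N, e p (s0 / 2 ^ i) ≤ k / 4 := by
        calc Cl * ∑ i ∈ Finset.range N, e p (s0 / 2 ^ i)
            ≤ Cl * (M * (δ + (s0 / s1) ^ th)) := by gcongr
          _ ≤ Cl * (M * (δ + δ)) := by gcongr
          _ ≤ k / 4 := by linarith
      set sN := s0 / 2 ^ N with hsN
      have hsN0 : 0 < sN := by positivity
      have hsN1 : sN ≤ s0 := by
        rw [hsN]
        exact div_le_self hs0.le (one_le_pow₀ (by norm_num))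
      have hVN : V b b0 s1 p0 (k / 2) p sN := by
        refine ⟨hsN0, by linarith, hdist.trans (by linarith), ?_⟩
        intro s' h1 h2
        have := ih2 s' h1 h2
        linarith
      have haltN := alt sN hsN0 hsN1 hVN
      refine ⟨?_, ?_⟩
      · intro i hi
        rcases Nat.lt_succ_iff_lt_or_eq.1 hi with h | h
        · exact ih1 i h
        · rw [h]; exact haltN
      · intro s h1 h2
        have heN := (he p sN).1
        rw [Finset.sum_range_succ, mul_add]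
        have hCeN : 0 ≤ Cl * e p sN := mul_nonneg hCl heN
        rcases le_total sN s with h | h
        · have := ih2 s h h2
          linarith
        · have h3 := ih2 sN le_rfl (by linarith)
          have h4 := hvert p sN s (V_up hVN (by linarith) le_rfl hVN.2.1) (hng sN hsN0)
            (by rw [hsN, div_div, ← pow_succ]; exact h1) h
          have h5 : ‖b p s - b0‖ ≤ ‖b p s - b p sN‖ + ‖b p sN - b0‖ :=
            norm_sub_le_norm_sub_add_norm_sub _ _ _
          rw [norm_sub_rev] at h4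
          linarith
  intro s hs hs'
  obtain ⟨N, hN⟩ := pow_unbounded_of_one_lt (s0 / s) (show (1 : ℝ) < 2 by norm_num)
  have hN' : s0 / 2 ^ N ≤ s := by
    rw [div_lt_iff₀ hs] at hN
    rw [div_le_iff₀ (by positivity)]
    linarith
  obtain ⟨h1, h2⟩ := main N
  have hsum := HM C p0.2 δ r1 s0 s1 (fun t => e p t) hu (lt_of_lt_of_le hs1 hsr) hδ.le hs0 hs1
    hsr hint N h1
  have hsum2 : Cl * ∑ i ∈ Finset.range N, e p (s0 / 2 ^ i) ≤ k / 4 := by
    calc Cl * ∑ i ∈ Finset.range N, e p (s0 / 2 ^ i)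
        ≤ Cl * (M * (δ + (s0 / s1) ^ th)) := by gcongr
      _ ≤ Cl * (M * (δ + δ)) := by gcongr
      _ ≤ k / 4 := by linarith
  have := h2 s hN' hs'
  linarith

end Crest.Agent.R102.Chain859
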