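import Crest.Agent.R102.SlowR_486
import Crest.Agent.R102.SlowJ1_486
import Crest.Agent.R102.Stay_859

/-! Row 102, EDGE / SLOW (helper486, second of the join J): `SlowP` from the collapse `ColPhi` and
the record statement `NoRecP` (literals of 859). -/

set_option autoImplicit false

open Set Filter Topology Metric MeasureTheory Complex

noncomputable section

namespace Crest.Agent.R102.SlowJ486

open Crest.Agent.R102.Sup115 (E2)
open Crest.Agent.R102.S5 (ray bl Half Cn)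
open Crest.Agent.R102.TreeS174 (KD)
open Crest.Agent.R102.Edge255
open Crest.Agent.R102.SlowE (oe)
open Crest.Agent.R102.SlowS (kd)
open Crest.Agent.R102.Chain859 (V rho)

/-! ### pieces -/

/-- small truncated Marcinkiewicz integral -/
theorem small_MI {U : Set ℝ} {u : ℝ} (h : Marc295.MI U 1 u < ⊤) {δ : ℝ} (hδ : 0 < δ) :
    ∃ r1 > 0, r1 ≤ 1 ∧ ∫⁻ t in Ioo (-r1) r1, ENNReal.ofReal (infDist (u + t) U / t ^ 2) ≤
      ENNReal.ofReal δ := by
  have h1 : ∫⁻ t, ENNReal.ofReal (infDist (u + t) U / t ^ 2) ∂(volume.restrict (Ioo (-1 : ℝ) 1))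
      ≠ ⊤ := h.ne
  obtain ⟨d, hd, H⟩ := exists_pos_setLIntegral_lt_of_measure_lt h1
    (ε := ENNReal.ofReal δ) (by simp [hδ])
  obtain ⟨r, hr, hr1, hrd⟩ : ∃ r > 0, r ≤ (1 : ℝ) ∧ ENNReal.ofReal (2 * r) < d := by
    rcases eq_or_ne d ⊤ with htop | htop
    · exact ⟨1, one_pos, le_rfl, by rw [htop]; exact ENNReal.ofReal_lt_top⟩
    · have hd' : 0 < d.toReal := ENNReal.toReal_pos hd.ne' htop
      refine ⟨min 1 (d.toReal / 4), by positivity, min_le_left _ _, ?_⟩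
      rw [ENNReal.ofReal_lt_iff_lt_toReal (by positivity) htop]
      have := min_le_right 1 (d.toReal / 4)
      linarith
  refine ⟨r, hr, hr1, ?_⟩
  have hsub : Ioo (-r) r ⊆ Ioo (-1 : ℝ) 1 := Ioo_subset_Ioo (by linarith) hr1
  have h2 := H (Ioo (-r) r) (by
    rw [Measure.restrict_apply measurableSet_Ioo, inter_eq_left.2 hsub, Real.volume_Ioo]
    have : r - -r = 2 * r := by ring
    rw [this]; exact hrd)
  rw [Measure.restrict_restrict measurableSet_Ioo, inter_eq_left.2 hsub] at h2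
  exact h2.le

/-- the deep compacts of the tree windows are in `L` -/
theorem KD_sub {X L : Set (ℂ × ℂ)} {a g ρ δ : ℝ} {p0 p : ℝ × ℝ} {A s s1 : ℝ}
    (hE : E2 X L a g ρ δ p0) (ha : 0 ≤ a) (hg : 0 < g) (hA : 8 ≤ A) (hs : 0 < s) (hs1 : s ≤ s1)
    (hp : dist p p0 ≤ s1) (hδ : (A + 1) * s1 < δ) : KD A p.1 p.2 s ⊆ L := by
  refine Subset.trans ?_ hE.line
  intro q hq
  obtain ⟨q1, q2, q3, q4, q5⟩ := hq
  rw [Prod.dist_eq, Real.dist_eq, Real.dist_eq] at hp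
  have h1 : |p.1 - p0.1| ≤ s1 := (le_max_left _ _).trans hp
  have h2 : |p.2 - p0.2| ≤ s1 := (le_max_right _ _).trans hp
  have hAs : A * s ≤ A * s1 := by nlinarith
  have h6 : 0 < -q.1.im := by
    by_contra hc
    push Not at hc
    nlinarith
  have h7 : 0 < q.2.im := by
    by_contra hc
    push Not at hc
    nlinarith
  refine ⟨?_, ?_, ?_, h7, ?_⟩
  · calc |q.1.re - p0.1| = |(q.1.re - p.1) + (p.1 - p0.1)| := by ring_nf
      _ ≤ |q.1.re - p.1| + |p.1 - p0.1| := abs_add_le _ _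
      _ < δ := by nlinarith
  · nlinarith
  · have e : q.2 - (p0.2 : ℂ) = (q.2 - (p.2 : ℂ)) + ((p.2 - p0.2 : ℝ) : ℂ) := by push_cast; ring
    rw [e]
    refine lt_of_le_of_lt (norm_add_le _ _) ?_
    rw [Complex.norm_real, Real.norm_eq_abs]
    nlinarith
  · have : 0 ≤ (a + g) * q.2.im := by positivity
    linarith

/-! ### the two inputs (literals of 859 #31770) -/

/-- good bases of precision `ρ` -/
structure Base (a g : ℝ) (X L : Set (ℂ × ℂ)) (u s₀ ρ δ : ℝ) (U : Set ℝ) : Prop where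
  ρ_pos : 0 < ρ
  δ_pos : 0 < δ
  closed : IsClosed U
  mem : u ∈ U
  e2 : ∀ u' ∈ U, ∀ s : ℝ, |s - s₀| < δ → E2 X L a g ρ δ (s, u')

/-- eventual quantification over the root windows -/
def EvS (h a g κ : ℝ) (ψ : ℂ → ℂ) (B : ℂ × ℂ → ℂ) (X L : Set (ℂ × ℂ)) (u s₀ : ℝ)
    (P : Set ℝ → ℝ → ℝ → Prop) : Prop :=
  ∃ ρ₁ > 0, ∀ (ρ δ : ℝ) (U : Set ℝ), ρ ≤ ρ₁ → Base a g X L u s₀ ρ δ U → ∃ δ₁ > 0, ∀ x : ℝ,
    |x - s₀| < δ₁ → ∀ σ > 0, (∀ s ∈ Ioo 0 σ, Intr h κ ψ B (x, u) s) → ∃ s₂ > 0, ∀ s1 : ℝ,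
      0 < s1 → s1 ≤ s₂ → P U x s1

def ColPhi : Prop :=
  ∀ (u0 R d h : ℝ) (ψ H A : ℂ → ℂ) (φ p B : ℂ × ℂ → ℂ) (X L : Set (ℂ × ℂ)),
    ED u0 R d h ψ H A φ p B X L → ∀ u s₀ a g : ℝ, u ∈ Ioo (u0 - R) (u0 + R) → u ≠ 0 →
    0 ≤ a → 0 < g → Rigid u0 R d h ψ φ p B X L u s₀ a g →
    ∀ κ > 0, ∃ k > 0, ∃ κ' > 0, ∀ ε > 0, ∀ K ⊆ Wg (a + g), IsCompact K → ∀ K' ⊆ Wg a,
    IsCompact K' → EvS h a g κ ψ B X L u s₀ (fun U x s1 =>
      ∀ (p' : ℝ × ℝ) (s' : ℝ), V (fun q s => φ (ray q s)) (φ (ray (x, u) s1)) s1 (x, u) k p' s' →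
        infDist p'.2 U ≤ s' → Intr h κ' ψ B p' s' ∧
        SlowAt ε K K' ψ (fun q => φ (bl p' s' q)) (fun q => p (bl p' s' q))
          (fun q => B (bl p' s' q)))

def NoRecP : Prop :=
  ∀ (u0 R d h : ℝ) (ψ H A : ℂ → ℂ) (φ p B : ℂ × ℂ → ℂ) (X L : Set (ℂ × ℂ)),
    ED u0 R d h ψ H A φ p B X L → ∀ u s₀ a g : ℝ, u ∈ Ioo (u0 - R) (u0 + R) → u ≠ 0 →
    0 ≤ a → 0 < g → Rigid u0 R d h ψ φ p B X L u s₀ a g →
    ∃ AK ≥ 8, ∀ κ > 0, ∃ k₁ > 0, ∀ k, 0 < k → k ≤ k₁ → EvS h a g κ ψ B X L u s₀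
      (fun U x s1 => ∀ (p' : ℝ × ℝ) (s' : ℝ),
        V (fun q s => φ (ray q s)) (φ (ray (x, u) s1)) s1 (x, u) (3 * k / 4) p' s' →
        infDist p'.2 U ≤ s' → dist p' (x, u) ≤ s1 / 2 →
        (s' / s1) ^ (1 / 2 : ℝ) ≤ oe AK φ p' s' →
        ∃ (p'' : ℝ × ℝ) (s'' : ℝ),
          V (fun q s => φ (ray q s)) (φ (ray (x, u) s1)) s1 (x, u) k p'' s'' ∧
          16 * oe AK φ p' s' < rho (1 / 2) p' s' p'' s'' * oe AK φ p'' s'')

/-- **the join** -/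
theorem slowP_of (hC : ColPhi) (hN : NoRecP) : SlowP := by
  intro u0 R d h ψ H Ar φ p B X L D u s₀ a g hu hu0 hG hR hEL hB
  obtain ⟨ha, hg, hGood⟩ := hG
  obtain ⟨κ, hκ, hBal⟩ := hB
  obtain ⟨δL, hδL, hlim⟩ := hEL
  obtain ⟨kc, hkc, κ', hκ', hCol⟩ := hC u0 R d h ψ H Ar φ p B X L D u s₀ a g hu hu0 ha hg hR κ hκ
  obtain ⟨AK, hAK, hNR⟩ := hN u0 R d h ψ H Ar φ p B X L D u s₀ a g hu hu0 ha hg hR
  obtain ⟨k₁, hk₁, hNR⟩ := hNR κ hκ
  set k : ℝ := min kc k₁ with hk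
  have hk0 : 0 < k := lt_min hkc hk₁
  have hkkc : k ≤ kc := min_le_left _ _
  have hNRk := hNR k hk0 (min_le_right _ _)
  obtain ⟨Ks, hKs, δs, hδs, hstay⟩ := Chain859.stay (E := ℂ) (th := 1 / 2) (Cl := 16) (k := k)
    (κ := 1) (by norm_num) (by norm_num) (by norm_num) hk0 one_pos
  -- the precision of the collapse
  set εs : ℝ := min (1 / 2) (k / 512) with hεs
  have hεs0 : 0 < εs := by positivity
  have hεs1 : εs ≤ 1 / 2 := min_le_left _ _
  have hεs2 : εs ≤ k / 512 := min_le_right _ _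
  set K : Set (ℂ × ℂ) := kd AK ∪ kd (8 * Ks) with hK
  have hKc : IsCompact K :=
    (SlowS.isCompact_kd hAK).union (SlowS.isCompact_kd (by linarith))
  have hKW : K ⊆ Wg (a + g) :=
    union_subset (SlowS.kd_sub_Wg hAK (by linarith)) (SlowS.kd_sub_Wg (by linarith) (by linarith))
  obtain ⟨ρa, hρa, hEa⟩ := hCol (εs / 2) (by positivity) K hKW hKc ∅ (empty_subset _)
    isCompact_empty
  obtain ⟨ρb, hρb, hEb⟩ := hNRk
  obtain ⟨δ, hδ, U, huU, ⟨hUc, hMI⟩, hE2⟩ := hGood (min ρa ρb) (lt_min hρa hρb)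
  have hbase : Base a g X L u s₀ (min ρa ρb) δ U := ⟨lt_min hρa hρb, hδ, hUc, huU, hE2⟩
  obtain ⟨δa, hδa, hEa⟩ := hEa _ _ _ (min_le_left _ _) hbase
  obtain ⟨δb, hδb, hEb⟩ := hEb _ _ _ (min_le_right _ _) hbase
  obtain ⟨x, hx, σ, hσ, hcol⟩ := hBal (min (min δa δb) (min δL δ))
    (lt_min (lt_min hδa hδb) (lt_min hδL hδ))
  have hxa : |x - s₀| < δa := lt_of_lt_of_le hx ((min_le_left _ _).trans (min_le_left _ _))
  have hxb : |x - s₀| < δb := lt_of_lt_of_le hx ((min_le_left _ _).trans (min_le_right _ _))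
  have hxL : |x - s₀| < δL := lt_of_lt_of_le hx ((min_le_right _ _).trans (min_le_left _ _))
  have hxδ : |x - s₀| < δ := lt_of_lt_of_le hx ((min_le_right _ _).trans (min_le_right _ _))
  obtain ⟨sa, hsa, hEa⟩ := hEa x hxa σ hσ hcol
  obtain ⟨sb, hsb, hEb⟩ := hEb x hxb σ hσ hcol
  obtain ⟨r1, hr1, -, hint⟩ := small_MI hMI hδs
  -- the root scale
  obtain ⟨s1, hs1, hs1a, hs1b, hs1r, hs1A, hs1K⟩ : ∃ s1 > 0, s1 ≤ sa ∧ s1 ≤ sb ∧ s1 ≤ r1 ∧
      (AK + 1) * s1 < δ ∧ (8 * Ks + 1) * s1 < δ := by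
    have hA1 : 0 < AK + 1 := by linarith
    have hK1 : 0 < 8 * Ks + 1 := by linarith
    refine ⟨min (min (min sa sb) r1) (min (δ / (2 * (AK + 1))) (δ / (2 * (8 * Ks + 1)))),
      by positivity, (min_le_left _ _).trans ((min_le_left _ _).trans (min_le_left _ _)),
      (min_le_left _ _).trans ((min_le_left _ _).trans (min_le_right _ _)),
      (min_le_left _ _).trans (min_le_right _ _), ?_, ?_⟩
    · have h1 : min (min (min sa sb) r1) (min (δ / (2 * (AK + 1))) (δ / (2 * (8 * Ks + 1))))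
          ≤ δ / (2 * (AK + 1)) := (min_le_right _ _).trans (min_le_left _ _)
      calc (AK + 1) * _ ≤ (AK + 1) * (δ / (2 * (AK + 1))) := by gcongr
        _ = δ / 2 := by field_simp
        _ < δ := by linarith
    · have h1 : min (min (min sa sb) r1) (min (δ / (2 * (AK + 1))) (δ / (2 * (8 * Ks + 1))))
          ≤ δ / (2 * (8 * Ks + 1)) := (min_le_right _ _).trans (min_le_right _ _)
      calc (8 * Ks + 1) * _ ≤ (8 * Ks + 1) * (δ / (2 * (8 * Ks + 1))) := by gcongr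
        _ = δ / 2 := by field_simp
        _ < δ := by linarith
  have hCs := hEa s1 hs1 hs1a
  have hNs := hEb s1 hs1 hs1b
  set b0 : ℂ := φ (ray (x, u) s1) with hb0
  set b : ℝ × ℝ → ℝ → ℂ := fun q s => φ (ray q s) with hb
  have hE0 : E2 X L a g (min ρa ρb) δ (x, u) := hE2 u huU x hxδ
  have hVmono : ∀ {q : ℝ × ℝ} {s : ℝ}, V b b0 s1 (x, u) k q s → V b b0 s1 (x, u) kc q s :=
    fun h => ⟨h.1, h.2.1, h.2.2.1, fun s' h1 h2 => (h.2.2.2 s' h1 h2).trans hkkc⟩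
  have hKDL : ∀ {q : ℝ × ℝ} {s : ℝ}, V b b0 s1 (x, u) k q s → KD AK q.1 q.2 s ⊆ L :=
    fun h => KD_sub hE0 ha hg hAK h.1 h.2.1 h.2.2.1 hs1A
  have hsmall : ∀ (q : ℝ × ℝ) (s : ℝ), V b b0 s1 (x, u) k q s → infDist q.2 U ≤ 1 * s →
      oe AK φ q s ≤ εs := by
    intro q s hV hU
    rw [one_mul] at hU
    have h1 := (hCs q s (hVmono hV) hU).2
    have h2 := SlowS.slow_osc hAK (ε := εs / 2) (by linarith) (K := K) subset_union_left hV.1
      (D.φ_diff.continuousOn.mono (hKDL hV)) h1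
    linarith
  have hlt : ∀ (q : ℝ × ℝ) (s : ℝ), V b b0 s1 (x, u) k q s → infDist q.2 U ≤ 1 * s →
      oe AK φ q s < 1 := fun q s hV hU => by linarith [hsmall q s hV hU]
  have hV0 : V b b0 s1 (x, u) k (x, u) s1 := by
    refine ⟨hs1, le_rfl, by rw [dist_self]; exact hs1.le, ?_⟩
    intro s' h1 h2
    have h3 : s' = s1 := le_antisymm h2 h1
    rw [h3, hb0, hb]
    simp only [sub_self, norm_zero]
    exact hk0.le
  have hU0 : infDist u U = 0 := infDist_zero_of_mem huU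
  have hroot : ∀ s, s1 / Ks ≤ s → s ≤ s1 → ‖b (x, u) s - b0‖ ≤ k / 16 := by
    intro s h1 h2
    have h3 := (hCs (x, u) s1 (hVmono hV0) (by rw [hU0]; exact hs1.le)).2
    have h4 := SlowR.slow_root (K₀ := Ks) (ε := εs / 2) (by linarith) (by linarith)
      (K := K) subset_union_right hs1
      (D.φ_diff.continuousOn.mono (KD_sub hE0 ha hg (by linarith) hs1 le_rfl
        (by rw [dist_self]; exact hs1.le) hs1K)) h3 (p := (x, u)) h1 h2
        (by rw [dist_self]; exact hs1.le)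
    refine h4.trans ?_
    linarith
  have hfin := hstay U (fun q s => oe AK φ q s) b b0 16 εs s1 r1 (x, u) le_rfl (by linarith)
    (by linarith) hs1 hs1r (fun q s => ⟨SlowE.oe_nonneg _ _ _ _, SlowE.oe_le_one _ _ _ _⟩) hsmall
    (fun q s s' hV hU h1 h2 => by
      have h3 := SlowE.hvert hAK (φ := φ) hV.1 (hlt q s hV hU) h1 h2
      have h4 := SlowE.oe_nonneg AK φ q s
      simp only [hb]
      linarith)
    (fun q q' s hV hU h1 =>
      SlowE.hlat hAK hV.1 (D.φ_diff.mono (hKDL hV)) (hlt q s hV hU) h1)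
    (fun q s hV hU h1 h2 => hNs q s hV (by linarith) h1 h2)
    (subset_closure huU) hint hroot
  refine SlowJ1.not_lims (s1 := s1 / Ks) hlim hxL (by positivity) hκ' ?_
  intro x' hx'
  have h5 := hfin x' hx'.le
  filter_upwards [Ioc_mem_nhdsGT hs1] with s hs
  have hV : V b b0 s1 (x, u) k (x', u) s := by
    refine ⟨hs.1, hs.2, ?_, ?_⟩
    · have h6 : s1 / Ks ≤ s1 := div_le_self hs1.le (by linarith)
      rw [Prod.dist_eq, Real.dist_eq, Real.dist_eq]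
      refine max_le (hx'.le.trans h6) ?_
      simp only [sub_self, abs_zero]
      exact hs1.le
    · intro s' h6 h7
      refine (h5 s' (lt_of_lt_of_le hs.1 h6) h7).trans ?_
      linarith
  exact (hCs (x', u) s (hVmono hV) (by rw [hU0]; exact hs.1.le)).1.1

end Crest.Agent.R102.SlowJ486
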