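import Crest.Agent.R102.Coll_841
import Crest.Agent.R102.Boot_172
import Crest.Agent.R102.SlowJ_486

/-!
Row 102, T1-B, block EDGE / SLOW (helper841): **ColPhi** (literal of 859 / 486) from the uniform
collapse `Coll841.uc` and the bootstrap `Boot172.boot`.
-/

set_option autoImplicit false

open Set Filter Topology Metric MeasureTheory Complex

noncomputable section

namespace Crest.Agent.R102.ColPhi841

open Crest.Agent.R102.Sup115 (HDu Dp E2 MaxiX GoodU)
open Crest.Agent.R102.S5 (Half bl ray Cn)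
open Crest.Agent.R102.Edge255
open Crest.Agent.R102.Coll841
open Crest.Agent.R102.SlowJ486 (Base EvS ColPhi)
open Crest.Agent.R102.Chain859 (V rho)

theorem ball_sub_Wg {m : ℝ} (hm : 0 ≤ m) : closedBall z0 (1 / 10) ⊆ Wg m := by
  intro q hq
  rw [mem_closedBall, dist_eq_norm, Prod.norm_def, max_le_iff] at hq
  obtain ⟨h1, h2⟩ := hq
  have a1 := (Complex.abs_im_le_norm _).trans h1
  have a2 := (Complex.abs_im_le_norm _).trans h2
  simp only [z0, Prod.fst_sub, Prod.snd_sub, Complex.sub_im, Complex.neg_im, Complex.I_im] at a1 a2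
  have e1 : (I / 4 : ℂ).im = 1 / 4 := by simp
  rw [e1] at a2
  have b1 := abs_le.1 a1
  have b2 := abs_le.1 a2
  have hp : 0 < q.2.im := by linarith
  refine ⟨hp, ?_⟩
  have : 0 ≤ m * q.2.im := mul_nonneg hm hp.le
  linarith

theorem ray_mem {u0 R d : ℝ} {e : ℝ × ℝ} {t : ℝ} (ht : 0 < t) (hd : t < d)
    (hR : |e.2 - u0| + t ≤ R) : ray e t ∈ Dp u0 R d := by
  have h1 : (ray e t).1.im = -t := by simp [ray, bl]
  have h2 : (ray e t).2.im = t / 4 := by simp [ray, bl]; ring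
  refine ⟨by rw [h1]; linarith, by rw [h1]; linarith, ?_, ?_⟩
  · rw [mem_ball, dist_eq_norm]
    have e1 : (ray e t).2 - (u0 : ℂ) = ((e.2 - u0 : ℝ) : ℂ) + (t : ℂ) * (I / 4) := by
      simp [ray, bl]; ring
    rw [e1]
    refine lt_of_le_of_lt (norm_add_le _ _) ?_
    rw [Complex.norm_real, Real.norm_eq_abs, norm_mul, Complex.norm_real, Real.norm_eq_abs,
      abs_of_pos ht]
    have : ‖(I / 4 : ℂ)‖ = 1 / 4 := by simp
    rw [this]; linarith
  · show 0 < (ray e t).2.im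
    rw [h2]; positivity

theorem continuous_ray (e : ℝ × ℝ) : Continuous (ray e) := by
  unfold ray bl; fun_prop

theorem colPhi : ColPhi := by
  intro u0 R d h ψ H A φ p B X L hED u s₀ a g hu hu0 ha hg hRig κ hκ
  have hκ2 : 0 < κ / 2 := half_pos hκ
  obtain ⟨k1, hk1, hmod⟩ := Boot172.mod_cont hED.curve hκ2 (show 0 < κ / 4 by positivity)
  obtain ⟨k, hk, hkk1, hkκ, kφ, hkφ, εb, hεb, hboot⟩ := Boot172.boot hED.curve hκ2 hk1
  refine ⟨kφ, hkφ, κ / 8, by positivity, ?_⟩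
  intro ε hε K hK hKc K' hK' hKc'
  have hκ8 : 0 < κ / 8 := by positivity
  -- the two collapses
  obtain ⟨ρa, hρa, Ha⟩ := uc hED hu ha hg hRig hκ hκ8 (lt_min hεb hk)
    (K := {z0}) (K' := closedBall z0 (1 / 10) ∪ Sh {z0})
    (singleton_subset_iff.2 (z0_mem (by linarith))) isCompact_singleton
    (union_subset (ball_sub_Wg ha) (Sh_sub (singleton_subset_iff.2 (z0_mem ha))))
    ((isCompact_closedBall _ _).union (isCompact_Sh isCompact_singleton))
  obtain ⟨ρb, hρb, Hb⟩ := uc hED hu ha hg hRig hκ hκ8 hε hK hKc hK' hKc'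
  refine ⟨min ρa ρb, lt_min hρa hρb, ?_⟩
  intro ρ δ U hρ hBase
  obtain ⟨δa, hδa, Ha⟩ := Ha ρ δ U (hρ.trans (min_le_left _ _)) hBase.ρ_pos hBase.δ_pos
    hBase.closed hBase.mem hBase.e2
  obtain ⟨δb, hδb, Hb⟩ := Hb ρ δ U (hρ.trans (min_le_right _ _)) hBase.ρ_pos hBase.δ_pos
    hBase.closed hBase.mem hBase.e2
  refine ⟨min δa δb, lt_min hδa hδb, ?_⟩
  intro x hx σ hσ hbal
  obtain ⟨sa, hsa, Ha⟩ := Ha x (hx.trans_le (min_le_left _ _)) σ hσ hbal
  obtain ⟨sb, hsb, Hb⟩ := Hb x (hx.trans_le (min_le_right _ _)) σ hσ hbal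
  have hr₀p : 0 < (R - |u - u0|) / 8 := by
    have : |u - u0| < R := abs_lt.2 ⟨by linarith [hu.1], by linarith [hu.2]⟩
    linarith
  refine ⟨min (min sa sb) (min (σ / 2) (min (d / 8) ((R - |u - u0|) / 8))),
    lt_min (lt_min hsa hsb) (lt_min (half_pos hσ) (lt_min (by have := hED.d_pos; linarith)
      hr₀p)), ?_⟩
  intro s1 hs1 hs1le p' s' hV hinf
  have l1 : s1 ≤ sa := hs1le.trans ((min_le_left _ _).trans (min_le_left _ _))
  have l2 : s1 ≤ sb := hs1le.trans ((min_le_left _ _).trans (min_le_right _ _))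
  have l3 : s1 ≤ σ / 2 := hs1le.trans ((min_le_right _ _).trans (min_le_left _ _))
  have l4 : s1 ≤ d / 8 := hs1le.trans ((min_le_right _ _).trans ((min_le_right _ _).trans
    (min_le_left _ _)))
  have l5 : s1 ≤ (R - |u - u0|) / 8 := hs1le.trans ((min_le_right _ _).trans
    ((min_le_right _ _).trans (min_le_right _ _)))
  have Ha := Ha s1 hs1 l1
  have Hb := Hb s1 hs1 l2
  obtain ⟨hs', hs's1, hp', hcol⟩ := hV
  have hd0 := hED.d_pos
  -- the root window
  have hIr : Intr h κ ψ B (x, u) s1 := hbal s1 ⟨hs1, by linarith⟩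
  have hS0 := Ha (x, u) s1 hs1 le_rfl (by simp [hs1.le])
    (by rw [infDist_zero_of_mem (show (x, u).2 ∈ U from hBase.mem)]; exact hs1.le)
    (fun t ht => by
      obtain rfl : t = s1 := le_antisymm ht.2 ht.1
      exact intr_mono (by linarith) hIr)
  set b0 : ℂ := B (ray (x, u) s1) with hb0
  have hb0im : |b0.im| ≤ h - κ := hIr.1
  have hb0y : κ / 2 ≤ ‖deriv ψ b0‖ := by
    obtain ⟨q, hq, hy⟩ := hIr.2
    have h1 : ‖B (bl (x, u) s1 q) - b0‖ ≤ k1 :=
      ((hS0.2 q (Or.inl hq)).trans (min_le_right _ _)).trans hkk1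
    have h2 := (hmod b0 _ (by linarith) h1).2
    have h3 := norm_sub_norm_le (deriv ψ (B (bl (x, u) s1 q))) (deriv ψ b0)
    linarith
  have hexp0 : ‖cexp (2 * I * (φ (ray (x, u) s1) - ψ b0)) - 1‖ ≤ εb :=
    (hS0.1 z0 rfl).1.trans (min_le_left _ _)
  have hBs1 : ‖B (ray p' s1) - b0‖ ≤ k := by
    rw [Prod.dist_eq, max_le_iff, Real.dist_eq, Real.dist_eq] at hp'
    have hv1 : |(p'.1 - x) / s1| ≤ 1 := by
      rw [abs_div, abs_of_pos hs1, div_le_one hs1]; exact hp'.1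
    have hv2 : |(p'.2 - u) / s1| ≤ 1 := by
      rw [abs_div, abs_of_pos hs1, div_le_one hs1]; exact hp'.2
    have h1 := hS0.2 _ (Or.inr (mem_Sh (K := {z0}) rfl (v := ((p'.1 - x) / s1, (p'.2 - u) / s1))
      hv1 hv2))
    have h2 : ray p' s1 = bl (x, u) s1 (sh ((p'.1 - x) / s1, (p'.2 - u) / s1) z0) :=
      bl_sh (e := (x, u)) (e' := p') hs1.ne' z0
    rw [h2]
    exact h1.trans (min_le_right _ _)
  -- interior windows from the label
  have hInt : ∀ t, 0 < t → ‖B (ray p' t) - b0‖ ≤ k → Intr h (κ / 8) ψ B p' t := by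
    intro t _ hb
    refine ⟨?_, z0, by simp, ?_⟩
    · have h1 := (Complex.abs_im_le_norm (B (ray p' t) - b0)).trans hb
      rw [Complex.sub_im] at h1
      have h2 := abs_sub_abs_le_abs_sub (B (ray p' t)).im b0.im
      linarith
    · have h2 := (hmod b0 _ (by linarith) (hb.trans hkk1)).2
      have h3 := norm_sub_norm_le (deriv ψ b0) (deriv ψ (B (ray p' t)))
      rw [norm_sub_rev] at h3
      show κ / 8 ≤ ‖deriv ψ (B (ray p' t))‖
      linarith
  have hcont : ContinuousOn (fun t => B (ray p' t)) (Icc s' s1) := by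
    refine (hED.B_diff.mono hED.Dp_X).continuousOn.comp (continuous_ray p').continuousOn ?_
    intro t ht
    have ht0 : 0 < t := hs'.trans_le ht.1
    refine ray_mem ht0 (by linarith [ht.2]) ?_
    rw [Prod.dist_eq, max_le_iff, Real.dist_eq, Real.dist_eq] at hp'
    have h1 : |p'.2 - u0| ≤ |p'.2 - u| + |u - u0| := abs_sub_le _ _ _
    have h2 := hp'.2
    have h3 := ht.2
    simp only at h2
    have := abs_nonneg (u - u0)
    linarith
  have hfin := hboot s' s1 (fun t => B (ray p' t)) (fun t => φ (ray p' t)) b0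
    (φ (ray (x, u) s1)) hs's1 hcont (by linarith) hb0y hexp0 hBs1
    (fun t ht => hcol t ht.1 ht.2) (fun t ht hB => by
      have ht0 : 0 < t := hs'.trans_le ht.1
      have h1 := Ha p' t ht0 ht.2 hp' (hinf.trans ht.1)
        (fun t' ht' => hInt t' (ht0.trans_le ht'.1) (hB t' ht'))
      exact ((h1.1 z0 rfl).1).trans (min_le_left _ _))
  have hI : ∀ t ∈ Icc s' s1, Intr h (κ / 8) ψ B p' t := fun t ht =>
    hInt t (hs'.trans_le ht.1) ((hfin t ht).1.trans (by linarith))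
  exact ⟨hI s' ⟨le_rfl, hs's1⟩, Hb p' s' hs' hs's1 hp' hinf hI⟩

end Crest.Agent.R102.ColPhi841
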