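import Crest.Agent.R102.ColB_516
import Crest.Agent.R102.LemZ_329

/-!
Row 102, part (C), Case E (`h0 = ∞`), T1-E: **the good column**, final form.
-/

set_option autoImplicit false

open Set Filter Metric Complex Topology

noncomputable section

namespace Crest.Agent.R102.Col516

theorem lemZ_ex : ∃ C : ℝ, LemZ C := by
  obtain ⟨C, -, h⟩ := LemZ329.lemZ
  refine ⟨C, fun q p R a hR ha hq hp hb => ?_⟩
  obtain ⟨ρ, hρ, h2⟩ := h q p R a hR ha (fun z _ => hq.analyticAt z) hp hb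
  exact ⟨ρ, hρ, fun z hz => ⟨(h2 z hz).1, (h2 z hz).2.1, (h2 z hz).2.2.1⟩⟩

/-- **THE GOOD COLUMN** (COL of T1-E) -/
theorem col {y G : ℂ → ℂ} (hy : Differentiable ℂ y) (hG : Differentiable ℂ G)
    (hyG : ∀ z, deriv (deriv y) z = G z * y z) (hper : ∀ z, y (z + 1) = y z)
    (hreal : ∀ x : ℝ, (y x).im = 0 ∧ 0 < (y x).re) {C' C1 κ : ℝ} (hC' : 1 ≤ C')
    (hC1 : 0 < C1) (hκ : 0 < κ) :
    ∃ L0 : ℝ, ∀ L ≥ L0, ∀ m S : ℝ, 1 / L ^ 2 ≤ S → S * L / 2 ≤ m →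
      (∀ β : ℝ, |β| ≤ (C' * Real.log L) ^ 3 → ∀ z : ℂ, |z.im| ≤ m + S * β →
        ‖y z‖ ≤ C1 * √L * Real.exp (L + β)) →
      ∃ x : ℝ, ∀ z ∈ closedBall ((x : ℂ) + m * I) (C' * Real.log L * S),
        ‖y z‖ ≤ κ * Real.exp L ∧ ‖G z‖ ≤ κ ^ 2 * Real.exp (2 * L) := by
  obtain ⟨C, hC⟩ := lemZ_ex
  exact good_column ⟨hy, hG, hyG, hper, hreal⟩ hC hC' hC1 hκ

end Crest.Agent.R102.Col516
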