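import Mathlib
import Crest.Agent.R102.SheetD_982
import Crest.Agent.R102.GoodU_150
import Crest.Agent.R102.T1EJ1_712

/-!
Row 102, T1-B, glue OUT -> II (helper559): from `Nn u` (the outer joint) to `GoodU` (the output of
Part II) at a.e. real `u`.

* `pair` : the official sheets form a `PartII150.Pair`;
* `VV`   : the height of the pair sheet `OmL ∩ OmX` (712's `Vh`), lower semicontinuous, `NT`;
* `VV_of_Nn` : at a real `u` with `Nn u`, `VV u` is the height `U(u)` and no point at height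
  `VV u` is regular for the lines;
* `goodU_ae` : on every half disc `HDu u0 R` one `G` (845's slope theorem), and for a.e. `u` with
  `Nn u` the expansion `Expn G VV u α β` and `GoodU`.
-/

set_option autoImplicit false

open Set Filter Topology Metric MeasureTheory
open scoped ComplexConjugate

noncomputable section

namespace Crest.Agent.R102.GlueII559

open Crest.Agent.R102.T5 Crest.Agent.R102.C0 Crest.Agent.R102.K669 Crest.Agent.R102.Out559
open Crest.Agent.R102.Sh982 Crest.Agent.R102.PartII150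
open Crest.Agent.R102.T1EJ712 (LS Per Vh)
open Crest.Agent.R102.Slope845 (Expn HDc slope_NT)
open Crest.Agent.R102.SH712 (NT)
open Crest.Agent.R102.Sup115 (HDu GoodU)

variable {q : C(ℂ, ℂ)} {η ρ r Bc : ℝ} {b φ p : ℂ × ℂ → ℂ} {m₀ : ℂ → ℂ} {h : ℝ} {ψ H : ℂ → ℂ}

/-- the official sheet of the lines -/
abbrev OL (φ p : ℂ × ℂ → ℂ) (ρ r : ℝ) : Set (ℂ × ℂ) := OmL φ p (-(ρ / 2)) (ρ / 2) r

/-- the official sheet of the labels -/
abbrev OX (b : ℂ × ℂ → ℂ) (h ρ r : ℝ) : Set (ℂ × ℂ) := OmX b (Str h) (-(ρ / 2)) (ρ / 2) r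

section

variable (D : Sh982.Dat q η ρ r Bc b φ p m₀ h ψ H)
include D

/-- the official sheets form a pair -/
theorem pair (hNB : Rule982.NB h ψ H) : Pair (ρ / 2) (ball (0 : ℂ) r) (OL φ p ρ r) (OX b h ρ r) where
  hL := D.lvL'
  hX := D.lvX'
  r1 := by
    intro t w _ h1 h2
    refine D.ruleX hNB (x := (t, w)) ?_ ?_
    · unfold sh; rw [one_mul]; exact h2
    · unfold sh; rw [neg_one_mul, ← sub_eq_add_neg]; exact h1
  r2 := by
    intro t w _ h1 h2
    have h3 := D.ruleL (s := -1) (Or.inr rfl) (x := (t, w)) h1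
      (by unfold sh; rw [neg_neg, one_mul]; exact h2)
    unfold sh at h3
    rw [neg_one_mul, ← sub_eq_add_neg] at h3
    exact h3
  r3 := by
    intro t w _ h1 h2
    have h3 := D.ruleL (s := 1) (Or.inl rfl) (x := (t, w)) h2
      (by unfold sh; rw [neg_one_mul, ← sub_eq_add_neg]; exact h1)
    unfold sh at h3
    rw [one_mul] at h3
    exact h3

/-- the pair sheet is a Levi set -/
theorem ls : LS (ρ / 2) (ball (0 : ℂ) r) (OL φ p ρ r ∩ OX b h ρ r) where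
  isOpen := D.lvL'.isOpen.inter D.lvX'.isOpen
  WO := isOpen_ball
  base := fun w hw t ht => ⟨D.lvL'.base w hw t ht, D.lvX'.base w hw t ht⟩
  levi := by
    intro t0 w0 Q sg HH δ hw0 hQ hQ' hsg hH heq hδ hev
    exact ⟨D.lvL'.levi t0 w0 hw0 Q sg HH hQ hQ' hsg hH heq δ hδ
        (hev.mono fun q hq hlt => (hq hlt).1),
      D.lvX'.levi t0 w0 hw0 Q sg HH hQ hQ' hsg hH heq δ hδ
        (hev.mono fun q hq hlt => (hq hlt).2)⟩

theorem per : Per (OL φ p ρ r ∩ OX b h ρ r) 1 := by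
  have hρ := D.ρ_pos
  intro t w n ht
  have e : t + (n : ℂ) * ((1 : ℝ) : ℂ) = t + n := by push_cast; ring
  rw [e]
  exact ⟨(OmL_add_int D.fam (by linarith) (by linarith) le_rfl n).2 ht.1,
    (OmX_add_int D.fam (by linarith) (by linarith) le_rfl n).2 ht.2⟩

end

/-- the height of the pair sheet, capped at `h + 1` -/
def VV (b φ p : ℂ × ℂ → ℂ) (h ρ r : ℝ) (w : ℂ) : ℝ := Vh (OL φ p ρ r ∩ OX b h ρ r) (h + 1) w

section

variable (D : Sh982.Dat q η ρ r Bc b φ p m₀ h ψ H)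
include D

theorem VV_lsc : LowerSemicontinuousOn (VV b φ p h ρ r) (ball (0 : ℂ) r) :=
  T1EJ712.Vh_lsc (ls D) one_pos (per D)

theorem VV_NT : NT (VV b φ p h ρ r) (ball (0 : ℂ) r) :=
  T1EJ712.Vh_NT (ls D) one_pos (per D)

theorem h_pos : 0 < h := by
  have h1 := D.ρ_pos
  have h2 := D.fam.ρ_lt
  have h3 := D.η_le
  linarith

theorem VV_le {w : ℂ} (hw : w ∈ ball (0 : ℂ) r) : VV b φ p h ρ r w ≤ h + 1 :=
  T1EJ712.Vh_le ((ls D).base w hw)

theorem le_VV {w : ℂ} (hw : w ∈ ball (0 : ℂ) r) : ρ / 2 ≤ VV b φ p h ρ r w := by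
  refine T1EJ712.le_Vh ?_ ((ls D).base w hw)
  have h1 := D.ρ_pos
  have h2 := D.fam.ρ_lt
  have h3 := D.η_le
  linarith

theorem mem_of_lt_VV {w t : ℂ} (hw : w ∈ ball (0 : ℂ) r) (ht : t.im < VV b φ p h ρ r w) :
    (t, w) ∈ OL φ p ρ r ∧ (t, w) ∈ OX b h ρ r :=
  T1EJ712.mem_of_lt_Vh ((ls D).base w hw) ht

/-- **at a real `u` with `Nn u`** -/
theorem VV_of_Nn {u : ℝ} (hu : |u| < r) (hN : Nn b φ p (Str h) (-(ρ / 2)) (ρ / 2) r h u) :
    0 < VV b φ p h ρ r u ∧ VV b φ p h ρ r u ≤ h ∧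
      (∀ s : ℂ, s.im < VV b φ p h ρ r u → (s, (u : ℂ)) ∈ OL φ p ρ r ∧ (s, (u : ℂ)) ∈ OX b h ρ r) ∧
      (∀ x : ℝ, ((x : ℂ) + (VV b φ p h ρ r u) * Complex.I, (u : ℂ)) ∉ OL φ p ρ r) := by
  have hw : (u : ℂ) ∈ ball (0 : ℂ) r := by simpa using hu
  have hρ := D.ρ_pos
  obtain ⟨U, hU, hUh, hreg, hsing⟩ := hN
  have hb := (ls D).base (u : ℂ) hw
  have hall : ∀ t : ℂ, t.im < U → (t, (u : ℂ)) ∈ OL φ p ρ r ∩ OX b h ρ r := by
    intro t ht
    rcases lt_or_ge t.im 0 with hn | hp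
    · exact hb t (by linarith)
    · exact hreg t hp ht
  have h1 : U ≤ VV b φ p h ρ r u := T1EJ712.le_Vh (by linarith) hall
  have h2 : VV b φ p h ρ r u ≤ U := by
    have h3 := hsing ((U : ℂ) * Complex.I) (by simp)
    have h4 : ((U : ℂ) * Complex.I, (u : ℂ)) ∉ OL φ p ρ r ∩ OX b h ρ r := fun hm => h3 hm.1
    have h5 := T1EJ712.Vh_le_of_notMem (cp := h + 1) hb h4
    have h6 : ((U : ℂ) * Complex.I).im = U := by simp
    rw [h6] at h5
    exact h5
  have hVU : VV b φ p h ρ r u = U := le_antisymm h2 h1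
  rw [hVU]
  exact ⟨hU, hUh, hall, fun x => hsing _ (by simp)⟩

/-- **PART II at a.e. real `u` with `Nn u`**, one exact shift `G` per half disc -/
theorem goodU_ae (hNB : Rule982.NB h ψ H) {u0 R d : ℝ} (hR : 0 < R) (hd : 0 < d)
    (hball : ball (u0 : ℂ) R ⊆ ball (0 : ℂ) r) :
    ∃ G : ℂ → ℂ, DifferentiableOn ℂ G (HDu u0 R) ∧
      (∀ w ∈ HDu u0 R, 0 ≤ (G w).im ∧ (G w).im ≤ VV b φ p h ρ r w) ∧
      (∀ u ∈ Ioo (u0 - R) (u0 + R), Tendsto (fun y : ℝ => (G (u + y * Complex.I)).im) (𝓝[>] 0)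
        (𝓝 (VV b φ p h ρ r u))) ∧
      ∀ᵐ u : ℝ, u ∈ Ioo (u0 - R) (u0 + R) → Nn b φ p (Str h) (-(ρ / 2)) (ρ / 2) r h u →
        (∃ α β : ℝ, Expn G (VV b φ p h ρ r) u α β) ∧
        ∃ s₀ a₀ c : ℝ, GoodU (Xe u0 R d G (OX b h ρ r)) (Le u0 R d G (OL φ p ρ r)) u s₀ a₀ c := by
  have hρ := D.ρ_pos
  obtain ⟨G, hG, hGb, -, -, hGt, hGE⟩ := slope_NT (M := h + 1) hR ((VV_lsc D).mono hball)
    (Slope845.NT_mono (VV_NT D) hball)
    (fun w hw => ⟨by have := le_VV D (hball hw); linarith, VV_le D (hball hw)⟩)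
  refine ⟨G, hG, fun w hw => ⟨(hGb w hw).1, (hGb w hw).2.2.1⟩, hGt, ?_⟩
  filter_upwards [hGE] with u hE hu hN
  obtain ⟨α, β, hE'⟩ := hE hu
  have huB : (u : ℂ) ∈ ball (u0 : ℂ) R := by
    rw [mem_ball, dist_eq_norm, ← Complex.ofReal_sub, Complex.norm_real, Real.norm_eq_abs, abs_lt]
    constructor <;> linarith [hu.1, hu.2]
  have hur : |u| < r := by simpa using hball huB
  obtain ⟨-, -, -, hNN⟩ := VV_of_Nn D hur hN
  refine ⟨⟨α, β, hE'⟩, ?_⟩
  exact partII_goodU (pair D hNB) (V := VV b φ p h ρ r)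
    (fun w hw t ht => (mem_of_lt_VV D hw ht).1) (fun w hw t ht => (mem_of_lt_VV D hw ht).2)
    hd hball hu hNN hG (fun w hw => (hGb w hw).2.2.1) hE'

end

/-- from local a.e. statements to `(0, r)` -/
theorem ae_of_local {P : ℝ → Prop} {r : ℝ}
    (hloc : ∀ u0 R : ℝ, 0 < R → ball (u0 : ℂ) R ⊆ ball (0 : ℂ) r →
      ∀ᵐ u : ℝ, u ∈ Ioo (u0 - R) (u0 + R) → P u) :
    ∀ᵐ u : ℝ, u ∈ Ioo 0 r → P u := by
  have key : volume {u : ℝ | ¬ (u ∈ Ioo 0 r → P u)} = 0 := by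
    refine measure_null_of_locally_null _ fun x hx => ?_
    simp only [mem_ofPred_eq, Classical.not_imp] at hx
    obtain ⟨⟨hx0, hxr⟩, -⟩ := hx
    set R : ℝ := r - x with hR
    have hRp : 0 < R := by rw [hR]; linarith
    have hball : ball (x : ℂ) R ⊆ ball (0 : ℂ) r := by
      intro z hz
      rw [mem_ball, dist_eq_norm] at hz
      rw [mem_ball_zero_iff]
      have h1 := norm_add_le (z - x) (x : ℂ)
      rw [sub_add_cancel, Complex.norm_real, Real.norm_eq_abs, abs_of_pos hx0] at h1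
      linarith
    have h2 := hloc x R hRp hball
    rw [ae_iff] at h2
    refine ⟨{u : ℝ | ¬ (u ∈ Ioo (x - R) (x + R) → P u)} ∩ Ioo (x - R) (x + R) ∪
      {u : ℝ | ¬ (u ∈ Ioo 0 r → P u)} ∩ Ioo (x - R) (x + R), ?_, ?_⟩
    · rw [← union_inter_distrib_right]
      refine mem_of_superset (inter_mem self_mem_nhdsWithin (mem_nhdsWithin_of_mem_nhds
        (Ioo_mem_nhds (by linarith : x - R < x) (by linarith : x < x + R)))) ?_
      rintro u ⟨h3, h4⟩
      exact ⟨Or.inr h3, h4⟩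
    · refine measure_mono_null ?_ h2
      rintro u (⟨h3, -⟩ | ⟨h3, h4⟩)
      · exact h3
      · simp only [mem_ofPred_eq, Classical.not_imp] at h3 ⊢
        exact ⟨h4, h3.2⟩
  exact ae_iff.2 key

end Crest.Agent.R102.GlueII559
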