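import Crest.Agent.R102.GoodU_150

/-!
Row 102, T1-B (helper150): nontangential limit of the exact shift, and the births near the points
`(s + G(u), u)` in the original coordinates (input of `GlueIV_812`).
-/

set_option autoImplicit false

open Set Filter Topology Metric Complex MeasureTheory
open scoped Real

noncomputable section

namespace Crest.Agent.R102.PartII150

open Crest.Agent.R102.K669 Crest.Agent.R102.Heights150
open Crest.Agent.R102.S5 (Half bl Gam Low)
open Crest.Agent.R102.Sup115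
open Crest.Agent.R102.Slope845 (Expn)

/-- `g0` is the nontangential limit of the shift `G` at `u`, with first order expansion -/
def NTL (G : ℂ → ℂ) (u α β : ℝ) (g0 : ℂ) : Prop :=
  ∀ κ > (0 : ℝ), ∀ ε > (0 : ℝ), ∃ δ > (0 : ℝ), ∀ z : ℂ, 0 < z.im → ‖z‖ < δ → κ * ‖z‖ ≤ z.im →
    ‖G (u + z) - g0 - ((β : ℂ) + I * α) * z‖ ≤ ε * ‖z‖

theorem exists_ntl {G : ℂ → ℂ} {V : ℂ → ℝ} {u u0 R α β : ℝ} (hu : u ∈ Ioo (u0 - R) (u0 + R))
    (hG : DifferentiableOn ℂ G (HDu u0 R)) (hE : Expn G V u α β) :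
    ∃ g0 : ℂ, g0.im = V u ∧ NTL G u α β g0 := by
  obtain ⟨-, hE1, -, -⟩ := hE
  set R₁ : ℝ := R - |u - u0| with hR₁
  have hR₁0 : 0 < R₁ := by
    have : |u - u0| < R := by rw [abs_lt]; constructor <;> linarith [hu.1, hu.2]
    linarith
  have hWo : IsOpen (HDu u0 R) := isOpen_ball.inter (isOpen_lt continuous_const Complex.continuous_im)
  obtain ⟨g0, hg0⟩ := Slope231.nt_expansion (h1 := (β : ℂ) + I * α) (u := u) hWo hG (by
    intro κ hκ ε hε
    obtain ⟨δ, hδ, h⟩ := hE1 κ hκ ε hε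
    refine ⟨min δ R₁, lt_min hδ hR₁0, fun z hz => ⟨?_, ?_⟩⟩
    · exact mem_HDu hz.2.1 (hz.2.2.trans_le (min_le_right _ _))
    · exact (h z (hz.2.2.trans_le (min_le_left _ _)) hz.2.1 hz.1).2)
  refine ⟨g0, ?_, ?_⟩
  · -- imaginary part along the vertical ray
    refine eq_of_forall_dist_le (fun ε hε => ?_)
    set K : ℝ := 2 + ‖((β : ℂ) + I * α)‖ + |β| with hK
    have hK0 : 0 < K := by positivity
    obtain ⟨δ1, hδ1, h1⟩ := hE1 1 one_pos 1 one_pos
    obtain ⟨δ2, hδ2, h2⟩ := hg0 1 one_pos 1 one_pos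
    set y : ℝ := min (min (δ1 / 2) (δ2 / 2)) (ε / K) with hy
    have hy0 : 0 < y := lt_min (lt_min (by positivity) (by positivity)) (by positivity)
    have hn : ‖(y : ℂ) * I‖ = y := by
      rw [norm_mul, Complex.norm_I, mul_one, Complex.norm_real, Real.norm_eq_abs, abs_of_pos hy0]
    have him : ((y : ℂ) * I).im = y := by simp
    have hre : ((y : ℂ) * I).re = 0 := by simp
    have hyd1 : y < δ1 := by
      have : y ≤ δ1 / 2 := (min_le_left _ _).trans (min_le_left _ _)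
      linarith
    have hyd2 : y < δ2 := by
      have : y ≤ δ2 / 2 := (min_le_left _ _).trans (min_le_right _ _)
      linarith
    have h3 := (h1 ((y : ℂ) * I) (by rw [hn]; exact hyd1) (by rw [him]; exact hy0)
      (by rw [hn, him, one_mul])).1
    have h4 := h2 ((y : ℂ) * I) ⟨by rw [hn, him, one_mul], by rw [him]; exact hy0,
      by rw [hn]; exact hyd2⟩
    rw [hn] at h3 h4
    rw [him, hre] at h3
    have h5 : ‖G (u + (y : ℂ) * I) - g0‖ ≤ y + ‖((β : ℂ) + I * α)‖ * y := by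
      have h6 : G (u + (y : ℂ) * I) - g0 = (G (u + (y : ℂ) * I) - g0 -
          ((β : ℂ) + I * α) * ((y : ℂ) * I)) + ((β : ℂ) + I * α) * ((y : ℂ) * I) := by ring
      rw [h6]
      refine (norm_add_le _ _).trans ?_
      rw [norm_mul ((β : ℂ) + I * α), hn]
      linarith
    have h7 : |(G (u + (y : ℂ) * I)).im - g0.im| ≤ y + ‖((β : ℂ) + I * α)‖ * y := by
      rw [← Complex.sub_im]; exact (Complex.abs_im_le_norm _).trans h5
    rw [Real.dist_eq]
    have h8 : g0.im - V u = -((G (u + (y : ℂ) * I)).im - g0.im) +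
        ((G (u + (y : ℂ) * I)).im - V u - α * 0 - β * y) + β * y := by ring
    rw [h8]
    have h9 : |β * y| = |β| * y := by rw [abs_mul, abs_of_pos hy0]
    calc |-((G (u + (y : ℂ) * I)).im - g0.im) +
        ((G (u + (y : ℂ) * I)).im - V u - α * 0 - β * y) + β * y|
        ≤ |-((G (u + (y : ℂ) * I)).im - g0.im)| +
          |(G (u + (y : ℂ) * I)).im - V u - α * 0 - β * y| + |β * y| := by
            refine (abs_add_le _ _).trans ?_
            linarith [abs_add_le (-((G (u + (y : ℂ) * I)).im - g0.im))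
              ((G (u + (y : ℂ) * I)).im - V u - α * 0 - β * y)]
      _ ≤ (y + ‖((β : ℂ) + I * α)‖ * y) + 1 * y + |β| * y := by
            rw [abs_neg, h9]; linarith
      _ = K * y := by rw [hK]; ring
      _ ≤ K * (ε / K) := mul_le_mul_of_nonneg_left (min_le_right _ _) hK0.le
      _ = ε := by field_simp
  · intro κ hκ ε hε
    obtain ⟨δ, hδ, h⟩ := hg0 κ hκ ε hε
    exact ⟨δ, hδ, fun z h0 h1 h2 => h z ⟨h2, h0, h1⟩⟩

/-- **births in the original coordinates** -/
theorem hbirth {L X : Set (ℂ × ℂ)} {G : ℂ → ℂ} {u u0 R d α β s₀ a₀ c : ℝ} {g0 : ℂ}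
    (hd : 0 < d)
    (hu : u ∈ Ioo (u0 - R) (u0 + R)) (hg : NTL G u α β g0)
    (hbase : ∀ w ∈ HDu u0 R, ∀ t : ℂ, t.im < (G w).im → (t, w) ∈ X)
    (hGU : GoodU (Xe u0 R d G X) (Le u0 R d G L) u s₀ a₀ c) :
    ∃ δ > 0, ∀ s : ℝ, |s - s₀| < δ → ∀ ε > 0, ∃ t w : ℂ, ‖t - (s + g0)‖ < ε ∧ ‖w - u‖ < ε ∧
      (t, w) ∉ X ∧ (t - w / 2, w) ∈ L := by
  obtain ⟨ha, hc, H⟩ := hGU
  set ρ : ℝ := min (c / 2) (1 / 4) with hρ
  have hρ0 : 0 < ρ := lt_min (by positivity) (by norm_num)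
  have hρc : ρ < c := by
    have : ρ ≤ c / 2 := min_le_left _ _
    linarith
  have hρ4 : ρ ≤ 1 / 4 := min_le_right _ _
  obtain ⟨δ, hδ, HE⟩ := H ρ hρ0
  refine ⟨δ, hδ, fun s hs ε hε => ?_⟩
  have E := HE s hs
  set R₁ : ℝ := R - |u - u0| with hR₁
  have hR₁0 : 0 < R₁ := by
    have : |u - u0| < R := by rw [abs_lt]; constructor <;> linarith [hu.1, hu.2]
    linarith
  obtain ⟨δ1, hδ1, hg1⟩ := hg (1 / 2) (by norm_num) 1 one_pos
  set K : ℝ := 2 * (a₀ + 1) + 2 * (1 + ‖((β : ℂ) + I * α)‖) + 1 with hK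
  have hK0 : 0 < K := by positivity
  set y : ℝ := min (min (min (δ / 4) d) (R₁ / 4)) (min (δ1 / 4) (ε / (2 * K))) with hy
  have hy0 : 0 < y := lt_min (lt_min (lt_min (by positivity) hd) (by positivity))
    (lt_min (by positivity) (by positivity))
  have y1 : y ≤ δ / 4 := (min_le_left _ _).trans ((min_le_left _ _).trans (min_le_left _ _))
  have y0 : y ≤ d := (min_le_left _ _).trans ((min_le_left _ _).trans (min_le_right _ _))
  have y2 : y ≤ R₁ / 4 := (min_le_left _ _).trans (min_le_right _ _)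
  have y3 : y ≤ δ1 / 4 := (min_le_right _ _).trans (min_le_left _ _)
  have y4 : K * y ≤ ε / 2 := by
    have h1 : y ≤ ε / (2 * K) := (min_le_right _ _).trans (min_le_right _ _)
    calc K * y ≤ K * (ε / (2 * K)) := mul_le_mul_of_nonneg_left h1 hK0.le
      _ = ε / 2 := by field_simp
  have hn : ‖(y : ℂ) * I‖ = y := by
    rw [norm_mul, Complex.norm_I, mul_one, Complex.norm_real, Real.norm_eq_abs, abs_of_pos hy0]
  have him : ((y : ℂ) * I).im = y := by simp
  have hre : ((y : ℂ) * I).re = 0 := by simp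
  obtain ⟨q, hqX, h1, h2, h3', h3⟩ := E.dense s (by simpa using hδ) ((y : ℂ) * I)
    (by rw [hn]; linarith) (by rw [him]; exact hy0) (by rw [hn, him]; nlinarith)
  rw [hn] at h1 h2
  rw [hre, mul_zero, add_zero] at h1
  simp only at h2
  have hρy : ρ * y ≤ y / 4 := by nlinarith
  set z : ℂ := q.2 - u with hz
  have hzy : ‖z - (y : ℂ) * I‖ ≤ y / 4 := by
    have : z - (y : ℂ) * I = q.2 - ((u : ℂ) + (y : ℂ) * I) := by rw [hz]; ring
    rw [this]; linarith
  have hzn : ‖z‖ ≤ 5 / 4 * y := by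
    have h4 : z = (z - (y : ℂ) * I) + (y : ℂ) * I := by ring
    rw [h4]
    refine (norm_add_le _ _).trans ?_
    rw [hn]; linarith
  have hzi : 3 / 4 * y ≤ z.im := by
    have h4 := (Complex.abs_im_le_norm (z - (y : ℂ) * I)).trans hzy
    rw [Complex.sub_im, him] at h4
    have := (abs_le.1 h4).1
    linarith
  have hz0 : 0 < z.im := by linarith
  have hzi' : z.im ≤ 5 / 4 * y := ((le_abs_self _).trans (Complex.abs_im_le_norm z)).trans hzn
  have hzq : z.im = q.2.im := by rw [hz]; simp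
  have hq2 : q.2 ∈ HDu u0 R := by
    have := mem_HDu (u0 := u0) (R := R) (u := u) (z := z) hz0 (by linarith)
    rwa [hz, add_sub_cancel] at this
  have hqd : -d < q.1.im := by
    rw [← hzq] at h3'
    have h4 : ρ * z.im ≤ 1 / 4 * (5 / 4 * y) := mul_le_mul hρ4 hzi' hz0.le (by norm_num)
    have h5 : 0 ≤ a₀ * z.im := mul_nonneg ha hz0.le
    linarith [sub_mul a₀ ρ z.im]
  have hexX : ex G q ∉ X := fun h => hqX ⟨⟨hqd, hq2⟩, h⟩
  have hq0 : 0 ≤ q.1.im := by
    by_contra hlt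
    push Not at hlt
    apply hexX
    refine hbase q.2 hq2 _ ?_
    rw [Complex.add_im]; linarith
  have hq1 : q.1.im ≤ (a₀ + 1) * (2 * y) := by
    rw [← hzq] at h3
    refine h3.trans ?_
    exact mul_le_mul (by linarith) (by linarith) hz0.le (by linarith)
  have hlnL : ln G q ∈ L := by
    refine (E.line ⟨?_, ?_, ?_, ?_, ?_⟩).2
    · simp only; linarith
    · linarith
    · show ‖q.2 - ((u : ℝ) : ℂ)‖ < δ
      rw [← hz]; linarith
    · rw [← hzq]; exact hz0
    · rw [← hzq] at h3 ⊢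
      refine lt_of_le_of_lt h3 (mul_lt_mul_of_pos_right (by linarith) hz0)
  refine ⟨q.1 + G q.2, q.2, ?_, ?_, hexX, hlnL⟩
  · have h5 := hg1 z hz0 (by linarith) (by linarith)
    have h6 : (u : ℂ) + z = q.2 := by rw [hz]; ring
    rw [h6] at h5
    have h7 : ‖G q.2 - g0‖ ≤ (1 + ‖((β : ℂ) + I * α)‖) * ‖z‖ := by
      have h8 : G q.2 - g0 = (G q.2 - g0 - ((β : ℂ) + I * α) * z) + ((β : ℂ) + I * α) * z := by ring
      rw [h8]
      refine (norm_add_le _ _).trans ?_
      rw [norm_mul ((β : ℂ) + I * α)]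
      linarith
    have h9 : ‖q.1 - (s : ℂ)‖ ≤ y + (a₀ + 1) * (2 * y) := by
      have h10 : q.1 - (s : ℂ) = ((q.1.re - s : ℝ) : ℂ) + (q.1.im : ℂ) * I := by
        apply Complex.ext <;> simp
      rw [h10]
      refine (norm_add_le _ _).trans ?_
      rw [norm_mul, Complex.norm_I, mul_one, Complex.norm_real, Complex.norm_real,
        Real.norm_eq_abs, Real.norm_eq_abs, abs_of_nonneg hq0]
      linarith
    have h11 : q.1 + G q.2 - (s + g0) = (q.1 - s) + (G q.2 - g0) := by ring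
    rw [h11]
    have h12 : (1 + ‖((β : ℂ) + I * α)‖) * ‖z‖ ≤ (1 + ‖((β : ℂ) + I * α)‖) * (2 * y) :=
      mul_le_mul_of_nonneg_left (by linarith) (by positivity)
    calc ‖(q.1 - s) + (G q.2 - g0)‖ ≤ ‖q.1 - s‖ + ‖G q.2 - g0‖ := norm_add_le _ _
      _ ≤ (y + (a₀ + 1) * (2 * y)) + (1 + ‖((β : ℂ) + I * α)‖) * (2 * y) := by linarith
      _ = K * y := by rw [hK]; ring
      _ < ε := by linarith
  · rw [← hz]
    have : 2 * y ≤ K * y := by
      apply mul_le_mul_of_nonneg_right _ hy0.le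
      rw [hK]; nlinarith [norm_nonneg ((β : ℂ) + I * α)]
    linarith

end Crest.Agent.R102.PartII150
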