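import Crest.Agent.R102.EdgeDefs_255
import Crest.Agent.R102.ExitB_812
import Mathlib.Analysis.Complex.BorelCaratheodory

/-!
Row 102, EDGE (helper802): **interior windows can be moved laterally** by a small real vector
(`intr_move`), uniformly: `Intr h κ` at `(e, s)` gives `Intr h κ'` at `(e', s)`, `|e - e'| ≤ τ s`.
-/

set_option autoImplicit false

open Set Filter Topology Metric Complex

noncomputable section

namespace Crest.Agent.R102.IntrMove802

open Crest.Agent.R102.Edge255 Crest.Agent.R102.S5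

/-- a function on a disc with values in the strip moves little -/
theorem osc_strip {h R : ℝ} (hh : 0 < h) (hR : 0 < R) {f : ℂ → ℂ} {c z : ℂ}
    (hf : DifferentiableOn ℂ f (ball c R)) (him : ∀ y ∈ ball c R, |(f y).im| < h)
    (hz : ‖z - c‖ ≤ R / 2) : ‖f z - f c‖ ≤ 8 * h / R * ‖z - c‖ := by
  have hc : c ∈ ball c R := mem_ball_self hR
  set G : ℂ → ℂ := fun ζ => I * (f (c + ζ) - f c) with hG
  have hmaps : ∀ ζ ∈ ball (0 : ℂ) R, c + ζ ∈ ball c R := by
    intro ζ hζ
    rw [mem_ball_zero_iff] at hζ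
    simpa [mem_ball, dist_eq_norm] using hζ
  have hGd : DifferentiableOn ℂ G (ball 0 R) := by
    refine DifferentiableOn.const_mul ?_ I
    refine DifferentiableOn.sub_const ?_ _
    exact hf.comp (by fun_prop) (fun ζ hζ => hmaps ζ hζ)
  have hGre : MapsTo G (ball 0 R) {z : ℂ | z.re ≤ 2 * h} := by
    intro ζ hζ
    have h1 := abs_lt.1 (him _ (hmaps ζ hζ))
    have h2 := abs_lt.1 (him _ hc)
    have h3 : (G ζ).re = -((f (c + ζ)).im - (f c).im) := by
      simp [hG]
    change (G ζ).re ≤ 2 * h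
    rw [h3]; linarith [h1.1, h2.2]
  have hzR : z - c ∈ ball (0 : ℂ) R := by
    rw [mem_ball_zero_iff]; linarith
  have h4 := borelCaratheodory_zero (by linarith : (0 : ℝ) < 2 * h) hGd hGre hR hzR
    (by simp [hG])
  have h5 : ‖G (z - c)‖ = ‖f z - f c‖ := by
    simp [hG]
  rw [h5] at h4
  refine h4.trans ?_
  have h6 : R / 2 ≤ R - ‖z - c‖ := by linarith
  have h7 : 2 * (2 * h) * ‖z - c‖ / (R - ‖z - c‖) ≤ 2 * (2 * h) * ‖z - c‖ / (R / 2) := by
    gcongr
  refine h7.trans (le_of_eq ?_)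
  field_simp
  ring

/-- uniform continuity of a continuous periodic function on a closed strip -/
theorem unif_strip {h : ℝ} {y : ℂ → ℂ} (hy : ContinuousOn y (T5.Str h))
    (hper : ∀ z ∈ T5.Str h, y (z + 1) = y z) {h' : ℝ} (hh' : h' < h) {ε : ℝ} (hε : 0 < ε) :
    ∃ δ > 0, ∀ z w : ℂ, |z.im| ≤ h' → |w.im| ≤ h' → ‖z - w‖ ≤ δ → ‖y z - y w‖ ≤ ε := by
  set K : Set ℂ := {z : ℂ | z.re ∈ Icc (-1 : ℝ) 2 ∧ z.im ∈ Icc (-h') h'} with hK
  have hKc : IsCompact K := by
    have : K = Complex.equivRealProdCLM.symm '' (Icc (-1 : ℝ) 2 ×ˢ Icc (-h') h') := by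
      ext z
      simp only [hK, mem_ofPred_eq, mem_image, mem_prod]
      constructor
      · rintro ⟨h1, h2⟩
        exact ⟨(z.re, z.im), ⟨h1, h2⟩, by apply Complex.ext <;> simp⟩
      · rintro ⟨p, ⟨h1, h2⟩, rfl⟩
        simpa using ⟨h1, h2⟩
    rw [this]
    exact (isCompact_Icc.prod isCompact_Icc).image Complex.equivRealProdCLM.symm.continuous
  have hKs : K ⊆ T5.Str h := by
    intro z hz
    change |z.im| < h
    exact lt_of_le_of_lt (abs_le.2 hz.2) hh'
  have huc := hKc.uniformContinuousOn_of_continuous (hy.mono hKs)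
  rw [Metric.uniformContinuousOn_iff_le] at huc
  obtain ⟨δ, hδ, hd⟩ := huc ε hε
  refine ⟨min δ 1, lt_min hδ one_pos, fun z w hz hw hzw => ?_⟩
  have hz1 := abs_le.1 hz
  have hw1 := abs_le.1 hw
  have hperI : ∀ (n : ℤ) (x : ℂ), x ∈ T5.Str h → y (x + n) = y x := by
    intro n
    induction n using Int.induction_on with
    | zero => intro x _; simp
    | succ k ih =>
      intro x hx
      have h1 : x + (k : ℤ) ∈ T5.Str h := by
        change |(x + (k : ℤ)).im| < h
        have h0 : |x.im| < h := hx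
        simpa using h0
      have h2 := hper _ h1
      rw [ih x hx] at h2
      rw [← h2]; congr 1; push_cast; ring
    | pred k ih =>
      intro x hx
      have h1 : x + ((-(k : ℤ) - 1 : ℤ) : ℂ) ∈ T5.Str h := by
        change |(x + ((-(k : ℤ) - 1 : ℤ) : ℂ)).im| < h
        have : (x + ((-(k : ℤ) - 1 : ℤ) : ℂ)).im = x.im := by
          rw [Complex.add_im, Complex.intCast_im, add_zero]
        rw [this]; exact hx
      have h2 := hper _ h1
      rw [← h2, ← ih x hx]; congr 1; push_cast; ring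
  set n : ℤ := -⌊z.re⌋ with hn
  have hzs : z ∈ T5.Str h := lt_of_le_of_lt hz hh'
  have hws : w ∈ T5.Str h := lt_of_le_of_lt hw hh'
  rw [← hperI n z hzs, ← hperI n w hws, ← dist_eq_norm]
  have hf1 := Int.floor_le z.re
  have hf2 := Int.lt_floor_add_one z.re
  have hre : |z.re - w.re| ≤ 1 := by
    have h1 := Complex.abs_re_le_norm (z - w)
    rw [Complex.sub_re] at h1
    exact h1.trans (hzw.trans (min_le_right _ _))
  have hre' := abs_le.1 hre
  refine hd _ ⟨⟨?_, ?_⟩, ?_⟩ _ ⟨⟨?_, ?_⟩, ?_⟩ ?_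
  · simp [hn]; linarith
  · simp [hn]; linarith
  · simpa using ⟨hz1.1, hz1.2⟩
  · simp [hn]; linarith
  · simp [hn]; linarith
  · simpa using ⟨hw1.1, hw1.2⟩
  · rw [dist_eq_norm]
    have : z + n - (w + n) = z - w := by ring
    rw [this]
    exact hzw.trans (min_le_left _ _)

/-- **interior windows move** -/
theorem intr_move {h κ : ℝ} {ψ H : ℂ → ℂ} (hc : Curve h ψ H) (hκ : 0 < κ) :
    ∃ τ > 0, ∀ (B : ℂ × ℂ → ℂ) (e e' : ℝ × ℝ) (s : ℝ), 0 < s →
      (∀ q ∈ ball z0 (1 / 5), DifferentiableAt ℂ B (bl e s q) ∧ |(B (bl e s q)).im| < h) →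
      |e.1 - e'.1| ≤ τ * s → |e.2 - e'.2| ≤ τ * s → Intr h κ ψ B e s →
      Intr h (κ / 9) ψ B e' s := by
  have hh := hc.h_pos
  have hyd : DifferentiableOn ℂ (deriv ψ) (T5.Str h) := hc.ψ_diff.deriv (T5.isOpen_Str h)
  have hyper : ∀ z ∈ T5.Str h, deriv ψ (z + 1) = deriv ψ z := by
    intro z hz
    have h1 : (fun x => ψ (x + 1)) =ᶠ[𝓝 z] fun x => ψ x + 2 * Real.pi := by
      filter_upwards [(T5.isOpen_Str h).mem_nhds hz] with x hx using hc.ψ_per x hx
    have h2 := h1.deriv_eq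
    rwa [deriv_comp_add_const, deriv_add_const] at h2
  obtain ⟨δ, hδ, hunif⟩ := unif_strip hyd.continuousOn hyper (h' := h - κ / 27)
    (by linarith) (ε := κ / 2) (by linarith)
  refine ⟨min (1 / 20) (δ / (80 * h)), by positivity, ?_⟩
  intro B e e' s hs hB h1 h2 hI
  obtain ⟨hI1, q, hq, hqy⟩ := hI
  set τ : ℝ := min (1 / 20) (δ / (80 * h)) with hτ
  have hτ0 : 0 < τ := by rw [hτ]; positivity
  have hτ1 : τ ≤ 1 / 20 := min_le_left _ _
  have hτ2 : 80 * h * τ ≤ δ := by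
    have := min_le_right (1 / 20) (δ / (80 * h))
    rw [← hτ, le_div_iff₀ (by positivity)] at this
    linarith
  set v : ℂ × ℂ := ((((e'.1 - e.1) / s : ℝ) : ℂ), (((e'.2 - e.2) / s : ℝ) : ℂ)) with hv
  have hvn : ‖v‖ ≤ τ := by
    rw [hv, Prod.norm_def]
    refine max_le ?_ ?_
    · rw [Complex.norm_real, Real.norm_eq_abs, abs_div, abs_of_pos hs, div_le_iff₀ hs, abs_sub_comm]
      exact h1
    · rw [Complex.norm_real, Real.norm_eq_abs, abs_div, abs_of_pos hs, div_le_iff₀ hs, abs_sub_comm]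
      exact h2
  have hbl : ∀ x : ℂ × ℂ, bl e' s x = bl e s (x + v) := by
    intro x
    have hs' : (s : ℂ) ≠ 0 := by exact_mod_cast hs.ne'
    refine Prod.ext ?_ ?_
    · simp only [bl, hv, Prod.fst_add]; push_cast; field_simp; ring
    · simp only [bl, hv, Prod.snd_add]; push_cast; field_simp; ring
  -- the label on complex lines
  have key : ∀ a b : ℂ × ℂ, ‖a - z0‖ ≤ 1 / 10 → ‖b - a‖ ≤ 1 / 20 →
      ∃ f : ℂ → ℂ, DifferentiableOn ℂ f (ball 0 (1 / 10)) ∧
        (∀ ζ ∈ ball (0 : ℂ) (1 / 10), |(f ζ).im| < h) ∧ f 0 = B (bl e s a) ∧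
        f ((‖b - a‖ : ℝ) : ℂ) = B (bl e s b) := by
    intro a b ha hb
    rcases eq_or_ne a b with rfl | hab
    · refine ⟨fun _ => B (bl e s a), differentiableOn_const _, fun ζ _ => (hB a ?_).2, rfl, rfl⟩
      rw [mem_ball, dist_eq_norm]; linarith
    have hn : 0 < ‖b - a‖ := norm_pos_iff.2 (sub_ne_zero.2 hab.symm)
    set n : ℂ × ℂ := ((‖b - a‖⁻¹ : ℝ) : ℂ) • (b - a) with hndef
    have hn1 : ‖n‖ = 1 := by
      rw [hndef, norm_smul, Complex.norm_real, Real.norm_eq_abs, abs_of_pos (inv_pos.2 hn)]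
      exact inv_mul_cancel₀ hn.ne'
    have hmem : ∀ ζ ∈ ball (0 : ℂ) (1 / 10), a + ζ • n ∈ ball z0 (1 / 5) := by
      intro ζ hζ
      rw [mem_ball_zero_iff] at hζ
      rw [mem_ball, dist_eq_norm]
      have h3 : a + ζ • n - z0 = (a - z0) + ζ • n := by abel
      rw [h3]
      calc ‖(a - z0) + ζ • n‖ ≤ ‖a - z0‖ + ‖ζ • n‖ := norm_add_le _ _
        _ = ‖a - z0‖ + ‖ζ‖ := by rw [norm_smul, hn1, mul_one]
        _ < 1 / 5 := by linarith
    refine ⟨fun ζ => B (bl e s (a + ζ • n)), ?_, fun ζ hζ => (hB _ (hmem ζ hζ)).2, by simp, ?_⟩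
    · intro ζ hζ
      have h3 := (hB _ (hmem ζ hζ)).1
      refine DifferentiableAt.differentiableWithinAt ?_
      refine DifferentiableAt.comp (g := B) (f := fun ζ : ℂ => bl e s (a + ζ • n)) ζ h3 ?_
      unfold bl
      fun_prop
    · have h3 : a + (((‖b - a‖ : ℝ) : ℂ)) • n = b := by
        rw [hndef, smul_smul, ← Complex.ofReal_mul, mul_inv_cancel₀ hn.ne', Complex.ofReal_one,
          one_smul]
        abel
      simp only [h3]
  -- margins
  have marg : ∀ a b : ℂ × ℂ, ‖a - z0‖ ≤ 1 / 10 → ‖b - a‖ ≤ 1 / 20 → ∀ m : ℝ,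
      |(B (bl e s a)).im| ≤ h - m → |(B (bl e s b)).im| ≤ h - m / 3 := by
    intro a b ha hb m hm
    obtain ⟨f, hf1, hf2, hf3, hf4⟩ := key a b ha hb
    have h3 := Exit812.harn_strip (R := 1 / 10) (by norm_num) (c := 0)
      (z := ((‖b - a‖ : ℝ) : ℂ)) hf1 hf2
      (by rw [sub_zero, Complex.norm_real, Real.norm_eq_abs, abs_of_nonneg (norm_nonneg _)]
          linarith)
    rw [hf3, hf4] at h3
    have hm' := abs_le.1 hm
    rw [abs_le]
    constructor
    · linarith [h3.2, hm'.1]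
    · linarith [h3.1, hm'.2]
  have hz0a : ‖z0 - z0‖ ≤ 1 / 10 := by rw [sub_self, norm_zero]; norm_num
  have hq0 : ‖q - z0‖ ≤ 1 / 10 := by rw [← dist_eq_norm]; exact hq
  -- the label height at `q`
  have hmid : ∃ m : ℂ × ℂ, ‖m - z0‖ ≤ 1 / 20 ∧ ‖q - m‖ ≤ 1 / 20 := by
    refine ⟨(1 / 2 : ℝ) • (q + z0), ?_, ?_⟩
    · have : (1 / 2 : ℝ) • (q + z0) - z0 = (1 / 2 : ℝ) • (q - z0) := by
        rw [smul_add, smul_sub]
        have h3 : (1 / 2 : ℝ) • z0 - z0 = -((1 / 2 : ℝ) • z0) := by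
          have : z0 = (1 / 2 : ℝ) • z0 + (1 / 2 : ℝ) • z0 := by
            rw [← add_smul]; norm_num
          nth_rw 2 [this]; abel
        rw [add_sub_assoc, h3]; abel
      rw [this, norm_smul]; norm_num; linarith
    · have : q - (1 / 2 : ℝ) • (q + z0) = (1 / 2 : ℝ) • (q - z0) := by
        rw [smul_add, smul_sub]
        have h3 : q - (1 / 2 : ℝ) • q = (1 / 2 : ℝ) • q := by
          have : q = (1 / 2 : ℝ) • q + (1 / 2 : ℝ) • q := by
            rw [← add_smul]; norm_num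
          nth_rw 1 [this]; abel
        rw [← sub_sub, h3]
      rw [this, norm_smul]; norm_num; linarith
  obtain ⟨m, hm1, hm2⟩ := hmid
  have hr1 : |(B (bl e s z0)).im| ≤ h - κ := hI1
  have hmm := marg z0 m hz0a hm1 κ hr1
  have hqm := marg m q (hm1.trans (by norm_num)) hm2 (κ / 3) hmm
  have hvv : ‖v‖ ≤ 1 / 20 := hvn.trans hτ1
  refine ⟨?_, q, hq, ?_⟩
  · have h3 := marg z0 (z0 + v) hz0a (by rw [add_sub_cancel_left]; exact hvv) κ hr1
    have h4 : ray e' s = bl e s (z0 + v) := hbl z0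
    rw [h4]
    refine h3.trans ?_
    linarith
  · rw [hbl q]
    have h3 : |(B (bl e s (q + v))).im| ≤ h - κ / 27 := by
      have := marg q (q + v) hq0 (by rw [add_sub_cancel_left]; exact hvv) (κ / 3 / 3) hqm
      refine this.trans (le_of_eq ?_); ring
    have h4 : |(B (bl e s q)).im| ≤ h - κ / 27 := by
      refine hqm.trans ?_; linarith
    obtain ⟨f, hf1, hf2, hf3, hf4⟩ := key q (q + v) hq0 (by rw [add_sub_cancel_left]; exact hvv)
    have h5 := osc_strip (R := 1 / 10) hh (by norm_num) (c := 0)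
      (z := ((‖q + v - q‖ : ℝ) : ℂ)) hf1 hf2
      (by rw [sub_zero, Complex.norm_real, Real.norm_eq_abs, abs_of_nonneg (norm_nonneg _),
            add_sub_cancel_left]
          linarith)
    rw [hf3, hf4, sub_zero, Complex.norm_real, Real.norm_eq_abs, abs_of_nonneg (norm_nonneg _),
      add_sub_cancel_left] at h5
    have h6 : ‖B (bl e s (q + v)) - B (bl e s q)‖ ≤ δ := by
      refine h5.trans ?_
      have : 8 * h / (1 / 10) * ‖v‖ ≤ 80 * h * τ := by
        have h7 : 8 * h / (1 / 10) = 80 * h := by ring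
        rw [h7]; exact mul_le_mul_of_nonneg_left hvn (by positivity)
      linarith
    have h7 := hunif _ _ h3 h4 h6
    have h8 : ‖deriv ψ (B (bl e s q))‖ ≤ ‖deriv ψ (B (bl e s (q + v)))‖ +
        ‖deriv ψ (B (bl e s (q + v))) - deriv ψ (B (bl e s q))‖ := by
      have := norm_sub_norm_le (deriv ψ (B (bl e s q))) (deriv ψ (B (bl e s (q + v))))
      rw [norm_sub_rev] at this
      linarith
    linarith

end Crest.Agent.R102.IntrMove802
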