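import Crest.Agent.R102.EdgeDefs_255
import Crest.Agent.R102.IntrShift_198
import Crest.Agent.R102.IntrMove_802

/-!
Row 102, T1-B, block EDGE / SLOW, leaf **N1** (helper841): uniform collapse from `Rigid`.

`cols_of`  : windows `(x' n, u' n; s n)` below balanced roots `(x n, u; s1 n)` with interior column up
             to the root, base moved to `u'' n ∈ U n`, are `Cols` (input of `Rigid`, `NormP`);
`uc`       : the `ε`-`δ` form of the collapse;
`slow_move`: `SlowAt` at `(x', u'')` gives `SlowAt` at `(x', u')`, `|u' - u''| ≤ s`.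
-/

set_option autoImplicit false

open Set Filter Topology Metric MeasureTheory Complex

noncomputable section

namespace Crest.Agent.R102.Coll841

open Crest.Agent.R102.Sup115 (HDu Dp E2 MaxiX GoodU)
open Crest.Agent.R102.S5 (Half bl ray Cn)
open Crest.Agent.R102.Edge255

theorem intr_mono {h κ κ' : ℝ} {ψ : ℂ → ℂ} {B : ℂ × ℂ → ℂ} {e : ℝ × ℝ} {s : ℝ} (hk : κ' ≤ κ)
    (hI : Intr h κ ψ B e s) : Intr h κ' ψ B e s := by
  obtain ⟨q, hq, hy⟩ := hI.2
  exact ⟨hI.1.trans (by linarith), q, hq, hk.trans hy⟩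

theorem half_sub {u0 R d : ℝ} {e : ℝ × ℝ} {r : ℝ} (h1 : r ≤ d)
    (h2 : |e.2 - u0| + r ≤ R) : Half e r 0 ⊆ Dp u0 R d := by
  rintro q ⟨_, h3, h4, h5, h6⟩
  refine ⟨by linarith, by simpa using h6, ?_, h5⟩
  rw [mem_ball, dist_eq_norm]
  have : q.2 - (u0 : ℂ) = (q.2 - (e.2 : ℂ)) + ((e.2 - u0 : ℝ) : ℂ) := by push_cast; ring
  rw [this]
  calc _ ≤ ‖q.2 - (e.2 : ℂ)‖ + ‖((e.2 - u0 : ℝ) : ℂ)‖ := norm_add_le _ _
    _ < r + |e.2 - u0| := by
        rw [Complex.norm_real, Real.norm_eq_abs]; linarith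
    _ ≤ R := by linarith

/-- the big compact window -/
def K2 (m c : ℝ) : Set (ℂ × ℂ) :=
  {q | ‖q.1‖ ≤ 2 ∧ ‖q.2‖ ≤ 2 ∧ c ≤ q.2.im ∧ q.1.im ≤ (m - c) * q.2.im}

theorem isCompact_K2 (m c : ℝ) : IsCompact (K2 m c) := by
  refine Metric.isCompact_of_isClosed_isBounded ?_ ?_
  · have h1 : IsClosed {q : ℂ × ℂ | ‖q.1‖ ≤ 2} := isClosed_le (by fun_prop) continuous_const
    have h2 : IsClosed {q : ℂ × ℂ | ‖q.2‖ ≤ 2} := isClosed_le (by fun_prop) continuous_const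
    have h3 : IsClosed {q : ℂ × ℂ | c ≤ q.2.im} := isClosed_le continuous_const (by fun_prop)
    have h4 : IsClosed {q : ℂ × ℂ | q.1.im ≤ (m - c) * q.2.im} :=
      isClosed_le (by fun_prop) (by fun_prop)
    exact h1.inter (h2.inter (h3.inter h4))
  · refine (Metric.isBounded_closedBall (x := (0 : ℂ × ℂ)) (r := 2)).subset ?_
    rintro q ⟨h1, h2, _⟩
    rw [mem_closedBall, dist_zero_right, Prod.norm_def]
    exact max_le h1 h2

theorem K2_anti {m c c' : ℝ} (hc : 0 ≤ c') (h : c' ≤ c) : K2 m c ⊆ K2 m c' := by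
  rintro q ⟨h1, h2, h3, h4⟩
  refine ⟨h1, h2, h.trans h3, h4.trans ?_⟩
  exact mul_le_mul_of_nonneg_right (by linarith) (by linarith)

/-- shift by a real vector -/
def sh (v : ℝ × ℝ) (q : ℂ × ℂ) : ℂ × ℂ := (q.1 + (v.1 : ℂ), q.2 + (v.2 : ℂ))

theorem bl_sh {e e' : ℝ × ℝ} {s : ℝ} (hs : s ≠ 0) (q : ℂ × ℂ) :
    bl e' s q = bl e s (sh ((e'.1 - e.1) / s, (e'.2 - e.2) / s) q) := by
  have hs' : (s : ℂ) ≠ 0 := by exact_mod_cast hs
  simp only [bl, sh, Prod.mk.injEq]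
  constructor <;> · push_cast; field_simp; ring

theorem sh_mem_K2 {m c : ℝ} {v : ℝ × ℝ} (h1 : |v.1| ≤ 1) (h2 : |v.2| ≤ 1) {q : ℂ × ℂ}
    (hq : q ∈ Kc m c) : sh v q ∈ K2 m c := by
  obtain ⟨a1, a2, a3, a4⟩ := hq
  refine ⟨?_, ?_, ?_, ?_⟩
  · calc ‖q.1 + (v.1 : ℂ)‖ ≤ ‖q.1‖ + ‖(v.1 : ℂ)‖ := norm_add_le _ _
      _ ≤ 1 + 1 := add_le_add a1 (by rw [Complex.norm_real]; exact h1)
      _ = 2 := by norm_num
  · calc ‖q.2 + (v.2 : ℂ)‖ ≤ ‖q.2‖ + ‖(v.2 : ℂ)‖ := norm_add_le _ _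
      _ ≤ 1 + 1 := add_le_add a2 (by rw [Complex.norm_real]; exact h2)
      _ = 2 := by norm_num
  · simpa [sh] using a3
  · simpa [sh] using a4

theorem sh_z0_mem {m c : ℝ} (hm : 0 ≤ m) (hc : c ≤ 1 / 8) {v : ℝ × ℝ} (h1 : |v.1| ≤ 1)
    (h2 : |v.2| ≤ 1) : sh v z0 ∈ K2 m c := by
  refine ⟨?_, ?_, ?_, ?_⟩
  · calc ‖z0.1 + (v.1 : ℂ)‖ ≤ ‖z0.1‖ + ‖(v.1 : ℂ)‖ := norm_add_le _ _
      _ ≤ 1 + 1 := add_le_add (by simp [z0]) (by rw [Complex.norm_real]; exact h1)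
      _ = 2 := by norm_num
  · calc ‖z0.2 + (v.2 : ℂ)‖ ≤ ‖z0.2‖ + ‖(v.2 : ℂ)‖ := norm_add_le _ _
      _ ≤ 1 + 1 := add_le_add (by simp [z0]; norm_num) (by rw [Complex.norm_real]; exact h2)
      _ = 2 := by norm_num
  · simp [sh, z0]; linarith
  · simp [sh, z0]; nlinarith

theorem bl_mem_half {e : ℝ × ℝ} {σ m c : ℝ} (hσ : 0 < σ) (hc : 0 < c) {q : ℂ × ℂ}
    (hq : q ∈ K2 m c) : bl e σ q ∈ Half e (4 * σ) m := by
  obtain ⟨a1, a2, a3, a4⟩ := hq
  have hre := (Complex.abs_re_le_norm q.1).trans a1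
  have him := (Complex.abs_im_le_norm q.1).trans a1
  refine ⟨?_, ?_, ?_, ?_, ?_⟩
  · have : ((bl e σ q).1.re - e.1) = σ * q.1.re := by simp [bl]
    rw [this, abs_mul, abs_of_pos hσ]; nlinarith
  · have : (bl e σ q).1.im = σ * q.1.im := by simp [bl]
    rw [this]; nlinarith [(abs_le.1 him).1]
  · have : (bl e σ q).2 - (e.2 : ℂ) = (σ : ℂ) * q.2 := by simp [bl]
    rw [this, norm_mul, Complex.norm_real, Real.norm_eq_abs, abs_of_pos hσ]; nlinarith
  · have : (bl e σ q).2.im = σ * q.2.im := by simp [bl]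
    rw [this]; exact mul_pos hσ (by linarith)
  · have h1 : (bl e σ q).1.im = σ * q.1.im := by simp [bl]
    have h2 : (bl e σ q).2.im = σ * q.2.im := by simp [bl]
    rw [h1, h2]
    have : 0 < q.2.im := by linarith
    nlinarith [mul_pos hc this]

theorem continuous_bl (e : ℝ × ℝ) (s : ℝ) : Continuous (bl e s) := by
  unfold bl; fun_prop

/-- a bound of the line on `K2` at a root window -/
theorem exists_T {φ p : ℂ × ℂ → ℂ} {L : Set (ℂ × ℂ)} (hφ : DifferentiableOn ℂ φ L)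
    (hp : DifferentiableOn ℂ p L) {e : ℝ × ℝ} {σ m c : ℝ} (hσ : 0 < σ) (hc : 0 < c)
    (hL : Half e (4 * σ) m ⊆ L) :
    ∃ T : ℝ, 1 ≤ T ∧ ∀ q ∈ K2 m c, 2 * ‖φ (bl e σ q)‖ + ‖p (bl e σ q)‖ ≤ T := by
  have hmap : MapsTo (bl e σ) (K2 m c) L := fun q hq => hL (bl_mem_half hσ hc hq)
  have h1 : ContinuousOn (fun q => φ (bl e σ q)) (K2 m c) :=
    hφ.continuousOn.comp (continuous_bl e σ).continuousOn hmap
  have h2 : ContinuousOn (fun q => p (bl e σ q)) (K2 m c) :=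
    hp.continuousOn.comp (continuous_bl e σ).continuousOn hmap
  obtain ⟨C1, hC1⟩ := (isCompact_K2 m c).exists_bound_of_continuousOn h1
  obtain ⟨C2, hC2⟩ := (isCompact_K2 m c).exists_bound_of_continuousOn h2
  refine ⟨max 1 (2 * C1 + C2), le_max_left _ _, fun q hq => le_trans ?_ (le_max_right _ _)⟩
  have := hC1 q hq
  have := hC2 q hq
  linarith

/-- **columns**: windows below balanced roots, base moved to `U` -/
theorem cols_of {u0 R d h : ℝ} {ψ H A : ℂ → ℂ} {φ p B : ℂ × ℂ → ℂ} {X L : Set (ℂ × ℂ)}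
    (hED : ED u0 R d h ψ H A φ p B X L) {u s₀ a g κ κ₁ : ℝ} (hκ : 0 < κ) (hκ₁ : 0 < κ₁) (ha : 0 ≤ a) (hg : 0 < g) {x s1 σ : ℕ → ℝ}
    {x' u' u'' s : ℕ → ℝ} (hxt : Tendsto x atTop (𝓝 s₀)) (hσt : Tendsto σ atTop (𝓝 0))
    (hσd : ∀ n, 8 * σ n ≤ d) (hσR : ∀ n, |u - u0| + 8 * σ n ≤ R)
    (hbal : ∀ n, ∀ t ∈ Ioc 0 (σ n), Intr h κ ψ B (x n, u) t)
    (hs : ∀ n, 0 < s n) (hs1 : ∀ n, s n ≤ s1 n) (h1σ : ∀ n, 2 * s1 n ≤ σ n)
    (hx' : ∀ n, |x' n - x n| ≤ s1 n) (hu' : ∀ n, |u' n - u| ≤ s1 n)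
    (hu'' : ∀ n, |u'' n - u' n| ≤ s n)
    (hcol : ∀ n, ∀ t ∈ Icc (s n) (s1 n), Intr h κ₁ ψ B (x' n, u' n) t)
    (hL0 : ∀ n, Half (x n, u) (4 * σ n) (a + g) ⊆ L)
    (hL : ∀ n, Half (x' n, u'' n) (4 * σ n) (a + g) ⊆ L) {T : ℕ → ℝ}
    (hT : ∀ c > 0, ∀ᶠ n in atTop, ∀ q ∈ K2 (a + g) c,
      2 * ‖φ (bl (x n, u) (σ n) q)‖ + ‖p (bl (x n, u) (σ n) q)‖ ≤ T n)
    (hsm : ∀ τ > 0, Tendsto (fun n => (s1 n / σ n) ^ (τ : ℝ) * T n) atTop (𝓝 0)) :
    ∃ κ' > 0, Cols u0 R d h a g κ' ψ φ p B X L u s₀ (fun n => (x' n, u'' n)) s σ := by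
  obtain ⟨k1, hk1, H1⟩ := IntrShift198.intr_shift (R := 2) hED.curve hκ (by norm_num)
  obtain ⟨k2, hk2, H2⟩ := IntrShift198.intr_shift (R := 2) hED.curve hκ₁ (by norm_num)
  have hs1p : ∀ n, 0 < s1 n := fun n => (hs n).trans_le (hs1 n)
  have hσp : ∀ n, 0 < σ n := fun n => by have := hs1p n; have := h1σ n; linarith
  have hBd : DifferentiableOn ℂ B (Dp u0 R d) := hED.B_diff.mono hED.Dp_X
  have hBi : ∀ q ∈ Dp u0 R d, |(B q).im| < h := fun q hq => hED.B_im q (hED.Dp_X hq)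
  have hs1t : Tendsto s1 atTop (𝓝 0) :=
    squeeze_zero (fun n => (hs1p n).le) (fun n => by have := h1σ n; have := hs1p n; linarith) hσt
  have hux : ∀ n, |u'' n - u| ≤ 2 * s1 n := fun n => by
    have h1 := abs_le.1 (hu' n)
    have h2 := abs_le.1 (hu'' n)
    have h3 := hs1 n
    exact abs_le.2 ⟨by linarith, by linarith⟩
  have hx't : Tendsto x' atTop (𝓝 s₀) := by
    have : Tendsto (fun n => x n + (x' n - x n)) atTop (𝓝 (s₀ + 0)) :=
      hxt.add (squeeze_zero_norm hx' hs1t)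
    simpa using this
  have hu''t : Tendsto u'' atTop (𝓝 u) := by
    have : Tendsto (fun n => u + (u'' n - u)) atTop (𝓝 (u + 0)) :=
      tendsto_const_nhds.add (squeeze_zero_norm hux (by simpa using hs1t.const_mul 2))
    simpa using this
  refine ⟨min k1 k2, lt_min hk1 hk2, ?_⟩
  refine ⟨hx't.prodMk_nhds hu''t, hs, fun n => ?_, fun n => ?_, fun n => ?_, hL, fun n t ht => ?_,
    fun c hc => ?_⟩
  · have := hs1 n; have := h1σ n; have := hs1p n; linarith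
  · have := hσd n; have := hσp n; linarith
  · intro z hz
    rw [mem_ball, dist_eq_norm] at hz ⊢
    have h1 : z - (u0 : ℂ) = (z - ((u'' n : ℝ) : ℂ)) + ((u'' n - u0 : ℝ) : ℂ) := by
      push_cast; ring
    have h2 : |u'' n - u0| ≤ 2 * s1 n + |u - u0| := by
      calc |u'' n - u0| = |(u'' n - u) + (u - u0)| := by ring_nf
        _ ≤ |u'' n - u| + |u - u0| := abs_add_le _ _
        _ ≤ _ := by have := hux n; linarith
    rw [h1]
    calc _ ≤ ‖z - ((u'' n : ℝ) : ℂ)‖ + ‖((u'' n - u0 : ℝ) : ℂ)‖ := norm_add_le _ _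
      _ < 4 * σ n + |u'' n - u0| := by
          rw [Complex.norm_real, Real.norm_eq_abs]; exact add_lt_add_left hz _
      _ ≤ R := by have := hσR n; have := h1σ n; have := hσp n; linarith
  · have ht0 : 0 < t := (hs n).trans_le ht.1
    have htσ : t ≤ σ n := ht.2
    rcases le_total t (s1 n) with h1 | h1
    · -- below the root
      refine intr_mono (min_le_right _ _) (H2 B (x' n, u' n) (x' n, u'' n) t t ht0 ?_ ?_ ?_ ?_
        (hBd.mono ?_) (fun q hq => hBi q ?_) (hcol n t ⟨ht.1, h1⟩))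
      · linarith
      · linarith
      · simp; linarith
      · simpa using (hu'' n).trans (by linarith [ht.1])
      all_goals
        have key : Half (x' n, u' n) (2 * 2 * t) 0 ⊆ Dp u0 R d := by
          refine half_sub ?_ ?_
          · have := hσd n; linarith
          · have h2 : |u' n - u0| ≤ s1 n + |u - u0| := by
              calc |u' n - u0| = |(u' n - u) + (u - u0)| := by ring_nf
                _ ≤ |u' n - u| + |u - u0| := abs_add_le _ _
                _ ≤ _ := by have := hu' n; linarith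
            have := hσR n; have := h1σ n; have := hσp n
            show |u' n - u0| + 2 * 2 * t ≤ R
            linarith
      · exact key
      · exact key hq
    · refine intr_mono (min_le_left _ _) (H1 B (x n, u) (x' n, u'' n) t t ht0 ?_ ?_ ?_ ?_
        (hBd.mono ?_) (fun q hq => hBi q ?_) (hbal n t ⟨ht0, htσ⟩))
      · linarith
      · linarith
      · show |x' n - x n| ≤ 2 * t
        exact (hx' n).trans (by linarith)
      · show |u'' n - u| ≤ 2 * t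
        exact (hux n).trans (by linarith)
      all_goals
        have key : Half (x n, u) (2 * 2 * t) 0 ⊆ Dp u0 R d := by
          refine half_sub ?_ ?_
          · have := hσd n; linarith
          · have := hσR n; have := h1σ n; have := hσp n
            show |u - u0| + 2 * 2 * t ≤ R
            linarith
      · exact key
      · exact key hq
  · -- outer bound
    have hc' : 0 < min c (1 / 8) := lt_min hc (by norm_num)
    have hbd : ∀ n, ∀ q ∈ Kc (a + g) c, ∀ T' : ℝ, (∀ q ∈ K2 (a + g) (min c (1 / 8)),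
        2 * ‖φ (bl (x n, u) (σ n) q)‖ + ‖p (bl (x n, u) (σ n) q)‖ ≤ T') →
        ‖φ (bl (x' n, u'' n) (σ n) q) - ((φ (ray (x' n, u'' n) (σ n))).re : ℂ)‖ +
        ‖p (bl (x' n, u'' n) (σ n) q)‖ ≤ T' + T' := by
      intro n q hq T' hT'
      have hv1 : |(x' n - x n) / σ n| ≤ 1 := by
        rw [abs_div, abs_of_pos (hσp n), div_le_one (hσp n)]
        have := hx' n; have := h1σ n; have := hs1p n; linarith
      have hv2 : |(u'' n - u) / σ n| ≤ 1 := by
        rw [abs_div, abs_of_pos (hσp n), div_le_one (hσp n)]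
        have := hux n; have := h1σ n; linarith
      have e1 := bl_sh (e := (x n, u)) (e' := (x' n, u'' n)) (hσp n).ne' q
      have e2 := bl_sh (e := (x n, u)) (e' := (x' n, u'' n)) (hσp n).ne' z0
      have m1 := hT' _ (K2_anti hc'.le (min_le_left _ _)
        (sh_mem_K2 (v := ((x' n - x n) / σ n, (u'' n - u) / σ n)) hv1 hv2 hq))
      have m2 := hT' _ (sh_z0_mem (m := a + g) (c := min c (1 / 8)) (by linarith)
        (min_le_right _ _) (v := ((x' n - x n) / σ n, (u'' n - u) / σ n)) hv1 hv2)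
      have e3 : ray (x' n, u'' n) (σ n) = bl (x' n, u'' n) (σ n) z0 := rfl
      rw [e3, e1, e2]
      have n1 := norm_nonneg (φ (bl (x n, u) (σ n) (sh ((x' n - x n) / σ n, (u'' n - u) / σ n) q)))
      have n2 := norm_nonneg (φ (bl (x n, u) (σ n) (sh ((x' n - x n) / σ n, (u'' n - u) / σ n) z0)))
      have n3 := norm_nonneg (p (bl (x n, u) (σ n) (sh ((x' n - x n) / σ n, (u'' n - u) / σ n) z0)))
      have n4 : ‖(((φ (bl (x n, u) (σ n)
          (sh ((x' n - x n) / σ n, (u'' n - u) / σ n) z0))).re : ℝ) : ℂ)‖ ≤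
          ‖φ (bl (x n, u) (σ n) (sh ((x' n - x n) / σ n, (u'' n - u) / σ n) z0))‖ := by
        rw [Complex.norm_real]; exact Complex.abs_re_le_norm _
      have n5 := norm_sub_le (φ (bl (x n, u) (σ n)
        (sh ((x' n - x n) / σ n, (u'' n - u) / σ n) q)))
        (((φ (bl (x n, u) (σ n) (sh ((x' n - x n) / σ n, (u'' n - u) / σ n) z0))).re : ℝ) : ℂ)
      dsimp only at m1 m2 ⊢
      linarith
    have hex : ∀ n, ∃ T' : ℝ, ∀ q ∈ K2 (a + g) (min c (1 / 8)),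
        2 * ‖φ (bl (x n, u) (σ n) q)‖ + ‖p (bl (x n, u) (σ n) q)‖ ≤ T' := fun n => by
      obtain ⟨T', _, h⟩ := exists_T (m := a + g) hED.φ_diff hED.p_diff (hσp n) hc' (hL0 n)
      exact ⟨T', h⟩
    choose T' hT' using hex
    classical
    refine ⟨fun n => if (∀ q ∈ K2 (a + g) (min c (1 / 8)),
        2 * ‖φ (bl (x n, u) (σ n) q)‖ + ‖p (bl (x n, u) (σ n) q)‖ ≤ T n) then T n + T n
        else T' n + T' n, fun n q hq => ?_, fun τ hτ => ?_⟩
    · by_cases hh : (∀ q ∈ K2 (a + g) (min c (1 / 8)),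
        2 * ‖φ (bl (x n, u) (σ n) q)‖ + ‖p (bl (x n, u) (σ n) q)‖ ≤ T n)
      · simp only [if_pos hh]
        exact hbd n q hq _ hh
      · simp only [if_neg hh]
        exact hbd n q hq _ (hT' n)
    · have hz : Tendsto (fun n => (s1 n / σ n) ^ (τ : ℝ) * T n * 2) atTop (𝓝 0) := by
        simpa using (hsm τ hτ).mul_const 2
      have hTn : ∀ᶠ n in atTop, 0 ≤ T n := by
        filter_upwards [hT _ hc'] with n hn
        have := hn _ (sh_z0_mem (m := a + g) (c := min c (1 / 8)) (by linarith)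
          (min_le_right _ _) (v := (0, 0)) (by simp) (by simp))
        exact le_trans (by positivity) this
      refine squeeze_zero' (hTn.mp ?_) ?_ hz
      · filter_upwards [hT _ hc'] with n hn hn0
        rw [if_pos hn]
        have : 0 ≤ s n / σ n := (div_pos (hs n) (hσp n)).le
        positivity
      · filter_upwards [hT _ hc', hTn] with n hn hn0
        rw [if_pos hn]
        have h1 : s n / σ n ≤ s1 n / σ n := div_le_div_of_nonneg_right (hs1 n) (hσp n).le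
        have h2 : (s n / σ n) ^ (τ : ℝ) ≤ (s1 n / σ n) ^ (τ : ℝ) :=
          Real.rpow_le_rpow (div_pos (hs n) (hσp n)).le h1 hτ.le
        nlinarith [mul_le_mul_of_nonneg_right h2 hn0]

/-! ### `SlowAt` at a shifted centre -/

theorem psi_unif {h : ℝ} {ψ H : ℂ → ℂ} (hC : Curve h ψ H) {h' : ℝ} (hh' : h' < h) {ε : ℝ}
    (hε : 0 < ε) : ∃ δ > 0, ∀ z w : ℂ, |z.im| ≤ h' → |w.im| ≤ h' → ‖z - w‖ ≤ δ →
      ‖ψ z - ψ w‖ ≤ ε := by
  have hy : ContinuousOn (fun z => ψ z - 2 * Real.pi * z) (T5.Str h) :=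
    hC.ψ_diff.continuousOn.sub (by fun_prop)
  have hper : ∀ z ∈ T5.Str h, (fun z => ψ z - 2 * Real.pi * z) (z + 1) =
      (fun z => ψ z - 2 * Real.pi * z) z := by
    intro z hz
    simp only [hC.ψ_per z hz]
    ring
  obtain ⟨δ, hδ, hd⟩ := IntrMove802.unif_strip hy hper hh' (half_pos hε)
  have hpi := Real.pi_pos
  refine ⟨min δ (ε / 2 / (2 * Real.pi)), lt_min hδ (by positivity), fun z w hz hw hzw => ?_⟩
  have h1 := hd z w hz hw (hzw.trans (min_le_left _ _))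
  have h2 : ψ z - ψ w = ((ψ z - 2 * Real.pi * z) - (ψ w - 2 * Real.pi * w)) +
      ((2 * Real.pi : ℝ) : ℂ) * (z - w) := by push_cast; ring
  rw [h2]
  refine (norm_add_le _ _).trans ?_
  have h3 : ‖((2 * Real.pi : ℝ) : ℂ) * (z - w)‖ ≤ ε / 2 := by
    rw [norm_mul, Complex.norm_real, Real.norm_eq_abs, abs_of_pos (by positivity)]
    have := hzw.trans (min_le_right _ _)
    rw [le_div_iff₀ (by positivity)] at this
    linarith
  linarith

/-- real shifts of a set -/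
def Sh (K : Set (ℂ × ℂ)) : Set (ℂ × ℂ) :=
  (fun x : (ℂ × ℂ) × (ℝ × ℝ) => sh x.2 x.1) '' (K ×ˢ (Icc (-1 : ℝ) 1 ×ˢ Icc (-1 : ℝ) 1))

theorem isCompact_Sh {K : Set (ℂ × ℂ)} (hK : IsCompact K) : IsCompact (Sh K) := by
  refine (hK.prod (isCompact_Icc.prod isCompact_Icc)).image ?_
  unfold sh; fun_prop

theorem Sh_sub {K : Set (ℂ × ℂ)} {m : ℝ} (hK : K ⊆ Wg m) : Sh K ⊆ Wg m := by
  rintro _ ⟨x, ⟨hx, _⟩, rfl⟩
  have := hK hx
  simpa [Wg, sh] using this

theorem mem_Sh {K : Set (ℂ × ℂ)} {q : ℂ × ℂ} (hq : q ∈ K) {v : ℝ × ℝ} (h1 : |v.1| ≤ 1)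
    (h2 : |v.2| ≤ 1) : sh v q ∈ Sh K :=
  ⟨(q, v), ⟨hq, abs_le.1 h1, abs_le.1 h2⟩, rfl⟩

theorem z0_mem {m : ℝ} (hm : 0 ≤ m) : z0 ∈ Wg m := by
  refine ⟨?_, ?_⟩
  · simp [z0]
  · simp [z0]; linarith

theorem sh_zero (q : ℂ × ℂ) : sh (0, 0) q = q := by simp [sh]

theorem slow_move {h κ ε : ℝ} {ψ H : ℂ → ℂ} (hC : Curve h ψ H) (hκ : 0 < κ) (hε : 0 < ε) :
    ∃ ε₁ > 0, ∀ (K K' : Set (ℂ × ℂ)) (F P G : ℂ × ℂ → ℂ) (v : ℝ × ℝ), |v.1| ≤ 1 → |v.2| ≤ 1 →
      |(G z0).im| ≤ h - κ → SlowAt ε₁ (Sh (K ∪ {z0})) (Sh (K' ∪ {z0})) ψ F P G →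
      SlowAt ε K K' ψ (fun q => F (sh v q)) (fun q => P (sh v q)) (fun q => G (sh v q)) := by
  set η : ℝ := min (ε / 3) 1 with hη
  have hη0 : 0 < η := lt_min (by positivity) one_pos
  have hη1 : η ≤ 1 := min_le_right _ _
  have hηε : 3 * η ≤ ε := by have := min_le_left (ε / 3) 1; linarith
  obtain ⟨δ, hδ, hd⟩ := psi_unif hC (h' := h - κ / 2) (by linarith) (show 0 < η / 4 by positivity)
  refine ⟨min (min η δ) (κ / 2), lt_min (lt_min hη0 hδ) (half_pos hκ), ?_⟩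
  intro K K' F P G v hv1 hv2 hG hS
  set ε₁ := min (min η δ) (κ / 2) with hε₁
  have l1 : ε₁ ≤ η := (min_le_left _ _).trans (min_le_left _ _)
  have l2 : ε₁ ≤ δ := (min_le_left _ _).trans (min_le_right _ _)
  have l3 : ε₁ ≤ κ / 2 := min_le_right _ _
  have mz : sh v z0 ∈ Sh (K ∪ {z0}) := mem_Sh (Or.inr rfl) hv1 hv2
  have mz' : sh v z0 ∈ Sh (K' ∪ {z0}) := mem_Sh (Or.inr rfl) hv1 hv2
  have b1 := hS.2 _ mz'
  have b2 : ‖ψ (G z0) - ψ (G (sh v z0))‖ ≤ η / 4 := by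
    refine hd _ _ (by linarith) ?_ (by rw [norm_sub_rev]; exact b1.trans l2)
    have h1 : |(G (sh v z0)).im| ≤ |(G z0).im| + ‖G (sh v z0) - G z0‖ := by
      have h2 := Complex.abs_im_le_norm (G (sh v z0) - G z0)
      rw [Complex.sub_im] at h2
      have h3 := abs_sub_abs_le_abs_sub (G (sh v z0)).im (G z0).im
      linarith
    linarith
  have b3 : ‖cexp (2 * I * (ψ (G z0) - ψ (G (sh v z0)))) - 1‖ ≤ η := by
    have h1 : ‖2 * I * (ψ (G z0) - ψ (G (sh v z0)))‖ ≤ η / 2 := by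
      rw [norm_mul, norm_mul, Complex.norm_I]
      simp only [Complex.norm_ofNat, mul_one]
      linarith
    have h2 := Complex.norm_exp_sub_one_le (h1.trans (by linarith : η / 2 ≤ 1))
    linarith
  refine ⟨fun q hq => ⟨?_, ?_⟩, fun q hq => ?_⟩
  · have a1 := (hS.1 _ (mem_Sh (Or.inl hq) hv1 hv2)).1
    have e1 : cexp (2 * I * (F (sh v q) - ψ (G (sh v z0)))) =
        cexp (2 * I * (F (sh v q) - ψ (G z0))) * cexp (2 * I * (ψ (G z0) - ψ (G (sh v z0)))) := by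
      rw [← Complex.exp_add]; congr 1; ring
    have e2 : cexp (2 * I * (F (sh v q) - ψ (G z0))) * cexp (2 * I * (ψ (G z0) - ψ (G (sh v z0))))
        - 1 = (cexp (2 * I * (F (sh v q) - ψ (G z0))) - 1) *
          cexp (2 * I * (ψ (G z0) - ψ (G (sh v z0)))) +
          (cexp (2 * I * (ψ (G z0) - ψ (G (sh v z0)))) - 1) := by ring
    show ‖cexp (2 * I * (F (sh v q) - ψ (G (sh v z0)))) - 1‖ ≤ ε
    rw [e1, e2]
    refine (norm_add_le _ _).trans ?_
    rw [norm_mul]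
    have e3 : ‖cexp (2 * I * (ψ (G z0) - ψ (G (sh v z0))))‖ ≤ 2 := by
      have h4 := norm_add_le (cexp (2 * I * (ψ (G z0) - ψ (G (sh v z0)))) - 1) 1
      rw [sub_add_cancel, norm_one] at h4
      linarith
    have e4 : ‖cexp (2 * I * (F (sh v q) - ψ (G z0))) - 1‖ *
        ‖cexp (2 * I * (ψ (G z0) - ψ (G (sh v z0))))‖ ≤ η * 2 :=
      mul_le_mul (a1.trans l1) e3 (norm_nonneg _) hη0.le
    linarith
  · have a1 := (hS.1 _ (mem_Sh (Or.inl hq) hv1 hv2)).2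
    have a2 := (hS.1 _ mz).2
    have e1 : P (sh v q) - P (sh v z0) = (P (sh v q) - P z0) - (P (sh v z0) - P z0) := by ring
    show ‖P (sh v q) - P (sh v z0)‖ ≤ ε
    rw [e1]
    refine (norm_sub_le _ _).trans ?_
    linarith
  · have a1 := hS.2 _ (mem_Sh (Or.inl hq) hv1 hv2)
    have e1 : G (sh v q) - G (sh v z0) = (G (sh v q) - G z0) - (G (sh v z0) - G z0) := by ring
    show ‖G (sh v q) - G (sh v z0)‖ ≤ ε
    rw [e1]
    refine (norm_sub_le _ _).trans ?_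
    linarith

/-! ### the `ε`-`δ` form of the collapse -/

theorem exp_decay {k T : ℝ} (hk : 0 < k) : Real.exp (-(k * T)) * T ≤ 1 / k := by
  have h1 : k * T ≤ Real.exp (k * T) := by
    have := Real.add_one_le_exp (k * T); linarith
  rw [Real.exp_neg, le_div_iff₀ hk, mul_assoc, inv_mul_le_iff₀ (Real.exp_pos _)]
  linarith

theorem small_tendsto {s1 σ T : ℕ → ℝ} (hσ : ∀ n, 0 < σ n) (hs : ∀ n, 0 < s1 n)
    (hT : ∀ n, 0 < T n) (h : ∀ n, s1 n ≤ σ n * Real.exp (-((n : ℝ) * T n))) :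
    ∀ τ > 0, Tendsto (fun n => (s1 n / σ n) ^ (τ : ℝ) * T n) atTop (𝓝 0) := by
  intro τ hτ
  have h1 : Tendsto (fun n : ℕ => 1 / ((n : ℝ) * τ)) atTop (𝓝 0) := by
    have : Tendsto (fun n : ℕ => (n : ℝ) * τ) atTop atTop :=
      tendsto_natCast_atTop_atTop.atTop_mul_const hτ
    exact tendsto_const_nhds.div_atTop this
  refine squeeze_zero' (Eventually.of_forall fun n => ?_) ?_ h1
  · have := (div_pos (hs n) (hσ n)).le
    have := (hT n).le
    positivity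
  · filter_upwards [eventually_gt_atTop 0] with n hn
    have hn' : (0 : ℝ) < n := by exact_mod_cast hn
    have h2 : s1 n / σ n ≤ Real.exp (-((n : ℝ) * T n)) := by
      rw [div_le_iff₀ (hσ n)]; linarith [h n]
    have h3 : (s1 n / σ n) ^ (τ : ℝ) ≤ Real.exp (-((n : ℝ) * τ * T n)) := by
      calc (s1 n / σ n) ^ (τ : ℝ) ≤ (Real.exp (-((n : ℝ) * T n))) ^ (τ : ℝ) :=
            Real.rpow_le_rpow (div_pos (hs n) (hσ n)).le h2 hτ.le
        _ = Real.exp (-((n : ℝ) * τ * T n)) := by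
            rw [← Real.exp_mul]; congr 1; ring
    exact (mul_le_mul_of_nonneg_right h3 (hT n).le).trans (exp_decay (by positivity))

/-- **(UC)** uniform collapse, label form -/
theorem uc {u0 R d h : ℝ} {ψ H A : ℂ → ℂ} {φ p B : ℂ × ℂ → ℂ} {X L : Set (ℂ × ℂ)}
    (hED : ED u0 R d h ψ H A φ p B X L) {u s₀ a g κ κ₁ ε : ℝ} (hu : u ∈ Ioo (u0 - R) (u0 + R))
    (ha : 0 ≤ a) (hg : 0 < g) (hRig : Rigid u0 R d h ψ φ p B X L u s₀ a g) (hκ : 0 < κ)
    (hκ₁ : 0 < κ₁) (hε : 0 < ε) {K K' : Set (ℂ × ℂ)} (hK : K ⊆ Wg (a + g)) (hKc : IsCompact K)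
    (hK' : K' ⊆ Wg a) (hKc' : IsCompact K') :
    ∃ ρ₁ > 0, ∀ (ρ δ : ℝ) (U : Set ℝ), ρ ≤ ρ₁ → 0 < ρ → 0 < δ → IsClosed U → u ∈ U →
      (∀ u' ∈ U, ∀ s : ℝ, |s - s₀| < δ → E2 X L a g ρ δ (s, u')) →
      ∃ δ₁ > 0, ∀ x : ℝ, |x - s₀| < δ₁ → ∀ σ > 0, (∀ s ∈ Ioo 0 σ, Intr h κ ψ B (x, u) s) →
      ∃ s₂ > 0, ∀ s1 : ℝ, 0 < s1 → s1 ≤ s₂ → ∀ (p' : ℝ × ℝ) (s' : ℝ), 0 < s' → s' ≤ s1 →
        dist p' (x, u) ≤ s1 → infDist p'.2 U ≤ s' → (∀ t ∈ Icc s' s1, Intr h κ₁ ψ B p' t) →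
        SlowAt ε K K' ψ (fun q => φ (bl p' s' q)) (fun q => p (bl p' s' q))
          (fun q => B (bl p' s' q)) := by
  by_contra hcon
  push Not at hcon
  have hn : ∀ n : ℕ, (0 : ℝ) < 1 / ((n : ℝ) + 1) := fun n => by positivity
  choose ρ δ U hρ1 hρ hδ hU huU hE hcon using fun n : ℕ => hcon _ (hn n)
  choose x hx σ hσ hbal hcon using fun n : ℕ => hcon n (min (δ n / 4) (1 / ((n : ℝ) + 1)))
    (lt_min (by have := hδ n; linarith) (hn n))
  -- the distance of `u` to the boundary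
  set r₀ : ℝ := (R - |u - u0|) / 8 with hr₀
  have hr₀p : 0 < r₀ := by
    have : |u - u0| < R := abs_lt.2 ⟨by linarith [hu.1], by linarith [hu.2]⟩
    rw [hr₀]; linarith
  set σ' : ℕ → ℝ := fun n => min (min (σ n / 2) (δ n / 8)) (min (min (d / 8) r₀)
    (1 / ((n : ℝ) + 1))) with hσ'
  have hσ'p : ∀ n, 0 < σ' n := fun n => by
    have h1 := hσ n; have h2 := hδ n; have h3 := hED.d_pos
    simp only [hσ', lt_min_iff]
    exact ⟨⟨by linarith, by linarith⟩, ⟨by linarith, hr₀p⟩, hn n⟩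
  have q1 : ∀ n, σ' n ≤ σ n / 2 := fun n => (min_le_left _ _).trans (min_le_left _ _)
  have q2 : ∀ n, σ' n ≤ δ n / 8 := fun n => (min_le_left _ _).trans (min_le_right _ _)
  have q3 : ∀ n, σ' n ≤ d / 8 := fun n =>
    (min_le_right _ _).trans ((min_le_left _ _).trans (min_le_left _ _))
  have q4 : ∀ n, σ' n ≤ r₀ := fun n =>
    (min_le_right _ _).trans ((min_le_left _ _).trans (min_le_right _ _))
  have q5 : ∀ n, σ' n ≤ 1 / ((n : ℝ) + 1) := fun n => (min_le_right _ _).trans (min_le_right _ _)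
  have hinv : Tendsto (fun n : ℕ => 1 / ((n : ℝ) + 1)) atTop (𝓝 0) :=
    tendsto_one_div_add_atTop_nhds_zero_nat
  have hσt : Tendsto σ' atTop (𝓝 0) := squeeze_zero (fun n => (hσ'p n).le) q5 hinv
  have hρt : Tendsto ρ atTop (𝓝 0) := squeeze_zero (fun n => (hρ n).le) hρ1 hinv
  have hxt : Tendsto x atTop (𝓝 s₀) := by
    have : Tendsto (fun n => s₀ + (x n - s₀)) atTop (𝓝 (s₀ + 0)) :=
      tendsto_const_nhds.add (squeeze_zero_norm
        (fun n => ((hx n).trans_le (min_le_right _ _)).le) hinv)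
    simpa using this
  have hL0 : ∀ n, Half (x n, u) (4 * σ' n) (a + g) ⊆ L := fun n => by
    have hx1 : |x n - s₀| < δ n := (hx n).trans_le ((min_le_left _ _).trans
      (by have := hδ n; linarith))
    refine Subset.trans ?_ (hE n u (huU n) (x n) hx1).line
    rintro q ⟨a1, a2, a3, a4, a5⟩
    have := q2 n; have := hδ n
    exact ⟨by linarith, by linarith, by linarith, a4, a5⟩
  have hc : ∀ n : ℕ, (0 : ℝ) < 1 / ((n : ℝ) + 8) := fun n => by positivity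
  choose T hT1 hT using fun n => exists_T (m := a + g) hED.φ_diff hED.p_diff (hσ'p n) (hc n)
    (hL0 n)
  have hTp : ∀ n, 0 < T n := fun n => lt_of_lt_of_le one_pos (hT1 n)
  -- the root scale
  choose s1 hs1p hs1 p' s' hs' hs's1 hp' hinf hcol hbad using fun n =>
    hcon n (σ' n * Real.exp (-((n : ℝ) * T n)) / 2) (by have := hσ'p n; positivity)
  have hs1σ : ∀ n, 2 * s1 n ≤ σ' n := fun n => by
    have h1 := hs1 n
    have h2 : Real.exp (-((n : ℝ) * T n)) ≤ 1 := Real.exp_le_one_iff.2 (by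
      have := (hTp n).le; have : (0 : ℝ) ≤ n := Nat.cast_nonneg n
      nlinarith [mul_nonneg this (hTp n).le])
    nlinarith [hσ'p n, mul_le_mul_of_nonneg_left h2 (hσ'p n).le]
  have hsm := small_tendsto (s1 := s1) (σ := σ') (T := T) hσ'p hs1p hTp (fun n => by
    have h1 := hs1 n
    have h2 : 0 < σ' n * Real.exp (-((n : ℝ) * T n)) := by have := hσ'p n; positivity
    linarith)
  have hU' : ∀ n, ∃ u'' ∈ U n, infDist (p' n).2 (U n) = dist (p' n).2 u'' := fun n =>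
    (hU n).exists_infDist_eq_dist ⟨u, huU n⟩ _
  choose u'' hu''U hu'' using hU'
  have hd2 : ∀ n, |u'' n - (p' n).2| ≤ s' n := fun n => by
    have := hinf n
    rw [hu'' n, dist_comm, Real.dist_eq] at this
    exact this
  have hpd : ∀ n, |(p' n).1 - x n| ≤ s1 n ∧ |(p' n).2 - u| ≤ s1 n := fun n => by
    have := hp' n
    rw [Prod.dist_eq, max_le_iff, Real.dist_eq, Real.dist_eq] at this
    exact this
  have hE' : ∀ n, E2 X L a g (ρ n) (δ n) ((p' n).1, u'' n) := fun n => by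
    refine hE n _ (hu''U n) _ ?_
    have h1 := (hx n).trans_le (min_le_left _ _)
    have h2 := (hpd n).1
    have h3 := hs1σ n; have h4 := q2 n; have h5 := hs1p n
    have h6 : |(p' n).1 - s₀| ≤ |(p' n).1 - x n| + |x n - s₀| := abs_sub_le _ _ _
    have := hδ n
    linarith
  have hL : ∀ n, Half ((p' n).1, u'' n) (4 * σ' n) (a + g) ⊆ L := fun n => by
    refine Subset.trans ?_ (hE' n).line
    rintro q ⟨a1, a2, a3, a4, a5⟩
    have := q2 n; have := hδ n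
    exact ⟨by linarith, by linarith, by linarith, a4, a5⟩
  obtain ⟨κ', hκ', hC⟩ := cols_of (s₀ := s₀) hED hκ hκ₁ ha hg hxt hσt
    (fun n => by have := q3 n; linarith) (fun n => by have := q4 n; rw [hr₀] at this; linarith)
    (fun n t ht => hbal n t ⟨ht.1, lt_of_le_of_lt ht.2 (by have := q1 n; have := hσ n; linarith)⟩)
    hs' hs's1 hs1σ (fun n => (hpd n).1) (fun n => (hpd n).2) hd2 (fun n => by
      simpa using hcol n) hL0 hL (T := T) (fun c hc0 => by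
        have h1 : ∀ᶠ n : ℕ in atTop, 1 / ((n : ℝ) + 8) ≤ c := by
          have h2 : Tendsto (fun n : ℕ => 1 / ((n : ℝ) + 8)) atTop (𝓝 0) := by
            have : Tendsto (fun n : ℕ => (n : ℝ) + 8) atTop atTop :=
              tendsto_atTop_add_const_right _ _ tendsto_natCast_atTop_atTop
            exact tendsto_const_nhds.div_atTop this
          exact (h2.eventually (gt_mem_nhds hc0)).mono fun n hn => hn.le
        filter_upwards [h1] with n hn q hq
        exact hT n q (K2_anti (hc n).le hn hq)) hsm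
  obtain ⟨ε₁, hε₁, hmove⟩ := slow_move hED.curve hκ' hε
  have hs1t : Tendsto s1 atTop (𝓝 0) :=
    squeeze_zero (fun n => (hs1p n).le) (fun n => by have := hs1σ n; have := hs1p n; linarith) hσt
  have hst : Tendsto s' atTop (𝓝 0) := squeeze_zero (fun n => (hs' n).le) hs's1 hs1t
  have hsσ : Tendsto (fun n => s' n / σ' n) atTop (𝓝 0) := by
    have h1 := hsm 1 one_pos
    simp only [Real.rpow_one] at h1
    refine squeeze_zero (fun n => (div_pos (hs' n) (hσ'p n)).le) (fun n => ?_) h1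
    have h2 : s' n / σ' n ≤ s1 n / σ' n := div_le_div_of_nonneg_right (hs's1 n) (hσ'p n).le
    have h3 : 0 < s1 n / σ' n := div_pos (hs1p n) (hσ'p n)
    nlinarith [hT1 n]
  have hfin := hRig κ' _ s' σ' ρ δ hκ' hC hsσ hst hρ hρt (fun n => by
    have := q2 n; have := hδ n; linarith) hE' ε₁ hε₁ (Sh (K ∪ {z0}))
    (Sh_sub (union_subset hK (singleton_subset_iff.2 (z0_mem (by linarith)))))
    (isCompact_Sh (hKc.union isCompact_singleton)) (Sh (K' ∪ {z0}))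
    (Sh_sub (union_subset hK' (singleton_subset_iff.2 (z0_mem ha))))
    (isCompact_Sh (hKc'.union isCompact_singleton))
  obtain ⟨n, hn⟩ := hfin.exists
  refine hbad n ?_
  have hv2 : |((p' n).2 - u'' n) / s' n| ≤ 1 := by
    rw [abs_div, abs_of_pos (hs' n), div_le_one (hs' n), abs_sub_comm]
    exact hd2 n
  have h3 := hmove K K' _ _ _ (0, ((p' n).2 - u'' n) / s' n) (by simp) hv2
    (hC.col n (s' n) ⟨le_rfl, (hs's1 n).trans (by have := hs1σ n; have := hs1p n; linarith)⟩).1 hn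
  have e1 : ∀ q, bl ((p' n).1, u'' n) (s' n) (sh (0, ((p' n).2 - u'' n) / s' n) q) =
      bl (p' n) (s' n) q := fun q => by
    rw [bl_sh (e := ((p' n).1, u'' n)) (e' := p' n) (hs' n).ne' q]
    simp
  simpa only [e1] using h3

end Crest.Agent.R102.Coll841
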