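import Crest.Agent.R102.KolWin_953
import Crest.Agent.R102.Step5Defs_613

/-!
Row 102, T1-B, EDGE, SIDE (i) (helper426): Harnack and Schwarz-Pick on a product of half discs.

`PB e ρ` = product of the lower half disc (in `T`) and the upper half disc (in `w`) at `e`.
For `g` holomorphic on `PB e ρ` with `0 ≤ Re g`, the values of `Re g` at two points of relative
depths `≥ d` are comparable up to a power of `d`; for `B` with `|Im B| < h` the distance of two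
values is `O(log 1/d)`. Everything is explicit and uniform in `e`, in the scale and in `ρ`.
-/

set_option autoImplicit false

open Set Filter Topology Metric Complex

noncomputable section

namespace Crest.Agent.R102.Side426

open Crest.Agent.R102.Kol953 (Dm isOpen_Dm harnack vert horiz norm_deriv_le)
open Crest.Agent.R102.S5 (ray bl)

/-- product of half discs at `e` -/
def PB (e : ℝ × ℝ) (ρ : ℝ) : Set (ℂ × ℂ) :=
  {q | ‖q.1 - (e.1 : ℂ)‖ < ρ ∧ ‖q.2 - (e.2 : ℂ)‖ < ρ ∧ q.1.im < 0 ∧ 0 < q.2.im}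

/-- the box of the one variable lemmas -/
def Bx (M : ℝ) : Set ℂ := Dm (-(3 * M)) (3 * M) 0 (4 * M)

/-- the lower point at depth `y` over `x` -/
def pt (x y : ℝ) : ℂ := (x : ℂ) + ((0 - y : ℝ) : ℂ) * I

lemma pt_re (x y : ℝ) : (pt x y).re = x := by simp [pt]
lemma pt_im (x y : ℝ) : (pt x y).im = -y := by simp [pt]

lemma pt_self (z : ℂ) : pt z.re (-z.im) = z := by
  apply Complex.ext <;> simp [pt]

lemma mem_Bx {M : ℝ} {z : ℂ} : z ∈ Bx M ↔ |z.re| < 3 * M ∧ -(4 * M) < z.im ∧ z.im < 0 := by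
  unfold Bx Dm
  simp only [mem_ofPred_eq, mem_Ioo, abs_lt]
  constructor
  · rintro ⟨⟨h1, h2⟩, h3, h4⟩
    exact ⟨⟨h1, h2⟩, by linarith, h4⟩
  · rintro ⟨⟨h1, h2⟩, h3, h4⟩
    exact ⟨⟨h1, h2⟩, by linarith, h4⟩

lemma norm_of_mem_Bx {M : ℝ} {z : ℂ} (hz : z ∈ Bx M) : ‖z‖ < 5 * M := by
  obtain ⟨h1, h2, h3⟩ := mem_Bx.1 hz
  have hM : 0 < M := by
    have := abs_nonneg z.re
    linarith
  have h4 : |z.im| < 4 * M := by rw [abs_lt]; constructor <;> linarith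
  rw [← abs_of_nonneg (norm_nonneg z), ← abs_of_pos (show (0 : ℝ) < 5 * M by positivity),
    ← sq_lt_sq, Complex.sq_norm, Complex.normSq_apply]
  have e1 : z.re * z.re = |z.re| ^ 2 := by rw [sq_abs]; ring
  have e2 : z.im * z.im = |z.im| ^ 2 := by rw [sq_abs]; ring
  rw [e1, e2]
  have := abs_nonneg z.re
  have := abs_nonneg z.im
  nlinarith

/-- **one variable Harnack**: a point `x - i y`, `|x| ≤ M`, `0 < y ≤ M`, against `- 2 M i` -/
theorem harn1 {g : ℂ → ℂ} {M x y : ℝ} (hg : DifferentiableOn ℂ g (Bx M))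
    (hre : ∀ z ∈ Bx M, 0 ≤ (g z).re) (hx : |x| ≤ M) (hy : 0 < y) (hyM : y ≤ M) :
    y / (64 * M) * (g (pt 0 (2 * M))).re ≤ (g (pt x y)).re ∧
      y / (64 * M) * (g (pt x y)).re ≤ (g (pt 0 (2 * M))).re := by
  have hM : 0 < M := lt_of_lt_of_le hy hyM
  set c : ℂ := pt x (2 * M) with hc
  set R : ℝ := 2 * M - y / 2 with hR
  have hR0 : 0 < R := by rw [hR]; linarith
  have hsub : closedBall c R ⊆ Bx M := by
    intro z hz
    rw [mem_closedBall, dist_eq_norm] at hz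
    have e1 := (Complex.abs_re_le_norm _).trans hz
    have e2 := (Complex.abs_im_le_norm _).trans hz
    rw [sub_re, hc, pt_re] at e1
    rw [sub_im, hc, pt_im] at e2
    rw [abs_le] at e1 e2 hx
    rw [mem_Bx, abs_lt]
    refine ⟨⟨?_, ?_⟩, ?_, ?_⟩ <;> linarith [e1.1, e1.2, e2.1, e2.2, hx.1, hx.2]
  have hdc : DiffContOnCl ℂ g (ball c R) := by
    refine ⟨hg.mono (ball_subset_closedBall.trans hsub), ?_⟩
    rw [closure_ball c hR0.ne']
    exact hg.continuousOn.mono hsub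
  have hpos : ∀ z ∈ sphere c R, 0 ≤ (g z).re := fun z hz => hre z (hsub (sphere_subset_closedBall hz))
  have n1 : ‖pt x y - c‖ = 2 * M - y := by
    have : pt x y - c = ((2 * M - y : ℝ) : ℂ) * I := by
      rw [hc]; unfold pt; push_cast; ring
    rw [this, norm_mul, norm_I, mul_one, Complex.norm_real, Real.norm_of_nonneg (by linarith)]
  have n2 : ‖pt 0 (2 * M) - c‖ = |x| := by
    have : pt 0 (2 * M) - c = ((-x : ℝ) : ℂ) := by
      rw [hc]; unfold pt; push_cast; ring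
    rw [this, Complex.norm_real, Real.norm_eq_abs, abs_neg]
  have m1 : pt x y ∈ ball c R := by
    rw [mem_ball, dist_eq_norm, n1, hR]; linarith
  have m2 : pt 0 (2 * M) ∈ ball c R := by
    rw [mem_ball, dist_eq_norm, n2, hR]; linarith
  have h1 := harnack hR0 hdc hpos m1 m2
  have h2 := harnack hR0 hdc hpos m2 m1
  rw [n1, n2] at h1 h2
  have hax := abs_nonneg x
  have k1 : y / (64 * M) ≤ (R - (2 * M - y)) * (R - |x|) / (4 * R ^ 2) := by
    have e1 : R - (2 * M - y) = y / 2 := by rw [hR]; ring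
    have e2 : M / 2 ≤ R - |x| := by rw [hR]; linarith
    have e3 : R ^ 2 ≤ 4 * M ^ 2 := by
      have : R ≤ 2 * M := by rw [hR]; linarith
      nlinarith
    rw [e1, div_le_div_iff₀ (by positivity) (by positivity)]
    calc y * (4 * R ^ 2) ≤ y * (4 * (4 * M ^ 2)) := by gcongr
      _ = y / 2 * (M / 2) * (64 * M) := by ring
      _ ≤ y / 2 * (R - |x|) * (64 * M) := by gcongr
  have k2 : y / (64 * M) ≤ (R - |x|) * (R - (2 * M - y)) / (4 * R ^ 2) := by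
    rw [mul_comm (R - |x|)]; exact k1
  have p1 : 0 ≤ (g (pt 0 (2 * M))).re := hre _ (hsub (ball_subset_closedBall m2))
  have p2 : 0 ≤ (g (pt x y)).re := hre _ (hsub (ball_subset_closedBall m1))
  exact ⟨(mul_le_mul_of_nonneg_right k1 p1).trans h1,
    (mul_le_mul_of_nonneg_right k2 p2).trans h2⟩

/-- **one variable distance** -/
theorem dist1 {β : ℂ → ℂ} {M x y h : ℝ} (hh : 0 < h) (hβ : DifferentiableOn ℂ β (Bx M))
    (hb : ∀ z ∈ Bx M, |(β z).im| < h) (hx : |x| ≤ M) (hy : 0 < y) (hyM : y ≤ M) :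
    ‖β (pt x y) - β (pt 0 (2 * M))‖ ≤ 16 * h * (Real.log (2 * M) - Real.log y) + 8 * h := by
  have hM : 0 < M := lt_of_lt_of_le hy hyM
  have hx' := abs_le.1 hx
  have v := vert (a := -(3 * M)) (b := 3 * M) (U := 0) (r1 := 4 * M) (x := x) (d := y)
    (L := 2 * M) hh hβ hb hy (by linarith) (by linarith [hx'.1]) (by linarith [hx'.2])
    (by linarith)
  have hz : ‖β (pt x (2 * M)) - β (pt 0 (2 * M))‖ ≤ 8 * h := by
    rcases le_total 0 x with h0 | h0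
    · have := horiz (a := -(3 * M)) (b := 3 * M) (U := 0) (r1 := 4 * M) (x1 := 0) (x2 := x)
        (L := 2 * M) hh hβ hb (by linarith) h0 (by linarith) (by linarith [hx'.2]) (by linarith)
      refine this.trans ?_
      rw [sub_zero, div_mul_eq_mul_div, div_le_iff₀ (by positivity)]
      nlinarith [hx'.2]
    · have := horiz (a := -(3 * M)) (b := 3 * M) (U := 0) (r1 := 4 * M) (x1 := x) (x2 := 0)
        (L := 2 * M) hh hβ hb (by linarith) h0 (by linarith [hx'.1]) (by linarith) (by linarith)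
      rw [norm_sub_rev]
      refine this.trans ?_
      rw [div_mul_eq_mul_div, div_le_iff₀ (by positivity)]
      nlinarith [hx'.1]
  have v' : ‖β (pt x y) - β (pt x (2 * M))‖ ≤ 16 * h * (Real.log (2 * M) - Real.log y) := by
    rw [norm_sub_rev]; exact v
  calc ‖β (pt x y) - β (pt 0 (2 * M))‖
      ≤ ‖β (pt x y) - β (pt x (2 * M))‖ + ‖β (pt x (2 * M)) - β (pt 0 (2 * M))‖ :=
        norm_sub_le_norm_sub_add_norm_sub _ _ _
    _ ≤ _ := add_le_add v' hz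

section Two

variable {e : ℝ × ℝ} {ρ M : ℝ}

/-- the central point -/
def cen (e : ℝ × ℝ) (M : ℝ) : ℂ × ℂ := ((e.1 : ℂ) + pt 0 (2 * M), (e.2 : ℂ) - pt 0 (2 * M))

lemma mem_PB_T {ζ : ℂ} (h5 : 5 * M ≤ ρ) (h1 : ‖ζ - (e.2 : ℂ)‖ < ρ) (h2 : 0 < ζ.im) {z : ℂ}
    (hz : z ∈ Bx M) : ((e.1 : ℂ) + z, ζ) ∈ PB e ρ := by
  refine ⟨?_, h1, ?_, h2⟩
  · simpa using (norm_of_mem_Bx hz).trans_le h5
  · simpa using (mem_Bx.1 hz).2.2

lemma mem_PB_w {t : ℂ} (h5 : 5 * M ≤ ρ) (h1 : ‖t - (e.1 : ℂ)‖ < ρ) (h2 : t.im < 0) {z : ℂ}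
    (hz : z ∈ Bx M) : (t, (e.2 : ℂ) - z) ∈ PB e ρ := by
  refine ⟨h1, ?_, h2, ?_⟩
  · have : (e.2 : ℂ) - z - e.2 = -z := by ring
    rw [this, norm_neg]
    exact (norm_of_mem_Bx hz).trans_le h5
  · simpa using (mem_Bx.1 hz).2.2

lemma diff_T {g : ℂ × ℂ → ℂ} (hg : DifferentiableOn ℂ g (PB e ρ)) {ζ : ℂ} (h5 : 5 * M ≤ ρ)
    (h1 : ‖ζ - (e.2 : ℂ)‖ < ρ) (h2 : 0 < ζ.im) :
    DifferentiableOn ℂ (fun z => g ((e.1 : ℂ) + z, ζ)) (Bx M) :=
  hg.comp (f := fun z : ℂ => ((e.1 : ℂ) + z, ζ)) (by fun_prop) fun z hz => mem_PB_T h5 h1 h2 hz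

lemma diff_w {g : ℂ × ℂ → ℂ} (hg : DifferentiableOn ℂ g (PB e ρ)) {t : ℂ} (h5 : 5 * M ≤ ρ)
    (h1 : ‖t - (e.1 : ℂ)‖ < ρ) (h2 : t.im < 0) :
    DifferentiableOn ℂ (fun z => g (t, (e.2 : ℂ) - z)) (Bx M) :=
  hg.comp (f := fun z : ℂ => (t, (e.2 : ℂ) - z)) (by fun_prop) fun z hz => mem_PB_w h5 h1 h2 hz

/-- coordinates of a point of the box -/
lemma coord {q : ℂ × ℂ} (h1 : ‖q.1 - (e.1 : ℂ)‖ ≤ M) (h2 : ‖q.2 - (e.2 : ℂ)‖ ≤ M)
    (h3 : q.1.im < 0) (h4 : 0 < q.2.im) :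
    (e.1 : ℂ) + pt (q.1.re - e.1) (-q.1.im) = q.1 ∧ |q.1.re - e.1| ≤ M ∧ -q.1.im ≤ M ∧
      (e.2 : ℂ) - pt (e.2 - q.2.re) q.2.im = q.2 ∧ |e.2 - q.2.re| ≤ M ∧ q.2.im ≤ M := by
  have e1 := (Complex.abs_re_le_norm _).trans h1
  have e2 := (Complex.abs_im_le_norm _).trans h1
  have e3 := (Complex.abs_re_le_norm _).trans h2
  have e4 := (Complex.abs_im_le_norm _).trans h2
  simp only [sub_re, ofReal_re, sub_im, ofReal_im, sub_zero] at e1 e2 e3 e4
  refine ⟨?_, e1, ?_, ?_, ?_, ?_⟩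
  · apply Complex.ext <;> simp [pt]
  · rwa [abs_of_neg h3] at e2
  · apply Complex.ext <;> simp [pt]
  · rwa [abs_sub_comm]
  · rwa [abs_of_pos h4] at e4

/-- **Harnack on the product**, against the central point -/
theorem harn2 {g : ℂ × ℂ → ℂ} (hg : DifferentiableOn ℂ g (PB e ρ))
    (hre : ∀ q ∈ PB e ρ, 0 ≤ (g q).re) (h5 : 5 * M ≤ ρ) {q : ℂ × ℂ}
    (h1 : ‖q.1 - (e.1 : ℂ)‖ ≤ M) (h2 : ‖q.2 - (e.2 : ℂ)‖ ≤ M) (h3 : q.1.im < 0)
    (h4 : 0 < q.2.im) :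
    -q.1.im / (64 * M) * (q.2.im / (64 * M)) * (g (cen e M)).re ≤ (g q).re ∧
      -q.1.im / (64 * M) * (q.2.im / (64 * M)) * (g q).re ≤ (g (cen e M)).re := by
  obtain ⟨c1, c2, c3, c4, c5, c6⟩ := coord h1 h2 h3 h4
  have hM : 0 < M := lt_of_lt_of_le h4 c6
  have b2 : ‖q.2 - (e.2 : ℂ)‖ < ρ := by linarith
  -- first variable
  have A := harn1 (g := fun z => g ((e.1 : ℂ) + z, q.2)) (M := M) (x := q.1.re - e.1)
    (y := -q.1.im) (diff_T hg h5 b2 h4) (fun z hz => hre _ (mem_PB_T h5 b2 h4 hz)) c2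
    (by linarith) c3
  simp only [c1] at A
  -- second variable
  have m0 : pt 0 (2 * M) ∈ Bx M := by
    rw [mem_Bx, pt_re, pt_im, abs_zero]
    refine ⟨by linarith, by linarith, by linarith⟩
  have b3 : ‖(e.1 : ℂ) + pt 0 (2 * M) - e.1‖ < ρ := by
    simpa using (norm_of_mem_Bx m0).trans_le h5
  have b4 : ((e.1 : ℂ) + pt 0 (2 * M)).im < 0 := by simpa using (mem_Bx.1 m0).2.2
  have C := harn1 (g := fun z => g ((e.1 : ℂ) + pt 0 (2 * M), (e.2 : ℂ) - z)) (M := M)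
    (x := e.2 - q.2.re) (y := q.2.im) (diff_w hg h5 b3 b4)
    (fun z hz => hre _ (mem_PB_w h5 b3 b4 hz)) c5 h4 c6
  simp only [c4] at C
  have y1 : 0 ≤ -q.1.im / (64 * M) := div_nonneg (by linarith) (by positivity)
  have y2 : 0 ≤ q.2.im / (64 * M) := div_nonneg h4.le (by positivity)
  refine ⟨?_, ?_⟩
  · calc -q.1.im / (64 * M) * (q.2.im / (64 * M)) * (g (cen e M)).re
        = -q.1.im / (64 * M) * (q.2.im / (64 * M) * (g (cen e M)).re) := by ring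
      _ ≤ -q.1.im / (64 * M) * (g ((e.1 : ℂ) + pt 0 (2 * M), q.2)).re :=
          mul_le_mul_of_nonneg_left C.1 y1
      _ ≤ (g (q.1, q.2)).re := A.1
  · calc -q.1.im / (64 * M) * (q.2.im / (64 * M)) * (g q).re
        = q.2.im / (64 * M) * (-q.1.im / (64 * M) * (g (q.1, q.2)).re) := by
          rw [show g (q.1, q.2) = g q from rfl]; ring
      _ ≤ q.2.im / (64 * M) * (g ((e.1 : ℂ) + pt 0 (2 * M), q.2)).re :=
          mul_le_mul_of_nonneg_left A.2 y2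
      _ ≤ (g (cen e M)).re := C.2

/-- **distance on the product**, against the central point -/
theorem dist2 {B : ℂ × ℂ → ℂ} {h : ℝ} (hh : 0 < h) (hB : DifferentiableOn ℂ B (PB e ρ))
    (hb : ∀ q ∈ PB e ρ, |(B q).im| < h) (h5 : 5 * M ≤ ρ) {q : ℂ × ℂ}
    (h1 : ‖q.1 - (e.1 : ℂ)‖ ≤ M) (h2 : ‖q.2 - (e.2 : ℂ)‖ ≤ M) (h3 : q.1.im < 0)
    (h4 : 0 < q.2.im) :
    ‖B q - B (cen e M)‖ ≤ 16 * h * (Real.log (2 * M) - Real.log (-q.1.im)) +
      16 * h * (Real.log (2 * M) - Real.log q.2.im) + 16 * h := by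
  obtain ⟨c1, c2, c3, c4, c5, c6⟩ := coord h1 h2 h3 h4
  have hM : 0 < M := lt_of_lt_of_le h4 c6
  have b2 : ‖q.2 - (e.2 : ℂ)‖ < ρ := by linarith
  have A := dist1 (β := fun z => B ((e.1 : ℂ) + z, q.2)) (M := M) (x := q.1.re - e.1)
    (y := -q.1.im) hh (diff_T hB h5 b2 h4) (fun z hz => hb _ (mem_PB_T h5 b2 h4 hz)) c2
    (by linarith) c3
  simp only [c1] at A
  have m0 : pt 0 (2 * M) ∈ Bx M := by
    rw [mem_Bx, pt_re, pt_im, abs_zero]
    refine ⟨by linarith, by linarith, by linarith⟩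
  have b3 : ‖(e.1 : ℂ) + pt 0 (2 * M) - e.1‖ < ρ := by
    simpa using (norm_of_mem_Bx m0).trans_le h5
  have b4 : ((e.1 : ℂ) + pt 0 (2 * M)).im < 0 := by simpa using (mem_Bx.1 m0).2.2
  have C := dist1 (β := fun z => B ((e.1 : ℂ) + pt 0 (2 * M), (e.2 : ℂ) - z)) (M := M)
    (x := e.2 - q.2.re) (y := q.2.im) hh (diff_w hB h5 b3 b4)
    (fun z hz => hb _ (mem_PB_w h5 b3 b4 hz)) c5 h4 c6
  simp only [c4] at C
  calc ‖B q - B (cen e M)‖
      ≤ ‖B (q.1, q.2) - B ((e.1 : ℂ) + pt 0 (2 * M), q.2)‖ +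
        ‖B ((e.1 : ℂ) + pt 0 (2 * M), q.2) - B (cen e M)‖ :=
        norm_sub_le_norm_sub_add_norm_sub _ _ _
    _ ≤ _ := by
        have := add_le_add A C
        refine this.trans (le_of_eq ?_)
        ring

/-- **two points of the product**: positive real part -/
theorem pos_depth {g : ℂ × ℂ → ℂ} (hg : DifferentiableOn ℂ g (PB e ρ))
    (hre : ∀ q ∈ PB e ρ, 0 ≤ (g q).re) (h5 : 5 * M ≤ ρ) {q q' : ℂ × ℂ}
    (h1 : ‖q.1 - (e.1 : ℂ)‖ ≤ M) (h2 : ‖q.2 - (e.2 : ℂ)‖ ≤ M) (h3 : q.1.im < 0)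
    (h4 : 0 < q.2.im) (h1' : ‖q'.1 - (e.1 : ℂ)‖ ≤ M) (h2' : ‖q'.2 - (e.2 : ℂ)‖ ≤ M)
    (h3' : q'.1.im < 0) (h4' : 0 < q'.2.im) :
    (-q.1.im / (64 * M) * (q.2.im / (64 * M))) *
      (-q'.1.im / (64 * M) * (q'.2.im / (64 * M))) * (g q').re ≤ (g q).re := by
  have hM : 0 < M := lt_of_lt_of_le h4 (coord h1 h2 h3 h4).2.2.2.2.2
  have A := (harn2 hg hre h5 h1 h2 h3 h4).1
  have C := (harn2 hg hre h5 h1' h2' h3' h4').2
  have y1 : 0 ≤ -q.1.im / (64 * M) * (q.2.im / (64 * M)) :=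
    mul_nonneg (div_nonneg (by linarith) (by positivity)) (div_nonneg h4.le (by positivity))
  calc _ = (-q.1.im / (64 * M) * (q.2.im / (64 * M))) *
        (-q'.1.im / (64 * M) * (q'.2.im / (64 * M)) * (g q').re) := by ring
    _ ≤ (-q.1.im / (64 * M) * (q.2.im / (64 * M))) * (g (cen e M)).re :=
        mul_le_mul_of_nonneg_left C y1
    _ ≤ _ := A

/-- **two points of the product**: label depth -/
theorem two_depth {B : ℂ × ℂ → ℂ} {h : ℝ} (hB : DifferentiableOn ℂ B (PB e ρ))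
    (hb : ∀ q ∈ PB e ρ, |(B q).im| ≤ h) (h5 : 5 * M ≤ ρ) {q q' : ℂ × ℂ}
    (h1 : ‖q.1 - (e.1 : ℂ)‖ ≤ M) (h2 : ‖q.2 - (e.2 : ℂ)‖ ≤ M) (h3 : q.1.im < 0)
    (h4 : 0 < q.2.im) (h1' : ‖q'.1 - (e.1 : ℂ)‖ ≤ M) (h2' : ‖q'.2 - (e.2 : ℂ)‖ ≤ M)
    (h3' : q'.1.im < 0) (h4' : 0 < q'.2.im) :
    (-q.1.im / (64 * M) * (q.2.im / (64 * M))) *
      (-q'.1.im / (64 * M) * (q'.2.im / (64 * M))) * (h - |(B q').im|) ≤ h - |(B q).im| := by
  have hM : 0 < M := lt_of_lt_of_le h4 (coord h1 h2 h3 h4).2.2.2.2.2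
  have y1 : 0 ≤ (-q.1.im / (64 * M) * (q.2.im / (64 * M))) *
      (-q'.1.im / (64 * M) * (q'.2.im / (64 * M))) :=
    mul_nonneg
      (mul_nonneg (div_nonneg (by linarith) (by positivity)) (div_nonneg h4.le (by positivity)))
      (mul_nonneg (div_nonneg (by linarith) (by positivity)) (div_nonneg h4'.le (by positivity)))
  have r1 : ∀ x : ℂ × ℂ, (((h : ℂ) + I * B x)).re = h - (B x).im := by
    intro x; simp; ring
  have r2 : ∀ x : ℂ × ℂ, (((h : ℂ) - I * B x)).re = h + (B x).im := by intro x; simp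
  have A := pos_depth (g := fun x => (h : ℂ) + I * B x) (by fun_prop)
    (fun x hx => by rw [r1]; linarith [(abs_le.1 (hb x hx)).2]) h5 h1 h2 h3 h4 h1' h2' h3' h4'
  have C := pos_depth (g := fun x => (h : ℂ) - I * B x) (by fun_prop)
    (fun x hx => by rw [r2]; linarith [(abs_le.1 (hb x hx)).1]) h5 h1 h2 h3 h4 h1' h2' h3' h4'
  simp only [r1] at A
  simp only [r2] at C
  have a1 : h - |(B q').im| ≤ h - (B q').im := by linarith [le_abs_self (B q').im]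
  have a2 : h - |(B q').im| ≤ h + (B q').im := by linarith [neg_abs_le (B q').im]
  rcases abs_cases (B q).im with ⟨e1, -⟩ | ⟨e1, -⟩
  · rw [e1]
    exact (mul_le_mul_of_nonneg_left a1 y1).trans A
  · rw [e1]
    have := (mul_le_mul_of_nonneg_left a2 y1).trans C
    linarith

/-- **two points of the product**: label distance -/
theorem two_dist {B : ℂ × ℂ → ℂ} {h : ℝ} (hh : 0 < h) (hB : DifferentiableOn ℂ B (PB e ρ))
    (hb : ∀ q ∈ PB e ρ, |(B q).im| < h) (h5 : 5 * M ≤ ρ) {q q' : ℂ × ℂ}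
    (h1 : ‖q.1 - (e.1 : ℂ)‖ ≤ M) (h2 : ‖q.2 - (e.2 : ℂ)‖ ≤ M) (h3 : q.1.im < 0)
    (h4 : 0 < q.2.im) (h1' : ‖q'.1 - (e.1 : ℂ)‖ ≤ M) (h2' : ‖q'.2 - (e.2 : ℂ)‖ ≤ M)
    (h3' : q'.1.im < 0) (h4' : 0 < q'.2.im) :
    ‖B q - B q'‖ ≤ 16 * h * ((Real.log (2 * M) - Real.log (-q.1.im)) +
      (Real.log (2 * M) - Real.log q.2.im) + (Real.log (2 * M) - Real.log (-q'.1.im)) +
      (Real.log (2 * M) - Real.log q'.2.im) + 2) := by
  have A := dist2 hh hB hb h5 h1 h2 h3 h4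
  have C := dist2 hh hB hb h5 h1' h2' h3' h4'
  rw [norm_sub_rev] at C
  calc ‖B q - B q'‖ ≤ ‖B q - B (cen e M)‖ + ‖B (cen e M) - B q'‖ :=
        norm_sub_le_norm_sub_add_norm_sub _ _ _
    _ ≤ _ := by
        refine (add_le_add A C).trans (le_of_eq ?_)
        ring

end Two

/-! ### against the ray point -/

lemma ray_fst (e : ℝ × ℝ) (s : ℝ) : (ray e s).1 - (e.1 : ℂ) = ((-s : ℝ) : ℂ) * I := by
  unfold ray bl; push_cast; ring

lemma ray_snd (e : ℝ × ℝ) (s : ℝ) : (ray e s).2 - (e.2 : ℂ) = ((s / 4 : ℝ) : ℂ) * I := by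
  unfold ray bl; push_cast; ring

lemma ray_fst_im (e : ℝ × ℝ) (s : ℝ) : (ray e s).1.im = -s := by
  have := congrArg Complex.im (ray_fst e s)
  simpa using this

lemma ray_snd_im (e : ℝ × ℝ) (s : ℝ) : (ray e s).2.im = s / 4 := by
  have := congrArg Complex.im (ray_snd e s)
  simpa using this

/-- the constant of `side_depth` -/
def KA (A : ℝ) : ℝ := 4 * (64 * A) ^ 4

/-- the constant of `side_dist` -/
def LA (A : ℝ) : ℝ := 64 * (1 + Real.log (8 * A))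

lemma KA_pos {A : ℝ} (hA : 1 ≤ A) : 0 < KA A := by unfold KA; positivity

section Side

variable {e : ℝ × ℝ} {ρ A s d : ℝ}

lemma ray_near (hA : 1 ≤ A) (hs : 0 < s) : ‖(ray e s).1 - (e.1 : ℂ)‖ ≤ A * s ∧
    ‖(ray e s).2 - (e.2 : ℂ)‖ ≤ A * s ∧ (ray e s).1.im < 0 ∧ 0 < (ray e s).2.im := by
  rw [ray_fst, ray_snd, ray_fst_im, ray_snd_im, norm_mul, norm_mul, norm_I, mul_one, mul_one,
    Complex.norm_real, Complex.norm_real, Real.norm_eq_abs, Real.norm_eq_abs, abs_neg,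
    abs_of_pos hs, abs_of_pos (show 0 < s / 4 by linarith)]
  refine ⟨by nlinarith, by nlinarith, by linarith, by linarith⟩

lemma fac_le (hA : 1 ≤ A) (hs : 0 < s) (hd : 0 < d) {q : ℂ × ℂ} (h3 : d * s ≤ -q.1.im)
    (h4 : d * s ≤ q.2.im) :
    d ^ 2 / KA A ≤ (-q.1.im / (64 * (A * s)) * (q.2.im / (64 * (A * s)))) *
      (-(ray e s).1.im / (64 * (A * s)) * ((ray e s).2.im / (64 * (A * s)))) := by
  have hA0 : 0 < A := by linarith
  rw [ray_fst_im, ray_snd_im, neg_neg]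
  have e1 : d / (64 * A) ≤ -q.1.im / (64 * (A * s)) := by
    rw [div_le_div_iff₀ (by positivity) (by positivity)]
    nlinarith [mul_le_mul_of_nonneg_left h3 (show (0 : ℝ) ≤ 64 * A by positivity)]
  have e2 : d / (64 * A) ≤ q.2.im / (64 * (A * s)) := by
    rw [div_le_div_iff₀ (by positivity) (by positivity)]
    nlinarith [mul_le_mul_of_nonneg_left h4 (show (0 : ℝ) ≤ 64 * A by positivity)]
  have e3 : s / (64 * (A * s)) * (s / 4 / (64 * (A * s))) = 1 / (4 * (64 * A) ^ 2) := by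
    field_simp
  rw [e3]
  have e4 : d ^ 2 / KA A = (d / (64 * A) * (d / (64 * A))) * (1 / (4 * (64 * A) ^ 2)) := by
    unfold KA; field_simp
  rw [e4]
  have e5 : 0 ≤ d / (64 * A) := by positivity
  have e6 := e5.trans e1
  gcongr

/-- **(i), depth**: if the label at the ray point of scale `s` is at depth `≥ c0` then the labels
at the points of relative depth `≥ d` are at depth `≥ c0 d² / KA A`. -/
theorem side_depth {B : ℂ × ℂ → ℂ} {h c0 : ℝ} (hA : 1 ≤ A) (hs : 0 < s) (h5 : 5 * (A * s) ≤ ρ)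
    (hd : 0 < d) (hB : DifferentiableOn ℂ B (PB e ρ)) (hb : ∀ q ∈ PB e ρ, |(B q).im| ≤ h)
    (hc0 : 0 ≤ c0) (hr : |(B (ray e s)).im| ≤ h - c0) {q : ℂ × ℂ}
    (h1 : ‖q.1 - (e.1 : ℂ)‖ ≤ A * s) (h2 : ‖q.2 - (e.2 : ℂ)‖ ≤ A * s) (h3 : d * s ≤ -q.1.im)
    (h4 : d * s ≤ q.2.im) : |(B q).im| ≤ h - c0 * d ^ 2 / KA A := by
  have hds : 0 < d * s := by positivity
  obtain ⟨r1, r2, r3, r4⟩ := ray_near (e := e) hA hs
  have T := two_depth hB hb h5 h1 h2 (by linarith) (by linarith) r1 r2 r3 r4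
  have F := fac_le (e := e) hA hs hd h3 h4
  have K := KA_pos hA
  have c1 : c0 ≤ h - |(B (ray e s)).im| := by linarith
  have c2 : d ^ 2 / KA A * c0 ≤ h - |(B q).im| :=
    (mul_le_mul F c1 hc0 (le_trans (by positivity) F)).trans T
  have c3 : c0 * d ^ 2 / KA A = d ^ 2 / KA A * c0 := by ring
  rw [c3]
  linarith

/-- **(i), depth, converse direction** -/
theorem side_depth' {B : ℂ × ℂ → ℂ} {h : ℝ} (hA : 1 ≤ A) (hs : 0 < s) (h5 : 5 * (A * s) ≤ ρ)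
    (hd : 0 < d) (hB : DifferentiableOn ℂ B (PB e ρ)) (hb : ∀ q ∈ PB e ρ, |(B q).im| ≤ h)
    {q : ℂ × ℂ} (h1 : ‖q.1 - (e.1 : ℂ)‖ ≤ A * s) (h2 : ‖q.2 - (e.2 : ℂ)‖ ≤ A * s)
    (h3 : d * s ≤ -q.1.im) (h4 : d * s ≤ q.2.im) :
    d ^ 2 / KA A * (h - |(B q).im|) ≤ h - |(B (ray e s)).im| := by
  have hds : 0 < d * s := by positivity
  obtain ⟨r1, r2, r3, r4⟩ := ray_near (e := e) hA hs
  have T := two_depth hB hb h5 r1 r2 r3 r4 h1 h2 (by linarith) (by linarith)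
  have F := fac_le (e := e) hA hs hd h3 h4
  rw [mul_comm (-q.1.im / (64 * (A * s)) * (q.2.im / (64 * (A * s))))] at F
  have hq : q ∈ PB e ρ := by
    have hM : 0 < A * s := by positivity
    exact ⟨by linarith, by linarith, by linarith, by linarith⟩
  exact (mul_le_mul_of_nonneg_right F (by linarith [hb q hq])).trans T

/-- **(i), depth**, for a function with nonnegative real part, both directions -/
theorem side_pos {g : ℂ × ℂ → ℂ} (hA : 1 ≤ A) (hs : 0 < s) (h5 : 5 * (A * s) ≤ ρ)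
    (hd : 0 < d) (hg : DifferentiableOn ℂ g (PB e ρ)) (hre : ∀ q ∈ PB e ρ, 0 ≤ (g q).re)
    {q : ℂ × ℂ} (h1 : ‖q.1 - (e.1 : ℂ)‖ ≤ A * s) (h2 : ‖q.2 - (e.2 : ℂ)‖ ≤ A * s)
    (h3 : d * s ≤ -q.1.im) (h4 : d * s ≤ q.2.im) :
    d ^ 2 / KA A * (g (ray e s)).re ≤ (g q).re ∧ d ^ 2 / KA A * (g q).re ≤ (g (ray e s)).re := by
  have hds : 0 < d * s := by positivity
  obtain ⟨r1, r2, r3, r4⟩ := ray_near (e := e) hA hs
  have hM : 0 < A * s := by positivity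
  have hq : q ∈ PB e ρ := ⟨by linarith, by linarith, by linarith, by linarith⟩
  have hr : ray e s ∈ PB e ρ := ⟨by linarith, by linarith, r3, r4⟩
  have F := fac_le (e := e) hA hs hd h3 h4
  refine ⟨?_, ?_⟩
  · exact (mul_le_mul_of_nonneg_right F (hre _ hr)).trans
      (pos_depth hg hre h5 h1 h2 (by linarith) (by linarith) r1 r2 r3 r4)
  · rw [mul_comm (-q.1.im / (64 * (A * s)) * (q.2.im / (64 * (A * s))))] at F
    exact (mul_le_mul_of_nonneg_right F (hre _ hq)).trans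
      (pos_depth hg hre h5 r1 r2 r3 r4 h1 h2 (by linarith) (by linarith))

/-- **(i), distance** -/
theorem side_dist {B : ℂ × ℂ → ℂ} {h : ℝ} (hA : 1 ≤ A) (hs : 0 < s) (h5 : 5 * (A * s) ≤ ρ)
    (hd : 0 < d) (hd1 : d ≤ 1) (hh : 0 < h) (hB : DifferentiableOn ℂ B (PB e ρ))
    (hb : ∀ q ∈ PB e ρ, |(B q).im| < h) {q : ℂ × ℂ} (h1 : ‖q.1 - (e.1 : ℂ)‖ ≤ A * s)
    (h2 : ‖q.2 - (e.2 : ℂ)‖ ≤ A * s) (h3 : d * s ≤ -q.1.im) (h4 : d * s ≤ q.2.im) :
    ‖B q - B (ray e s)‖ ≤ LA A * h * (1 + Real.log (1 / d)) := by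
  have hds : 0 < d * s := by positivity
  have hA0 : 0 < A := by linarith
  obtain ⟨r1, r2, r3, r4⟩ := ray_near (e := e) hA hs
  have T := two_dist hh hB hb h5 h1 h2 (by linarith) (by linarith) r1 r2 r3 r4
  rw [ray_fst_im, ray_snd_im, neg_neg] at T
  have l1 : Real.log (d * s) ≤ Real.log (-q.1.im) := Real.log_le_log hds h3
  have l2 : Real.log (d * s) ≤ Real.log q.2.im := Real.log_le_log hds h4
  have l3 : Real.log (d * s) = Real.log d + Real.log s := Real.log_mul hd.ne' hs.ne'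
  have l4 : Real.log (2 * (A * s)) = Real.log 2 + Real.log A + Real.log s := by
    rw [Real.log_mul (by norm_num) (by positivity), Real.log_mul hA0.ne' hs.ne']; ring
  have l5 : Real.log (s / 4) = Real.log s - 2 * Real.log 2 := by
    rw [Real.log_div hs.ne' (by norm_num), show (4 : ℝ) = 2 ^ 2 by norm_num, Real.log_pow]
    norm_num
  have l6 : Real.log (8 * A) = 3 * Real.log 2 + Real.log A := by
    rw [Real.log_mul (by norm_num) hA0.ne', show (8 : ℝ) = 2 ^ 3 by norm_num, Real.log_pow]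
    norm_num
  have l7 : Real.log (1 / d) = -Real.log d := by rw [one_div, Real.log_inv]
  have l8 : Real.log d ≤ 0 := Real.log_nonpos hd.le hd1
  have l9 : 0 ≤ Real.log A := Real.log_nonneg hA
  have l10 : 0 ≤ Real.log 2 := Real.log_nonneg (by norm_num)
  refine T.trans ?_
  unfold LA
  rw [l4, l5, l6, l7]
  have key : (Real.log 2 + Real.log A + Real.log s - Real.log (-q.1.im)) +
      (Real.log 2 + Real.log A + Real.log s - Real.log q.2.im) +
      (Real.log 2 + Real.log A + Real.log s - Real.log s) +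
      (Real.log 2 + Real.log A + Real.log s - (Real.log s - 2 * Real.log 2)) + 2 ≤
      4 * (1 + (3 * Real.log 2 + Real.log A)) * (1 + -Real.log d) := by
    nlinarith [mul_nonneg (show 0 ≤ 3 * Real.log 2 + Real.log A by linarith)
      (show 0 ≤ -Real.log d by linarith)]
  calc _ ≤ 16 * h * (4 * (1 + (3 * Real.log 2 + Real.log A)) * (1 + -Real.log d)) :=
        mul_le_mul_of_nonneg_left key (by positivity)
    _ = _ := by ring

end Side

end Crest.Agent.R102.Side426
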