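import Crest.Agent.R102.Boot_172
import Crest.Agent.R102.SideLab_426
import Crest.Agent.R102.Chain_859

/-!
Row 102, T1-B, EDGE / SLOW, leaf **N1** (helper172): UNIFORM COLLAPSE from `Rigid`.

* `out_bound`    : bounds of the line at the top of the columns, uniform in the base;
* `rigid_unif`   : uniform (non sequential) form of `Rigid` over the good bases near one point;
* `collapse`     : windows with label near the root label on the whole column are slow.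
-/

set_option autoImplicit false

open Set Filter Topology Metric MeasureTheory Complex

noncomputable section

namespace Crest.Agent.R102.Coll172

open Crest.Agent.R102.Sup115 (HDu Dp E2 MaxiX GoodU)
open Crest.Agent.R102.S5 (Half bl ray Cn)
open Crest.Agent.R102.Edge255
open Crest.Agent.R102.Side426 (PB KA KA_pos side_depth)
open Crest.Agent.R102.Boot172

variable {u0 R d h : ℝ} {ψ H A : ℂ → ℂ} {φ p B : ℂ × ℂ → ℂ} {X L : Set (ℂ × ℂ)} {u s₀ a g : ℝ}

/-! ### the outer bound -/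

lemma isCompact_Kc (m c : ℝ) : IsCompact (Kc m c) := by
  apply Metric.isCompact_of_isClosed_isBounded
  · have h1 : IsClosed {q : ℂ × ℂ | ‖q.1‖ ≤ 1} := isClosed_le (by fun_prop) continuous_const
    have h2 : IsClosed {q : ℂ × ℂ | ‖q.2‖ ≤ 1} := isClosed_le (by fun_prop) continuous_const
    have h3 : IsClosed {q : ℂ × ℂ | c ≤ q.2.im} := isClosed_le continuous_const (by fun_prop)
    have h4 : IsClosed {q : ℂ × ℂ | q.1.im ≤ (m - c) * q.2.im} :=
      isClosed_le (by fun_prop) (by fun_prop)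
    exact h1.inter (h2.inter (h3.inter h4))
  · rw [isBounded_iff_forall_norm_le]
    exact ⟨1, fun q hq => by rw [Prod.norm_def]; exact max_le hq.1 hq.2.1⟩

lemma bl_dist (e e' : ℝ × ℝ) (s : ℝ) (q : ℂ × ℂ) : dist (bl e' s q) (bl e s q) ≤ dist e' e := by
  unfold bl
  rw [Prod.dist_eq, Prod.dist_eq]
  apply max_le_max
  · rw [dist_add_right, Complex.dist_eq, ← Complex.ofReal_sub, Complex.norm_real,
      Real.dist_eq, Real.norm_eq_abs]
  · rw [dist_add_right, Complex.dist_eq, ← Complex.ofReal_sub, Complex.norm_real,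
      Real.dist_eq, Real.norm_eq_abs]

lemma continuous_bl (e : ℝ × ℝ) (s : ℝ) : Continuous (bl e s) := by
  unfold bl
  fun_prop

lemma Kc_Half {m c : ℝ} {e : ℝ × ℝ} {τ : ℝ} (hτ : 0 < τ) (hc : 0 < c) {q : ℂ × ℂ}
    (hq : q ∈ Kc m c) : bl e τ q ∈ Half e (4 * τ) m := by
  obtain ⟨h1, h2, h3, h4⟩ := hq
  have r1 := (Complex.abs_re_le_norm q.1).trans h1
  have r2 := (Complex.abs_im_le_norm q.1).trans h1
  have e1 : (bl e τ q).1.re - e.1 = τ * q.1.re := by simp [bl]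
  have e2 : (bl e τ q).1.im = τ * q.1.im := by simp [bl]
  have e3 : (bl e τ q).2 - (e.2 : ℂ) = τ * q.2 := by simp [bl]
  have e4 : (bl e τ q).2.im = τ * q.2.im := by simp [bl]
  refine ⟨?_, ?_, ?_, ?_, ?_⟩
  · rw [e1, abs_mul, abs_of_pos hτ]; nlinarith
  · rw [e2]; nlinarith [(abs_le.1 r2).1]
  · rw [e3, norm_mul, Complex.norm_real, Real.norm_eq_abs, abs_of_pos hτ]; nlinarith
  · rw [e4]; have : 0 < q.2.im := by linarith
    positivity
  · rw [e2, e4]
    have : 0 < q.2.im := by linarith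
    have h5 : q.1.im < m * q.2.im := by nlinarith
    nlinarith

lemma z0_Half {m : ℝ} {e : ℝ × ℝ} {τ : ℝ} (hτ : 0 < τ) (hm : 0 ≤ m) :
    ray e τ ∈ Half e (4 * τ) m := by
  have e1 : (ray e τ).1.re - e.1 = 0 := by simp [ray, bl]
  have e2 : (ray e τ).1.im = -τ := by simp [ray, bl]
  have e3 : (ray e τ).2 - (e.2 : ℂ) = τ * (I / 4) := by simp [ray, bl]
  have e4 : (ray e τ).2.im = τ / 4 := by simp [ray, bl]; ring
  refine ⟨?_, ?_, ?_, ?_, ?_⟩
  · rw [e1, abs_zero]; positivity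
  · rw [e2]; linarith
  · rw [e3, norm_mul, Complex.norm_real, Real.norm_eq_abs, abs_of_pos hτ, norm_div, norm_I]
    norm_num; linarith
  · rw [e4]; linarith
  · rw [e2, e4]; have : 0 ≤ m * (τ / 4) := by positivity
    linarith

theorem out_bound (D : ED u0 R d h ψ H A φ p B X L) {m c τ : ℝ} {e : ℝ × ℝ} (hm : 0 ≤ m)
    (hτ : 0 < τ) (hc : 0 < c) (hline : Half e (4 * τ) m ⊆ L) :
    ∃ r > 0, ∃ M : ℝ, 0 ≤ M ∧ ∀ e' : ℝ × ℝ, dist e' e ≤ r → ∀ q ∈ Kc m c,
      ‖φ (bl e' τ q) - ((φ (ray e' τ)).re : ℂ)‖ + ‖p (bl e' τ q)‖ ≤ M := by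
  set C0 : Set (ℂ × ℂ) := bl e τ '' (insert z0 (Kc m c)) with hC0
  have hC0c : IsCompact C0 := ((isCompact_Kc m c).insert z0).image (continuous_bl e τ)
  have hC0L : C0 ⊆ L := by
    rintro _ ⟨q, hq, rfl⟩
    rcases hq with rfl | hq
    · exact hline (z0_Half hτ hm)
    · exact hline (Kc_Half hτ hc hq)
  obtain ⟨r, hr, hrL⟩ := hC0c.exists_cthickening_subset_open D.L_open hC0L
  have hC1 : IsCompact (cthickening r C0) := hC0c.cthickening
  obtain ⟨M1, hM1⟩ := hC1.exists_bound_of_continuousOn (D.φ_diff.continuousOn.mono hrL)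
  obtain ⟨M2, hM2⟩ := hC1.exists_bound_of_continuousOn (D.p_diff.continuousOn.mono hrL)
  have hmem : ∀ e' : ℝ × ℝ, dist e' e ≤ r → ∀ q ∈ insert z0 (Kc m c),
      bl e' τ q ∈ cthickening r C0 := by
    intro e' he' q hq
    exact mem_cthickening_of_dist_le _ (bl e τ q) r C0 ⟨q, hq, rfl⟩ ((bl_dist e e' τ q).trans he')
  refine ⟨r, hr, |M1| + |M1| + |M2|, by positivity, ?_⟩
  intro e' he' q hq
  have h1 := hM1 _ (hmem e' he' q (mem_insert_of_mem _ hq))
  have h2 := hM2 _ (hmem e' he' q (mem_insert_of_mem _ hq))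
  have h3 := hM1 _ (hmem e' he' z0 (mem_insert _ _))
  have h4 : ‖((φ (ray e' τ)).re : ℂ)‖ ≤ M1 := by
    rw [Complex.norm_real, Real.norm_eq_abs]
    exact (Complex.abs_re_le_norm _).trans h3
  have h5 := norm_sub_le (φ (bl e' τ q)) ((φ (ray e' τ)).re : ℂ)
  linarith [le_abs_self M1, le_abs_self M2]

/-! ### the uniform form of `Rigid` -/

/-- sequences of tops: columns at `(x n, u)`, precision `ρ n`, widths `U n`, top scale `τ n` -/
structure Tops (u0 R d : ℝ) (X L : Set (ℂ × ℂ)) (u s₀ a g : ℝ) (x ρ δ τ : ℕ → ℝ)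
    (U : ℕ → Set ℝ) : Prop where
  x_lim : Tendsto x atTop (𝓝 s₀)
  ρ_pos : ∀ n, 0 < ρ n
  ρ_lim : Tendsto ρ atTop (𝓝 0)
  xδ : ∀ n, 2 * |x n - s₀| < δ n
  e2 : ∀ n, ∀ u' ∈ U n, ∀ s : ℝ, |s - s₀| < δ n → E2 X L a g (ρ n) (δ n) (s, u')
  uU : ∀ n, u ∈ U n
  τ_pos : ∀ n, 0 < τ n
  τδ : ∀ n, 8 * τ n ≤ δ n
  τd : ∀ n, 8 * τ n ≤ d
  τR : ∀ n, 8 * τ n ≤ R - |u - u0|

theorem rigid_unif (D : ED u0 R d h ψ H A φ p B X L) (ha : 0 ≤ a) (hg : 0 < g)
    (hR : Rigid u0 R d h ψ φ p B X L u s₀ a g) {x ρ δ τ : ℕ → ℝ} {U : ℕ → Set ℝ}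
    (hT : Tops u0 R d X L u s₀ a g x ρ δ τ U) {κ ε : ℝ} (hκ : 0 < κ) (hε : 0 < ε)
    {K K' : Set (ℂ × ℂ)} (hK : K ⊆ Wg (a + g)) (hKc : IsCompact K) (hK' : K' ⊆ Wg a)
    (hKc' : IsCompact K') :
    ∀ᶠ n in atTop, ∃ s₂ > 0, s₂ ≤ τ n ∧ ∀ x' u'' s : ℝ, |x' - x n| ≤ s₂ → u'' ∈ U n →
      |u'' - u| ≤ s₂ → 0 < s → s ≤ s₂ → (∀ s'' ∈ Icc s (τ n), Intr h κ ψ B (x', u'') s'') →
      SlowAt ε K K' ψ (fun q => φ (bl (x', u'') s q)) (fun q => p (bl (x', u'') s q))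
        (fun q => B (bl (x', u'') s q)) := by
  by_contra hcon
  have hag : 0 ≤ a + g := by linarith
  have hn1 : ∀ n : ℕ, (0 : ℝ) < 1 / ((n : ℝ) + 1) := fun n => by positivity
  have hδτ : ∀ n, 0 < δ n := fun n => by linarith [hT.τ_pos n, hT.τδ n]
  -- the choice of the scale `S n`
  have hS : ∀ n : ℕ, ∃ S : ℝ, 0 < S ∧ S ≤ τ n ∧ S / τ n ≤ 1 / ((n : ℝ) + 1) ∧
      S ≤ 1 / ((n : ℝ) + 1) ∧ ∃ M : ℝ, 0 ≤ M ∧ (∀ e' : ℝ × ℝ, dist e' (x n, u) ≤ S →
        ∀ q ∈ Kc (a + g) (1 / ((n : ℝ) + 1)),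
          ‖φ (bl e' (τ n) q) - ((φ (ray e' (τ n))).re : ℂ)‖ + ‖p (bl e' (τ n) q)‖ ≤ M) ∧
      (S / τ n) ^ (1 / ((n : ℝ) + 1)) * M ≤ 1 / ((n : ℝ) + 1) := by
    intro n
    have hτ := hT.τ_pos n
    have hline : Half (x n, u) (4 * τ n) (a + g) ⊆ L := by
      have h1 := (hT.e2 n u (hT.uU n) (x n) (by
        have := hT.xδ n; linarith [abs_nonneg (x n - s₀)])).line
      refine Subset.trans ?_ h1
      intro q hq
      have := hT.τδ n
      exact ⟨by linarith [hq.1], by linarith [hq.2.1], by linarith [hq.2.2.1], hq.2.2.2.1,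
        hq.2.2.2.2⟩
    obtain ⟨r, hr, M, hM0, hM⟩ := out_bound D hag hτ (hn1 n) hline
    set y : ℝ := (1 / ((n : ℝ) + 1) / (M + 1)) ^ ((n : ℝ) + 1) with hy
    have hy0 : 0 < y := by positivity
    set S : ℝ := min (min (τ n) r) (min (τ n * (1 / ((n : ℝ) + 1)))
      (min (1 / ((n : ℝ) + 1)) (τ n * y))) with hSdef
    have hS0 : 0 < S := by positivity
    have hS1 : S ≤ τ n := (min_le_left _ _).trans (min_le_left _ _)
    have hS2 : S ≤ r := (min_le_left _ _).trans (min_le_right _ _)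
    have hS3 : S ≤ τ n * (1 / ((n : ℝ) + 1)) := (min_le_right _ _).trans (min_le_left _ _)
    have hS4 : S ≤ 1 / ((n : ℝ) + 1) :=
      (min_le_right _ _).trans ((min_le_right _ _).trans (min_le_left _ _))
    have hS5 : S ≤ τ n * y :=
      (min_le_right _ _).trans ((min_le_right _ _).trans (min_le_right _ _))
    refine ⟨S, hS0, hS1, ?_, hS4, M, hM0, fun e' he' => hM e' (he'.trans hS2), ?_⟩
    · rw [div_le_iff₀ hτ]; linarith
    · have h1 : S / τ n ≤ y := by rw [div_le_iff₀ hτ]; linarith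
      have h2 : (S / τ n) ^ (1 / ((n : ℝ) + 1)) ≤ y ^ (1 / ((n : ℝ) + 1)) :=
        Real.rpow_le_rpow (by positivity) h1 (hn1 n).le
      have h3 : y ^ (1 / ((n : ℝ) + 1)) = 1 / ((n : ℝ) + 1) / (M + 1) := by
        rw [hy, ← Real.rpow_mul (by positivity)]
        rw [mul_one_div_cancel (by positivity), Real.rpow_one]
      calc (S / τ n) ^ (1 / ((n : ℝ) + 1)) * M
          ≤ (1 / ((n : ℝ) + 1) / (M + 1)) * M := by
            rw [h3] at h2; exact mul_le_mul_of_nonneg_right h2 hM0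
        _ ≤ (1 / ((n : ℝ) + 1) / (M + 1)) * (M + 1) := by gcongr; linarith
        _ = 1 / ((n : ℝ) + 1) := by field_simp
  choose S hS0 hSτ hSτn hSn M hM0 hMb hMs using hS
  obtain ⟨m, hm, hbad⟩ := extraction_of_frequently_atTop (not_eventually.1 hcon)
  have hb : ∀ j, ∃ x' u'' s : ℝ, |x' - x (m j)| ≤ S (m j) ∧ u'' ∈ U (m j) ∧
      |u'' - u| ≤ S (m j) ∧ 0 < s ∧ s ≤ S (m j) ∧
      (∀ s'' ∈ Icc s (τ (m j)), Intr h κ ψ B (x', u'') s'') ∧
      ¬ SlowAt ε K K' ψ (fun q => φ (bl (x', u'') s q)) (fun q => p (bl (x', u'') s q))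
        (fun q => B (bl (x', u'') s q)) := by
    intro j
    by_contra hno
    push Not at hno
    exact hbad j ⟨S (m j), hS0 _, hSτ _, fun x' u'' s h1 h2 h3 h4 h5 h6 =>
      hno x' u'' s h1 h2 h3 h4 h5 h6⟩
  choose x' u'' s hx' hu'' hu''2 hs0 hsS hcol hns using hb
  have hmt : Tendsto m atTop atTop := hm.tendsto_atTop
  have hinv : Tendsto (fun j => 1 / (((m j : ℕ) : ℝ) + 1)) atTop (𝓝 0) :=
    tendsto_one_div_add_atTop_nhds_zero_nat.comp hmt
  have hS_lim : Tendsto (fun j => S (m j)) atTop (𝓝 0) :=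
    squeeze_zero (fun j => (hS0 _).le) (fun j => hSn _) hinv
  have hxs : ∀ j, |x' j - s₀| < δ (m j) := by
    intro j
    have h1 := hT.xδ (m j)
    have h2 := hT.τδ (m j)
    have h3 := hSτ (m j)
    have h4 : |x' j - s₀| ≤ |x' j - x (m j)| + |x (m j) - s₀| := abs_sub_le _ _ _
    linarith [hx' j, hT.τ_pos (m j)]
  have hE2 : ∀ j, E2 X L a g (ρ (m j)) (δ (m j)) (x' j, u'' j) :=
    fun j => hT.e2 _ _ (hu'' j) _ (hxs j)
  have hratio : ∀ j, s j / τ (m j) ≤ S (m j) / τ (m j) := fun j => by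
    have := hT.τ_pos (m j)
    gcongr
    exact hsS j
  have hcols : Cols u0 R d h a g κ ψ φ p B X L u s₀ (fun j => (x' j, u'' j)) s
      (fun j => τ (m j)) := by
    refine ⟨?_, hs0, fun j => (hsS j).trans (hSτ _), fun j => by
      have := hT.τd (m j); linarith [hT.τ_pos (m j)], ?_, ?_, hcol, ?_⟩
    · rw [Prod.tendsto_iff]
      constructor
      · have h1 : Tendsto (fun j => x (m j)) atTop (𝓝 s₀) := hT.x_lim.comp hmt
        have h2 : Tendsto (fun j => x' j - x (m j)) atTop (𝓝 0) :=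
          squeeze_zero_norm (fun j => by rw [Real.norm_eq_abs]; exact hx' j) hS_lim
        have h3 := h2.add h1
        simpa using h3
      · have h2 : Tendsto (fun j => u'' j - u) atTop (𝓝 0) :=
          squeeze_zero_norm (fun j => by rw [Real.norm_eq_abs]; exact hu''2 j) hS_lim
        have h3 := h2.add_const u
        simpa using h3
    · intro j q hq
      rw [mem_ball, dist_eq_norm] at hq ⊢
      have h1 : ‖q - (u0 : ℂ)‖ ≤ ‖q - ((u'' j : ℝ) : ℂ)‖ + (‖((u'' j : ℝ) : ℂ) - (u : ℂ)‖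
          + ‖(u : ℂ) - (u0 : ℂ)‖) := by
        have e : q - (u0 : ℂ) = (q - ((u'' j : ℝ) : ℂ)) + ((((u'' j : ℝ) : ℂ) - (u : ℂ))
          + ((u : ℂ) - (u0 : ℂ))) := by ring
        rw [e]
        exact (norm_add_le _ _).trans (by gcongr; exact norm_add_le _ _)
      have h2 : ‖((u'' j : ℝ) : ℂ) - (u : ℂ)‖ = |u'' j - u| := by
        rw [← Complex.ofReal_sub, Complex.norm_real, Real.norm_eq_abs]
      have h3 : ‖(u : ℂ) - (u0 : ℂ)‖ = |u - u0| := by
        rw [← Complex.ofReal_sub, Complex.norm_real, Real.norm_eq_abs]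
      rw [h2, h3] at h1
      have h4 := hT.τR (m j)
      have h5 := hSτ (m j)
      have h6 := hu''2 j
      have h7 := hT.τ_pos (m j)
      linarith
    · intro j
      refine Subset.trans ?_ (hE2 j).line
      intro q hq
      have h1 := hT.τδ (m j)
      have h2 := hT.τ_pos (m j)
      exact ⟨by linarith [hq.1], by linarith [hq.2.1], by linarith [hq.2.2.1], hq.2.2.2.1,
        hq.2.2.2.2⟩
    · intro c hc
      have hbd : ∀ j, ∃ N : ℝ, 0 ≤ N ∧ ∀ q ∈ Kc (a + g) c,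
          ‖φ (bl (x' j, u'' j) (τ (m j)) q) - ((φ (ray (x' j, u'' j) (τ (m j)))).re : ℂ)‖ +
            ‖p (bl (x' j, u'' j) (τ (m j)) q)‖ ≤ N := by
        intro j
        have hline : Half (x' j, u'' j) (4 * τ (m j)) (a + g) ⊆ L := by
          refine Subset.trans ?_ (hE2 j).line
          intro q hq
          have h1 := hT.τδ (m j)
          have h2 := hT.τ_pos (m j)
          exact ⟨by linarith [hq.1], by linarith [hq.2.1], by linarith [hq.2.2.1], hq.2.2.2.1,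
            hq.2.2.2.2⟩
        obtain ⟨r, hr, N, hN0, hN⟩ := out_bound D hag (hT.τ_pos (m j)) hc hline
        exact ⟨N, hN0, hN _ (by rw [dist_self]; exact hr.le)⟩
      choose N hN0 hN using hbd
      classical
      refine ⟨fun j => if 1 / (((m j : ℕ) : ℝ) + 1) ≤ c then M (m j) else N j, ?_, ?_⟩
      · intro j q hq
        by_cases hcj : 1 / (((m j : ℕ) : ℝ) + 1) ≤ c
        · simp only [hcj, if_true]
          refine hMb (m j) (x' j, u'' j) ?_ q ?_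
          · rw [Prod.dist_eq]
            exact max_le (by rw [Real.dist_eq]; exact hx' j) (by rw [Real.dist_eq]; exact hu''2 j)
          · obtain ⟨q1, q2, q3, q4⟩ := hq
            refine ⟨q1, q2, hcj.trans q3, q4.trans ?_⟩
            have : 0 ≤ q.2.im := by linarith
            nlinarith
        · simp only [hcj, if_false]
          exact hN j q hq
      · intro t ht
        have hev : ∀ᶠ j in atTop, 1 / (((m j : ℕ) : ℝ) + 1) ≤ min c t :=
          hinv.eventually_le_const (by positivity)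
        refine squeeze_zero' ?_ ?_ hinv
        · filter_upwards with j
          have h1 : 0 < s j / τ (m j) := div_pos (hs0 j) (hT.τ_pos _)
          apply mul_nonneg (by positivity)
          split_ifs
          · exact hM0 _
          · exact hN0 _
        · filter_upwards [hev] with j hj
          have hjc : 1 / (((m j : ℕ) : ℝ) + 1) ≤ c := hj.trans (min_le_left _ _)
          have hjt : 1 / (((m j : ℕ) : ℝ) + 1) ≤ t := hj.trans (min_le_right _ _)
          simp only [hjc, if_true]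
          have h1 : 0 < s j / τ (m j) := div_pos (hs0 j) (hT.τ_pos _)
          have h2 : S (m j) / τ (m j) ≤ 1 := by
            rw [div_le_one (hT.τ_pos _)]; exact hSτ _
          have h3 : (s j / τ (m j)) ^ t ≤ (S (m j) / τ (m j)) ^ (1 / (((m j : ℕ) : ℝ) + 1)) :=
            (Real.rpow_le_rpow h1.le (hratio j) ht.le).trans
              (Real.rpow_le_rpow_of_exponent_ge (h1.trans_le (hratio j)) h2 hjt)
          exact (mul_le_mul_of_nonneg_right h3 (hM0 _)).trans (hMs _)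
  have hsσ : Tendsto (fun j => s j / τ (m j)) atTop (𝓝 0) :=
    squeeze_zero (fun j => (div_pos (hs0 j) (hT.τ_pos _)).le)
      (fun j => (hratio j).trans (hSτn _)) hinv
  have hs_lim : Tendsto s atTop (𝓝 0) :=
    squeeze_zero (fun j => (hs0 j).le) (fun j => hsS j) hS_lim
  have hfin := hR κ (fun j => (x' j, u'' j)) s (fun j => τ (m j)) (fun j => ρ (m j))
    (fun j => δ (m j)) hκ hcols hsσ hs_lim (fun j => hT.ρ_pos _) (hT.ρ_lim.comp hmt)
    (fun j => by have := hT.τδ (m j); linarith [hT.τ_pos (m j)]) hE2 ε hε K hK hKc K' hK' hKc'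
  obtain ⟨j, hj⟩ := hfin.exists
  exact hns j hj

/-! ### change of base -/

/-- compacts for the change of base `u'' → u'`, scale `10 t → t` -/
def Kt (K : Set (ℂ × ℂ)) : Set (ℂ × ℂ) :=
  (fun z : (ℂ × ℂ) × ℝ => ((z.1.1 / 10, z.1.2 / 10 + (z.2 : ℂ)) : ℂ × ℂ)) ''
    ((insert z0 K) ×ˢ Icc (-(1 / 10 : ℝ)) (1 / 10))

lemma Kt_compact {K : Set (ℂ × ℂ)} (hK : IsCompact K) : IsCompact (Kt K) := by
  refine ((hK.insert z0).prod isCompact_Icc).image ?_
  fun_prop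

lemma z0_mem_Wg {m : ℝ} (hm : 0 ≤ m) : z0 ∈ Wg m := by
  have e1 : (z0.1).im = -1 := by simp [z0]
  have e2 : (z0.2).im = 1 / 4 := by simp [z0]
  refine ⟨by rw [e2]; norm_num, ?_⟩
  rw [e1, e2]; nlinarith

lemma Kt_sub {K : Set (ℂ × ℂ)} {m : ℝ} (hm : 0 ≤ m) (hK : K ⊆ Wg m) : Kt K ⊆ Wg m := by
  rintro _ ⟨⟨q, r⟩, ⟨hq, -⟩, rfl⟩
  have hq' : q ∈ Wg m := by
    rcases hq with rfl | hq
    · exact z0_mem_Wg hm
    · exact hK hq
  have e1 : (q.1 / 10).im = q.1.im / 10 := by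
    rw [show (10 : ℂ) = ((10 : ℝ) : ℂ) by norm_num, Complex.div_ofReal_im]
  have e2 : (q.2 / 10 + (r : ℂ)).im = q.2.im / 10 := by
    rw [Complex.add_im, Complex.ofReal_im, add_zero,
      show (10 : ℂ) = ((10 : ℝ) : ℂ) by norm_num, Complex.div_ofReal_im]
  obtain ⟨h1, h2⟩ := hq'
  refine ⟨?_, ?_⟩
  · show 0 < (q.2 / 10 + (r : ℂ)).im
    rw [e2]; positivity
  · show (q.1 / 10).im < m * (q.2 / 10 + (r : ℂ)).im
    rw [e1, e2]; linarith

lemma bl_rebase {x' u' u'' t : ℝ} (ht : 0 < t) (q : ℂ × ℂ) :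
    bl (x', u') t q = bl (x', u'') (10 * t) (q.1 / 10, q.2 / 10 + (((u' - u'') / (10 * t) : ℝ) : ℂ)) := by
  have ht' : (t : ℂ) ≠ 0 := by exact_mod_cast ht.ne'
  unfold bl
  ext
  · push_cast; ring
  · push_cast; field_simp; ring

lemma exp_shift {f a a' : ℂ} {e2 e3 : ℝ} (h1 : ‖cexp (2 * I * (f - a)) - 1‖ ≤ e2)
    (h2 : ‖a - a'‖ ≤ e3) (h3 : e3 ≤ 1 / 4) : ‖cexp (2 * I * (f - a')) - 1‖ ≤ 2 * e2 + 4 * e3 := by
  have e0 : cexp (2 * I * (f - a')) = cexp (2 * I * (f - a)) * cexp (2 * I * (a - a')) := by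
    rw [← Complex.exp_add]; congr 1; ring
  have hn : ‖2 * I * (a - a')‖ = 2 * ‖a - a'‖ := by simp
  have h4 : ‖cexp (2 * I * (a - a')) - 1‖ ≤ 4 * e3 := by
    refine (Complex.norm_exp_sub_one_le (x := 2 * I * (a - a')) (by rw [hn]; linarith)).trans ?_
    rw [hn]; linarith
  have h5 : cexp (2 * I * (f - a)) * cexp (2 * I * (a - a')) - 1
      = (cexp (2 * I * (f - a)) - 1) * (cexp (2 * I * (a - a')) - 1)
        + (cexp (2 * I * (f - a)) - 1) + (cexp (2 * I * (a - a')) - 1) := by ring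
  rw [e0, h5]
  refine (norm_add_le _ _).trans ?_
  have h6 := norm_add_le ((cexp (2 * I * (f - a)) - 1) * (cexp (2 * I * (a - a')) - 1))
    (cexp (2 * I * (f - a)) - 1)
  rw [norm_mul] at h6
  have h7 : ‖cexp (2 * I * (f - a)) - 1‖ * ‖cexp (2 * I * (a - a')) - 1‖ ≤ e2 * 1 :=
    mul_le_mul h1 (by linarith) (norm_nonneg _) ((norm_nonneg _).trans h1)
  linarith

theorem slow_rebase (D : ED u0 R d h ψ H A φ p B X L) {κ ε : ℝ} (hκ : 0 < κ) (hε : 0 < ε) :
    ∃ ε₂ > 0, ∀ (K K' : Set (ℂ × ℂ)) (x' u' u'' t : ℝ), 0 < t → |u' - u''| ≤ t →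
      |(B (ray (x', u'') (10 * t))).im| ≤ h - κ →
      SlowAt ε₂ (Kt K) (Kt K') ψ (fun q => φ (bl (x', u'') (10 * t) q))
        (fun q => p (bl (x', u'') (10 * t) q)) (fun q => B (bl (x', u'') (10 * t) q)) →
      SlowAt ε K K' ψ (fun q => φ (bl (x', u') t q)) (fun q => p (bl (x', u') t q))
        (fun q => B (bl (x', u') t q)) := by
  obtain ⟨k, hk, hmod⟩ := mod_cont D.curve hκ (show 0 < min (ε / 16) (1 / 4) by positivity)
  refine ⟨min (ε / 8) k, by positivity, ?_⟩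
  intro K K' x' u' u'' t ht hu hb hS
  obtain ⟨hS1, hS2⟩ := hS
  set T : ℂ × ℂ → ℂ × ℂ := fun q => (q.1 / 10, q.2 / 10 + (((u' - u'') / (10 * t) : ℝ) : ℂ))
    with hT
  have hr : (u' - u'') / (10 * t) ∈ Icc (-(1 / 10 : ℝ)) (1 / 10) := by
    have h1 := abs_le.1 hu
    constructor
    · rw [le_div_iff₀ (by positivity)]; linarith [h1.1]
    · rw [div_le_iff₀ (by positivity)]; linarith [h1.2]
  have hTm : ∀ K0 : Set (ℂ × ℂ), ∀ q ∈ insert z0 K0, T q ∈ Kt K0 := fun K0 q hq =>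
    ⟨(q, (u' - u'') / (10 * t)), ⟨hq, hr⟩, rfl⟩
  have hbl : ∀ q, bl (x', u') t q = bl (x', u'') (10 * t) (T q) := fun q => bl_rebase ht q
  have hz : B (bl (x', u'') (10 * t) z0) = B (ray (x', u'') (10 * t)) := rfl
  have hz1 : ‖B (bl (x', u'') (10 * t) (T z0)) - B (bl (x', u'') (10 * t) z0)‖
      ≤ min (ε / 8) k := hS2 _ (hTm K' z0 (mem_insert _ _))
  have hψ := (hmod (B (bl (x', u'') (10 * t) z0)) (B (bl (x', u'') (10 * t) (T z0)))
    (by rw [hz]; exact hb) (hz1.trans (min_le_right _ _))).1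
  have hz8 := hz1.trans (min_le_left _ _)
  constructor
  · intro q hq
    have h1 := hS1 _ (hTm K q (mem_insert_of_mem _ hq))
    have h2 := hS1 _ (hTm K z0 (mem_insert _ _))
    constructor
    · show ‖cexp (2 * I * (φ (bl (x', u') t q) - ψ (B (bl (x', u') t z0)))) - 1‖ ≤ ε
      rw [hbl, hbl]
      refine (exp_shift h1.1 (by rw [norm_sub_rev]; exact hψ) (min_le_right _ _)).trans ?_
      have := min_le_left (ε / 8) k
      have := min_le_left (ε / 16) (1 / 4 : ℝ)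
      linarith
    · show ‖p (bl (x', u') t q) - p (bl (x', u') t z0)‖ ≤ ε
      rw [hbl, hbl]
      have e : p (bl (x', u'') (10 * t) (T q)) - p (bl (x', u'') (10 * t) (T z0))
          = (p (bl (x', u'') (10 * t) (T q)) - p (bl (x', u'') (10 * t) z0))
            - (p (bl (x', u'') (10 * t) (T z0)) - p (bl (x', u'') (10 * t) z0)) := by ring
      rw [e]
      refine (norm_sub_le _ _).trans ?_
      have h3 := h1.2.trans (min_le_left _ _)
      have h4 := h2.2.trans (min_le_left _ _)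
      have h3' : ‖p (bl (x', u'') (10 * t) (T q)) - p (bl (x', u'') (10 * t) z0)‖ ≤ ε / 8 := h3
      have h4' : ‖p (bl (x', u'') (10 * t) (T z0)) - p (bl (x', u'') (10 * t) z0)‖ ≤ ε / 8 := h4
      linarith
  · intro q hq
    show ‖B (bl (x', u') t q) - B (bl (x', u') t z0)‖ ≤ ε
    rw [hbl, hbl]
    have h1 : ‖B (bl (x', u'') (10 * t) (T q)) - B (bl (x', u'') (10 * t) z0)‖ ≤ ε / 8 :=
      (hS2 _ (hTm K' q (mem_insert_of_mem _ hq))).trans (min_le_left _ _)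
    have e : B (bl (x', u'') (10 * t) (T q)) - B (bl (x', u'') (10 * t) (T z0))
        = (B (bl (x', u'') (10 * t) (T q)) - B (bl (x', u'') (10 * t) z0))
          - (B (bl (x', u'') (10 * t) (T z0)) - B (bl (x', u'') (10 * t) z0)) := by ring
    rw [e]
    refine (norm_sub_le _ _).trans ?_
    linarith

/-! ### moving `Intr` -/

lemma Intr_mono {κ κ' s : ℝ} {e : ℝ × ℝ} (hk : κ' ≤ κ) (hI : Intr h κ ψ B e s) :
    Intr h κ' ψ B e s := by
  obtain ⟨h1, q, hq, h2⟩ := hI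
  exact ⟨by linarith, q, hq, hk.trans h2⟩

/-- a box around `z0` -/
def Bo : Set (ℂ × ℂ) := {q | ‖q - z0‖ ≤ 3 ∧ q.1.im ≤ -(1 / 2) ∧ 1 / 8 ≤ q.2.im}

lemma Bo_compact : IsCompact Bo := by
  apply Metric.isCompact_of_isClosed_isBounded
  · have h1 : IsClosed {q : ℂ × ℂ | ‖q - z0‖ ≤ 3} := isClosed_le (by fun_prop) continuous_const
    have h2 : IsClosed {q : ℂ × ℂ | q.1.im ≤ -(1 / 2)} := isClosed_le (by fun_prop) continuous_const
    have h3 : IsClosed {q : ℂ × ℂ | 1 / 8 ≤ q.2.im} := isClosed_le continuous_const (by fun_prop)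
    exact h1.inter (h2.inter h3)
  · exact (isBounded_closedBall (x := z0) (r := 3)).subset fun q hq => by
      rw [mem_closedBall, dist_eq_norm]; exact hq.1

lemma Bo_sub (ha : 0 ≤ a) : Bo ⊆ Wg a := by
  intro q hq
  obtain ⟨-, h1, h2⟩ := hq
  have : 0 < q.2.im := by linarith
  exact ⟨this, by have := mul_nonneg ha this.le; linarith⟩

lemma z0_Bo : z0 ∈ Bo := by
  refine ⟨by simp, ?_, ?_⟩
  · have e1 : (z0.1).im = -1 := by simp [z0]
    rw [e1]; norm_num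
  · have e2 : (z0.2).im = 1 / 4 := by simp [z0]
    rw [e2]; norm_num

lemma ball_Bo : closedBall z0 (1 / 10) ⊆ Bo := by
  intro q hq
  rw [mem_closedBall, dist_eq_norm] at hq
  have e1 : (z0.1).im = -1 := by simp [z0]
  have e2 : (z0.2).im = 1 / 4 := by simp [z0]
  have h1 : ‖q.1 - z0.1‖ ≤ 1 / 10 := (norm_fst_le (q - z0)).trans hq
  have h2 : ‖q.2 - z0.2‖ ≤ 1 / 10 := (norm_snd_le (q - z0)).trans hq
  have h3 := abs_le.1 ((Complex.abs_im_le_norm _).trans h1)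
  have h4 := abs_le.1 ((Complex.abs_im_le_norm _).trans h2)
  rw [Complex.sub_im, e1] at h3
  rw [Complex.sub_im, e2] at h4
  refine ⟨by linarith, by linarith [h3.2], by linarith [h4.1]⟩

/-- real shift of `z0` -/
def sh (r1 r2 : ℝ) : ℂ × ℂ := (z0.1 + (r1 : ℂ), z0.2 + (r2 : ℂ))

lemma norm_sh (r1 r2 : ℝ) : ‖sh r1 r2 - z0‖ = max |r1| |r2| := by
  have : sh r1 r2 - z0 = ((r1 : ℂ), (r2 : ℂ)) := by
    unfold sh; ext <;> simp
  rw [this, Prod.norm_def]
  simp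

lemma sh_Bo {r1 r2 : ℝ} (h1 : |r1| ≤ 3) (h2 : |r2| ≤ 3) : sh r1 r2 ∈ Bo := by
  obtain ⟨-, h3, h4⟩ := z0_Bo
  refine ⟨by rw [norm_sh]; exact max_le h1 h2, ?_, ?_⟩
  · show (z0.1 + (r1 : ℂ)).im ≤ _
    rw [Complex.add_im, Complex.ofReal_im, add_zero]; exact h3
  · show _ ≤ (z0.2 + (r2 : ℂ)).im
    rw [Complex.add_im, Complex.ofReal_im, add_zero]; exact h4

lemma ray_sh {x x' u' v s : ℝ} (hs : 0 < s) :
    ray (x', v) s = bl (x, u') s (sh ((x' - x) / s) ((v - u') / s)) := by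
  have hs' : (s : ℂ) ≠ 0 := by exact_mod_cast hs.ne'
  unfold ray bl sh z0
  ext
  · push_cast; field_simp; ring
  · push_cast; field_simp; ring

/-- the label of a near base (same scale) -/
theorem intr_near (D : ED u0 R d h ψ H A φ p B X L) {x' u' u'' s κ : ℝ} (hκ : 0 < κ)
    (hs : 0 < s) (hu : |u' - u''| ≤ s / 10) (hd : 5 * s ≤ d) (hR5 : 5 * s + |u' - u0| ≤ R)
    (h1 : |(B (ray (x', u') s)).im| ≤ h - κ / 2)
    (h2 : κ / 2 ≤ ‖deriv ψ (B (ray (x', u') s))‖) :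
    Intr h (min (κ / 2) (κ / 2 * (1 / 4) ^ 2 / KA 1)) ψ B (x', u'') s := by
  have hPB : PB (x', u') (5 * s) ⊆ X := by
    refine Subset.trans ?_ D.Dp_X
    intro q hq
    obtain ⟨q1, q2, q3, q4⟩ := hq
    have r1 := abs_le.1 ((Complex.abs_im_le_norm _).trans q1.le)
    rw [Complex.sub_im, Complex.ofReal_im] at r1
    refine ⟨?_, q3, ?_, q4⟩
    · have r2 := (Complex.abs_im_le_norm _).trans_lt q1
      rw [Complex.sub_im, Complex.ofReal_im, sub_zero, abs_lt] at r2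
      linarith [r2.1]
    · rw [mem_ball, dist_eq_norm]
      have e : q.2 - (u0 : ℂ) = (q.2 - ((u' : ℝ) : ℂ)) + (((u' - u0 : ℝ)) : ℂ) := by
        push_cast; ring
      rw [e]
      have q2' : ‖q.2 - ((u' : ℝ) : ℂ)‖ < 5 * s := q2
      refine (norm_add_le _ _).trans_lt ?_
      rw [Complex.norm_real, Real.norm_eq_abs]
      linarith
  constructor
  · have e1 : (ray (x', u'') s).1 - ((x' : ℝ) : ℂ) = ((-s : ℝ) : ℂ) * I := by
      simp [ray, bl]
    have e2 : (ray (x', u'') s).2 - ((u' : ℝ) : ℂ) = ((u'' - u' : ℝ) : ℂ)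
        + ((s / 4 : ℝ) : ℂ) * I := by
      simp [ray, bl]; ring
    have e3 : (ray (x', u'') s).1.im = -s := by simp [ray, bl]
    have e4 : (ray (x', u'') s).2.im = s / 4 := by simp [ray, bl]; ring
    have h3 := side_depth (e := (x', u')) (s := s) (ρ := 5 * s) (d := 1 / 4) (A := 1) (h := h)
      (c0 := κ / 2) le_rfl hs (by linarith) (by norm_num) (D.B_diff.mono hPB)
      (fun q hq => (D.B_im q (hPB hq)).le) (by positivity) h1 (q := ray (x', u'') s)
      (by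
        show ‖(ray (x', u'') s).1 - ((x' : ℝ) : ℂ)‖ ≤ 1 * s
        rw [e1, norm_mul, norm_I, mul_one, Complex.norm_real, Real.norm_eq_abs, abs_neg,
          abs_of_pos hs, one_mul])
      (by
        show ‖(ray (x', u'') s).2 - ((u' : ℝ) : ℂ)‖ ≤ 1 * s
        rw [e2]
        refine (norm_add_le _ _).trans ?_
        rw [norm_mul, norm_I, mul_one, Complex.norm_real, Complex.norm_real, Real.norm_eq_abs,
          Real.norm_eq_abs, abs_of_pos (show 0 < s / 4 by linarith), abs_sub_comm]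
        linarith)
      (by rw [e3]; linarith) (by rw [e4]; linarith)
    have h4 := min_le_right (κ / 2) (κ / 2 * (1 / 4) ^ 2 / KA 1)
    linarith
  · refine ⟨sh ((x' - x') / s) ((u' - u'') / s), ?_, ?_⟩
    · rw [mem_closedBall, dist_eq_norm, norm_sh]
      refine max_le (by simp) ?_
      rw [abs_div, abs_of_pos hs, div_le_iff₀ hs]
      linarith
    · rw [← ray_sh hs]
      exact (min_le_left _ _).trans h2

/-- non degeneracy at the root from slowness -/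
lemma root_nd {κ k s : ℝ} {e : ℝ × ℝ} (hI : Intr h κ ψ B e s)
    (hmod : ∀ b b' : ℂ, |b.im| ≤ h - κ → ‖b' - b‖ ≤ k → ‖ψ b' - ψ b‖ ≤ κ / 4 ∧
      ‖deriv ψ b' - deriv ψ b‖ ≤ κ / 4)
    (hs : ∀ q ∈ Bo, ‖B (bl e s q) - B (bl e s z0)‖ ≤ k) :
    3 * κ / 4 ≤ ‖deriv ψ (B (ray e s))‖ := by
  obtain ⟨h1, q, hq, h2⟩ := hI
  have h3 := (hmod (B (ray e s)) (B (bl e s q)) h1 (hs q (ball_Bo hq))).2
  have h4 := norm_sub_norm_le (deriv ψ (B (bl e s q))) (deriv ψ (B (ray e s)))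
  linarith

/-- the label at a moved base, large scales -/
lemma intr_root {κ k s x x' u'' : ℝ} (hκ : 0 < κ) (hs0 : 0 < s) (hk : k ≤ κ / 4)
    (hI : Intr h κ ψ B (x, u) s)
    (hmod : ∀ b b' : ℂ, |b.im| ≤ h - κ → ‖b' - b‖ ≤ k → ‖ψ b' - ψ b‖ ≤ κ / 4 ∧
      ‖deriv ψ b' - deriv ψ b‖ ≤ κ / 4)
    (hs : ∀ q ∈ Bo, ‖B (bl (x, u) s q) - B (bl (x, u) s z0)‖ ≤ k) (hx : |x' - x| ≤ 3 * s)
    (hu : |u'' - u| ≤ 3 * s) : Intr h (κ / 2) ψ B (x', u'') s := by
  have h0 := root_nd hI hmod hs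
  have hmem : sh ((x' - x) / s) ((u'' - u) / s) ∈ Bo := by
    apply sh_Bo
    · rw [abs_div, abs_of_pos hs0, div_le_iff₀ hs0]; exact hx
    · rw [abs_div, abs_of_pos hs0, div_le_iff₀ hs0]; exact hu
  have h1 := hs _ hmem
  rw [← ray_sh hs0] at h1
  have h1' : ‖B (ray (x', u'') s) - B (ray (x, u) s)‖ ≤ k := h1
  have h2 := (hmod _ _ hI.1 h1').2
  have h3 := norm_sub_norm_le (deriv ψ (B (ray (x, u) s))) (deriv ψ (B (ray (x', u'') s)))
  rw [norm_sub_rev] at h3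
  refine ⟨?_, z0, ?_, ?_⟩
  · have h4 := abs_le.1 ((Complex.abs_im_le_norm _).trans h1')
    rw [Complex.sub_im] at h4
    have h5 := abs_le.1 hI.1
    rw [abs_le]
    constructor <;> linarith [h4.1, h4.2, h5.1, h5.2]
  · rw [mem_closedBall, dist_self]; norm_num
  · show κ / 2 ≤ ‖deriv ψ (B (ray (x', u'') s))‖
    linarith

/-! ### the collapse -/

lemma ray_mem_X (D : ED u0 R d h ψ H A φ p B X L) {x' u' t : ℝ} (ht : 0 < t) (hd : t < d)
    (hR' : t + |u' - u0| < R) : ray (x', u') t ∈ X := by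
  apply D.Dp_X
  have e1 : (ray (x', u') t).1.im = -t := by simp [ray, bl]
  have e2 : (ray (x', u') t).2.im = t / 4 := by simp [ray, bl]; ring
  refine ⟨by rw [e1]; linarith, by rw [e1]; linarith, ?_, ?_⟩
  · rw [mem_ball, dist_eq_norm]
    have e : (ray (x', u') t).2 - (u0 : ℂ) = ((u' - u0 : ℝ) : ℂ) + ((t / 4 : ℝ) : ℂ) * I := by
      simp [ray, bl]; ring
    rw [e]
    refine (norm_add_le _ _).trans_lt ?_
    rw [norm_mul, norm_I, mul_one, Complex.norm_real, Complex.norm_real, Real.norm_eq_abs,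
      Real.norm_eq_abs, abs_of_pos (show 0 < t / 4 by linarith)]
    linarith
  · show 0 < (ray (x', u') t).2.im
    rw [e2]; linarith

/-- one column: slowness at `(x', u'; t)` from the uniform rigidity at the scale `10 t` over the
good base `u''` -/
theorem slow_step (D : ED u0 R d h ψ H A φ p B X L) {κ κ₂ kb ε ε₂ s1 τ s₂ x : ℝ} {U : Set ℝ}
    {K K' : Set (ℂ × ℂ)} (hκ : 0 < κ) (hκ₂ : κ₂ = min (κ / 2) (κ / 2 * (1 / 4) ^ 2 / KA 1))
    (hkb : kb ≤ κ / 4) (hτd : 16 * τ ≤ d) (hτR : 16 * τ ≤ R - |u - u0|)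
    (hmod : ∀ b b' : ℂ, |b.im| ≤ h - κ → ‖b' - b‖ ≤ kb → ‖ψ b' - ψ b‖ ≤ κ / 4 ∧
      ‖deriv ψ b' - deriv ψ b‖ ≤ κ / 4)
    (hI : ∀ s, 0 < s → s ≤ τ → Intr h κ ψ B (x, u) s)
    (hroot : ∀ s, 0 < s → s ≤ τ → ∀ q ∈ Bo, ‖B (bl (x, u) s q) - B (bl (x, u) s z0)‖ ≤ kb)
    (hreb : ∀ (K K' : Set (ℂ × ℂ)) (x' u' u'' t : ℝ), 0 < t → |u' - u''| ≤ t →
      |(B (ray (x', u'') (10 * t))).im| ≤ h - κ₂ →
      SlowAt ε₂ (Kt K) (Kt K') ψ (fun q => φ (bl (x', u'') (10 * t) q))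
        (fun q => p (bl (x', u'') (10 * t) q)) (fun q => B (bl (x', u'') (10 * t) q)) →
      SlowAt ε K K' ψ (fun q => φ (bl (x', u') t q)) (fun q => p (bl (x', u') t q))
        (fun q => B (bl (x', u') t q)))
    (hs₂ : s₂ ≤ τ)
    (hun : ∀ x' u'' s : ℝ, |x' - x| ≤ s₂ → u'' ∈ U → |u'' - u| ≤ s₂ → 0 < s → s ≤ s₂ →
      (∀ s'' ∈ Icc s τ, Intr h κ₂ ψ B (x', u'') s'') →
      SlowAt ε₂ (Kt K) (Kt K') ψ (fun q => φ (bl (x', u'') s q))
        (fun q => p (bl (x', u'') s q)) (fun q => B (bl (x', u'') s q)))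
    (hs1 : 0 < s1) (hs1₂ : 20 * s1 ≤ s₂) {x' u' u'' t : ℝ} (ht : 0 < t) (hts : t ≤ s1)
    (hx' : |x' - x| ≤ s1) (hu' : |u' - u| ≤ s1) (hU : u'' ∈ U) (huu : |u' - u''| ≤ t)
    (hlab : ∀ t' ∈ Icc t s1, ‖B (ray (x', u') t') - B (ray (x, u) s1)‖ ≤ kb) :
    Intr h (κ / 2) ψ B (x', u') t ∧
    SlowAt ε K K' ψ (fun q => φ (bl (x', u') t q)) (fun q => p (bl (x', u') t q))
        (fun q => B (bl (x', u') t q)) := by
  have hs1τ : s1 ≤ τ := by linarith
  have hb0 := (hI s1 hs1 hs1τ).1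
  have hnd := root_nd (hI s1 hs1 hs1τ) hmod (hroot s1 hs1 hs1τ)
  -- labels on the column below `s1`
  have hcol : ∀ t' ∈ Icc t s1, |(B (ray (x', u') t')).im| ≤ h - κ / 2 ∧
      κ / 2 ≤ ‖deriv ψ (B (ray (x', u') t'))‖ := by
    intro t' ht'
    have h1 := hlab t' ht'
    have h2 := (hmod _ _ hb0 h1).2
    have h3 := norm_sub_norm_le (deriv ψ (B (ray (x, u) s1))) (deriv ψ (B (ray (x', u') t')))
    rw [norm_sub_rev] at h3
    have h4 := abs_le.1 ((Complex.abs_im_le_norm _).trans h1)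
    rw [Complex.sub_im] at h4
    have h5 := abs_le.1 hb0
    refine ⟨?_, by linarith⟩
    rw [abs_le]
    constructor <;> linarith [h4.1, h4.2, h5.1, h5.2]
  have hu0' : |u' - u0| ≤ s1 + |u - u0| := by
    have := abs_sub_le u' u u0
    linarith
  have huu2 : |u'' - u| ≤ 2 * s1 := by
    have := abs_sub_le u'' u' u
    rw [abs_sub_comm u'' u'] at this
    linarith
  -- the column over the good base
  have hInt : ∀ s'' ∈ Icc (10 * t) τ, Intr h κ₂ ψ B (x', u'') s'' := by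
    intro s'' hs''
    have hs''0 : 0 < s'' := by linarith [hs''.1]
    rcases le_or_gt s'' s1 with hc | hc
    · obtain ⟨c1, c2⟩ := hcol s'' ⟨by linarith [hs''.1], hc⟩
      rw [hκ₂]
      exact intr_near D hκ hs''0 (by linarith [hs''.1]) (by linarith [hs''.2])
        (by linarith [hs''.2]) c1 c2
    · refine Intr_mono ?_ (intr_root hκ hs''0 hkb (hI s'' hs''0 hs''.2) hmod
        (hroot s'' hs''0 hs''.2) (by linarith) (by linarith))
      rw [hκ₂]; exact min_le_left _ _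
  have h10 : 0 < 10 * t := by linarith
  have hS := hun x' u'' (10 * t) (by linarith) hU (by linarith) h10 (by linarith) hInt
  obtain ⟨c1, c2⟩ := hcol t (left_mem_Icc.2 hts)
  refine ⟨⟨c1, z0, by rw [mem_closedBall, dist_self]; norm_num, c2⟩, ?_⟩
  exact hreb K K' x' u' u'' t ht huu (hInt (10 * t) ⟨le_rfl, by linarith⟩).1 hS

/-- **ColPhi**, expanded form (859 #31770) -/
theorem colPhi_core (D : ED u0 R d h ψ H A φ p B X L) (hu : u ∈ Ioo (u0 - R) (u0 + R))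
    (ha : 0 ≤ a) (hg : 0 < g) (hR : Rigid u0 R d h ψ φ p B X L u s₀ a g) {κ : ℝ} (hκ : 0 < κ) :
    ∃ k > 0, ∃ κ' > 0, ∀ ε > 0, ∀ K ⊆ Wg (a + g), IsCompact K → ∀ K' ⊆ Wg a, IsCompact K' →
      ∃ ρ₁ > 0, ∀ (ρ δ : ℝ) (U : Set ℝ), ρ ≤ ρ₁ → 0 < ρ → 0 < δ → IsClosed U → u ∈ U →
      (∀ u' ∈ U, ∀ s : ℝ, |s - s₀| < δ → E2 X L a g ρ δ (s, u')) →
      ∃ δ₁ > 0, ∀ x : ℝ, |x - s₀| < δ₁ → ∀ σ > 0, (∀ s ∈ Ioo 0 σ, Intr h κ ψ B (x, u) s) →
      ∃ s₂ > 0, ∀ s1 : ℝ, 0 < s1 → s1 ≤ s₂ → ∀ (p' : ℝ × ℝ) (s' : ℝ),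
        Chain859.V (fun p s => φ (ray p s)) (φ (ray (x, u) s1)) s1 (x, u) k p' s' →
        infDist p'.2 U ≤ s' →
        Intr h κ' ψ B p' s' ∧ ‖B (ray p' s') - B (ray (x, u) s1)‖ ≤ κ / 4 ∧
          SlowAt ε K K' ψ (fun q => φ (bl p' s' q)) (fun q => p (bl p' s' q))
            (fun q => B (bl p' s' q)) := by
  have hC := D.curve
  obtain ⟨km, hkm, hmod0⟩ := mod_cont hC hκ (show 0 < κ / 4 by positivity)
  obtain ⟨kb, hkb, hkb1, hkb2, kφ, hkφ, εb, hεb, hboot⟩ :=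
    boot hC (κ := κ / 2) (k₀ := min km (κ / 4)) (by positivity) (by positivity)
  have hkbm : kb ≤ km := hkb1.trans (min_le_left _ _)
  have hkb4 : kb ≤ κ / 4 := hkb1.trans (min_le_right _ _)
  have hmod : ∀ b b' : ℂ, |b.im| ≤ h - κ → ‖b' - b‖ ≤ kb → ‖ψ b' - ψ b‖ ≤ κ / 4 ∧
      ‖deriv ψ b' - deriv ψ b‖ ≤ κ / 4 := fun b b' h1 h2 => hmod0 b b' h1 (h2.trans hkbm)
  refine ⟨kφ, hkφ, κ / 2, by positivity, ?_⟩
  intro ε hε K hK hKc K' hK' hKc'
  have hag : 0 ≤ a + g := by linarith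
  set K1 : Set (ℂ × ℂ) := insert z0 K with hK1
  have hK1s : K1 ⊆ Wg (a + g) := insert_subset (z0_mem_Wg hag) hK
  have hK1c : IsCompact K1 := hKc.insert z0
  set ε₁ : ℝ := min kb εb with hε₁
  have hε₁0 : 0 < ε₁ := by positivity
  set κ₂ : ℝ := min (κ / 2) (κ / 2 * (1 / 4) ^ 2 / KA 1) with hκ₂
  have hκ₂0 : 0 < κ₂ := by have := KA_pos (A := 1) le_rfl; positivity
  obtain ⟨ε₂, hε₂, hreb⟩ := slow_rebase D hκ₂0 (show 0 < min ε εb by positivity)
  have hRu : 0 < R - |u - u0| := by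
    have : |u - u0| < R := by rw [abs_lt]; constructor <;> linarith [hu.1, hu.2]
    linarith
  by_contra hcon
  have hseq : ∀ n : ℕ, ∃ (ρ δ : ℝ) (U : Set ℝ) (x σ : ℝ), ρ ≤ 1 / ((n : ℝ) + 1) ∧ 0 < ρ ∧
      0 < δ ∧ IsClosed U ∧ u ∈ U ∧
      (∀ u' ∈ U, ∀ s : ℝ, |s - s₀| < δ → E2 X L a g ρ δ (s, u')) ∧
      |x - s₀| < min (1 / ((n : ℝ) + 1)) (δ / 2) ∧ 0 < σ ∧
      (∀ s ∈ Ioo 0 σ, Intr h κ ψ B (x, u) s) ∧
      ¬ ∃ s₂ > 0, ∀ s1 : ℝ, 0 < s1 → s1 ≤ s₂ → ∀ (p' : ℝ × ℝ) (s' : ℝ),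
        Chain859.V (fun p s => φ (ray p s)) (φ (ray (x, u) s1)) s1 (x, u) kφ p' s' →
        infDist p'.2 U ≤ s' →
        Intr h (κ / 2) ψ B p' s' ∧ ‖B (ray p' s') - B (ray (x, u) s1)‖ ≤ κ / 4 ∧
          SlowAt ε K K' ψ (fun q => φ (bl p' s' q)) (fun q => p (bl p' s' q))
            (fun q => B (bl p' s' q)) := by
    intro n
    by_contra hno
    apply hcon
    refine ⟨1 / ((n : ℝ) + 1), by positivity, fun ρ δ U h1 h2 h3 h4 h5 h6 =>
      ⟨min (1 / ((n : ℝ) + 1)) (δ / 2), by positivity, fun x hx σ hσ hcol => ?_⟩⟩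
    by_contra hno2
    exact hno ⟨ρ, δ, U, x, σ, h1, h2, h3, h4, h5, h6, hx, hσ, hcol, hno2⟩
  choose ρ δ U x σ hρ1 hρ0 hδ0 hUc huU hE2 hx hσ hcol hbad using hseq
  set τ : ℕ → ℝ := fun n => min (min (σ n / 2) (δ n / 16))
    (min (d / 16) ((R - |u - u0|) / 16)) with hτ
  have hd0 := D.d_pos
  have hτ0 : ∀ n, 0 < τ n := fun n => by
    have := hσ n; have := hδ0 n
    simp only [hτ]; positivity
  have hτσ : ∀ n, τ n ≤ σ n / 2 := fun n => (min_le_left _ _).trans (min_le_left _ _)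
  have hτδ : ∀ n, τ n ≤ δ n / 16 := fun n => (min_le_left _ _).trans (min_le_right _ _)
  have hτd : ∀ n, τ n ≤ d / 16 := fun n => (min_le_right _ _).trans (min_le_left _ _)
  have hτR : ∀ n, τ n ≤ (R - |u - u0|) / 16 := fun n =>
    (min_le_right _ _).trans (min_le_right _ _)
  have hinv : Tendsto (fun n : ℕ => 1 / ((n : ℝ) + 1)) atTop (𝓝 0) :=
    tendsto_one_div_add_atTop_nhds_zero_nat
  have hxlim : Tendsto x atTop (𝓝 s₀) := by
    have h1 : Tendsto (fun n => x n - s₀) atTop (𝓝 0) := squeeze_zero_norm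
      (fun n => by rw [Real.norm_eq_abs]; exact ((hx n).trans_le (min_le_left _ _)).le) hinv
    simpa using h1.add_const s₀
  have hρlim : Tendsto ρ atTop (𝓝 0) := squeeze_zero (fun n => (hρ0 n).le) hρ1 hinv
  have hT : Tops u0 R d X L u s₀ a g x ρ δ τ U := by
    refine ⟨hxlim, hρ0, hρlim, fun n => ?_, hE2, huU, hτ0, fun n => ?_, fun n => ?_, fun n => ?_⟩
    · have := (hx n).trans_le (min_le_right _ _); linarith
    · have := hτδ n; have := hδ0 n; linarith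
    · have := hτd n; linarith
    · have := hτR n; linarith
  -- the root columns are slow
  have hP1 : ∀ᶠ n in atTop, ∃ t > 0, t ≤ τ n ∧ ∀ s, 0 < s → s ≤ t →
      SlowAt ε₁ {z0} Bo ψ (fun q => φ (bl (x n, u) s q)) (fun q => p (bl (x n, u) s q))
        (fun q => B (bl (x n, u) s q)) := by
    have h1 := rigid_unif D ha hg hR hT hκ hε₁0 (K := {z0}) (K' := Bo)
      (singleton_subset_iff.2 (z0_mem_Wg hag)) isCompact_singleton (Bo_sub ha) Bo_compact
    filter_upwards [h1] with n hn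
    obtain ⟨s₂, hs₂, hs₂τ, hn⟩ := hn
    refine ⟨s₂, hs₂, hs₂τ, fun s hs hss => hn (x n) u s (by simpa using hs₂.le) (huU n)
      (by simpa using hs₂.le) hs hss fun s'' hs'' => hcol n s'' ⟨by linarith [hs''.1], ?_⟩⟩
    have := hτσ n; have := hσ n; linarith [hs''.2]
  obtain ⟨N, hN⟩ := eventually_atTop.1 hP1
  have hP : ∀ n, ∃ t > 0, t ≤ τ (n + N) ∧ ∀ s, 0 < s → s ≤ t →
      SlowAt ε₁ {z0} Bo ψ (fun q => φ (bl (x (n + N), u) s q))
        (fun q => p (bl (x (n + N), u) s q)) (fun q => B (bl (x (n + N), u) s q)) :=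
    fun n => hN (n + N) (Nat.le_add_left _ _)
  choose t ht0 htτ htS using hP
  have hshift : Tendsto (fun n : ℕ => n + N) atTop atTop := tendsto_add_atTop_nat N
  have hT2 : Tops u0 R d X L u s₀ a g (fun n => x (n + N)) (fun n => ρ (n + N))
      (fun n => δ (n + N)) t (fun n => U (n + N)) := by
    refine ⟨hxlim.comp hshift, fun n => hρ0 _, hρlim.comp hshift, fun n => hT.xδ _,
      fun n => hE2 _, fun n => huU _, ht0, fun n => ?_, fun n => ?_, fun n => ?_⟩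
    · have := hT.τδ (n + N); have := htτ n; linarith
    · have := hT.τd (n + N); have := htτ n; linarith
    · have := hT.τR (n + N); have := htτ n; linarith
  have h2 := rigid_unif D ha hg hR hT2 hκ₂0 hε₂ (K := Kt K1) (K' := Kt K')
    (Kt_sub hag hK1s) (Kt_compact hK1c) (Kt_sub ha hK') (Kt_compact hKc')
  obtain ⟨n, s₂, hs₂, hs₂t, hun⟩ := h2.exists
  apply hbad (n + N)
  refine ⟨s₂ / 20, by positivity, ?_⟩
  rintro s1 hs1 hs1₂ ⟨x', u'⟩ s' ⟨hs'0, hs's1, hdist, hV⟩ hinf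
  rw [Prod.dist_eq, Real.dist_eq, Real.dist_eq] at hdist
  have hx' : |x' - x (n + N)| ≤ s1 := (le_max_left _ _).trans hdist
  have hu' : |u' - u| ≤ s1 := (le_max_right _ _).trans hdist
  obtain ⟨u'', hu''U, hu''⟩ := (hUc (n + N)).exists_infDist_eq_dist ⟨u, huU (n + N)⟩ u'
  have huu : |u' - u''| ≤ s' := by
    rw [← Real.dist_eq, ← hu'']; exact hinf
  have htn := ht0 n
  have hItn : ∀ s, 0 < s → s ≤ t n → Intr h κ ψ B (x (n + N), u) s := fun s h1 h2 =>
    hcol (n + N) s ⟨h1, by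
      have := hτσ (n + N); have := hσ (n + N); have := htτ n; linarith⟩
  have hrootn : ∀ s, 0 < s → s ≤ t n → ∀ q ∈ Bo,
      ‖B (bl (x (n + N), u) s q) - B (bl (x (n + N), u) s z0)‖ ≤ kb := fun s h1 h2 q hq =>
    ((htS n s h1 h2).2 q hq).trans (min_le_left _ _)
  have h16d : 16 * t n ≤ d := by have := hτd (n + N); have := htτ n; linarith
  have h16R : 16 * t n ≤ R - |u - u0| := by have := hτR (n + N); have := htτ n; linarith
  have hstep : ∀ t' ∈ Icc s' s1,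
      (∀ t'' ∈ Icc t' s1, ‖B (ray (x', u') t'') - B (ray (x (n + N), u) s1)‖ ≤ kb) →
      Intr h (κ / 2) ψ B (x', u') t' ∧
      SlowAt (min ε εb) K1 K' ψ (fun q => φ (bl (x', u') t' q))
        (fun q => p (bl (x', u') t' q)) (fun q => B (bl (x', u') t' q)) := by
    intro t' ht' hlab
    exact slow_step D hκ hκ₂ hkb4 h16d h16R hmod hItn hrootn hreb hs₂t
      (fun y v s => hun y v s) hs1 (by linarith) (by linarith [ht'.1]) ht'.2 hx' hu' hu''U
      (huu.trans ht'.1) hlab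
  have hs1t : s1 ≤ t n := by linarith
  -- continuity of the label on the ray
  have hcont : ContinuousOn (fun r : ℝ => B (ray (x', u') r)) (Icc s' s1) := by
    refine D.B_diff.continuousOn.comp (f := fun r : ℝ => ray (x', u') r) ?_ ?_
    · apply Continuous.continuousOn
      unfold ray bl
      fun_prop
    · intro r hr
      refine ray_mem_X D (by linarith [hr.1]) (by linarith [hr.2]) ?_
      have := abs_sub_le u' u u0
      linarith [hr.2]
  have hroot1 := htS n s1 hs1 hs1t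
  have hb := hboot s' s1 (fun r => B (ray (x', u') r)) (fun r => φ (ray (x', u') r))
    (B (ray (x (n + N), u) s1)) (φ (ray (x (n + N), u) s1)) hs's1 hcont
    ((hItn s1 hs1 hs1t).1.trans (by linarith))
    (by have := root_nd (hItn s1 hs1 hs1t) hmod (hrootn s1 hs1 hs1t); linarith)
    (((hroot1.1 z0 rfl).1).trans (min_le_right _ _))
    (by
      have hmem : sh ((x' - x (n + N)) / s1) ((u' - u) / s1) ∈ Bo := by
        apply sh_Bo
        · rw [abs_div, abs_of_pos hs1, div_le_iff₀ hs1]; linarith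
        · rw [abs_div, abs_of_pos hs1, div_le_iff₀ hs1]; linarith
      have h3 := hrootn s1 hs1 hs1t _ hmem
      rw [← ray_sh hs1] at h3
      exact h3)
    (fun r hr => hV r hr.1 hr.2)
    (fun r hr hlab => (((hstep r hr hlab).2.1 z0 (mem_insert _ _)).1).trans (min_le_right _ _))
  have hlab' : ∀ t'' ∈ Icc s' s1,
      ‖B (ray (x', u') t'') - B (ray (x (n + N), u) s1)‖ ≤ kb := fun r hr => by
    have := (hb r hr).1
    linarith
  obtain ⟨f1, f2⟩ := hstep s' (left_mem_Icc.2 hs's1) hlab'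
  refine ⟨f1, (hlab' s' (left_mem_Icc.2 hs's1)).trans hkb4, ?_, ?_⟩
  · intro q hq
    have := f2.1 q (mem_insert_of_mem _ hq)
    exact ⟨this.1.trans (min_le_left _ _), this.2.trans (min_le_left _ _)⟩
  · intro q hq
    exact (f2.2 q hq).trans (min_le_left _ _)

end Crest.Agent.R102.Coll172
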