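import Crest.Agent.R102.LemG2_864

/-!
Row 102, T1-B, step 5 (1) (helper300): Schottky chains inside a union of cones.

`cone_chain`: `F : ℂ × ℂ → ℂ` omits `0, 1` on the union of two cones with apexes
`(x0 + i l0, u0)`, `(x1 + i l1, u1)`; then `1 + |log |F||` at a point of the second cone at depth
`d` is at most `C (r / d)^S` times its value at depth `r` below the first apex.
-/

set_option autoImplicit false

open Set Filter Metric Complex Topology

namespace Crest.Agent.R102.F300

open Crest.Agent.R102.G864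

/-- `1 + |log ‖F q‖|` -/
noncomputable def HE {E : Type*} (F : E → ℂ) (q : E) : ℝ := 1 + |Real.log ‖F q‖|

theorem one_le_HE {E : Type*} (F : E → ℂ) (q : E) : 1 ≤ HE F q := by
  unfold HE; linarith [abs_nonneg (Real.log ‖F q‖)]

variable {E : Type*} [NormedAddCommGroup E] [NormedSpace ℂ E]

/-- `F` holomorphic on the open set `W`, omits `0` and `1` -/
structure OmE (W : Set E) (F : E → ℂ) : Prop where
  open_ : IsOpen W
  diff : DifferentiableOn ℂ F W
  ne0 : ∀ z ∈ W, F z ≠ 0
  ne1 : ∀ z ∈ W, F z ≠ 1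

theorem HE_step {W : Set E} {F : E → ℂ} (h : OmE W F) {w w' : E} {r : ℝ} (hr : 0 < r)
    (hb : ball w r ⊆ W) (hw : ‖w' - w‖ ≤ r / 2) : HE F w' ≤ K1 * HE F w := by
  have hK := one_le_K1
  have hH := one_le_HE F w
  rcases eq_or_ne w' w with rfl | hne
  · nlinarith
  have hn : 0 < ‖w' - w‖ := norm_pos_iff.2 (sub_ne_zero.2 hne)
  set n : ℝ := ‖w' - w‖ with hnd
  set v : E := ((1 / n : ℝ) : ℂ) • (w' - w) with hv
  have hvn : ‖v‖ = 1 := by
    rw [hv, norm_smul, norm_real, Real.norm_eq_abs, abs_of_pos (by positivity), ← hnd]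
    field_simp
  set f : ℂ → ℂ := fun ζ => F (w + ζ • v) with hf
  have hmaps : ∀ ζ ∈ ball (0 : ℂ) r, w + ζ • v ∈ ball w r := by
    intro ζ hζ
    rw [mem_ball, dist_eq_norm, add_sub_cancel_left, norm_smul, hvn, mul_one]
    rwa [mem_ball, dist_zero_right] at hζ
  have hOm : Om (ball (0 : ℂ) r) f := by
    refine ⟨isOpen_ball, ?_, ?_, ?_⟩
    · intro ζ hζ
      have h1 : DifferentiableAt ℂ F (w + ζ • v) :=
        h.diff.differentiableAt (h.open_.mem_nhds (hb (hmaps ζ hζ)))
      have h2 : DifferentiableAt ℂ (fun ζ : ℂ => w + ζ • v) ζ := by fun_prop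
      exact (h1.comp ζ h2).differentiableWithinAt
    · intro ζ hζ
      exact h.ne0 _ (hb (hmaps ζ hζ))
    · intro ζ hζ
      exact h.ne1 _ (hb (hmaps ζ hζ))
  have h1 := HH_step hOm (w := 0) (w' := (n : ℂ)) hr subset_rfl
    (by rw [sub_zero, norm_real, Real.norm_eq_abs, abs_of_pos hn]; exact hw)
  have e1 : f (n : ℂ) = F w' := by
    rw [hf]
    simp only
    congr 1
    rw [hv, smul_smul, ← ofReal_mul, mul_one_div_cancel hn.ne', ofReal_one, one_smul]
    abel
  have e0 : f 0 = F w := by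
    rw [hf]; simp
  unfold HH at h1
  rw [e1, e0] at h1
  exact h1

theorem HE_chain {W : Set E} {F : E → ℂ} (h : OmE W F) {r : ℝ} (hr : 0 < r) (N : ℕ) :
    ∀ w w' : E, (∀ s ∈ segment ℝ w w', ball s r ⊆ W) → ‖w' - w‖ ≤ N * (r / 2) →
    HE F w' ≤ K1 ^ N * HE F w := by
  induction N with
  | zero =>
    intro w w' _ h2
    have : w' = w := by
      rw [Nat.cast_zero, zero_mul] at h2
      exact sub_eq_zero.1 (norm_le_zero_iff.1 h2)
    rw [this, pow_zero, one_mul]
  | succ N ih =>
    intro w w' h1 h2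
    by_cases hc : ‖w' - w‖ ≤ r / 2
    · have h3 := HE_step h hr (h1 w (left_mem_segment ℝ w w')) hc
      have hK := one_le_K1
      have h4 : K1 ≤ K1 ^ (N + 1) := by
        calc K1 = K1 ^ 1 := (pow_one _).symm
          _ ≤ K1 ^ (N + 1) := pow_le_pow_right₀ hK (by omega)
      exact h3.trans (mul_le_mul_of_nonneg_right h4 (zero_le_one.trans (one_le_HE F w)))
    · push Not at hc
      have hn : 0 < ‖w' - w‖ := (by positivity : 0 < r / 2).trans hc
      -- one step from `w` towards `w'`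
      set θ : ℝ := (r / 2) / ‖w' - w‖ with hθ
      have hθ0 : 0 < θ := by positivity
      have hθ1 : θ ≤ 1 := by rw [hθ, div_le_one hn]; exact hc.le
      set m : E := w + θ • (w' - w) with hm
      have hmseg : m ∈ segment ℝ w w' := by
        rw [segment_eq_image']
        exact ⟨θ, ⟨hθ0.le, hθ1⟩, rfl⟩
      have hmw : ‖m - w‖ ≤ r / 2 := by
        rw [hm, add_sub_cancel_left, norm_smul, Real.norm_eq_abs, abs_of_pos hθ0, hθ]
        field_simp
        exact le_refl _
      have hmw' : ‖w' - m‖ ≤ N * (r / 2) := by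
        have e : w' - m = (1 - θ) • (w' - w) := by
          rw [hm, sub_smul, one_smul]; abel
        rw [e, norm_smul, Real.norm_eq_abs, abs_of_nonneg (by linarith)]
        have e2 : (1 - θ) * ‖w' - w‖ = ‖w' - w‖ - r / 2 := by
          rw [sub_mul, one_mul, hθ]
          field_simp
        rw [e2]
        push_cast at h2
        linarith
      have hsub : segment ℝ m w' ⊆ segment ℝ w w' :=
        (convex_segment w w').segment_subset hmseg (right_mem_segment ℝ w w')
      have h3 := HE_step h hr (h1 w (left_mem_segment ℝ w w')) hmw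
      have h4 := ih m w' (fun s hs => h1 s (hsub hs)) hmw'
      have hK := one_le_K1
      calc HE F w' ≤ K1 ^ N * HE F m := h4
        _ ≤ K1 ^ N * (K1 * HE F w) := mul_le_mul_of_nonneg_left h3 (by positivity)
        _ = K1 ^ (N + 1) * HE F w := by ring

/-- cone with apex `(x + i l, u)`, opening downwards, aperture `κ`, height `ρ` -/
def Con (x l u κ ρ : ℝ) : Set (ℂ × ℂ) :=
  {q | |q.1.re - x| + ‖q.2 - u‖ < κ * (l - q.1.im) ∧ l - q.1.im < ρ}

/-- the point at depth `r` below the apex -/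
def apx (x l u r : ℝ) : ℂ × ℂ := (⟨x, l - r⟩, (u : ℂ))

/-- balls around points of the half aperture cone -/
theorem ball_sub_Con {x l u κ ρ : ℝ} (hκ : 1 ≤ κ) {q : ℂ × ℂ} {d : ℝ} (hd : 0 < d)
    (h1 : |q.1.re - x| + ‖q.2 - u‖ ≤ κ * (l - q.1.im) / 2) (h2 : d ≤ l - q.1.im)
    (h3 : l - q.1.im ≤ ρ / 2) (_hρ : d ≤ ρ) : ball q (d / 12) ⊆ Con x l u κ ρ := by
  intro y hy
  rw [mem_ball, dist_eq_norm, Prod.norm_def, max_lt_iff] at hy
  obtain ⟨hy1, hy2⟩ := hy
  have e1 : |y.1.re - q.1.re| < d / 12 := (abs_re_le_norm (y - q).1).trans_lt hy1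
  have e2 : |y.1.im - q.1.im| < d / 12 := (abs_im_le_norm (y - q).1).trans_lt hy1
  have e3 : ‖y.2 - q.2‖ < d / 12 := hy2
  rw [abs_lt] at e2
  constructor
  · have t1 : |y.1.re - x| ≤ |y.1.re - q.1.re| + |q.1.re - x| := by
      have := abs_add_le (y.1.re - q.1.re) (q.1.re - x)
      simpa using this
    have t2 : ‖y.2 - u‖ ≤ ‖y.2 - q.2‖ + ‖q.2 - u‖ := by
      have := norm_add_le (y.2 - q.2) (q.2 - u)
      simpa using this
    have t3 : κ * (l - q.1.im) / 2 + d / 6 < κ * (l - q.1.im - d / 12) := by nlinarith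
    have t4 : κ * (l - q.1.im - d / 12) ≤ κ * (l - y.1.im) :=
      mul_le_mul_of_nonneg_left (by linarith) (by linarith)
    linarith
  · linarith

theorem HE_down {x l u κ ρ : ℝ} (hκ : 1 ≤ κ) {W : Set (ℂ × ℂ)} {F : ℂ × ℂ → ℂ} (h : OmE W F)
    (hW : Con x l u κ ρ ⊆ W) {d r : ℝ} (hd : 0 < d) (hdr : d ≤ r) (hr : r ≤ ρ / 2) :
    HE F (apx x l u d) ≤ K1 * (r / d) ^ (Real.log K1 / Real.log (25 / 24)) * HE F (apx x l u r) := by
  have hK := one_le_K1
  have hKp : 0 < K1 := by linarith
  have hL : 0 < Real.log (25 / 24 : ℝ) := Real.log_pos (by norm_num)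
  -- one step: `b ≤ a ≤ 25/24 b`
  have hstep : ∀ a b : ℝ, 0 < b → b ≤ a → a ≤ 25 / 24 * b → a ≤ ρ / 2 →
      HE F (apx x l u b) ≤ K1 * HE F (apx x l u a) := by
    intro a b hb hba hab ha
    have ha0 : 0 < a := hb.trans_le hba
    refine HE_step h (r := a / 12) (by positivity) ?_ ?_
    · refine (ball_sub_Con hκ (q := apx x l u a) (d := a) ha0 ?_ ?_ ?_ (by linarith)).trans hW
      · simp only [apx, sub_self, abs_zero, norm_zero, add_zero]
        have : 0 ≤ κ * (l - (l - a)) := by nlinarith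
        linarith
      · simp [apx]
      · simp only [apx]; linarith
    · have e : apx x l u b - apx x l u a = ((⟨0, a - b⟩ : ℂ), (0 : ℂ)) := by
        refine Prod.ext (Complex.ext ?_ ?_) ?_
        · simp [apx]
        · simp [apx]
        · simp [apx]
      rw [e, Prod.norm_def, norm_zero]
      have e2 : ‖(⟨0, a - b⟩ : ℂ)‖ = a - b := by
        have : (⟨0, a - b⟩ : ℂ) = ((a - b : ℝ) : ℂ) * I := by
          apply Complex.ext <;> simp
        rw [this, norm_mul, norm_I, mul_one, norm_real, Real.norm_eq_abs, abs_of_nonneg (by linarith)]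
      rw [e2, max_eq_left (by linarith)]
      linarith
  -- iterate
  have hiter : ∀ (N : ℕ) (a b : ℝ), 0 < b → b ≤ a → a ≤ (25 / 24) ^ N * b → a ≤ ρ / 2 →
      HE F (apx x l u b) ≤ K1 ^ N * HE F (apx x l u a) := by
    intro N
    induction N with
    | zero =>
      intro a b hb hba hab ha
      have : a = b := le_antisymm (by simpa using hab) hba
      rw [this]; simp
    | succ N ih =>
      intro a b hb hba hab ha
      by_cases hc : a ≤ 25 / 24 * b
      · have h1 := hstep a b hb hba hc ha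
        have h4 : K1 ≤ K1 ^ (N + 1) := by
          calc K1 = K1 ^ 1 := (pow_one _).symm
            _ ≤ K1 ^ (N + 1) := pow_le_pow_right₀ hK (by omega)
        exact h1.trans (mul_le_mul_of_nonneg_right h4 (zero_le_one.trans (one_le_HE F _)))
      · push Not at hc
        have h1 := hstep (25 / 24 * b) b hb (by linarith) le_rfl (by linarith)
        have h2 := ih a (25 / 24 * b) (by positivity) hc.le (by rw [pow_succ] at hab; nlinarith) ha
        calc HE F (apx x l u b) ≤ K1 * HE F (apx x l u (25 / 24 * b)) := h1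
          _ ≤ K1 * (K1 ^ N * HE F (apx x l u a)) := mul_le_mul_of_nonneg_left h2 hKp.le
          _ = K1 ^ (N + 1) * HE F (apx x l u a) := by ring
  have hrd : 1 ≤ r / d := by rw [le_div_iff₀ hd]; linarith
  have hrdp : 0 < r / d := by linarith
  set N : ℕ := ⌈Real.log (r / d) / Real.log (25 / 24)⌉₊ with hN
  have hlog0 : 0 ≤ Real.log (r / d) / Real.log (25 / 24) := div_nonneg (Real.log_nonneg hrd) hL.le
  have hN1 : Real.log (r / d) / Real.log (25 / 24) ≤ N := Nat.le_ceil _
  have hN2 : (N : ℝ) < Real.log (r / d) / Real.log (25 / 24) + 1 := Nat.ceil_lt_add_one hlog0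
  have hpow : r ≤ (25 / 24) ^ N * d := by
    have h1 : Real.log (r / d) ≤ N * Real.log (25 / 24) := by
      rwa [div_le_iff₀ hL] at hN1
    have h2 : r / d ≤ (25 / 24) ^ N := by
      rw [← Real.log_le_log_iff hrdp (by positivity), Real.log_pow]
      exact h1
    rwa [div_le_iff₀ hd] at h2
  have h3 := hiter N r d hd hdr hpow hr
  have h4 : K1 ^ N ≤ K1 * (r / d) ^ (Real.log K1 / Real.log (25 / 24)) := by
    have e1 : (r / d) ^ (Real.log K1 / Real.log (25 / 24))
        = K1 ^ (Real.log (r / d) / Real.log (25 / 24)) := by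
      rw [Real.rpow_def_of_pos hrdp, Real.rpow_def_of_pos hKp]
      congr 1
      ring
    rw [e1, ← Real.rpow_natCast K1 N]
    calc K1 ^ (N : ℝ) ≤ K1 ^ (1 + Real.log (r / d) / Real.log (25 / 24)) :=
          Real.rpow_le_rpow_of_exponent_le hK (by linarith)
      _ = K1 * K1 ^ (Real.log (r / d) / Real.log (25 / 24)) := by
          rw [Real.rpow_add hKp, Real.rpow_one]
  exact h3.trans (mul_le_mul_of_nonneg_right h4 (zero_le_one.trans (one_le_HE F _)))

/-- **Schottky chain inside two cones** -/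
theorem cone_chain {κ : ℝ} (hκ : 1 ≤ κ) : ∃ C S : ℝ, 0 < C ∧ 0 < S ∧
    ∀ (x0 l0 u0 x1 l1 u1 ρ : ℝ) (W : Set (ℂ × ℂ)) (F : ℂ × ℂ → ℂ), OmE W F →
      Con x0 l0 u0 κ ρ ⊆ W → Con x1 l1 u1 κ ρ ⊆ W → ∀ r : ℝ, 0 < r → r ≤ ρ / 3 →
      |x1 - x0| + |u1 - u0| ≤ κ * r / 8 → |l1 - l0| ≤ r / 2 →
      ∀ q : ℂ × ℂ, 0 < l1 - q.1.im → l1 - q.1.im ≤ r →
        |q.1.re - x1| + ‖q.2 - u1‖ ≤ κ * (l1 - q.1.im) / 2 →
        HE F q ≤ C * (r / (l1 - q.1.im)) ^ S * HE F (apx x0 l0 u0 r) := by
  have hK := one_le_K1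
  have hKp : 0 < K1 := by linarith
  have hL : 0 < Real.log (25 / 24 : ℝ) := Real.log_pos (by norm_num)
  set N1 : ℕ := ⌈12 * κ⌉₊ with hN1
  set N3 : ℕ := ⌈(κ / 8 + 1 / 2) * 48⌉₊ with hN3
  refine ⟨K1 ^ N1 * K1 * K1 ^ N3, Real.log K1 / Real.log (25 / 24) + 1, by positivity,
    by have := Real.log_nonneg hK; positivity, ?_⟩
  intro x0 l0 u0 x1 l1 u1 ρ W F h hW0 hW1 r hr hrρ hclose hll q hd hdr hq
  set d : ℝ := l1 - q.1.im with hdd
  have hrρ2 : r ≤ ρ / 2 := by linarith
  -- horizontal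
  have s1 : HE F q ≤ K1 ^ N1 * HE F (apx x1 l1 u1 d) := by
    refine HE_chain h (r := d / 12) (by positivity) N1 _ _ ?_ ?_
    · intro s hs
      refine (ball_sub_Con hκ (d := d) hd ?_ ?_ ?_ (by linarith)).trans hW1
      · -- the segment stays in the half cone at depth `d`
        rw [segment_eq_image'] at hs
        obtain ⟨θ, hθ, rfl⟩ := hs
        have him : (apx x1 l1 u1 d + θ • (q - apx x1 l1 u1 d)).1.im = q.1.im := by
          simp only [apx, Prod.fst_add, Prod.smul_fst, Prod.fst_sub, add_im, real_smul, mul_im,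
            ofReal_re, ofReal_im, sub_im, sub_re, zero_mul, add_zero]
          rw [hdd]; ring
        have hre : (apx x1 l1 u1 d + θ • (q - apx x1 l1 u1 d)).1.re - x1 = θ * (q.1.re - x1) := by
          simp only [apx, Prod.fst_add, Prod.smul_fst, Prod.fst_sub, add_re, real_smul, mul_re,
            ofReal_re, ofReal_im, sub_im, sub_re, zero_mul, sub_zero]
          ring
        have hw : (apx x1 l1 u1 d + θ • (q - apx x1 l1 u1 d)).2 - u1 = (θ : ℂ) * (q.2 - u1) := by
          simp only [apx, Prod.snd_add, Prod.smul_snd, Prod.snd_sub, real_smul]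
          ring
        rw [him, hre, hw, abs_mul, norm_mul, norm_real, Real.norm_eq_abs, abs_of_nonneg hθ.1,
          ← hdd]
        have : 0 ≤ |q.1.re - x1| + ‖q.2 - u1‖ := by positivity
        nlinarith [hθ.2]
      · rw [segment_eq_image'] at hs
        obtain ⟨θ, hθ, rfl⟩ := hs
        have him : (apx x1 l1 u1 d + θ • (q - apx x1 l1 u1 d)).1.im = q.1.im := by
          simp only [apx, Prod.fst_add, Prod.smul_fst, Prod.fst_sub, add_im, real_smul, mul_im,
            ofReal_re, ofReal_im, sub_im, sub_re, zero_mul, add_zero]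
          rw [hdd]; ring
        rw [him]
      · rw [segment_eq_image'] at hs
        obtain ⟨θ, hθ, rfl⟩ := hs
        have him : (apx x1 l1 u1 d + θ • (q - apx x1 l1 u1 d)).1.im = q.1.im := by
          simp only [apx, Prod.fst_add, Prod.smul_fst, Prod.fst_sub, add_im, real_smul, mul_im,
            ofReal_re, ofReal_im, sub_im, sub_re, zero_mul, add_zero]
          rw [hdd]; ring
        rw [him, ← hdd]
        linarith
    · have hn1 : ‖(q - apx x1 l1 u1 d).1‖ ≤ |q.1.re - x1| := by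
        have e : (q - apx x1 l1 u1 d).1 = ((q.1.re - x1 : ℝ) : ℂ) := by
          apply Complex.ext
          · simp [apx]
          · simp [apx, hdd]
        rw [e, norm_real, Real.norm_eq_abs]
      have hn2 : ‖(q - apx x1 l1 u1 d).2‖ = ‖q.2 - u1‖ := by simp [apx]
      have hn : ‖q - apx x1 l1 u1 d‖ ≤ κ * d / 2 := by
        rw [Prod.norm_def, hn2]
        refine max_le ?_ ?_
        · linarith [norm_nonneg (q.2 - u1)]
        · linarith [abs_nonneg (q.1.re - x1)]
      have hN : 12 * κ ≤ N1 := Nat.le_ceil _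
      calc ‖q - apx x1 l1 u1 d‖ ≤ κ * d / 2 := hn
        _ = (12 * κ) * (d / 12 / 2) := by ring
        _ ≤ N1 * (d / 12 / 2) := mul_le_mul_of_nonneg_right hN (by positivity)
  -- vertical
  have s2 := HE_down hκ h hW1 hd hdr hrρ2
  -- between the two apexes
  have s3 : HE F (apx x1 l1 u1 r) ≤ K1 ^ N3 * HE F (apx x0 l0 u0 r) := by
    refine HE_chain h (r := r / 2 / 12) (by positivity) N3 _ _ ?_ ?_
    · intro s hs
      rw [segment_eq_image'] at hs
      obtain ⟨θ, hθ, rfl⟩ := hs
      have him : (apx x0 l0 u0 r + θ • (apx x1 l1 u1 r - apx x0 l0 u0 r)).1.im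
          = l0 - r + θ * (l1 - l0) := by
        simp only [apx, Prod.fst_add, Prod.smul_fst, Prod.fst_sub, add_im, real_smul, mul_im,
          ofReal_re, ofReal_im, sub_im, sub_re, zero_mul, add_zero]
        ring
      have hre : (apx x0 l0 u0 r + θ • (apx x1 l1 u1 r - apx x0 l0 u0 r)).1.re - x0
          = θ * (x1 - x0) := by
        simp only [apx, Prod.fst_add, Prod.smul_fst, Prod.fst_sub, add_re, real_smul, mul_re,
          ofReal_re, ofReal_im, sub_im, sub_re, zero_mul, sub_zero]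
        ring
      have hw : (apx x0 l0 u0 r + θ • (apx x1 l1 u1 r - apx x0 l0 u0 r)).2 - u0
          = ((θ * (u1 - u0) : ℝ) : ℂ) := by
        simp only [apx, Prod.snd_add, Prod.smul_snd, Prod.snd_sub, real_smul]
        push_cast
        ring
      have hθl : |θ * (l1 - l0)| ≤ r / 2 := by
        rw [abs_mul, abs_of_nonneg hθ.1]
        nlinarith [abs_nonneg (l1 - l0), hθ.2]
      rw [abs_le] at hθl
      have hdep : l0 - (l0 - r + θ * (l1 - l0)) = r - θ * (l1 - l0) := by ring
      refine (ball_sub_Con hκ (d := r / 2) (by positivity) ?_ ?_ ?_ (by linarith)).trans hW0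
      · rw [him, hre, hw, abs_mul, norm_real, Real.norm_eq_abs, abs_mul, abs_of_nonneg hθ.1, hdep]
        have h1 : θ * |x1 - x0| + θ * |u1 - u0| ≤ κ * r / 8 := by
          have : 0 ≤ |x1 - x0| + |u1 - u0| := by positivity
          nlinarith [hθ.2]
        have h2 : κ * (r / 2) / 2 ≤ κ * (r - θ * (l1 - l0)) / 2 := by
          have : r / 2 ≤ r - θ * (l1 - l0) := by linarith
          have := mul_le_mul_of_nonneg_left this (by linarith : 0 ≤ κ)
          linarith
        have h3 : 0 ≤ κ * r := by positivity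
        linarith
      · rw [him, hdep]; linarith
      · rw [him, hdep]; linarith
    · have hn : ‖apx x1 l1 u1 r - apx x0 l0 u0 r‖ ≤ (κ / 8 + 1 / 2) * r := by
        have e : apx x1 l1 u1 r - apx x0 l0 u0 r
            = ((⟨x1 - x0, l1 - l0⟩ : ℂ), ((u1 - u0 : ℝ) : ℂ)) := by
          refine Prod.ext (Complex.ext ?_ ?_) ?_
          · simp [apx]
          · simp [apx]
          · simp [apx]
        rw [e, Prod.norm_def]
        have a1 : ‖(⟨x1 - x0, l1 - l0⟩ : ℂ)‖ ≤ |x1 - x0| + |l1 - l0| := norm_le_abs_re_add_abs_im _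
        have a2 : ‖((u1 - u0 : ℝ) : ℂ)‖ = |u1 - u0| := by rw [norm_real, Real.norm_eq_abs]
        refine max_le ?_ ?_
        · have := abs_nonneg (u1 - u0)
          simp only
          linarith
        · simp only
          rw [a2]
          have := abs_nonneg (x1 - x0)
          linarith
      have hN : (κ / 8 + 1 / 2) * 48 ≤ N3 := Nat.le_ceil _
      calc ‖apx x1 l1 u1 r - apx x0 l0 u0 r‖ ≤ (κ / 8 + 1 / 2) * r := hn
        _ = ((κ / 8 + 1 / 2) * 48) * (r / 2 / 12 / 2) := by ring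
        _ ≤ N3 * (r / 2 / 12 / 2) := mul_le_mul_of_nonneg_right hN (by positivity)
  have hrd : 1 ≤ r / d := by rw [le_div_iff₀ hd]; linarith
  have hexp : (r / d) ^ (Real.log K1 / Real.log (25 / 24))
      ≤ (r / d) ^ (Real.log K1 / Real.log (25 / 24) + 1) :=
    Real.rpow_le_rpow_of_exponent_le hrd (by linarith)
  have hH0 := zero_le_one.trans (one_le_HE F (apx x0 l0 u0 r))
  have hrdp : 0 ≤ (r / d) ^ (Real.log K1 / Real.log (25 / 24)) := by positivity
  calc HE F q ≤ K1 ^ N1 * HE F (apx x1 l1 u1 d) := s1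
    _ ≤ K1 ^ N1 * (K1 * (r / d) ^ (Real.log K1 / Real.log (25 / 24)) * HE F (apx x1 l1 u1 r)) :=
        mul_le_mul_of_nonneg_left s2 (by positivity)
    _ ≤ K1 ^ N1 * (K1 * (r / d) ^ (Real.log K1 / Real.log (25 / 24)) *
          (K1 ^ N3 * HE F (apx x0 l0 u0 r))) := by gcongr
    _ = (K1 ^ N1 * K1 * K1 ^ N3) * (r / d) ^ (Real.log K1 / Real.log (25 / 24))
          * HE F (apx x0 l0 u0 r) := by ring
    _ ≤ (K1 ^ N1 * K1 * K1 ^ N3) * (r / d) ^ (Real.log K1 / Real.log (25 / 24) + 1)
          * HE F (apx x0 l0 u0 r) := by gcongr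

end Crest.Agent.R102.F300
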