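import Mathlib

/-!
# Row 102, part (C), [T5]: reduction of a finite-time end to the 1-D theorems (helper160)

Literal Props of all leaves of T5-RED.  Everything here is Mathlib only.

`τ = (z - x_s) / ε` is the scaled strip coordinate at an end `x_s` of the top line, `Sg κ` the slit
sector `{0 < ‖τ‖ < 1, Im τ < κ ‖τ‖}` on which `q` is holomorphic.  `L(x,y) = (y-x)³ Ψ(x,y)`
(four times arc minus chord), `Ψ` symmetric, `Ψ(x,x) = 1/6`, reflection law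
`EL Ψ x y z = ∂₂ L(x,y) + ∂₁ L(y,z) = 0`.
-/

set_option autoImplicit false

open Set Filter Topology Metric
open scoped ComplexConjugate

noncomputable section

namespace Crest.Agent.R102.T5R

/-- the slit sector -/
def Sg (κ : ℝ) : Set ℂ := {τ | τ ≠ 0 ∧ ‖τ‖ < 1 ∧ τ.im < κ * ‖τ‖}

/-- the Lagrangian -/
def LL (Ψ : ℂ → ℂ → ℂ) (x y : ℂ) : ℂ := (y - x) ^ 3 * Ψ x y

/-- reflection law at `y` with neighbours `x`, `z` -/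
def EL (Ψ : ℂ → ℂ → ℂ) (x y z : ℂ) : ℂ :=
  deriv (fun y' => LL Ψ x y') y + deriv (fun y' => LL Ψ y' z) y

/-! ### L1: the near-diagonal map -/

/-- `Ψ` holomorphic, symmetric, `1/6` on the diagonal, bounded by `M` on a bidisc of radius 1 -/
structure PsiB (Ψ : ℂ → ℂ → ℂ) (a : ℂ) (M : ℝ) : Prop where
  diff : DifferentiableOn ℂ (fun p : ℂ × ℂ => Ψ p.1 p.2) (ball a 1 ×ˢ ball a 1)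
  symm : ∀ x ∈ ball a 1, ∀ y ∈ ball a 1, Ψ x y = Ψ y x
  diag : ∀ x ∈ ball a 1, Ψ x x = 1 / 6
  bound : ∀ x ∈ ball a 1, ∀ y ∈ ball a 1, ‖Ψ x y‖ ≤ M

/-- **L1 (NDM)**: `e' = F(y,e)`, `F = e + O(e⁴)`, solves the law at `y - e, y, y + e'`, and it is the
only small solution besides `e' = -e`. -/
def NDM : Prop :=
  ∀ M : ℝ, ∃ ρ C : ℝ, 0 < ρ ∧ ρ < 1 / 4 ∧ 0 < C ∧ C * ρ ^ 3 ≤ 1 / 8 ∧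
    ∀ (Ψ : ℂ → ℂ → ℂ) (a : ℂ), PsiB Ψ a M → ∃ F : ℂ × ℂ → ℂ,
      DifferentiableOn ℂ F (ball a (1 / 2) ×ˢ ball 0 ρ) ∧
      (∀ y ∈ ball a (1 / 2), ∀ e ∈ ball (0 : ℂ) ρ, ‖F (y, e) - e‖ ≤ C * ‖e‖ ^ 4) ∧
      (∀ y ∈ ball a (1 / 2), ∀ e ∈ ball (0 : ℂ) ρ, EL Ψ (y - e) y (y + F (y, e)) = 0) ∧
      (∀ y ∈ ball a (1 / 2), ∀ e ∈ ball (0 : ℂ) ρ, ∀ e' ∈ ball (0 : ℂ) ρ,
        EL Ψ (y - e) y (y + e') = 0 → e' = F (y, e) ∨ e' = -e)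

/-! ### L2: the cone -/

/-- near-diagonal chords in the slit sector -/
def DD (κ c₀ : ℝ) : Set (ℂ × ℂ) :=
  {p | p.1 ∈ Sg κ ∧ p.2 ∈ Sg κ ∧ ‖p.2 - p.1‖ < c₀ * ‖p.1‖ ∧ ‖p.2 - p.1‖ < c₀ * ‖p.2‖}

/-- scale invariant bounds for `Ψ` at the end -/
structure EndPsi (κ c₀ M : ℝ) (Ψ : ℂ → ℂ → ℂ) : Prop where
  κ_pos : 0 < κ
  κ_lt : κ < 1
  c_pos : 0 < c₀
  c_lt : c₀ < 1 / 4
  diff : DifferentiableOn ℂ (fun p : ℂ × ℂ => Ψ p.1 p.2) (DD κ c₀)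
  symm : ∀ x y : ℂ, (x, y) ∈ DD κ c₀ → Ψ x y = Ψ y x
  diag : ∀ x ∈ Sg κ, Ψ x x = 1 / 6
  bound : ∀ x y : ℂ, (x, y) ∈ DD κ c₀ → ‖Ψ x y‖ ≤ M

/-- the family `X(t,w)` near the end, given by propagation (C1): for every `a > 0` a radius `r a` of
joint holomorphy in `w`, valid for `‖t‖ > a`. -/
structure Fam (κ : ℝ) (Ψ : ℂ → ℂ → ℂ) (r B : ℝ → ℝ) (X : ℂ × ℂ → ℂ) : Prop where
  r_pos : ∀ a : ℝ, 0 < a → 0 < r a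
  diff : ∀ a : ℝ, 0 < a → DifferentiableOn ℂ X {p | p.1 ∈ Sg κ ∧ a < ‖p.1‖ ∧ ‖p.2‖ < r a}
  near : ∀ a : ℝ, 0 < a → ∀ t w : ℂ, t ∈ Sg κ → a < ‖t‖ → ‖w‖ < r a →
    ‖X (t, w) - t‖ ≤ B a * ‖w‖ ^ 2
  even : ∀ a : ℝ, 0 < a → ∀ t w : ℂ, t ∈ Sg κ → a < ‖t‖ → ‖w‖ < r a → X (t, -w) = X (t, w)
  el : ∀ a : ℝ, 0 < a → ∀ t w : ℂ, t ∈ Sg κ → t - w ∈ Sg κ → t + w ∈ Sg κ →
    a < ‖t‖ → a < ‖t - w‖ → a < ‖t + w‖ → ‖w‖ < r a →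
    EL Ψ (X (t - w, w)) (X (t, w)) (X (t + w, w)) = 0

/-- narrow sector about `-i ℝ₊` times the cone `‖w‖ < c ‖t‖` -/
def NC (c : ℝ) : Set (ℂ × ℂ) :=
  {p | p.1 ≠ 0 ∧ ‖p.1‖ < 1 / 4 ∧ ‖p.1 + Complex.I * (‖p.1‖ : ℂ)‖ < ‖p.1‖ / 10 ∧
    ‖p.2‖ < c * ‖p.1‖}

/-- the family on the cone -/
structure ConeFam (c C : ℝ) (Ψ : ℂ → ℂ → ℂ) (X : ℂ × ℂ → ℂ) : Prop where
  c_pos : 0 < c
  diff : DifferentiableOn ℂ X (NC c)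
  near : ∀ t w : ℂ, (t, w) ∈ NC c → ‖X (t, w) - t‖ ≤ C * ‖w‖ ^ 2 / ‖t‖
  even : ∀ t w : ℂ, (t, w) ∈ NC c → X (t, -w) = X (t, w)
  el : ∀ t w : ℂ, (t - w, w) ∈ NC c → (t, w) ∈ NC c → (t + w, w) ∈ NC c →
    EL Ψ (X (t - w, w)) (X (t, w)) (X (t + w, w)) = 0

/-- **L2 (CONE)** -/
def Cone : Prop :=
  ∀ (κ κ' c₀ M : ℝ) (Ψ : ℂ → ℂ → ℂ) (r B : ℝ → ℝ) (X : ℂ × ℂ → ℂ),
    0 < κ' → κ' < κ → EndPsi κ c₀ M Ψ → Fam κ' Ψ r B X →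
    ∃ (c C : ℝ) (X' : ℂ × ℂ → ℂ), ConeFam c C Ψ X'

/-! ### L3: blow-up -/

/-- near-diagonal chords in the infinite sector -/
def DD0 (κ c₀ : ℝ) : Set (ℂ × ℂ) :=
  {p | p.1 ≠ 0 ∧ p.2 ≠ 0 ∧ p.1.im < κ * ‖p.1‖ ∧ p.2.im < κ * ‖p.2‖ ∧
    ‖p.2 - p.1‖ < c₀ * ‖p.1‖ ∧ ‖p.2 - p.1‖ < c₀ * ‖p.2‖}

/-- the blow-up limit of the family near `t = -i` -/
structure LimFam (ρ C : ℝ) (Ψ₀ : ℂ → ℂ → ℂ) (X₀ : ℂ × ℂ → ℂ) : Prop where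
  ρ_pos : 0 < ρ
  ρ_lt : ρ < 1 / 20
  Cρ : C * ρ ≤ 1 / 20
  diff : DifferentiableOn ℂ X₀ (ball (-Complex.I) ρ ×ˢ ball 0 ρ)
  near : ∀ t ∈ ball (-Complex.I) ρ, ∀ w ∈ ball (0 : ℂ) ρ, ‖X₀ (t, w) - t‖ ≤ C * ‖w‖ ^ 2
  even : ∀ t ∈ ball (-Complex.I) ρ, ∀ w ∈ ball (0 : ℂ) ρ, X₀ (t, -w) = X₀ (t, w)
  el : ∀ t w : ℂ, t - w ∈ ball (-Complex.I) ρ → t ∈ ball (-Complex.I) ρ →
    t + w ∈ ball (-Complex.I) ρ → w ∈ ball (0 : ℂ) ρ →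
    EL Ψ₀ (X₀ (t - w, w)) (X₀ (t, w)) (X₀ (t + w, w)) = 0

/-- **L3 (BLOW-UP)** -/
def BlowUp : Prop :=
  ∀ (κ c₀ M c C : ℝ) (Ψ Ψ₀ : ℂ → ℂ → ℂ) (X : ℂ × ℂ → ℂ),
    EndPsi κ c₀ M Ψ → ConeFam c C Ψ X →
    (∀ x y : ℂ, (x, y) ∈ DD0 κ c₀ →
      Tendsto (fun l : ℝ => Ψ ((l : ℂ) * x) ((l : ℂ) * y)) (𝓝[>] 0) (𝓝 (Ψ₀ x y))) →
    ∃ (ρ C' : ℝ) (X₀ : ℂ × ℂ → ℂ), LimFam ρ C' Ψ₀ X₀

/-! ### L4: the Lagrangian of a curve and its limits at an end -/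

/-- `∫₀¹ exp (-2 (q(x + s(y-x)) - q x)) exp (j (θ(x + s(y-x)) - θ x)) ds`, `θ' = exp q` -/
def Pj (q : ℂ → ℂ) (j : ℂ) (x y : ℂ) : ℂ :=
  ∫ s in (0 : ℝ)..1, Complex.exp (-2 * (q (x + s * (y - x)) - q x)) *
    Complex.exp (j * ((y - x) * ∫ s' in (0 : ℝ)..s, Complex.exp (q (x + s' * (y - x)))))

/-- `Ψ = 4 (A - √P₊ √P₋) / ((y-x)² exp (2 q x))`, i.e. `(y-x)³ Ψ = 4 (arc - chord)` -/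
def PsiQ (q : ℂ → ℂ) (x y : ℂ) : ℂ :=
  if y = x then 1 / 6 else
    4 * (Pj q 0 x y - Pj q Complex.I x y ^ (1 / 2 : ℂ) * Pj q (-Complex.I) x y ^ (1 / 2 : ℂ)) /
      ((y - x) ^ 2 * Complex.exp (2 * q x))

/-- flat model `y = C τ^c`: `L₀(x,y) = x³ ℓ(y/x)` -/
def ellF (c : ℝ) (v : ℂ) : ℂ :=
  2 * ((v ^ 3 - 1) / (3 * (1 + c) ^ 2) -
    (v ^ ((2 - c : ℝ) : ℂ) - 1) ^ 2 * (1 - 2 * c) /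
      ((1 + c) ^ 2 * (2 - c) ^ 2 * (v ^ ((1 - 2 * c : ℝ) : ℂ) - 1)))

def Psi0F (c : ℝ) (x y : ℂ) : ℂ :=
  if y = x then 1 / 6 else ellF c (y / x) / (y / x - 1) ^ 3

/-- isotropic model `y = ∓ i m / τ`: `L₀(x,y) = x³ ℓ(y/x)` -/
def ellI (m : ℝ) (v : ℂ) : ℂ :=
  -(4 / (m : ℂ) ^ 2) * ((v ^ 3 - 1) / 3 -
    (v - 1) * ((v ^ ((3 + m : ℝ) : ℂ) - 1) / ((3 + m) * (v - 1))) ^ (1 / 2 : ℂ) *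
      ((v ^ ((3 - m : ℝ) : ℂ) - 1) / ((3 - m) * (v - 1))) ^ (1 / 2 : ℂ))

def Psi0I (m : ℝ) (x y : ℂ) : ℂ :=
  if y = x then 1 / 6 else ellI m (y / x) / (y / x - 1) ^ 3

/-- a finite-time end: `q' = c/τ + O(‖τ‖^(β-1))` on the slit sector -/
structure EndQ (κ c β C : ℝ) (q : ℂ → ℂ) : Prop where
  κ_pos : 0 < κ
  κ_lt : κ < 1
  β_pos : 0 < β
  diff : DifferentiableOn ℂ q (Sg κ)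
  asym : ∀ τ ∈ Sg κ, ‖deriv q τ - c / τ‖ ≤ C * ‖τ‖ ^ (β - 1)

/-- **L4F**: flat end, `c > -1` -/
def PsiFlat : Prop :=
  ∀ (κ κ' c β C : ℝ) (q : ℂ → ℂ), 0 < κ' → κ' < κ → EndQ κ c β C q → -1 < c → c ≠ 1 / 2 → c ≠ 2 →
    ∃ c₀ M : ℝ, EndPsi κ' c₀ M (PsiQ q) ∧
      ∀ x y : ℂ, (x, y) ∈ DD0 κ' c₀ →
        Tendsto (fun l : ℝ => PsiQ q ((l : ℂ) * x) ((l : ℂ) * y)) (𝓝[>] 0) (𝓝 (Psi0F c x y))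

/-- **L4I**: isotropic end, `c = -1`, `τ exp q → ∓ i m`, `m > 0`, `m ≠ 3` -/
def PsiIso : Prop :=
  ∀ (κ κ' β C m : ℝ) (s : ℂ) (q : ℂ → ℂ), 0 < κ' → κ' < κ → EndQ κ (-1) β C q → 0 < m → m ≠ 3 →
    (s = 1 ∨ s = -1) → Tendsto (fun τ => τ * Complex.exp (q τ)) (𝓝[Sg κ] 0)
      (𝓝 (s * Complex.I * m)) →
    ∃ c₀ M : ℝ, EndPsi κ' c₀ M (PsiQ q) ∧
      ∀ x y : ℂ, (x, y) ∈ DD0 κ' c₀ →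
        Tendsto (fun l : ℝ => PsiQ q ((l : ℂ) * x) ((l : ℂ) * y)) (𝓝[>] 0) (𝓝 (Psi0I m x y))

/-! ### L5: the law of the limit in the homogeneous variable -/

/-- `a_n(r) = (e^{nr} - 1)/(e^r - 1)`; `b_n(r) = a_n(-r)` -/
def aN (n : ℝ) (r : ℂ) : ℂ :=
  if r = 0 then (n : ℂ) else (Complex.exp (n * r) - 1) / (Complex.exp r - 1)

/-- `r(t,w) = p log (X₀(t + w/2, w) / X₀(t - w/2, w))` -/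
def rX (p : ℝ) (X₀ : ℂ × ℂ → ℂ) (x : ℂ × ℂ) : ℂ :=
  p * Complex.log (X₀ (x.1 + x.2 / 2, x.2) / X₀ (x.1 - x.2 / 2, x.2))

/-- **L5F**: flat law `a(r₊) + b(r₋) = 2n`, `n = (2-c)/(1-2c)`, `p = 1-2c` -/
def LawF : Prop :=
  ∀ (c ρ C : ℝ) (X₀ : ℂ × ℂ → ℂ), -1 < c → c ≠ 1 / 2 → c ≠ 2 → LimFam ρ C (Psi0F c) X₀ →
    ∀ᶠ x in 𝓝 ((-Complex.I, 0) : ℂ × ℂ),
      aN ((2 - c) / (1 - 2 * c)) (rX (1 - 2 * c) X₀ (x.1 + x.2 / 2, x.2)) +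
        aN ((2 - c) / (1 - 2 * c)) (-(rX (1 - 2 * c) X₀ (x.1 - x.2 / 2, x.2))) =
          2 * (((2 - c) / (1 - 2 * c) : ℝ) : ℂ)

/-- **L5I**: isotropic law `a(r₊) b(r₋) = n²`, `n = (3+m)/(3-m)`, `p = 3-m` -/
def LawI : Prop :=
  ∀ (m ρ C : ℝ) (X₀ : ℂ × ℂ → ℂ), 0 < m → m ≠ 3 → LimFam ρ C (Psi0I m) X₀ →
    ∀ᶠ x in 𝓝 ((-Complex.I, 0) : ℂ × ℂ),
      aN ((3 + m) / (3 - m)) (rX (3 - m) X₀ (x.1 + x.2 / 2, x.2)) *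
        aN ((3 + m) / (3 - m)) (-(rX (3 - m) X₀ (x.1 - x.2 / 2, x.2))) =
          (((3 + m) / (3 - m) : ℝ) : ℂ) ^ 2

/-- **L5H (HOM)**: homogeneity.  `r(t + w, w) = f (r(t, w))`, `r = p w/t + O(w²)`, odd in `w`; then
`r(t,w) = R(t/w + C(w))` with `R(s) = ϱ(1/s)`. -/
def Hom : Prop :=
  ∀ (p : ℝ) (f : ℂ → ℂ) (r : ℂ × ℂ → ℂ), p ≠ 0 → AnalyticAt ℂ f 0 → f 0 = 0 →
    AnalyticAt ℂ r (-Complex.I, 0) →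
    (∀ᶠ t in 𝓝 (-Complex.I), r (t, 0) = 0 ∧ deriv (fun w => r (t, w)) 0 = p / t) →
    (∀ᶠ x in 𝓝 ((-Complex.I, 0) : ℂ × ℂ), r (x.1, -x.2) = -r x) →
    (∀ᶠ x in 𝓝 ((-Complex.I, 0) : ℂ × ℂ), r (x.1 + x.2, x.2) = f (r x)) →
    ∃ ϱ : ℂ → ℂ, AnalyticAt ℂ ϱ 0 ∧ ϱ 0 = 0 ∧ deriv ϱ 0 = p ∧
      (∀ᶠ u in 𝓝 (0 : ℂ), ϱ (-u) = -ϱ u) ∧ (∀ᶠ u in 𝓝 (0 : ℂ), ϱ (u / (1 + u)) = f (ϱ u))

/-- **L5R (REAL)**: the homogeneous germ is real -/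
def RealG : Prop :=
  ∀ (p : ℝ) (f ϱ : ℂ → ℂ), p ≠ 0 → AnalyticAt ℂ f 0 → f 0 = 0 →
    (∀ᶠ z in 𝓝 (0 : ℂ), f (conj z) = conj (f z)) →
    AnalyticAt ℂ ϱ 0 → ϱ 0 = 0 → deriv ϱ 0 = p →
    (∀ᶠ u in 𝓝 (0 : ℂ), ϱ (-u) = -ϱ u) → (∀ᶠ u in 𝓝 (0 : ℂ), ϱ (u / (1 + u)) = f (ϱ u)) →
    ∀ᶠ u in 𝓝 (0 : ℂ), ϱ (conj u) = conj (ϱ u)

/-- output of the reduction: the homogeneous odd real germ `R(s) = ϱ(1/s)` with the flat law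
`a(R(s+1)) + b(R(s)) = 2n` -/
structure HF (n p : ℝ) (ϱ : ℂ → ℂ) : Prop where
  an : AnalyticAt ℂ ϱ 0
  zero : ϱ 0 = 0
  der : deriv ϱ 0 = p
  odd : ∀ᶠ u in 𝓝 (0 : ℂ), ϱ (-u) = -ϱ u
  real : ∀ᶠ u in 𝓝 (0 : ℂ), ϱ (conj u) = conj (ϱ u)
  law : ∀ᶠ u in 𝓝 (0 : ℂ), aN n (ϱ (u / (1 + u))) + aN n (-ϱ u) = 2 * n

/-- the same with the isotropic law `a(R(s+1)) b(R(s)) = n²` -/
structure HI (n p : ℝ) (ϱ : ℂ → ℂ) : Prop where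
  an : AnalyticAt ℂ ϱ 0
  zero : ϱ 0 = 0
  der : deriv ϱ 0 = p
  odd : ∀ᶠ u in 𝓝 (0 : ℂ), ϱ (-u) = -ϱ u
  real : ∀ᶠ u in 𝓝 (0 : ℂ), ϱ (conj u) = conj (ϱ u)
  law : ∀ᶠ u in 𝓝 (0 : ℂ), aN n (ϱ (u / (1 + u))) * aN n (-ϱ u) = n ^ 2

/-- **L5FH**: L5F + L5H + L5R (inverse function theorem for `a_n`, `a_n'(0) = n(n-1)/2`) -/
def RedF : Prop :=
  ∀ (c ρ C : ℝ) (X₀ : ℂ × ℂ → ℂ), -1 < c → c ≠ 1 / 2 → c ≠ 2 → LimFam ρ C (Psi0F c) X₀ →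
    ∃ ϱ : ℂ → ℂ, HF ((2 - c) / (1 - 2 * c)) (1 - 2 * c) ϱ

/-- **L5IH** -/
def RedI : Prop :=
  ∀ (m ρ C : ℝ) (X₀ : ℂ × ℂ → ℂ), 0 < m → m ≠ 3 → LimFam ρ C (Psi0I m) X₀ →
    ∃ ϱ : ℂ → ℂ, HI ((3 + m) / (3 - m)) (3 - m) ϱ

/-! ### L6: exclusion of the flat and of the non-conical isotropic homogeneous germs
(from `H4.h4`, `Flat348.flat`, `Iso_297`, isotropic `n < -1`) -/

/-- **L6F**: `n = (2-c)/(1-2c)`, `c ≠ 0, 1` (uses `n → 1 - n`, `ϱ → -ϱ`, `c → 1 - c`) -/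
def NoF : Prop :=
  ∀ (c : ℝ) (ϱ : ℂ → ℂ), -1 < c → c ≠ 0 → c ≠ 1 → c ≠ 1 / 2 → c ≠ 2 →
    ¬ HF ((2 - c) / (1 - 2 * c)) (1 - 2 * c) ϱ

/-- **L6I**: `n = (3+m)/(3-m)` -/
def NoI : Prop :=
  ∀ (m : ℝ) (ϱ : ℂ → ℂ), 0 < m → m ≠ 3 → HI ((3 + m) / (3 - m)) (3 - m) ϱ → m = 1

/-! ### Result of the reduction -/

/-- **T5F**: a flat end has leading exponent `0` or `1` -/
def T5F : Prop :=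
  ∀ (κ κ' c β C : ℝ) (q : ℂ → ℂ) (r B : ℝ → ℝ) (X : ℂ × ℂ → ℂ), 0 < κ' → κ' < κ →
    EndQ κ c β C q → Fam κ' (PsiQ q) r B X → -1 < c → c ≠ 1 / 2 → c ≠ 2 → c = 0 ∨ c = 1

/-- **T5I**: an isotropic end has `m = 1` -/
def T5I : Prop :=
  ∀ (κ κ' β C m : ℝ) (s : ℂ) (q : ℂ → ℂ) (r B : ℝ → ℝ) (X : ℂ × ℂ → ℂ), 0 < κ' → κ' < κ →
    EndQ κ (-1) β C q → Fam κ' (PsiQ q) r B X → 0 < m → m ≠ 3 → (s = 1 ∨ s = -1) →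
    Tendsto (fun τ => τ * Complex.exp (q τ)) (𝓝[Sg κ] 0) (𝓝 (s * Complex.I * m)) → m = 1

/-- decomposition of the flat reduction -/
theorem t5F_of (h2 : Cone) (h3 : BlowUp) (h4 : PsiFlat) (h5 : RedF) (h6 : NoF) : T5F := by
  intro κ κ' c β C q r B X hκ' hκ hq hX hc h12 h2'
  obtain ⟨c₀, M, hE, hT⟩ := h4 κ ((κ + κ') / 2) c β C q (by linarith) (by linarith) hq hc h12 h2'
  obtain ⟨cc, C', X', hX'⟩ := h2 _ κ' c₀ M (PsiQ q) r B X hκ' (by linarith) hE hX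
  obtain ⟨ρ, C'', X₀, hX₀⟩ := h3 _ c₀ M cc C' (PsiQ q) (Psi0F c) X' hE hX' hT
  obtain ⟨ϱ, hϱ⟩ := h5 c ρ C'' X₀ hc h12 h2' hX₀
  by_contra hne
  push Not at hne
  exact h6 c ϱ hc hne.1 hne.2 h12 h2' hϱ

/-- decomposition of the isotropic reduction -/
theorem t5I_of (h2 : Cone) (h3 : BlowUp) (h4 : PsiIso) (h5 : RedI) (h6 : NoI) : T5I := by
  intro κ κ' β C m s q r B X hκ' hκ hq hX hm hm3 hs hlim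
  obtain ⟨c₀, M, hE, hT⟩ := h4 κ ((κ + κ') / 2) β C m s q (by linarith) (by linarith) hq hm hm3 hs hlim
  obtain ⟨cc, C', X', hX'⟩ := h2 _ κ' c₀ M (PsiQ q) r B X hκ' (by linarith) hE hX
  obtain ⟨ρ, C'', X₀, hX₀⟩ := h3 _ c₀ M cc C' (PsiQ q) (Psi0I m) X' hE hX' hT
  obtain ⟨ϱ, hϱ⟩ := h5 m ρ C'' X₀ hm hm3 hX₀
  exact h6 m ϱ hm hm3 hϱ

end Crest.Agent.R102.T5R
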