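import Mathlib
import Crest.Agent.R102.T5Defs_160

/-!
# Row 102, part (C), [T5]/MEL: ends with vanishing leading coefficient (helper490)

`c = 0`, `c = 1` (flat) and `c = -1`, `m = 1` (isotropic): nonlinear monodromy argument.
Everything takes place on two slit sectors of opening `> π`:
side `A`: `τ ∈ Sg κ` (160's slit sector around `-i ℝ₊`), side `B`: the slit sector around `+i ℝ₊`,
written in the rotated variable `τ' = -τ ∈ Sg κ` (`qB τ' = q (-τ')`, `xB l t' = - X (-t', - i l)`).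
The two sides agree near the positive real axis (`Match`).  We use `w = - i l`, `l > 0` and
`s = t / w`: `s` with `Re s > 0` is the lower half plane on side `A`, `Im s > 0` is the positive real
axis.

`S_j(x,y) = M x * Rj q j x y` is the slope of the chord `x y`, `M = exp (2 j θ)` the slope of the
tangent.  On side `A` `j = ± I`, on side `B` `j = ∓ I` (orientation).
-/

set_option autoImplicit false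

open Set Filter Topology Metric
open scoped ComplexConjugate

noncomputable section

namespace Crest.Agent.R102.Mel

open Crest.Agent.R102.T5R

/-- times of the directional cone over the (wide) slit sector; the step is `w = - i l` -/
def Dl (κ c l : ℝ) : Set ℂ := {t | t ≠ 0 ∧ ‖t‖ < 1 / 8 ∧ t.im < κ * ‖t‖ ∧ l < c * ‖t‖}

/-- the labels `x l t = X (t, - i l)` on the directional cone -/
structure DCone (κ c C l₀ : ℝ) (Ψ : ℂ → ℂ → ℂ) (x : ℝ → ℂ → ℂ) : Prop where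
  κ_pos : 0 < κ
  c_pos : 0 < c
  c_lt : c < 1 / 8
  Cc : C * c ≤ 1 / 8
  l₀_pos : 0 < l₀
  diff : ∀ l : ℝ, 0 < l → l < l₀ → DifferentiableOn ℂ (x l) (Dl κ c l)
  near : ∀ l : ℝ, 0 < l → l < l₀ → ∀ t ∈ Dl κ c l, ‖x l t - t‖ ≤ C * l ^ 2 / ‖t‖
  el : ∀ l : ℝ, 0 < l → l < l₀ → ∀ t : ℂ, t + Complex.I * l ∈ Dl κ c l → t ∈ Dl κ c l →
    t - Complex.I * l ∈ Dl κ c l →
    EL Ψ (x l (t + Complex.I * l)) (x l t) (x l (t - Complex.I * l)) = 0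

/-- **CONE-D**: only the direction `w = - i l`, but all `t` of the wide sector (the orbit
`t - i k l`, `k ≥ 0`, goes straight down; `‖t - i k l‖ ≥ (‖t‖ + k l) / 2`); `x` extends `X`. -/
def ConeD : Prop :=
  ∀ (κ κ' κ'' c₀ M : ℝ) (Ψ : ℂ → ℂ → ℂ) (r B : ℝ → ℝ) (X : ℂ × ℂ → ℂ),
    0 < κ'' → κ'' < κ' → κ' < κ → κ < 1 / 10 → EndPsi κ c₀ M Ψ → Fam κ' Ψ r B X →
    ∃ (c C l₀ : ℝ) (x : ℝ → ℂ → ℂ), DCone κ'' c C l₀ Ψ x ∧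
      ∀ a l : ℝ, 0 < a → 0 < l → l < l₀ → l < r a → ∀ t ∈ Dl κ'' c l, a < ‖t‖ →
        x l t = X (t, -Complex.I * l)

/-- `R_j(x,y) = P_j(x,y) / P_{-j}(x,y)` (`Pj` of T5Defs_160) -/
def Rj (q : ℂ → ℂ) (j x y : ℂ) : ℂ := Pj q j x y / Pj q (-j) x y

/-- slope of the tangent, `M = exp (2 j θ)`, `θ' = exp q` -/
structure Slope (κ : ℝ) (q : ℂ → ℂ) (j : ℂ) (M : ℂ → ℂ) : Prop where
  diff : DifferentiableOn ℂ M (Sg κ)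
  ne : ∀ τ ∈ Sg κ, M τ ≠ 0
  der : ∀ τ ∈ Sg κ, deriv M τ = 2 * j * Complex.exp (q τ) * M τ

/-- **LAW-R**: near the diagonal `EL = 0` is the law of reflection `R R = 1` (the other root of
`R + 1/R` is the chord itself).  (519) -/
def LawR : Prop :=
  ∀ (κ κ' c β C : ℝ) (q : ℂ → ℂ), 0 < κ' → κ' < κ → EndQ κ c β C q → -1 ≤ c →
    ∃ c₁ : ℝ, 0 < c₁ ∧ ∀ x w x₁ x₂ : ℂ, x ∈ Sg κ' → ‖x‖ < 1 / 2 → w ≠ 0 → ‖w‖ < c₁ * ‖x‖ →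
      ‖x₁ - (x - w)‖ ≤ ‖w‖ / 3 → ‖x₂ - (x + w)‖ ≤ ‖w‖ / 3 → EL (PsiQ q) x₁ x x₂ = 0 →
      Rj q Complex.I x x₁ * Rj q Complex.I x x₂ = 1

/-- all data of one side -/
structure Side (κ κ' c β C cc CC l₀ : ℝ) (q : ℂ → ℂ) (j : ℂ) (M : ℂ → ℂ) (x : ℝ → ℂ → ℂ) :
    Prop where
  κ'_pos : 0 < κ'
  κ'_lt : κ' < κ
  endq : EndQ κ c β C q
  hj : j = Complex.I ∨ j = -Complex.I
  slope : Slope κ q j M
  cone : DCone κ' cc CC l₀ (PsiQ q) x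
  rlaw : ∀ l : ℝ, 0 < l → l < l₀ → ∀ t : ℂ, t + Complex.I * l ∈ Dl κ' cc l → t ∈ Dl κ' cc l →
    t - Complex.I * l ∈ Dl κ' cc l →
    Rj q Complex.I (x l t) (x l (t + Complex.I * l)) *
      Rj q Complex.I (x l t) (x l (t - Complex.I * l)) = 1

/-- the overlap of the two sides near the positive real axis -/
def OvR (κ : ℝ) : Set ℂ := {τ | τ ≠ 0 ∧ ‖τ‖ < 1 ∧ |τ.im| < κ * ‖τ‖ ∧ 0 < τ.re}

/-- the two ends of the sheets near the negative real axis -/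
def OvL (κ : ℝ) : Set ℂ := {τ | τ ≠ 0 ∧ ‖τ‖ < 1 ∧ |τ.im| < κ * ‖τ‖ ∧ τ.re < 0}

/-- the two sides agree near the positive real axis -/
structure Match (κ κ' cc l₀ : ℝ) (qA : ℂ → ℂ) (jA : ℂ) (MA : ℂ → ℂ) (xA : ℝ → ℂ → ℂ)
    (qB : ℂ → ℂ) (jB : ℂ) (MB : ℂ → ℂ) (xB : ℝ → ℂ → ℂ) : Prop where
  j : jB = -jA
  q : ∀ τ ∈ OvR κ, Complex.exp (qB (-τ)) = Complex.exp (qA τ)
  M : ∀ τ ∈ OvR κ, MB (-τ) = MA τ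
  X : ∀ l : ℝ, 0 < l → l < l₀ → ∀ t ∈ Dl κ' cc l, -t ∈ Dl κ' cc l → 0 < t.re →
    xB l (-t) = -xA l t

/-! ### Leaves on `Rj` -/

/-- admissible chords: the segment stays in the sector at distance `≥ ‖x‖/N`, `≤ N‖x‖` from `0` -/
def Adm (κ N : ℝ) (x y : ℂ) : Prop :=
  ∀ u ∈ Icc (0 : ℝ) 1, x + u * (y - x) ∈ Sg κ ∧ ‖x‖ ≤ N * ‖x + u * (y - x)‖ ∧
    ‖x + u * (y - x)‖ ≤ N * ‖x‖

/-- **ML-A** `Pj` is jointly analytic -/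
def PAn : Prop :=
  ∀ (κ : ℝ) (q : ℂ → ℂ) (j x y : ℂ), DifferentiableOn ℂ q (Sg κ) → IsOpen (Sg κ) →
    (∀ u ∈ Icc (0 : ℝ) 1, x + u * (y - x) ∈ Sg κ) →
    AnalyticAt ℂ (fun p : ℂ × ℂ => Pj q j p.1 p.2) (x, y)

/-- **ML-S** symmetry of the chord slope -/
def RSym : Prop :=
  ∀ (κ : ℝ) (q : ℂ → ℂ) (j : ℂ) (M : ℂ → ℂ) (x y : ℂ), DifferentiableOn ℂ q (Sg κ) →
    Slope κ q j M → (∀ u ∈ Icc (0 : ℝ) 1, x + u * (y - x) ∈ Sg κ) → Pj q j x y ≠ 0 →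
    Pj q (-j) x y ≠ 0 → M x * Rj q j x y = M y * Rj q j y x

/-- **ML-R0** `Rj q (-j) = (Rj q j)⁻¹`, and rotation: `q' (-τ) = q τ` (up to `2πi`) -/
def RRot : Prop :=
  (∀ (q : ℂ → ℂ) (j x y : ℂ), Rj q (-j) x y = (Rj q j x y)⁻¹) ∧
  ∀ (κ : ℝ) (q q' : ℂ → ℂ) (j x y : ℂ), DifferentiableOn ℂ q (Sg κ) → DifferentiableOn ℂ q' (Sg κ) →
    (∀ τ ∈ OvR κ, Complex.exp (q' (-τ)) = Complex.exp (q τ)) →
    (∀ u ∈ Icc (0 : ℝ) 1, x + u * (y - x) ∈ OvR κ) →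
    Rj q' j (-x) (-y) = Rj q (-j) x y

/-- **ML-LF** limit of the chord slope, flat ends `c = 0, 1`:
`R_j(x,y) = 1 + j e^{q x} (y - x) + o(|e^{q x} x|)` -/
def RLimF : Prop :=
  ∀ (κ c β C : ℝ) (q : ℂ → ℂ) (j : ℂ), (c = 0 ∨ c = 1) → (j = Complex.I ∨ j = -Complex.I) →
    EndQ κ c β C q → ∀ N ε : ℝ, 1 ≤ N → 0 < ε → ∃ δ > 0, ∀ x y : ℂ, Adm κ N x y → ‖x‖ < δ →
      Pj q j x y ≠ 0 ∧
      ‖Rj q j x y - 1 - j * Complex.exp (q x) * (y - x)‖ ≤ ε * ‖Complex.exp (q x)‖ * ‖x‖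

/-- **ML-LI** limit of the chord slope, isotropic end `c = -1`, `j τ e^{q τ} → 1`:
`R_j(x,y) → (x² + y²)/(2x²)`; precisely `P_j → (y⁴ - x⁴)/(4 x³ (y - x))`,
`P_{-j} → (y² - x²)/(2 x (y - x))` -/
def RLimI : Prop :=
  ∀ (κ β C : ℝ) (q : ℂ → ℂ) (j : ℂ), (j = Complex.I ∨ j = -Complex.I) →
    EndQ κ (-1) β C q → Tendsto (fun τ => τ * (j * Complex.exp (q τ))) (𝓝[Sg κ] 0) (𝓝 1) →
    ∀ N ε : ℝ, 1 ≤ N → 0 < ε → ∃ δ > 0, ∀ x y : ℂ, Adm κ N x y → ‖x‖ < δ →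
      ‖Pj q j x y - (x ^ 2 + y ^ 2) * (x + y) / (4 * x ^ 3)‖ ≤ ε ∧
      ‖Pj q (-j) x y - (x + y) / (2 * x)‖ ≤ ε

/-! ### Flat ends -/

/-- **ML-EF** extension of `s ↦ X(-i l s, -i l)` from `R < ‖s‖ < 4R` to `Re s > 1/8`, by backward
recursion of the law from `s + n`, `n` large (linear recursion `x₋ = 2x - x₊ + o(1)`). -/
def ExtF : Prop :=
  ∀ (κ κ' c β C cc CC l₀ : ℝ) (q : ℂ → ℂ) (j : ℂ) (M : ℂ → ℂ) (x : ℝ → ℂ → ℂ),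
    (c = 0 ∨ c = 1) → Side κ κ' c β C cc CC l₀ q j M x →
    ∃ R₀ : ℝ, 8 ≤ R₀ ∧ 8 ≤ cc * R₀ ∧ 8 ≤ κ' * R₀ ∧
      ∀ R ε : ℝ, R₀ ≤ R → 0 < ε → ∃ l₁ : ℝ, 0 < l₁ ∧ l₁ ≤ l₀ ∧ l₁ * (100 * R) < 1 ∧
        ∀ l : ℝ, 0 < l → l < l₁ → ∃ Y : ℂ → ℂ,
          DifferentiableOn ℂ Y {s | 1 / 8 < s.re ∧ ‖s‖ < 4 * R} ∧
          (∀ s : ℂ, 1 / 8 < s.re → ‖s‖ < 4 * R → ‖Y s - (-Complex.I * l) * s‖ ≤ ε * l) ∧
          (∀ s : ℂ, 1 / 8 < s.re → R < ‖s‖ → ‖s‖ < 4 * R →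
            Y s = x l ((-Complex.I * l) * s))

/-- **MEL-F**: at a flat end with `c = 0` or `c = 1` the slope has no monodromy. -/
def MelF : Prop :=
  ∀ (κ κ' c β C cc CC l₀ : ℝ) (qA : ℂ → ℂ) (jA : ℂ) (MA : ℂ → ℂ) (xA : ℝ → ℂ → ℂ)
    (qB : ℂ → ℂ) (jB : ℂ) (MB : ℂ → ℂ) (xB : ℝ → ℂ → ℂ), (c = 0 ∨ c = 1) →
    Side κ κ' c β C cc CC l₀ qA jA MA xA → Side κ κ' c β C cc CC l₀ qB jB MB xB →
    Match κ κ' cc l₀ qA jA MA xA qB jB MB xB →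
    ∃ δ > 0, ∀ τ ∈ OvL κ', ‖τ‖ < δ → MB (-τ) = MA τ

/-! ### Isotropic end `m = 1` -/

/-- positions in isotropic coordinates, `E² = M`, `Z' = σ e^{-2q} E`, `Zc' = σ e^{-2q} E⁻¹`, both
tending to `0` at the end -/
structure Pos (κ : ℝ) (q : ℂ → ℂ) (j : ℂ) (σ : ℂ) (M E Z Zc : ℂ → ℂ) : Prop where
  hσ : σ = 1 ∨ σ = -1
  E_diff : DifferentiableOn ℂ E (Sg κ)
  E_sq : ∀ τ ∈ Sg κ, E τ ^ 2 = M τ
  Z_diff : DifferentiableOn ℂ Z (Sg κ)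
  Zc_diff : DifferentiableOn ℂ Zc (Sg κ)
  Z_der : ∀ τ ∈ Sg κ, deriv Z τ = σ * Complex.exp (-2 * q τ) * E τ
  Zc_der : ∀ τ ∈ Sg κ, deriv Zc τ = σ * Complex.exp (-2 * q τ) / E τ
  Z_lim : Tendsto Z (𝓝[Sg κ] 0) (𝓝 0)
  Zc_lim : Tendsto Zc (𝓝[Sg κ] 0) (𝓝 0)

/-- the model label at vertex time `s`: `b = s² - 1/4`, label `√b` -/
def Y0 (s : ℂ) : ℂ := s * (1 - 1 / (4 * s ^ 2)) ^ (1 / 2 : ℂ)

/-- **ML-EI** extension to `Re s > 5/8` (vertex times) -/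
def ExtI : Prop :=
  ∀ (κ κ' β C cc CC l₀ : ℝ) (q : ℂ → ℂ) (j : ℂ) (M : ℂ → ℂ) (x : ℝ → ℂ → ℂ),
    Side κ κ' (-1) β C cc CC l₀ q j M x →
    Tendsto (fun τ => τ * (j * Complex.exp (q τ))) (𝓝[Sg κ] 0) (𝓝 1) →
    ∃ R₀ : ℝ, 8 ≤ R₀ ∧ 8 ≤ cc * R₀ ∧ 8 ≤ κ' * R₀ ∧
      ∀ R ε : ℝ, R₀ ≤ R → 0 < ε → ∃ l₁ : ℝ, 0 < l₁ ∧ l₁ ≤ l₀ ∧ l₁ * (100 * R) < 1 ∧
        ∀ l : ℝ, 0 < l → l < l₁ → ∃ Y : ℂ → ℂ,
          DifferentiableOn ℂ Y {s | 5 / 8 < s.re ∧ ‖s‖ < 4 * R} ∧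
          (∀ s : ℂ, 5 / 8 < s.re → ‖s‖ < 4 * R → ‖Y s - (-Complex.I * l) * Y0 s‖ ≤ ε * l) ∧
          (∀ s : ℂ, 5 / 8 < s.re → R < ‖s‖ → ‖s‖ < 4 * R →
            Y s = x l ((-Complex.I * l) * s))

/-- joint holomorphy near `w = 0` at the times `t ∈ S` (from `Fam`), and the link with `x`;
`S = OvL κ'` on side `A`, `S = OvR κ'` on side `B` -/
structure Near0 (S : Set ℂ) (κ' cc l₀ : ℝ) (x : ℝ → ℂ → ℂ) (X : ℂ × ℂ → ℂ) : Prop where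
  an : ∀ t ∈ S, AnalyticAt ℂ X (t, 0)
  zero : ∀ t ∈ S, X (t, 0) = t
  even : ∀ t ∈ S, ∀ᶠ p in 𝓝 ((t, 0) : ℂ × ℂ), X (p.1, -p.2) = X p
  link : ∀ t ∈ S, ‖t‖ < 1 / 8 → ∃ e > 0, ∀ t' ∈ ball t e, ∀ l : ℝ, 0 < l → l < e →
    l < l₀ ∧ t' ∈ Dl κ' cc l ∧ X (t', -Complex.I * l) = x l t'

/-- **MEL-I**: at an isotropic end with `m = 1` the function `y = e^q` is odd under the half turn. -/
def MelI : Prop :=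
  ∀ (κ κ' β C cc CC l₀ : ℝ) (qA : ℂ → ℂ) (jA : ℂ) (MA EA ZA ZcA : ℂ → ℂ) (xA : ℝ → ℂ → ℂ)
    (XA : ℂ × ℂ → ℂ) (qB : ℂ → ℂ) (jB : ℂ) (MB EB ZB ZcB : ℂ → ℂ) (xB : ℝ → ℂ → ℂ)
    (XB : ℂ × ℂ → ℂ),
    Side κ κ' (-1) β C cc CC l₀ qA jA MA xA → Side κ κ' (-1) β C cc CC l₀ qB jB MB xB →
    Match κ κ' cc l₀ qA jA MA xA qB jB MB xB →
    Near0 (OvL κ') κ' cc l₀ xA XA → Near0 (OvR κ') κ' cc l₀ xB XB →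
    Tendsto (fun τ => τ * (jA * Complex.exp (qA τ))) (𝓝[Sg κ] 0) (𝓝 1) →
    Tendsto (fun τ => τ * (jB * Complex.exp (qB τ))) (𝓝[Sg κ] 0) (𝓝 1) →
    Pos κ qA jA 1 MA EA ZA ZcA → Pos κ qB jB (-1) MB EB ZB ZcB →
    (∀ τ ∈ OvR κ, EB (-τ) = EA τ ∧ ZB (-τ) = ZA τ ∧ ZcB (-τ) = ZcA τ) →
    ∃ δ > 0, ∀ τ ∈ OvR κ', ‖τ‖ < δ →
      Complex.exp (qB τ) = -Complex.exp (qA τ) ∧ Complex.exp (qA (-τ)) = Complex.exp (qB τ)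

end Crest.Agent.R102.Mel
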