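import Mathlib
import Crest.Agent.R102.T5Defs_160
import Crest.Agent.R102.C1A_821

/-!
Row 102, T5-L1: the near-diagonal map (helper596).

`S (y,e) = 6 Ψ(y,y+e) - 2 e ∂₁Ψ(y,y+e) = 1 + O(e²)`, `k (y,e) = e √S`,
`2 EL = k (y,-e)² - k (y,e')²`.
-/

set_option autoImplicit false

open Set Filter Topology Metric
open scoped ComplexConjugate

noncomputable section

namespace Crest.Agent.R102.NDM596

open Crest.Agent.R102.T5R

/-! ### Schwarz lemmas -/

/-- divide by `w` -/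
theorem schwarz_step {f : ℂ → ℂ} {R M : ℝ} (hR : 0 < R) (hf : DifferentiableOn ℂ f (ball 0 R))
    (h0 : f 0 = 0) (hM : ∀ w ∈ ball (0 : ℂ) R, ‖f w‖ ≤ M) :
    DifferentiableOn ℂ (dslope f 0) (ball 0 R) ∧ (∀ w, f w = w * dslope f 0 w) ∧
      (∀ w ∈ ball (0 : ℂ) R, ‖dslope f 0 w‖ ≤ M / R) := by
  refine ⟨(Complex.differentiableOn_dslope (ball_mem_nhds _ hR)).2 hf, ?_, ?_⟩
  · intro w
    have h := sub_smul_dslope f 0 w
    simp only [sub_zero, h0, smul_eq_mul] at h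
    exact h.symm
  · intro w hw
    refine Complex.norm_dslope_le_div_of_mapsTo_ball hf ?_ hw
    intro z hz
    rw [h0, mem_closedBall, dist_zero_right]
    exact hM z hz

/-- order two -/
theorem schwarz2 {f : ℂ → ℂ} {R M : ℝ} (hR : 0 < R) (hf : DifferentiableOn ℂ f (ball 0 R))
    (h0 : f 0 = 0) (h1 : deriv f 0 = 0) (hM : ∀ w ∈ ball (0 : ℂ) R, ‖f w‖ ≤ M) :
    ∃ g : ℂ → ℂ, DifferentiableOn ℂ g (ball 0 R) ∧ (∀ w, f w = w ^ 2 * g w) ∧
      (∀ w ∈ ball (0 : ℂ) R, ‖g w‖ ≤ M / R / R) := by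
  obtain ⟨a1, a2, a3⟩ := schwarz_step hR hf h0 hM
  have h10 : dslope f 0 0 = 0 := by rw [dslope_same]; exact h1
  obtain ⟨b1, b2, b3⟩ := schwarz_step hR a1 h10 a3
  refine ⟨_, b1, fun w => ?_, b3⟩
  rw [a2 w, b2 w]; ring

/-- order three for odd functions -/
theorem schwarz3 {f : ℂ → ℂ} {R M : ℝ} (hR : 0 < R) (hf : DifferentiableOn ℂ f (ball 0 R))
    (hodd : ∀ w ∈ ball (0 : ℂ) R, f (-w) = -f w) (h1 : deriv f 0 = 0)
    (hM : ∀ w ∈ ball (0 : ℂ) R, ‖f w‖ ≤ M) :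
    ∀ w ∈ ball (0 : ℂ) R, ‖f w‖ ≤ M / R / R / R * ‖w‖ ^ 3 := by
  have h0 : f 0 = 0 := by
    have := hodd 0 (mem_ball_self hR)
    rw [neg_zero] at this
    have h2 : (2 : ℂ) * f 0 = 0 := by linear_combination this
    simpa using h2
  obtain ⟨g, g1, g2, g3⟩ := schwarz2 hR hf h0 h1 hM
  have hg0 : g 0 = 0 := by
    have hc : ContinuousAt g 0 := (g1.differentiableAt (ball_mem_nhds _ hR)).continuousAt
    have hcn : ContinuousAt (fun w => g (-w)) 0 := by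
      have : ContinuousAt g (-0) := by rw [neg_zero]; exact hc
      exact ContinuousAt.comp (f := fun w : ℂ => -w) this (by fun_prop)
    have hev : ∀ᶠ w in 𝓝[≠] (0 : ℂ), g (-w) + g w = 0 := by
      filter_upwards [self_mem_nhdsWithin,
        mem_nhdsWithin_of_mem_nhds (ball_mem_nhds (0 : ℂ) hR)] with w hw hwR
      have h3 := hodd w hwR
      rw [g2 w, g2 (-w)] at h3
      have h4 : w ^ 2 * (g (-w) + g w) = 0 := by linear_combination h3
      exact (mul_eq_zero.1 h4).resolve_left (pow_ne_zero 2 hw)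
    have hlim : Tendsto (fun w => g (-w) + g w) (𝓝[≠] (0 : ℂ)) (𝓝 (g (-0) + g 0)) :=
      (hcn.add hc).tendsto.mono_left nhdsWithin_le_nhds
    have h5 := tendsto_nhds_unique_of_eventuallyEq hlim
      (tendsto_const_nhds (x := (0 : ℂ)) (f := 𝓝[≠] (0 : ℂ))) hev
    rw [neg_zero] at h5
    have h2 : (2 : ℂ) * g 0 = 0 := by linear_combination h5
    simpa using h2
  obtain ⟨a1, a2, a3⟩ := schwarz_step hR g1 hg0 g3
  intro w hw
  rw [g2 w, a2 w, norm_mul, norm_mul, norm_pow]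
  have := a3 w hw
  calc ‖w‖ ^ 2 * (‖w‖ * ‖dslope g 0 w‖) = ‖dslope g 0 w‖ * ‖w‖ ^ 3 := by ring
    _ ≤ _ := by gcongr

/-! ### the square root -/

def sq (z : ℂ) : ℂ := z ^ (2⁻¹ : ℂ)

lemma sq_sq (z : ℂ) : sq z ^ 2 = z := by
  have := Complex.cpow_nat_inv_pow z (n := 2) (by norm_num)
  rw [Nat.cast_ofNat] at this
  exact this

lemma sq_re (z : ℂ) : 0 ≤ (sq z).re := by
  unfold sq
  rw [Complex.cpow_inv_two_re]
  positivity

lemma sq_diff {z : ℂ} (hz : ‖z - 1‖ ≤ 1 / 2) : DifferentiableAt ℂ sq z := by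
  have hs : z ∈ Complex.slitPlane := by
    left
    have h1 := Complex.abs_re_le_norm (z - 1)
    rw [Complex.sub_re, Complex.one_re] at h1
    have := abs_le.1 (h1.trans hz)
    linarith [this.1]
  unfold sq
  exact DifferentiableAt.cpow (f := fun z => z) (g := fun _ => (2⁻¹ : ℂ)) differentiableAt_id
    (differentiableAt_const _) hs

lemma sq_near (z : ℂ) : ‖sq z - 1‖ ≤ ‖z - 1‖ := by
  have h1 : (sq z - 1) * (sq z + 1) = z - 1 := by
    have := sq_sq z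
    linear_combination this
  have h2 : 1 ≤ ‖sq z + 1‖ := by
    have := Complex.re_le_norm (sq z + 1)
    rw [Complex.add_re, Complex.one_re] at this
    linarith [sq_re z]
  rw [← h1, norm_mul]
  nlinarith [norm_nonneg (sq z - 1)]

lemma sq_lip {z v : ℂ} (hz : ‖z - 1‖ ≤ 1 / 2) (hv : ‖v - 1‖ ≤ 1 / 2) :
    ‖sq z - sq v‖ ≤ ‖z - v‖ := by
  have h1 : (sq z - sq v) * (sq z + sq v) = z - v := by
    linear_combination sq_sq z - sq_sq v
  have hre : ∀ u : ℂ, ‖u - 1‖ ≤ 1 / 2 → 1 / 2 ≤ (sq u).re := by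
    intro u hu
    have h3 := (Complex.abs_re_le_norm (sq u - 1)).trans ((sq_near u).trans hu)
    rw [Complex.sub_re, Complex.one_re] at h3
    linarith [(abs_le.1 h3).1]
  have h2 : 1 ≤ ‖sq z + sq v‖ := by
    have := Complex.re_le_norm (sq z + sq v)
    rw [Complex.add_re] at this
    linarith [hre z hz, hre v hv]
  rw [← h1, norm_mul]
  nlinarith [norm_nonneg (sq z - sq v)]

/-! ### the momentum function -/

/-- `∂₁ Ψ` -/
def D1 (Ψ : ℂ → ℂ → ℂ) (x z : ℂ) : ℂ := deriv (fun x' => Ψ x' z) x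

/-- `S (y, e)` -/
def SS (Ψ : ℂ → ℂ → ℂ) (p : ℂ × ℂ) : ℂ :=
  6 * Ψ p.1 (p.1 + p.2) - 2 * p.2 * D1 Ψ p.1 (p.1 + p.2)

/-- `k (y, e) = e √S` -/
def kk (Ψ : ℂ → ℂ → ℂ) (p : ℂ × ℂ) : ℂ := p.2 * sq (SS Ψ p)

section
variable {Ψ : ℂ → ℂ → ℂ} {a : ℂ} {M : ℝ}

lemma mem_a {y e : ℂ} (hy : y ∈ ball a (1 / 2)) (he : ‖e‖ < 1 / 2) : y + e ∈ ball a 1 := by
  rw [mem_ball, dist_eq_norm] at hy ⊢
  calc ‖y + e - a‖ = ‖(y - a) + e‖ := by ring_nf
    _ ≤ ‖y - a‖ + ‖e‖ := norm_add_le _ _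
    _ < 1 := by linarith

lemma half_sub {y : ℂ} (hy : y ∈ ball a (1 / 2)) : ball y (1 / 2) ⊆ ball a 1 := by
  intro z hz
  rw [mem_ball, dist_eq_norm] at hz
  have := mem_a hy hz
  rwa [add_sub_cancel] at this

lemma sub_a : ball a (1 / 2) ⊆ ball a 1 := ball_subset_ball (by norm_num)

lemma diff1 (h : PsiB Ψ a M) {x z : ℂ} (hx : x ∈ ball a 1) (hz : z ∈ ball a 1) :
    DifferentiableAt ℂ (fun x' => Ψ x' z) x := by
  have h1 : DifferentiableAt ℂ (fun p : ℂ × ℂ => Ψ p.1 p.2) (x, z) :=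
    h.diff.differentiableAt ((isOpen_ball.prod isOpen_ball).mem_nhds ⟨hx, hz⟩)
  exact DifferentiableAt.comp (f := fun x' : ℂ => ((x', z) : ℂ × ℂ)) x h1 (by fun_prop)

lemma D1_eq (h : PsiB Ψ a M) {p : ℂ × ℂ} (hp : p ∈ ball a 1 ×ˢ ball a 1) :
    D1 Ψ p.1 p.2 = fderiv ℂ (fun p : ℂ × ℂ => Ψ p.1 p.2) p (1, 0) := by
  have h1 : DifferentiableAt ℂ (fun p : ℂ × ℂ => Ψ p.1 p.2) p :=
    h.diff.differentiableAt ((isOpen_ball.prod isOpen_ball).mem_nhds hp)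
  have h2 : HasDerivAt (fun x' : ℂ => ((x', p.2) : ℂ × ℂ)) ((1 : ℂ), (0 : ℂ)) p.1 :=
    (hasDerivAt_id p.1).prodMk (hasDerivAt_const p.1 p.2)
  have h3 := h1.hasFDerivAt.comp_hasDerivAt (f := fun x' : ℂ => ((x', p.2) : ℂ × ℂ)) p.1 h2
  exact h3.deriv

lemma D1_diff (h : PsiB Ψ a M) :
    DifferentiableOn ℂ (fun p : ℂ × ℂ => D1 Ψ p.1 p.2) (ball a 1 ×ˢ ball a 1) := by
  have hA := Crest.Agent.R266.SCV.analyticOnNhd_of_differentiableOn
    (isOpen_ball.prod isOpen_ball) h.diff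
  have h1 : DifferentiableOn ℂ (fun p => fderiv ℂ (fun p : ℂ × ℂ => Ψ p.1 p.2) p (1, 0))
      (ball a 1 ×ˢ ball a 1) :=
    DifferentiableOn.clm_apply hA.fderiv.differentiableOn (differentiableOn_const _)
  exact h1.congr (fun p hp => D1_eq h hp)

lemma D1_bound (h : PsiB Ψ a M) {y z : ℂ} (hy : y ∈ ball a (1 / 2)) (hz : z ∈ ball a 1) :
    ‖D1 Ψ y z‖ ≤ 4 * M := by
  have hsub : closedBall y (1 / 4) ⊆ ball a 1 :=
    (closedBall_subset_ball (by norm_num)).trans (half_sub hy)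
  have h3 := Complex.norm_deriv_le_of_forall_mem_sphere_norm_le (f := fun x' => Ψ x' z)
      (c := y) (R := 1 / 4) (C := M) (by norm_num)
      (DifferentiableOn.diffContOnCl (by
        rw [closure_ball _ (by norm_num)]
        exact fun x hx => (diff1 h (hsub hx) hz).differentiableWithinAt))
      (fun x hx => h.bound x (hsub (sphere_subset_closedBall hx)) z hz)
  unfold D1
  linarith

lemma SS_diff (h : PsiB Ψ a M) :
    DifferentiableOn ℂ (SS Ψ) (ball a (1 / 2) ×ˢ ball 0 (1 / 2)) := by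
  have hm : ∀ p : ℂ × ℂ, p ∈ ball a (1 / 2) ×ˢ ball (0 : ℂ) (1 / 2) →
      ((p.1, p.1 + p.2) : ℂ × ℂ) ∈ ball a 1 ×ˢ ball a 1 := by
    intro p hp
    exact ⟨sub_a hp.1, mem_a hp.1 (by simpa using hp.2)⟩
  have hg : DifferentiableOn ℂ (fun p : ℂ × ℂ => ((p.1, p.1 + p.2) : ℂ × ℂ))
      (ball a (1 / 2) ×ˢ ball 0 (1 / 2)) := by fun_prop
  have h1 := h.diff.comp hg hm
  have h2 := (D1_diff h).comp hg hm
  exact (h1.const_mul 6).sub (DifferentiableOn.mul (by fun_prop) h2)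

lemma SS_bound (h : PsiB Ψ a M) {y e : ℂ} (hy : y ∈ ball a (1 / 2)) (he : ‖e‖ < 1 / 2) :
    ‖SS Ψ (y, e)‖ ≤ 10 * M := by
  have h1 := h.bound y (sub_a hy) _ (mem_a hy he)
  have h2 := D1_bound h hy (mem_a hy he)
  have h3 : 0 ≤ M := (norm_nonneg _).trans h1
  unfold SS
  calc ‖6 * Ψ y (y + e) - 2 * e * D1 Ψ y (y + e)‖
      ≤ ‖6 * Ψ y (y + e)‖ + ‖2 * e * D1 Ψ y (y + e)‖ := norm_sub_le _ _
    _ = 6 * ‖Ψ y (y + e)‖ + 2 * ‖e‖ * ‖D1 Ψ y (y + e)‖ := by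
        rw [norm_mul, norm_mul, norm_mul]; norm_num
    _ ≤ 6 * M + 2 * (1 / 2) * (4 * M) := by gcongr
    _ = 10 * M := by ring

/-- `∂₁ Ψ = 0` on the diagonal -/
lemma D1_diag (h : PsiB Ψ a M) {y : ℂ} (hy : y ∈ ball a 1) :
    D1 Ψ y y = 0 ∧ deriv (fun z => Ψ y z) y = 0 := by
  have h1 : DifferentiableAt ℂ (fun p : ℂ × ℂ => Ψ p.1 p.2) (y, y) :=
    h.diff.differentiableAt ((isOpen_ball.prod isOpen_ball).mem_nhds ⟨hy, hy⟩)
  set A := fderiv ℂ (fun p : ℂ × ℂ => Ψ p.1 p.2) (y, y) with hA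
  have e1 : D1 Ψ y y = A (1, 0) := D1_eq h (p := (y, y)) ⟨hy, hy⟩
  have h2 : HasDerivAt (fun z : ℂ => ((y, z) : ℂ × ℂ)) ((0 : ℂ), (1 : ℂ)) y :=
    (hasDerivAt_const y y).prodMk (hasDerivAt_id y)
  have e2 : deriv (fun z => Ψ y z) y = A (0, 1) :=
    (h1.hasFDerivAt.comp_hasDerivAt (f := fun z : ℂ => ((y, z) : ℂ × ℂ)) y h2).deriv
  have h3 : HasDerivAt (fun z : ℂ => ((z, z) : ℂ × ℂ)) ((1 : ℂ), (1 : ℂ)) y :=
    (hasDerivAt_id y).prodMk (hasDerivAt_id y)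
  have e3 : deriv (fun z => Ψ z z) y = A (1, 1) :=
    (h1.hasFDerivAt.comp_hasDerivAt (f := fun z : ℂ => ((z, z) : ℂ × ℂ)) y h3).deriv
  have e4 : deriv (fun z => Ψ z z) y = 0 := by
    have : (fun z => Ψ z z) =ᶠ[𝓝 y] fun _ => (1 / 6 : ℂ) := by
      filter_upwards [isOpen_ball.mem_nhds hy] with z hz
      exact h.diag z hz
    rw [this.deriv_eq, deriv_const]
  have e5 : D1 Ψ y y = deriv (fun z => Ψ y z) y := by
    unfold D1
    have : (fun x' => Ψ x' y) =ᶠ[𝓝 y] fun z => Ψ y z := by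
      filter_upwards [isOpen_ball.mem_nhds hy] with z hz
      exact h.symm z hz y hy
    exact this.deriv_eq
  have e6 : A (1, 1) = A (1, 0) + A (0, 1) := by
    rw [← map_add]; simp
  have e7 : (2 : ℂ) * D1 Ψ y y = 0 := by
    have : D1 Ψ y y + deriv (fun z => Ψ y z) y = 0 := by
      rw [e1, e2, ← e6, ← e3, e4]
    rw [← e5] at this
    linear_combination this
  have e8 : D1 Ψ y y = 0 := by simpa using e7
  exact ⟨e8, by rw [← e5, e8]⟩

lemma SS_zero (h : PsiB Ψ a M) {y : ℂ} (hy : y ∈ ball a 1) : SS Ψ (y, 0) = 1 := by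
  unfold SS
  simp only [add_zero, mul_zero, zero_mul, sub_zero]
  rw [h.diag y hy]; norm_num

lemma SS_slice (h : PsiB Ψ a M) {y : ℂ} (hy : y ∈ ball a (1 / 2)) :
    DifferentiableOn ℂ (fun e => SS Ψ (y, e)) (ball 0 (1 / 2)) :=
  (SS_diff h).comp (by fun_prop : DifferentiableOn ℂ (fun e : ℂ => ((y, e) : ℂ × ℂ)) _)
    (fun _ he => ⟨hy, he⟩)

lemma SS_deriv (h : PsiB Ψ a M) {y : ℂ} (hy : y ∈ ball a (1 / 2)) :
    deriv (fun e => SS Ψ (y, e)) 0 = 0 := by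
  have hy1 := sub_a hy
  have h1 : DifferentiableAt ℂ (fun p : ℂ × ℂ => Ψ p.1 p.2) (y, y) :=
    h.diff.differentiableAt ((isOpen_ball.prod isOpen_ball).mem_nhds ⟨hy1, hy1⟩)
  have hz : HasDerivAt (fun z => Ψ y z) 0 y := by
    have h2 : DifferentiableAt ℂ (fun z => Ψ y z) y :=
      DifferentiableAt.comp (f := fun z : ℂ => ((y, z) : ℂ × ℂ)) y h1 (by fun_prop)
    have := h2.hasDerivAt
    rwa [(D1_diag h hy1).2] at this
  have hz' : HasDerivAt (fun e => Ψ y (y + e)) 0 0 := by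
    have h3 : HasDerivAt (fun e : ℂ => y + e) 1 0 := (hasDerivAt_id 0).const_add y
    have h4 : HasDerivAt (fun z => Ψ y z) 0 (y + 0) := by rwa [add_zero]
    have h5 := h4.comp (0 : ℂ) h3
    rw [zero_mul] at h5
    exact h5
  have hD : DifferentiableAt ℂ (fun e => D1 Ψ y (y + e)) 0 := by
    have h5 : DifferentiableAt ℂ (fun p : ℂ × ℂ => D1 Ψ p.1 p.2) (y, y + 0) :=
      (D1_diff h).differentiableAt ((isOpen_ball.prod isOpen_ball).mem_nhds
        ⟨hy1, by rw [add_zero]; exact hy1⟩)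
    exact DifferentiableAt.comp (f := fun e : ℂ => ((y, y + e) : ℂ × ℂ)) 0 h5 (by fun_prop)
  have h6 : HasDerivAt (fun e : ℂ => 2 * e) 2 0 := by
    simpa using (hasDerivAt_id (0 : ℂ)).const_mul 2
  have h7 : HasDerivAt (fun e => 2 * e * D1 Ψ y (y + e)) 0 0 := by
    have h8 := h6.mul hD.hasDerivAt
    have h9 : (2 : ℂ) * D1 Ψ y (y + 0) + 2 * 0 * deriv (fun e => D1 Ψ y (y + e)) 0 = 0 := by
      rw [add_zero, (D1_diag h hy1).1]; ring
    rw [h9] at h8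
    exact h8
  have h10 : HasDerivAt (fun e => SS Ψ (y, e)) (6 * 0 - 0) 0 := (hz'.const_mul 6).sub h7
  rw [h10.deriv]; ring

/-- `S - 1 = O(e²)` -/
lemma SS_near (h : PsiB Ψ a M) {y e : ℂ} (hy : y ∈ ball a (1 / 2)) (he : ‖e‖ < 1 / 2) :
    ‖SS Ψ (y, e) - 1‖ ≤ 4 * (10 * M + 1) * ‖e‖ ^ 2 := by
  have h1 : DifferentiableOn ℂ (fun e => SS Ψ (y, e) - 1) (ball 0 (1 / 2)) :=
    (SS_slice h hy).sub (differentiableOn_const _)
  have h2 : deriv (fun e => SS Ψ (y, e) - 1) 0 = 0 := by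
    rw [deriv_sub_const]; exact SS_deriv h hy
  obtain ⟨g, -, g2, g3⟩ := schwarz2 (M := 10 * M + 1) (by norm_num) h1
    (show SS Ψ (y, 0) - 1 = 0 by rw [SS_zero h (sub_a hy), sub_self]) h2 (fun w hw => by
      have := SS_bound h hy (e := w) (by simpa using hw)
      refine (norm_sub_le _ _).trans ?_
      rw [norm_one]; linarith)
  have h3 := g3 e (by simpa using he)
  rw [show SS Ψ (y, e) - 1 = e ^ 2 * g e from g2 e, norm_mul, norm_pow, mul_comm]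
  have h4 : (10 * M + 1) / (1 / 2) / (1 / 2) = 4 * (10 * M + 1) := by ring
  rw [h4] at h3
  gcongr

/-- `S(e) - S(-e) = O(e³)` -/
lemma SS_odd (h : PsiB Ψ a M) {y e : ℂ} (hy : y ∈ ball a (1 / 2)) (he : ‖e‖ < 1 / 2) :
    ‖SS Ψ (y, e) - SS Ψ (y, -e)‖ ≤ 160 * M * ‖e‖ ^ 3 := by
  have hn : ∀ w : ℂ, w ∈ ball (0 : ℂ) (1 / 2) → -w ∈ ball (0 : ℂ) (1 / 2) := by
    intro w hw
    simpa using hw
  have h0 := SS_slice h hy
  have h0' : DifferentiableOn ℂ (fun e => SS Ψ (y, -e)) (ball 0 (1 / 2)) :=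
    h0.comp (by fun_prop : DifferentiableOn ℂ (fun e : ℂ => -e) _) hn
  have h1 : DifferentiableOn ℂ (fun e => SS Ψ (y, e) - SS Ψ (y, -e)) (ball 0 (1 / 2)) := h0.sub h0'
  have hd0 : HasDerivAt (fun e => SS Ψ (y, e)) 0 0 := by
    have := (h0.differentiableAt (ball_mem_nhds _ (by norm_num))).hasDerivAt
    rwa [SS_deriv h hy] at this
  have hd1 : HasDerivAt (fun e => SS Ψ (y, -e)) 0 0 := by
    have h3 : HasDerivAt (fun e : ℂ => -e) (-1) 0 := (hasDerivAt_id 0).neg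
    have h4 : HasDerivAt (fun e => SS Ψ (y, e)) 0 (-0) := by rwa [neg_zero]
    have h5 := h4.comp (0 : ℂ) h3
    rw [zero_mul] at h5
    exact h5
  have h2 : deriv (fun e => SS Ψ (y, e) - SS Ψ (y, -e)) 0 = 0 := by
    have := (hd0.sub hd1).deriv
    rw [sub_zero] at this
    exact this
  have h5 := schwarz3 (M := 20 * M) (by norm_num) h1
    (fun w _ => by simp only [neg_neg]; ring) h2 (fun w hw => by
      have h6 := SS_bound h hy (e := w) (by simpa using hw)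
      have h7 := SS_bound h hy (e := -w) (by simpa using hw)
      refine (norm_sub_le _ _).trans ?_
      linarith) e (by simpa using he)
  have h6 : 20 * M / (1 / 2) / (1 / 2) / (1 / 2) = 160 * M := by ring
  rw [h6] at h5
  exact h5

/-- the Euler-Lagrange expression in terms of `S` -/
lemma EL_eq (h : PsiB Ψ a M) {y e e' : ℂ} (hy : y ∈ ball a (1 / 2)) (he : ‖e‖ < 1 / 2)
    (he' : ‖e'‖ < 1 / 2) :
    EL Ψ (y - e) y (y + e') = (kk Ψ (y, -e) ^ 2 - kk Ψ (y, e') ^ 2) / 2 := by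
  have hy1 := sub_a hy
  have hx : y - e ∈ ball a 1 := by
    have := mem_a hy (e := -e) (by rwa [norm_neg])
    rwa [← sub_eq_add_neg] at this
  have hz := mem_a hy he'
  -- first term
  have t1 : deriv (fun y' => LL Ψ (y - e) y') y =
      3 * e ^ 2 * Ψ y (y - e) + e ^ 3 * D1 Ψ y (y - e) := by
    have e1 : (fun y' => LL Ψ (y - e) y') =ᶠ[𝓝 y] fun y' => (y' - (y - e)) ^ 3 * Ψ y' (y - e) := by
      filter_upwards [isOpen_ball.mem_nhds hy1] with z hz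
      unfold LL
      rw [h.symm _ hx z hz]
    rw [e1.deriv_eq]
    have e2 : HasDerivAt (fun y' : ℂ => (y' - (y - e)) ^ 3) (3 * e ^ 2) y := by
      have := ((hasDerivAt_id y).sub_const (y - e)).pow 3
      simp only [id, sub_sub_cancel, Nat.cast_ofNat, mul_one] at this
      exact this
    have e3 := e2.mul (diff1 h hy1 hx).hasDerivAt
    have e4 := e3.deriv
    rw [sub_sub_cancel] at e4
    exact e4
  have t2 : deriv (fun y' => LL Ψ y' (y + e')) y =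
      -(3 * e' ^ 2) * Ψ y (y + e') + e' ^ 3 * D1 Ψ y (y + e') := by
    have e2 : HasDerivAt (fun y' : ℂ => (y + e' - y') ^ 3) (-(3 * e' ^ 2)) y := by
      have := ((hasDerivAt_id y).const_sub (y + e')).pow 3
      simp only [id, add_sub_cancel_left, Nat.cast_ofNat, mul_neg, mul_one] at this
      exact this
    have e3 := e2.mul (diff1 h hy1 hz).hasDerivAt
    have e4 := e3.deriv
    rw [add_sub_cancel_left] at e4
    exact e4
  unfold EL
  rw [t1, t2]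
  have k1 : kk Ψ (y, -e) ^ 2 = e ^ 2 * (6 * Ψ y (y - e) + 2 * e * D1 Ψ y (y - e)) := by
    unfold kk
    simp only
    rw [mul_pow, sq_sq]
    unfold SS
    simp only [← sub_eq_add_neg]
    ring
  have k2 : kk Ψ (y, e') ^ 2 = e' ^ 2 * (6 * Ψ y (y + e') - 2 * e' * D1 Ψ y (y + e')) := by
    unfold kk
    simp only
    rw [mul_pow, sq_sq]
    unfold SS
    simp only
  rw [k1, k2]
  ring

end

/-- **T5-L1** -/
theorem ndm : NDM := by
  intro M₀
  -- replace `M₀` by a positive constant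
  set M : ℝ := |M₀| with hM
  have hM0 : 0 ≤ M := abs_nonneg _
  set A : ℝ := 4 * (10 * M + 1) with hA
  have hA0 : 4 ≤ A := by rw [hA]; linarith
  -- radius of the momentum function
  set ε : ℝ := 1 / (2 * A) with hε
  have hε0 : 0 < ε := by positivity
  have hAε : A * ε = 1 / 2 := by rw [hε]; field_simp
  have hε8 : ε ≤ 1 / 8 := by nlinarith
  obtain ⟨ε', C', hε'0, hε', hC', hE⟩ := C1.exists_E ε A hε0
  -- auxiliary radius for the Lipschitz estimate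
  set C : ℝ := 2 * (160 * M) + 1 with hC
  have hC0 : 0 < C := by rw [hC]; linarith
  set ε₁ : ℝ := ε / 8 with hε₁
  have h10 : 0 < ε₁ := by positivity
  have h11 : 2 * ε₁ < ε := by rw [hε₁]; linarith
  have h12 : 8 * A * ε₁ ^ 2 ≤ 1 / 2 := by
    have : 8 * A * ε₁ ^ 2 = (A * ε) * ε / 8 := by rw [hε₁]; ring
    rw [this, hAε]; linarith
  set ρ : ℝ := min (min ε' (ε₁ / 2)) (min (1 / (2 * (C' + 1))) (1 / (8 * C))) / 2 with hρ
  have hρ0 : 0 < ρ := by
    rw [hρ]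
    have h1 : 0 < ε₁ / 2 := by positivity
    have h2 : 0 < 1 / (2 * (C' + 1)) := by positivity
    have h3 : 0 < 1 / (8 * C) := by positivity
    have := lt_min (lt_min hε'0 h1) (lt_min h2 h3)
    linarith
  have hρa : ρ < ε' := by
    have : min (min ε' (ε₁ / 2)) (min (1 / (2 * (C' + 1))) (1 / (8 * C))) ≤ ε' :=
      (min_le_left _ _).trans (min_le_left _ _)
    linarith
  have hρb : ρ < ε₁ / 2 := by
    have : min (min ε' (ε₁ / 2)) (min (1 / (2 * (C' + 1))) (1 / (8 * C))) ≤ ε₁ / 2 :=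
      (min_le_left _ _).trans (min_le_right _ _)
    linarith
  have hρc : (C' + 1) * ρ ≤ 1 / 2 := by
    have h1 : min (min ε' (ε₁ / 2)) (min (1 / (2 * (C' + 1))) (1 / (8 * C))) ≤
        1 / (2 * (C' + 1)) := (min_le_right _ _).trans (min_le_left _ _)
    have h2 : ρ ≤ 1 / (2 * (C' + 1)) := by linarith
    calc (C' + 1) * ρ ≤ (C' + 1) * (1 / (2 * (C' + 1))) := by gcongr
      _ = 1 / 2 := by field_simp
  have hρd : C * ρ ≤ 1 / 8 := by
    have h1 : min (min ε' (ε₁ / 2)) (min (1 / (2 * (C' + 1))) (1 / (8 * C))) ≤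
        1 / (8 * C) := (min_le_right _ _).trans (min_le_right _ _)
    have h2 : ρ ≤ 1 / (8 * C) := by linarith
    calc C * ρ ≤ C * (1 / (8 * C)) := by gcongr
      _ = 1 / 8 := by field_simp
  have hρ1 : ρ ≤ 1 / 100 := by
    have : ε₁ ≤ 1 / 64 := by rw [hε₁]; linarith
    linarith
  refine ⟨ρ, C, hρ0, by linarith, hC0, ?_, ?_⟩
  · have h1 : C * ρ ^ 3 = (C * ρ) * ρ ^ 2 := by ring
    have h2 : ρ ^ 2 ≤ 1 := by nlinarith
    rw [h1]
    nlinarith
  intro Ψ a h'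
  have h : PsiB Ψ a M := ⟨h'.diff, h'.symm, h'.diag, fun x hx y hy =>
    (h'.bound x hx y hy).trans (le_abs_self _)⟩
  -- bounds on `S`
  have hS : ∀ y ∈ ball a (1 / 2), ∀ e : ℂ, ‖e‖ < ε → ‖SS Ψ (y, e) - 1‖ ≤ 1 / 2 := by
    intro y hy e he
    refine (SS_near h hy (by linarith)).trans ?_
    have h1 : ‖e‖ ^ 2 ≤ ε ^ 2 := by gcongr
    calc A * ‖e‖ ^ 2 ≤ A * ε ^ 2 := by gcongr
      _ = (A * ε) * ε := by ring
      _ ≤ 1 / 2 := by rw [hAε]; linarith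
  -- the momentum function
  have hk : C1.KMap (ball a (1 / 2)) ε A (kk Ψ) := by
    constructor
    · intro p hp
      have hp2 : ‖p.2‖ < ε := by simpa using hp.2
      have h1 : DifferentiableAt ℂ (SS Ψ) p := (SS_diff h).differentiableAt
        ((isOpen_ball.prod isOpen_ball).mem_nhds ⟨hp.1, by
          rw [mem_ball, dist_zero_right]; linarith⟩)
      have h2 : DifferentiableAt ℂ sq (SS Ψ p) := sq_diff (hS p.1 hp.1 p.2 hp2)
      exact (differentiableAt_snd.mul (h2.comp p h1)).differentiableWithinAt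
    · intro y hy e he
      have h1 : kk Ψ (y, e) - e = e * (sq (SS Ψ (y, e)) - 1) := by
        unfold kk; simp only; ring
      rw [h1, norm_mul]
      have h2 := (sq_near (SS Ψ (y, e))).trans (SS_near h hy (by linarith))
      calc ‖e‖ * ‖sq (SS Ψ (y, e)) - 1‖ ≤ ‖e‖ * (A * ‖e‖ ^ 2) := by gcongr
        _ = A * ‖e‖ ^ 3 := by ring
  obtain ⟨E, hEd, hE1, hE2⟩ := hE (ball a (1 / 2)) (kk Ψ) isOpen_ball hk
  -- size of `E`
  have hEs : ∀ y ∈ ball a (1 / 2), ∀ e : ℂ, ‖e‖ < ρ → ‖E (y, e)‖ ≤ 2 * ‖e‖ := by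
    intro y hy e he
    have h1 := (hE1 y hy e (he.trans hρa)).1
    have h2 : ‖e‖ ^ 2 ≤ ρ := by nlinarith [norm_nonneg e]
    have h3 : C' * ‖e‖ ^ 3 ≤ ‖e‖ := by
      calc C' * ‖e‖ ^ 3 = (C' * ‖e‖ ^ 2) * ‖e‖ := by ring
        _ ≤ 1 * ‖e‖ := by
          have : C' * ‖e‖ ^ 2 ≤ 1 := by nlinarith [norm_nonneg e]
          gcongr
        _ = ‖e‖ := one_mul _
    calc ‖E (y, e)‖ = ‖(E (y, e) - e) + e‖ := by ring_nf
      _ ≤ ‖E (y, e) - e‖ + ‖e‖ := norm_add_le _ _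
      _ ≤ 2 * ‖e‖ := by linarith
  refine ⟨E, hEd.mono (prod_mono_right (ball_subset_ball hρa.le)), ?_, ?_, ?_⟩
  · -- order four
    intro y hy e he
    rw [mem_ball, dist_zero_right] at he
    have h1 := hEs y hy e he
    have h2 := hk.lip (by linarith) h10 h11 h12 hy (a := E (y, e)) (b := e) (by linarith)
      (by linarith)
    have h3 := (hE1 y hy e (he.trans hρa)).2
    have h4 : ‖kk Ψ (y, e) + kk Ψ (y, -e)‖ ≤ 160 * M * ‖e‖ ^ 4 := by
      have h5 : kk Ψ (y, e) + kk Ψ (y, -e) = e * (sq (SS Ψ (y, e)) - sq (SS Ψ (y, -e))) := by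
        unfold kk; simp only; ring
      rw [h5, norm_mul]
      have h6 := (sq_lip (hS y hy e (by linarith)) (hS y hy (-e) (by rw [norm_neg]; linarith))).trans
        (SS_odd h hy (by linarith))
      calc ‖e‖ * ‖sq (SS Ψ (y, e)) - sq (SS Ψ (y, -e))‖ ≤ ‖e‖ * (160 * M * ‖e‖ ^ 3) := by gcongr
        _ = 160 * M * ‖e‖ ^ 4 := by ring
    have h5 : kk Ψ (y, E (y, e)) - E (y, e) - (kk Ψ (y, e) - e) =
        -(kk Ψ (y, e) + kk Ψ (y, -e)) - (E (y, e) - e) := by rw [h3]; ring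
    rw [h5] at h2
    have h6 : ‖E (y, e) - e‖ ≤ ‖kk Ψ (y, e) + kk Ψ (y, -e)‖ + 1 / 2 * ‖E (y, e) - e‖ := by
      calc ‖E (y, e) - e‖ = ‖-(kk Ψ (y, e) + kk Ψ (y, -e)) -
            (-(kk Ψ (y, e) + kk Ψ (y, -e)) - (E (y, e) - e))‖ := by ring_nf
        _ ≤ ‖-(kk Ψ (y, e) + kk Ψ (y, -e))‖ +
            ‖-(kk Ψ (y, e) + kk Ψ (y, -e)) - (E (y, e) - e)‖ := norm_sub_le _ _
        _ ≤ _ := by rw [norm_neg]; linarith
    have h7 : ‖E (y, e) - e‖ ≤ 2 * (160 * M) * ‖e‖ ^ 4 := by linarith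
    refine h7.trans ?_
    rw [hC]
    have : 0 ≤ ‖e‖ ^ 4 := by positivity
    nlinarith
  · intro y hy e he
    rw [mem_ball, dist_zero_right] at he
    have h1 := hEs y hy e he
    rw [EL_eq h hy (by linarith) (by linarith), (hE1 y hy e (he.trans hρa)).2]
    ring
  · intro y hy e he e' he' h1
    rw [mem_ball, dist_zero_right] at he he'
    rw [EL_eq h hy (by linarith) (by linarith)] at h1
    have h2 : (kk Ψ (y, e') + kk Ψ (y, -e)) * (kk Ψ (y, e') - kk Ψ (y, -e)) = 0 := by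
      linear_combination -2 * h1
    rcases mul_eq_zero.1 h2 with h3 | h3
    · left
      exact hE2 y hy e e' (he.trans hρa) (he'.trans hρa) (by linear_combination h3)
    · right
      have h4 := hk.lip (by linarith) h10 h11 h12 hy (a := e') (b := -e) (by linarith)
        (by rw [norm_neg]; linarith)
      have h5 : kk Ψ (y, e') - e' - (kk Ψ (y, -e) - -e) = -(e' - -e) := by
        linear_combination h3
      rw [h5, norm_neg] at h4
      have h6 : ‖e' - -e‖ ≤ 0 := by linarith [norm_nonneg (e' - -e)]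
      exact sub_eq_zero.1 (norm_le_zero_iff.1 h6)

end Crest.Agent.R102.NDM596
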