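import Crest.Agent.R102.T5Cone_160
import Crest.Agent.R102.NDM_596
import Crest.Agent.R102.MelDefs_490

/-!
# T5 MEL: leaf (ConeD), the directional wide cone (helper231)

Adapted from helper160's `T5Cone_160`: the step direction `w` lies in a narrow cone about `-i ℝ₊`,
the base point in the whole wide sector.
-/

set_option autoImplicit false

open Set Filter Topology Metric

noncomputable section

namespace Crest.Agent.R102.Mel.CD

open Crest.Agent.R102.T5R Crest.Agent.R102.T5R.L2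

/-! ### geometry -/

/-- narrow cone of downward directions -/
def Dn (w : ℂ) : Prop := w.re < -w.im / 10 ∧ -w.re < -w.im / 10

theorem Dn.im_neg {w : ℂ} (h : Dn w) : w.im < 0 := by
  obtain ⟨h1, h2⟩ := h
  linarith

theorem Dn.ne {w : ℂ} (h : Dn w) : w ≠ 0 := by
  rintro rfl
  have := h.im_neg
  simp at this

theorem Dn.bounds {w : ℂ} (h : Dn w) : |w.re| ≤ ‖w‖ / 10 ∧ 10 / 11 * ‖w‖ ≤ -w.im := by
  obtain ⟨h1, h2⟩ := h
  have h3 : |w.re| < -w.im / 10 := abs_lt.2 ⟨by linarith, h1⟩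
  have h4 : |w.im| = -w.im := abs_of_neg (Dn.im_neg ⟨h1, h2⟩)
  have h5 := Complex.abs_im_le_norm w
  have h6 := Complex.norm_le_abs_re_add_abs_im w
  constructor
  · linarith
  · linarith

theorem isOpen_Dn : IsOpen {w : ℂ | Dn w} := by
  have : {w : ℂ | Dn w} = {w : ℂ | w.re < -w.im / 10} ∩ {w : ℂ | -w.re < -w.im / 10} := by
    ext w; simp [Dn]
  rw [this]
  exact (isOpen_lt (by fun_prop) (by fun_prop)).inter (isOpen_lt (by fun_prop) (by fun_prop))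

theorem convex_Dn : Convex ℝ {w : ℂ | Dn w} := by
  intro x hx y hy a b ha hb hab
  simp only [mem_ofPred_eq, Dn] at hx hy ⊢
  simp only [Complex.add_im, Complex.add_re, Complex.smul_im, Complex.smul_re, smul_eq_mul]
  obtain ⟨hx1, hx2⟩ := hx
  obtain ⟨hy1, hy2⟩ := hy
  rcases eq_or_lt_of_le ha with h | h
  · have : b = 1 := by linarith
    subst this
    rw [← h]
    constructor <;> linarith
  · constructor
    · nlinarith [mul_lt_mul_of_pos_left hx1 h, mul_le_mul_of_nonneg_left hy1.le hb]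
    · nlinarith [mul_lt_mul_of_pos_left hx2 h, mul_le_mul_of_nonneg_left hy2.le hb]

theorem geo {κs a : ℝ} {t w : ℂ} (hκs : 0 < κs) (hκ1 : κs < 1 / 10)
    (ht1 : t.im ≤ κs * ‖t‖) (hw : Dn w ∨ w = 0) (ha : 0 ≤ a) :
    (‖t‖ + a * ‖w‖) / 2 ≤ ‖t + a * w‖ ∧ ‖t + a * w‖ ≤ ‖t‖ + a * ‖w‖ ∧
      (t + a * w).im ≤ κs * ‖t + a * w‖ := by
  have hn : 0 ≤ ‖t‖ := norm_nonneg t
  have hup : ‖t + a * w‖ ≤ ‖t‖ + a * ‖w‖ := by
    refine (norm_add_le _ _).trans ?_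
    rw [norm_mul, Complex.norm_real, Real.norm_of_nonneg ha]
  rcases hw with hw | rfl
  swap
  · simp only [mul_zero, add_zero, norm_zero]
    exact ⟨by linarith, le_rfl, ht1⟩
  obtain ⟨hb1, hb2⟩ := hw.bounds
  have hneg := hw.im_neg
  have hW : 0 < ‖w‖ := norm_pos_iff.2 hw.ne
  have him : |w.im| ≤ ‖w‖ := Complex.abs_im_le_norm w
  rw [abs_of_neg hneg] at him
  have hlow' : ‖t‖ - a * ‖w‖ ≤ ‖t + a * w‖ := by
    have h := norm_sub_norm_le t (-((a : ℂ) * w))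
    rw [sub_neg_eq_add, norm_neg, norm_mul, Complex.norm_real, Real.norm_of_nonneg ha] at h
    exact h
  refine ⟨?_, hup, ?_⟩
  · have h1 : ‖t + a * w‖ ^ 2 = ‖t‖ ^ 2 + a ^ 2 * ‖w‖ ^ 2 + 2 * a * (t.re * w.re + t.im * w.im) := by
      rw [Complex.sq_norm, Complex.sq_norm, Complex.sq_norm, Complex.normSq_apply,
        Complex.normSq_apply, Complex.normSq_apply]
      simp
      ring
    have h2 : -(‖t‖ * (‖w‖ / 10)) ≤ t.re * w.re := by
      have h3 : |t.re * w.re| ≤ ‖t‖ * (‖w‖ / 10) := by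
        rw [abs_mul]
        have := Complex.abs_re_le_norm t
        gcongr
      exact (abs_le.1 h3).1
    have h4 : -(‖t‖ * (‖w‖ / 10)) ≤ t.im * w.im := by
      have h5 : t.im * (-w.im) ≤ (κs * ‖t‖) * (-w.im) :=
        mul_le_mul_of_nonneg_right ht1 (by linarith)
      have h6 : (κs * ‖t‖) * (-w.im) ≤ (1 / 10 * ‖t‖) * ‖w‖ := by
        have : 0 ≤ κs * ‖t‖ := by positivity
        have h7 : κs * ‖t‖ ≤ 1 / 10 * ‖t‖ := by gcongr
        calc (κs * ‖t‖) * (-w.im) ≤ (κs * ‖t‖) * ‖w‖ := by gcongr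
          _ ≤ (1 / 10 * ‖t‖) * ‖w‖ := by gcongr
      linarith
    have h8 : ((‖t‖ + a * ‖w‖) / 2) ^ 2 ≤ ‖t + a * w‖ ^ 2 := by
      rw [h1]
      have h9 : -(2 * a * (‖t‖ * (‖w‖ / 5))) ≤ 2 * a * (t.re * w.re + t.im * w.im) := by
        have : -(‖t‖ * (‖w‖ / 5)) ≤ t.re * w.re + t.im * w.im := by linarith
        have := mul_le_mul_of_nonneg_left this (show 0 ≤ 2 * a by linarith)
        linarith
      have h10 : 0 ≤ a * ‖w‖ * ‖t‖ := by positivity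
      nlinarith [sq_nonneg (‖t‖ - a * ‖w‖)]
    exact (pow_le_pow_iff_left₀ (by positivity) (norm_nonneg _) two_ne_zero).1 h8
  · have e : (t + a * w).im = t.im + a * w.im := by simp
    rw [e]
    have h1 : a * (κs * ‖w‖) ≤ a * (-w.im) := by
      apply mul_le_mul_of_nonneg_left _ ha
      nlinarith
    have h2 : κs * (‖t‖ - a * ‖w‖) ≤ κs * ‖t + a * w‖ := by gcongr
    nlinarith

theorem ref_of {κ' κs c : ℝ} {t w : ℂ} {k : ℕ} (hκs : 0 < κs) (hκ1 : κs < 1 / 10) (hκ : κs < κ')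
    (ht0 : t ≠ 0) (ht1 : t.im ≤ κs * ‖t‖) (hw : Dn w)
    (hc : 0 < c) (hwc : ‖w‖ < c * ‖t‖) (hk : ‖t‖ + k * ‖w‖ < 3 / 4) :
    Ref κ' c (t + k * w) w (‖t‖ + k * ‖w‖) k := by
  have key : ∀ j : ℕ, j ≤ k → 0 ≤ (k : ℝ) - j ∧
      t + k * w - j * w = t + ((k - j : ℝ) : ℂ) * w ∧
      ‖t‖ + k * ‖w‖ - j * ‖w‖ = ‖t‖ + ((k : ℝ) - j) * ‖w‖ := by
    intro j hj
    refine ⟨sub_nonneg.2 (by exact_mod_cast hj), by push_cast; ring, by ring⟩
  refine ⟨hw.ne, hk, ?_, ?_, ?_, ?_⟩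
  · intro j hj
    obtain ⟨h0, -, h2⟩ := key j hj
    rw [h2]
    have : 0 ≤ ((k : ℝ) - j) * ‖w‖ := mul_nonneg h0 (norm_nonneg _)
    nlinarith
  · intro j hj
    obtain ⟨h0, h1, h2⟩ := key j hj
    rw [h1, h2]
    exact (geo hκs hκ1 ht1 (Or.inl hw) h0).1
  · intro j hj
    obtain ⟨h0, h1, h2⟩ := key j hj
    rw [h1, h2]
    exact (geo hκs hκ1 ht1 (Or.inl hw) h0).2.1
  · intro j hj
    obtain ⟨h0, h1, h2⟩ := key j hj
    rw [h1]
    have h := geo hκs hκ1 ht1 (Or.inl hw) h0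
    refine lt_of_le_of_lt h.2.2 ?_
    have hn : 0 < ‖t‖ := norm_pos_iff.2 ht0
    have : 0 ≤ ((k : ℝ) - j) * ‖w‖ := mul_nonneg h0 (norm_nonneg _)
    have hpos : 0 < ‖t + ((k - j : ℝ) : ℂ) * w‖ := by linarith [h.1]
    nlinarith

/-! ### the family at macroscopic points -/

/-- good macroscopic points -/
structure Gs (κs a : ℝ) (S : ℂ) : Prop where
  low : a < ‖S‖
  up : ‖S‖ < 13 / 16
  im : S.im ≤ κs * ‖S‖

theorem Gs.sg {κs κ' a : ℝ} {S : ℂ} (h : Gs κs a S) (hκ : κs < κ') (ha : 0 < a) : S ∈ Sg κ' := by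
  have hn : 0 < ‖S‖ := ha.trans h.low
  refine ⟨norm_pos_iff.1 hn, by linarith [h.up], ?_⟩
  have := h.im
  nlinarith

/-- the family is carried to itself by one step -/
theorem match_step {κs κ' κ₂ ρ C a : ℝ} {Ψ : ℂ → ℂ → ℂ} {G : ℂ × ℂ → ℂ} {r B : ℝ → ℝ}
    {X : ℂ × ℂ → ℂ} (hG : NDS κ₂ ρ C Ψ G) (hX : Fam κ' Ψ r B X) (hκs : 0 < κs) (hκs' : κs < κ')
    (hκ : κ' < κ₂) (hκ1 : κ₂ < 1) (ha : 0 < a) {T w : ℂ} (hw0 : w ≠ 0)
    (hS : Sm (κ' - κs) ρ r B a ‖w‖) (h0 : Gs κs a T) (h1 : Gs κs a (T + w))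
    (h2 : Gs κs a (T + w + w)) :
    stp G (start X (T + w) w) = start X T w := by
  have hWpos : 0 < ‖w‖ := norm_pos_iff.2 hw0
  have hBn : ∀ S, Gs κs a S → ‖X (S, w) - S‖ ≤ |B a| * ‖w‖ ^ 2 := by
    intro S hSd
    refine (hX.near a ha S w (hSd.sg hκs' ha) hSd.low hS.rad).trans ?_
    gcongr
    exact le_abs_self _
  have n0 := hBn _ h0
  have n1 := hBn _ h1
  have n2 := hBn _ h2
  set y := X (T + w, w) with hy
  set e := y - X (T + w + w, w) with he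
  set e' := X (T, w) - y with he'
  have hb1 : |B a| * ‖w‖ ^ 2 ≤ ‖w‖ / 8 := by
    have := hS.b1
    nlinarith
  have hew : ‖e + w‖ ≤ ‖w‖ / 4 := by
    have : e + w = (y - (T + w)) - (X (T + w + w, w) - (T + w + w)) := by rw [he]; ring
    rw [this]
    have := norm_sub_le (y - (T + w)) (X (T + w + w, w) - (T + w + w))
    linarith
  have hew' : ‖e' + w‖ ≤ ‖w‖ / 4 := by
    have : e' + w = (X (T, w) - T) - (y - (T + w)) := by rw [he']; ring
    rw [this]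
    have := norm_sub_le (X (T, w) - T) (y - (T + w))
    linarith
  have hen : ‖e‖ ≤ 2 * ‖w‖ := by
    have : e = (e + w) - w := by ring
    rw [this]
    have := norm_sub_le (e + w) w
    linarith
  have hen' : ‖e'‖ ≤ 2 * ‖w‖ := by
    have : e' = (e' + w) - w := by ring
    rw [this]
    have := norm_sub_le (e' + w) w
    linarith
  -- `y ∈ Rg κ₂`
  have hyl : ‖T + w‖ - |B a| * ‖w‖ ^ 2 ≤ ‖y‖ := by
    have := norm_sub_norm_le (T + w) y
    have h' : ‖T + w - y‖ = ‖y - (T + w)‖ := norm_sub_rev _ _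
    linarith
  have hyu : ‖y‖ ≤ ‖T + w‖ + |B a| * ‖w‖ ^ 2 := by
    have := norm_sub_norm_le y (T + w)
    linarith
  have hb2 := hS.b2
  have hb3 := hS.b3
  have hb4 := hS.b4
  have hκ'1 : κ' < 1 := by linarith
  have hya : a / 2 < ‖y‖ := by
    have := h1.low
    have h5 : (κ' - κs) / 10 * a ≤ a / 2 := by nlinarith
    linarith
  have hyR : y ∈ Rg κ₂ := by
    refine ⟨norm_pos_iff.1 (by linarith), ?_, ?_⟩
    · have := h1.up
      linarith
    · have him : y.im ≤ (T + w).im + ‖y - (T + w)‖ := by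
        have := Complex.abs_im_le_norm (y - (T + w))
        have h' : y.im - (T + w).im ≤ |(y - (T + w)).im| := by
          rw [Complex.sub_im]; exact le_abs_self _
        linarith
      have h3 := h1.im
      have h4 : κs * ‖T + w‖ ≤ κs * (‖y‖ + (κ' - κs) / 10 * a) := by
        gcongr; linarith
      have h5 : (κ' - κs) / 10 * a ≤ (κ' - κs) / 5 * ‖y‖ := by nlinarith
      have h6 : κs * ((κ' - κs) / 10 * a) ≤ (κ' - κs) / 10 * a := by
        have : 0 ≤ (κ' - κs) / 10 * a := by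
          have : 0 < κ' - κs := by linarith
          positivity
        nlinarith
      have hypos : 0 < ‖y‖ := by linarith
      nlinarith
  have hρ := hG.ρ_pos
  have hey : ‖e‖ < ρ * ‖y‖ := by nlinarith
  have hey' : ‖e'‖ < ρ * ‖y‖ := by nlinarith
  have hEL : EL Ψ (y - e) y (y + e') = 0 := by
    have hel := hX.el a ha (T + w) (-w) (h1.sg hκs' ha) (by
      have : T + w - -w = T + w + w := by ring
      rw [this]; exact h2.sg hκs' ha) (by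
      have : T + w + -w = T := by ring
      rw [this]; exact h0.sg hκs' ha) h1.low (by
      have : T + w - -w = T + w + w := by ring
      rw [this]; exact h2.low) (by
      have : T + w + -w = T := by ring
      rw [this]; exact h0.low) (by rw [norm_neg]; exact hS.rad)
    have e1 : T + w - -w = T + w + w := by ring
    have e2 : T + w + -w = T := by ring
    rw [e1, e2, hX.even a ha _ w (h2.sg hκs' ha) h2.low hS.rad,
      hX.even a ha _ w (h1.sg hκs' ha) h1.low hS.rad,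
      hX.even a ha _ w (h0.sg hκs' ha) h0.low hS.rad] at hel
    have e3 : y - e = X (T + w + w, w) := by rw [he]; ring
    have e4 : y + e' = X (T, w) := by rw [he']; ring
    rw [e3, e4]
    exact hel
  have hst : start X (T + w) w = (y, e) := rfl
  rw [hst]
  rcases hG.uniq y e e' hyR hey hey' hEL with h | h
  · show (y + G (y, e), G (y, e)) = (X (T, w), X (T, w) - X (T + w, w))
    rw [← h]
    simp [he', hy]
  · exfalso
    have h3 : (e + w) + (e' + w) = 2 * w := by rw [h]; ring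
    have h4 : ‖(2 : ℂ) * w‖ ≤ ‖w‖ / 4 + ‖w‖ / 4 := by
      rw [← h3]
      exact (norm_add_le _ _).trans (by linarith)
    rw [norm_mul] at h4
    simp at h4
    linarith

/-- **agreement with the family** -/
theorem agree {κs κ' κ₂ ρ C a : ℝ} {Ψ : ℂ → ℂ → ℂ} {G : ℂ × ℂ → ℂ} {r B : ℝ → ℝ}
    {X : ℂ × ℂ → ℂ} (hG : NDS κ₂ ρ C Ψ G) (hX : Fam κ' Ψ r B X) (hκs : 0 < κs) (hκs' : κs < κ')
    (hκ : κ' < κ₂) (hκ1 : κ₂ < 1) (ha : 0 < a) {t w : ℂ} (hw0 : w ≠ 0)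
    (hS : Sm (κ' - κs) ρ r B a ‖w‖) (k : ℕ) (hg : ∀ i : ℕ, i ≤ k + 1 → Gs κs a (t + i * w)) :
    (stp G)^[k] (start X (t + k * w) w) = start X t w := by
  induction k with
  | zero => simp
  | succ k ih =>
    rw [Function.iterate_succ_apply]
    have e : t + ((k + 1 : ℕ) : ℂ) * w = t + k * w + w := by push_cast; ring
    rw [e, match_step hG hX hκs hκs' hκ hκ1 ha hw0 hS (hg k (by omega)) (by
      rw [← e]; exact hg (k + 1) (by omega)) (by
      have e2 : t + k * w + w + w = t + ((k + 2 : ℕ) : ℂ) * w := by push_cast; ring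
      rw [e2]; exact hg (k + 2) (by omega))]
    exact ih (fun i hi => hg i (by omega))

/-- bounds at the macroscopic start -/
theorem start_bound {κs κ' : ℝ} {Ψ : ℂ → ℂ → ℂ} {r B : ℝ → ℝ} {X : ℂ × ℂ → ℂ}
    (hX : Fam κ' Ψ r B X) (hκs : 0 < κs) (hκs' : κs < κ') (hκ1 : κ' < 1) :
    ∃ A₀ B₀ σ : ℝ, 0 < σ ∧ ∀ T w : ℂ, 1 / 4 < ‖T‖ → ‖T‖ < 3 / 4 → T.im ≤ κs * ‖T‖ → w ≠ 0 →
      ‖w‖ < σ → ‖(start X T w).2 + w‖ ≤ A₀ * ‖w‖ ^ 3 ∧ ‖(start X T w).1 - T‖ ≤ B₀ * ‖w‖ ^ 2 := by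
  have h8 : (0 : ℝ) < 1 / 8 := by norm_num
  set b := |B (1 / 8)| + 1 with hb
  have hbpos : 0 < b := by positivity
  set d := (κ' - κs) / 20 with hd
  have hdpos : 0 < d := by rw [hd]; linarith
  have hd20 : d < 1 / 20 := by rw [hd]; linarith
  refine ⟨3 * b / d, b, min (r (1 / 8)) d, lt_min (hX.r_pos _ h8) hdpos,
    ?_⟩
  intro T w hT1 hT2 hT3 hw0 hw
  have hwr : ‖w‖ < r (1 / 8) := hw.trans_le (min_le_left _ _)
  have hwd : ‖w‖ < d := hw.trans_le (min_le_right _ _)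
  have hWpos : 0 < ‖w‖ := norm_pos_iff.2 hw0
  -- the disc
  have hdisc : ∀ s ∈ ball T d, s ∈ Sg κ' ∧ 1 / 8 < ‖s‖ := by
    intro s hs
    rw [mem_ball, dist_eq_norm] at hs
    have h1 : ‖T‖ - ‖s - T‖ ≤ ‖s‖ := by
      have := norm_sub_norm_le T s
      have h' : ‖T - s‖ = ‖s - T‖ := norm_sub_rev _ _
      linarith
    have h2 : ‖s‖ ≤ ‖T‖ + ‖s - T‖ := by
      have := norm_sub_norm_le s T
      linarith
    have h3 : s.im ≤ T.im + ‖s - T‖ := by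
      have := Complex.abs_im_le_norm (s - T)
      have h' : s.im - T.im ≤ |(s - T).im| := by
        rw [Complex.sub_im]; exact le_abs_self _
      linarith
    have h4 : 1 / 8 < ‖s‖ := by linarith
    refine ⟨⟨norm_pos_iff.1 (by linarith), by linarith, ?_⟩, h4⟩
    have h5 : κs * ‖T‖ ≤ κs * (‖s‖ + d) := by
      have h6 : ‖T‖ ≤ ‖s‖ + d := by linarith
      gcongr
    have h7 : κs * d ≤ d := by nlinarith
    have h8' : 2 * d < (κ' - κs) * ‖s‖ := by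
      have : (κ' - κs) * (1 / 8) < (κ' - κs) * ‖s‖ := by
        have : 0 < κ' - κs := by linarith
        gcongr
      rw [hd]; linarith
    nlinarith
  have hnear : ∀ s ∈ ball T d, ‖X (s, w) - s‖ ≤ b * ‖w‖ ^ 2 := by
    intro s hs
    refine (hX.near _ h8 s w (hdisc s hs).1 (hdisc s hs).2 hwr).trans ?_
    gcongr
    exact (le_abs_self _).trans (by linarith)
  have hTm : T ∈ ball T d := mem_ball_self hdpos
  have hTw : T + w ∈ ball T d := by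
    rw [mem_ball, dist_eq_norm]; simpa using hwd
  refine ⟨?_, hnear T hTm⟩
  have hdf : DifferentiableOn ℂ (fun s => X (s, w) - s) (ball T d) := by
    have h1 : DifferentiableOn ℂ (fun s : ℂ => ((s, w) : ℂ × ℂ)) (ball T d) := by
      apply Differentiable.differentiableOn
      fun_prop
    refine ((hX.diff _ h8).comp h1 ?_).sub differentiableOn_id
    intro s hs
    exact ⟨(hdisc s hs).1, (hdisc s hs).2, hwr⟩
  have hmap : MapsTo (fun s => X (s, w) - s) (ball T d)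
      (closedBall ((fun s => X (s, w) - s) T) (3 * b * ‖w‖ ^ 2)) := by
    intro s hs
    rw [mem_closedBall, dist_eq_norm]
    have h1 := hnear s hs
    have h2 := hnear T hTm
    have h3 := norm_sub_le (X (s, w) - s) (X (T, w) - T)
    have h4 : 0 < b * ‖w‖ ^ 2 := by positivity
    simp only
    linarith
  have h := Complex.dist_le_div_mul_dist_of_mapsTo_ball hdf hmap hTw
  rw [dist_eq_norm, dist_eq_norm] at h
  have e1 : T + w - T = w := by ring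
  rw [e1] at h
  have e2 : (start X T w).2 + w = -((X (T + w, w) - (T + w)) - (X (T, w) - T)) := by
    simp only [start]; ring
  rw [e2, norm_neg]
  refine h.trans (le_of_eq ?_)
  field_simp

/-! ### the orbit family -/

/-- parameters of the construction -/
structure Par (κs κ' κ₂ ρ C c A B A₀ B₀ : ℝ) (Ψ : ℂ → ℂ → ℂ) (G : ℂ × ℂ → ℂ) (r Bf : ℝ → ℝ)
    (X : ℂ × ℂ → ℂ) : Prop where
  nds : NDS κ₂ ρ C Ψ G
  fam : Fam κ' Ψ r Bf X
  κs_pos : 0 < κs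
  κs_lt : κs < 1 / 10
  κs_lt' : κs < κ'
  κ_lt : κ' < κ₂
  κ_lt1 : κ₂ < 1
  c_pos : 0 < c
  c_le : c ≤ 1 / 64
  A_pos : 0 < A
  B_pos : 0 < B
  orb : ∀ (T₀ w : ℂ) (g₀ : ℝ) (k : ℕ) (p₀ : ℂ × ℂ), Ref κ' c T₀ w g₀ k →
      ‖p₀.2 + w‖ ≤ A₀ * ‖w‖ ^ 3 → ‖p₀.1 - T₀‖ ≤ B₀ * ‖w‖ ^ 2 → ∀ j : ℕ, j ≤ k →
        ‖((stp G)^[j] p₀).2 + w‖ * (g₀ - j * ‖w‖) ^ 2 ≤ A * ‖w‖ ^ 3 ∧
        ‖((stp G)^[j] p₀).1 - (T₀ - j * w)‖ * (g₀ - j * ‖w‖) ≤ B * ‖w‖ ^ 2 ∧
        ((stp G)^[j] p₀).1 ∈ Rg κ₂ ∧ ‖((stp G)^[j] p₀).2‖ < ρ * ‖((stp G)^[j] p₀).1‖ ∧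
        ‖((stp G)^[j] p₀).1 - (T₀ - j * w)‖ ≤ (g₀ - j * ‖w‖) / 8 ∧
        ‖((stp G)^[j] p₀).2‖ ≤ 2 * ‖w‖
  stb : ∀ T w : ℂ, 1 / 4 < ‖T‖ → ‖T‖ < 3 / 4 → T.im ≤ κs * ‖T‖ → w ≠ 0 →
      ‖w‖ < c → ‖(start X T w).2 + w‖ ≤ A₀ * ‖w‖ ^ 3 ∧ ‖(start X T w).1 - T‖ ≤ B₀ * ‖w‖ ^ 2
  sm : ∀ W : ℝ, 0 ≤ W → W < c → Sm (κ' - κs) ρ r Bf (1 / 8) W

section par

variable {κs κ' κ₂ ρ C c A B A₀ B₀ : ℝ} {Ψ : ℂ → ℂ → ℂ} {G : ℂ × ℂ → ℂ} {r Bf : ℝ → ℝ}
    {X : ℂ × ℂ → ℂ}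

/-- base point in the wide sector, direction in the narrow cone -/
structure NO (κs c : ℝ) (t w : ℂ) : Prop where
  t0 : t ≠ 0
  t1 : ‖t‖ < 1 / 4
  t2 : t.im < κs * ‖t‖
  wc : ‖w‖ < c * ‖t‖
  out : Dn w

theorem NO.facts {t w : ℂ} (h : NO κs c t w) (hc : 0 < c) :
    t ≠ 0 ∧ ‖t‖ < 1 / 4 ∧ t.im ≤ κs * ‖t‖ ∧ ‖w‖ < c * ‖t‖ ∧ ‖w‖ < c := by
  obtain ⟨h1, h2, h3, h4, h5⟩ := h
  refine ⟨h1, h2, h3.le, h4, h4.trans_le ?_⟩
  nlinarith

theorem Par.gd (P : Par κs κ' κ₂ ρ C c A B A₀ B₀ Ψ G r Bf X) {t w : ℂ} (h : NO κs c t w) {i : ℕ}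
    {a : ℝ} (ha : a ≤ ‖t‖ / 4) (hi : ‖t‖ + i * ‖w‖ < 13 / 16) : Gs κs a (t + i * w) := by
  obtain ⟨h0, h1, h2, h3, h4⟩ := h.facts P.c_pos
  have hn : 0 < ‖t‖ := norm_pos_iff.2 h0
  have hg := geo (a := i) P.κs_pos P.κs_lt h2 (Or.inl h.out) (Nat.cast_nonneg i)
  simp only [Complex.ofReal_natCast] at hg
  have hp : 0 ≤ (i : ℝ) * ‖w‖ := by positivity
  exact ⟨by linarith [hg.1], by linarith [hg.2.1], hg.2.2⟩

theorem Par.gd8 (P : Par κs κ' κ₂ ρ C c A B A₀ B₀ Ψ G r Bf X) {t w : ℂ} (h : NO κs c t w) {i : ℕ}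
    (hlo : 1 / 2 < ‖t‖ + i * ‖w‖) (hi : ‖t‖ + i * ‖w‖ < 13 / 16) : Gs κs (1 / 8) (t + i * w) := by
  obtain ⟨h0, h1, h2, h3, h4⟩ := h.facts P.c_pos
  have hg := geo (a := i) P.κs_pos P.κs_lt h2 (Or.inl h.out) (Nat.cast_nonneg i)
  simp only [Complex.ofReal_natCast] at hg
  exact ⟨by linarith [hg.1], by linarith [hg.2.1], hg.2.2⟩

theorem Par.orbit (P : Par κs κ' κ₂ ρ C c A B A₀ B₀ Ψ G r Bf X) {t w : ℂ} (h : NO κs c t w) {k : ℕ}
    (hk : adm k t w) (j : ℕ) (hj : j ≤ k) :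
    ‖((stp G)^[j] (start X (t + k * w) w)).1 - (t + k * w - j * w)‖ * (‖t‖ + k * ‖w‖ - j * ‖w‖) ≤
        B * ‖w‖ ^ 2 ∧
      ((stp G)^[j] (start X (t + k * w) w)).1 ∈ Rg κ₂ ∧
      ‖((stp G)^[j] (start X (t + k * w) w)).2‖ < ρ * ‖((stp G)^[j] (start X (t + k * w) w)).1‖ ∧
      ‖((stp G)^[j] (start X (t + k * w) w)).1 - (t + k * w - j * w)‖ ≤
        (‖t‖ + k * ‖w‖ - j * ‖w‖) / 8 ∧
      ‖((stp G)^[j] (start X (t + k * w) w)).2‖ ≤ 2 * ‖w‖ := by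
  obtain ⟨h0, h1, h2, h3, h4⟩ := h.facts P.c_pos
  have hR := ref_of (k := k) P.κs_pos P.κs_lt P.κs_lt' h0 h2 h.out P.c_pos h3 hk.2
  have hg := P.gd8 h (i := k) hk.1 (by linarith [hk.2])
  have hge := geo (a := k) P.κs_pos P.κs_lt h2 (Or.inl h.out) (Nat.cast_nonneg k)
  simp only [Complex.ofReal_natCast] at hge
  obtain ⟨s1, s2⟩ := P.stb (t + k * w) w (by linarith [hge.1, hk.1]) (by linarith [hge.2.1, hk.2])
    hg.im h.out.ne h4
  obtain ⟨-, o2, o3, o4, o5, o6⟩ := P.orb _ _ _ _ _ hR s1 s2 j hj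
  exact ⟨o2, o3, o4, o5, o6⟩

theorem Par.indep (P : Par κs κ' κ₂ ρ C c A B A₀ B₀ Ψ G r Bf X) {t w : ℂ} (h : NO κs c t w) {k : ℕ}
    (hk : adm k t w) (hk' : adm (k + 1) t w) : sta G X (k + 1) t w = sta G X k t w := by
  obtain ⟨h0, h1, h2, h3, h4⟩ := h.facts P.c_pos
  unfold sta
  rw [Function.iterate_succ_apply]
  have e : t + ((k + 1 : ℕ) : ℂ) * w = t + k * w + w := by push_cast; ring
  have hc := P.c_le
  have hW := norm_nonneg w
  have c1 : ((k + 1 : ℕ) : ℝ) = k + 1 := by push_cast; ring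
  have c2 : ((k + 2 : ℕ) : ℝ) = k + 2 := by push_cast; ring
  have hk1 := hk.1
  have hk2 := hk'.2
  rw [c1] at hk2
  rw [e, match_step P.nds P.fam P.κs_pos P.κs_lt' P.κ_lt P.κ_lt1 (by norm_num : (0 : ℝ) < 1 / 8)
    h.out.ne
    (P.sm _ (norm_nonneg _) h4) (P.gd8 h hk.1 (by linarith [hk.2])) (by
      rw [← e]
      refine P.gd8 h hk'.1 (by rw [c1]; linarith)) (by
      have e2 : t + k * w + w + w = t + ((k + 2 : ℕ) : ℂ) * w := by push_cast; ring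
      rw [e2]
      refine P.gd8 h (by rw [c2]; linarith) (by rw [c2]; linarith))]

theorem Par.indep_le (P : Par κs κ' κ₂ ρ C c A B A₀ B₀ Ψ G r Bf X) {t w : ℂ} (h : NO κs c t w)
    {k l : ℕ} (hkl : k ≤ l) (hk : adm k t w) (hl : adm l t w) : sta G X l t w = sta G X k t w := by
  induction l, hkl using Nat.le_induction with
  | base => rfl
  | succ l hle ih =>
    have hW := norm_nonneg w
    have c1 : ((l + 1 : ℕ) : ℝ) = l + 1 := by push_cast; ring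
    have hl2 := hl.2
    rw [c1] at hl2
    have hadm : adm l t w := by
      refine ⟨?_, by linarith⟩
      have : (k : ℝ) * ‖w‖ ≤ l * ‖w‖ := by gcongr
      linarith [hk.1]
    rw [P.indep h hadm hl, ih hadm]

theorem Par.indep_all (P : Par κs κ' κ₂ ρ C c A B A₀ B₀ Ψ G r Bf X) {t w : ℂ} (h : NO κs c t w)
    {k l : ℕ} (hk : adm k t w) (hl : adm l t w) : sta G X l t w = sta G X k t w := by
  rcases le_total k l with hkl | hkl
  · exact P.indep_le h hkl hk hl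
  · exact (P.indep_le h hkl hl hk).symm

theorem kk_spec {t w : ℂ} (hc : 0 < c) (h : NO κs c t w) :
    ‖t‖ + kk t w * ‖w‖ ≤ 5 / 8 ∧ 5 / 8 - ‖w‖ < ‖t‖ + kk t w * ‖w‖ := by
  obtain ⟨h0, h1, h2, h3, h4⟩ := h.facts hc
  have hW : 0 < ‖w‖ := norm_pos_iff.2 h.out.ne
  have hq : 0 ≤ (5 / 8 - ‖t‖) / ‖w‖ := div_nonneg (by linarith) hW.le
  constructor
  · have := Nat.floor_le hq
    rw [le_div_iff₀ hW] at this
    have e : (kk t w : ℝ) * ‖w‖ ≤ 5 / 8 - ‖t‖ := this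
    linarith
  · have := Nat.lt_floor_add_one ((5 / 8 - ‖t‖) / ‖w‖)
    rw [div_lt_iff₀ hW] at this
    have e : 5 / 8 - ‖t‖ < ((kk t w : ℝ) + 1) * ‖w‖ := this
    linarith

theorem kk_adm {t w : ℂ} (hc : 0 < c) (hc64 : c ≤ 1 / 64) (h : NO κs c t w) :
    adm (kk t w) t w := by
  obtain ⟨h1, h2⟩ := kk_spec hc h
  obtain ⟨-, -, -, -, h4⟩ := h.facts hc
  exact ⟨by linarith, by linarith⟩

theorem Par.Xo_eq (P : Par κs κ' κ₂ ρ C c A B A₀ B₀ Ψ G r Bf X) {t w : ℂ} (h : NO κs c t w) {k : ℕ}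
    (hk : adm k t w) : Xo G X (t, w) = (sta G X k t w).1 := by
  unfold Xo
  rw [P.indep_all h hk (kk_adm P.c_pos P.c_le h)]

theorem eventually_NO {t w : ℂ} (h : NO κs c t w) : ∀ᶠ p : ℂ × ℂ in 𝓝 (t, w), NO κs c p.1 p.2 := by
  have h1 : ∀ᶠ p : ℂ × ℂ in 𝓝 (t, w), p.1 ≠ 0 :=
    (continuous_fst.tendsto (t, w)).eventually_ne h.t0
  have h2 : ∀ᶠ p : ℂ × ℂ in 𝓝 (t, w), ‖p.1‖ < 1 / 4 :=
    (continuous_fst.norm.tendsto (t, w)).eventually_lt_const h.t1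
  have h3 : ∀ᶠ p : ℂ × ℂ in 𝓝 (t, w), p.1.im < κs * ‖p.1‖ := by
    have hc : Continuous fun p : ℂ × ℂ => κs * ‖p.1‖ - p.1.im :=
      (continuous_const.mul continuous_fst.norm).sub (Complex.continuous_im.comp continuous_fst)
    have := (hc.tendsto (t, w)).eventually_const_lt
      (show (0 : ℝ) < κs * ‖t‖ - t.im by linarith [h.t2])
    filter_upwards [this] with p hp
    linarith
  have h4 : ∀ᶠ p : ℂ × ℂ in 𝓝 (t, w), ‖p.2‖ < c * ‖p.1‖ := by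
    have hc : Continuous fun p : ℂ × ℂ => c * ‖p.1‖ - ‖p.2‖ := by fun_prop
    have := (hc.tendsto (t, w)).eventually_const_lt
      (show (0 : ℝ) < c * ‖t‖ - ‖w‖ by linarith [h.wc])
    filter_upwards [this] with p hp
    linarith
  have h5 : ∀ᶠ p : ℂ × ℂ in 𝓝 (t, w), Dn p.2 := by
    have : ∀ᶠ v : ℂ in 𝓝 w, Dn v := isOpen_Dn.mem_nhds h.out
    exact continuous_snd.continuousAt.eventually this
  filter_upwards [h1, h2, h3, h4, h5] with p p1 p2 p3 p4 p5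
  exact ⟨p1, p2, p3, p4, p5⟩

theorem Par.state_diff (P : Par κs κ' κ₂ ρ C c A B A₀ B₀ Ψ G r Bf X) {t w : ℂ} (h : NO κs c t w)
    {k : ℕ} (hk : adm k t w) (j : ℕ) (hj : j ≤ k) :
    DifferentiableAt ℂ (fun p : ℂ × ℂ => (stp G)^[j] (start X (p.1 + k * p.2) p.2)) (t, w) := by
  obtain ⟨h0, h1, h2, h3, h4⟩ := h.facts P.c_pos
  have h8 : (0 : ℝ) < 1 / 8 := by norm_num
  induction j with
  | zero =>
    simp only [Function.iterate_zero, id_eq, start]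
    have g1 := P.gd8 h (i := k) hk.1 (by linarith [hk.2])
    have c1 : ((k + 1 : ℕ) : ℝ) = k + 1 := by push_cast; ring
    have hW := norm_nonneg w
    have hc := P.c_le
    have g2 : Gs κs (1 / 8) (t + k * w + w) := by
      have := P.gd8 h (i := k + 1) (by rw [c1]; linarith [hk.1]) (by rw [c1]; linarith [hk.2])
      have e : t + ((k + 1 : ℕ) : ℂ) * w = t + k * w + w := by push_cast; ring
      rwa [e] at this
    have hr := (P.sm _ (norm_nonneg _) h4).rad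
    have d1 : DifferentiableAt ℂ X (t + k * w, w) :=
      Fam.diffAt P.fam h8 (g1.sg P.κs_lt' h8) g1.low hr
    have d2 : DifferentiableAt ℂ X (t + k * w + w, w) :=
      Fam.diffAt P.fam h8 (g2.sg P.κs_lt' h8) g2.low hr
    have l1 : DifferentiableAt ℂ (fun p : ℂ × ℂ => (p.1 + k * p.2, p.2)) (t, w) := by fun_prop
    have l2 : DifferentiableAt ℂ (fun p : ℂ × ℂ => (p.1 + k * p.2 + p.2, p.2)) (t, w) := by fun_prop
    have e1 : DifferentiableAt ℂ (fun p : ℂ × ℂ => X (p.1 + k * p.2, p.2)) (t, w) :=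
      DifferentiableAt.comp (t, w) (g := X) d1 l1
    have e2 : DifferentiableAt ℂ (fun p : ℂ × ℂ => X (p.1 + k * p.2 + p.2, p.2)) (t, w) :=
      DifferentiableAt.comp (t, w) (g := X) d2 l2
    exact e1.prodMk (e1.sub e2)
  | succ j ih =>
    have hj' : j ≤ k := by omega
    have ih := ih hj'
    obtain ⟨-, o3, o4, -, -⟩ := P.orbit h hk j hj'
    have hGd : DifferentiableAt ℂ G ((stp G)^[j] (start X (t + k * w) w)) :=
      P.nds.diff _ _ o3 o4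
    have hGc : DifferentiableAt ℂ (fun p : ℂ × ℂ => G ((stp G)^[j] (start X (p.1 + k * p.2) p.2)))
        (t, w) := DifferentiableAt.comp (t, w) (g := G)
          (f := fun p : ℂ × ℂ => (stp G)^[j] (start X (p.1 + k * p.2) p.2)) hGd ih
    have hfst : DifferentiableAt ℂ
        (fun p : ℂ × ℂ => ((stp G)^[j] (start X (p.1 + k * p.2) p.2)).1) (t, w) := ih.fst
    have : (fun p : ℂ × ℂ => (stp G)^[j + 1] (start X (p.1 + k * p.2) p.2)) =
        fun p : ℂ × ℂ => (((stp G)^[j] (start X (p.1 + k * p.2) p.2)).1 +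
          G ((stp G)^[j] (start X (p.1 + k * p.2) p.2)),
          G ((stp G)^[j] (start X (p.1 + k * p.2) p.2))) := by
      funext p
      rw [Function.iterate_succ_apply']
      rfl
    rw [this]
    exact (hfst.add hGc).prodMk hGc

theorem Par.Xo_diff (P : Par κs κ' κ₂ ρ C c A B A₀ B₀ Ψ G r Bf X) {t w : ℂ} (h : NO κs c t w) :
    DifferentiableAt ℂ (Xo G X) (t, w) := by
  have hk := kk_adm P.c_pos P.c_le h
  have hd := (P.state_diff h hk _ le_rfl).fst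
  refine hd.congr_of_eventuallyEq ?_
  filter_upwards [eventually_NO h, eventually_adm hk] with p hp1 hp2
  exact P.Xo_eq hp1 hp2

theorem Par.Xo_near (P : Par κs κ' κ₂ ρ C c A B A₀ B₀ Ψ G r Bf X) {t w : ℂ} (h : NO κs c t w) :
    ‖Xo G X (t, w) - t‖ ≤ B * ‖w‖ ^ 2 / ‖t‖ := by
  obtain ⟨h0, h1, h2, h3, h4⟩ := h.facts P.c_pos
  have hn : 0 < ‖t‖ := norm_pos_iff.2 h0
  have hk := kk_adm P.c_pos P.c_le h
  obtain ⟨o1, -⟩ := P.orbit h hk _ le_rfl
  have e1 : t + kk t w * w - kk t w * w = t := by ring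
  have e2 : ‖t‖ + kk t w * ‖w‖ - kk t w * ‖w‖ = ‖t‖ := by ring
  rw [e1, e2] at o1
  rw [le_div_iff₀ hn]
  exact o1

/-- for small `w` the orbit family is the given family -/
theorem Par.Xo_agree (P : Par κs κ' κ₂ ρ C c A B A₀ B₀ Ψ G r Bf X) {t w : ℂ} (h : NO κs c t w)
    {a : ℝ} (ha : 0 < a) (hat : a ≤ ‖t‖ / 4) (hS : Sm (κ' - κs) ρ r Bf a ‖w‖) :
    Xo G X (t, w) = X (t, w) := by
  have hs := kk_spec P.c_pos h
  obtain ⟨h0, h1, h2, h3, h4⟩ := h.facts P.c_pos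
  have hc := P.c_le
  have := agree P.nds P.fam P.κs_pos P.κs_lt' P.κ_lt P.κ_lt1 ha h.out.ne hS (kk t w) (by
    intro i hi
    refine P.gd h hat ?_
    have : (i : ℝ) * ‖w‖ ≤ (kk t w + 1) * ‖w‖ := by
      gcongr
      exact_mod_cast hi
    linarith [hs.1])
  unfold Xo sta
  simp only
  rw [this]
  rfl

/-- the orbit family extends the given family in the whole radius of `X` -/
theorem Par.Xo_ext (P : Par κs κ' κ₂ ρ C c A B A₀ B₀ Ψ G r Bf X) {t w : ℂ} (h : NO κs c t w)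
    {a : ℝ} (ha : 0 < a) (hat : a < ‖t‖) (hw : ‖w‖ < r a) : Xo G X (t, w) = X (t, w) := by
  obtain ⟨h0, h1, h2, h3, h4⟩ := h.facts P.c_pos
  have hn : 0 < ‖t‖ := norm_pos_iff.2 h0
  have htS : t ∈ Sg κ' := ⟨h0, by linarith, by nlinarith [P.κs_lt']⟩
  set R := min (c * ‖t‖) (r a) with hR
  have hRpos : 0 < R := lt_min (mul_pos P.c_pos hn) (P.fam.r_pos a ha)
  set S : Set ℂ := {v | Dn v} ∩ ball 0 R with hSdef
  have hSo : IsOpen S := isOpen_Dn.inter isOpen_ball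
  have hSc : Convex ℝ S := convex_Dn.inter (convex_ball _ _)
  have hNO : ∀ v ∈ S, NO κs c t v := by
    rintro v ⟨hv1, hv2⟩
    have hv3 : ‖v‖ < R := by simpa using hv2
    exact ⟨h0, h1, h.t2, hv3.trans_le (min_le_left _ _), hv1⟩
  have hf : DifferentiableOn ℂ (fun v => Xo G X (t, v)) S := by
    intro v hv
    have h := P.Xo_diff (hNO v hv)
    have hl : DifferentiableAt ℂ (fun v : ℂ => ((t, v) : ℂ × ℂ)) v := by fun_prop
    exact (DifferentiableAt.comp v (g := Xo G X) h hl).differentiableWithinAt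
  have hg : DifferentiableOn ℂ (fun v => X (t, v)) S := by
    rintro v ⟨hv1, hv2⟩
    have hv3 : ‖v‖ < R := by simpa using hv2
    have h := Fam.diffAt P.fam ha htS hat (hv3.trans_le (min_le_right _ _))
    have hl : DifferentiableAt ℂ (fun v : ℂ => ((t, v) : ℂ × ℂ)) v := by fun_prop
    exact (DifferentiableAt.comp v (g := X) h hl).differentiableWithinAt
  have hκ : 0 < κ' - κs := by linarith [P.κs_lt']
  obtain ⟨σ, hσ, hσ1, hsm⟩ := exists_sm P.fam hκ P.nds.ρ_pos (a := ‖t‖ / 4) (by positivity)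
  have heq : ∀ v ∈ S, ‖v‖ < σ → Xo G X (t, v) = X (t, v) := by
    intro v hv hvσ
    exact P.Xo_agree (hNO v hv) (by positivity) le_rfl (hsm ‖v‖ (norm_nonneg _) hvσ)
  set ε := min σ R / 2 with hε
  have hεpos : 0 < ε := by positivity
  have hεσ : ε < σ := by
    have := min_le_left σ R
    linarith
  have hεR : ε < R := by
    have := min_le_right σ R
    linarith
  have hnorm : ‖-Complex.I * (ε : ℂ)‖ = ε := by
    rw [norm_mul, norm_neg, Complex.norm_I, one_mul, Complex.norm_real,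
      Real.norm_of_nonneg hεpos.le]
  have hz0 : -Complex.I * (ε : ℂ) ∈ S := by
    refine ⟨?_, ?_⟩
    · constructor <;> · simp; positivity
    · rw [mem_ball, dist_zero_right, hnorm]; exact hεR
  have hev : (fun v => Xo G X (t, v)) =ᶠ[𝓝 (-Complex.I * (ε : ℂ))] fun v => X (t, v) := by
    have h1 : ∀ᶠ v : ℂ in 𝓝 (-Complex.I * (ε : ℂ)), v ∈ S := hSo.mem_nhds hz0
    have h2 : ∀ᶠ v : ℂ in 𝓝 (-Complex.I * (ε : ℂ)), ‖v‖ < σ :=
      (continuous_norm.tendsto (-Complex.I * (ε : ℂ))).eventually_lt_const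
        (show ‖-Complex.I * (ε : ℂ)‖ < σ by rw [hnorm]; exact hεσ)
    filter_upwards [h1, h2] with v hv1 hv2
    exact heq v hv1 hv2
  have := (hf.analyticOnNhd hSo).eqOn_of_preconnected_of_eventuallyEq (hg.analyticOnNhd hSo)
    hSc.isPreconnected hz0 hev
  refine this (x := w) ⟨h.out, ?_⟩
  rw [mem_ball, dist_zero_right]
  exact lt_min h3 hw

/-- the law for outward directions -/
theorem Par.Xo_el (P : Par κs κ' κ₂ ρ C c A B A₀ B₀ Ψ G r Bf X) {κ c₀ M : ℝ}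
    (hE : EndPsi κ c₀ M Ψ) (hκ₂ : κ₂ ≤ κ) (hcc : 16 * c ≤ c₀) {t w : ℂ}
    (h1 : NO κs c (t - w) w) (h2 : NO κs c t w) (h3 : NO κs c (t + w) w) :
    EL Ψ (Xo G X (t + w, w)) (Xo G X (t, w)) (Xo G X (t - w, w)) = 0 ∧
      (Xo G X (t + w, w), Xo G X (t, w)) ∈ DD κ c₀ ∧
      (Xo G X (t, w), Xo G X (t - w, w)) ∈ DD κ c₀ := by
  obtain ⟨h0, h1', h2', h3', h4⟩ := h2.facts P.c_pos
  have hn : 0 < ‖t‖ := norm_pos_iff.2 h0
  have hW : 0 < ‖w‖ := norm_pos_iff.2 h2.out.ne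
  have hc := P.c_le
  obtain ⟨k1, k2⟩ := kk_spec P.c_pos h2
  set k := kk t w with hk
  have hkpos : k ≠ 0 := by
    intro h
    rw [h] at k2
    simp only [Nat.cast_zero, zero_mul, add_zero] at k2
    linarith
  obtain ⟨m, hm⟩ := Nat.exists_eq_succ_of_ne_zero hkpos
  have hkm : (k : ℝ) = m + 1 := by rw [hm]; push_cast; ring
  have hkmc : (k : ℂ) = m + 1 := by rw [hm]; push_cast; ring
  have nt1 : ‖t‖ - ‖w‖ ≤ ‖t + w‖ := by
    have := norm_sub_norm_le t (-w)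
    rw [sub_neg_eq_add, norm_neg] at this
    exact this
  have nt2 : ‖t + w‖ ≤ ‖t‖ + ‖w‖ := norm_add_le _ _
  have nt3 : ‖t‖ - ‖w‖ ≤ ‖t - w‖ := norm_sub_norm_le t w
  have nt4 : ‖t - w‖ ≤ ‖t‖ + ‖w‖ := norm_sub_le _ _
  have c1 : ((k + 1 : ℕ) : ℝ) = k + 1 := by push_cast; ring
  have a0 : adm k t w := ⟨by linarith, by linarith⟩
  have am : adm m (t + w) w := ⟨by rw [hkm] at k2; linarith, by rw [hkm] at k1; linarith⟩
  have ap : adm (k + 1) (t - w) w := by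
    constructor
    · rw [c1]; linarith
    · rw [c1]; linarith
  -- common start
  set p₀ := start X (t + k * w) w with hp₀
  have s0 : sta G X k t w = (stp G)^[k] p₀ := rfl
  have sm' : sta G X m (t + w) w = (stp G)^[m] p₀ := by
    unfold sta
    rw [hp₀]
    congr 2
    rw [hkmc]; ring
  have sp : sta G X (k + 1) (t - w) w = (stp G)^[k + 1] p₀ := by
    unfold sta
    rw [hp₀]
    congr 2
    push_cast; ring
  have e0 : Xo G X (t, w) = ((stp G)^[k] p₀).1 := by rw [P.Xo_eq h2 a0, s0]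
  have em : Xo G X (t + w, w) = ((stp G)^[m] p₀).1 := by rw [P.Xo_eq h3 am, sm']
  have ep : Xo G X (t - w, w) = ((stp G)^[k + 1] p₀).1 := by rw [P.Xo_eq h1 ap, sp]
  obtain ⟨-, o3, o4, o5, o6⟩ := P.orbit h2 a0 k le_rfl
  obtain ⟨-, m3, m4, m5, m6⟩ := P.orbit h2 a0 m (by omega)
  obtain ⟨-, q3, q4, q5, q6⟩ := P.orbit h1 ap (k + 1) le_rfl
  rw [← hp₀] at o3 o4 o5 o6 m3 m4 m5 m6
  have hst : start X (t - w + ((k + 1 : ℕ) : ℂ) * w) w = p₀ := by
    rw [hp₀]; congr 1; push_cast; ring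
  rw [hst] at q3 q4 q5 q6
  have ek : (stp G)^[k] p₀ = stp G ((stp G)^[m] p₀) := by
    rw [hm, Function.iterate_succ_apply']
  have ek1 : (stp G)^[k + 1] p₀ = stp G ((stp G)^[k] p₀) := by
    rw [Function.iterate_succ_apply']
  have hprev : ((stp G)^[k] p₀).1 - ((stp G)^[k] p₀).2 = ((stp G)^[m] p₀).1 := by
    rw [ek]; simp [stp]
  have hnext : ((stp G)^[k + 1] p₀).1 = ((stp G)^[k] p₀).1 +
      G (((stp G)^[k] p₀).1, ((stp G)^[k] p₀).2) := by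
    rw [ek1]; rfl
  have hnext2 : ((stp G)^[k + 1] p₀).1 - ((stp G)^[k] p₀).1 = ((stp G)^[k + 1] p₀).2 := by
    rw [ek1]; simp [stp]
  have hel := P.nds.el _ _ o3 o4
  rw [hprev, ← hnext] at hel
  rw [e0, em, ep]
  -- sizes
  have ex : t + k * w - k * w = t := by ring
  have eg : ‖t‖ + k * ‖w‖ - k * ‖w‖ = ‖t‖ := by ring
  rw [ex, eg] at o5
  have hx : 7 / 8 * ‖t‖ ≤ ‖((stp G)^[k] p₀).1‖ := by
    have := norm_sub_norm_le t ((stp G)^[k] p₀).1
    have h' : ‖t - ((stp G)^[k] p₀).1‖ = ‖((stp G)^[k] p₀).1 - t‖ := norm_sub_rev _ _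
    linarith
  have hwt : ‖w‖ ≤ ‖t‖ / 64 := by nlinarith
  have hxm : ‖((stp G)^[k] p₀).1‖ - 2 * ‖w‖ ≤ ‖((stp G)^[m] p₀).1‖ := by
    rw [← hprev]
    have := norm_sub_norm_le ((stp G)^[k] p₀).1 ((stp G)^[k] p₀).2
    linarith
  have hxp : ‖((stp G)^[k] p₀).1‖ - 2 * ‖w‖ ≤ ‖((stp G)^[k + 1] p₀).1‖ := by
    have e : ((stp G)^[k + 1] p₀).1 = ((stp G)^[k] p₀).1 + ((stp G)^[k + 1] p₀).2 := by
      rw [← hnext2]; ring
    rw [e]
    have := norm_sub_norm_le ((stp G)^[k] p₀).1 (-((stp G)^[k + 1] p₀).2)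
    rw [sub_neg_eq_add, norm_neg] at this
    linarith
  have hc₀ := hE.c_pos
  have hbig : ∀ a : ℝ, ‖t‖ / 2 ≤ a → 2 * ‖w‖ < c₀ * a := by
    intro a ha
    have h1 : c₀ * (‖t‖ / 2) ≤ c₀ * a := by gcongr
    have h2 : 16 * c * ‖t‖ ≤ c₀ * ‖t‖ := by gcongr
    nlinarith
  refine ⟨hel, ⟨Rg_sub_Sg hκ₂ m3, Rg_sub_Sg hκ₂ o3, ?_, ?_⟩,
    ⟨Rg_sub_Sg hκ₂ o3, Rg_sub_Sg hκ₂ q3, ?_, ?_⟩⟩
  · have e : ((stp G)^[k] p₀).1 - ((stp G)^[m] p₀).1 = ((stp G)^[k] p₀).2 := by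
      rw [← hprev]; ring
    simp only
    rw [e]
    exact lt_of_le_of_lt o6 (hbig _ (by linarith))
  · have e : ((stp G)^[k] p₀).1 - ((stp G)^[m] p₀).1 = ((stp G)^[k] p₀).2 := by
      rw [← hprev]; ring
    simp only
    rw [e]
    exact lt_of_le_of_lt o6 (hbig _ (by linarith))
  · simp only
    rw [hnext2]
    exact lt_of_le_of_lt q6 (hbig _ (by linarith))
  · simp only
    rw [hnext2]
    exact lt_of_le_of_lt q6 (hbig _ (by linarith))


end par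

end Crest.Agent.R102.Mel.CD

namespace Crest.Agent.R102.Mel

open Crest.Agent.R102.T5R

theorem dn_neg_I {l : ℝ} (hl : 0 < l) : CD.Dn (-Complex.I * (l : ℂ)) := by
  constructor <;> · simp; positivity

theorem norm_neg_I {l : ℝ} (hl : 0 < l) : ‖-Complex.I * (l : ℂ)‖ = l := by
  rw [norm_mul, norm_neg, Complex.norm_I, one_mul, Complex.norm_real, Real.norm_of_nonneg hl.le]

/-- **(ConeD)** from the near-diagonal map -/
theorem coneD_of_ndm (hN : NDM) : ConeD := by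
  intro κ κ' κs c₀ M Ψ r Bf X hκs hκs' hκ hκ10 hE hX
  have hκ' : 0 < κ' := hκs.trans hκs'
  set κ₂ := (κ + κ') / 2 with hκ₂
  have hκ₂1 : κ' < κ₂ := by rw [hκ₂]; linarith
  have hκ₂2 : κ₂ < κ := by rw [hκ₂]; linarith
  have hκ₂3 : κ₂ < 1 := hκ₂2.trans hE.κ_lt
  obtain ⟨ρ, C, G, hG⟩ := L2.nds_of_ndm hN hE hκ₂2
  obtain ⟨A₀, B₀, σ₀, hσ₀, hst⟩ := CD.start_bound hX hκs hκs' (by linarith)
  obtain ⟨A, B, c₁, hA, hB, hc₁, hc64, horb⟩ := L2.orbit (A₀ := A₀) (B₀ := B₀) hG hκ' hκ₂1 hκ₂3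
  obtain ⟨σ₁, hσ₁, hσ1', hsm⟩ := L2.exists_sm (κ' := κ' - κs) hX (by linarith) hG.ρ_pos
    (a := 1 / 8) (by norm_num)
  have hc₀ := hE.c_pos
  set c := min (min c₁ (1 / (8 * B))) (min σ₀ (min σ₁ (c₀ / 16))) with hc
  have i0 : 0 < c := lt_min (lt_min hc₁ (by positivity)) (lt_min hσ₀ (lt_min hσ₁ (by positivity)))
  have i1 : c ≤ c₁ := (min_le_left _ _).trans (min_le_left _ _)
  have i1' : c ≤ 1 / (8 * B) := (min_le_left _ _).trans (min_le_right _ _)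
  have i2 : c ≤ σ₀ := (min_le_right _ _).trans (min_le_left _ _)
  have i3 : c ≤ σ₁ := (min_le_right _ _).trans ((min_le_right _ _).trans (min_le_left _ _))
  have i4 : c ≤ c₀ / 16 := (min_le_right _ _).trans ((min_le_right _ _).trans (min_le_right _ _))
  have P : CD.Par κs κ' κ₂ ρ C c A B A₀ B₀ Ψ G r Bf X := by
    refine ⟨hG, hX, hκs, by linarith, hκs', hκ₂1, hκ₂3, i0, by linarith, hA, hB, ?_, ?_, ?_⟩
    · intro T₀ w g₀ k p₀ hR h1 h2 j hj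
      exact horb c T₀ w g₀ k p₀ i0 i1 hR h1 h2 j hj
    · intro T w h1 h2 h3 h4 h5
      exact hst T w h1 h2 h3 h4 (by linarith)
    · intro W h0 hW
      exact hsm W h0 (by linarith)
  have hNO : ∀ l : ℝ, 0 < l → ∀ t ∈ Dl κs c l, CD.NO κs c t (-Complex.I * (l : ℂ)) := by
    intro l hl t ht
    refine ⟨ht.1, by linarith [ht.2.1], ht.2.2.1, ?_, dn_neg_I hl⟩
    rw [norm_neg_I hl]; exact ht.2.2.2
  refine ⟨c, B, 1, fun l t => L2.Xo G X (t, -Complex.I * (l : ℂ)), ⟨hκs, i0, ?_, ?_, one_pos,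
    ?_, ?_, ?_⟩, ?_⟩
  · linarith
  · rw [le_div_iff₀ (by positivity)] at i1'
    linarith
  · intro l hl _ t ht
    have h := P.Xo_diff (hNO l hl t ht)
    have hl : DifferentiableAt ℂ (fun t : ℂ => ((t, -Complex.I * (l : ℂ)) : ℂ × ℂ)) t := by
      fun_prop
    exact (DifferentiableAt.comp t (g := L2.Xo G X)
      (f := fun t : ℂ => ((t, -Complex.I * (l : ℂ)) : ℂ × ℂ)) h hl).differentiableWithinAt
  · intro l hl _ t ht
    have h := P.Xo_near (hNO l hl t ht)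
    rwa [norm_neg_I hl] at h
  · intro l hl _ t h1 h2 h3
    have e1 : t + Complex.I * (l : ℂ) = t - -Complex.I * (l : ℂ) := by ring
    have e3 : t - Complex.I * (l : ℂ) = t + -Complex.I * (l : ℂ) := by ring
    rw [e1] at h1 ⊢
    rw [e3] at h3 ⊢
    obtain ⟨k1, k2, k3⟩ := P.Xo_el hE hκ₂2.le (by linarith) (hNO l hl _ h1) (hNO l hl _ h2)
      (hNO l hl _ h3)
    have := L2.EL_antisymm hE k2 k3
    rw [this, k1, neg_zero]
  · intro a l ha hl _ hr t ht hat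
    exact P.Xo_ext (hNO l hl t ht) ha hat (by rw [norm_neg_I hl]; exact hr)

theorem coneD : ConeD := coneD_of_ndm NDM596.ndm

end Crest.Agent.R102.Mel
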