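import Mathlib
import Crest.Agent.R102.BishopDefs_120

/-!
# Row 102, T1-B, Bishop discs: LEAF 2 (contact) in the literal form of `BishopDefs_120` (helper435)

`contact : Bishop120.Contact`.  Only `L²`-continuity in `ξ` is available.  For a function `χ`, Lipschitz in
the first variable, telescoping over `ξ = j/n` gives `∫∫ χ ≤ m + √m/10` (`m` = sup over `ξ` of the mean of
`χ` on the curve `ξ`); then `χ ↓ 1_P` and a compactness argument in `ξ`.
-/

set_option autoImplicit false

noncomputable section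

open MeasureTheory Metric Set Filter Topology

namespace Crest.Agent.R102.Contact435

open Bishop120

lemma int_le_lip {χ : ℝ → ℝ} (hc : Continuous χ) (h0 : ∀ x, 0 ≤ χ x) {L : ℝ}
    (hL : ∀ x x', |χ x - χ x'| ≤ L * |x - x'|) (hL0 : 0 ≤ L) (a b : ℝ) :
    ∫ x in a..b, χ x ≤ |b - a| * χ a + L * (b - a) ^ 2 := by
  have h1 : ∫ x in a..b, χ x = (b - a) * χ a + ∫ x in a..b, (χ x - χ a) := by
    rw [intervalIntegral.integral_sub (hc.intervalIntegrable _ _) (intervalIntegrable_const),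
      intervalIntegral.integral_const, smul_eq_mul]
    ring
  have h2 : ‖∫ x in a..b, (χ x - χ a)‖ ≤ (L * |b - a|) * |b - a| := by
    refine intervalIntegral.norm_integral_le_of_norm_le_const (fun x hx => ?_)
    rw [Real.norm_eq_abs]
    refine (hL x a).trans (mul_le_mul_of_nonneg_left ?_ hL0)
    rcases le_total a b with hab | hab
    · rw [uIoc_of_le hab] at hx
      rw [abs_of_nonneg (by linarith [hx.1]), abs_of_nonneg (by linarith)]
      linarith [hx.2]
    · rw [uIoc_of_ge hab] at hx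
      rw [abs_of_nonpos (by linarith [hx.2]), abs_of_nonpos (by linarith)]
      linarith [hx.1]
  rw [Real.norm_eq_abs] at h2
  have h3 : (L * |b - a|) * |b - a| = L * (b - a) ^ 2 := by
    rw [mul_assoc, ← sq, sq_abs]
  have h4 := le_abs_self (∫ x in a..b, (χ x - χ a))
  have h5 : (b - a) * χ a ≤ |b - a| * χ a := mul_le_mul_of_nonneg_right (le_abs_self _) (h0 a)
  rw [h1]
  linarith

/-- the telescoping estimate -/
lemma telescope {k : ℝ → ℝ → ℝ} (hk : ∀ ξ, Continuous (k ξ)) (hb : ∀ ξ r, |k ξ r| ≤ 1 / 100)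
    (hL : ∀ ξ ξ' : ℝ, ∫ r in (0 : ℝ)..1, (k ξ r - k ξ' r) ^ 2 ≤ ((ξ - ξ') / 10) ^ 2)
    {χ : ℝ × ℝ → ℝ} (hχ : Continuous χ) (h0 : ∀ p, 0 ≤ χ p) (h1 : ∀ p, χ p ≤ 1) {L : ℝ}
    (hL0 : 0 ≤ L) (hlip : ∀ x x' r, |χ (x, r) - χ (x', r)| ≤ L * |x - x'|) {m : ℝ} (hm : 0 < m)
    (hmean : ∀ ξ ∈ Icc (0:ℝ) 1, ∫ r in (0:ℝ)..1, χ (ξ + k ξ r, r) ≤ m) :
    ∫ r in (0:ℝ)..1, ∫ x in (1/100:ℝ)..(99/100), χ (x, r) ≤ m + √m / 10 := by
  have key : ∀ n : ℕ, 0 < n →
      ∫ r in (0:ℝ)..1, ∫ x in (1/100:ℝ)..(99/100), χ (x, r) ≤ m + √m / 10 + 4 * L / n := by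
    intro n hn
    have hnR : (0:ℝ) < n := by exact_mod_cast hn
    set δ : ℝ := 1 / n with hδ
    have hδ0 : 0 < δ := by positivity
    have hnδ : n * δ = 1 := by rw [hδ]; field_simp
    set g : ℕ → ℝ → ℝ := fun j r => j * δ + k (j * δ) r with hg
    have hgc : ∀ j, Continuous (g j) := fun j => continuous_const.add (hk _)
    have hχr : ∀ r, Continuous (fun x => χ (x, r)) := fun r => by fun_prop
    have hΔ : ∀ j r, g (j + 1) r - g j r = δ + (k (((j + 1 : ℕ) : ℝ) * δ) r - k (j * δ) r) := by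
      intro j r; simp only [hg]; push_cast; ring
    -- pointwise
    have hpt : ∀ r ∈ Icc (0:ℝ) 1, ∫ x in (1/100:ℝ)..(99/100), χ (x, r) ≤
        ∑ j ∈ Finset.range n, (|g (j + 1) r - g j r| * χ (g j r, r) + L * (g (j + 1) r - g j r) ^ 2) := by
      intro r _
      have e1 : ∫ x in (g 0 r)..(g n r), χ (x, r) = ∑ j ∈ Finset.range n,
          ∫ x in (g j r)..(g (j + 1) r), χ (x, r) := by
        rw [intervalIntegral.sum_integral_adjacent_intervals (a := fun j => g j r)]
        intro j _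
        exact (hχr r).intervalIntegrable _ _
      have e2 : ∫ x in (1/100:ℝ)..(99/100), χ (x, r) ≤ ∫ x in (g 0 r)..(g n r), χ (x, r) := by
        have hg0 : g 0 r ≤ 1 / 100 := by
          simp only [hg]; have := abs_le.1 (hb ((0:ℕ) * δ) r); push_cast at this ⊢; linarith [this.2]
        have hgn : 99 / 100 ≤ g n r := by
          simp only [hg]; rw [hnδ]; have := abs_le.1 (hb 1 r); linarith [this.1]
        refine intervalIntegral.integral_mono_interval hg0 (by norm_num) hgn ?_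
          ((hχr r).intervalIntegrable _ _)
        exact Eventually.of_forall (fun x => h0 _)
      refine e2.trans ?_
      rw [e1]
      refine Finset.sum_le_sum (fun j _ => ?_)
      exact int_le_lip (hχr r) (fun x => h0 _) (fun x x' => hlip x x' r) hL0 _ _
    have hcont1 : Continuous (fun r => ∫ x in (1/100:ℝ)..(99/100), χ (x, r)) := by
      refine intervalIntegral.continuous_parametric_intervalIntegral_of_continuous' ?_ _ _
      fun_prop
    have hterm : ∀ j, Continuous (fun r => |g (j + 1) r - g j r| * χ (g j r, r) +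
        L * (g (j + 1) r - g j r) ^ 2) := by
      intro j
      have c1 := hgc j
      have c2 := hgc (j + 1)
      fun_prop
    have hI := intervalIntegral.integral_mono_on (μ := volume) (zero_le_one) (hcont1.intervalIntegrable 0 1)
      ((continuous_finsetSum (Finset.range n) (fun j _ => hterm j)).intervalIntegrable 0 1) hpt
    refine hI.trans ?_
    rw [intervalIntegral.integral_finsetSum (fun j _ => (hterm j).intervalIntegrable _ _)]
    have hj : ∀ j ∈ Finset.range n, ∫ r in (0:ℝ)..1, (|g (j + 1) r - g j r| * χ (g j r, r) +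
        L * (g (j + 1) r - g j r) ^ 2) ≤ δ * (m + √m / 10 + 4 * L * δ) := by
      intro j hj
      rw [Finset.mem_range] at hj
      set κ : ℝ → ℝ := fun r => k (((j + 1 : ℕ) : ℝ) * δ) r - k (j * δ) r with hκ
      have hκc : Continuous κ := (hk _).sub (hk _)
      have hκ2 : ∫ r in (0:ℝ)..1, κ r ^ 2 ≤ (δ / 10) ^ 2 := by
        have := hL (((j + 1 : ℕ) : ℝ) * δ) (j * δ)
        have e : (((j + 1 : ℕ) : ℝ) * δ - j * δ) = δ := by push_cast; ring
        rwa [e] at this
      set a : ℝ → ℝ := fun r => χ (g j r, r) with ha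
      have hac : Continuous a := by have := hgc j; simp only [ha]; fun_prop
      have ha0 : ∀ r, 0 ≤ a r := fun r => h0 _
      have ha1 : ∀ r, a r ≤ 1 := fun r => h1 _
      have ham : ∫ r in (0:ℝ)..1, a r ≤ m := by
        refine hmean (j * δ) ⟨by positivity, ?_⟩
        have : (j:ℝ) ≤ n := by exact_mod_cast hj.le
        nlinarith
      set s : ℝ := √m with hs
      have hs0 : 0 < s := Real.sqrt_pos.2 hm
      have hss : s * s = m := Real.mul_self_sqrt hm.le
      -- pointwise bound of the integrand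
      have hpt2 : ∀ r ∈ Icc (0:ℝ) 1, |g (j + 1) r - g j r| * χ (g j r, r) +
          L * (g (j + 1) r - g j r) ^ 2 ≤
          (δ + δ / (20 * s)) * a r + (5 * s / δ + 2 * L) * κ r ^ 2 + 2 * L * δ ^ 2 := by
        intro r _
        rw [hΔ]
        change |δ + κ r| * a r + L * (δ + κ r) ^ 2 ≤ _
        have t1 : |δ + κ r| ≤ δ + |κ r| := (abs_add_le _ _).trans (by rw [abs_of_pos hδ0])
        have t2 : |κ r| * a r ≤ 5 * s / δ * κ r ^ 2 + δ / (20 * s) * a r := by
          have t3 : 0 ≤ (10 * s / δ * |κ r| - a r) ^ 2 := sq_nonneg _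
          have t4 : a r ^ 2 ≤ a r := by nlinarith [ha0 r, ha1 r]
          have t5 : |κ r| ^ 2 = κ r ^ 2 := sq_abs _
          have t6 : 2 * (10 * s / δ) * |κ r| * a r ≤ (10 * s / δ) ^ 2 * κ r ^ 2 + a r := by
            rw [← t5]; nlinarith
          have t7 : |κ r| * a r = (δ / (20 * s)) * (2 * (10 * s / δ) * |κ r| * a r) := by
            field_simp
            ring
          rw [t7]
          calc (δ / (20 * s)) * (2 * (10 * s / δ) * |κ r| * a r)
              ≤ (δ / (20 * s)) * ((10 * s / δ) ^ 2 * κ r ^ 2 + a r) :=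
                mul_le_mul_of_nonneg_left t6 (by positivity)
            _ = 5 * s / δ * κ r ^ 2 + δ / (20 * s) * a r := by field_simp; ring
        have t8 : (δ + κ r) ^ 2 ≤ 2 * δ ^ 2 + 2 * κ r ^ 2 := by nlinarith [sq_nonneg (δ - κ r)]
        have t9 : L * (δ + κ r) ^ 2 ≤ L * (2 * δ ^ 2 + 2 * κ r ^ 2) :=
          mul_le_mul_of_nonneg_left t8 hL0
        have t10 : |δ + κ r| * a r ≤ (δ + |κ r|) * a r := mul_le_mul_of_nonneg_right t1 (ha0 r)
        nlinarith
      have hI2 := intervalIntegral.integral_mono_on (μ := volume) (zero_le_one) ((hterm j).intervalIntegrable 0 1)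
        (Continuous.intervalIntegrable (by fun_prop) 0 1) hpt2
      refine hI2.trans ?_
      have e3 : ∫ r in (0:ℝ)..1, ((δ + δ / (20 * s)) * a r + (5 * s / δ + 2 * L) * κ r ^ 2 +
          2 * L * δ ^ 2) = (δ + δ / (20 * s)) * (∫ r in (0:ℝ)..1, a r) +
          (5 * s / δ + 2 * L) * (∫ r in (0:ℝ)..1, κ r ^ 2) + 2 * L * δ ^ 2 := by
        rw [intervalIntegral.integral_add (Continuous.intervalIntegrable (by fun_prop) 0 1)
          (intervalIntegrable_const), intervalIntegral.integral_add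
          (Continuous.intervalIntegrable (by fun_prop) 0 1)
          (Continuous.intervalIntegrable (by fun_prop) 0 1),
          intervalIntegral.integral_const_mul, intervalIntegral.integral_const_mul,
          intervalIntegral.integral_const]
        simp
      rw [e3]
      have u1 : (δ + δ / (20 * s)) * (∫ r in (0:ℝ)..1, a r) ≤ (δ + δ / (20 * s)) * m :=
        mul_le_mul_of_nonneg_left ham (by positivity)
      have u2 : (5 * s / δ + 2 * L) * (∫ r in (0:ℝ)..1, κ r ^ 2) ≤ (5 * s / δ + 2 * L) * (δ / 10) ^ 2 :=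
        mul_le_mul_of_nonneg_left hκ2 (by positivity)
      have u3 : (δ + δ / (20 * s)) * m + (5 * s / δ + 2 * L) * (δ / 10) ^ 2 + 2 * L * δ ^ 2 =
          δ * (m + s / 10 + (2 + 2 / 100) * L * δ) := by
        rw [← hss]; field_simp; ring
      have u4 : δ * (m + s / 10 + (2 + 2 / 100) * L * δ) ≤ δ * (m + s / 10 + 4 * L * δ) := by
        refine mul_le_mul_of_nonneg_left ?_ hδ0.le
        have : (2 + 2 / 100) * L * δ ≤ 4 * L * δ := by
          have : 0 ≤ L * δ := by positivity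
          nlinarith
        linarith
      linarith
    refine (Finset.sum_le_sum hj).trans (le_of_eq ?_)
    rw [Finset.sum_const, Finset.card_range, nsmul_eq_mul, ← mul_assoc, hnδ, one_mul, hδ]
    ring
  have hlim : Tendsto (fun n : ℕ => m + √m / 10 + 4 * L / n) atTop (𝓝 (m + √m / 10 + 0)) :=
    tendsto_const_nhds.add (tendsto_const_div_atTop_nhds_zero_nat _)
  rw [add_zero] at hlim
  refine ge_of_tendsto hlim ?_
  filter_upwards [eventually_gt_atTop 0] with n hn using key n hn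

/-- the slices of a closed set, against a continuous majorant -/
lemma vol_le_int {P : Set (ℝ × ℝ)} (hP : IsClosed P)
    (hvol : ENNReal.ofReal (9 / 10) ≤ volume (P ∩ Icc (0 : ℝ) 1 ×ˢ Icc (0 : ℝ) 1))
    {χ : ℝ × ℝ → ℝ} (hχ : Continuous χ) (h0 : ∀ p, 0 ≤ χ p) (hP1 : ∀ p ∈ P, χ p = 1) :
    (88 / 100 : ℝ) ≤ ∫ r in (0:ℝ)..1, ∫ x in (1/100:ℝ)..(99/100), χ (x, r) := by
  set Q : Set (ℝ × ℝ) := P ∩ (Ioc (1/100:ℝ) (99/100) ×ˢ Ioc (0:ℝ) 1) with hQ
  have hQm : MeasurableSet Q := hP.measurableSet.inter (measurableSet_Ioc.prod measurableSet_Ioc)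
  have hsub : P ∩ Icc (0 : ℝ) 1 ×ˢ Icc (0 : ℝ) 1 ⊆ Q ∪ (Icc (0:ℝ) (1/100) ×ˢ Icc (0:ℝ) 1) ∪
      (Icc (99/100:ℝ) 1 ×ˢ Icc (0:ℝ) 1) ∪ (Icc (0:ℝ) 1 ×ˢ {0}) := by
    rintro ⟨x, r⟩ ⟨h1, ⟨h2, h3⟩, h4, h5⟩
    simp only at h2 h3 h4 h5
    by_cases hx : x ≤ 1/100
    · exact Or.inl (Or.inl (Or.inr ⟨⟨h2, hx⟩, h4, h5⟩))
    · by_cases hx' : 99/100 < x
      · exact Or.inl (Or.inr ⟨⟨hx'.le, h3⟩, h4, h5⟩)
      · rcases eq_or_lt_of_le h4 with h6 | h6
        · exact Or.inr ⟨⟨h2, h3⟩, h6.symm⟩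
        · exact Or.inl (Or.inl (Or.inl ⟨h1, ⟨not_le.1 hx, not_lt.1 hx'⟩, h6, h5⟩))
  have hv1 : volume (P ∩ Icc (0 : ℝ) 1 ×ˢ Icc (0 : ℝ) 1) ≤ volume Q + ENNReal.ofReal (2/100) := by
    refine (measure_mono hsub).trans ?_
    refine (measure_union_le _ _).trans ?_
    have z : volume ((Icc (0:ℝ) 1 ×ˢ {0}) : Set (ℝ × ℝ)) = 0 := by
      rw [Measure.volume_eq_prod, Measure.prod_prod]; simp
    rw [z, add_zero]
    refine (measure_union_le _ _).trans ?_
    refine (add_le_add_left (measure_union_le _ _) _).trans ?_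
    have e1 : volume ((Icc (0:ℝ) (1/100) ×ˢ Icc (0:ℝ) 1) : Set (ℝ × ℝ)) = ENNReal.ofReal (1/100) := by
      rw [Measure.volume_eq_prod, Measure.prod_prod]; simp
    have e2 : volume ((Icc (99/100:ℝ) 1 ×ˢ Icc (0:ℝ) 1) : Set (ℝ × ℝ)) = ENNReal.ofReal (1/100) := by
      rw [Measure.volume_eq_prod, Measure.prod_prod, Real.volume_Icc, Real.volume_Icc,
        ← ENNReal.ofReal_mul (by norm_num)]
      norm_num
    rw [e1, e2, add_assoc, ← ENNReal.ofReal_add (by norm_num) (by norm_num)]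
    norm_num
  have hv2 : ENNReal.ofReal (88/100) ≤ volume Q := by
    have h1 : ENNReal.ofReal (88/100) + ENNReal.ofReal (2/100) ≤ volume Q + ENNReal.ofReal (2/100) := by
      rw [← ENNReal.ofReal_add (by norm_num) (by norm_num)]
      refine le_trans (le_of_eq ?_) (hvol.trans hv1)
      norm_num
    exact (ENNReal.add_le_add_iff_right ENNReal.ofReal_ne_top).1 h1
  have hχr : ∀ r, Continuous (fun x => χ (x, r)) := fun r => by fun_prop
  have hcont1 : Continuous (fun r => ∫ x in (1/100:ℝ)..(99/100), χ (x, r)) := by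
    refine intervalIntegral.continuous_parametric_intervalIntegral_of_continuous' ?_ _ _
    fun_prop
  have hnn : ∀ r, 0 ≤ ∫ x in (1/100:ℝ)..(99/100), χ (x, r) := fun r =>
    intervalIntegral.integral_nonneg (by norm_num) (fun x _ => h0 _)
  have hsl : ∀ r, volume {x | (x, r) ∈ Q} ≤ (Ioc (0:ℝ) 1).indicator
      (fun r => ENNReal.ofReal (∫ x in (1/100:ℝ)..(99/100), χ (x, r))) r := by
    intro r
    by_cases hr : r ∈ Ioc (0:ℝ) 1
    · rw [indicator_of_mem hr, intervalIntegral.integral_of_le (by norm_num),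
        ofReal_integral_eq_lintegral_ofReal ((hχr r).integrableOn_Ioc)
          (Eventually.of_forall (fun x => h0 _))]
      have hm : MeasurableSet {x | (x, r) ∈ P} := by
        have : Continuous (fun x : ℝ => ((x, r) : ℝ × ℝ)) := by fun_prop
        exact (hP.preimage this).measurableSet
      calc volume {x | (x, r) ∈ Q} ≤ (volume.restrict (Ioc (1/100:ℝ) (99/100))) {x | (x, r) ∈ P} := by
            rw [Measure.restrict_apply hm]
            exact measure_mono (fun x hx => ⟨hx.1, hx.2.1⟩)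
        _ = ∫⁻ x in Ioc (1/100:ℝ) (99/100), ({x | (x, r) ∈ P}).indicator 1 x := by
            rw [lintegral_indicator_one hm]
        _ ≤ ∫⁻ x in Ioc (1/100:ℝ) (99/100), ENNReal.ofReal (χ (x, r)) := by
            refine lintegral_mono (fun x => ?_)
            by_cases hx : (x, r) ∈ P
            · rw [indicator_of_mem (by exact hx), hP1 _ hx]; simp
            · rw [indicator_of_notMem (by exact hx)]; exact bot_le
    · have : {x | (x, r) ∈ Q} = ∅ := by
        ext x; simp only [mem_ofPred_eq, mem_empty_iff_false, iff_false]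
        intro hx; exact hr hx.2.2
      rw [this]; simp
  have hv3 : volume Q ≤ ENNReal.ofReal (∫ r in (0:ℝ)..1, ∫ x in (1/100:ℝ)..(99/100), χ (x, r)) := by
    rw [Measure.volume_eq_prod, Measure.prod_apply_symm hQm]
    refine (lintegral_mono hsl).trans ?_
    rw [lintegral_indicator measurableSet_Ioc, intervalIntegral.integral_of_le zero_le_one,
      ofReal_integral_eq_lintegral_ofReal hcont1.integrableOn_Ioc
        (Eventually.of_forall (fun r => hnn r))]
  have := hv2.trans hv3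
  rwa [ENNReal.ofReal_le_ofReal_iff (intervalIntegral.integral_nonneg (by norm_num)
    (fun r _ => hnn r))] at this

/-- the cut-off `max 0 (1 - n dist)` -/
def cut (P : Set (ℝ × ℝ)) (n : ℕ) (p : ℝ × ℝ) : ℝ := max 0 (1 - n * infDist p P)

lemma cut_cont (P : Set (ℝ × ℝ)) (n : ℕ) : Continuous (cut P n) := by
  unfold cut
  have := continuous_infDist_pt P
  fun_prop

lemma cut_nonneg (P : Set (ℝ × ℝ)) (n : ℕ) (p : ℝ × ℝ) : 0 ≤ cut P n p := le_max_left _ _

lemma cut_le_one (P : Set (ℝ × ℝ)) (n : ℕ) (p : ℝ × ℝ) : cut P n p ≤ 1 := by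
  unfold cut
  refine max_le zero_le_one ?_
  have : 0 ≤ (n:ℝ) * infDist p P := mul_nonneg (Nat.cast_nonneg _) infDist_nonneg
  linarith

lemma cut_mem {P : Set (ℝ × ℝ)} (n : ℕ) {p : ℝ × ℝ} (hp : p ∈ P) : cut P n p = 1 := by
  unfold cut; rw [infDist_zero_of_mem hp]; simp

lemma cut_lip (P : Set (ℝ × ℝ)) (n : ℕ) (x x' r : ℝ) :
    |cut P n (x, r) - cut P n (x', r)| ≤ n * |x - x'| := by
  unfold cut
  have h1 : |infDist (x, r) P - infDist (x', r) P| ≤ |x - x'| := by
    have := (lipschitz_infDist_pt P).dist_le_mul (x, r) (x', r)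
    rw [Real.dist_eq, Prod.dist_eq] at this
    simpa [Real.dist_eq] using this
  have h2 := abs_max_sub_max_le_max (0:ℝ) (1 - n * infDist (x, r) P) 0 (1 - n * infDist (x', r) P)
  refine h2.trans ?_
  rw [sub_self, abs_zero]
  refine max_le (by positivity) ?_
  have e : (1 - n * infDist (x, r) P) - (1 - n * infDist (x', r) P) =
      -(n * (infDist (x, r) P - infDist (x', r) P)) := by ring
  rw [e, abs_neg, abs_mul, Nat.abs_cast]
  exact mul_le_mul_of_nonneg_left h1 (Nat.cast_nonneg _)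

/-- if `p n → p ∉ P` then the cut-offs vanish eventually along any `φ n → ∞` -/
lemma cut_tendsto {P : Set (ℝ × ℝ)} (hP : IsClosed P) (hne : P.Nonempty) {p : ℕ → ℝ × ℝ} {q : ℝ × ℝ}
    (hp : Tendsto p atTop (𝓝 q)) (hq : q ∉ P) {φ : ℕ → ℕ} (hφ : Tendsto φ atTop atTop) :
    ∀ᶠ n in atTop, cut P (φ n) (p n) = 0 := by
  have hd : 0 < infDist q P := (hP.notMem_iff_infDist_pos hne).1 hq
  have h1 : Tendsto (fun n => infDist (p n) P) atTop (𝓝 (infDist q P)) :=
    ((continuous_infDist_pt P).tendsto _).comp hp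
  have h2 : ∀ᶠ n in atTop, infDist q P / 2 < infDist (p n) P :=
    h1.eventually (lt_mem_nhds (by linarith))
  obtain ⟨N, hN⟩ := exists_nat_gt (2 / infDist q P)
  have h3 : ∀ᶠ n in atTop, N ≤ φ n := hφ.eventually_ge_atTop N
  filter_upwards [h2, h3] with n h4 h5
  unfold cut
  refine max_eq_left ?_
  have h6 : 2 / infDist q P < φ n := lt_of_lt_of_le hN (by exact_mod_cast h5)
  rw [div_lt_iff₀ hd] at h6
  nlinarith

/-- **LEAF 2 of the Bishop disc** -/
theorem contact_leaf : Bishop120.Contact := by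
  intro k hk hb hL P hP hvol
  have hne : P.Nonempty := by
    by_contra h
    rw [not_nonempty_iff_eq_empty] at h
    rw [h] at hvol
    simp at hvol
    norm_num at hvol
  -- good `ξ` for each cut-off
  have h1 : ∀ n : ℕ, ∃ ξ ∈ Icc (0:ℝ) 1, (76/100:ℝ) < ∫ r in (0:ℝ)..1, cut P n (ξ + k ξ r, r) := by
    intro n
    by_contra! hcon
    have h2 := telescope hk hb hL (cut_cont P n) (cut_nonneg P n) (cut_le_one P n)
      (Nat.cast_nonneg n) (cut_lip P n) (m := 76/100) (by norm_num) hcon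
    have h3 := vol_le_int hP hvol (cut_cont P n) (cut_nonneg P n) (fun p hp => cut_mem n hp)
    have h4 : √(76/100:ℝ) ≤ 88/100 := by
      rw [Real.sqrt_le_left (by norm_num)]; norm_num
    linarith
  choose ξ hξ hξ2 using h1
  obtain ⟨x0, hx0, φ, hφ, hlim⟩ := isCompact_Icc.tendsto_subseq hξ
  -- a fast subsequence
  have h2 : ∀ n : ℕ, ∃ N, ∀ j ≥ N, |(ξ ∘ φ) j - x0| ≤ (1/2:ℝ) ^ n := by
    intro n
    rw [Metric.tendsto_atTop] at hlim
    obtain ⟨N, hN⟩ := hlim ((1/2:ℝ) ^ n) (by positivity)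
    exact ⟨N, fun j hj => by have := hN j hj; rw [Real.dist_eq] at this; exact this.le⟩
  obtain ⟨ψ, hψ, hψ2⟩ := extraction_forall_of_eventually' h2
  set η : ℕ → ℕ := fun n => φ (ψ n) with hη
  have hη1 : Tendsto η atTop atTop := (hφ.comp hψ).tendsto_atTop
  set ν : Measure ℝ := volume.restrict (Ioc (0:ℝ) 1) with hν
  have : IsFiniteMeasure ν := by rw [hν]; infer_instance
  -- a.e. convergence
  have h3 : ∀ n : ℕ, ∫⁻ r, ENNReal.ofReal ((k (ξ (η n)) r - k x0 r) ^ 2) ∂ν ≤
      ENNReal.ofReal ((1/4:ℝ) ^ n) := by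
    intro n
    have hc : Continuous (fun r => (k (ξ (η n)) r - k x0 r) ^ 2) := by
      have a1 := hk (ξ (η n)); have a2 := hk x0; fun_prop
    rw [hν, ← ofReal_integral_eq_lintegral_ofReal hc.integrableOn_Ioc
      (Eventually.of_forall (fun r => sq_nonneg _)), ← intervalIntegral.integral_of_le zero_le_one]
    refine ENNReal.ofReal_le_ofReal ((hL _ _).trans ?_)
    have h4 : |ξ (η n) - x0| ≤ (1/2:ℝ) ^ n := hψ2 n
    have h5 : (ξ (η n) - x0) ^ 2 ≤ ((1/2:ℝ) ^ n) ^ 2 := by
      rw [← sq_abs]; exact pow_le_pow_left₀ (abs_nonneg _) h4 2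
    have h6 : ((1/2:ℝ) ^ n) ^ 2 = (1/4:ℝ) ^ n := by
      rw [← pow_mul, mul_comm, pow_mul]; norm_num
    rw [h6] at h5
    have h7 : 0 ≤ (1/4:ℝ) ^ n := by positivity
    nlinarith
  have h4 : ∀ᵐ r ∂ν, ∑' n, ENNReal.ofReal ((k (ξ (η n)) r - k x0 r) ^ 2) < ⊤ := by
    have hmm : ∀ n, Measurable (fun r => ENNReal.ofReal ((k (ξ (η n)) r - k x0 r) ^ 2)) := by
      intro n
      have a1 := hk (ξ (η n)); have a2 := hk x0
      exact (Continuous.measurable (by fun_prop)).ennreal_ofReal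
    refine ae_lt_top (Measurable.ennreal_tsum hmm) ?_
    rw [lintegral_tsum (fun n => (hmm n).aemeasurable)]
    refine ne_top_of_le_ne_top ?_ (ENNReal.tsum_le_tsum h3)
    rw [← ENNReal.ofReal_tsum_of_nonneg (fun n => by positivity)
      (summable_geometric_of_lt_one (by norm_num) (by norm_num))]
    exact ENNReal.ofReal_ne_top
  have h5 : ∀ᵐ r ∂ν, Tendsto (fun n => k (ξ (η n)) r) atTop (𝓝 (k x0 r)) := by
    filter_upwards [h4] with r hr
    have h6 := ENNReal.tendsto_atTop_zero_of_tsum_ne_top hr.ne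
    have h7 : Tendsto (fun n => (k (ξ (η n)) r - k x0 r) ^ 2) atTop (𝓝 0) := by
      have h8 := (ENNReal.tendsto_toReal ENNReal.zero_ne_top).comp h6
      simp only [ENNReal.toReal_zero] at h8
      refine h8.congr (fun n => ?_)
      simp only [Function.comp]
      exact ENNReal.toReal_ofReal (sq_nonneg _)
    have h8 : Tendsto (fun n => |k (ξ (η n)) r - k x0 r|) atTop (𝓝 0) := by
      have h9 := (Real.continuous_sqrt.tendsto 0).comp h7
      rw [Real.sqrt_zero] at h9
      refine h9.congr (fun n => ?_)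
      simp only [Function.comp]
      exact Real.sqrt_sq_eq_abs _
    rw [tendsto_iff_dist_tendsto_zero]
    exact h8.congr (fun n => (Real.dist_eq _ _).symm)
  have h6 : Tendsto (fun n => ξ (η n)) atTop (𝓝 x0) :=
    hlim.comp hψ.tendsto_atTop
  -- the reverse Fatou lemma
  set f : ℕ → ℝ → ENNReal := fun n r => ENNReal.ofReal (cut P (η n) (ξ (η n) + k (ξ (η n)) r, r)) with hf
  have hfc : ∀ n, Continuous (fun r => cut P (η n) (ξ (η n) + k (ξ (η n)) r, r)) := by
    intro n
    have a1 := hk (ξ (η n)); have a2 := cut_cont P (η n); fun_prop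
  have h7 : limsup (fun n => ∫⁻ r, f n r ∂ν) atTop ≤ ∫⁻ r, limsup (fun n => f n r) atTop ∂ν := by
    refine limsup_lintegral_le (fun _ => (1:ENNReal)) (fun n => (hfc n).measurable.ennreal_ofReal)
      (fun n => Eventually.of_forall (fun r => ?_)) (by simp)
    simp only [hf]
    rw [← ENNReal.ofReal_one]
    exact ENNReal.ofReal_le_ofReal (cut_le_one _ _ _)
  have h8 : ENNReal.ofReal (76/100) ≤ limsup (fun n => ∫⁻ r, f n r ∂ν) atTop := by
    refine le_limsup_of_frequently_le (Eventually.frequently (Eventually.of_forall (fun n => ?_)))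
      (by isBoundedDefault)
    simp only [hf]
    rw [hν, ← ofReal_integral_eq_lintegral_ofReal (hfc n).integrableOn_Ioc
      (Eventually.of_forall (fun r => cut_nonneg _ _ _)),
      ← intervalIntegral.integral_of_le zero_le_one]
    exact ENNReal.ofReal_le_ofReal (hξ2 (η n)).le
  set S : Set ℝ := {r : ℝ | (x0 + k x0 r, r) ∈ P} with hS
  have hSm : MeasurableSet S := by
    have a1 := hk x0
    have : Continuous (fun r : ℝ => ((x0 + k x0 r, r) : ℝ × ℝ)) := by fun_prop
    exact (hP.preimage this).measurableSet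
  have h9 : ∀ᵐ r ∂ν, limsup (fun n => f n r) atTop ≤ S.indicator 1 r := by
    filter_upwards [h5] with r hr
    by_cases hrS : r ∈ S
    · rw [indicator_of_mem hrS, Pi.one_apply]
      refine limsup_le_of_le (by isBoundedDefault) (Eventually.of_forall (fun n => ?_))
      simp only [hf]
      rw [← ENNReal.ofReal_one]
      exact ENNReal.ofReal_le_ofReal (cut_le_one _ _ _)
    · rw [indicator_of_notMem hrS]
      have h10 : Tendsto (fun n => ((ξ (η n) + k (ξ (η n)) r, r) : ℝ × ℝ)) atTop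
          (𝓝 (x0 + k x0 r, r)) := (h6.add hr).prodMk_nhds tendsto_const_nhds
      have h11 := cut_tendsto hP hne h10 hrS hη1
      refine limsup_le_of_le (by isBoundedDefault) ?_
      filter_upwards [h11] with n hn
      simp only [hf]
      rw [hn]; simp
  have h10 : ENNReal.ofReal (76/100) ≤ ν S := by
    refine (h8.trans h7).trans ((lintegral_mono_ae h9).trans (le_of_eq ?_))
    rw [lintegral_indicator_one hSm]
  refine ⟨x0, hx0, ?_⟩
  calc ENNReal.ofReal (3/4) ≤ ENNReal.ofReal (76/100) := ENNReal.ofReal_le_ofReal (by norm_num)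
    _ ≤ ν S := h10
    _ = volume (S ∩ Ioc 0 1) := by rw [hν, Measure.restrict_apply hSm]
    _ ≤ volume {r : ℝ | r ∈ Icc (0 : ℝ) 1 ∧ (x0 + k x0 r, r) ∈ P} :=
        measure_mono (fun r hr => ⟨⟨hr.2.1.le, hr.2.2⟩, hr.1⟩)

end Crest.Agent.R102.Contact435
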