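import Mathlib

/-!
# Row 102, T1-B, gap C: the contact lemma (helper435)

`k : ℝ → Y → ℝ` a continuous family of functions on a compact metric space `Y` with finite measure `ν`,
Lipschitz in `ξ` in `L²(ν)` with constant `Λ`.  For a compact `P ⊆ ℝ × Y` lying between the graphs of
`α + k α` and `β + k β`, and `J = measure {(ξ, r) : ξ ∈ [α,β], (ξ + k ξ r, r) ∈ P}`:

`vol P ≤ J + Λ √((β-α) J)`.
-/

set_option autoImplicit false
set_option linter.unusedSectionVars false

noncomputable section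

open MeasureTheory Set Filter Topology

namespace Crest.Agent.R102.Contact435

/-- discrete intermediate value -/
lemma disc_ivt (f : ℕ → ℝ) (x : ℝ) : ∀ n : ℕ, 0 < n → f 0 ≤ x → x ≤ f n →
    ∃ i < n, f i ≤ x ∧ x ≤ f (i + 1) := by
  intro n
  induction n with
  | zero => intro h; exact absurd h (lt_irrefl _)
  | succ n ih =>
    intro _ h0 h1
    by_cases h : x ≤ f n
    · rcases Nat.eq_zero_or_pos n with rfl | hn
      · exact ⟨0, Nat.succ_pos _, h0, h1⟩
      · obtain ⟨i, hi, h2⟩ := ih hn h0 h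
        exact ⟨i, Nat.lt_succ_of_lt hi, h2⟩
    · exact ⟨n, Nat.lt_succ_self n, (not_le.1 h).le, h1⟩

variable {Y : Type*} [MetricSpace Y] [CompactSpace Y] [MeasurableSpace Y] [BorelSpace Y]

/-- the vertical thickening -/
def thick (P : Set (ℝ × Y)) (δ : ℝ) : Set (ℝ × Y) := {p | ∃ x', (x', p.2) ∈ P ∧ |p.1 - x'| ≤ δ}

lemma thick_mono {P : Set (ℝ × Y)} {δ δ' : ℝ} (h : δ ≤ δ') : thick P δ ⊆ thick P δ' := by
  rintro p ⟨x', h1, h2⟩
  exact ⟨x', h1, h2.trans h⟩

lemma subset_thick {P : Set (ℝ × Y)} {δ : ℝ} (h : 0 ≤ δ) : P ⊆ thick P δ := by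
  intro p hp
  exact ⟨p.1, hp, by simpa using h⟩

lemma isCompact_thick {P : Set (ℝ × Y)} (hP : IsCompact P) (δ : ℝ) : IsCompact (thick P δ) := by
  have h1 : IsCompact ((fun q : (ℝ × Y) × ℝ => ((q.1.1 + q.2, q.1.2) : ℝ × Y)) ''
      (P ×ˢ Icc (-δ) δ)) := by
    refine (hP.prod isCompact_Icc).image (by fun_prop)
  convert h1 using 1
  ext p
  constructor
  · rintro ⟨x', h2, h3⟩
    refine ⟨((x', p.2), p.1 - x'), ⟨h2, ?_⟩, ?_⟩
    · rw [abs_le] at h3; exact ⟨h3.1, h3.2⟩
    · ext <;> simp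
  · rintro ⟨q, ⟨h2, h3⟩, rfl⟩
    refine ⟨q.1.1, h2, ?_⟩
    simp only [add_sub_cancel_left]
    rw [abs_le]; exact ⟨h3.1, h3.2⟩

lemma iInter_thick {P : Set (ℝ × Y)} (hP : IsClosed P) :
    (⋂ n : ℕ, thick P (1 / ((n : ℝ) + 1))) = P := by
  apply Subset.antisymm
  · intro p hp
    rw [mem_iInter] at hp
    choose x hx using hp
    have h1 : Tendsto (fun n => ((x n, p.2) : ℝ × Y)) atTop (𝓝 (p.1, p.2)) := by
      refine Tendsto.prodMk_nhds ?_ tendsto_const_nhds
      rw [tendsto_iff_dist_tendsto_zero]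
      refine squeeze_zero (fun _ => dist_nonneg) (fun n => ?_) tendsto_one_div_add_atTop_nhds_zero_nat
      rw [dist_comm, Real.dist_eq]
      exact (hx n).2
    exact hP.mem_of_tendsto h1 (Eventually.of_forall (fun n => (hx n).1))
  · refine subset_iInter (fun n => subset_thick (by positivity))

variable (ν : Measure Y) [IsFiniteMeasure ν]

/-- Cauchy-Schwarz on a set -/
lemma setInt_le {f : Y → ℝ} (hf : Continuous f) {A : Set Y} (hA : MeasurableSet A) {L : ℝ}
    (hL : 0 ≤ L) (h : ∫ r, (f r) ^ 2 ∂ν ≤ L ^ 2) :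
    ∫ r in A, |f r| ∂ν ≤ L * √(ν.real A) := by
  have hbd : ∀ g : Y → ℝ, Continuous g → Integrable g ν := by
    intro g hg
    exact hg.integrable_of_hasCompactSupport (HasCompactSupport.of_compactSpace g)
  have h1 : ∫ r in A, |f r| ∂ν = ∫ r, |f r| * A.indicator (fun _ => (1:ℝ)) r ∂ν := by
    rw [← integral_indicator hA]
    refine integral_congr_ae (Eventually.of_forall (fun r => ?_))
    by_cases hr : r ∈ A <;> simp [hr]
  rw [h1]
  have h2 := MeasureTheory.integral_mul_le_Lp_mul_Lq_of_nonneg (μ := ν) (f := fun r => |f r|)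
    (g := A.indicator (fun _ => (1:ℝ))) (Real.holderConjugate_iff.2 ⟨by norm_num, by norm_num⟩ : (2:ℝ).HolderConjugate 2)
    (Eventually.of_forall (fun r => abs_nonneg _))
    (Eventually.of_forall (fun r => by by_cases hr : r ∈ A <;> simp [hr])) ?_ ?_
  · refine h2.trans ?_
    have e1 : (∫ r, |f r| ^ (2:ℝ) ∂ν) = ∫ r, (f r) ^ 2 ∂ν := by
      refine integral_congr_ae (Eventually.of_forall (fun r => ?_))
      simp only
      rw [show (2:ℝ) = ((2:ℕ):ℝ) by norm_num, Real.rpow_natCast, sq_abs]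
    have e2 : (∫ r, (A.indicator (fun _ => (1:ℝ)) r) ^ (2:ℝ) ∂ν) = ν.real A := by
      have : ∀ r, (A.indicator (fun _ => (1:ℝ)) r) ^ (2:ℝ) = A.indicator (fun _ => (1:ℝ)) r := by
        intro r; by_cases hr : r ∈ A <;> simp [hr]
      simp_rw [this]
      rw [integral_indicator hA]; simp
    rw [e1, e2, ← Real.sqrt_eq_rpow, ← Real.sqrt_eq_rpow]
    gcongr
    calc √(∫ r, (f r) ^ 2 ∂ν) ≤ √(L ^ 2) := Real.sqrt_le_sqrt h
      _ = L := Real.sqrt_sq hL
  · have : MemLp (fun r => |f r|) (ENNReal.ofReal 2) ν := by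
      exact (hf.abs.memLp_of_hasCompactSupport (HasCompactSupport.of_compactSpace _))
    exact this
  · exact (memLp_const (1:ℝ)).indicator hA


/-- slices of `P` are covered by the increments -/
lemma slice_cover {P : Set (ℝ × Y)} {δ : ℝ} (f : ℕ → Y → ℝ) (n : ℕ) (hn : 0 < n)
    (hδ : ∀ i < n, ∀ r, |f (i + 1) r - f i r| ≤ δ)
    (hcov : ∀ p ∈ P, f 0 p.2 ≤ p.1 ∧ p.1 ≤ f n p.2) (r : Y) :
    volume {x | (x, r) ∈ P} ≤ ∑ i ∈ Finset.range n,
      ({r | (f i r, r) ∈ thick P δ} : Set Y).indicator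
        (fun r => ENNReal.ofReal |f (i + 1) r - f i r|) r := by
  classical
  have hsub : {x | (x, r) ∈ P} ⊆ ⋃ i ∈ (Finset.range n).filter (fun i => (f i r, r) ∈ thick P δ),
      Icc (f i r) (f (i + 1) r) := by
    intro x hx
    have hx' : (x, r) ∈ P := hx
    obtain ⟨h0, h1⟩ := hcov _ hx'
    obtain ⟨i, hi, h2, h3⟩ := disc_ivt (fun i => f i r) x n hn h0 h1
    refine mem_iUnion₂.2 ⟨i, ?_, h2, h3⟩
    rw [Finset.mem_filter]
    refine ⟨Finset.mem_range.2 hi, x, hx', ?_⟩
    have h4 := hδ i hi r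
    simp only at h2 h3 ⊢
    rw [abs_le] at h4 ⊢
    constructor <;> linarith [h4.1, h4.2]
  refine (measure_mono hsub).trans ((measure_biUnion_finset_le _ _).trans ?_)
  rw [Finset.sum_filter]
  refine Finset.sum_le_sum (fun i _ => ?_)
  by_cases h : (f i r, r) ∈ thick P δ
  · rw [if_pos h, indicator_of_mem (by exact h), Real.volume_Icc]
    exact ENNReal.ofReal_le_ofReal (le_abs_self _)
  · rw [if_neg h]; exact bot_le

lemma vol_le {P : Set (ℝ × Y)} (hP : IsCompact P) {δ : ℝ} (f : ℕ → Y → ℝ)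
    (hf : ∀ i, Continuous (f i)) (n : ℕ) (hn : 0 < n)
    (hδ : ∀ i < n, ∀ r, |f (i + 1) r - f i r| ≤ δ)
    (hcov : ∀ p ∈ P, f 0 p.2 ≤ p.1 ∧ p.1 ≤ f n p.2) :
    (volume.prod ν) P ≤ ENNReal.ofReal (∑ i ∈ Finset.range n,
      ∫ r in {r | (f i r, r) ∈ thick P δ}, |f (i + 1) r - f i r| ∂ν) := by
  have hA : ∀ i, MeasurableSet {r | (f i r, r) ∈ thick P δ} := by
    intro i
    have h1 : Continuous (fun r => (f i r, r)) := by fun_prop
    exact ((isCompact_thick hP δ).isClosed.preimage h1).measurableSet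
  rw [Measure.prod_apply_symm hP.isClosed.measurableSet]
  calc ∫⁻ y, volume ((fun x => (x, y)) ⁻¹' P) ∂ν
      ≤ ∫⁻ y, ∑ i ∈ Finset.range n, ({r | (f i r, r) ∈ thick P δ} : Set Y).indicator
        (fun r => ENNReal.ofReal |f (i + 1) r - f i r|) y ∂ν :=
        lintegral_mono (fun r => slice_cover f n hn hδ hcov r)
    _ = ∑ i ∈ Finset.range n, ∫⁻ y, ({r | (f i r, r) ∈ thick P δ} : Set Y).indicator
        (fun r => ENNReal.ofReal |f (i + 1) r - f i r|) y ∂ν := by
        refine lintegral_finsetSum _ (fun i _ => ?_)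
        refine Measurable.indicator ?_ (hA i)
        exact ((((hf (i+1)).sub (hf i)).abs).measurable).ennreal_ofReal
    _ = ENNReal.ofReal (∑ i ∈ Finset.range n,
      ∫ r in {r | (f i r, r) ∈ thick P δ}, |f (i + 1) r - f i r| ∂ν) := by
        rw [ENNReal.ofReal_sum_of_nonneg
          (fun i _ => setIntegral_nonneg (hA i) (fun r _ => abs_nonneg _))]
        refine Finset.sum_congr rfl (fun i _ => ?_)
        rw [lintegral_indicator (hA i), ofReal_integral_eq_lintegral_ofReal]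
        · have hc : Continuous (fun r => |f (i + 1) r - f i r|) := ((hf (i+1)).sub (hf i)).abs
          exact (hc.integrable_of_hasCompactSupport
            (HasCompactSupport.of_compactSpace _)).integrableOn
        · exact Eventually.of_forall (fun r => abs_nonneg _)

/-- the deformation map -/
def psi (k : ℝ → Y → ℝ) (q : ℝ × Y) : ℝ × Y := (q.1 + k q.1 q.2, q.2)

/-- the measure of the parameters `(ξ, r)`, `ξ ∈ [α,β]`, which are mapped into `Q` -/
def J (k : ℝ → Y → ℝ) (α β : ℝ) (Q : Set (ℝ × Y)) : ℝ :=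
  ((volume.restrict (Icc α β)).prod ν).real (psi k ⁻¹' Q)

lemma step {k : ℝ → Y → ℝ} (hk : Continuous (fun p : ℝ × Y => k p.1 p.2)) {α β L : ℝ}
    (hαβ : α < β) (hL0 : 0 ≤ L)
    (hL : ∀ ξ ∈ Icc α β, ∀ ξ' ∈ Icc α β, ∫ r, (k ξ r - k ξ' r) ^ 2 ∂ν ≤ L ^ 2 * (ξ - ξ') ^ 2)
    {P : Set (ℝ × Y)} (hP : IsCompact P)
    (hcov : ∀ p ∈ P, α + k α p.2 ≤ p.1 ∧ p.1 ≤ β + k β p.2) {δ : ℝ} (hδ : 0 < δ) :
    (volume.prod ν).real P ≤ J ν k α β (thick P (2 * δ)) +
      L * √((β - α) * J ν k α β (thick P (2 * δ))) := by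
  -- uniform continuity
  have hpsi : Continuous (fun p : ℝ × Y => p.1 + k p.1 p.2) := by fun_prop
  have huc : UniformContinuousOn (fun p : ℝ × Y => p.1 + k p.1 p.2) (Icc α β ×ˢ univ) :=
    (isCompact_Icc.prod isCompact_univ).uniformContinuousOn_of_continuous hpsi.continuousOn
  rw [Metric.uniformContinuousOn_iff_le] at huc
  obtain ⟨η, hη, hu⟩ := huc δ hδ
  obtain ⟨n, hn⟩ := exists_nat_gt ((β - α) / η)
  have hn0 : 0 < n := by
    have : (0:ℝ) < n := lt_of_le_of_lt (div_nonneg (by linarith) hη.le) hn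
    exact_mod_cast this
  have hnR : (0:ℝ) < n := by exact_mod_cast hn0
  set h : ℝ := (β - α) / n with hh
  have hh0 : 0 < h := div_pos (by linarith) hnR
  have hhη : h ≤ η := by
    rw [hh, div_le_iff₀ hnR]
    rw [div_lt_iff₀ hη] at hn
    linarith [mul_comm (n:ℝ) η]
  have hnh : n * h = β - α := by rw [hh]; field_simp
  set x : ℕ → ℝ := fun i => α + i * h with hx
  have hxI : ∀ i, i ≤ n → x i ∈ Icc α β := by
    intro i hi
    have : (i:ℝ) ≤ n := by exact_mod_cast hi
    constructor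
    · simp only [hx]; nlinarith [(Nat.cast_nonneg i : (0:ℝ) ≤ i)]
    · simp only [hx]; nlinarith
  have hx1 : ∀ i, x (i + 1) = x i + h := by intro i; simp only [hx]; push_cast; ring
  have hclose : ∀ ξ ∈ Icc α β, ∀ ξ' ∈ Icc α β, |ξ - ξ'| ≤ h → ∀ r,
      |(ξ + k ξ r) - (ξ' + k ξ' r)| ≤ δ := by
    intro ξ h1 ξ' h2 h3 r
    have := hu (ξ, r) ⟨h1, mem_univ _⟩ (ξ', r) ⟨h2, mem_univ _⟩ (by
      rw [Prod.dist_eq]; simp only [dist_self]
      rw [max_le_iff]; exact ⟨by rw [Real.dist_eq]; linarith, hη.le⟩)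
    rwa [Real.dist_eq] at this
  set f : ℕ → Y → ℝ := fun i r => x i + k (x i) r with hfdef
  have hf : ∀ i, Continuous (f i) := by
    intro i
    have : Continuous (fun r : Y => ((x i, r) : ℝ × Y)) := by fun_prop
    exact hpsi.comp this
  have hfδ : ∀ i < n, ∀ r, |f (i + 1) r - f i r| ≤ δ := by
    intro i hi r
    refine hclose _ (hxI (i + 1) hi) _ (hxI i hi.le) ?_ r
    rw [hx1]; simp [abs_of_pos hh0]
  have hcov' : ∀ p ∈ P, f 0 p.2 ≤ p.1 ∧ p.1 ≤ f n p.2 := by
    intro p hp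
    have e0 : x 0 = α := by simp [hx]
    have en : x n = β := by simp only [hx]; rw [hnh]; ring
    simp only [hfdef, e0, en]
    exact hcov p hp
  set A : ℕ → Set Y := fun i => {r | (f i r, r) ∈ thick P δ} with hA
  have hAm : ∀ i, MeasurableSet (A i) := by
    intro i
    have h1 : Continuous (fun r => (f i r, r)) := (hf i).prodMk continuous_id
    exact ((isCompact_thick hP δ).isClosed.preimage h1).measurableSet
  have h1 := vol_le ν hP f hf n hn0 hfδ hcov'
  set a : ℕ → ℝ := fun i => ν.real (A i) with ha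
  have ha0 : ∀ i, 0 ≤ a i := fun i => measureReal_nonneg
  -- the integrals
  have h2 : ∀ i ∈ Finset.range n, ∫ r in A i, |f (i + 1) r - f i r| ∂ν ≤ h * a i + L * h * √(a i) := by
    intro i hi
    rw [Finset.mem_range] at hi
    have hkc : ∀ ξ, Continuous (k ξ) := by
      intro ξ
      have : Continuous (fun r : Y => ((ξ, r) : ℝ × Y)) := by fun_prop
      exact hk.comp this
    have hcc : Continuous (fun r => k (x (i + 1)) r - k (x i) r) := (hkc _).sub (hkc _)
    have hint : Integrable (fun r => |k (x (i + 1)) r - k (x i) r|) ν :=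
      hcc.abs.integrable_of_hasCompactSupport (HasCompactSupport.of_compactSpace _)
    have hint2 : Integrable (fun r => |f (i + 1) r - f i r|) ν :=
      ((hf (i+1)).sub (hf i)).abs.integrable_of_hasCompactSupport
        (HasCompactSupport.of_compactSpace _)
    have h3 : ∫ r in A i, |f (i + 1) r - f i r| ∂ν ≤
        ∫ r in A i, (h + |k (x (i + 1)) r - k (x i) r|) ∂ν := by
      refine setIntegral_mono hint2.integrableOn ((integrable_const h).add hint).integrableOn ?_
      intro r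
      have : f (i + 1) r - f i r = h + (k (x (i + 1)) r - k (x i) r) := by
        simp only [hfdef, hx1]; ring
      simp only [this]
      refine (abs_add_le _ _).trans ?_
      rw [abs_of_pos hh0]
    refine h3.trans ?_
    rw [integral_add (integrable_const h).integrableOn hint.integrableOn]
    have h4 : ∫ r in A i, h ∂ν = h * a i := by
      rw [setIntegral_const, smul_eq_mul, mul_comm]
    have h5 := setInt_le ν hcc (hAm i) (L := L * h) (by positivity) (by
      have := hL _ (hxI (i + 1) hi) _ (hxI i hi.le)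
      have e9 : L ^ 2 * (x (i + 1) - x i) ^ 2 = (L * h) ^ 2 := by rw [hx1]; ring
      rw [← e9]
      exact this)
    rw [h4]
    exact add_le_add le_rfl h5
  have h3 : (volume.prod ν).real P ≤ ∑ i ∈ Finset.range n, (h * a i + L * h * √(a i)) := by
    have hs : 0 ≤ ∑ i ∈ Finset.range n, ∫ r in A i, |f (i + 1) r - f i r| ∂ν :=
      Finset.sum_nonneg (fun i _ => setIntegral_nonneg (hAm i) (fun r _ => abs_nonneg _))
    refine le_trans ?_ (Finset.sum_le_sum h2)
    exact ENNReal.toReal_le_of_le_ofReal hs h1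
  -- the sum `S = Σ h a_i` is at most `J`
  set S : ℝ := ∑ i ∈ Finset.range n, h * a i with hS
  have hS0 : 0 ≤ S := Finset.sum_nonneg (fun i _ => mul_nonneg hh0.le (ha0 i))
  have h4 : S ≤ J ν k α β (thick P (2 * δ)) := by
    have hdisj : (↑(Finset.range n) : Set ℕ).PairwiseDisjoint
        (fun i => Ico (x i) (x (i + 1)) ×ˢ A i) := by
      intro i _ j _ hij
      rw [Function.onFun, Set.disjoint_left]
      rintro ⟨ξ, r⟩ ⟨⟨h5, h6⟩, _⟩ ⟨⟨h7, h8⟩, _⟩
      simp only at h5 h6 h7 h8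
      apply hij
      rcases lt_trichotomy i j with hlt | heq | hgt
      · exfalso
        have : x (i + 1) ≤ x j := by
          have : ((i:ℝ) + 1) ≤ j := by exact_mod_cast hlt
          simp only [hx]; push_cast; nlinarith
        linarith
      · exact heq
      · exfalso
        have : x (j + 1) ≤ x i := by
          have : ((j:ℝ) + 1) ≤ i := by exact_mod_cast hgt
          simp only [hx]; push_cast; nlinarith
        linarith
    have hm : ∀ i ∈ Finset.range n, MeasurableSet (Ico (x i) (x (i + 1)) ×ˢ A i) :=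
      fun i _ => measurableSet_Ico.prod (hAm i)
    have h5 : ((volume.restrict (Icc α β)).prod ν).real
        (⋃ i ∈ Finset.range n, Ico (x i) (x (i + 1)) ×ˢ A i) = S := by
      rw [measureReal_biUnion_finset hdisj hm]
      refine Finset.sum_congr rfl (fun i hi => ?_)
      rw [Finset.mem_range] at hi
      rw [measureReal_prod_prod]
      congr 1
      rw [measureReal_restrict_apply measurableSet_Ico,
        inter_eq_left.2 (Ico_subset_Icc_self.trans (Icc_subset_Icc (hxI i hi.le).1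
          (hxI (i + 1) hi).2)), Real.volume_real_Ico_of_le (by rw [hx1]; linarith), hx1]
      ring
    rw [← h5]
    refine measureReal_mono ?_ (measure_ne_top _ _)
    intro q hq
    simp only [mem_iUnion, Finset.mem_range] at hq
    obtain ⟨i, hi, ⟨h6, h7⟩, h8⟩ := hq
    obtain ⟨x', h9, h10⟩ := h8
    refine ⟨x', h9, ?_⟩
    simp only [psi]
    have h11 := hclose q.1 ⟨(hxI i hi.le).1.trans h6, h7.le.trans (hxI (i + 1) hi).2⟩ (x i)
      (hxI i hi.le) (by rw [abs_of_nonneg (by linarith)]; rw [hx1] at h7; linarith) q.2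
    have e : q.1 + k q.1 q.2 - x' = (q.1 + k q.1 q.2 - (x i + k (x i) q.2)) + (f i q.2 - x') := by
      simp only [hfdef]; ring
    rw [e]
    refine (abs_add_le _ _).trans ?_
    have h12 : |f i q.2 - x'| ≤ δ := h10
    linarith
  have h5 : ∑ i ∈ Finset.range n, (h * a i + L * h * √(a i)) ≤ S + L * √((β - α) * S) := by
    rw [Finset.sum_add_distrib]
    refine add_le_add le_rfl ?_
    have e : ∑ i ∈ Finset.range n, L * h * √(a i) =
        L * ∑ i ∈ Finset.range n, √h * √(h * a i) := by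
      rw [Finset.mul_sum]
      refine Finset.sum_congr rfl (fun i _ => ?_)
      rw [Real.sqrt_mul hh0.le, ← mul_assoc (√h), Real.mul_self_sqrt hh0.le, mul_assoc]
    rw [e]
    refine mul_le_mul_of_nonneg_left ?_ hL0
    have h6 := Real.sum_sqrt_mul_sqrt_le (Finset.range n) (f := fun _ => h) (g := fun i => h * a i)
      (fun _ => hh0.le) (fun i => mul_nonneg hh0.le (ha0 i))
    refine h6.trans (le_of_eq ?_)
    rw [Finset.sum_const, Finset.card_range, nsmul_eq_mul, hnh, ← Real.sqrt_mul (by linarith)]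
  refine h3.trans (h5.trans ?_)
  gcongr

/-- **contact lemma** -/
theorem contact {k : ℝ → Y → ℝ} (hk : Continuous (fun p : ℝ × Y => k p.1 p.2)) {α β L : ℝ}
    (hαβ : α < β) (hL0 : 0 ≤ L)
    (hL : ∀ ξ ∈ Icc α β, ∀ ξ' ∈ Icc α β, ∫ r, (k ξ r - k ξ' r) ^ 2 ∂ν ≤ L ^ 2 * (ξ - ξ') ^ 2)
    {P : Set (ℝ × Y)} (hP : IsCompact P)
    (hcov : ∀ p ∈ P, α + k α p.2 ≤ p.1 ∧ p.1 ≤ β + k β p.2) :
    (volume.prod ν).real P ≤ J ν k α β P + L * √((β - α) * J ν k α β P) := by
  have hpsi : Continuous (psi k) := by unfold psi; fun_prop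
  set T : ℕ → Set (ℝ × Y) := fun n => thick P (1 / ((n : ℝ) + 1)) with hT
  have hlim : Tendsto (fun n => J ν k α β (T n)) atTop (𝓝 (J ν k α β P)) := by
    unfold J
    have h1 : Tendsto (fun n => ((volume.restrict (Icc α β)).prod ν) (psi k ⁻¹' (T n))) atTop
        (𝓝 (((volume.restrict (Icc α β)).prod ν) (⋂ n, psi k ⁻¹' (T n)))) := by
      refine tendsto_measure_iInter_atTop (fun n => ?_) ?_ ⟨0, measure_ne_top _ _⟩
      · exact ((isCompact_thick hP _).isClosed.preimage hpsi).measurableSet.nullMeasurableSet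
      · intro m n hmn
        refine preimage_mono (thick_mono ?_)
        have : (m:ℝ) ≤ n := by exact_mod_cast hmn
        gcongr
    rw [← preimage_iInter, iInter_thick hP.isClosed] at h1
    exact (ENNReal.tendsto_toReal (measure_ne_top _ _)).comp h1
  have hle : ∀ n : ℕ, (volume.prod ν).real P ≤ J ν k α β (T n) +
      L * √((β - α) * J ν k α β (T n)) := by
    intro n
    have h1 := step ν hk hαβ hL0 hL hP hcov (δ := 1 / ((n : ℝ) + 1) / 2) (by positivity)
    rwa [show (2:ℝ) * (1 / ((n : ℝ) + 1) / 2) = 1 / ((n : ℝ) + 1) by ring] at h1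
  refine ge_of_tendsto' (x := atTop) ?_ hle
  refine hlim.add (Tendsto.const_mul _ ?_)
  exact (Real.continuous_sqrt.tendsto _).comp (hlim.const_mul _)

/-- contact lemma, numerical form: if `L² (β-α) ≤ vol P` then `J ≥ vol P / 4` -/
theorem contact' {k : ℝ → Y → ℝ} (hk : Continuous (fun p : ℝ × Y => k p.1 p.2)) {α β L : ℝ}
    (hαβ : α < β) (hL0 : 0 ≤ L)
    (hL : ∀ ξ ∈ Icc α β, ∀ ξ' ∈ Icc α β, ∫ r, (k ξ r - k ξ' r) ^ 2 ∂ν ≤ L ^ 2 * (ξ - ξ') ^ 2)
    {P : Set (ℝ × Y)} (hP : IsCompact P)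
    (hcov : ∀ p ∈ P, α + k α p.2 ≤ p.1 ∧ p.1 ≤ β + k β p.2)
    (hs : L ^ 2 * (β - α) ≤ (volume.prod ν).real P) :
    (volume.prod ν).real P / 4 ≤ J ν k α β P := by
  have h1 := contact ν hk hαβ hL0 hL hP hcov
  set m := (volume.prod ν).real P with hm
  set j := J ν k α β P with hj
  have hj0 : 0 ≤ j := measureReal_nonneg
  have hm0 : 0 ≤ m := measureReal_nonneg
  by_contra hcon
  rw [not_le] at hcon
  have h2 : L * √((β - α) * j) ≤ √(m * j) := by
    rw [← Real.sqrt_sq hL0, ← Real.sqrt_mul (sq_nonneg L)]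
    refine Real.sqrt_le_sqrt ?_
    nlinarith
  have h3 : √(m * j) ≤ m / 2 := by
    rw [Real.sqrt_le_left (by positivity)]
    nlinarith
  nlinarith

/-- a parameter `ξ` with a large contact set -/
theorem exists_xi {k : ℝ → Y → ℝ} (hk : Continuous (fun p : ℝ × Y => k p.1 p.2)) {α β L : ℝ}
    (hαβ : α < β) (hL0 : 0 ≤ L)
    (hL : ∀ ξ ∈ Icc α β, ∀ ξ' ∈ Icc α β, ∫ r, (k ξ r - k ξ' r) ^ 2 ∂ν ≤ L ^ 2 * (ξ - ξ') ^ 2)
    {P : Set (ℝ × Y)} (hP : IsCompact P)
    (hcov : ∀ p ∈ P, α + k α p.2 ≤ p.1 ∧ p.1 ≤ β + k β p.2)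
    (hs : L ^ 2 * (β - α) ≤ (volume.prod ν).real P) :
    ∃ ξ ∈ Icc α β, (volume.prod ν).real P ≤ 4 * (β - α) * ν.real {r | (ξ + k ξ r, r) ∈ P} := by
  have h1 := contact' ν hk hαβ hL0 hL hP hcov hs
  have hpsi : Continuous (psi k) := by unfold psi; fun_prop
  have hmeas : MeasurableSet (psi k ⁻¹' P) := (hP.isClosed.preimage hpsi).measurableSet
  have hsl : ∀ ξ, Prod.mk ξ ⁻¹' (psi k ⁻¹' P) = {r | (ξ + k ξ r, r) ∈ P} := by
    intro ξ; rfl
  have hba : 0 < β - α := by linarith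
  have hmm : Measurable (fun ξ => ν.real {r | (ξ + k ξ r, r) ∈ P}) := by
    have := measurable_measure_prodMk_left (ν := ν) hmeas
    simp_rw [hsl] at this
    exact this.ennreal_toReal
  have h3 : J ν k α β P = ∫ ξ in Icc α β, ν.real {r | (ξ + k ξ r, r) ∈ P} := by
    unfold J
    rw [measureReal_def, Measure.prod_apply hmeas, integral_eq_lintegral_of_nonneg_ae]
    · congr 1
      refine lintegral_congr (fun ξ => ?_)
      rw [hsl, measureReal_def, ENNReal.ofReal_toReal (measure_ne_top _ _)]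
    · exact Eventually.of_forall (fun _ => measureReal_nonneg)
    · exact hmm.aestronglyMeasurable
  have hint : IntegrableOn (fun ξ => ν.real {r | (ξ + k ξ r, r) ∈ P}) (Icc α β) volume := by
    refine Measure.integrableOn_of_bounded (M := ν.real univ) (by simp) hmm.aestronglyMeasurable ?_
    refine Eventually.of_forall (fun ξ => ?_)
    rw [Real.norm_eq_abs, abs_of_nonneg measureReal_nonneg]
    exact measureReal_mono (subset_univ _)
  obtain ⟨ξ, hξ, h4⟩ := exists_setAverage_le (μ := volume) (s := Icc α β)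
    (f := fun ξ => ν.real {r | (ξ + k ξ r, r) ∈ P})
    (by rw [Real.volume_Icc]; simpa using hba) (by simp) hint
  refine ⟨ξ, hξ, ?_⟩
  rw [setAverage_eq, ← h3, smul_eq_mul, Real.volume_real_Icc_of_le hαβ.le, inv_mul_le_iff₀ hba] at h4
  nlinarith

end Crest.Agent.R102.Contact435
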