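import Crest.Agent.R102.TransC_575

/-!
Row 102, part (C), leaf H3, CT, core A: from the deformed relation over `O⟦ε⟧` to the relation
between `m`, `u` and functions of the first vertex (application of `H3.fctR`).
-/

set_option linter.unusedSectionVars false
set_option autoImplicit false

namespace Crest.Agent.R102.CT575

open H3 Glue798 PowerSeries Finset Set Topology TopologicalSpace Metric Filter

noncomputable section

section coreA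

variable {g : ℂ → ℂ} {c₀ e : ℂ} {N : ℕ} {ρ r : ℝ} {β m k q q' : ℕ → ℂ × ℂ → ℂ}
  {A0 : Type} [CommRing A0] [Algebra ℂ A0]

/-- undeformed observables -/
def Dat.obU (h : Dat g c₀ N ρ e r β m k q q') (ρ₀ : A0 →ₐ[ℂ] Hol (bO e r)) :
    MvPolynomial (Option (Fin N × A0)) ℂ →+* Hol (UU c₀ ρ) :=
  obs (algebraMap ℂ (Hol (UU c₀ ρ))) (hU c₀ ρ (m 0))
    (fun i => (h.bt i : Hol (bO e r) →+* Hol (UU c₀ ρ))) (fun (_ : Fin N) a => ρ₀ a)

/-- `ℂ → O⟦ε⟧` -/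
def iO (c₀ : ℂ) (ρ : ℝ) : ℂ →+* (OO c₀ ρ)⟦X⟧ :=
  (C).comp ((algebraMap (Hol (UU c₀ ρ)) (OO c₀ ρ)).comp (algebraMap ℂ (Hol (UU c₀ ρ))))

/-- deformed observables -/
def Dat.obO (h : Dat g c₀ N ρ e r β m k q q') (F : ℕ → A0 →ₐ[ℂ] (Hol (bO e r))⟦X⟧)
    (y : ℕ → (OO c₀ ρ)⟦X⟧) (hy : ∀ i, X ∣ y i) :
    MvPolynomial (Option (Fin N × A0)) ℂ →+* (OO c₀ ρ)⟦X⟧ :=
  obs (iO c₀ ρ) (C (aO c₀ ρ (hU c₀ ρ (m 0))))
    (fun i => pt (cD (DH (bO e r))) (PowerSeries.map (h.bo i)) (y i) (hy i))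
    (fun (j : Fin N) a => F j a)

theorem Dat.tr_C (h : Dat g c₀ N ρ e r β m k q q') (c : ℂ) :
    h.tr (algebraMap ℂ (Hol (UU c₀ ρ)) c) = jR c₀ ρ (algebraMap ℂ (Hol (bO c₀ ρ))⟦X⟧ c) := by
  rw [Dat.tr, RingHom.comp_apply, RingHom.coe_coe, AlgHom.commutes]

/-- deformed observables over `R⟦ε⟧` -/
def Dat.obR (h : Dat g c₀ N ρ e r β m k q q') (F : ℕ → A0 →ₐ[ℂ] (Hol (bO e r))⟦X⟧)
    (y : ℕ → (OO c₀ ρ)⟦X⟧) (hy : ∀ i, X ∣ y i) (μ : (Hol (bO c₀ ρ))⟦X⟧) :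
    MvPolynomial (Option (Fin N × A0)) ℂ →+* (RR c₀ ρ)⟦X⟧ :=
  obs ((C).comp ((jR c₀ ρ).comp (algebraMap ℂ (Hol (bO c₀ ρ))⟦X⟧))) (C (jR c₀ ρ μ))
    (fun i => pt (cD (DH (bO c₀ ρ))) (PowerSeries.map (h.ch' i)) (PowerSeries.map h.lr (y i))
      (X_dvd_mapX h.lr (hy i)))
    (fun (j : Fin N) a => PowerSeries.map (h.rs : Hol (bO e r) →+* Hol (bO c₀ ρ)) (F j a))

theorem Dat.lr_obO (h : Dat g c₀ N ρ e r β m k q q') (F : ℕ → A0 →ₐ[ℂ] (Hol (bO e r))⟦X⟧)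
    (y : ℕ → (OO c₀ ρ)⟦X⟧) (hy : ∀ i, X ∣ y i) :
    (PowerSeries.map h.lr).comp (h.obO F y hy) = h.obR F y hy (h.ta (hU c₀ ρ (m 0))) := by
  rw [Dat.obO, comp_obs, Dat.obR]
  have e1 : (PowerSeries.map h.lr).comp (iO c₀ ρ) =
      (C).comp ((jR c₀ ρ).comp (algebraMap ℂ (Hol (bO c₀ ρ))⟦X⟧)) := by
    refine RingHom.ext fun c => ?_
    simp only [RingHom.comp_apply, iO, map_C, h.lr_alg, h.tr_C]
  rw [e1]
  refine obs_congr2 _ _ _ ?_ fun j a => ?_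
  · rw [map_C, aO, h.lr_alg, Dat.tr, RingHom.comp_apply, RingHom.coe_coe]
  · rw [RingHom.comp_apply]
    exact pt_push (DH (bO e r)) (DH (bO c₀ ρ)) (h.rs : Hol (bO e r) →+* Hol (bO c₀ ρ))
      (fun f => h.rs_DH f) (h.bo j) (hy j) h.lr (h.ch' j) (h.lr_bo j.2) (F j a)

theorem Dat.cc_obR (h : Dat g c₀ N ρ e r β m k q q') {ρ₀ : A0 →ₐ[ℂ] Hol (bO e r)}
    (F : ℕ → A0 →ₐ[ℂ] (Hol (bO e r))⟦X⟧) (hFc : ∀ i a, constantCoeff (F i a) = ρ₀ a)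
    (y : ℕ → (OO c₀ ρ)⟦X⟧) (hy : ∀ i, X ∣ y i) :
    (constantCoeff (R := RR c₀ ρ)).comp (h.obR F y hy (h.ta (hU c₀ ρ (m 0)))) =
      h.tr.comp (h.obU ρ₀) := by
  rw [Dat.obR, comp_obs, Dat.obU, comp_obs]
  have e1 : (constantCoeff (R := RR c₀ ρ)).comp
      ((C).comp ((jR c₀ ρ).comp (algebraMap ℂ (Hol (bO c₀ ρ))⟦X⟧))) =
      h.tr.comp (algebraMap ℂ (Hol (UU c₀ ρ))) := by
    refine RingHom.ext fun c => ?_
    simp only [RingHom.comp_apply, h.tr_C, constantCoeff_C]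
  rw [e1]
  refine obs_congr2 _ _ _ ?_ fun j a => ?_
  · rw [constantCoeff_C, Dat.tr, RingHom.comp_apply, RingHom.coe_coe]
  · rw [RingHom.comp_apply, constantCoeff_pt, H3.constantCoeff_map, H3.constantCoeff_map, hFc,
      RingHom.comp_apply]
    have h1 := congrArg (fun Ψ : Hol (bO e r) →+* RR c₀ ρ => Ψ (ρ₀ a)) (h.lr_bo j.2)
    simp only [RingHom.comp_apply, Dat.bo, h.lr_alg] at h1
    exact h1.symm

theorem Dat.rs_injective (h : Dat g c₀ N ρ e r β m k q q') : Function.Injective h.rs :=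
  haveI := bO_nonempty (c₀ := c₀) h.ch.ρ_pos
  Glue798.res_injective h.le' (bO_preconnected e r)

/-- **core A** -/
theorem Dat.coreA (h : Dat g c₀ N ρ e r β m k q q') (hN : 0 < N)
    {g0 : A0} {ρ₀ : A0 →ₐ[ℂ] Hol (bO e r)} (hρg : ρ₀ g0 = gV g e r)
    (F : ℕ → A0 →ₐ[ℂ] (Hol (bO e r))⟦X⟧) (hFc : ∀ i a, constantCoeff (F i a) = ρ₀ a)
    (hν : ∀ i < N, ∀ l < N, i ≠ l → coeff 1 (F i g0) ≠ coeff 1 (F l g0))
    (hν0 : ∀ i < N, coeff 1 (F i g0) ≠ 0)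
    (y : ℕ → (OO c₀ ρ)⟦X⟧) (hy : ∀ i, X ∣ y i) (m' k' : ℕ → (OO c₀ ρ)⟦X⟧)
    (hout : H3.Chain (cD (DH (bO e r))) (C (zH (bO e r))) (fun i => F i g0) N
      (fun i => pt (cD (DH (bO e r))) (PowerSeries.map (h.bo i)) (y i) (hy i)) m' k')
    (hm0 : m' 0 = C (aO c₀ ρ (hU c₀ ρ (m 0)))) (hk0 : k' 0 = C (aO c₀ ρ (hU c₀ ρ (k 0))))
    (uε : (Hol (UU c₀ ρ))⟦X⟧)
    (hfl : PowerSeries.map (fl c₀ ρ : Hol (UU c₀ ρ) →+* Hol (UU c₀ ρ)) uε = uε)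
    (P : Polynomial (MvPolynomial (Option (Fin N × A0)) ℂ))
    (hrel : P.eval₂ (h.obO F y hy)
      (PowerSeries.map (algebraMap (Hol (UU c₀ ρ)) (OO c₀ ρ)) uε) = 0)
    (hne : P.map (h.obU ρ₀) ≠ 0) :
    ∃ Q : Polynomial (Polynomial (Hol (bO c₀ ρ))), Q ≠ 0 ∧
      Q.eval₂ (Polynomial.eval₂RingHom (Ty (DH (bO c₀ ρ))) (h.ta (hU c₀ ρ (m 0))))
        (h.ta (constantCoeff uε)) = 0 := by
  classical
  have hdom := isDomain_D c₀ h.ch.ρ_pos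
  obtain ⟨mh, hmh⟩ := h.even h.fl_m
  obtain ⟨kh, hkh⟩ := h.even h.fl_k
  have hE : ∀ n, ∃ E, h.ta (coeff n uε) = evn E := by
    intro n
    refine h.even ?_
    have := congrArg (coeff n) hfl
    rw [coeff_map] at this
    exact this
  choose E hE using hE
  set u' : (Hol (bO c₀ ρ))⟦X⟧⟦X⟧ := PowerSeries.mk E with hu'
  have hu1 : PowerSeries.map ((jR c₀ ρ).comp evn) u' = PowerSeries.map h.tr uε := by
    ext n
    rw [coeff_map, coeff_map, hu', coeff_mk, RingHom.comp_apply, ← hE]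
    rfl
  have hu2 : PowerSeries.map h.lr (PowerSeries.map (algebraMap (Hol (UU c₀ ρ)) (OO c₀ ρ)) uε) =
      PowerSeries.map h.tr uε := by
    ext n
    rw [coeff_map, coeff_map, coeff_map, h.lr_alg]
  have hu3 : evn (constantCoeff u') = h.ta (constantCoeff uε) := by
    rw [hu', ← coeff_zero_eq_constantCoeff_apply, coeff_mk, ← hE,
      coeff_zero_eq_constantCoeff_apply]
  have key := fctR (DH (bO c₀ ρ)) (z := zH (bO c₀ ρ)) (g := h.gD) (DH_zH _) h.isUnit_dg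
    h.isUnit_d2g N hN
    (fun i => PowerSeries.map (h.rs : Hol (bO e r) →+* Hol (bO c₀ ρ)) (F i g0))
    (fun i _ => by rw [H3.constantCoeff_map, hFc, hρg]; rfl)
    (fun i hi l hl hil h1 => by
      rw [coeff_map, coeff_map] at h1
      exact hν i hi l hl hil (h.rs_injective h1))
    (fun i hi h1 => by
      rw [coeff_map] at h1
      exact hν0 i hi (h.rs_injective (h1.trans (map_zero h.rs).symm)))
    (mh := mh) (kh := kh) (h.hline hmh hkh) (jR c₀ ρ) jR_injective (isUnit_jX h.ch.ρ_pos)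
    h.be (fun i => h.ta (hU c₀ ρ (m i))) (fun i => h.ta (hU c₀ ρ (k i)))
    (fun i hi => h.be_const hi.le) h.base hmh hkh
    (fun i => PowerSeries.map h.lr (y i)) (fun i => X_dvd_mapX h.lr (hy i))
    (fun i => PowerSeries.map h.lr (m' i)) (fun i => PowerSeries.map h.lr (k' i))
    (chain_push (DH (bO e r)) (DH (bO c₀ ρ)) (h.rs : Hol (bO e r) →+* Hol (bO c₀ ρ))
      (fun f => h.rs_DH f) hout h.lr h.ch' (fun i hi => h.lr_bo hi))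
    (by rw [hm0, map_C, aO, h.lr_alg]; rfl) (by rw [hk0, map_C, aO, h.lr_alg]; rfl)
    (fun (j : Fin N) a => PowerSeries.map (h.rs : Hol (bO e r) →+* Hol (bO c₀ ρ)) (F j a))
    u' P
  have hobR : h.obR F y hy (evn mh) = (PowerSeries.map h.lr).comp (h.obO F y hy) := by
    rw [h.lr_obO, hmh]
  obtain ⟨Q, hQ0, hQ⟩ := key (by
      change P.eval₂ (h.obR F y hy (evn mh)) _ = 0
      rw [hobR, hu1, ← hu2, ← Polynomial.hom_eval₂, hrel, map_zero]) (by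
      change P.map (h.obR F y hy (evn mh)) ≠ 0
      intro h1
      apply hne
      have h2 : (P.map (h.obR F y hy (evn mh))).map (constantCoeff (R := RR c₀ ρ)) = 0 := by
        rw [h1, Polynomial.map_zero]
      rw [Polynomial.map_map, ← hmh, h.cc_obR F hFc, ← Polynomial.map_map] at h2
      exact (Polynomial.map_eq_zero_iff h.tr_injective).1 h2)
  refine ⟨Q, hQ0, ?_⟩
  rw [← hmh, hu3] at hQ
  exact hQ

end coreA

end

end Crest.Agent.R102.CT575
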