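import Crest.Agent.R102.CoreA_575

/-!
Row 102, part (C), leaf H3, CT, core B: the relation lifts to the deformed chain over `O⟦ε⟧`
(application of 389's identity principle `H3.chain_identity` in `Hol W`).
-/

set_option linter.unusedSectionVars false
set_option autoImplicit false

namespace Crest.Agent.R102.CT575

open H3 Glue798 PowerSeries Finset Set Topology TopologicalSpace Metric Filter

noncomputable section

section coreB

variable {g : ℂ → ℂ} {c₀ e : ℂ} {N : ℕ} {ρ r : ℝ} {β m k q q' : ℕ → ℂ × ℂ → ℂ}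
  {A0 : Type} [CommRing A0] [Algebra ℂ A0]

theorem Dat.lw_iO (h : Dat g c₀ N ρ e r β m k q q') :
    (PowerSeries.map h.lw).comp (iO c₀ ρ) = algebraMap ℂ (Hol (WW c₀ ρ))⟦X⟧ := by
  refine RingHom.ext fun c => ?_
  simp only [RingHom.comp_apply, iO, map_C, h.lw_alg, AlgHom.commutes]
  rw [PowerSeries.algebraMap_apply]

theorem map_map' {A B C' : Type*} [CommRing A] [CommRing B] [CommRing C'] (f : A →+* B)
    (g : B →+* C') (F : A⟦X⟧) :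
    PowerSeries.map g (PowerSeries.map f F) = PowerSeries.map (g.comp f) F := by
  ext n
  simp [coeff_map]

/-- the hat vertex as an algebra homomorphism over `T⟦ε⟧` -/
def hatS {T : Type} [CommRing T] [Algebra ℂ T] {Vh : Opens ℂ} (φ : Hol Vh →ₐ[ℂ] T) (y : T⟦X⟧)
    (hy : X ∣ y) (Fh : A0 →ₐ[ℂ] (Hol Vh)⟦X⟧) : A0 →ₐ[ℂ] T⟦X⟧ :=
  { (pt (cD (DH Vh)) (PowerSeries.map (φ : Hol Vh →+* T)) y hy).comp (Fh : A0 →+* (Hol Vh)⟦X⟧) with
    commutes' := fun c => by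
      change pt (cD (DH Vh)) (PowerSeries.map (φ : Hol Vh →+* T)) y hy (Fh (algebraMap ℂ A0 c)) = _
      rw [AlgHom.commutes, H3.pt_algebraMap, PowerSeries.algebraMap_apply, map_C,
        PowerSeries.algebraMap_apply, RingHom.coe_coe, AlgHom.commutes] }

theorem hatS_apply {T : Type} [CommRing T] [Algebra ℂ T] {Vh : Opens ℂ} (φ : Hol Vh →ₐ[ℂ] T)
    (y : T⟦X⟧) (hy : X ∣ y) (Fh : A0 →ₐ[ℂ] (Hol Vh)⟦X⟧) (x : A0) :
    hatS φ y hy Fh x = pt (cD (DH Vh)) (PowerSeries.map (φ : Hol Vh →+* T)) y hy (Fh x) := rfl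

set_option maxHeartbeats 1600000 in
/-- **core B** -/
theorem Dat.coreB (h : Dat g c₀ N ρ e r β m k q q') (hN : 0 < N)
    {del : Derivation ℂ A0 A0} {z0 g0 : A0} {ρ₀ : A0 →ₐ[ℂ] Hol (bO e r)}
    (hρg : ρ₀ g0 = gV g e r) (hρd : ∀ a, ρ₀ (del a) = DH _ (ρ₀ a)) (hρz : ρ₀ z0 = zH _)
    (F : ℕ → A0 →ₐ[ℂ] (Hol (bO e r))⟦X⟧) (hFd : ∀ i a, F i (del a) = cD (DH _) (F i a))
    (hFz : ∀ i, F i z0 = C (zH _)) (hFc : ∀ i a, constantCoeff (F i a) = ρ₀ a)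
    (y : ℕ → (OO c₀ ρ)⟦X⟧) (hy : ∀ i, X ∣ y i) (m' k' : ℕ → (OO c₀ ρ)⟦X⟧)
    (hout : H3.Chain (cD (DH (bO e r))) (C (zH (bO e r))) (fun i => F i g0) N
      (fun i => pt (cD (DH (bO e r))) (PowerSeries.map (h.bo i)) (y i) (hy i)) m' k')
    (hm0 : m' 0 = C (aO c₀ ρ (hU c₀ ρ (m 0)))) (hk0 : k' 0 = C (aO c₀ ρ (hU c₀ ρ (k 0))))
    (hcm : ∀ i ≤ N, constantCoeff (m' i) = aO c₀ ρ (hU c₀ ρ (m i)) ∧
      constantCoeff (k' i) = aO c₀ ρ (hU c₀ ρ (k i)))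
    -- the hat vertex
    {Vh : Opens ℂ} {ι : A0 →ₐ[ℂ] Hol Vh} (φh : Hol Vh →ₐ[ℂ] Hol (UU c₀ ρ))
    (Fh : A0 →ₐ[ℂ] (Hol Vh)⟦X⟧) (hFhd : ∀ a, Fh (del a) = cD (DH Vh) (Fh a))
    (hFhz : Fh z0 = C (zH Vh)) (hFhc : ∀ a, constantCoeff (Fh a) = ι a)
    (yh : (Hol (UU c₀ ρ))⟦X⟧) (hyh : X ∣ yh)
    (hinch : pt (cD (DH Vh)) (PowerSeries.map (φh : Hol Vh →+* Hol (UU c₀ ρ))) yh hyh (Fh g0) =
      C (hU c₀ ρ (m 0)) *
        pt (cD (DH Vh)) (PowerSeries.map (φh : Hol Vh →+* Hol (UU c₀ ρ))) yh hyh (C (zH Vh)) +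
      C (hU c₀ ρ (k 0)))
    -- the derivations of `Hol W`
    (D : Fin 2 → Derivation ℂ (Hol (WW c₀ ρ)) (Hol (WW c₀ ρ))) (p : WW c₀ ρ)
    (hid : ∀ t, (∀ l, evH p (H3.word D l t) = 0) → t = 0)
    (hDb : ∀ a i f, D a (h.bw i f) = h.bw i (DH _ f) * D a (h.bw i (zH _)))
    (hDh : ∀ a f, D a (h.rw (φh f)) = h.rw (φh (DH _ f)) * D a (h.rw (φh (zH _))))
    (hDm : ∀ a, ∃ c : ℂ, D a (h.rw (hU c₀ ρ (m 0))) = algebraMap ℂ _ c)
    (hDk : ∀ a, ∃ c : ℂ, D a (h.rw (hU c₀ ρ (k 0))) = algebraMap ℂ _ c)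
    -- the ring `A`
    (A : Subalgebra ℂ (Hol (WW c₀ ρ))) (hAs : ∀ i < N, ∀ a, h.bw i (ρ₀ a) ∈ A)
    (hAh : ∀ a, h.rw (φh (ι a)) ∈ A)
    (hAm : ∀ i ≤ N, h.rw (hU c₀ ρ (m i)) ∈ A ∧ h.rw (hU c₀ ρ (k i)) ∈ A)
    (hAμ : ∀ i < N, ∃ μ ∈ A, μ * h.rw (hU c₀ ρ (m i)) = 1)
    (hAτ : ∀ i < N, ∃ τ ∈ A, τ * (h.bw i (ρ₀ (del g0)) - h.rw (hU c₀ ρ (m i))) = 1)
    (hAτh : ∃ τ ∈ A, τ * (h.rw (φh (ι (del g0))) - h.rw (hU c₀ ρ (m 0))) = 1)
    (ψ : A →ₐ[ℂ] ℂ⟦X⟧)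
    (hψm : ∀ hm, ψ ⟨h.rw (hU c₀ ρ (m 0)), hm⟩ = C (evH p (h.rw (hU c₀ ρ (m 0)))))
    (hψk : ∀ hk, ψ ⟨h.rw (hU c₀ ρ (k 0)), hk⟩ = C (evH p (h.rw (hU c₀ ρ (k 0)))))
    (w : ℕ → ℂ⟦X⟧) (hw : ∀ i, X ∣ w i)
    (hψb : ∀ i < N, ∀ a hm, ψ ⟨h.bw i (ρ₀ a), hm⟩ =
      pt (cD (DH (bO e r))) (PowerSeries.map ((evH p : Hol (WW c₀ ρ) →+* ℂ).comp
        (h.bw i : Hol (bO e r) →+* Hol (WW c₀ ρ)))) (w i) (hw i) (F i a))
    (wh : ℂ⟦X⟧) (hwh : X ∣ wh)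
    (hψh : ∀ a hm, ψ ⟨h.rw (φh (ι a)), hm⟩ =
      pt (cD (DH Vh)) (PowerSeries.map ((evH p : Hol (WW c₀ ρ) →+* ℂ).comp
        ((h.rw.comp φh : Hol Vh →ₐ[ℂ] Hol (WW c₀ ρ)) : Hol Vh →+* Hol (WW c₀ ρ)))) wh hwh (Fh a))
    (P : Polynomial (MvPolynomial (Option (Fin N × A0)) ℂ))
    (hrel : P.eval₂ (h.obU ρ₀) (φh (zH Vh)) = 0) :
    P.eval₂ (h.obO F y hy) (PowerSeries.map (algebraMap (Hol (UU c₀ ρ)) (OO c₀ ρ))
      (C (φh (zH Vh)) + yh)) = 0 := by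
  classical
  -- abbreviations
  set mW : ℕ → (Hol (WW c₀ ρ)) := fun i => h.rw (hU c₀ ρ (m i)) with hmW
  set kW : ℕ → (Hol (WW c₀ ρ)) := fun i => h.rw (hU c₀ ρ (k i)) with hkW
  have h0N : (0 : ℕ) ≤ N := Nat.zero_le N
  -- chain over Hol W⟦ε⟧
  set yT : ℕ → (Hol (WW c₀ ρ))⟦X⟧ := fun i => PowerSeries.map h.lw (y i) with hyT
  have hyT' : ∀ i, X ∣ yT i := fun i => X_dvd_mapX h.lw (hy i)
  set mT : ℕ → (Hol (WW c₀ ρ))⟦X⟧ := fun i => PowerSeries.map h.lw (m' i) with hmT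
  set kT : ℕ → (Hol (WW c₀ ρ))⟦X⟧ := fun i => PowerSeries.map h.lw (k' i) with hkT
  have hptT : ∀ i, (PowerSeries.map h.lw).comp
      (pt (cD (DH (bO e r))) (PowerSeries.map (h.bo i)) (y i) (hy i)) =
      pt (cD (DH (bO e r))) (PowerSeries.map (h.bw i : Hol (bO e r) →+* (Hol (WW c₀ ρ)))) (yT i) (hyT' i) := by
    intro i
    rw [comp_pt (cD (DH (bO e r))) (PowerSeries.map h.lw) (X_dvd_map_X h.lw)]
    refine pt_congr (cD (DH (bO e r))) _ _ ?_ rfl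
    rw [← PowerSeries.map_comp, h.lw_bo]
  have houtT : H3.Chain (cD (DH (bO e r))) (C (zH (bO e r))) (fun i => F i g0) N
      (fun i => pt (cD (DH (bO e r))) (PowerSeries.map (h.bw i : Hol (bO e r) →+* (Hol (WW c₀ ρ))))
        (yT i) (hyT' i)) mT kT :=
    (hout.map (PowerSeries.map h.lw)).congr (fun i _ => hptT i)
  -- the ring `A`
  let inc : A →ₐ[ℂ] (Hol (WW c₀ ρ)) := A.val
  have hinc : Function.Injective inc := Subtype.val_injective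
  choose! μf hμf1 hμf2 using hAμ
  choose! τf hτf1 hτf2 using hAτ
  obtain ⟨τh0, hτh1, hτh2⟩ := hAτh
  let σ0 : ∀ i, i < N → (A0 →ₐ[ℂ] A) := fun i hi =>
    ((h.bw i).comp ρ₀).codRestrict A (fun a => hAs i hi a)
  let σ : ℕ → (A0 →ₐ[ℂ] A) := fun i => if hi : i < N then σ0 i hi else σ0 0 hN
  have hσ : ∀ i (hi : i < N), σ i = σ0 i hi := fun i hi => dif_pos hi
  let mA : ℕ → A := fun i => if hi : i ≤ N then ⟨mW i, (hAm i hi).1⟩ else 0
  let kA : ℕ → A := fun i => if hi : i ≤ N then ⟨kW i, (hAm i hi).2⟩ else 0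
  let μA : ℕ → A := fun i => if hi : i < N then ⟨μf i, hμf1 i hi⟩ else 0
  let τA : ℕ → A := fun i => if hi : i < N then ⟨τf i, hτf1 i hi⟩ else 0
  have hmA : ∀ i (hi : i ≤ N), mA i = ⟨mW i, (hAm i hi).1⟩ := fun i hi => dif_pos hi
  have hkA : ∀ i (hi : i ≤ N), kA i = ⟨kW i, (hAm i hi).2⟩ := fun i hi => dif_pos hi
  have hμA : ∀ i (hi : i < N), μA i = ⟨μf i, hμf1 i hi⟩ := fun i hi => dif_pos hi
  have hτA : ∀ i (hi : i < N), τA i = ⟨τf i, hτf1 i hi⟩ := fun i hi => dif_pos hi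
  let th0 : A0 →ₐ[ℂ] A := (h.rw.comp (φh.comp ι)).codRestrict A (fun a => hAh a)
  -- `B`
  let B : Subalgebra ℂ A := Algebra.adjoin ℂ {mA 0, kA 0}
  have hmB : mA 0 ∈ B := Algebra.subset_adjoin (by simp)
  have hkB : kA 0 ∈ B := Algebra.subset_adjoin (by simp)
  have hBD : ∀ a, ∀ b ∈ B, ∃ b' ∈ B, D a (inc b) = inc b' := by
    intro a b hb
    induction hb using Algebra.adjoin_induction with
    | mem x hx =>
      rcases hx with rfl | rfl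
      · obtain ⟨c, hc⟩ := hDm a
        refine ⟨algebraMap ℂ A c, B.algebraMap_mem c, ?_⟩
        rw [hmA 0 h0N]
        exact hc
      · obtain ⟨c, hc⟩ := hDk a
        refine ⟨algebraMap ℂ A c, B.algebraMap_mem c, ?_⟩
        rw [hkA 0 h0N]
        exact hc
    | algebraMap c =>
      refine ⟨0, B.zero_mem, ?_⟩
      rw [AlgHom.commutes, Derivation.map_algebraMap, map_zero]
    | add x z _ _ hx hz =>
      obtain ⟨x', hx1, hx2⟩ := hx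
      obtain ⟨z', hz1, hz2⟩ := hz
      exact ⟨x' + z', B.add_mem hx1 hz1, by rw [map_add, map_add, map_add, hx2, hz2]⟩
    | mul x z hxB hzB hx hz =>
      obtain ⟨x', hx1, hx2⟩ := hx
      obtain ⟨z', hz1, hz2⟩ := hz
      refine ⟨x * z' + z * x', B.add_mem (B.mul_mem hxB hz1) (B.mul_mem hzB hx1), ?_⟩
      rw [map_mul, Derivation.leibniz, hx2, hz2, smul_eq_mul, smul_eq_mul, map_add, map_mul,
        map_mul]
  have hψB : ∀ b ∈ B, ψ b = C (evH p (inc b)) := by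
    intro b hb
    induction hb using Algebra.adjoin_induction with
    | mem x hx =>
      rcases hx with rfl | rfl
      · rw [hmA 0 h0N]; exact hψm _
      · rw [hkA 0 h0N]; exact hψk _
    | algebraMap c =>
      rw [AlgHom.commutes, AlgHom.commutes, AlgHom.commutes, PowerSeries.algebraMap_apply]
    | add x z _ _ hx hz => rw [map_add, hx, hz, map_add, map_add, map_add]
    | mul x z _ _ hx hz => rw [map_mul, hx, hz, map_mul, map_mul, map_mul]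
  -- the hat vertex over Hol W⟦ε⟧
  set φT : Hol Vh →ₐ[ℂ] (Hol (WW c₀ ρ)) := h.rw.comp φh with hφT
  set yhT : (Hol (WW c₀ ρ))⟦X⟧ := PowerSeries.map (h.rw : Hol (UU c₀ ρ) →+* (Hol (WW c₀ ρ))) yh with hyhT
  have hyhT' : X ∣ yhT := X_dvd_mapX _ hyh
  have hinchT := hat_map (DH Vh) (φh : Hol Vh →+* Hol (UU c₀ ρ)) (Fh g0) hyh hinch
    (h.rw : Hol (UU c₀ ρ) →+* (Hol (WW c₀ ρ)))
  have hφTr : (h.rw : Hol (UU c₀ ρ) →+* (Hol (WW c₀ ρ))).comp (φh : Hol Vh →+* Hol (UU c₀ ρ)) =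
      (φT : Hol Vh →+* (Hol (WW c₀ ρ))) := rfl
  rw [hφTr] at hinchT
  -- agreement
  have hwhinc : pt (cD (DH Vh)) (PowerSeries.map ((evH p : (Hol (WW c₀ ρ)) →+* ℂ).comp (φT : Hol Vh →+* (Hol (WW c₀ ρ)))))
      wh hwh (Fh g0) = C (evH p (mW 0)) *
        pt (cD (DH Vh)) (PowerSeries.map ((evH p : (Hol (WW c₀ ρ)) →+* ℂ).comp (φT : Hol Vh →+* (Hol (WW c₀ ρ)))))
          wh hwh (C (zH Vh)) + C (evH p (kW 0)) := by
    rw [← hFhz, ← hψh g0 (hAh g0), ← hψh z0 (hAh z0)]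
    have h1 := congrArg constantCoeff hinch
    rw [map_add, map_mul, constantCoeff_pt, constantCoeff_pt, H3.constantCoeff_map,
      H3.constantCoeff_map, hFhc, constantCoeff_C, constantCoeff_C, constantCoeff_C] at h1
    have h2 : ι z0 = zH Vh := by rw [← hFhc, hFhz, constantCoeff_C]
    have h3 : (⟨h.rw (φh (ι g0)), hAh g0⟩ : A) =
        ⟨mW 0, (hAm 0 h0N).1⟩ * ⟨h.rw (φh (ι z0)), hAh z0⟩ + ⟨kW 0, (hAm 0 h0N).2⟩ := by
      apply Subtype.ext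
      change h.rw (φh (ι g0)) = mW 0 * h.rw (φh (ι z0)) + kW 0
      rw [h2]
      have h4 := congrArg h.rw h1
      rw [map_add, map_mul] at h4
      exact h4
    rw [h3, map_add, map_mul, hψm, hψk]
  have hagree : PowerSeries.map (evH p : (Hol (WW c₀ ρ)) →+* ℂ) yhT = wh := by
    have h1 := hat_map (DH Vh) (φT : Hol Vh →+* (Hol (WW c₀ ρ))) (Fh g0) hyhT' hinchT (evH p : (Hol (WW c₀ ρ)) →+* ℂ)
    refine hat_unique (DH Vh) (DH_zH Vh) ((evH p : (Hol (WW c₀ ρ)) →+* ℂ).comp (φT : Hol Vh →+* (Hol (WW c₀ ρ)))) (Fh g0)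
      ?_ (X_dvd_mapX _ hyhT') hwh h1 hwhinc
    have h2 : IsUnit (h.rw (φh (ι (del g0))) - mW 0) :=
      IsUnit.of_mul_eq_one _ (by rw [mul_comm]; exact hτh2)
    have h3 := h2.map (evH p)
    rw [map_sub] at h3
    have h4 : constantCoeff (cD (DH Vh) (Fh g0)) = ι (del g0) := by rw [← hFhd, hFhc]
    rw [H3.constantCoeff_cD] at h4
    rw [h4]
    exact h3
  have key := @H3.chain_identity ℂ (Hol (bO e r)) (Hol (WW c₀ ρ)) A A0 _ _ _ _ _ _ _ _ _ _ (Fin 2) D (evH p)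
    hid (DH (bO e r)) (zH (bO e r)) (DH_zH _) h.bw hDb del z0 g0 ρ₀ F hFd hFz hFc N yT mT kT hyT'
    houtT inc hinc ψ B hBD hψB σ (fun i hi a => by rw [hσ i hi]; rfl) mA kA μA τA
    (fun i hi => by
      rw [hmA i hi, hmT]
      simp only
      rw [H3.constantCoeff_map, (hcm i hi).1, h.lw_alg]; rfl)
    (fun i hi => by
      rw [hkA i hi, hkT]
      simp only
      rw [H3.constantCoeff_map, (hcm i hi).2, h.lw_alg]; rfl)
    (fun i hi => by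
      rw [hμA i hi, hmA i hi.le]
      apply Subtype.ext
      exact hμf2 i hi)
    (fun i hi => by
      rw [hτA i hi, hmA i hi.le, hσ i hi]
      apply Subtype.ext
      exact hτf2 i hi) hmB hkB
    (by
      rw [hmT, hmA 0 h0N]
      simp only
      rw [hm0, map_C, h.lw_alg]; rfl)
    (by
      rw [hkT, hkA 0 h0N]
      simp only
      rw [hk0, map_C, h.lw_alg]; rfl)
    w hw
    (fun i hi a => by rw [hσ i hi]; exact hψb i hi a _)
    Unit (fun _ => A0) _ _ (fun _ => del) (fun _ => z0) (fun _ => g0)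
    (fun _ => hatS φT yhT hyhT' Fh)
    (fun _ a x => by
      simp only [hatS_apply]
      exact vertex_rule (DH Vh) (DH_zH Vh) (D a) (φT : Hol Vh →+* (Hol (WW c₀ ρ))) (fun f => hDh a f)
        (d0 := del) (F := fun x => Fh x) hFhd hFhz hyhT' x)
    (fun _ => by
      simp only [hatS_apply]
      rw [hFhz, hmT, hkT]
      simp only
      rw [hm0, hk0, map_C, map_C, h.lw_alg, h.lw_alg]
      exact hinchT)
    (fun _ => th0)
    (fun _ x => by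
      rw [hatS_apply, constantCoeff_pt, H3.constantCoeff_map, hFhc]
      rfl)
    (fun _ x => by
      rw [hatS_apply]
      have h1 := congrArg (fun Ψ : (Hol Vh)⟦X⟧ →+* ℂ⟦X⟧ => Ψ (Fh x))
        (comp_pt (cD (DH Vh)) (PowerSeries.map (evH p : (Hol (WW c₀ ρ)) →+* ℂ)) (X_dvd_map_X _)
          (PowerSeries.map (φT : Hol Vh →+* (Hol (WW c₀ ρ)))) hyhT')
      simp only [RingHom.comp_apply] at h1
      rw [h1]
      have h2 := hψh x (hAh x)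
      refine Eq.trans ?_ h2.symm
      refine congrArg (fun Ψ : (Hol Vh)⟦X⟧ →+* ℂ⟦X⟧ => Ψ (Fh x)) (pt_congr (cD (DH Vh)) _ _ ?_ hagree)
      rw [← PowerSeries.map_comp])
    (fun _ => ⟨τh0, hτh1⟩)
    (fun _ => by
      rw [hmA 0 h0N]
      apply Subtype.ext
      exact hτh2)
  -- the relation element
  set Γ := Algebra.adjoin ℂ (H3.gens (K := ℂ) (T := Hol (WW c₀ ρ)) (A := A) (A0 := A0) inc B N mT kT (fun i a =>
      pt (cD (DH (bO e r))) (PowerSeries.map (h.bw i : Hol (bO e r) →+* (Hol (WW c₀ ρ)))) (yT i) (hyT' i) (F i a))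
      (fun _ : Unit => A0) (fun _ x => hatS φT yhT hyhT' Fh x)) with hΓ
  have hinj : Function.Injective (PowerSeries.map h.lw) :=
    PowerSeries.map_injective h.lw h.lw_injective
  apply hinj
  rw [map_zero, Polynomial.hom_eval₂]
  have hobT : (PowerSeries.map h.lw).comp (h.obO F y hy) =
      obs (algebraMap ℂ (Hol (WW c₀ ρ))⟦X⟧) (mT 0)
        (fun i => pt (cD (DH (bO e r))) (PowerSeries.map (h.bw i : Hol (bO e r) →+* (Hol (WW c₀ ρ)))) (yT i)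
          (hyT' i)) (fun (j : Fin N) a => F j a) := by
    rw [Dat.obO, comp_obs, h.lw_iO]
    refine obs_congr (algebraMap ℂ (Hol (WW c₀ ρ))⟦X⟧) _ (by rw [hmT]; simp only; rw [hm0]) fun j _ => hptT j
  have huT : PowerSeries.map h.lw (PowerSeries.map (algebraMap (Hol (UU c₀ ρ)) (OO c₀ ρ))
      (C (φh (zH Vh)) + yh)) = hatS φT yhT hyhT' Fh z0 := by
    rw [hatS_apply, hFhz, pt_coord (cD (DH Vh)) _ hyhT' (cDz (DH_zH Vh)), map_C, map_add, map_add,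
      map_C, map_C, h.lw_alg, hyhT]
    congr 1
    ext n
    rw [coeff_map, coeff_map, coeff_map, h.lw_alg]
    rfl
  rw [hobT, huT]
  refine key (s := P.eval₂ _ _) ?_ ?_
  · refine eval₂_mem Γ _ (fun Q => obs_mem Γ _ ?_ (fun j a => ?_) Q) ?_ P
    · exact Algebra.subset_adjoin (Or.inr (Or.inl ⟨0, h0N, rfl⟩))
    · exact Algebra.subset_adjoin (Or.inr (Or.inr (Or.inr (Or.inl ⟨j, j.2, a, rfl⟩))))
    · exact Algebra.subset_adjoin (Or.inr (Or.inr (Or.inr (Or.inr ⟨(), z0, rfl⟩))))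
  · rw [Polynomial.hom_eval₂, comp_obs]
    have h1 : (constantCoeff (R := Hol (WW c₀ ρ))).comp (algebraMap ℂ (Hol (WW c₀ ρ))⟦X⟧) =
        (h.rw : Hol (UU c₀ ρ) →+* (Hol (WW c₀ ρ))).comp (algebraMap ℂ (Hol (UU c₀ ρ))) := by
      refine RingHom.ext fun c => ?_
      rw [RingHom.comp_apply, PowerSeries.algebraMap_apply, constantCoeff_C, RingHom.comp_apply,
        RingHom.coe_coe, AlgHom.commutes]
    have h2 : obs ((constantCoeff (R := Hol (WW c₀ ρ))).comp (algebraMap ℂ (Hol (WW c₀ ρ))⟦X⟧)) (constantCoeff (mT 0))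
        (fun j => (constantCoeff (R := Hol (WW c₀ ρ))).comp (pt (cD (DH (bO e r)))
          (PowerSeries.map (h.bw j : Hol (bO e r) →+* (Hol (WW c₀ ρ)))) (yT j) (hyT' j)))
        (fun (j : Fin N) a => F j a) = (h.rw : Hol (UU c₀ ρ) →+* (Hol (WW c₀ ρ))).comp (h.obU ρ₀) := by
      rw [Dat.obU, comp_obs, h1]
      refine obs_congr2 _ _ _ ?_ fun j a => ?_
      · rw [hmT]
        simp only
        rw [H3.constantCoeff_map, (hcm 0 h0N).1, h.lw_alg]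
        rfl
      · rw [RingHom.comp_apply, constantCoeff_pt, H3.constantCoeff_map, hFc]
        rfl
    rw [h2]
    have h3 : constantCoeff (hatS φT yhT hyhT' Fh z0) = (h.rw : Hol (UU c₀ ρ) →+* (Hol (WW c₀ ρ)))
        (φh (zH Vh)) := by
      rw [hatS_apply, constantCoeff_pt, H3.constantCoeff_map, hFhz, constantCoeff_C]
      rfl
    rw [h3, ← Polynomial.hom_eval₂, hrel, map_zero]

end coreB

end

end Crest.Agent.R102.CT575
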