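import Crest.Agent.R266.SCV

/-!
Row 102, [H3], **F7** of 575 #24326: the undeformed billiard chain near a grazing line, in isotropic
coordinates (mirror `a = g(b)`, lines `a = m b + k`, law of reflection `m' m = g'(b) ^ 2`).
-/

set_option autoImplicit false

open Set Filter Topology Metric
open Crest.Agent.R266

noncomputable section

namespace Crest.Agent.R102.F7389

/-! ### division by the second coordinate -/

/-- an analytic function of two variables vanishing on `{p.2 = 0}` is divisible by `p.2` -/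
theorem div_snd {f : ℂ × ℂ → ℂ} {c₀ : ℂ} (hf : AnalyticAt ℂ f (c₀, 0))
    (h0 : ∀ᶠ c in 𝓝 c₀, f (c, 0) = 0) :
    ∃ q : ℂ × ℂ → ℂ, AnalyticAt ℂ q (c₀, 0) ∧
      ∀ᶠ p in 𝓝 ((c₀, 0) : ℂ × ℂ), f p = p.2 * q p := by
  obtain ⟨ρ, hρ, hball⟩ := Metric.eventually_nhds_iff.1 (hf.eventually_analyticAt.and
    ((continuous_fst.tendsto ((c₀, 0) : ℂ × ℂ)).eventually h0))
  have hmem : ∀ {p : ℂ × ℂ}, p ∈ ball c₀ ρ ×ˢ ball (0 : ℂ) ρ → AnalyticAt ℂ f p := by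
    intro p hp
    refine (hball ?_).1
    rw [Prod.dist_eq]
    exact max_lt (by simpa using hp.1) (by simpa using hp.2)
  have hzero : ∀ {c : ℂ}, c ∈ ball c₀ ρ → f (c, 0) = 0 := by
    intro c hc
    refine (hball (y := (c, 0)) ?_).2
    rw [Prod.dist_eq]
    exact max_lt (by simpa using hc) (by simpa using hρ)
  set F2 : ℂ × ℂ → ℂ := fun p => fderiv ℂ f p (0, 1) with hF2
  have hF2a : ∀ {p : ℂ × ℂ}, p ∈ ball c₀ ρ ×ˢ ball (0 : ℂ) ρ → AnalyticAt ℂ F2 p := by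
    intro p hp
    exact (ContinuousLinearMap.apply ℂ ℂ ((0, 1) : ℂ × ℂ)).analyticAt _ |>.comp (hmem hp).fderiv
  set U : Set (ℂ × ℂ) := ball c₀ ρ ×ˢ ball (0 : ℂ) ρ with hU
  have hUo : IsOpen U := isOpen_ball.prod isOpen_ball
  have hseg : ∀ p ∈ U, ∀ s ∈ Set.uIcc (0 : ℝ) 1, ((p.1, (s : ℂ) * p.2) : ℂ × ℂ) ∈ U := by
    intro p hp s hs
    rw [uIcc_of_le zero_le_one] at hs
    refine ⟨hp.1, ?_⟩
    rw [mem_ball_zero_iff, norm_mul, Complex.norm_real, Real.norm_of_nonneg hs.1]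
    have h2 : ‖p.2‖ < ρ := by simpa using hp.2
    calc s * ‖p.2‖ ≤ 1 * ‖p.2‖ := by gcongr; exact hs.2
      _ < ρ := by rw [one_mul]; exact h2
  set q : ℂ × ℂ → ℂ := fun p => ∫ s in (0 : ℝ)..1, F2 (p.1, (s : ℂ) * p.2) with hq
  have hqa : AnalyticOnNhd ℂ q U := by
    refine SCV.analyticOnNhd_intervalIntegral (f := fun x : (ℂ × ℂ) × ℝ =>
      F2 (x.1.1, (x.2 : ℂ) * x.1.2)) hUo ?_ ?_
    · intro x hx
      have h1 : ContinuousAt F2 (x.1.1, (x.2 : ℂ) * x.1.2) :=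
        (hF2a (hseg x.1 hx.1 x.2 hx.2)).continuousAt
      refine (ContinuousAt.comp (f := fun x : (ℂ × ℂ) × ℝ => ((x.1.1, (x.2 : ℂ) * x.1.2) : ℂ × ℂ))
        (g := F2) h1 ?_).continuousWithinAt
      fun_prop
    · intro t ht x hx
      have h1 : DifferentiableAt ℂ F2 (x.1, (t : ℂ) * x.2) :=
        (hF2a (hseg x hx t ht)).differentiableAt
      refine (DifferentiableAt.comp (f := fun x : ℂ × ℂ => ((x.1, (t : ℂ) * x.2) : ℂ × ℂ))
        (g := F2) x h1 ?_).differentiableWithinAt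
      fun_prop
  have hcU : ((c₀, 0) : ℂ × ℂ) ∈ U := ⟨mem_ball_self hρ, mem_ball_self hρ⟩
  refine ⟨q, hqa _ hcU, ?_⟩
  filter_upwards [hUo.mem_nhds hcU] with p hp
  have h1 : ∀ t ∈ Set.Icc (0 : ℝ) 1, HasDerivAt (fun z : ℂ => f (p.1, z))
      (F2 (p.1, (0 : ℂ) + t • p.2)) ((0 : ℂ) + t • p.2) := by
    intro t ht
    have h2 : ((p.1, (t : ℂ) * p.2) : ℂ × ℂ) ∈ U := hseg p hp t (by rwa [uIcc_of_le zero_le_one])
    have e1 : (0 : ℂ) + t • p.2 = (t : ℂ) * p.2 := by simp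
    rw [e1]
    have h3 : HasFDerivAt f (fderiv ℂ f (p.1, (t : ℂ) * p.2)) (p.1, (t : ℂ) * p.2) :=
      (hmem h2).differentiableAt.hasFDerivAt
    have h4 : HasDerivAt (fun z : ℂ => ((p.1, z) : ℂ × ℂ)) (0, 1) ((t : ℂ) * p.2) :=
      (hasDerivAt_const _ _).prodMk (hasDerivAt_id _)
    exact h3.comp_hasDerivAt ((t : ℂ) * p.2) h4
  have h5 := intervalIntegral.integral_unitInterval_deriv_eq_sub (𝕜 := ℂ) (E := ℂ)
    (f := fun z : ℂ => f (p.1, z)) (f' := fun z => F2 (p.1, z)) (z₀ := 0) (z₁ := p.2) ?_ h1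
  · simp only [zero_add, smul_eq_mul] at h5
    rw [hzero hp.1, sub_zero] at h5
    rw [show f p = f (p.1, p.2) from rfl, ← h5, hq]
    simp only [Complex.real_smul]
  · intro t ht
    have h2 : ((p.1, (t : ℂ) * p.2) : ℂ × ℂ) ∈ U := hseg p hp t (by rwa [uIcc_of_le zero_le_one])
    have h1 : ContinuousAt F2 (p.1, (0 : ℂ) + t • p.2) := by
      have e1 : (0 : ℂ) + t • p.2 = (t : ℂ) * p.2 := by simp
      rw [e1]
      exact (hF2a h2).continuousAt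
    refine (ContinuousAt.comp (f := fun t : ℝ => ((p.1, (0 : ℂ) + t • p.2) : ℂ × ℂ))
        (g := F2) h1 ?_).continuousWithinAt
    fun_prop

/-! ### analytic implicit function theorem -/

theorem implicit {E : Type} [NormedAddCommGroup E] [NormedSpace ℂ E] [CompleteSpace E]
    {Φ : E × ℂ → ℂ} {p₀ : E} {z₀ : ℂ} (hΦ : AnalyticAt ℂ Φ (p₀, z₀)) (h0 : Φ (p₀, z₀) = 0)
    (hd : fderiv ℂ Φ (p₀, z₀) (0, 1) ≠ 0) :
    ∃ φ : E → ℂ, AnalyticAt ℂ φ p₀ ∧ φ p₀ = z₀ ∧ (∀ᶠ p in 𝓝 p₀, Φ (p, φ p) = 0) ∧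
      ∀ᶠ x in 𝓝 ((p₀, z₀) : E × ℂ), Φ x = 0 → x.2 = φ x.1 := by
  set L : E × ℂ →L[ℂ] ℂ := fderiv ℂ Φ (p₀, z₀) with hL
  set c : ℂ := L (0, 1) with hc
  set f : E × ℂ → E × ℂ := fun x => (x.1, Φ x) with hf
  have hfa : AnalyticAt ℂ f (p₀, z₀) := analyticAt_fst.prod hΦ
  set f' : (E × ℂ) ≃L[ℂ] (E × ℂ) := ContinuousLinearEquiv.equivOfInverse
    ((ContinuousLinearMap.fst ℂ E ℂ).prod L)
    ((ContinuousLinearMap.fst ℂ E ℂ).prod
      (c⁻¹ • (ContinuousLinearMap.snd ℂ E ℂ - L.comp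
        ((ContinuousLinearMap.inl ℂ E ℂ).comp (ContinuousLinearMap.fst ℂ E ℂ)))))
    (by
      rintro ⟨a, b⟩
      have h1 : L (a, b) = L (a, 0) + b * c := by
        rw [hc, ← smul_eq_mul, ← map_smul, ← map_add]; simp
      simp only [ContinuousLinearMap.prod_apply, ContinuousLinearMap.coe_fst',
        FunLike.coe_smul, Pi.smul_apply, FunLike.coe_sub, Pi.sub_apply,
        ContinuousLinearMap.coe_snd', ContinuousLinearMap.comp_apply,
        ContinuousLinearMap.inl_apply, smul_eq_mul]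
      rw [h1]
      ext
      · rfl
      · change c⁻¹ * (L (a, 0) + b * c - L (a, 0)) = b
        field_simp
        ring)
    (by
      rintro ⟨a, b⟩
      have h1 : ∀ b : ℂ, L (a, b) = L (a, 0) + b * c := by
        intro b
        rw [hc, ← smul_eq_mul, ← map_smul, ← map_add]; simp
      simp only [ContinuousLinearMap.prod_apply, ContinuousLinearMap.coe_fst',
        FunLike.coe_smul, Pi.smul_apply, FunLike.coe_sub, Pi.sub_apply,
        ContinuousLinearMap.coe_snd', ContinuousLinearMap.comp_apply,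
        ContinuousLinearMap.inl_apply, smul_eq_mul]
      rw [h1]
      ext
      · rfl
      · change L (a, 0) + c⁻¹ * (b - L (a, 0)) * c = b
        field_simp
        ring) with hf'
  have hfd : HasFDerivAt f (f' : (E × ℂ) →L[ℂ] (E × ℂ)) (p₀, z₀) := by
    have h1 : HasFDerivAt f ((ContinuousLinearMap.fst ℂ E ℂ).prod L) (p₀, z₀) :=
      hasFDerivAt_fst.prodMk hΦ.differentiableAt.hasFDerivAt
    exact h1
  obtain ⟨e, he1, -, he2, -, he3⟩ := SCV.exists_analytic_openPartialHomeomorph hfa f' hfd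
    univ_mem
  have hfx : f (p₀, z₀) = (p₀, 0) := by rw [hf]; simp [h0]
  have htar : ((p₀, 0) : E × ℂ) ∈ e.target := by
    rw [← hfx, ← he2]; exact e.map_source he1
  have hsymm : e.symm (p₀, 0) = (p₀, z₀) := by
    rw [← hfx, ← he2, e.left_inv he1]
  refine ⟨fun p => (e.symm (p, 0)).2, ?_, ?_, ?_, ?_⟩
  · have h1 : AnalyticAt ℂ (fun p : E => ((p, 0) : E × ℂ)) p₀ := analyticAt_id.prod analyticAt_const
    have h2 : AnalyticAt ℂ (e.symm ∘ fun p : E => ((p, 0) : E × ℂ)) p₀ := (he3 _ htar).comp (f := fun p : E => ((p, 0) : E × ℂ)) h1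
    exact (analyticAt_snd).comp h2
  · simp [hsymm]
  · have h1 : Tendsto (fun p : E => ((p, 0) : E × ℂ)) (𝓝 p₀) (𝓝 (p₀, 0)) :=
      Continuous.tendsto (by fun_prop) _
    filter_upwards [h1.eventually (e.open_target.mem_nhds htar)] with p hp
    have h2 : f (e.symm (p, 0)) = (p, 0) := by rw [← he2, e.right_inv hp]
    have h3 : (e.symm (p, 0)).1 = p := congrArg Prod.fst h2
    have h4 : Φ (e.symm (p, 0)) = 0 := congrArg Prod.snd h2
    have h5 : ((p, (e.symm (p, 0)).2) : E × ℂ) = e.symm (p, 0) := Prod.ext h3.symm rfl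
    rw [h5, h4]
  · filter_upwards [e.open_source.mem_nhds he1] with x hx hx0
    have h1 : e x = (x.1, 0) := by rw [he2, hf]; simp [hx0]
    have h2 : e.symm (x.1, 0) = x := by rw [← h1, e.left_inv hx]
    simp [h2]

/-! ### divided differences -/

/-- value of the second divided difference on the diagonal -/
theorem second {g : ℂ → ℂ} {c₀ : ℂ} (hg : AnalyticAt ℂ g c₀) {S h : ℂ × ℂ → ℂ}
    (hha : AnalyticAt ℂ h (c₀, 0))
    (hS : ∀ᶠ x in 𝓝 ((c₀, 0) : ℂ × ℂ), g (x.1 + x.2) - g x.1 = x.2 * S x)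
    (hh : ∀ᶠ x in 𝓝 ((c₀, 0) : ℂ × ℂ), S x = deriv g x.1 + x.2 * h x) :
    2 * h (c₀, 0) = deriv (deriv g) c₀ := by
  have h4 : Tendsto (fun d : ℂ => ((c₀, d) : ℂ × ℂ)) (𝓝 0) (𝓝 (c₀, 0)) :=
    Continuous.tendsto (by fun_prop) _
  set H : ℂ → ℂ := fun d => h (c₀, d) with hH
  have hHa : AnalyticAt ℂ H 0 :=
    AnalyticAt.fun_comp (f := fun d : ℂ => ((c₀, d) : ℂ × ℂ)) (g := h) hha
      (analyticAt_const.prod analyticAt_id)
  have h5 : (fun d : ℂ => g (c₀ + d)) =ᶠ[𝓝 0]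
      fun d => g c₀ + deriv g c₀ * d + d ^ 2 * H d := by
    filter_upwards [h4.eventually hS, h4.eventually hh] with d e1 e2
    rw [hH]
    linear_combination e1 + d * e2
  have h6 : ∀ᶠ d in 𝓝 (0 : ℂ), deriv g (c₀ + d) =
      deriv g c₀ + (2 * d * H d + d ^ 2 * deriv H d) := by
    filter_upwards [h5.eventuallyEq_nhds, hHa.eventually_analyticAt] with d e1 e2
    have e3 : deriv (fun d : ℂ => g (c₀ + d)) d = deriv g (c₀ + d) := deriv_comp_const_add g c₀ d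
    rw [← e3, e1.deriv_eq]
    have e4 : HasDerivAt (fun d : ℂ => g c₀ + deriv g c₀ * d + d ^ 2 * H d)
        (0 + deriv g c₀ * 1 + ((2 * d ^ (2 - 1) * 1) * H d + d ^ 2 * deriv H d)) d := by
      refine ((hasDerivAt_const _ _).add ((hasDerivAt_id d).const_mul _)).add ?_
      have e5 : HasDerivAt (fun d : ℂ => d ^ 2) (((2 : ℕ) : ℂ) * d ^ (2 - 1) * 1) d :=
        (hasDerivAt_id d).pow 2
      exact (e5.mul e2.differentiableAt.hasDerivAt).congr_deriv (by simp)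
    rw [e4.deriv]
    simp
  have h7 : HasDerivAt (fun d : ℂ => deriv g (c₀ + d)) (deriv (deriv g) c₀) 0 := by
    have h9 : HasDerivAt (deriv g) (deriv (deriv g) c₀) (c₀ + 0) := by
      rw [add_zero]; exact hg.deriv.differentiableAt.hasDerivAt
    exact h9.comp_const_add c₀ 0
  have h8 : HasDerivAt (fun d : ℂ => deriv g c₀ + (2 * d * H d + d ^ 2 * deriv H d))
      (2 * H 0) 0 := by
    have e1 : HasDerivAt (fun d : ℂ => 2 * d * H d) (2 * 1 * H 0 + 2 * 0 * deriv H 0) 0 :=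
      ((hasDerivAt_id (0 : ℂ)).const_mul 2).mul hHa.differentiableAt.hasDerivAt
    have e2 : HasDerivAt (fun d : ℂ => d ^ 2 * deriv H d)
        ((((2 : ℕ) : ℂ) * 0 ^ (2 - 1) * 1) * deriv H 0 + 0 ^ 2 * deriv (deriv H) 0) 0 :=
      ((hasDerivAt_id (0 : ℂ)).pow 2).mul hHa.deriv.differentiableAt.hasDerivAt
    have e3 := (e1.add e2).const_add (deriv g c₀)
    simpa using e3
  exact (h8.unique (h7.congr_of_eventuallyEq (EventuallyEq.symm h6)))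

/-- `g(y+d) - g(y) = d S(y,d)`, `S(y,d) = g'(y) + d h(y,d)`, `h(c,0) = g''(c)/2`,
`S(y,d) = S(y+d,-d)` -/
theorem divided {g : ℂ → ℂ} {c₀ : ℂ} (hg : AnalyticAt ℂ g c₀) :
    ∃ S h : ℂ × ℂ → ℂ, AnalyticAt ℂ S (c₀, 0) ∧ AnalyticAt ℂ h (c₀, 0) ∧
      (∀ᶠ x in 𝓝 ((c₀, 0) : ℂ × ℂ), g (x.1 + x.2) - g x.1 = x.2 * S x) ∧
      (∀ᶠ x in 𝓝 ((c₀, 0) : ℂ × ℂ), S x = deriv g x.1 + x.2 * h x) ∧
      (∀ᶠ x in 𝓝 ((c₀, 0) : ℂ × ℂ), S x = S (x.1 + x.2, -x.2)) ∧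
      ∀ᶠ c in 𝓝 c₀, 2 * h (c, 0) = deriv (deriv g) c := by
  have hadd : AnalyticAt ℂ (fun x : ℂ × ℂ => g (x.1 + x.2)) (c₀, 0) := by
    refine AnalyticAt.fun_comp (f := fun x : ℂ × ℂ => x.1 + x.2) (g := g) ?_
      (analyticAt_fst.add analyticAt_snd)
    simpa using hg
  have hfst : AnalyticAt ℂ (fun x : ℂ × ℂ => g x.1) (c₀, 0) :=
    AnalyticAt.fun_comp (f := fun x : ℂ × ℂ => x.1) (g := g) hg analyticAt_fst
  obtain ⟨S, hSa, hS⟩ := div_snd (f := fun x : ℂ × ℂ => g (x.1 + x.2) - g x.1)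
    (hadd.sub hfst) (Eventually.of_forall fun c => by simp)
  have hgd : AnalyticAt ℂ (fun x : ℂ × ℂ => deriv g x.1) (c₀, 0) :=
    AnalyticAt.fun_comp (f := fun x : ℂ × ℂ => x.1) (g := deriv g) hg.deriv analyticAt_fst
  have hins : Tendsto (fun c : ℂ => ((c, 0) : ℂ × ℂ)) (𝓝 c₀) (𝓝 (c₀, 0)) :=
    Continuous.tendsto (by fun_prop) _
  have hS0 : ∀ᶠ c in 𝓝 c₀, S (c, 0) - deriv g c = 0 := by
    filter_upwards [hins.eventually hS.eventually_nhds, hins.eventually hSa.eventually_analyticAt,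
      hg.eventually_analyticAt] with c h1 h2 h3
    have h4 : Tendsto (fun d : ℂ => ((c, d) : ℂ × ℂ)) (𝓝 0) (𝓝 (c, 0)) :=
      Continuous.tendsto (by fun_prop) _
    have h5 : (fun d : ℂ => g (c + d) - g c) =ᶠ[𝓝 0] fun d => d * S (c, d) := h4.eventually h1
    have h6 : DifferentiableAt ℂ (fun d : ℂ => S (c, d)) 0 :=
      DifferentiableAt.comp (0 : ℂ) (f := fun d : ℂ => ((c, d) : ℂ × ℂ)) (g := S)
        h2.differentiableAt (by fun_prop)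
    have h7 : HasDerivAt (fun d : ℂ => d * S (c, d)) (1 * S (c, 0) + 0 * deriv (fun d => S (c, d)) 0)
        0 := (hasDerivAt_id (0 : ℂ)).mul h6.hasDerivAt
    have h8 : HasDerivAt (fun d : ℂ => g (c + d) - g c) (deriv g c) 0 := by
      have h9 : HasDerivAt g (deriv g c) (c + 0) := by
        rw [add_zero]; exact h3.differentiableAt.hasDerivAt
      exact (h9.comp_const_add c 0).sub_const _
    have h10 := h8.unique (h7.congr_of_eventuallyEq h5)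
    rw [h10]; ring
  obtain ⟨h, hha, hh⟩ := div_snd (f := fun x : ℂ × ℂ => S x - deriv g x.1) (hSa.sub hgd) hS0
  have hh' : ∀ᶠ x in 𝓝 ((c₀, 0) : ℂ × ℂ), S x = deriv g x.1 + x.2 * h x := by
    filter_upwards [hh] with x hx
    linear_combination hx
  refine ⟨S, h, hSa, hha, hS, hh', ?_, ?_⟩
  · have h4 : Tendsto (fun x : ℂ × ℂ => ((x.1 + x.2, -x.2) : ℂ × ℂ)) (𝓝 (c₀, 0)) (𝓝 (c₀, 0)) := by
      have : ((c₀, 0) : ℂ × ℂ) = ((c₀, 0) : ℂ × ℂ) := rfl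
      have h5 : Continuous (fun x : ℂ × ℂ => ((x.1 + x.2, -x.2) : ℂ × ℂ)) := by fun_prop
      simpa using h5.tendsto ((c₀, 0) : ℂ × ℂ)
    filter_upwards [hS, h4.eventually hS] with x e1 e2
    rcases eq_or_ne x.2 0 with e0 | e0
    · have : ((x.1 + x.2, -x.2) : ℂ × ℂ) = x := Prod.ext (by simp [e0]) (by simp [e0])
      rw [this]
    · simp only [add_neg_cancel_right] at e2
      refine mul_left_cancel₀ e0 ?_
      linear_combination -e1 - e2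
  · filter_upwards [hins.eventually hS.eventually_nhds, hins.eventually hh'.eventually_nhds,
      hins.eventually hha.eventually_analyticAt, hg.eventually_analyticAt] with c e1 e2 e3 e4
    exact second e4 e3 e1 e2

/-! ### one reflection -/

/-- state of the chain: `b = c + ω β`, previous vertex `b - ω δ` -/
structure St (c₀ : ℂ) (β δ : ℂ × ℂ → ℂ) : Prop where
  an_β : AnalyticAt ℂ β (c₀, 0)
  an_δ : AnalyticAt ℂ δ (c₀, 0)
  δ_zero : ∀ᶠ c in 𝓝 c₀, δ (c, 0) = 2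

/-- the next vertex -/
theorem step {g : ℂ → ℂ} {c₀ : ℂ} (hg : AnalyticAt ℂ g c₀) {h : ℂ × ℂ → ℂ}
    (hh : AnalyticAt ℂ h (c₀, 0)) (hg1 : deriv g c₀ ≠ 0) (hh0 : h (c₀, 0) ≠ 0)
    {β δ : ℂ × ℂ → ℂ} (H : St c₀ β δ) :
    ∃ δ' : ℂ × ℂ → ℂ, St c₀ (fun p => β p + δ' p) δ' ∧
      ∀ᶠ p in 𝓝 ((c₀, 0) : ℂ × ℂ),
        δ' p * h (p.1 + p.2 * β p, p.2 * δ' p) *
          (deriv g (p.1 + p.2 * β p) - p.2 * δ p * h (p.1 + p.2 * β p, -(p.2 * δ p))) =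
        deriv g (p.1 + p.2 * β p) * δ p * h (p.1 + p.2 * β p, -(p.2 * δ p)) := by
  set P₀ : ℂ × ℂ := (c₀, 0) with hP₀
  set y : ℂ × ℂ → ℂ := fun p => p.1 + p.2 * β p with hy
  have hya : AnalyticAt ℂ y P₀ := analyticAt_fst.add (analyticAt_snd.mul H.an_β)
  have hy0 : y P₀ = c₀ := by simp [hy, hP₀]
  have hgy : AnalyticAt ℂ (fun p => deriv g (y p)) P₀ := by
    refine AnalyticAt.fun_comp (g := deriv g) ?_ hya
    rw [hy0]; exact hg.deriv
  have hhm : AnalyticAt ℂ (fun p => h (y p, -(p.2 * δ p))) P₀ := by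
    refine AnalyticAt.fun_comp (g := h) (f := fun p => (y p, -(p.2 * δ p))) ?_
      (hya.prod (analyticAt_snd.mul H.an_δ).neg)
    have : ((y P₀, -(P₀.2 * δ P₀)) : ℂ × ℂ) = (c₀, 0) := by rw [hy0]; simp [hP₀]
    rw [this]; exact hh
  have hx : AnalyticAt ℂ (fun x : (ℂ × ℂ) × ℂ => x.1) (P₀, 2) := analyticAt_fst
  have hyx : AnalyticAt ℂ (fun x : (ℂ × ℂ) × ℂ => y x.1) (P₀, 2) :=
    AnalyticAt.fun_comp (g := y) hya hx
  have hhp : AnalyticAt ℂ (fun x : (ℂ × ℂ) × ℂ => h (y x.1, x.1.2 * x.2)) (P₀, 2) := by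
    refine AnalyticAt.fun_comp (g := h) (f := fun x : (ℂ × ℂ) × ℂ => (y x.1, x.1.2 * x.2)) ?_
      (hyx.prod ((AnalyticAt.fun_comp (g := fun p : ℂ × ℂ => p.2) analyticAt_snd hx).mul
        analyticAt_snd))
    have : ((y P₀, P₀.2 * 2) : ℂ × ℂ) = (c₀, 0) := by rw [hy0]; simp [hP₀]
    simp only
    rw [this]; exact hh
  set Φ : (ℂ × ℂ) × ℂ → ℂ := fun x =>
    x.2 * h (y x.1, x.1.2 * x.2) *
      (deriv g (y x.1) - x.1.2 * δ x.1 * h (y x.1, -(x.1.2 * δ x.1))) -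
    deriv g (y x.1) * δ x.1 * h (y x.1, -(x.1.2 * δ x.1)) with hΦ
  have hgx : AnalyticAt ℂ (fun x : (ℂ × ℂ) × ℂ => deriv g (y x.1)) (P₀, 2) :=
    AnalyticAt.fun_comp (g := fun p => deriv g (y p)) hgy hx
  have hδx : AnalyticAt ℂ (fun x : (ℂ × ℂ) × ℂ => δ x.1) (P₀, 2) :=
    AnalyticAt.fun_comp (g := δ) H.an_δ hx
  have hhx : AnalyticAt ℂ (fun x : (ℂ × ℂ) × ℂ => h (y x.1, -(x.1.2 * δ x.1))) (P₀, 2) :=
    AnalyticAt.fun_comp (g := fun p => h (y p, -(p.2 * δ p))) hhm hx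
  have h2x : AnalyticAt ℂ (fun x : (ℂ × ℂ) × ℂ => x.1.2) (P₀, 2) :=
    AnalyticAt.fun_comp (g := fun p : ℂ × ℂ => p.2) analyticAt_snd hx
  have hΦa : AnalyticAt ℂ Φ (P₀, 2) :=
    ((analyticAt_snd.mul hhp).mul (hgx.sub ((h2x.mul hδx).mul hhx))).sub ((hgx.mul hδx).mul hhx)
  have hδ0 : δ P₀ = 2 := H.δ_zero.self_of_nhds
  have hval : ∀ z : ℂ, Φ (P₀, z) = (z - 2) * (h (c₀, 0) * deriv g c₀) := by
    intro z
    simp only [hΦ, hy0, hδ0]
    simp only [hP₀, zero_mul, neg_zero, sub_zero]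
    ring
  have hΦ0 : Φ (P₀, 2) = 0 := by rw [hval]; ring
  have hΦd : fderiv ℂ Φ (P₀, 2) (0, 1) ≠ 0 := by
    have h1 : HasDerivAt (fun z : ℂ => Φ (P₀, z)) (fderiv ℂ Φ (P₀, 2) (0, 1)) 2 := by
      have h2 : HasDerivAt (fun z : ℂ => ((P₀, z) : (ℂ × ℂ) × ℂ)) (0, 1) 2 :=
        (hasDerivAt_const _ _).prodMk (hasDerivAt_id _)
      exact hΦa.differentiableAt.hasFDerivAt.comp_hasDerivAt (2 : ℂ) h2
    have h3 : HasDerivAt (fun z : ℂ => Φ (P₀, z)) (h (c₀, 0) * deriv g c₀) 2 := by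
      simp only [hval]
      have := ((hasDerivAt_id (2 : ℂ)).sub_const 2).mul_const (h (c₀, 0) * deriv g c₀)
      simpa using this
    rw [h1.unique h3]
    exact mul_ne_zero hh0 hg1
  obtain ⟨δ', h1, h2, h3, h4⟩ := implicit hΦa hΦ0 hΦd
  refine ⟨δ', ⟨H.an_β.add h1, h1, ?_⟩, ?_⟩
  · have h5 : Tendsto (fun c : ℂ => (((c, 0), 2) : (ℂ × ℂ) × ℂ)) (𝓝 c₀) (𝓝 (P₀, 2)) :=
      Continuous.tendsto (by fun_prop) _
    filter_upwards [h5.eventually h4, H.δ_zero] with c e1 e2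
    refine (e1 ?_).symm
    simp only [hΦ, hy, e2]
    simp only [zero_mul, neg_zero, sub_zero, add_zero]
    ring
  · filter_upwards [h3] with p hp
    simp only [hΦ] at hp
    linear_combination hp

/-! ### the chain -/

/-- the chain on the polydisc `U = ball c₀ ρ × ball 0 ρ`: vertices `b i = c + ω β i`, the line
`l i : a = m i b + k i` arrives at the vertex `b i` (and leaves from `b (i - 1)`; `l 0` leaves from
`c - ω`) -/
structure Chain (g : ℂ → ℂ) (c₀ : ℂ) (N : ℕ) (ρ : ℝ) (β m k q q' : ℕ → ℂ × ℂ → ℂ) : Prop where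
  ρ_pos : 0 < ρ
  an_β : ∀ i ≤ N, AnalyticOnNhd ℂ (β i) (ball c₀ ρ ×ˢ ball 0 ρ)
  an_m : ∀ i ≤ N, AnalyticOnNhd ℂ (m i) (ball c₀ ρ ×ˢ ball 0 ρ)
  an_k : ∀ i ≤ N, AnalyticOnNhd ℂ (k i) (ball c₀ ρ ×ˢ ball 0 ρ)
  an_q : ∀ i ≤ N, AnalyticOnNhd ℂ (q i) (ball c₀ ρ ×ˢ ball 0 ρ)
  an_q' : ∀ i < N, AnalyticOnNhd ℂ (q' i) (ball c₀ ρ ×ˢ ball 0 ρ)
  β_zero : β 0 = fun _ => 1
  β_c : ∀ i ≤ N, ∀ c ∈ ball c₀ ρ, β i (c, 0) = 2 * i + 1
  m_c : ∀ i ≤ N, ∀ c ∈ ball c₀ ρ, m i (c, 0) = deriv g c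
  q_c : ∀ i ≤ N, ∀ c ∈ ball c₀ ρ, q i (c, 0) = deriv (deriv g) c
  q'_c : ∀ i < N, ∀ c ∈ ball c₀ ρ, q' i (c, 0) = deriv (deriv g) c
  an_g : ∀ i ≤ N, ∀ p ∈ ball c₀ ρ ×ˢ ball 0 ρ, AnalyticAt ℂ g (p.1 + p.2 * β i p)
  an_g' : ∀ p ∈ ball c₀ ρ ×ˢ ball 0 ρ, AnalyticAt ℂ g (p.1 - p.2)
  inc : ∀ i ≤ N, ∀ p ∈ ball c₀ ρ ×ˢ ball 0 ρ,
    g (p.1 + p.2 * β i p) = m i p * (p.1 + p.2 * β i p) + k i p
  inc' : ∀ i < N, ∀ p ∈ ball c₀ ρ ×ˢ ball 0 ρ,
    g (p.1 + p.2 * β i p) = m (i + 1) p * (p.1 + p.2 * β i p) + k (i + 1) p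
  chord : ∀ p ∈ ball c₀ ρ ×ˢ ball 0 ρ, g (p.1 - p.2) = m 0 p * (p.1 - p.2) + k 0 p
  refl : ∀ i < N, ∀ p ∈ ball c₀ ρ ×ˢ ball 0 ρ,
    m (i + 1) p * m i p = deriv g (p.1 + p.2 * β i p) ^ 2
  m_ne : ∀ i ≤ N, ∀ p ∈ ball c₀ ρ ×ˢ ball 0 ρ, m i p ≠ 0
  q_ne : ∀ i ≤ N, ∀ p ∈ ball c₀ ρ ×ˢ ball 0 ρ, q i p ≠ 0
  q'_ne : ∀ i < N, ∀ p ∈ ball c₀ ρ ×ˢ ball 0 ρ, q' i p ≠ 0
  q_eq : ∀ i ≤ N, ∀ p ∈ ball c₀ ρ ×ˢ ball 0 ρ,
    deriv g (p.1 + p.2 * β i p) - m i p = p.2 * q i p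
  q'_eq : ∀ i < N, ∀ p ∈ ball c₀ ρ ×ˢ ball 0 ρ,
    m (i + 1) p - deriv g (p.1 + p.2 * β i p) = p.2 * q' i p
  even_m : ∀ p ∈ ball c₀ ρ ×ˢ ball 0 ρ, m 0 (p.1, -p.2) = m 0 p
  even_k : ∀ p ∈ ball c₀ ρ ×ˢ ball 0 ρ, k 0 (p.1, -p.2) = k 0 p

/-- **F7: existence of the chain** -/
theorem chain {g : ℂ → ℂ} {c₀ : ℂ} (hg : AnalyticAt ℂ g c₀) (hg1 : deriv g c₀ ≠ 0)
    (hg2 : deriv (deriv g) c₀ ≠ 0) (N : ℕ) :
    ∃ β m k q q' : ℕ → ℂ × ℂ → ℂ, ∃ R > 0, ∀ ρ, 0 < ρ → ρ ≤ R → Chain g c₀ N ρ β m k q q' := by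
  obtain ⟨S, h, hSa, hha, hS, hh, hsym, hdiag⟩ := divided hg
  have hh0 : h (c₀, 0) ≠ 0 := by
    intro h0
    have := hdiag.self_of_nhds
    rw [h0, mul_zero] at this
    exact hg2 this.symm
  set P₀ : ℂ × ℂ := (c₀, 0) with hP₀
  -- the sequence
  let T : Type := {x : (ℂ × ℂ → ℂ) × (ℂ × ℂ → ℂ) // St c₀ x.1 x.2}
  have hstep := fun x : T => step hg hha hg1 hh0 x.2
  choose δn hδn hrel using hstep
  let nxt : T → T := fun x => ⟨(fun p => x.1.1 p + δn x p, δn x), hδn x⟩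
  let s₀ : T := ⟨(fun _ => 1, fun _ => 2), ⟨analyticAt_const, analyticAt_const,
    Eventually.of_forall fun _ => rfl⟩⟩
  let st : ℕ → T := fun i => nxt^[i] s₀
  have hst : ∀ i, st (i + 1) = nxt (st i) := fun i => Function.iterate_succ_apply' _ _ _
  set β : ℕ → ℂ × ℂ → ℂ := fun i => (st i).1.1 with hβ
  set δ : ℕ → ℂ × ℂ → ℂ := fun i => (st i).1.2 with hδ
  have hSt : ∀ i, St c₀ (β i) (δ i) := fun i => (st i).2
  have hδs : ∀ i, δ (i + 1) = δn (st i) := fun i => by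
    simp only [hδ, hst]; rfl
  have hβs : ∀ i p, β (i + 1) p = β i p + δ (i + 1) p := fun i p => by
    rw [hδs]; simp only [hβ, hst]; rfl
  have hβ0 : β 0 = fun _ => 1 := rfl
  have hδ0 : δ 0 = fun _ => 2 := rfl
  have hrel' : ∀ i, ∀ᶠ p in 𝓝 P₀,
      δ (i + 1) p * h (p.1 + p.2 * β i p, p.2 * δ (i + 1) p) *
        (deriv g (p.1 + p.2 * β i p) - p.2 * δ i p * h (p.1 + p.2 * β i p, -(p.2 * δ i p))) =
      deriv g (p.1 + p.2 * β i p) * δ i p * h (p.1 + p.2 * β i p, -(p.2 * δ i p)) := by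
    intro i
    rw [hδs]
    exact hrel (st i)
  have hβc : ∀ i, ∀ᶠ c in 𝓝 c₀, β i (c, 0) = 2 * i + 1 := by
    intro i
    induction i with
    | zero => exact Eventually.of_forall fun c => by rw [hβ0]; simp
    | succ i ih =>
      filter_upwards [ih, (hSt (i + 1)).δ_zero] with c e1 e2
      rw [hβs, e1, e2]
      push_cast; ring
  -- functions
  set y : ℕ → ℂ × ℂ → ℂ := fun i p => p.1 + p.2 * β i p with hy
  set m : ℕ → ℂ × ℂ → ℂ := fun i p => S (y i p, -(p.2 * δ i p)) with hm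
  set k : ℕ → ℂ × ℂ → ℂ := fun i p => g (y i p) - m i p * y i p with hk
  set q : ℕ → ℂ × ℂ → ℂ := fun i p => δ i p * h (y i p, -(p.2 * δ i p)) with hq
  set q' : ℕ → ℂ × ℂ → ℂ := fun i p => δ (i + 1) p * h (y i p, p.2 * δ (i + 1) p) with hq'
  have hya : ∀ i, AnalyticAt ℂ (y i) P₀ := fun i =>
    analyticAt_fst.add (analyticAt_snd.mul (hSt i).an_β)
  have hy0 : ∀ i, y i P₀ = c₀ := fun i => by simp [hy, hP₀]
  have harg : ∀ i, AnalyticAt ℂ (fun p => ((y i p, -(p.2 * δ i p)) : ℂ × ℂ)) P₀ := fun i =>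
    (hya i).prod (analyticAt_snd.mul (hSt i).an_δ).neg
  have harg0 : ∀ i, ((y i P₀, -(P₀.2 * δ i P₀)) : ℂ × ℂ) = P₀ := fun i => by
    rw [hy0]; simp [hP₀]
  have harg' : ∀ i, AnalyticAt ℂ (fun p => ((y i p, p.2 * δ (i + 1) p) : ℂ × ℂ)) P₀ := fun i =>
    (hya i).prod (analyticAt_snd.mul (hSt (i + 1)).an_δ)
  have harg0' : ∀ i, ((y i P₀, P₀.2 * δ (i + 1) P₀) : ℂ × ℂ) = P₀ := fun i => by
    rw [hy0]; simp [hP₀]
  have hlim : ∀ i, Tendsto (fun p => ((y i p, -(p.2 * δ i p)) : ℂ × ℂ)) (𝓝 P₀) (𝓝 P₀) := by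
    intro i
    have := (harg i).continuousAt.tendsto
    rwa [harg0] at this
  have hlim' : ∀ i, Tendsto (fun p => ((y i p, p.2 * δ (i + 1) p) : ℂ × ℂ)) (𝓝 P₀) (𝓝 P₀) := by
    intro i
    have := (harg' i).continuousAt.tendsto
    rwa [harg0'] at this
  have hma : ∀ i, AnalyticAt ℂ (m i) P₀ := fun i => by
    refine AnalyticAt.fun_comp (g := S) ?_ (harg i)
    rw [harg0]; exact hSa
  have hga : ∀ i, AnalyticAt ℂ (fun p => g (y i p)) P₀ := fun i => by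
    refine AnalyticAt.fun_comp (g := g) ?_ (hya i)
    rw [hy0]; exact hg
  have hka : ∀ i, AnalyticAt ℂ (k i) P₀ := fun i => (hga i).sub ((hma i).mul (hya i))
  have hqa : ∀ i, AnalyticAt ℂ (q i) P₀ := fun i => by
    refine (hSt i).an_δ.mul (AnalyticAt.fun_comp (g := h) ?_ (harg i))
    rw [harg0]; exact hha
  have hqa' : ∀ i, AnalyticAt ℂ (q' i) P₀ := fun i => by
    refine (hSt (i + 1)).an_δ.mul (AnalyticAt.fun_comp (g := h) ?_ (harg' i))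
    rw [harg0']; exact hha
  have hδP : ∀ i, δ i P₀ = 2 := fun i => (hSt i).δ_zero.self_of_nhds
  have hmP : ∀ i, m i P₀ ≠ 0 := by
    intro i
    simp only [hm]
    rw [harg0, hh.self_of_nhds, hP₀]
    simpa using hg1
  have hqP : ∀ i, q i P₀ ≠ 0 := by
    intro i
    simp only [hq]
    rw [harg0, hδP]
    exact mul_ne_zero two_ne_zero hh0
  have hqP' : ∀ i, q' i P₀ ≠ 0 := by
    intro i
    simp only [hq']
    rw [harg0', hδP]
    exact mul_ne_zero two_ne_zero hh0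
  have hfst : Tendsto (fun p : ℂ × ℂ => p.1) (𝓝 P₀) (𝓝 c₀) := continuous_fst.tendsto _
  -- everything near `P₀`
  have hev : ∀ i, ∀ᶠ p in 𝓝 P₀,
      (AnalyticAt ℂ (β i) p ∧ AnalyticAt ℂ (m i) p ∧ AnalyticAt ℂ (k i) p ∧ AnalyticAt ℂ (q i) p ∧
        AnalyticAt ℂ (q' i) p ∧ AnalyticAt ℂ g (y i p)) ∧
      (m i p ≠ 0 ∧ q i p ≠ 0 ∧ q' i p ≠ 0) ∧
      (m i p = deriv g (y i p) + -(p.2 * δ i p) * h (y i p, -(p.2 * δ i p))) ∧
      (S (y i p, p.2 * δ (i + 1) p) =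
        deriv g (y i p) + p.2 * δ (i + 1) p * h (y i p, p.2 * δ (i + 1) p)) ∧
      (S (y i p, p.2 * δ (i + 1) p) =
        S (y i p + p.2 * δ (i + 1) p, -(p.2 * δ (i + 1) p))) ∧
      (g (y i p + p.2 * δ (i + 1) p) - g (y i p) =
        p.2 * δ (i + 1) p * S (y i p, p.2 * δ (i + 1) p)) ∧
      (δ (i + 1) p * h (y i p, p.2 * δ (i + 1) p) *
        (deriv g (y i p) - p.2 * δ i p * h (y i p, -(p.2 * δ i p))) =
        deriv g (y i p) * δ i p * h (y i p, -(p.2 * δ i p))) ∧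
      (β i (p.1, 0) = 2 * i + 1 ∧ δ i (p.1, 0) = 2 ∧ δ (i + 1) (p.1, 0) = 2) := by
    intro i
    have g1 : Tendsto (y i) (𝓝 P₀) (𝓝 c₀) := by
      have := (hya i).continuousAt.tendsto
      rwa [hy0] at this
    filter_upwards [(hSt i).an_β.eventually_analyticAt, (hma i).eventually_analyticAt,
      (hka i).eventually_analyticAt, (hqa i).eventually_analyticAt,
      (hqa' i).eventually_analyticAt, g1.eventually hg.eventually_analyticAt,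
      (hma i).continuousAt.eventually_ne (hmP i), (hqa i).continuousAt.eventually_ne (hqP i),
      (hqa' i).continuousAt.eventually_ne (hqP' i), (hlim i).eventually hh,
      (hlim' i).eventually hh, (hlim' i).eventually hsym, (hlim' i).eventually hS, hrel' i,
      hfst.eventually (hβc i), hfst.eventually (hSt i).δ_zero,
      hfst.eventually (hSt (i + 1)).δ_zero] with p a1 a2 a3 a4 a5 a6 a7 a8 a9 a10 a11 a12 a13 a14
        a15 a16 a17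
    exact ⟨⟨a1, a2, a3, a4, a5, a6⟩, ⟨a7, a8, a9⟩, a10, a11, a12, a13, a14, a15, a16, a17⟩
  -- the chord
  have hlimc : Tendsto (fun p : ℂ × ℂ => ((p.1 + p.2, -2 * p.2) : ℂ × ℂ)) (𝓝 P₀) (𝓝 P₀) := by
    have h5 : Continuous (fun p : ℂ × ℂ => ((p.1 + p.2, -2 * p.2) : ℂ × ℂ)) := by fun_prop
    simpa [hP₀] using h5.tendsto P₀
  have hlimd : Tendsto (fun p : ℂ × ℂ => p.1 - p.2) (𝓝 P₀) (𝓝 c₀) := by
    have h5 : Continuous (fun p : ℂ × ℂ => p.1 - p.2) := by fun_prop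
    simpa [hP₀] using h5.tendsto P₀
  have hevc : ∀ᶠ p in 𝓝 P₀, (g (p.1 - p.2) - g (p.1 + p.2) = -2 * p.2 * m 0 p) ∧
      m 0 (p.1, -p.2) = m 0 p ∧ AnalyticAt ℂ g (p.1 - p.2) ∧ 2 * h (p.1, 0) = deriv (deriv g) p.1 ∧
      S (p.1, 0) = deriv g p.1 := by
    have g2 : Tendsto (fun p : ℂ × ℂ => ((p.1, 0) : ℂ × ℂ)) (𝓝 P₀) (𝓝 P₀) := by
      have h5 : Continuous (fun p : ℂ × ℂ => ((p.1, 0) : ℂ × ℂ)) := by fun_prop
      simpa [hP₀] using h5.tendsto P₀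
    filter_upwards [hlimc.eventually hS, hlimc.eventually hsym,
      hlimd.eventually hg.eventually_analyticAt, hfst.eventually hdiag, g2.eventually hh]
      with p e1 e2 e3 e4 e5
    have e6 : m 0 p = S (p.1 + p.2, -2 * p.2) := by
      simp only [hm, hy, hβ0, hδ0]
      congr 2
      · ring
      · ring
    refine ⟨?_, ?_, e3, e4, by simpa using e5⟩
    · rw [e6, ← e1]; ring_nf
    · rw [e6, e2]
      simp only [hm, hy, hβ0, hδ0]
      congr 2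
      · ring
      · ring
  -- choose the radius
  have hall : ∀ᶠ p in 𝓝 P₀, ∀ i ∈ Finset.range (N + 2), _ :=
    (Filter.eventually_all_finset _).2 fun i _ => hev i
  obtain ⟨R, hR, hball⟩ := Metric.eventually_nhds_iff.1 (hall.and hevc)
  refine ⟨β, m, k, q, q', R, hR, fun ρ hρ hρR => ?_⟩
  have hU : ∀ p ∈ ball c₀ ρ ×ˢ ball (0 : ℂ) ρ, dist p P₀ < R := by
    intro p hp
    refine lt_of_lt_of_le ?_ hρR
    rw [Prod.dist_eq]
    exact max_lt hp.1 hp.2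
  have hUc : ∀ c ∈ ball c₀ ρ, ((c, 0) : ℂ × ℂ) ∈ ball c₀ ρ ×ˢ ball (0 : ℂ) ρ := fun c hc =>
    ⟨hc, mem_ball_self hρ⟩
  have A := fun i (hi : i ≤ N) p (hp : p ∈ ball c₀ ρ ×ˢ ball (0 : ℂ) ρ) =>
    (hball (hU p hp)).1 i (Finset.mem_range.2 (by omega))
  have Bc := fun p (hp : p ∈ ball c₀ ρ ×ˢ ball (0 : ℂ) ρ) => (hball (hU p hp)).2
  -- the next line in terms of the previous vertex
  have hnext : ∀ i ≤ N, ∀ p ∈ ball c₀ ρ ×ˢ ball (0 : ℂ) ρ,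
      m (i + 1) p = S (y i p, p.2 * δ (i + 1) p) := by
    intro i hi p hp
    obtain ⟨-, -, -, -, a12, -⟩ := A i hi p hp
    rw [a12]
    simp only [hm, hy, hβs]
    congr 2
    ring
  have hys : ∀ i p, y (i + 1) p = y i p + p.2 * δ (i + 1) p := fun i p => by
    simp only [hy, hβs]; ring
  refine ⟨hρ, fun i hi p hp => (A i hi p hp).1.1, fun i hi p hp => (A i hi p hp).1.2.1,
    fun i hi p hp => (A i hi p hp).1.2.2.1, fun i hi p hp => (A i hi p hp).1.2.2.2.1,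
    fun i hi p hp => (A i hi.le p hp).1.2.2.2.2.1, hβ0, ?_, ?_, ?_, ?_, ?_, ?_, ?_, ?_, ?_, ?_, ?_,
    ?_, ?_, ?_, ?_, ?_, ?_⟩
  · intro i hi c hc
    exact (A i hi _ (hUc c hc)).2.2.2.2.2.2.2.1
  · intro i hi c hc
    have := (Bc _ (hUc c hc)).2.2.2.2
    simp only [hm, hy, zero_mul, add_zero, neg_zero]
    exact this
  · intro i hi c hc
    have e1 := (Bc _ (hUc c hc)).2.2.2.1
    have e2 := (A i hi _ (hUc c hc)).2.2.2.2.2.2.2.2.1
    simp only [hq, hy, zero_mul, add_zero, neg_zero]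
    rw [e2, e1]
  · intro i hi c hc
    have e1 := (Bc _ (hUc c hc)).2.2.2.1
    have e2 := (A i hi.le _ (hUc c hc)).2.2.2.2.2.2.2.2.2
    simp only [hq', hy, zero_mul, add_zero]
    rw [e2, e1]
  · exact fun i hi p hp => (A i hi p hp).1.2.2.2.2.2
  · exact fun p hp => (Bc p hp).2.2.1
  · intro i hi p hp
    simp only [hk, hy]
    ring
  · intro i hi p hp
    obtain ⟨-, -, -, -, -, a13, -⟩ := A i hi.le p hp
    rw [← hnext i hi.le p hp, ← hys] at a13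
    change g (y i p) = m (i + 1) p * y i p + (g (y (i + 1) p) - m (i + 1) p * y (i + 1) p)
    have e1 := hys i p
    linear_combination -a13 + m (i + 1) p * e1
  · intro p hp
    have e1 := (Bc p hp).1
    simp only [hk, hy, hβ0, mul_one]
    linear_combination e1
  · intro i hi p hp
    obtain ⟨-, -, a10, a11, -, -, a14, -⟩ := A i hi.le p hp
    rw [hnext i hi.le p hp, a10, a11]
    change _ = deriv g (y i p) ^ 2
    linear_combination p.2 * a14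
  · exact fun i hi p hp => (A i hi p hp).2.1.1
  · exact fun i hi p hp => (A i hi p hp).2.1.2.1
  · exact fun i hi p hp => (A i hi.le p hp).2.1.2.2
  · intro i hi p hp
    obtain ⟨-, -, a10, -⟩ := A i hi p hp
    rw [a10]
    simp only [hq, hy]
    ring
  · intro i hi p hp
    obtain ⟨-, -, -, a11, -⟩ := A i hi.le p hp
    rw [hnext i hi.le p hp, a11]
    simp only [hq', hy]
    ring
  · exact fun p hp => (Bc p hp).2.1
  · intro p hp
    have e1 := (Bc p hp).1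
    have e2 := (Bc p hp).2.1
    have e3 : k 0 (p.1, -p.2) = g (p.1 - p.2) - m 0 (p.1, -p.2) * (p.1 - p.2) := by
      simp only [hk, hy, hβ0]
      ring_nf
    have e4 : k 0 p = g (p.1 + p.2) - m 0 p * (p.1 + p.2) := by
      simp only [hk, hy, hβ0]
      ring_nf
    rw [e3, e4, e2]
    linear_combination e1

end Crest.Agent.R102.F7389
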