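import Mathlib
import Crest.Agent.R102.DF_389

/-!
# Row 102, [H3], THEOREM (RAT): definitions (helper926)

`M` a field over `ℂ` with two commuting derivations `D₁ = ∂/∂m₀`, `D₂ = ∂/∂k₀`
(`m₀ = (E 0) ^ 2`); a chain of reflections: line `j` is `a = (E j)² b + k j`, vertex `j` is the
point `(a, b) = (x j 0, b j)` of the mirror number `j`, `x j r` = `r`-th derivative of the mirror
function at `b j`.
-/

set_option autoImplicit false

noncomputable section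

namespace Crest.Agent.R102.RAT

variable {M : Type*} [Field M] [Algebra ℂ M]

/-- Jacobian -/
def jac (D₁ D₂ : Derivation ℂ M M) (f g : M) : M := D₁ f * D₂ g - D₂ f * D₁ g

/-- formal chain of reflections of the line `0` at the mirrors `0, …, N - 1`. -/
structure FChain (D₁ D₂ : Derivation ℂ M M) (N : ℕ) (b : ℕ → M) (x : ℕ → ℕ → M)
    (E k : ℕ → M) : Prop where
  comm : ∀ f, D₁ (D₂ f) = D₂ (D₁ f)
  D₁E : D₁ (E 0 ^ 2) = 1
  D₂E : D₂ (E 0 ^ 2) = 0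
  D₁k : D₁ (k 0) = 0
  D₂k : D₂ (k 0) = 1
  /-- vertex `j` lies on the lines `j` and `j + 1` -/
  inc : ∀ j, j < N → x j 0 = E j ^ 2 * b j + k j
  inc' : ∀ j, j < N → x j 0 = E (j + 1) ^ 2 * b j + k (j + 1)
  /-- law of reflection -/
  refl : ∀ j, j < N → E j * E (j + 1) = x j 1
  E_ne : ∀ j, j ≤ N → E j ≠ 0
  /-- the mirrors are curved -/
  x2_ne : ∀ j, j < N → x j 2 ≠ 0
  /-- transversality -/
  tr : ∀ j, j < N → x j 1 ≠ E j ^ 2
  jet₁ : ∀ j, j < N → ∀ r, D₁ (x j r) = x j (r + 1) * D₁ (b j)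
  jet₂ : ∀ j, j < N → ∀ r, D₂ (x j r) = x j (r + 1) * D₂ (b j)
  /-- the vertices are pairwise functionally independent -/
  ind : ∀ i j, i < j → j < N → jac D₁ D₂ (b i) (b j) ≠ 0

/-- the free generators `m₀, k₀, b j, x j r` (`r ≥ 1`) are algebraically independent -/
def Free (N : ℕ) (b : ℕ → M) (x : ℕ → ℕ → M) (E k : ℕ → M) : Prop :=
  AlgebraicIndependent ℂ (Sum.elim (![E 0 ^ 2, k 0] : Fin 2 → M)
    (fun i : Fin N × ℕ => if i.2 = 0 then b i.1 else x i.1 i.2))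

/-- all displacements of the mirrors are realised by derivations fixing the line `0` -/
def Disp (N : ℕ) (b : ℕ → M) (x : ℕ → ℕ → M) (E k : ℕ → M) : Prop :=
  ∀ μ : ℕ → ℕ → M, ∃ δ : Derivation ℂ M M, δ (E 0) = 0 ∧ δ (k 0) = 0 ∧
    ∀ j, j < N → ∀ r, δ (x j r) = μ j r + x j (r + 1) * δ (b j)

/-- no pencil of lines `0` with `b j` fixed is focused, `0 < j` -/
def Foc (D₁ D₂ : Derivation ℂ M M) (N : ℕ) (b : ℕ → M) : Prop :=
  ∀ j, 0 < j → j < N → ∀ q : M, q * D₂ (b j) = D₁ (b j) → jac D₁ D₂ q (b j) ≠ 0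

/-- the differential field generated by the two end lines -/
def KK (D₁ D₂ : Derivation ℂ M M) (N : ℕ) (E k : ℕ → M) : IntermediateField ℂ M :=
  DF389.dfield ![D₁, D₂] {E 0, k 0, E N, k N}

/-- the field generated by the line `0` and all jets at the vertices -/
def LL (N : ℕ) (b : ℕ → M) (x : ℕ → ℕ → M) (E k : ℕ → M) : IntermediateField ℂ M :=
  IntermediateField.adjoin ℂ ({E 0, k 0} ∪ {y | ∃ j < N, y = b j ∨ ∃ r, y = x j r})

/-! ### the leaves (targets) -/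

/-- R2c -/
def DispStmt : Prop := ∀ (M : Type) [Field M] [Algebra ℂ M] (D₁ D₂ : Derivation ℂ M M) (N : ℕ)
  (b : ℕ → M) (x : ℕ → ℕ → M) (E k : ℕ → M), FChain D₁ D₂ N b x E k → Free N b x E k →
  Disp N b x E k

/-- R2d: `L` is algebraic over `K` (`D = ∞`) -/
def Rat2aStmt : Prop := ∀ (M : Type) [Field M] [Algebra ℂ M] (D₁ D₂ : Derivation ℂ M M) (N : ℕ)
  (b : ℕ → M) (x : ℕ → ℕ → M) (E k : ℕ → M), FChain D₁ D₂ N b x E k → Disp N b x E k →
  ∀ f ∈ LL N b x E k, IsAlgebraic (KK D₁ D₂ N E k) f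

/-- R2e: `b 0 ∈ K` (`D = ∞`) -/
def Rat2bStmt : Prop := ∀ (M : Type) [Field M] [Algebra ℂ M] (D₁ D₂ : Derivation ℂ M M) (N : ℕ)
  (b : ℕ → M) (x : ℕ → ℕ → M) (E k : ℕ → M), 0 < N → FChain D₁ D₂ N b x E k →
  Disp N b x E k → Foc D₁ D₂ N b →
  (∀ f ∈ LL N b x E k, IsAlgebraic (KK D₁ D₂ N E k) f) → b 0 ∈ KK D₁ D₂ N E k

end Crest.Agent.R102.RAT
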