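import Mathlib
import Crest.Agent.R102.MerF_217
import Crest.Agent.R102.F7_389
import Crest.Agent.R102.RATDefs_926

/-!
Row 102, (RAT), R7 (helper217): the interface between the algebraic side (field of fractions of
`Hol W`, chart `(c, ω)` of the chords) and the `(t, w)` side (analytic family of lines).

* `RatGerm` : the target Prop of the chain side;
* `dfield_map` : functoriality of the generated differential field;
* `dfield_le_of` : comparison of two systems of derivations;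
* `kk_le` : `KK D₁ D₂ N E k ≤ dfield ![dc, dw] {E 0, k 0, E N, k N}`.
-/

set_option autoImplicit false
set_option linter.unusedSectionVars false

open Set Filter Topology Metric TopologicalSpace

noncomputable section

namespace Crest.Agent.R102.Rat7217

open Crest.Agent.R102.Mer88 Crest.Agent.R102.H3 Crest.Agent.R102.MerF217 Crest.Agent.R102.DF389

/-- the germ of `g` at `c₀` is algebraic -/
def AlgGerm (g : ℂ → ℂ) (c₀ : ℂ) : Prop :=
  ∃ P : MvPolynomial (Fin 2) ℂ, P ≠ 0 ∧ ∀ᶠ z in 𝓝 c₀, MvPolynomial.eval ![z, g z] P = 0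

/-- the Jacobian of two holomorphic functions of two variables -/
def jcb {W : Opens (ℂ × ℂ)} (f h : Hol W) : Hol W :=
  dV (1, 0) f * dV (0, 1) h - dV (0, 1) f * dV (1, 0) h

/-- `D₁ = ∂/∂μ`, `D₂ = ∂/∂κ` on the field of fractions `M` of `Hol W`, `(μ, κ)` holomorphic local
coordinates off a thin set (Cramer's rule) -/
structure Dual {W : Opens (ℂ × ℂ)} (μ κ : Hol W) {M : Type*} [Field M] [Algebra ℂ M]
    [Algebra (Hol W) M] (D₁ D₂ : Derivation ℂ M M) : Prop where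
  ne : algebraMap (Hol W) M (jcb μ κ) ≠ 0
  d₁ : ∀ f : Hol W, algebraMap (Hol W) M (jcb μ κ) * D₁ (algebraMap (Hol W) M f) =
    algebraMap (Hol W) M (jcb f κ)
  d₂ : ∀ f : Hol W, algebraMap (Hol W) M (jcb μ κ) * D₂ (algebraMap (Hol W) M f) =
    algebraMap (Hol W) M (jcb μ f)

/-- **target of the chain side**: the first vertex `b₀ = c + ω` lies in the field generated by the
two end lines and their derivatives with respect to `m₀`, `k₀` (`= KK D₁ D₂ N E k`). -/
def RatGerm : Prop :=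
  ∀ (g : ℂ → ℂ) (c₀ : ℂ) (N : ℕ) (ρ : ℝ) (β m k q q' : ℕ → ℂ × ℂ → ℂ), 0 < N →
    F7389.Chain g c₀ N ρ β m k q q' → ¬ AlgGerm g c₀ →
    ∃ W : Opens (ℂ × ℂ), (W : Set (ℂ × ℂ)).Nonempty ∧ IsPreconnected (W : Set (ℂ × ℂ)) ∧
      (W : Set (ℂ × ℂ)) ⊆ ball c₀ ρ ×ˢ ball 0 ρ ∧ (∀ x ∈ W, x.2 ≠ 0) ∧
      ∃ E0 k0 EN kN b0 : Hol W,
        (∀ x : W, (E0 : W → ℂ) x ^ 2 = m 0 x ∧ (EN : W → ℂ) x ^ 2 = m N x ∧
          (k0 : W → ℂ) x = k 0 x ∧ (kN : W → ℂ) x = k N x ∧
          (b0 : W → ℂ) x = (x : ℂ × ℂ).1 + (x : ℂ × ℂ).2) ∧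
        ∀ (M : Type) [Field M] [Algebra ℂ M] [Algebra (Hol W) M] [IsScalarTower ℂ (Hol W) M]
          [IsFractionRing (Hol W) M] (D₁ D₂ : Derivation ℂ M M),
          Dual (E0 ^ 2) k0 D₁ D₂ →
          algebraMap (Hol W) M b0 ∈ dfield ![D₁, D₂]
            {algebraMap (Hol W) M E0, algebraMap (Hol W) M k0, algebraMap (Hol W) M EN,
              algebraMap (Hol W) M kN}

section algebra

variable {k L L' : Type*} [Field k] [CharZero k] [Field L] [Algebra k L] [Field L'] [Algebra k L']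

omit [CharZero k] in
theorem dfield_map_le {ι : Type*} (D : ι → Derivation k L L) (D' : ι → Derivation k L' L')
    (f : L →ₐ[k] L') (h : ∀ i x, D' i (f x) = f (D i x)) (S : Set L) {x : L}
    (hx : x ∈ dfield D S) : f x ∈ dfield D' (f '' S) := by
  have h1 : dfield D S ≤ (dfield D' (f '' S)).comap f := by
    refine dfield_le D S _ ?_ ?_
    · intro s hs
      exact subset_dfield D' _ ⟨s, hs, rfl⟩
    · intro i y hy
      show f (D i y) ∈ dfield D' (f '' S)
      rw [← h]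
      exact dfield_stable D' _ i _ hy
  exact h1 hx

omit [CharZero k] in
/-- **functoriality of the generated differential field** -/
theorem dfield_map {ι : Type*} (D : ι → Derivation k L L) (D' : ι → Derivation k L' L')
    (f : L →ₐ[k] L') (h : ∀ i x, D' i (f x) = f (D i x)) (S : Set L) {x : L} :
    f x ∈ dfield D' (f '' S) ↔ x ∈ dfield D S := by
  refine ⟨fun hx => ?_, dfield_map_le D D' f h S⟩
  have h1 : dfield D' (f '' S) ≤ (dfield D S).map f := by
    refine dfield_le D' _ _ ?_ ?_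
    · rintro _ ⟨s, hs, rfl⟩
      exact ⟨s, subset_dfield D S hs, rfl⟩
    · rintro i _ ⟨y, hy, rfl⟩
      exact ⟨D i y, dfield_stable D S i y hy, (h i y).symm⟩
  obtain ⟨y, hy, hyx⟩ := h1 hx
  have : y = x := f.injective hyx
  rwa [← this]

omit [CharZero k] in
/-- comparison of two systems of derivations -/
theorem dfield_le_of {ι κ : Type*} (D : ι → Derivation k L L) (D' : κ → Derivation k L L)
    (S S' : Set L) (hS : S ⊆ dfield D' S')
    (h : ∀ i, ∀ x ∈ dfield D' S', D i x ∈ dfield D' S') : dfield D S ≤ dfield D' S' :=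
  dfield_le D S _ hS h

omit [CharZero k] in
/-- if `D₁, D₂` are combinations of `dc, dw` and dual to `m, κ`, then every field stable under
`dc, dw` containing `m, κ` is stable under `D₁, D₂` -/
theorem stable_of_dual (dc dw D₁ D₂ : Derivation k L L) {A₁ B₁ A₂ B₂ m κ : L}
    (h1 : ∀ f, D₁ f = A₁ * dc f + B₁ * dw f) (h2 : ∀ f, D₂ f = A₂ * dc f + B₂ * dw f)
    (e1 : D₁ m = 1) (e2 : D₁ κ = 0) (e3 : D₂ m = 0) (e4 : D₂ κ = 1)
    (F : IntermediateField k L) (hm : m ∈ F) (hκ : κ ∈ F) (hc : ∀ x ∈ F, dc x ∈ F)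
    (hw : ∀ x ∈ F, dw x ∈ F) : (∀ x ∈ F, D₁ x ∈ F) ∧ ∀ x ∈ F, D₂ x ∈ F := by
  rw [h1] at e1 e2
  rw [h2] at e3 e4
  set J := dc m * dw κ - dw m * dc κ with hJ
  have hJ0 : J ≠ 0 := by
    intro h0
    -- `(A₁ B₂ - A₂ B₁) J = 1`
    have : (A₁ * B₂ - A₂ * B₁) * J = 1 := by
      rw [hJ]
      linear_combination e1 * (A₂ * dc κ + B₂ * dw κ) - (A₂ * dc m + B₂ * dw m) * e2 + e4
    rw [h0, mul_zero] at this
    exact zero_ne_one this
  have hJF : J ∈ F := F.sub_mem (F.mul_mem (hc _ hm) (hw _ hκ)) (F.mul_mem (hw _ hm) (hc _ hκ))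
  have a1 : A₁ = dw κ / J := by
    rw [eq_div_iff hJ0, hJ]; linear_combination dw κ * e1 - dw m * e2
  have b1 : B₁ = - dc κ / J := by
    rw [eq_div_iff hJ0, hJ]; linear_combination - dc κ * e1 + dc m * e2
  have a2 : A₂ = - dw m / J := by
    rw [eq_div_iff hJ0, hJ]; linear_combination dw κ * e3 - dw m * e4
  have b2 : B₂ = dc m / J := by
    rw [eq_div_iff hJ0, hJ]; linear_combination - dc κ * e3 + dc m * e4
  refine ⟨fun x hx => ?_, fun x hx => ?_⟩
  · rw [h1, a1, b1]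
    exact F.add_mem (F.mul_mem (F.div_mem (hw _ hκ) hJF) (hc _ hx))
      (F.mul_mem (F.div_mem (F.neg_mem (hc _ hκ)) hJF) (hw _ hx))
  · rw [h2, a2, b2]
    exact F.add_mem (F.mul_mem (F.div_mem (F.neg_mem (hw _ hm)) hJF) (hc _ hx))
      (F.mul_mem (F.div_mem (hc _ hm) hJF) (hw _ hx))

end algebra

/-- `KK` in terms of `d_c, d_ω` -/
theorem kk_le {M : Type*} [Field M] [Algebra ℂ M] (dc dw D₁ D₂ : Derivation ℂ M M)
    {A₁ B₁ A₂ B₂ : M} (h1 : ∀ f, D₁ f = A₁ * dc f + B₁ * dw f)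
    (h2 : ∀ f, D₂ f = A₂ * dc f + B₂ * dw f) {N : ℕ} {b : ℕ → M} {x : ℕ → ℕ → M} {E k : ℕ → M}
    (hC : RAT.FChain D₁ D₂ N b x E k) :
    RAT.KK D₁ D₂ N E k ≤ dfield ![dc, dw] {E 0, k 0, E N, k N} := by
  set F := dfield ![dc, dw] {E 0, k 0, E N, k N} with hF
  have hs : ({E 0, k 0, E N, k N} : Set M) ⊆ F := subset_dfield _ _
  have hE : E 0 ∈ F := hs (by simp)
  have hk : k 0 ∈ F := hs (by simp)
  have st := stable_of_dual dc dw D₁ D₂ h1 h2 hC.D₁E hC.D₁k hC.D₂E hC.D₂k F (pow_mem hE 2) hk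
    (fun x hx => dfield_stable ![dc, dw] _ 0 x hx) (fun x hx => dfield_stable ![dc, dw] _ 1 x hx)
  refine dfield_le _ _ _ hs ?_
  intro i
  fin_cases i
  · exact st.1
  · exact st.2

end Crest.Agent.R102.Rat7217
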