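import Crest.Agent.R102.RatGlueA_798
import Crest.Agent.R102.RatDefs7_217

/-!
# Row 102, [H3]/RAT, R6 = GLUE, part B (helper798): the formal chain `FChain` over the field of
fractions of `Hol W` from the analytic chain `F7389.Chain`.
-/

set_option autoImplicit false
set_option linter.unusedSectionVars false

open Set Filter Topology Metric TopologicalSpace

noncomputable section

namespace Crest.Agent.R102.Glue798

open Crest.Agent.R102.H3

/-! ### the dual derivations -/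

section dual

variable {W : Opens (ℂ × ℂ)} {M : Type} [Field M] [Algebra ℂ M] [Algebra (Hol W) M]
  [IsScalarTower ℂ (Hol W) M] [IsFractionRing (Hol W) M]

variable (W M) in
/-- `∂/∂c` on the field of fractions -/
def Pc : Derivation ℂ M M := frK M (pdH W ((1, 0) : ℂ × ℂ))

variable (W M) in
/-- `∂/∂ω` on the field of fractions -/
def Pw : Derivation ℂ M M := frK M (pdH W ((0, 1) : ℂ × ℂ))

theorem Pc_map (f : Hol W) :
    Pc W M (algebraMap (Hol W) M f) = algebraMap (Hol W) M (pdH W (1, 0) f) := frK_algebraMap _ _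

theorem Pw_map (f : Hol W) :
    Pw W M (algebraMap (Hol W) M f) = algebraMap (Hol W) M (pdH W (0, 1) f) := frK_algebraMap _ _

variable (W M) in
theorem PcPw (f : M) : Pc W M (Pw W M f) = Pw W M (Pc W M f) := by
  have h : ∀ a : Hol W, pdH W ((1, 0) : ℂ × ℂ) (pdH W ((0, 1) : ℂ × ℂ) a) =
    pdH W ((0, 1) : ℂ × ℂ) (pdH W ((1, 0) : ℂ × ℂ) a) := fun a => pdH_comm _ _ a
  rw [Pc, Pw]
  exact frK_comm h f

theorem dV_eq (v : ℂ × ℂ) (f : Hol W) : MerF217.dV v f = pdH W v f := by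
  ext x
  rw [pdH_apply]
  rfl

theorem jcb217 (f h : Hol W) :
    Rat7217.jcb f h = jcb (pdH W (1, 0)) (pdH W (0, 1)) f h := by
  rw [Rat7217.jcb, jcb, dV_eq, dV_eq, dV_eq, dV_eq]

theorem jcb_M (f h : Hol W) :
    jcb (Pc W M) (Pw W M) (algebraMap (Hol W) M f) (algebraMap (Hol W) M h) =
      algebraMap (Hol W) M (Rat7217.jcb f h) := by
  rw [jcb217]
  simp only [jcb, map_sub, map_mul, Pc_map, Pw_map]

theorem dual_of_ne {μ κ : Hol W} (h : algebraMap (Hol W) M (Rat7217.jcb μ κ) ≠ 0) :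
    Rat7217.Dual μ κ (dM (Pc W M) (Pw W M) (algebraMap (Hol W) M μ) (algebraMap (Hol W) M κ))
      (dK (Pc W M) (Pw W M) (algebraMap (Hol W) M μ) (algebraMap (Hol W) M κ)) := by
  have h1 : IsUnit (jcb (Pc W M) (Pw W M) (algebraMap (Hol W) M μ) (algebraMap (Hol W) M κ)) := by
    rw [jcb_M]; exact h.isUnit
  refine ⟨h, fun f => ?_, fun f => ?_⟩
  · rw [← jcb_M, ← jcb_M, dM_apply, ← mul_assoc, mul_comm (jcb _ _ _ _), inv_jcb h1, one_mul, jcb]
    ring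
  · rw [← jcb_M, ← jcb_M, dK_apply, ← mul_assoc, mul_comm (jcb _ _ _ _), inv_jcb h1, one_mul, jcb]

theorem dual_iff {μ κ : Hol W} {D₁ D₂ : Derivation ℂ M M} : Rat7217.Dual μ κ D₁ D₂ ↔
    algebraMap (Hol W) M (Rat7217.jcb μ κ) ≠ 0 ∧
    D₁ = dM (Pc W M) (Pw W M) (algebraMap (Hol W) M μ) (algebraMap (Hol W) M κ) ∧
    D₂ = dK (Pc W M) (Pw W M) (algebraMap (Hol W) M μ) (algebraMap (Hol W) M κ) := by
  constructor
  · intro h
    have h' := dual_of_ne h.ne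
    refine ⟨h.ne, frK_ext (Hol W) fun f => ?_, frK_ext (Hol W) fun f => ?_⟩
    · exact mul_left_cancel₀ h.ne ((h.d₁ f).trans (h'.d₁ f).symm)
    · exact mul_left_cancel₀ h.ne ((h.d₂ f).trans (h'.d₂ f).symm)
  · rintro ⟨h, rfl, rfl⟩
    exact dual_of_ne h

end dual

/-! ### the chain with square roots of the slopes -/

/-- chain with square roots of the slopes -/
structure SChain (g : ℂ → ℂ) (c₀ : ℂ) (N : ℕ) (ρ : ℝ) (β m k q q' e : ℕ → ℂ × ℂ → ℂ) : Prop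
    extends F7389.Chain g c₀ N ρ β m k q q' where
  an_e : ∀ i ≤ N, AnalyticOnNhd ℂ (e i) (ball c₀ ρ ×ˢ ball 0 ρ)
  e_sq : ∀ i ≤ N, ∀ p ∈ ball c₀ ρ ×ˢ ball 0 ρ, e i p ^ 2 = m i p
  e_mul : ∀ i < N, ∀ p ∈ ball c₀ ρ ×ˢ ball 0 ρ,
    e i p * e (i + 1) p = deriv g (p.1 + p.2 * β i p)

theorem sub_polydisc {c₀ : ℂ} {ρ ρ' : ℝ} (h : ρ' ≤ ρ) :
    ball c₀ ρ' ×ˢ ball (0 : ℂ) ρ' ⊆ ball c₀ ρ ×ˢ ball (0 : ℂ) ρ :=
  Set.prod_mono (ball_subset_ball h) (ball_subset_ball h)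

theorem Chain.mono {g : ℂ → ℂ} {c₀ : ℂ} {N : ℕ} {ρ ρ' : ℝ} {β m k q q' : ℕ → ℂ × ℂ → ℂ}
    (hC : F7389.Chain g c₀ N ρ β m k q q') (h0 : 0 < ρ') (h : ρ' ≤ ρ) :
    F7389.Chain g c₀ N ρ' β m k q q' := by
  have hs := sub_polydisc (c₀ := c₀) h
  have hb := ball_subset_ball (x := c₀) h
  exact ⟨h0, fun i hi => (hC.an_β i hi).mono hs, fun i hi => (hC.an_m i hi).mono hs,
    fun i hi => (hC.an_k i hi).mono hs, fun i hi => (hC.an_q i hi).mono hs,
    fun i hi => (hC.an_q' i hi).mono hs, hC.β_zero,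
    fun i hi c hc => hC.β_c i hi c (hb hc), fun i hi c hc => hC.m_c i hi c (hb hc),
    fun i hi c hc => hC.q_c i hi c (hb hc), fun i hi c hc => hC.q'_c i hi c (hb hc),
    fun i hi p hp => hC.an_g i hi p (hs hp), fun p hp => hC.an_g' p (hs hp),
    fun i hi p hp => hC.inc i hi p (hs hp), fun i hi p hp => hC.inc' i hi p (hs hp),
    fun p hp => hC.chord p (hs hp), fun i hi p hp => hC.refl i hi p (hs hp),
    fun i hi p hp => hC.m_ne i hi p (hs hp), fun i hi p hp => hC.q_ne i hi p (hs hp),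
    fun i hi p hp => hC.q'_ne i hi p (hs hp), fun i hi p hp => hC.q_eq i hi p (hs hp),
    fun i hi p hp => hC.q'_eq i hi p (hs hp), fun p hp => hC.even_m p (hs hp),
    fun p hp => hC.even_k p (hs hp)⟩

theorem SChain.mono {g : ℂ → ℂ} {c₀ : ℂ} {N : ℕ} {ρ ρ' : ℝ} {β m k q q' e : ℕ → ℂ × ℂ → ℂ}
    (hC : SChain g c₀ N ρ β m k q q' e) (h0 : 0 < ρ') (h : ρ' ≤ ρ) :
    SChain g c₀ N ρ' β m k q q' e := by
  have hs := sub_polydisc (c₀ := c₀) h
  exact ⟨Chain.mono hC.toChain h0 h, fun i hi => (hC.an_e i hi).mono hs,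
    fun i hi p hp => hC.e_sq i hi p (hs hp), fun i hi p hp => hC.e_mul i hi p (hs hp)⟩

/-- the roots -/
def eSeq (g : ℂ → ℂ) (β : ℕ → ℂ × ℂ → ℂ) (e0 : ℂ × ℂ → ℂ) : ℕ → ℂ × ℂ → ℂ
  | 0 => e0
  | (i + 1) => fun p => deriv g (p.1 + p.2 * β i p) / eSeq g β e0 i p

section chain

variable {g : ℂ → ℂ} {c₀ : ℂ} {N : ℕ} {ρ : ℝ} {β m k q q' e : ℕ → ℂ × ℂ → ℂ}

theorem center_mem (hC : F7389.Chain g c₀ N ρ β m k q q') :
    ((c₀, 0) : ℂ × ℂ) ∈ ball c₀ ρ ×ˢ ball (0 : ℂ) ρ :=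
  ⟨mem_ball_self hC.ρ_pos, mem_ball_self hC.ρ_pos⟩

theorem an_b (hC : F7389.Chain g c₀ N ρ β m k q q') (i : ℕ) (hi : i ≤ N) :
    AnalyticOnNhd ℂ (fun p : ℂ × ℂ => p.1 + p.2 * β i p) (ball c₀ ρ ×ˢ ball 0 ρ) :=
  fun p hp => analyticAt_fst.add (analyticAt_snd.mul (hC.an_β i hi p hp))

theorem an_gb (hC : F7389.Chain g c₀ N ρ β m k q q') (i : ℕ) (hi : i ≤ N) (r : ℕ) :
    AnalyticOnNhd ℂ (fun p : ℂ × ℂ => iteratedDeriv r g (p.1 + p.2 * β i p))
      (ball c₀ ρ ×ˢ ball 0 ρ) := by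
  intro p hp
  refine AnalyticAt.fun_comp (g := iteratedDeriv r g) ?_ (an_b hC i hi p hp)
  rw [iteratedDeriv_eq_iterate]
  exact AnalyticAt.iterated_deriv (hC.an_g i hi p hp) r

theorem exists_sqrt (hC : F7389.Chain g c₀ N ρ β m k q q') :
    ∃ e : ℕ → ℂ × ℂ → ℂ, ∃ R > 0, R ≤ ρ ∧ ∀ ρ', 0 < ρ' → ρ' ≤ R →
      SChain g c₀ N ρ' β m k q q' e := by
  have hc := center_mem hC
  have hm0 : m 0 (c₀, 0) ≠ 0 := hC.m_ne 0 (Nat.zero_le _) _ hc
  set a : ℂ := m 0 (c₀, 0) with ha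
  set s : ℂ := a ^ ((2 : ℕ) : ℂ)⁻¹ with hs
  have hs2 : s ^ 2 = a := Complex.cpow_nat_inv_pow a two_ne_zero
  set e0 : ℂ × ℂ → ℂ := fun p => s * (m 0 p / a) ^ ((2 : ℕ) : ℂ)⁻¹ with he0
  -- the slit plane near `(c₀, 0)`
  have hev : ∀ᶠ p in 𝓝 ((c₀, 0) : ℂ × ℂ), m 0 p / a ∈ Complex.slitPlane := by
    have h1 : ContinuousAt (fun p => m 0 p / a) ((c₀, 0) : ℂ × ℂ) :=
      (hC.an_m 0 (Nat.zero_le _) _ hc).continuousAt.div_const a
    refine h1.eventually (Complex.isOpen_slitPlane.mem_nhds ?_)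
    show m 0 (c₀, 0) / a ∈ Complex.slitPlane
    rw [← ha, div_self hm0]
    exact Complex.one_mem_slitPlane
  obtain ⟨R0, hR0, hball⟩ := Metric.eventually_nhds_iff_ball.1 hev
  refine ⟨eSeq g β e0, min R0 ρ, lt_min hR0 hC.ρ_pos, min_le_right _ _, fun ρ' h0 hle => ?_⟩
  have hC' := Chain.mono hC h0 (hle.trans (min_le_right _ _))
  have hslit : ∀ p ∈ ball c₀ ρ' ×ˢ ball (0 : ℂ) ρ', m 0 p / a ∈ Complex.slitPlane := by
    intro p hp
    refine hball p ?_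
    rw [mem_ball, Prod.dist_eq]
    refine max_lt ?_ ?_
    · exact lt_of_lt_of_le (mem_ball.1 hp.1) (hle.trans (min_le_left _ _))
    · exact lt_of_lt_of_le (mem_ball.1 hp.2) (hle.trans (min_le_left _ _))
  have key : ∀ i ≤ N, AnalyticOnNhd ℂ (eSeq g β e0 i) (ball c₀ ρ' ×ˢ ball 0 ρ') ∧
      ∀ p ∈ ball c₀ ρ' ×ˢ ball (0 : ℂ) ρ', eSeq g β e0 i p ^ 2 = m i p := by
    intro i
    induction i with
    | zero =>
      intro _
      refine ⟨fun p hp => ?_, fun p hp => ?_⟩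
      · show AnalyticAt ℂ (fun p => s * (m 0 p / a) ^ ((2 : ℕ) : ℂ)⁻¹) p
        refine analyticAt_const.mul (AnalyticAt.cpow ?_ analyticAt_const (hslit p hp))
        exact (hC'.an_m 0 (Nat.zero_le _) p hp).div analyticAt_const hm0
      · show (s * (m 0 p / a) ^ ((2 : ℕ) : ℂ)⁻¹) ^ 2 = m 0 p
        rw [mul_pow, hs2, Complex.cpow_nat_inv_pow _ two_ne_zero]
        field_simp
    | succ i ih =>
      intro hi
      obtain ⟨h1, h2⟩ := ih (Nat.le_of_succ_le hi)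
      have hne : ∀ p ∈ ball c₀ ρ' ×ˢ ball (0 : ℂ) ρ', eSeq g β e0 i p ≠ 0 := by
        intro p hp h0
        refine hC'.m_ne i (Nat.le_of_succ_le hi) p hp ?_
        rw [← h2 p hp, h0]; ring
      refine ⟨fun p hp => ?_, fun p hp => ?_⟩
      · show AnalyticAt ℂ (fun p => deriv g (p.1 + p.2 * β i p) / eSeq g β e0 i p) p
        have h3 := an_gb hC' i (Nat.le_of_succ_le hi) 1 p hp
        rw [iteratedDeriv_one] at h3
        exact h3.div (h1 p hp) (hne p hp)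
      · show (deriv g (p.1 + p.2 * β i p) / eSeq g β e0 i p) ^ 2 = m (i + 1) p
        rw [div_pow, h2 p hp, ← hC'.refl i (Nat.lt_of_succ_le hi) p hp,
          mul_div_cancel_right₀ _ (hC'.m_ne i (Nat.le_of_succ_le hi) p hp)]
  refine ⟨hC', fun i hi => (key i hi).1, fun i hi => (key i hi).2, fun i hi p hp => ?_⟩
  have hne : eSeq g β e0 i p ≠ 0 := by
    intro h0
    refine hC'.m_ne i hi.le p hp ?_
    rw [← (key i hi.le).2 p hp, h0]; ring
  show eSeq g β e0 i p * (deriv g (p.1 + p.2 * β i p) / eSeq g β e0 i p) = _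
  rw [mul_div_cancel₀ _ hne]

theorem SChain.e_ne (hC : SChain g c₀ N ρ β m k q q' e) {i : ℕ} (hi : i ≤ N) {p : ℂ × ℂ}
    (hp : p ∈ ball c₀ ρ ×ˢ ball (0 : ℂ) ρ) : e i p ≠ 0 := by
  intro h0
  refine hC.m_ne i hi p hp ?_
  rw [← hC.e_sq i hi p hp, h0]; ring

/-- the vertices lie in a given neighbourhood of `c₀` after shrinking -/
theorem exists_small (hC : F7389.Chain g c₀ N ρ β m k q q') {V : Set ℂ} (hV : V ∈ 𝓝 c₀) :
    ∃ R > 0, R ≤ ρ ∧ ∀ p ∈ ball c₀ R ×ˢ ball (0 : ℂ) R,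
      (∀ i ≤ N, p.1 + p.2 * β i p ∈ V) ∧ p.1 - p.2 ∈ V := by
  have hc := center_mem hC
  have h1 : ∀ᶠ p in 𝓝 ((c₀, 0) : ℂ × ℂ), ∀ i ∈ Finset.range (N + 1), p.1 + p.2 * β i p ∈ V := by
    rw [Filter.eventually_all_finset]
    intro i hi
    have h2 : ContinuousAt (fun p : ℂ × ℂ => p.1 + p.2 * β i p) (c₀, 0) :=
      (an_b hC i (Nat.lt_succ_iff.1 (Finset.mem_range.1 hi)) _ hc).continuousAt
    refine h2.eventually ?_
    simpa using hV
  have h3 : ∀ᶠ p in 𝓝 ((c₀, 0) : ℂ × ℂ), p.1 - p.2 ∈ V := by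
    have h2 : ContinuousAt (fun p : ℂ × ℂ => p.1 - p.2) (c₀, 0) := by fun_prop
    refine h2.eventually ?_
    simpa using hV
  obtain ⟨R0, hR0, hball⟩ := Metric.eventually_nhds_iff_ball.1 (h1.and h3)
  refine ⟨min R0 ρ, lt_min hR0 hC.ρ_pos, min_le_right _ _, fun p hp => ?_⟩
  have hp' : p ∈ ball ((c₀, 0) : ℂ × ℂ) R0 := by
    rw [mem_ball, Prod.dist_eq]
    exact max_lt (lt_of_lt_of_le (mem_ball.1 hp.1) (min_le_left _ _))
      (lt_of_lt_of_le (mem_ball.1 hp.2) (min_le_left _ _))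
  obtain ⟨h4, h5⟩ := hball p hp'
  exact ⟨fun i hi => h4 i (Finset.mem_range.2 (Nat.lt_succ_of_le hi)), h5⟩

/-! ### jacobians -/

/-- jacobian of two functions of two variables -/
def jF (F G : ℂ × ℂ → ℂ) (p : ℂ × ℂ) : ℂ :=
  fderiv ℂ F p (1, 0) * fderiv ℂ G p (0, 1) - fderiv ℂ F p (0, 1) * fderiv ℂ G p (1, 0)

theorem an_fderiv {U : Set (ℂ × ℂ)} {F : ℂ × ℂ → ℂ} (hF : AnalyticOnNhd ℂ F U) (v : ℂ × ℂ) :
    AnalyticOnNhd ℂ (fun p => fderiv ℂ F p v) U := fun x hx =>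
  (((ContinuousLinearMap.apply ℂ ℂ v).analyticAt _).comp (hF x hx).fderiv)

theorem an_jF {U : Set (ℂ × ℂ)} {F G : ℂ × ℂ → ℂ} (hF : AnalyticOnNhd ℂ F U)
    (hG : AnalyticOnNhd ℂ G U) : AnalyticOnNhd ℂ (jF F G) U := fun x hx =>
  (((an_fderiv hF _ x hx).mul (an_fderiv hG _ x hx)).sub
    ((an_fderiv hF _ x hx).mul (an_fderiv hG _ x hx)))

theorem toH_jF {W : Opens (ℂ × ℂ)} {F G : ℂ × ℂ → ℂ} (hF : AnalyticOnNhd ℂ F W)
    (hG : AnalyticOnNhd ℂ G W) : Rat7217.jcb (toH W F) (toH W G) = toH W (jF F G) := by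
  rw [jcb217, jcb, pdH_toH _ hF, pdH_toH _ hF, pdH_toH _ hG, pdH_toH _ hG]
  ext x
  rw [toH_apply (an_jF hF hG)]
  show (toH W _ : W → ℂ) x * (toH W _ : W → ℂ) x - (toH W _ : W → ℂ) x * (toH W _ : W → ℂ) x = _
  rw [toH_apply (an_fderiv hF _), toH_apply (an_fderiv hG _), toH_apply (an_fderiv hF _),
    toH_apply (an_fderiv hG _)]
  rfl

/-- `∂(m₀, k₀)/∂(c, ω) = ω q₀(c, ω) q₀(c, -ω)` -/
theorem jac_m0k0 (hC : F7389.Chain g c₀ N ρ β m k q q') {p : ℂ × ℂ}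
    (hp : p ∈ ball c₀ ρ ×ˢ ball (0 : ℂ) ρ) :
    jF (m 0) (k 0) p = p.2 * q 0 p * q 0 (p.1, -p.2) := by
  have hUo : IsOpen (ball c₀ ρ ×ˢ ball (0 : ℂ) ρ) := isOpen_ball.prod isOpen_ball
  have hp' : ((p.1, -p.2) : ℂ × ℂ) ∈ ball c₀ ρ ×ˢ ball (0 : ℂ) ρ := by
    refine ⟨hp.1, ?_⟩
    have := hp.2
    simp only [mem_ball, dist_zero_right, norm_neg] at this ⊢
    exact this
  have hβ : ∀ p : ℂ × ℂ, β 0 p = 1 := fun p => by rw [hC.β_zero]
  have hm := (hC.an_m 0 (Nat.zero_le _) p hp).differentiableAt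
  have hk := (hC.an_k 0 (Nat.zero_le _) p hp).differentiableAt
  have hg1 : AnalyticAt ℂ g (p.1 + p.2) := by
    have := hC.an_g 0 (Nat.zero_le _) p hp
    rwa [hβ, mul_one] at this
  have hg2 : AnalyticAt ℂ g (p.1 - p.2) := hC.an_g' p hp
  -- the two incidences, differentiated
  have e1 : ∀ v : ℂ × ℂ, deriv g (p.1 + p.2) * (v.1 + v.2) =
      fderiv ℂ (m 0) p v * (p.1 + p.2) + m 0 p * (v.1 + v.2) + fderiv ℂ (k 0) p v := by
    intro v
    have h1 : (fun x : ℂ × ℂ => g (x.1 + x.2)) =ᶠ[𝓝 p] fun x => m 0 x * (x.1 + x.2) + k 0 x := by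
      filter_upwards [hUo.mem_nhds hp] with x hx
      have := hC.inc 0 (Nat.zero_le _) x hx
      rwa [hβ, mul_one] at this
    have hl : HasFDerivAt (fun x : ℂ × ℂ => x.1 + x.2)
        (ContinuousLinearMap.fst ℂ ℂ ℂ + ContinuousLinearMap.snd ℂ ℂ ℂ) p :=
      hasFDerivAt_fst.add hasFDerivAt_snd
    have h2 := (HasDerivAt.comp_hasFDerivAt p (h₂ := g) hg1.differentiableAt.hasDerivAt hl)
    have h3 := ((hm.hasFDerivAt.mul hl).add hk.hasFDerivAt)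
    have h4 := h2.unique (h3.congr_of_eventuallyEq h1)
    have h5 := congrArg (fun L : ℂ × ℂ →L[ℂ] ℂ => L v) h4
    simp only [_root_.add_apply, _root_.smul_apply, smul_eq_mul, ContinuousLinearMap.coe_fst',
      ContinuousLinearMap.coe_snd'] at h5
    rw [h5]; ring
  have e2 : ∀ v : ℂ × ℂ, deriv g (p.1 - p.2) * (v.1 - v.2) =
      fderiv ℂ (m 0) p v * (p.1 - p.2) + m 0 p * (v.1 - v.2) + fderiv ℂ (k 0) p v := by
    intro v
    have h1 : (fun x : ℂ × ℂ => g (x.1 - x.2)) =ᶠ[𝓝 p] fun x => m 0 x * (x.1 - x.2) + k 0 x := by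
      filter_upwards [hUo.mem_nhds hp] with x hx
      exact hC.chord x hx
    have hl : HasFDerivAt (fun x : ℂ × ℂ => x.1 - x.2)
        (ContinuousLinearMap.fst ℂ ℂ ℂ - ContinuousLinearMap.snd ℂ ℂ ℂ) p :=
      hasFDerivAt_fst.sub hasFDerivAt_snd
    have h2 := (HasDerivAt.comp_hasFDerivAt p (h₂ := g) hg2.differentiableAt.hasDerivAt hl)
    have h3 := ((hm.hasFDerivAt.mul hl).add hk.hasFDerivAt)
    have h4 := h2.unique (h3.congr_of_eventuallyEq h1)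
    have h5 := congrArg (fun L : ℂ × ℂ →L[ℂ] ℂ => L v) h4
    simp only [_root_.add_apply, _root_.smul_apply, smul_eq_mul, _root_.sub_apply,
      ContinuousLinearMap.coe_fst', ContinuousLinearMap.coe_snd'] at h5
    rw [h5]; ring
  have hA : deriv g (p.1 + p.2) = m 0 p + p.2 * q 0 p := by
    have := hC.q_eq 0 (Nat.zero_le _) p hp
    rw [hβ, mul_one] at this
    linear_combination this
  have hB : deriv g (p.1 - p.2) = m 0 p - p.2 * q 0 (p.1, -p.2) := by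
    have := hC.q_eq 0 (Nat.zero_le _) _ hp'
    rw [hβ, mul_one, hC.even_m p hp] at this
    simp only [← sub_eq_add_neg] at this
    linear_combination this
  have a1 := e1 (1, 0)
  have a2 := e1 (0, 1)
  have b1 := e2 (1, 0)
  have b2 := e2 (0, 1)
  rw [hA] at a1 a2
  rw [hB] at b1 b2
  simp only [add_zero, zero_add, sub_zero, zero_sub, mul_one, mul_neg] at a1 a2 b1 b2
  rw [jF]
  set mc := fderiv ℂ (m 0) p (1, 0)
  set mw := fderiv ℂ (m 0) p (0, 1)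
  set kc := fderiv ℂ (k 0) p (1, 0)
  set kw := fderiv ℂ (k 0) p (0, 1)
  set A := q 0 p
  set B := q 0 (p.1, -p.2)
  -- `kw = ω A - mw (c + ω)`, `kc = ω A - mc (c + ω)`
  have hkw : kw = p.2 * A - mw * (p.1 + p.2) := by linear_combination -a2
  have hkc : kc = p.2 * A - mc * (p.1 + p.2) := by linear_combination -a1
  have hd : p.2 * (mc - mw) = p.2 * B := by
    linear_combination (-a1 + b1 + a2 - b2) / 2 
  rw [hkw, hkc]
  linear_combination A * hd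

/-- the jacobian of two vertices at the center -/
theorem jac_bb (hC : F7389.Chain g c₀ N ρ β m k q q') {i j : ℕ} (hi : i ≤ N) (hj : j ≤ N) :
    jF (fun p => p.1 + p.2 * β i p) (fun p => p.1 + p.2 * β j p) (c₀, 0) = 2 * ((j : ℂ) - i) := by
  have hc := center_mem hC
  have h1 : ∀ i ≤ N, ∀ v : ℂ × ℂ, fderiv ℂ (fun p : ℂ × ℂ => p.1 + p.2 * β i p) (c₀, 0) v =
      v.1 + v.2 * (2 * i + 1) := by
    intro i hi v
    have h2 : HasFDerivAt (β i) (fderiv ℂ (β i) ((c₀, 0) : ℂ × ℂ)) ((c₀, 0) : ℂ × ℂ) :=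
      (hC.an_β i hi _ hc).differentiableAt.hasFDerivAt
    have h3 : HasFDerivAt (fun p : ℂ × ℂ => p.1 + p.2 * β i p) _ ((c₀, 0) : ℂ × ℂ) :=
      hasFDerivAt_fst.add (hasFDerivAt_snd.mul h2)
    rw [h3.fderiv]
    simp only [_root_.add_apply, _root_.smul_apply, smul_eq_mul, ContinuousLinearMap.coe_fst',
      ContinuousLinearMap.coe_snd', zero_mul]
    rw [hC.β_c i hi c₀ (mem_ball_self hC.ρ_pos)]
    ring
  rw [jF, h1 i hi, h1 i hi, h1 j hj, h1 j hj]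
  ring

end chain

/-! ### the formal chain -/

section fch

variable {W : Opens (ℂ × ℂ)} {M : Type} [Field M] [Algebra ℂ M] [Algebra (Hol W) M]
  [IsScalarTower ℂ (Hol W) M] [IsFractionRing (Hol W) M]

variable (W M) in
/-- the element of the field of fractions given by a function -/
def sM (F : ℂ × ℂ → ℂ) : M := algebraMap (Hol W) M (toH W F)

theorem an_add {U : Set (ℂ × ℂ)} {F G : ℂ × ℂ → ℂ} (hF : AnalyticOnNhd ℂ F U)
    (hG : AnalyticOnNhd ℂ G U) : AnalyticOnNhd ℂ (fun p => F p + G p) U :=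
  fun x hx => (hF x hx).add (hG x hx)

theorem an_sub {U : Set (ℂ × ℂ)} {F G : ℂ × ℂ → ℂ} (hF : AnalyticOnNhd ℂ F U)
    (hG : AnalyticOnNhd ℂ G U) : AnalyticOnNhd ℂ (fun p => F p - G p) U :=
  fun x hx => (hF x hx).sub (hG x hx)

theorem an_mul {U : Set (ℂ × ℂ)} {F G : ℂ × ℂ → ℂ} (hF : AnalyticOnNhd ℂ F U)
    (hG : AnalyticOnNhd ℂ G U) : AnalyticOnNhd ℂ (fun p => F p * G p) U :=
  fun x hx => (hF x hx).mul (hG x hx)

theorem sM_congr {F G : ℂ × ℂ → ℂ} (hF : AnalyticOnNhd ℂ F W) (hG : AnalyticOnNhd ℂ G W)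
    (h : ∀ p ∈ W, F p = G p) : sM W M F = sM W M G := by
  have : toH W F = toH W G := by
    ext x
    rw [toH_apply hF, toH_apply hG]
    exact h x x.2
  rw [sM, sM, this]

theorem sM_add {F G : ℂ × ℂ → ℂ} (hF : AnalyticOnNhd ℂ F W) (hG : AnalyticOnNhd ℂ G W) :
    sM W M (fun p => F p + G p) = sM W M F + sM W M G := by
  have : toH W (fun p => F p + G p) = toH W F + toH W G := by
    ext x
    rw [toH_apply (an_add hF hG)]
    show _ = (toH W F : W → ℂ) x + (toH W G : W → ℂ) x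
    rw [toH_apply hF, toH_apply hG]
  rw [sM, sM, sM, this, map_add]

theorem sM_sub {F G : ℂ × ℂ → ℂ} (hF : AnalyticOnNhd ℂ F W) (hG : AnalyticOnNhd ℂ G W) :
    sM W M (fun p => F p - G p) = sM W M F - sM W M G := by
  have : toH W (fun p => F p - G p) = toH W F - toH W G := by
    ext x
    rw [toH_apply (an_sub hF hG)]
    show _ = (toH W F : W → ℂ) x - (toH W G : W → ℂ) x
    rw [toH_apply hF, toH_apply hG]
  rw [sM, sM, sM, this, map_sub]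

theorem sM_mul {F G : ℂ × ℂ → ℂ} (hF : AnalyticOnNhd ℂ F W) (hG : AnalyticOnNhd ℂ G W) :
    sM W M (fun p => F p * G p) = sM W M F * sM W M G := by
  have : toH W (fun p => F p * G p) = toH W F * toH W G := by
    ext x
    rw [toH_apply (an_mul hF hG)]
    show _ = (toH W F : W → ℂ) x * (toH W G : W → ℂ) x
    rw [toH_apply hF, toH_apply hG]
  rw [sM, sM, sM, this, map_mul]

theorem Pc_sM {F : ℂ × ℂ → ℂ} (hF : AnalyticOnNhd ℂ F W) :
    Pc W M (sM W M F) = sM W M (fun p => fderiv ℂ F p (1, 0)) := by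
  rw [sM, Pc_map, pdH_toH _ hF]; rfl

theorem Pw_sM {F : ℂ × ℂ → ℂ} (hF : AnalyticOnNhd ℂ F W) :
    Pw W M (sM W M F) = sM W M (fun p => fderiv ℂ F p (0, 1)) := by
  rw [sM, Pw_map, pdH_toH _ hF]; rfl

theorem jcb_sM {F G : ℂ × ℂ → ℂ} (hF : AnalyticOnNhd ℂ F W) (hG : AnalyticOnNhd ℂ G W) :
    jcb (Pc W M) (Pw W M) (sM W M F) (sM W M G) = sM W M (jF F G) := by
  rw [sM, sM, jcb_M, toH_jF hF hG]; rfl

theorem sM_ne_zero {U : Set (ℂ × ℂ)} (hU : IsPreconnected U) [Nonempty W]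
    (hWU : (W : Set (ℂ × ℂ)) ⊆ U) {F : ℂ × ℂ → ℂ} (hF : AnalyticOnNhd ℂ F U) {x : ℂ × ℂ}
    (hx : x ∈ U) (h : F x ≠ 0) : sM W M F ≠ 0 := by
  intro h0
  refine toH_ne_zero hU hWU hF hx h (IsFractionRing.injective (Hol W) M ?_)
  rw [map_zero]
  exact h0

variable {g : ℂ → ℂ} {c₀ : ℂ} {N : ℕ} {ρ : ℝ} {β m k q q' e : ℕ → ℂ × ℂ → ℂ}

theorem preconn_U (c₀ : ℂ) (ρ : ℝ) : IsPreconnected (ball c₀ ρ ×ˢ ball (0 : ℂ) ρ) :=
  (convex_ball c₀ ρ).isPreconnected.prod (convex_ball 0 ρ).isPreconnected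

theorem q_symm_ne (hC : F7389.Chain g c₀ N ρ β m k q q') {p : ℂ × ℂ}
    (hp : p ∈ ball c₀ ρ ×ˢ ball (0 : ℂ) ρ) : q 0 (p.1, -p.2) ≠ 0 := by
  refine hC.q_ne 0 (Nat.zero_le _) _ ⟨hp.1, ?_⟩
  have := hp.2
  simp only [mem_ball, dist_zero_right, norm_neg] at this ⊢
  exact this

/-- the point `(c₀, ρ / 2)` -/
theorem half_mem (hC : F7389.Chain g c₀ N ρ β m k q q') :
    ((c₀, ((ρ / 2 : ℝ) : ℂ)) : ℂ × ℂ) ∈ ball c₀ ρ ×ˢ ball (0 : ℂ) ρ := by
  have := hC.ρ_pos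
  refine ⟨mem_ball_self this, ?_⟩
  rw [mem_ball_zero_iff, Complex.norm_real, Real.norm_of_nonneg (by positivity)]
  linarith

theorem half_ne (hC : F7389.Chain g c₀ N ρ β m k q q') : ((ρ / 2 : ℝ) : ℂ) ≠ 0 := by
  have := hC.ρ_pos
  exact_mod_cast (by positivity : ρ / 2 ≠ 0)

/-- the jacobian of `(m₀, k₀)` is not zero in the field of fractions -/
theorem jac_ne [Nonempty W] (hC : F7389.Chain g c₀ N ρ β m k q q')
    (hW : (W : Set (ℂ × ℂ)) ⊆ ball c₀ ρ ×ˢ ball (0 : ℂ) ρ) :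
    sM W M (jF (m 0) (k 0)) ≠ 0 := by
  refine sM_ne_zero (preconn_U c₀ ρ) hW (an_jF (hC.an_m 0 (Nat.zero_le _))
    (hC.an_k 0 (Nat.zero_le _))) (half_mem hC) ?_
  rw [jac_m0k0 hC (half_mem hC)]
  exact mul_ne_zero (mul_ne_zero (half_ne hC) (hC.q_ne 0 (Nat.zero_le _) _ (half_mem hC)))
    (q_symm_ne hC (half_mem hC))

/-- existence of the dual derivations -/
theorem exists_dual [Nonempty W] (hC : F7389.Chain g c₀ N ρ β m k q q')
    (hW : (W : Set (ℂ × ℂ)) ⊆ ball c₀ ρ ×ˢ ball (0 : ℂ) ρ) :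
    ∃ D₁ D₂ : Derivation ℂ M M, Rat7217.Dual (toH W (m 0)) (toH W (k 0)) D₁ D₂ := by
  refine ⟨_, _, dual_of_ne ?_⟩
  rw [toH_jF ((hC.an_m 0 (Nat.zero_le _)).mono hW) ((hC.an_k 0 (Nat.zero_le _)).mono hW)]
  exact jac_ne hC hW

/-- **R6: the formal chain** -/
theorem fchain [Nonempty W] (hC : SChain g c₀ N ρ β m k q q' e)
    (hW : (W : Set (ℂ × ℂ)) ⊆ ball c₀ ρ ×ˢ ball (0 : ℂ) ρ) {D₁ D₂ : Derivation ℂ M M}
    (hD : Rat7217.Dual (toH W (m 0)) (toH W (k 0)) D₁ D₂) :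
    RAT.FChain D₁ D₂ N (fun j => sM W M (fun p => p.1 + p.2 * β j p))
      (fun j r => sM W M (fun p => iteratedDeriv r g (p.1 + p.2 * β j p)))
      (fun j => sM W M (e j)) (fun j => sM W M (k j)) := by
  obtain ⟨-, hD₁, hD₂⟩ := dual_iff.1 hD
  have am : ∀ i ≤ N, AnalyticOnNhd ℂ (m i) W := fun i hi => (hC.an_m i hi).mono hW
  have ak : ∀ i ≤ N, AnalyticOnNhd ℂ (k i) W := fun i hi => (hC.an_k i hi).mono hW
  have ae : ∀ i ≤ N, AnalyticOnNhd ℂ (e i) W := fun i hi => (hC.an_e i hi).mono hW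
  have ab : ∀ i ≤ N, AnalyticOnNhd ℂ (fun p : ℂ × ℂ => p.1 + p.2 * β i p) W := fun i hi =>
    (an_b hC.toChain i hi).mono hW
  have ag : ∀ i ≤ N, ∀ r, AnalyticOnNhd ℂ
      (fun p : ℂ × ℂ => iteratedDeriv r g (p.1 + p.2 * β i p)) W := fun i hi r =>
    (an_gb hC.toChain i hi r).mono hW
  have hsq : ∀ i ≤ N, sM W M (e i) ^ 2 = sM W M (m i) := by
    intro i hi
    rw [sq, ← sM_mul (ae i hi) (ae i hi)]
    refine sM_congr (an_mul (ae i hi) (ae i hi)) (am i hi) fun p hp => ?_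
    rw [← sq]; exact hC.e_sq i hi p (hW hp)
  have hJ : jcb (Pc W M) (Pw W M) (sM W M (m 0)) (sM W M (k 0)) ≠ 0 := by
    rw [jcb_sM (am 0 (Nat.zero_le _)) (ak 0 (Nat.zero_le _))]
    exact jac_ne hC.toChain hW
  have hJu := hJ.isUnit
  change D₁ = dM (Pc W M) (Pw W M) (sM W M (m 0)) (sM W M (k 0)) at hD₁
  change D₂ = dK (Pc W M) (Pw W M) (sM W M (m 0)) (sM W M (k 0)) at hD₂
  have hjet : ∀ j ≤ N, ∀ r, ∀ p ∈ W, ∀ v : ℂ × ℂ,
      fderiv ℂ (fun p : ℂ × ℂ => iteratedDeriv r g (p.1 + p.2 * β j p)) p v =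
      iteratedDeriv (r + 1) g (p.1 + p.2 * β j p) *
        fderiv ℂ (fun p : ℂ × ℂ => p.1 + p.2 * β j p) p v := by
    intro j hj r p hp v
    have h1 : AnalyticAt ℂ (iteratedDeriv r g) (p.1 + p.2 * β j p) := by
      rw [iteratedDeriv_eq_iterate]
      exact AnalyticAt.iterated_deriv (hC.an_g j hj p (hW hp)) r
    have h2 := HasDerivAt.comp_hasFDerivAt p (h₂ := iteratedDeriv r g)
      h1.differentiableAt.hasDerivAt ((ab j hj) p hp).differentiableAt.hasFDerivAt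
    have h3 : (fun p : ℂ × ℂ => iteratedDeriv r g (p.1 + p.2 * β j p)) =
        iteratedDeriv r g ∘ fun p : ℂ × ℂ => p.1 + p.2 * β j p := rfl
    rw [h3, h2.fderiv, iteratedDeriv_succ]
    rfl
  have hPc : ∀ j ≤ N, ∀ r, Pc W M (sM W M (fun p => iteratedDeriv r g (p.1 + p.2 * β j p))) =
      sM W M (fun p => iteratedDeriv (r + 1) g (p.1 + p.2 * β j p)) *
        Pc W M (sM W M (fun p => p.1 + p.2 * β j p)) := by
    intro j hj r
    rw [Pc_sM (ag j hj r), Pc_sM (ab j hj), ← sM_mul (ag j hj (r + 1)) (an_fderiv (ab j hj) _)]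
    exact sM_congr (an_fderiv (ag j hj r) _)
      (an_mul (ag j hj (r + 1)) (an_fderiv (ab j hj) _))
      fun p hp => hjet j hj r p hp _
  have hPw : ∀ j ≤ N, ∀ r, Pw W M (sM W M (fun p => iteratedDeriv r g (p.1 + p.2 * β j p))) =
      sM W M (fun p => iteratedDeriv (r + 1) g (p.1 + p.2 * β j p)) *
        Pw W M (sM W M (fun p => p.1 + p.2 * β j p)) := by
    intro j hj r
    rw [Pw_sM (ag j hj r), Pw_sM (ab j hj), ← sM_mul (ag j hj (r + 1)) (an_fderiv (ab j hj) _)]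
    exact sM_congr (an_fderiv (ag j hj r) _)
      (an_mul (ag j hj (r + 1)) (an_fderiv (ab j hj) _))
      fun p hp => hjet j hj r p hp _
  refine ⟨?_, ?_, ?_, ?_, ?_, ?_, ?_, ?_, ?_, ?_, ?_, ?_, ?_, ?_⟩
  · rw [hD₁, hD₂]
    exact dM_dK_comm (PcPw W M) hJu
  · rw [hsq 0 (Nat.zero_le _), hD₁]; exact dM_m hJu
  · rw [hsq 0 (Nat.zero_le _), hD₂]; exact dK_m
  · rw [hD₁]; exact dM_k
  · rw [hD₂]; exact dK_k hJu
  · intro j hj
    show sM W M _ = sM W M (e j) ^ 2 * sM W M _ + sM W M (k j)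
    rw [hsq j hj.le, ← sM_mul (am j hj.le) (ab j hj.le),
      ← sM_add (an_mul (am j hj.le) (ab j hj.le)) (ak j hj.le)]
    refine sM_congr (ag j hj.le 0) (an_add (an_mul (am j hj.le) (ab j hj.le))
      (ak j hj.le)) fun p hp => ?_
    rw [iteratedDeriv_zero]
    exact hC.inc j hj.le p (hW hp)
  · intro j hj
    show sM W M _ = sM W M (e (j + 1)) ^ 2 * sM W M _ + sM W M (k (j + 1))
    rw [hsq (j + 1) hj, ← sM_mul (am (j + 1) hj) (ab j hj.le),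
      ← sM_add (an_mul (am (j + 1) hj) (ab j hj.le)) (ak (j + 1) hj)]
    refine sM_congr (ag j hj.le 0) (an_add (an_mul (am (j + 1) hj) (ab j hj.le))
      (ak (j + 1) hj)) fun p hp => ?_
    rw [iteratedDeriv_zero]
    exact hC.inc' j hj p (hW hp)
  · intro j hj
    show sM W M (e j) * sM W M (e (j + 1)) = sM W M _
    rw [← sM_mul (ae j hj.le) (ae (j + 1) hj)]
    refine sM_congr (an_mul (ae j hj.le) (ae (j + 1) hj)) (ag j hj.le 1)
      fun p hp => ?_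
    rw [iteratedDeriv_one]
    exact hC.e_mul j hj p (hW hp)
  · intro j hj
    exact sM_ne_zero (preconn_U c₀ ρ) hW (hC.an_e j hj) (center_mem hC.toChain)
      (hC.e_ne hj (center_mem hC.toChain))
  · intro j hj
    refine sM_ne_zero (preconn_U c₀ ρ) hW (an_gb hC.toChain j hj.le 2)
      (center_mem hC.toChain) ?_
    show iteratedDeriv 2 g (c₀ + 0 * β j (c₀, 0)) ≠ 0
    rw [zero_mul, add_zero, iteratedDeriv_succ, iteratedDeriv_one]
    rw [← hC.q_c 0 (Nat.zero_le _) c₀ (mem_ball_self hC.ρ_pos)]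
    exact hC.q_ne 0 (Nat.zero_le _) _ (center_mem hC.toChain)
  · intro j hj
    show sM W M _ ≠ sM W M (e j) ^ 2
    rw [hsq j hj.le, Ne, ← sub_eq_zero, ← sM_sub (ag j hj.le 1) (am j hj.le)]
    refine sM_ne_zero (preconn_U c₀ ρ) hW (an_sub (an_gb hC.toChain j hj.le 1)
      (hC.an_m j hj.le)) (half_mem hC.toChain) ?_
    rw [iteratedDeriv_one, hC.q_eq j hj.le _ (half_mem hC.toChain)]
    exact mul_ne_zero (half_ne hC.toChain) (hC.q_ne j hj.le _ (half_mem hC.toChain))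
  · intro j hj r
    show D₁ (sM W M _) = sM W M _ * D₁ (sM W M _)
    rw [hD₁, dM_apply, dM_apply, hPc j hj.le r, hPw j hj.le r]
    ring
  · intro j hj r
    show D₂ (sM W M _) = sM W M _ * D₂ (sM W M _)
    rw [hD₂, dK_apply, dK_apply, hPc j hj.le r, hPw j hj.le r]
    ring
  · intro i j hij hj h0
    have hi : i ≤ N := (hij.trans hj).le
    have h1 := jcb_eq hJu (sM W M (fun p => p.1 + p.2 * β i p)) (sM W M (fun p => p.1 + p.2 * β j p))
    have h2 : D₁ (sM W M (fun p => p.1 + p.2 * β i p)) *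
        D₂ (sM W M (fun p => p.1 + p.2 * β j p)) - D₂ (sM W M (fun p => p.1 + p.2 * β i p)) *
        D₁ (sM W M (fun p => p.1 + p.2 * β j p)) = 0 := h0
    rw [← hD₁, ← hD₂, h2, mul_zero, jcb_sM (ab i hi) (ab j hj.le)] at h1
    refine sM_ne_zero (M := M) (preconn_U c₀ ρ) hW (an_jF (an_b hC.toChain i hi)
      (an_b hC.toChain j hj.le)) (center_mem hC.toChain) ?_ h1.symm
    rw [jac_bb hC.toChain hi hj.le]
    refine mul_ne_zero two_ne_zero (sub_ne_zero.2 ?_)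
    exact_mod_cast hij.ne'

/-- the jets of the mirrors through the composition homomorphism -/
theorem x_eq {V : Opens ℂ} (hg : AnalyticOnNhd ℂ g V) {F : ℂ × ℂ → ℂ} (hF : AnalyticOnNhd ℂ F W)
    (hV : ∀ p : W, (toH W F : W → ℂ) p ∈ V) (r : ℕ) :
    sM W M (fun p => iteratedDeriv r g (F p)) =
      algebraMap (Hol W) M (compH (toH W F) hV ((DH V)^[r] (toH V g))) := by
  have h1 : ∀ r, ∀ z : V, ((DH V)^[r] (toH V g) : V → ℂ) z = iteratedDeriv r g z := by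
    intro r
    induction r with
    | zero => intro z; rw [iteratedDeriv_zero]; exact toH_apply hg z
    | succ r ih =>
      intro z
      rw [Function.iterate_succ_apply', DH_apply, iteratedDeriv_succ]
      have : ext0 ((DH V)^[r] (toH V g) : V → ℂ) =ᶠ[𝓝 (z : ℂ)] iteratedDeriv r g :=
        eventually_ext0_eq (fun z => (ih z).symm) z.2
      rw [this.deriv_eq]
  have h2 : AnalyticOnNhd ℂ (fun p => iteratedDeriv r g (F p)) W := by
    intro p hp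
    refine AnalyticAt.fun_comp (g := iteratedDeriv r g) ?_ (hF p hp)
    rw [iteratedDeriv_eq_iterate]
    refine AnalyticAt.iterated_deriv (hg _ ?_) r
    have := hV ⟨p, hp⟩
    rwa [toH_apply hF] at this
  have h3 : toH W (fun p => iteratedDeriv r g (F p)) =
      compH (toH W F) hV ((DH V)^[r] (toH V g)) := by
    ext p
    rw [toH_apply h2, compH_apply, h1]
    simp only [toH_apply hF]
  rw [sM, h3]

end fch

end Crest.Agent.R102.Glue798
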