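import Crest.Agent.R102.CoreB_575
import Crest.Agent.R102.ACon_575
import Crest.Agent.R102.RatGlueB_798

/-!
Row 102, part (C), leaf H3, CT, core C: generic point, deformation, hat mirror; from the algebraic
relation of the hat vertex to a relation with functions of the first vertex.
-/

set_option linter.unusedSectionVars false
set_option autoImplicit false

namespace Crest.Agent.R102.CT575

open H3 Glue798 PowerSeries Finset Set Topology TopologicalSpace Metric Filter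

noncomputable section

section aux

/-- restriction of a derivation to a stable subalgebra -/
def resD {T : Type} [CommRing T] [Algebra ℂ T] (E : Derivation ℂ T T) (A : Subalgebra ℂ T)
    (hA : ∀ f ∈ A, E f ∈ A) : Derivation ℂ A A where
  toFun a := ⟨E a, hA a a.2⟩
  map_add' a b := Subtype.ext (by simp)
  map_smul' c a := Subtype.ext (by simp)
  map_one_eq_zero' := Subtype.ext (by simp)
  leibniz' a b := Subtype.ext (by simp [smul_eq_mul])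

@[simp] theorem resD_coe {T : Type} [CommRing T] [Algebra ℂ T] (E : Derivation ℂ T T)
    (A : Subalgebra ℂ T) (hA : ∀ f ∈ A, E f ∈ A) (a : A) : ((resD E A hA a : A) : T) = E a := rfl

/-- combinations satisfy the chain rule -/
theorem rule_comb {T H : Type} [CommRing T] [Algebra ℂ T] {P Q E : Derivation ℂ T T} {α β : T}
    (hE : ∀ f, E f = α * P f + β * Q f) {φ : H → T} {d : H → H} {z : H}
    (hP : ∀ f, P (φ f) = φ (d f) * P (φ z)) (hQ : ∀ f, Q (φ f) = φ (d f) * Q (φ z)) (f : H) :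
    E (φ f) = φ (d f) * E (φ z) := by
  rw [hE, hE, hP f, hQ f]; ring

end aux

section coreC

variable {g : ℂ → ℂ} {c₀ e : ℂ} {N : ℕ} {ρ r : ℝ} {β m k q q' : ℕ → ℂ × ℂ → ℂ}

theorem Dat.rw_pd (h : Dat g c₀ N ρ e r β m k q q') (v : ℂ × ℂ) (F : Hol (UU c₀ ρ)) :
    pdH (WW c₀ ρ) v (h.rw F) = h.rw (pdH (UU c₀ ρ) v F) := pdH_res (WW_le h.ch.ρ_pos) v F

theorem Dat.rw_hU (h : Dat g c₀ N ρ e r β m k q q') {F : ℂ × ℂ → ℂ}
    (hF : AnalyticOnNhd ℂ F (UU c₀ ρ)) : h.rw (hU c₀ ρ F) = toH (WW c₀ ρ) F :=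
  res_toH (WW_le h.ch.ρ_pos) hF

theorem jcb_toH {W : Opens (ℂ × ℂ)} {F G : ℂ × ℂ → ℂ} (hF : AnalyticOnNhd ℂ F W)
    (hG : AnalyticOnNhd ℂ G W) (x : W) :
    ((jcb (pdH W (1, 0)) (pdH W (0, 1)) (toH W F) (toH W G) : Hol W) : W → ℂ) x = jF F G x := by
  have h1 : ∀ (v : ℂ × ℂ) {F : ℂ × ℂ → ℂ}, AnalyticOnNhd ℂ F W →
      (pdH W v (toH W F) : W → ℂ) x = fderiv ℂ F x v := by
    intro v F hF
    rw [pdH_toH v hF, toH_apply (Glue798.an_fderiv hF v)]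
  change evH x (jcb _ _ _ _) = _
  rw [jcb, map_sub, map_mul, map_mul]
  simp only [evH_apply]
  rw [h1 _ hF, h1 _ hF, h1 _ hG, h1 _ hG]
  rfl

/-- the jacobian of `(m₀, k₀)` is a unit of `Hol W` -/
theorem Dat.unit_jac (h : Dat g c₀ N ρ e r β m k q q') :
    IsUnit (jcb (pdH (WW c₀ ρ) (1, 0)) (pdH (WW c₀ ρ) (0, 1)) (h.rw (hU c₀ ρ (m 0)))
      (h.rw (hU c₀ ρ (k 0)))) := by
  have hle := WW_le (c₀ := c₀) h.ch.ρ_pos
  refine Hol.isUnit _ fun x => ?_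
  rw [h.rw_hU (h.ch.an_m 0 (Nat.zero_le _)), h.rw_hU (h.ch.an_k 0 (Nat.zero_le _)),
    jcb_toH ((h.ch.an_m 0 (Nat.zero_le _)).mono hle) ((h.ch.an_k 0 (Nat.zero_le _)).mono hle),
    jac_m0k0 h.ch (hle x.2)]
  exact mul_ne_zero (mul_ne_zero (WW_ne h.ch.ρ_pos x.2) (h.ch.q_ne 0 (Nat.zero_le _) _ (hle x.2)))
    (h.ch.q_ne 0 (Nat.zero_le _) _ (UU_flip _ (hle x.2)))

/-- the jacobian of two vertices is nonzero -/
theorem Dat.jac_ne (h : Dat g c₀ N ρ e r β m k q q') {i j : ℕ} (hi : i ≤ N) (hj : j ≤ N)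
    (hij : i ≠ j) :
    jcb (pdH (WW c₀ ρ) (1, 0)) (pdH (WW c₀ ρ) (0, 1)) (h.rw (bH c₀ ρ β i))
      (h.rw (bH c₀ ρ β j)) ≠ 0 := by
  have h1 := map_jcb (P := pdH (UU c₀ ρ) (1, 0)) (Q := pdH (UU c₀ ρ) (0, 1))
    (f := bH c₀ ρ β i) (g := bH c₀ ρ β j)
    (P' := pdH (WW c₀ ρ) (1, 0)) (Q' := pdH (WW c₀ ρ) (0, 1)) h.rw
    (fun a => (h.rw_pd _ a).symm) (fun a => (h.rw_pd _ a).symm)
  rw [← h1]
  intro h0
  have h2 := h.rw_injective (h0.trans (map_zero h.rw).symm)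
  have hc : ((c₀, 0) : ℂ × ℂ) ∈ UU c₀ ρ := UU_h0 h.ch.ρ_pos c₀ (mem_ball_self h.ch.ρ_pos)
  have h3 := congrArg (fun F : Hol (UU c₀ ρ) => (F : UU c₀ ρ → ℂ) ⟨(c₀, 0), hc⟩) h2
  have h4 := jcb_toH (h.an_b hi) (h.an_b hj) ⟨((c₀, 0) : ℂ × ℂ), hc⟩
  have h5 := jac_bb h.ch hi hj
  rw [h5] at h4
  have h6 : (2 : ℂ) * ((j : ℂ) - i) = 0 := h4.symm.trans h3
  rcases mul_eq_zero.1 h6 with h7 | h7
  · exact two_ne_zero h7
  · exact hij (by exact_mod_cast (sub_eq_zero.1 h7).symm)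

theorem Dat.exists_pts (h : Dat g c₀ N ρ e r β m k q q') (p : WW c₀ ρ) :
    ∃ b : ℕ → bO e r, ∀ j f, evH (b j) f = evH p (h.bw j f) := by
  have key : ∀ j, ∃ b : bO e r, ∀ f, evH b f = evH p (h.bw j f) := by
    intro j
    have hp : (p : ℂ × ℂ) ∈ UU c₀ ρ := WW_le h.ch.ρ_pos p.2
    by_cases hj : j ≤ N
    · refine ⟨⟨_, h.bH_mem hj ⟨p, hp⟩⟩, fun f => ?_⟩
      rw [Dat.bw, AlgHom.comp_apply, h.bt_eq hj]
      rfl
    · refine ⟨⟨_, h.bH_mem (Nat.zero_le N) ⟨p, hp⟩⟩, fun f => ?_⟩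
      rw [Dat.bw, AlgHom.comp_apply, Dat.bt, dif_neg hj]
      rfl
  choose b hb using key
  exact ⟨b, hb⟩

set_option maxHeartbeats 1600000 in
/-- **core C** -/
theorem Dat.coreC (h : Dat g c₀ N ρ e r β m k q q') (hN : 0 < N)
    {A0 : Type} [CommRing A0] [Algebra ℂ A0] [Algebra.FiniteType ℂ A0]
    {del : Derivation ℂ A0 A0} {z0 g0 : A0} (hi : AlgebraicIndependent ℂ ![z0, g0])
    {ρ₀ : A0 →ₐ[ℂ] Hol (bO e r)} (hρi : Function.Injective ρ₀)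
    (hρg : ρ₀ g0 = gV g e r) (hρd : ∀ a, ρ₀ (del a) = DH _ (ρ₀ a)) (hρz : ρ₀ z0 = zH _)
    {yh : ℂ} {rh : ℝ} {ι : A0 →ₐ[ℂ] Hol (bO yh rh)} (hιd : ∀ a, ι (del a) = DH _ (ι a))
    (hιz : ι z0 = zH _) (uH : Hol (UU c₀ ρ)) (hu : ∀ p : UU c₀ ρ, (uH : UU c₀ ρ → ℂ) p ∈ bO yh rh)
    (hfl : fl c₀ ρ uH = uH)
    (hinc : compH uH hu (ι g0) = hU c₀ ρ (m 0) * uH + hU c₀ ρ (k 0))
    (hunit : IsUnit (compH uH hu (ι (del g0)) - hU c₀ ρ (m 0)))
    (P : Polynomial (MvPolynomial (Option (Fin N × A0)) ℂ))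
    (hrel : P.eval₂ (h.obU ρ₀) uH = 0) (hne : P.map (h.obU ρ₀) ≠ 0) :
    ∃ Q : Polynomial (Polynomial (Hol (bO c₀ ρ))), Q ≠ 0 ∧
      Q.eval₂ (Polynomial.eval₂RingHom (Ty (DH (bO c₀ ρ))) (h.ta (hU c₀ ρ (m 0))))
        (h.ta uH) = 0 := by
  classical
  have hdomW := isDomain_W c₀ h.ch.ρ_pos
  have h0N : (0 : ℕ) ≤ N := Nat.zero_le N
  have hz0 : del z0 = 1 := by
    apply hρi
    rw [hρd, hρz, DH_zH, map_one]
  -- the derivations
  set P1 := pdH (WW c₀ ρ) (1, 0) with hP1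
  set Q1 := pdH (WW c₀ ρ) (0, 1) with hQ1
  set mW : ℕ → Hol (WW c₀ ρ) := fun i => h.rw (hU c₀ ρ (m i)) with hmW
  set kW : ℕ → Hol (WW c₀ ρ) := fun i => h.rw (hU c₀ ρ (k i)) with hkW
  have hj : IsUnit (jcb P1 Q1 (mW 0) (kW 0)) := h.unit_jac
  set E1 := dM P1 Q1 (mW 0) (kW 0) with hE1
  set E2 := dK P1 Q1 (mW 0) (kW 0) with hE2
  let D : Fin 2 → Derivation ℂ (Hol (WW c₀ ρ)) (Hol (WW c₀ ρ)) := ![E1, E2]
  have hD0 : D 0 = E1 := rfl
  have hD1 : D 1 = E2 := rfl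
  have hcomb : ∀ a, ∃ α β : Hol (WW c₀ ρ), ∀ f, D a f = α * P1 f + β * Q1 f := by
    intro a
    fin_cases a
    · refine ⟨Ring.inverse (jcb P1 Q1 (mW 0) (kW 0)) * Q1 (kW 0),
        -(Ring.inverse (jcb P1 Q1 (mW 0) (kW 0)) * P1 (kW 0)), fun f => ?_⟩
      change E1 f = _
      rw [hE1, dM_apply]; ring
    · refine ⟨-(Ring.inverse (jcb P1 Q1 (mW 0) (kW 0)) * Q1 (mW 0)),
        Ring.inverse (jcb P1 Q1 (mW 0) (kW 0)) * P1 (mW 0), fun f => ?_⟩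
      change E2 f = _
      rw [hE2, dK_apply]; ring
  have hrule : ∀ v i (f : Hol (bO e r)), pdH (WW c₀ ρ) v (h.bw i f) =
      h.bw i (DH _ f) * pdH (WW c₀ ρ) v (h.bw i (zH _)) := by
    intro v i f
    simp only [Dat.bw, AlgHom.comp_apply]
    rw [h.rw_pd, h.rw_pd, h.bt_rule, map_mul]
  set φh : Hol (bO yh rh) →ₐ[ℂ] Hol (UU c₀ ρ) := compH uH hu with hφh
  have hφz : φh (zH _) = uH := compH_zH _ _
  have hruleh : ∀ v (f : Hol (bO yh rh)), pdH (WW c₀ ρ) v (h.rw (φh f)) =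
      h.rw (φh (DH _ f)) * pdH (WW c₀ ρ) v (h.rw (φh (zH _))) := by
    intro v f
    rw [h.rw_pd, h.rw_pd, hφh, pdH_compH, compH_zH, map_mul]
  have hDb : ∀ a i f, D a (h.bw i f) = h.bw i (DH _ f) * D a (h.bw i (zH _)) := by
    intro a i f
    obtain ⟨α, β', hαβ⟩ := hcomb a
    exact rule_comb hαβ (φ := fun f => h.bw i f) (d := fun f => DH _ f)
      (fun f => hrule _ i f) (fun f => hrule _ i f) f
  have hDh : ∀ a f, D a (h.rw (φh f)) = h.rw (φh (DH _ f)) * D a (h.rw (φh (zH _))) := by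
    intro a f
    obtain ⟨α, β', hαβ⟩ := hcomb a
    exact rule_comb hαβ (φ := fun f => h.rw (φh f)) (d := fun f => DH _ f)
      (fun f => hruleh _ f) (fun f => hruleh _ f) f
  have hDm : ∀ a, ∃ c : ℂ, D a (mW 0) = algebraMap ℂ _ c := by
    intro a
    fin_cases a
    · exact ⟨1, by rw [map_one]; exact dM_m hj⟩
    · exact ⟨0, by rw [map_zero]; exact dK_m⟩
  have hDk : ∀ a, ∃ c : ℂ, D a (kW 0) = algebraMap ℂ _ c := by
    intro a
    fin_cases a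
    · exact ⟨0, by rw [map_zero]; exact dM_k⟩
    · exact ⟨1, by rw [map_one]; exact dK_k hj⟩
  -- the chain in `Hol W`
  have hbwz : ∀ i ≤ N, h.bw i (zH _) = h.rw (bH c₀ ρ β i) := by
    intro i hi'
    rw [Dat.bw, AlgHom.comp_apply, h.bt_eq hi', h.bs_z]
  have hincW : ∀ i < N, h.bw i (ρ₀ g0) = mW i * h.bw i (ρ₀ z0) + kW i := by
    intro i hi'
    rw [hρg, hρz, hbwz i hi'.le, Dat.bw, AlgHom.comp_apply, h.bt_eq hi'.le, h.inc hi'.le, map_add,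
      map_mul]
  have hincW' : ∀ i < N, h.bw i (ρ₀ g0) = mW (i + 1) * h.bw i (ρ₀ z0) + kW (i + 1) := by
    intro i hi'
    rw [hρg, hρz, hbwz i hi'.le, Dat.bw, AlgHom.comp_apply, h.bt_eq hi'.le, h.inc' hi', map_add,
      map_mul]
  have hreflW : ∀ i < N, mW (i + 1) * mW i = h.bw i (ρ₀ (del g0)) ^ 2 := by
    intro i hi'
    rw [hρd, hρg, Dat.bw, AlgHom.comp_apply, h.bt_eq hi'.le, ← map_pow, ← h.refl hi', map_mul]
  have humW : ∀ i < N, IsUnit (mW i) := fun i hi' => (h.isUnit_m hi'.le).map h.rw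
  have hutW : ∀ i < N, IsUnit (h.bw i (ρ₀ (del g0)) - mW i) := by
    intro i hi'
    rw [hρd, hρg, Dat.bw, AlgHom.comp_apply, h.bt_eq hi'.le, hmW]
    simp only
    rw [← map_sub, h.slope hi'.le, map_mul]
    exact h.isUnit_rw.mul ((h.isUnit_q hi'.le).map h.rw)
  have hinchW : h.rw (φh (ι g0)) = mW 0 * h.rw (φh (ι z0)) + kW 0 := by
    rw [hιz, hφz, hinc, map_add, map_mul]
  have huhW : IsUnit (h.rw (φh (ι (del g0))) - mW 0) := by
    rw [hmW]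
    simp only
    rw [← map_sub]
    exact hunit.map h.rw
  obtain ⟨A, hAfg, hAD, hAs, hAh, hAm, hAμ, hAτ, hAτh⟩ := acon D del z0 g0 N
    (fun i => (h.bw i).comp ρ₀) ((h.rw.comp φh).comp ι) mW kW
    (fun a j _ x => by
      change D a (h.bw j (ρ₀ x)) = h.bw j (ρ₀ (del x)) * D a (h.bw j (ρ₀ z0))
      rw [hρd, hρz]; exact hDb a j _)
    (fun a x => by
      change D a (h.rw (φh (ι x))) = h.rw (φh (ι (del x))) * D a (h.rw (φh (ι z0)))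
      rw [hιd, hιz]; exact hDh a _)
    hDm hDk hincW hincW' hreflW humW hutW hinchW huhW
  -- instances
  have hft : Algebra.FiniteType ℂ A := (Subalgebra.fg_iff_finiteType A).1 hAfg
  -- the maps into `A`
  let t0 : ∀ i, i < N → (A0 →ₐ[ℂ] A) := fun i hi' =>
    ((h.bw i).comp ρ₀).codRestrict A (fun a => hAs i hi' a)
  let t : ℕ → (A0 →ₐ[ℂ] A) := fun i => if hi' : i < N then t0 i hi' else t0 0 hN
  have ht : ∀ i (hi' : i < N), t i = t0 i hi' := fun i hi' => dif_pos hi'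
  have htc : ∀ i < N, ∀ a, ((t i a : A) : Hol (WW c₀ ρ)) = h.bw i (ρ₀ a) := fun i hi' a => by
    rw [ht i hi']; rfl
  let th : A0 →ₐ[ℂ] A := ((h.rw.comp φh).comp ι).codRestrict A (fun a => hAh a)
  have hthc : ∀ a, ((th a : A) : Hol (WW c₀ ρ)) = h.rw (φh (ι a)) := fun a => rfl
  let D1A := resD E1 A (hAD 0)
  let D2A := resD E2 A (hAD 1)
  let m0A : A := ⟨mW 0, (hAm 0 h0N).1⟩
  let k0A : A := ⟨kW 0, (hAm 0 h0N).2⟩
  -- PSI
  have hbwi : ∀ i, Function.Injective (h.bw i) := fun i =>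
    h.rw_injective.comp (h.bt_injective i)
  obtain ⟨fA, hfA, hpsi⟩ := Psi867.psi A A0 del z0 g0 hi
    (fun a b hb hab => by
      have h1 : ρ₀ b ≠ 0 := fun h2 => hb (hρi (h2.trans (map_zero ρ₀).symm))
      have h2 : DH _ (ρ₀ a) * ρ₀ b = ρ₀ a * DH _ (ρ₀ b) := by
        rw [← hρd, ← hρd, ← map_mul, ← map_mul, hab]
      obtain ⟨c, hc⟩ := const_of (bO_preconnected e r) (ρ₀ a) (ρ₀ b) h1 h2
      exact ⟨c, hρi (by rw [hc, map_smul])⟩)
    D1A D2A m0A k0A (Subtype.ext (dM_m hj)) (Subtype.ext dM_k) (Subtype.ext dK_m)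
    (Subtype.ext (dK_k hj)) N t
    (fun j hj' a b hab => by
      have h1 := congrArg (fun x : A => (x : Hol (WW c₀ ρ))) hab
      simp only [htc j hj'] at h1
      exact hρi (hbwi j h1))
    (fun j hj' a => by
      apply Subtype.ext
      change E1 (t j a : Hol (WW c₀ ρ)) = (t j (del a) : Hol (WW c₀ ρ)) * E1 (t j z0 : Hol (WW c₀ ρ))
      rw [htc j hj', htc j hj', htc j hj', hρd, hρz]
      exact hDb 0 j _)
    (fun j hj' a => by
      apply Subtype.ext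
      change E2 (t j a : Hol (WW c₀ ρ)) = (t j (del a) : Hol (WW c₀ ρ)) * E2 (t j z0 : Hol (WW c₀ ρ))
      rw [htc j hj', htc j hj', htc j hj', hρd, hρz]
      exact hDb 1 j _)
    (fun i hi' j hj' hij h0 => by
      have h1 := congrArg (fun x : A => (x : Hol (WW c₀ ρ))) h0
      have h2 : E1 (t i z0 : Hol (WW c₀ ρ)) * E2 (t j z0 : Hol (WW c₀ ρ)) -
          E2 (t i z0 : Hol (WW c₀ ρ)) * E1 (t j z0 : Hol (WW c₀ ρ)) = 0 := h1
      rw [htc i hi', htc j hj', hρz, hbwz i hi'.le, hbwz j hj'.le] at h2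
      have h3 := jcb_eq hj (h.rw (bH c₀ ρ β i)) (h.rw (bH c₀ ρ β j))
      rw [h2, mul_zero] at h3
      exact h.jac_ne hi'.le hj'.le hij h3.symm)
  -- the point
  have hp : ∃ p : WW c₀ ρ, ((fA : Hol (WW c₀ ρ)) : WW c₀ ρ → ℂ) p ≠ 0 := by
    by_contra hcon
    push Not at hcon
    exact hfA (Subtype.ext (Subtype.ext (funext hcon)))
  obtain ⟨p, hp⟩ := hp
  let ev : A →ₐ[ℂ] ℂ := (evH p).comp A.val
  obtain ⟨hA1, hA2, hA3⟩ := hpsi ev hp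
  obtain ⟨b, hb⟩ := h.exists_pts p
  obtain ⟨ψ, hψc, hψm, hψk, Φ, hΦ, hν, hν0⟩ := choice (c₀ := e) (r := r) hz0 hρd hρz b
    (fun j hj' a => by
      rw [hb]
      change evH p (t j a : Hol (WW c₀ ρ)) = _
      rw [htc j hj']) hA1 hA2 hA3
  -- total families
  let cl : ℕ → ℕ := fun i => if i < N then i else 0
  have hcl : ∀ i < N, cl i = i := fun i hi' => if_pos hi'
  have hclN : ∀ i, cl i < N := by
    intro i
    by_cases hi' : i < N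
    · rw [hcl i hi']; exact hi'
    · have : cl i = 0 := if_neg hi'
      rw [this]; exact hN
  let F : ℕ → A0 →ₐ[ℂ] (Hol (bO e r))⟦X⟧ := fun i => Φ (cl i)
  have hFd : ∀ i a, F i (del a) = cD (DH _) (F i a) := fun i a => (hΦ _ (hclN i)).1 a
  have hFc : ∀ i a, constantCoeff (F i a) = ρ₀ a := fun i a => (hΦ _ (hclN i)).2.1 a
  have hFz : ∀ i, F i z0 = C (zH _) := fun i => (hΦ _ (hclN i)).2.2.1
  have hFΦ : ∀ i < N, F i = Φ i := fun i hi' => by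
    change Φ (cl i) = Φ i
    rw [hcl i hi']
  let w : ℕ → ℂ⟦X⟧ := fun i => ψ (t (cl i) z0) - C (b (cl i) : ℂ)
  have hw : ∀ i, X ∣ w i := by
    intro i
    obtain ⟨hs, -⟩ := (hΦ _ (hclN i)).2.2.2
    have := (dvd_neg).2 hs
    rw [neg_sub] at this
    exact this
  have hψb : ∀ i < N, ∀ a hm', ψ ⟨h.bw i (ρ₀ a), hm'⟩ =
      pt (cD (DH (bO e r))) (PowerSeries.map ((evH p : Hol (WW c₀ ρ) →+* ℂ).comp
        (h.bw i : Hol (bO e r) →+* Hol (WW c₀ ρ)))) (w i) (hw i) (F i a) := by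
    intro i hi' a hm'
    obtain ⟨hs, hs2⟩ := (hΦ i hi').2.2.2
    have hw' : (X : ℂ⟦X⟧) ∣ (ψ.comp (t i)) z0 - C (b i : ℂ) := by
      have := (dvd_neg).2 hs
      rw [neg_sub] at this
      exact this
    have h1 := psi_eq_pt (b i) del (ψ.comp (t i)) (Φ i) (hΦ i hi').1 hs hs2 hw' a
    have h2 : (⟨h.bw i (ρ₀ a), hm'⟩ : A) = t i a := Subtype.ext (htc i hi' a).symm
    rw [h2, hFΦ i hi']
    refine h1.trans ?_
    refine congrArg (fun Ψ : (Hol (bO e r))⟦X⟧ →+* ℂ⟦X⟧ => Ψ (Φ i a))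
      (pt_congr (cD (DH (bO e r))) _ _ ?_ ?_)
    · congr 1
      exact RingHom.ext fun f => hb i f
    · change (ψ.comp (t i)) z0 - C (b i : ℂ) = ψ (t (cl i) z0) - C (b (cl i) : ℂ)
      rw [hcl i hi']
      rfl
  -- the hat mirror
  have hpU : (p : ℂ × ℂ) ∈ UU c₀ ρ := WW_le h.ch.ρ_pos p.2
  let bh : bO yh rh := ⟨_, hu ⟨p, hpU⟩⟩
  have hbh : ∀ f, evH bh f = evH p (h.rw (φh f)) := fun f => rfl
  have hφc : ∀ a, constantCoeff ((ψ.comp th) a) = evH bh (ι a) := by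
    intro a
    rw [hbh]
    exact hψc (th a)
  have hsh : (X : ℂ⟦X⟧) ∣ C (bh : ℂ) - (ψ.comp th) z0 := X_dvd_shift (by
    rw [hφc, hιz]; rfl)
  obtain ⟨Fh, hFhd, hFhc, hFhz, hFhe⟩ := exists_mirror bh hz0 hιd hιz hφc hsh
  have hwh : (X : ℂ⟦X⟧) ∣ (ψ.comp th) z0 - C (bh : ℂ) := by
    have := (dvd_neg).2 hsh
    rw [neg_sub] at this
    exact this
  have hψh : ∀ a hm', ψ ⟨h.rw (φh (ι a)), hm'⟩ =
      pt (cD (DH (bO yh rh))) (PowerSeries.map ((evH p : Hol (WW c₀ ρ) →+* ℂ).comp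
        ((h.rw.comp φh : Hol (bO yh rh) →ₐ[ℂ] Hol (WW c₀ ρ)) :
          Hol (bO yh rh) →+* Hol (WW c₀ ρ)))) ((ψ.comp th) z0 - C (bh : ℂ)) hwh (Fh a) := by
    intro a hm'
    have h1 := psi_eq_pt bh del (ψ.comp th) Fh hFhd hsh hFhe hwh a
    refine h1.trans ?_
    refine congrArg (fun Ψ : (Hol (bO yh rh))⟦X⟧ →+* ℂ⟦X⟧ => Ψ (Fh a))
      (pt_congr (cD (DH (bO yh rh))) _ _ ?_ rfl)
    congr 1
  -- the hat vertex
  have hGh : constantCoeff (Fh g0) = ι g0 := hFhc g0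
  have huh' : IsUnit ((φh : Hol (bO yh rh) →+* Hol (UU c₀ ρ)) (DH _ (constantCoeff (Fh g0))) -
      hU c₀ ρ (m 0)) := by
    rw [hGh, ← hιd]
    exact hunit
  obtain ⟨yy, hyy, hinch⟩ := hat_exists (DH (bO yh rh)) (DH_zH _)
    (φh : Hol (bO yh rh) →+* Hol (UU c₀ ρ)) (Fh g0) (m0 := hU c₀ ρ (m 0)) (k0 := hU c₀ ρ (k 0))
    (by
      rw [hGh, RingHom.coe_coe, hφz]
      exact hinc) huh'
  have hyfl : PowerSeries.map (fl c₀ ρ : Hol (UU c₀ ρ) →+* Hol (UU c₀ ρ)) yy = yy :=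
    hat_flip (DH (bO yh rh)) (DH_zH _) (φh : Hol (bO yh rh) →+* Hol (UU c₀ ρ)) (Fh g0) huh' hyy
      hinch (fl c₀ ρ : Hol (UU c₀ ρ) →+* Hol (UU c₀ ρ)) (by
        refine RingHom.ext fun f => ?_
        ext x
        change (f : bO yh rh → ℂ) ⟨(uH : UU c₀ ρ → ℂ) ⟨((x : ℂ × ℂ).1, -(x : ℂ × ℂ).2), _⟩, _⟩ =
          (f : bO yh rh → ℂ) ⟨(uH : UU c₀ ρ → ℂ) x, _⟩
        refine congrArg (fun z => (f : bO yh rh → ℂ) z) (Subtype.ext ?_)
        exact congrArg (fun F : Hol (UU c₀ ρ) => (F : UU c₀ ρ → ℂ) x) hfl)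
      h.fl_m h.fl_k
  -- the outer chain over `O⟦ε⟧`
  obtain ⟨y, m', k', hy, hm0, hk0, hout, hcm⟩ := outer_exists (DH (bO e r)) (DH_zH _) N
    (fun i => F i g0) (fun i => by rw [hFc, hρg]) h.bo _ _ h.chain_O (fun i hi' => h.unit_mO hi')
    (fun i hi' => h.unit_tO hi')
  have hlift := h.coreB hN hρg hρd hρz F hFd hFz hFc y hy m' k' hout hm0 hk0 hcm φh Fh hFhd hFhz
    hFhc yy hyy hinch D p (fun f hf => by
      refine HolXY289.eq_zero_of_words' D (WW_preconnected c₀ ρ)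
        ![P1 (mW 0), P1 (kW 0)] ![Q1 (mW 0), Q1 (kW 0)] (fun f => ?_) (fun f => ?_) f p hf
      · rw [Fin.sum_univ_two]
        exact span_P hj f
      · rw [Fin.sum_univ_two]
        exact span_Q hj f)
    hDb hDh hDm hDk A hAs hAh hAm hAμ hAτ hAτh ψ (fun _ => hψm) (fun _ => hψk) w hw hψb _ hwh hψh P
    (by rw [hφz]; exact hrel)
  rw [hφz] at hlift
  obtain ⟨Q, hQ0, hQ⟩ := h.coreA hN hρg F hFc
    (fun i hi' l hl hil => by rw [hFΦ i hi', hFΦ l hl]; exact hν i hi' l hl hil)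
    (fun i hi' => by rw [hFΦ i hi']; exact hν0 i hi') y hy m' k' hout hm0 hk0 (C uH + yy)
    (by
      rw [map_add, map_C, hyfl]
      congr 2) P hlift hne
  refine ⟨Q, hQ0, ?_⟩
  have hcc : constantCoeff (C uH + yy) = uH := by
    rw [map_add, constantCoeff_C, X_dvd_iff.1 hyy, add_zero]
  rw [hcc] at hQ
  exact hQ

end coreC

end

end Crest.Agent.R102.CT575
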