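import Crest.Agent.R102.GrowthDefs_314

/-!
Row 102, block GROWTH (helper314): growth of `θ`, `H`, lower bound of `|y| + |y'|` from the growth of
`y`, `G` (Gronwall on vertical segments).
-/

set_option autoImplicit false

open Set Filter Topology Metric

noncomputable section

namespace Crest.Agent.R102.GrowPsi314

open Crest.Agent.R102.Growth Crest.Agent.R102.T5

section Gron

set_option linter.unusedSectionVars false

variable {E : Type*} [NormedAddCommGroup E] [NormedSpace ℂ E]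

/-- Gronwall on a segment -/
lemma gron_seg {V : Set ℂ} {F F' : ℂ → E} (hF : ∀ z ∈ V, HasDerivAt F (F' z) z) {p0 p1 : ℂ} {A : ℝ}
    (hseg : ∀ s : ℝ, s ∈ Icc (0 : ℝ) 1 → p0 + s * (p1 - p0) ∈ V ∧
      ‖F' (p0 + s * (p1 - p0))‖ ≤ A * ‖F (p0 + s * (p1 - p0))‖) :
    ‖F p1‖ ≤ ‖F p0‖ * Real.exp (A * ‖p1 - p0‖) := by
  set f : ℝ → E := fun s => F (p0 + s * (p1 - p0)) with hf
  have hd : ∀ s ∈ Icc (0 : ℝ) 1, HasDerivAt f ((p1 - p0) • F' (p0 + s * (p1 - p0))) s := by
    intro s hs
    have h1 : HasDerivAt (fun s : ℝ => p0 + (s : ℂ) * (p1 - p0)) (p1 - p0) s := by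
      have h2 : HasDerivAt (fun s : ℝ => (s : ℂ)) 1 s := Complex.ofRealCLM.hasDerivAt
      have h3 := (h2.mul_const (p1 - p0)).const_add p0
      simpa using h3
    have h4 := (hF _ (hseg s hs).1).scomp s h1
    exact h4
  have hb : ∀ s ∈ Ico (0 : ℝ) 1, ‖(p1 - p0) • F' (p0 + s * (p1 - p0))‖ ≤
      (A * ‖p1 - p0‖) * ‖f s‖ + 0 := by
    intro s hs
    have h1 := (hseg s ⟨hs.1, hs.2.le⟩).2
    rw [norm_smul, add_zero]
    calc ‖p1 - p0‖ * ‖F' (p0 + s * (p1 - p0))‖ ≤ ‖p1 - p0‖ * (A * ‖F (p0 + s * (p1 - p0))‖) := by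
          gcongr
      _ = A * ‖p1 - p0‖ * ‖f s‖ := by
          simp only [hf]
          ring
  have h := norm_le_gronwallBound_of_norm_deriv_right_le (f := f)
    (f' := fun s => (p1 - p0) • F' (p0 + s * (p1 - p0))) (δ := ‖f 0‖) (K := A * ‖p1 - p0‖)
    (ε := 0) (a := 0) (b := 1) (fun s hs => (hd s hs).continuousAt.continuousWithinAt)
    (fun s hs => (hd s ⟨hs.1, hs.2.le⟩).hasDerivWithinAt) le_rfl hb 1 ⟨zero_le_one, le_rfl⟩
  rw [gronwallBound_ε0] at h
  simpa [hf] using h

/-- a continuous 1-periodic function on the line is bounded -/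
lemma bdd_per {f : ℝ → E} (hf : Continuous f) (hp : ∀ x, f (x + 1) = f x) :
    ∃ C : ℝ, 0 ≤ C ∧ ∀ x, ‖f x‖ ≤ C := by
  obtain ⟨C, hC⟩ := (isCompact_Icc (a := (0 : ℝ)) (b := 1)).exists_bound_of_continuousOn
    hf.continuousOn
  have h0 := (norm_nonneg _).trans (hC 0 ⟨le_rfl, zero_le_one⟩)
  refine ⟨C, h0, fun x => ?_⟩
  obtain ⟨y, hy, hxy⟩ := Function.Periodic.exists_mem_Ico₀ (f := f) (c := 1) hp one_pos x
  rw [hxy]
  exact hC y ⟨hy.1, hy.2.le⟩

end Gron

lemma str_add_one {h0 : ℝ} {z : ℂ} (hz : z ∈ Str h0) : z + 1 ∈ Str h0 := by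
  change |(z + 1).im| < h0
  have : |z.im| < h0 := hz
  simpa using this

lemma deriv_per {h0 : ℝ} {f : ℂ → ℂ} (hp : ∀ z ∈ Str h0, f (z + 1) = f z) :
    ∀ z ∈ Str h0, deriv f (z + 1) = deriv f z := by
  intro z hz
  have hev : (fun z => f (z + 1)) =ᶠ[𝓝 z] f := by
    filter_upwards [(isOpen_Str h0).mem_nhds hz] with w hw
    exact hp w hw
  have h1 := hev.deriv_eq
  rwa [deriv_comp_add_const] at h1

lemma real_mem {h0 : ℝ} (hh : 0 < h0) (x : ℝ) : (x : ℂ) ∈ Str h0 := by
  change |(x : ℂ).im| < h0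
  simpa using hh

/-- bound on the real line -/
lemma bdd_real {h0 : ℝ} (hh : 0 < h0) {f : ℂ → ℂ} (hf : DifferentiableOn ℂ f (Str h0))
    (hp : ∀ z ∈ Str h0, f (z + 1) = f z) : ∃ C : ℝ, 0 ≤ C ∧ ∀ x : ℝ, ‖f x‖ ≤ C := by
  have hc : Continuous fun x : ℝ => f x := by
    rw [continuous_iff_continuousAt]
    intro x
    have h1 : ContinuousAt f (x : ℂ) :=
      (hf.differentiableAt ((isOpen_Str h0).mem_nhds (real_mem hh x))).continuousAt
    exact h1.comp Complex.continuous_ofReal.continuousAt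
  refine bdd_per hc fun x => ?_
  have := hp x (real_mem hh x)
  push_cast
  exact this

/-- positive lower bound on the real line -/
lemma low_real {h0 : ℝ} (hh : 0 < h0) {f : ℂ → ℂ} (hf : DifferentiableOn ℂ f (Str h0))
    (hp : ∀ z ∈ Str h0, f (z + 1) = f z) (hne : ∀ x : ℝ, f x ≠ 0) :
    ∃ c : ℝ, 0 < c ∧ ∀ x : ℝ, c ≤ ‖f x‖ := by
  have hc : Continuous fun x : ℝ => (f x)⁻¹ := by
    rw [continuous_iff_continuousAt]
    intro x
    have h1 : ContinuousAt f (x : ℂ) :=
      (hf.differentiableAt ((isOpen_Str h0).mem_nhds (real_mem hh x))).continuousAt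
    have h2 : ContinuousAt (fun x : ℝ => f x) x := h1.comp Complex.continuous_ofReal.continuousAt
    exact h2.inv₀ (hne x)
  obtain ⟨C, hC0, hC⟩ := bdd_per hc fun x => by
    have := hp x (real_mem hh x)
    push_cast
    rw [this]
  refine ⟨(C + 1)⁻¹, by positivity, fun x => ?_⟩
  have h1 := hC x
  rw [norm_inv] at h1
  have h2 : 0 < ‖f x‖ := norm_pos_iff.2 (hne x)
  rw [inv_le_comm₀ (by positivity) h2]
  linarith

lemma str_conv' (h0 : ℝ) : Convex ℝ (Str h0) := by
  have e : Str h0 = {z : ℂ | -h0 < z.im} ∩ {z : ℂ | z.im < h0} := by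
    ext z
    constructor
    · intro h
      have := abs_lt.1 (show |z.im| < h0 from h)
      exact ⟨this.1, this.2⟩
    · rintro ⟨h1, h2⟩
      show |z.im| < h0
      exact abs_lt.2 ⟨h1, h2⟩
  rw [e]
  exact ((convex_Ioi (-h0)).linear_preimage Complex.imLm).inter
    ((convex_Iio h0).linear_preimage Complex.imLm)

/-- the third order linear equation of `H` -/
lemma H_ode {θ H K G : ℂ → ℂ} {h0 : ℝ} (hh : 0 < h0) (E : EntOn θ H K (Str h0))
    (hG : ∀ z, G z = K z - 2 * deriv θ z ^ 2) (hy0 : deriv θ 0 ≠ 0) :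
    ∀ z ∈ Str h0, deriv (deriv (deriv H)) z = (G z - deriv θ z ^ 2) * deriv H z -
      3 * deriv θ z * deriv (deriv θ) z * H z := by
  have hV := E.Vo
  have aθ : AnalyticOnNhd ℂ θ (Str h0) := E.dθ.analyticOnNhd hV
  have aH : AnalyticOnNhd ℂ H (Str h0) := E.dH.analyticOnNhd hV
  have aK : AnalyticOnNhd ℂ K (Str h0) := E.dK.analyticOnNhd hV
  have ay := aθ.deriv
  have ay' := ay.deriv
  have aH' := aH.deriv
  have aH'' := aH'.deriv
  have aG : AnalyticOnNhd ℂ G (Str h0) := by
    have h1 : AnalyticOnNhd ℂ (fun z => K z - 2 * deriv θ z ^ 2) (Str h0) :=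
      aK.sub (analyticOnNhd_const.mul (ay.pow 2))
    have e : G = fun z => K z - 2 * deriv θ z ^ 2 := funext hG
    rw [e]
    exact h1
  have hrel : ∀ z ∈ Str h0, deriv θ z * (deriv (deriv (deriv H)) z -
      ((G z - deriv θ z ^ 2) * deriv H z - 3 * deriv θ z * deriv (deriv θ) z * H z)) = 0 := by
    intro z hz
    have hev : (fun z => deriv θ z * deriv (deriv H) z - deriv (deriv θ) z * deriv H z
        + (deriv θ z) ^ 3 * H z) =ᶠ[𝓝 z] fun _ => -1 := by
      filter_upwards [hV.mem_nhds hz] with w hw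
      exact E.relH w hw
    have h1 := hev.deriv_eq
    have d1 := (ay z hz).differentiableAt.hasDerivAt
    have d2 := (ay' z hz).differentiableAt.hasDerivAt
    have d3 := (aH z hz).differentiableAt.hasDerivAt
    have d4 := (aH' z hz).differentiableAt.hasDerivAt
    have d5 := (aH'' z hz).differentiableAt.hasDerivAt
    have h2 := (((d1.mul d5).sub (d2.mul d4)).add ((d1.pow 3).mul d3)).deriv
    have h3 : deriv (fun z => deriv θ z * deriv (deriv H) z - deriv (deriv θ) z * deriv H z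
        + (deriv θ z) ^ 3 * H z) z = 0 := by
      rw [h1, deriv_const]
    have h4 := E.relK z hz
    rw [← hG z] at h4
    have h5 : deriv (fun z => deriv θ z * deriv (deriv H) z - deriv (deriv θ) z * deriv H z
        + (deriv θ z) ^ 3 * H z) z = deriv (deriv θ * deriv (deriv H) - deriv (deriv θ) * deriv H
        + deriv θ ^ 3 * H) z := rfl
    rw [h5, h2, h4] at h3
    push_cast at h3
    simp only [Pi.pow_apply] at h3
    linear_combination h3
  have hD : AnalyticOnNhd ℂ (fun z => deriv (deriv (deriv H)) z -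
      ((G z - deriv θ z ^ 2) * deriv H z - 3 * deriv θ z * deriv (deriv θ) z * H z)) (Str h0) :=
    aH''.deriv.sub (((aG.sub (ay.pow 2)).mul aH').sub
      (((analyticOnNhd_const.mul ay).mul ay').mul aH))
  have hpre : IsPreconnected (Str h0) := (str_conv' h0).isPreconnected
  rcases AnalyticOnNhd.eq_zero_or_eq_zero_of_mul_eq_zero ay hD hrel hpre with h | h
  · exact absurd (h 0 (by simpa using real_mem hh 0)) hy0
  · intro z hz
    exact sub_eq_zero.1 (h z hz)

/-- a point of the closed strip and its vertical segment to the real axis -/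
lemma seg_mem {h0 d : ℝ} {z : ℂ} (hz : |z.im| ≤ h0 - d) {s : ℝ}
    (hs : s ∈ Icc (0 : ℝ) 1) :
    |((z.re : ℂ) + s * (z - (z.re : ℂ))).im| ≤ h0 - d ∧
      |(z + s * ((z.re : ℂ) - z)).im| ≤ h0 - d := by
  have e1 : ((z.re : ℂ) + s * (z - (z.re : ℂ))).im = s * z.im := by simp
  have e2 : (z + s * ((z.re : ℂ) - z)).im = (1 - s) * z.im := by
    simp
    ring
  have h1s : (0 : ℝ) ≤ 1 - s := by linarith [hs.2]
  rw [e1, e2, abs_mul, abs_mul, abs_of_nonneg hs.1, abs_of_nonneg h1s]
  have h := abs_nonneg z.im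
  constructor
  · nlinarith [hs.1, hs.2]
  · nlinarith [hs.1, hs.2]

lemma norm_re_sub (z : ℂ) : ‖z - (z.re : ℂ)‖ = |z.im| := by
  have e : z - (z.re : ℂ) = z.im * Complex.I := by
    apply Complex.ext <;> simp
  rw [e, norm_mul, Complex.norm_I, mul_one, Complex.norm_real, Real.norm_eq_abs]

set_option maxHeartbeats 2000000 in
/-- **growth of the objects of the mirror** -/
theorem psi {q : C(ℂ, ℂ)} {η h0 : ℝ} {θ H K G : ℂ → ℂ} (hh : 0 < h0) (hM : MirS q η h0 θ H K G)
    (hg : ∀ k : ℕ, ∃ C : ℝ, 0 < C ∧ ∀ d : ℝ, 0 < d → d < h0 → ∀ z : ℂ, |z.im| ≤ h0 - d →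
      Real.log (1 + ‖deriv θ z‖ + ‖G z‖) ≤ C * d ^ (-(1 / ((k : ℝ) + 1)))) :
    ∀ k : ℕ, ∃ C : ℝ, 0 < C ∧ ∀ d : ℝ, 0 < d → d < h0 → ∀ z : ℂ, |z.im| ≤ h0 - d →
      ‖deriv θ z‖ ≤ Real.exp (C * d ^ (-(1 / ((k : ℝ) + 1)))) ∧
      ‖deriv (deriv θ) z‖ ≤ Real.exp (C * d ^ (-(1 / ((k : ℝ) + 1)))) ∧
      ‖G z‖ ≤ Real.exp (C * d ^ (-(1 / ((k : ℝ) + 1)))) ∧
      ‖θ z - 2 * Real.pi * z‖ ≤ Real.exp (C * d ^ (-(1 / ((k : ℝ) + 1)))) ∧
      Real.log (1 + ‖H z‖ + ‖deriv H z‖ + ‖deriv (deriv H) z‖) ≤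
        Real.exp (C * d ^ (-(1 / ((k : ℝ) + 1)))) ∧
      Real.exp (-Real.exp (C * d ^ (-(1 / ((k : ℝ) + 1))))) ≤
        ‖deriv θ z‖ + ‖deriv (deriv θ) z‖ := by
  intro k
  obtain ⟨C0, hC0, hb⟩ := hg k
  set e : ℝ := 1 / ((k : ℝ) + 1) with he
  have he0 : 0 < e := by positivity
  have he1 : e ≤ 1 := by
    rw [he, div_le_one (by positivity)]
    linarith [(Nat.cast_nonneg k : (0 : ℝ) ≤ k)]
  have hV := hM.ent.Vo
  have E := hM.ent
  have aθ : AnalyticOnNhd ℂ θ (Str h0) := E.dθ.analyticOnNhd hV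
  have aH : AnalyticOnNhd ℂ H (Str h0) := E.dH.analyticOnNhd hV
  have ay := aθ.deriv
  have ay' := ay.deriv
  have aH' := aH.deriv
  have aH'' := aH'.deriv
  have hy0 : ∀ x : ℝ, deriv θ x ≠ 0 := fun x h => by
    have := (hM.y_pos x).1
    rw [h] at this
    simp at this
  have hode := H_ode hh E hM.G_eq (by simpa using hy0 0)
  -- periods
  have pH' := deriv_per hM.Hper
  have pH'' := deriv_per pH'
  have py := hM.yper
  obtain ⟨B1, hB10, hB1⟩ := bdd_real hh aH.differentiableOn hM.Hper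
  obtain ⟨B2, hB20, hB2⟩ := bdd_real hh aH'.differentiableOn pH'
  obtain ⟨B3, hB30, hB3⟩ := bdd_real hh aH''.differentiableOn pH''
  obtain ⟨c, hc0, hc⟩ := low_real hh ay.differentiableOn py hy0
  have aΘ : DifferentiableOn ℂ (fun z => θ z - 2 * Real.pi * z) (Str h0) :=
    E.dθ.sub (differentiableOn_const _ |>.mul differentiableOn_id)
  obtain ⟨B4, hB40, hB4⟩ := bdd_real hh aΘ fun z hz => by
    rw [hM.θper z hz]
    ring
  -- constants
  set ch : ℝ := h0 ^ (-e) with hch
  have hch0 : 0 < ch := Real.rpow_pos_of_pos hh _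
  set C1 : ℝ := 2 * C0 + ((k : ℝ) + 1) + 2 / ch with hC1
  have hC10 : 0 < C1 := by positivity
  set C2 : ℝ := 6 * C1 + 6 / ch with hC2
  set F0 : ℝ := B1 + B2 + B3 with hF0
  set C3 : ℝ := C2 + (3 * F0 + h0 + 1 / c + B4 + 9 * h0) / ch with hC3
  refine ⟨C3, by positivity, ?_⟩
  intro d hd hdh z hz
  set D : ℝ := d ^ (-e) with hD
  have hD0 : 0 < D := Real.rpow_pos_of_pos hd _
  have hDc : ch ≤ D := by
    rw [hch, hD, Real.rpow_neg hh.le, Real.rpow_neg hd.le]
    gcongr
  have hDc1 : ∀ t : ℝ, 0 ≤ t → t ≤ t / ch * D := by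
    intro t ht
    rw [div_mul_eq_mul_div, le_div_iff₀ hch0]
    gcongr
  -- bounds at distance d
  have key : ∀ δ : ℝ, 0 < δ → δ < h0 → ∀ w : ℂ, |w.im| ≤ h0 - δ →
      ‖deriv θ w‖ ≤ Real.exp (C0 * δ ^ (-e)) ∧ ‖G w‖ ≤ Real.exp (C0 * δ ^ (-e)) := by
    intro δ hδ hδh w hw
    have h1 := hb δ hδ hδh w hw
    have h2 : 0 < 1 + ‖deriv θ w‖ + ‖G w‖ := by positivity
    rw [Real.log_le_iff_le_exp h2] at h1
    have := norm_nonneg (deriv θ w)
    have := norm_nonneg (G w)
    constructor <;> linarith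
  have hhalf : (d / 2) ^ (-e) ≤ 2 * D := by
    rw [hD, div_eq_mul_inv, Real.mul_rpow hd.le (by norm_num), Real.inv_rpow (by norm_num),
      ← Real.rpow_neg (by norm_num), neg_neg]
    have h1 : (2 : ℝ) ^ e ≤ 2 ^ (1 : ℝ) := Real.rpow_le_rpow_of_exponent_le (by norm_num) he1
    rw [Real.rpow_one] at h1
    nlinarith [hD0]
  have hyD : ∀ w : ℂ, |w.im| ≤ h0 - d → ‖deriv θ w‖ ≤ Real.exp (C1 * D) ∧
      ‖G w‖ ≤ Real.exp (C1 * D) := by
    intro w hw
    obtain ⟨h1, h2⟩ := key d hd hdh w hw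
    have h3 : C0 * d ^ (-e) ≤ C1 * D := by
      rw [← hD]
      gcongr
      have : (0 : ℝ) ≤ k := Nat.cast_nonneg k
      have : 0 < 2 / ch := by positivity
      linarith
    exact ⟨h1.trans (Real.exp_le_exp.2 h3), h2.trans (Real.exp_le_exp.2 h3)⟩
  have hy'D : ∀ w : ℂ, |w.im| ≤ h0 - d → ‖deriv (deriv θ) w‖ ≤ Real.exp (C1 * D) := by
    intro w hw
    have hsub : closedBall w (d / 2) ⊆ {z | |z.im| ≤ h0 - d / 2} := by
      intro u hu
      rw [mem_closedBall, dist_eq_norm] at hu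
      have h1 := (Complex.abs_im_le_norm (u - w)).trans hu
      have h2 : |u.im| ≤ |w.im| + |(u - w).im| := by
        have : u.im = w.im + (u - w).im := by simp
        rw [this]
        exact abs_add_le _ _
      show |u.im| ≤ h0 - d / 2
      linarith
    have hin : ∀ u : ℂ, |u.im| ≤ h0 - d / 2 → u ∈ Str h0 := by
      intro u hu
      show |u.im| < h0
      linarith
    have h1 : ‖deriv (deriv θ) w‖ ≤ Real.exp (C0 * (d / 2) ^ (-e)) / (d / 2) := by
      refine Complex.norm_deriv_le_of_forall_mem_sphere_norm_le (by positivity) ?_ ?_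
      · refine DifferentiableOn.diffContOnCl ?_
        rw [closure_ball _ (by positivity)]
        exact ay.differentiableOn.mono fun u hu => hin u (hsub hu)
      · intro u hu
        exact (key (d / 2) (by positivity) (by linarith) u
          (hsub (sphere_subset_closedBall hu))).1
    have h2 : Real.exp (C0 * (d / 2) ^ (-e)) ≤ Real.exp (2 * C0 * D) := by
      apply Real.exp_le_exp.2
      calc C0 * (d / 2) ^ (-e) ≤ C0 * (2 * D) := by gcongr
        _ = 2 * C0 * D := by ring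
    have h3 : (d / 2)⁻¹ ≤ Real.exp (((k : ℝ) + 1 + 2 / ch) * D) := by
      have h4 : (d / 2)⁻¹ = 2 * (1 / d) := by
        field_simp
      have h5 : Real.log (1 / d) ≤ ((k : ℝ) + 1) * D := by
        have h6 := Real.log_le_rpow_div (x := 1 / d) (by positivity) he0
        rw [Real.div_rpow (by norm_num) hd.le, Real.one_rpow, one_div (d ^ e),
          ← Real.rpow_neg hd.le, ← hD, he] at h6
        refine h6.trans (le_of_eq ?_)
        field_simp
      have h6 : 1 / d ≤ Real.exp (((k : ℝ) + 1) * D) := by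
        rwa [← Real.log_le_iff_le_exp (by positivity)]
      have h7 : (2 : ℝ) ≤ Real.exp (2 / ch * D) := by
        have h8 := hDc1 2 (by norm_num)
        have h9 := Real.add_one_le_exp (2 / ch * D)
        linarith
      rw [h4, add_mul, Real.exp_add, mul_comm]
      gcongr
    calc ‖deriv (deriv θ) w‖ ≤ Real.exp (C0 * (d / 2) ^ (-e)) / (d / 2) := h1
      _ = Real.exp (C0 * (d / 2) ^ (-e)) * (d / 2)⁻¹ := div_eq_mul_inv _ _
      _ ≤ Real.exp (2 * C0 * D) * Real.exp (((k : ℝ) + 1 + 2 / ch) * D) := by gcongr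
      _ = Real.exp (C1 * D) := by
          rw [← Real.exp_add, hC1]
          congr 1
          ring
  -- the coefficient
  set A : ℝ := Real.exp (C2 * D) with hA
  have hE1 : 1 ≤ Real.exp (C1 * D) := Real.one_le_exp (by positivity)
  set P : ℝ := Real.exp (C1 * D) with hP
  have hA6 : 6 * P ^ 2 ≤ A := by
    have h1 : (6 : ℝ) ≤ Real.exp (6 / ch * D) := by
      have h8 := hDc1 6 (by norm_num)
      have h9 := Real.add_one_le_exp (6 / ch * D)
      linarith
    have h2 : P ^ 2 ≤ P ^ 6 := pow_le_pow_right₀ hE1 (by norm_num)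
    have h3 : P ^ 6 = Real.exp (6 * C1 * D) := by
      rw [hP, ← Real.exp_nat_mul]
      congr 1
      push_cast
      ring
    calc 6 * P ^ 2 ≤ Real.exp (6 / ch * D) * P ^ 6 := by gcongr
      _ = A := by
          rw [h3, ← Real.exp_add, hA, hC2]
          congr 1
          ring
  have hAC : ∀ t : ℝ, 0 ≤ t → t / ch ≤ C3 - C2 → t * A ≤ Real.exp (C3 * D) := by
    intro t ht htc
    have h1 : t ≤ Real.exp ((C3 - C2) * D) := by
      have h8 := hDc1 t ht
      have h9 := Real.add_one_le_exp (t / ch * D)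
      have h10 : Real.exp (t / ch * D) ≤ Real.exp ((C3 - C2) * D) := by
        apply Real.exp_le_exp.2
        gcongr
      linarith
    calc t * A ≤ Real.exp ((C3 - C2) * D) * Real.exp (C2 * D) := by gcongr
      _ = Real.exp (C3 * D) := by
          rw [← Real.exp_add]
          congr 1
          ring
  have hA1 : 1 ≤ A := by nlinarith [hA6, hE1]
  have hPA' : P ≤ A := by nlinarith [hA6, hE1]
  have hC32 : ∀ t : ℝ, t ≤ 3 * F0 + h0 + 1 / c + B4 + 9 * h0 → t / ch ≤ C3 - C2 := by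
    intro t ht
    rw [hC3]
    have : t / ch ≤ (3 * F0 + h0 + 1 / c + B4 + 9 * h0) / ch := by gcongr
    linarith
  have hF00 : 0 ≤ F0 := by positivity
  have hc1 : 0 < 1 / c := by positivity
  have hPA : P ≤ Real.exp (C3 * D) := by
    have h1 : P ≤ 1 * A := by nlinarith [hA6, hE1]
    refine h1.trans ?_
    rw [hA, one_mul]
    apply Real.exp_le_exp.2
    gcongr
    rw [hC3]
    have : 0 ≤ (3 * F0 + h0 + 1 / c + B4 + 9 * h0) / ch := by positivity
    linarith
  have him : |z.im| ≤ h0 := by linarith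
  have hzS : z ∈ Str h0 := by
    show |z.im| < h0
    linarith
  refine ⟨(hyD z hz).1.trans hPA, (hy'D z hz).trans hPA, (hyD z hz).2.trans hPA, ?_, ?_, ?_⟩
  · -- θ
    have hconv : Convex ℝ {z : ℂ | |z.im| ≤ h0 - d} := by
      have e : {z : ℂ | |z.im| ≤ h0 - d} = {z : ℂ | -(h0 - d) ≤ z.im} ∩ {z : ℂ | z.im ≤ h0 - d} := by
        ext z
        show |z.im| ≤ h0 - d ↔ (-(h0 - d) ≤ z.im ∧ z.im ≤ h0 - d)
        exact abs_le
      rw [e]
      exact ((convex_Ici (-(h0 - d))).linear_preimage Complex.imLm).inter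
        ((convex_Iic (h0 - d)).linear_preimage Complex.imLm)
    have hmv := hconv.norm_image_sub_le_of_norm_deriv_le (𝕜 := ℂ)
      (f := fun z => θ z - 2 * Real.pi * z) (C := P + 7) (x := (z.re : ℂ)) (y := z) ?_ ?_ ?_ hz
    · have h1 := hB4 z.re
      have h2 : ‖θ z - 2 * Real.pi * z‖ ≤ ‖θ z.re - 2 * Real.pi * z.re‖ +
          ‖(θ z - 2 * Real.pi * z) - (θ z.re - 2 * Real.pi * z.re)‖ := by
        have := norm_add_le (θ z.re - 2 * Real.pi * z.re)
          ((θ z - 2 * Real.pi * z) - (θ z.re - 2 * Real.pi * z.re))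
        rwa [add_sub_cancel] at this
      have h3 : (P + 7) * ‖z - (z.re : ℂ)‖ ≤ (P + 7) * h0 := by
        rw [norm_re_sub]
        gcongr
      have h4 : B4 + (P + 7) * h0 ≤ (B4 + 8 * h0) * A := by
        have g1 : 0 ≤ B4 * (A - 1) := mul_nonneg hB40 (by linarith)
        have g2 : 0 ≤ h0 * (A - P) := mul_nonneg hh.le (by linarith)
        have g3 : 0 ≤ h0 * (A - 1) := mul_nonneg hh.le (by linarith)
        nlinarith only [g1, g2, g3]
      refine le_trans ?_ (hAC (B4 + 8 * h0) (by positivity) (hC32 _ (by linarith)))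
      linarith
    · intro w hw
      have hwS : w ∈ Str h0 := by
        show |w.im| < h0
        have : |w.im| ≤ h0 - d := hw
        linarith
      exact ((aθ w hwS).differentiableAt).sub
        ((differentiableAt_const _).mul differentiableAt_id)
    · intro w hw
      have hwS : w ∈ Str h0 := by
        show |w.im| < h0
        have : |w.im| ≤ h0 - d := hw
        linarith
      have h1 : HasDerivAt (fun z => θ z - 2 * Real.pi * z) (deriv θ w - 2 * Real.pi * 1) w :=
        ((aθ w hwS).differentiableAt.hasDerivAt).sub ((hasDerivAt_id w).const_mul _)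
      rw [h1.deriv]
      have h2 := (hyD w hw).1
      have h3 : ‖(2 * Real.pi * 1 : ℂ)‖ ≤ 7 := by
        rw [mul_one, norm_mul, Complex.norm_real, Real.norm_eq_abs, abs_of_pos Real.pi_pos]
        simp
        linarith [Real.pi_lt_d2]
      exact (norm_sub_le _ _).trans (by linarith)
    · show |((z.re : ℂ)).im| ≤ h0 - d
      simp
      linarith
  · -- H
    have hgr := gron_seg (V := Str h0) (F := fun z => (H z, deriv H z, deriv (deriv H) z))
      (F' := fun z => (deriv H z, deriv (deriv H) z, deriv (deriv (deriv H)) z))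
      (fun w hw => ((aH w hw).differentiableAt.hasDerivAt).prodMk
        (((aH' w hw).differentiableAt.hasDerivAt).prodMk
          ((aH'' w hw).differentiableAt.hasDerivAt)))
      (p0 := (z.re : ℂ)) (p1 := z) (A := A) ?_
    · have h1 : ‖(H z.re, deriv H z.re, deriv (deriv H) z.re)‖ ≤ F0 := by
        rw [Prod.norm_def, Prod.norm_def]
        refine max_le ?_ (max_le ?_ ?_)
        · exact (hB1 _).trans (by rw [hF0]; linarith)
        · exact (hB2 _).trans (by rw [hF0]; linarith)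
        · exact (hB3 _).trans (by rw [hF0]; linarith)
      have h2 : ‖(H z, deriv H z, deriv (deriv H) z)‖ ≤ F0 * Real.exp (h0 * A) := by
        refine hgr.trans ?_
        rw [norm_re_sub, mul_comm A]
        gcongr
      have h3 : 1 + ‖H z‖ + ‖deriv H z‖ + ‖deriv (deriv H) z‖ ≤
          (1 + 3 * F0) * Real.exp (h0 * A) := by
        have hm1 : ‖H z‖ ≤ ‖(H z, deriv H z, deriv (deriv H) z)‖ :=
          norm_fst_le (H z, deriv H z, deriv (deriv H) z)
        have hm2 : ‖(deriv H z, deriv (deriv H) z)‖ ≤ ‖(H z, deriv H z, deriv (deriv H) z)‖ :=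
          norm_snd_le (H z, deriv H z, deriv (deriv H) z)
        have hm3 : ‖deriv H z‖ ≤ ‖(deriv H z, deriv (deriv H) z)‖ :=
          norm_fst_le (deriv H z, deriv (deriv H) z)
        have hm4 : ‖deriv (deriv H) z‖ ≤ ‖(deriv H z, deriv (deriv H) z)‖ :=
          norm_snd_le (deriv H z, deriv (deriv H) z)
        have h4 : 1 ≤ Real.exp (h0 * A) := Real.one_le_exp (by positivity)
        have h5 : (1 + 3 * F0) * Real.exp (h0 * A) =
          Real.exp (h0 * A) + 3 * (F0 * Real.exp (h0 * A)) := by ring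
        rw [h5]
        linarith
      have h4 : Real.log (1 + ‖H z‖ + ‖deriv H z‖ + ‖deriv (deriv H) z‖) ≤ 3 * F0 + h0 * A := by
        rw [Real.log_le_iff_le_exp (by positivity), Real.exp_add]
        refine h3.trans ?_
        gcongr
        have := Real.add_one_le_exp (3 * F0)
        linarith
      refine (h4.trans ?_).trans (hAC (3 * F0 + h0) (by positivity) (hC32 _ (by linarith)))
      have g1 : 0 ≤ F0 * (A - 1) := mul_nonneg hF00 (by linarith)
      nlinarith only [g1]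
    · intro s hs
      obtain ⟨hw, -⟩ := seg_mem hz hs
      set w : ℂ := (z.re : ℂ) + s * (z - (z.re : ℂ)) with hwd
      have hwS : w ∈ Str h0 := by
        show |w.im| < h0
        linarith
      refine ⟨hwS, ?_⟩
      obtain ⟨hy1, hG1⟩ := hyD w hw
      have hy'1 := hy'D w hw
      set N : ℝ := ‖(H w, deriv H w, deriv (deriv H) w)‖ with hN
      have hm1 : ‖H w‖ ≤ N := norm_fst_le (H w, deriv H w, deriv (deriv H) w)
      have hm2 : ‖(deriv H w, deriv (deriv H) w)‖ ≤ N :=
        norm_snd_le (H w, deriv H w, deriv (deriv H) w)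
      have hm3 : ‖deriv H w‖ ≤ N := (norm_fst_le (deriv H w, deriv (deriv H) w)).trans hm2
      have hm4 : ‖deriv (deriv H) w‖ ≤ N :=
        (norm_snd_le (deriv H w, deriv (deriv H) w)).trans hm2
      have hN0 : 0 ≤ N := norm_nonneg _
      have hNA : N ≤ A * N := by nlinarith only [hN0, hA1]
      rw [Prod.norm_def, Prod.norm_def]
      refine max_le (hm3.trans hNA) (max_le (hm4.trans hNA) ?_)
      rw [hode w hwS]
      have e1 : ‖(G w - deriv θ w ^ 2) * deriv H w‖ ≤ (P + P ^ 2) * N := by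
        rw [norm_mul]
        gcongr
        refine (norm_sub_le _ _).trans ?_
        rw [norm_pow]
        gcongr
      have e2 : ‖3 * deriv θ w * deriv (deriv θ) w * H w‖ ≤ 3 * P * P * N := by
        rw [norm_mul, norm_mul, norm_mul]
        have : ‖(3 : ℂ)‖ = 3 := by simp
        rw [this]
        gcongr
      refine (norm_sub_le _ _).trans ?_
      have e3 : (P + P ^ 2) * N + 3 * P * P * N ≤ A * N := by
        have : P + P ^ 2 + 3 * P * P ≤ A := by nlinarith only [hA6, hE1]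
        nlinarith only [this, hN0]
      linarith
  · -- y
    have hgr := gron_seg (V := Str h0) (F := fun z => (deriv θ z, deriv (deriv θ) z))
      (F' := fun z => (deriv (deriv θ) z, deriv (deriv (deriv θ)) z))
      (fun w hw => ((ay w hw).differentiableAt.hasDerivAt).prodMk
          ((ay' w hw).differentiableAt.hasDerivAt))
      (p0 := z) (p1 := (z.re : ℂ)) (A := A) ?_
    · have h1 : c ≤ ‖(deriv θ z.re, deriv (deriv θ) z.re)‖ := (hc z.re).trans
        (norm_fst_le (deriv θ (z.re : ℂ), deriv (deriv θ) (z.re : ℂ)))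
      have h2 : ‖(deriv θ z, deriv (deriv θ) z)‖ ≤ ‖deriv θ z‖ + ‖deriv (deriv θ) z‖ := by
        rw [Prod.norm_def]
        exact max_le (by simp) (by simp)
      have h3 : c ≤ (‖deriv θ z‖ + ‖deriv (deriv θ) z‖) * Real.exp (h0 * A) := by
        refine h1.trans (hgr.trans ?_)
        have e4 : ‖(z.re : ℂ) - z‖ = |z.im| := by rw [norm_sub_rev, norm_re_sub]
        rw [e4, mul_comm A]
        gcongr
      have h4 : Real.exp (-(1 / c)) ≤ c := by
        rw [Real.exp_neg, inv_le_comm₀ (Real.exp_pos _) hc0]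
        have := Real.add_one_le_exp (1 / c)
        rw [one_div] at this ⊢
        linarith
      have h5 : 1 / c + h0 * A ≤ Real.exp (C3 * D) := by
        refine le_trans ?_ (hAC (1 / c + h0) (by positivity) (hC32 _ (by linarith)))
        have g1 : 0 ≤ (1 / c) * (A - 1) := mul_nonneg hc1.le (by linarith)
        nlinarith only [g1]
      have h6 : Real.exp (-(1 / c + h0 * A)) ≤ ‖deriv θ z‖ + ‖deriv (deriv θ) z‖ := by
        rw [neg_add, Real.exp_add, Real.exp_neg (h0 * A), ← div_eq_mul_inv,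
          div_le_iff₀ (Real.exp_pos _)]
        exact h4.trans h3
      exact (Real.exp_le_exp.2 (neg_le_neg h5)).trans h6
    · intro s hs
      obtain ⟨-, hw⟩ := seg_mem hz hs
      set w : ℂ := z + s * ((z.re : ℂ) - z) with hwd
      have hwS : w ∈ Str h0 := by
        show |w.im| < h0
        linarith
      refine ⟨hwS, ?_⟩
      obtain ⟨hy1, hG1⟩ := hyD w hw
      set N : ℝ := ‖(deriv θ w, deriv (deriv θ) w)‖ with hN
      have hm3 : ‖deriv θ w‖ ≤ N := norm_fst_le (deriv θ w, deriv (deriv θ) w)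
      have hm4 : ‖deriv (deriv θ) w‖ ≤ N := norm_snd_le (deriv θ w, deriv (deriv θ) w)
      have hN0 : 0 ≤ N := norm_nonneg _
      have hNA : N ≤ A * N := by nlinarith only [hN0, hA1]
      rw [Prod.norm_def]
      refine max_le (hm4.trans hNA) ?_
      simp only
      rw [hM.hG w hwS, norm_mul]
      have : ‖G w‖ ≤ A := hG1.trans hPA'
      gcongr


end Crest.Agent.R102.GrowPsi314
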