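import Crest.Agent.R102.EdgeDefs_255
import Crest.Agent.R102.GrowPsi_314

/-!
Row 102, T1-B, EDGE (helper314): the curve of `Edge255.ED` from the mirror and GROWTH.
-/

set_option autoImplicit false

open Set Filter Topology Metric
open scoped ComplexConjugate

noncomputable section

namespace Crest.Agent.R102.Curve314

open Crest.Agent.R102.Growth Crest.Agent.R102.T5

/-- **(EDGE-EDOF, curve)** -/
theorem curve_of {q : C(ℂ, ℂ)} {η h : ℝ} {ψ H K G : ℂ → ℂ} (hh : 0 < h)
    (hM : MirS q η h ψ H K G) (hG : Chain559.Grow h ψ G) : Edge255.Curve h ψ H := by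
  have hpsi := GrowPsi314.psi hh hM hG
  refine ⟨hh, hM.ent.dθ, hM.ent.dH, hM.ent.relH, hM.θper, hM.Hper, hM.y_pos, fun k => ?_,
    fun k => ?_⟩
  · obtain ⟨C, hC, h1⟩ := hG k
    refine ⟨C, hC, fun d hd hdh z hz => le_trans ?_ (h1 d hd hdh z hz)⟩
    have := norm_nonneg (G z)
    have := norm_nonneg (deriv ψ z)
    exact Real.log_le_log (by positivity) (by linarith)
  · obtain ⟨C, hC, h1⟩ := hpsi k
    refine ⟨C, hC, fun d hd hdh z hz => ?_⟩
    obtain ⟨-, -, -, h2, h3, h4⟩ := h1 d hd hdh z hz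
    exact ⟨h2, h3, h4⟩

end Crest.Agent.R102.Curve314
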