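import Mathlib
import Crest.Agent.R102.End_613

/-!
Row 102, T1-B, EDGE: uniform implicit function theorem for `∑ c_j(x) f_j(b) = 0` (helper985).
-/

set_option autoImplicit false
set_option linter.unusedSectionVars false
set_option linter.unusedVariables false

open Set Filter Topology Metric Complex

noncomputable section

namespace Crest.Agent.R102.Reg985

open Crest.Agent.R102.End613

variable {E : Type*} [NormedAddCommGroup E] [NormedSpace ℂ E] [FiniteDimensional ℂ E]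
variable {ι : Type*}

/-- **uniform implicit function theorem**, `∑_j c_j(x) f_j(b) = 0` near a transversal zero -/
theorem reg3 {l : Filter ι} {q₀ : E} {J : Type*} [Fintype J] {f : J → ℂ → ℂ} {W : Set ℂ}
    (hW : IsOpen W) {b₁ : ℂ} (hb₁ : b₁ ∈ W) (hf : ∀ j, DifferentiableOn ℂ (f j) W)
    {c : J → ι → E → ℂ} {c' : J → ℂ}
    (hc : ∀ ε > 0, ∃ r > 0, ∀ᶠ n in l, ∀ j, DifferentiableOn ℂ (c j n) (ball q₀ r) ∧
      ∀ x ∈ ball q₀ r, ‖c j n x - c' j‖ ≤ ε)
    (h0 : ∑ j, c' j * f j b₁ = 0) (h1 : ∑ j, c' j * deriv (f j) b₁ ≠ 0) {r₁ : ℝ} (hr₁ : 0 < r₁)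
    {ε₁ : ℝ} (hε₁ : 0 < ε₁) :
    ∃ ρ > 0, ρ ≤ ε₁ ∧ closedBall b₁ ρ ⊆ W ∧ ∃ r > 0, r ≤ r₁ ∧ ∀ᶠ n in l, ∃ G : E → ℂ,
      DifferentiableOn ℂ G (ball q₀ r) ∧
      (∀ x ∈ ball q₀ r, G x ∈ closedBall b₁ ρ ∧ ∑ j, c j n x * f j (G x) = 0) ∧
      ∀ x ∈ ball q₀ r, ∀ b ∈ closedBall b₁ ρ, ∑ j, c j n x * f j b = 0 → b = G x := by
  classical
  set D0 : ℂ := ∑ j, c' j * deriv (f j) b₁ with hD0
  set a : ℝ := ‖D0‖ with ha
  have ha0 : 0 < a := norm_pos_iff.2 h1
  -- derivatives are continuous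
  have hdc : ContinuousOn (fun b => ∑ j, c' j * deriv (f j) b) W :=
    continuousOn_finsetSum _ fun j _ =>
      continuousOn_const.mul ((hf j).deriv hW).continuousOn
  have hat : ContinuousAt (fun b => ∑ j, c' j * deriv (f j) b) b₁ := hdc.continuousAt (hW.mem_nhds hb₁)
  obtain ⟨ρ1, hρ1, hρ1a⟩ := Metric.continuousAt_iff.1 hat (a / 8) (by positivity)
  obtain ⟨ρ2, hρ2, hρ2W⟩ := Metric.isOpen_iff.1 hW b₁ hb₁
  set ρ : ℝ := min ε₁ (min (ρ1 / 2) (ρ2 / 2)) with hρ
  have hρ0 : 0 < ρ := by rw [hρ]; positivity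
  have hρε : ρ ≤ ε₁ := min_le_left _ _
  have hρρ1 : ρ ≤ ρ1 / 2 := (min_le_right _ _).trans (min_le_left _ _)
  have hρρ2 : ρ ≤ ρ2 / 2 := (min_le_right _ _).trans (min_le_right _ _)
  have hρW : closedBall b₁ ρ ⊆ W := (closedBall_subset_ball (by linarith)).trans hρ2W
  -- bounds
  have hbd : ∃ M : ℝ, 1 ≤ M ∧ ∀ b ∈ closedBall b₁ ρ, ∑ j, ‖f j b‖ ≤ M ∧
      ∑ j, ‖deriv (f j) b‖ ≤ M := by
    have hK : IsCompact (closedBall b₁ ρ) := isCompact_closedBall _ _
    have c1 : ContinuousOn (fun b => ∑ j, ‖f j b‖) (closedBall b₁ ρ) :=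
      continuousOn_finsetSum _ fun j _ => ((hf j).continuousOn.mono hρW).norm
    have c2 : ContinuousOn (fun b => ∑ j, ‖deriv (f j) b‖) (closedBall b₁ ρ) :=
      continuousOn_finsetSum _ fun j _ => (((hf j).deriv hW).continuousOn.mono hρW).norm
    obtain ⟨M1, hM1⟩ := hK.bddAbove_image c1
    obtain ⟨M2, hM2⟩ := hK.bddAbove_image c2
    refine ⟨max 1 (max M1 M2), le_max_left _ _, fun b hb => ⟨?_, ?_⟩⟩
    · exact (hM1 (mem_image_of_mem _ hb)).trans ((le_max_left _ _).trans (le_max_right _ _))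
    · exact (hM2 (mem_image_of_mem _ hb)).trans ((le_max_right _ _).trans (le_max_right _ _))
  obtain ⟨M, hM1, hM⟩ := hbd
  set ε : ℝ := min (a / 8) (a * ρ / 2) / M with hε
  have hM0 : 0 < M := by linarith
  have hε0 : 0 < ε := by rw [hε]; positivity
  have hεM : ε * M = min (a / 8) (a * ρ / 2) := by rw [hε]; field_simp
  have hεM1 : ε * M ≤ a / 8 := by rw [hεM]; exact min_le_left _ _
  have hεM2 : ε * M ≤ a * ρ / 2 := by rw [hεM]; exact min_le_right _ _
  obtain ⟨r0, hr0, hcr⟩ := hc ε hε0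
  refine ⟨ρ, hρ0, hρε, hρW, min r0 r₁, lt_min hr0 hr₁, min_le_right _ _, ?_⟩
  filter_upwards [hcr] with n hn
  have hsub : ball q₀ (min r0 r₁) ⊆ ball q₀ r0 := ball_subset_ball (min_le_left _ _)
  have hsmall : ∀ x ∈ ball q₀ (min r0 r₁), ∀ g : J → ℂ, ∑ j, ‖g j‖ ≤ M →
      ‖∑ j, (c j n x - c' j) * g j‖ ≤ ε * M := by
    intro x hx g hg
    calc ‖∑ j, (c j n x - c' j) * g j‖ ≤ ∑ j, ‖(c j n x - c' j) * g j‖ := norm_sum_le _ _
      _ ≤ ∑ j, ε * ‖g j‖ := by
          refine Finset.sum_le_sum fun j _ => ?_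
          rw [norm_mul]
          exact mul_le_mul_of_nonneg_right ((hn j).2 x (hsub hx)) (norm_nonneg _)
      _ = ε * ∑ j, ‖g j‖ := by rw [Finset.mul_sum]
      _ ≤ ε * M := by gcongr
  have hF : ∀ g : E → ℂ, DifferentiableOn ℂ g (ball q₀ (min r0 r₁)) →
      (∀ x ∈ ball q₀ (min r0 r₁), g x ∈ closedBall b₁ ρ) →
      DifferentiableOn ℂ (fun x => ∑ j, c j n x * f j (g x)) (ball q₀ (min r0 r₁)) := by
    intro g hg hgm
    refine DifferentiableOn.fun_sum fun j _ => ?_
    exact ((hn j).1.mono hsub).mul ((hf j).comp hg fun x hx => hρW (hgm x hx))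
  obtain ⟨G, hG, hG1, hG2⟩ := newton (V := ball q₀ (min r0 r₁)) isOpen_ball (b₀ := b₁) hρ0
    (F := fun b x => ∑ j, c j n x * f j b) (A := fun _ => D0) hF (differentiableOn_const _) ha0
    (fun x hx => le_refl _) (fun x hx => by
      have e1 : ∑ j, c j n x * f j b₁ = ∑ j, (c j n x - c' j) * f j b₁ := by
        rw [← sub_zero (∑ j, c j n x * f j b₁), ← h0, ← Finset.sum_sub_distrib]
        exact Finset.sum_congr rfl fun j _ => by ring
      rw [e1]
      exact (hsmall x hx _ (hM b₁ (mem_closedBall_self hρ0.le)).1).trans hεM2)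
    (fun x hx b hb b' hb' => by
      have hder : ∀ z ∈ closedBall b₁ ρ, HasDerivWithinAt
          (fun b => (∑ j, c j n x * f j b) - D0 * b)
          ((∑ j, c j n x * deriv (f j) z) - D0) (closedBall b₁ ρ) z := by
        intro z hz
        have hz1 : ∀ j, HasDerivAt (f j) (deriv (f j) z) z := fun j =>
          ((hf j).differentiableAt (hW.mem_nhds (hρW hz))).hasDerivAt
        have h2 : HasDerivAt (fun b => ∑ j, c j n x * f j b)
            (∑ j, c j n x * deriv (f j) z) z :=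
          HasDerivAt.fun_sum fun j _ => (hz1 j).const_mul _
        have h3 : HasDerivAt (fun b : ℂ => D0 * b) (D0 * 1) z := (hasDerivAt_id z).const_mul D0
        rw [mul_one] at h3
        exact (h2.sub h3).hasDerivWithinAt
      have hbound : ∀ z ∈ closedBall b₁ ρ, ‖(∑ j, c j n x * deriv (f j) z) - D0‖ ≤ a / 4 := by
        intro z hz
        have e1 : (∑ j, c j n x * deriv (f j) z) - D0 =
            (∑ j, (c j n x - c' j) * deriv (f j) z) + ((∑ j, c' j * deriv (f j) z) - D0) := by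
          have : ∑ j, c j n x * deriv (f j) z = (∑ j, (c j n x - c' j) * deriv (f j) z) +
              ∑ j, c' j * deriv (f j) z := by
            rw [← Finset.sum_add_distrib]
            exact Finset.sum_congr rfl fun j _ => by ring
          rw [this]; ring
        have h4 : ‖(∑ j, c' j * deriv (f j) z) - D0‖ ≤ a / 8 := by
          have h5 : dist z b₁ < ρ1 := by
            rw [mem_closedBall] at hz; linarith
          have h6 := hρ1a h5
          rw [dist_eq_norm] at h6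
          exact h6.le
        rw [e1]
        calc _ ≤ ‖∑ j, (c j n x - c' j) * deriv (f j) z‖ + ‖(∑ j, c' j * deriv (f j) z) - D0‖ :=
              norm_add_le _ _
          _ ≤ a / 8 + a / 8 := add_le_add ((hsmall x hx _ (hM z hz).2).trans hεM1) h4
          _ = a / 4 := by ring
      have h7 := (convex_closedBall b₁ ρ).norm_image_sub_le_of_norm_hasDerivWithin_le
        hder hbound hb' hb
      have e2 : (∑ j, c j n x * f j b) - (∑ j, c j n x * f j b') - D0 * (b - b') =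
          ((∑ j, c j n x * f j b) - D0 * b) - ((∑ j, c j n x * f j b') - D0 * b') := by ring
      rw [e2]
      exact h7)
  exact ⟨G, hG, hG1, hG2⟩

end Crest.Agent.R102.Reg985
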