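import Crest.Agent.R102.EdgeDefs_255
import Crest.Agent.R102.EdgeA_985

/-!
Row 102, T1-B, EDGE: leaf **EDGE-CUSP** (helper985): `cuspP : Edge255.CuspP`.
-/

set_option autoImplicit false
set_option linter.unusedSectionVars false
set_option linter.unusedVariables false

open Set Filter Topology Metric Complex
open scoped Real

noncomputable section

namespace Crest.Agent.R102.CuspP985

open Crest.Agent.R102.EdgeA985 Crest.Agent.R102.Edge255

theorem wg_eq (m : ℝ) : Wg m = EdgeLim196.Lo m := rfl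

theorem sp_eq (h : ℝ) : T5.Str h = EdgeLim196.Sp h := rfl

theorem isOpen_Wg (m : ℝ) : IsOpen (Wg m) := EdgeLim196.isOpen_Lo m

theorem convex_Wg (m : ℝ) : Convex ℝ (Wg m) := EdgeLim196.convex_Lo m

theorem Wg_mono {m m' : ℝ} (hm : m ≤ m') : Wg m ⊆ Wg m' := fun q hq => ⟨hq.1, by
  have h1 : 0 < q.2.im := hq.1
  have h2 : q.1.im < m * q.2.im := hq.2
  show q.1.im < m' * q.2.im
  nlinarith⟩

theorem z0_mem {a : ℝ} (ha : 0 ≤ a) : z0 ∈ Wg a := by
  refine ⟨?_, ?_⟩
  · simp [z0]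
  · simp only [z0, neg_im, I_im, div_ofNat_im]
    nlinarith

/-- a compact convex set between a compact set and `ball ∩ Wg a` -/
theorem exists_convex_compact {a r : ℝ} {q₀ : ℂ × ℂ} {K₁ : Set (ℂ × ℂ)} (hc : IsCompact K₁)
    (hn : K₁.Nonempty) (hs : K₁ ⊆ ball q₀ r ∩ Wg a) :
    ∃ K₂ : Set (ℂ × ℂ), IsCompact K₂ ∧ Convex ℝ K₂ ∧ K₁ ⊆ K₂ ∧ K₂ ⊆ ball q₀ r ∩ Wg a := by
  have c1 : Continuous fun x : ℂ × ℂ => dist x q₀ := by fun_prop
  have c2 : Continuous fun x : ℂ × ℂ => x.2.im := by fun_prop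
  have c3 : Continuous fun x : ℂ × ℂ => a * x.2.im - x.1.im := by fun_prop
  obtain ⟨y1, hy1, hm1⟩ := hc.exists_isMaxOn hn c1.continuousOn
  obtain ⟨y2, hy2, hm2⟩ := hc.exists_isMinOn hn c2.continuousOn
  obtain ⟨y3, hy3, hm3⟩ := hc.exists_isMinOn hn c3.continuousOn
  have h1 : dist y1 q₀ < r := (hs hy1).1
  have h2 : 0 < y2.2.im := (hs hy2).2.1
  have h3 : 0 < a * y3.2.im - y3.1.im := sub_pos.2 (hs hy3).2.2
  refine ⟨closedBall q₀ (dist y1 q₀) ∩ ({x | y2.2.im ≤ x.2.im} ∩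
    {x | a * y3.2.im - y3.1.im ≤ a * x.2.im - x.1.im}), ?_, ?_, fun x hx => ⟨?_, ?_, ?_⟩,
    fun x hx => ⟨?_, ?_, ?_⟩⟩
  · exact (isCompact_closedBall _ _).inter_right
      ((isClosed_le continuous_const c2).inter (isClosed_le continuous_const c3))
  · refine (convex_closedBall _ _).inter (Convex.inter ?_ ?_)
    · intro x hx y hy s t hs ht hst
      simp only [mem_ofPred_eq] at hx hy ⊢
      have e : (s • x + t • y).2.im = s * x.2.im + t * y.2.im := by simp
      rw [e]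
      have h5 := mul_le_mul_of_nonneg_left hx hs
      have h6 := mul_le_mul_of_nonneg_left hy ht
      have h7 : s * y2.2.im + t * y2.2.im = y2.2.im := by rw [← add_mul, hst, one_mul]
      linarith
    · intro x hx y hy s t hs ht hst
      simp only [mem_ofPred_eq] at hx hy ⊢
      have e : (s • x + t • y).2.im = s * x.2.im + t * y.2.im := by simp
      have e' : (s • x + t • y).1.im = s * x.1.im + t * y.1.im := by simp
      rw [e, e']
      set c := a * y3.2.im - y3.1.im with hc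
      have h5 := mul_le_mul_of_nonneg_left hx hs
      have h6 := mul_le_mul_of_nonneg_left hy ht
      have h7 : s * c + t * c = c := by rw [← add_mul, hst, one_mul]
      nlinarith
  · exact hm1 hx
  · exact hm2 hx
  · exact hm3 hx
  · exact (mem_closedBall.1 hx.1).trans_lt h1
  · exact h2.trans_le hx.2.1
  · have := hx.2.2
    simp only [mem_ofPred_eq] at this
    show x.1.im < a * x.2.im
    linarith

/-- **no regular continuation at face points**, for worlds -/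
theorem noReg_world {h a g : ℝ} {ψ H : ℂ → ℂ} {A0 : ℂ} {φ p B : ℕ → ℂ × ℂ → ℂ}
    (W : World h a g ψ H A0 φ p B) {q₀ : ℂ × ℂ} (hq : 0 < q₀.2.im) (hq' : q₀.1.im = a * q₀.2.im)
    {r : ℝ} (hr : 0 < r) {x₁ : ℂ × ℂ} {δ : ℝ} (hδ : 0 < δ)
    (hK : closedBall x₁ δ ⊆ ball q₀ r ∩ Wg a) :
    ∀ᶠ n in atTop, ¬ ∃ G : ℂ × ℂ → ℂ, DifferentiableOn ℂ G (ball q₀ r) ∧
      (∀ x ∈ ball q₀ r, |(G x).im| < h) ∧ ∃ x ∈ closedBall x₁ δ, G =ᶠ[𝓝 x] B n := by
  have hqW : q₀ ∈ Wg (a + g) := ⟨hq, by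
    show q₀.1.im < (a + g) * q₀.2.im
    rw [hq']; nlinarith [W.g_pos]⟩
  obtain ⟨s, hs, hsW⟩ := Metric.isOpen_iff.1 (isOpen_Wg (a + g)) q₀ hqW
  set r' : ℝ := min (s / 2) (r / 2) with hr'
  have hr'0 : 0 < r' := by positivity
  have hr's : closedBall q₀ r' ⊆ Wg (a + g) :=
    (closedBall_subset_ball (by rw [hr']; linarith [min_le_left (s / 2) (r / 2)])).trans hsW
  obtain ⟨K, hKW, hKc, hKn⟩ := W.births q₀ hq hq' r' hr'0 hr's
  set r'' : ℝ := 3 / 4 * r with hr''
  have h1 : r' ≤ r / 2 := min_le_right _ _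
  have h2 : closedBall q₀ r'' ⊆ ball q₀ r := closedBall_subset_ball (by rw [hr'']; linarith)
  set K₁ : Set (ℂ × ℂ) := closedBall x₁ δ ∪ (K ∩ closedBall q₀ r'') with hK₁
  have hK₁c : IsCompact K₁ := (isCompact_closedBall _ _).union (hKc.inter_right isClosed_closedBall)
  have hK₁s : K₁ ⊆ ball q₀ r ∩ Wg a := by
    rintro x (hx | hx)
    · exact hK hx
    · exact ⟨h2 hx.2, hKW hx.1⟩
  have hK₁n : K₁.Nonempty := ⟨x₁, Or.inl (mem_closedBall_self hδ.le)⟩
  obtain ⟨K₂, hK₂c, hK₂v, hK₁₂, hK₂s⟩ := exists_convex_compact hK₁c hK₁n hK₁s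
  filter_upwards [hKn, W.regX K₂ (fun x hx => (hK₂s hx).2) hK₂c] with n hn hreg
  rintro ⟨G, hG, hGi, x, hx, hGx⟩
  obtain ⟨U, hU, hKU, hBU, -⟩ := hreg
  apply hn
  have hEq : EqOn G (B n) K₂ := by
    have a1 : AnalyticOnNhd ℂ G K₂ := fun y hy =>
      R266.SCV.analyticOnNhd_of_differentiableOn isOpen_ball hG y (hK₂s hy).1
    have a2 : AnalyticOnNhd ℂ (B n) K₂ := fun y hy =>
      R266.SCV.analyticOnNhd_of_differentiableOn hU hBU y (hKU hy)
    exact a1.eqOn_of_preconnected_of_eventuallyEq a2 hK₂v.isPreconnected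
      (hK₁₂ (Or.inl hx)) hGx
  refine ⟨G, ball q₀ r'', isOpen_ball, closedBall_subset_ball (by rw [hr'']; linarith),
    hG.mono (ball_subset_closedBall.trans h2), fun y hy => hGi y (h2 (ball_subset_closedBall hy)),
    fun y hy => hEq (hK₁₂ (Or.inr ⟨hy.1, ball_subset_closedBall hy.2⟩))⟩

theorem inc_neg (ψ H : ℂ → ℂ) (φ p b : ℂ) :
    F300.Inc (fun z => -ψ z) H (-φ) p b ↔ F300.Inc ψ H φ p b := by
  unfold F300.Inc
  have e1 : deriv (fun z => -ψ z) b = -deriv ψ b := deriv.fun_neg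
  have e2 : -φ - -ψ b = -(φ - ψ b) := by ring
  rw [e1, e2, Complex.cos_neg, Complex.sin_neg]
  constructor
  · intro h; linear_combination -h
  · intro h; linear_combination -h

/-- **(EDGE-CUSP)** -/
theorem cuspP : CuspP := by
  intro h a g κ ψ H A0 φ p B sg hκ W hI hN hinf hre
  obtain ⟨hsg, hN⟩ := hN
  have hg := W.g_pos
  have ha := W.a_nonneg
  let u : Ultrafilter ℕ := hyperfilter ℕ
  have hu : (u : Filter ℕ) ≤ atTop := by
    rw [← Nat.cofinite_eq_atTop]; exact hyperfilter_le_cofinite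
  have hne : (u : Filter ℕ).NeBot := u.neBot
  have hz0 : z0 ∈ Wg a := z0_mem ha
  have hsub : Wg a ⊆ Wg (a + g) := Wg_mono (by linarith)
  -- labels
  have hB : ∀ x ∈ Wg a, ∃ r > 0, ball x r ⊆ Wg a ∧ ∀ᶠ n in (u : Filter ℕ),
      DifferentiableOn ℂ (B n) (ball x r) ∧ ∀ y ∈ ball x r, |(B n y).im| < h ∧
        F300.Inc ψ H (φ n y) (p n y) (B n y) := by
    intro x hx
    obtain ⟨s, hs, hsW⟩ := Metric.isOpen_iff.1 (isOpen_Wg a) x hx
    have h1 : closedBall x (s / 2) ⊆ Wg a :=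
      (closedBall_subset_ball (by linarith)).trans hsW
    refine ⟨s / 2, by positivity, ball_subset_closedBall.trans h1, ?_⟩
    filter_upwards [hu (W.regX _ h1 (isCompact_closedBall _ _))] with n hn
    obtain ⟨U, hU, hKU, hd, hUi⟩ := hn
    exact ⟨hd.mono (ball_subset_closedBall.trans hKU), fun y hy =>
      ⟨(hUi y (hKU (ball_subset_closedBall hy))).1, (hUi y (hKU (ball_subset_closedBall hy))).2.1⟩⟩
  -- lines
  have hφ : ∀ x ∈ Wg (a + g), ∃ r > 0, ball x r ⊆ Wg (a + g) ∧ ∃ C : ℝ, ∀ᶠ n in (u : Filter ℕ),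
      DifferentiableOn ℂ (φ n) (ball x r) ∧ DifferentiableOn ℂ (p n) (ball x r) ∧
      ∀ y ∈ ball x r, ‖p n y * cexp (sg n * I * φ n y)‖ ≤ C ∧ -C ≤ sg n * (φ n y).im := by
    intro x hx
    obtain ⟨s, hs, hsW⟩ := Metric.isOpen_iff.1 (isOpen_Wg (a + g)) x hx
    have h1 : closedBall x (s / 2) ⊆ Wg (a + g) :=
      (closedBall_subset_ball (by linarith)).trans hsW
    obtain ⟨C, hC⟩ := hN _ h1 (isCompact_closedBall _ _)
    refine ⟨s / 2, by positivity, ball_subset_closedBall.trans h1, C, ?_⟩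
    filter_upwards [hu (W.regL _ h1 (isCompact_closedBall _ _)), hu hC] with n hn hn2
    obtain ⟨U, hU, hKU, hd1, hd2⟩ := hn
    exact ⟨hd1.mono (ball_subset_closedBall.trans hKU), hd2.mono (ball_subset_closedBall.trans hKU),
      fun y hy => hn2 y (ball_subset_closedBall hy)⟩
  have hnr : ∀ q₀ ∈ EdgeLim196.Fc a, ∀ r > 0, ∀ x₁ : ℂ × ℂ, ∀ δ > 0,
      closedBall x₁ δ ⊆ ball q₀ r ∩ EdgeLim196.Lo a →
      ∀ᶠ n in (u : Filter ℕ), ¬ ∃ G : ℂ × ℂ → ℂ, DifferentiableOn ℂ G (ball q₀ r) ∧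
        (∀ x ∈ ball q₀ r, |(G x).im| < h) ∧ ∃ x ∈ closedBall x₁ δ, G =ᶠ[𝓝 x] B n :=
    fun q₀ hq r hr x₁ δ hδ hK => hu (noReg_world W hq.1 hq.2 hr hδ hK)
  have h₀ : ∀ᶠ n in (u : Filter ℕ), |(B n z0).im| ≤ h - κ := Eventually.of_forall fun n => (hI n).1
  have hh : h - κ < h := by linarith
  -- the sign
  obtain ⟨rz, hrz, hrzW, Cz, hCz⟩ := hφ z0 (hsub hz0)
  rcases u.eventually_or.1 (Eventually.of_forall hsg) with hs | hs
  · refine caseA_plus (a := a) (g := g) (h' := h - κ) hg W.curve.ψ_diff W.curve.H_diff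
      (c := -1) W.curve.rel (by norm_num) (k := 1)
      (fun b hb => by rw [W.curve.ψ_per b hb]; push_cast; ring) W.curve.H_per u hB
      (fun x hx => ?_) hnr hz0 hh h₀ ?_
    · obtain ⟨r, hr, hrW, C, hC⟩ := hφ x hx
      refine ⟨r, hr, hrW, C, ?_⟩
      filter_upwards [hC, hs] with n hn hsn
      refine ⟨hn.1, hn.2.1, fun y hy => ?_⟩
      have h1 := hn.2.2 y hy
      rw [hsn] at h1
      simp only [ofReal_one, one_mul] at h1
      exact ⟨h1.2, h1.1⟩
    · rw [Filter.tendsto_atTop]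
      intro A
      filter_upwards [hCz, hs, (Filter.tendsto_atTop.1 (hinf.mono_left hu)) (max A (Cz + 1))]
        with n hn hsn hA
      have h1 := (hn.2.2 z0 (mem_ball_self hrz)).2
      rw [hsn, one_mul] at h1
      have h2 : A ≤ |(φ n z0).im| := (le_max_left _ _).trans hA
      have h3 : Cz + 1 ≤ |(φ n z0).im| := (le_max_right _ _).trans hA
      rcases le_total 0 (φ n z0).im with h4 | h4
      · rwa [abs_of_nonneg h4] at h2
      · rw [abs_of_nonpos h4] at h3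
        linarith
  · -- the other cusp: `(ψ, φ) ↦ (-ψ, -φ)`
    have hSp := EdgeLim196.isOpen_Sp h
    have hdn : ∀ z, deriv (fun z => -ψ z) z = -deriv ψ z := fun z => deriv.fun_neg
    have hddn : ∀ z, deriv (deriv (fun z => -ψ z)) z = -deriv (deriv ψ) z := fun z => by
      have : deriv (fun z => -ψ z) = fun z => -deriv ψ z := funext hdn
      rw [this]
      exact deriv.fun_neg
    refine caseA_plus (a := a) (g := g) (h' := h - κ) (ψ := fun z => -ψ z) (H := H)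
      (φ := fun n x => -φ n x) (p := p) hg W.curve.ψ_diff.neg W.curve.H_diff
      (c := 1) (fun z hz => ?_) (by norm_num) (k := -1)
      (fun b hb => by
        rw [W.curve.ψ_per b hb]; push_cast; ring) W.curve.H_per u
      (fun x hx => ?_) (fun x hx => ?_) hnr hz0 hh h₀ ?_
    · have := W.curve.rel z hz
      rw [hdn, hddn]
      linear_combination -this
    · obtain ⟨r, hr, hrW, hn⟩ := hB x hx
      refine ⟨r, hr, hrW, ?_⟩
      filter_upwards [hn] with n hn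
      exact ⟨hn.1, fun y hy => ⟨(hn.2 y hy).1, (inc_neg ψ H _ _ _).2 (hn.2 y hy).2⟩⟩
    · obtain ⟨r, hr, hrW, C, hC⟩ := hφ x hx
      refine ⟨r, hr, hrW, C, ?_⟩
      filter_upwards [hC, hs] with n hn hsn
      refine ⟨hn.1.neg, hn.2.1, fun y hy => ?_⟩
      have h1 := hn.2.2 y hy
      rw [hsn] at h1
      have e1 : ((-1 : ℝ) : ℂ) * I * φ n y = I * -φ n y := by push_cast; ring
      rw [e1] at h1
      refine ⟨?_, h1.1⟩
      simp only [neg_im]
      linarith [h1.2]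
    · rw [Filter.tendsto_atTop]
      intro A
      filter_upwards [hCz, hs, (Filter.tendsto_atTop.1 (hinf.mono_left hu)) (max A (Cz + 1))]
        with n hn hsn hA
      have h1 := (hn.2.2 z0 (mem_ball_self hrz)).2
      rw [hsn] at h1
      have h2 : A ≤ |(φ n z0).im| := (le_max_left _ _).trans hA
      have h3 : Cz + 1 ≤ |(φ n z0).im| := (le_max_right _ _).trans hA
      simp only [neg_im]
      rcases le_total 0 (φ n z0).im with h4 | h4
      · rw [abs_of_nonneg h4] at h3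
        linarith
      · rwa [abs_of_nonpos h4] at h2

end Crest.Agent.R102.CuspP985
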