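import Crest.Agent.R102.DEStep_722

/-!
Row 102, EDGE: the one-step disc (DE) iterated over all scales (helper722). Levels
`c_k = c/2 + c/(2(k+1))`, gains `δ_k = c/(2(k+1)(k+2))`, window constants `a δ_{k-1}`.
-/

set_option autoImplicit false
set_option linter.unusedSectionVars false
set_option linter.unusedVariables false

open Set Filter Topology Metric Complex
open scoped Real

noncomputable section

namespace Crest.Agent.R102.DE722

lemma HW_mono {σ A s s' : ℝ} (hA : 0 ≤ A) (h : s ≤ s') : HW σ A s ⊆ HW σ A s' := by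
  rintro q ⟨h1, h2, h3, h4⟩
  have := mul_le_mul_of_nonneg_left h hA
  exact ⟨by linarith, by linarith, h3, h4⟩

lemma DW_mono {A d d' s : ℝ} (hs : 0 ≤ s) (h : d ≤ d') : DW A d' s ⊆ DW A d s := by
  rintro q ⟨h1, h2, h3, h4⟩
  have := mul_le_mul_of_nonneg_right h hs
  exact ⟨h1, h2, by linarith, by linarith⟩

lemma KW_mono {σ A c c' d d' s : ℝ} (hs : 0 ≤ s) (hd : 0 ≤ d') (h : d ≤ d') (hc : c ≤ c') :
    KW σ A c' d' s ⊆ KW σ A c d s := by
  rintro q ⟨h1, h2, h3, h4⟩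
  have h5 := mul_le_mul_of_nonneg_right h hs
  have h6 : 0 ≤ q.2.im := (mul_nonneg hd hs).trans h3
  have h7 : (σ - c') * q.2.im ≤ (σ - c) * q.2.im := mul_le_mul_of_nonneg_right (by linarith) h6
  exact ⟨h1, h2, by linarith, by linarith⟩

/-- levels -/
def lv (c : ℝ) (k : ℕ) : ℝ := c / 2 + c / (2 * (k + 1))

/-- gains -/
def gn (c : ℝ) (k : ℕ) : ℝ := c / (2 * (k + 1) * (k + 2))

/-- window constants -/
def wc (a c c₂ : ℝ) : ℕ → ℝ
  | 0 => c₂
  | k + 1 => a * gn c k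

lemma lv_zero (c : ℝ) : lv c 0 = c := by unfold lv; norm_num

lemma lv_succ (c : ℝ) (k : ℕ) : lv c k - gn c k = lv c (k + 1) := by
  unfold lv gn
  push_cast
  have h1 : (k : ℝ) + 1 ≠ 0 := by positivity
  have h2 : (k : ℝ) + 2 ≠ 0 := by positivity
  have h3 : (k : ℝ) + 1 + 1 ≠ 0 := by positivity
  field_simp
  ring

lemma gn_pos {c : ℝ} (hc : 0 < c) (k : ℕ) : 0 < gn c k := by unfold gn; positivity

lemma gn_le {c : ℝ} (hc : 0 < c) (k : ℕ) : gn c k ≤ c := by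
  unfold gn
  rw [div_le_iff₀ (by positivity)]
  have h0 : (0 : ℝ) ≤ k := Nat.cast_nonneg k
  have : 1 ≤ 2 * ((k : ℝ) + 1) * (k + 2) := by nlinarith
  nlinarith

lemma lv_ge {c : ℝ} (hc : 0 < c) (k : ℕ) : c / 2 ≤ lv c k := by
  unfold lv
  have : 0 ≤ c / (2 * ((k : ℝ) + 1)) := by positivity
  linarith

lemma lv_le {c : ℝ} (hc : 0 < c) (k : ℕ) : lv c k ≤ c := by
  unfold lv
  have h0 : (0 : ℝ) ≤ k := Nat.cast_nonneg k
  have : c / (2 * ((k : ℝ) + 1)) ≤ c / 2 := div_le_div_of_nonneg_left hc.le (by norm_num)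
    (by linarith)
  linarith

lemma gn_le_lv {c : ℝ} (hc : 0 < c) (k : ℕ) : gn c k ≤ lv c k := by
  have h1 := lv_succ c k
  have h2 := lv_ge hc (k + 1)
  linarith

lemma wc_pos {a c c₂ : ℝ} (ha : 0 < a) (hc : 0 < c) (hc₂ : 0 < c₂) : ∀ k, 0 < wc a c c₂ k
  | 0 => hc₂
  | k + 1 => mul_pos ha (gn_pos hc k)

lemma wc_le {a c c₂ : ℝ} (ha : 0 < a) (ha1 : a ≤ 1) (hc : 0 < c) (hc1 : c ≤ 1) (hc₂ : c₂ ≤ 1) :
    ∀ k, wc a c c₂ k ≤ 1
  | 0 => hc₂
  | k + 1 => by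
    have h1 := gn_le hc k
    have h2 := gn_pos hc k
    show a * gn c k ≤ 1
    nlinarith

lemma wc_ge {a c c₂ : ℝ} (ha : 0 < a) (ha1 : a ≤ 1) (hc : 0 < c) (hc1 : c ≤ 1) (hc₂0 : 0 < c₂)
    (hc₂ : c₂ ≤ 1) : ∀ k : ℕ, a * c₂ * c / (2 * (k + 1) ^ 2) ≤ wc a c c₂ k
  | 0 => by
    show _ ≤ c₂
    rw [div_le_iff₀ (by positivity)]
    have h1 : a * c ≤ 1 := by nlinarith
    have h2 : a * c₂ * c ≤ c₂ := by nlinarith
    push_cast
    nlinarith
  | k + 1 => by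
    show _ ≤ a * gn c k
    unfold gn
    rw [← mul_div_assoc, div_le_div_iff₀ (by positivity) (by positivity)]
    have h0 : (0 : ℝ) ≤ k := Nat.cast_nonneg k
    have h1 : 0 < a * c := mul_pos ha hc
    push_cast
    have h2 : a * c₂ * c ≤ a * c := by nlinarith
    have h3 : 2 * ((k : ℝ) + 1) * (k + 2) ≤ 2 * (k + 1 + 1) ^ 2 := by nlinarith
    have h4 : 0 ≤ 2 * ((k : ℝ) + 1) * (k + 2) := by positivity
    exact mul_le_mul h2 h3 h4 h1.le

/-- the depth used at step `k` -/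
lemma depth_ge {a c c₂ : ℝ} (ha : 0 < a) (ha1 : a ≤ 1) (hc : 0 < c) (hc1 : c ≤ 1)
    (hc₂0 : 0 < c₂) (hc₂ : c₂ ≤ 1) (k : ℕ) :
    a ^ 2 / 4 * c₂ * c ^ 2 / (k + 2) ^ 4 ≤ a * gn c k * wc a c c₂ k := by
  have h1 := wc_ge ha ha1 hc hc1 hc₂0 hc₂ k
  have h2 : 0 < a * gn c k := mul_pos ha (gn_pos hc k)
  refine le_trans ?_ (mul_le_mul_of_nonneg_left h1 h2.le)
  unfold gn
  have e : a * (c / (2 * ((k : ℝ) + 1) * (k + 2))) * (a * c₂ * c / (2 * (k + 1) ^ 2)) =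
      a ^ 2 * c₂ * c ^ 2 / (4 * ((k + 1) ^ 3 * (k + 2))) := by
    field_simp
    ring
  rw [e, show a ^ 2 / 4 * c₂ * c ^ 2 / ((k : ℝ) + 2) ^ 4 =
    a ^ 2 * c₂ * c ^ 2 / (4 * ((k : ℝ) + 2) ^ 4) by field_simp]
  refine div_le_div_of_nonneg_left (by positivity) (by positivity) ?_
  have h0 : (0 : ℝ) ≤ k := Nat.cast_nonneg k
  have h3 : ((k : ℝ) + 1) ^ 3 ≤ (k + 2) ^ 3 := pow_le_pow_left₀ (by positivity) (by linarith) 3
  have h4 : ((k : ℝ) + 1) ^ 3 * (k + 2) ≤ (k + 2) ^ 3 * (k + 2) :=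
    mul_le_mul_of_nonneg_right h3 (by positivity)
  have h5 : ((k : ℝ) + 2) ^ 3 * (k + 2) = (k + 2) ^ 4 := by ring
  linarith

variable {E : Type*} [NormedAddCommGroup E] [NormedSpace ℂ E]

/-- **(DE) iterated**: all scales at once. -/
theorem de_iter {σ A θ : ℝ} (hσ : 0 ≤ σ) (hA : 1 ≤ A) (hθ0 : 0 ≤ θ) (hθ : θ < 1) :
    ∃ R : ℝ, 2 ≤ R ∧ ∃ a : ℝ, 0 < a ∧ a ≤ 1 ∧ ∀ c c₂ s : ℝ, 0 < c → c ≤ 1 → c ≤ σ →
      0 < c₂ → c₂ ≤ 1 → 0 < s → ∀ N : ℕ, ∀ f : ℂ × ℂ → E,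
      DifferentiableOn ℂ f (HW σ A (R ^ N * s)) →
      ∀ (M : ℕ → ℝ) (MT : ℝ), (∀ k, 0 ≤ M k) → 0 ≤ MT →
      (∀ k < N, ∀ q ∈ DW A (a * c₂ * c ^ 2 / (k + 2) ^ 4) (R ^ (k + 1) * s),
        ‖f q‖ ≤ Real.exp (M k)) →
      (∀ q ∈ KW σ A (c / 2) (a * c₂ * c / (N + 1) ^ 2) (R ^ N * s), ‖f q‖ ≤ Real.exp MT) →
      ∀ q ∈ KW σ A c c₂ s, ‖f q‖ ≤
        Real.exp ((∑ k ∈ Finset.range N, (1 - θ) ^ k * M k) + (1 - θ) ^ N * MT) := by
  obtain ⟨R, hR, a, ha, ha1, key⟩ := de_step (E := E) hσ hA hθ0 hθ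
  refine ⟨R, hR, a ^ 2 / 4, by positivity, by nlinarith, ?_⟩
  intro c c₂ s hc hc1 hcσ hc₂ hc₂1 hs N f hf M MT hM hMT hside harc
  have hRp : ∀ j : ℕ, 0 < R ^ j := fun j => by positivity
  have claim : ∀ n j : ℕ, j + n = N → ∀ q ∈ KW σ A (lv c j) (wc a c c₂ j) (R ^ j * s),
      ‖f q‖ ≤ Real.exp ((∑ k ∈ Finset.range n, (1 - θ) ^ k * M (j + k)) + (1 - θ) ^ n * MT) := by
    intro n
    induction n with
    | zero =>
      intro j hj q hq
      obtain rfl : j = N := by simpa using hj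
      simp only [Finset.range_zero, Finset.sum_empty, pow_zero, one_mul, zero_add]
      refine harc q (KW_mono (mul_pos (hRp _) hs).le (wc_pos ha hc hc₂ j).le ?_ (lv_ge hc j) hq)
      refine le_trans ?_ (wc_ge ha ha1 hc hc1 hc₂ hc₂1 j)
      rw [show a * c₂ * c / (2 * ((j : ℝ) + 1) ^ 2) = a / 2 * c₂ * c / ((j : ℝ) + 1) ^ 2 by
        field_simp]
      have : a ^ 2 / 4 ≤ a / 2 := by nlinarith
      gcongr
    | succ n ih =>
      intro j hj q hq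
      have hjN : j + 1 ≤ N := by omega
      have h1 := key (lv c j) (gn c j) (wc a c c₂ j) (R ^ j * s) (gn_pos hc j)
        ((gn_le hc j).trans hc1) (gn_le_lv hc j) ((lv_le hc j).trans hcσ) (wc_pos ha hc hc₂ j)
        (wc_le ha ha1 hc hc1 hc₂1 j) (mul_pos (hRp j) hs) f
      have eR : R * (R ^ j * s) = R ^ (j + 1) * s := by ring
      rw [eR] at h1
      have hle : R ^ (j + 1) * s ≤ R ^ N * s :=
        mul_le_mul_of_nonneg_right (pow_le_pow_right₀ (by linarith) hjN) hs.le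
      have h2 := h1 (hf.mono (HW_mono (by linarith) hle)) (M j)
        ((∑ k ∈ Finset.range n, (1 - θ) ^ k * M (j + 1 + k)) + (1 - θ) ^ n * MT) ?_ ?_ q hq
      · refine h2.trans (Real.exp_le_exp.2 ?_)
        set S : ℝ := (∑ k ∈ Finset.range n, (1 - θ) ^ k * M (j + 1 + k)) + (1 - θ) ^ n * MT
          with hS
        have hθ' : 0 ≤ 1 - θ := by linarith
        have hS0 : 0 ≤ S := by
          refine add_nonneg (Finset.sum_nonneg fun k _ => ?_) ?_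
          · exact mul_nonneg (pow_nonneg hθ' _) (hM _)
          · exact mul_nonneg (pow_nonneg hθ' _) hMT
        have hmax : max (M j) S ≤ M j + S := max_le (by linarith) (by linarith [hM j])
        have e1 : (∑ k ∈ Finset.range (n + 1), (1 - θ) ^ k * M (j + k)) + (1 - θ) ^ (n + 1) * MT =
            M j + (1 - θ) * S := by
          rw [Finset.sum_range_succ', hS, mul_add, Finset.mul_sum]
          have e2 : ∀ k ∈ Finset.range n, (1 - θ) ^ (k + 1) * M (j + (k + 1)) =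
              (1 - θ) * ((1 - θ) ^ k * M (j + 1 + k)) := by
            intro k _
            rw [show j + (k + 1) = j + 1 + k by ring, pow_succ]; ring
          rw [Finset.sum_congr rfl e2]
          simp only [pow_zero, one_mul, add_zero]
          rw [pow_succ]; ring
        rw [e1]
        have h3 := mul_le_mul_of_nonneg_left hmax hθ'
        nlinarith
      · intro q' hq'
        refine hside j (by omega) q' (DW_mono (mul_pos (hRp _) hs).le ?_ hq')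
        exact depth_ge ha ha1 hc hc1 hc₂ hc₂1 j
      · intro q' hq'
        rw [lv_succ] at hq'
        exact ih (j + 1) (by omega) q' hq'
  intro q hq
  have h := claim N 0 (by omega) q (by
    rw [lv_zero]
    simpa [wc] using hq)
  simpa using h

end Crest.Agent.R102.DE722
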