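import Crest.Agent.R102.Disc5_669

/-!
Row 102, EDGE, the one-step disc (DE) of helper619 (typed by helper722): a half disc of radius
`ρ` through a point of the window `K` at scale `s` whose real side is deep (relative depth
`a δ c₂`), and whose arc lies in the window of level gap `c - δ` at scale `R s` or in the deep side.
-/

set_option autoImplicit false
set_option linter.unusedSectionVars false
set_option linter.unusedVariables false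

open Set Filter Topology Metric Complex
open scoped Real

noncomputable section

namespace Crest.Agent.R102.DE722

open Crest.Agent.R102.Disc669 (UD isOpen_UD closure_UD halfdisc_max re_cpow_ge cpow_cont)

/-- window: level gap `c`, lower bound `c₂` for the height of `q.2` -/
def KW (σ A c c₂ s : ℝ) : Set (ℂ × ℂ) :=
  {q | ‖q.1‖ ≤ A * s ∧ ‖q.2‖ ≤ A * s ∧ c₂ * s ≤ q.2.im ∧ q.1.im ≤ (σ - c) * q.2.im}

/-- deep points: relative depth `d` -/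
def DW (A d s : ℝ) : Set (ℂ × ℂ) :=
  {q | ‖q.1‖ ≤ A * s ∧ ‖q.2‖ ≤ A * s ∧ d * s ≤ -q.1.im ∧ d * s ≤ q.2.im}

/-- the (local) domain -/
def HW (σ A s : ℝ) : Set (ℂ × ℂ) :=
  {q | ‖q.1‖ < A * s ∧ ‖q.2‖ < A * s ∧ 0 < q.2.im ∧ q.1.im < σ * q.2.im}

/-! ### two constants on the half disc -/

/-- the majorant -/
def Mj (ρ MD M : ℝ) (z : ℂ) : ℂ :=
  (MD : ℂ) + ((M * Real.sqrt 2 : ℝ) : ℂ) * ((-(I * z)) / (ρ : ℂ)) ^ (((1 / 2 : ℝ) : ℝ) : ℂ)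

lemma w_re {ρ : ℝ} (z : ℂ) : ((-(I * z)) / (ρ : ℂ)).re = z.im / ρ := by
  rw [Complex.div_ofReal_re]; simp

lemma Mj_cont {ρ MD M : ℝ} (hρ : 0 < ρ) {z : ℂ} (hz : 0 ≤ z.im) :
    ContinuousAt (Mj ρ MD M) z := by
  unfold Mj
  have h1 : ContinuousAt (fun x : ℂ => x ^ (((1 / 2 : ℝ) : ℝ) : ℂ)) ((-(I * z)) / (ρ : ℂ)) :=
    cpow_cont (by rw [w_re]; positivity) (by norm_num)
  have h2 : ContinuousAt (fun z : ℂ => (-(I * z)) / (ρ : ℂ)) z := by fun_prop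
  exact continuousAt_const.add (continuousAt_const.mul
    (ContinuousAt.comp (f := fun z : ℂ => (-(I * z)) / (ρ : ℂ)) h1 h2))

lemma Mj_diffContOnCl {ρ MD M : ℝ} (hρ : 0 < ρ) : DiffContOnCl ℂ (Mj ρ MD M) (UD ρ) := by
  refine ⟨fun z hz => ?_, fun z hz =>
    (Mj_cont hρ (closure_UD ρ hz).2).continuousWithinAt⟩
  have h3 : DifferentiableAt ℂ (fun z : ℂ => ((-(I * z)) / (ρ : ℂ)) ^ (((1 / 2 : ℝ) : ℝ) : ℂ)) z := by
    refine DifferentiableAt.cpow_const (f := fun z : ℂ => (-(I * z)) / (ρ : ℂ)) (by fun_prop)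
      (Or.inl ?_)
    rw [w_re]
    exact div_pos hz.2 hρ
  unfold Mj
  exact ((h3.const_mul _).const_add _).differentiableWithinAt

lemma Mj_re_ge {ρ MD M : ℝ} (hρ : 0 < ρ) (hM : 0 ≤ M) {z : ℂ} (hz : 0 ≤ z.im) :
    MD + M * (‖z‖ / ρ) ^ (1 / 2 : ℝ) ≤ (Mj ρ MD M z).re := by
  unfold Mj
  rw [add_re, ofReal_re, Complex.re_ofReal_mul]
  have h1 := re_cpow_ge (z := (-(I * z)) / (ρ : ℂ)) (by rw [w_re]; positivity)
    (γ := 1 / 2) (by norm_num) (by norm_num)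
  have h2 : Real.cos (1 / 2 * (π / 2)) = Real.sqrt 2 / 2 := by
    rw [show (1 / 2 * (π / 2) : ℝ) = π / 4 by ring, Real.cos_pi_div_four]
  have h3 : ‖(-(I * z)) / (ρ : ℂ)‖ = ‖z‖ / ρ := by
    rw [norm_div, norm_neg, norm_mul, norm_I, one_mul, Complex.norm_real,
      Real.norm_of_nonneg hρ.le]
  rw [h2, h3] at h1
  have h4 : Real.sqrt 2 * Real.sqrt 2 = 2 := Real.mul_self_sqrt (by norm_num)
  have h5 : 0 ≤ Real.sqrt 2 := Real.sqrt_nonneg _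
  have h6 : M * Real.sqrt 2 * ((‖z‖ / ρ) ^ (1 / 2 : ℝ) * (Real.sqrt 2 / 2)) ≤
      M * Real.sqrt 2 * (((-(I * z)) / (ρ : ℂ)) ^ (((1 / 2 : ℝ) : ℝ) : ℂ)).re :=
    mul_le_mul_of_nonneg_left h1 (mul_nonneg hM h5)
  have h7 : M * Real.sqrt 2 * ((‖z‖ / ρ) ^ (1 / 2 : ℝ) * (Real.sqrt 2 / 2)) =
      M * (‖z‖ / ρ) ^ (1 / 2 : ℝ) := by
    calc _ = M * (‖z‖ / ρ) ^ (1 / 2 : ℝ) * (Real.sqrt 2 * Real.sqrt 2) / 2 := by ring
      _ = _ := by rw [h4]; ring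
  linarith

lemma Mj_re_at {ρ MD M : ℝ} (hρ : 0 < ρ) {η : ℝ} (hη : 0 ≤ η) :
    (Mj ρ MD M (η * I)).re = MD + M * Real.sqrt 2 * (η / ρ) ^ (1 / 2 : ℝ) := by
  unfold Mj
  rw [add_re, ofReal_re, Complex.re_ofReal_mul]
  have e1 : (-(I * ((η : ℂ) * I))) / (ρ : ℂ) = ((η / ρ : ℝ) : ℂ) := by
    have : I * ((η : ℂ) * I) = η * (I * I) := by ring
    rw [this, I_mul_I]; push_cast; ring
  rw [e1, ← Complex.ofReal_cpow (by positivity), ofReal_re]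

theorem two_const {ρ MD M θ η : ℝ} (hρ : 0 < ρ) (hη : 0 < η) (hηρ : η < ρ)
    (hθ : θ < 1) (h2 : 2 * η ≤ (1 - θ) ^ 2 * ρ) {g : ℂ → ℂ} (hg : DiffContOnCl ℂ g (UD ρ))
    (hreal : ∀ z : ℂ, ‖z‖ ≤ ρ → z.im = 0 → ‖g z‖ ≤ Real.exp MD)
    (harc : ∀ z : ℂ, ‖z‖ = ρ → 0 ≤ z.im → ‖g z‖ ≤ Real.exp (max MD M)) :
    ‖g (η * I)‖ ≤ Real.exp (θ * MD + (1 - θ) * max MD M) := by
  set M' : ℝ := max MD M - MD with hM'
  have hM0 : 0 ≤ M' := by rw [hM']; linarith [le_max_left MD M]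
  have hmem : (η : ℂ) * I ∈ UD ρ := by
    constructor
    · rw [norm_mul, norm_I, mul_one, Complex.norm_real, Real.norm_of_nonneg hη.le]
      exact hηρ
    · simpa using hη
  have h3 := halfdisc_max (ρ := ρ) hg (Mj_diffContOnCl (MD := MD) (M := M') hρ)
    (fun z hz1 hz2 hz3 => ?_) _ hmem
  · rw [Mj_re_at hρ hη.le] at h3
    refine h3.trans (Real.exp_le_exp.2 ?_)
    have h4 : Real.sqrt 2 * (η / ρ) ^ (1 / 2 : ℝ) ≤ 1 - θ := by
      have h5 : (η / ρ) ^ (1 / 2 : ℝ) = Real.sqrt (η / ρ) := (Real.sqrt_eq_rpow _).symm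
      rw [h5, ← Real.sqrt_mul (by norm_num)]
      refine Real.sqrt_le_iff.2 ⟨by linarith, ?_⟩
      rw [← mul_div_assoc, div_le_iff₀ hρ]
      exact h2
    have h6 : M' * Real.sqrt 2 * (η / ρ) ^ (1 / 2 : ℝ) ≤ M' * (1 - θ) := by
      rw [mul_assoc]
      exact mul_le_mul_of_nonneg_left h4 hM0
    have h7 : θ * MD + (1 - θ) * max MD M = MD + M' * (1 - θ) := by rw [hM']; ring
    linarith
  · have h8 := Mj_re_ge (MD := MD) hρ hM0 hz2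
    rcases hz3 with h | h
    · refine (hreal z hz1 h).trans (Real.exp_le_exp.2 ?_)
      have : 0 ≤ M' * (‖z‖ / ρ) ^ (1 / 2 : ℝ) := by positivity
      linarith
    · refine (harc z h hz2).trans (Real.exp_le_exp.2 ?_)
      rw [h, div_self hρ.ne', Real.one_rpow] at h8
      linarith

/-! ### the disc at unit scale -/

section disc

variable {σ A c δ c₂ ρ : ℝ} {q : ℂ × ℂ}

/-- height of the marked point -/
def et (σ δ : ℝ) (q : ℂ × ℂ) : ℝ := (1 - δ / (4 * (σ + 1))) * q.2.im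

def Tm (σ c δ ρ : ℝ) (q : ℂ × ℂ) (z : ℂ) : ℂ :=
  q.1 + ((σ - c + δ / 2 : ℝ) : ℂ) * (z - et σ δ q * I) -
    ((δ / (8 * ρ) : ℝ) : ℂ) * (I * (z ^ 2 + (et σ δ q : ℂ) ^ 2))

def Zm (σ δ : ℝ) (q : ℂ × ℂ) (z : ℂ) : ℂ := q.2 + (z - et σ δ q * I)

lemma Tm_at : Tm σ c δ ρ q (et σ δ q * I) = q.1 := by
  unfold Tm
  have : ((et σ δ q : ℂ) * I) ^ 2 = -(et σ δ q : ℂ) ^ 2 := by rw [mul_pow, I_sq]; ring
  rw [this]; ring

lemma Zm_at : Zm σ δ q (et σ δ q * I) = q.2 := by unfold Zm; ring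

lemma Tm_im (z : ℂ) : (Tm σ c δ ρ q z).im =
    q.1.im + (σ - c + δ / 2) * (z.im - et σ δ q) -
      δ / (8 * ρ) * (z.re ^ 2 - z.im ^ 2 + et σ δ q ^ 2) := by
  unfold Tm
  have h1 : (((σ - c + δ / 2 : ℝ) : ℂ) * (z - et σ δ q * I)).im =
      (σ - c + δ / 2) * (z.im - et σ δ q) := by
    rw [Complex.im_ofReal_mul, sub_im]; simp
  have h2 : (((δ / (8 * ρ) : ℝ) : ℂ) * (I * (z ^ 2 + (et σ δ q : ℂ) ^ 2))).im =
      δ / (8 * ρ) * (z.re ^ 2 - z.im ^ 2 + et σ δ q ^ 2) := by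
    rw [Complex.im_ofReal_mul]
    congr 1
    simp [pow_two]
  rw [sub_im, add_im, h1, h2]

lemma Zm_im (z : ℂ) : (Zm σ δ q z).im = q.2.im + (z.im - et σ δ q) := by
  unfold Zm; simp

structure Ok (σ A c δ c₂ ρ : ℝ) (q : ℂ × ℂ) : Prop where
  hA : 1 ≤ A
  hδ : 0 < δ
  hδ1 : δ ≤ 1
  hδc : δ ≤ c
  hcσ : c ≤ σ
  hc₂ : 0 < c₂
  hc₂1 : c₂ ≤ 1
  hρ : 4 * A ≤ ρ
  hq : q ∈ KW σ A c c₂ 1

variable (h : Ok σ A c δ c₂ ρ q)
include h

lemma Ok.σ0 : 0 < σ := by linarith [h.hδ, h.hδc, h.hcσ]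
lemma Ok.ρ4 : 4 ≤ ρ := by linarith [h.hA, h.hρ]
lemma Ok.q1 : ‖q.1‖ ≤ A := by simpa using h.hq.1
lemma Ok.q2 : ‖q.2‖ ≤ A := by simpa using h.hq.2.1
lemma Ok.y2 : c₂ ≤ q.2.im := by simpa using h.hq.2.2.1
lemma Ok.lev : q.1.im ≤ (σ - c) * q.2.im := h.hq.2.2.2
lemma Ok.y0 : 0 < q.2.im := h.hc₂.trans_le h.y2
lemma Ok.yA : q.2.im ≤ A := (Complex.im_le_norm _).trans h.q2

lemma Ok.κ : 0 < δ / (4 * (σ + 1)) ∧ δ / (4 * (σ + 1)) ≤ 1 / 4 ∧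
    δ / (4 * (σ + 1)) * (σ + 1) = δ / 4 := by
  have h0 := h.σ0
  refine ⟨div_pos h.hδ (by linarith), ?_, ?_⟩
  · rw [div_le_iff₀ (by linarith)]
    nlinarith [h.hδ1]
  · field_simp

lemma Ok.et0 : 0 < et σ δ q := by
  unfold et
  exact mul_pos (by linarith [h.κ.2.1]) h.y0

lemma Ok.et_le : et σ δ q ≤ q.2.im := by
  unfold et
  nlinarith [h.κ.1, h.y0]

lemma Ok.etA : et σ δ q ≤ A := h.et_le.trans h.yA

lemma Ok.ety : q.2.im - et σ δ q = δ / (4 * (σ + 1)) * q.2.im := by unfold et; ring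

/-- the base estimate -/
lemma Ok.base : q.1.im - (σ - c + δ / 2) * et σ δ q ≤ -(δ / 4 * q.2.im) := by
  obtain ⟨k0, k1, k2⟩ := h.κ
  have h1 := h.lev
  have h2 := h.y0
  have h3 : (σ - c + δ / 2) * (δ / (4 * (σ + 1))) ≤ δ / 4 := by
    rw [← k2, mul_comm]
    refine mul_le_mul_of_nonneg_left ?_ k0.le
    linarith [h.hδc, h.hδ]
  have h4 : (σ - c + δ / 2) * et σ δ q =
      (σ - c + δ / 2) * q.2.im - ((σ - c + δ / 2) * (δ / (4 * (σ + 1)))) * q.2.im := by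
    unfold et; ring
  rw [h4]
  nlinarith

lemma Ok.T_im_le {z : ℂ} :
    (Tm σ c δ ρ q z).im ≤ -(δ / 4 * q.2.im) + (σ - c + δ / 2) * z.im -
      δ / (8 * ρ) * (z.re ^ 2 - z.im ^ 2) := by
  rw [Tm_im]
  have h1 := h.base
  have h2 : 0 ≤ δ / (8 * ρ) * et σ δ q ^ 2 := by
    have := h.ρ4; have := h.hδ; positivity
  nlinarith

lemma Ok.quad {z : ℂ} (hz0 : 0 ≤ z.im) (hz : ‖z‖ ≤ ρ) :
    δ / (8 * ρ) * z.im ^ 2 ≤ δ / 8 * z.im := by
  have hρ := h.ρ4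
  have h1 : z.im ≤ ρ := (Complex.im_le_norm _).trans hz
  have h2 : δ / (8 * ρ) * z.im ^ 2 = δ / 8 * z.im * (z.im / ρ) := by field_simp
  rw [h2]
  have h3 : z.im / ρ ≤ 1 := (div_le_one (by linarith)).2 h1
  have h4 : 0 ≤ δ / 8 * z.im := by have := h.hδ; positivity
  nlinarith

/-- level on the whole disc -/
lemma Ok.level {z : ℂ} (hz0 : 0 ≤ z.im) (hz : ‖z‖ ≤ ρ) :
    (Tm σ c δ ρ q z).im < (σ - (c - δ)) * (Zm σ δ q z).im := by
  have h1 := h.T_im_le (z := z)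
  have h2 := h.quad hz0 hz
  have hδ := h.hδ
  have h3 : 0 ≤ δ / (8 * ρ) * z.re ^ 2 := by have := h.ρ4; positivity
  have h4 : 0 < δ / 4 * q.2.im := mul_pos (by linarith) h.y0
  have h5 : (σ - (c - δ)) * z.im ≤ (σ - (c - δ)) * (Zm σ δ q z).im := by
    refine mul_le_mul_of_nonneg_left ?_ (by linarith [h.hcσ])
    rw [Zm_im]
    linarith [h.et_le]
  nlinarith

lemma Ok.Z_ge {z : ℂ} (hz0 : 0 ≤ z.im) : δ / (4 * (σ + 1)) * c₂ + z.im ≤ (Zm σ δ q z).im := by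
  rw [Zm_im]
  have h1 := h.ety
  have h2 := mul_le_mul_of_nonneg_left h.y2 h.κ.1.le
  linarith

lemma Ok.Z_pos {z : ℂ} (hz0 : 0 ≤ z.im) : 0 < (Zm σ δ q z).im := by
  have h1 := h.Z_ge hz0
  have h2 : 0 < δ / (4 * (σ + 1)) * c₂ := mul_pos h.κ.1 h.hc₂
  linarith

lemma Ok.norms {z : ℂ} (hz : ‖z‖ ≤ ρ) :
    ‖Tm σ c δ ρ q z‖ < 2 * (σ + 1) * ρ ∧ ‖Zm σ δ q z‖ < 2 * (σ + 1) * ρ := by
  have h0 := h.σ0
  have h4 := h.ρ4
  have hρ := h.hρ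
  have hA := h.hA
  have e0 := h.et0
  have eA := h.etA
  have e1 : ‖z - et σ δ q * I‖ ≤ ρ + A := by
    refine (norm_sub_le _ _).trans (add_le_add hz ?_)
    rw [norm_mul, norm_I, mul_one, Complex.norm_real, Real.norm_of_nonneg e0.le]
    exact eA
  constructor
  · have e2 : ‖((σ - c + δ / 2 : ℝ) : ℂ) * (z - et σ δ q * I)‖ ≤ σ * (ρ + A) := by
      rw [norm_mul, Complex.norm_real, Real.norm_of_nonneg (by linarith [h.hcσ, h.hδ])]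
      exact mul_le_mul (by linarith [h.hδc, h.hδ]) e1 (norm_nonneg _) h0.le
    have e3 : ‖((δ / (8 * ρ) : ℝ) : ℂ) * (I * (z ^ 2 + (et σ δ q : ℂ) ^ 2))‖ ≤ ρ / 4 := by
      rw [norm_mul, norm_mul, norm_I, one_mul, Complex.norm_real,
        Real.norm_of_nonneg (by have := h.hδ; positivity)]
      have e4 : ‖z ^ 2 + (et σ δ q : ℂ) ^ 2‖ ≤ 2 * ρ ^ 2 := by
        refine (norm_add_le _ _).trans ?_
        rw [norm_pow, norm_pow, Complex.norm_real, Real.norm_of_nonneg e0.le]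
        have e5 : ‖z‖ ^ 2 ≤ ρ ^ 2 := pow_le_pow_left₀ (norm_nonneg _) hz 2
        have e6 : et σ δ q ^ 2 ≤ ρ ^ 2 := pow_le_pow_left₀ e0.le (by linarith) 2
        linarith
      have e7 : δ / (8 * ρ) * ‖z ^ 2 + (et σ δ q : ℂ) ^ 2‖ ≤ δ / (8 * ρ) * (2 * ρ ^ 2) :=
        mul_le_mul_of_nonneg_left e4 (by have := h.hδ; positivity)
      have e8 : δ / (8 * ρ) * (2 * ρ ^ 2) = δ * ρ / 4 := by field_simp; ring
      have e9 := h.hδ1
      nlinarith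
    have e10 : ‖Tm σ c δ ρ q z‖ ≤ A + σ * (ρ + A) + ρ / 4 := by
      unfold Tm
      exact (norm_sub_le _ _).trans (add_le_add ((norm_add_le _ _).trans
        (add_le_add h.q1 e2)) e3)
    have e11 : σ * A ≤ σ * (ρ / 4) := mul_le_mul_of_nonneg_left (by linarith) h0.le
    have e12 : 0 < σ * ρ := by positivity
    nlinarith
  · have e2 : ‖Zm σ δ q z‖ ≤ A + (ρ + A) := by
      unfold Zm
      exact (norm_add_le _ _).trans (add_le_add h.q2 e1)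
    have e12 : 0 < σ * ρ := by positivity
    nlinarith

/-- deep real side -/
lemma Ok.real_side {z : ℂ} (hz0 : z.im = 0) :
    δ / (32 * (σ + 1)) * c₂ ≤ -(Tm σ c δ ρ q z).im ∧
      δ / (32 * (σ + 1)) * c₂ ≤ (Zm σ δ q z).im := by
  have hσ := h.σ0
  have hδ := h.hδ
  have hc := h.hc₂
  have h1 := h.T_im_le (z := z)
  rw [hz0] at h1
  have h3 : 0 ≤ δ / (8 * ρ) * (z.re ^ 2 - 0 ^ 2) := by
    have := h.ρ4
    have e : z.re ^ 2 - 0 ^ 2 = z.re ^ 2 := by ring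
    rw [e]; positivity
  have h4 : δ / 4 * c₂ ≤ δ / 4 * q.2.im := mul_le_mul_of_nonneg_left h.y2 (by linarith)
  have h5 : δ / (32 * (σ + 1)) ≤ δ / 4 := div_le_div_of_nonneg_left hδ.le (by norm_num) (by linarith)
  have h6 : δ / (32 * (σ + 1)) ≤ δ / (4 * (σ + 1)) :=
    div_le_div_of_nonneg_left hδ.le (by linarith) (by linarith)
  constructor
  · have := mul_le_mul_of_nonneg_right h5 hc.le
    linarith
  · have h7 := h.Z_ge (z := z) hz0.ge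
    have := mul_le_mul_of_nonneg_right h6 hc.le
    linarith

/-- the low part of the arc is deep -/
lemma Ok.arc_low {z : ℂ} (hz0 : 0 ≤ z.im) (hz : ‖z‖ = ρ) (hy : z.im < δ / (32 * (σ + 1))) :
    δ / (32 * (σ + 1)) * c₂ ≤ -(Tm σ c δ ρ q z).im ∧
      δ / (32 * (σ + 1)) * c₂ ≤ (Zm σ δ q z).im := by
  have hσ := h.σ0
  have hδ := h.hδ
  have hδ1 := h.hδ1
  have hc := h.hc₂
  have hρ := h.ρ4
  have h1 := h.T_im_le (z := z)
  have hsq : z.re ^ 2 + z.im ^ 2 = ρ ^ 2 := by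
    rw [← hz, ← Complex.normSq_eq_norm_sq, Complex.normSq_apply]; ring
  have h32 : δ / (32 * (σ + 1)) ≤ δ / 32 :=
    div_le_div_of_nonneg_left hδ.le (by norm_num) (by linarith)
  have hy1 : z.im ≤ 1 / 32 := by linarith
  have h2 : δ / (8 * ρ) * (z.re ^ 2 - z.im ^ 2) = δ / 8 * (ρ - 2 * z.im ^ 2 / ρ) := by
    have : z.re ^ 2 = ρ ^ 2 - z.im ^ 2 := by linarith
    rw [this]; field_simp; ring
  have h3 : 2 * z.im ^ 2 / ρ ≤ 1 := by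
    rw [div_le_one (by linarith)]
    nlinarith
  have h4 : (σ - c + δ / 2) * z.im ≤ δ / 32 := by
    have h5 : (σ - c + δ / 2) * z.im ≤ (σ + 1) * z.im :=
      mul_le_mul_of_nonneg_right (by linarith [h.hδc]) hz0
    have h6 : (σ + 1) * z.im ≤ (σ + 1) * (δ / (32 * (σ + 1))) :=
      mul_le_mul_of_nonneg_left hy.le (by linarith)
    have h7 : (σ + 1) * (δ / (32 * (σ + 1))) = δ / 32 := by field_simp
    linarith
  have h8 : 0 < δ / 4 * q.2.im := mul_pos (by linarith) h.y0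
  have h9 : δ / 8 * 3 ≤ δ / 8 * (ρ - 2 * z.im ^ 2 / ρ) :=
    mul_le_mul_of_nonneg_left (by linarith) (by linarith)
  constructor
  · have h10 : δ / (32 * (σ + 1)) * c₂ ≤ δ / 32 := by
      have : δ / (32 * (σ + 1)) * c₂ ≤ δ / 32 * 1 :=
        mul_le_mul h32 h.hc₂1 hc.le (by linarith)
      linarith
    rw [h2] at h1
    linarith
  · have h6 : δ / (32 * (σ + 1)) ≤ δ / (4 * (σ + 1)) :=
      div_le_div_of_nonneg_left hδ.le (by linarith) (by linarith)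
    have h7 := h.Z_ge hz0
    have := mul_le_mul_of_nonneg_right h6 hc.le
    linarith

end disc

lemma Tm_diff {σ c δ ρ : ℝ} {q : ℂ × ℂ} : Differentiable ℂ (Tm σ c δ ρ q) := by
  unfold Tm; fun_prop

lemma Zm_diff {σ δ : ℝ} {q : ℂ × ℂ} : Differentiable ℂ (Zm σ δ q) := by
  unfold Zm; fun_prop

lemma isOpen_HW (σ A s : ℝ) : IsOpen (HW σ A s) := by
  have c1 : Continuous (fun q : ℂ × ℂ => q.2.im) := by fun_prop
  have c2 : Continuous (fun q : ℂ × ℂ => ‖q.2‖) := by fun_prop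
  have c3 : Continuous (fun q : ℂ × ℂ => ‖q.1‖) := by fun_prop
  have c4 : Continuous (fun q : ℂ × ℂ => q.1.im) := by fun_prop
  exact (isOpen_lt c3 continuous_const).inter ((isOpen_lt c2 continuous_const).inter
    ((isOpen_lt continuous_const c1).inter (isOpen_lt c4 (continuous_const.mul c1))))

/-- the radius -/
def rad (A θ : ℝ) : ℝ := 4 * A / (1 - θ) ^ 2

/-- scalar unit-scale version -/
theorem step_unit {σ A θ : ℝ} (hσ : 0 ≤ σ) (hA : 1 ≤ A) (hθ0 : 0 ≤ θ) (hθ : θ < 1)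
    {c δ c₂ : ℝ} (hδ : 0 < δ) (hδ1 : δ ≤ 1) (hδc : δ ≤ c) (hcσ : c ≤ σ) (hc₂ : 0 < c₂)
    (hc₂1 : c₂ ≤ 1) {f : ℂ × ℂ → ℂ}
    (hf : DifferentiableOn ℂ f (HW σ A (2 * (σ + 1) * rad A θ))) {MD MK : ℝ}
    (hD : ∀ q ∈ DW A (1 / (32 * (σ + 1) * (2 * (σ + 1) * rad A θ)) * δ * c₂)
      (2 * (σ + 1) * rad A θ), ‖f q‖ ≤ Real.exp MD)
    (hK : ∀ q ∈ KW σ A (c - δ) (1 / (32 * (σ + 1) * (2 * (σ + 1) * rad A θ)) * δ)
      (2 * (σ + 1) * rad A θ), ‖f q‖ ≤ Real.exp MK)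
    {q : ℂ × ℂ} (hq : q ∈ KW σ A c c₂ 1) :
    ‖f q‖ ≤ Real.exp (θ * MD + (1 - θ) * max MD MK) := by
  set ρ : ℝ := rad A θ with hρdef
  have h1θ : 0 < (1 - θ) ^ 2 := by have : 0 < 1 - θ := by linarith
                                   positivity
  have h1θ' : (1 - θ) ^ 2 ≤ 1 := by nlinarith
  have hρA : 4 * A ≤ ρ := by
    rw [hρdef, rad, le_div_iff₀ h1θ]
    nlinarith
  have hρθ : (1 - θ) ^ 2 * ρ = 4 * A := by
    rw [hρdef, rad]; exact mul_div_cancel₀ _ h1θ.ne'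
  have hρ0 : 0 < ρ := by linarith
  have ok : Ok σ A c δ c₂ ρ q := ⟨hA, hδ, hδ1, hδc, hcσ, hc₂, hc₂1, hρA, hq⟩
  set R : ℝ := 2 * (σ + 1) * ρ with hR
  have hR0 : 0 < R := by rw [hR]; positivity
  have hAR : R ≤ A * R := by nlinarith
  have ea : 1 / (32 * (σ + 1) * R) * δ * R = δ / (32 * (σ + 1)) := by
    field_simp
  have ea2 : 1 / (32 * (σ + 1) * R) * δ * c₂ * R = δ / (32 * (σ + 1)) * c₂ := by
    field_simp
  -- the composed function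
  have hmaps : ∀ z : ℂ, ‖z‖ ≤ ρ → 0 ≤ z.im → (Tm σ c δ ρ q z, Zm σ δ q z) ∈ HW σ A R := by
    intro z hz1 hz2
    obtain ⟨n1, n2⟩ := ok.norms hz1
    refine ⟨lt_of_lt_of_le n1 hAR, lt_of_lt_of_le n2 hAR, ok.Z_pos hz2, ?_⟩
    refine lt_of_lt_of_le (ok.level hz2 hz1) ?_
    exact mul_le_mul_of_nonneg_right (by linarith) (ok.Z_pos hz2).le
  have hda : ∀ z : ℂ, ‖z‖ ≤ ρ → 0 ≤ z.im →
      DifferentiableAt ℂ (fun z => f (Tm σ c δ ρ q z, Zm σ δ q z)) z := by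
    intro z hz1 hz2
    have h1 : DifferentiableAt ℂ f (Tm σ c δ ρ q z, Zm σ δ q z) :=
      (hf _ (hmaps z hz1 hz2)).differentiableAt ((isOpen_HW _ _ _).mem_nhds (hmaps z hz1 hz2))
    have h2 : DifferentiableAt ℂ (fun z => (Tm σ c δ ρ q z, Zm σ δ q z)) z :=
      (Tm_diff z).prodMk (Zm_diff z)
    exact DifferentiableAt.comp (f := fun z => (Tm σ c δ ρ q z, Zm σ δ q z)) z h1 h2
  have hg : DiffContOnCl ℂ (fun z => f (Tm σ c δ ρ q z, Zm σ δ q z)) (UD ρ) :=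
    ⟨fun z hz => (hda z hz.1.le hz.2.le).differentiableWithinAt, fun z hz =>
      (hda z (closure_UD ρ hz).1 (closure_UD ρ hz).2).continuousAt.continuousWithinAt⟩
  have hfin := two_const (ρ := ρ) (MD := MD) (M := MK) (θ := θ) (η := et σ δ q) hρ0 ok.et0
    (by linarith [ok.etA]) hθ (by rw [hρθ]; linarith [ok.etA]) hg ?_ ?_
  · have e1 : (Tm σ c δ ρ q (et σ δ q * I), Zm σ δ q (et σ δ q * I)) = q := by
      rw [Tm_at, Zm_at]
    simpa only [e1] using hfin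
  · intro z hz1 hz2
    obtain ⟨n1, n2⟩ := ok.norms hz1
    obtain ⟨d1, d2⟩ := ok.real_side hz2
    refine hD _ ⟨n1.le.trans hAR, n2.le.trans hAR, ?_, ?_⟩
    · rw [ea2]; exact d1
    · rw [ea2]; exact d2
  · intro z hz1 hz2
    obtain ⟨n1, n2⟩ := ok.norms hz1.le
    rcases lt_or_ge z.im (δ / (32 * (σ + 1))) with hlow | hhigh
    · obtain ⟨d1, d2⟩ := ok.arc_low hz2 hz1 hlow
      refine (hD _ ⟨n1.le.trans hAR, n2.le.trans hAR, ?_, ?_⟩).trans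
        (Real.exp_le_exp.2 (le_max_left _ _))
      · rw [ea2]; exact d1
      · rw [ea2]; exact d2
    · refine (hK _ ⟨n1.le.trans hAR, n2.le.trans hAR, ?_, (ok.level hz2 hz1.le).le⟩).trans
        (Real.exp_le_exp.2 (le_max_right _ _))
      rw [ea]
      have h3 := ok.Z_ge hz2
      have h4 : 0 < δ / (4 * (σ + 1)) * c₂ := mul_pos ok.κ.1 hc₂
      show δ / (32 * (σ + 1)) ≤ (Zm σ δ q z).im
      linarith

variable {E : Type*} [NormedAddCommGroup E] [NormedSpace ℂ E]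

/-- **(DE)**: the one-step disc, all scales, `E`-valued. -/
theorem de_step {σ A θ : ℝ} (hσ : 0 ≤ σ) (hA : 1 ≤ A) (hθ0 : 0 ≤ θ) (hθ : θ < 1) :
    ∃ R : ℝ, 2 ≤ R ∧ ∃ a : ℝ, 0 < a ∧ a ≤ 1 ∧ ∀ c δ c₂ s : ℝ, 0 < δ → δ ≤ 1 → δ ≤ c → c ≤ σ →
      0 < c₂ → c₂ ≤ 1 → 0 < s → ∀ f : ℂ × ℂ → E, DifferentiableOn ℂ f (HW σ A (R * s)) →
      ∀ MD MK : ℝ, (∀ q ∈ DW A (a * δ * c₂) (R * s), ‖f q‖ ≤ Real.exp MD) →
      (∀ q ∈ KW σ A (c - δ) (a * δ) (R * s), ‖f q‖ ≤ Real.exp MK) →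
      ∀ q ∈ KW σ A c c₂ s, ‖f q‖ ≤ Real.exp (θ * MD + (1 - θ) * max MD MK) := by
  have h1θ : 0 < (1 - θ) ^ 2 := by have : 0 < 1 - θ := by linarith
                                   positivity
  have h1θ' : (1 - θ) ^ 2 ≤ 1 := by nlinarith
  have hρA : 4 * A ≤ rad A θ := by
    rw [rad, le_div_iff₀ h1θ]
    nlinarith
  have hR8 : 8 ≤ 2 * (σ + 1) * rad A θ := by nlinarith
  refine ⟨2 * (σ + 1) * rad A θ, by linarith,
    1 / (32 * (σ + 1) * (2 * (σ + 1) * rad A θ)), by positivity, ?_, ?_⟩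
  · rw [div_le_one (by positivity)]
    nlinarith
  intro c δ c₂ s hδ hδ1 hδc hcσ hc₂ hc₂1 hs f hf MD MK hD hK q hq
  obtain ⟨ℓ, hℓ1, hℓ2⟩ := exists_dual_vector'' ℂ (f q)
  set R : ℝ := 2 * (σ + 1) * rad A θ with hR
  set g : ℂ × ℂ → ℂ := fun p => ℓ (f ((s : ℂ) * p.1, (s : ℂ) * p.2)) with hg
  have hnorm : ∀ z : ℂ, ‖(s : ℂ) * z‖ = s * ‖z‖ := fun z => by
    rw [norm_mul, Complex.norm_real, Real.norm_of_nonneg hs.le]
  have him : ∀ z : ℂ, ((s : ℂ) * z).im = s * z.im := fun z => by rw [Complex.im_ofReal_mul]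
  have hmaps : ∀ p ∈ HW σ A R, ((s : ℂ) * p.1, (s : ℂ) * p.2) ∈ HW σ A (R * s) := by
    rintro p ⟨h1, h2, h3, h4⟩
    refine ⟨?_, ?_, ?_, ?_⟩
    · show ‖(s : ℂ) * p.1‖ < _
      rw [hnorm]; nlinarith
    · show ‖(s : ℂ) * p.2‖ < _
      rw [hnorm]; nlinarith
    · show 0 < ((s : ℂ) * p.2).im
      rw [him]; positivity
    · show ((s : ℂ) * p.1).im < σ * ((s : ℂ) * p.2).im
      rw [him, him]; nlinarith
  have hgd : DifferentiableOn ℂ g (HW σ A R) := by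
    have h1 : DifferentiableOn ℂ (fun p : ℂ × ℂ => ((s : ℂ) * p.1, (s : ℂ) * p.2)) (HW σ A R) := by
      fun_prop
    have h2 : DifferentiableOn ℂ (fun p : ℂ × ℂ => f ((s : ℂ) * p.1, (s : ℂ) * p.2)) (HW σ A R) :=
      hf.comp h1 hmaps
    exact ℓ.differentiable.comp_differentiableOn h2
  have hgle : ∀ p : ℂ × ℂ, ‖g p‖ ≤ ‖f ((s : ℂ) * p.1, (s : ℂ) * p.2)‖ := by
    intro p
    refine (ℓ.le_opNorm _).trans ?_
    have := mul_le_mul_of_nonneg_right hℓ1 (norm_nonneg (f ((s : ℂ) * p.1, (s : ℂ) * p.2)))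
    simpa using this
  have hs' : (s : ℂ) ≠ 0 := by exact_mod_cast hs.ne'
  set p : ℂ × ℂ := (q.1 / s, q.2 / s) with hp
  have hpq : ((s : ℂ) * p.1, (s : ℂ) * p.2) = q := by
    rw [hp]
    ext
    · show (s : ℂ) * (q.1 / s) = q.1
      field_simp
    · show (s : ℂ) * (q.2 / s) = q.2
      field_simp
  have hp1 : p ∈ KW σ A c c₂ 1 := by
    obtain ⟨h1, h2, h3, h4⟩ := hq
    have i1 : ∀ z : ℂ, (z / (s : ℂ)).im = z.im / s := fun z => Complex.div_ofReal_im _ _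
    have n1 : ∀ z : ℂ, ‖z / (s : ℂ)‖ = ‖z‖ / s := fun z => by
      rw [norm_div, Complex.norm_real, Real.norm_of_nonneg hs.le]
    refine ⟨?_, ?_, ?_, ?_⟩
    · show ‖q.1 / (s : ℂ)‖ ≤ _
      rw [n1, div_le_iff₀ hs]; linarith
    · show ‖q.2 / (s : ℂ)‖ ≤ _
      rw [n1, div_le_iff₀ hs]; linarith
    · show _ ≤ (q.2 / (s : ℂ)).im
      rw [i1, le_div_iff₀ hs]; linarith
    · show (q.1 / (s : ℂ)).im ≤ (σ - c) * (q.2 / (s : ℂ)).im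
      rw [i1, i1, ← mul_div_assoc]
      gcongr
  have hfin := step_unit (σ := σ) (A := A) (θ := θ) hσ hA hθ0 hθ (c := c) (δ := δ) (c₂ := c₂)
    hδ hδ1 hδc hcσ hc₂ hc₂1 (f := g) hgd (MD := MD) (MK := MK) ?_ ?_ hp1
  · have e1 : ‖g p‖ = ‖f q‖ := by
      rw [hg]
      show ‖ℓ (f ((s : ℂ) * p.1, (s : ℂ) * p.2))‖ = _
      rw [hpq, hℓ2]
      simp
    rwa [e1] at hfin
  · rintro p' ⟨h1, h2, h3, h4⟩
    refine (hgle p').trans (hD _ ⟨?_, ?_, ?_, ?_⟩)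
    · show ‖(s : ℂ) * p'.1‖ ≤ _
      rw [hnorm]; nlinarith
    · show ‖(s : ℂ) * p'.2‖ ≤ _
      rw [hnorm]; nlinarith
    · show _ ≤ -((s : ℂ) * p'.1).im
      rw [him]; nlinarith
    · show _ ≤ ((s : ℂ) * p'.2).im
      rw [him]; nlinarith
  · rintro p' ⟨h1, h2, h3, h4⟩
    refine (hgle p').trans (hK _ ⟨?_, ?_, ?_, ?_⟩)
    · show ‖(s : ℂ) * p'.1‖ ≤ _
      rw [hnorm]; nlinarith
    · show ‖(s : ℂ) * p'.2‖ ≤ _
      rw [hnorm]; nlinarith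
    · show _ ≤ ((s : ℂ) * p'.2).im
      rw [him]; nlinarith
    · show ((s : ℂ) * p'.1).im ≤ (σ - (c - δ)) * ((s : ℂ) * p'.2).im
      rw [him, him]; nlinarith

end Crest.Agent.R102.DE722
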