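import Crest.Agent.R102.Free_781

/-!
# Row 102, [H3], (RAT): freeness, symmetric form (helper781)

Vertices `0, 1, …, N + 1`, line `j` joins the vertices `j` and `j + 1` (so line `0` is the chord
through the first two vertices, which are `z + u₀ X` and `z + u₁ X`).
`free2`: `m₀, k₀`, all labels `Φ j z` and all jets `Φ j g⁽ⁱ⁾`, `i ≥ 1`, are algebraically
independent, if the jets of `g` are.
-/

set_option autoImplicit false

noncomputable section

namespace Crest.Agent.R102.Free781

section Inf

variable {k A : Type*} [Field k] [CommRing A] [Algebra k A]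

/-- the infinite family of generators -/
def gensI {n : ℕ} {A : Type*} (m0 k0 : A) (b : Fin n → A) (J : ℕ → Fin n → A) :
    Fin 2 ⊕ (Fin n × ℕ) → A :=
  Sum.elim ![m0, k0] fun p => if p.2 = 0 then b p.1 else J p.2 p.1

theorem gensI_ind {n : ℕ} (m0 k0 : A) (b : Fin n → A) (J : ℕ → Fin n → A)
    (h : ∀ r, AlgebraicIndependent k (gens m0 k0 b J (r + 1))) :
    AlgebraicIndependent k (gensI m0 k0 b J) := by
  classical
  rw [algebraicIndependent_iff]
  intro P hP
  -- the inclusions
  let φ : ∀ r, Fin 2 ⊕ (Fin n × Fin (r + 1 + 1)) → Fin 2 ⊕ (Fin n × ℕ) := fun r =>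
    Sum.map id fun p => (p.1, (p.2 : ℕ))
  have hφ : ∀ r, Function.Injective (φ r) := by
    intro r
    refine Function.Injective.sumMap Function.injective_id ?_
    rintro ⟨a, b⟩ ⟨a', b'⟩ hab
    simp only [Prod.mk.injEq] at hab
    exact Prod.ext hab.1 (Fin.ext hab.2)
  let R : ℕ := P.vars.sup (fun x => Sum.elim (fun _ => 0) (fun p => p.2) x)
  have hR : (P.vars : Set (Fin 2 ⊕ (Fin n × ℕ))) ⊆ Set.range (φ R) := by
    intro x hx
    rcases x with x | ⟨j, i⟩
    · exact ⟨Sum.inl x, rfl⟩
    · have h1 : i ≤ R := Finset.le_sup (f := fun x : Fin 2 ⊕ (Fin n × ℕ) =>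
        Sum.elim (fun _ => 0) (fun p => p.2) x) hx
      exact ⟨Sum.inr (j, ⟨i, by omega⟩), rfl⟩
  clear_value R
  obtain ⟨Q, rfl⟩ := MvPolynomial.exists_rename_eq_of_vars_subset_range P (φ R) (hφ R) hR
  rw [MvPolynomial.aeval_rename] at hP
  have h2 : gensI m0 k0 b J ∘ φ R = gens m0 k0 b J (R + 1) := by
    funext x
    rcases x with x | ⟨j, i⟩
    · rfl
    · have h3 : ((i : ℕ) = 0) ↔ i = 0 := by
        rw [Fin.ext_iff]; rfl
      simp only [Function.comp_apply, φ, Sum.map_inr, gensI, gens, Sum.elim_inr, h3]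
  rw [h2] at hP
  rw [(algebraicIndependent_iff.1 (h R)) Q hP, map_zero]

end Inf

section Chain2

open PowerSeries Finset Crest.Agent.R102.H3

variable {k S : Type*} [Field k] [CharZero k] [Field S] [Algebra k S]
variable {H : Type*} [CommRing H] [Algebra k H]
variable (d : Derivation k H H) (τ : H →ₐ[k] S) {z g : H} {N : ℕ}

/-- **Freeness**, symmetric form. -/
theorem free2_r (hz : d z = 1)
    (hind : AlgebraicIndependent k (fun o : Option ℕ => τ (o.elim z fun i => d^[i] g)))
    (e : Fin (N + 2) → S⟦X⟧) (he : ∀ j, PowerSeries.X ∣ e j) (u₀ u₁ : k) (hu : u₀ ≠ u₁)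
    (he0 : e 0 = u₀ • (PowerSeries.X : S⟦X⟧))
    (he1 : e 1 = u₁ • (PowerSeries.X : S⟦X⟧)) (hinj : Function.Injective e)
    (Φ : Fin (N + 2) → H →+* S⟦X⟧)
    (hΦ : ∀ j, Φ j = pt d ((PowerSeries.C : S →+* S⟦X⟧).comp (τ : H →+* S)) (e j) (he j))
    (m κ : ℕ → S⟦X⟧) (hm : ∀ j, j ≤ N → m j ≠ 0)
    (h0 : Φ 0 g = m 0 * Φ 0 z + κ 0)
    (h1 : ∀ j : Fin (N + 1), Φ j.succ g = m j * Φ j.succ z + κ j)
    (h2 : ∀ j : Fin (N + 1), (j : ℕ) < N → Φ j.succ g = m (j + 1) * Φ j.succ z + κ (j + 1))
    (h3 : ∀ j : Fin (N + 1), (j : ℕ) < N → m (j + 1) * m j = (Φ j.succ (d g)) ^ 2) (r : ℕ) :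
    AlgebraicIndependent k
      (gens (m 0) (κ 0) (fun j => Φ j z) (fun i j => Φ j (d^[i] g)) (r + 1)) := by
  classical
  have hcharS : CharZero S := charZero_of_injective_algebraMap (algebraMap k S).injective
  have hcharA : CharZero S⟦X⟧ :=
    charZero_of_injective_algebraMap (R := S) (PowerSeries.C_injective)
  obtain ⟨δc, hδc⟩ := exists_derivation _ hind (fun o => o.elim 1 fun _ => 0)
  have hδs0 := fun s : ℕ => exists_derivation _ hind
    (fun o => o.elim 0 fun i => if i = s then 1 else 0)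
  choose δs hδs using hδs0
  have hcz : δc (τ z) = 1 := hδc none
  have hcg : ∀ i, δc (τ (d^[i] g)) = 0 := fun i => hδc (some i)
  have hsz : ∀ s, δs s (τ z) = 0 := fun s => hδs s none
  have hsg : ∀ s i, δs s (τ (d^[i] g)) = if i = s then 1 else 0 := fun s i => hδs s (some i)
  refine algInd_of_jac _ (basic δc δs) fun lam hlam => ?_
  set D : Derivation k S⟦X⟧ S⟦X⟧ := ∑ a, lam a • basic δc δs a with hD
  have hDx : ∀ i, D (gens (m 0) (κ 0) (fun j => Φ j z) (fun i j => Φ j (d^[i] g)) (r + 1) i)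
      = 0 := by
    intro i
    rw [hD, der_sum_apply]
    exact hlam i
  have hDm0 : D (m 0) = 0 := hDx (Sum.inl 0)
  have hDk0 : D (κ 0) = 0 := hDx (Sum.inl 1)
  have hDb : ∀ j, D (Φ j z) = 0 := by
    intro j
    have := hDx (Sum.inr (j, 0))
    simpa [gens] using this
  have hDJ' : ∀ j, ∀ i, 1 ≤ i → i ≤ r + 1 → D (Φ j (d^[i] g)) = 0 := by
    intro j i hi1 hi2
    have := hDx (Sum.inr (j, ⟨i, by omega⟩))
    have h0 : (⟨i, by omega⟩ : Fin (r + 1 + 1)) ≠ 0 := by
      intro h
      have := congrArg Fin.val h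
      simp at this
      omega
    simpa [gens, h0] using this
  -- all lines are killed
  have hline : ∀ j : ℕ, j ≤ N → D (m j) = 0 ∧ D (κ j) = 0 := by
    intro j
    induction j with
    | zero => exact fun _ => ⟨hDm0, hDk0⟩
    | succ j ih =>
      intro hj
      obtain ⟨ih1, ih2⟩ := ih (by omega)
      let j' : Fin (N + 1) := ⟨j, by omega⟩
      have hj' : (j' : ℕ) < N := by change j < N; omega
      have hg0 : D (Φ j'.succ g) = 0 := by
        rw [h1 j', map_add, Derivation.leibniz, hDb, smul_zero, zero_add]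
        change Φ j'.succ z • D (m j) + D (κ j) = 0
        rw [ih1, ih2, smul_zero, zero_add]
      have hg1 : D (Φ j'.succ (d g)) = 0 := hDJ' j'.succ 1 le_rfl (by omega)
      have hmm := congrArg D (h3 j' hj')
      rw [Derivation.leibniz, Derivation.leibniz_pow, hg1, smul_zero, smul_zero] at hmm
      change m (j + 1) • D (m j) + m j • D (m (j + 1)) = 0 at hmm
      rw [ih1, smul_zero, zero_add, smul_eq_mul] at hmm
      have hmj : m j ≠ 0 := hm j (by omega)
      have hm1 : D (m (j + 1)) = 0 := (mul_eq_zero.1 hmm).resolve_left hmj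
      have hk := congrArg D (h2 j' hj')
      rw [hg0, map_add, Derivation.leibniz, hDb, smul_zero, zero_add] at hk
      change 0 = Φ j'.succ z • D (m (j + 1)) + D (κ (j + 1)) at hk
      rw [hm1, smul_zero, zero_add] at hk
      exact ⟨hm1, hk.symm⟩
  have hDg : ∀ j, D (Φ j g) = 0 := by
    intro j
    refine Fin.cases ?_ (fun j => ?_) j
    · rw [h0, map_add, Derivation.leibniz, hDb, smul_zero, zero_add, hDm0, hDk0, smul_zero,
        zero_add]
    · obtain ⟨l1, l2⟩ := hline j (by omega)
      rw [h1 j, map_add, Derivation.leibniz, hDb, smul_zero, zero_add, l1, l2, smul_zero,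
        zero_add]
  have hDJ : ∀ j, ∀ i ≤ r + 1, D (Φ j (d^[i] g)) = 0 := by
    intro j i hi
    rcases Nat.eq_zero_or_pos i with rfl | hi0
    · exact hDg j
    · exact hDJ' j i hi0 hi
  -- labels
  have hcoord : ∀ j, Φ j z = PowerSeries.C (τ z) + e j := by
    intro j
    rw [hΦ, pt_coord d _ (he j) hz]
    rfl
  have hbC : ∑ a, lam a * basic δc δs a (PowerSeries.C (τ z)) = lam (Sum.inl 0) := by
    rw [Fintype.sum_sum_type, Fin.sum_univ_two]
    simp only [basic_C]
    simp [basic0, hcz, hsz]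
  have hDe : ∀ j, D (e j) = - lam (Sum.inl 0) := by
    intro j
    have h := hDb j
    rw [hcoord, map_add, hD, der_sum_apply, hbC, ← hD] at h
    linear_combination h
  have hDX : D (PowerSeries.X : S⟦X⟧) = lam (Sum.inl 1) := by
    rw [hD, der_sum_apply, Fintype.sum_sum_type, Fin.sum_univ_two]
    simp [basic]
  have hw0 : lam (Sum.inl 1) = 0 := by
    have ha := hDe 0
    have hb := hDe 1
    rw [he0, D.map_smul, hDX] at ha
    rw [he1, D.map_smul, hDX, ← ha] at hb
    have hc : (u₁ - u₀) • lam (Sum.inl 1) = 0 := by rw [sub_smul, hb, sub_self]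
    rcases smul_eq_zero.1 hc with h | h
    · exact absurd (sub_eq_zero.1 h).symm hu
    · exact h
  have hc0 : lam (Sum.inl 0) = 0 := by
    have h := hDe 0
    rw [he0, D.map_smul, hDX, hw0, smul_zero] at h
    linear_combination h
  have hDe0 : ∀ j, D (e j) = 0 := fun j => by rw [hDe, hc0, neg_zero]
  -- the jets
  have hjet : ∀ j, ∀ i ≤ r + 1, ∑ p : Fin (N + 2) × Fin (r + 1 + 1),
      lam (Sum.inr p) * (PowerSeries.C (cc k (finProdFinEquiv p : ℕ) i)
        * e j ^ ((finProdFinEquiv p : ℕ) - i)) = 0 := by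
    intro j i hi
    have h := hDJ j i hi
    rw [hD, der_sum_apply, hΦ] at h
    simp only [basic_pt, mul_add, Finset.sum_add_distrib] at h
    have h5 : ∑ a, lam a * (pt d ((PowerSeries.C : S →+* S⟦X⟧).comp (τ : H →+* S)) (e j) (he j)
        (d (d^[i] g)) * basic δc δs a (e j)) = 0 := by
      have : ∀ a, lam a * (pt d ((PowerSeries.C : S →+* S⟦X⟧).comp (τ : H →+* S)) (e j) (he j)
        (d (d^[i] g)) * basic δc δs a (e j))
        = pt d ((PowerSeries.C : S →+* S⟦X⟧).comp (τ : H →+* S)) (e j) (he j)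
        (d (d^[i] g)) * (lam a * basic δc δs a (e j)) := fun a => by ring
      rw [Finset.sum_congr rfl fun a _ => this a, ← Finset.mul_sum, ← der_sum_apply, ← hD, hDe0,
        mul_zero]
    rw [h5, add_zero, Fintype.sum_sum_type, Fin.sum_univ_two, hc0, hw0, zero_mul, zero_mul,
      zero_add, zero_add] at h
    rw [← h]
    refine Finset.sum_congr rfl fun p _ => ?_
    congr 1
    exact (evS_delta d τ (he j) (δs (finProdFinEquiv p : ℕ)) _ i
      (hsg (finProdFinEquiv p : ℕ))).symm
  -- the polynomial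
  set n := (N + 2) * (r + 1 + 1) with hn
  let L : Fin n → S⟦X⟧ := fun s => lam (Sum.inr (finProdFinEquiv.symm s))
  let a : Polynomial S⟦X⟧ := ∑ s : Fin n, Polynomial.C (L s * PowerSeries.C (cc k s 0))
    * Polynomial.X ^ (s : ℕ)
  have hnpos : 0 < n := Nat.mul_pos (by omega) (by omega)
  have hcoeff : ∀ s : Fin n, a.coeff s = L s * PowerSeries.C (cc k s 0) := by
    intro s
    simp only [a, Polynomial.finsetSum_coeff, Polynomial.coeff_C_mul, Polynomial.coeff_X_pow]
    rw [Finset.sum_eq_single s]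
    · simp
    · intro b _ hb
      rw [if_neg (fun h => hb (Fin.ext h.symm)), mul_zero]
    · simp
  have hdeg : a.natDegree < n := by
    have : a.natDegree ≤ n - 1 := by
      refine Polynomial.natDegree_sum_le_of_forall_le _ _ fun s _ => ?_
      refine (Polynomial.natDegree_C_mul_X_pow_le _ _).trans ?_
      omega
    omega
  have ha : a = 0 := by
    refine poly_zero e hinj a hdeg fun j i hi => ?_
    have h := hjet j i hi
    rw [← Equiv.sum_comp finProdFinEquiv.symm] at h
    simp only [Equiv.apply_symm_apply] at h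
    rw [← h]
    simp only [a]
    rw [Polynomial.iterate_derivative_sum, Polynomial.eval_finsetSum]
    refine Finset.sum_congr rfl fun s _ => ?_
    rw [Polynomial.iterate_derivative_C_mul, Polynomial.iterate_derivative_X_pow_eq_natCast_mul,
      Polynomial.eval_mul, Polynomial.eval_mul, Polynomial.eval_C, Polynomial.eval_natCast,
      Polynomial.eval_pow, Polynomial.eval_X]
    have h6 : (cc k (s : ℕ) 0 : S) * ((s : ℕ).descFactorial i : S) = cc k (s : ℕ) i := by
      rw [cc, cc, if_pos (Nat.zero_le _), Nat.sub_zero]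
      by_cases his : i ≤ (s : ℕ)
      · rw [if_pos his, ← map_natCast (algebraMap k S), ← map_mul]
        congr 1
        have hf := Nat.factorial_mul_descFactorial his
        have hf' : (((s : ℕ) - i).factorial : k) * ((s : ℕ).descFactorial i : k)
            = ((s : ℕ).factorial : k) := by exact_mod_cast hf
        have n1 : (((s : ℕ) - i).factorial : k) ≠ 0 :=
          Nat.cast_ne_zero.2 (Nat.factorial_ne_zero _)
        have n2 : ((s : ℕ).factorial : k) ≠ 0 := Nat.cast_ne_zero.2 (Nat.factorial_ne_zero _)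
        field_simp
        rw [mul_comm]
        exact hf'
      · rw [if_neg his, Nat.descFactorial_of_lt (by omega), Nat.cast_zero, mul_zero]
    have h7 : (PowerSeries.C (cc k (s : ℕ) i : S) : S⟦X⟧)
        = PowerSeries.C (cc k (s : ℕ) 0 : S) * (((s : ℕ).descFactorial i : ℕ) : S⟦X⟧) := by
      rw [← h6, map_mul, map_natCast]
    rw [h7]
    simp only [L]
    ring
  ext1 i
  rcases i with i | p
  · fin_cases i
    · exact hc0
    · exact hw0
  · have h := hcoeff (finProdFinEquiv p)
    rw [ha, Polynomial.coeff_zero] at h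
    have h8 : (PowerSeries.C (cc k ((finProdFinEquiv p : Fin n) : ℕ) 0 : S) : S⟦X⟧) ≠ 0 := by
      rw [map_ne_zero_iff _ PowerSeries.C_injective]
      rw [cc, if_pos (Nat.zero_le _)]
      intro h0
      have := (algebraMap k S).injective (h0.trans (map_zero _).symm)
      exact inv_ne_zero (Nat.cast_ne_zero.2 (Nat.factorial_ne_zero _)) this
    have h9 := (mul_eq_zero.1 h.symm).resolve_right h8
    simp only [L, Equiv.symm_apply_apply] at h9
    exact h9

end Chain2

end Crest.Agent.R102.Free781
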