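import Crest.Agent.R102.Hol_575

/-!
# Row 102, [H3]/RAT, R6 = GLUE, part A (helper798): general toolkit

* `pdH W v`      : derivative in the direction `v` on `Hol W`, `W : Opens E`;
* `compH b hb`   : `Hol V →ₐ[ℂ] Hol W`, `f ↦ f ∘ b`, for `b : Hol W` with values in `V : Opens ℂ`;
* `toH W F`      : the element of `Hol W` given by a total function (`0` if `F` is not analytic);
* `frD D`        : extension of a derivation to the field of fractions;
* `dm m k, dk m k` : the derivations `∂/∂m, ∂/∂k` of `Hol W`, `W : Opens (ℂ × ℂ)`.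
-/

set_option autoImplicit false
set_option linter.unusedSectionVars false

open Set Filter Topology TopologicalSpace

noncomputable section

namespace Crest.Agent.R102.Glue798

open Crest.Agent.R102.H3

/-! ### extension of derivations to the field of fractions -/

section fracK

variable {A : Type} [CommRing A] [Algebra ℂ A] (K : Type) [Field K] [Algebra A K] [Algebra ℂ K]
  [IsScalarTower ℂ A K] [IsFractionRing A K]

theorem exists_frK (D : Derivation ℂ A A) :
    ∃ D' : Derivation ℂ K K, ∀ a : A, D' (algebraMap A K a) = algebraMap A K (D a) := by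
  have : Algebra.FormallyEtale A K := Algebra.FormallyEtale.of_isLocalization (nonZeroDivisors A)
  let e := KaehlerDifferential.tensorKaehlerEquivOfFormallyEtale ℂ A K
  let D1 : Derivation ℂ A K := (Algebra.linearMap A K).compDer D
  let l : Ω[A⁄ℂ] →ₗ[A] K := D1.liftKaehlerDifferential
  let L := LinearMap.liftBaseChange K l
  let M : Ω[K⁄ℂ] →ₗ[K] K := L ∘ₗ e.symm.toLinearMap
  refine ⟨M.compDer (KaehlerDifferential.D ℂ K), fun a => ?_⟩
  change L (e.symm (KaehlerDifferential.D ℂ _ (algebraMap A _ a))) = _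
  rw [KaehlerDifferential.tensorKaehlerEquivOfFormallyEtale_symm_D_algebraMap]
  simp [L, l, D1]

/-- extension of a derivation to the field of fractions -/
def frK (D : Derivation ℂ A A) : Derivation ℂ K K := (exists_frK K D).choose

variable {K}

@[simp] theorem frK_algebraMap (D : Derivation ℂ A A) (a : A) :
    frK K D (algebraMap A K a) = algebraMap A K (D a) :=
  (exists_frK K D).choose_spec a

/-- two derivations on the field of fractions which agree on the ring agree -/
theorem fr_ext {L : Type} [Field L] [Algebra ℂ L] (φ : K →ₐ[ℂ] L)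
    {D D' : K → L}
    (hD : ∀ a b : K, D (a * b) = φ a * D b + φ b * D a)
    (hD' : ∀ a b : K, D' (a * b) = φ a * D' b + φ b * D' a)
    (h : ∀ a : A, D (algebraMap A _ a) = D' (algebraMap A _ a)) (f : K) :
    D f = D' f := by
  have hinj := IsFractionRing.injective A K
  have : IsDomain A := hinj.isDomain
  obtain ⟨a, b, hb, rfl⟩ := IsFractionRing.div_surjective (A := A) f
  have hb0 : algebraMap A K b ≠ 0 := by
    intro h0
    exact nonZeroDivisors.ne_zero hb (hinj (h0.trans (map_zero _).symm))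
  set x := algebraMap A K a with hx
  set y := algebraMap A K b with hy
  have h1 := hD (x / y) y
  have h2 := hD' (x / y) y
  rw [div_mul_cancel₀ _ hb0] at h1 h2
  have hy0 : φ y ≠ 0 := fun h0 => hb0 ((map_eq_zero_iff φ φ.toRingHom.injective).1 h0)
  rw [← sub_eq_zero]
  have h3 : φ y * (D (x / y) - D' (x / y)) = 0 := by
    have e1 := h a
    have e2 := h b
    rw [← hx] at e1
    rw [← hy] at e2
    rw [e1, e2] at h1
    linear_combination h2 - h1
  exact (mul_eq_zero.1 h3).resolve_left hy0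

variable (A) in
theorem frK_ext {D D' : Derivation ℂ K K}
    (h : ∀ a : A, D (algebraMap A _ a) = D' (algebraMap A _ a)) : D = D' := by
  ext f
  exact fr_ext (AlgHom.id ℂ _) (fun a b => by simp [Derivation.leibniz])
    (fun a b => by simp [Derivation.leibniz]) h f

theorem frK_comm {D D' : Derivation ℂ A A} (h : ∀ a, D (D' a) = D' (D a)) (f : K) :
    frK K D (frK K D' f) = frK K D' (frK K D f) := by
  have h1 : ⁅frK K D, frK K D'⁆ = 0 := by
    refine frK_ext A fun a => ?_
    rw [Derivation.commutator_apply, frK_algebraMap, frK_algebraMap, frK_algebraMap,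
      frK_algebraMap, h, sub_self, Derivation.zero_apply]
  have h2 := congrArg (fun X => X f) h1
  simp only [Derivation.commutator_apply, Derivation.zero_apply] at h2
  exact sub_eq_zero.1 h2

end fracK

section frac

variable {A : Type} [CommRing A] [IsDomain A] [Algebra ℂ A]

/-- extension of a derivation to the field of fractions -/
def frD (D : Derivation ℂ A A) : Derivation ℂ (FractionRing A) (FractionRing A) :=
  frK (FractionRing A) D

@[simp] theorem frD_algebraMap (D : Derivation ℂ A A) (a : A) :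
    frD D (algebraMap A (FractionRing A) a) = algebraMap A (FractionRing A) (D a) :=
  frK_algebraMap D a

theorem frD_ext {D D' : Derivation ℂ (FractionRing A) (FractionRing A)}
    (h : ∀ a : A, D (algebraMap A _ a) = D' (algebraMap A _ a)) : D = D' := frK_ext A h

theorem frD_comm {D D' : Derivation ℂ A A} (h : ∀ a, D (D' a) = D' (D a)) (f : FractionRing A) :
    frD D (frD D' f) = frD D' (frD D f) := frK_comm h f

/-- functoriality of the field of fractions -/
def frMap {A' : Type} [CommRing A'] [IsDomain A'] [Algebra ℂ A'] (φ : A →ₐ[ℂ] A')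
    (hφ : Function.Injective φ) : FractionRing A →ₐ[ℂ] FractionRing A' :=
  IsFractionRing.liftAlgHom (K := FractionRing A)
    (g := (IsScalarTower.toAlgHom ℂ A' (FractionRing A')).comp φ)
    ((IsFractionRing.injective A' (FractionRing A')).comp hφ)

@[simp] theorem frMap_algebraMap {A' : Type} [CommRing A'] [IsDomain A'] [Algebra ℂ A']
    (φ : A →ₐ[ℂ] A') (hφ : Function.Injective φ) (a : A) :
    frMap φ hφ (algebraMap A _ a) = algebraMap A' _ (φ a) :=
  IsLocalization.lift_eq _ _

theorem frMap_frD {A' : Type} [CommRing A'] [IsDomain A'] [Algebra ℂ A']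
    (φ : A →ₐ[ℂ] A') (hφ : Function.Injective φ) {D : Derivation ℂ A A}
    {D' : Derivation ℂ A' A'} (h : ∀ a, φ (D a) = D' (φ a)) (f : FractionRing A) :
    frMap φ hφ (frD D f) = frD D' (frMap φ hφ f) := by
  refine fr_ext (A := A) (frMap φ hφ) (D := fun f => frMap φ hφ (frD D f))
    (D' := fun f => frD D' (frMap φ hφ f)) (fun a b => ?_) (fun a b => ?_) (fun a => ?_) f
  · simp only [Derivation.leibniz, map_add, smul_eq_mul, map_mul]
  · simp only [Derivation.leibniz, map_mul, smul_eq_mul]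
  · simp only [frD_algebraMap, frMap_algebraMap, h]

end frac

/-! ### the derivations `∂/∂m`, `∂/∂k` -/

section alg

variable {A : Type} [CommRing A] [Algebra ℂ A] (P Q : Derivation ℂ A A)

/-- jacobian -/
def jcb (f h : A) : A := P f * Q h - Q f * P h

/-- `∂/∂m` in the coordinates `m, k` -/
def dM (m k : A) : Derivation ℂ A A :=
  Ring.inverse (jcb P Q m k) • (Q k • P - P k • Q)

/-- `∂/∂k` in the coordinates `m, k` -/
def dK (m k : A) : Derivation ℂ A A :=
  Ring.inverse (jcb P Q m k) • (P m • Q - Q m • P)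

theorem dM_apply (m k f : A) :
    dM P Q m k f = Ring.inverse (jcb P Q m k) * (Q k * P f - P k * Q f) := rfl

theorem dK_apply (m k f : A) :
    dK P Q m k f = Ring.inverse (jcb P Q m k) * (P m * Q f - Q m * P f) := rfl

variable {P Q} {m k : A}

theorem inv_jcb (h : IsUnit (jcb P Q m k)) :
    Ring.inverse (jcb P Q m k) * jcb P Q m k = 1 := Ring.inverse_mul_cancel _ h

theorem dM_m (h : IsUnit (jcb P Q m k)) : dM P Q m k m = 1 := by
  rw [dM_apply, ← inv_jcb h, jcb]; ring

theorem dM_k : dM P Q m k k = 0 := by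
  rw [dM_apply]; ring

theorem dK_m : dK P Q m k m = 0 := by
  rw [dK_apply]; ring

theorem dK_k (h : IsUnit (jcb P Q m k)) : dK P Q m k k = 1 := by
  rw [dK_apply, ← inv_jcb h]; rfl

/-- the chain rule -/
theorem span_P (h : IsUnit (jcb P Q m k)) (f : A) :
    P f = P m * dM P Q m k f + P k * dK P Q m k f := by
  have h1 := inv_jcb h
  rw [dM_apply, dK_apply]
  have h2 : P m * (Ring.inverse (jcb P Q m k) * (Q k * P f - P k * Q f)) +
      P k * (Ring.inverse (jcb P Q m k) * (P m * Q f - Q m * P f)) =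
      (Ring.inverse (jcb P Q m k) * jcb P Q m k) * P f := by
    rw [jcb]; ring
  rw [h2, h1, one_mul]

/-- the chain rule -/
theorem span_Q (h : IsUnit (jcb P Q m k)) (f : A) :
    Q f = Q m * dM P Q m k f + Q k * dK P Q m k f := by
  have h1 := inv_jcb h
  rw [dM_apply, dK_apply]
  have h2 : Q m * (Ring.inverse (jcb P Q m k) * (Q k * P f - P k * Q f)) +
      Q k * (Ring.inverse (jcb P Q m k) * (P m * Q f - Q m * P f)) =
      (Ring.inverse (jcb P Q m k) * jcb P Q m k) * Q f := by
    rw [jcb]; ring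
  rw [h2, h1, one_mul]

/-- multiplicativity of jacobians -/
theorem jcb_eq (h : IsUnit (jcb P Q m k)) (f g : A) :
    jcb P Q m k * (dM P Q m k f * dK P Q m k g - dK P Q m k f * dM P Q m k g) =
      jcb P Q f g := by
  have hf := span_P h f
  have hg := span_P h g
  have hf' := span_Q h f
  have hg' := span_Q h g
  have e : jcb P Q f g = P f * Q g - Q f * P g := rfl
  rw [e, hf, hg, hf', hg', jcb]
  ring

/-- a combination of `P, Q` killing `m, k` is zero -/
theorem coef_zero (h : IsUnit (jcb P Q m k)) {a b : A} (h1 : a * P m + b * Q m = 0)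
    (h2 : a * P k + b * Q k = 0) : a = 0 ∧ b = 0 := by
  have e := inv_jcb h
  generalize Ring.inverse (jcb P Q m k) = i at e
  rw [jcb] at e
  exact ⟨by linear_combination i * (Q k * h1 - Q m * h2) - a * e,
    by linear_combination i * (P m * h2 - P k * h1) - b * e⟩

/-- uniqueness of `∂/∂m` -/
theorem dM_unique (h : IsUnit (jcb P Q m k)) {X : Derivation ℂ A A} {a b : A}
    (hX : ∀ f, X f = a * P f + b * Q f) (h1 : X m = 1) (h2 : X k = 0) : X = dM P Q m k := by
  have e1 := dM_m h
  have e2 : dM P Q m k k = 0 := dM_k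
  rw [dM_apply] at e1 e2
  rw [hX] at h1 h2
  have h3 := coef_zero h
    (a := a - Ring.inverse (jcb P Q m k) * Q k) (b := b + Ring.inverse (jcb P Q m k) * P k)
    (by linear_combination h1 - e1) (by linear_combination h2 - e2)
  ext f
  rw [hX, dM_apply]
  linear_combination P f * h3.1 + Q f * h3.2

/-- uniqueness of `∂/∂k` -/
theorem dK_unique (h : IsUnit (jcb P Q m k)) {X : Derivation ℂ A A} {a b : A}
    (hX : ∀ f, X f = a * P f + b * Q f) (h1 : X m = 0) (h2 : X k = 1) : X = dK P Q m k := by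
  have e1 : dK P Q m k m = 0 := dK_m
  have e2 := dK_k h
  rw [dK_apply] at e1 e2
  rw [hX] at h1 h2
  have h3 := coef_zero h
    (a := a + Ring.inverse (jcb P Q m k) * Q m) (b := b - Ring.inverse (jcb P Q m k) * P m)
    (by linear_combination h1 - e1) (by linear_combination h2 - e2)
  ext f
  rw [hX, dK_apply]
  linear_combination P f * h3.1 + Q f * h3.2

/-- the derivations `∂/∂m`, `∂/∂k` commute -/
theorem dM_dK_comm (hPQ : ∀ f, P (Q f) = Q (P f)) (h : IsUnit (jcb P Q m k)) (f : A) :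
    dM P Q m k (dK P Q m k f) = dK P Q m k (dM P Q m k f) := by
  set i := Ring.inverse (jcb P Q m k) with hi
  -- coefficients
  set X := dM P Q m k with hX
  set Y := dK P Q m k with hY
  have hXf : ∀ f, X f = (i * Q k) * P f + (-(i * P k)) * Q f := fun f => by
    rw [hX, dM_apply, ← hi]; ring
  have hYf : ∀ f, Y f = (-(i * Q m)) * P f + (i * P m) * Q f := fun f => by
    rw [hY, dK_apply, ← hi]; ring
  have hcom : ∀ f, X (Y f) - Y (X f) =
      (X (-(i * Q m)) - Y (i * Q k)) * P f + (X (i * P m) - Y (-(i * P k))) * Q f := by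
    intro f
    have e1 : X (Y f) = X ((-(i * Q m)) * P f + (i * P m) * Q f) := by rw [← hYf]
    have e2 : Y (X f) = Y ((i * Q k) * P f + (-(i * P k)) * Q f) := by rw [← hXf]
    rw [e1, e2, map_add, map_add]
    simp only [Derivation.leibniz, smul_eq_mul]
    have a1 : X (P f) = (i * Q k) * P (P f) + (-(i * P k)) * Q (P f) := hXf _
    have a2 : X (Q f) = (i * Q k) * P (Q f) + (-(i * P k)) * Q (Q f) := hXf _
    have a3 : Y (P f) = (-(i * Q m)) * P (P f) + (i * P m) * Q (P f) := hYf _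
    have a4 : Y (Q f) = (-(i * Q m)) * P (Q f) + (i * P m) * Q (Q f) := hYf _
    rw [a1, a2, a3, a4, hPQ]
    simp only [map_neg, Derivation.leibniz, smul_eq_mul]
    ring
  have hm : X (Y m) - Y (X m) = 0 := by
    rw [hX, hY, dK_m, dM_m h, map_zero, Derivation.map_one_eq_zero, sub_zero]
  have hk : X (Y k) - Y (X k) = 0 := by
    rw [hX, hY, dK_k h, dM_k, map_zero, Derivation.map_one_eq_zero, sub_zero]
  rw [hcom] at hm hk
  obtain ⟨z1, z2⟩ := coef_zero h hm hk
  have := hcom f
  rw [z1, z2, zero_mul, zero_mul, add_zero] at this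
  exact sub_eq_zero.1 this

/-- naturality -/
theorem map_jcb {A' : Type} [CommRing A'] [Algebra ℂ A'] {P' Q' : Derivation ℂ A' A'}
    (φ : A →ₐ[ℂ] A') (hP : ∀ a, φ (P a) = P' (φ a)) (hQ : ∀ a, φ (Q a) = Q' (φ a)) (f g : A) :
    φ (jcb P Q f g) = jcb P' Q' (φ f) (φ g) := by
  simp only [jcb, map_sub, map_mul, hP, hQ]

theorem map_inverse {A' : Type} [CommRing A'] (φ : A →+* A') {a : A} (h : IsUnit a) :
    φ (Ring.inverse a) = Ring.inverse (φ a) := by
  have h1 : φ (Ring.inverse a) * φ a = 1 := by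
    rw [← map_mul, Ring.inverse_mul_cancel _ h, map_one]
  have h2 : Ring.inverse (φ a) * φ a = 1 := Ring.inverse_mul_cancel _ (h.map φ)
  exact (h.map φ).mul_right_cancel (h1.trans h2.symm)

theorem map_dM {A' : Type} [CommRing A'] [Algebra ℂ A'] {P' Q' : Derivation ℂ A' A'}
    (φ : A →ₐ[ℂ] A') (hP : ∀ a, φ (P a) = P' (φ a)) (hQ : ∀ a, φ (Q a) = Q' (φ a))
    (h : IsUnit (jcb P Q m k)) (f : A) :
    φ (dM P Q m k f) = dM P' Q' (φ m) (φ k) (φ f) := by
  rw [dM_apply, dM_apply, map_mul]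
  have := map_inverse φ.toRingHom h
  simp only [AlgHom.toRingHom_eq_coe, RingHom.coe_coe] at this
  rw [this, map_jcb φ hP hQ]
  simp only [map_sub, map_mul, hP, hQ]

theorem map_dK {A' : Type} [CommRing A'] [Algebra ℂ A'] {P' Q' : Derivation ℂ A' A'}
    (φ : A →ₐ[ℂ] A') (hP : ∀ a, φ (P a) = P' (φ a)) (hQ : ∀ a, φ (Q a) = Q' (φ a))
    (h : IsUnit (jcb P Q m k)) (f : A) :
    φ (dK P Q m k f) = dK P' Q' (φ m) (φ k) (φ f) := by
  rw [dK_apply, dK_apply, map_mul]
  have := map_inverse φ.toRingHom h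
  simp only [AlgHom.toRingHom_eq_coe, RingHom.coe_coe] at this
  rw [this, map_jcb φ hP hQ]
  simp only [map_sub, map_mul, hP, hQ]

end alg

/-! ### holomorphic functions on an open set of a normed space -/

section basic

variable {E : Type} [NormedAddCommGroup E] [NormedSpace ℂ E]

/-- the element of `Hol W` given by a total function; `0` if `F` is not analytic on `W` -/
def toH (W : Opens E) (F : E → ℂ) : Hol W := by
  classical
  exact if h : AnalyticOnNhd ℂ F W then Hol.ofFun F h else 0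

theorem toH_eq {W : Opens E} {F : E → ℂ} (h : AnalyticOnNhd ℂ F W) : toH W F = Hol.ofFun F h := by
  rw [toH, dif_pos h]

theorem toH_apply {W : Opens E} {F : E → ℂ} (h : AnalyticOnNhd ℂ F W) (x : W) :
    (toH W F : W → ℂ) x = F x := by
  rw [toH_eq h]; rfl

theorem ext0_toH {W : Opens E} {F : E → ℂ} (h : AnalyticOnNhd ℂ F W) {x : E} (hx : x ∈ W) :
    ext0 (toH W F : W → ℂ) =ᶠ[𝓝 x] F :=
  eventually_ext0_eq (fun y => (toH_apply h y).symm) hx

theorem toH_ext0 {W : Opens E} (f : Hol W) : toH W (ext0 (f : W → ℂ)) = f := by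
  rw [toH_eq (Hol.an f), Hol.ofFun_ext0]

/-- derivative in the direction `v` -/
def pdH (W : Opens E) (v : E) : Derivation ℂ (Hol W) (Hol W) where
  toFun f := ⟨fun x => fderiv ℂ (ext0 (f : W → ℂ)) x v,
    analyticOnNhd_ext0 (F := fun x => fderiv ℂ (ext0 (f : W → ℂ)) x v) (fun _ => rfl)
      (fun x hx => (((ContinuousLinearMap.apply ℂ ℂ v).analyticAt _).comp ((Hol.an f) x hx).fderiv))⟩
  map_add' f g := by
    ext x
    simp only [Subalgebra.coe_add, Pi.add_apply]
    rw [ext0_add, fderiv_add ((Hol.an f) x x.2).differentiableAt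
      ((Hol.an g) x x.2).differentiableAt]
    rfl
  map_smul' c f := by
    ext x
    have : ext0 ((c • f : Hol W) : W → ℂ) = fun z => c • ext0 (f : W → ℂ) z := by
      funext z
      by_cases h : z ∈ W <;> simp [ext0, h]
    simp only [RingHom.id_apply]
    change fderiv ℂ (ext0 ((c • f : Hol W) : W → ℂ)) x v = c • fderiv ℂ (ext0 (f : W → ℂ)) x v
    rw [this, fderiv_fun_const_smul ((Hol.an f) x x.2).differentiableAt]
    rfl
  map_one_eq_zero' := by
    ext x
    change fderiv ℂ (ext0 (1 : W → ℂ)) x v = 0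
    rw [(eventually_ext0_eq (F := fun _ => (1:ℂ)) (f := (1 : W → ℂ)) (fun _ => rfl)
      x.2).fderiv_eq]
    simp
  leibniz' f g := by
    ext x
    change fderiv ℂ (ext0 ((f : W → ℂ) * (g : W → ℂ))) x v = _
    rw [ext0_mul]
    rw [fderiv_mul ((Hol.an f) x x.2).differentiableAt ((Hol.an g) x x.2).differentiableAt]
    simp only [smul_eq_mul, Subalgebra.coe_add, Subalgebra.coe_mul, Pi.add_apply, Pi.mul_apply,
      _root_.add_apply, _root_.smul_apply]
    rw [ext0_apply, ext0_apply]
    rfl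

theorem pdH_apply {W : Opens E} (v : E) (f : Hol W) (x : W) :
    (pdH W v f : W → ℂ) x = fderiv ℂ (ext0 (f : W → ℂ)) x v := rfl

theorem pdH_toH {W : Opens E} (v : E) {F : E → ℂ} (h : AnalyticOnNhd ℂ F W) :
    pdH W v (toH W F) = toH W (fun x => fderiv ℂ F x v) := by
  have h1 : AnalyticOnNhd ℂ (fun x => fderiv ℂ F x v) W := fun x hx =>
    (((ContinuousLinearMap.apply ℂ ℂ v).analyticAt _).comp (h x hx).fderiv)
  ext x
  rw [pdH_apply, toH_apply h1, (ext0_toH h x.2).fderiv_eq]

theorem pdH_comm {W : Opens E} (u v : E) (f : Hol W) :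
    pdH W u (pdH W v f) = pdH W v (pdH W u f) := by
  have h0 := Hol.an f
  have hD : ∀ v : E, AnalyticOnNhd ℂ (fun x => fderiv ℂ (ext0 (f : W → ℂ)) x v) W :=
    fun v x hx => (((ContinuousLinearMap.apply ℂ ℂ v).analyticAt _).comp (h0 x hx).fderiv)
  have h1 : ∀ v : E, pdH W v f = toH W (fun x => fderiv ℂ (ext0 (f : W → ℂ)) x v) := by
    intro v
    rw [← pdH_toH v h0, toH_ext0]
  rw [h1 u, h1 v, pdH_toH _ (hD _), pdH_toH _ (hD _)]
  ext x
  have hD2 : ∀ u v : E, AnalyticOnNhd ℂ
      (fun x => fderiv ℂ (fun x => fderiv ℂ (ext0 (f : W → ℂ)) x v) x u) W :=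
    fun u v x hx => (((ContinuousLinearMap.apply ℂ ℂ u).analyticAt _).comp (hD v x hx).fderiv)
  rw [toH_apply (hD2 _ _), toH_apply (hD2 _ _)]
  have hc : ContDiffAt ℂ 2 (ext0 (f : W → ℂ)) (x : E) := (h0 x x.2).contDiffAt
  have hs : IsSymmSndFDerivAt ℂ (ext0 (f : W → ℂ)) (x : E) := hc.isSymmSndFDerivAt (by simp)
  have hd : DifferentiableAt ℂ (fderiv ℂ (ext0 (f : W → ℂ))) (x : E) :=
    (h0 x x.2).fderiv.differentiableAt
  have h2 : ∀ u v : E, fderiv ℂ (fun x => fderiv ℂ (ext0 (f : W → ℂ)) x v) x u =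
      fderiv ℂ (fderiv ℂ (ext0 (f : W → ℂ))) x u v := by
    intro u v
    rw [fderiv_clm_apply hd (differentiableAt_const v)]
    simp
  rw [h2, h2]
  exact hs.eq u v

/-- composition `f ↦ f ∘ b` -/
def compH {W : Opens E} {V : Opens ℂ} (b : Hol W) (hb : ∀ p : W, (b : W → ℂ) p ∈ V) :
    Hol V →ₐ[ℂ] Hol W where
  toFun f := ⟨fun p => (f : V → ℂ) ⟨(b : W → ℂ) p, hb p⟩, by
    refine analyticOnNhd_ext0 (F := fun x => ext0 (f : V → ℂ) (ext0 (b : W → ℂ) x))
      (fun p => ?_) (fun x hx => ?_)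
    · rw [ext0_apply, ext0_of_mem _ (hb p)]
    · refine AnalyticAt.fun_comp (g := ext0 (f : V → ℂ)) ?_ (Hol.an b x hx)
      rw [ext0_of_mem _ hx]
      exact Hol.an f _ (hb ⟨x, hx⟩)⟩
  map_one' := rfl
  map_mul' _ _ := rfl
  map_zero' := rfl
  map_add' _ _ := rfl
  commutes' _ := rfl

@[simp] theorem compH_apply {W : Opens E} {V : Opens ℂ} (b : Hol W)
    (hb : ∀ p : W, (b : W → ℂ) p ∈ V) (f : Hol V) (p : W) :
    (compH b hb f : W → ℂ) p = (f : V → ℂ) ⟨(b : W → ℂ) p, hb p⟩ := rfl

theorem compH_zH {W : Opens E} {V : Opens ℂ} (b : Hol W) (hb : ∀ p : W, (b : W → ℂ) p ∈ V) :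
    compH b hb (zH V) = b := by
  ext p
  rfl

theorem pdH_compH {W : Opens E} {V : Opens ℂ} (b : Hol W) (hb : ∀ p : W, (b : W → ℂ) p ∈ V)
    (v : E) (f : Hol V) :
    pdH W v (compH b hb f) = compH b hb (DH V f) * pdH W v b := by
  ext x
  have h1 : ext0 (compH b hb f : W → ℂ) =ᶠ[𝓝 (x : E)]
      fun y => ext0 (f : V → ℂ) (ext0 (b : W → ℂ) y) :=
    eventually_ext0_eq (fun p => by
      rw [ext0_apply, ext0_of_mem _ (hb p)]; rfl) x.2
  have hbx : ext0 (b : W → ℂ) (x : E) = (b : W → ℂ) x := ext0_apply _ _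
  have hf : HasDerivAt (ext0 (f : V → ℂ)) (deriv (ext0 (f : V → ℂ)) (ext0 (b : W → ℂ) (x : E)))
      (ext0 (b : W → ℂ) (x : E)) := by
    refine (Hol.an f _ ?_).differentiableAt.hasDerivAt
    rw [hbx]; exact hb x
  have hbd : HasFDerivAt (ext0 (b : W → ℂ)) (fderiv ℂ (ext0 (b : W → ℂ)) (x : E)) (x : E) :=
    (Hol.an b x x.2).differentiableAt.hasFDerivAt
  have h2 := (hf.comp_hasFDerivAt (x : E) hbd).fderiv
  rw [pdH_apply, h1.fderiv_eq]
  have h3 : (fun y => ext0 (f : V → ℂ) (ext0 (b : W → ℂ) y)) =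
      ext0 (f : V → ℂ) ∘ ext0 (b : W → ℂ) := rfl
  rw [h3, h2]
  simp only [_root_.smul_apply, smul_eq_mul, Subalgebra.coe_mul, Pi.mul_apply]
  rw [hbx]
  rfl

/-- an analytic function on a preconnected open set `U ⊇ W`, nonzero at one point of `U`, gives a
nonzero element of `Hol W` -/
theorem toH_ne_zero {U : Set E} (hU : IsPreconnected U) {W : Opens E} [hne : Nonempty W]
    (hWU : (W : Set E) ⊆ U) {F : E → ℂ} (hF : AnalyticOnNhd ℂ F U) {x : E} (hx : x ∈ U)
    (h : F x ≠ 0) : toH W F ≠ 0 := by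
  intro h0
  obtain ⟨y⟩ := hne
  have h1 : F =ᶠ[𝓝 (y : E)] 0 := by
    filter_upwards [W.isOpen.mem_nhds y.2] with z hz
    have := toH_apply (hF.mono hWU) ⟨z, hz⟩
    rw [h0] at this
    exact this.symm
  exact h (hF.eqOn_zero_of_preconnected_of_eventuallyEq_zero hU (hWU y.2) h1 hx)

/-- restriction -/
theorem pdH_res {W W' : Opens E} (h : W' ≤ W) (v : E) (f : Hol W) :
    pdH W' v (Hol.res h f) = Hol.res h (pdH W v f) := by
  ext x
  rw [pdH_apply, Hol.res_apply, pdH_apply]
  have h1 : ext0 (Hol.res h f : W' → ℂ) =ᶠ[𝓝 (x : E)] ext0 (f : W → ℂ) :=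
    eventually_ext0_eq (fun p => ext0_apply (U := W) (f : W → ℂ) ⟨p, h p.2⟩) x.2
  rw [h1.fderiv_eq]

theorem res_toH {W W' : Opens E} (h : W' ≤ W) {F : E → ℂ} (hF : AnalyticOnNhd ℂ F W) :
    Hol.res h (toH W F) = toH W' F := by
  ext x
  rw [Hol.res_apply, toH_apply hF, toH_apply (hF.mono h)]

theorem res_compH {W W' : Opens E} {V : Opens ℂ} (h : W' ≤ W) (b : Hol W)
    (hb : ∀ p : W, (b : W → ℂ) p ∈ V) (f : Hol V) :
    Hol.res h (compH b hb f) = compH (Hol.res h b) (fun p => hb ⟨p, h p.2⟩) f := rfl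

theorem res_injective {W W' : Opens E} (h : W' ≤ W) [hne : Nonempty W']
    (hW : IsPreconnected (W : Set E)) : Function.Injective (Hol.res h) := by
  rw [injective_iff_map_eq_zero]
  intro f hf
  obtain ⟨x⟩ := hne
  refine Hol.eq_zero_of_eventually hW f ⟨x, h x.2⟩ ?_
  filter_upwards [W'.isOpen.mem_nhds x.2] with y hy
  rw [ext0_of_mem _ (h hy)]
  have := congrArg (fun F : Hol W' => (F : W' → ℂ) ⟨y, hy⟩) hf
  exact this

end basic

end Crest.Agent.R102.Glue798
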