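import Crest.Agent.R102.DF_389
import Crest.Agent.R102.RatGlueA_798
import Crest.Agent.R102.FreeAn_781

/-!
# Row 102, [H3], (RAT): the case `D < ∞` (helper781)

If `g` is not differentially transcendental near `c₀` there is, on arbitrarily small discs
arbitrarily near `c₀`, a finitely generated differential algebra `A₀ ≤ Hol V` containing
`z, g, 1/g', 1/g''`.
-/

set_option autoImplicit false

noncomputable section

namespace Crest.Agent.R102.Free781

open Set Topology TopologicalSpace Metric Crest.Agent.R102.H3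

/-! ### pure algebra -/

section alg

variable {L : Type} [Field L] [Algebra ℂ L]

/-- the indices `z, g, …, g⁽ⁿ⁻¹⁾` -/
def sn (n : ℕ) : Set (Option ℕ) := insert none (some '' {i | i < n})

theorem sn_succ (n : ℕ) : sn (n + 1) = insert (some n) (sn n) := by
  ext o
  rcases o with _ | i
  · simp [sn]
  · simp only [sn, mem_insert_iff, mem_image, mem_ofPred_eq, Option.some.injEq, exists_eq_right,
      reduceCtorEq, false_or]
    omega

theorem alg_of_dep (D : Derivation ℂ L L) (z g : L) (hz : D z = 1) (hztr : Transcendental ℂ z)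
    (hdep : ¬ AlgebraicIndependent ℂ (fun o : Option ℕ => o.elim z (fun i => D^[i] g))) :
    ∃ s' : Finset L, ∀ x ∈ DF389.dfield (fun _ : Unit => D) ({z, g} : Set L),
      IsAlgebraic (IntermediateField.adjoin ℂ (s' : Set L)) x := by
  classical
  set v : Option ℕ → L := fun o => o.elim z (fun i => D^[i] g) with hv
  -- a step where the next derivative is algebraic
  have hstep : ∃ n, IsAlgebraic (Algebra.adjoin ℂ (v '' sn n)) (v (some n)) := by
    by_contra hcon
    push Not at hcon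
    have hall : ∀ n, AlgebraicIndepOn ℂ v (sn n) := by
      intro n
      induction n with
      | zero =>
        have h0 : sn 0 = {none} := by simp [sn]
        rw [h0]
        have : Unique ({none} : Set (Option ℕ)) := Set.uniqueSingleton none
        rw [AlgebraicIndepOn, algebraicIndependent_unique_type_iff]
        have hd : ((default : ({none} : Set (Option ℕ))) : Option ℕ) = none :=
          (default : ({none} : Set (Option ℕ))).2
        rw [hd]
        exact hztr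
      | succ n ih =>
        rw [sn_succ]
        exact ih.insert (hcon n)
    refine hdep ?_
    rw [algebraicIndependent_iff]
    intro P hP
    let R : ℕ := P.vars.sup (fun x => x.elim 0 (fun i => i + 1))
    have hR : (P.vars : Set (Option ℕ)) ⊆ Set.range ((↑) : sn R → Option ℕ) := by
      intro x hx
      rw [Subtype.range_coe]
      rcases x with _ | i
      · exact mem_insert _ _
      · have h1 : i + 1 ≤ R := Finset.le_sup (f := fun x : Option ℕ =>
          x.elim 0 (fun i => i + 1)) hx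
        exact mem_insert_of_mem _ ⟨i, by change i < R; omega, rfl⟩
    clear_value R
    obtain ⟨Q, rfl⟩ := MvPolynomial.exists_rename_eq_of_vars_subset_range P
      ((↑) : sn R → Option ℕ) Subtype.val_injective hR
    rw [MvPolynomial.aeval_rename] at hP
    rw [(algebraicIndependent_iff.1 (hall R)) Q hP, map_zero]
  obtain ⟨n, hn⟩ := hstep
  -- the finite set
  let s' : Finset L := insert z ((Finset.range n).image fun i => D^[i] g)
  have hs' : (s' : Set L) = v '' sn n := by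
    ext x
    simp only [s', Finset.coe_insert, Finset.coe_image, Finset.coe_range, sn, image_insert_eq,
      image_image]
    rfl
  set K0 := IntermediateField.adjoin ℂ (s' : Set L) with hK0
  have hzK : z ∈ K0 := IntermediateField.subset_adjoin _ _ (by simp [s'])
  have hgK : ∀ i, i < n → D^[i] g ∈ K0 := fun i hi =>
    IntermediateField.subset_adjoin _ _ (by
      simp only [s', Finset.coe_insert, Finset.coe_image, Finset.coe_range]
      exact mem_insert_of_mem _ ⟨i, hi, rfl⟩)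
  have hgn : IsAlgebraic K0 (D^[n] g) := by
    have hle : Algebra.adjoin ℂ (v '' sn n) ≤ K0.toSubalgebra := by
      rw [← hs']
      exact IntermediateField.algebra_adjoin_le_adjoin ℂ _
    obtain ⟨p, hp0, hp⟩ := hn
    refine ⟨p.map (Subalgebra.inclusion hle).toRingHom, ?_, ?_⟩
    · rw [Ne, Polynomial.map_eq_zero_iff]
      · exact hp0
      · exact Subalgebra.inclusion_injective hle
    · rw [Polynomial.aeval_def] at hp ⊢
      rw [Polynomial.eval₂_map]
      exact hp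
  let F : IntermediateField ℂ L := (algebraicClosure K0 L).restrictScalars ℂ
  have hF : ∀ x, x ∈ F ↔ IsAlgebraic K0 x := fun x => mem_algebraicClosure_iff
  have hle : K0 ≤ F := fun x hx => (hF x).2 (isAlgebraic_algebraMap (⟨x, hx⟩ : K0))
  have hDK : ∀ b ∈ K0, D b ∈ F := by
    intro b hb
    refine DF389.der_adjoin D (s' : Set L) F (fun y hy => hle
      (IntermediateField.subset_adjoin _ _ hy)) (fun y hy => ?_) hb
    simp only [s', Finset.coe_insert, Finset.coe_image, Finset.coe_range] at hy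
    rcases hy with rfl | ⟨i, hi, rfl⟩
    · rw [hz]
      exact F.one_mem
    · change D (D^[i] g) ∈ F
      rw [← Function.iterate_succ_apply' D i g]
      rcases Nat.lt_or_ge (i + 1) n with h | h
      · exact hle (hgK _ h)
      · have : i.succ = n := by
          have : i < n := hi
          omega
        rw [this]
        exact (hF _).2 hgn
  have hDF : ∀ x ∈ F, D x ∈ F := fun x hx =>
    DF389.der_algebraic D K0 F hle hDK hx ((hF x).1 hx)
  refine ⟨s', fun x hx => (hF x).1 (DF389.dfield_le _ _ F ?_ (fun _ => hDF) hx)⟩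
  rintro y (rfl | rfl)
  · exact hle hzK
  · rcases Nat.eq_zero_or_pos n with h | h
    · rw [h] at hgn
      exact (hF _).2 hgn
    · exact hle (hgK 0 h)

end alg

/-! ### shrinking the disc -/

section shrink

variable {V₀ : Opens ℂ}

set_option maxHeartbeats 2000000 in
/-- **shrinking**: a finitely generated subalgebra of the field of fractions of `Hol V₀` consists
of holomorphic functions outside the zeros of some `h ≠ 0`. -/
theorem shrink (hV₀ : IsPreconnected (V₀ : Set ℂ)) [Nonempty V₀] [IsDomain (Hol V₀)]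
    (A : Subalgebra ℂ (FractionRing (Hol V₀))) (hA : A.FG)
    (hD : ∀ x ∈ A, Glue798.frD (DH V₀) x ∈ A) :
    ∃ h : Hol V₀, h ≠ 0 ∧ ∀ (V : Opens ℂ) (hV : V ≤ V₀), IsPreconnected (V : Set ℂ) →
      Nonempty V → (∀ x : V, (h : V₀ → ℂ) ⟨x, hV x.2⟩ ≠ 0) →
      ∃ ρ : A →ₐ[ℂ] Hol V, Function.Injective ρ ∧
        (∀ (a : A) (f : Hol V₀), (a : FractionRing (Hol V₀)) = algebraMap _ _ f →
          ρ a = Hol.res hV f) ∧
        ∀ a : A, DH V (ρ a) = ρ ⟨_, hD a a.2⟩ := by
  classical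
  let L := FractionRing (Hol V₀)
  obtain ⟨T, hT⟩ := hA
  obtain ⟨⟨h, hh⟩, hb⟩ := IsLocalization.exist_integer_multiples_of_finset
    (nonZeroDivisors (Hol V₀)) T
  have hh0 : h ≠ 0 := nonZeroDivisors.ne_zero hh
  refine ⟨h, hh0, fun V hV hVc hVn hne => ?_⟩
  have hdomV : IsDomain (Hol V) := Hol.isDomain hVc
  have hresinj : Function.Injective (Hol.res hV) := Glue798.res_injective hV hV₀
  have hinjL : Function.Injective (algebraMap (Hol V₀) L) := IsFractionRing.injective _ _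
  -- the localization
  let B := Localization.Away h
  have hu1 : ∀ y : Submonoid.powers h, IsUnit ((IsScalarTower.toAlgHom ℂ (Hol V₀) L) y) := by
    rintro ⟨y, n, rfl⟩
    rw [map_pow]
    refine IsUnit.pow n (Ne.isUnit ?_)
    exact (map_ne_zero_iff _ hinjL).2 hh0
  have hu2 : ∀ y : Submonoid.powers h, IsUnit ((Hol.res hV) y) := by
    rintro ⟨y, n, rfl⟩
    rw [map_pow]
    refine IsUnit.pow n (Hol.isUnit _ fun x => ?_)
    exact hne x
  let ι : B →ₐ[ℂ] L := IsLocalization.liftAlgHom (M := Submonoid.powers h)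
    (f := IsScalarTower.toAlgHom ℂ (Hol V₀) L) hu1
  let lam : B →ₐ[ℂ] Hol V := IsLocalization.liftAlgHom (M := Submonoid.powers h)
    (f := Hol.res hV) hu2
  have hpow : Submonoid.powers h ≤ nonZeroDivisors (Hol V₀) := by
    rw [Submonoid.powers_le]
    exact hh
  have hBinj : Function.Injective (algebraMap (Hol V₀) B) := IsLocalization.injective B hpow
  have hιmap : ∀ f, ι (algebraMap (Hol V₀) B f) = algebraMap (Hol V₀) L f := by
    intro f
    exact IsLocalization.lift_eq _ f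
  have hlmap : ∀ f, lam (algebraMap (Hol V₀) B f) = Hol.res hV f := by
    intro f
    exact IsLocalization.lift_eq _ f
  have hιinj : Function.Injective ι := by
    change Function.Injective (IsLocalization.lift (M := Submonoid.powers h) (S := B) hu1)
    rw [IsLocalization.lift_injective_iff]
    intro x y
    exact ⟨fun hxy => congrArg _ (hBinj hxy), fun hxy => congrArg _ (hinjL hxy)⟩
  have hlinj : Function.Injective lam := by
    change Function.Injective (IsLocalization.lift (M := Submonoid.powers h) (S := B) hu2)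
    rw [IsLocalization.lift_injective_iff]
    intro x y
    exact ⟨fun hxy => congrArg _ (hBinj hxy), fun hxy => congrArg _ (hresinj hxy)⟩
  -- every element of `A` is in the range of `ι`
  have hAι : A ≤ ι.range := by
    rw [← hT]
    refine Algebra.adjoin_le fun t ht => ?_
    obtain ⟨f, hf⟩ := hb t (Finset.mem_coe.1 ht)
    have hf' : algebraMap (Hol V₀) L f = algebraMap (Hol V₀) L h * t := by
      rw [hf, Algebra.smul_def]
    refine ⟨algebraMap (Hol V₀) B f * IsLocalization.Away.invSelf h, ?_⟩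
    have h1 : ι (algebraMap (Hol V₀) B h * IsLocalization.Away.invSelf h) = 1 := by
      rw [IsLocalization.Away.mul_invSelf, map_one]
    rw [map_mul, hιmap] at h1
    change ι _ = t
    rw [map_mul, hιmap, hf']
    calc algebraMap (Hol V₀) L h * t * ι (IsLocalization.Away.invSelf h)
        = (algebraMap (Hol V₀) L h * ι (IsLocalization.Away.invSelf h)) * t := by ring
      _ = t := by rw [h1, one_mul]
  let e : B ≃ₐ[ℂ] ι.range := AlgEquiv.ofInjective ι hιinj
  let ρ : A →ₐ[ℂ] Hol V := lam.comp (e.symm.toAlgHom.comp (Subalgebra.inclusion hAι))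
  have hρ : ∀ (a : A) (b : B), ι b = a → ρ a = lam b := by
    intro a b hab
    change lam (e.symm (Subalgebra.inclusion hAι a)) = lam b
    congr 1
    rw [AlgEquiv.symm_apply_eq]
    exact Subtype.ext hab.symm
  have hex : ∀ a : A, ∃ b : B, ι b = a := fun a => hAι a.2
  refine ⟨ρ, ?_, ?_, ?_⟩
  · intro a a' haa
    obtain ⟨b, hb⟩ := hex a
    obtain ⟨b', hb'⟩ := hex a'
    rw [hρ a b hb, hρ a' b' hb'] at haa
    have := hlinj haa
    subst this
    exact Subtype.ext (hb.symm.trans hb')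
  · intro a f haf
    rw [hρ a (algebraMap _ _ f) (by rw [hιmap, haf]), hlmap]
  · intro a
    obtain ⟨b, hb⟩ := hex a
    obtain ⟨b', hb'⟩ := hex ⟨_, hD a a.2⟩
    rw [hρ a b hb, hρ _ b' hb']
    -- `b = f / hⁿ`
    obtain ⟨⟨f, ⟨_, n, rfl⟩⟩, hbf⟩ := IsLocalization.surj (Submonoid.powers h) b
    simp only at hbf
    have hbL : (a : L) * algebraMap (Hol V₀) L (h ^ n) = algebraMap (Hol V₀) L f := by
      rw [← hb, ← hιmap, ← hιmap, ← map_mul, hbf]
    have hder : (a : L) * algebraMap (Hol V₀) L (DH V₀ (h ^ n))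
        + algebraMap (Hol V₀) L (h ^ n) * Glue798.frD (DH V₀) (a : L)
        = algebraMap (Hol V₀) L (DH V₀ f) := by
      have := congrArg (Glue798.frD (DH V₀)) hbL
      rw [Derivation.leibniz, Glue798.frD_algebraMap, Glue798.frD_algebraMap] at this
      exact this
    have hB : b * algebraMap (Hol V₀) B (DH V₀ (h ^ n)) + algebraMap (Hol V₀) B (h ^ n) * b'
        = algebraMap (Hol V₀) B (DH V₀ f) := by
      apply hιinj
      rw [map_add, map_mul, map_mul, hιmap, hιmap, hιmap, hb, hb']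
      exact hder
    have hV1 := congrArg lam hB
    rw [map_add, map_mul, map_mul, hlmap, hlmap, hlmap] at hV1
    have hV2 := congrArg lam hbf
    rw [map_mul, hlmap, hlmap] at hV2
    have hV3 := congrArg (DH V) hV2
    have hres : ∀ f : Hol V₀, DH V (Hol.res hV f) = Hol.res hV (DH V₀ f) := by
      intro f
      ext x
      rw [DH_apply, Hol.res_apply, DH_apply]
      refine Filter.EventuallyEq.deriv_eq ?_
      filter_upwards [V.isOpen.mem_nhds x.2] with y hy
      rw [ext0_of_mem _ hy, ext0_of_mem _ (hV hy)]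
      rfl
    rw [Derivation.leibniz, hres, hres] at hV3
    simp only [smul_eq_mul] at hV3
    have hu : IsUnit (Hol.res hV (h ^ n)) := hu2 ⟨h ^ n, n, rfl⟩
    refine hu.mul_left_cancel ?_
    linear_combination hV3 - hV1

theorem DH_res {V V₀ : Opens ℂ} (hV : V ≤ V₀) (f : Hol V₀) :
    DH V (Hol.res hV f) = Hol.res hV (DH V₀ f) := by
  ext x
  rw [DH_apply, Hol.res_apply, DH_apply]
  refine Filter.EventuallyEq.deriv_eq ?_
  filter_upwards [V.isOpen.mem_nhds x.2] with y hy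
  rw [ext0_of_mem _ hy, ext0_of_mem _ (hV hy)]
  rfl

end shrink

/-! ### quotients of polynomials in the jets -/

section quo

/-- the jets `z, g, g', …` -/
def jets (V : Opens ℂ) (G : Hol V) : Set (Hol V) := insert (zH V) (range fun i => (DH V)^[i] G)

/-- `a = P / Q`, `P, Q ∈ ℂ[z, g, g', …]`, `Q` without zeros -/
def Quo (V : Opens ℂ) (G a : Hol V) : Prop :=
  ∃ P ∈ Algebra.adjoin ℂ (jets V G), ∃ Q ∈ Algebra.adjoin ℂ (jets V G), IsUnit Q ∧ a * Q = P

/-- the algebra of quotients -/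
def quoAlg (V : Opens ℂ) (G : Hol V) : Subalgebra ℂ (Hol V) where
  carrier := {a | Quo V G a}
  mul_mem' := by
    rintro a b ⟨P, hP, Q, hQ, hu, h⟩ ⟨P', hP', Q', hQ', hu', h'⟩
    refine ⟨P * P', mul_mem hP hP', Q * Q', mul_mem hQ hQ', hu.mul hu', ?_⟩
    rw [← h, ← h']; ring
  add_mem' := by
    rintro a b ⟨P, hP, Q, hQ, hu, h⟩ ⟨P', hP', Q', hQ', hu', h'⟩
    refine ⟨P * Q' + P' * Q, add_mem (mul_mem hP hQ') (mul_mem hP' hQ), Q * Q', mul_mem hQ hQ',
      hu.mul hu', ?_⟩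
    rw [← h, ← h']; ring
  algebraMap_mem' := fun c => ⟨algebraMap ℂ _ c, Subalgebra.algebraMap_mem _ _, 1,
    Subalgebra.one_mem _, isUnit_one, mul_one _⟩

theorem mem_quoAlg {V : Opens ℂ} {G a : Hol V} : a ∈ quoAlg V G ↔ Quo V G a := Iff.rfl

theorem iter_DH_res {V V₀ : Opens ℂ} (hV : V ≤ V₀) (f : Hol V₀) (i : ℕ) :
    (DH V)^[i] (Hol.res hV f) = Hol.res hV ((DH V₀)^[i] f) := by
  induction i with
  | zero => rfl
  | succ i ih => rw [Function.iterate_succ_apply', Function.iterate_succ_apply', ih, DH_res]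

theorem res_jets {V V₀ : Opens ℂ} (hV : V ≤ V₀) (G : Hol V₀) {a : Hol V₀}
    (ha : a ∈ Algebra.adjoin ℂ (jets V₀ G)) :
    Hol.res hV a ∈ Algebra.adjoin ℂ (jets V (Hol.res hV G)) := by
  have h1 : Hol.res hV a ∈ (Algebra.adjoin ℂ (jets V₀ G)).map (Hol.res hV) := ⟨a, ha, rfl⟩
  rw [AlgHom.map_adjoin] at h1
  refine Algebra.adjoin_mono ?_ h1
  rintro _ ⟨x, hx, rfl⟩
  rcases hx with rfl | ⟨i, rfl⟩
  · exact mem_insert _ _
  · exact mem_insert_of_mem _ ⟨i, iter_DH_res hV G i⟩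

end quo

/-! ### the case `D < ∞` -/

section fin

variable {g : ℂ → ℂ} {c₀ : ℂ} {r : ℝ}

theorem zH_transcendental (hr : 0 < r) [Nonempty (VO c₀ r)] [IsDomain (Hol (VO c₀ r))] :
    Transcendental ℂ (algebraMap (Hol (VO c₀ r)) (FractionRing (Hol (VO c₀ r))) (zH (VO c₀ r))) := by
  rw [transcendental_iff]
  intro p hp
  have hinj : Function.Injective (algebraMap (Hol (VO c₀ r)) (FractionRing (Hol (VO c₀ r)))) :=
    IsFractionRing.injective _ _
  rw [Polynomial.aeval_algebraMap_apply] at hp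
  have h1 : Polynomial.aeval (zH (VO c₀ r)) p = 0 := hinj (by rw [hp, map_zero])
  refine Polynomial.eq_zero_of_infinite_isRoot p ?_
  have hinf : (ball c₀ r).Infinite := infinite_of_mem_nhds c₀ (ball_mem_nhds c₀ hr)
  refine hinf.mono fun c hc => ?_
  have h2 := congrArg (evH (⟨c, hc⟩ : VO c₀ r)) h1
  rw [map_zero, ← Polynomial.aeval_algHom_apply] at h2
  exact h2

/-- the derivatives of `g` are algebraically dependent in the field of fractions of `Hol V₀` -/
theorem dep_of_not (hr : 0 < r) [Nonempty (VO c₀ r)] [IsDomain (Hol (VO c₀ r))]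
    (hg : AnalyticOnNhd ℂ g (VO c₀ r)) (hfin : ¬ DiffTr g c₀) :
    ¬ AlgebraicIndependent ℂ (fun o : Option ℕ => o.elim
      (algebraMap (Hol (VO c₀ r)) (FractionRing (Hol (VO c₀ r))) (zH (VO c₀ r)))
      (fun i => (Glue798.frD (DH (VO c₀ r)))^[i]
        (algebraMap (Hol (VO c₀ r)) (FractionRing (Hol (VO c₀ r))) (Hol.ofFun g hg)))) := by
  intro hind
  refine hfin fun P hP => ?_
  rw [algebraicIndependent_iff] at hind
  refine hind P ?_
  have e1 : (fun o : Option ℕ => o.elim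
      (algebraMap (Hol (VO c₀ r)) (FractionRing (Hol (VO c₀ r))) (zH (VO c₀ r)))
      (fun i => (Glue798.frD (DH (VO c₀ r)))^[i]
        (algebraMap (Hol (VO c₀ r)) (FractionRing (Hol (VO c₀ r))) (Hol.ofFun g hg)))) =
      fun o : Option ℕ => algebraMap (Hol (VO c₀ r)) (FractionRing (Hol (VO c₀ r)))
        (o.elim (zH (VO c₀ r)) fun i => (DH (VO c₀ r))^[i] (Hol.ofFun g hg)) := by
    funext o
    rcases o with _ | i
    · rfl
    · simp only [Option.elim_some]
      induction i with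
      | zero => rfl
      | succ i ih =>
        rw [Function.iterate_succ_apply', Function.iterate_succ_apply', ih,
          Glue798.frD_algebraMap]
  rw [e1]
  have h0 : MvPolynomial.aeval (fun o : Option ℕ => (o.elim (zH (VO c₀ r))
      fun i => (DH (VO c₀ r))^[i] (Hol.ofFun g hg) : Hol (VO c₀ r))) P = 0 := by
    refine Hol.eq_zero_of_eventually (VO_preconnected c₀ r) _ ⟨c₀, mem_ball_self hr⟩ ?_
    filter_upwards [hP, ball_mem_nhds c₀ hr] with c hc hcb
    rw [ext0_of_mem _ (show c ∈ VO c₀ r from hcb), ← evH_apply, MvPolynomial.comp_aeval_apply]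
    have e2 : (fun o : Option ℕ => evH (⟨c, hcb⟩ : VO c₀ r) ((o.elim (zH (VO c₀ r))
        fun i => (DH (VO c₀ r))^[i] (Hol.ofFun g hg) : Hol (VO c₀ r))))
        = fun o : Option ℕ => o.elim c fun i => iteratedDeriv i g c := by
      funext o
      cases o with
      | none => rfl
      | some i =>
        simp only [Option.elim_some]
        rw [iter_ofFun]
        rfl
    rw [e2]
    exact hc
  refine (MvPolynomial.aeval_algebraMap_apply (FractionRing (Hol (VO c₀ r)))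
    (fun o : Option ℕ => (o.elim (zH (VO c₀ r))
      fun i => (DH (VO c₀ r))^[i] (Hol.ofFun g hg) : Hol (VO c₀ r))) P).trans ?_
  rw [h0, map_zero]

set_option maxHeartbeats 4000000 in
/-- **the case `D < ∞`, general form**: outside the zeros of some `h ≠ 0`, on every connected `V`,
there is a finitely generated differential algebra `A ≤ Hol V` containing `z, g, 1/g', 1/g''`,
consisting of quotients of polynomials in `z, g, g', …`. -/
theorem exists_A0_quo (hr : 0 < r) (hg : AnalyticOnNhd ℂ g (VO c₀ r))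
    (h1 : ∀ c ∈ ball c₀ r, deriv g c ≠ 0) (h2 : ∀ c ∈ ball c₀ r, deriv (deriv g) c ≠ 0)
    (hfin : ¬ DiffTr g c₀) :
    ∃ h : Hol (VO c₀ r), h ≠ 0 ∧ ∀ (V : Opens ℂ) (hV : V ≤ VO c₀ r), IsPreconnected (V : Set ℂ) →
      Nonempty V → (∀ x : V, (h : VO c₀ r → ℂ) ⟨x, hV x.2⟩ ≠ 0) →
      ∃ A : Subalgebra ℂ (Hol V), A.FG ∧ (∀ f ∈ A, DH V f ∈ A) ∧ zH V ∈ A ∧
        Hol.ofFun g (hg.mono hV) ∈ A ∧
        (∃ u ∈ A, u * DH V (Hol.ofFun g (hg.mono hV)) = 1) ∧
        (∃ u ∈ A, u * DH V (DH V (Hol.ofFun g (hg.mono hV))) = 1) ∧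
        ∀ a ∈ A, Quo V (Hol.ofFun g (hg.mono hV)) a := by
  classical
  have hne : Nonempty (VO c₀ r) := ⟨⟨c₀, mem_ball_self hr⟩⟩
  have hdom : IsDomain (Hol (VO c₀ r)) := Hol.isDomain (VO_preconnected c₀ r)
  set D := Glue798.frD (DH (VO c₀ r)) with hD
  set z := algebraMap (Hol (VO c₀ r)) (FractionRing (Hol (VO c₀ r))) (zH (VO c₀ r)) with hz
  set G := algebraMap (Hol (VO c₀ r)) (FractionRing (Hol (VO c₀ r))) (Hol.ofFun g hg) with hG
  have hinj : Function.Injective (algebraMap (Hol (VO c₀ r)) (FractionRing (Hol (VO c₀ r)))) :=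
    IsFractionRing.injective _ _
  have hDz : D z = 1 := by rw [hD, hz, Glue798.frD_algebraMap, DH_zH, map_one]
  obtain ⟨s', hs'⟩ := alg_of_dep D z G hDz (zH_transcendental hr) (dep_of_not hr hg hfin)
  have hzm : z ∈ DF389.dfield (fun _ : Unit => D) {z, G} :=
    DF389.subset_dfield _ _ (by simp)
  have hGm : G ∈ DF389.dfield (fun _ : Unit => D) {z, G} :=
    DF389.subset_dfield _ _ (by simp)
  have hst := DF389.dfield_stable (fun _ : Unit => D) {z, G} ()
  obtain ⟨A, hFG, hSA, hAM, hDA⟩ := DF389.exists_algebra' (fun _ : Unit => D)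
    (DF389.dfield (fun _ : Unit => D) {z, G}) (DF389.dfield_stable _ _) s' hs'
    {z, G, (D G)⁻¹, (D (D G))⁻¹} (by
      intro x hx
      simp only [Finset.coe_insert, Finset.coe_singleton, mem_insert_iff, mem_singleton_iff] at hx
      rcases hx with rfl | rfl | rfl | rfl
      · exact hzm
      · exact hGm
      · exact inv_mem (hst _ hGm)
      · exact inv_mem (hst _ (hst _ hGm)))
  have hDG : D G = algebraMap _ _ (DH (VO c₀ r) (Hol.ofFun g hg)) := Glue798.frD_algebraMap _ _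
  have hDDG : D (D G) = algebraMap _ _ (DH (VO c₀ r) (DH (VO c₀ r) (Hol.ofFun g hg))) := by
    rw [hDG, hD, Glue798.frD_algebraMap]
  have hDG0 : D G ≠ 0 := by
    rw [hDG, Ne, map_eq_zero_iff _ hinj]
    intro h0
    refine h1 c₀ (mem_ball_self hr) ?_
    have := congrArg (evH (⟨c₀, mem_ball_self hr⟩ : VO c₀ r)) h0
    rw [DH_ofFun] at this
    exact this
  have hDDG0 : D (D G) ≠ 0 := by
    rw [hDDG, Ne, map_eq_zero_iff _ hinj]
    intro h0
    refine h2 c₀ (mem_ball_self hr) ?_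
    have := congrArg (evH (⟨c₀, mem_ball_self hr⟩ : VO c₀ r)) h0
    rw [DH_ofFun, DH_ofFun] at this
    exact this
  have hzA : z ∈ A := hSA (by simp)
  have hGA : G ∈ A := hSA (by simp)
  obtain ⟨h, hh0, hh⟩ := shrink (VO_preconnected c₀ r) A hFG (hDA ())
  -- quotients
  have hjets : ∀ i, D^[i] G = algebraMap _ _ ((DH (VO c₀ r))^[i] (Hol.ofFun g hg)) := by
    intro i
    induction i with
    | zero => rfl
    | succ i ih =>
      rw [Function.iterate_succ_apply', Function.iterate_succ_apply', ih, hD,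
        Glue798.frD_algebraMap]
  have hSL : insert z (range fun i => D^[i] G) =
      (IsScalarTower.toAlgHom ℂ (Hol (VO c₀ r)) (FractionRing (Hol (VO c₀ r)))) ''
        jets (VO c₀ r) (Hol.ofFun g hg) := by
    rw [jets, image_insert_eq, ← range_comp]
    congr 1
    ext x
    simp only [mem_range, Function.comp_apply]
    constructor
    · rintro ⟨i, rfl⟩
      exact ⟨i, (hjets i).symm⟩
    · rintro ⟨i, rfl⟩
      exact ⟨i, hjets i⟩
  have hdf : DF389.dfield (fun _ : Unit => D) {z, G} ≤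
      IntermediateField.adjoin ℂ (insert z (range fun i => D^[i] G)) := by
    refine DF389.dfield_le _ _ _ ?_ fun _ x hx => ?_
    · rintro x (rfl | rfl)
      · exact IntermediateField.subset_adjoin _ _ (mem_insert _ _)
      · exact IntermediateField.subset_adjoin _ _ (mem_insert_of_mem _ ⟨0, rfl⟩)
    · refine DF389.der_adjoin D _ _ (IntermediateField.subset_adjoin _ _) ?_ hx
      rintro y (rfl | ⟨i, rfl⟩)
      · rw [hDz]
        exact one_mem _
      · refine IntermediateField.subset_adjoin _ _ (mem_insert_of_mem _ ⟨i + 1, ?_⟩)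
        exact Function.iterate_succ_apply' _ _ _
  have hA1 : ∀ f ∈ Algebra.adjoin ℂ (jets (VO c₀ r) (Hol.ofFun g hg)),
      algebraMap (Hol (VO c₀ r)) (FractionRing (Hol (VO c₀ r))) f ∈ A := by
    intro f hf
    have h3 : IsScalarTower.toAlgHom ℂ (Hol (VO c₀ r)) (FractionRing (Hol (VO c₀ r))) f ∈
        (Algebra.adjoin ℂ (jets (VO c₀ r) (Hol.ofFun g hg))).map
          (IsScalarTower.toAlgHom ℂ (Hol (VO c₀ r)) (FractionRing (Hol (VO c₀ r)))) :=
      ⟨f, hf, rfl⟩
    rw [AlgHom.map_adjoin, ← hSL] at h3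
    refine Algebra.adjoin_le ?_ h3
    rintro x (rfl | ⟨i, rfl⟩)
    · exact hzA
    · induction i with
      | zero => exact hGA
      | succ i ih =>
        simp only [Function.iterate_succ_apply']
        exact hDA () _ ih
  obtain ⟨T, hT⟩ := hFG
  have hTA : ∀ t ∈ T, t ∈ A := fun t ht => by
    rw [← hT]
    exact Algebra.subset_adjoin ht
  have hquo : ∀ t ∈ T, ∃ P Q : Hol (VO c₀ r),
      P ∈ Algebra.adjoin ℂ (jets (VO c₀ r) (Hol.ofFun g hg)) ∧
      Q ∈ Algebra.adjoin ℂ (jets (VO c₀ r) (Hol.ofFun g hg)) ∧ Q ≠ 0 ∧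
      t * algebraMap _ _ Q = algebraMap _ _ P := by
    intro t ht
    obtain ⟨a, ha, b, hb, hb0, hab⟩ := DF389.mem_adjoin_div (hdf (hAM (hTA t ht)))
    rw [hSL, ← AlgHom.map_adjoin] at ha hb
    obtain ⟨P, hP, rfl⟩ := ha
    obtain ⟨Q, hQ, rfl⟩ := hb
    refine ⟨P, Q, hP, hQ, ?_, ?_⟩
    · rintro rfl
      exact hb0 (map_zero _)
    · rw [hab]
      exact div_mul_cancel₀ _ hb0
  choose! P Q hP hQ hQ0 hPQ using hquo
  have hprod0 : ∏ t ∈ T, Q t ≠ 0 := Finset.prod_ne_zero_iff.2 hQ0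
  refine ⟨h * ∏ t ∈ T, Q t, mul_ne_zero hh0 hprod0, fun V hV hVc hVn hVh' => ?_⟩
  have hVh : ∀ x : V, (h : VO c₀ r → ℂ) ⟨x, hV x.2⟩ ≠ 0 := by
    intro x
    have h3 := hVh' x
    rw [← evH_apply, map_mul] at h3
    exact left_ne_zero_of_mul h3
  have hVQ : ∀ t ∈ T, ∀ x : V, (Q t : VO c₀ r → ℂ) ⟨x, hV x.2⟩ ≠ 0 := by
    intro t ht x
    have h3 := hVh' x
    rw [← evH_apply, map_mul, map_prod] at h3
    exact Finset.prod_ne_zero_iff.1 (right_ne_zero_of_mul h3) t ht
  obtain ⟨ρ, hρi, hρr, hρD⟩ := hh V hV hVc hVn hVh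
  have hG1 : (D G)⁻¹ ∈ A := hSA (by simp)
  have hG2 : (D (D G))⁻¹ ∈ A := hSA (by simp)
  have eG : ρ ⟨G, hGA⟩ = Hol.ofFun g (hg.mono hV) := hρr ⟨G, hGA⟩ (Hol.ofFun g hg) rfl
  have eDG : ρ ⟨D G, hDA () _ hGA⟩ = DH V (Hol.ofFun g (hg.mono hV)) := by
    rw [← eG, hρD]
  have eDDG : ρ ⟨D (D G), hDA () _ (hDA () _ hGA)⟩ = DH V (DH V (Hol.ofFun g (hg.mono hV))) := by
    rw [← eDG, hρD]
  refine ⟨ρ.range, ?_, ?_, ⟨⟨z, hzA⟩, hρr ⟨z, hzA⟩ (zH _) rfl⟩, ⟨⟨G, hGA⟩, eG⟩,
    ⟨ρ ⟨_, hG1⟩, ⟨_, rfl⟩, ?_⟩, ⟨ρ ⟨_, hG2⟩, ⟨_, rfl⟩, ?_⟩, ?_⟩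
  · rw [← Algebra.map_top]
    exact ((Subalgebra.fg_top _).2 ⟨T, hT⟩).map _
  · rintro _ ⟨a, rfl⟩
    exact ⟨_, (hρD a).symm⟩
  · rw [← eDG, ← map_mul]
    have : (⟨(D G)⁻¹, hG1⟩ : A) * ⟨D G, hDA () _ hGA⟩ = 1 := Subtype.ext (inv_mul_cancel₀ hDG0)
    rw [this, map_one]
  · rw [← eDDG, ← map_mul]
    have : (⟨(D (D G))⁻¹, hG2⟩ : A) * ⟨D (D G), hDA () _ (hDA () _ hGA)⟩ = 1 :=
      Subtype.ext (inv_mul_cancel₀ hDDG0)
    rw [this, map_one]
  · have hTq : ∀ t (ht : t ∈ T), Quo V (Hol.ofFun g (hg.mono hV)) (ρ ⟨t, hTA t ht⟩) := by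
      intro t ht
      refine ⟨Hol.res hV (P t), res_jets hV (Hol.ofFun g hg) (hP t ht), Hol.res hV (Q t),
        res_jets hV (Hol.ofFun g hg) (hQ t ht), Hol.isUnit _ fun x => hVQ t ht x, ?_⟩
      rw [← hρr ⟨_, hA1 _ (hP t ht)⟩ (P t) rfl, ← hρr ⟨_, hA1 _ (hQ t ht)⟩ (Q t) rfl, ← map_mul]
      congr 1
      exact Subtype.ext (hPQ t ht)
    have hle : A ≤ ((quoAlg V (Hol.ofFun g (hg.mono hV))).comap ρ).map A.val := by
      refine hT.symm.le.trans (Algebra.adjoin_le fun t ht => ?_)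
      exact ⟨⟨t, hTA t (Finset.mem_coe.1 ht)⟩, hTq t (Finset.mem_coe.1 ht), rfl⟩
    rintro _ ⟨a, rfl⟩
    obtain ⟨b, hb, hba⟩ := hle a.2
    have : b = a := Subtype.ext hba
    rw [← this]
    exact hb

/-- **the case `D < ∞`, general form**: outside the zeros of some `h ≠ 0`, on every connected `V`,
there is a finitely generated differential algebra `A ≤ Hol V` containing `z, g, 1/g', 1/g''`. -/
theorem exists_A0_gen (hr : 0 < r) (hg : AnalyticOnNhd ℂ g (VO c₀ r))
    (h1 : ∀ c ∈ ball c₀ r, deriv g c ≠ 0) (h2 : ∀ c ∈ ball c₀ r, deriv (deriv g) c ≠ 0)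
    (hfin : ¬ DiffTr g c₀) :
    ∃ h : Hol (VO c₀ r), h ≠ 0 ∧ ∀ (V : Opens ℂ) (hV : V ≤ VO c₀ r), IsPreconnected (V : Set ℂ) →
      Nonempty V → (∀ x : V, (h : VO c₀ r → ℂ) ⟨x, hV x.2⟩ ≠ 0) →
      ∃ A : Subalgebra ℂ (Hol V), A.FG ∧ (∀ f ∈ A, DH V f ∈ A) ∧ zH V ∈ A ∧
        Hol.ofFun g (hg.mono hV) ∈ A ∧
        (∃ u ∈ A, u * DH V (Hol.ofFun g (hg.mono hV)) = 1) ∧
        ∃ u ∈ A, u * DH V (DH V (Hol.ofFun g (hg.mono hV))) = 1 := by
  obtain ⟨h, hh, H⟩ := exists_A0_quo hr hg h1 h2 hfin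
  refine ⟨h, hh, fun V hV hVc hVn hVh => ?_⟩
  obtain ⟨A, a1, a2, a3, a4, a5, a6, -⟩ := H V hV hVc hVn hVh
  exact ⟨A, a1, a2, a3, a4, a5, a6⟩

/-- **the case `D < ∞`**: on small discs arbitrarily near `c₀`, with quotients -/
theorem exists_A0' (hr : 0 < r) (hg : AnalyticOnNhd ℂ g (ball c₀ r))
    (h1 : ∀ c ∈ ball c₀ r, deriv g c ≠ 0) (h2 : ∀ c ∈ ball c₀ r, deriv (deriv g) c ≠ 0)
    (hfin : ¬ DiffTr g c₀) {δ : ℝ} (hδ : 0 < δ) :
    ∃ c₁ ρ, 0 < ρ ∧ ρ < δ ∧ dist c₁ c₀ < δ ∧ ∃ hs : ball c₁ ρ ⊆ ball c₀ r,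
      ∃ A : Subalgebra ℂ (Hol (VO c₁ ρ)), A.FG ∧ (∀ f ∈ A, DH _ f ∈ A) ∧ zH _ ∈ A ∧
        Hol.ofFun (U := VO c₁ ρ) g (hg.mono hs) ∈ A ∧
        (∃ u ∈ A, u * DH _ (Hol.ofFun (U := VO c₁ ρ) g (hg.mono hs)) = 1) ∧
        (∃ u ∈ A, u * DH _ (DH _ (Hol.ofFun (U := VO c₁ ρ) g (hg.mono hs))) = 1) ∧
        ∀ a ∈ A, Quo _ (Hol.ofFun (U := VO c₁ ρ) g (hg.mono hs)) a := by
  have hne : Nonempty (VO c₀ r) := ⟨⟨c₀, mem_ball_self hr⟩⟩
  obtain ⟨h, hh0, hh⟩ := exists_A0_quo hr hg h1 h2 hfin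
  -- a point near `c₀` where `h ≠ 0`
  have hex : ∃ c₁ ∈ ball c₀ (min δ r), ext0 (h : VO c₀ r → ℂ) c₁ ≠ 0 := by
    by_contra hcon
    push Not at hcon
    refine hh0 (Hol.eq_zero_of_eventually (VO_preconnected c₀ r) h ⟨c₀, mem_ball_self hr⟩ ?_)
    filter_upwards [ball_mem_nhds c₀ (lt_min hδ hr)] with c hc
    exact hcon c hc
  obtain ⟨c₁, hc₁, hc₁h⟩ := hex
  have hc₁r : c₁ ∈ ball c₀ r := ball_subset_ball (min_le_right _ _) hc₁
  have hcont : ContinuousAt (ext0 (h : VO c₀ r → ℂ)) c₁ := (Hol.an h c₁ hc₁r).continuousAt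
  have hev : ∀ᶠ c in 𝓝 c₁, ext0 (h : VO c₀ r → ℂ) c ≠ 0 ∧ c ∈ ball c₀ r :=
    (hcont.eventually_ne hc₁h).and (isOpen_ball.mem_nhds hc₁r)
  obtain ⟨ε, hε, hεs⟩ := Metric.eventually_nhds_iff_ball.1 hev
  refine ⟨c₁, min ε (δ / 2), lt_min hε (half_pos hδ),
    lt_of_le_of_lt (min_le_right _ _) (half_lt_self hδ),
    lt_of_lt_of_le (mem_ball.1 hc₁) (min_le_left _ _),
    fun c hc => (hεs c (ball_subset_ball (min_le_left _ _) hc)).2, ?_⟩
  refine hh (VO c₁ (min ε (δ / 2)))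
    (fun c hc => (hεs c (ball_subset_ball (min_le_left _ _) hc)).2) (VO_preconnected _ _)
    ⟨⟨c₁, mem_ball_self (lt_min hε (half_pos hδ))⟩⟩ fun x => ?_
  have h3 := (hεs x (ball_subset_ball (min_le_left _ _) x.2)).1
  rwa [ext0_of_mem _ (show (x : ℂ) ∈ VO c₀ r from
    (hεs x (ball_subset_ball (min_le_left _ _) x.2)).2)] at h3

/-- **the case `D < ∞`**: on small discs arbitrarily near `c₀` -/
theorem exists_A0 (hr : 0 < r) (hg : AnalyticOnNhd ℂ g (ball c₀ r))
    (h1 : ∀ c ∈ ball c₀ r, deriv g c ≠ 0) (h2 : ∀ c ∈ ball c₀ r, deriv (deriv g) c ≠ 0)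
    (hfin : ¬ DiffTr g c₀) {δ : ℝ} (hδ : 0 < δ) :
    ∃ c₁ ρ, 0 < ρ ∧ ρ < δ ∧ dist c₁ c₀ < δ ∧ ∃ hs : ball c₁ ρ ⊆ ball c₀ r,
      ∃ A : Subalgebra ℂ (Hol (VO c₁ ρ)), A.FG ∧ (∀ f ∈ A, DH _ f ∈ A) ∧ zH _ ∈ A ∧
        Hol.ofFun (U := VO c₁ ρ) g (hg.mono hs) ∈ A ∧
        (∃ u ∈ A, u * DH _ (Hol.ofFun (U := VO c₁ ρ) g (hg.mono hs)) = 1) ∧
        ∃ u ∈ A, u * DH _ (DH _ (Hol.ofFun (U := VO c₁ ρ) g (hg.mono hs))) = 1 := by
  obtain ⟨c₁, ρ, a1, a2, a3, hs, A, a4, a5, a6, a7, a8, a9, -⟩ :=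
    exists_A0' hr hg h1 h2 hfin hδ
  exact ⟨c₁, ρ, a1, a2, a3, hs, A, a4, a5, a6, a7, a8, a9⟩

end fin

end Crest.Agent.R102.Free781
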