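import Mathlib

/-!
Row 102, part (A) (helper929): the analytic functional `Qf` on `C([0,1], ℂ) × ℂ` which describes
one reflection in the Lazutkin parameter, and the local functions `dq, Xq, Pq, EP`.

Geometry (real case): `γ' = exp(-2q + iΘ)`, `Θ' = exp q`.  `Pq q x e = exp(-2 q x) (1 - cos β)` where
`β` is the angle between the tangent at `x` and the chord to `x + e`.
-/

set_option autoImplicit false

open Set Filter Topology Metric Complex MeasureTheory
open scoped Real ContDiff

noncomputable section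

namespace Crest.Agent.R102.A929

/-- the Banach algebra `C([0,1], ℂ)` -/
def AA : Type := C(unitInterval, ℂ)

instance : NormedCommRing AA := inferInstanceAs (NormedCommRing C(unitInterval, ℂ))
instance : NormedAlgebra ℂ AA := inferInstanceAs (NormedAlgebra ℂ C(unitInterval, ℂ))
instance : NormedAlgebra ℚ AA := inferInstanceAs (NormedAlgebra ℚ C(unitInterval, ℂ))
instance : CompleteSpace AA := inferInstanceAs (CompleteSpace C(unitInterval, ℂ))
instance : NormOneClass AA := inferInstanceAs (NormOneClass C(unitInterval, ℂ))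
instance : FunLike AA unitInterval ℂ := inferInstanceAs (FunLike C(unitInterval, ℂ) unitInterval ℂ)

lemma AA.ext' {f g : AA} (h : ∀ r : unitInterval, f r = g r) : f = g := ContinuousMap.ext h

lemma AA.continuous_coe (f : AA) : Continuous (fun r : unitInterval => f r) :=
  ContinuousMap.continuous (f : C(unitInterval, ℂ))

lemma AA.norm_coe_le_norm (f : AA) (r : unitInterval) : ‖f r‖ ≤ ‖f‖ :=
  ContinuousMap.norm_coe_le_norm (f : C(unitInterval, ℂ)) r

lemma AA.norm_le {f : AA} {C : ℝ} (hC : 0 ≤ C) : ‖f‖ ≤ C ↔ ∀ r : unitInterval, ‖f r‖ ≤ C :=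
  ContinuousMap.norm_le (f : C(unitInterval, ℂ)) hC

@[simp] lemma AA.add_apply (f g : AA) (r : unitInterval) : (f + g) r = f r + g r := rfl
@[simp] lemma AA.sub_apply (f g : AA) (r : unitInterval) : (f - g) r = f r - g r := rfl
@[simp] lemma AA.neg_apply (f : AA) (r : unitInterval) : (-f) r = -(f r) := rfl
@[simp] lemma AA.mul_apply (f g : AA) (r : unitInterval) : (f * g) r = f r * g r := rfl
@[simp] lemma AA.smul_apply (c : ℂ) (f : AA) (r : unitInterval) : (c • f) r = c * f r := rfl
@[simp] lemma AA.zero_apply (r : unitInterval) : (0 : AA) r = 0 := rfl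
@[simp] lemma AA.one_apply (r : unitInterval) : (1 : AA) r = 1 := rfl

/-- evaluation at a point as an algebra homomorphism -/
def AA.evalHom (r : unitInterval) : AA →ₐ[ℂ] ℂ where
  toFun f := f r
  map_one' := rfl
  map_mul' _ _ := rfl
  map_zero' := rfl
  map_add' _ _ := rfl
  commutes' _ := rfl

/-- evaluation at a point as a continuous linear map -/
def AA.evalL (r : unitInterval) : AA →L[ℂ] ℂ :=
  LinearMap.mkContinuous (AA.evalHom r).toLinearMap 1 (fun f => by
    rw [one_mul]; exact f.norm_coe_le_norm r)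

@[simp] lemma AA.evalL_apply (r : unitInterval) (f : AA) : AA.evalL r f = f r := rfl

/-- the coordinate function `r ↦ r` -/
def iot : AA := (⟨fun r => ((r : ℝ) : ℂ), by fun_prop⟩ : C(unitInterval, ℂ))

@[simp] lemma iot_apply (r : unitInterval) : iot r = ((r : ℝ) : ℂ) := rfl

lemma norm_iot_le : ‖iot‖ ≤ 1 := by
  refine (AA.norm_le zero_le_one).2 (fun r => ?_)
  rw [iot_apply, Complex.norm_real, Real.norm_eq_abs, abs_of_nonneg r.2.1]
  exact r.2.2

/-- extension of `f` to `ℝ` (constant outside `[0,1]`) -/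
def ext (f : AA) : ℝ → ℂ := Set.IccExtend zero_le_one f

lemma continuous_ext (f : AA) : Continuous (ext f) := f.continuous_coe.Icc_extend'

lemma ext_apply (f : AA) (r : unitInterval) : ext f r = f r := by
  unfold ext
  rw [Set.IccExtend_val]

lemma norm_ext_le (f : AA) (r : ℝ) : ‖ext f r‖ ≤ ‖f‖ := f.norm_coe_le_norm _

lemma ext_add (f g : AA) : ext (f + g) = fun r => ext f r + ext g r := rfl
lemma ext_smul (c : ℂ) (f : AA) : ext (c • f) = fun r => c * ext f r := rfl
lemma ext_mul (f g : AA) : ext (f * g) = fun r => ext f r * ext g r := rfl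

lemma ext_iot {r : ℝ} (h : r ∈ Icc (0 : ℝ) 1) : ext iot r = r := by
  unfold ext
  rw [Set.IccExtend_of_mem _ _ h]; rfl

/-- the Volterra operator as a function -/
def Jf (f : AA) : AA :=
  (⟨fun r => ∫ a in (0 : ℝ)..r, ext f a,
    (intervalIntegral.continuous_primitive
      (fun a b => (continuous_ext f).intervalIntegrable a b) 0).comp continuous_subtype_val⟩ :
      C(unitInterval, ℂ))

lemma Jf_apply (f : AA) (r : unitInterval) : Jf f r = ∫ a in (0 : ℝ)..r, ext f a := rfl

/-- the Volterra operator `(J f)(r) = ∫_0^r f` -/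
def J : AA →L[ℂ] AA :=
  LinearMap.mkContinuous
    { toFun := Jf
      map_add' := fun f g => by
        refine AA.ext' (fun r => ?_)
        rw [Jf_apply, AA.add_apply, Jf_apply, Jf_apply, ext_add]
        exact intervalIntegral.integral_add ((continuous_ext f).intervalIntegrable _ _)
          ((continuous_ext g).intervalIntegrable _ _)
      map_smul' := fun c f => by
        refine AA.ext' (fun r => ?_)
        rw [Jf_apply, RingHom.id_apply, AA.smul_apply, Jf_apply, ext_smul]
        exact intervalIntegral.integral_const_mul _ _ } 1 (fun f => by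
      rw [one_mul]
      refine (AA.norm_le (norm_nonneg _)).2 (fun r => ?_)
      have h1 := intervalIntegral.norm_integral_le_of_norm_le_const (f := ext f) (a := 0)
        (b := (r : ℝ)) (C := ‖f‖) (fun x _ => norm_ext_le f x)
      have h2 : |(r : ℝ) - 0| ≤ 1 := by
        rw [sub_zero, abs_of_nonneg r.2.1]; exact r.2.2
      exact h1.trans (by
        have := mul_le_mul_of_nonneg_left h2 (norm_nonneg f)
        linarith))

lemma J_apply (f : AA) (r : unitInterval) : J f r = ∫ a in (0 : ℝ)..r, ext f a := rfl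

lemma norm_J_apply_le (f : AA) : ‖J f‖ ≤ ‖f‖ := by
  have h : ‖J‖ ≤ 1 := LinearMap.mkContinuous_norm_le _ zero_le_one _
  have := J.le_of_opNorm_le h f
  linarith

/-- integration over `[0,1]` -/
def Lam : AA →L[ℂ] ℂ := (AA.evalL (1 : unitInterval)).comp J

lemma Lam_apply (f : AA) : Lam f = ∫ a in (0 : ℝ)..1, ext f a := rfl

lemma norm_Lam_apply_le (f : AA) : ‖Lam f‖ ≤ ‖f‖ := by
  have h1 : ‖Lam f‖ ≤ ‖J f‖ := (J f).norm_coe_le_norm 1
  exact h1.trans (norm_J_apply_le f)

/-- cosine in `AA` -/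
def cosA (a : AA) : AA :=
  (1 / 2 : ℂ) • (NormedSpace.exp (I • a) + NormedSpace.exp (-(I • a)))

lemma exp_apply (f : AA) (r : unitInterval) : (NormedSpace.exp f : AA) r = Complex.exp (f r) := by
  have h := NormedSpace.map_exp (AA.evalHom r) (AA.evalL r).continuous f
  rw [Complex.exp_eq_exp_ℂ]
  exact h

lemma cosA_apply (a : AA) (r : unitInterval) : cosA a r = Complex.cos (a r) := by
  unfold cosA
  rw [AA.smul_apply, AA.add_apply, exp_apply, exp_apply,
    AA.neg_apply, AA.smul_apply, Complex.cos]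
  rw [mul_comm I]
  ring_nf

/-- `E_r = ∫_0^r exp(d)` -/
def Ef (d : AA) : AA := J (NormedSpace.exp d)

/-- `I_c = ∫ exp(-2d) cos(z E)` -/
def Ic (X : AA × ℂ) : ℂ :=
  Lam (NormedSpace.exp ((-2 : ℂ) • X.1) * cosA (X.2 • Ef X.1))

/-- `I_s = ∫ exp(-2d) sin(z E) / z` -/
def Is (X : AA × ℂ) : ℂ :=
  Lam (NormedSpace.exp ((-2 : ℂ) • X.1) *
    J (NormedSpace.exp X.1 * cosA (X.2 • Ef X.1)))

/-- `b = I_s / I_c`, `tan β = z b` -/
def bf (X : AA × ℂ) : ℂ := Is X / Ic X

/-- square root near `1` -/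
def sq (y : ℂ) : ℂ := Complex.exp (Complex.log (1 + y) / 2)

/-- `φ(y) = 1/(s(1+s))`, `s = √(1+y)` -/
def phi (y : ℂ) : ℂ := 1 / (sq y * (1 + sq y))

/-- the reflection functional -/
def Qf (X : AA × ℂ) : ℂ := bf X ^ 2 * phi (X.2 ^ 2 * bf X ^ 2)

/-- the linear functional `d ↦ ∫ (2 - 3 r) d_r dr` -/
def Lf : AA →L[ℂ] ℂ :=
  Lam.comp ((ContinuousLinearMap.mul ℂ AA ((2 : ℂ) • (1 : AA) - (3 : ℂ) • iot)))

lemma Lf_apply (d : AA) : Lf d = Lam (((2 : ℂ) • (1 : AA) - (3 : ℂ) • iot) * d) := rfl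

/-- increments of `q` along the segment from `x` to `x + e` -/
def dq (q : C(ℂ, ℂ)) (x e : ℂ) : AA :=
  (⟨fun r => q (x + e * ((r : ℝ) : ℂ)) - q x, by fun_prop⟩ : C(unitInterval, ℂ))

@[simp] lemma dq_apply (q : C(ℂ, ℂ)) (x e : ℂ) (r : unitInterval) :
    dq q x e r = q (x + e * ((r : ℝ) : ℂ)) - q x := rfl

/-- the argument of `Qf` -/
def Xq (q : C(ℂ, ℂ)) (x e : ℂ) : AA × ℂ := (dq q x e, e * Complex.exp (q x))

/-- `exp(-2q(x)) (1 - cos β)` -/
def Pq (q : C(ℂ, ℂ)) (x e : ℂ) : ℂ := e ^ 2 * Qf (Xq q x e)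

/-- defect of the reflection law at `b` for the polygon `a, b, c` -/
def EP (q : C(ℂ, ℂ)) (a b c : ℂ) : ℂ := Pq q b (-(b - a)) - Pq q b (c - b)

end Crest.Agent.R102.A929
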