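import Crest.Agent.R102.Dich_583

/-!
# Row 102, [H1], slow variation: the link with a convex function

`μ` convex on `(-∞, x0)` with `μ → 0` at `-∞` (`μ(x) = M(e^x)`, `M(s) = max_{|w|=s} H`, `H`
subharmonic with `H(0) = 0`); `S(τ)` = right derivative of `μ` at `-τ`.
Then `S` satisfies `Dat` and `∫_τ^∞ S = μ(-τ)`.
-/

namespace Crest.Agent.R102.Dich583

open MeasureTheory Set Filter Topology

variable {μ : ℝ → ℝ} {x0 : ℝ}

/-- the right derivative in `τ`-coordinates -/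
noncomputable def SS (μ : ℝ → ℝ) (τ : ℝ) : ℝ := derivWithin μ (Ioi (-τ)) (-τ)

theorem mem_int {x : ℝ} (hx : x < x0) : x ∈ interior (Iio x0) := by
  rw [interior_Iio]; exact hx

theorem rd_mono (hc : ConvexOn ℝ (Iio x0) μ) {x y : ℝ} (hxy : x ≤ y) (hy : y < x0) :
    derivWithin μ (Ioi x) x ≤ derivWithin μ (Ioi y) y :=
  hc.monotoneOn_rightDeriv (mem_int (lt_of_le_of_lt hxy hy)) (mem_int hy) hxy

theorem rd_nonneg (hc : ConvexOn ℝ (Iio x0) μ) (h0 : Tendsto μ atBot (𝓝 0)) {x : ℝ}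
    (hx : x < x0) : 0 ≤ derivWithin μ (Ioi x) x := by
  have h1 : ∀ᶠ y in atBot, slope μ y x ≤ derivWithin μ (Ioi x) x := by
    filter_upwards [eventually_lt_atBot x] with y hy
    exact le_trans (hc.slope_le_leftDeriv_of_mem_interior (lt_trans hy hx : y ∈ Iio x0)
      (mem_int hx) hy) (hc.leftDeriv_le_rightDeriv_of_mem_interior (mem_int hx))
  have h2 : Tendsto (fun y => slope μ y x) atBot (𝓝 0) := by
    have h3 : Tendsto (fun y => μ x - μ y) atBot (𝓝 (μ x - 0)) := tendsto_const_nhds.sub h0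
    have h4 : Tendsto (fun y : ℝ => x - y) atBot atTop := by
      have : Tendsto (fun y : ℝ => x + (-y)) atBot atTop :=
        tendsto_atTop_add_const_left _ _ tendsto_neg_atBot_atTop
      simpa [sub_eq_add_neg] using this
    have h5 := h3.div_atTop h4
    refine h5.congr (fun y => ?_)
    rw [slope_def_field]
  exact le_of_tendsto h2 h1

theorem mu_cont (hc : ConvexOn ℝ (Iio x0) μ) : ContinuousOn μ (Iio x0) :=
  hc.continuousOn isOpen_Iio

/-- right continuity of the right derivative (upper semicontinuity) -/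
theorem rd_usc (hc : ConvexOn ℝ (Iio x0) μ) {x c : ℝ} (hx : x < x0)
    (h : derivWithin μ (Ioi x) x < c) :
    ∃ x', x < x' ∧ x' < x0 ∧ derivWithin μ (Ioi x') x' < c := by
  have h1 : ∃ y, x < y ∧ y < x0 ∧ slope μ x y < c := by
    have hd := hc.hasDerivWithinAt_rightDeriv_of_mem_interior (mem_int hx)
    rw [hasDerivWithinAt_iff_tendsto_slope] at hd
    have hd' : Tendsto (slope μ x) (𝓝[>] x) (𝓝 (derivWithin μ (Ioi x) x)) := by
      have hset : Ioi x \ {x} = Ioi x := by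
        ext z
        simp only [Set.mem_sdiff, mem_Ioi, mem_singleton_iff]
        exact ⟨fun hz => hz.1, fun hz => ⟨hz, ne_of_gt hz⟩⟩
      rwa [hset] at hd
    have h2 := hd'.eventually (gt_mem_nhds h)
    have h3 : ∀ᶠ y in 𝓝[>] x, y < x0 := mem_nhdsWithin_of_mem_nhds (gt_mem_nhds hx)
    obtain ⟨y, hy1, hy2, hy3⟩ := (h2.and (h3.and self_mem_nhdsWithin)).exists
    exact ⟨y, hy3, hy2, hy1⟩
  obtain ⟨y, hy1, hy2, hy3⟩ := h1
  -- `slope μ x' y → slope μ x y` as `x' → x+`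
  have hcx : ContinuousAt μ x := (mu_cont hc).continuousAt (Iio_mem_nhds hx)
  have h4 : ContinuousAt (fun x' => (μ y - μ x') / (y - x')) x := by
    refine ContinuousAt.div (continuousAt_const.sub hcx) (continuousAt_const.sub continuousAt_id) ?_
    exact sub_ne_zero.2 (ne_of_gt hy1)
  have h5 : (μ y - μ x) / (y - x) < c := by
    rw [← slope_def_field]; exact hy3
  have h6 : ∀ᶠ x' in 𝓝 x, (μ y - μ x') / (y - x') < c := h4.eventually (gt_mem_nhds h5)
  have h7 : ∀ᶠ x' in 𝓝 x, x' < y := gt_mem_nhds hy1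
  have h8 : ∀ᶠ x' in 𝓝[>] x, (μ y - μ x') / (y - x') < c ∧ x' < y :=
    mem_nhdsWithin_of_mem_nhds (h6.and h7)
  obtain ⟨x', ⟨h9, h10⟩, h11⟩ := (h8.and self_mem_nhdsWithin).exists
  refine ⟨x', h11, lt_trans h10 hy2, ?_⟩
  refine lt_of_le_of_lt (hc.rightDeriv_le_slope_of_mem_interior (mem_int (lt_trans h10 hy2))
    (hy2 : y ∈ Iio x0) h10) ?_
  rw [slope_def_field]
  exact h9

theorem SS_anti (hc : ConvexOn ℝ (Iio x0) μ) {τ0 : ℝ} (hτ : -x0 < τ0) :
    AntitoneOn (SS μ) (Ici τ0) := by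
  intro a ha b hb hab
  have ha' : τ0 ≤ a := ha
  exact rd_mono hc (by linarith) (by linarith)

theorem SS_int_eq (hc : ConvexOn ℝ (Iio x0) μ) {a b : ℝ} (ha : -x0 < a) (hab : a ≤ b) :
    IntervalIntegrable (SS μ) volume a b ∧ ∫ t in a..b, SS μ t = μ (-a) - μ (-b) := by
  have hanti : AntitoneOn (SS μ) (uIcc a b) := by
    rw [uIcc_of_le hab]
    exact (SS_anti hc ha).mono (fun t ht => ht.1)
  have hint : IntervalIntegrable (SS μ) volume a b := hanti.intervalIntegrable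
  refine ⟨hint, ?_⟩
  have h1 : ∫ t in a..b, SS μ t = ∫ x in (-b)..(-a), derivWithin μ (Ioi x) x := by
    have := intervalIntegral.integral_comp_neg (a := a) (b := b)
      (fun x => derivWithin μ (Ioi x) x)
    exact this
  rw [h1]
  have hba : -b ≤ -a := by linarith
  refine intervalIntegral.integral_eq_sub_of_hasDeriv_right_of_le hba ?_ ?_ ?_
  · exact (mu_cont hc).mono (fun x hx => lt_of_le_of_lt hx.2 (by linarith))
  · intro x hx
    exact hc.hasDerivWithinAt_rightDeriv_of_mem_interior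
      (mem_int (lt_trans hx.2 (by linarith)))
  · have hmono : MonotoneOn (fun x => derivWithin μ (Ioi x) x) (uIcc (-b) (-a)) := by
      rw [uIcc_of_le hba]
      intro x hx y hy hxy
      exact rd_mono hc hxy (lt_of_le_of_lt hy.2 (by linarith))
    exact hmono.intervalIntegrable

theorem mu_tendsto (h0 : Tendsto μ atBot (𝓝 0)) : Tendsto (fun τ => μ (-τ)) atTop (𝓝 0) :=
  h0.comp tendsto_neg_atTop_atBot

/-- **The link**: the right derivative of a convex function vanishing at `-∞`. -/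
theorem dat_of_convex (hc : ConvexOn ℝ (Iio x0) μ) (h0 : Tendsto μ atBot (𝓝 0)) {τ0 : ℝ}
    (hτ : -x0 < τ0) : Dat (SS μ) τ0 where
  anti := SS_anti hc hτ
  nonneg := fun t ht => rd_nonneg hc h0 (by linarith)
  int := by
    refine integrableOn_Ioi_of_intervalIntegral_norm_tendsto (b := fun i : ℝ => i) (l := atTop)
      (μ (-τ0)) τ0 (fun i => ?_) tendsto_id ?_
    · rcases le_total τ0 i with h | h
      · exact (intervalIntegrable_iff_integrableOn_Ioc_of_le h).1 (SS_int_eq hc hτ h).1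
      · rw [Ioc_eq_empty (not_lt.2 h)]
        exact integrableOn_empty
    · have h2 : Tendsto (fun i : ℝ => μ (-τ0) - μ (-i)) atTop (𝓝 (μ (-τ0) - 0)) :=
        tendsto_const_nhds.sub (mu_tendsto h0)
      rw [sub_zero] at h2
      refine h2.congr' ?_
      filter_upwards [eventually_ge_atTop τ0] with i hi
      rw [← (SS_int_eq hc hτ hi).2]
      refine intervalIntegral.integral_congr (fun t ht => ?_)
      rw [uIcc_of_le hi] at ht
      have : 0 ≤ SS μ t := rd_nonneg hc h0 (by linarith [ht.1])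
      simp only [Real.norm_eq_abs]
      rw [abs_of_nonneg this]
  usc := by
    intro τ hτ' c hlt
    have hτ'' : τ0 ≤ τ := hτ'
    obtain ⟨x', h1, h2, h3⟩ := rd_usc hc (x := -τ) (c := c) (by linarith) hlt
    have h4 : ∀ᶠ t in 𝓝 τ, -x' < t := lt_mem_nhds (by linarith)
    have h5 : ∀ᶠ t in 𝓝[Ici τ0] τ, -x' < t := mem_nhdsWithin_of_mem_nhds h4
    filter_upwards [h5] with t ht
    exact lt_of_le_of_lt (rd_mono hc (x := -t) (y := x') (by linarith) h2) h3

theorem mm_eq (hc : ConvexOn ℝ (Iio x0) μ) (h0 : Tendsto μ atBot (𝓝 0)) {τ : ℝ}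
    (hτ : -x0 < τ) : mm (SS μ) τ = μ (-τ) := by
  have hD := dat_of_convex hc h0 hτ
  have h1 : Tendsto (fun i : ℝ => ∫ x in τ..i, SS μ x) atTop (𝓝 (∫ x in Ioi τ, SS μ x)) :=
    intervalIntegral_tendsto_integral_Ioi τ hD.int tendsto_id
  have h2 : Tendsto (fun i : ℝ => μ (-τ) - μ (-i)) atTop (𝓝 (μ (-τ) - 0)) :=
    tendsto_const_nhds.sub (mu_tendsto h0)
  rw [sub_zero] at h2
  have h3 : Tendsto (fun i : ℝ => ∫ x in τ..i, SS μ x) atTop (𝓝 (μ (-τ))) := by
    refine h2.congr' ?_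
    filter_upwards [eventually_ge_atTop τ] with i hi
    exact (SS_int_eq hc hτ hi).2.symm
  exact tendsto_nhds_unique h1 h3

/-- monotone and nonnegative -/
theorem mu_nonneg (hc : ConvexOn ℝ (Iio x0) μ) (h0 : Tendsto μ atBot (𝓝 0)) {x : ℝ}
    (hx : x < x0) : 0 ≤ μ x := by
  have h := (dat_of_convex hc h0 (τ0 := -x) (by linarith)).mm_nonneg le_rfl
  rw [mm_eq hc h0 (by linarith)] at h
  simpa using h

theorem mu_mono (hc : ConvexOn ℝ (Iio x0) μ) (h0 : Tendsto μ atBot (𝓝 0)) {x y : ℝ}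
    (hxy : x ≤ y) (hy : y < x0) : μ x ≤ μ y := by
  have h := (dat_of_convex hc h0 (τ0 := -y) (by linarith)).mm_anti (a := -y) (b := -x) le_rfl
    (by linarith)
  rw [mm_eq hc h0 (by linarith), mm_eq hc h0 (by linarith)] at h
  simpa using h

/-- the tangent bound `μ(x) ≤ μ(x₁) + S (x - x₁)` inside a window: for `x, x1` with slopes in
`[s₁, s₂]` between them the increment is between `s₁ |x-x₁|` and `s₂ |x-x₁|` -/
theorem mu_incr (hc : ConvexOn ℝ (Iio x0) μ) {a b s1 s2 : ℝ} (hab : a ≤ b) (hb : b < x0)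
    (h1 : ∀ x, a ≤ x → x ≤ b → s1 ≤ derivWithin μ (Ioi x) x)
    (h2 : ∀ x, a ≤ x → x ≤ b → derivWithin μ (Ioi x) x ≤ s2) :
    s1 * (b - a) ≤ μ b - μ a ∧ μ b - μ a ≤ s2 * (b - a) := by
  have h := SS_int_eq hc (a := -b) (b := -a) (by linarith) (by linarith)
  have e : ∫ t in (-b)..(-a), SS μ t = μ b - μ a := by
    rw [h.2]; simp
  have hle : -b ≤ -a := by linarith
  rw [← e]
  constructor
  · have : ∫ _t in (-b)..(-a), s1 ≤ ∫ t in (-b)..(-a), SS μ t := by
      refine intervalIntegral.integral_mono_on hle (by simp) h.1 (fun t ht => ?_)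
      exact h1 (-t) (by linarith [ht.2]) (by linarith [ht.1])
    rw [intervalIntegral.integral_const, smul_eq_mul] at this
    linarith
  · have : ∫ t in (-b)..(-a), SS μ t ≤ ∫ _t in (-b)..(-a), s2 := by
      refine intervalIntegral.integral_mono_on hle h.1 (by simp) (fun t ht => ?_)
      exact h2 (-t) (by linarith [ht.2]) (by linarith [ht.1])
    rw [intervalIntegral.integral_const, smul_eq_mul] at this
    linarith

/-- record points of the slope `M'(s) = S/s` : `x` with `μ'_+(t) e^{-t} ≤ μ'_+(x) e^{-x}`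
for `x ≤ t ≤ x1` -/
def RecX (μ : ℝ → ℝ) (x1 x : ℝ) : Prop :=
  x ≤ x1 ∧ ∀ t, x ≤ t → t ≤ x1 →
    derivWithin μ (Ioi t) t * Real.exp (-t) ≤ derivWithin μ (Ioi x) x * Real.exp (-x)

theorem recX_iff {x1 x : ℝ} : RecX μ x1 x ↔ IsRec (SS μ) (-x1) (-x) := by
  constructor
  · rintro ⟨h1, h2⟩
    refine ⟨by linarith, fun t ht1 ht2 => ?_⟩
    have := h2 (-t) (by linarith) (by linarith)
    simpa [SS] using this
  · rintro ⟨h1, h2⟩
    refine ⟨by linarith, fun t ht1 ht2 => ?_⟩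
    have := h2 (-t) (by linarith) (by linarith)
    simpa [SS] using this

/-- **The dichotomy in the variable `x = log s`** (`μ(x) = M(e^x)`, `S = μ'_+ = s M'(s)`,
`x1 < x0` fixed). -/
theorem dichotomy_convex (hc : ConvexOn ℝ (Iio x0) μ) (h0 : Tendsto μ atBot (𝓝 0)) {x1 : ℝ}
    (hx1 : x1 < x0) (hub : ∀ K, ∃ x, x ≤ x1 ∧ K ≤ μ x * Real.exp (-x)) :
    ((∃ C1 K0 : ℝ, 0 ≤ C1 ∧
      (∀ x, RecX μ x1 x → K0 ≤ derivWithin μ (Ioi x) x * Real.exp (-x) →
        μ x ≤ C1 * derivWithin μ (Ioi x) x) ∧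
      (∀ c : ℝ, 0 < c → ∃ T, 0 ≤ T ∧ ∀ x, RecX μ x1 x →
        K0 ≤ derivWithin μ (Ioi x) x * Real.exp (-x) → ∀ T', T ≤ T' →
        μ (x - T') ≤ c * derivWithin μ (Ioi x) x)) ∧
      (∀ K, ∃ x, x ≤ K ∧ -K ≤ derivWithin μ (Ioi x) x * Real.exp (-x) ∧ RecX μ x1 x)) ∨
    (∀ A ε K : ℝ, 0 < A → 0 < ε → ∃ x, x ≤ K ∧ x + A ≤ x1 ∧ 0 < derivWithin μ (Ioi x) x ∧
      -K ≤ derivWithin μ (Ioi x) x * Real.exp (-x) ∧
      (∀ t, |t - x| ≤ A → |derivWithin μ (Ioi t) t - derivWithin μ (Ioi x) x|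
        ≤ ε * derivWithin μ (Ioi x) x) ∧
      (∀ t, t ≤ x1 → derivWithin μ (Ioi t) t
        ≤ (1 + ε) * derivWithin μ (Ioi x) x * max 1 (Real.exp (t - x))) ∧
      -K * μ x ≤ (derivWithin μ (Ioi x) x) ^ 2 * Real.exp (-x)) := by
  have hτ : -x0 < -x1 := by linarith
  have hD := dat_of_convex hc h0 hτ
  have hub' : ∀ K, ∃ τ, -x1 ≤ τ ∧ K ≤ mm (SS μ) τ * Real.exp τ := by
    intro K
    obtain ⟨x, h1, h2⟩ := hub K
    refine ⟨-x, by linarith, ?_⟩
    rw [mm_eq hc h0 (by linarith)]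
    simpa using h2
  rcases hD.dichotomy hub' with ⟨⟨C1, K0, h1, h2, h3⟩, h4⟩ | h
  · left
    refine ⟨⟨C1, K0, h1, fun x hx hK => ?_, fun c hc' => ?_⟩, fun K => ?_⟩
    · have := h2 (-x) (recX_iff.1 hx) (by simpa [SS] using hK)
      rw [mm_eq hc h0 (by linarith [hx.1])] at this
      simpa [SS] using this
    · obtain ⟨T, hT0, hT⟩ := h3 c hc'
      refine ⟨T, hT0, fun x hx hK T' hT' => ?_⟩
      have := hT (-x) (recX_iff.1 hx) (by simpa [SS] using hK) T' hT'
      rw [mm_eq hc h0 (by linarith [hx.1])] at this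
      have e : -(-x + T') = x - T' := by ring
      rw [e] at this
      simpa [SS] using this
    · obtain ⟨r, hr1, hr2, hr3⟩ := h4 (-K)
      refine ⟨-r, by linarith, by simpa [SS] using hr2, ?_⟩
      rw [recX_iff]
      simpa using hr3
  · right
    intro A ε K hA hε
    obtain ⟨τ, h1, h2, h3, h4, h5, h6, h7⟩ := h A ε (-K) hA hε
    refine ⟨-τ, by linarith, by linarith, h3, by simpa [SS] using h4, fun t ht => ?_,
      fun t ht => ?_, ?_⟩
    · have := h5 (-t) (by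
        have e : -t - τ = -(t - -τ) := by ring
        rw [e, abs_neg]; exact ht)
      simpa [SS] using this
    · have := h6 (-t) (by linarith)
      have e : τ - -t = t - -τ := by ring
      rw [e] at this
      simpa [SS] using this
    · rw [mm_eq hc h0 (by linarith)] at h7
      simpa [SS] using h7

end Crest.Agent.R102.Dich583
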