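import Mathlib

/-!
# Row 102, [H1], slow variation: the dichotomy (helper672 #22957 (A)), pure calculus.

`τ = log 1/s`, `S(τ) = dM/dlog s` (antitone in `τ`, nonnegative, integrable at `∞`, upper
semicontinuous = left continuous), `m(τ) = ∫_{τ}^∞ S = M(s)`.

* `exists_rec` : records of `S e^τ` if it is unbounded;
* `caseI`     : bounded `N = m/S` along the records, then no flat piece;
* `caseII`    : `N` unbounded along the records, then slow windows;
* `dichotomy` : one of the two cases holds.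
-/

namespace Crest.Agent.R102.Dich583

open MeasureTheory Set Filter Topology

/-- the data of the dichotomy -/
structure Dat (S : ℝ → ℝ) (τ0 : ℝ) : Prop where
  anti : AntitoneOn S (Ici τ0)
  nonneg : ∀ t, τ0 ≤ t → 0 ≤ S t
  int : IntegrableOn S (Ioi τ0)
  usc : UpperSemicontinuousOn S (Ici τ0)

/-- `m(τ) = ∫_τ^∞ S` -/
noncomputable def mm (S : ℝ → ℝ) (τ : ℝ) : ℝ := ∫ t in Ioi τ, S t

/-- record times of `S e^τ` on `[τ0, ∞)` -/
def IsRec (S : ℝ → ℝ) (τ0 τ : ℝ) : Prop :=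
  τ0 ≤ τ ∧ ∀ t, τ0 ≤ t → t ≤ τ → S t * Real.exp t ≤ S τ * Real.exp τ

variable {S : ℝ → ℝ} {τ0 : ℝ}

/-! ### Upper semicontinuity tools -/

theorem usc_mul {g : ℝ → ℝ} (hg : Continuous g) (hpos : ∀ t, 0 < g t) {D : Set ℝ}
    (hS : UpperSemicontinuousOn S D) : UpperSemicontinuousOn (fun t => S t * g t) D := by
  intro x hx y hy
  have hy' : S x * g x < y := hy
  have h1 : S x < y / g x := (lt_div_iff₀ (hpos x)).2 hy'
  obtain ⟨c, hc1, hc2⟩ := exists_between h1
  have h2 : c * g x < y := (lt_div_iff₀ (hpos x)).1 hc2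
  have h3 : ∀ᶠ x' in 𝓝[D] x, S x' < c := hS x hx c hc1
  have h4 : ∀ᶠ x' in 𝓝[D] x, c * g x' < y := by
    have : Tendsto (fun x' => c * g x') (𝓝[D] x) (𝓝 (c * g x)) :=
      ((continuous_const.mul hg).tendsto x).mono_left nhdsWithin_le_nhds
    exact this.eventually (gt_mem_nhds h2)
  filter_upwards [h3, h4] with x' h5 h6
  exact lt_trans (mul_lt_mul_of_pos_right h5 (hpos x')) h6

theorem closed_ge {F : ℝ → ℝ} {a : ℝ} (hF : UpperSemicontinuousOn F (Ici a)) (R : ℝ) :
    IsClosed {t | a ≤ t ∧ R ≤ F t} := by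
  rw [← isOpen_compl_iff, isOpen_iff_mem_nhds]
  intro x hx
  by_cases hxa : a ≤ x
  · have hlt : F x < R := by
      by_contra hcon
      exact hx ⟨hxa, not_lt.1 hcon⟩
    have h1 : ∀ᶠ x' in 𝓝[Ici a] x, F x' < R := hF x hxa R hlt
    rw [eventually_nhdsWithin_iff] at h1
    filter_upwards [h1] with x' h2 h3
    exact absurd (h2 h3.1) (not_lt.2 h3.2)
  · have : ∀ᶠ x' in 𝓝 x, x' < a := gt_mem_nhds (not_le.1 hxa)
    filter_upwards [this] with x' h2 h3
    exact absurd h3.1 (not_le.2 h2)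

/-- the first time `≥ u` at which `F ≥ R` -/
theorem exists_first {F : ℝ → ℝ} {a u R : ℝ} (hF : UpperSemicontinuousOn F (Ici a)) (hau : a ≤ u)
    (hne : ∃ t, u ≤ t ∧ R ≤ F t) :
    ∃ t, u ≤ t ∧ R ≤ F t ∧ ∀ x, u ≤ x → x < t → F x < R := by
  have hcl : IsClosed {t | u ≤ t ∧ R ≤ F t} :=
    closed_ge (hF.mono (Ici_subset_Ici.2 hau)) R
  have hbdd : BddBelow {t | u ≤ t ∧ R ≤ F t} := ⟨u, fun t ht => ht.1⟩
  have hmem : sInf {t | u ≤ t ∧ R ≤ F t} ∈ {t | u ≤ t ∧ R ≤ F t} := hcl.csInf_mem hne hbdd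
  refine ⟨sInf {t | u ≤ t ∧ R ≤ F t}, hmem.1, hmem.2, fun x hx hxt => ?_⟩
  by_contra hcon
  exact absurd (csInf_le hbdd ⟨hx, not_lt.1 hcon⟩) (not_le.2 hxt)

theorem exists_argmax {F : ℝ → ℝ} {a u v : ℝ} (hF : UpperSemicontinuousOn F (Ici a)) (hau : a ≤ u)
    (huv : u ≤ v) : ∃ x, u ≤ x ∧ x ≤ v ∧ ∀ t, u ≤ t → t ≤ v → F t ≤ F x := by
  have h1 : UpperSemicontinuousOn F (Icc u v) := hF.mono (fun x hx => le_trans hau hx.1)
  obtain ⟨x, hx, hmax⟩ := h1.exists_isMaxOn (nonempty_Icc.2 huv) isCompact_Icc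
  exact ⟨x, hx.1, hx.2, fun t ht1 ht2 => hmax ⟨ht1, ht2⟩⟩

theorem Dat.uscF (h : Dat S τ0) : UpperSemicontinuousOn (fun t => S t * Real.exp t) (Ici τ0) :=
  usc_mul Real.continuous_exp Real.exp_pos h.usc

theorem Dat.uscG (h : Dat S τ0) :
    UpperSemicontinuousOn (fun t => S t * Real.exp (t / 2)) (Ici τ0) :=
  usc_mul (Real.continuous_exp.comp (continuous_id.div_const 2)) (fun _ => Real.exp_pos _) h.usc

/-! ### The tail integral -/

theorem Dat.intOn (h : Dat S τ0) {τ : ℝ} (hτ : τ0 ≤ τ) : IntegrableOn S (Ioi τ) :=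
  h.int.mono_set (Ioi_subset_Ioi hτ)

theorem Dat.intIoc (h : Dat S τ0) {a b : ℝ} (hτ : τ0 ≤ a) : IntegrableOn S (Ioc a b) :=
  (h.intOn hτ).mono_set Ioc_subset_Ioi_self

theorem Dat.mm_nonneg (h : Dat S τ0) {τ : ℝ} (hτ : τ0 ≤ τ) : 0 ≤ mm S τ :=
  setIntegral_nonneg measurableSet_Ioi (fun t ht => h.nonneg t (le_trans hτ (le_of_lt ht)))

theorem Dat.mm_split (h : Dat S τ0) {a b : ℝ} (ha : τ0 ≤ a) (hab : a ≤ b) :
    mm S a = (∫ t in Ioc a b, S t) + mm S b := by
  unfold mm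
  rw [← Ioc_union_Ioi_eq_Ioi hab, setIntegral_union _ measurableSet_Ioi (h.intIoc ha)
    (h.intOn (le_trans ha hab))]
  exact Set.disjoint_left.2 (fun x hx hx' => absurd hx.2 (not_le.2 hx'))

theorem Dat.mm_anti (h : Dat S τ0) {a b : ℝ} (ha : τ0 ≤ a) (hab : a ≤ b) : mm S b ≤ mm S a := by
  rw [h.mm_split ha hab]
  have : 0 ≤ ∫ t in Ioc a b, S t :=
    setIntegral_nonneg measurableSet_Ioc (fun t ht => h.nonneg t (le_trans ha (le_of_lt ht.1)))
  linarith

theorem Dat.mm_tendsto (h : Dat S τ0) : Tendsto (mm S) atTop (𝓝 0) := by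
  have h1 : Tendsto (fun i : ℝ => ∫ x in τ0..i, S x) atTop (𝓝 (∫ x in Ioi τ0, S x)) :=
    intervalIntegral_tendsto_integral_Ioi τ0 h.int tendsto_id
  have h2 : Tendsto (fun i : ℝ => (∫ x in Ioi τ0, S x) - ∫ x in τ0..i, S x) atTop (𝓝 0) := by
    have := h1.const_sub (∫ x in Ioi τ0, S x)
    simpa using this
  refine h2.congr' ?_
  filter_upwards [eventually_ge_atTop τ0] with i hi
  have h3 := h.mm_split le_rfl hi
  unfold mm at h3 ⊢
  rw [h3, intervalIntegral.integral_of_le hi]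
  ring

/-- upper bound of the integral over `Ioc a b` by a constant -/
theorem Dat.int_le_const (h : Dat S τ0) {a b : ℝ} (ha : τ0 ≤ a) (hab : a ≤ b) :
    (∫ t in Ioc a b, S t) ≤ (b - a) * S a := by
  have h1 : (∫ t in Ioc a b, S t) ≤ ∫ _t in Ioc a b, S a := by
    refine setIntegral_mono_on (h.intIoc ha) (by simp [integrableOn_const_iff]) measurableSet_Ioc
      (fun t ht => ?_)
    exact h.anti ha (le_trans ha (le_of_lt ht.1)) (le_of_lt ht.1)
  refine le_trans h1 (le_of_eq ?_)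
  rw [setIntegral_const, Measure.real, Real.volume_Ioc, ENNReal.toReal_ofReal (by linarith),
    smul_eq_mul]

/-- lower bound -/
theorem Dat.const_le_int (h : Dat S τ0) {a b : ℝ} (ha : τ0 ≤ a) (hab : a ≤ b) :
    (b - a) * S b ≤ ∫ t in Ioc a b, S t := by
  have h1 : (∫ _t in Ioc a b, S b) ≤ ∫ t in Ioc a b, S t := by
    refine setIntegral_mono_on (by simp [integrableOn_const_iff]) (h.intIoc ha) measurableSet_Ioc
      (fun t ht => ?_)
    exact h.anti (le_trans ha (le_of_lt ht.1)) (le_trans ha hab) ht.2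
  refine le_trans (le_of_eq ?_) h1
  rw [setIntegral_const, Measure.real, Real.volume_Ioc, ENNReal.toReal_ofReal (by linarith),
    smul_eq_mul]

theorem exp_neg_intOn (c a : ℝ) (hc : 0 < c) : IntegrableOn (fun t : ℝ => Real.exp (-(c * t))) (Ioi a) := by
  have := exp_neg_integrableOn_Ioi a hc
  refine this.congr_fun (fun t _ => ?_) measurableSet_Ioi
  simp only []
  congr 1
  ring

theorem integral_exp_c (c a : ℝ) (hc : 0 < c) :
    ∫ t in Ioi a, Real.exp (-(c * t)) = Real.exp (-(c * a)) / c := by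
  have h := integral_exp_mul_Ioi (a := -c) (by linarith) a
  have h2 : ∀ t : ℝ, Real.exp (-(c * t)) = Real.exp (-c * t) := fun t => by congr 1; ring
  simp only [h2]
  rw [h]
  field_simp

/-- if `S t ≤ g e^{-ct}` on `(a,b]` then the integral is at most `g e^{-ca}/c` -/
theorem Dat.int_le_exp (h : Dat S τ0) {a b c g : ℝ} (hc : 0 < c) (hg : 0 ≤ g) (ha : τ0 ≤ a)
    (hS : ∀ t, a < t → t ≤ b → S t ≤ g * Real.exp (-(c * t))) :
    (∫ t in Ioc a b, S t) ≤ g * Real.exp (-(c * a)) / c := by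
  have hi := exp_neg_intOn c a hc
  have h1 : (∫ t in Ioc a b, S t) ≤ ∫ t in Ioc a b, g * Real.exp (-(c * t)) := by
    have hi2 : IntegrableOn (fun t : ℝ => g * Real.exp (-(c * t))) (Ioi a) := hi.const_mul g
    exact setIntegral_mono_on (h.intIoc ha) (hi2.mono_set Ioc_subset_Ioi_self)
      measurableSet_Ioc (fun t ht => hS t ht.1 ht.2)
  have h2 : (∫ t in Ioc a b, g * Real.exp (-(c * t))) ≤ ∫ t in Ioi a, g * Real.exp (-(c * t)) := by
    refine setIntegral_mono_set (hi.const_mul g) ?_ (Ioc_subset_Ioi_self).eventuallyLE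
    exact Eventually.of_forall (fun t => mul_nonneg hg (Real.exp_pos _).le)
  refine le_trans h1 (le_trans h2 (le_of_eq ?_))
  rw [integral_const_mul, integral_exp_c c a hc]
  ring

/-- the same on the whole tail -/
theorem Dat.mm_le_exp (h : Dat S τ0) {a c g : ℝ} (hc : 0 < c) (ha : τ0 ≤ a)
    (hS : ∀ t, a < t → S t ≤ g * Real.exp (-(c * t))) :
    mm S a ≤ g * Real.exp (-(c * a)) / c := by
  have hi := exp_neg_intOn c a hc
  have h1 : (∫ t in Ioi a, S t) ≤ ∫ t in Ioi a, g * Real.exp (-(c * t)) := by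
    refine setIntegral_mono_on (h.intOn ha) (hi.const_mul g) measurableSet_Ioi
      (fun t ht => hS t ht)
  refine le_trans h1 (le_of_eq ?_)
  rw [integral_const_mul, integral_exp_c c a hc]
  ring

/-- from a strict bound on `[u,b)` to the bound at `b` (antitone, continuity of the majorant) -/
theorem Dat.end_le (h : Dat S τ0) {u b c g : ℝ} (hu : τ0 ≤ u) (hub : u < b)
    (hS : ∀ t, u ≤ t → t < b → S t ≤ g * Real.exp (-(c * t))) :
    S b ≤ g * Real.exp (-(c * b)) := by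
  have hcont : Tendsto (fun t : ℝ => g * Real.exp (-(c * t))) (𝓝[<] b)
      (𝓝 (g * Real.exp (-(c * b)))) := by
    have : Continuous (fun t : ℝ => g * Real.exp (-(c * t))) := by fun_prop
    exact (this.tendsto b).mono_left nhdsWithin_le_nhds
  refine ge_of_tendsto hcont ?_
  have h1 : ∀ᶠ t in 𝓝[<] b, u < t := mem_nhdsWithin_of_mem_nhds (lt_mem_nhds hub)
  filter_upwards [h1, self_mem_nhdsWithin] with t ht1 ht2
  have ht2' : t < b := ht2
  exact le_trans (h.anti (le_trans hu ht1.le) (le_trans hu (le_trans ht1.le ht2'.le)) ht2'.le)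
    (hS t ht1.le ht2')

/-! ### Records -/

theorem Dat.bdd (h : Dat S τ0) {K t : ℝ} (h1 : τ0 ≤ t) (h2 : t ≤ K) :
    S t * Real.exp t ≤ S τ0 * Real.exp K :=
  mul_le_mul (h.anti (le_refl τ0 : τ0 ∈ Ici τ0) h1 h1) (Real.exp_le_exp.2 h2)
    (Real.exp_pos _).le (h.nonneg _ le_rfl)

/-- (REC) -/
theorem Dat.exists_rec (h : Dat S τ0) (hub : ∀ K, ∃ τ, τ0 ≤ τ ∧ K ≤ S τ * Real.exp τ) (K : ℝ) :
    ∃ τ, K ≤ τ ∧ K ≤ S τ * Real.exp τ ∧ IsRec S τ0 τ := by
  obtain ⟨T, hT0, hT⟩ := hub (max (S τ0 * Real.exp (max K τ0) + 1) K)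
  obtain ⟨x, hx1, hx2, hx3⟩ := exists_argmax h.uscF le_rfl hT0
  have h1 : max (S τ0 * Real.exp (max K τ0) + 1) K ≤ S x * Real.exp x := le_trans hT (hx3 T hT0 le_rfl)
  refine ⟨x, ?_, le_trans (le_max_right _ _) h1, hx1, fun t ht1 ht2 => hx3 t ht1 (le_trans ht2 hx2)⟩
  by_contra hcon
  have h2 := h.bdd hx1 (le_trans (not_le.1 hcon).le (le_max_left K τ0))
  have h3 := le_trans (le_max_left _ _) h1
  linarith

/-- a record with a big value is late -/
theorem Dat.late (h : Dat S τ0) {K t : ℝ} (h1 : τ0 ≤ t) (h2 : S τ0 * Real.exp K < S t * Real.exp t) :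
    K < t := by
  by_contra hcon
  exact absurd (h.bdd h1 (not_lt.1 hcon)) (not_le.2 h2)

/-- if `m e^τ` is unbounded then `S e^τ` is unbounded -/
theorem Dat.unbdd (h : Dat S τ0) (hub : ∀ K, ∃ τ, τ0 ≤ τ ∧ K ≤ mm S τ * Real.exp τ) (K : ℝ) :
    ∃ τ, τ0 ≤ τ ∧ K ≤ S τ * Real.exp τ := by
  by_contra hcon
  push Not at hcon
  obtain ⟨τ, h1, h2⟩ := hub (K + 1)
  have h3 : mm S τ ≤ K * Real.exp (-(1 * τ)) / 1 := by
    refine h.mm_le_exp one_pos h1 (fun t ht => ?_)
    have h4 := hcon t (le_trans h1 (le_of_lt ht))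
    have h5 : S t = (S t * Real.exp t) * Real.exp (-(1 * t)) := by
      rw [mul_assoc, ← Real.exp_add]
      simp
    rw [h5]
    exact mul_le_mul_of_nonneg_right h4.le (Real.exp_pos _).le
  have h6 : mm S τ * Real.exp τ ≤ K := by
    have h7 : K * Real.exp (-(1 * τ)) / 1 * Real.exp τ = K := by
      rw [div_one, mul_assoc, ← Real.exp_add]
      simp
    rw [← h7]
    exact mul_le_mul_of_nonneg_right h3 (Real.exp_pos _).le
  linarith

theorem rec_le {r t : ℝ} (hr : IsRec S τ0 r) (h0 : τ0 ≤ t) (ht : t ≤ r) :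
    S t ≤ S r * Real.exp (r - t) := by
  have h1 := hr.2 t h0 ht
  have h2 : S t = (S t * Real.exp t) * Real.exp (-t) := by
    rw [mul_assoc, ← Real.exp_add]
    simp
  have h3 : S r * Real.exp (r - t) = (S r * Real.exp r) * Real.exp (-t) := by
    rw [mul_assoc, ← Real.exp_add]
    rfl
  rw [h2, h3]
  exact mul_le_mul_of_nonneg_right h1 (Real.exp_pos _).le

/-- the step of case (I): `a` is the last record before `u`, `τ1` the next one -/
theorem Dat.stepI (h : Dat S τ0) (hub : ∀ K, ∃ τ, τ0 ≤ τ ∧ K ≤ S τ * Real.exp τ)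
    {C1 K0 : ℝ} (hC1 : 0 ≤ C1)
    (hN : ∀ r, IsRec S τ0 r → K0 ≤ S r * Real.exp r → mm S r ≤ C1 * S r)
    {r u : ℝ} (hr : IsRec S τ0 r) (hK : K0 ≤ S r * Real.exp r) (hru : r ≤ u) :
    ∃ a, r ≤ a ∧ a ≤ u ∧ mm S u ≤ (1 + C1) * (S a * Real.exp (-(u - a))) := by
  obtain ⟨a, ha1, ha2, ha3⟩ := exists_argmax h.uscF hr.1 hru
  have ha0 : τ0 ≤ a := le_trans hr.1 ha1
  have hu0 : τ0 ≤ u := le_trans hr.1 hru
  have hra : S r * Real.exp r ≤ S a * Real.exp a := ha3 r le_rfl hru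
  have hSa : 0 ≤ S a := h.nonneg a ha0
  have hR : 0 ≤ S a * Real.exp a := mul_nonneg hSa (Real.exp_pos _).le
  -- the maximum over `[τ0, u]` is attained at `a`
  have hmax : ∀ t, τ0 ≤ t → t ≤ u → S t * Real.exp t ≤ S a * Real.exp a := by
    intro t h1 h2
    by_cases h3 : r ≤ t
    · exact ha3 t h3 h2
    · exact le_trans (hr.2 t h1 (not_le.1 h3).le) hra
  obtain ⟨T, hT0, hT⟩ := hub (max (S τ0 * Real.exp u + 1) (S a * Real.exp a))
  have hTu : u ≤ T := by
    refine (h.late hT0 (lt_of_lt_of_le (lt_add_one _) (le_trans (le_max_left _ _) hT))).le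
  obtain ⟨b, hb1, hb2, hb3⟩ := exists_first (u := u) (R := S a * Real.exp a) h.uscF hu0
    ⟨T, hTu, le_trans (le_max_right _ _) hT⟩
  have hb0 : τ0 ≤ b := le_trans hu0 hb1
  have hlt : ∀ t, u ≤ t → t < b → S t ≤ (S a * Real.exp a) * Real.exp (-(1 * t)) := by
    intro t h1 h2
    have h3 := hb3 t h1 h2
    have h5 : S t = (S t * Real.exp t) * Real.exp (-(1 * t)) := by
      rw [mul_assoc, ← Real.exp_add]
      simp
    rw [h5]
    exact mul_le_mul_of_nonneg_right h3.le (Real.exp_pos _).le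
  -- value at `b`
  have hSb : S b ≤ (S a * Real.exp a) * Real.exp (-(1 * b)) := by
    rcases eq_or_lt_of_le hb1 with h1 | h1
    · have h2 := hmax u hu0 le_rfl
      rw [← h1]
      have h5 : S u = (S u * Real.exp u) * Real.exp (-(1 * u)) := by
        rw [mul_assoc, ← Real.exp_add]
        simp
      rw [h5]
      exact mul_le_mul_of_nonneg_right h2 (Real.exp_pos _).le
    · exact h.end_le hu0 h1 hlt
  have hrecb : IsRec S τ0 b := by
    refine ⟨hb0, fun t h1 h2 => ?_⟩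
    rcases eq_or_lt_of_le h2 with h3 | h3
    · rw [h3]
    · by_cases h4 : u ≤ t
      · exact le_trans (hb3 t h4 h3).le hb2
      · exact le_trans (hmax t h1 (not_le.1 h4).le) hb2
  have hmb : mm S b ≤ C1 * S b := hN b hrecb (le_trans hK (le_trans hra hb2))
  have hint : (∫ t in Ioc u b, S t) ≤ (S a * Real.exp a) * Real.exp (-(1 * u)) / 1 := by
    refine h.int_le_exp one_pos hR hu0 (fun t h1 h2 => ?_)
    rcases eq_or_lt_of_le h2 with h3 | h3
    · rw [h3]; exact hSb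
    · exact hlt t h1.le h3
  refine ⟨a, ha1, ha2, ?_⟩
  rw [h.mm_split hu0 hb1]
  have hbu : (S a * Real.exp a) * Real.exp (-(1 * b)) ≤ (S a * Real.exp a) * Real.exp (-(1 * u)) := by
    refine mul_le_mul_of_nonneg_left (Real.exp_le_exp.2 (by linarith)) hR
  have hfin : (S a * Real.exp a) * Real.exp (-(1 * u)) = S a * Real.exp (-(u - a)) := by
    rw [mul_assoc, ← Real.exp_add]
    congr 2
    ring
  have h9 : C1 * S b ≤ C1 * (S a * Real.exp (-(u - a))) := by
    rw [← hfin]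
    exact mul_le_mul_of_nonneg_left (le_trans hSb hbu) hC1
  rw [div_one, hfin] at hint
  linarith

/-- **Case (I)**: `N = m/S ≤ C1` along the records with value `≥ K0`: no flat piece. -/
theorem Dat.caseI (h : Dat S τ0) (hub : ∀ K, ∃ τ, τ0 ≤ τ ∧ K ≤ S τ * Real.exp τ)
    {C1 K0 : ℝ} (hC1 : 0 ≤ C1)
    (hN : ∀ r, IsRec S τ0 r → K0 ≤ S r * Real.exp r → mm S r ≤ C1 * S r)
    {c : ℝ} (hc : 0 < c) :
    ∃ T, 0 ≤ T ∧ ∀ r, IsRec S τ0 r → K0 ≤ S r * Real.exp r → ∀ T', T ≤ T' →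
      mm S (r + T') ≤ c * S r := by
  set Q := Real.log ((1 + C1) / c) with hQ
  have h1C : 0 < 1 + C1 := by linarith
  set c' := c / (1 + C1) with hc'
  have hc'0 : 0 < c' := div_pos hc h1C
  refine ⟨max Q 0 + C1 / c' + 1, ?_, fun r hr hK T' hT' => ?_⟩
  · have : 0 ≤ C1 / c' := div_nonneg hC1 hc'0.le
    have := le_max_right Q 0
    linarith
  · by_contra hcon
    have hcon := not_le.1 hcon
    have hT0 : 0 ≤ C1 / c' := div_nonneg hC1 hc'0.le
    have hQ0 := le_max_right Q 0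
    have hQ1 := le_max_left Q 0
    have hT'0 : 0 ≤ T' := by linarith
    obtain ⟨a, ha1, ha2, ha3⟩ := h.stepI hub hC1 hN hr hK (u := r + T') (by linarith)
    have ha0 : τ0 ≤ a := le_trans hr.1 ha1
    have hSr : 0 ≤ S r := h.nonneg r hr.1
    have hSa : S a ≤ S r := h.anti hr.1 ha0 ha1
    have hSa0 : 0 ≤ S a := h.nonneg a ha0
    have hlow : c * S r < (1 + C1) * (S a * Real.exp (-(r + T' - a))) := lt_of_lt_of_le hcon ha3
    have hle1 : S a * Real.exp (-(r + T' - a)) ≤ S a := by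
      have : Real.exp (-(r + T' - a)) ≤ 1 := Real.exp_le_one_iff.2 (by linarith)
      nlinarith
    have hle2 : S a * Real.exp (-(r + T' - a)) ≤ S r * Real.exp (-(r + T' - a)) :=
      mul_le_mul_of_nonneg_right hSa (Real.exp_pos _).le
    have hSrpos : 0 < S r := by
      rcases eq_or_lt_of_le hSr with h0 | h0
      · exfalso
        have : S a = 0 := le_antisymm (by rw [h0]; exact hSa) hSa0
        rw [this, ← h0] at hlow
        simp at hlow
      · exact h0
    -- `r + T' - a < Q`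
    have h5 : c < (1 + C1) * Real.exp (-(r + T' - a)) := by
      have : c * S r < ((1 + C1) * Real.exp (-(r + T' - a))) * S r := by
        calc c * S r < (1 + C1) * (S a * Real.exp (-(r + T' - a))) := hlow
          _ ≤ (1 + C1) * (S r * Real.exp (-(r + T' - a))) :=
              mul_le_mul_of_nonneg_left hle2 h1C.le
          _ = _ := by ring
      exact lt_of_mul_lt_mul_right this hSr
    have h6 : Real.exp (r + T' - a) < (1 + C1) / c := by
      rw [lt_div_iff₀ hc]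
      rw [Real.exp_neg] at h5
      have hp := Real.exp_pos (r + T' - a)
      have h7 := mul_lt_mul_of_pos_left h5 hp
      have h8 : Real.exp (r + T' - a) * ((1 + C1) * (Real.exp (r + T' - a))⁻¹) = 1 + C1 := by
        field_simp
      rw [h8] at h7
      exact h7
    have h7 : r + T' - a < Q := by
      rw [hQ]
      exact (Real.lt_log_iff_exp_lt (div_pos h1C hc)).2 h6
    -- `S ≥ c' S r` on `[r, a]`
    have h8 : c' * S r ≤ S a := by
      rw [hc', div_mul_eq_mul_div, div_le_iff₀ h1C]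
      nlinarith
    have h9 : (a - r) * S a ≤ mm S r := by
      rw [h.mm_split hr.1 ha1]
      have := h.const_le_int hr.1 ha1
      have := h.mm_nonneg ha0
      linarith
    have h10 := hN r hr hK
    have h11 : (a - r) * (c' * S r) ≤ (a - r) * S a :=
      mul_le_mul_of_nonneg_left h8 (by linarith)
    have h12 : ((a - r) * c') * S r ≤ C1 * S r := by
      calc ((a - r) * c') * S r = (a - r) * (c' * S r) := by ring
        _ ≤ _ := h11
        _ ≤ _ := h9
        _ ≤ _ := h10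
    have h13 : (a - r) * c' ≤ C1 := le_of_mul_le_mul_right h12 hSrpos
    have h14 : a - r ≤ C1 / c' := (le_div_iff₀ hc'0).2 h13
    linarith

/-! ### Case (II) -/

/-- records of `G = S e^{τ/2}` relative to `[τs, ·]` -/
def IsRec2 (S : ℝ → ℝ) (τs τ : ℝ) : Prop :=
  τs ≤ τ ∧ ∀ t, τs ≤ t → t ≤ τ → S t * Real.exp (t / 2) ≤ S τ * Real.exp (τ / 2)

theorem rec2_le {τs r t : ℝ} (hr : IsRec2 S τs r) (h0 : τs ≤ t) (ht : t ≤ r) :
    S t ≤ S r * Real.exp ((r - t) / 2) := by
  have h1 := hr.2 t h0 ht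
  have h2 : S t = (S t * Real.exp (t / 2)) * Real.exp (-(t / 2)) := by
    rw [mul_assoc, ← Real.exp_add]
    simp
  have h3 : S r * Real.exp ((r - t) / 2) = (S r * Real.exp (r / 2)) * Real.exp (-(t / 2)) := by
    rw [mul_assoc, ← Real.exp_add]
    congr 2
    ring
  rw [h2, h3]
  exact mul_le_mul_of_nonneg_right h1 (Real.exp_pos _).le

theorem half_eq (x : ℝ) {t : ℝ} : x = (x * Real.exp (t / 2)) * Real.exp (-(1 / 2 * t)) := by
  rw [mul_assoc, ← Real.exp_add]
  have : t / 2 + -(1 / 2 * t) = 0 := by ring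
  rw [this]
  simp

/-- one step from a record of `G` to the next one -/
theorem Dat.stepII (h : Dat S τ0) {τs τ A : ℝ} (hs : τ0 ≤ τs) (hA : 0 ≤ A) (hr : IsRec2 S τs τ) :
    mm S τ ≤ (2 * A + 2) * S τ ∨
    ∃ t, τ + 2 * A ≤ t ∧ IsRec2 S τs t ∧ mm S τ ≤ (2 * A + 2) * S τ + mm S t := by
  have hτ0 : τ0 ≤ τ := le_trans hs hr.1
  have hSτ : 0 ≤ S τ := h.nonneg τ hτ0
  set u := τ + 2 * A with hu
  have hτu : τ ≤ u := by linarith
  have hu0 : τ0 ≤ u := le_trans hτ0 hτu
  have hsu : τs ≤ u := le_trans hr.1 hτu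
  obtain ⟨a, ha1, ha2, ha3⟩ := exists_argmax h.uscG hs hsu
  have ha0 : τ0 ≤ a := le_trans hs ha1
  set R := S a * Real.exp (a / 2) with hR
  have hR0 : 0 ≤ R := mul_nonneg (h.nonneg a ha0) (Real.exp_pos _).le
  -- `R ≤ S τ e^{u/2}`
  have hRle : R ≤ S τ * Real.exp (u / 2) := by
    by_cases h1 : a ≤ τ
    · refine le_trans (hr.2 a ha1 h1) (mul_le_mul_of_nonneg_left (Real.exp_le_exp.2 ?_) hSτ)
      linarith
    · have h1 := not_le.1 h1
      refine mul_le_mul (h.anti hτ0 ha0 h1.le) (Real.exp_le_exp.2 (by linarith))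
        (Real.exp_pos _).le hSτ
  have hRu : R * Real.exp (-(1 / 2 * u)) / (1 / 2) ≤ 2 * S τ := by
    have h1 : S τ = (S τ * Real.exp (u / 2)) * Real.exp (-(1 / 2 * u)) := half_eq _
    have h2 : R * Real.exp (-(1 / 2 * u)) ≤ S τ := by
      calc R * Real.exp (-(1 / 2 * u)) ≤ (S τ * Real.exp (u / 2)) * Real.exp (-(1 / 2 * u)) :=
            mul_le_mul_of_nonneg_right hRle (Real.exp_pos _).le
        _ = S τ := h1.symm
    linarith
  have hfirst : (∫ t in Ioc τ u, S t) ≤ 2 * A * S τ := by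
    have := h.int_le_const hτ0 hτu
    have h2 : u - τ = 2 * A := by rw [hu]; ring
    rw [h2] at this
    exact this
  by_cases hne : ∃ t, u ≤ t ∧ R ≤ S t * Real.exp (t / 2)
  · right
    obtain ⟨b, hb1, hb2, hb3⟩ := exists_first (u := u) (R := R) h.uscG hu0 hne
    have hb0 : τ0 ≤ b := le_trans hu0 hb1
    have hlt : ∀ t, u ≤ t → t < b → S t ≤ R * Real.exp (-(1 / 2 * t)) := by
      intro t h1 h2
      have h3 : S t * Real.exp (t / 2) < R := hb3 t h1 h2
      rw [half_eq (S t) (t := t)]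
      exact mul_le_mul_of_nonneg_right h3.le (Real.exp_pos _).le
    have hSb : S b ≤ R * Real.exp (-(1 / 2 * b)) := by
      rcases eq_or_lt_of_le hb1 with h1 | h1
      · have h2 := ha3 u hsu le_rfl
        rw [← h1, half_eq (S u) (t := u)]
        exact mul_le_mul_of_nonneg_right h2 (Real.exp_pos _).le
      · exact h.end_le hu0 h1 hlt
    have hint : (∫ t in Ioc u b, S t) ≤ R * Real.exp (-(1 / 2 * u)) / (1 / 2) := by
      refine h.int_le_exp (by norm_num) hR0 hu0 (fun t h1 h2 => ?_)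
      rcases eq_or_lt_of_le h2 with h3 | h3
      · rw [h3]; exact hSb
      · exact hlt t h1.le h3
    refine ⟨b, hb1, ⟨le_trans hsu hb1, fun t h1 h2 => ?_⟩, ?_⟩
    · rcases eq_or_lt_of_le h2 with h3 | h3
      · rw [h3]
      · by_cases h4 : u ≤ t
        · exact le_trans (hb3 t h4 h3).le hb2
        · exact le_trans (ha3 t h1 (not_le.1 h4).le) hb2
    · rw [h.mm_split hτ0 hτu, h.mm_split hu0 hb1]
      linarith
  · left
    push Not at hne
    have htail : mm S u ≤ R * Real.exp (-(1 / 2 * u)) / (1 / 2) := by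
      refine h.mm_le_exp (by norm_num) hu0 (fun t h1 => ?_)
      have h3 := hne t h1.le
      rw [half_eq (S t) (t := t)]
      exact mul_le_mul_of_nonneg_right h3.le (Real.exp_pos _).le
    rw [h.mm_split hτ0 hτu]
    linarith

/-- existence of a slow window -/
theorem Dat.slow (h : Dat S τ0) {τs τ2 A c : ℝ} (hs : τ0 ≤ τs) (hA : 0 < A) (hc : 0 < c)
    (hc1 : c ≤ 1) (hr : IsRec2 S τs τ2) (hbig : (2 * A + 2) / c * S τ2 < mm S τ2) :
    ∃ τ, τ2 ≤ τ ∧ IsRec2 S τs τ ∧ (1 - c) * S τ ≤ S (τ + 2 * A) := by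
  by_contra hcon
  push Not at hcon
  have hB : 0 ≤ (2 * A + 2) / c := by positivity
  have key : ∀ n : ℕ, ∀ τ, τ2 ≤ τ → IsRec2 S τs τ →
      mm S τ ≤ (2 * A + 2) / c * S τ + mm S (τ + 2 * A * n) := by
    intro n
    induction n with
    | zero =>
      intro τ h1 h2
      have hτ0 : τ0 ≤ τ := le_trans hs h2.1
      have := mul_nonneg hB (h.nonneg τ hτ0)
      simp
      exact this
    | succ n ih =>
      intro τ h1 h2
      have hτ0 : τ0 ≤ τ := le_trans hs h2.1
      have hSτ := h.nonneg τ hτ0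
      have hle : (2 * A + 2) * S τ ≤ (2 * A + 2) / c * S τ := by
        refine mul_le_mul_of_nonneg_right ?_ hSτ
        rw [le_div_iff₀ hc]
        nlinarith
      rcases h.stepII hs hA.le h2 with h3 | ⟨t, h3, h4, h5⟩
      · have hn : τ0 ≤ τ + 2 * A * ((n + 1 : ℕ) : ℝ) := by
          have : 0 ≤ 2 * A * ((n + 1 : ℕ) : ℝ) := by positivity
          linarith
        have := h.mm_nonneg hn
        linarith
      · have ht0 : τ0 ≤ t := le_trans hs h4.1
        have h6 := ih t (by linarith) h4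
        have hu0 : τ0 ≤ τ + 2 * A := by linarith
        have h7 : S t ≤ S (τ + 2 * A) := h.anti hu0 ht0 h3
        have h8 : S (τ + 2 * A) < (1 - c) * S τ := hcon τ h1 h2
        have h9 : (2 * A + 2) / c * S t ≤ (2 * A + 2) / c * ((1 - c) * S τ) :=
          mul_le_mul_of_nonneg_left (by linarith) hB
        have h10 : (2 * A + 2) * S τ + (2 * A + 2) / c * ((1 - c) * S τ)
            = (2 * A + 2) / c * S τ := by
          field_simp
          ring
        have h11 : mm S (t + 2 * A * n) ≤ mm S (τ + 2 * A * ((n + 1 : ℕ) : ℝ)) := by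
          refine h.mm_anti ?_ ?_
          · have : 0 ≤ 2 * A * ((n + 1 : ℕ) : ℝ) := by positivity
            linarith
          · push_cast
            linarith
        linarith
  have hτ0 : τ0 ≤ τ2 := le_trans hs hr.1
  have hlim : Tendsto (fun n : ℕ => (2 * A + 2) / c * S τ2 + mm S (τ2 + 2 * A * n)) atTop
      (𝓝 ((2 * A + 2) / c * S τ2 + 0)) := by
    refine tendsto_const_nhds.add (h.mm_tendsto.comp ?_)
    refine tendsto_atTop_add_const_left _ _ ?_
    exact Tendsto.const_mul_atTop (by positivity) tendsto_natCast_atTop_atTop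
  have := ge_of_tendsto' hlim (fun n => key n τ2 le_rfl hr)
  linarith

set_option maxHeartbeats 1000000 in
/-- **Case (II)**: `N = m/S` unbounded along (arbitrarily big) records: slow windows. -/
theorem Dat.caseII (h : Dat S τ0)
    (hN : ∀ C1 K0 : ℝ, ∃ r, IsRec S τ0 r ∧ K0 ≤ S r * Real.exp r ∧ C1 * S r < mm S r)
    {A ε : ℝ} (hA : 0 < A) (hε : 0 < ε) (K : ℝ) :
    ∃ τ, K ≤ τ ∧ τ0 ≤ τ - A ∧ 0 < S τ ∧ K ≤ S τ * Real.exp τ ∧
      (∀ t, |t - τ| ≤ A → |S t - S τ| ≤ ε * S τ) ∧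
      (∀ t, τ0 ≤ t → S t ≤ (1 + ε) * S τ * max 1 (Real.exp (τ - t))) ∧
      K * mm S τ ≤ (S τ) ^ 2 * Real.exp τ := by
  set c := ε / (1 + ε) with hc
  have hε1 : 0 < 1 + ε := by linarith
  have hc0 : 0 < c := div_pos hε hε1
  have hc1 : 1 - c = 1 / (1 + ε) := by rw [hc]; field_simp; ring
  have hc1' : c < 1 := by
    have : 0 < 1 / (1 + ε) := by positivity
    linarith
  set B := (2 * A + 2) / c with hB
  have hB0 : 0 < B := by positivity
  have hB1 : 1 ≤ B := by
    rw [hB, le_div_iff₀ hc0]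
    linarith
  -- the big constant
  set P := max K 0 with hP
  have hP0 : 0 ≤ P := le_max_right _ _
  have hKP : K ≤ P := le_max_left _ _
  set K0 := S τ0 * Real.exp P + 1 + 16 * (P + 1) * (1 + ε) ^ 2 with hK0
  have hS0 : 0 ≤ S τ0 := h.nonneg _ le_rfl
  have hK0pos : 0 < K0 := by positivity
  obtain ⟨τs, hrec, hbig, hNs⟩ := hN (2 * B) K0
  have hs0 : τ0 ≤ τs := hrec.1
  have hSs : 0 ≤ S τs := h.nonneg _ hs0
  have hSspos : 0 < S τs := by
    have : 0 < S τs * Real.exp τs := lt_of_lt_of_le hK0pos hbig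
    exact (pos_iff_pos_of_mul_pos this).2 (Real.exp_pos _)
  have hlate : P < τs := by
    refine h.late hs0 (lt_of_lt_of_le ?_ hbig)
    have : 0 < 16 * (P + 1) * (1 + ε) ^ 2 := by positivity
    linarith
  set ms := mm S τs with hms
  have hmspos : 0 < ms := lt_trans (by positivity) hNs
  -- `g = √(Q ms)`
  set g := ms * Real.exp (τs / 2) / 4 with hg
  have hg0 : 0 < g := by positivity
  have hgint : g * Real.exp (-(1 / 2 * τs)) / (1 / 2) = ms / 2 := by
    have : ms = (ms * Real.exp (τs / 2)) * Real.exp (-(1 / 2 * τs)) := half_eq _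
    rw [hg]
    linarith
  have hne : ∃ t, τs ≤ t ∧ g ≤ S t * Real.exp (t / 2) := by
    by_contra hcon
    push Not at hcon
    have h1 : mm S τs ≤ g * Real.exp (-(1 / 2 * τs)) / (1 / 2) := by
      refine h.mm_le_exp (by norm_num) hs0 (fun t h1 => ?_)
      have h3 := hcon t h1.le
      rw [half_eq (S t) (t := t)]
      exact mul_le_mul_of_nonneg_right h3.le (Real.exp_pos _).le
    rw [hgint] at h1
    linarith
  obtain ⟨τ2, h21, h22, h23⟩ := exists_first (u := τs) (R := g) h.uscG hs0 hne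
  have h20 : τ0 ≤ τ2 := le_trans hs0 h21
  have hm2 : ms / 2 ≤ mm S τ2 := by
    have hlt : ∀ t, τs ≤ t → t < τ2 → S t ≤ g * Real.exp (-(1 / 2 * t)) := by
      intro t h1 h2
      have h3 : S t * Real.exp (t / 2) < g := h23 t h1 h2
      rw [half_eq (S t) (t := t)]
      exact mul_le_mul_of_nonneg_right h3.le (Real.exp_pos _).le
    rcases eq_or_lt_of_le h21 with h1 | h1
    · rw [← h1]
      linarith
    · have hend := h.end_le hs0 h1 hlt
      have hint : (∫ t in Ioc τs τ2, S t) ≤ g * Real.exp (-(1 / 2 * τs)) / (1 / 2) := by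
        refine h.int_le_exp (by norm_num) hg0.le hs0 (fun t h1 h2 => ?_)
        rcases eq_or_lt_of_le h2 with h3 | h3
        · rw [h3]; exact hend
        · exact hlt t h1.le h3
      rw [hgint] at hint
      have := h.mm_split hs0 h21
      linarith
  have hr2 : IsRec2 S τs τ2 := by
    refine ⟨h21, fun t h1 h2 => ?_⟩
    rcases eq_or_lt_of_le h2 with h3 | h3
    · rw [h3]
    · exact le_trans (h23 t h1 h3).le h22
  have hbig2 : (2 * A + 2) / c * S τ2 < mm S τ2 := by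
    have h1 : S τ2 ≤ S τs := h.anti hs0 h20 h21
    have h2 : B * S τ2 ≤ B * S τs := mul_le_mul_of_nonneg_left h1 hB0.le
    have h3 : 2 * B * S τs < ms := hNs
    have : (2 * A + 2) / c = B := rfl
    rw [this]
    linarith
  obtain ⟨τ, h31, h32, h33⟩ := h.slow hs0 hA hc0 hc1'.le hr2 hbig2
  have hτ0 : τ0 ≤ τ := le_trans h20 h31
  have hSτ : 0 ≤ S τ := h.nonneg _ hτ0
  have hτA : τ0 ≤ τ + A := by linarith
  have hτ2A : τ0 ≤ τ + 2 * A := by linarith
  have hlow : ∀ t, τ ≤ t → t ≤ τ + 2 * A → (1 - c) * S τ ≤ S t ∧ S t ≤ S τ := by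
    intro t h1 h2
    have ht0 : τ0 ≤ t := le_trans hτ0 h1
    exact ⟨le_trans h33 (h.anti ht0 hτ2A h2), h.anti hτ0 ht0 h1⟩
  have hmid := hlow (τ + A) (by linarith) (by linarith)
  -- `S τ ≤ (1+ε) S τ'`
  have hup : S τ ≤ (1 + ε) * S (τ + A) := by
    have h1 := hmid.1
    rw [hc1] at h1
    have h2 : (1 + ε) * (1 / (1 + ε) * S τ) ≤ (1 + ε) * S (τ + A) :=
      mul_le_mul_of_nonneg_left h1 hε1.le
    have h3 : (1 + ε) * (1 / (1 + ε) * S τ) = S τ := by field_simp
    linarith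
  -- positivity
  have hG : g ≤ S τ * Real.exp (τ / 2) := le_trans h22 (h32.2 τ2 h21 h31)
  have hSτpos : 0 < S τ := by
    have : 0 < S τ * Real.exp (τ / 2) := lt_of_lt_of_le hg0 hG
    exact (pos_iff_pos_of_mul_pos this).2 (Real.exp_pos _)
  have hSApos : 0 < S (τ + A) := by
    have h1 : 0 < (1 + ε) * S (τ + A) := lt_of_lt_of_le hSτpos hup
    exact (pos_iff_pos_of_mul_pos h1).1 hε1
  -- estimate of `S² e^τ`
  have hsq : (P + 1) * ms ≤ (S (τ + A)) ^ 2 * Real.exp (τ + A) := by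
    have h1 : g ^ 2 ≤ (S τ * Real.exp (τ / 2)) ^ 2 := pow_le_pow_left₀ hg0.le hG 2
    have h2 : (S τ * Real.exp (τ / 2)) ^ 2 = (S τ) ^ 2 * Real.exp τ := by
      rw [mul_pow, ← Real.exp_nat_mul]
      congr 2
      push_cast
      ring
    have h3 : g ^ 2 = ms ^ 2 * Real.exp τs / 16 := by
      rw [hg, div_pow, mul_pow, ← Real.exp_nat_mul]
      have : ((2 : ℕ) : ℝ) * (τs / 2) = τs := by push_cast; ring
      rw [this]
      norm_num
    have h4 : S τs * Real.exp τs ≤ ms * Real.exp τs := by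
      refine mul_le_mul_of_nonneg_right ?_ (Real.exp_pos _).le
      have : 1 * S τs ≤ 2 * B * S τs := mul_le_mul_of_nonneg_right (by linarith) hSs
      linarith
    have h5 : 16 * (P + 1) * (1 + ε) ^ 2 ≤ ms * Real.exp τs := by
      have : 0 ≤ S τ0 * Real.exp P := by positivity
      linarith
    have h6 : (P + 1) * (1 + ε) ^ 2 * ms ≤ g ^ 2 := by
      rw [h3]
      have := mul_le_mul_of_nonneg_right h5 hmspos.le
      nlinarith
    have h7 : (S τ) ^ 2 ≤ (1 + ε) ^ 2 * (S (τ + A)) ^ 2 := by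
      have := pow_le_pow_left₀ hSτ hup 2
      rwa [mul_pow] at this
    have h8 : Real.exp τ ≤ Real.exp (τ + A) := Real.exp_le_exp.2 (by linarith)
    have h9 : (S τ) ^ 2 * Real.exp τ ≤ ((1 + ε) ^ 2 * (S (τ + A)) ^ 2) * Real.exp (τ + A) :=
      mul_le_mul h7 h8 (Real.exp_pos _).le (by positivity)
    have h10 : (1 + ε) ^ 2 * ((P + 1) * ms) ≤ (1 + ε) ^ 2 * ((S (τ + A)) ^ 2 * Real.exp (τ + A)) := by
      calc (1 + ε) ^ 2 * ((P + 1) * ms) = (P + 1) * (1 + ε) ^ 2 * ms := by ring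
        _ ≤ g ^ 2 := h6
        _ ≤ _ := h1
        _ = _ := h2
        _ ≤ _ := h9
        _ = _ := by ring
    exact le_of_mul_le_mul_left h10 (by positivity)
  refine ⟨τ + A, ?_, by linarith, hSApos, ?_, ?_, ?_, ?_⟩
  · linarith [h32.1]
  · -- `K ≤ S e^τ` : from `(P+1) m ≤ S² e^τ` and `S ≤ m`?  use the record inequality instead
    -- `S τs e^{τs/2} ≤ S τ e^{τ/2}`
    have h1 : S τs * Real.exp (τs / 2) ≤ S τ * Real.exp (τ / 2) := h32.2 τs le_rfl h32.1
    have h2 : S τs * Real.exp τs ≤ S τ * Real.exp τ := by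
      have e1 : S τs * Real.exp τs = (S τs * Real.exp (τs / 2)) * Real.exp (τs / 2) := by
        rw [mul_assoc, ← Real.exp_add]; congr 2; ring
      have e2 : S τ * Real.exp τ = (S τ * Real.exp (τ / 2)) * Real.exp (τ / 2) := by
        rw [mul_assoc, ← Real.exp_add]; congr 2; ring
      rw [e1, e2]
      exact mul_le_mul h1 (Real.exp_le_exp.2 (by linarith [h32.1])) (Real.exp_pos _).le
        (by positivity)
    have h3 : S τ * Real.exp τ ≤ (1 + ε) * (S (τ + A) * Real.exp (τ + A)) := by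
      calc S τ * Real.exp τ ≤ ((1 + ε) * S (τ + A)) * Real.exp (τ + A) :=
            mul_le_mul hup (Real.exp_le_exp.2 (by linarith)) (Real.exp_pos _).le (by positivity)
        _ = _ := by ring
    have h4 : (1 + ε) * P ≤ (1 + ε) * (S (τ + A) * Real.exp (τ + A)) := by
      have h5 : (1 + ε) * P ≤ 16 * (P + 1) * (1 + ε) ^ 2 := by
        have e1 : (1 + ε) * 1 ≤ (1 + ε) * (1 + ε) :=
          mul_le_mul_of_nonneg_left (by linarith) hε1.le
        have e2 : (1 + ε) ≤ (1 + ε) ^ 2 := by rw [sq]; linarith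
        have e3 : P ≤ 16 * (P + 1) := by linarith
        calc (1 + ε) * P ≤ (1 + ε) ^ 2 * (16 * (P + 1)) :=
              mul_le_mul e2 e3 hP0 (by positivity)
          _ = _ := by ring
      have : 0 ≤ S τ0 * Real.exp P := by positivity
      linarith
    exact le_trans hKP (le_of_mul_le_mul_left h4 hε1)
  · intro t ht
    have h1 := abs_le.1 ht
    have h2 := hlow t (by linarith) (by linarith)
    have h3 : (1 - c) * S τ = S τ - c * S τ := by ring
    have h4 : c * S τ ≤ ε * S (τ + A) := by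
      have h5 : c * S τ ≤ c * ((1 + ε) * S (τ + A)) := mul_le_mul_of_nonneg_left hup hc0.le
      have h6 : c * ((1 + ε) * S (τ + A)) = ε * S (τ + A) := by
        rw [hc]; field_simp
      linarith
    rw [abs_le]
    constructor
    · linarith [h2.1, hmid.2]
    · linarith [h2.2, hmid.1]
  · intro t ht
    have hmx1 : (1 : ℝ) ≤ max 1 (Real.exp (τ + A - t)) := le_max_left _ _
    have hmx2 : Real.exp (τ + A - t) ≤ max 1 (Real.exp (τ + A - t)) := le_max_right _ _
    have hpos : 0 ≤ (1 + ε) * S (τ + A) := by positivity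
    by_cases h1 : τ ≤ t
    · calc S t ≤ S τ := h.anti hτ0 ht h1
        _ ≤ (1 + ε) * S (τ + A) * 1 := by linarith
        _ ≤ _ := mul_le_mul_of_nonneg_left hmx1 hpos
    · have h1 := not_le.1 h1
      have hmain : S t ≤ S τ * Real.exp (τ - t) := by
        by_cases h2 : τs ≤ t
        · refine le_trans (rec2_le h32 h2 h1.le) (mul_le_mul_of_nonneg_left
            (Real.exp_le_exp.2 (by linarith)) hSτ)
        · have h2 := not_le.1 h2
          have h3 := rec_le hrec ht h2.le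
          have h4 := rec2_le h32 le_rfl h32.1
          calc S t ≤ S τs * Real.exp (τs - t) := h3
            _ ≤ (S τ * Real.exp ((τ - τs) / 2)) * Real.exp (τs - t) :=
                mul_le_mul_of_nonneg_right h4 (Real.exp_pos _).le
            _ = S τ * Real.exp ((τ - τs) / 2 + (τs - t)) := by rw [mul_assoc, ← Real.exp_add]
            _ ≤ S τ * Real.exp (τ - t) :=
                mul_le_mul_of_nonneg_left (Real.exp_le_exp.2 (by linarith [h32.1])) hSτ
      calc S t ≤ S τ * Real.exp (τ - t) := hmain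
        _ ≤ ((1 + ε) * S (τ + A)) * Real.exp (τ + A - t) :=
            mul_le_mul hup (Real.exp_le_exp.2 (by linarith)) (Real.exp_pos _).le hpos
        _ ≤ _ := mul_le_mul_of_nonneg_left hmx2 hpos
  · have h1 : mm S (τ + A) ≤ ms := h.mm_anti hs0 (by linarith [h32.1])
    have h2 : 0 ≤ mm S (τ + A) := h.mm_nonneg hτA
    have h3 : K * mm S (τ + A) ≤ P * mm S (τ + A) := mul_le_mul_of_nonneg_right hKP h2
    have h4 : P * mm S (τ + A) ≤ P * ms := mul_le_mul_of_nonneg_left h1 hP0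
    linarith

/-- **The dichotomy** (helper672 #22957 (A)). -/
theorem Dat.dichotomy (h : Dat S τ0) (hub : ∀ K, ∃ τ, τ0 ≤ τ ∧ K ≤ mm S τ * Real.exp τ) :
    -- (I) bounded `N` along the records and no flat piece
    ((∃ C1 K0 : ℝ, 0 ≤ C1 ∧ (∀ r, IsRec S τ0 r → K0 ≤ S r * Real.exp r → mm S r ≤ C1 * S r) ∧
      (∀ c : ℝ, 0 < c → ∃ T, 0 ≤ T ∧ ∀ r, IsRec S τ0 r → K0 ≤ S r * Real.exp r → ∀ T', T ≤ T' →
        mm S (r + T') ≤ c * S r)) ∧
      (∀ K, ∃ r, K ≤ r ∧ K ≤ S r * Real.exp r ∧ IsRec S τ0 r)) ∨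
    -- (II) slow windows
    (∀ A ε K : ℝ, 0 < A → 0 < ε → ∃ τ, K ≤ τ ∧ τ0 ≤ τ - A ∧ 0 < S τ ∧ K ≤ S τ * Real.exp τ ∧
      (∀ t, |t - τ| ≤ A → |S t - S τ| ≤ ε * S τ) ∧
      (∀ t, τ0 ≤ t → S t ≤ (1 + ε) * S τ * max 1 (Real.exp (τ - t))) ∧
      K * mm S τ ≤ (S τ) ^ 2 * Real.exp τ) := by
  have hubS := h.unbdd hub
  by_cases hI : ∃ C1 K0 : ℝ, ∀ r, IsRec S τ0 r → K0 ≤ S r * Real.exp r → mm S r ≤ C1 * S r
  · left
    obtain ⟨C1, K0, hCK⟩ := hI
    have hN : ∀ r, IsRec S τ0 r → K0 ≤ S r * Real.exp r → mm S r ≤ max C1 0 * S r := by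
      intro r h1 h2
      exact le_trans (hCK r h1 h2) (mul_le_mul_of_nonneg_right (le_max_left _ _) (h.nonneg r h1.1))
    exact ⟨⟨max C1 0, K0, le_max_right _ _, hN,
      fun c hc => h.caseI hubS (le_max_right _ _) hN hc⟩, fun K => h.exists_rec hubS K⟩
  · right
    push Not at hI
    intro A ε K hA hε
    refine h.caseII (fun C1 K0 => ?_) hA hε K
    obtain ⟨r, h1, h2, h3⟩ := hI C1 K0
    exact ⟨r, h1, h2, h3⟩

end Crest.Agent.R102.Dich583
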