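import Crest.Agent.R102.DFin_781
import Crest.Agent.R102.RATDefs_926
import Crest.Agent.R102.RATDefs2_926

/-!
# Row 102, [H3], (RAT): D-DICH in the form of `RATDefs2_926` (helper781)
-/

set_option autoImplicit false

noncomputable section

namespace Crest.Agent.R102.Free781

open Set Filter Topology TopologicalSpace Metric Crest.Agent.R102.H3 Crest.Agent.R102.RAT

/-- **D-DICH**: if `g` is not differentially transcendental near `c₀` then, on arbitrarily small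
discs arbitrarily near `c₀`, `g` is of finite differential type; the elements of the algebra are
quotients of polynomials in `z, g, g', …` -/
theorem dich {g : ℂ → ℂ} {c₀ : ℂ} (hg : AnalyticAt ℂ g c₀) (h1 : deriv g c₀ ≠ 0)
    (h2 : deriv (deriv g) c₀ ≠ 0) (hfin : ¬ DiffTr g c₀) {δ : ℝ} (hδ : 0 < δ) :
    ∃ c₁ r, 0 < r ∧ r < δ ∧ dist c₁ c₀ < δ ∧
      ∃ (A : Subalgebra ℂ (Hol (bO c₁ r))) (G : Hol (bO c₁ r)), FT g c₁ r A G ∧
        ∀ a ∈ A, Quo (bO c₁ r) G a := by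
  have hev : ∀ᶠ c in 𝓝 c₀, AnalyticAt ℂ g c ∧ deriv g c ≠ 0 ∧ deriv (deriv g) c ≠ 0 :=
    hg.eventually_analyticAt.and ((hg.deriv.continuousAt.eventually_ne h1).and
      (hg.deriv.deriv.continuousAt.eventually_ne h2))
  obtain ⟨r, hr, hrs⟩ := Metric.eventually_nhds_iff_ball.1 hev
  obtain ⟨c₁, ρ, a1, a2, a3, hs, A, a4, a5, a6, a7, a8, a9, a10⟩ :=
    exists_A0' (g := g) (c₀ := c₀) hr (fun c hc => (hrs c hc).1) (fun c hc => (hrs c hc).2.1)
      (fun c hc => (hrs c hc).2.2) hfin hδ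
  exact ⟨c₁, ρ, a1, a2, a3, A, _, ⟨a1, fun z => rfl, a4, a5, a6, a7, a8, a9⟩, a10⟩

section LL

variable {M : Type*} [Field M] [Algebra ℂ M] {N : ℕ} {b : ℕ → M} {x : ℕ → ℕ → M} {E k : ℕ → M}
  {g : ℂ → ℂ} {c₀ : ℂ} {r : ℝ} {A : Subalgebra ℂ (Hol (bO c₀ r))} {G : Hol (bO c₀ r)}

/-- the elements `a (b_j)`, `a ∈ A`, lie in `LL` -/
theorem mem_LL (hq : ∀ a ∈ A, Quo (bO c₀ r) G a) (φ : ℕ → Hol (bO c₀ r) →ₐ[ℂ] M)
    (hz : ∀ j < N, φ j (zH _) = b j) (hx : ∀ j < N, ∀ s, φ j ((DH _)^[s] G) = x j s)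
    {j : ℕ} (hj : j < N) {a : Hol (bO c₀ r)} (ha : a ∈ A) : φ j a ∈ LL N b x E k := by
  obtain ⟨P, hP, Q, hQ, hu, h⟩ := hq a ha
  have h1 : ∀ f ∈ Algebra.adjoin ℂ (jets (bO c₀ r) G), φ j f ∈ LL N b x E k := by
    intro f hf
    have h2 : φ j f ∈ (Algebra.adjoin ℂ (jets (bO c₀ r) G)).map (φ j) := ⟨f, hf, rfl⟩
    rw [AlgHom.map_adjoin] at h2
    refine (Algebra.adjoin_le (S := (LL N b x E k).toSubalgebra) ?_) h2
    rintro _ ⟨y, hy, rfl⟩
    rcases hy with rfl | ⟨i, rfl⟩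
    · rw [hz j hj]
      exact IntermediateField.subset_adjoin _ _ (Or.inr ⟨j, hj, Or.inl rfl⟩)
    · change φ j ((DH _)^[i] G) ∈ _
      rw [hx j hj i]
      exact IntermediateField.subset_adjoin _ _ (Or.inr ⟨j, hj, Or.inr ⟨i, rfl⟩⟩)
  have h3 : φ j Q ≠ 0 := (hu.map (φ j)).ne_zero
  have h4 : φ j a = φ j P * (φ j Q)⁻¹ := by
    rw [eq_mul_inv_iff_mul_eq₀ h3, ← map_mul, h]
  rw [h4]
  exact mul_mem (h1 P hP) (inv_mem (h1 Q hQ))

/-- the iterated derivatives of `G` lie in `A` -/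
theorem FT.iter_mem (h : FT g c₀ r A G) (s : ℕ) : (DH _)^[s] G ∈ A := by
  induction s with
  | zero => exact h.G_mem
  | succ s ih => rw [Function.iterate_succ_apply']; exact h.stable _ ih

/-- generators of `LL` -/
theorem LL_eq (h : FT g c₀ r A G) (hq : ∀ a ∈ A, Quo (bO c₀ r) G a)
    (φ : ℕ → Hol (bO c₀ r) →ₐ[ℂ] M)
    (hz : ∀ j < N, φ j (zH _) = b j) (hx : ∀ j < N, ∀ s, φ j ((DH _)^[s] G) = x j s)
    {T : Set (Hol (bO c₀ r))} (hT : Algebra.adjoin ℂ T = A) :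
    LL N b x E k = IntermediateField.adjoin ℂ ({E 0, k 0} ∪ {y | ∃ j < N, ∃ t ∈ T, y = φ j t}) := by
  apply le_antisymm
  · refine IntermediateField.adjoin_le_iff.2 ?_
    have key : ∀ j < N, ∀ a ∈ A, φ j a ∈ IntermediateField.adjoin ℂ
        ({E 0, k 0} ∪ {y | ∃ j < N, ∃ t ∈ T, y = φ j t}) := by
      intro j hj a ha
      have h2 : φ j a ∈ (Algebra.adjoin ℂ T).map (φ j) := ⟨a, hT ▸ ha, rfl⟩
      rw [AlgHom.map_adjoin] at h2
      refine (Algebra.adjoin_le (S := (IntermediateField.adjoin ℂ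
        ({E 0, k 0} ∪ {y | ∃ j < N, ∃ t ∈ T, y = φ j t})).toSubalgebra) ?_) h2
      rintro _ ⟨t, ht, rfl⟩
      exact IntermediateField.subset_adjoin _ _ (Or.inr ⟨j, hj, t, ht, rfl⟩)
    rintro y (hy | ⟨j, hj, rfl | ⟨s, rfl⟩⟩)
    · exact IntermediateField.subset_adjoin _ _ (Or.inl hy)
    · rw [← hz j hj]
      exact key j hj _ h.z_mem
    · rw [← hx j hj s]
      exact key j hj _ (FT.iter_mem h s)
  · refine IntermediateField.adjoin_le_iff.2 ?_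
    rintro y (hy | ⟨j, hj, t, ht, rfl⟩)
    · exact IntermediateField.subset_adjoin _ _ (Or.inl hy)
    · exact mem_LL hq φ hz hx hj (hT ▸ Algebra.subset_adjoin ht)

/-- `LL` is finitely generated -/
theorem LL_fg (h : FT g c₀ r A G) (hq : ∀ a ∈ A, Quo (bO c₀ r) G a)
    (φ : ℕ → Hol (bO c₀ r) →ₐ[ℂ] M)
    (hz : ∀ j < N, φ j (zH _) = b j) (hx : ∀ j < N, ∀ s, φ j ((DH _)^[s] G) = x j s) :
    (LL N b x E k).FG := by
  classical
  obtain ⟨T, hT⟩ := h.fg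
  rw [LL_eq h hq φ hz hx hT]
  have h1 : ({E 0, k 0} ∪ {y | ∃ j < N, ∃ t ∈ (T : Set (Hol (bO c₀ r))), y = φ j t} : Set M) =
      ((({E 0, k 0} : Finset M) ∪ ((Finset.range N) ×ˢ T).image fun p => φ p.1 p.2 :
        Finset M) : Set M) := by
    ext y
    simp only [Finset.coe_union, Finset.coe_insert, Finset.coe_singleton, Finset.coe_image,
      Finset.coe_product, Finset.coe_range, mem_union, mem_insert_iff, mem_singleton_iff,
      mem_image, mem_prod, mem_Iio, Prod.exists, mem_ofPred_eq]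
    constructor
    · rintro (h | ⟨j, hj, t, ht, rfl⟩)
      · exact Or.inl h
      · exact Or.inr ⟨j, t, ⟨hj, ht⟩, rfl⟩
    · rintro (h | ⟨j, t, ⟨hj, ht⟩, rfl⟩)
      · exact Or.inl h
      · exact Or.inr ⟨j, hj, t, ht, rfl⟩
  rw [h1]
  exact IntermediateField.fg_adjoin_finset _

end LL

end Crest.Agent.R102.Free781
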