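import Crest.Agent.R102.LagB_821

/-!
Row 102, part (B), lemma B4 (helper540): the inverse of the discrete Dirichlet operator
`v ↦ a_i (v_{i+1} - v_i) - a_{i-1} (v_i - v_{i-1})`, `v_0 = v_n = 0`, by two summations.
-/

set_option autoImplicit false

open Set Filter Topology Metric Complex MeasureTheory
open scoped Real ContDiff ComplexConjugate

noncomputable section

namespace Crest.Agent.R102.B540

/-- partial sums `f 1 + ... + f l` -/
def psum (f : ℕ → ℂ) (l : ℕ) : ℂ := ∑ m ∈ Finset.range l, f (m + 1)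

/-- the integration constant -/
def kap (a f : ℕ → ℂ) (n : ℕ) : ℂ :=
  -(∑ l ∈ Finset.range n, psum f l / a l) / (∑ l ∈ Finset.range n, 1 / a l)

/-- the Dirichlet inverse -/
def dinv (a f : ℕ → ℂ) (n i : ℕ) : ℂ := ∑ l ∈ Finset.range i, (kap a f n + psum f l) / a l

variable {a f g : ℕ → ℂ} {n i : ℕ} {w φ : ℝ}

lemma dinv_zero : dinv a f n 0 = 0 := by simp [dinv]

lemma dinv_end (hS : ∑ l ∈ Finset.range n, 1 / a l ≠ 0) : dinv a f n n = 0 := by
  have h : dinv a f n n = kap a f n * (∑ l ∈ Finset.range n, 1 / a l) +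
      ∑ l ∈ Finset.range n, psum f l / a l := by
    unfold dinv
    rw [Finset.mul_sum, ← Finset.sum_add_distrib]
    exact Finset.sum_congr rfl (fun l _ => by ring)
  rw [h, kap, div_mul_cancel₀ _ hS]
  ring

lemma psum_succ (f : ℕ → ℂ) (l : ℕ) : psum f (l + 1) = psum f l + f (l + 1) := by
  unfold psum
  rw [Finset.sum_range_succ]

lemma dinv_succ (a f : ℕ → ℂ) (n j : ℕ) :
    dinv a f n (j + 1) = dinv a f n j + (kap a f n + psum f j) / a j := by
  unfold dinv
  rw [Finset.sum_range_succ]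

lemma dinv_eq (h0 : a i ≠ 0) (h1 : a (i + 1) ≠ 0) :
    a (i + 1) * (dinv a f n (i + 1 + 1) - dinv a f n (i + 1)) -
      a i * (dinv a f n (i + 1) - dinv a f n i) = f (i + 1) := by
  rw [dinv_succ a f n (i + 1), dinv_succ a f n i, psum_succ]
  field_simp
  ring

lemma psum_sub (f g : ℕ → ℂ) (l : ℕ) : psum (fun m => f m - g m) l = psum f l - psum g l := by
  unfold psum
  rw [← Finset.sum_sub_distrib]

lemma kap_sub (a f g : ℕ → ℂ) (n : ℕ) :
    kap a (fun m => f m - g m) n = kap a f n - kap a g n := by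
  unfold kap
  have h : ∑ l ∈ Finset.range n, psum (fun m => f m - g m) l / a l =
      (∑ l ∈ Finset.range n, psum f l / a l) - ∑ l ∈ Finset.range n, psum g l / a l := by
    rw [← Finset.sum_sub_distrib]
    exact Finset.sum_congr rfl (fun l _ => by rw [psum_sub]; ring)
  rw [h]
  ring

lemma dinv_sub (a f g : ℕ → ℂ) (n i : ℕ) :
    dinv a (fun m => f m - g m) n i = dinv a f n i - dinv a g n i := by
  unfold dinv
  rw [← Finset.sum_sub_distrib]
  exact Finset.sum_congr rfl (fun l _ => by rw [psum_sub, kap_sub]; ring)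

/-- hypotheses on the coefficients -/
structure Coef (a : ℕ → ℂ) (w : ℝ) (n : ℕ) : Prop where
  w_pos : 0 < w
  n_pos : 0 < n
  bd : ∀ l < n, ‖a l + w‖ ≤ w / 10

lemma Coef.low (h : Coef a w n) {l : ℕ} (hl : l < n) : 9 / 10 * w ≤ ‖a l‖ := by
  have h1 := h.bd l hl
  have h2 : ‖(w : ℂ)‖ = w := by rw [Complex.norm_real, Real.norm_of_nonneg h.w_pos.le]
  have h3 : ‖(w : ℂ)‖ ≤ ‖a l + w‖ + ‖a l‖ := by
    have := norm_sub_le (a l + w) (a l)
    rwa [add_sub_cancel_left] at this
  linarith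

lemma Coef.ne (h : Coef a w n) {l : ℕ} (hl : l < n) : a l ≠ 0 := by
  intro h0
  have := h.low hl
  rw [h0, norm_zero] at this
  have := h.w_pos
  linarith

lemma Coef.inv_le (h : Coef a w n) {l : ℕ} (hl : l < n) : ‖1 / a l‖ ≤ 10 / 9 / w := by
  have h1 := h.low hl
  have hw := h.w_pos
  rw [norm_div, norm_one, div_div, div_le_div_iff₀ (by linarith) (by positivity)]
  linarith

lemma Coef.inv_sub (h : Coef a w n) {l : ℕ} (hl : l < n) : ‖1 / a l + 1 / w‖ ≤ 1 / 9 / w := by
  have h1 := h.low hl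
  have hw := h.w_pos
  have hne := h.ne hl
  have hwc : (w : ℂ) ≠ 0 := by exact_mod_cast hw.ne'
  have e : 1 / a l + 1 / (w : ℂ) = (a l + w) / (a l * w) := by
    field_simp
    ring
  rw [e, norm_div, norm_mul, Complex.norm_real, Real.norm_of_nonneg hw.le, div_div,
    div_le_div_iff₀ (by positivity) (by positivity)]
  have h2 := h.bd l hl
  nlinarith

lemma Coef.sum_low (h : Coef a w n) : 8 / 9 * n / w ≤ ‖∑ l ∈ Finset.range n, 1 / a l‖ := by
  have hw := h.w_pos
  have hwc : (w : ℂ) ≠ 0 := by exact_mod_cast hw.ne'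
  have h1 : ‖∑ l ∈ Finset.range n, (1 / a l + 1 / (w : ℂ))‖ ≤ n * (1 / 9 / w) := by
    refine (norm_sum_le _ _).trans ?_
    refine (Finset.sum_le_sum (fun l hl => h.inv_sub (Finset.mem_range.1 hl))).trans ?_
    simp
  rw [Finset.sum_add_distrib, Finset.sum_const, Finset.card_range, nsmul_eq_mul] at h1
  set S := ∑ l ∈ Finset.range n, 1 / a l with hS
  have h2 : ‖(n : ℂ) * (1 / (w : ℂ))‖ = n / w := by
    rw [norm_mul, norm_div, norm_one, Complex.norm_real, Real.norm_of_nonneg hw.le,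
      Complex.norm_natCast]
    ring
  have h3 : ‖(n : ℂ) * (1 / (w : ℂ))‖ ≤ ‖S + n * (1 / (w : ℂ))‖ + ‖S‖ := by
    have := norm_sub_le (S + n * (1 / (w : ℂ))) S
    rwa [add_sub_cancel_left] at this
  rw [h2] at h3
  have e : 8 / 9 * (n : ℝ) / w = n / w - n * (1 / 9 / w) := by ring
  rw [e]
  linarith

lemma Coef.sum_ne (h : Coef a w n) : ∑ l ∈ Finset.range n, 1 / a l ≠ 0 := by
  intro h0
  have h1 := h.sum_low
  rw [h0, norm_zero] at h1
  have hw := h.w_pos
  have hn : (0 : ℝ) < n := by exact_mod_cast h.n_pos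
  have : 0 < 8 / 9 * (n : ℝ) / w := by positivity
  linarith

lemma psum_le (hφ : 0 ≤ φ) (hf : ∀ m, 1 ≤ m → m < n → ‖f m‖ ≤ φ) {l : ℕ} (hl : l < n) :
    ‖psum f l‖ ≤ n * φ := by
  unfold psum
  refine (norm_sum_le _ _).trans ?_
  refine (Finset.sum_le_sum (fun m hm => hf (m + 1) (by omega)
    (by have := Finset.mem_range.1 hm; omega))).trans ?_
  rw [Finset.sum_const, Finset.card_range, nsmul_eq_mul]
  have : (l : ℝ) ≤ n := by exact_mod_cast hl.le
  exact mul_le_mul_of_nonneg_right this hφ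

lemma Coef.kap_le (h : Coef a w n) (hφ : 0 ≤ φ) (hf : ∀ m, 1 ≤ m → m < n → ‖f m‖ ≤ φ) :
    ‖kap a f n‖ ≤ 5 / 4 * (n * φ) := by
  have hw := h.w_pos
  have hn : (0 : ℝ) < n := by exact_mod_cast h.n_pos
  unfold kap
  rw [norm_div, norm_neg]
  have h1 : ‖∑ l ∈ Finset.range n, psum f l / a l‖ ≤ n * (n * φ * (10 / 9 / w)) := by
    refine (norm_sum_le _ _).trans ?_
    refine (Finset.sum_le_sum (fun l hl => ?_)).trans (by rw [Finset.sum_const,
      Finset.card_range, nsmul_eq_mul])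
    have hl' := Finset.mem_range.1 hl
    rw [div_eq_mul_one_div, norm_mul]
    exact mul_le_mul (psum_le hφ hf hl') (h.inv_le hl') (norm_nonneg _) (by positivity)
  have h2 := h.sum_low
  rw [div_le_iff₀ (lt_of_lt_of_le (by positivity) h2)]
  refine h1.trans ?_
  calc (n : ℝ) * (n * φ * (10 / 9 / w)) = 5 / 4 * (n * φ) * (8 / 9 * n / w) := by ring
    _ ≤ _ := mul_le_mul_of_nonneg_left h2 (by positivity)

/-- the Dirichlet inverse is bounded by `(5/2) n² / w` -/
lemma Coef.dinv_le (h : Coef a w n) (hφ : 0 ≤ φ) (hf : ∀ m, 1 ≤ m → m < n → ‖f m‖ ≤ φ)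
    (hi : i ≤ n) : ‖dinv a f n i‖ ≤ 5 / 2 * n ^ 2 / w * φ := by
  have hw := h.w_pos
  have hn : (0 : ℝ) < n := by exact_mod_cast h.n_pos
  unfold dinv
  have h1 : ‖∑ l ∈ Finset.range i, (kap a f n + psum f l) / a l‖ ≤
      i * ((5 / 4 * (n * φ) + n * φ) * (10 / 9 / w)) := by
    refine (norm_sum_le _ _).trans ?_
    refine (Finset.sum_le_sum (fun l hl => ?_)).trans (by rw [Finset.sum_const,
      Finset.card_range, nsmul_eq_mul])
    have hl' : l < n := lt_of_lt_of_le (Finset.mem_range.1 hl) hi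
    rw [div_eq_mul_one_div, norm_mul]
    refine mul_le_mul ?_ (h.inv_le hl') (norm_nonneg _) (by positivity)
    exact (norm_add_le _ _).trans (add_le_add (h.kap_le hφ hf) (psum_le hφ hf hl'))
  refine h1.trans ?_
  have hi' : (i : ℝ) ≤ n := by exact_mod_cast hi
  calc (i : ℝ) * ((5 / 4 * (n * φ) + n * φ) * (10 / 9 / w))
      ≤ n * ((5 / 4 * (n * φ) + n * φ) * (10 / 9 / w)) :=
        mul_le_mul_of_nonneg_right hi' (by positivity)
    _ = 5 / 2 * n ^ 2 / w * φ := by ring

/-- reality -/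
lemma conj_dinv (ha : ∀ l < n, conj (a l) = a l) (hf : ∀ m, 1 ≤ m → m < n → conj (f m) = f m)
    (hi : i ≤ n) : conj (dinv a f n i) = dinv a f n i := by
  have hp : ∀ l < n, conj (psum f l) = psum f l := by
    intro l hl
    unfold psum
    rw [map_sum]
    exact Finset.sum_congr rfl (fun m hm => hf _ (by omega)
      (by have := Finset.mem_range.1 hm; omega))
  have hk : conj (kap a f n) = kap a f n := by
    unfold kap
    rw [map_div₀, map_neg, map_sum, map_sum]
    congr 1
    · congr 1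
      refine Finset.sum_congr rfl (fun l hl => ?_)
      rw [map_div₀, hp l (Finset.mem_range.1 hl), ha l (Finset.mem_range.1 hl)]
    · refine Finset.sum_congr rfl (fun l hl => ?_)
      rw [map_div₀, map_one, ha l (Finset.mem_range.1 hl)]
  unfold dinv
  rw [map_sum]
  refine Finset.sum_congr rfl (fun l hl => ?_)
  have hl' : l < n := lt_of_lt_of_le (Finset.mem_range.1 hl) hi
  rw [map_div₀, map_add, hk, hp l hl', ha l hl']

/-- holomorphic dependence on a parameter -/
lemma differentiableOn_dinv {A F : ℂ → ℕ → ℂ} {U : Set ℂ}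
    (hA : ∀ l < n, DifferentiableOn ℂ (fun t => A t l) U)
    (hA0 : ∀ t ∈ U, ∀ l < n, A t l ≠ 0)
    (hS : ∀ t ∈ U, ∑ l ∈ Finset.range n, 1 / A t l ≠ 0)
    (hF : ∀ m, 1 ≤ m → m < n → DifferentiableOn ℂ (fun t => F t m) U) (hi : i ≤ n) :
    DifferentiableOn ℂ (fun t => dinv (A t) (F t) n i) U := by
  have hp : ∀ l < n, DifferentiableOn ℂ (fun t => psum (F t) l) U := by
    intro l hl
    unfold psum
    exact DifferentiableOn.fun_sum (fun m hm => hF _ (by omega)
      (by have := Finset.mem_range.1 hm; omega))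
  have hk : DifferentiableOn ℂ (fun t => kap (A t) (F t) n) U := by
    unfold kap
    refine DifferentiableOn.div (DifferentiableOn.neg (DifferentiableOn.fun_sum
      (fun l hl => ?_))) (DifferentiableOn.fun_sum (fun l hl => ?_)) hS
    · exact (hp l (Finset.mem_range.1 hl)).div (hA l (Finset.mem_range.1 hl))
        (fun t ht => hA0 t ht l (Finset.mem_range.1 hl))
    · exact (differentiableOn_const _).div (hA l (Finset.mem_range.1 hl))
        (fun t ht => hA0 t ht l (Finset.mem_range.1 hl))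
  unfold dinv
  refine DifferentiableOn.fun_sum (fun l hl => ?_)
  have hl' : l < n := lt_of_lt_of_le (Finset.mem_range.1 hl) hi
  exact (hk.add (hp l hl')).div (hA l hl') (fun t ht => hA0 t ht l hl')

/-- summation by parts -/
lemma sum_parts (A B y : ℕ → ℂ) (m : ℕ) :
    ∑ i ∈ Finset.range (m + 1), (A i * y i + B i * y (i + 1)) =
      A 0 * y 0 + B m * y (m + 1) + ∑ i ∈ Finset.range m, (A (i + 1) + B i) * y (i + 1) := by
  induction m with
  | zero => simp
  | succ m ih =>
    rw [Finset.sum_range_succ, ih, Finset.sum_range_succ _ m]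
    ring

end Crest.Agent.R102.B540
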