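import Crest.Agent.R102.BishopDefs_120

/-!
Row 102, T1-B, step 5, estimate (1) (helper669): the explicit disc of 361 plus the Bishop disc of
120 and the maximum modulus principle with an explicit majorant.
-/

set_option autoImplicit false
set_option linter.unusedSectionVars false
set_option linter.unusedVariables false

open Set Filter Topology Metric Complex MeasureTheory
open scoped Real

noncomputable section

namespace Crest.Agent.R102.Disc669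

open Crest.Agent.R102.Bishop120 (HC HO)

/-! ### powers in the right half plane -/

lemma re_cpow_ge {z : ℂ} (hz : 0 ≤ z.re) {γ : ℝ} (h0 : 0 < γ) (h1 : γ ≤ 1) :
    ‖z‖ ^ γ * Real.cos (γ * (π / 2)) ≤ (z ^ (γ : ℂ)).re := by
  rcases eq_or_ne z 0 with rfl | hne
  · rw [Complex.zero_cpow (by exact_mod_cast h0.ne'), norm_zero, Real.zero_rpow h0.ne']
    simp
  rw [Complex.cpow_def_of_ne_zero hne, Complex.exp_re]
  have e1 : (Complex.log z * γ).re = Real.log ‖z‖ * γ := by simp [Complex.log_re]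
  have e2 : (Complex.log z * γ).im = arg z * γ := by simp [Complex.log_im]
  rw [e1, e2, Real.rpow_def_of_pos (norm_pos_iff.2 hne)]
  refine mul_le_mul_of_nonneg_left ?_ (Real.exp_pos _).le
  have h2 : |arg z| ≤ π / 2 := Complex.abs_arg_le_pi_div_two_iff.2 hz
  rw [← Real.cos_abs (arg z * γ), abs_mul, abs_of_pos h0]
  refine Real.cos_le_cos_of_nonneg_of_le_pi (by positivity) ?_ ?_
  · nlinarith [Real.pi_pos]
  · rw [mul_comm]
    exact mul_le_mul_of_nonneg_left h2 h0.le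

lemma norm_cpow_real' {z : ℂ} {γ : ℝ} (h0 : 0 < γ) : ‖z ^ (γ : ℂ)‖ = ‖z‖ ^ γ :=
  Complex.norm_cpow_real z γ

lemma cpow_cont {z : ℂ} (hz : 0 ≤ z.re) {γ : ℝ} (h0 : 0 < γ) :
    ContinuousAt (fun x : ℂ => x ^ (γ : ℂ)) z :=
  continuousAt_cpow_const_of_re_pos (Or.inl hz) (by simpa using h0)

/-! ### the explicit disc -/

/-- 361's correction -/
def G1 (e κ₀ ρ γ : ℝ) (ζ : ℂ) : ℂ := -(I * e * (-(I * ζ)) ^ (γ : ℂ)) - I * κ₀ * ζ ^ 2 / ρ

section G1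

variable {e κ₀ ρ γ : ℝ} {ζ : ℂ}

lemma G1_im : (G1 e κ₀ ρ γ ζ).im =
    -(e * ((-(I * ζ)) ^ (γ : ℂ)).re) - κ₀ * (ζ.re ^ 2 - ζ.im ^ 2) / ρ := by
  unfold G1
  have h1 : (I * (e : ℂ) * (-(I * ζ)) ^ (γ : ℂ)).im = e * ((-(I * ζ)) ^ (γ : ℂ)).re := by
    simp
  have h2 : (I * (κ₀ : ℂ) * ζ ^ 2 / (ρ : ℂ)).im = κ₀ * (ζ.re ^ 2 - ζ.im ^ 2) / ρ := by
    rw [Complex.div_ofReal_im]
    congr 1
    simp [pow_two]
  rw [sub_im, neg_im, h1, h2]

lemma G1_im_le (he : 0 ≤ e) (hγ : 0 < γ) (hγ1 : γ ≤ 1) (hζ : 0 ≤ ζ.im) :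
    (G1 e κ₀ ρ γ ζ).im ≤ -(e * (‖ζ‖ ^ γ * Real.cos (γ * (π / 2)))) -
      κ₀ * (ζ.re ^ 2 - ζ.im ^ 2) / ρ := by
  rw [G1_im]
  have h1 : 0 ≤ (-(I * ζ)).re := by simpa using hζ
  have h2 := re_cpow_ge h1 hγ hγ1
  have h3 : ‖-(I * ζ)‖ = ‖ζ‖ := by simp
  rw [h3] at h2
  have := mul_le_mul_of_nonneg_left h2 he
  linarith

lemma G1_norm (he : 0 ≤ e) (hκ : 0 ≤ κ₀) (hρ : 0 < ρ) (hγ : 0 < γ) :
    ‖G1 e κ₀ ρ γ ζ‖ ≤ e * ‖ζ‖ ^ γ + κ₀ * ‖ζ‖ ^ 2 / ρ := by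
  unfold G1
  refine (norm_sub_le _ _).trans ?_
  rw [norm_neg, norm_mul, norm_mul, norm_div, norm_mul, norm_mul, norm_pow, norm_I,
    norm_cpow_real' hγ, norm_neg, norm_mul, norm_I, one_mul, one_mul, one_mul,
    Complex.norm_of_nonneg he, Complex.norm_of_nonneg hκ, Complex.norm_of_nonneg hρ.le]

lemma G1_re_real (he : 0 ≤ e) (hγ : 0 < γ) (x : ℝ) :
    |(G1 e κ₀ ρ γ x).re| ≤ e * |x| ^ γ := by
  unfold G1
  have h1 : (I * (κ₀ : ℂ) * (x : ℂ) ^ 2 / (ρ : ℂ)).re = 0 := by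
    have : (I * (κ₀ : ℂ) * (x : ℂ) ^ 2 / (ρ : ℂ)) = ((κ₀ * x ^ 2 / ρ : ℝ) : ℂ) * I := by
      push_cast; ring
    rw [this, Complex.re_ofReal_mul, I_re, mul_zero]
  rw [sub_re, neg_re, h1, sub_zero, abs_neg]
  refine (Complex.abs_re_le_norm _).trans ?_
  rw [norm_mul, norm_mul, norm_I, one_mul, Complex.norm_of_nonneg he, norm_cpow_real' hγ,
    norm_neg, norm_mul, norm_I, one_mul]
  simp

lemma G1_cont (hγ : 0 < γ) : ContinuousOn (G1 e κ₀ ρ γ) HC := by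
  intro z hz
  have hz' : 0 ≤ z.im := hz
  have h1 : 0 ≤ (-(I * z)).re := by simpa using hz'
  have h2 := cpow_cont h1 hγ
  have h3 : ContinuousAt (fun ζ : ℂ => (-(I * ζ)) ^ (γ : ℂ)) z :=
    ContinuousAt.comp (g := fun x : ℂ => x ^ (γ : ℂ)) (f := fun ζ : ℂ => -(I * ζ)) h2
      (by fun_prop)
  have h4 : ContinuousAt (G1 e κ₀ ρ γ) z := by
    unfold G1
    refine ContinuousAt.sub (ContinuousAt.neg (ContinuousAt.mul continuousAt_const h3)) ?_
    fun_prop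
  exact h4.continuousWithinAt

lemma G1_diff : DifferentiableOn ℂ (G1 e κ₀ ρ γ) HO := by
  intro z hz
  have hz' : 0 < z.im := hz
  have h1 : 0 < (-(I * z)).re := by simpa using hz'
  have h2 : -(I * z) ∈ slitPlane := Or.inl h1
  refine DifferentiableAt.differentiableWithinAt ?_
  unfold G1
  have h3 : DifferentiableAt ℂ (fun ζ : ℂ => (-(I * ζ)) ^ (γ : ℂ)) z :=
    DifferentiableAt.cpow_const (f := fun ζ : ℂ => -(I * ζ)) (by fun_prop) h2
  refine DifferentiableAt.sub (DifferentiableAt.neg (DifferentiableAt.const_mul h3 _)) ?_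
  fun_prop

end G1

/-! ### maximum principle on a half disc -/

/-- open upper half disc -/
def UD (ρ : ℝ) : Set ℂ := {ζ | ‖ζ‖ < ρ ∧ 0 < ζ.im}

lemma isOpen_UD (ρ : ℝ) : IsOpen (UD ρ) :=
  (isOpen_lt continuous_norm continuous_const).inter
    (isOpen_lt continuous_const Complex.continuous_im)

lemma closure_UD (ρ : ℝ) : closure (UD ρ) ⊆ {ζ | ‖ζ‖ ≤ ρ ∧ 0 ≤ ζ.im} := by
  refine closure_minimal (fun z hz => ⟨hz.1.le, hz.2.le⟩) ?_
  exact (isClosed_le continuous_norm continuous_const).inter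
    (isClosed_le continuous_const Complex.continuous_im)

lemma bounded_UD (ρ : ℝ) : Bornology.IsBounded (UD ρ) := by
  refine (isBounded_ball (x := (0 : ℂ)) (r := ρ)).subset (fun z hz => ?_)
  simpa using hz.1

theorem halfdisc_max {ρ : ℝ} {g Ψ : ℂ → ℂ} (hg : DiffContOnCl ℂ g (UD ρ))
    (hΨ : DiffContOnCl ℂ Ψ (UD ρ))
    (hb : ∀ ζ : ℂ, ‖ζ‖ ≤ ρ → 0 ≤ ζ.im → (ζ.im = 0 ∨ ‖ζ‖ = ρ) → ‖g ζ‖ ≤ Real.exp (Ψ ζ).re) :
    ∀ ζ ∈ UD ρ, ‖g ζ‖ ≤ Real.exp (Ψ ζ).re := by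
  intro ζ hζ
  have h1 : DiffContOnCl ℂ (fun z => g z * Complex.exp (-(Ψ z))) (UD ρ) := by
    have h2 : DiffContOnCl ℂ (fun z => Complex.exp (-(Ψ z))) (UD ρ) :=
      (Complex.differentiable_exp.comp (Differentiable.neg differentiable_id)).comp_diffContOnCl hΨ
    exact hg.smul h2
  have key : ∀ z, ‖g z * Complex.exp (-(Ψ z))‖ = ‖g z‖ * Real.exp (-(Ψ z).re) := by
    intro z; rw [norm_mul, Complex.norm_exp, neg_re]
  have h3 : ∀ z ∈ frontier (UD ρ), ‖g z * Complex.exp (-(Ψ z))‖ ≤ 1 := by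
    intro z hz
    have hz1 := closure_UD ρ hz.1
    have hz2 : z ∉ UD ρ := by
      have := hz.2
      rwa [(isOpen_UD ρ).interior_eq] at this
    have hz3 : z.im = 0 ∨ ‖z‖ = ρ := by
      by_contra hcon
      push Not at hcon
      exact hz2 ⟨lt_of_le_of_ne hz1.1 hcon.2, lt_of_le_of_ne hz1.2 (Ne.symm hcon.1)⟩
    have h4 := hb z hz1.1 hz1.2 hz3
    rw [key, Real.exp_neg]
    exact (div_le_one (Real.exp_pos _)).2 h4
  have h5 := Complex.norm_le_of_forall_mem_frontier_norm_le (bounded_UD ρ) h1 h3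
    (subset_closure hζ)
  rw [key, Real.exp_neg] at h5
  exact (div_le_one (Real.exp_pos _)).1 h5

/-! ### the domain below the face -/

/-- points below the level `m` over the upper half plane, near the base point -/
def OmC (m δ η : ℝ) : Set (ℂ × ℂ) :=
  {q | 0 < q.2.im ∧ ‖q.2‖ < η ∧ |q.1.re| < δ ∧ q.1.im < m * q.2.im}

lemma isOpen_OmC (m δ η : ℝ) : IsOpen (OmC m δ η) := by
  have c1 : Continuous (fun q : ℂ × ℂ => q.2.im) := by fun_prop
  have c2 : Continuous (fun q : ℂ × ℂ => ‖q.2‖) := by fun_prop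
  have c3 : Continuous (fun q : ℂ × ℂ => |q.1.re|) := by fun_prop
  have c4 : Continuous (fun q : ℂ × ℂ => q.1.im) := by fun_prop
  exact (isOpen_lt continuous_const c1).inter ((isOpen_lt c2 continuous_const).inter
    ((isOpen_lt c3 continuous_const).inter (isOpen_lt c4 (continuous_const.mul c1))))

/-- the majorant -/
def Maj (B' s N : ℝ) (α : ℝ) (ζ : ℂ) : ℂ :=
  B' * (1 + (-(I * ζ)) / s) ^ (α : ℂ) + N * (-(I * ζ))

section Maj

variable {B' s N α : ℝ} {ζ : ℂ}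

lemma Maj_re_ge (hs : 0 < s) (hB : 0 ≤ B') (hN : 0 ≤ N) (h0 : 0 < α) (h1 : α < 1)
    (hζ : 0 ≤ ζ.im) :
    B' * Real.cos (α * (π / 2)) * (max 1 (‖ζ‖ / s)) ^ α + N * ζ.im ≤ (Maj B' s N α ζ).re := by
  unfold Maj
  have e1 : ((1 : ℂ) + (-(I * ζ)) / s).re = 1 + ζ.im / s := by
    rw [add_re, one_re, Complex.div_ofReal_re]
    simp
  have e2 : ((1 : ℂ) + (-(I * ζ)) / s).im = -(ζ.re / s) := by
    rw [add_im, one_im, Complex.div_ofReal_im, zero_add, neg_im]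
    simp
    ring
  have e3 : 0 ≤ ((1 : ℂ) + (-(I * ζ)) / s).re := by rw [e1]; positivity
  have e4 : max 1 (‖ζ‖ / s) ≤ ‖(1 : ℂ) + (-(I * ζ)) / s‖ := by
    refine max_le ?_ ?_
    · have h5 := Complex.re_le_norm ((1 : ℂ) + (-(I * ζ)) / s)
      rw [e1] at h5
      have : 0 ≤ ζ.im / s := by positivity
      linarith
    · have h5 : (‖ζ‖ / s) ^ 2 ≤ ‖(1 : ℂ) + (-(I * ζ)) / s‖ ^ 2 := by
        rw [← Complex.normSq_eq_norm_sq ((1 : ℂ) + (-(I * ζ)) / s), Complex.normSq_apply, e1, e2,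
          div_pow, ← Complex.normSq_eq_norm_sq, Complex.normSq_apply]
        have h6 : (ζ.re * ζ.re + ζ.im * ζ.im) / s ^ 2 = (ζ.re / s) ^ 2 + (ζ.im / s) ^ 2 := by
          field_simp
        rw [h6]
        have : 0 ≤ ζ.im / s := by positivity
        nlinarith
      exact le_of_sq_le_sq h5 (norm_nonneg _)
  have h6 := re_cpow_ge e3 h0 h1.le
  have hcos : 0 ≤ Real.cos (α * (π / 2)) :=
    Real.cos_nonneg_of_mem_Icc ⟨by nlinarith [Real.pi_pos], by nlinarith [Real.pi_pos]⟩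
  have h7 : (max 1 (‖ζ‖ / s)) ^ α ≤ ‖(1 : ℂ) + (-(I * ζ)) / s‖ ^ α :=
    Real.rpow_le_rpow (le_trans zero_le_one (le_max_left _ _)) e4 h0.le
  rw [add_re, Complex.re_ofReal_mul, Complex.re_ofReal_mul]
  have h8 : (-(I * ζ)).re = ζ.im := by simp
  rw [h8]
  have h9 : B' * Real.cos (α * (π / 2)) * (max 1 (‖ζ‖ / s)) ^ α ≤
      B' * (((1 : ℂ) + (-(I * ζ)) / s) ^ (α : ℂ)).re := by
    rw [mul_assoc]
    refine mul_le_mul_of_nonneg_left ?_ hB
    calc Real.cos (α * (π / 2)) * (max 1 (‖ζ‖ / s)) ^ α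
        ≤ Real.cos (α * (π / 2)) * ‖(1 : ℂ) + (-(I * ζ)) / s‖ ^ α :=
          mul_le_mul_of_nonneg_left h7 hcos
      _ ≤ _ := by rw [mul_comm]; exact h6
  linarith

lemma Maj_re_le (hs : 0 < s) (hB : 0 ≤ B') (h0 : 0 < α) (h1 : α < 1) {η : ℝ} (hη : 0 ≤ η) :
    (Maj B' s N α (η * I)).re ≤ B' * (1 + η / s) + N * η := by
  unfold Maj
  have e1 : -(I * ((η : ℂ) * I)) = (η : ℂ) := by
    have : I * ((η : ℂ) * I) = η * (I * I) := by ring
    rw [this, I_mul_I]; ring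
  rw [e1, add_re, Complex.re_ofReal_mul, Complex.re_ofReal_mul, ofReal_re]
  have e2 : (1 : ℂ) + (η : ℂ) / s = ((1 + η / s : ℝ) : ℂ) := by push_cast; ring
  have hpos : 0 ≤ 1 + η / s := by positivity
  have h1' : (1 : ℝ) ≤ 1 + η / s := by
    have : 0 ≤ η / s := by positivity
    linarith
  rw [e2, ← Complex.ofReal_cpow hpos, ofReal_re]
  have h3 : (1 + η / s) ^ α ≤ 1 + η / s := by
    have := Real.rpow_le_rpow_of_exponent_le h1' h1.le
    simpa using this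
  have := mul_le_mul_of_nonneg_left h3 hB
  linarith

lemma Maj_diffContOnCl (hs : 0 < s) (h0 : 0 < α) (ρ : ℝ) :
    DiffContOnCl ℂ (Maj B' s N α) (UD ρ) := by
  have hre : ∀ ζ : ℂ, 0 ≤ ζ.im → 0 < ((1 : ℂ) + (-(I * ζ)) / s).re := by
    intro ζ hζ
    rw [add_re, one_re, Complex.div_ofReal_re]
    have : (-(I * ζ)).re = ζ.im := by simp
    rw [this]
    positivity
  have hd : ∀ ζ : ℂ, 0 ≤ ζ.im → DifferentiableAt ℂ (Maj B' s N α) ζ := by
    intro ζ hζ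
    unfold Maj
    have h3 : DifferentiableAt ℂ (fun ζ : ℂ => ((1 : ℂ) + (-(I * ζ)) / s) ^ (α : ℂ)) ζ :=
      DifferentiableAt.cpow_const (f := fun ζ : ℂ => (1 : ℂ) + (-(I * ζ)) / s) (by fun_prop)
        (Or.inl (hre ζ hζ))
    refine (h3.const_mul _).add ?_
    fun_prop
  refine ⟨fun z hz => (hd z hz.2.le).differentiableWithinAt, fun z hz => ?_⟩
  exact (hd z (closure_UD ρ hz).2).continuousAt.continuousWithinAt

end Maj

end Crest.Agent.R102.Disc669
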