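import Mathlib
import Crest.Agent.R102.BishopDefs_120

/-!
# R102, T1-B, step 5 (1): the single disc estimate on top of `Bishop120.Local`

`disc_est`: a holomorphic function `F` on `{Im T < (σ + m) Im w, Im w > 0}` near `p ∈ P`, with
`log ‖F‖ ≤ K (r / depth) ^ N (r / s) ^ (1/2)` on the cone over `P`, is bounded by an absolute
constant at the points at scale `s` with `Im T ≤ (σ - m) Im w`.
-/

set_option autoImplicit false
set_option linter.unusedVariables false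

open MeasureTheory Metric Set Filter Topology

noncomputable section

namespace Crest.Agent.R102.DiscEst115

open Crest.Agent.R102.Bishop120

/-- real part of a power of a number in the right half plane -/
lemma re_pow {a : ℝ} (ha : 0 ≤ a) (ha1 : a ≤ 1) {z : ℂ} (hz : 0 ≤ z.re) :
    ‖z‖ ^ a * Real.cos (a * (Real.pi / 2)) ≤ (z ^ (a : ℂ)).re := by
  rw [Complex.cpow_ofReal_re]
  refine mul_le_mul_of_nonneg_left ?_ (Real.rpow_nonneg (norm_nonneg _) _)
  have h1 : |z.arg| ≤ Real.pi / 2 := Complex.abs_arg_le_pi_div_two_iff.2 hz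
  have hpi := Real.pi_pos
  rw [← Real.cos_abs (z.arg * a), abs_mul, abs_of_nonneg ha]
  apply Real.cos_le_cos_of_nonneg_of_le_pi
  · positivity
  · nlinarith
  · rw [mul_comm]
    exact mul_le_mul_of_nonneg_left h1 ha

/-- the explicit correction of the disc -/
def G1 (ε s β μ R : ℝ) (z : ℂ) : ℂ :=
  -Complex.I * ((ε * s ^ β : ℝ) : ℂ) * (-Complex.I * z) ^ (((1 - β : ℝ)) : ℂ)
    - Complex.I * ((μ / R : ℝ) : ℂ) * z ^ 2

lemma negI_re (z : ℂ) : (-Complex.I * z).re = z.im := by simp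

lemma negI_norm (z : ℂ) : ‖-Complex.I * z‖ = ‖z‖ := by simp

lemma G1_im (ε s β μ R : ℝ) (z : ℂ) :
    (G1 ε s β μ R z).im = -(ε * s ^ β) * ((-Complex.I * z) ^ (((1 - β : ℝ)) : ℂ)).re
      - (μ / R) * (z.re ^ 2 - z.im ^ 2) := by
  unfold G1
  set w := (-Complex.I * z) ^ (((1 - β : ℝ)) : ℂ)
  simp only [Complex.sub_im, Complex.mul_im, Complex.neg_re, Complex.neg_im, Complex.I_re,
    Complex.I_im, Complex.ofReal_re, Complex.ofReal_im, Complex.mul_re, pow_two]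
  ring

lemma G1_re (ε s β μ R : ℝ) (z : ℂ) :
    (G1 ε s β μ R z).re = (ε * s ^ β) * ((-Complex.I * z) ^ (((1 - β : ℝ)) : ℂ)).im
      + (μ / R) * (2 * z.re * z.im) := by
  unfold G1
  set w := (-Complex.I * z) ^ (((1 - β : ℝ)) : ℂ)
  simp only [Complex.sub_re, Complex.mul_im, Complex.neg_re, Complex.neg_im, Complex.I_re,
    Complex.I_im, Complex.ofReal_re, Complex.ofReal_im, Complex.mul_re, pow_two]
  ring

lemma G1_norm {ε s β μ R : ℝ} (hε : 0 ≤ ε) (hs : 0 ≤ s) (hμ : 0 ≤ μ) (hR : 0 < R) (z : ℂ) :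
    ‖G1 ε s β μ R z‖ ≤ ε * s ^ β * ‖z‖ ^ (1 - β) + μ / R * ‖z‖ ^ 2 := by
  unfold G1
  refine (norm_sub_le _ _).trans ?_
  have h1 : 0 ≤ ε * s ^ β := mul_nonneg hε (Real.rpow_nonneg hs _)
  have h2 : 0 ≤ μ / R := by positivity
  rw [norm_mul, norm_mul, norm_mul, norm_mul, norm_pow, Complex.norm_cpow_real, negI_norm,
    Complex.norm_real, Complex.norm_real, norm_neg, Complex.norm_I, one_mul, one_mul,
    Real.norm_of_nonneg h1, Real.norm_of_nonneg h2]

lemma G1_diff (ε s β μ R : ℝ) {z : ℂ} (hz : 0 < z.im) : DifferentiableAt ℂ (G1 ε s β μ R) z := by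
  unfold G1
  have h : (-Complex.I * z) ∈ Complex.slitPlane := by
    left
    rw [negI_re]
    exact hz
  have h1 : DifferentiableAt ℂ (fun z : ℂ => (-Complex.I * z) ^ (((1 - β : ℝ)) : ℂ)) z :=
    DifferentiableAt.cpow (by fun_prop) (by fun_prop) h
  exact (h1.const_mul _).sub (by fun_prop)

/-- `s ^ β * v ^ (1 - β)` is between `s` and `v` -/
lemma mix_ge {s v β : ℝ} (hs : 0 < s) (hsv : s ≤ v) (hβ : 0 ≤ β) (hβ1 : β ≤ 1) :
    s ≤ s ^ β * v ^ (1 - β) := by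
  have h1 : s ^ (1 - β) ≤ v ^ (1 - β) := Real.rpow_le_rpow hs.le hsv (by linarith)
  have h2 : s ^ β * s ^ (1 - β) = s := by
    rw [← Real.rpow_add hs]
    simp
  calc s = s ^ β * s ^ (1 - β) := h2.symm
    _ ≤ _ := mul_le_mul_of_nonneg_left h1 (Real.rpow_nonneg hs.le _)

lemma mix_le {s v β : ℝ} (hs : 0 < s) (hsv : s ≤ v) (hβ : 0 ≤ β) (hβ1 : β ≤ 1) :
    s ^ β * v ^ (1 - β) ≤ v := by
  have hv : 0 < v := hs.trans_le hsv
  have h1 : s ^ β ≤ v ^ β := Real.rpow_le_rpow hs.le hsv hβ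
  have h2 : v ^ β * v ^ (1 - β) = v := by
    rw [← Real.rpow_add hv]
    simp
  calc _ ≤ v ^ β * v ^ (1 - β) := mul_le_mul_of_nonneg_right h1 (Real.rpow_nonneg hv.le _)
    _ = v := h2

/-- the bound of the boundary values in terms of `v / s` -/
lemma bound_pow {K C3 c4 N s v D β : ℝ} (hK : 0 ≤ K) (hC3 : 1 ≤ C3) (hc4 : 0 < c4) (hN : 1 ≤ N)
    (hs : 0 < s) (hsv : s ≤ v) (hβ : β = 1 / (4 * N)) (hD : c4 * (s ^ β * v ^ (1 - β)) ≤ D) :
    K * (C3 * v / D) ^ N * (C3 * v / s) ^ (1 / 2 : ℝ) ≤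
      K * (C3 / c4) ^ N * C3 ^ (1 / 2 : ℝ) * (v / s) ^ (3 / 4 : ℝ) := by
  have hv : 0 < v := hs.trans_le hsv
  have hC : 0 < C3 := by linarith
  have hN0 : 0 < N := by linarith
  have hm : 0 < s ^ β * v ^ (1 - β) := by positivity
  have hD0 : 0 < D := lt_of_lt_of_le (by positivity) hD
  have h1 : C3 * v / D ≤ (C3 / c4) * (v / s) ^ β := by
    have e : (v / s) ^ β = v / (s ^ β * v ^ (1 - β)) := by
      rw [Real.div_rpow hv.le hs.le]
      have h2 : v ^ β * v ^ (1 - β) = v := by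
        rw [← Real.rpow_add hv]
        simp
      have h3 : 0 < s ^ β := by positivity
      have h4 : 0 < v ^ (1 - β) := by positivity
      field_simp
      exact h2
    rw [e, div_mul_div_comm]
    exact div_le_div_of_nonneg_left (by positivity) (by positivity) hD
  have h2 : (C3 * v / D) ^ N ≤ (C3 / c4) ^ N * (v / s) ^ (1 / 4 : ℝ) := by
    calc (C3 * v / D) ^ N ≤ ((C3 / c4) * (v / s) ^ β) ^ N :=
          Real.rpow_le_rpow (by positivity) h1 hN0.le
      _ = (C3 / c4) ^ N * (v / s) ^ (1 / 4 : ℝ) := by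
          rw [Real.mul_rpow (by positivity) (by positivity), ← Real.rpow_mul (by positivity)]
          congr 2
          rw [hβ]
          field_simp
  have h3 : (C3 * v / s) ^ (1 / 2 : ℝ) = C3 ^ (1 / 2 : ℝ) * (v / s) ^ (1 / 2 : ℝ) := by
    rw [mul_div_assoc, Real.mul_rpow hC.le (by positivity)]
  have h4 : (v / s) ^ (1 / 4 : ℝ) * (v / s) ^ (1 / 2 : ℝ) = (v / s) ^ (3 / 4 : ℝ) := by
    rw [← Real.rpow_add (by positivity)]
    norm_num
  rw [h3]
  calc K * (C3 * v / D) ^ N * (C3 ^ (1 / 2 : ℝ) * (v / s) ^ (1 / 2 : ℝ))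
      ≤ K * ((C3 / c4) ^ N * (v / s) ^ (1 / 4 : ℝ)) * (C3 ^ (1 / 2 : ℝ) * (v / s) ^ (1 / 2 : ℝ)) := by
        gcongr
    _ = K * (C3 / c4) ^ N * C3 ^ (1 / 2 : ℝ) * ((v / s) ^ (1 / 4 : ℝ) * (v / s) ^ (1 / 2 : ℝ)) := by
        ring
    _ = _ := by rw [h4]

/-- the majorant -/
def Psi (B' M' s : ℝ) (z : ℂ) : ℂ :=
  (B' : ℂ) * (1 - Complex.I * z / s) ^ (((3 / 4 : ℝ)) : ℂ) + (M' : ℂ) * (-Complex.I * z)

lemma psi_base_re {s : ℝ} (hs : 0 < s) (z : ℂ) : (1 - Complex.I * z / s).re = 1 + z.im / s := by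
  simp [Complex.div_re, Complex.normSq]
  field_simp
  ring

lemma psi_base_im {s : ℝ} (hs : 0 < s) (z : ℂ) : (1 - Complex.I * z / s).im = - (z.re / s) := by
  simp [Complex.div_im, Complex.normSq]
  field_simp

lemma psi_base_norm {s : ℝ} (hs : 0 < s) {z : ℂ} (hz : 0 ≤ z.im) :
    max s ‖z‖ / s ≤ ‖1 - Complex.I * z / s‖ := by
  rw [div_le_iff₀ hs]
  refine max_le ?_ ?_
  · have h1 := Complex.re_le_norm (1 - Complex.I * z / s)
    rw [psi_base_re hs] at h1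
    have : 0 ≤ z.im / s := by positivity
    nlinarith
  · refine abs_le_of_sq_le_sq' ?_ (by positivity) |>.2
    rw [mul_pow, ← Complex.normSq_eq_norm_sq, ← Complex.normSq_eq_norm_sq, Complex.normSq_apply,
      Complex.normSq_apply, psi_base_re hs, psi_base_im hs]
    have : ((1 + z.im / s) * (1 + z.im / s) + -(z.re / s) * -(z.re / s)) * s ^ 2 =
        (s + z.im) ^ 2 + z.re ^ 2 := by
      field_simp
    rw [this]
    nlinarith

lemma psi_lower {B M' s : ℝ} (hB : 0 ≤ B) (hs : 0 < s) {z : ℂ} (hz : 0 ≤ z.im) :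
    B * (max s ‖z‖ / s) ^ (3 / 4 : ℝ) + M' * z.im ≤
      (Psi (B / Real.cos (3 / 4 * (Real.pi / 2))) M' s z).re := by
  have hpi := Real.pi_pos
  have hc : 0 < Real.cos (3 / 4 * (Real.pi / 2)) := by
    apply Real.cos_pos_of_mem_Ioo
    constructor <;> linarith
  have h1 : (Psi (B / Real.cos (3 / 4 * (Real.pi / 2))) M' s z).re =
      B / Real.cos (3 / 4 * (Real.pi / 2)) *
        ((1 - Complex.I * z / s) ^ (((3 / 4 : ℝ)) : ℂ)).re + M' * z.im := by
    unfold Psi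
    rw [Complex.add_re, Complex.re_ofReal_mul, Complex.re_ofReal_mul, negI_re]
  rw [h1]
  have h2 := re_pow (a := 3 / 4) (by norm_num) (by norm_num) (z := 1 - Complex.I * z / s) (by
    rw [psi_base_re hs]
    have : 0 ≤ z.im / s := by positivity
    linarith)
  have h3 : (max s ‖z‖ / s) ^ (3 / 4 : ℝ) ≤ ‖1 - Complex.I * z / s‖ ^ (3 / 4 : ℝ) :=
    Real.rpow_le_rpow (by positivity) (psi_base_norm hs hz) (by norm_num)
  have h4 : B * (max s ‖z‖ / s) ^ (3 / 4 : ℝ) ≤ B / Real.cos (3 / 4 * (Real.pi / 2)) *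
      ((1 - Complex.I * z / s) ^ (((3 / 4 : ℝ)) : ℂ)).re := by
    calc B * (max s ‖z‖ / s) ^ (3 / 4 : ℝ) ≤ B * ‖1 - Complex.I * z / s‖ ^ (3 / 4 : ℝ) := by
          gcongr
      _ = B / Real.cos (3 / 4 * (Real.pi / 2)) *
          (‖1 - Complex.I * z / s‖ ^ (3 / 4 : ℝ) * Real.cos (3 / 4 * (Real.pi / 2))) := by
          rw [div_mul_eq_mul_div, eq_div_iff hc.ne']
          ring
      _ ≤ _ := by
          refine mul_le_mul_of_nonneg_left h2 (by positivity)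
  linarith

lemma psi_upper {B' M' s : ℝ} (hB : 0 ≤ B') (hM : 0 ≤ M') (hs : 0 < s) {z : ℂ}
    (hz : ‖z‖ ≤ 3 / 2 * s) : (Psi B' M' s z).re ≤ 5 / 2 * B' + M' * (3 / 2 * s) := by
  refine (Complex.re_le_norm _).trans ?_
  unfold Psi
  refine (norm_add_le _ _).trans ?_
  rw [norm_mul, norm_mul, Complex.norm_cpow_real, negI_norm, Complex.norm_real, Complex.norm_real,
    Real.norm_of_nonneg hB, Real.norm_of_nonneg hM]
  have h1 : ‖1 - Complex.I * z / s‖ ≤ 5 / 2 := by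
    refine (norm_sub_le _ _).trans ?_
    rw [norm_one, norm_div, norm_mul, Complex.norm_I, one_mul, Complex.norm_real,
      Real.norm_of_nonneg hs.le]
    have : ‖z‖ / s ≤ 3 / 2 := by
      rw [div_le_iff₀ hs]
      exact hz
    linarith
  have h2 : ‖1 - Complex.I * z / s‖ ^ (3 / 4 : ℝ) ≤ 5 / 2 := by
    calc ‖1 - Complex.I * z / s‖ ^ (3 / 4 : ℝ) ≤ (5 / 2 : ℝ) ^ (3 / 4 : ℝ) :=
          Real.rpow_le_rpow (norm_nonneg _) h1 (by norm_num)
      _ ≤ (5 / 2 : ℝ) ^ (1 : ℝ) := Real.rpow_le_rpow_of_exponent_le (by norm_num) (by norm_num)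
      _ = 5 / 2 := by rw [Real.rpow_one]
  have h3 : B' * ‖1 - Complex.I * z / s‖ ^ (3 / 4 : ℝ) ≤ 5 / 2 * B' := by nlinarith
  have h4 : M' * ‖z‖ ≤ M' * (3 / 2 * s) := by gcongr
  linarith

lemma psi_diff (B' M' : ℝ) {s : ℝ} (hs : 0 < s) {z : ℂ} (hz : 0 < z.im) :
    DifferentiableAt ℂ (Psi B' M' s) z := by
  unfold Psi
  have h : (1 - Complex.I * z / s) ∈ Complex.slitPlane := by
    left
    rw [psi_base_re hs]
    positivity
  have h1 : DifferentiableAt ℂ (fun z : ℂ => (1 - Complex.I * z / s) ^ (((3 / 4 : ℝ)) : ℂ)) z :=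
    DifferentiableAt.cpow (by fun_prop) (by fun_prop) h
  exact (h1.const_mul _).add (by fun_prop)

/-- the conclusion of `Bishop120.Local` at `p` -/
structure Bish (σ lam : ℝ) (P : Set (ℝ × ℝ)) (p : ℝ × ℝ) (rho κ : ℝ) (G : ℂ → ℂ) : Prop where
  mem : p ∈ P
  rho_pos : 0 < rho
  cont : ContinuousOn G HC
  diff : DifferentiableOn ℂ G HO
  zero : G 0 = 0
  im_le : ∀ z ∈ HC, (G z).im ≤ 0
  deriv : HasDerivWithinAt G (κ : ℂ) HC 0
  saw : ∀ x : ℝ, |x| ≤ rho →
    lam * infDist (p.1 + σ * x + (G x).re, p.2 + x) P ≤ -(G x).im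

/-- the domain of `F` -/
def Om (σ m ρ1 : ℝ) (p : ℝ × ℝ) : Set (ℂ × ℂ) :=
  {x | ‖x.1 - p.1‖ < ρ1 ∧ ‖x.2 - p.2‖ < ρ1 ∧ 0 < x.2.im ∧ x.1.im < (σ + m) * x.2.im}

/-- the bound on the cone over `P`, at scale `s` -/
def Side (K N kw ρ1 s : ℝ) (P : Set (ℝ × ℝ)) (p : ℝ × ℝ) (F : ℂ × ℂ → ℂ) : Prop :=
  ∀ x : ℂ × ℂ, ‖x.1 - p.1‖ < ρ1 → ‖x.2 - p.2‖ < ρ1 → 0 < x.2.im →
    kw * (infDist (x.1.re, x.2.re) P + x.2.im) ≤ -x.1.im →
    ∀ r : ℝ, s ≤ r → r ≤ ρ1 → ‖x.1 - p.1‖ ≤ r → ‖x.2 - p.2‖ ≤ r →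
      ‖F x‖ ≤ Real.exp (K * (r / (-x.1.im)) ^ N * (r / s) ^ (1 / 2 : ℝ))

/-- the constants and the disc through one point -/
structure Cfg (σ m lam β cβ θ1 C1 C3 ki c4 ρ1 R s : ℝ) (P : Set (ℝ × ℝ)) (p : ℝ × ℝ)
    (G : ℂ → ℂ) (Tb : ℂ) : Prop where
  m0 : 0 < m
  lam0 : 0 < lam
  β0 : 0 < β
  β1 : β ≤ 1 / 4
  cβe : cβ = Real.cos ((1 - β) * (Real.pi / 2))
  cβ0 : 0 < cβ
  θ0 : 0 < θ1
  θh : θ1 ≤ 1 / 2
  θσ : |σ| * θ1 ≤ m / 8
  C10 : 0 < C1
  C3e : C3 = C1 + |σ| + m + 1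
  kie : ki = 1 / lam + 16 * (C1 + m + 2) / m + 1 / cβ + 8 * (C3 + 1) / m + 1
  c40 : 0 < c4
  c4a : c4 ≤ m / 16
  c4b : c4 ≤ m / 24 * cβ
  c4c : c4 ≤ m / 8
  R0 : 0 < R
  Rρ : C3 * R ≤ ρ1 / 2
  s0 : 0 < s
  sR : s ≤ R / 72
  mem : p ∈ P
  im_le : ∀ z ∈ HC, (G z).im ≤ 0
  Gn : ∀ z ∈ HC, ‖z‖ ≤ R → ‖G z‖ ≤ 7 / 24 * m * ‖z‖
  Tbi : Tb.im ≤ -(m / 8) * s
  Tbn : ‖Tb‖ ≤ C1 * s

/-- the disc -/
def TT (σ m β R s : ℝ) (p : ℝ × ℝ) (G : ℂ → ℂ) (Tb z : ℂ) : ℂ :=
  p.1 + Tb + σ * z + G z + G1 (m / 24) s β (m / 2) R z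

section cfg

variable {σ m lam β cβ θ1 C1 C3 ki c4 ρ1 R s : ℝ} {P : Set (ℝ × ℝ)} {p : ℝ × ℝ}
  {G : ℂ → ℂ} {Tb : ℂ}

lemma TT_im (z : ℂ) : (TT σ m β R s p G Tb z).im =
    Tb.im + σ * z.im + (G z).im + (G1 (m / 24) s β (m / 2) R z).im := by
  simp [TT]

lemma TT_re (z : ℂ) : (TT σ m β R s p G Tb z).re =
    p.1 + Tb.re + σ * z.re + (G z).re + (G1 (m / 24) s β (m / 2) R z).re := by
  simp [TT]

/-- value of the power on the closed upper half plane -/
lemma Cfg.pw (h : Cfg σ m lam β cβ θ1 C1 C3 ki c4 ρ1 R s P p G Tb) {z : ℂ} (hz : 0 ≤ z.im) :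
    ‖z‖ ^ (1 - β) * cβ ≤ ((-Complex.I * z) ^ (((1 - β : ℝ)) : ℂ)).re := by
  have h1 := re_pow (a := 1 - β) (by linarith [h.β1]) (by linarith [h.β0]) (z := -Complex.I * z)
    (by rw [negI_re]; exact hz)
  rw [negI_norm, ← h.cβe] at h1
  exact h1

lemma Cfg.G1n (h : Cfg σ m lam β cβ θ1 C1 C3 ki c4 ρ1 R s P p G Tb) {z : ℂ} (hzR : ‖z‖ ≤ R) :
    ‖G1 (m / 24) s β (m / 2) R z‖ ≤ (13 / 24) * m * max s ‖z‖ := by
  have hm := h.m0
  have hR := h.R0
  have hs := h.s0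
  have hn := norm_nonneg z
  refine (G1_norm (by positivity) hs.le (by positivity) hR z).trans ?_
  have h1 : s ^ β * ‖z‖ ^ (1 - β) ≤ max s ‖z‖ := by
    calc s ^ β * ‖z‖ ^ (1 - β) ≤ s ^ β * (max s ‖z‖) ^ (1 - β) := by
          gcongr
          · linarith [h.β1]
          · exact le_max_right _ _
      _ ≤ max s ‖z‖ := mix_le hs (le_max_left _ _) h.β0.le (by linarith [h.β1])
  have h2 : m / 2 / R * ‖z‖ ^ 2 ≤ m / 2 * max s ‖z‖ := by
    calc m / 2 / R * ‖z‖ ^ 2 = m / 2 * (‖z‖ * (‖z‖ / R)) := by field_simp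
      _ ≤ m / 2 * (‖z‖ * 1) := by
          gcongr
          rw [div_le_one hR]
          exact hzR
      _ ≤ m / 2 * max s ‖z‖ := by
          rw [mul_one]
          gcongr
          exact le_max_right _ _
  have h3 : m / 24 * s ^ β * ‖z‖ ^ (1 - β) ≤ m / 24 * max s ‖z‖ := by
    rw [mul_assoc]
    gcongr
  linarith

lemma Cfg.T_norm (h : Cfg σ m lam β cβ θ1 C1 C3 ki c4 ρ1 R s P p G Tb) {z : ℂ} (hz : z ∈ HC)
    (hzR : ‖z‖ ≤ R) : ‖TT σ m β R s p G Tb z - p.1‖ ≤ C3 * max s ‖z‖ := by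
  have hm := h.m0
  have h1 := h.G1n hzR
  have h2 := h.Gn z hz hzR
  have h3 := h.Tbn
  have hv1 : s ≤ max s ‖z‖ := le_max_left _ _
  have hv2 : ‖z‖ ≤ max s ‖z‖ := le_max_right _ _
  have hC := h.C10
  have e : TT σ m β R s p G Tb z - p.1 = Tb + σ * z + G z + G1 (m / 24) s β (m / 2) R z := by
    unfold TT
    ring
  rw [e]
  refine (norm_add₃_le (a := Tb + σ * z)).trans ?_
  have h4 : ‖Tb + σ * z‖ ≤ ‖Tb‖ + |σ| * ‖z‖ := by
    refine (norm_add_le _ _).trans ?_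
    rw [norm_mul, Complex.norm_real, Real.norm_eq_abs]
  have h5 : C1 * s ≤ C1 * max s ‖z‖ := by gcongr
  have h6 : |σ| * ‖z‖ ≤ |σ| * max s ‖z‖ := by gcongr
  have h7 : 7 / 24 * m * ‖z‖ ≤ 7 / 24 * m * max s ‖z‖ := by gcongr
  have h8 : 0 < max s ‖z‖ := lt_of_lt_of_le h.s0 hv1
  rw [h.C3e]
  nlinarith [mul_pos hm h8]

lemma Cfg.G1_im_le (h : Cfg σ m lam β cβ θ1 C1 C3 ki c4 ρ1 R s P p G Tb) {z : ℂ} (hz : 0 ≤ z.im) :
    (G1 (m / 24) s β (m / 2) R z).im ≤
      -(m / 24 * cβ * (s ^ β * ‖z‖ ^ (1 - β))) - (m / 2 / R) * (z.re ^ 2 - z.im ^ 2) := by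
  rw [G1_im]
  have h1 := h.pw hz
  have hm := h.m0
  have hs := h.s0
  have h2 : 0 ≤ m / 24 * s ^ β := by positivity
  have h3 := mul_le_mul_of_nonneg_left h1 h2
  have h4 : m / 24 * s ^ β * (‖z‖ ^ (1 - β) * cβ) = m / 24 * cβ * (s ^ β * ‖z‖ ^ (1 - β)) := by ring
  rw [h4] at h3
  linarith

lemma Cfg.T_im_le (h : Cfg σ m lam β cβ θ1 C1 C3 ki c4 ρ1 R s P p G Tb) {z : ℂ} (hz : z ∈ HC)
    (hzR : ‖z‖ ≤ R) :
    (TT σ m β R s p G Tb z).im ≤ -(m / 8) * s + (σ + m / 2) * z.im := by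
  have hz' : 0 ≤ z.im := hz
  rw [TT_im]
  have h1 := h.G1_im_le hz'
  have h2 := h.im_le z hz
  have h3 := h.Tbi
  have hm := h.m0
  have hs := h.s0
  have hR := h.R0
  have hc := h.cβ0
  have h4 : 0 ≤ m / 24 * cβ * (s ^ β * ‖z‖ ^ (1 - β)) := by positivity
  have h5 : (m / 2 / R) * z.im ^ 2 ≤ m / 2 * z.im := by
    have h6 : z.im ≤ R := (Complex.im_le_norm z).trans hzR
    calc (m / 2 / R) * z.im ^ 2 = m / 2 * (z.im * (z.im / R)) := by field_simp
      _ ≤ m / 2 * (z.im * 1) := by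
          gcongr
          rw [div_le_one hR]
          exact h6
      _ = m / 2 * z.im := by ring
  have h7 : 0 ≤ (m / 2 / R) * z.re ^ 2 := by positivity
  nlinarith

lemma Cfg.mem_Om (h : Cfg σ m lam β cβ θ1 C1 C3 ki c4 ρ1 R s P p G Tb) (hρ1 : 0 < ρ1) {z : ℂ}
    (hz : 0 < z.im) (hzR : ‖z‖ ≤ R) :
    ‖TT σ m β R s p G Tb z - p.1‖ ≤ ρ1 / 2 ∧ ‖(p.2 : ℂ) + z - p.2‖ ≤ ρ1 / 2 ∧
      (TT σ m β R s p G Tb z, (p.2 : ℂ) + z) ∈ Om σ m ρ1 p := by
  have hz' : z ∈ HC := hz.le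
  have h1 := h.T_norm hz' hzR
  have h2 := h.T_im_le hz' hzR
  have hs := h.s0
  have hm := h.m0
  have hsR : s ≤ R := by linarith [h.sR, h.R0]
  have hC : 1 ≤ C3 := by
    rw [h.C3e]
    linarith [h.C10, abs_nonneg σ]
  have h3 : C3 * max s ‖z‖ ≤ C3 * R := by
    gcongr
    exact max_le hsR hzR
  have h4 := h.Rρ
  have h5 : R ≤ C3 * R := by nlinarith [h.R0]
  have e : (p.2 : ℂ) + z - p.2 = z := by ring
  refine ⟨by linarith, by rw [e]; linarith, ?_, ?_, ?_, ?_⟩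
  · show ‖TT σ m β R s p G Tb z - p.1‖ < ρ1
    linarith
  · show ‖(p.2 : ℂ) + z - p.2‖ < ρ1
    rw [e]
    linarith
  · show 0 < ((p.2 : ℂ) + z).im
    simpa using hz
  · show (TT σ m β R s p G Tb z).im < (σ + m) * ((p.2 : ℂ) + z).im
    have : ((p.2 : ℂ) + z).im = z.im := by simp
    rw [this]
    nlinarith [mul_pos hm hs, mul_pos hm hz]

lemma cone_num {m lam cβ C1 C3 ki s g X D τ I : ℝ} (hm : 0 < m) (hlam : 0 < lam) (hc : 0 < cβ)
    (hC1 : 0 < C1) (hC3 : 0 < C3) (hs : 0 < s) (hg : 0 ≤ g) (hX : 0 ≤ X)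
    (hki : ki = 1 / lam + 16 * (C1 + m + 2) / m + 1 / cβ + 8 * (C3 + 1) / m + 1)
    (hD : m / 16 * s + g + m / 24 * cβ * X ≤ D)
    (hI : I ≤ g / lam + (C1 * s + m / 96 * s + (m / 24 * X + m * τ)))
    (hτ : m * τ ≤ m / 96 * s) (hτ0 : 0 ≤ τ) : 1 / ki * (I + τ) ≤ D := by
  have k1 : 0 < 1 / lam := by positivity
  have k2 : 0 < 16 * (C1 + m + 2) / m := by positivity
  have k3 : 0 < 1 / cβ := by positivity
  have k4 : 0 < 8 * (C3 + 1) / m := by positivity
  have hki0 : 0 < ki := by rw [hki]; linarith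
  have p1 : 0 < m / 16 * s := by positivity
  have p2 : 0 ≤ m / 24 * cβ * X := by positivity
  have hD0 : 0 < D := by linarith
  rw [one_div, inv_mul_le_iff₀ hki0]
  have d1 : g / lam ≤ (1 / lam) * D := by
    rw [div_eq_mul_one_div, mul_comm]
    exact mul_le_mul_of_nonneg_left (by linarith) k1.le
  have d2 : (C1 + m + 2) * s ≤ 16 * (C1 + m + 2) / m * D := by
    have h1 : s ≤ 16 / m * D := by
      rw [div_mul_eq_mul_div, le_div_iff₀ hm]
      linarith
    calc (C1 + m + 2) * s ≤ (C1 + m + 2) * (16 / m * D) := by gcongr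
      _ = _ := by ring
  have d3 : m / 24 * X ≤ 1 / cβ * D := by
    have e1 : 1 / cβ * D = D / cβ := by ring
    rw [e1, le_div_iff₀ hc]
    calc m / 24 * X * cβ = m / 24 * cβ * X := by ring
      _ ≤ D := by linarith
  have d4 : 0 ≤ 8 * (C3 + 1) / m * D := by positivity
  have d5 : τ ≤ s := by
    have h1 : m * τ ≤ m * s := by
      have : m / 96 * s ≤ m * s := by nlinarith [mul_pos hm hs]
      linarith
    exact le_of_mul_le_mul_left h1 hm
  have d6 : m / 96 * s + m * τ ≤ m * s := by nlinarith [mul_pos hm hs]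
  have e : ki * D = 1 / lam * D + 16 * (C1 + m + 2) / m * D + 1 / cβ * D +
      8 * (C3 + 1) / m * D + D := by rw [hki]; ring
  rw [e]
  have d7 : (C1 + m + 2) * s = C1 * s + m * s + 2 * s := by ring
  linarith

/-- the real side -/
lemma Cfg.real_side (h : Cfg σ m lam β cβ θ1 C1 C3 ki c4 ρ1 R s P p G Tb)
    (saw : ∀ x : ℝ, |x| ≤ R →
      lam * infDist (p.1 + σ * x + (G x).re, p.2 + x) P ≤ -(G x).im)
    {z : ℂ} (hz : 0 < z.im) (hzR : ‖z‖ ≤ R) (hG : ‖G z - G (z.re : ℂ)‖ ≤ m / 96 * s)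
    (hσ : |σ| * z.im ≤ m / 96 * s) (hμ : m * z.im ≤ m / 96 * s) :
    c4 * (s ^ β * (max s ‖z‖) ^ (1 - β)) ≤ -(TT σ m β R s p G Tb z).im ∧
    1 / ki * (infDist ((TT σ m β R s p G Tb z).re, p.2 + z.re) P + z.im) ≤
      -(TT σ m β R s p G Tb z).im := by
  have hm := h.m0
  have hs := h.s0
  have hR := h.R0
  have hc := h.cβ0
  have hβ0 := h.β0
  have hβ1 := h.β1
  have hlam := h.lam0
  have hxR : |z.re| ≤ R := (Complex.abs_re_le_norm z).trans hzR
  have hx := saw z.re hxR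
  have hxim := h.im_le (z.re : ℂ) (by simp [HC])
  set X : ℝ := s ^ β * ‖z‖ ^ (1 - β) with hX
  have hX0 : 0 ≤ X := by positivity
  set g : ℝ := -(G (z.re : ℂ)).im with hg
  have hg0 : 0 ≤ g := by linarith
  have hGi : |(G z).im - (G (z.re : ℂ)).im| ≤ m / 96 * s := by
    have := Complex.abs_im_le_norm (G z - G (z.re : ℂ))
    rw [Complex.sub_im] at this
    exact this.trans hG
  have hGr : |(G z).re - (G (z.re : ℂ)).re| ≤ m / 96 * s := by
    have := Complex.abs_re_le_norm (G z - G (z.re : ℂ))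
    rw [Complex.sub_re] at this
    exact this.trans hG
  obtain ⟨hGi1, hGi2⟩ := abs_le.1 hGi
  have hzim : z.im ≤ R := (Complex.im_le_norm z).trans hzR
  have e1 : (m / 2 / R) * z.im ^ 2 ≤ m / 2 * z.im := by
    calc (m / 2 / R) * z.im ^ 2 = m / 2 * (z.im * (z.im / R)) := by field_simp
      _ ≤ m / 2 * (z.im * 1) := by
          gcongr
          rw [div_le_one hR]
          exact hzim
      _ = m / 2 * z.im := by ring
  have e2 : 0 ≤ (m / 2 / R) * z.re ^ 2 := by positivity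
  have e3 : σ * z.im ≤ |σ| * z.im := mul_le_mul_of_nonneg_right (le_abs_self σ) hz.le
  have hTb := h.Tbi
  have hGI := h.G1_im_le hz.le
  -- the depth
  have hD : m / 16 * s + g + m / 24 * cβ * X ≤ -(TT σ m β R s p G Tb z).im := by
    rw [TT_im]
    have e4 : (m / 2 / R) * (z.re ^ 2 - z.im ^ 2) =
      (m / 2 / R) * z.re ^ 2 - (m / 2 / R) * z.im ^ 2 := by ring
    rw [e4] at hGI
    nlinarith [mul_pos hm hs]
  set D : ℝ := -(TT σ m β R s p G Tb z).im with hDdef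
  have hD0 : 0 < D := by
    have : 0 < m / 16 * s := by positivity
    have : 0 ≤ m / 24 * cβ * X := by positivity
    linarith
  have hcX : 0 ≤ m / 24 * cβ * X := by positivity
  constructor
  · rcases le_total ‖z‖ s with h1 | h1
    · rw [max_eq_left h1]
      have e5 : s ^ β * s ^ (1 - β) = s := by
        rw [← Real.rpow_add hs]
        simp
      rw [e5]
      nlinarith [h.c4a, h.c40]
    · rw [max_eq_right h1]
      have : c4 * X ≤ m / 24 * cβ * X := mul_le_mul_of_nonneg_right h.c4b hX0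
      have : 0 < m / 16 * s := by positivity
      linarith
  · -- the distance
    have h1 : infDist ((TT σ m β R s p G Tb z).re, p.2 + z.re) P ≤
        infDist (p.1 + σ * z.re + (G (z.re : ℂ)).re, p.2 + z.re) P +
          |(TT σ m β R s p G Tb z).re - (p.1 + σ * z.re + (G (z.re : ℂ)).re)| := by
      refine (infDist_le_infDist_add_dist
        (y := (p.1 + σ * z.re + (G (z.re : ℂ)).re, p.2 + z.re))).trans ?_
      rw [Prod.dist_eq, dist_self, Real.dist_eq]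
      simp
    have h2 : |(TT σ m β R s p G Tb z).re - (p.1 + σ * z.re + (G (z.re : ℂ)).re)| ≤
        C1 * s + m / 96 * s + (m / 24 * X + m * z.im) := by
      have e5 : (TT σ m β R s p G Tb z).re - (p.1 + σ * z.re + (G (z.re : ℂ)).re) =
          Tb.re + ((G z).re - (G (z.re : ℂ)).re) + (G1 (m / 24) s β (m / 2) R z).re := by
        rw [TT_re]
        ring
      rw [e5]
      have e6 : |Tb.re| ≤ C1 * s := (Complex.abs_re_le_norm _).trans h.Tbn
      have e7 : |(G1 (m / 24) s β (m / 2) R z).re| ≤ m / 24 * X + m * z.im := by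
        rw [G1_re]
        refine (abs_add_le _ _).trans ?_
        have e8 : |m / 24 * s ^ β * ((-Complex.I * z) ^ (((1 - β : ℝ)) : ℂ)).im| ≤ m / 24 * X := by
          rw [abs_mul, abs_of_nonneg (by positivity : 0 ≤ m / 24 * s ^ β)]
          have e9 := Complex.abs_im_le_norm ((-Complex.I * z) ^ (((1 - β : ℝ)) : ℂ))
          rw [Complex.norm_cpow_real, negI_norm] at e9
          calc m / 24 * s ^ β * |((-Complex.I * z) ^ (((1 - β : ℝ)) : ℂ)).im|
              ≤ m / 24 * s ^ β * ‖z‖ ^ (1 - β) := by gcongr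
            _ = m / 24 * X := by rw [hX]; ring
        have e10 : |m / 2 / R * (2 * z.re * z.im)| ≤ m * z.im := by
          rw [abs_mul, abs_mul, abs_mul, abs_of_nonneg (by positivity : 0 ≤ m / 2 / R), abs_two,
            abs_of_pos hz]
          calc m / 2 / R * (2 * |z.re| * z.im) = m * (|z.re| / R) * z.im := by field_simp
            _ ≤ m * 1 * z.im := by
                gcongr
                rw [div_le_one hR]
                exact hxR
            _ = m * z.im := by ring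
        linarith
      have e11 := abs_add_three Tb.re ((G z).re - (G (z.re : ℂ)).re)
        (G1 (m / 24) s β (m / 2) R z).re
      linarith
    have h3 : infDist (p.1 + σ * z.re + (G (z.re : ℂ)).re, p.2 + z.re) P ≤ g / lam := by
      rw [le_div_iff₀ hlam, mul_comm]
      exact hx
    have hC3 : 0 < C3 := by rw [h.C3e]; linarith [abs_nonneg σ, h.C10]
    exact cone_num hm hlam hc h.C10 hC3 hs hg0 hX0 h.kie hD (h1.trans (add_le_add h3 h2)) hμ hz.le

/-- the arc near the real line -/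
lemma Cfg.arc_near (h : Cfg σ m lam β cβ θ1 C1 C3 ki c4 ρ1 R s P p G Tb)
    {z : ℂ} (hz : 0 < z.im) (hzR : ‖z‖ = R) (hzθ : z.im ≤ θ1 * R) :
    c4 * (s ^ β * (max s ‖z‖) ^ (1 - β)) ≤ -(TT σ m β R s p G Tb z).im ∧
    1 / ki * (infDist ((TT σ m β R s p G Tb z).re, p.2 + z.re) P + z.im) ≤
      -(TT σ m β R s p G Tb z).im := by
  have hm := h.m0
  have hs := h.s0
  have hR := h.R0
  have hc := h.cβ0
  have hsR : s ≤ R := by linarith [h.sR]
  have hTb := h.Tbi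
  have hGI := h.G1_im_le hz.le
  have hGim := h.im_le z hz.le
  have hθ0 := h.θ0
  have hθh := h.θh
  have hsq : z.re ^ 2 + z.im ^ 2 = R ^ 2 := by
    rw [← hzR, ← Complex.normSq_eq_norm_sq, Complex.normSq_apply]
    ring
  have hX : 0 ≤ m / 24 * cβ * (s ^ β * ‖z‖ ^ (1 - β)) := by positivity
  have h1 : z.im ^ 2 ≤ R ^ 2 / 4 := by
    have : z.im ≤ R / 2 := by nlinarith
    nlinarith
  have h2 : m / 4 * R ≤ (m / 2 / R) * (z.re ^ 2 - z.im ^ 2) := by
    have h3 : R ^ 2 / 2 ≤ z.re ^ 2 - z.im ^ 2 := by linarith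
    calc m / 4 * R = (m / 2 / R) * (R ^ 2 / 2) := by field_simp; ring
      _ ≤ _ := by gcongr
  have h4 : σ * z.im ≤ m / 8 * R := by
    calc σ * z.im ≤ |σ| * z.im := mul_le_mul_of_nonneg_right (le_abs_self σ) hz.le
      _ ≤ |σ| * (θ1 * R) := by gcongr
      _ = (|σ| * θ1) * R := by ring
      _ ≤ m / 8 * R := by gcongr; exact h.θσ
  have hD : m / 8 * R ≤ -(TT σ m β R s p G Tb z).im := by
    rw [TT_im]
    have : 0 < m / 8 * s := by positivity
    linarith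
  have hC3 : 1 ≤ C3 := by rw [h.C3e]; linarith [abs_nonneg σ, h.C10]
  constructor
  · rw [hzR, max_eq_right hsR]
    calc c4 * (s ^ β * R ^ (1 - β)) ≤ m / 8 * R := by
          have h5 := mix_le hs hsR h.β0.le (by linarith [h.β1])
          have h6 := h.c4c
          have h7 : 0 ≤ s ^ β * R ^ (1 - β) := by positivity
          have h8 := h.c40
          gcongr
      _ ≤ _ := hD
  · have hTn := h.T_norm (z := z) hz.le hzR.le
    rw [hzR, max_eq_right hsR] at hTn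
    have h5 : infDist ((TT σ m β R s p G Tb z).re, p.2 + z.re) P ≤ C3 * R := by
      refine (infDist_le_dist_of_mem h.mem).trans ?_
      rw [Prod.dist_eq]
      refine max_le ?_ ?_
      · rw [Real.dist_eq]
        have h6 := Complex.abs_re_le_norm (TT σ m β R s p G Tb z - p.1)
        rw [Complex.sub_re, Complex.ofReal_re] at h6
        exact h6.trans hTn
      · rw [Real.dist_eq]
        have h6 := Complex.abs_re_le_norm z
        show |p.2 + z.re - p.2| ≤ C3 * R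
        rw [add_sub_cancel_left]
        nlinarith
    have h6 : z.im ≤ R := by nlinarith
    have k1 : 0 < 1 / lam := by have := h.lam0; positivity
    have k2 : 0 < 16 * (C1 + m + 2) / m := by have := h.C10; positivity
    have k3 : 0 < 1 / cβ := by positivity
    have k4 : 0 < 8 * (C3 + 1) / m := by positivity
    have hki0 : 0 < ki := by rw [h.kie]; linarith
    have hki4 : 8 * (C3 + 1) / m ≤ ki := by rw [h.kie]; linarith
    rw [one_div, inv_mul_le_iff₀ hki0]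
    set D := -(TT σ m β R s p G Tb z).im with hDd
    have hD0 : 0 < D := by
      have : 0 < m / 8 * R := by positivity
      linarith
    calc infDist ((TT σ m β R s p G Tb z).re, p.2 + z.re) P + z.im ≤ (C3 + 1) * R := by linarith
      _ = 8 * (C3 + 1) / m * (m / 8 * R) := by field_simp
      _ ≤ 8 * (C3 + 1) / m * D := by gcongr
      _ ≤ ki * D := by gcongr

/-- `F` on the disc -/
lemma Cfg.final (h : Cfg σ m lam β cβ θ1 C1 C3 ki c4 ρ1 R s P p G Tb) {N K B M : ℝ}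
    (hN : 1 ≤ N) (hβN : β = 1 / (4 * N)) (hK : 0 ≤ K)
    (hBe : B = K * (C3 / c4) ^ N * C3 ^ (1 / 2 : ℝ)) (hB : 0 ≤ B) (hM : 0 ≤ M)
    (hρ1 : 0 < ρ1) (hGc : ContinuousOn G HC) (hGd : DifferentiableOn ℂ G HO)
    (saw : ∀ x : ℝ, |x| ≤ R →
      lam * infDist (p.1 + σ * x + (G x).re, p.2 + x) P ≤ -(G x).im)
    {F : ℂ × ℂ → ℂ} (hF : DifferentiableOn ℂ F (Om σ m ρ1 p))
    (hside : Side K N (1 / ki) ρ1 s P p F)
    (hmac : ∀ x : ℂ × ℂ, ‖x.1 - p.1‖ ≤ ρ1 / 2 → ‖x.2 - p.2‖ ≤ ρ1 / 2 →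
      θ1 * R ≤ x.2.im → x.1.im ≤ (σ + m / 2) * x.2.im → ‖F x‖ ≤ Real.exp M)
    {z0 : ℂ} (hz0 : s / 2 ≤ z0.im) (hz0R : ‖z0‖ < R) :
    ‖F (TT σ m β R s p G Tb z0, p.2 + z0)‖ ≤
      Real.exp ((Psi (B / Real.cos (3 / 4 * (Real.pi / 2))) (M / (θ1 * R)) s z0).re) := by
  have hm := h.m0
  have hs := h.s0
  have hR := h.R0
  have hθ := h.θ0
  have hsR : s ≤ R := by linarith [h.sR]
  have hσ := abs_nonneg σ
  -- the height `τ`
  obtain ⟨τ, hτ0, hτ1, hτσ, hτm, hτG⟩ : ∃ τ : ℝ, 0 < τ ∧ τ < s / 2 ∧ |σ| * τ ≤ m / 96 * s ∧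
      m * τ ≤ m / 96 * s ∧ ∀ z : ℂ, z.im = τ → ‖z‖ ≤ R → ‖G z - G (z.re : ℂ)‖ ≤ m / 96 * s := by
    have hKc : IsCompact (closedBall (0 : ℂ) R ∩ HC) :=
      (isCompact_closedBall _ _).inter_right (isClosed_le continuous_const Complex.continuous_im)
    have hu := hKc.uniformContinuousOn_of_continuous (hGc.mono inter_subset_right)
    rw [Metric.uniformContinuousOn_iff] at hu
    obtain ⟨δ, hδ, hu⟩ := hu (m / 96 * s) (by positivity)
    refine ⟨min (min (δ / 2) (s / 4)) (min (m / 96 * s / (|σ| + 1)) (s / 96)), ?_, ?_, ?_, ?_, ?_⟩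
    · exact lt_min (lt_min (by positivity) (by positivity)) (lt_min (by positivity) (by positivity))
    · refine ((min_le_left _ _).trans (min_le_right _ _)).trans_lt (by linarith)
    · have h1 : min (min (δ / 2) (s / 4)) (min (m / 96 * s / (|σ| + 1)) (s / 96)) ≤
          m / 96 * s / (|σ| + 1) := (min_le_right _ _).trans (min_le_left _ _)
      calc |σ| * min (min (δ / 2) (s / 4)) (min (m / 96 * s / (|σ| + 1)) (s / 96))
          ≤ |σ| * (m / 96 * s / (|σ| + 1)) := by gcongr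
        _ ≤ (|σ| + 1) * (m / 96 * s / (|σ| + 1)) := by gcongr; linarith
        _ = m / 96 * s := by field_simp
    · have h1 : min (min (δ / 2) (s / 4)) (min (m / 96 * s / (|σ| + 1)) (s / 96)) ≤ s / 96 :=
        (min_le_right _ _).trans (min_le_right _ _)
      calc m * min (min (δ / 2) (s / 4)) (min (m / 96 * s / (|σ| + 1)) (s / 96))
          ≤ m * (s / 96) := by gcongr
        _ = m / 96 * s := by ring
    · intro z hz hzR
      have hz0 : 0 ≤ z.im := by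
        rw [hz]
        exact le_min (le_min (by positivity) (by positivity)) (le_min (by positivity) (by positivity))
      have h1 : dist z (z.re : ℂ) < δ := by
        have e : z - (z.re : ℂ) = (z.im : ℂ) * Complex.I := by
          apply Complex.ext <;> simp
        rw [dist_eq_norm, e, norm_mul, Complex.norm_I, mul_one, Complex.norm_real,
          Real.norm_of_nonneg hz0, hz]
        exact ((min_le_left _ _).trans (min_le_left _ _)).trans_lt (by linarith)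
      have h2 := hu z ⟨by simpa using hzR, hz0⟩ (z.re : ℂ) ⟨by
        rw [mem_closedBall, dist_zero_right, Complex.norm_real]
        exact (Complex.abs_re_le_norm z).trans hzR, by simp [HC]⟩ h1
      rw [dist_eq_norm] at h2
      exact h2.le
  set B' : ℝ := B / Real.cos (3 / 4 * (Real.pi / 2)) with hB'
  set M' : ℝ := M / (θ1 * R) with hM'
  have hM'0 : 0 ≤ M' := by positivity
  set U : Set ℂ := ball 0 R ∩ {z | τ < z.im} with hU
  have hUo : IsOpen U := isOpen_ball.inter (isOpen_lt continuous_const Complex.continuous_im)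
  have hUc : closure U ⊆ closedBall 0 R ∩ {z | τ ≤ z.im} :=
    closure_minimal (fun z hz => ⟨ball_subset_closedBall hz.1, show τ ≤ z.im from le_of_lt hz.2⟩)
      (isClosed_closedBall.inter (isClosed_le continuous_const Complex.continuous_im))
  set f : ℂ → ℂ := fun z => F (TT σ m β R s p G Tb z, (p.2 : ℂ) + z) *
    Complex.exp (-Psi B' M' s z) with hf
  have hfd : DifferentiableOn ℂ f (closure U) := by
    intro z hz
    have hz' := hUc hz
    have hzi : 0 < z.im := lt_of_lt_of_le hτ0 hz'.2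
    have hzR : ‖z‖ ≤ R := by simpa using hz'.1
    have d0 : DifferentiableAt ℂ G z :=
      hGd.differentiableAt ((isOpen_lt continuous_const Complex.continuous_im).mem_nhds hzi)
    have d1 : DifferentiableAt ℂ (fun z => TT σ m β R s p G Tb z) z := by
      unfold TT
      exact ((by fun_prop : DifferentiableAt ℂ (fun z : ℂ => (p.1 : ℂ) + Tb + σ * z) z).add
        d0).add (G1_diff _ _ _ _ _ hzi)
    have d2 : DifferentiableAt ℂ (fun z : ℂ => (p.2 : ℂ) + z) z := by fun_prop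
    have hOm : IsOpen (Om σ m ρ1 p) := by
      have c1 : Continuous fun x : ℂ × ℂ => ‖x.1 - p.1‖ := by fun_prop
      have c2 : Continuous fun x : ℂ × ℂ => ‖x.2 - p.2‖ := by fun_prop
      have c3 : Continuous fun x : ℂ × ℂ => x.2.im := Complex.continuous_im.comp continuous_snd
      have c4 : Continuous fun x : ℂ × ℂ => x.1.im := Complex.continuous_im.comp continuous_fst
      have c5 : Continuous fun x : ℂ × ℂ => (σ + m) * x.2.im := continuous_const.mul c3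
      exact (isOpen_lt c1 continuous_const).inter ((isOpen_lt c2 continuous_const).inter
        ((isOpen_lt continuous_const c3).inter (isOpen_lt c4 c5)))
    have d3 : DifferentiableAt ℂ F (TT σ m β R s p G Tb z, (p.2 : ℂ) + z) :=
      hF.differentiableAt (hOm.mem_nhds (h.mem_Om hρ1 hzi hzR).2.2)
    have d4 : DifferentiableAt ℂ (fun z => F (TT σ m β R s p G Tb z, (p.2 : ℂ) + z)) z :=
      DifferentiableAt.comp (g := F) (f := fun z => (TT σ m β R s p G Tb z, (p.2 : ℂ) + z)) z d3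
        (d1.prodMk d2)
    exact (d4.mul ((psi_diff B' M' hs hzi).neg.cexp)).differentiableWithinAt
  have hfn : ∀ z, ‖f z‖ = ‖F (TT σ m β R s p G Tb z, (p.2 : ℂ) + z)‖ *
      Real.exp (-(Psi B' M' s z).re) := by
    intro z
    rw [hf]
    simp only
    rw [norm_mul, Complex.norm_exp, Complex.neg_re]
  have hone : ∀ z : ℂ, 0 ≤ z.im → ∀ L : ℝ, ‖F (TT σ m β R s p G Tb z, (p.2 : ℂ) + z)‖ ≤ Real.exp L →
      L ≤ B * (max s ‖z‖ / s) ^ (3 / 4 : ℝ) + M' * z.im → ‖f z‖ ≤ 1 := by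
    intro z hz L h1 h2
    rw [hfn]
    have h3 := psi_lower (M' := M') hB hs hz
    calc _ ≤ Real.exp L * Real.exp (-(Psi B' M' s z).re) := by gcongr
      _ = Real.exp (L - (Psi B' M' s z).re) := by rw [← Real.exp_add]; ring_nf
      _ ≤ 1 := by
          rw [Real.exp_le_one_iff]
          linarith
  -- points where the side estimate applies
  have hsidez : ∀ z : ℂ, 0 < z.im → ‖z‖ ≤ R →
      (c4 * (s ^ β * (max s ‖z‖) ^ (1 - β)) ≤ -(TT σ m β R s p G Tb z).im ∧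
      1 / ki * (infDist ((TT σ m β R s p G Tb z).re, p.2 + z.re) P + z.im) ≤
        -(TT σ m β R s p G Tb z).im) → ‖f z‖ ≤ 1 := by
    intro z hz hzR ⟨h1, h2⟩
    have hmem := h.mem_Om hρ1 hz hzR
    have hC3 : 1 ≤ C3 := by rw [h.C3e]; linarith [abs_nonneg σ, h.C10]
    have hv : s ≤ max s ‖z‖ := le_max_left _ _
    have hvR : max s ‖z‖ ≤ R := max_le hsR hzR
    have hv0 : 0 < max s ‖z‖ := lt_of_lt_of_le hs hv
    have e : ((p.2 : ℂ) + z).re = p.2 + z.re := by simp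
    have e' : ((p.2 : ℂ) + z).im = z.im := by simp
    have h3 := hside (TT σ m β R s p G Tb z, (p.2 : ℂ) + z) hmem.2.2.1 hmem.2.2.2.1
      hmem.2.2.2.2.1 (by
        show 1 / ki * (infDist ((TT σ m β R s p G Tb z).re, ((p.2 : ℂ) + z).re) P +
          ((p.2 : ℂ) + z).im) ≤ _
        rw [e, e']
        exact h2) (C3 * max s ‖z‖) (by nlinarith) (by nlinarith [h.Rρ])
        (h.T_norm hz.le hzR) (by
          show ‖(p.2 : ℂ) + z - p.2‖ ≤ _
          rw [add_sub_cancel_left]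
          nlinarith [le_max_right s ‖z‖])
    refine hone z hz.le _ h3 ?_
    have h4 := bound_pow hK hC3 h.c40 hN hs hv hβN h1
    rw [← hBe] at h4
    have : 0 ≤ M' * z.im := by positivity
    linarith
  have hfr : ∀ z ∈ frontier U, ‖f z‖ ≤ 1 := by
    intro z hz
    have hzc := hUc (frontier_subset_closure hz)
    have hzR : ‖z‖ ≤ R := by simpa using hzc.1
    have hzτ : τ ≤ z.im := hzc.2
    have hzi : 0 < z.im := lt_of_lt_of_le hτ0 hzτ
    have hnU : z ∉ U := by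
      rw [hUo.frontier_eq] at hz
      exact hz.2
    rcases lt_or_eq_of_le hzR with h1 | h1
    · -- the real side
      have h2 : z.im = τ := by
        refine le_antisymm ?_ hzτ
        by_contra h3
        exact hnU ⟨by simpa using h1, not_le.1 h3⟩
      refine hsidez z hzi hzR (h.real_side saw hzi hzR (hτG z h2 hzR) ?_ ?_)
      · rw [h2]; exact hτσ
      · rw [h2]; exact hτm
    · rcases le_total z.im (θ1 * R) with h2 | h2
      · exact hsidez z hzi hzR (h.arc_near hzi h1 h2)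
      · have hmem := h.mem_Om hρ1 hzi hzR
        have e' : ((p.2 : ℂ) + z).im = z.im := by simp
        have h3 := hmac (TT σ m β R s p G Tb z, (p.2 : ℂ) + z) hmem.1 hmem.2.1 (by
          show θ1 * R ≤ ((p.2 : ℂ) + z).im
          rw [e']
          exact h2) (by
          show (TT σ m β R s p G Tb z).im ≤ (σ + m / 2) * ((p.2 : ℂ) + z).im
          rw [e']
          have := h.T_im_le (z := z) hzi.le hzR
          have : 0 < m / 8 * s := by positivity
          linarith)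
        refine hone z hzi.le _ h3 ?_
        have h4 : M ≤ M' * z.im := by
          calc M = M' * (θ1 * R) := by rw [hM']; field_simp
            _ ≤ M' * z.im := by gcongr
        have : 0 ≤ B * (max s ‖z‖ / s) ^ (3 / 4 : ℝ) := by positivity
        linarith
  have hUb : Bornology.IsBounded U := isBounded_ball.subset inter_subset_left
  have hz0U : z0 ∈ closure U := subset_closure ⟨by simpa using hz0R, by
    show τ < z0.im
    linarith⟩
  have hkey := Complex.norm_le_of_forall_mem_frontier_norm_le hUb hfd.diffContOnCl hfr hz0U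
  rw [hfn, Real.exp_neg, ← div_eq_mul_inv, div_le_one (Real.exp_pos _)] at hkey
  exact hkey

end cfg


set_option maxHeartbeats 1000000 in
/-- **the single disc estimate** -/
theorem disc_est (σ m lam N R2 : ℝ) (hm : 0 < m) (hlam : 0 < lam) (hN : 1 ≤ N) (hR2 : 0 < R2) :
    ∃ kw : ℝ, 0 < kw ∧ kw ≤ 1 ∧ ∀ K : ℝ, 0 ≤ K → ∃ K' : ℝ, 0 ≤ K' ∧
      ∀ (P : Set (ℝ × ℝ)) (p : ℝ × ℝ) (rho κ : ℝ) (G : ℂ → ℂ),
        Bish σ lam P p rho κ G → |κ| ≤ m / 4 →
      ∀ ρ1 : ℝ, 0 < ρ1 → ∀ F : ℂ × ℂ → ℂ, DifferentiableOn ℂ F (Om σ m ρ1 p) →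
      ∀ᶠ s in 𝓝[>] (0 : ℝ), Side K N kw ρ1 s P p F →
        ∀ x : ℂ × ℂ, ‖x.2 - p.2 - Complex.I * s‖ ≤ s / 2 → ‖x.1 - p.1‖ ≤ R2 * s →
          x.1.im ≤ (σ - m) * x.2.im → ‖F x‖ ≤ Real.exp K' := by
  -- constants
  have hpi := Real.pi_pos
  obtain ⟨β, hβ⟩ : ∃ β : ℝ, β = 1 / (4 * N) := ⟨_, rfl⟩
  have hβ0 : 0 < β := by rw [hβ]; positivity
  have hβ1 : β ≤ 1 / 4 := by
    rw [hβ, div_le_div_iff₀ (by positivity) (by norm_num)]
    linarith
  obtain ⟨cβ, hcβ⟩ : ∃ cβ : ℝ, cβ = Real.cos ((1 - β) * (Real.pi / 2)) := ⟨_, rfl⟩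
  have hcβ0 : 0 < cβ := by
    rw [hcβ]
    apply Real.cos_pos_of_mem_Ioo
    constructor
    · nlinarith
    · nlinarith
  have hcβ1 : cβ ≤ 1 := by rw [hcβ]; exact Real.cos_le_one _
  have hσ0 := abs_nonneg σ
  obtain ⟨θ1, hθ1⟩ : ∃ θ1 : ℝ, θ1 = min (1 / 2) (m / (8 * (|σ| + 1))) := ⟨_, rfl⟩
  have hθ0 : 0 < θ1 := by
    rw [hθ1]
    exact lt_min (by norm_num) (by positivity)
  have hθh : θ1 ≤ 1 / 2 := by rw [hθ1]; exact min_le_left _ _
  have hθσ : |σ| * θ1 ≤ m / 8 := by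
    have h1 : θ1 ≤ m / (8 * (|σ| + 1)) := by rw [hθ1]; exact min_le_right _ _
    have h2 : (|σ| + 1) * θ1 ≤ m / 8 := by
      calc (|σ| + 1) * θ1 ≤ (|σ| + 1) * (m / (8 * (|σ| + 1))) := by gcongr
        _ = m / 8 := by field_simp
    nlinarith
  obtain ⟨C1, hC1⟩ : ∃ C1 : ℝ, C1 = R2 + 2 * |σ| + m := ⟨_, rfl⟩
  have hC10 : 0 < C1 := by rw [hC1]; positivity
  obtain ⟨C3, hC3⟩ : ∃ C3 : ℝ, C3 = C1 + |σ| + m + 1 := ⟨_, rfl⟩
  have hC31 : 1 ≤ C3 := by rw [hC3]; linarith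
  have hC30 : 0 < C3 := by linarith
  obtain ⟨ki, hki⟩ : ∃ ki : ℝ, ki = 1 / lam + 16 * (C1 + m + 2) / m + 1 / cβ + 8 * (C3 + 1) / m + 1 :=
    ⟨_, rfl⟩
  have k1 : 0 < 1 / lam := by positivity
  have k2 : 0 < 16 * (C1 + m + 2) / m := by positivity
  have k3 : 0 < 1 / cβ := by positivity
  have k4 : 0 < 8 * (C3 + 1) / m := by positivity
  have hki1 : 1 ≤ ki := by rw [hki]; linarith
  have hki0 : 0 < ki := by linarith
  obtain ⟨c4, hc4⟩ : ∃ c4 : ℝ, c4 = min (m / 16) (min (m / 24 * cβ) (m / 8)) := ⟨_, rfl⟩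
  have hc40 : 0 < c4 := by
    rw [hc4]
    exact lt_min (by positivity) (lt_min (by positivity) (by positivity))
  have hc4a : c4 ≤ m / 16 := by rw [hc4]; exact min_le_left _ _
  have hc4b : c4 ≤ m / 24 * cβ := by
    rw [hc4]; exact (min_le_right _ _).trans (min_le_left _ _)
  have hc4c : c4 ≤ m / 8 := by rw [hc4]; exact (min_le_right _ _).trans (min_le_right _ _)
  refine ⟨1 / ki, by positivity, by rw [div_le_one hki0]; exact hki1, fun K hK => ?_⟩
  obtain ⟨B, hB⟩ : ∃ B : ℝ, B = K * (C3 / c4) ^ N * C3 ^ (1 / 2 : ℝ) := ⟨_, rfl⟩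
  have hB0 : 0 ≤ B := by rw [hB]; positivity
  have hcc : 0 < Real.cos (3 / 4 * (Real.pi / 2)) := by
    apply Real.cos_pos_of_mem_Ioo
    constructor <;> linarith
  refine ⟨5 / 2 * (B / Real.cos (3 / 4 * (Real.pi / 2))) + 1, by positivity, ?_⟩
  intro P p rho κ G hG hκ ρ1 hρ1 F hF
  -- the derivative at zero
  obtain ⟨δ, hδ, hδG⟩ : ∃ δ > 0, ∀ z ∈ HC, ‖z‖ ≤ δ → ‖G z - κ * z‖ ≤ m / 24 * ‖z‖ := by
    have h1 := hasDerivWithinAt_iff_isLittleO.1 hG.deriv
    have h2 := h1.def (show (0 : ℝ) < m / 24 by positivity)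
    obtain ⟨δ, hδ, h3⟩ := Metric.eventually_nhds_iff.1 (eventually_nhdsWithin_iff.1 h2)
    refine ⟨δ / 2, by positivity, fun z hz hzn => ?_⟩
    have h4 := h3 (show dist z 0 < δ by rw [dist_zero_right]; linarith) hz
    rw [hG.zero, sub_zero, sub_zero, smul_eq_mul, mul_comm z] at h4
    exact h4
  obtain ⟨R, hR⟩ : ∃ R : ℝ, R = min (min rho δ) (ρ1 / (2 * C3)) := ⟨_, rfl⟩
  have hR0 : 0 < R := by
    rw [hR]
    exact lt_min (lt_min hG.rho_pos hδ) (by positivity)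
  have hRrho : R ≤ rho := by rw [hR]; exact (min_le_left _ _).trans (min_le_left _ _)
  have hRδ : R ≤ δ := by rw [hR]; exact (min_le_left _ _).trans (min_le_right _ _)
  have hRρ : C3 * R ≤ ρ1 / 2 := by
    have : R ≤ ρ1 / (2 * C3) := by rw [hR]; exact min_le_right _ _
    calc C3 * R ≤ C3 * (ρ1 / (2 * C3)) := by gcongr
      _ = ρ1 / 2 := by field_simp
  have hRρ' : R ≤ ρ1 / 2 := by nlinarith
  -- the macroscopic bound
  obtain ⟨M, hM0, hM⟩ : ∃ M : ℝ, 0 ≤ M ∧ ∀ x : ℂ × ℂ, ‖x.1 - p.1‖ ≤ ρ1 / 2 → ‖x.2 - p.2‖ ≤ ρ1 / 2 →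
      θ1 * R ≤ x.2.im → x.1.im ≤ (σ + m / 2) * x.2.im → ‖F x‖ ≤ Real.exp M := by
    set Km : Set (ℂ × ℂ) := {x | ‖x.1 - p.1‖ ≤ ρ1 / 2 ∧ ‖x.2 - p.2‖ ≤ ρ1 / 2 ∧
      θ1 * R ≤ x.2.im ∧ x.1.im ≤ (σ + m / 2) * x.2.im} with hKm
    have hc : IsClosed Km := by
      have c1 : Continuous fun x : ℂ × ℂ => ‖x.1 - p.1‖ := by fun_prop
      have c2 : Continuous fun x : ℂ × ℂ => ‖x.2 - p.2‖ := by fun_prop
      have c3 : Continuous fun x : ℂ × ℂ => x.2.im := Complex.continuous_im.comp continuous_snd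
      have c4 : Continuous fun x : ℂ × ℂ => x.1.im := Complex.continuous_im.comp continuous_fst
      exact (isClosed_le c1 continuous_const).inter ((isClosed_le c2 continuous_const).inter
        ((isClosed_le continuous_const c3).inter (isClosed_le c4 (c3.const_mul _ |> fun h => by
          simpa using h))))
    have hb : Km ⊆ closedBall ((p.1 : ℂ), (p.2 : ℂ)) (ρ1 / 2) := by
      intro x hx
      rw [mem_closedBall, Prod.dist_eq, dist_eq_norm, dist_eq_norm]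
      exact max_le hx.1 hx.2.1
    have hKc : IsCompact Km := (isCompact_closedBall _ _).of_isClosed_subset hc hb
    have hsub : Km ⊆ Om σ m ρ1 p := by
      intro x hx
      have h3 : 0 < x.2.im := lt_of_lt_of_le (by positivity) hx.2.2.1
      refine ⟨by linarith [hx.1], by linarith [hx.2.1], h3, ?_⟩
      have := hx.2.2.2
      nlinarith
    obtain ⟨C, hC⟩ := hKc.exists_bound_of_continuousOn (hF.continuousOn.mono hsub)
    refine ⟨|C|, abs_nonneg _, fun x h1 h2 h3 h4 => ?_⟩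
    calc ‖F x‖ ≤ C := hC x ⟨h1, h2, h3, h4⟩
      _ ≤ |C| := le_abs_self _
      _ ≤ Real.exp |C| := by linarith [Real.add_one_le_exp |C|]
  obtain ⟨M', hM'⟩ : ∃ M' : ℝ, M' = M / (θ1 * R) := ⟨_, rfl⟩
  have hM'0 : 0 ≤ M' := by rw [hM']; positivity
  have hev : ∀ᶠ s in 𝓝[>] (0 : ℝ), 0 < s ∧ s ≤ R / 72 ∧ M' * (3 / 2 * s) ≤ 1 := by
    have h1 : ∀ᶠ s in 𝓝[>] (0 : ℝ), 0 < s := self_mem_nhdsWithin
    have h2 : ∀ᶠ s in 𝓝[>] (0 : ℝ), s < R / 72 :=
      nhdsWithin_le_nhds (Iio_mem_nhds (by positivity))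
    have h3 : ∀ᶠ s in 𝓝[>] (0 : ℝ), s < 1 / (3 / 2 * M' + 1) :=
      nhdsWithin_le_nhds (Iio_mem_nhds (by positivity))
    filter_upwards [h1, h2, h3] with s a1 a2 a3
    refine ⟨a1, a2.le, ?_⟩
    rw [lt_div_iff₀ (by positivity)] at a3
    nlinarith
  filter_upwards [hev] with s hs3 hside x hx1 hx2 hx3
  obtain ⟨hs, hsR, hsM⟩ := hs3
  have hsR' : s ≤ R := by linarith
  -- the point
  obtain ⟨z0, hz0⟩ : ∃ z0 : ℂ, z0 = x.2 - p.2 := ⟨_, rfl⟩
  rw [← hz0] at hx1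
  have hz0i : s / 2 ≤ z0.im := by
    have h1 := Complex.abs_im_le_norm (z0 - Complex.I * s)
    have h2 : (z0 - Complex.I * s).im = z0.im - s := by simp
    rw [h2] at h1
    have := (abs_le.1 (h1.trans hx1)).1
    linarith
  have hz0n : ‖z0‖ ≤ 3 / 2 * s := by
    have h1 : ‖z0‖ ≤ ‖z0 - Complex.I * s‖ + ‖Complex.I * (s : ℂ)‖ := by
      have := norm_add_le (z0 - Complex.I * s) (Complex.I * s)
      rwa [sub_add_cancel] at this
    have h2 : ‖Complex.I * (s : ℂ)‖ = s := by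
      rw [norm_mul, Complex.norm_I, one_mul, Complex.norm_real, Real.norm_of_nonneg hs.le]
    linarith
  have hz0i0 : 0 < z0.im := by linarith
  have hz0HC : z0 ∈ HC := hz0i0.le
  have hz0R : ‖z0‖ < R := by linarith
  have hx2im : x.2.im = z0.im := by rw [hz0]; simp
  obtain ⟨Tb, hTb⟩ : ∃ Tb : ℂ, Tb = x.1 - p.1 - σ * z0 - G z0 - G1 (m / 24) s β (m / 2) R z0 :=
    ⟨_, rfl⟩
  have hGn : ∀ z ∈ HC, ‖z‖ ≤ R → ‖G z‖ ≤ 7 / 24 * m * ‖z‖ := by
    intro z hz hzn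
    have h1 := hδG z hz (hzn.trans hRδ)
    have h2 : ‖G z‖ ≤ ‖G z - κ * z‖ + ‖(κ : ℂ) * z‖ := by
      have := norm_add_le (G z - κ * z) (κ * z)
      rwa [sub_add_cancel] at this
    rw [norm_mul, Complex.norm_real, Real.norm_eq_abs] at h2
    have h3 : |κ| * ‖z‖ ≤ m / 4 * ‖z‖ := by gcongr
    linarith
  have hG1a : ‖G1 (m / 24) s β (m / 2) R z0‖ ≤ m / 24 * (3 / 2 * s) + m / 64 * s := by
    refine (G1_norm (by positivity) hs.le (by positivity) hR0 z0).trans ?_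
    have h1 : s ^ β * ‖z0‖ ^ (1 - β) ≤ 3 / 2 * s := by
      calc s ^ β * ‖z0‖ ^ (1 - β) ≤ s ^ β * (3 / 2 * s) ^ (1 - β) := by
            gcongr
            linarith
        _ ≤ 3 / 2 * s := mix_le hs (by linarith) hβ0.le (by linarith)
    have h2 : m / 2 / R * ‖z0‖ ^ 2 ≤ m / 64 * s := by
      calc m / 2 / R * ‖z0‖ ^ 2 ≤ m / 2 / R * (3 / 2 * s) ^ 2 := by gcongr
        _ = m / 2 * (9 / 4) * s * (s / R) := by ring
        _ ≤ m / 2 * (9 / 4) * s * (1 / 72) := by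
            refine mul_le_mul_of_nonneg_left ?_ (by positivity)
            rw [div_le_iff₀ hR0]
            linarith
        _ = m / 64 * s := by ring
    have h3 : m / 24 * s ^ β * ‖z0‖ ^ (1 - β) ≤ m / 24 * (3 / 2 * s) := by
      rw [mul_assoc]
      gcongr
    linarith
  have hTbi : Tb.im ≤ -(m / 8) * s := by
    have e : Tb.im = x.1.im - σ * z0.im - (G z0).im - (G1 (m / 24) s β (m / 2) R z0).im := by
      rw [hTb]
      simp
    have h1 : -(G z0).im ≤ m / 4 * z0.im + m / 24 * (3 / 2 * s) := by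
      have h2 := hδG z0 hz0HC (by linarith)
      have h3 := (abs_le.1 ((Complex.abs_im_le_norm (G z0 - κ * z0)).trans h2)).1
      have h4 : (G z0 - κ * z0).im = (G z0).im - κ * z0.im := by simp
      rw [h4] at h3
      have h5 : -κ * z0.im ≤ m / 4 * z0.im := by
        have := (abs_le.1 hκ).1
        gcongr
        linarith
      have h6 : m / 24 * ‖z0‖ ≤ m / 24 * (3 / 2 * s) := by gcongr
      linarith
    have h2 : -(G1 (m / 24) s β (m / 2) R z0).im ≤ m / 24 * (3 / 2 * s) + m / 64 * s :=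
      (neg_le_abs _).trans ((Complex.abs_im_le_norm _).trans hG1a)
    rw [hx2im] at hx3
    rw [e]
    have h3 : m * (s / 2) ≤ m * z0.im := by gcongr
    nlinarith
  have hTbn : ‖Tb‖ ≤ C1 * s := by
    have h1 : ‖Tb‖ ≤ ‖x.1 - p.1‖ + ‖(σ : ℂ) * z0‖ + ‖G z0‖ + ‖G1 (m / 24) s β (m / 2) R z0‖ := by
      rw [hTb]
      refine (norm_sub_le _ _).trans (add_le_add ?_ le_rfl)
      refine (norm_sub_le _ _).trans (add_le_add ?_ le_rfl)
      exact norm_sub_le _ _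
    have h2 : ‖(σ : ℂ) * z0‖ ≤ |σ| * (3 / 2 * s) := by
      rw [norm_mul, Complex.norm_real, Real.norm_eq_abs]
      gcongr
    have h3 : ‖G z0‖ ≤ 7 / 24 * m * (3 / 2 * s) := by
      refine (hGn z0 hz0HC hz0R.le).trans ?_
      gcongr
    rw [hC1]
    nlinarith [mul_pos hm hs, mul_nonneg hσ0 hs.le]
  have cfg : Cfg σ m lam β cβ θ1 C1 C3 ki c4 ρ1 R s P p G Tb :=
    { m0 := hm, lam0 := hlam, β0 := hβ0, β1 := hβ1, cβe := hcβ, cβ0 := hcβ0, θ0 := hθ0, θh := hθh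
      θσ := hθσ, C10 := hC10, C3e := hC3, kie := hki, c40 := hc40, c4a := hc4a, c4b := hc4b
      c4c := hc4c, R0 := hR0, Rρ := hRρ, s0 := hs, sR := hsR, mem := hG.mem, im_le := hG.im_le
      Gn := hGn, Tbi := hTbi, Tbn := hTbn }
  have hfin := cfg.final (N := N) (K := K) (B := B) (M := M) (F := F) hN hβ hK hB hB0 hM0 hρ1
    hG.cont hG.diff (fun y hy => hG.saw y (hy.trans hRrho)) hF hside hM hz0i hz0R
  have e1 : TT σ m β R s p G Tb z0 = x.1 := by
    unfold TT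
    rw [hTb]
    ring
  have e2 : (p.2 : ℂ) + z0 = x.2 := by rw [hz0]; ring
  rw [e1, e2] at hfin
  refine hfin.trans (Real.exp_le_exp.2 ?_)
  have h1 := psi_upper (B' := B / Real.cos (3 / 4 * (Real.pi / 2))) (M' := M / (θ1 * R)) (s := s)
    (by positivity) (by positivity) hs hz0n
  rw [← hM'] at h1
  rw [← hM']
  linarith

end Crest.Agent.R102.DiscEst115
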