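import Mathlib

/-!
Row 102, T1-B, step 5 (1) (helper300): the disc estimate.

`halfdisc_growth`: a holomorphic function on a half disc of radius `ρ`, bounded by
`exp (B (1 + |z|/s)^α)` on the whole boundary (`0 < α < 1`), is bounded by
`exp (C B (1 + |z|/s)^α)` inside, `C = C(α)` independent of `s, ρ`.
-/

set_option autoImplicit false

open Set Filter Topology Metric Complex

noncomputable section

namespace Crest.Agent.R102.F300

/-- upper half disc -/
def HDc (ρ : ℝ) : Set ℂ := {z | 0 < z.im ∧ ‖z‖ < ρ}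

lemma isOpen_HDc (ρ : ℝ) : IsOpen (HDc ρ) :=
  (isOpen_lt continuous_const Complex.continuous_im).inter (isOpen_lt continuous_norm continuous_const)

lemma closure_HDc_sub (ρ : ℝ) : closure (HDc ρ) ⊆ {z | 0 ≤ z.im ∧ ‖z‖ ≤ ρ} := by
  refine closure_minimal (fun z hz => ⟨hz.1.le, hz.2.le⟩) ?_
  exact (isClosed_le continuous_const Complex.continuous_im).inter
    (isClosed_le continuous_norm continuous_const)

lemma base_re {s : ℝ} (hs : 0 < s) {z : ℂ} (hz : 0 ≤ z.im) : 1 ≤ (1 - I * z / s).re := by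
  have : (I * z / s).re = -(z.im / s) := by
    rw [div_ofReal_re]; simp; ring
  rw [sub_re, one_re, this]
  have := div_nonneg hz hs.le
  linarith

lemma base_norm {s : ℝ} (hs : 0 < s) {z : ℂ} (hz : 0 ≤ z.im) :
    (1 + ‖z‖ / s) / 2 ≤ ‖1 - I * z / s‖ ∧ ‖1 - I * z / s‖ ≤ 1 + ‖z‖ / s := by
  have hn : ‖I * z / s‖ = ‖z‖ / s := by
    rw [norm_div, norm_mul, norm_I, one_mul, norm_real, Real.norm_eq_abs, abs_of_pos hs]
  have h1 := base_re hs hz
  have h2 : (1 : ℝ) ≤ ‖1 - I * z / s‖ := h1.trans (re_le_norm _)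
  have h3 : ‖I * z / s‖ ≤ ‖1 - I * z / s‖ + 0 := by
    have h4 : ‖I * z / s‖ ^ 2 ≤ ‖1 - I * z / s‖ ^ 2 := by
      rw [← normSq_eq_norm_sq, ← normSq_eq_norm_sq, normSq_apply, normSq_apply]
      have e1 : (1 - I * z / s).im = -(I * z / s).im := by simp
      have e2 : (I * z / s).re = -(z.im / s) := by
        rw [div_ofReal_re]; simp; ring
      have e3 : (1 - I * z / s).re = 1 + z.im / s := by
        rw [sub_re, one_re, e2]; ring
      rw [e1, e3, e2]
      have := div_nonneg hz hs.le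
      nlinarith
    have := abs_le_of_sq_le_sq' h4 (norm_nonneg _)
    linarith [this.2]
  constructor
  · rw [← hn]; linarith
  · calc ‖1 - I * z / s‖ ≤ ‖(1 : ℂ)‖ + ‖I * z / s‖ := norm_sub_le _ _
      _ = 1 + ‖z‖ / s := by rw [norm_one, hn]

/-- the majorant -/
def Mj (α s : ℝ) (z : ℂ) : ℂ := (1 - I * z / s) ^ (α : ℂ)

lemma Mj_bounds {α s : ℝ} (hα0 : 0 < α) (hα1 : α < 1) (hs : 0 < s) {z : ℂ} (hz : 0 ≤ z.im) :
    Real.cos (α * (Real.pi / 2)) / 2 * (1 + ‖z‖ / s) ^ α ≤ (Mj α s z).re ∧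
      ‖Mj α s z‖ ≤ (1 + ‖z‖ / s) ^ α := by
  set b : ℂ := 1 - I * z / s with hb
  have h1 := base_re hs hz
  obtain ⟨h2, h3⟩ := base_norm hs hz
  have hb0 : b ≠ 0 := by
    intro h0
    rw [← hb, h0] at h1
    simp at h1
    linarith
  have hbn : 0 < ‖b‖ := norm_pos_iff.2 hb0
  have harg : |arg b| ≤ Real.pi / 2 := by
    rw [abs_arg_le_pi_div_two_iff]
    exact zero_le_one.trans h1
  have hnorm : ‖Mj α s z‖ = ‖b‖ ^ α := by
    unfold Mj
    rw [← hb, norm_cpow_of_ne_zero hb0]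
    simp
  have hre : (Mj α s z).re = ‖b‖ ^ α * Real.cos (α * arg b) := by
    unfold Mj
    rw [← hb, cpow_def_of_ne_zero hb0, exp_re]
    have e1 : (log b * (α : ℂ)).re = α * Real.log ‖b‖ := by
      rw [re_mul_ofReal, log_re]; ring
    have e2 : (log b * (α : ℂ)).im = α * arg b := by
      rw [im_mul_ofReal, log_im]; ring
    rw [e1, e2, Real.rpow_def_of_pos hbn]
    congr 2
    ring
  have hpi := Real.pi_pos
  have hcos : Real.cos (α * (Real.pi / 2)) ≤ Real.cos (α * arg b) := by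
    rw [← Real.cos_abs (α * arg b)]
    apply Real.cos_le_cos_of_nonneg_of_le_pi (abs_nonneg _)
    · nlinarith
    · rw [abs_mul, abs_of_pos hα0]
      exact mul_le_mul_of_nonneg_left harg hα0.le
  have hcos0 : 0 < Real.cos (α * (Real.pi / 2)) := by
    apply Real.cos_pos_of_mem_Ioo
    constructor <;> nlinarith
  have h1s : 0 ≤ 1 + ‖z‖ / s := by positivity
  constructor
  · rw [hre]
    have e1 : ((1 + ‖z‖ / s) / 2) ^ α ≤ ‖b‖ ^ α := Real.rpow_le_rpow (by positivity) h2 hα0.le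
    have e2 : (1 + ‖z‖ / s) ^ α / 2 ≤ ((1 + ‖z‖ / s) / 2) ^ α := by
      rw [Real.div_rpow h1s (by norm_num)]
      have : (2 : ℝ) ^ α ≤ 2 := by
        calc (2 : ℝ) ^ α ≤ 2 ^ (1 : ℝ) := Real.rpow_le_rpow_of_exponent_le (by norm_num) hα1.le
          _ = 2 := Real.rpow_one 2
      have h2p : (0 : ℝ) < 2 ^ α := by positivity
      have h0 : 0 ≤ (1 + ‖z‖ / s) ^ α := by positivity
      exact div_le_div_of_nonneg_left h0 h2p this
    have h0 : 0 ≤ (1 + ‖z‖ / s) ^ α := by positivity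
    have h0' : 0 ≤ ‖b‖ ^ α := by positivity
    calc Real.cos (α * (Real.pi / 2)) / 2 * (1 + ‖z‖ / s) ^ α
        = (1 + ‖z‖ / s) ^ α / 2 * Real.cos (α * (Real.pi / 2)) := by ring
      _ ≤ ‖b‖ ^ α * Real.cos (α * (Real.pi / 2)) :=
          mul_le_mul_of_nonneg_right (e2.trans e1) hcos0.le
      _ ≤ ‖b‖ ^ α * Real.cos (α * arg b) := mul_le_mul_of_nonneg_left hcos h0'
  · rw [hnorm]
    exact Real.rpow_le_rpow (norm_nonneg _) h3 hα0.le

/-- **growth in a half disc** -/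
theorem halfdisc_growth {α : ℝ} (hα0 : 0 < α) (hα1 : α < 1) :
    ∃ C : ℝ, 0 < C ∧ ∀ (s ρ B : ℝ), 0 < s → 0 ≤ B → ∀ f : ℂ → ℂ,
      DiffContOnCl ℂ f (HDc ρ) →
      (∀ z ∈ frontier (HDc ρ), ‖f z‖ ≤ Real.exp (B * (1 + ‖z‖ / s) ^ α)) →
      ∀ z ∈ closure (HDc ρ), ‖f z‖ ≤ Real.exp (C * B * (1 + ‖z‖ / s) ^ α) := by
  have hpi := Real.pi_pos
  have hcos0 : 0 < Real.cos (α * (Real.pi / 2)) := by
    apply Real.cos_pos_of_mem_Ioo
    constructor <;> nlinarith
  set c0 : ℝ := Real.cos (α * (Real.pi / 2)) / 2 with hc0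
  have hc0p : 0 < c0 := by positivity
  refine ⟨1 / c0, by positivity, ?_⟩
  intro s ρ B hs hB f hf hfr z hz
  set F : ℂ → ℂ := fun z => f z * exp (-((B / c0 : ℝ) : ℂ) * Mj α s z) with hF
  have him : ∀ z ∈ closure (HDc ρ), 0 ≤ z.im := fun z hz => (closure_HDc_sub ρ hz).1
  have hMd : DiffContOnCl ℂ (Mj α s) (HDc ρ) := by
    have hslit : ∀ z ∈ closure (HDc ρ), (1 - I * z / s : ℂ) ∈ slitPlane := by
      intro z hz
      left
      exact zero_lt_one.trans_le (base_re hs (him z hz))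
    refine DifferentiableOn.diffContOnCl ?_
    intro z hz
    unfold Mj
    have h1 : DifferentiableAt ℂ (fun z : ℂ => 1 - I * z / s) z := by fun_prop
    exact (h1.cpow_const (hslit z hz)).differentiableWithinAt
  have hFd : DiffContOnCl ℂ F (HDc ρ) := by
    have h1 : DiffContOnCl ℂ (fun z => exp (-((B / c0 : ℝ) : ℂ) * Mj α s z)) (HDc ρ) := by
      have h2 : DiffContOnCl ℂ (fun z => -((B / c0 : ℝ) : ℂ) * Mj α s z) (HDc ρ) :=
        hMd.const_smul (-((B / c0 : ℝ) : ℂ))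
      exact Complex.differentiable_exp.comp_diffContOnCl h2
    exact hf.smul h1
  have hbd : Bornology.IsBounded (HDc ρ) := by
    refine (isBounded_ball (x := (0 : ℂ)) (r := ρ)).subset ?_
    intro z hz
    rw [mem_ball, dist_zero_right]
    exact hz.2
  have hFn : ∀ z ∈ closure (HDc ρ), ‖F z‖ = ‖f z‖ * Real.exp (-(B / c0) * (Mj α s z).re) := by
    intro z _
    rw [hF]
    simp only
    rw [norm_mul, norm_exp]
    congr 2
    rw [← ofReal_neg, re_ofReal_mul]
  have hfr1 : ∀ z ∈ frontier (HDc ρ), ‖F z‖ ≤ 1 := by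
    intro z hz
    have hzc : z ∈ closure (HDc ρ) := frontier_subset_closure hz
    rw [hFn z hzc]
    have h1 := (Mj_bounds hα0 hα1 hs (him z hzc)).1
    have h2 : B * (1 + ‖z‖ / s) ^ α ≤ (B / c0) * (Mj α s z).re := by
      have h3 : (B / c0) * (c0 * (1 + ‖z‖ / s) ^ α) ≤ (B / c0) * (Mj α s z).re :=
        mul_le_mul_of_nonneg_left h1 (by positivity)
      calc B * (1 + ‖z‖ / s) ^ α = (B / c0) * (c0 * (1 + ‖z‖ / s) ^ α) := by field_simp
        _ ≤ _ := h3
    calc ‖f z‖ * Real.exp (-(B / c0) * (Mj α s z).re)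
        ≤ Real.exp (B * (1 + ‖z‖ / s) ^ α) * Real.exp (-(B / c0) * (Mj α s z).re) :=
          mul_le_mul_of_nonneg_right (hfr z hz) (Real.exp_pos _).le
      _ = Real.exp (B * (1 + ‖z‖ / s) ^ α - (B / c0) * (Mj α s z).re) := by
          rw [← Real.exp_add]; congr 1; ring
      _ ≤ 1 := by
          rw [Real.exp_le_one_iff]; linarith
  have hmax := norm_le_of_forall_mem_frontier_norm_le hbd hFd hfr1 hz
  rw [hFn z hz] at hmax
  have h4 := (Mj_bounds hα0 hα1 hs (him z hz)).2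
  have h5 : (Mj α s z).re ≤ (1 + ‖z‖ / s) ^ α := (re_le_norm _).trans h4
  have h6 : ‖f z‖ ≤ Real.exp ((B / c0) * (Mj α s z).re) := by
    have h7 : Real.exp (-(B / c0) * (Mj α s z).re) * Real.exp ((B / c0) * (Mj α s z).re) = 1 := by
      rw [← Real.exp_add]
      have : -(B / c0) * (Mj α s z).re + B / c0 * (Mj α s z).re = 0 := by ring
      rw [this, Real.exp_zero]
    calc ‖f z‖ = ‖f z‖ * (Real.exp (-(B / c0) * (Mj α s z).re)
          * Real.exp ((B / c0) * (Mj α s z).re)) := by rw [h7, mul_one]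
      _ = (‖f z‖ * Real.exp (-(B / c0) * (Mj α s z).re))
          * Real.exp ((B / c0) * (Mj α s z).re) := by ring
      _ ≤ 1 * Real.exp ((B / c0) * (Mj α s z).re) :=
          mul_le_mul_of_nonneg_right hmax (Real.exp_pos _).le
      _ = _ := one_mul _
  refine h6.trans (Real.exp_le_exp.2 ?_)
  calc (B / c0) * (Mj α s z).re ≤ (B / c0) * (1 + ‖z‖ / s) ^ α :=
        mul_le_mul_of_nonneg_left h5 (by positivity)
    _ = 1 / c0 * B * (1 + ‖z‖ / s) ^ α := by ring

end Crest.Agent.R102.F300
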