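import Crest.Agent.R102.Tilt_620
import Crest.Agent.R102.BishopAsm_942
import Crest.Agent.R102.BishopDisc_120
import Crest.Agent.R102.ContactB_239
import Crest.Agent.R102.AeDeriv_532
import Crest.Agent.R102.Angular_966

/-! # R102: `Bishop120.Local` and its tilted form as theorems (helper620, assembly only) -/

namespace Crest.Agent.R102.Tilt620

theorem local_thm : Bishop120.Local :=
  BishopAsm942.local_of Bishop120.disc Contact239.contact_leaf Bishop532.aeDeriv Ang966.angular

theorem localTilt : LocalTilt := local_tilt local_thm

end Crest.Agent.R102.Tilt620
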