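import Crest.Agent.R102.DiscT_669
import Crest.Agent.R102.Chain_864
import Crest.Agent.R102.TiltF_620
import Crest.Agent.R102.Step5_613

/-! Row 102, T1-B, III.3 + III.4 + III.5 as closed theorems (helper669, assembly only). -/

namespace Crest.Agent.R102.DiscT669

theorem discEst : S5.DiscEst := discEst_of Tilt620.localTilt Chain864.sawChain

theorem step5 : S5.Step5 := S5.step5 discEst

end Crest.Agent.R102.DiscT669
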