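import Crest.Agent.R102.DiscLog_695

/-!
Row 102, T1-B, EDGE (helper695): the one-disc estimate `discLog` with the SIDE hypothesis asked
only at points of COMPARABLE depths.
-/

set_option autoImplicit false

open Set Filter Topology Metric Complex MeasureTheory
open scoped Real

noncomputable section

namespace Crest.Agent.R102.DiscLog695

open Crest.Agent.R102.Disc669
open Crest.Agent.R102.S5 (Half bl)

section Comp

variable {σ c ν A c₂ s ρ η : ℝ} {Tq zq : ℂ}

/-- on the real side the two depths are comparable -/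
lemma GD.comp (h : GD σ c ν A c₂ s ρ η Tq zq) (x : ℝ) :
    -(TT σ c ν s ρ η Tq x).im ≤
        (4 + (σ + c + 2) * A / (ν * c₂) + 12 * A / (c * c₂)) * (ZZ ν s ρ η zq x).im ∧
      (ZZ ν s ρ η zq x).im ≤
        (4 + (σ + c + 2) * A / (ν * c₂) + 12 * A / (c * c₂)) * -(TT σ c ν s ρ η Tq x).im := by
  have hσ := h.σ0
  have hc := h.c0
  have hν := h.ν0
  have hA := h.A0
  have hc2 := h.c20
  have hs := h.s0
  have hH : 0 ≤ -(HL ν s ρ x).im := by
    rw [HL_im, neg_neg]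
    have h1 := P_nonneg (ζ := (x : ℂ)) hs (by simp)
    have h2 : 0 ≤ ((x : ℂ).re ^ 2 - (x : ℂ).im ^ 2) / ρ := by
      simp only [ofReal_re, ofReal_im]
      have := h.ρ0
      have h3 : 0 ≤ x ^ 2 := sq_nonneg x
      exact div_nonneg (by simpa using h3) this.le
    positivity
  have hT : -(T1 σ c ν s ρ η Tq).im ≤ (σ + c + 2) * A * s := by
    have h1 := (abs_le.1 (Complex.abs_im_le_norm (T1 σ c ν s ρ η Tq))).1
    have h2 := h.T1_norm
    nlinarith
  have hT' : c / 4 * (c₂ * s) ≤ -(T1 σ c ν s ρ η Tq).im := by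
    have h1 := h.T1_im
    have h2 : c / 4 * (c₂ * s) ≤ c / 4 * zq.im := mul_le_mul_of_nonneg_left h.z2 (by positivity)
    linarith
  have hZ : (T2 ν s ρ η zq).im ≤ 3 * A * s := by
    have h1 := Complex.im_le_norm (T2 ν s ρ η zq)
    have h2 := h.T2_norm
    linarith
  have hZ' : ν * (c₂ * s) ≤ (T2 ν s ρ η zq).im := by
    have h1 := h.T2_im
    have h2 : ν * (c₂ * s) ≤ ν * zq.im := mul_le_mul_of_nonneg_left h.z2 hν.le
    linarith
  have e1 : -(TT σ c ν s ρ η Tq x).im = -(T1 σ c ν s ρ η Tq).im + -(HL ν s ρ x).im := by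
    rw [TT_im]; simp only [ofReal_im, mul_zero, add_zero]; ring
  have e2 : (ZZ ν s ρ η zq x).im = (T2 ν s ρ η zq).im + 1 / 4 * -(HL ν s ρ x).im := by
    rw [ZZ_im]; simp only [ofReal_im, add_zero]; ring
  rw [e1, e2]
  set H := -(HL ν s ρ x).im with hHd
  set t1 := -(T1 σ c ν s ρ η Tq).im with ht1
  set t2 := (T2 ν s ρ η zq).im with ht2
  set a := (σ + c + 2) * A / (ν * c₂) with ha
  set b := 12 * A / (c * c₂) with hb
  have ha0 : 0 ≤ a := by rw [ha]; positivity
  have hb0 : 0 ≤ b := by rw [hb]; positivity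
  have hae : a * (ν * (c₂ * s)) = (σ + c + 2) * A * s := by rw [ha]; field_simp
  have hbe : b * (c / 4 * (c₂ * s)) = 3 * A * s := by rw [hb]; field_simp; ring
  have ht2' : 0 ≤ t2 := le_trans (by positivity) hZ'
  have ht1' : 0 ≤ t1 := le_trans (by positivity) hT'
  have m1 : a * (ν * (c₂ * s)) ≤ a * t2 := mul_le_mul_of_nonneg_left hZ' ha0
  have m2 : b * (c / 4 * (c₂ * s)) ≤ b * t1 := mul_le_mul_of_nonneg_left hT' hb0
  have p1 : 0 ≤ a * H := by positivity
  have p2 : 0 ≤ b * H := by positivity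
  have p3 : 0 ≤ b * t2 := by positivity
  have p4 : 0 ≤ a * t1 := by positivity
  constructor
  · have e : (4 + a + b) * (t2 + 1 / 4 * H) =
      a * t2 + H + (4 * t2 + b * t2 + 1 / 4 * (a * H) + 1 / 4 * (b * H)) := by ring
    rw [e]
    linarith
  · have e : (4 + a + b) * (t1 + H) =
      b * t1 + 4 * H + (4 * t1 + a * t1 + a * H + b * H) := by ring
    rw [e]
    linarith

end Comp

set_option maxHeartbeats 1000000 in
/-- **DISC-LOG-C**: `discLog` with the side hypothesis only at points of comparable depths -/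
theorem discLogC (σ c A c₂ α : ℝ) (hσ : 0 ≤ σ) (hc : 0 < c) (hA : 0 < A) (hc₂ : 0 < c₂)
    (hα0 : 0 < α) (hα1 : α < 1) :
    ∃ ν > 0, ∃ C ≥ 1, ∀ (e : ℝ × ℝ) (s ρ : ℝ), 0 < s → C * s ≤ ρ →
      ∀ f : ℂ × ℂ → ℂ, DifferentiableOn ℂ f (Half e (C * ρ) σ) → ∀ B N : ℝ, 0 ≤ B → 0 ≤ N →
      (∀ T : ℝ, s ≤ T → T ≤ 2 * ρ → ∀ q : ℂ × ℂ, ‖q.1 - e.1‖ ≤ C * T → ‖q.2 - e.2‖ ≤ C * T →
        ν * T / (1 + Real.log (T / s)) ^ 2 ≤ -q.1.im →
        ν * T / (1 + Real.log (T / s)) ^ 2 ≤ q.2.im →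
        -q.1.im ≤ C * q.2.im → q.2.im ≤ C * (-q.1.im) → ‖f q‖ ≤ Real.exp (B * (T / s) ^ α)) →
      (∀ q : ℂ × ℂ, ‖q.1 - e.1‖ ≤ C * ρ → ‖q.2 - e.2‖ ≤ C * ρ → ν * ρ ≤ q.2.im →
        q.1.im ≤ σ * q.2.im - ν * ρ → ‖f q‖ ≤ Real.exp N) →
      ∀ x : ℂ × ℂ, ‖x.1‖ ≤ A → ‖x.2‖ ≤ A → c₂ ≤ x.2.im → x.1.im ≤ (σ - c) * x.2.im →
        ‖f (bl e s x)‖ ≤ Real.exp (C * (B + N * (s / ρ) ^ α)) := by
  -- constants
  set ν₀ : ℝ := min (1 / 64) (c / (8 * (σ + 1))) with hν₀
  have hν₀0 : 0 < ν₀ := by rw [hν₀]; positivity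
  have hν₀1 : ν₀ ≤ 1 / 64 := min_le_left _ _
  have hν₀2 : 8 * (σ + 1) * ν₀ ≤ c := by
    have : ν₀ ≤ c / (8 * (σ + 1)) := min_le_right _ _
    rw [le_div_iff₀ (by positivity)] at this
    linarith
  set K : ℝ := (σ + c + 3) * (A + 1) with hK
  have hK0 : 0 < K := by rw [hK]; positivity
  set κ : ℝ := Real.cos (α * (π / 2)) with hκ
  have hκ0 : 0 < κ := Real.cos_pos_of_mem_Ioo
    ⟨by nlinarith [Real.pi_pos], by nlinarith [Real.pi_pos]⟩
  set ν : ℝ := min (min (min (c * c₂ / 4) (ν₀ / 4) / 2) (min (ν₀ * c₂) (ν₀ / 16) / 2))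
    (min (ν₀ / 4) (c / 4)) with hν
  have hν0 : 0 < ν := by rw [hν]; positivity
  have hνa : ν ≤ min (c * c₂ / 4) (ν₀ / 4) / 2 := (min_le_left _ _).trans (min_le_left _ _)
  have hνb : ν ≤ min (ν₀ * c₂) (ν₀ / 16) / 2 := (min_le_left _ _).trans (min_le_right _ _)
  have hνc : ν ≤ ν₀ / 4 := (min_le_right _ _).trans (min_le_left _ _)
  have hνd : ν ≤ c / 4 := (min_le_right _ _).trans (min_le_right _ _)
  set D : ℝ := 4 + (σ + c + 2) * A / (ν₀ * c₂) + 12 * A / (c * c₂) with hD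
  have hD0 : 0 ≤ D := by rw [hD]; positivity
  set C : ℝ := 2 * K + 1 + A + 2 * (1 + A) / κ + D with hC
  have hCD : D ≤ C := by
    have : 0 ≤ 2 * (1 + A) / κ := by positivity
    rw [hC]; linarith
  have hC1 : 1 ≤ C := by
    have : 0 ≤ 2 * (1 + A) / κ := by positivity
    rw [hC]; linarith
  have hCK : 2 * K < C := by
    have : 0 ≤ 2 * (1 + A) / κ := by positivity
    rw [hC]; linarith
  have hCA : A ≤ C := by
    have : 0 ≤ 2 * (1 + A) / κ := by positivity
    rw [hC]; linarith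
  have hCκ : 2 * (1 + A) / κ ≤ C := by rw [hC]; linarith
  refine ⟨ν, hν0, C, hC1, ?_⟩
  intro e s ρ hs hsρ f hf B N hB hN hside harc x hx1 hx2 hx3 hx4
  have hρ : 0 < ρ := lt_of_lt_of_le (by positivity) hsρ
  have hsρ1 : s ≤ ρ := le_trans (by nlinarith) hsρ
  have hAs : A * s ≤ ρ := le_trans (mul_le_mul_of_nonneg_right hCA hs.le) hsρ
  -- the point
  set Tq : ℂ := s * x.1 with hTq
  set zq : ℂ := s * x.2 with hzq
  have hTq_im : Tq.im = s * x.1.im := by rw [hTq, Complex.im_ofReal_mul]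
  have hzq_im : zq.im = s * x.2.im := by rw [hzq, Complex.im_ofReal_mul]
  set η : ℝ := (1 - 2 * ν₀) * zq.im with hη
  have h : GD σ c ν₀ A c₂ s ρ η Tq zq := by
    refine ⟨hσ, hc, hν₀0, hν₀1, hν₀2, hA, hc₂, hs, hAs, hsρ1, ?_, ?_, ?_, ?_, rfl⟩
    · rw [hTq, norm_mul, Complex.norm_of_nonneg hs.le, mul_comm]
      exact mul_le_mul_of_nonneg_right hx1 hs.le
    · rw [hzq, norm_mul, Complex.norm_of_nonneg hs.le, mul_comm]
      exact mul_le_mul_of_nonneg_right hx2 hs.le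
    · rw [hzq_im, mul_comm c₂ s]
      exact mul_le_mul_of_nonneg_left hx3 hs.le
    · rw [hTq_im, hzq_im]
      calc s * x.1.im ≤ s * ((σ - c) * x.2.im) := mul_le_mul_of_nonneg_left hx4 hs.le
        _ = _ := by ring
  have hPh : Ph σ c ν₀ s ρ η Tq zq e (η * I) = bl e s x := by
    unfold Ph bl
    rw [TT_at, ZZ_at]
  -- the majorant
  set B' : ℝ := (2 * B + N * (s / ρ) ^ α) / κ with hB'
  have hsr : 0 ≤ (s / ρ) ^ α := by positivity
  have hB'0 : 0 ≤ B' := by rw [hB']; positivity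
  have hmaj : ∀ ζ : ℂ, ‖ζ‖ ≤ ρ → 0 ≤ ζ.im → (ζ.im = 0 ∨ ‖ζ‖ = ρ) →
      ‖f (Ph σ c ν₀ s ρ η Tq zq e ζ)‖ ≤ Real.exp (Maj B' s 0 α ζ).re := by
    intro ζ h1 h2 h3
    have h4 := Maj_re_ge (N := 0) hs hB'0 le_rfl hα0 hα1 h2
    rw [zero_mul, add_zero] at h4
    have h5 : B' * κ = 2 * B + N * (s / ρ) ^ α := by
      rw [hB']; field_simp
    rw [← hκ, h5] at h4
    have hTn := h.TT_norm h2 h1
    have hZn := h.ZZ_norm h2 h1
    rw [← hK] at hTn hZn
    rcases h3 with h3 | h3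
    · -- real side
      have hre : ζ = (ζ.re : ℂ) := by
        apply Complex.ext <;> simp [h3]
      set t : ℝ := ζ.re with ht
      have hnt : ‖ζ‖ = |t| := by rw [hre, Complex.norm_real, Real.norm_eq_abs]
      rw [hre] at hTn hZn ⊢
      rw [Complex.norm_real, Real.norm_eq_abs] at hTn hZn
      have hT1 : s ≤ s + |t| := by linarith [abs_nonneg t]
      have hT2 : s + |t| ≤ 2 * ρ := by rw [hnt] at h1; linarith
      have hKC : K ≤ C := by linarith
      have hst : 0 ≤ s + |t| := by positivity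
      have hb1 := h.real_depth t
      have hb2 := h.real_w t
      have hel : ell s |t| = 1 + Real.log ((s + |t|) / s) := rfl
      rw [hel] at hb1 hb2
      have hel1 := ell_ge (t := |t|) hs (abs_nonneg t)
      rw [hel] at hel1
      have hq : 0 ≤ (s + |t|) / (1 + Real.log ((s + |t|) / s)) ^ 2 := by positivity
      have hcmp := h.comp t
      rw [← hD] at hcmp
      have hz0' : 0 ≤ (ZZ ν₀ s ρ η zq t).im := le_trans (by positivity) hb2
      have ht0' : 0 ≤ -(TT σ c ν₀ s ρ η Tq t).im := le_trans (by positivity) hb1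
      have h6 := hside (s + |t|) hT1 hT2 (Ph σ c ν₀ s ρ η Tq zq e t)
        (by
          show ‖((e.1 : ℂ) + TT σ c ν₀ s ρ η Tq t) - e.1‖ ≤ _
          rw [add_sub_cancel_left]
          exact hTn.trans (mul_le_mul_of_nonneg_right hKC hst))
        (by
          show ‖((e.2 : ℂ) + ZZ ν₀ s ρ η zq t) - e.2‖ ≤ _
          rw [add_sub_cancel_left]
          exact hZn.trans (mul_le_mul_of_nonneg_right hKC hst))
        (by
          show _ ≤ -((e.1 : ℂ) + TT σ c ν₀ s ρ η Tq t).im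
          rw [add_im, ofReal_im, zero_add, mul_div_assoc]
          exact (mul_le_mul_of_nonneg_right hνa hq).trans hb1)
        (by
          show _ ≤ ((e.2 : ℂ) + ZZ ν₀ s ρ η zq t).im
          rw [add_im, ofReal_im, zero_add, mul_div_assoc]
          exact (mul_le_mul_of_nonneg_right hνb hq).trans hb2)
        (by
          show -((e.1 : ℂ) + TT σ c ν₀ s ρ η Tq t).im ≤
            C * ((e.2 : ℂ) + ZZ ν₀ s ρ η zq t).im
          rw [add_im, ofReal_im, zero_add, add_im, ofReal_im, zero_add]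
          exact hcmp.1.trans (mul_le_mul_of_nonneg_right hCD hz0'))
        (by
          show ((e.2 : ℂ) + ZZ ν₀ s ρ η zq t).im ≤
            C * -((e.1 : ℂ) + TT σ c ν₀ s ρ η Tq t).im
          rw [add_im, ofReal_im, zero_add, add_im, ofReal_im, zero_add]
          exact hcmp.2.trans (mul_le_mul_of_nonneg_right hCD ht0'))
      refine h6.trans (Real.exp_le_exp.2 ?_)
      rw [hre, Complex.norm_real, Real.norm_eq_abs] at h4
      refine le_trans ?_ h4
      have h7 : (s + |t|) / s ≤ 2 * max 1 (|t| / s) := by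
        rw [add_div, div_self hs.ne']
        have a1 := le_max_left 1 (|t| / s)
        have a2 := le_max_right 1 (|t| / s)
        linarith
      have hm1 : 1 ≤ max 1 (|t| / s) := le_max_left _ _
      have h8 : ((s + |t|) / s) ^ α ≤ 2 * (max 1 (|t| / s)) ^ α := by
        calc ((s + |t|) / s) ^ α ≤ (2 * max 1 (|t| / s)) ^ α :=
              Real.rpow_le_rpow (by positivity) h7 hα0.le
          _ = 2 ^ α * (max 1 (|t| / s)) ^ α := Real.mul_rpow (by norm_num) (by positivity)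
          _ ≤ 2 * (max 1 (|t| / s)) ^ α := by
              refine mul_le_mul_of_nonneg_right ?_ (by positivity)
              calc (2 : ℝ) ^ α ≤ 2 ^ (1 : ℝ) :=
                    Real.rpow_le_rpow_of_exponent_le (by norm_num) hα1.le
                _ = 2 := Real.rpow_one 2
      have h9 : B * ((s + |t|) / s) ^ α ≤ 2 * B * (max 1 (|t| / s)) ^ α := by
        calc B * ((s + |t|) / s) ^ α ≤ B * (2 * (max 1 (|t| / s)) ^ α) :=
              mul_le_mul_of_nonneg_left h8 hB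
          _ = _ := by ring
      have h10 : 0 ≤ N * (s / ρ) ^ α * (max 1 (|t| / s)) ^ α := by positivity
      have h11 : (2 * B + N * (s / ρ) ^ α) * (max 1 (|t| / s)) ^ α =
        2 * B * (max 1 (|t| / s)) ^ α + N * (s / ρ) ^ α * (max 1 (|t| / s)) ^ α := by ring
      rw [h11]
      linarith
    · -- arc
      have hzr : ζ.re ^ 2 + ζ.im ^ 2 = ρ ^ 2 := by
        rw [← h3, ← Complex.normSq_eq_norm_sq, Complex.normSq_apply]; ring
      have him : ζ.im ≤ ρ := (Complex.im_le_norm ζ).trans h1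
      have hsum : ρ ≤ ζ.im + ζ.re ^ 2 / ρ := by
        have : ζ.im ^ 2 / ρ ≤ ζ.im := by
          rw [div_le_iff₀ hρ, sq]
          exact mul_le_mul_of_nonneg_left him h2
        have e1 : ζ.re ^ 2 / ρ + ζ.im ^ 2 / ρ = ρ := by
          rw [← add_div, hzr, sq, mul_div_assoc, div_self hρ.ne', mul_one]
        linarith
      have hz := h.ZZ_low h2 h1
      have hl := h.level h2 h1
      have hz0 := h.z0
      have hre0 : 0 ≤ ζ.re ^ 2 / ρ := div_nonneg (sq_nonneg _) hρ.le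
      have hbig : s + ‖ζ‖ ≤ 2 * ρ := by linarith
      have hn : K * (s + ‖ζ‖) ≤ C * ρ := by
        have a1 := mul_le_mul_of_nonneg_left hbig hK0.le
        have a2 : 2 * K * ρ ≤ C * ρ := mul_le_mul_of_nonneg_right hCK.le hρ.le
        linarith
      have h6 := harc (Ph σ c ν₀ s ρ η Tq zq e ζ)
        (by
          show ‖((e.1 : ℂ) + TT σ c ν₀ s ρ η Tq ζ) - e.1‖ ≤ _
          rw [add_sub_cancel_left]
          exact hTn.trans hn)
        (by
          show ‖((e.2 : ℂ) + ZZ ν₀ s ρ η zq ζ) - e.2‖ ≤ _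
          rw [add_sub_cancel_left]
          exact hZn.trans hn)
        (by
          show _ ≤ ((e.2 : ℂ) + ZZ ν₀ s ρ η zq ζ).im
          rw [add_im, ofReal_im, zero_add]
          have a1 : ν * ρ ≤ ν₀ / 4 * ρ := mul_le_mul_of_nonneg_right hνc hρ.le
          have a2 : ν₀ / 4 * ρ ≤ ν₀ / 4 * (ζ.im + ζ.re ^ 2 / ρ) :=
            mul_le_mul_of_nonneg_left hsum (by positivity)
          have a3 : 0 ≤ ν₀ * zq.im := by positivity
          linarith)
        (by
          show ((e.1 : ℂ) + TT σ c ν₀ s ρ η Tq ζ).im ≤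
            σ * ((e.2 : ℂ) + ZZ ν₀ s ρ η zq ζ).im - _
          rw [add_im, ofReal_im, zero_add, add_im, ofReal_im, zero_add]
          have a1 : ν * ρ ≤ ν * (ζ.im + ζ.re ^ 2 / ρ) := mul_le_mul_of_nonneg_left hsum hν0.le
          have a2 : ν * ζ.im ≤ c / 4 * ζ.im := mul_le_mul_of_nonneg_right hνd h2
          have a3 : ν * (ζ.re ^ 2 / ρ) ≤ ν₀ * (ζ.re ^ 2 / ρ) :=
            mul_le_mul_of_nonneg_right (by linarith) hre0
          have a4 : 0 ≤ c / 4 * zq.im := by positivity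
          linarith)
      refine h6.trans (Real.exp_le_exp.2 ?_)
      refine le_trans ?_ h4
      rw [h3]
      have b1 : 1 ≤ ρ / s := (one_le_div hs).2 hsρ1
      have b2 : (ρ / s) ^ α ≤ (max 1 (ρ / s)) ^ α :=
        Real.rpow_le_rpow (by positivity) (le_max_right _ _) hα0.le
      have b3 : (s / ρ) ^ α * (ρ / s) ^ α = 1 := by
        rw [← Real.mul_rpow (by positivity) (by positivity)]
        have : s / ρ * (ρ / s) = 1 := by field_simp
        rw [this, Real.one_rpow]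
      have b4 : N ≤ N * (s / ρ) ^ α * (max 1 (ρ / s)) ^ α := by
        calc N = N * ((s / ρ) ^ α * (ρ / s) ^ α) := by rw [b3, mul_one]
          _ = N * (s / ρ) ^ α * (ρ / s) ^ α := by ring
          _ ≤ _ := mul_le_mul_of_nonneg_left b2 (by positivity)
      have b5 : 0 ≤ 2 * B * (max 1 (ρ / s)) ^ α := by positivity
      have b6 : (2 * B + N * (s / ρ) ^ α) * (max 1 (ρ / s)) ^ α =
        2 * B * (max 1 (ρ / s)) ^ α + N * (s / ρ) ^ α * (max 1 (ρ / s)) ^ α := by ring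
      rw [b6]
      linarith
  -- conclusion
  have hηUD : ((η : ℂ) * I) ∈ UD ρ ∨ ‖(η : ℂ) * I‖ = ρ := by
    rcases h.ηρ.lt_or_eq with h1 | h1
    · left
      refine ⟨by rw [h.nI]; exact h1, by simpa using h.η0⟩
    · right
      rw [h.nI]; exact h1
  have hηim : 0 ≤ ((η : ℂ) * I).im := by simpa using h.η0.le
  have hval : ‖f (Ph σ c ν₀ s ρ η Tq zq e (η * I))‖ ≤
      Real.exp (Maj B' s 0 α ((η : ℂ) * I)).re := by
    rcases hηUD with h1 | h1
    · exact halfdisc_max (h.dcc hCK e hf) (Maj_diffContOnCl hs hα0 ρ)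
        (fun ζ a b c' => hmaj ζ a b c') _ h1
    · exact hmaj _ h1.le hηim (Or.inr h1)
  rw [hPh] at hval
  refine hval.trans (Real.exp_le_exp.2 ?_)
  refine (Maj_re_le hs hB'0 hα0 hα1 h.η0.le).trans ?_
  rw [zero_mul, add_zero]
  have h1 : η / s ≤ A := by
    rw [div_le_iff₀ hs]; exact h.ηA
  have h2 : B' * (1 + η / s) ≤ B' * (1 + A) := mul_le_mul_of_nonneg_left (by linarith) hB'0
  refine h2.trans ?_
  have hNs : 0 ≤ N * (s / ρ) ^ α := by positivity
  have h3 : B' * (1 + A) ≤ 2 * (1 + A) / κ * (B + N * (s / ρ) ^ α) := by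
    have e1 : B' * (1 + A) = (1 + A) / κ * (2 * B + N * (s / ρ) ^ α) := by rw [hB']; ring
    have e2 : 2 * (1 + A) / κ * (B + N * (s / ρ) ^ α) =
      (1 + A) / κ * (2 * B + 2 * (N * (s / ρ) ^ α)) := by ring
    rw [e1, e2]
    exact mul_le_mul_of_nonneg_left (by linarith) (by positivity)
  exact h3.trans (mul_le_mul_of_nonneg_right hCκ (by linarith))

end Crest.Agent.R102.DiscLog695
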