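import Crest.Agent.R102.DiscLog_695

/-!
Row 102, T1-B, EDGE (helper695): the one-disc estimate with an ABSOLUTE comparability constant.

`discLogU` : as `discLog`, but the side hypothesis is asked only at the points `q` with
`Im q.2 ≤ -Im q.1 ≤ 64 (σ + 1) Im q.2`, whatever the compact window on which the conclusion is
wanted.  The disc has a slope `μ ≤ σ - c/4` adapted to the point.
-/

set_option autoImplicit false

open Set Filter Topology Metric Complex MeasureTheory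
open scoped Real

noncomputable section

namespace Crest.Agent.R102.DiscLog695

open Crest.Agent.R102.Disc669
open Crest.Agent.R102.S5 (Half bl)

def U1 (μ ν s ρ η : ℝ) (Tq : ℂ) : ℂ := Tq - (μ : ℂ) * (η * I) - HL ν s ρ (η * I)

def UU (μ ν s ρ η : ℝ) (Tq ζ : ℂ) : ℂ := U1 μ ν s ρ η Tq + (μ : ℂ) * ζ + HL ν s ρ ζ

structure GU (σ c ν A c₂ M s ρ η μ : ℝ) (Tq zq : ℂ) : Prop where
  σ0 : 0 ≤ σ
  c0 : 0 < c
  c1 : c ≤ 1
  hν : ν = c / (64 * (σ + 1))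
  A0 : 0 < A
  c20 : 0 < c₂
  s0 : 0 < s
  As : A * s ≤ ρ
  sρ : s ≤ ρ
  Tn : ‖Tq‖ ≤ A * s
  zn : ‖zq‖ ≤ A * s
  z2 : c₂ * s ≤ zq.im
  hη : η = (1 - 2 * ν) * zq.im
  hμ : μ * η = Tq.im + c / 2 * zq.im
  μσ : μ ≤ σ - c / 4
  μM : |μ| ≤ M

section GU

variable {σ c ν A c₂ M s ρ η μ : ℝ} {Tq zq : ℂ}

lemma GU.ρ0 (h : GU σ c ν A c₂ M s ρ η μ Tq zq) : 0 < ρ := h.s0.trans_le h.sρ

lemma GU.ν0 (h : GU σ c ν A c₂ M s ρ η μ Tq zq) : 0 < ν := by
  rw [h.hν]; have := h.σ0; have := h.c0; positivity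

lemma GU.νe (h : GU σ c ν A c₂ M s ρ η μ Tq zq) : 64 * (σ + 1) * ν = c := by
  rw [h.hν]; have := h.σ0; field_simp

lemma GU.ν1 (h : GU σ c ν A c₂ M s ρ η μ Tq zq) : ν ≤ 1 / 64 := by
  have h1 := h.νe
  have h2 := h.c1
  have h3 := h.ν0
  have h4 := mul_nonneg h.σ0 h3.le
  nlinarith

lemma GU.νc (h : GU σ c ν A c₂ M s ρ η μ Tq zq) : 64 * ν ≤ c := by
  have h1 := h.νe
  have h4 := mul_nonneg h.σ0 h.ν0.le
  nlinarith

lemma GU.z0 (h : GU σ c ν A c₂ M s ρ η μ Tq zq) : 0 < zq.im :=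
  lt_of_lt_of_le (mul_pos h.c20 h.s0) h.z2

lemma GU.zA (h : GU σ c ν A c₂ M s ρ η μ Tq zq) : zq.im ≤ A * s :=
  (Complex.im_le_norm zq).trans h.zn

lemma GU.η0 (h : GU σ c ν A c₂ M s ρ η μ Tq zq) : 0 < η := by
  rw [h.hη]
  have := h.ν1
  exact mul_pos (by linarith) h.z0

lemma GU.ηz (h : GU σ c ν A c₂ M s ρ η μ Tq zq) : η ≤ zq.im := by
  rw [h.hη]
  have := h.ν0
  have := h.z0
  nlinarith

lemma GU.ηA (h : GU σ c ν A c₂ M s ρ η μ Tq zq) : η ≤ A * s := h.ηz.trans h.zA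

lemma GU.ηρ (h : GU σ c ν A c₂ M s ρ η μ Tq zq) : η ≤ ρ := h.ηA.trans h.As

lemma GU.M0 (h : GU σ c ν A c₂ M s ρ η μ Tq zq) : 0 ≤ M := (abs_nonneg μ).trans h.μM

lemma GU.nI (h : GU σ c ν A c₂ M s ρ η μ Tq zq) : ‖(η : ℂ) * I‖ = η := by
  rw [norm_mul, norm_I, mul_one, Complex.norm_of_nonneg h.η0.le]

lemma GU.Hn (h : GU σ c ν A c₂ M s ρ η μ Tq zq) : ‖HL ν s ρ (η * I)‖ ≤ 2 * ν * η := by
  have h1 := HL_norm (ν := ν) (s := s) (ρ := ρ) (ζ := (η : ℂ) * I) h.ν0.le h.s0 h.ρ0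
    (by simpa using h.η0.le) (by rw [h.nI]; exact h.ηρ)
  rwa [h.nI] at h1

lemma GU.Him (h : GU σ c ν A c₂ M s ρ η μ Tq zq) :
    |(HL ν s ρ (η * I)).im| ≤ 2 * ν * zq.im := by
  refine (Complex.abs_im_le_norm _).trans (h.Hn.trans ?_)
  have := h.ν0
  exact mul_le_mul_of_nonneg_left h.ηz (by linarith)

lemma GU.T2_eq (h : GU σ c ν A c₂ M s ρ η μ Tq zq) :
    (T2 ν s ρ η zq).im = 2 * ν * zq.im + 1 / 4 * (HL ν s ρ (η * I)).im := by
  have e : (T2 ν s ρ η zq).im = zq.im - η + 1 / 4 * (HL ν s ρ (η * I)).im := by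
    unfold T2
    rw [add_im, sub_im, Complex.im_ofReal_mul]
    simp
  rw [e]
  have := h.hη
  linarith

lemma GU.T2_im (h : GU σ c ν A c₂ M s ρ η μ Tq zq) :
    ν * zq.im ≤ (T2 ν s ρ η zq).im ∧ (T2 ν s ρ η zq).im ≤ 3 * ν * zq.im := by
  rw [h.T2_eq]
  have h1 := abs_le.1 h.Him
  have h3 : 0 < ν * zq.im := mul_pos h.ν0 h.z0
  constructor <;> linarith [h1.1, h1.2]

lemma GU.U1_eq (h : GU σ c ν A c₂ M s ρ η μ Tq zq) :
    (U1 μ ν s ρ η Tq).im = -(c / 2 * zq.im) - (HL ν s ρ (η * I)).im := by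
  unfold U1
  rw [sub_im, sub_im, Complex.im_ofReal_mul]
  have e : ((η : ℂ) * I).im = η := by simp
  rw [e, h.hμ]
  ring

lemma GU.U1_im (h : GU σ c ν A c₂ M s ρ η μ Tq zq) :
    c / 4 * zq.im ≤ -(U1 μ ν s ρ η Tq).im ∧ -(U1 μ ν s ρ η Tq).im ≤ c * zq.im := by
  rw [h.U1_eq]
  have h1 := abs_le.1 h.Him
  have h2 : 64 * ν * zq.im ≤ c * zq.im := mul_le_mul_of_nonneg_right h.νc h.z0.le
  have h3 : 0 < ν * zq.im := mul_pos h.ν0 h.z0
  constructor <;> linarith [h1.1, h1.2]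

lemma GU.U1_norm (h : GU σ c ν A c₂ M s ρ η μ Tq zq) :
    ‖U1 μ ν s ρ η Tq‖ ≤ (M + 2) * (A * s) := by
  unfold U1
  have h1 := h.Hn
  have h2 := h.Tn
  have h3 := h.ηA
  have h6 := h.ν1
  have h7 := h.η0
  have h9 : ‖(μ : ℂ) * (η * I)‖ ≤ M * η := by
    rw [norm_mul, h.nI, Complex.norm_real, Real.norm_eq_abs]
    exact mul_le_mul_of_nonneg_right h.μM h7.le
  have h10 : M * η ≤ M * (A * s) := mul_le_mul_of_nonneg_left h3 h.M0
  have h11 : 2 * ν * η ≤ 1 * (A * s) := mul_le_mul (by linarith) h3 h7.le (by linarith)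
  calc _ ≤ ‖Tq‖ + ‖(μ : ℂ) * (η * I)‖ + ‖HL ν s ρ (η * I)‖ :=
        (norm_sub_le _ _).trans (add_le_add_left (norm_sub_le _ _) _)
    _ ≤ (M + 2) * (A * s) := by linarith

lemma GU.T2_norm (h : GU σ c ν A c₂ M s ρ η μ Tq zq) : ‖T2 ν s ρ η zq‖ ≤ 3 * (A * s) := by
  unfold T2
  have h1 := h.Hn
  have h2 := h.zn
  have h3 := h.ηA
  have h6 := h.ν1
  have h7 := h.η0
  have h9 : ‖(η : ℂ) * I‖ = η := h.nI
  have h10 : ‖((1 / 4 : ℝ) : ℂ) * HL ν s ρ (η * I)‖ ≤ 1 / 4 * (2 * ν * η) := by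
    rw [norm_mul, Complex.norm_real, Real.norm_eq_abs, abs_of_pos (by norm_num)]
    exact mul_le_mul_of_nonneg_left h1 (by norm_num)
  have h11 : 2 * ν * η ≤ 1 * (A * s) := mul_le_mul (by linarith) h3 h7.le (by linarith)
  calc _ ≤ ‖zq‖ + ‖(η : ℂ) * I‖ + ‖((1 / 4 : ℝ) : ℂ) * HL ν s ρ (η * I)‖ :=
        (norm_add_le _ _).trans (add_le_add_left (norm_sub_le _ _) _)
    _ ≤ 3 * (A * s) := by linarith

lemma UU_at : UU μ ν s ρ η Tq (η * I) = Tq := by unfold UU U1; ring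

lemma UU_im (ζ : ℂ) : (UU μ ν s ρ η Tq ζ).im =
    (U1 μ ν s ρ η Tq).im + μ * ζ.im + (HL ν s ρ ζ).im := by
  unfold UU
  rw [add_im, add_im, Complex.im_ofReal_mul]

lemma GU.UU_norm (h : GU σ c ν A c₂ M s ρ η μ Tq zq) {ζ : ℂ} (hζ : 0 ≤ ζ.im) (hζρ : ‖ζ‖ ≤ ρ) :
    ‖UU μ ν s ρ η Tq ζ‖ ≤ (M + 3) * (A + 1) * (s + ‖ζ‖) := by
  unfold UU
  have h1 := h.U1_norm
  have h2 := HL_norm (ν := ν) h.ν0.le h.s0 h.ρ0 hζ hζρ
  have h3 := h.ν1
  have h4 := h.M0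
  have h6 := h.A0
  have h7 := h.s0
  have h9 : ‖(μ : ℂ) * ζ‖ ≤ M * ‖ζ‖ := by
    rw [norm_mul, Complex.norm_real, Real.norm_eq_abs]
    exact mul_le_mul_of_nonneg_right h.μM (norm_nonneg _)
  have h10 : 2 * ν * ‖ζ‖ ≤ 1 * ‖ζ‖ := mul_le_mul_of_nonneg_right (by linarith) (norm_nonneg _)
  have h11 : (0 : ℝ) ≤ ‖ζ‖ := norm_nonneg _
  calc _ ≤ ‖U1 μ ν s ρ η Tq‖ + ‖(μ : ℂ) * ζ‖ + ‖HL ν s ρ ζ‖ :=
        (norm_add_le _ _).trans (add_le_add_left (norm_add_le _ _) _)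
    _ ≤ (M + 2) * (A * s) + M * ‖ζ‖ + 1 * ‖ζ‖ := by linarith
    _ ≤ _ := by
      have e : (M + 3) * (A + 1) * (s + ‖ζ‖) - ((M + 2) * (A * s) + M * ‖ζ‖ +
        1 * ‖ζ‖) = A * s + (M + 3) * s + (M + 3) * A * ‖ζ‖ + 2 * ‖ζ‖ := by ring
      have : 0 ≤ A * s + (M + 3) * s + (M + 3) * A * ‖ζ‖ + 2 * ‖ζ‖ := by positivity
      linarith

lemma GU.ZZ_norm (h : GU σ c ν A c₂ M s ρ η μ Tq zq) {ζ : ℂ} (hζ : 0 ≤ ζ.im) (hζρ : ‖ζ‖ ≤ ρ) :
    ‖ZZ ν s ρ η zq ζ‖ ≤ (M + 3) * (A + 1) * (s + ‖ζ‖) := by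
  unfold ZZ
  have h1 := h.T2_norm
  have h2 := HL_norm (ν := ν) h.ν0.le h.s0 h.ρ0 hζ hζρ
  have h3 := h.ν1
  have h4 := h.M0
  have h6 := h.A0
  have h7 := h.s0
  have h9 : ‖((1 / 4 : ℝ) : ℂ) * HL ν s ρ ζ‖ ≤ 1 / 4 * (2 * ν * ‖ζ‖) := by
    rw [norm_mul, Complex.norm_real, Real.norm_eq_abs, abs_of_pos (by norm_num)]
    exact mul_le_mul_of_nonneg_left h2 (by norm_num)
  have h10 : 2 * ν * ‖ζ‖ ≤ 1 * ‖ζ‖ := mul_le_mul_of_nonneg_right (by linarith) (norm_nonneg _)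
  have h11 : (0 : ℝ) ≤ ‖ζ‖ := norm_nonneg _
  calc _ ≤ ‖T2 ν s ρ η zq‖ + ‖ζ‖ + ‖((1 / 4 : ℝ) : ℂ) * HL ν s ρ ζ‖ :=
        (norm_sub_le _ _).trans (add_le_add_left (norm_add_le _ _) _)
    _ ≤ 3 * (A * s) + ‖ζ‖ + 1 * ‖ζ‖ := by linarith
    _ ≤ _ := by
      have e : (M + 3) * (A + 1) * (s + ‖ζ‖) - (3 * (A * s) + ‖ζ‖ + 1 * ‖ζ‖) =
        M * A * s + (M + 3) * s + (M + 3) * A * ‖ζ‖ + (M + 1) * ‖ζ‖ := by ring
      have : 0 ≤ M * A * s + (M + 3) * s + (M + 3) * A * ‖ζ‖ + (M + 1) * ‖ζ‖ := by positivity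
      linarith

/-- `-Im H` is bounded below -/
lemma GU.H_low (h : GU σ c ν A c₂ M s ρ η μ Tq zq) {ζ : ℂ} (hζ : 0 ≤ ζ.im) (hζρ : ‖ζ‖ ≤ ρ) :
    ν * (ζ.re ^ 2 / ρ) - ν * ζ.im ≤ -(HL ν s ρ ζ).im := by
  rw [HL_im, neg_neg]
  have h1 := P_nonneg h.s0 hζ
  have h2 : ζ.im ^ 2 / ρ ≤ ζ.im := by
    rw [div_le_iff₀ h.ρ0, sq]
    exact mul_le_mul_of_nonneg_left ((Complex.im_le_norm ζ).trans hζρ) hζ
  have h3 : (ζ.re ^ 2 - ζ.im ^ 2) / ρ = ζ.re ^ 2 / ρ - ζ.im ^ 2 / ρ := by ring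
  rw [h3]
  have h4 := h.ν0
  have : ν * (ζ.re ^ 2 / ρ - ζ.im) ≤ ν * ((ζ / Lam s ζ).im + (ζ.re ^ 2 / ρ - ζ.im ^ 2 / ρ)) :=
    mul_le_mul_of_nonneg_left (by linarith) h4.le
  linarith

lemma GU.ZZ_low (h : GU σ c ν A c₂ M s ρ η μ Tq zq) {ζ : ℂ} (hζ : 0 ≤ ζ.im) (hζρ : ‖ζ‖ ≤ ρ) :
    ν * zq.im + ν / 4 * (ζ.im + ζ.re ^ 2 / ρ) ≤ (ZZ ν s ρ η zq ζ).im := by
  rw [ZZ_im]
  have h1 := h.H_low hζ hζρ
  have h2 := h.T2_im.1
  have h3 := h.ν1
  have h4 := h.ν0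
  nlinarith

lemma GU.level (h : GU σ c ν A c₂ M s ρ η μ Tq zq) {ζ : ℂ} (hζ : 0 ≤ ζ.im) (hζρ : ‖ζ‖ ≤ ρ) :
    c / 4 * zq.im + c / 8 * ζ.im + ν * (ζ.re ^ 2 / ρ) ≤
      σ * (ZZ ν s ρ η zq ζ).im - (UU μ ν s ρ η Tq ζ).im := by
  rw [ZZ_im, UU_im]
  have h1 := h.H_low hζ hζρ
  have h2 := h.T2_im.1
  have h3 := h.νe
  have h4 := h.ν0
  have h5 := h.U1_im.1
  have h6 := h.σ0
  have h7 := h.c0
  have h8 : 0 ≤ (T2 ν s ρ η zq).im := le_trans (mul_nonneg h4.le h.z0.le) h2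
  have h9 : 0 ≤ σ * (T2 ν s ρ η zq).im := mul_nonneg h6 h8
  have h10 : 0 ≤ ζ.re ^ 2 / ρ := div_nonneg (sq_nonneg _) h.ρ0.le
  have h11 : (1 + σ / 4) * (ν * (ζ.re ^ 2 / ρ) - ν * ζ.im) ≤ (1 + σ / 4) * (-(HL ν s ρ ζ).im) :=
    mul_le_mul_of_nonneg_left h1 (by linarith)
  have h12 : (1 + σ / 4) * ν * ζ.im ≤ c / 8 * ζ.im := by
    refine mul_le_mul_of_nonneg_right ?_ hζ
    nlinarith [mul_nonneg h6 h4.le]
  have h13 : 0 ≤ σ / 4 * (ν * (ζ.re ^ 2 / ρ)) := by positivity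
  have h14 : μ * ζ.im ≤ (σ - c / 4) * ζ.im := mul_le_mul_of_nonneg_right h.μσ hζ
  nlinarith

/-- depth on the real side -/
lemma GU.real_depth (h : GU σ c ν A c₂ M s ρ η μ Tq zq) (x : ℝ) :
    min (c * c₂ / 4) (ν / 4) / 2 * ((s + |x|) / ell s |x| ^ 2) ≤
      -(UU μ ν s ρ η Tq x).im := by
  rw [UU_im, HL_im]
  simp only [ofReal_im, mul_zero, add_zero, ofReal_re]
  have hl := ell_ge (t := |x|) h.s0 (abs_nonneg x)
  have h1 := P_real h.s0 x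
  have h2 := h.U1_im.1
  have h3 := h.z2
  have h4 := h.c0
  have h5 := h.ν0
  have h6 := h.s0
  have h7 := h.c20
  have hx : 0 ≤ |x| := abs_nonneg x
  have h8 : 0 ≤ x ^ 2 / ρ := div_nonneg (sq_nonneg _) h.ρ0.le
  have h9 : c / 4 * (c₂ * s) ≤ c / 4 * zq.im := mul_le_mul_of_nonneg_left h3 (by positivity)
  have hl2 : 1 ≤ ell s |x| ^ 2 := by nlinarith
  have hl0 : 0 < ell s |x| ^ 2 := by linarith
  set L := ell s |x| ^ 2 with hL
  have h10 : ν * (x ^ 2 / (s + |x|) / (4 * L)) ≤ ν * ((x : ℂ) / Lam s x).im :=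
    mul_le_mul_of_nonneg_left h1 h5.le
  have h11 : min (c * c₂ / 4) (ν / 4) ≤ c * c₂ / 4 := min_le_left _ _
  have h12 : min (c * c₂ / 4) (ν / 4) ≤ ν / 4 := min_le_right _ _
  have h13 : 0 ≤ min (c * c₂ / 4) (ν / 4) := by positivity
  set m := min (c * c₂ / 4) (ν / 4) with hm
  have key : (s + |x|) / 2 ≤ s + x ^ 2 / (s + |x|) := key_ineq h6 x
  have h14 : m / 2 * ((s + |x|) / L) ≤ m * ((s + x ^ 2 / (s + |x|)) / L) := by
    have : (s + |x|) / 2 / L ≤ (s + x ^ 2 / (s + |x|)) / L := by gcongr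
    calc m / 2 * ((s + |x|) / L) = m * ((s + |x|) / 2 / L) := by ring
      _ ≤ _ := mul_le_mul_of_nonneg_left this h13
  have h15 : m * ((s + x ^ 2 / (s + |x|)) / L) ≤ c * c₂ / 4 * s +
      ν * (x ^ 2 / (s + |x|) / (4 * L)) := by
    have e : m * ((s + x ^ 2 / (s + |x|)) / L) = m * (s / L) + m * (x ^ 2 / (s + |x|) / L) := by
      ring
    rw [e]
    have a1 : s / L ≤ s := div_le_self h6.le hl2
    have a2 : m * (s / L) ≤ c * c₂ / 4 * s := mul_le_mul h11 a1 (by positivity) (by positivity)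
    have a3 : m * (x ^ 2 / (s + |x|) / L) ≤ ν / 4 * (x ^ 2 / (s + |x|) / L) :=
      mul_le_mul_of_nonneg_right h12 (by positivity)
    have a4 : ν / 4 * (x ^ 2 / (s + |x|) / L) = ν * (x ^ 2 / (s + |x|) / (4 * L)) := by
      field_simp
    linarith
  have h16 : (x ^ 2 - 0 ^ 2) / ρ = x ^ 2 / ρ := by ring
  rw [h16]
  have h17 : 0 ≤ ν * (x ^ 2 / ρ) := by positivity
  nlinarith

/-- `Im w` on the real side -/
lemma GU.real_w (h : GU σ c ν A c₂ M s ρ η μ Tq zq) (x : ℝ) :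
    min (ν * c₂) (ν / 16) / 2 * ((s + |x|) / ell s |x| ^ 2) ≤ (ZZ ν s ρ η zq x).im := by
  rw [ZZ_im, HL_im]
  simp only [ofReal_im, add_zero, ofReal_re]
  have hl := ell_ge (t := |x|) h.s0 (abs_nonneg x)
  have h1 := P_real h.s0 x
  have h2 := h.T2_im.1
  have h3 := h.z2
  have h5 := h.ν0
  have h6 := h.s0
  have h7 := h.c20
  have hx : 0 ≤ |x| := abs_nonneg x
  have h8 : 0 ≤ x ^ 2 / ρ := div_nonneg (sq_nonneg _) h.ρ0.le
  have h9 : ν * (c₂ * s) ≤ ν * zq.im := mul_le_mul_of_nonneg_left h3 (by positivity)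
  have hl2 : 1 ≤ ell s |x| ^ 2 := by nlinarith
  have hl0 : 0 < ell s |x| ^ 2 := by linarith
  set L := ell s |x| ^ 2 with hL
  have h10 : ν * (x ^ 2 / (s + |x|) / (4 * L)) ≤ ν * ((x : ℂ) / Lam s x).im :=
    mul_le_mul_of_nonneg_left h1 h5.le
  have h11 : min (ν * c₂) (ν / 16) ≤ ν * c₂ := min_le_left _ _
  have h12 : min (ν * c₂) (ν / 16) ≤ ν / 16 := min_le_right _ _
  have h13 : 0 ≤ min (ν * c₂) (ν / 16) := by positivity
  set m := min (ν * c₂) (ν / 16) with hm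
  have key : (s + |x|) / 2 ≤ s + x ^ 2 / (s + |x|) := key_ineq h6 x
  have h14 : m / 2 * ((s + |x|) / L) ≤ m * ((s + x ^ 2 / (s + |x|)) / L) := by
    have : (s + |x|) / 2 / L ≤ (s + x ^ 2 / (s + |x|)) / L := by gcongr
    calc m / 2 * ((s + |x|) / L) = m * ((s + |x|) / 2 / L) := by ring
      _ ≤ _ := mul_le_mul_of_nonneg_left this h13
  have h15 : m * ((s + x ^ 2 / (s + |x|)) / L) ≤ ν * c₂ * s +
      1 / 4 * (ν * (x ^ 2 / (s + |x|) / (4 * L))) := by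
    have e : m * ((s + x ^ 2 / (s + |x|)) / L) = m * (s / L) + m * (x ^ 2 / (s + |x|) / L) := by
      ring
    rw [e]
    have a1 : s / L ≤ s := div_le_self h6.le hl2
    have a2 : m * (s / L) ≤ ν * c₂ * s := mul_le_mul h11 a1 (by positivity) (by positivity)
    have a3 : m * (x ^ 2 / (s + |x|) / L) ≤ ν / 16 * (x ^ 2 / (s + |x|) / L) :=
      mul_le_mul_of_nonneg_right h12 (by positivity)
    have a4 : ν / 16 * (x ^ 2 / (s + |x|) / L) = 1 / 4 * (ν * (x ^ 2 / (s + |x|) / (4 * L))) := by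
      field_simp
      try ring
    linarith
  have h16 : (x ^ 2 - 0 ^ 2) / ρ = x ^ 2 / ρ := by ring
  rw [h16]
  have h17 : 0 ≤ ν * (x ^ 2 / ρ) := by positivity
  nlinarith

/-- on the real side the two depths are comparable, with an absolute constant -/
lemma GU.comp (h : GU σ c ν A c₂ M s ρ η μ Tq zq) (x : ℝ) :
    (ZZ ν s ρ η zq x).im ≤ -(UU μ ν s ρ η Tq x).im ∧
      -(UU μ ν s ρ η Tq x).im ≤ 64 * (σ + 1) * (ZZ ν s ρ η zq x).im := by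
  have hH : 0 ≤ -(HL ν s ρ x).im := by
    rw [HL_im, neg_neg]
    have h1 := P_nonneg (ζ := (x : ℂ)) h.s0 (by simp)
    have h2 : 0 ≤ ((x : ℂ).re ^ 2 - (x : ℂ).im ^ 2) / ρ := by
      simp only [ofReal_re, ofReal_im]
      have := h.ρ0
      have h3 : 0 ≤ x ^ 2 := sq_nonneg x
      exact div_nonneg (by simpa using h3) this.le
    have := h.ν0
    positivity
  have e1 : -(UU μ ν s ρ η Tq x).im = -(U1 μ ν s ρ η Tq).im + -(HL ν s ρ x).im := by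
    rw [UU_im]; simp only [ofReal_im, mul_zero, add_zero]; ring
  have e2 : (ZZ ν s ρ η zq x).im = (T2 ν s ρ η zq).im + 1 / 4 * -(HL ν s ρ x).im := by
    rw [ZZ_im]; simp only [ofReal_im, add_zero]; ring
  rw [e1, e2]
  have h1 := h.U1_im
  have h2 := h.T2_im
  have hσ := h.σ0
  have hz := h.z0
  have h3 : 64 * ν * zq.im ≤ c * zq.im := mul_le_mul_of_nonneg_right h.νc h.z0.le
  have h4 : 64 * (σ + 1) * (ν * zq.im) = c * zq.im := by rw [← mul_assoc, h.νe]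
  have h5 : 64 * (σ + 1) * (ν * zq.im) ≤ 64 * (σ + 1) * (T2 ν s ρ η zq).im :=
    mul_le_mul_of_nonneg_left h2.1 (by positivity)
  have h0 : 0 < ν * zq.im := mul_pos h.ν0 hz
  constructor
  · linarith [h1.1, h2.2]
  · have e : 64 * (σ + 1) * ((T2 ν s ρ η zq).im + 1 / 4 * -(HL ν s ρ x).im) =
      64 * (σ + 1) * (T2 ν s ρ η zq).im + 16 * (σ + 1) * -(HL ν s ρ x).im := by ring
    rw [e]
    have h6 : 0 ≤ (16 * σ + 15) * -(HL ν s ρ x).im := by positivity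
    nlinarith [h1.2]

end GU

/-- the disc in absolute coordinates -/
def Pu (μ ν s ρ η : ℝ) (Tq zq : ℂ) (e : ℝ × ℝ) (ζ : ℂ) : ℂ × ℂ :=
  ((e.1 : ℂ) + UU μ ν s ρ η Tq ζ, (e.2 : ℂ) + ZZ ν s ρ η zq ζ)

section Pu

variable {σ c ν A c₂ M s ρ η μ : ℝ} {Tq zq : ℂ}

lemma GU.mem_Half (h : GU σ c ν A c₂ M s ρ η μ Tq zq) {C : ℝ}
    (hC : 2 * ((M + 3) * (A + 1)) < C) (e : ℝ × ℝ) {ζ : ℂ} (hζ : 0 ≤ ζ.im)
    (hζρ : ‖ζ‖ ≤ ρ) : Pu μ ν s ρ η Tq zq e ζ ∈ Half e (C * ρ) σ := by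
  have hρ := h.ρ0
  have h1 := h.UU_norm hζ hζρ
  have h2 := h.ZZ_norm hζ hζρ
  have h3 := h.ZZ_low hζ hζρ
  have h4 := h.level hζ hζρ
  have h5 := h.z0
  have hK : 0 ≤ (M + 3) * (A + 1) := by
    have := h.M0; have := h.A0
    positivity
  have h6 : (M + 3) * (A + 1) * (s + ‖ζ‖) < C * ρ := by
    have a1 : s + ‖ζ‖ ≤ 2 * ρ := by linarith [h.sρ]
    have a2 := mul_le_mul_of_nonneg_left a1 hK
    have a3 : 2 * ((M + 3) * (A + 1)) * ρ < C * ρ := mul_lt_mul_of_pos_right hC hρ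
    linarith
  have h7 : 0 ≤ ζ.re ^ 2 / ρ := div_nonneg (sq_nonneg _) hρ.le
  have hν := h.ν0
  have hc := h.c0
  have b1 := Complex.abs_re_le_norm (UU μ ν s ρ η Tq ζ)
  have b2 := abs_le.1 (Complex.abs_im_le_norm (UU μ ν s ρ η Tq ζ))
  have n1 : 0 < ν * zq.im := mul_pos hν h5
  have n2 : 0 ≤ ν / 4 * (ζ.im + ζ.re ^ 2 / ρ) := by positivity
  have n3 : 0 < c / 4 * zq.im := by positivity
  have n4 : 0 ≤ c / 8 * ζ.im := by positivity
  have n5 : 0 ≤ ν * (ζ.re ^ 2 / ρ) := by positivity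
  refine ⟨?_, ?_, ?_, ?_, ?_⟩
  · show |((e.1 : ℂ) + UU μ ν s ρ η Tq ζ).re - e.1| < C * ρ
    rw [add_re, ofReal_re, add_sub_cancel_left]
    linarith
  · show -(C * ρ) < ((e.1 : ℂ) + UU μ ν s ρ η Tq ζ).im
    rw [add_im, ofReal_im, zero_add]
    linarith [b2.1]
  · show ‖((e.2 : ℂ) + ZZ ν s ρ η zq ζ) - (e.2 : ℂ)‖ < C * ρ
    rw [add_sub_cancel_left]
    linarith
  · show 0 < ((e.2 : ℂ) + ZZ ν s ρ η zq ζ).im
    rw [add_im, ofReal_im, zero_add]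
    linarith
  · show ((e.1 : ℂ) + UU μ ν s ρ η Tq ζ).im < σ * ((e.2 : ℂ) + ZZ ν s ρ η zq ζ).im
    rw [add_im, ofReal_im, zero_add, add_im, ofReal_im, zero_add]
    linarith

lemma GU.UU_diff (h : GU σ c ν A c₂ M s ρ η μ Tq zq) {ζ : ℂ} (hζ : 0 ≤ ζ.im) :
    DifferentiableAt ℂ (UU μ ν s ρ η Tq) ζ := by
  have := HL_diff (ν := ν) (ρ := ρ) h.s0 hζ
  unfold UU
  fun_prop

lemma GU.ZZ_diff (h : GU σ c ν A c₂ M s ρ η μ Tq zq) {ζ : ℂ} (hζ : 0 ≤ ζ.im) :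
    DifferentiableAt ℂ (ZZ ν s ρ η zq) ζ := by
  have := HL_diff (ν := ν) (ρ := ρ) h.s0 hζ
  unfold ZZ
  fun_prop

lemma GU.Pu_diff (h : GU σ c ν A c₂ M s ρ η μ Tq zq) (e : ℝ × ℝ) {ζ : ℂ} (hζ : 0 ≤ ζ.im) :
    DifferentiableAt ℂ (Pu μ ν s ρ η Tq zq e) ζ := by
  unfold Pu
  exact ((differentiableAt_const _).add (h.UU_diff hζ)).prodMk
    ((differentiableAt_const _).add (h.ZZ_diff hζ))

lemma GU.dcc (h : GU σ c ν A c₂ M s ρ η μ Tq zq) {C : ℝ}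
    (hC : 2 * ((M + 3) * (A + 1)) < C) (e : ℝ × ℝ) {f : ℂ × ℂ → ℂ}
    (hf : DifferentiableOn ℂ f (Half e (C * ρ) σ)) :
    DiffContOnCl ℂ (fun ζ => f (Pu μ ν s ρ η Tq zq e ζ)) (UD ρ) := by
  have key : ∀ ζ : ℂ, 0 ≤ ζ.im → ‖ζ‖ ≤ ρ →
      DifferentiableAt ℂ (fun ζ => f (Pu μ ν s ρ η Tq zq e ζ)) ζ := by
    intro ζ h1 h2
    have h3 : DifferentiableAt ℂ f (Pu μ ν s ρ η Tq zq e ζ) :=
      hf.differentiableAt ((isOpen_Half e (C * ρ) σ).mem_nhds (h.mem_Half hC e h1 h2))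
    exact h3.comp ζ (h.Pu_diff e h1)
  refine ⟨fun z hz => (key z hz.2.le hz.1.le).differentiableWithinAt, fun z hz => ?_⟩
  have := closure_UD ρ hz
  exact (key z this.2 this.1).continuousAt.continuousWithinAt

end Pu

set_option maxHeartbeats 1000000 in
/-- **DISC-LOG-U**: absolute comparability constant `64 (σ + 1)` -/
theorem discLogU (σ c A c₂ α : ℝ) (hσ : 0 ≤ σ) (hc : 0 < c) (hA : 0 < A) (hc₂ : 0 < c₂)
    (hα0 : 0 < α) (hα1 : α < 1) :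
    ∃ ν > 0, ∃ C ≥ 1, ∀ (e : ℝ × ℝ) (s ρ : ℝ), 0 < s → C * s ≤ ρ →
      ∀ f : ℂ × ℂ → ℂ, DifferentiableOn ℂ f (Half e (C * ρ) σ) → ∀ B N : ℝ, 0 ≤ B → 0 ≤ N →
      (∀ T : ℝ, s ≤ T → T ≤ 2 * ρ → ∀ q : ℂ × ℂ, ‖q.1 - e.1‖ ≤ C * T → ‖q.2 - e.2‖ ≤ C * T →
        ν * T / (1 + Real.log (T / s)) ^ 2 ≤ -q.1.im →
        ν * T / (1 + Real.log (T / s)) ^ 2 ≤ q.2.im →
        q.2.im ≤ -q.1.im → -q.1.im ≤ 64 * (σ + 1) * q.2.im →
        ‖f q‖ ≤ Real.exp (B * (T / s) ^ α)) →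
      (∀ q : ℂ × ℂ, ‖q.1 - e.1‖ ≤ C * ρ → ‖q.2 - e.2‖ ≤ C * ρ → ν * ρ ≤ q.2.im →
        q.1.im ≤ σ * q.2.im - ν * ρ → ‖f q‖ ≤ Real.exp N) →
      ∀ x : ℂ × ℂ, ‖x.1‖ ≤ A → ‖x.2‖ ≤ A → c₂ ≤ x.2.im → x.1.im ≤ (σ - c) * x.2.im →
        ‖f (bl e s x)‖ ≤ Real.exp (C * (B + N * (s / ρ) ^ α)) := by
  -- reduce to `c ≤ 1`
  set c' : ℝ := min c 1 with hc'
  have hc'0 : 0 < c' := by rw [hc']; positivity
  have hc'1 : c' ≤ 1 := min_le_right _ _
  have hc'c : c' ≤ c := min_le_left _ _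
  -- constants
  set ν₀ : ℝ := c' / (64 * (σ + 1)) with hν₀
  have hν₀0 : 0 < ν₀ := by rw [hν₀]; positivity
  have hν₀e : 64 * (σ + 1) * ν₀ = c' := by rw [hν₀]; field_simp
  have hν₀σ : 0 ≤ σ * ν₀ := by positivity
  have hν₀1 : ν₀ ≤ 1 / 64 := by nlinarith
  set M : ℝ := 2 * A / c₂ + σ + 1 with hM
  have hM0 : 0 < M := by rw [hM]; positivity
  set K : ℝ := (M + 3) * (A + 1) with hK
  have hK0 : 0 < K := by rw [hK]; positivity
  set κ : ℝ := Real.cos (α * (π / 2)) with hκ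
  have hκ0 : 0 < κ := Real.cos_pos_of_mem_Ioo
    ⟨by nlinarith [Real.pi_pos], by nlinarith [Real.pi_pos]⟩
  set ν : ℝ := min (min (min (c' * c₂ / 4) (ν₀ / 4) / 2) (min (ν₀ * c₂) (ν₀ / 16) / 2))
    (min (ν₀ / 4) (c' / 8)) with hν
  have hν0 : 0 < ν := by rw [hν]; positivity
  have hνa : ν ≤ min (c' * c₂ / 4) (ν₀ / 4) / 2 := (min_le_left _ _).trans (min_le_left _ _)
  have hνb : ν ≤ min (ν₀ * c₂) (ν₀ / 16) / 2 := (min_le_left _ _).trans (min_le_right _ _)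
  have hνc : ν ≤ ν₀ / 4 := (min_le_right _ _).trans (min_le_left _ _)
  have hνd : ν ≤ c' / 8 := (min_le_right _ _).trans (min_le_right _ _)
  set C : ℝ := 2 * K + 1 + A + 2 * (1 + A) / κ with hC
  have hC1 : 1 ≤ C := by
    have : 0 ≤ 2 * (1 + A) / κ := by positivity
    rw [hC]; linarith
  have hCK : 2 * K < C := by
    have : 0 ≤ 2 * (1 + A) / κ := by positivity
    rw [hC]; linarith
  have hCA : A ≤ C := by
    have : 0 ≤ 2 * (1 + A) / κ := by positivity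
    rw [hC]; linarith
  have hCκ : 2 * (1 + A) / κ ≤ C := by rw [hC]; linarith
  refine ⟨ν, hν0, C, hC1, ?_⟩
  intro e s ρ hs hsρ f hf B N hB hN hside harc x hx1 hx2 hx3 hx4
  have hρ : 0 < ρ := lt_of_lt_of_le (by positivity) hsρ
  have hsρ1 : s ≤ ρ := le_trans (by nlinarith) hsρ
  have hAs : A * s ≤ ρ := le_trans (mul_le_mul_of_nonneg_right hCA hs.le) hsρ
  -- the point
  set Tq : ℂ := s * x.1 with hTq
  set zq : ℂ := s * x.2 with hzq
  have hTq_im : Tq.im = s * x.1.im := by rw [hTq, Complex.im_ofReal_mul]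
  have hzq_im : zq.im = s * x.2.im := by rw [hzq, Complex.im_ofReal_mul]
  set η : ℝ := (1 - 2 * ν₀) * zq.im with hη
  have hx20 : 0 < x.2.im := lt_of_lt_of_le hc₂ hx3
  have hzq0 : 0 < zq.im := by rw [hzq_im]; positivity
  have hη0 : 0 < η := by rw [hη]; exact mul_pos (by linarith) hzq0
  have hTqn : ‖Tq‖ ≤ A * s := by
    rw [hTq, norm_mul, Complex.norm_of_nonneg hs.le, mul_comm]
    exact mul_le_mul_of_nonneg_right hx1 hs.le
  have hzqn : ‖zq‖ ≤ A * s := by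
    rw [hzq, norm_mul, Complex.norm_of_nonneg hs.le, mul_comm]
    exact mul_le_mul_of_nonneg_right hx2 hs.le
  have hz2 : c₂ * s ≤ zq.im := by
    rw [hzq_im, mul_comm c₂ s]
    exact mul_le_mul_of_nonneg_left hx3 hs.le
  have hlv : Tq.im ≤ (σ - c') * zq.im := by
    rw [hTq_im, hzq_im]
    have h1 : (σ - c) * x.2.im ≤ (σ - c') * x.2.im :=
      mul_le_mul_of_nonneg_right (by linarith) hx20.le
    calc s * x.1.im ≤ s * ((σ - c') * x.2.im) := mul_le_mul_of_nonneg_left (hx4.trans h1) hs.le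
      _ = _ := by ring
  set μ : ℝ := (Tq.im + c' / 2 * zq.im) / η with hμ
  have hμη : μ * η = Tq.im + c' / 2 * zq.im := by rw [hμ]; field_simp
  have hμσ : μ ≤ σ - c' / 4 := by
    rw [hμ, div_le_iff₀ hη0, hη]
    have h2 : 0 ≤ ν₀ * c' := by positivity
    have h3 : (σ - c' / 2) * zq.im ≤ (σ - c' / 4) * ((1 - 2 * ν₀) * zq.im) := by
      have : 0 ≤ (c' / 4 - 2 * (σ * ν₀) + ν₀ * c' / 2) * zq.im := by
        refine mul_nonneg ?_ hzq0.le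
        nlinarith
      nlinarith
    nlinarith
  have hμM : |μ| ≤ M := by
    rw [hμ, abs_div, abs_of_pos hη0, div_le_iff₀ hη0]
    have h1 : |Tq.im + c' / 2 * zq.im| ≤ A * s + 1 / 2 * zq.im := by
      refine (abs_add_le _ _).trans ?_
      have a1 := (Complex.abs_im_le_norm Tq).trans hTqn
      have a2 : |c' / 2 * zq.im| ≤ 1 / 2 * zq.im := by
        rw [abs_of_nonneg (by positivity)]
        exact mul_le_mul_of_nonneg_right (by linarith) hzq0.le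
      linarith
    refine h1.trans ?_
    have h2 : A * s ≤ A / c₂ * zq.im := by
      rw [div_mul_eq_mul_div, le_div_iff₀ hc₂]
      have := mul_le_mul_of_nonneg_left hz2 hA.le
      linarith
    have h3 : 1 / 2 * zq.im ≤ η := by
      rw [hη]; exact mul_le_mul_of_nonneg_right (by linarith) hzq0.le
    have h4 : 0 ≤ A / c₂ := by positivity
    have h5 : A / c₂ * zq.im ≤ 2 * A / c₂ * η := by
      have := mul_le_mul_of_nonneg_left h3 h4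
      have e1 : 2 * A / c₂ * η = 2 * (A / c₂ * η) := by ring
      rw [e1]
      nlinarith
    have h6 : M * η = 2 * A / c₂ * η + σ * η + η := by rw [hM]; ring
    rw [h6]
    have h7 : 0 ≤ σ * η := by positivity
    linarith
  have h : GU σ c' ν₀ A c₂ M s ρ η μ Tq zq :=
    ⟨hσ, hc'0, hc'1, hν₀, hA, hc₂, hs, hAs, hsρ1, hTqn, hzqn, hz2, rfl, hμη, hμσ, hμM⟩
  have hPh : Pu μ ν₀ s ρ η Tq zq e (η * I) = bl e s x := by
    unfold Pu bl
    rw [UU_at, ZZ_at]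
  -- the majorant
  set B' : ℝ := (2 * B + N * (s / ρ) ^ α) / κ with hB'
  have hsr : 0 ≤ (s / ρ) ^ α := by positivity
  have hB'0 : 0 ≤ B' := by rw [hB']; positivity
  have hmaj : ∀ ζ : ℂ, ‖ζ‖ ≤ ρ → 0 ≤ ζ.im → (ζ.im = 0 ∨ ‖ζ‖ = ρ) →
      ‖f (Pu μ ν₀ s ρ η Tq zq e ζ)‖ ≤ Real.exp (Maj B' s 0 α ζ).re := by
    intro ζ h1 h2 h3
    have h4 := Maj_re_ge (N := 0) hs hB'0 le_rfl hα0 hα1 h2
    rw [zero_mul, add_zero] at h4
    have h5 : B' * κ = 2 * B + N * (s / ρ) ^ α := by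
      rw [hB']; field_simp
    rw [← hκ, h5] at h4
    have hTn := h.UU_norm h2 h1
    have hZn := h.ZZ_norm h2 h1
    rw [← hK] at hTn hZn
    rcases h3 with h3 | h3
    · -- real side
      have hre : ζ = (ζ.re : ℂ) := by
        apply Complex.ext <;> simp [h3]
      set t : ℝ := ζ.re with ht
      have hnt : ‖ζ‖ = |t| := by rw [hre, Complex.norm_real, Real.norm_eq_abs]
      rw [hre] at hTn hZn ⊢
      rw [Complex.norm_real, Real.norm_eq_abs] at hTn hZn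
      have hT1 : s ≤ s + |t| := by linarith [abs_nonneg t]
      have hT2 : s + |t| ≤ 2 * ρ := by rw [hnt] at h1; linarith
      have hKC : K ≤ C := by linarith
      have hst : 0 ≤ s + |t| := by positivity
      have hb1 := h.real_depth t
      have hb2 := h.real_w t
      have hcmp := h.comp t
      have hel : ell s |t| = 1 + Real.log ((s + |t|) / s) := rfl
      rw [hel] at hb1 hb2
      have hel1 := ell_ge (t := |t|) hs (abs_nonneg t)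
      rw [hel] at hel1
      have hq : 0 ≤ (s + |t|) / (1 + Real.log ((s + |t|) / s)) ^ 2 := by positivity
      have h6 := hside (s + |t|) hT1 hT2 (Pu μ ν₀ s ρ η Tq zq e t)
        (by
          show ‖((e.1 : ℂ) + UU μ ν₀ s ρ η Tq t) - e.1‖ ≤ _
          rw [add_sub_cancel_left]
          exact hTn.trans (mul_le_mul_of_nonneg_right hKC hst))
        (by
          show ‖((e.2 : ℂ) + ZZ ν₀ s ρ η zq t) - e.2‖ ≤ _
          rw [add_sub_cancel_left]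
          exact hZn.trans (mul_le_mul_of_nonneg_right hKC hst))
        (by
          show _ ≤ -((e.1 : ℂ) + UU μ ν₀ s ρ η Tq t).im
          rw [add_im, ofReal_im, zero_add, mul_div_assoc]
          exact (mul_le_mul_of_nonneg_right hνa hq).trans hb1)
        (by
          show _ ≤ ((e.2 : ℂ) + ZZ ν₀ s ρ η zq t).im
          rw [add_im, ofReal_im, zero_add, mul_div_assoc]
          exact (mul_le_mul_of_nonneg_right hνb hq).trans hb2)
        (by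
          show ((e.2 : ℂ) + ZZ ν₀ s ρ η zq t).im ≤ -((e.1 : ℂ) + UU μ ν₀ s ρ η Tq t).im
          rw [add_im, ofReal_im, zero_add, add_im, ofReal_im, zero_add]
          exact hcmp.1)
        (by
          show -((e.1 : ℂ) + UU μ ν₀ s ρ η Tq t).im ≤
            64 * (σ + 1) * ((e.2 : ℂ) + ZZ ν₀ s ρ η zq t).im
          rw [add_im, ofReal_im, zero_add, add_im, ofReal_im, zero_add]
          exact hcmp.2)
      refine h6.trans (Real.exp_le_exp.2 ?_)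
      rw [hre, Complex.norm_real, Real.norm_eq_abs] at h4
      refine le_trans ?_ h4
      have h7 : (s + |t|) / s ≤ 2 * max 1 (|t| / s) := by
        rw [add_div, div_self hs.ne']
        have a1 := le_max_left 1 (|t| / s)
        have a2 := le_max_right 1 (|t| / s)
        linarith
      have hm1 : 1 ≤ max 1 (|t| / s) := le_max_left _ _
      have h8 : ((s + |t|) / s) ^ α ≤ 2 * (max 1 (|t| / s)) ^ α := by
        calc ((s + |t|) / s) ^ α ≤ (2 * max 1 (|t| / s)) ^ α :=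
              Real.rpow_le_rpow (by positivity) h7 hα0.le
          _ = 2 ^ α * (max 1 (|t| / s)) ^ α := Real.mul_rpow (by norm_num) (by positivity)
          _ ≤ 2 * (max 1 (|t| / s)) ^ α := by
              refine mul_le_mul_of_nonneg_right ?_ (by positivity)
              calc (2 : ℝ) ^ α ≤ 2 ^ (1 : ℝ) :=
                    Real.rpow_le_rpow_of_exponent_le (by norm_num) hα1.le
                _ = 2 := Real.rpow_one 2
      have h9 : B * ((s + |t|) / s) ^ α ≤ 2 * B * (max 1 (|t| / s)) ^ α := by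
        calc B * ((s + |t|) / s) ^ α ≤ B * (2 * (max 1 (|t| / s)) ^ α) :=
              mul_le_mul_of_nonneg_left h8 hB
          _ = _ := by ring
      have h10 : 0 ≤ N * (s / ρ) ^ α * (max 1 (|t| / s)) ^ α := by positivity
      have h11 : (2 * B + N * (s / ρ) ^ α) * (max 1 (|t| / s)) ^ α =
        2 * B * (max 1 (|t| / s)) ^ α + N * (s / ρ) ^ α * (max 1 (|t| / s)) ^ α := by ring
      rw [h11]
      linarith
    · -- arc
      have hzr : ζ.re ^ 2 + ζ.im ^ 2 = ρ ^ 2 := by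
        rw [← h3, ← Complex.normSq_eq_norm_sq, Complex.normSq_apply]; ring
      have him : ζ.im ≤ ρ := (Complex.im_le_norm ζ).trans h1
      have hsum : ρ ≤ ζ.im + ζ.re ^ 2 / ρ := by
        have : ζ.im ^ 2 / ρ ≤ ζ.im := by
          rw [div_le_iff₀ hρ, sq]
          exact mul_le_mul_of_nonneg_left him h2
        have e1 : ζ.re ^ 2 / ρ + ζ.im ^ 2 / ρ = ρ := by
          rw [← add_div, hzr, sq, mul_div_assoc, div_self hρ.ne', mul_one]
        linarith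
      have hz := h.ZZ_low h2 h1
      have hl := h.level h2 h1
      have hz0 := h.z0
      have hre0 : 0 ≤ ζ.re ^ 2 / ρ := div_nonneg (sq_nonneg _) hρ.le
      have hbig : s + ‖ζ‖ ≤ 2 * ρ := by linarith
      have hn : K * (s + ‖ζ‖) ≤ C * ρ := by
        have a1 := mul_le_mul_of_nonneg_left hbig hK0.le
        have a2 : 2 * K * ρ ≤ C * ρ := mul_le_mul_of_nonneg_right hCK.le hρ.le
        linarith
      have h6 := harc (Pu μ ν₀ s ρ η Tq zq e ζ)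
        (by
          show ‖((e.1 : ℂ) + UU μ ν₀ s ρ η Tq ζ) - e.1‖ ≤ _
          rw [add_sub_cancel_left]
          exact hTn.trans hn)
        (by
          show ‖((e.2 : ℂ) + ZZ ν₀ s ρ η zq ζ) - e.2‖ ≤ _
          rw [add_sub_cancel_left]
          exact hZn.trans hn)
        (by
          show _ ≤ ((e.2 : ℂ) + ZZ ν₀ s ρ η zq ζ).im
          rw [add_im, ofReal_im, zero_add]
          have a1 : ν * ρ ≤ ν₀ / 4 * ρ := mul_le_mul_of_nonneg_right hνc hρ.le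
          have a2 : ν₀ / 4 * ρ ≤ ν₀ / 4 * (ζ.im + ζ.re ^ 2 / ρ) :=
            mul_le_mul_of_nonneg_left hsum (by positivity)
          have a3 : 0 ≤ ν₀ * zq.im := by positivity
          linarith)
        (by
          show ((e.1 : ℂ) + UU μ ν₀ s ρ η Tq ζ).im ≤
            σ * ((e.2 : ℂ) + ZZ ν₀ s ρ η zq ζ).im - _
          rw [add_im, ofReal_im, zero_add, add_im, ofReal_im, zero_add]
          have a1 : ν * ρ ≤ ν * (ζ.im + ζ.re ^ 2 / ρ) := mul_le_mul_of_nonneg_left hsum hν0.le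
          have a2 : ν * ζ.im ≤ c' / 8 * ζ.im := mul_le_mul_of_nonneg_right hνd h2
          have a3 : ν * (ζ.re ^ 2 / ρ) ≤ ν₀ * (ζ.re ^ 2 / ρ) :=
            mul_le_mul_of_nonneg_right (by linarith) hre0
          have a4 : 0 ≤ c' / 4 * zq.im := by positivity
          linarith)
      refine h6.trans (Real.exp_le_exp.2 ?_)
      refine le_trans ?_ h4
      rw [h3]
      have b1 : 1 ≤ ρ / s := (one_le_div hs).2 hsρ1
      have b2 : (ρ / s) ^ α ≤ (max 1 (ρ / s)) ^ α :=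
        Real.rpow_le_rpow (by positivity) (le_max_right _ _) hα0.le
      have b3 : (s / ρ) ^ α * (ρ / s) ^ α = 1 := by
        rw [← Real.mul_rpow (by positivity) (by positivity)]
        have : s / ρ * (ρ / s) = 1 := by field_simp
        rw [this, Real.one_rpow]
      have b4 : N ≤ N * (s / ρ) ^ α * (max 1 (ρ / s)) ^ α := by
        calc N = N * ((s / ρ) ^ α * (ρ / s) ^ α) := by rw [b3, mul_one]
          _ = N * (s / ρ) ^ α * (ρ / s) ^ α := by ring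
          _ ≤ _ := mul_le_mul_of_nonneg_left b2 (by positivity)
      have b5 : 0 ≤ 2 * B * (max 1 (ρ / s)) ^ α := by positivity
      have b6 : (2 * B + N * (s / ρ) ^ α) * (max 1 (ρ / s)) ^ α =
        2 * B * (max 1 (ρ / s)) ^ α + N * (s / ρ) ^ α * (max 1 (ρ / s)) ^ α := by ring
      rw [b6]
      linarith
  -- conclusion
  have hηUD : ((η : ℂ) * I) ∈ UD ρ ∨ ‖(η : ℂ) * I‖ = ρ := by
    rcases h.ηρ.lt_or_eq with h1 | h1
    · left
      refine ⟨by rw [h.nI]; exact h1, by simpa using h.η0⟩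
    · right
      rw [h.nI]; exact h1
  have hηim : 0 ≤ ((η : ℂ) * I).im := by simpa using h.η0.le
  have hval : ‖f (Pu μ ν₀ s ρ η Tq zq e (η * I))‖ ≤
      Real.exp (Maj B' s 0 α ((η : ℂ) * I)).re := by
    rcases hηUD with h1 | h1
    · exact halfdisc_max (h.dcc hCK e hf) (Maj_diffContOnCl hs hα0 ρ)
        (fun ζ a b c' => hmaj ζ a b c') _ h1
    · exact hmaj _ h1.le hηim (Or.inr h1)
  rw [hPh] at hval
  refine hval.trans (Real.exp_le_exp.2 ?_)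
  refine (Maj_re_le hs hB'0 hα0 hα1 h.η0.le).trans ?_
  rw [zero_mul, add_zero]
  have h1 : η / s ≤ A := by
    rw [div_le_iff₀ hs]; exact h.ηA
  have h2 : B' * (1 + η / s) ≤ B' * (1 + A) := mul_le_mul_of_nonneg_left (by linarith) hB'0
  refine h2.trans ?_
  have hNs : 0 ≤ N * (s / ρ) ^ α := by positivity
  have h3 : B' * (1 + A) ≤ 2 * (1 + A) / κ * (B + N * (s / ρ) ^ α) := by
    have e1 : B' * (1 + A) = (1 + A) / κ * (2 * B + N * (s / ρ) ^ α) := by rw [hB']; ring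
    have e2 : 2 * (1 + A) / κ * (B + N * (s / ρ) ^ α) =
      (1 + A) / κ * (2 * B + 2 * (N * (s / ρ) ^ α)) := by ring
    rw [e1, e2]
    exact mul_le_mul_of_nonneg_left (by linarith) (by positivity)
  exact h3.trans (mul_le_mul_of_nonneg_right hCκ (by linarith))

end Crest.Agent.R102.DiscLog695
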