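import Crest.Agent.R102.Disc5_669
import Crest.Agent.R102.Step5Defs_613

/-!
Row 102, T1-B, EDGE (helper695): the ONE-DISC estimate with summable (`log⁻²`) depths.

`discLog` : on the cone `Half e (C ρ) σ`, a holomorphic function which on the windows of scale `T`
at relative depth `ν / (1 + log (T / s))²` is bounded by `exp (B (T / s) ^ α)` and which is bounded
by `exp N` at the outer scale `ρ`, is bounded by `exp (C (B + N (s / ρ) ^ α))` on the window of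
scale `s`, up to the level `σ - c`.
-/

set_option autoImplicit false

open Set Filter Topology Metric Complex MeasureTheory
open scoped Real

noncomputable section

namespace Crest.Agent.R102.DiscLog695

open Crest.Agent.R102.Disc669
open Crest.Agent.R102.S5 (Half bl)

/-! ### the logarithmic correction -/

/-- `1 - i ζ / s` -/
def ww (s : ℝ) (ζ : ℂ) : ℂ := 1 + (-(I * ζ)) / s

/-- `1 + log (1 - i ζ / s)` -/
def Lam (s : ℝ) (ζ : ℂ) : ℂ := 1 + Complex.log (ww s ζ)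

/-- the correction of the disc -/
def HL (ν s ρ : ℝ) (ζ : ℂ) : ℂ := -(ν : ℂ) * (ζ / Lam s ζ + I * ζ ^ 2 / ρ)

section HL

variable {ν s ρ : ℝ} {ζ : ℂ}

lemma ww_re : (ww s ζ).re = 1 + ζ.im / s := by
  unfold ww
  rw [add_re, one_re, Complex.div_ofReal_re]
  simp

lemma ww_im : (ww s ζ).im = -(ζ.re / s) := by
  unfold ww
  rw [add_im, one_im, Complex.div_ofReal_im, zero_add, neg_im]
  simp
  ring

lemma ww_re_ge (hs : 0 < s) (hζ : 0 ≤ ζ.im) : 1 ≤ (ww s ζ).re := by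
  rw [ww_re]
  have : 0 ≤ ζ.im / s := by positivity
  linarith

lemma ww_norm_ge (hs : 0 < s) (hζ : 0 ≤ ζ.im) : 1 ≤ ‖ww s ζ‖ :=
  (ww_re_ge hs hζ).trans (Complex.re_le_norm _)

lemma ww_norm_le (hs : 0 < s) : ‖ww s ζ‖ ≤ 1 + ‖ζ‖ / s := by
  unfold ww
  refine (norm_add_le _ _).trans ?_
  rw [norm_one, norm_div, norm_neg, norm_mul, norm_I, one_mul, Complex.norm_of_nonneg hs.le]

lemma Lam_re : (Lam s ζ).re = 1 + Real.log ‖ww s ζ‖ := by
  unfold Lam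
  rw [add_re, one_re, Complex.log_re]

lemma Lam_im : (Lam s ζ).im = arg (ww s ζ) := by
  unfold Lam
  rw [add_im, one_im, Complex.log_im, zero_add]

lemma Lam_re_ge (hs : 0 < s) (hζ : 0 ≤ ζ.im) : 1 ≤ (Lam s ζ).re := by
  rw [Lam_re]
  have := Real.log_nonneg (ww_norm_ge hs hζ)
  linarith

lemma Lam_norm_ge (hs : 0 < s) (hζ : 0 ≤ ζ.im) : 1 ≤ ‖Lam s ζ‖ :=
  (Lam_re_ge hs hζ).trans (Complex.re_le_norm _)

lemma Lam_ne (hs : 0 < s) (hζ : 0 ≤ ζ.im) : Lam s ζ ≠ 0 := by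
  intro h
  have := Lam_norm_ge hs hζ
  rw [h, norm_zero] at this
  linarith

lemma normSq_pos (hs : 0 < s) (hζ : 0 ≤ ζ.im) : 0 < normSq (Lam s ζ) :=
  Complex.normSq_pos.2 (Lam_ne hs hζ)

lemma re_mul_arg (hs : 0 < s) : ζ.re * arg (ww s ζ) ≤ 0 := by
  rcases le_total 0 ζ.re with h | h
  · have h1 : (ww s ζ).im ≤ 0 := by
      rw [ww_im]
      have : 0 ≤ ζ.re / s := by positivity
      linarith
    rcases h1.lt_or_eq with h2 | h2
    · have := Complex.arg_neg_iff.2 h2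
      exact mul_nonpos_of_nonneg_of_nonpos h this.le
    · have h3 : ζ.re = 0 := by
        rw [ww_im, neg_eq_zero, div_eq_zero_iff] at h2
        exact h2.resolve_right hs.ne'
      rw [h3, zero_mul]
  · have h1 : 0 ≤ (ww s ζ).im := by
      rw [ww_im]
      have : ζ.re / s ≤ 0 := div_nonpos_of_nonpos_of_nonneg h hs.le
      linarith
    exact mul_nonpos_of_nonpos_of_nonneg h (Complex.arg_nonneg_iff.2 h1)

lemma P_eq : (ζ / Lam s ζ).im =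
    (ζ.im * (1 + Real.log ‖ww s ζ‖) - ζ.re * arg (ww s ζ)) / normSq (Lam s ζ) := by
  rw [Complex.div_im, Lam_re, Lam_im]
  ring

lemma P_nonneg (hs : 0 < s) (hζ : 0 ≤ ζ.im) : 0 ≤ (ζ / Lam s ζ).im := by
  rw [P_eq]
  refine div_nonneg ?_ (normSq_pos hs hζ).le
  have h1 := Real.log_nonneg (ww_norm_ge hs hζ)
  have h2 := re_mul_arg (ζ := ζ) hs
  have h3 : 0 ≤ ζ.im * (1 + Real.log ‖ww s ζ‖) := by positivity
  linarith

/-- `1 + log ((s + |x|) / s)` -/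
def ell (s t : ℝ) : ℝ := 1 + Real.log ((s + t) / s)

lemma ell_ge {t : ℝ} (hs : 0 < s) (ht : 0 ≤ t) : 1 ≤ ell s t := by
  unfold ell
  have : 1 ≤ (s + t) / s := by
    rw [le_div_iff₀ hs]; linarith
  have := Real.log_nonneg this
  linarith

/-- the depth gained on the real side -/
lemma P_real (hs : 0 < s) (x : ℝ) :
    x ^ 2 / (s + |x|) / (4 * ell s |x| ^ 2) ≤ ((x : ℂ) / Lam s x).im := by
  have hx0 : (0 : ℝ) ≤ ((x : ℂ)).im := by simp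
  rw [P_eq]
  simp only [ofReal_im, zero_mul, zero_sub, ofReal_re]
  set w := ww s x with hw
  have hl := ell_ge (t := |x|) hs (abs_nonneg x)
  have hn1 : 1 ≤ ‖w‖ := ww_norm_ge hs hx0
  have hn2 : ‖w‖ ≤ (s + |x|) / s := by
    refine (ww_norm_le hs).trans (le_of_eq ?_)
    rw [Complex.norm_real, Real.norm_eq_abs]
    field_simp
  have hre : 0 ≤ w.re := le_trans zero_le_one (ww_re_ge hs hx0)
  have harg : |arg w| ≤ π / 2 := Complex.abs_arg_le_pi_div_two_iff.2 hre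
  -- upper bound of the denominator
  have hden : normSq (Lam s x) ≤ 4 * ell s |x| ^ 2 := by
    rw [Complex.normSq_apply, Lam_re, Lam_im, ← hw]
    have h1 : Real.log ‖w‖ ≤ Real.log ((s + |x|) / s) := Real.log_le_log (by linarith) hn2
    have h0 : 0 ≤ Real.log ‖w‖ := Real.log_nonneg hn1
    have h2 : 1 + Real.log ‖w‖ ≤ ell s |x| := by unfold ell; linarith
    have h3 : arg w * arg w ≤ 3 := by
      have : arg w * arg w = |arg w| * |arg w| := (abs_mul_abs_self _).symm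
      rw [this]
      have hpi := Real.pi_lt_d2
      nlinarith [abs_nonneg (arg w), Real.pi_pos]
    have h4 : (1 + Real.log ‖w‖) * (1 + Real.log ‖w‖) ≤ ell s |x| ^ 2 := by
      rw [sq]; exact mul_le_mul h2 h2 (by linarith) (by linarith)
    nlinarith
  -- lower bound of the numerator
  have hnum : x ^ 2 / (s + |x|) ≤ -(x * arg w) := by
    have h1 : |Real.sin (arg w)| ≤ |arg w| := Real.abs_sin_le_abs
    have h2 : |x| / (s + |x|) ≤ |arg w| := by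
      refine le_trans ?_ h1
      rw [Complex.sin_arg, abs_div, hw, ww_im, abs_neg, ofReal_re, abs_div, abs_of_pos hs,
        abs_of_nonneg (norm_nonneg _), ← hw]
      rw [div_div]
      refine div_le_div_of_nonneg_left (abs_nonneg x) (by positivity) ?_
      calc s * ‖w‖ ≤ s * ((s + |x|) / s) := mul_le_mul_of_nonneg_left hn2 hs.le
        _ = s + |x| := by field_simp
    have h3 : -(x * arg w) = |x| * |arg w| := by
      rw [← abs_mul, abs_of_nonpos]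
      have := re_mul_arg (ζ := (x : ℂ)) hs
      simpa using this
    rw [h3]
    calc x ^ 2 / (s + |x|) = |x| * (|x| / (s + |x|)) := by rw [← sq_abs]; ring
      _ ≤ |x| * |arg w| := mul_le_mul_of_nonneg_left h2 (abs_nonneg x)
  have hnum0 : 0 ≤ x ^ 2 / (s + |x|) := by positivity
  exact div_le_div₀ (hnum0.trans hnum) hnum (normSq_pos hs hx0) hden

lemma HL_im : (HL ν s ρ ζ).im =
    -(ν * ((ζ / Lam s ζ).im + (ζ.re ^ 2 - ζ.im ^ 2) / ρ)) := by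
  unfold HL
  have h2 : (I * ζ ^ 2 / (ρ : ℂ)).im = (ζ.re ^ 2 - ζ.im ^ 2) / ρ := by
    rw [Complex.div_ofReal_im]
    congr 1
    simp [pow_two]
  have h3 : (-(ν : ℂ) * (ζ / Lam s ζ + I * ζ ^ 2 / ρ)) =
      ((-ν : ℝ) : ℂ) * (ζ / Lam s ζ + I * ζ ^ 2 / ρ) := by push_cast; ring
  rw [h3, Complex.im_ofReal_mul, add_im, h2]
  ring

lemma HL_norm (hν : 0 ≤ ν) (hs : 0 < s) (hρ : 0 < ρ) (hζ : 0 ≤ ζ.im) (hζρ : ‖ζ‖ ≤ ρ) :
    ‖HL ν s ρ ζ‖ ≤ 2 * ν * ‖ζ‖ := by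
  unfold HL
  rw [norm_mul, norm_neg, Complex.norm_of_nonneg hν]
  have h1 : ‖ζ / Lam s ζ‖ ≤ ‖ζ‖ := by
    rw [norm_div]
    exact div_le_self (norm_nonneg _) (Lam_norm_ge hs hζ)
  have h2 : ‖I * ζ ^ 2 / (ρ : ℂ)‖ ≤ ‖ζ‖ := by
    rw [norm_div, norm_mul, norm_I, one_mul, norm_pow, Complex.norm_of_nonneg hρ.le,
      div_le_iff₀ hρ, sq]
    exact mul_le_mul_of_nonneg_left hζρ (norm_nonneg _)
  calc ν * ‖ζ / Lam s ζ + I * ζ ^ 2 / ρ‖ ≤ ν * (‖ζ‖ + ‖ζ‖) :=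
        mul_le_mul_of_nonneg_left ((norm_add_le _ _).trans (add_le_add h1 h2)) hν
    _ = 2 * ν * ‖ζ‖ := by ring

lemma HL_diff (hs : 0 < s) (hζ : 0 ≤ ζ.im) : DifferentiableAt ℂ (HL ν s ρ) ζ := by
  have h1 : DifferentiableAt ℂ (ww s) ζ := by unfold ww; fun_prop
  have h2 : DifferentiableAt ℂ (Lam s) ζ := by
    unfold Lam
    refine (differentiableAt_const _).add (h1.clog ?_)
    exact Or.inl (lt_of_lt_of_le zero_lt_one (ww_re_ge hs hζ))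
  unfold HL
  refine DifferentiableAt.const_mul ?_ _
  refine DifferentiableAt.add ?_ (by fun_prop)
  exact differentiableAt_id.div h2 (Lam_ne hs hζ)

end HL

/-! ### the disc -/

def T1 (σ c ν s ρ η : ℝ) (Tq : ℂ) : ℂ :=
  Tq - ((σ - c / 2 : ℝ) : ℂ) * (η * I) - HL ν s ρ (η * I)

def T2 (ν s ρ η : ℝ) (zq : ℂ) : ℂ := zq - η * I + ((1 / 4 : ℝ) : ℂ) * HL ν s ρ (η * I)

def TT (σ c ν s ρ η : ℝ) (Tq ζ : ℂ) : ℂ :=
  T1 σ c ν s ρ η Tq + ((σ - c / 2 : ℝ) : ℂ) * ζ + HL ν s ρ ζ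

def ZZ (ν s ρ η : ℝ) (zq ζ : ℂ) : ℂ := T2 ν s ρ η zq + ζ - ((1 / 4 : ℝ) : ℂ) * HL ν s ρ ζ

structure GD (σ c ν A c₂ s ρ η : ℝ) (Tq zq : ℂ) : Prop where
  σ0 : 0 ≤ σ
  c0 : 0 < c
  ν0 : 0 < ν
  ν1 : ν ≤ 1 / 64
  ν2 : 8 * (σ + 1) * ν ≤ c
  A0 : 0 < A
  c20 : 0 < c₂
  s0 : 0 < s
  As : A * s ≤ ρ
  sρ : s ≤ ρ
  Tn : ‖Tq‖ ≤ A * s
  zn : ‖zq‖ ≤ A * s
  z2 : c₂ * s ≤ zq.im
  lv : Tq.im ≤ (σ - c) * zq.im
  hη : η = (1 - 2 * ν) * zq.im

section GD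

variable {σ c ν A c₂ s ρ η : ℝ} {Tq zq : ℂ}

lemma GD.ρ0 (h : GD σ c ν A c₂ s ρ η Tq zq) : 0 < ρ := h.s0.trans_le h.sρ

lemma GD.z0 (h : GD σ c ν A c₂ s ρ η Tq zq) : 0 < zq.im :=
  lt_of_lt_of_le (mul_pos h.c20 h.s0) h.z2

lemma GD.zA (h : GD σ c ν A c₂ s ρ η Tq zq) : zq.im ≤ A * s :=
  (Complex.im_le_norm zq).trans h.zn

lemma GD.η0 (h : GD σ c ν A c₂ s ρ η Tq zq) : 0 < η := by
  rw [h.hη]
  have := h.ν1
  exact mul_pos (by linarith) h.z0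

lemma GD.ηz (h : GD σ c ν A c₂ s ρ η Tq zq) : η ≤ zq.im := by
  rw [h.hη]
  have := h.ν0
  have := h.z0
  nlinarith

lemma GD.ηA (h : GD σ c ν A c₂ s ρ η Tq zq) : η ≤ A * s := h.ηz.trans h.zA

lemma GD.ηρ (h : GD σ c ν A c₂ s ρ η Tq zq) : η ≤ ρ := h.ηA.trans h.As

lemma GD.nI (h : GD σ c ν A c₂ s ρ η Tq zq) : ‖(η : ℂ) * I‖ = η := by
  rw [norm_mul, norm_I, mul_one, Complex.norm_of_nonneg h.η0.le]

lemma GD.Hn (h : GD σ c ν A c₂ s ρ η Tq zq) : ‖HL ν s ρ (η * I)‖ ≤ 2 * ν * η := by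
  have h1 := HL_norm (ν := ν) (s := s) (ρ := ρ) (ζ := (η : ℂ) * I) h.ν0.le h.s0 h.ρ0
    (by simpa using h.η0.le) (by rw [h.nI]; exact h.ηρ)
  rwa [h.nI] at h1

lemma GD.Him (h : GD σ c ν A c₂ s ρ η Tq zq) : |(HL ν s ρ (η * I)).im| ≤ 2 * ν * η :=
  (Complex.abs_im_le_norm _).trans h.Hn

lemma GD.T2_im (h : GD σ c ν A c₂ s ρ η Tq zq) : ν * zq.im ≤ (T2 ν s ρ η zq).im := by
  have h1 := abs_le.1 h.Him
  have h2 := h.ηz
  have h3 := h.hη
  have h4 := h.z0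
  have h5 := h.ν0
  have e : (T2 ν s ρ η zq).im = zq.im - η + 1 / 4 * (HL ν s ρ (η * I)).im := by
    unfold T2
    rw [add_im, sub_im, Complex.im_ofReal_mul]
    simp
  rw [e]
  have h6 : ν * η ≤ ν * zq.im := mul_le_mul_of_nonneg_left h2 h5.le
  nlinarith [h1.1]

lemma GD.T1_im (h : GD σ c ν A c₂ s ρ η Tq zq) : (T1 σ c ν s ρ η Tq).im ≤ -(c / 4 * zq.im) := by
  have h1 := abs_le.1 h.Him
  have h2 := h.ηz
  have h3 := h.hη
  have h4 := h.z0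
  have h5 := h.ν0
  have h6 := h.lv
  have h7 := h.ν2
  have h8 := h.σ0
  have h9 := h.c0
  have e : (T1 σ c ν s ρ η Tq).im = Tq.im - (σ - c / 2) * η - (HL ν s ρ (η * I)).im := by
    unfold T1
    rw [sub_im, sub_im, Complex.im_ofReal_mul]
    simp
  rw [e]
  have h10 : ν * η ≤ ν * zq.im := mul_le_mul_of_nonneg_left h2 h5.le
  have e2 : (σ - c / 2) * η = (σ - c / 2) * zq.im - 2 * ν * (σ - c / 2) * zq.im := by
    rw [h3]; ring
  rw [e2]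
  have h11 : 2 * ν * (σ - c / 2) * zq.im ≤ 2 * ν * σ * zq.im := by
    have : 0 ≤ 2 * ν * (c / 2) * zq.im := by positivity
    nlinarith
  have h12 : 8 * (σ + 1) * ν * zq.im ≤ c * zq.im := mul_le_mul_of_nonneg_right h7 h4.le
  nlinarith [h1.1]

lemma GD.T1_norm (h : GD σ c ν A c₂ s ρ η Tq zq) :
    ‖T1 σ c ν s ρ η Tq‖ ≤ (σ + c + 2) * (A * s) := by
  unfold T1
  have h1 := h.Hn
  have h2 := h.Tn
  have h3 := h.ηA
  have h4 := h.σ0
  have h5 := h.c0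
  have h6 := h.ν1
  have h7 := h.η0
  have h8 : |σ - c / 2| ≤ σ + c := abs_le.2 ⟨by linarith, by linarith⟩
  have h9 : ‖((σ - c / 2 : ℝ) : ℂ) * (η * I)‖ ≤ (σ + c) * η := by
    rw [norm_mul, h.nI, Complex.norm_real, Real.norm_eq_abs]
    exact mul_le_mul_of_nonneg_right h8 h7.le
  have h10 : (σ + c) * η ≤ (σ + c) * (A * s) := mul_le_mul_of_nonneg_left h3 (by linarith)
  have h11 : 2 * ν * η ≤ 1 * (A * s) := mul_le_mul (by linarith) h3 h7.le (by linarith)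
  calc _ ≤ ‖Tq‖ + ‖((σ - c / 2 : ℝ) : ℂ) * (η * I)‖ + ‖HL ν s ρ (η * I)‖ :=
        (norm_sub_le _ _).trans (add_le_add_left (norm_sub_le _ _) _)
    _ ≤ (σ + c + 2) * (A * s) := by linarith

lemma GD.T2_norm (h : GD σ c ν A c₂ s ρ η Tq zq) : ‖T2 ν s ρ η zq‖ ≤ 3 * (A * s) := by
  unfold T2
  have h1 := h.Hn
  have h2 := h.zn
  have h3 := h.ηA
  have h6 := h.ν1
  have h7 := h.η0
  have h9 : ‖(η : ℂ) * I‖ = η := h.nI
  have h10 : ‖((1 / 4 : ℝ) : ℂ) * HL ν s ρ (η * I)‖ ≤ 1 / 4 * (2 * ν * η) := by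
    rw [norm_mul, Complex.norm_real, Real.norm_eq_abs, abs_of_pos (by norm_num)]
    exact mul_le_mul_of_nonneg_left h1 (by norm_num)
  have h11 : 2 * ν * η ≤ 1 * (A * s) := mul_le_mul (by linarith) h3 h7.le (by linarith)
  calc _ ≤ ‖zq‖ + ‖(η : ℂ) * I‖ + ‖((1 / 4 : ℝ) : ℂ) * HL ν s ρ (η * I)‖ :=
        (norm_add_le _ _).trans (add_le_add_left (norm_sub_le _ _) _)
    _ ≤ 3 * (A * s) := by linarith

lemma TT_at : TT σ c ν s ρ η Tq (η * I) = Tq := by unfold TT T1; ring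

lemma ZZ_at : ZZ ν s ρ η zq (η * I) = zq := by unfold ZZ T2; ring

lemma TT_im (ζ : ℂ) : (TT σ c ν s ρ η Tq ζ).im =
    (T1 σ c ν s ρ η Tq).im + (σ - c / 2) * ζ.im + (HL ν s ρ ζ).im := by
  unfold TT
  rw [add_im, add_im, Complex.im_ofReal_mul]

lemma ZZ_im (ζ : ℂ) : (ZZ ν s ρ η zq ζ).im =
    (T2 ν s ρ η zq).im + ζ.im - 1 / 4 * (HL ν s ρ ζ).im := by
  unfold ZZ
  rw [sub_im, add_im, Complex.im_ofReal_mul]

lemma GD.TT_norm (h : GD σ c ν A c₂ s ρ η Tq zq) {ζ : ℂ} (hζ : 0 ≤ ζ.im) (hζρ : ‖ζ‖ ≤ ρ) :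
    ‖TT σ c ν s ρ η Tq ζ‖ ≤ (σ + c + 3) * (A + 1) * (s + ‖ζ‖) := by
  unfold TT
  have h1 := h.T1_norm
  have h2 := HL_norm (ν := ν) h.ν0.le h.s0 h.ρ0 hζ hζρ
  have h3 := h.ν1
  have h4 := h.σ0
  have h5 := h.c0
  have h6 := h.A0
  have h7 := h.s0
  have h8 : |σ - c / 2| ≤ σ + c := abs_le.2 ⟨by linarith, by linarith⟩
  have h9 : ‖((σ - c / 2 : ℝ) : ℂ) * ζ‖ ≤ (σ + c) * ‖ζ‖ := by
    rw [norm_mul, Complex.norm_real, Real.norm_eq_abs]
    exact mul_le_mul_of_nonneg_right h8 (norm_nonneg _)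
  have h10 : 2 * ν * ‖ζ‖ ≤ 1 * ‖ζ‖ := mul_le_mul_of_nonneg_right (by linarith) (norm_nonneg _)
  have h11 : (0 : ℝ) ≤ ‖ζ‖ := norm_nonneg _
  calc _ ≤ ‖T1 σ c ν s ρ η Tq‖ + ‖((σ - c / 2 : ℝ) : ℂ) * ζ‖ + ‖HL ν s ρ ζ‖ :=
        (norm_add_le _ _).trans (add_le_add_left (norm_add_le _ _) _)
    _ ≤ (σ + c + 2) * (A * s) + (σ + c) * ‖ζ‖ + 1 * ‖ζ‖ := by linarith
    _ ≤ _ := by
      have e : (σ + c + 3) * (A + 1) * (s + ‖ζ‖) - ((σ + c + 2) * (A * s) + (σ + c) * ‖ζ‖ +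
        1 * ‖ζ‖) = A * s + (σ + c + 3) * s + (σ + c + 3) * A * ‖ζ‖ + 2 * ‖ζ‖ := by ring
      have : 0 ≤ A * s + (σ + c + 3) * s + (σ + c + 3) * A * ‖ζ‖ + 2 * ‖ζ‖ := by positivity
      linarith

lemma GD.ZZ_norm (h : GD σ c ν A c₂ s ρ η Tq zq) {ζ : ℂ} (hζ : 0 ≤ ζ.im) (hζρ : ‖ζ‖ ≤ ρ) :
    ‖ZZ ν s ρ η zq ζ‖ ≤ (σ + c + 3) * (A + 1) * (s + ‖ζ‖) := by
  unfold ZZ
  have h1 := h.T2_norm
  have h2 := HL_norm (ν := ν) h.ν0.le h.s0 h.ρ0 hζ hζρ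
  have h3 := h.ν1
  have h4 := h.σ0
  have h5 := h.c0
  have h6 := h.A0
  have h7 := h.s0
  have h9 : ‖((1 / 4 : ℝ) : ℂ) * HL ν s ρ ζ‖ ≤ 1 / 4 * (2 * ν * ‖ζ‖) := by
    rw [norm_mul, Complex.norm_real, Real.norm_eq_abs, abs_of_pos (by norm_num)]
    exact mul_le_mul_of_nonneg_left h2 (by norm_num)
  have h10 : 2 * ν * ‖ζ‖ ≤ 1 * ‖ζ‖ := mul_le_mul_of_nonneg_right (by linarith) (norm_nonneg _)
  have h11 : (0 : ℝ) ≤ ‖ζ‖ := norm_nonneg _
  calc _ ≤ ‖T2 ν s ρ η zq‖ + ‖ζ‖ + ‖((1 / 4 : ℝ) : ℂ) * HL ν s ρ ζ‖ :=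
        (norm_sub_le _ _).trans (add_le_add_left (norm_add_le _ _) _)
    _ ≤ 3 * (A * s) + ‖ζ‖ + 1 * ‖ζ‖ := by linarith
    _ ≤ _ := by
      have e : (σ + c + 3) * (A + 1) * (s + ‖ζ‖) - (3 * (A * s) + ‖ζ‖ + 1 * ‖ζ‖) =
        (σ + c) * A * s + (σ + c + 3) * s + (σ + c + 3) * A * ‖ζ‖ + (σ + c + 1) * ‖ζ‖ := by ring
      have : 0 ≤ (σ + c) * A * s + (σ + c + 3) * s + (σ + c + 3) * A * ‖ζ‖ +
        (σ + c + 1) * ‖ζ‖ := by positivity
      linarith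

/-- `-Im H` is bounded below -/
lemma GD.H_low (h : GD σ c ν A c₂ s ρ η Tq zq) {ζ : ℂ} (hζ : 0 ≤ ζ.im) (hζρ : ‖ζ‖ ≤ ρ) :
    ν * (ζ.re ^ 2 / ρ) - ν * ζ.im ≤ -(HL ν s ρ ζ).im := by
  rw [HL_im, neg_neg]
  have h1 := P_nonneg h.s0 hζ
  have h2 : ζ.im ^ 2 / ρ ≤ ζ.im := by
    rw [div_le_iff₀ h.ρ0, sq]
    exact mul_le_mul_of_nonneg_left ((Complex.im_le_norm ζ).trans hζρ) hζ
  have h3 : (ζ.re ^ 2 - ζ.im ^ 2) / ρ = ζ.re ^ 2 / ρ - ζ.im ^ 2 / ρ := by ring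
  rw [h3]
  have h4 := h.ν0
  have : ν * (ζ.re ^ 2 / ρ - ζ.im) ≤ ν * ((ζ / Lam s ζ).im + (ζ.re ^ 2 / ρ - ζ.im ^ 2 / ρ)) :=
    mul_le_mul_of_nonneg_left (by linarith) h4.le
  linarith

lemma GD.ZZ_low (h : GD σ c ν A c₂ s ρ η Tq zq) {ζ : ℂ} (hζ : 0 ≤ ζ.im) (hζρ : ‖ζ‖ ≤ ρ) :
    ν * zq.im + ν / 4 * (ζ.im + ζ.re ^ 2 / ρ) ≤ (ZZ ν s ρ η zq ζ).im := by
  rw [ZZ_im]
  have h1 := h.H_low hζ hζρ
  have h2 := h.T2_im
  have h3 := h.ν1
  have h4 := h.ν0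
  nlinarith

lemma GD.level (h : GD σ c ν A c₂ s ρ η Tq zq) {ζ : ℂ} (hζ : 0 ≤ ζ.im) (hζρ : ‖ζ‖ ≤ ρ) :
    c / 4 * zq.im + c / 4 * ζ.im + ν * (ζ.re ^ 2 / ρ) ≤
      σ * (ZZ ν s ρ η zq ζ).im - (TT σ c ν s ρ η Tq ζ).im := by
  rw [ZZ_im, TT_im]
  have h1 := h.H_low hζ hζρ
  have h2 := h.T2_im
  have h3 := h.ν2
  have h4 := h.ν0
  have h5 := h.T1_im
  have h6 := h.σ0
  have h7 := h.c0
  have h8 : 0 ≤ (T2 ν s ρ η zq).im := le_trans (mul_nonneg h4.le h.z0.le) h2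
  have h9 : 0 ≤ σ * (T2 ν s ρ η zq).im := mul_nonneg h6 h8
  have h10 : 0 ≤ ζ.re ^ 2 / ρ := div_nonneg (sq_nonneg _) h.ρ0.le
  have h11 : (1 + σ / 4) * (ν * (ζ.re ^ 2 / ρ) - ν * ζ.im) ≤ (1 + σ / 4) * (-(HL ν s ρ ζ).im) :=
    mul_le_mul_of_nonneg_left h1 (by linarith)
  have h12 : (1 + σ / 4) * ν * ζ.im ≤ c / 4 * ζ.im := by
    refine mul_le_mul_of_nonneg_right ?_ hζ
    nlinarith
  have h13 : 0 ≤ σ / 4 * (ν * (ζ.re ^ 2 / ρ)) := by positivity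
  nlinarith

lemma key_ineq {s : ℝ} (hs : 0 < s) (x : ℝ) : (s + |x|) / 2 ≤ s + x ^ 2 / (s + |x|) := by
  have hpos : 0 < s + |x| := by positivity
  have : (s + |x|) / 2 - s ≤ x ^ 2 / (s + |x|) := by
    rw [le_div_iff₀ hpos]
    nlinarith [sq_abs x, sq_nonneg s]
  linarith

/-- depth on the real side -/
lemma GD.real_depth (h : GD σ c ν A c₂ s ρ η Tq zq) (x : ℝ) :
    min (c * c₂ / 4) (ν / 4) / 2 * ((s + |x|) / ell s |x| ^ 2) ≤
      -(TT σ c ν s ρ η Tq x).im := by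
  rw [TT_im, HL_im]
  simp only [ofReal_im, mul_zero, add_zero, ofReal_re]
  have hl := ell_ge (t := |x|) h.s0 (abs_nonneg x)
  have h1 := P_real h.s0 x
  have h2 := h.T1_im
  have h3 := h.z2
  have h4 := h.c0
  have h5 := h.ν0
  have h6 := h.s0
  have h7 := h.c20
  have hx : 0 ≤ |x| := abs_nonneg x
  have h8 : 0 ≤ x ^ 2 / ρ := div_nonneg (sq_nonneg _) h.ρ0.le
  have h9 : c / 4 * (c₂ * s) ≤ c / 4 * zq.im := mul_le_mul_of_nonneg_left h3 (by positivity)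
  have hl2 : 1 ≤ ell s |x| ^ 2 := by nlinarith
  have hl0 : 0 < ell s |x| ^ 2 := by linarith
  set L := ell s |x| ^ 2 with hL
  have h10 : ν * (x ^ 2 / (s + |x|) / (4 * L)) ≤ ν * ((x : ℂ) / Lam s x).im :=
    mul_le_mul_of_nonneg_left h1 h5.le
  have h11 : min (c * c₂ / 4) (ν / 4) ≤ c * c₂ / 4 := min_le_left _ _
  have h12 : min (c * c₂ / 4) (ν / 4) ≤ ν / 4 := min_le_right _ _
  have h13 : 0 ≤ min (c * c₂ / 4) (ν / 4) := by positivity
  set m := min (c * c₂ / 4) (ν / 4) with hm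
  -- key: (s + |x|)/2 ≤ s + x²/(s+|x|)
  have key : (s + |x|) / 2 ≤ s + x ^ 2 / (s + |x|) := key_ineq h6 x
  have h14 : m / 2 * ((s + |x|) / L) ≤ m * ((s + x ^ 2 / (s + |x|)) / L) := by
    have : (s + |x|) / 2 / L ≤ (s + x ^ 2 / (s + |x|)) / L := by gcongr
    calc m / 2 * ((s + |x|) / L) = m * ((s + |x|) / 2 / L) := by ring
      _ ≤ _ := mul_le_mul_of_nonneg_left this h13
  have h15 : m * ((s + x ^ 2 / (s + |x|)) / L) ≤ c * c₂ / 4 * s +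
      ν * (x ^ 2 / (s + |x|) / (4 * L)) := by
    have e : m * ((s + x ^ 2 / (s + |x|)) / L) = m * (s / L) + m * (x ^ 2 / (s + |x|) / L) := by
      ring
    rw [e]
    have a1 : s / L ≤ s := div_le_self h6.le hl2
    have a2 : m * (s / L) ≤ c * c₂ / 4 * s := mul_le_mul h11 a1 (by positivity) (by positivity)
    have a3 : m * (x ^ 2 / (s + |x|) / L) ≤ ν / 4 * (x ^ 2 / (s + |x|) / L) :=
      mul_le_mul_of_nonneg_right h12 (by positivity)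
    have a4 : ν / 4 * (x ^ 2 / (s + |x|) / L) = ν * (x ^ 2 / (s + |x|) / (4 * L)) := by
      field_simp
    linarith
  have h16 : (x ^ 2 - 0 ^ 2) / ρ = x ^ 2 / ρ := by ring
  rw [h16]
  have h17 : 0 ≤ ν * (x ^ 2 / ρ) := by positivity
  nlinarith

/-- `Im w` on the real side -/
lemma GD.real_w (h : GD σ c ν A c₂ s ρ η Tq zq) (x : ℝ) :
    min (ν * c₂) (ν / 16) / 2 * ((s + |x|) / ell s |x| ^ 2) ≤ (ZZ ν s ρ η zq x).im := by
  rw [ZZ_im, HL_im]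
  simp only [ofReal_im, add_zero, ofReal_re]
  have hl := ell_ge (t := |x|) h.s0 (abs_nonneg x)
  have h1 := P_real h.s0 x
  have h2 := h.T2_im
  have h3 := h.z2
  have h5 := h.ν0
  have h6 := h.s0
  have h7 := h.c20
  have hx : 0 ≤ |x| := abs_nonneg x
  have h8 : 0 ≤ x ^ 2 / ρ := div_nonneg (sq_nonneg _) h.ρ0.le
  have h9 : ν * (c₂ * s) ≤ ν * zq.im := mul_le_mul_of_nonneg_left h3 (by positivity)
  have hl2 : 1 ≤ ell s |x| ^ 2 := by nlinarith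
  have hl0 : 0 < ell s |x| ^ 2 := by linarith
  set L := ell s |x| ^ 2 with hL
  have h10 : ν * (x ^ 2 / (s + |x|) / (4 * L)) ≤ ν * ((x : ℂ) / Lam s x).im :=
    mul_le_mul_of_nonneg_left h1 h5.le
  have h11 : min (ν * c₂) (ν / 16) ≤ ν * c₂ := min_le_left _ _
  have h12 : min (ν * c₂) (ν / 16) ≤ ν / 16 := min_le_right _ _
  have h13 : 0 ≤ min (ν * c₂) (ν / 16) := by positivity
  set m := min (ν * c₂) (ν / 16) with hm
  have key : (s + |x|) / 2 ≤ s + x ^ 2 / (s + |x|) := key_ineq h6 x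
  have h14 : m / 2 * ((s + |x|) / L) ≤ m * ((s + x ^ 2 / (s + |x|)) / L) := by
    have : (s + |x|) / 2 / L ≤ (s + x ^ 2 / (s + |x|)) / L := by gcongr
    calc m / 2 * ((s + |x|) / L) = m * ((s + |x|) / 2 / L) := by ring
      _ ≤ _ := mul_le_mul_of_nonneg_left this h13
  have h15 : m * ((s + x ^ 2 / (s + |x|)) / L) ≤ ν * c₂ * s +
      1 / 4 * (ν * (x ^ 2 / (s + |x|) / (4 * L))) := by
    have e : m * ((s + x ^ 2 / (s + |x|)) / L) = m * (s / L) + m * (x ^ 2 / (s + |x|) / L) := by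
      ring
    rw [e]
    have a1 : s / L ≤ s := div_le_self h6.le hl2
    have a2 : m * (s / L) ≤ ν * c₂ * s := mul_le_mul h11 a1 (by positivity) (by positivity)
    have a3 : m * (x ^ 2 / (s + |x|) / L) ≤ ν / 16 * (x ^ 2 / (s + |x|) / L) :=
      mul_le_mul_of_nonneg_right h12 (by positivity)
    have a4 : ν / 16 * (x ^ 2 / (s + |x|) / L) = 1 / 4 * (ν * (x ^ 2 / (s + |x|) / (4 * L))) := by
      field_simp
      try ring
    linarith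
  have h16 : (x ^ 2 - 0 ^ 2) / ρ = x ^ 2 / ρ := by ring
  rw [h16]
  have h17 : 0 ≤ ν * (x ^ 2 / ρ) := by positivity
  nlinarith

end GD

/-! ### the estimate -/

lemma isOpen_Half (e : ℝ × ℝ) (η m : ℝ) : IsOpen (Half e η m) := by
  have c1 : Continuous (fun q : ℂ × ℂ => |q.1.re - e.1|) := by fun_prop
  have c2 : Continuous (fun q : ℂ × ℂ => q.1.im) := by fun_prop
  have c3 : Continuous (fun q : ℂ × ℂ => ‖q.2 - (e.2 : ℂ)‖) := by fun_prop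
  have c4 : Continuous (fun q : ℂ × ℂ => q.2.im) := by fun_prop
  exact (isOpen_lt c1 continuous_const).inter ((isOpen_lt continuous_const c2).inter
    ((isOpen_lt c3 continuous_const).inter ((isOpen_lt continuous_const c4).inter
      (isOpen_lt c2 (continuous_const.mul c4)))))

/-- the disc in absolute coordinates -/
def Ph (σ c ν s ρ η : ℝ) (Tq zq : ℂ) (e : ℝ × ℝ) (ζ : ℂ) : ℂ × ℂ :=
  ((e.1 : ℂ) + TT σ c ν s ρ η Tq ζ, (e.2 : ℂ) + ZZ ν s ρ η zq ζ)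

section Ph

variable {σ c ν A c₂ s ρ η : ℝ} {Tq zq : ℂ}

lemma GD.mem_Half (h : GD σ c ν A c₂ s ρ η Tq zq) {C : ℝ}
    (hC : 2 * ((σ + c + 3) * (A + 1)) < C) (e : ℝ × ℝ) {ζ : ℂ} (hζ : 0 ≤ ζ.im)
    (hζρ : ‖ζ‖ ≤ ρ) : Ph σ c ν s ρ η Tq zq e ζ ∈ Half e (C * ρ) σ := by
  have hρ := h.ρ0
  have h1 := h.TT_norm hζ hζρ
  have h2 := h.ZZ_norm hζ hζρ
  have h3 := h.ZZ_low hζ hζρ
  have h4 := h.level hζ hζρ
  have h5 := h.z0
  have hK : 0 ≤ (σ + c + 3) * (A + 1) := by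
    have := h.σ0; have := h.c0; have := h.A0
    positivity
  have h6 : (σ + c + 3) * (A + 1) * (s + ‖ζ‖) < C * ρ := by
    have a1 : s + ‖ζ‖ ≤ 2 * ρ := by linarith [h.sρ]
    have a2 := mul_le_mul_of_nonneg_left a1 hK
    have a3 : 2 * ((σ + c + 3) * (A + 1)) * ρ < C * ρ := mul_lt_mul_of_pos_right hC hρ
    linarith
  have h7 : 0 ≤ ζ.re ^ 2 / ρ := div_nonneg (sq_nonneg _) hρ.le
  have hν := h.ν0
  have hc := h.c0
  have b1 := Complex.abs_re_le_norm (TT σ c ν s ρ η Tq ζ)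
  have b2 := abs_le.1 (Complex.abs_im_le_norm (TT σ c ν s ρ η Tq ζ))
  have n1 : 0 < ν * zq.im := mul_pos hν h5
  have n2 : 0 ≤ ν / 4 * (ζ.im + ζ.re ^ 2 / ρ) := by positivity
  have n3 : 0 < c / 4 * zq.im := by positivity
  have n4 : 0 ≤ c / 4 * ζ.im := by positivity
  have n5 : 0 ≤ ν * (ζ.re ^ 2 / ρ) := by positivity
  refine ⟨?_, ?_, ?_, ?_, ?_⟩
  · show |((e.1 : ℂ) + TT σ c ν s ρ η Tq ζ).re - e.1| < C * ρ
    rw [add_re, ofReal_re, add_sub_cancel_left]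
    linarith
  · show -(C * ρ) < ((e.1 : ℂ) + TT σ c ν s ρ η Tq ζ).im
    rw [add_im, ofReal_im, zero_add]
    linarith [b2.1]
  · show ‖((e.2 : ℂ) + ZZ ν s ρ η zq ζ) - (e.2 : ℂ)‖ < C * ρ
    rw [add_sub_cancel_left]
    linarith
  · show 0 < ((e.2 : ℂ) + ZZ ν s ρ η zq ζ).im
    rw [add_im, ofReal_im, zero_add]
    linarith
  · show ((e.1 : ℂ) + TT σ c ν s ρ η Tq ζ).im < σ * ((e.2 : ℂ) + ZZ ν s ρ η zq ζ).im
    rw [add_im, ofReal_im, zero_add, add_im, ofReal_im, zero_add]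
    linarith

lemma GD.TT_diff (h : GD σ c ν A c₂ s ρ η Tq zq) {ζ : ℂ} (hζ : 0 ≤ ζ.im) :
    DifferentiableAt ℂ (TT σ c ν s ρ η Tq) ζ := by
  have := HL_diff (ν := ν) (ρ := ρ) h.s0 hζ
  unfold TT
  fun_prop

lemma GD.ZZ_diff (h : GD σ c ν A c₂ s ρ η Tq zq) {ζ : ℂ} (hζ : 0 ≤ ζ.im) :
    DifferentiableAt ℂ (ZZ ν s ρ η zq) ζ := by
  have := HL_diff (ν := ν) (ρ := ρ) h.s0 hζ
  unfold ZZ
  fun_prop

lemma GD.Ph_diff (h : GD σ c ν A c₂ s ρ η Tq zq) (e : ℝ × ℝ) {ζ : ℂ} (hζ : 0 ≤ ζ.im) :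
    DifferentiableAt ℂ (Ph σ c ν s ρ η Tq zq e) ζ := by
  unfold Ph
  exact ((differentiableAt_const _).add (h.TT_diff hζ)).prodMk
    ((differentiableAt_const _).add (h.ZZ_diff hζ))

lemma GD.dcc (h : GD σ c ν A c₂ s ρ η Tq zq) {C : ℝ}
    (hC : 2 * ((σ + c + 3) * (A + 1)) < C) (e : ℝ × ℝ) {f : ℂ × ℂ → ℂ}
    (hf : DifferentiableOn ℂ f (Half e (C * ρ) σ)) :
    DiffContOnCl ℂ (fun ζ => f (Ph σ c ν s ρ η Tq zq e ζ)) (UD ρ) := by
  have key : ∀ ζ : ℂ, 0 ≤ ζ.im → ‖ζ‖ ≤ ρ →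
      DifferentiableAt ℂ (fun ζ => f (Ph σ c ν s ρ η Tq zq e ζ)) ζ := by
    intro ζ h1 h2
    have h3 : DifferentiableAt ℂ f (Ph σ c ν s ρ η Tq zq e ζ) :=
      hf.differentiableAt ((isOpen_Half e (C * ρ) σ).mem_nhds (h.mem_Half hC e h1 h2))
    exact h3.comp ζ (h.Ph_diff e h1)
  refine ⟨fun z hz => (key z hz.2.le hz.1.le).differentiableWithinAt, fun z hz => ?_⟩
  have := closure_UD ρ hz
  exact (key z this.2 this.1).continuousAt.continuousWithinAt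

end Ph

set_option maxHeartbeats 1000000 in
/-- **DISC-LOG** -/
theorem discLog (σ c A c₂ α : ℝ) (hσ : 0 ≤ σ) (hc : 0 < c) (hA : 0 < A) (hc₂ : 0 < c₂)
    (hα0 : 0 < α) (hα1 : α < 1) :
    ∃ ν > 0, ∃ C ≥ 1, ∀ (e : ℝ × ℝ) (s ρ : ℝ), 0 < s → C * s ≤ ρ →
      ∀ f : ℂ × ℂ → ℂ, DifferentiableOn ℂ f (Half e (C * ρ) σ) → ∀ B N : ℝ, 0 ≤ B → 0 ≤ N →
      (∀ T : ℝ, s ≤ T → T ≤ 2 * ρ → ∀ q : ℂ × ℂ, ‖q.1 - e.1‖ ≤ C * T → ‖q.2 - e.2‖ ≤ C * T →
        ν * T / (1 + Real.log (T / s)) ^ 2 ≤ -q.1.im →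
        ν * T / (1 + Real.log (T / s)) ^ 2 ≤ q.2.im → ‖f q‖ ≤ Real.exp (B * (T / s) ^ α)) →
      (∀ q : ℂ × ℂ, ‖q.1 - e.1‖ ≤ C * ρ → ‖q.2 - e.2‖ ≤ C * ρ → ν * ρ ≤ q.2.im →
        q.1.im ≤ σ * q.2.im - ν * ρ → ‖f q‖ ≤ Real.exp N) →
      ∀ x : ℂ × ℂ, ‖x.1‖ ≤ A → ‖x.2‖ ≤ A → c₂ ≤ x.2.im → x.1.im ≤ (σ - c) * x.2.im →
        ‖f (bl e s x)‖ ≤ Real.exp (C * (B + N * (s / ρ) ^ α)) := by
  -- constants
  set ν₀ : ℝ := min (1 / 64) (c / (8 * (σ + 1))) with hν₀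
  have hν₀0 : 0 < ν₀ := by rw [hν₀]; positivity
  have hν₀1 : ν₀ ≤ 1 / 64 := min_le_left _ _
  have hν₀2 : 8 * (σ + 1) * ν₀ ≤ c := by
    have : ν₀ ≤ c / (8 * (σ + 1)) := min_le_right _ _
    rw [le_div_iff₀ (by positivity)] at this
    linarith
  set K : ℝ := (σ + c + 3) * (A + 1) with hK
  have hK0 : 0 < K := by rw [hK]; positivity
  set κ : ℝ := Real.cos (α * (π / 2)) with hκ
  have hκ0 : 0 < κ := Real.cos_pos_of_mem_Ioo
    ⟨by nlinarith [Real.pi_pos], by nlinarith [Real.pi_pos]⟩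
  set ν : ℝ := min (min (min (c * c₂ / 4) (ν₀ / 4) / 2) (min (ν₀ * c₂) (ν₀ / 16) / 2))
    (min (ν₀ / 4) (c / 4)) with hν
  have hν0 : 0 < ν := by rw [hν]; positivity
  have hνa : ν ≤ min (c * c₂ / 4) (ν₀ / 4) / 2 := (min_le_left _ _).trans (min_le_left _ _)
  have hνb : ν ≤ min (ν₀ * c₂) (ν₀ / 16) / 2 := (min_le_left _ _).trans (min_le_right _ _)
  have hνc : ν ≤ ν₀ / 4 := (min_le_right _ _).trans (min_le_left _ _)
  have hνd : ν ≤ c / 4 := (min_le_right _ _).trans (min_le_right _ _)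
  set C : ℝ := 2 * K + 1 + A + 2 * (1 + A) / κ with hC
  have hC1 : 1 ≤ C := by
    have : 0 ≤ 2 * (1 + A) / κ := by positivity
    rw [hC]; linarith
  have hCK : 2 * K < C := by
    have : 0 ≤ 2 * (1 + A) / κ := by positivity
    rw [hC]; linarith
  have hCA : A ≤ C := by
    have : 0 ≤ 2 * (1 + A) / κ := by positivity
    rw [hC]; linarith
  have hCκ : 2 * (1 + A) / κ ≤ C := by rw [hC]; linarith
  refine ⟨ν, hν0, C, hC1, ?_⟩
  intro e s ρ hs hsρ f hf B N hB hN hside harc x hx1 hx2 hx3 hx4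
  have hρ : 0 < ρ := lt_of_lt_of_le (by positivity) hsρ
  have hsρ1 : s ≤ ρ := le_trans (by nlinarith) hsρ
  have hAs : A * s ≤ ρ := le_trans (mul_le_mul_of_nonneg_right hCA hs.le) hsρ
  -- the point
  set Tq : ℂ := s * x.1 with hTq
  set zq : ℂ := s * x.2 with hzq
  have hTq_im : Tq.im = s * x.1.im := by rw [hTq, Complex.im_ofReal_mul]
  have hzq_im : zq.im = s * x.2.im := by rw [hzq, Complex.im_ofReal_mul]
  set η : ℝ := (1 - 2 * ν₀) * zq.im with hη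
  have h : GD σ c ν₀ A c₂ s ρ η Tq zq := by
    refine ⟨hσ, hc, hν₀0, hν₀1, hν₀2, hA, hc₂, hs, hAs, hsρ1, ?_, ?_, ?_, ?_, rfl⟩
    · rw [hTq, norm_mul, Complex.norm_of_nonneg hs.le, mul_comm]
      exact mul_le_mul_of_nonneg_right hx1 hs.le
    · rw [hzq, norm_mul, Complex.norm_of_nonneg hs.le, mul_comm]
      exact mul_le_mul_of_nonneg_right hx2 hs.le
    · rw [hzq_im, mul_comm c₂ s]
      exact mul_le_mul_of_nonneg_left hx3 hs.le
    · rw [hTq_im, hzq_im]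
      calc s * x.1.im ≤ s * ((σ - c) * x.2.im) := mul_le_mul_of_nonneg_left hx4 hs.le
        _ = _ := by ring
  have hPh : Ph σ c ν₀ s ρ η Tq zq e (η * I) = bl e s x := by
    unfold Ph bl
    rw [TT_at, ZZ_at]
  -- the majorant
  set B' : ℝ := (2 * B + N * (s / ρ) ^ α) / κ with hB'
  have hsr : 0 ≤ (s / ρ) ^ α := by positivity
  have hB'0 : 0 ≤ B' := by rw [hB']; positivity
  have hmaj : ∀ ζ : ℂ, ‖ζ‖ ≤ ρ → 0 ≤ ζ.im → (ζ.im = 0 ∨ ‖ζ‖ = ρ) →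
      ‖f (Ph σ c ν₀ s ρ η Tq zq e ζ)‖ ≤ Real.exp (Maj B' s 0 α ζ).re := by
    intro ζ h1 h2 h3
    have h4 := Maj_re_ge (N := 0) hs hB'0 le_rfl hα0 hα1 h2
    rw [zero_mul, add_zero] at h4
    have h5 : B' * κ = 2 * B + N * (s / ρ) ^ α := by
      rw [hB']; field_simp
    rw [← hκ, h5] at h4
    have hTn := h.TT_norm h2 h1
    have hZn := h.ZZ_norm h2 h1
    rw [← hK] at hTn hZn
    rcases h3 with h3 | h3
    · -- real side
      have hre : ζ = (ζ.re : ℂ) := by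
        apply Complex.ext <;> simp [h3]
      set t : ℝ := ζ.re with ht
      have hnt : ‖ζ‖ = |t| := by rw [hre, Complex.norm_real, Real.norm_eq_abs]
      rw [hre] at hTn hZn ⊢
      rw [Complex.norm_real, Real.norm_eq_abs] at hTn hZn
      have hT1 : s ≤ s + |t| := by linarith [abs_nonneg t]
      have hT2 : s + |t| ≤ 2 * ρ := by rw [hnt] at h1; linarith
      have hKC : K ≤ C := by linarith
      have hst : 0 ≤ s + |t| := by positivity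
      have hb1 := h.real_depth t
      have hb2 := h.real_w t
      have hel : ell s |t| = 1 + Real.log ((s + |t|) / s) := rfl
      rw [hel] at hb1 hb2
      have hel1 := ell_ge (t := |t|) hs (abs_nonneg t)
      rw [hel] at hel1
      have hq : 0 ≤ (s + |t|) / (1 + Real.log ((s + |t|) / s)) ^ 2 := by positivity
      have h6 := hside (s + |t|) hT1 hT2 (Ph σ c ν₀ s ρ η Tq zq e t)
        (by
          show ‖((e.1 : ℂ) + TT σ c ν₀ s ρ η Tq t) - e.1‖ ≤ _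
          rw [add_sub_cancel_left]
          exact hTn.trans (mul_le_mul_of_nonneg_right hKC hst))
        (by
          show ‖((e.2 : ℂ) + ZZ ν₀ s ρ η zq t) - e.2‖ ≤ _
          rw [add_sub_cancel_left]
          exact hZn.trans (mul_le_mul_of_nonneg_right hKC hst))
        (by
          show _ ≤ -((e.1 : ℂ) + TT σ c ν₀ s ρ η Tq t).im
          rw [add_im, ofReal_im, zero_add, mul_div_assoc]
          exact (mul_le_mul_of_nonneg_right hνa hq).trans hb1)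
        (by
          show _ ≤ ((e.2 : ℂ) + ZZ ν₀ s ρ η zq t).im
          rw [add_im, ofReal_im, zero_add, mul_div_assoc]
          exact (mul_le_mul_of_nonneg_right hνb hq).trans hb2)
      refine h6.trans (Real.exp_le_exp.2 ?_)
      rw [hre, Complex.norm_real, Real.norm_eq_abs] at h4
      refine le_trans ?_ h4
      have h7 : (s + |t|) / s ≤ 2 * max 1 (|t| / s) := by
        rw [add_div, div_self hs.ne']
        have a1 := le_max_left 1 (|t| / s)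
        have a2 := le_max_right 1 (|t| / s)
        linarith
      have hm1 : 1 ≤ max 1 (|t| / s) := le_max_left _ _
      have h8 : ((s + |t|) / s) ^ α ≤ 2 * (max 1 (|t| / s)) ^ α := by
        calc ((s + |t|) / s) ^ α ≤ (2 * max 1 (|t| / s)) ^ α :=
              Real.rpow_le_rpow (by positivity) h7 hα0.le
          _ = 2 ^ α * (max 1 (|t| / s)) ^ α := Real.mul_rpow (by norm_num) (by positivity)
          _ ≤ 2 * (max 1 (|t| / s)) ^ α := by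
              refine mul_le_mul_of_nonneg_right ?_ (by positivity)
              calc (2 : ℝ) ^ α ≤ 2 ^ (1 : ℝ) :=
                    Real.rpow_le_rpow_of_exponent_le (by norm_num) hα1.le
                _ = 2 := Real.rpow_one 2
      have h9 : B * ((s + |t|) / s) ^ α ≤ 2 * B * (max 1 (|t| / s)) ^ α := by
        calc B * ((s + |t|) / s) ^ α ≤ B * (2 * (max 1 (|t| / s)) ^ α) :=
              mul_le_mul_of_nonneg_left h8 hB
          _ = _ := by ring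
      have h10 : 0 ≤ N * (s / ρ) ^ α * (max 1 (|t| / s)) ^ α := by positivity
      have h11 : (2 * B + N * (s / ρ) ^ α) * (max 1 (|t| / s)) ^ α =
        2 * B * (max 1 (|t| / s)) ^ α + N * (s / ρ) ^ α * (max 1 (|t| / s)) ^ α := by ring
      rw [h11]
      linarith
    · -- arc
      have hzr : ζ.re ^ 2 + ζ.im ^ 2 = ρ ^ 2 := by
        rw [← h3, ← Complex.normSq_eq_norm_sq, Complex.normSq_apply]; ring
      have him : ζ.im ≤ ρ := (Complex.im_le_norm ζ).trans h1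
      have hsum : ρ ≤ ζ.im + ζ.re ^ 2 / ρ := by
        have : ζ.im ^ 2 / ρ ≤ ζ.im := by
          rw [div_le_iff₀ hρ, sq]
          exact mul_le_mul_of_nonneg_left him h2
        have e1 : ζ.re ^ 2 / ρ + ζ.im ^ 2 / ρ = ρ := by
          rw [← add_div, hzr, sq, mul_div_assoc, div_self hρ.ne', mul_one]
        linarith
      have hz := h.ZZ_low h2 h1
      have hl := h.level h2 h1
      have hz0 := h.z0
      have hre0 : 0 ≤ ζ.re ^ 2 / ρ := div_nonneg (sq_nonneg _) hρ.le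
      have hbig : s + ‖ζ‖ ≤ 2 * ρ := by linarith
      have hn : K * (s + ‖ζ‖) ≤ C * ρ := by
        have a1 := mul_le_mul_of_nonneg_left hbig hK0.le
        have a2 : 2 * K * ρ ≤ C * ρ := mul_le_mul_of_nonneg_right hCK.le hρ.le
        linarith
      have h6 := harc (Ph σ c ν₀ s ρ η Tq zq e ζ)
        (by
          show ‖((e.1 : ℂ) + TT σ c ν₀ s ρ η Tq ζ) - e.1‖ ≤ _
          rw [add_sub_cancel_left]
          exact hTn.trans hn)
        (by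
          show ‖((e.2 : ℂ) + ZZ ν₀ s ρ η zq ζ) - e.2‖ ≤ _
          rw [add_sub_cancel_left]
          exact hZn.trans hn)
        (by
          show _ ≤ ((e.2 : ℂ) + ZZ ν₀ s ρ η zq ζ).im
          rw [add_im, ofReal_im, zero_add]
          have a1 : ν * ρ ≤ ν₀ / 4 * ρ := mul_le_mul_of_nonneg_right hνc hρ.le
          have a2 : ν₀ / 4 * ρ ≤ ν₀ / 4 * (ζ.im + ζ.re ^ 2 / ρ) :=
            mul_le_mul_of_nonneg_left hsum (by positivity)
          have a3 : 0 ≤ ν₀ * zq.im := by positivity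
          linarith)
        (by
          show ((e.1 : ℂ) + TT σ c ν₀ s ρ η Tq ζ).im ≤
            σ * ((e.2 : ℂ) + ZZ ν₀ s ρ η zq ζ).im - _
          rw [add_im, ofReal_im, zero_add, add_im, ofReal_im, zero_add]
          have a1 : ν * ρ ≤ ν * (ζ.im + ζ.re ^ 2 / ρ) := mul_le_mul_of_nonneg_left hsum hν0.le
          have a2 : ν * ζ.im ≤ c / 4 * ζ.im := mul_le_mul_of_nonneg_right hνd h2
          have a3 : ν * (ζ.re ^ 2 / ρ) ≤ ν₀ * (ζ.re ^ 2 / ρ) :=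
            mul_le_mul_of_nonneg_right (by linarith) hre0
          have a4 : 0 ≤ c / 4 * zq.im := by positivity
          linarith)
      refine h6.trans (Real.exp_le_exp.2 ?_)
      refine le_trans ?_ h4
      rw [h3]
      have b1 : 1 ≤ ρ / s := (one_le_div hs).2 hsρ1
      have b2 : (ρ / s) ^ α ≤ (max 1 (ρ / s)) ^ α :=
        Real.rpow_le_rpow (by positivity) (le_max_right _ _) hα0.le
      have b3 : (s / ρ) ^ α * (ρ / s) ^ α = 1 := by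
        rw [← Real.mul_rpow (by positivity) (by positivity)]
        have : s / ρ * (ρ / s) = 1 := by field_simp
        rw [this, Real.one_rpow]
      have b4 : N ≤ N * (s / ρ) ^ α * (max 1 (ρ / s)) ^ α := by
        calc N = N * ((s / ρ) ^ α * (ρ / s) ^ α) := by rw [b3, mul_one]
          _ = N * (s / ρ) ^ α * (ρ / s) ^ α := by ring
          _ ≤ _ := mul_le_mul_of_nonneg_left b2 (by positivity)
      have b5 : 0 ≤ 2 * B * (max 1 (ρ / s)) ^ α := by positivity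
      have b6 : (2 * B + N * (s / ρ) ^ α) * (max 1 (ρ / s)) ^ α =
        2 * B * (max 1 (ρ / s)) ^ α + N * (s / ρ) ^ α * (max 1 (ρ / s)) ^ α := by ring
      rw [b6]
      linarith
  -- conclusion
  have hηUD : ((η : ℂ) * I) ∈ UD ρ ∨ ‖(η : ℂ) * I‖ = ρ := by
    rcases h.ηρ.lt_or_eq with h1 | h1
    · left
      refine ⟨by rw [h.nI]; exact h1, by simpa using h.η0⟩
    · right
      rw [h.nI]; exact h1
  have hηim : 0 ≤ ((η : ℂ) * I).im := by simpa using h.η0.le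
  have hval : ‖f (Ph σ c ν₀ s ρ η Tq zq e (η * I))‖ ≤
      Real.exp (Maj B' s 0 α ((η : ℂ) * I)).re := by
    rcases hηUD with h1 | h1
    · exact halfdisc_max (h.dcc hCK e hf) (Maj_diffContOnCl hs hα0 ρ)
        (fun ζ a b c' => hmaj ζ a b c') _ h1
    · exact hmaj _ h1.le hηim (Or.inr h1)
  rw [hPh] at hval
  refine hval.trans (Real.exp_le_exp.2 ?_)
  refine (Maj_re_le hs hB'0 hα0 hα1 h.η0.le).trans ?_
  rw [zero_mul, add_zero]
  have h1 : η / s ≤ A := by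
    rw [div_le_iff₀ hs]; exact h.ηA
  have h2 : B' * (1 + η / s) ≤ B' * (1 + A) := mul_le_mul_of_nonneg_left (by linarith) hB'0
  refine h2.trans ?_
  have hNs : 0 ≤ N * (s / ρ) ^ α := by positivity
  have h3 : B' * (1 + A) ≤ 2 * (1 + A) / κ * (B + N * (s / ρ) ^ α) := by
    have e1 : B' * (1 + A) = (1 + A) / κ * (2 * B + N * (s / ρ) ^ α) := by rw [hB']; ring
    have e2 : 2 * (1 + A) / κ * (B + N * (s / ρ) ^ α) =
      (1 + A) / κ * (2 * B + 2 * (N * (s / ρ) ^ α)) := by ring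
    rw [e1, e2]
    exact mul_le_mul_of_nonneg_left (by linarith) (by positivity)
  exact h3.trans (mul_le_mul_of_nonneg_right hCκ (by linarith))

end Crest.Agent.R102.DiscLog695
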