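import Crest.Agent.R102.Disc5_669
import Crest.Agent.R102.Step5Defs_613

/-!
Row 102, T1-B, EDGE / SLOW (helper519): the one-shot disc with a prescribed side depth, at every
edge point `e`.
-/

set_option autoImplicit false
set_option linter.unusedSectionVars false
set_option linter.unusedVariables false

open Set Filter Topology Metric Complex MeasureTheory
open scoped Real

noncomputable section

namespace Crest.Agent.R102.DiscM519

open Crest.Agent.R102.Disc669 (Maj Maj_re_ge Maj_diffContOnCl)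

/-! ### the kernel -/

/-- Cauchy type integral of `g` over `[-R,R]` -/
def HH (g : ℝ → ℝ) (R : ℝ) (w : ℂ) : ℂ :=
  -(((π⁻¹ : ℝ) : ℂ) * ∫ x in (-R)..R, (g x : ℂ) / ((x : ℂ) - w))

/-- its derivative -/
def HD (g : ℝ → ℝ) (R : ℝ) (w : ℂ) : ℂ :=
  -(((π⁻¹ : ℝ) : ℂ) * ∫ x in (-R)..R, (g x : ℂ) / ((x : ℂ) - w) ^ 2)

/-- Poisson integral divided by the height -/
def NN (g : ℝ → ℝ) (R : ℝ) (w : ℂ) : ℝ :=
  π⁻¹ * ∫ x in (-R)..R, g x / ((x - w.re) ^ 2 + w.im ^ 2)

section kernel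

variable {g : ℝ → ℝ} {R : ℝ}

lemma sub_ne {w : ℂ} (hw : 0 < w.im) (x : ℝ) : (x : ℂ) - w ≠ 0 := by
  intro h
  have := congrArg Complex.im h
  simp at this
  exact hw.ne' this

lemma im_le_norm {w : ℂ} (hw : 0 < w.im) (x : ℝ) : w.im ≤ ‖(x : ℂ) - w‖ := by
  have h := Complex.abs_im_le_norm ((x : ℂ) - w)
  simp only [sub_im, ofReal_im, zero_sub, abs_neg] at h
  exact (le_abs_self _).trans h

lemma norm_sq (w : ℂ) (x : ℝ) : ‖(x : ℂ) - w‖ ^ 2 = (x - w.re) ^ 2 + w.im ^ 2 := by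
  rw [← Complex.normSq_eq_norm_sq, Complex.normSq_apply]
  simp
  ring

lemma den_pos {w : ℂ} (hw : 0 < w.im) (x : ℝ) : 0 < (x - w.re) ^ 2 + w.im ^ 2 := by positivity

lemma HH_hasDerivAt (hg : Continuous g) {w : ℂ} (hw : 0 < w.im) :
    HasDerivAt (HH g R) (HD g R w) w := by
  obtain ⟨M, hM⟩ : ∃ M, ∀ x ∈ uIcc (-R) R, |g x| ≤ M :=
    (isCompact_uIcc.exists_bound_of_continuousOn (f := g) hg.continuousOn).imp
      (fun M h x hx => by simpa using h x hx)
  have hs : {z : ℂ | w.im / 2 < z.im} ∈ 𝓝 w :=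
    (isOpen_lt continuous_const Complex.continuous_im).mem_nhds (by
      show w.im / 2 < w.im
      linarith)
  have hcont : ∀ z : ℂ, 0 < z.im → Continuous (fun x : ℝ => (g x : ℂ) / ((x : ℂ) - z)) := by
    intro z hz
    exact (Complex.continuous_ofReal.comp hg).div (by fun_prop) (fun x => sub_ne hz x)
  have hcont' : ∀ z : ℂ, 0 < z.im → Continuous (fun x : ℝ => (g x : ℂ) / ((x : ℂ) - z) ^ 2) := by
    intro z hz
    exact (Complex.continuous_ofReal.comp hg).div (by fun_prop)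
      (fun x => pow_ne_zero _ (sub_ne hz x))
  have key := intervalIntegral.hasDerivAt_integral_of_dominated_loc_of_deriv_le (μ := volume)
    (a := -R) (b := R) (F := fun (z : ℂ) (x : ℝ) => (g x : ℂ) / ((x : ℂ) - z))
    (F' := fun (z : ℂ) (x : ℝ) => (g x : ℂ) / ((x : ℂ) - z) ^ 2) (x₀ := w)
    (s := {z : ℂ | w.im / 2 < z.im}) (bound := fun _ => M / (w.im / 2) ^ 2) hs
    (by
      filter_upwards [hs] with z hz
      have hz' : 0 < z.im := lt_trans (by linarith : (0 : ℝ) < w.im / 2) hz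
      exact (hcont z hz').aestronglyMeasurable)
    ((hcont w hw).intervalIntegrable _ _)
    (hcont' w hw).aestronglyMeasurable
    (by
      refine Filter.Eventually.of_forall (fun x hx z hz => ?_)
      have hz' : 0 < z.im := lt_trans (by linarith : (0 : ℝ) < w.im / 2) hz
      have h1 := hM x (uIoc_subset_uIcc hx)
      have h2 := im_le_norm hz' x
      have h3 : w.im / 2 ≤ ‖(x : ℂ) - z‖ := le_trans (le_of_lt hz) h2
      have h4 : (w.im / 2) ^ 2 ≤ ‖(x : ℂ) - z‖ ^ 2 := by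
        have : 0 < w.im / 2 := by linarith
        gcongr
      rw [norm_div, norm_pow, Complex.norm_real, Real.norm_eq_abs]
      have h5 : 0 < (w.im / 2) ^ 2 := by positivity
      gcongr
      exact (abs_nonneg _).trans h1)
    intervalIntegrable_const
    (by
      refine Filter.Eventually.of_forall (fun x hx z hz => ?_)
      have hz' : 0 < z.im := lt_trans (by linarith : (0 : ℝ) < w.im / 2) hz
      have h1 : HasDerivAt (fun z : ℂ => (x : ℂ) - z) (-1) z := by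
        simpa using (hasDerivAt_id z).const_sub (x : ℂ)
      have h2 := h1.inv (sub_ne hz' x)
      have h3 := h2.const_mul (g x : ℂ)
      refine (h3.congr_deriv ?_)
      field_simp)
  have h2 := (key.2.const_mul ((π⁻¹ : ℝ) : ℂ)).neg
  exact h2

lemma HH_im (hg : Continuous g) {w : ℂ} (hw : 0 < w.im) :
    (HH g R w).im = -(w.im * NN g R w) := by
  have hcont : Continuous (fun x : ℝ => (g x : ℂ) / ((x : ℂ) - w)) :=
    (Complex.continuous_ofReal.comp hg).div (by fun_prop) (fun x => sub_ne hw x)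
  unfold HH NN
  rw [neg_im, Complex.im_ofReal_mul]
  have h1 : (∫ x in (-R)..R, (g x : ℂ) / ((x : ℂ) - w)).im =
      ∫ x in (-R)..R, ((g x : ℂ) / ((x : ℂ) - w)).im := by
    have := Complex.imCLM.intervalIntegral_comp_comm (hcont.intervalIntegrable (μ := volume) (-R) R)
    simpa using this.symm
  rw [h1]
  have h2 : ∀ x : ℝ, ((g x : ℂ) / ((x : ℂ) - w)).im =
      w.im * (g x / ((x - w.re) ^ 2 + w.im ^ 2)) := by
    intro x
    rw [div_eq_mul_inv, Complex.im_ofReal_mul, Complex.inv_im, Complex.normSq_eq_norm_sq, norm_sq]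
    simp
    ring
  simp_rw [h2]
  rw [intervalIntegral.integral_const_mul]
  ring

lemma HD_norm (hg : Continuous g) (hg0 : ∀ x, 0 ≤ g x) (hR : 0 ≤ R) {w : ℂ} (hw : 0 < w.im) :
    ‖HD g R w‖ ≤ NN g R w := by
  unfold HD NN
  rw [norm_neg, norm_mul, Complex.norm_real, Real.norm_eq_abs, abs_of_pos (by positivity)]
  refine mul_le_mul_of_nonneg_left ?_ (by positivity)
  refine (intervalIntegral.norm_integral_le_integral_norm (by linarith)).trans (le_of_eq ?_)
  refine intervalIntegral.integral_congr (fun x _ => ?_)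
  show ‖(g x : ℂ) / ((x : ℂ) - w) ^ 2‖ = _
  rw [norm_div, norm_pow, norm_sq, Complex.norm_real, Real.norm_eq_abs, abs_of_nonneg (hg0 x)]

lemma ker_cont (hg : Continuous g) {w : ℂ} (hw : 0 < w.im) :
    Continuous (fun x : ℝ => g x / ((x - w.re) ^ 2 + w.im ^ 2)) :=
  hg.div (by fun_prop) (fun x => (den_pos hw x).ne')

/-- decreasing in the height -/
lemma NN_anti (hg : Continuous g) (hg0 : ∀ x, 0 ≤ g x) (hR : 0 ≤ R) {w w' : ℂ} (hw : 0 < w.im)
    (hre : w'.re = w.re) (him : w.im ≤ w'.im) : NN g R w' ≤ NN g R w := by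
  unfold NN
  refine mul_le_mul_of_nonneg_left ?_ (by positivity)
  refine intervalIntegral.integral_mono_on (by linarith)
    ((ker_cont hg (hw.trans_le him)).intervalIntegrable _ _)
    ((ker_cont hg hw).intervalIntegrable _ _) (fun x _ => ?_)
  rw [hre]
  have h1 := den_pos hw x
  have h2 := hg0 x
  gcongr

/-- upper bound at points where the kernel is dominated -/
lemma NN_le (hg : Continuous g) (hg0 : ∀ x, 0 ≤ g x) (hR : 0 ≤ R) {w : ℂ} (hw : 0 < w.im)
    {s D I : ℝ} (hs : 0 < s) (hD : 0 < D)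
    (hdom : ∀ x : ℝ, s ^ 2 + x ^ 2 ≤ D * ((x - w.re) ^ 2 + w.im ^ 2))
    (hI : ∫ x in (-R)..R, g x / (s ^ 2 + x ^ 2) ≤ I) : NN g R w ≤ π⁻¹ * (D * I) := by
  unfold NN
  refine mul_le_mul_of_nonneg_left ?_ (by positivity)
  have hc : Continuous (fun x : ℝ => g x / (s ^ 2 + x ^ 2)) :=
    hg.div (by fun_prop) (fun x => by positivity)
  calc ∫ x in (-R)..R, g x / ((x - w.re) ^ 2 + w.im ^ 2)
      ≤ ∫ x in (-R)..R, D * (g x / (s ^ 2 + x ^ 2)) := by
        refine intervalIntegral.integral_mono_on (by linarith)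
          ((ker_cont hg hw).intervalIntegrable _ _)
          ((hc.const_mul D).intervalIntegrable _ _) (fun x _ => ?_)
        have h1 := den_pos hw x
        have h2 := hg0 x
        have h3 : 0 < s ^ 2 + x ^ 2 := by positivity
        rw [mul_div_assoc', div_le_div_iff₀ h1 h3]
        nlinarith [mul_le_mul_of_nonneg_left (hdom x) h2]
    _ = D * ∫ x in (-R)..R, g x / (s ^ 2 + x ^ 2) := intervalIntegral.integral_const_mul _ _
    _ ≤ D * I := by gcongr

/-- lower bound from the Lipschitz property -/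
lemma NN_ge (hg : Continuous g) (hg0 : ∀ x, 0 ≤ g x) (hL : ∀ x y, |g x - g y| ≤ |x - y|)
    {w : ℂ} (hw : 0 < w.im) (hR : |w.re| + w.im ≤ R) :
    (g w.re - w.im) / (π * w.im) ≤ NN g R w := by
  have hRpos : 0 ≤ R := le_trans (by positivity) hR
  obtain ⟨h1, h2⟩ := abs_le.1 (by linarith [abs_nonneg w.re] : |w.re| ≤ R - w.im)
  have hsub : Icc (w.re - w.im) (w.re + w.im) ⊆ Icc (-R) R := by
    intro x hx
    exact ⟨by linarith [hx.1], by linarith [hx.2]⟩
  unfold NN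
  have key : (g w.re - w.im) / w.im ≤ ∫ x in (-R)..R, g x / ((x - w.re) ^ 2 + w.im ^ 2) := by
    calc (g w.re - w.im) / w.im
        = ∫ x in (w.re - w.im)..(w.re + w.im), (g w.re - w.im) / (2 * w.im ^ 2) := by
          rw [intervalIntegral.integral_const, smul_eq_mul]
          field_simp
          ring
      _ ≤ ∫ x in (w.re - w.im)..(w.re + w.im), g x / ((x - w.re) ^ 2 + w.im ^ 2) := by
          refine intervalIntegral.integral_mono_on (by linarith) intervalIntegrable_const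
            ((ker_cont hg hw).intervalIntegrable _ _) (fun x hx => ?_)
          have h3 : |x - w.re| ≤ w.im := abs_le.2 ⟨by linarith [hx.1], by linarith [hx.2]⟩
          have h4 : g w.re - w.im ≤ g x := by
            have := (abs_le.1 (hL x w.re)).1
            linarith
          have h5 : (x - w.re) ^ 2 + w.im ^ 2 ≤ 2 * w.im ^ 2 := by
            have : (x - w.re) ^ 2 ≤ w.im ^ 2 := by
              rw [← sq_abs (x - w.re)]
              gcongr
            linarith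
          have h6 := den_pos hw x
          calc (g w.re - w.im) / (2 * w.im ^ 2) ≤ g x / (2 * w.im ^ 2) := by gcongr
            _ ≤ g x / ((x - w.re) ^ 2 + w.im ^ 2) := by
              have := hg0 x
              gcongr
      _ ≤ ∫ x in (-R)..R, g x / ((x - w.re) ^ 2 + w.im ^ 2) := by
          refine intervalIntegral.integral_mono_interval (by linarith) (by linarith) (by linarith) ?_
            ((ker_cont hg hw).intervalIntegrable _ _)
          refine Filter.Eventually.of_forall (fun x => ?_)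
          have := hg0 x
          have := den_pos hw x
          simp only [Pi.zero_apply]
          positivity
  have h7 := mul_le_mul_of_nonneg_left key (by positivity : (0 : ℝ) ≤ π⁻¹)
  refine le_trans (le_of_eq ?_) h7
  field_simp

end kernel

/-! ### the correction -/

/-- minus the imaginary part of the correction -/
def PT (G : ℝ → ℝ) (κ ρ : ℝ) (w : ℂ) : ℝ :=
  w.im * NN G (4 * ρ) w + κ * (w.re ^ 2 - w.im ^ 2) / ρ

/-- the correction -/
def Ht (G : ℝ → ℝ) (κ ρ : ℝ) (w : ℂ) : ℂ := HH G (4 * ρ) w - I * κ * w ^ 2 / ρ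

/-- its derivative -/
def HtD (G : ℝ → ℝ) (κ ρ : ℝ) (w : ℂ) : ℂ := HD G (4 * ρ) w - I * κ * (2 * w) / ρ

/-- the domain of the disc -/
def Om (G : ℝ → ℝ) (κ ρ S1 : ℝ) : Set ℂ := {w | ‖w‖ < ρ ∧ 0 < w.im ∧ PT G κ ρ w < S1 * w.im}

section corr

variable {G : ℝ → ℝ} {κ ρ S1 s : ℝ}

lemma cont_of_lip (hL : ∀ x y, |G x - G y| ≤ |x - y|) : Continuous G := by
  have : LipschitzWith 1 G := LipschitzWith.of_dist_le_mul (fun x y => by
    rw [Real.dist_eq, Real.dist_eq]; simpa using hL x y)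
  exact this.continuous

lemma Ht_hasDerivAt (hG : Continuous G) {w : ℂ} (hw : 0 < w.im) :
    HasDerivAt (Ht G κ ρ) (HtD G κ ρ w) w := by
  have h1 := HH_hasDerivAt (R := 4 * ρ) hG hw
  have h2 : HasDerivAt (fun w : ℂ => I * κ * w ^ 2 / ρ) (I * κ * (2 * w) / ρ) w := by
    have := ((hasDerivAt_pow 2 w).const_mul (I * (κ : ℂ))).div_const (ρ : ℂ)
    simpa using this
  exact h1.sub h2

lemma Ht_im (hG : Continuous G) {w : ℂ} (hw : 0 < w.im) : (Ht G κ ρ w).im = -PT G κ ρ w := by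
  unfold Ht PT
  rw [sub_im, HH_im hG hw]
  have h1 : (I * (κ : ℂ) * w ^ 2 / (ρ : ℂ)).im = κ * (w.re ^ 2 - w.im ^ 2) / ρ := by
    rw [Complex.div_ofReal_im]
    congr 1
    simp [pow_two]
  rw [h1]
  ring

lemma HtD_norm (hG : Continuous G) (hG0 : ∀ x, 0 ≤ G x) (hκ : 0 ≤ κ) (hρ : 0 < ρ) {w : ℂ}
    (hw : 0 < w.im) : ‖HtD G κ ρ w‖ ≤ NN G (4 * ρ) w + 2 * κ * ‖w‖ / ρ := by
  unfold HtD
  refine (norm_sub_le _ _).trans (add_le_add (HD_norm hG hG0 (by positivity) hw) (le_of_eq ?_))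
  rw [norm_div, norm_mul, norm_mul, norm_mul, norm_I, Complex.norm_of_nonneg hκ,
    Complex.norm_of_nonneg hρ.le]
  simp
  ring

lemma PT_cont (hG : Continuous G) {w : ℂ} (hw : 0 < w.im) : ContinuousAt (PT G κ ρ) w := by
  have h1 : ContinuousAt (fun z => -(Ht G κ ρ z).im) w :=
    (Complex.continuous_im.continuousAt.comp (Ht_hasDerivAt hG hw).continuousAt).neg
  refine h1.congr ?_
  filter_upwards [(isOpen_lt continuous_const Complex.continuous_im).mem_nhds
    (show (0 : ℝ) < w.im from hw)] with z hz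
  rw [Ht_im hG hz, neg_neg]

lemma isOpen_Om (hG : Continuous G) : IsOpen (Om G κ ρ S1) := by
  rw [isOpen_iff_mem_nhds]
  rintro w ⟨h1, h2, h3⟩
  have e1 : ∀ᶠ z in 𝓝 w, ‖z‖ < ρ := (isOpen_lt continuous_norm continuous_const).mem_nhds h1
  have e2 : ∀ᶠ z : ℂ in 𝓝 w, 0 < z.im :=
    (isOpen_lt continuous_const Complex.continuous_im).mem_nhds h2
  have e3 : ∀ᶠ z in 𝓝 w, PT G κ ρ z < S1 * z.im :=
    (PT_cont hG h2).eventually_lt (by fun_prop) h3
  filter_upwards [e1, e2, e3] with z a b c using ⟨a, b, c⟩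

/-- bound for the Poisson quotient from the defining inequality -/
lemma NN_of_PT (hκ : 0 ≤ κ) (hρ : 0 < ρ) {w : ℂ} (hw : 0 < w.im) (hwρ : ‖w‖ ≤ ρ)
    (h : PT G κ ρ w ≤ S1 * w.im) : NN G (4 * ρ) w ≤ S1 + κ := by
  unfold PT at h
  have h1 : w.im ≤ ρ := ((le_abs_self _).trans (Complex.abs_im_le_norm w)).trans hwρ
  have h2 : κ * w.im ^ 2 / ρ ≤ κ * w.im := by
    rw [div_le_iff₀ hρ]
    have := mul_le_mul_of_nonneg_left h1 (mul_nonneg hκ hw.le)
    nlinarith
  have h3 : -(κ * w.im ^ 2 / ρ) ≤ κ * (w.re ^ 2 - w.im ^ 2) / ρ := by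
    rw [← neg_div]
    gcongr
    nlinarith [mul_nonneg hκ (sq_nonneg w.re)]
  have h4 : w.im * NN G (4 * ρ) w ≤ w.im * (S1 + κ) := by nlinarith
  exact le_of_mul_le_mul_left h4 hw

lemma G_le_of_NN (hL : ∀ x y, |G x - G y| ≤ |x - y|) (hG0 : ∀ x, 0 ≤ G x) (hρ : 0 < ρ) {w : ℂ}
    (hw : 0 < w.im) (hwρ : ‖w‖ ≤ ρ) {M : ℝ} (h : NN G (4 * ρ) w ≤ M) :
    G w.re ≤ (π * M + 1) * w.im := by
  have h1 : |w.re| ≤ ρ := (Complex.abs_re_le_norm w).trans hwρ
  have h2 : w.im ≤ ρ := ((le_abs_self _).trans (Complex.abs_im_le_norm w)).trans hwρ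
  have h3 := NN_ge (cont_of_lip hL) hG0 hL hw (by linarith : |w.re| + w.im ≤ 4 * ρ)
  have h4 : (G w.re - w.im) / (π * w.im) ≤ M := h3.trans h
  rw [div_le_iff₀ (by positivity)] at h4
  nlinarith

lemma closure_Om (hL : ∀ x y, |G x - G y| ≤ |x - y|) (hG0 : ∀ x, 0 < G x) (hκ : 0 ≤ κ)
    (hρ : 0 < ρ) (hS : 0 ≤ S1) {w : ℂ} (hw : w ∈ closure (Om G κ ρ S1)) :
    ‖w‖ ≤ ρ ∧ 0 < w.im ∧ PT G κ ρ w ≤ S1 * w.im ∧ NN G (4 * ρ) w ≤ S1 + κ ∧
      G w.re ≤ (π * (S1 + κ) + 1) * w.im := by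
  have hGc := cont_of_lip hL
  have h1 : ‖w‖ ≤ ρ := by
    have : closure (Om G κ ρ S1) ⊆ {w | ‖w‖ ≤ ρ} :=
      closure_minimal (fun z hz => hz.1.le) (isClosed_le continuous_norm continuous_const)
    exact this hw
  have h2 : G w.re ≤ (π * (S1 + κ) + 1) * w.im := by
    have : closure (Om G κ ρ S1) ⊆ {w | G w.re ≤ (π * (S1 + κ) + 1) * w.im} := by
      refine closure_minimal (fun z hz => ?_) (isClosed_le (by fun_prop) (by fun_prop))
      exact G_le_of_NN hL (fun x => (hG0 x).le) hρ hz.2.1 hz.1.le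
        (NN_of_PT hκ hρ hz.2.1 hz.1.le hz.2.2.le)
    exact this hw
  have h3 : 0 < w.im := by
    have h4 := hG0 w.re
    have h5 : 0 < π * (S1 + κ) + 1 := by positivity
    by_contra hcon
    push Not at hcon
    have := mul_nonpos_of_nonneg_of_nonpos h5.le hcon
    linarith
  have h4 : PT G κ ρ w ≤ S1 * w.im := by
    have : (𝓝[Om G κ ρ S1] w).NeBot := mem_closure_iff_nhdsWithin_neBot.1 hw
    refine le_of_tendsto_of_tendsto ((PT_cont hGc h3).continuousWithinAt (s := Om G κ ρ S1))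
      ((by fun_prop : ContinuousAt (fun z : ℂ => S1 * z.im) w).continuousWithinAt
        (s := Om G κ ρ S1)) ?_
    filter_upwards [self_mem_nhdsWithin] with z hz using hz.2.2.le
  exact ⟨h1, h3, h4, NN_of_PT hκ hρ h3 h1 h4, h2⟩

/-- Lipschitz along a segment -/
lemma Ht_seg (hG : Continuous G) {a b : ℂ} {L : ℝ} (hpos : ∀ z ∈ segment ℝ a b, 0 < z.im)
    (hb : ∀ z ∈ segment ℝ a b, ‖HtD G κ ρ z‖ ≤ L) : ‖Ht G κ ρ b - Ht G κ ρ a‖ ≤ L * ‖b - a‖ :=
  (convex_segment a b).norm_image_sub_le_of_norm_hasDerivWithin_le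
    (fun z hz => (Ht_hasDerivAt hG (hpos z hz)).hasDerivWithinAt) hb
    (left_mem_segment ℝ a b) (right_mem_segment ℝ a b)

lemma vseg {a b z : ℂ} (hz : z ∈ segment ℝ a b) (hre : b.re = a.re) (him : a.im ≤ b.im) :
    z.re = a.re ∧ a.im ≤ z.im ∧ z.im ≤ b.im := by
  obtain ⟨t1, t2, h1, h2, h3, rfl⟩ := hz
  simp only [Complex.real_smul, add_re, add_im, Complex.re_ofReal_mul, Complex.im_ofReal_mul, hre]
  have e : t1 = 1 - t2 := by linarith
  subst e
  refine ⟨by ring, by nlinarith, by nlinarith⟩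

lemma hseg {a b z : ℂ} {Y : ℝ} (hz : z ∈ segment ℝ a b) (him : b.im = a.im) (ha : |a.re| ≤ Y)
    (hb : |b.re| ≤ Y) : z.im = a.im ∧ |z.re| ≤ Y := by
  obtain ⟨t1, t2, h1, h2, h3, rfl⟩ := hz
  simp only [Complex.real_smul, add_re, add_im, Complex.re_ofReal_mul, Complex.im_ofReal_mul, him]
  have e : t1 = 1 - t2 := by linarith
  subst e
  refine ⟨by ring, ?_⟩
  rw [abs_le] at ha hb ⊢
  constructor <;> nlinarith [ha.1, ha.2, hb.1, hb.2]

lemma dom {z : ℂ} {s M c D : ℝ} (hs : 0 < s) (hc : 0 < c) (hM : 0 ≤ M) (h1 : |z.re| ≤ M * z.im)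
    (h2 : c * s ≤ z.im) (hD : 2 + 2 * M ^ 2 + 1 / c ^ 2 ≤ D) (x : ℝ) :
    s ^ 2 + x ^ 2 ≤ D * ((x - z.re) ^ 2 + z.im ^ 2) := by
  have h3 : 0 < z.im := lt_of_lt_of_le (by positivity) h2
  have h4 : s ^ 2 ≤ 1 / c ^ 2 * z.im ^ 2 := by
    rw [div_mul_eq_mul_div, one_mul, le_div_iff₀ (by positivity)]
    calc s ^ 2 * c ^ 2 = (c * s) ^ 2 := by ring
      _ ≤ z.im ^ 2 := by gcongr
  have h5 : z.re ^ 2 ≤ M ^ 2 * z.im ^ 2 := by
    rw [← sq_abs z.re, ← mul_pow]
    gcongr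
  have h6 : x ^ 2 ≤ 2 * (x - z.re) ^ 2 + 2 * z.re ^ 2 := by nlinarith [sq_nonneg (x - 2 * z.re)]
  have h7 : 0 ≤ (x - z.re) ^ 2 := sq_nonneg _
  have h8 : 0 ≤ z.im ^ 2 := sq_nonneg _
  have h9 : 0 ≤ 1 / c ^ 2 := by positivity
  calc s ^ 2 + x ^ 2 ≤ 2 * (x - z.re) ^ 2 + (2 * M ^ 2 + 1 / c ^ 2) * z.im ^ 2 := by nlinarith
    _ ≤ (2 + 2 * M ^ 2 + 1 / c ^ 2) * ((x - z.re) ^ 2 + z.im ^ 2) := by
      have : 0 ≤ M ^ 2 := sq_nonneg _
      nlinarith [mul_nonneg h9 h7, mul_nonneg this h7]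
    _ ≤ D * ((x - z.re) ^ 2 + z.im ^ 2) := by gcongr

/-- the correction moves points by at most a constant times the scale -/
lemma Ht_diff (hL : ∀ x y, |G x - G y| ≤ |x - y|) (hG0 : ∀ x, 0 ≤ G x) (hκ : 0 ≤ κ)
    (hρ : 0 < ρ) {A c₂ D I0 M r : ℝ} (hA : 1 ≤ A) (hc₂ : 0 < c₂) (hs : 0 < s) (hD : 5 ≤ D)
    (hI : ∫ x in (-(4 * ρ))..(4 * ρ), G x / (s ^ 2 + x ^ 2) ≤ I0) (hDI : π⁻¹ * (D * I0) ≤ 1)
    (hM : 1 ≤ M) (hsr : s ≤ r) (hrρ : r ≤ ρ) {w wq : ℂ} (hw : 0 < w.im) (hwr : ‖w‖ ≤ r)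
    (hNw : NN G (4 * ρ) w ≤ M) (hq : ‖wq‖ ≤ A * s) (hq2 : c₂ * s ≤ wq.im)
    (hNq : NN G (4 * ρ) wq ≤ 1) :
    ‖Ht G κ ρ w - Ht G κ ρ wq‖ ≤ (M + 4 * κ * (1 + A)) * (4 * (1 + A) * r) := by
  have hGc := cont_of_lip hL
  have hr : 0 < r := hs.trans_le hsr
  set Y : ℝ := (1 + A) * r with hY
  have hYpos : 0 < Y := by positivity
  have hqim : 0 < wq.im := lt_of_lt_of_le (by positivity) hq2
  have a1 : |w.re| ≤ r := (Complex.abs_re_le_norm w).trans hwr
  have a2 : w.im ≤ r := ((le_abs_self _).trans (Complex.abs_im_le_norm w)).trans hwr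
  have hAs : A * s ≤ A * r := by gcongr
  have a3 : |wq.re| ≤ A * r := ((Complex.abs_re_le_norm wq).trans hq).trans hAs
  have a4 : wq.im ≤ A * r :=
    (((le_abs_self _).trans (Complex.abs_im_le_norm wq)).trans hq).trans hAs
  have hYr : r ≤ Y := by rw [hY]; nlinarith
  have hYA : A * r ≤ Y := by rw [hY]; nlinarith
  have hYρ : Y ≤ (1 + A) * ρ := by rw [hY]; gcongr
  set w1 : ℂ := ⟨w.re, Y⟩ with hw1
  set w2 : ℂ := ⟨wq.re, Y⟩ with hw2
  have nrm : ∀ z : ℂ, |z.re| ≤ Y → 0 < z.im → z.im ≤ Y → 2 * κ * ‖z‖ / ρ ≤ 4 * κ * (1 + A) := by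
    intro z h1 h2 h3
    have h4 : ‖z‖ ≤ 2 * Y := by
      refine (Complex.norm_le_abs_re_add_abs_im z).trans ?_
      rw [abs_of_pos h2]
      linarith
    rw [div_le_iff₀ hρ]
    nlinarith [mul_le_mul_of_nonneg_left (h4.trans (mul_le_mul_of_nonneg_left hYρ (by norm_num :
      (0 : ℝ) ≤ 2))) hκ]
  -- three segments
  have s1 : ‖Ht G κ ρ w1 - Ht G κ ρ w‖ ≤ (M + 4 * κ * (1 + A)) * ‖w1 - w‖ := by
    have hv : ∀ z ∈ segment ℝ w w1, z.re = w.re ∧ w.im ≤ z.im ∧ z.im ≤ w1.im := fun z hz =>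
      vseg hz rfl (by show w.im ≤ Y; linarith)
    refine Ht_seg hGc (fun z hz => hw.trans_le (hv z hz).2.1) (fun z hz => ?_)
    obtain ⟨h1, h2, h3⟩ := hv z hz
    have h3' : z.im ≤ Y := h3
    refine (HtD_norm hGc hG0 hκ hρ (hw.trans_le h2)).trans (add_le_add ?_ ?_)
    · exact (NN_anti hGc hG0 (by positivity) hw h1 h2).trans hNw
    · exact nrm z (by rw [h1]; linarith) (hw.trans_le h2) h3'
  have s2 : ‖Ht G κ ρ w2 - Ht G κ ρ w1‖ ≤ (M + 4 * κ * (1 + A)) * ‖w2 - w1‖ := by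
    have hv : ∀ z ∈ segment ℝ w1 w2, z.im = Y ∧ |z.re| ≤ Y := fun z hz =>
      hseg hz rfl (by show |w.re| ≤ Y; linarith) (by show |wq.re| ≤ Y; linarith)
    refine Ht_seg hGc (fun z hz => by rw [(hv z hz).1]; exact hYpos) (fun z hz => ?_)
    obtain ⟨h1, h2⟩ := hv z hz
    have h0 : 0 < z.im := by rw [h1]; exact hYpos
    refine (HtD_norm hGc hG0 hκ hρ h0).trans (add_le_add ?_ ?_)
    · refine ((NN_le hGc hG0 (by positivity) h0 hs (by linarith : (0 : ℝ) < D)
        (dom (M := 1) (c := 1) hs one_pos zero_le_one ?_ ?_ ?_) hI).trans hDI).trans hM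
      · rw [h1, one_mul]; exact h2
      · rw [h1, one_mul]; linarith
      · norm_num
        exact hD
    · exact nrm z h2 h0 h1.le
  have s3 : ‖Ht G κ ρ w2 - Ht G κ ρ wq‖ ≤ (M + 4 * κ * (1 + A)) * ‖w2 - wq‖ := by
    have hv : ∀ z ∈ segment ℝ wq w2, z.re = wq.re ∧ wq.im ≤ z.im ∧ z.im ≤ w2.im := fun z hz =>
      vseg hz rfl (by show wq.im ≤ Y; linarith)
    refine Ht_seg hGc (fun z hz => hqim.trans_le (hv z hz).2.1) (fun z hz => ?_)
    obtain ⟨h1, h2, h3⟩ := hv z hz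
    have h3' : z.im ≤ Y := h3
    refine (HtD_norm hGc hG0 hκ hρ (hqim.trans_le h2)).trans (add_le_add ?_ ?_)
    · exact ((NN_anti hGc hG0 (by positivity) hqim h1 h2).trans hNq).trans hM
    · exact nrm z (by rw [h1]; linarith) (hqim.trans_le h2) h3'
  have l1 : ‖w1 - w‖ ≤ Y := by
    have : w1 - w = ((Y - w.im : ℝ) : ℂ) * I := by
      apply Complex.ext <;> simp [hw1]
    rw [this, norm_mul, norm_I, mul_one, Complex.norm_real, Real.norm_eq_abs, abs_of_nonneg
      (by linarith)]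
    linarith
  have l3 : ‖w2 - wq‖ ≤ Y := by
    have : w2 - wq = ((Y - wq.im : ℝ) : ℂ) * I := by
      apply Complex.ext <;> simp [hw2]
    rw [this, norm_mul, norm_I, mul_one, Complex.norm_real, Real.norm_eq_abs, abs_of_nonneg
      (by linarith)]
    linarith
  have l2 : ‖w2 - w1‖ ≤ Y := by
    have : w2 - w1 = ((wq.re - w.re : ℝ) : ℂ) := by
      apply Complex.ext <;> simp [hw1, hw2]
    rw [this, Complex.norm_real, Real.norm_eq_abs]
    refine (abs_sub _ _).trans ?_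
    rw [hY]
    linarith
  have hLpos : 0 ≤ M + 4 * κ * (1 + A) := by positivity
  have t1 : Ht G κ ρ w - Ht G κ ρ wq = (Ht G κ ρ w2 - Ht G κ ρ wq) - (Ht G κ ρ w2 - Ht G κ ρ w1) -
      (Ht G κ ρ w1 - Ht G κ ρ w) := by ring
  rw [t1]
  calc ‖(Ht G κ ρ w2 - Ht G κ ρ wq) - (Ht G κ ρ w2 - Ht G κ ρ w1) - (Ht G κ ρ w1 - Ht G κ ρ w)‖
      ≤ (M + 4 * κ * (1 + A)) * Y + (M + 4 * κ * (1 + A)) * Y + (M + 4 * κ * (1 + A)) * Y := by
        refine (norm_sub_le _ _).trans (add_le_add ((norm_sub_le _ _).trans (add_le_add ?_ ?_)) ?_)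
        · exact s3.trans (by gcongr)
        · exact s2.trans (by gcongr)
        · exact s1.trans (by gcongr)
    _ ≤ (M + 4 * κ * (1 + A)) * (4 * (1 + A) * r) := by
        rw [hY]
        nlinarith [mul_nonneg hLpos hYpos.le]

end corr

/-! ### the disc -/

lemma Maj_diffAt {B' s N α : ℝ} (hs : 0 < s) {ζ : ℂ} (hζ : 0 ≤ ζ.im) :
    DifferentiableAt ℂ (Maj B' s N α) ζ := by
  have hre : 0 < ((1 : ℂ) + (-(I * ζ)) / s).re := by
    rw [add_re, one_re, Complex.div_ofReal_re]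
    have : (-(I * ζ)).re = ζ.im := by simp
    rw [this]
    positivity
  unfold Maj
  have h3 : DifferentiableAt ℂ (fun ζ : ℂ => ((1 : ℂ) + (-(I * ζ)) / s) ^ (α : ℂ)) ζ :=
    DifferentiableAt.cpow_const (f := fun ζ : ℂ => (1 : ℂ) + (-(I * ζ)) / s) (by fun_prop)
      (Or.inl hre)
  refine (h3.const_mul _).add ?_
  fun_prop

lemma Maj_re_le' {B' s N α A : ℝ} (hs : 0 < s) (hB : 0 ≤ B') (hN : 0 ≤ N) (h0 : 0 < α)
    (h1 : α < 1) {ζ : ℂ} (hζ : ‖ζ‖ ≤ A * s) :
    (Maj B' s N α ζ).re ≤ B' * (1 + A) + N * (A * s) := by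
  have hA : 0 ≤ A := by
    by_contra hcon
    push Not at hcon
    have := norm_nonneg ζ
    nlinarith
  refine (Complex.re_le_norm _).trans ?_
  unfold Maj
  refine (norm_add_le _ _).trans (add_le_add ?_ ?_)
  · rw [norm_mul, Complex.norm_of_nonneg hB, Complex.norm_cpow_real]
    refine mul_le_mul_of_nonneg_left ?_ hB
    have h2 : ‖(1 : ℂ) + (-(I * ζ)) / s‖ ≤ 1 + A := by
      refine (norm_add_le _ _).trans (add_le_add (by simp) ?_)
      rw [norm_div, norm_neg, norm_mul, norm_I, one_mul, Complex.norm_of_nonneg hs.le,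
        div_le_iff₀ hs]
      exact hζ
    calc ‖(1 : ℂ) + (-(I * ζ)) / s‖ ^ α ≤ (1 + A) ^ α := by gcongr
      _ ≤ (1 + A) ^ (1 : ℝ) := Real.rpow_le_rpow_of_exponent_le (by linarith) h1.le
      _ = 1 + A := Real.rpow_one _
  · rw [norm_mul, Complex.norm_of_nonneg hN, norm_neg, norm_mul, norm_I, one_mul]
    gcongr

set_option maxHeartbeats 4000000 in
theorem core {E : Type*} [NormedAddCommGroup E] [NormedSpace ℂ E] {σ c A c₂ α : ℝ}
    (hσ : 0 ≤ σ) (hc : 0 < c) (hA : 1 ≤ A) (hc₂ : 0 < c₂) (hα0 : 0 < α) (hα1 : α < 1) :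
    ∃ I0 : ℝ, 0 < I0 ∧ ∃ K : ℝ, 1 ≤ K ∧ ∃ ν : ℝ, 0 < ν ∧ ∃ C : ℝ, 1 ≤ C ∧
      ∀ (e : ℝ × ℝ) (s ρ : ℝ), 0 < s → C * s ≤ ρ → ∀ G : ℝ → ℝ, (∀ x, 0 < G x) →
        (∀ x y, |G x - G y| ≤ |x - y|) →
        (∫ x in (-(4 * ρ))..(4 * ρ), G x / (s ^ 2 + x ^ 2)) ≤ I0 →
      ∀ F : ℂ × ℂ → E, DifferentiableOn ℂ F (S5.Half e (C * ρ) σ) → ∀ B N : ℝ, 0 ≤ B → 0 ≤ N →
        (∀ q : ℂ × ℂ, ∀ r : ℝ, s ≤ r → r ≤ ρ → ‖q.1 - e.1‖ ≤ C * r → ‖q.2 - e.2‖ ≤ r →
          (r = s ∨ r = ‖q.2 - e.2‖) → G (q.2.re - e.2) ≤ K * q.2.im → q.2.im ≤ -q.1.im →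
          0 < q.2.im → ‖F q‖ ≤ Real.exp (B * (r / s) ^ α)) →
        (∀ q : ℂ × ℂ, ‖q.1 - e.1‖ ≤ C * ρ → ‖q.2 - e.2‖ ≤ ρ → ν * ρ ≤ q.2.im →
          q.1.im ≤ σ * q.2.im - ν * ρ → ‖F q‖ ≤ Real.exp N) →
        ∀ x : ℂ × ℂ, ‖x.1‖ ≤ A → ‖x.2‖ ≤ A → c₂ ≤ x.2.im → x.1.im ≤ (σ - c) * x.2.im →
          ‖F (S5.bl e s x)‖ ≤ Real.exp (C * (B + N * (s / ρ))) := by
  obtain ⟨κ, hκdef⟩ : ∃ κ : ℝ, κ = min (c / 8) (1 / 2) := ⟨_, rfl⟩
  have hκ : 0 < κ := by rw [hκdef]; exact lt_min (by positivity) (by norm_num)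
  have hκc : κ ≤ c / 8 := by rw [hκdef]; exact min_le_left _ _
  have hκ1 : κ ≤ 1 / 2 := by rw [hκdef]; exact min_le_right _ _
  obtain ⟨S1, hS1⟩ : ∃ S1 : ℝ, S1 = σ + 1 := ⟨_, rfl⟩
  have hS1' : 1 ≤ S1 := by rw [hS1]; linarith
  have hS10 : 0 ≤ S1 := by linarith
  obtain ⟨D, hD⟩ : ∃ D : ℝ, D = 5 + 2 * (A / c₂) ^ 2 + 1 / c₂ ^ 2 := ⟨_, rfl⟩
  have hD5 : 5 ≤ D := by
    rw [hD]
    have : 0 ≤ 2 * (A / c₂) ^ 2 + 1 / c₂ ^ 2 := by positivity
    linarith
  have hD0 : 0 < D := by linarith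
  obtain ⟨ν₁, hν₁⟩ : ∃ ν₁ : ℝ, ν₁ = κ / (4 * (σ + 1)) := ⟨_, rfl⟩
  have hν₁0 : 0 < ν₁ := by rw [hν₁]; positivity
  have hν₁κ : σ * ν₁ ≤ κ / 4 := by
    rw [hν₁, mul_div_assoc', div_le_iff₀ (by positivity)]
    have e1 : κ / 4 * (4 * (σ + 1)) = σ * κ + κ := by ring
    rw [e1]
    linarith
  have hν₁κ' : ν₁ ≤ κ / 4 := by
    rw [hν₁, div_le_iff₀ (by positivity)]
    have e1 : κ / 4 * (4 * (σ + 1)) = σ * κ + κ := by ring
    rw [e1]
    have := mul_nonneg hσ hκ.le
    linarith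
  have hν₁8 : ν₁ ≤ 1 / 8 := by linarith
  obtain ⟨L, hLdef⟩ : ∃ L : ℝ, L = (S1 + κ + 4 * κ * (1 + A)) * (4 * (1 + A)) := ⟨_, rfl⟩
  have hL0 : 0 ≤ L := by rw [hLdef]; positivity
  obtain ⟨C1, hC1⟩ : ∃ C1 : ℝ, C1 = A + (σ + c) * (1 + A) + L := ⟨_, rfl⟩
  have hC10 : 0 ≤ C1 := by rw [hC1]; positivity
  have hcos : 0 < Real.cos (α * (π / 2)) :=
    Real.cos_pos_of_mem_Ioo ⟨by nlinarith [Real.pi_pos], by nlinarith [Real.pi_pos]⟩
  obtain ⟨C, hC⟩ : ∃ C : ℝ, C = C1 + 1 + A + 8 * A ^ 2 / (c * c₂) + 8 * A ^ 2 / c₂ +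
    (1 + A) / Real.cos (α * (π / 2)) + A / ν₁ := ⟨_, rfl⟩
  have p1 : 0 ≤ 8 * A ^ 2 / (c * c₂) := by positivity
  have p2 : 0 ≤ 8 * A ^ 2 / c₂ := by positivity
  have p3 : 0 ≤ (1 + A) / Real.cos (α * (π / 2)) := by positivity
  have p4 : 0 ≤ A / ν₁ := by positivity
  have hC1' : 1 ≤ C := by rw [hC]; linarith
  obtain ⟨ν, hνdef⟩ : ∃ ν : ℝ, ν = min ν₁ (c / 4 * ν₁) := ⟨_, rfl⟩
  have hν0 : 0 < ν := by rw [hνdef]; exact lt_min hν₁0 (by positivity)
  have hνa : ν ≤ ν₁ := by rw [hνdef]; exact min_le_left _ _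
  have hνb : ν ≤ c / 4 * ν₁ := by rw [hνdef]; exact min_le_right _ _
  refine ⟨κ / D, by positivity, π * (S1 + κ) + 1, ?_, ν, hν0, C, hC1', ?_⟩
  · have : 0 ≤ π * (S1 + κ) := by positivity
    linarith
  intro e s ρ hs hsρ G hG0 hGL hGI F hF B N hB hN hside harc x hx1 hx2 hxc hxl
  have hGc := cont_of_lip hGL
  have hG0' : ∀ x, 0 ≤ G x := fun x => (hG0 x).le
  have hρ : 0 < ρ := lt_of_lt_of_le (by positivity) hsρ
  have hsρ' : s ≤ ρ := by
    calc s = 1 * s := (one_mul s).symm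
      _ ≤ C * s := by gcongr
      _ ≤ ρ := hsρ
  have hAsρ : (1 + A) * s ≤ ρ := by
    refine le_trans ?_ hsρ
    gcongr
    rw [hC]; linarith
  have hDI : π⁻¹ * (D * (κ / D)) ≤ κ := by
    rw [mul_div_cancel₀ _ hD0.ne']
    have : π⁻¹ ≤ 1 := inv_le_one_of_one_le₀ (by linarith [Real.pi_gt_three])
    calc π⁻¹ * κ ≤ 1 * κ := by gcongr
      _ = κ := one_mul κ
  have hDI1 : π⁻¹ * (D * (κ / D)) ≤ 1 := by linarith
  -- the target point
  obtain ⟨wq, hwq⟩ : ∃ wq : ℂ, wq = (s : ℂ) * x.2 := ⟨_, rfl⟩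
  have hwqre : wq.re = s * x.2.re := by rw [hwq, Complex.re_ofReal_mul]
  have hwqim : wq.im = s * x.2.im := by rw [hwq, Complex.im_ofReal_mul]
  have hwqn : ‖wq‖ ≤ A * s := by
    rw [hwq, norm_mul, Complex.norm_of_nonneg hs.le, mul_comm]
    gcongr
  have hwqc : c₂ * s ≤ wq.im := by rw [hwqim, mul_comm]; gcongr
  have hwq0 : 0 < wq.im := lt_of_lt_of_le (by positivity) hwqc
  have hwqre' : |wq.re| ≤ A / c₂ * wq.im := by
    calc |wq.re| ≤ ‖wq‖ := Complex.abs_re_le_norm _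
      _ ≤ A * s := hwqn
      _ = A / c₂ * (c₂ * s) := by field_simp
      _ ≤ A / c₂ * wq.im := by gcongr
  have hNq : NN G (4 * ρ) wq ≤ κ :=
    (NN_le hGc hG0' (by positivity) hwq0 hs hD0
      (dom hs hc₂ (by positivity) hwqre' hwqc (by rw [hD]; linarith)) hGI).trans hDI
  have hPq0 : κ * (wq.re ^ 2 - wq.im ^ 2) / ρ ≤ κ * (A * s) ^ 2 / ρ := by
    have : wq.re ^ 2 ≤ (A * s) ^ 2 := by
      rw [← sq_abs wq.re]
      have := (Complex.abs_re_le_norm wq).trans hwqn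
      gcongr
    gcongr
    linarith [sq_nonneg wq.im]
  have hPq1 : κ * (A * s) ^ 2 / ρ ≤ c / 8 * wq.im := by
    rw [div_le_iff₀ hρ]
    have h1 : 8 * A ^ 2 / (c * c₂) * s ≤ ρ := by
      refine le_trans ?_ hsρ
      gcongr
      rw [hC]; linarith
    have h2 : 8 * A ^ 2 * s ≤ c * c₂ * ρ := by
      rw [div_mul_eq_mul_div, div_le_iff₀ (by positivity)] at h1
      linarith
    have h3 : κ * (A * s) ^ 2 ≤ 1 * (A * s) ^ 2 := by
      gcongr
      linarith
    have h4 : c / 8 * (c₂ * s) * ρ ≤ c / 8 * wq.im * ρ := by gcongr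
    have h5 : 1 * (A * s) ^ 2 ≤ c / 8 * (c₂ * s) * ρ := by
      calc 1 * (A * s) ^ 2 = (8 * A ^ 2 * s) * s / 8 := by ring
        _ ≤ (c * c₂ * ρ) * s / 8 := by gcongr
        _ = c / 8 * (c₂ * s) * ρ := by ring
    linarith
  have hPq2 : κ * (A * s) ^ 2 / ρ ≤ 1 / 8 * wq.im := by
    rw [div_le_iff₀ hρ]
    have h1 : 8 * A ^ 2 / c₂ * s ≤ ρ := by
      refine le_trans ?_ hsρ
      gcongr
      rw [hC]; linarith
    have h2 : 8 * A ^ 2 * s ≤ c₂ * ρ := by
      rw [div_mul_eq_mul_div, div_le_iff₀ (by positivity)] at h1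
      linarith
    have h3 : κ * (A * s) ^ 2 ≤ 1 * (A * s) ^ 2 := by
      gcongr
      linarith
    have h4 : 1 / 8 * (c₂ * s) * ρ ≤ 1 / 8 * wq.im * ρ := by gcongr
    have h5 : 1 * (A * s) ^ 2 ≤ 1 / 8 * (c₂ * s) * ρ := by
      calc 1 * (A * s) ^ 2 = (8 * A ^ 2 * s) * s / 8 := by ring
        _ ≤ (c₂ * ρ) * s / 8 := by gcongr
        _ = 1 / 8 * (c₂ * s) * ρ := by ring
    linarith
  have hPTq : PT G κ ρ wq ≤ c / 4 * wq.im := by
    unfold PT
    have := mul_le_mul_of_nonneg_left (hNq.trans hκc) hwq0.le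
    linarith
  have hPTq' : PT G κ ρ wq < S1 * wq.im := by
    have h1 : PT G κ ρ wq ≤ 5 / 8 * wq.im := by
      unfold PT
      have := mul_le_mul_of_nonneg_left (hNq.trans hκ1) hwq0.le
      linarith
    calc PT G κ ρ wq ≤ 5 / 8 * wq.im := h1
      _ < 1 * wq.im := by linarith
      _ ≤ S1 * wq.im := by gcongr
  have hwqOm : wq ∈ Om G κ ρ S1 := by
    refine ⟨hwqn.trans_lt ?_, hwq0, hPTq'⟩
    have : (1 + A) * s = s + A * s := by ring
    linarith
  -- the disc
  obtain ⟨σ', hσ'⟩ : ∃ σ' : ℝ, σ' = σ - c / 2 := ⟨_, rfl⟩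
  obtain ⟨t1, ht1⟩ : ∃ t1 : ℂ, t1 = (s : ℂ) * x.1 - σ' * wq - Ht G κ ρ wq := ⟨_, rfl⟩
  have ht1im : t1.im < 0 := by
    rw [ht1, sub_im, sub_im, Complex.im_ofReal_mul, Complex.im_ofReal_mul, Ht_im hGc hwq0]
    have h1 : s * x.1.im ≤ (σ - c) * wq.im := by
      rw [hwqim]
      calc s * x.1.im ≤ s * ((σ - c) * x.2.im) := by gcongr
        _ = (σ - c) * (s * x.2.im) := by ring
    rw [hσ']
    have h2 : 0 < c / 4 * wq.im := by positivity
    have h3 : (σ - c) * wq.im - (σ - c / 2) * wq.im + c / 4 * wq.im = -(c / 4 * wq.im) := by ring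
    linarith
  obtain ⟨T, hT⟩ : ∃ T : ℂ → ℂ, T = fun w => t1 + σ' * w + Ht G κ ρ w := ⟨_, rfl⟩
  have hTw : ∀ w, T w = t1 + σ' * w + Ht G κ ρ w := fun w => by rw [hT]
  have hTim : ∀ w : ℂ, 0 < w.im → (T w).im = t1.im + σ' * w.im - PT G κ ρ w := by
    intro w hw
    rw [hTw, add_im, add_im, Complex.im_ofReal_mul, Ht_im hGc hw]
    ring
  have hTq : T wq = (s : ℂ) * x.1 := by
    rw [hTw, ht1]
    ring
  have hTn : ∀ w : ℂ, 0 < w.im → NN G (4 * ρ) w ≤ S1 + κ → ∀ r, s ≤ r → r ≤ ρ → ‖w‖ ≤ r →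
      ‖T w‖ ≤ C1 * r := by
    intro w hw hNw r hsr hrρ hwr
    have h1 : T w = (s : ℂ) * x.1 + σ' * (w - wq) + (Ht G κ ρ w - Ht G κ ρ wq) := by
      rw [hTw, ht1]
      ring
    have h2 := Ht_diff (κ := κ) hGL hG0' hκ.le hρ hA hc₂ hs hD5 hGI hDI1
      (by linarith : (1 : ℝ) ≤ S1 + κ) hsr hrρ hw hwr hNw hwqn hwqc (by linarith)
    have h3 : |σ'| ≤ σ + c := by
      rw [hσ', abs_le]
      constructor <;> linarith
    have hr0 : 0 ≤ r := hs.le.trans hsr
    have h4 : ‖w - wq‖ ≤ (1 + A) * r := by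
      refine (norm_sub_le _ _).trans ?_
      have : A * s ≤ A * r := by gcongr
      linarith
    rw [h1]
    calc ‖(s : ℂ) * x.1 + σ' * (w - wq) + (Ht G κ ρ w - Ht G κ ρ wq)‖
        ≤ ‖(s : ℂ) * x.1‖ + ‖(σ' : ℂ) * (w - wq)‖ + ‖Ht G κ ρ w - Ht G κ ρ wq‖ :=
          norm_add₃_le
      _ ≤ A * r + (σ + c) * ((1 + A) * r) + L * r := by
          refine add_le_add (add_le_add ?_ ?_) ?_
          · rw [norm_mul, Complex.norm_of_nonneg hs.le]
            calc s * ‖x.1‖ ≤ r * A := by gcongr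
              _ = A * r := mul_comm _ _
          · rw [norm_mul, Complex.norm_real, Real.norm_eq_abs]
            have : 0 ≤ σ + c := by positivity
            gcongr
          · refine h2.trans (le_of_eq ?_)
            rw [hLdef]; ring
      _ = C1 * r := by rw [hC1]; ring
  have hCρ : ρ < C * ρ := by
    have : 1 < C := by rw [hC]; linarith
    calc ρ = 1 * ρ := (one_mul ρ).symm
      _ < C * ρ := by gcongr
  have hC1C : C1 * ρ < C * ρ := by
    have : C1 < C := by rw [hC]; linarith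
    gcongr
  have hC1C' : ∀ r, 0 ≤ r → C1 * r ≤ C * r := by
    intro r hr
    have : C1 ≤ C := by rw [hC]; linarith
    gcongr
  -- points of the closure
  obtain ⟨Q, hQ⟩ : ∃ Q : ℂ → ℂ × ℂ, Q = fun w => ((e.1 : ℂ) + T w, (e.2 : ℂ) + w) := ⟨_, rfl⟩
  have hlow : ∀ w : ℂ, 0 < w.im → ‖w‖ ≤ ρ → -PT G κ ρ w ≤ κ * w.im := by
    intro w hw hwρ
    have h1 : w.im ≤ ρ := ((le_abs_self _).trans (Complex.abs_im_le_norm w)).trans hwρ
    have h2 : κ * w.im ^ 2 / ρ ≤ κ * w.im := by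
      rw [div_le_iff₀ hρ]
      have := mul_le_mul_of_nonneg_left h1 (mul_nonneg hκ.le hw.le)
      calc κ * w.im ^ 2 = κ * w.im * w.im := by ring
        _ ≤ κ * w.im * ρ := this
    have h3 : -(κ * w.im ^ 2 / ρ) ≤ κ * (w.re ^ 2 - w.im ^ 2) / ρ := by
      rw [← neg_div]
      gcongr
      have e1 : κ * (w.re ^ 2 - w.im ^ 2) = κ * w.re ^ 2 - κ * w.im ^ 2 := by ring
      rw [e1]
      linarith [mul_nonneg hκ.le (sq_nonneg w.re)]
    have h4 : 0 ≤ w.im * NN G (4 * ρ) w := by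
      refine mul_nonneg hw.le ?_
      unfold NN
      refine mul_nonneg (by positivity) (intervalIntegral.integral_nonneg (by linarith)
        (fun x _ => ?_))
      have := hG0' x
      positivity
    unfold PT
    linarith
  have hcl : ∀ w ∈ closure (Om G κ ρ S1), 0 < w.im ∧ ‖w‖ ≤ ρ ∧ Q w ∈ S5.Half e (C * ρ) σ := by
    intro w hw
    obtain ⟨h1, h2, h3, h4, h5⟩ := closure_Om hGL hG0 hκ.le hρ (by positivity) hw
    have h6 := hTn w h2 h4 ρ hsρ' le_rfl h1
    have h7 : ‖T w‖ < C * ρ := h6.trans_lt hC1C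
    refine ⟨h2, h1, ?_⟩
    refine ⟨?_, ?_, ?_, ?_, ?_⟩
    · simp only [hQ, add_re, ofReal_re, add_sub_cancel_left]
      exact (Complex.abs_re_le_norm _).trans_lt h7
    · simp only [hQ, add_im, ofReal_im, zero_add]
      have := (neg_abs_le (T w).im)
      have := (Complex.abs_im_le_norm (T w))
      linarith
    · simp only [hQ, add_sub_cancel_left]
      exact h1.trans_lt hCρ
    · simp only [hQ, add_im, ofReal_im, zero_add]
      exact h2
    · simp only [hQ, add_im, ofReal_im, zero_add]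
      rw [hTim w h2]
      have h8 := hlow w h2 h1
      have h9 : 0 < (c / 2 - κ) * w.im := mul_pos (by linarith) h2
      have e1 : (c / 2 - κ) * w.im = c / 2 * w.im - κ * w.im := by ring
      rw [e1] at h9
      have e2 : (σ - c / 2) * w.im = σ * w.im - c / 2 * w.im := by ring
      rw [hσ', e2]
      linarith
  have hHalf : IsOpen (S5.Half e (C * ρ) σ) := by
    unfold S5.Half
    have c1 : Continuous (fun q : ℂ × ℂ => |q.1.re - e.1|) := by fun_prop
    have c2 : Continuous (fun q : ℂ × ℂ => q.1.im) := by fun_prop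
    have c3 : Continuous (fun q : ℂ × ℂ => ‖q.2 - (e.2 : ℂ)‖) := by fun_prop
    have c4 : Continuous (fun q : ℂ × ℂ => q.2.im) := by fun_prop
    exact (isOpen_lt c1 continuous_const).inter ((isOpen_lt continuous_const c2).inter
      ((isOpen_lt c3 continuous_const).inter ((isOpen_lt continuous_const c4).inter
        (isOpen_lt c2 (continuous_const.mul c4)))))
  -- frontier bound
  obtain ⟨B', hB'⟩ : ∃ B' : ℝ, B' = B / Real.cos (α * (π / 2)) := ⟨_, rfl⟩
  obtain ⟨N', hN'⟩ : ∃ N' : ℝ, N' = N / (ν₁ * ρ) := ⟨_, rfl⟩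
  have hB'0 : 0 ≤ B' := by rw [hB']; positivity
  have hN'0 : 0 ≤ N' := by rw [hN']; positivity
  have hMaj : ∀ w : ℂ, 0 < w.im → B * (max 1 (‖w‖ / s)) ^ α + N' * w.im ≤
      (Maj B' s N' α w).re := by
    intro w hw
    have := Maj_re_ge (B' := B') (N := N') hs hB'0 hN'0 hα0 hα1 hw.le
    refine le_trans (le_of_eq ?_) this
    rw [hB', div_mul_cancel₀ _ hcos.ne']
  have hbd : ∀ w ∈ frontier (Om G κ ρ S1), ‖F (Q w)‖ ≤ Real.exp (Maj B' s N' α w).re := by
    intro w hw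
    have hwcl : w ∈ closure (Om G κ ρ S1) := hw.1
    have hwn : w ∉ Om G κ ρ S1 := by
      have := hw.2
      rwa [(isOpen_Om hGc).interior_eq] at this
    obtain ⟨h1, h2, h3, h4, h5⟩ := closure_Om hGL hG0 hκ.le hρ (by positivity) hwcl
    -- the side bound
    have hsd : w.im ≤ -(T w).im → ‖F (Q w)‖ ≤ Real.exp (Maj B' s N' α w).re := by
      intro hd
      have hr1 : s ≤ max s ‖w‖ := le_max_left _ _
      have hr2 : max s ‖w‖ ≤ ρ := max_le hsρ' h1
      have hr3 : ‖w‖ ≤ max s ‖w‖ := le_max_right _ _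
      have := hside (Q w) (max s ‖w‖) hr1 hr2
        (by
          simp only [hQ, add_sub_cancel_left]
          exact (hTn w h2 h4 _ hr1 hr2 hr3).trans (hC1C' _ (hs.le.trans hr1)))
        (by simpa only [hQ, add_sub_cancel_left] using hr3)
        (by
          simp only [hQ, add_sub_cancel_left]
          exact max_choice s ‖w‖)
        (by simpa [hQ] using h5)
        (by simpa [hQ] using hd)
        (by simpa [hQ] using h2)
      refine this.trans (Real.exp_le_exp.2 ?_)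
      refine le_trans ?_ (hMaj w h2)
      have e1 : max s ‖w‖ / s = max 1 (‖w‖ / s) := by
        rw [← max_div_div_right hs.le, div_self hs.ne']
      rw [e1]
      have : 0 ≤ N' * w.im := by positivity
      linarith
    by_cases hwρ : ‖w‖ < ρ
    · -- side
      have h6 : S1 * w.im ≤ PT G κ ρ w := by
        by_contra hcon
        push Not at hcon
        exact hwn ⟨hwρ, h2, hcon⟩
      refine hsd ?_
      have e1 : (σ + 1) * w.im = σ * w.im + w.im := by ring
      have e2 : (σ - c / 2) * w.im = σ * w.im - c / 2 * w.im := by ring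
      have e3 : 0 < c / 2 * w.im := by positivity
      rw [hTim w h2, hσ', e2]
      rw [hS1, e1] at h6
      linarith
    · have hwρ' : ‖w‖ = ρ := le_antisymm h1 (not_lt.1 hwρ)
      by_cases hy : ν₁ * ρ ≤ w.im
      · -- arc
        have := harc (Q w)
          (by
            simp only [hQ, add_sub_cancel_left]
            exact (hTn w h2 h4 ρ hsρ' le_rfl h1).trans hC1C.le)
          (by simpa only [hQ, add_sub_cancel_left] using h1)
          (by
            simp only [hQ, add_im, ofReal_im, zero_add]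
            refine le_trans ?_ hy
            gcongr)
          (by
            simp only [hQ, add_im, ofReal_im, zero_add]
            rw [hTim w h2]
            have h7 := hlow w h2 h1
            have h8 : ν * ρ ≤ c / 4 * w.im := by
              calc ν * ρ ≤ c / 4 * ν₁ * ρ := by gcongr
                _ = c / 4 * (ν₁ * ρ) := by ring
                _ ≤ c / 4 * w.im := by gcongr
            have h9 : κ * w.im ≤ c / 8 * w.im := by gcongr
            have e2 : (σ - c / 2) * w.im = σ * w.im - c / 2 * w.im := by ring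
            have e3 : 0 < c / 8 * w.im := by positivity
            rw [hσ', e2]
            linarith)
        refine this.trans (Real.exp_le_exp.2 (le_trans ?_ (hMaj w h2)))
        have h7 : N ≤ N' * w.im := by
          rw [hN', div_mul_eq_mul_div, le_div_iff₀ (by positivity)]
          gcongr
        have h8 : 0 ≤ B * (max 1 (‖w‖ / s)) ^ α := by positivity
        linarith
      · -- corner
        push Not at hy
        refine hsd ?_
        rw [hTim w h2]
        have h6 : w.re ^ 2 + w.im ^ 2 = ρ ^ 2 := by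
          rw [← hwρ', ← Complex.normSq_eq_norm_sq, Complex.normSq_apply]
          ring
        have h7 : w.im ^ 2 ≤ (ν₁ * ρ) ^ 2 := by gcongr
        have h8 : κ * ρ / 2 ≤ κ * (w.re ^ 2 - w.im ^ 2) / ρ := by
          rw [le_div_iff₀ hρ]
          have h9 : ρ ^ 2 / 2 ≤ w.re ^ 2 - w.im ^ 2 := by
            have h10 : (ν₁ * ρ) ^ 2 ≤ (1 / 8 * ρ) ^ 2 := by gcongr
            have e1 : (1 / 8 * ρ) ^ 2 = ρ ^ 2 / 64 := by ring
            have e2 : 0 ≤ ρ ^ 2 := sq_nonneg ρ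
            linarith
          calc κ * ρ / 2 * ρ = κ * (ρ ^ 2 / 2) := by ring
            _ ≤ κ * (w.re ^ 2 - w.im ^ 2) := by gcongr
        have h9 : κ * ρ / 2 ≤ PT G κ ρ w := by
          unfold PT
          have h4 : 0 ≤ w.im * NN G (4 * ρ) w := by
            refine mul_nonneg h2.le ?_
            unfold NN
            refine mul_nonneg (by positivity) (intervalIntegral.integral_nonneg (by linarith)
              (fun x _ => ?_))
            have := hG0' x
            positivity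
          linarith
        have h10 : σ' * w.im ≤ κ / 4 * ρ := by
          calc σ' * w.im ≤ σ * w.im := by rw [hσ']; gcongr; linarith
            _ ≤ σ * (ν₁ * ρ) := by gcongr
            _ = σ * ν₁ * ρ := by ring
            _ ≤ κ / 4 * ρ := by gcongr
        have h11 : w.im ≤ κ / 4 * ρ := hy.le.trans (by gcongr)
        linarith
  -- maximum principle
  have hdiff : ∀ w ∈ closure (Om G κ ρ S1),
      DifferentiableAt ℂ (fun w => Complex.exp (-(Maj B' s N' α w)) • F (Q w)) w := by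
    intro w hw
    obtain ⟨h1, h2, h3⟩ := hcl w hw
    have a1 : DifferentiableAt ℂ F (Q w) := hF.differentiableAt (hHalf.mem_nhds h3)
    have a2 : DifferentiableAt ℂ Q w := by
      have : DifferentiableAt ℂ T w := by
        have := (Ht_hasDerivAt (κ := κ) (ρ := ρ) hGc h1).differentiableAt
        rw [hT]
        fun_prop
      simp only [hQ]
      exact ((differentiableAt_const _).add this).prodMk (by fun_prop)
    have a3 : DifferentiableAt ℂ (Maj B' s N' α) w := Maj_diffAt hs h1.le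
    exact (a3.neg.cexp).smul (a1.comp w a2)
  have hkey : ∀ w, ‖Complex.exp (-(Maj B' s N' α w)) • F (Q w)‖ =
      Real.exp (-(Maj B' s N' α w).re) * ‖F (Q w)‖ := by
    intro w
    rw [norm_smul, Complex.norm_exp, neg_re]
  have hfin : ‖Complex.exp (-(Maj B' s N' α wq)) • F (Q wq)‖ ≤ 1 := by
    refine Complex.norm_le_of_forall_mem_frontier_norm_le (U := Om G κ ρ S1)
      ((isBounded_ball (x := (0 : ℂ)) (r := ρ)).subset (fun z hz => by simpa using hz.1))
      (DifferentiableOn.diffContOnCl (fun w hw => (hdiff w hw).differentiableWithinAt)) ?_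
      (subset_closure hwqOm)
    intro w hw
    rw [hkey, Real.exp_neg, inv_mul_le_iff₀ (Real.exp_pos _), mul_one]
    exact hbd w hw
  rw [hkey, Real.exp_neg, inv_mul_le_iff₀ (Real.exp_pos _), mul_one] at hfin
  have hQq : Q wq = S5.bl e s x := by
    rw [hQ]
    show ((e.1 : ℂ) + T wq, (e.2 : ℂ) + wq) = S5.bl e s x
    rw [hTq, hwq]
    rfl
  rw [← hQq]
  refine hfin.trans (Real.exp_le_exp.2 ?_)
  refine (Maj_re_le' hs hB'0 hN'0 hα0 hα1 hwqn).trans ?_
  have f1 : B' * (1 + A) ≤ C * B := by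
    rw [hB']
    calc B / Real.cos (α * (π / 2)) * (1 + A) = (1 + A) / Real.cos (α * (π / 2)) * B := by ring
      _ ≤ C * B := by gcongr; rw [hC]; linarith
  have f2 : N' * (A * s) ≤ C * (N * (s / ρ)) := by
    rw [hN']
    calc N / (ν₁ * ρ) * (A * s) = A / ν₁ * (N * (s / ρ)) := by field_simp
      _ ≤ C * (N * (s / ρ)) := by
        have : 0 ≤ N * (s / ρ) := by positivity
        gcongr
        rw [hC]; linarith
  linarith

/-! ### the logarithmic depth -/

/-- logarithmic side depth -/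
def ell (s x : ℝ) : ℝ := (s + |x|) / (1 + Real.log ((s + |x|) / s)) ^ 2

lemma ell_aux {s : ℝ} (hs : 0 < s) (x : ℝ) : 1 ≤ (s + |x|) / s := by
  rw [le_div_iff₀ hs]
  have := abs_nonneg x
  linarith

lemma ell_pos {s : ℝ} (hs : 0 < s) (x : ℝ) : 0 < ell s x := by
  unfold ell
  have h1 := Real.log_nonneg (ell_aux hs x)
  have := abs_nonneg x
  positivity

lemma lam_lip {t t' : ℝ} (ht : 1 ≤ t) (ht' : 1 ≤ t') :
    |t' / (1 + Real.log t') ^ 2 - t / (1 + Real.log t) ^ 2| ≤ |t' - t| := by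
  have h := (convex_Ici (1 : ℝ)).norm_image_sub_le_of_norm_hasDerivWithin_le
    (f := fun t : ℝ => t / (1 + Real.log t) ^ 2)
    (f' := fun t : ℝ => (Real.log t - 1) / (1 + Real.log t) ^ 3) (C := 1)
    (fun z hz => by
      have hz1 : (1 : ℝ) ≤ z := hz
      have hz0 : 0 < z := by linarith
      have hl := Real.log_nonneg hz1
      have h1 : HasDerivAt (fun t : ℝ => (1 + Real.log t) ^ 2) (2 * (1 + Real.log z) * z⁻¹) z := by
        have := ((Real.hasDerivAt_log hz0.ne').const_add 1).pow 2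
        exact this.congr_deriv (by simp)
      have h2 := (hasDerivAt_id z).div h1 (by positivity)
      refine (h2.congr_deriv ?_).hasDerivWithinAt
      simp only [id]
      field_simp
      ring)
    (fun z hz => by
      have hz1 : (1 : ℝ) ≤ z := hz
      have hl := Real.log_nonneg hz1
      rw [Real.norm_eq_abs, abs_div, abs_of_pos (by positivity : 0 < (1 + Real.log z) ^ 3),
        div_le_one (by positivity), abs_le]
      have h3 : 1 + Real.log z ≤ (1 + Real.log z) ^ 3 := by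
        nlinarith [sq_nonneg (Real.log z), mul_nonneg hl hl, mul_nonneg (mul_nonneg hl hl) hl]
      constructor <;> linarith)
    ht ht'
  simpa using h

lemma ell_lip {s : ℝ} (hs : 0 < s) (x y : ℝ) : |ell s x - ell s y| ≤ |x - y| := by
  have h := lam_lip (ell_aux hs y) (ell_aux hs x)
  have e1 : ∀ z, ell s z = s * ((s + |z|) / s / (1 + Real.log ((s + |z|) / s)) ^ 2) := by
    intro z
    unfold ell
    have : (s + |z|) / s * s = s + |z| := div_mul_cancel₀ _ hs.ne'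
    rw [mul_div_assoc', mul_comm s, this]
  rw [e1, e1, ← mul_sub, abs_mul, abs_of_pos hs]
  calc s * |(s + |x|) / s / (1 + Real.log ((s + |x|) / s)) ^ 2 -
        (s + |y|) / s / (1 + Real.log ((s + |y|) / s)) ^ 2|
      ≤ s * |(s + |x|) / s - (s + |y|) / s| := by gcongr
    _ = |(|x| - |y|)| := by
        have : (s + |x|) / s - (s + |y|) / s = (|x| - |y|) / s := by ring
        rw [this, abs_div, abs_of_pos hs, mul_div_cancel₀ _ hs.ne']
    _ ≤ |x - y| := abs_abs_sub_abs_le x y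

lemma ell_cont {s : ℝ} (hs : 0 < s) : Continuous (ell s) := cont_of_lip (ell_lip hs)

lemma ell_int_half {s R : ℝ} (hs : 0 < s) (hR : 0 ≤ R) :
    ∫ x in (0 : ℝ)..R, ell s x / (s ^ 2 + x ^ 2) ≤ 2 := by
  have hc : Continuous (fun x => ell s x / (s ^ 2 + x ^ 2)) :=
    (ell_cont hs).div (by fun_prop) (fun x => by positivity)
  have hint : ∀ x ∈ uIcc (0 : ℝ) R, HasDerivAt
      (fun x => -(1 + Real.log ((s + x) / s))⁻¹)
      (1 / ((s + x) * (1 + Real.log ((s + x) / s)) ^ 2)) x := by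
    intro x hx
    rw [uIcc_of_le hR] at hx
    have hx0 : 0 ≤ x := hx.1
    have h1 : 0 < (s + x) / s := by positivity
    have hl : 0 ≤ Real.log ((s + x) / s) := by
      have := Real.log_nonneg (ell_aux hs x)
      rwa [abs_of_nonneg hx0] at this
    have h2 : HasDerivAt (fun x => (s + x) / s) (1 / s) x :=
      ((hasDerivAt_id x).const_add s).div_const s
    have h3 := ((h2.log h1.ne').const_add 1).inv (by positivity)
    refine h3.neg.congr_deriv ?_
    field_simp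
  have hci : ContinuousOn (fun x : ℝ => 1 / ((s + x) * (1 + Real.log ((s + x) / s)) ^ 2))
      (uIcc (0 : ℝ) R) := by
    intro x hx
    rw [uIcc_of_le hR] at hx
    have hx0 : 0 ≤ x := hx.1
    have h1 : 0 < (s + x) / s := by positivity
    have hl : 0 ≤ Real.log ((s + x) / s) := by
      have := Real.log_nonneg (ell_aux hs x)
      rwa [abs_of_nonneg hx0] at this
    refine ContinuousAt.continuousWithinAt ?_
    refine ContinuousAt.div continuousAt_const ?_ (by positivity)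
    refine ContinuousAt.mul (by fun_prop) (ContinuousAt.pow ?_ 2)
    exact continuousAt_const.add (ContinuousAt.log (by fun_prop) h1.ne')
  calc ∫ x in (0 : ℝ)..R, ell s x / (s ^ 2 + x ^ 2)
      ≤ ∫ x in (0 : ℝ)..R, 2 * (1 / ((s + x) * (1 + Real.log ((s + x) / s)) ^ 2)) := by
        refine intervalIntegral.integral_mono_on hR (hc.intervalIntegrable _ _)
          ((hci.const_smul (2 : ℝ)).intervalIntegrable.congr (fun x _ => by simp [smul_eq_mul]))
          (fun x hx => ?_)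
        have hx0 : 0 ≤ x := hx.1
        have hl : 0 ≤ Real.log ((s + x) / s) := by
          have := Real.log_nonneg (ell_aux hs x)
          rwa [abs_of_nonneg hx0] at this
        unfold ell
        rw [abs_of_nonneg hx0, div_div, mul_one_div, div_le_div_iff₀ (by positivity)
          (by positivity)]
        have h1 : (s + x) ^ 2 ≤ 2 * (s ^ 2 + x ^ 2) := by nlinarith [sq_nonneg (s - x)]
        calc (s + x) * ((s + x) * (1 + Real.log ((s + x) / s)) ^ 2)
            = (s + x) ^ 2 * (1 + Real.log ((s + x) / s)) ^ 2 := by ring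
          _ ≤ 2 * (s ^ 2 + x ^ 2) * (1 + Real.log ((s + x) / s)) ^ 2 := by gcongr
          _ = 2 * ((1 + Real.log ((s + x) / s)) ^ 2 * (s ^ 2 + x ^ 2)) := by ring
    _ = 2 * (-(1 + Real.log ((s + R) / s))⁻¹ - -(1 + Real.log ((s + 0) / s))⁻¹) := by
        rw [intervalIntegral.integral_const_mul,
          intervalIntegral.integral_eq_sub_of_hasDerivAt hint hci.intervalIntegrable]
    _ ≤ 2 := by
        rw [add_zero, div_self hs.ne', Real.log_one]
        have hl : 0 ≤ Real.log ((s + R) / s) := by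
          have := Real.log_nonneg (ell_aux hs R)
          rwa [abs_of_nonneg hR] at this
        have : 0 ≤ (1 + Real.log ((s + R) / s))⁻¹ := by positivity
        norm_num
        linarith

lemma ell_int {s R : ℝ} (hs : 0 < s) (hR : 0 ≤ R) :
    ∫ x in (-R)..R, ell s x / (s ^ 2 + x ^ 2) ≤ 4 := by
  have hc : Continuous (fun x => ell s x / (s ^ 2 + x ^ 2)) :=
    (ell_cont hs).div (by fun_prop) (fun x => by positivity)
  rw [← intervalIntegral.integral_add_adjacent_intervals (hc.intervalIntegrable (-R) 0)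
    (hc.intervalIntegrable 0 R)]
  have h1 : ∫ x in (-R)..0, ell s x / (s ^ 2 + x ^ 2) =
      ∫ x in (0 : ℝ)..R, ell s x / (s ^ 2 + x ^ 2) := by
    have := intervalIntegral.integral_comp_neg (a := (0 : ℝ)) (b := R)
      (fun x => ell s x / (s ^ 2 + x ^ 2))
    rw [neg_zero] at this
    rw [← this]
    refine intervalIntegral.integral_congr (fun x _ => ?_)
    simp [ell]
  rw [h1]
  have := ell_int_half hs hR
  linarith

/-- lower bound for the logarithmic depth at distance `r` -/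
lemma ell_ge {s r u y : ℝ} (hs : 0 < s) (hsr : s ≤ r) (hur : |u| ≤ r) (hr : r / 2 ≤ s + |u|) :
    r / (1 + Real.log (r / s)) ^ 2 ≤ 8 * ell s u := by
  have hr0 : 0 < r := hs.trans_le hsr
  have hl : 0 ≤ Real.log (r / s) := Real.log_nonneg (by rw [le_div_iff₀ hs]; linarith)
  have hl2 := Real.log_nonneg (ell_aux hs u)
  have h1 : 1 + Real.log ((s + |u|) / s) ≤ 2 * (1 + Real.log (r / s)) := by
    have h2 : Real.log ((s + |u|) / s) ≤ Real.log (2 * (r / s)) := by
      refine Real.log_le_log (lt_of_lt_of_le one_pos (ell_aux hs u)) ?_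
      rw [mul_div_assoc']
      gcongr
      linarith
    rw [Real.log_mul (by norm_num) (by positivity)] at h2
    have : Real.log 2 ≤ 1 := by
      have := Real.log_two_lt_d9
      linarith
    linarith
  unfold ell
  rw [mul_div_assoc', div_le_div_iff₀ (by positivity) (by positivity)]
  calc r * (1 + Real.log ((s + |u|) / s)) ^ 2 ≤ r * (2 * (1 + Real.log (r / s))) ^ 2 := by gcongr
    _ = 8 * (r / 2) * (1 + Real.log (r / s)) ^ 2 := by ring
    _ ≤ 8 * (s + |u|) * (1 + Real.log (r / s)) ^ 2 := by gcongr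

/-! ### the final form -/

/-- **the disc with prescribed side depth** -/
theorem discM {E : Type*} [NormedAddCommGroup E] [NormedSpace ℂ E] {σ c A c₂ α : ℝ}
    (hσ : 0 ≤ σ) (hc : 0 < c) (hA : 0 < A) (hc₂ : 0 < c₂) (hα0 : 0 < α) (hα1 : α < 1) :
    ∃ ν : ℝ, 0 < ν ∧ ∃ C : ℝ, 1 ≤ C ∧
      ∀ (e : ℝ × ℝ) (s ρ : ℝ), 0 < s → C * s ≤ ρ → ∀ g : ℝ → ℝ, (∀ x, 0 ≤ g x) →
        (∀ x y, |g x - g y| ≤ ν * |x - y|) →
        (∫ x in (-(4 * ρ))..(4 * ρ), g x / (s ^ 2 + x ^ 2)) ≤ ν →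
      ∀ F : ℂ × ℂ → E, DifferentiableOn ℂ F (S5.Half e (C * ρ) σ) → ∀ B N : ℝ, 0 ≤ B → 0 ≤ N →
        (∀ r : ℝ, s ≤ r → r ≤ 2 * ρ → ∀ q : ℂ × ℂ, ‖q.1 - e.1‖ ≤ C * r → ‖q.2 - e.2‖ ≤ C * r →
          ν * r / (1 + Real.log (r / s)) ^ 2 ≤ -q.1.im →
          ν * r / (1 + Real.log (r / s)) ^ 2 ≤ q.2.im →
          g (q.2.re - e.2) ≤ -q.1.im → g (q.2.re - e.2) ≤ q.2.im →
          ‖F q‖ ≤ Real.exp (B * (r / s) ^ α)) →
        (∀ q : ℂ × ℂ, ‖q.1 - e.1‖ ≤ C * ρ → ‖q.2 - e.2‖ ≤ C * ρ → ν * ρ ≤ q.2.im →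
          q.1.im ≤ σ * q.2.im - ν * ρ → ‖F q‖ ≤ Real.exp N) →
        ∀ x : ℂ × ℂ, ‖x.1‖ ≤ A → ‖x.2‖ ≤ A → c₂ ≤ x.2.im → x.1.im ≤ (σ - c) * x.2.im →
          ‖F (S5.bl e s x)‖ ≤ Real.exp (C * (B + N * (s / ρ))) := by
  obtain ⟨I0, hI0, K, hK, ν₁, hν₁, C, hC, hcore⟩ :=
    core (E := E) hσ hc (le_max_right A 1) hc₂ hα0 hα1
  obtain ⟨ν, hν⟩ : ∃ ν : ℝ, ν = min (min 1 I0 / (64 * K)) ν₁ := ⟨_, rfl⟩
  have hm : 0 < min 1 I0 := lt_min one_pos hI0
  have hK0 : 0 < K := by linarith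
  have hν0 : 0 < ν := by rw [hν]; exact lt_min (by positivity) hν₁
  have hν1 : ν ≤ ν₁ := by rw [hν]; exact min_le_right _ _
  have hν2 : 64 * K * ν ≤ min 1 I0 := by
    have : ν ≤ min 1 I0 / (64 * K) := by rw [hν]; exact min_le_left _ _
    rw [le_div_iff₀ (by positivity)] at this
    linarith
  have hν3 : 64 * K * ν ≤ 1 := hν2.trans (min_le_left _ _)
  have hν4 : 64 * K * ν ≤ I0 := hν2.trans (min_le_right _ _)
  have hKν : 0 < K * ν := by positivity
  refine ⟨ν, hν0, C, hC, ?_⟩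
  intro e s ρ hs hsρ g hg0 hgL hgI F hF B N hB hN hside harc x hx1 hx2 hxc hxl
  have hρ : 0 < ρ := lt_of_lt_of_le (by positivity) hsρ
  have hgc : Continuous g := by
    have : LipschitzWith ⟨ν, hν0.le⟩ g := LipschitzWith.of_dist_le_mul (fun x y => by
      rw [Real.dist_eq, Real.dist_eq]; exact hgL x y)
    exact this.continuous
  refine hcore e s ρ hs hsρ (fun x => K * (g x + 8 * ν * ell s x)) ?_ ?_ ?_ F hF B N hB hN ?_ ?_ x
    (hx1.trans (le_max_left _ _)) (hx2.trans (le_max_left _ _)) hxc hxl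
  · intro x
    have := hg0 x
    have := ell_pos hs x
    positivity
  · intro x y
    have h1 := hgL x y
    have h2 := ell_lip hs x y
    have e1 : K * (g x + 8 * ν * ell s x) - K * (g y + 8 * ν * ell s y) =
        K * ((g x - g y) + 8 * ν * (ell s x - ell s y)) := by ring
    rw [e1, abs_mul, abs_of_pos hK0]
    calc K * |(g x - g y) + 8 * ν * (ell s x - ell s y)|
        ≤ K * (|g x - g y| + |8 * ν * (ell s x - ell s y)|) := by
          gcongr
          exact abs_add_le _ _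
      _ ≤ K * (ν * |x - y| + 8 * ν * |x - y|) := by
          rw [abs_mul, abs_of_pos (by positivity : (0 : ℝ) < 8 * ν)]
          gcongr
      _ = 9 * (K * ν) * |x - y| := by ring
      _ ≤ 1 * |x - y| := by gcongr; linarith
      _ = |x - y| := one_mul _
  · have hc1 : Continuous (fun x => g x / (s ^ 2 + x ^ 2)) :=
      hgc.div (by fun_prop) (fun x => by positivity)
    have hc2 : Continuous (fun x => ell s x / (s ^ 2 + x ^ 2)) :=
      (ell_cont hs).div (by fun_prop) (fun x => by positivity)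
    have e1 : ∀ x : ℝ, K * (g x + 8 * ν * ell s x) / (s ^ 2 + x ^ 2) =
        K * (g x / (s ^ 2 + x ^ 2)) + 8 * (K * ν) * (ell s x / (s ^ 2 + x ^ 2)) := by
      intro x
      ring
    simp_rw [e1]
    rw [intervalIntegral.integral_add ((hc1.const_mul K).intervalIntegrable _ _)
      ((hc2.const_mul (8 * (K * ν))).intervalIntegrable _ _), intervalIntegral.integral_const_mul,
      intervalIntegral.integral_const_mul]
    have h1 := ell_int hs (by positivity : (0 : ℝ) ≤ 4 * ρ)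
    have h2 := mul_le_mul_of_nonneg_left hgI hK0.le
    have h3 := mul_le_mul_of_nonneg_left h1 (by positivity : (0 : ℝ) ≤ 8 * (K * ν))
    have h4 : K * ν ≤ I0 / 64 := by linarith
    linarith
  · intro q r hsr hrρ hq1 hq2 hr hG hd hq0
    have hr0 : 0 < r := hs.trans_le hsr
    have h1 : g (q.2.re - e.2) + 8 * ν * ell s (q.2.re - e.2) ≤ q.2.im :=
      le_of_mul_le_mul_left hG hK0
    have h2 := hg0 (q.2.re - e.2)
    have h3 := ell_pos hs (q.2.re - e.2)
    have h4 : 0 < 8 * ν * ell s (q.2.re - e.2) := by positivity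
    have hl : 0 ≤ Real.log (r / s) := Real.log_nonneg (by rw [le_div_iff₀ hs]; linarith)
    have hν5 : ν ≤ 1 / 2 := by
      have : ν ≤ K * ν := by
        calc ν = 1 * ν := (one_mul ν).symm
          _ ≤ K * ν := by gcongr
      linarith
    have h5 : ν * r / (1 + Real.log (r / s)) ^ 2 ≤ q.2.im := by
      by_cases hy : r / 2 ≤ q.2.im
      · refine le_trans ?_ hy
        calc ν * r / (1 + Real.log (r / s)) ^ 2 ≤ ν * r / 1 := by
              gcongr
              nlinarith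
          _ ≤ 1 / 2 * r / 1 := by gcongr
          _ = r / 2 := by ring
      · push Not at hy
        have hre : |q.2.re - e.2| ≤ r := by
          have := Complex.abs_re_le_norm (q.2 - (e.2 : ℂ))
          simp only [sub_re, ofReal_re] at this
          exact this.trans hq2
        have h6 : r / 2 ≤ s + |q.2.re - e.2| := by
          rcases hr with hr | hr
          · have := abs_nonneg (q.2.re - e.2)
            linarith
          · have h7 := Complex.norm_le_abs_re_add_abs_im (q.2 - (e.2 : ℂ))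
            simp only [sub_re, ofReal_re, sub_im, ofReal_im, sub_zero] at h7
            rw [← hr, abs_of_pos hq0] at h7
            linarith
        have h8 := ell_ge (y := 0) hs hsr hre h6
        calc ν * r / (1 + Real.log (r / s)) ^ 2 = ν * (r / (1 + Real.log (r / s)) ^ 2) := by ring
          _ ≤ ν * (8 * ell s (q.2.re - e.2)) := by gcongr
          _ = 8 * ν * ell s (q.2.re - e.2) := by ring
          _ ≤ q.2.im := by linarith
    have hrC : r ≤ C * r := by
      calc r = 1 * r := (one_mul r).symm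
        _ ≤ C * r := by gcongr
    exact hside r hsr (by linarith) q hq1 (hq2.trans hrC) (h5.trans hd) h5 (by linarith)
      (by linarith)
  · intro q hq1 hq2 hq3 hq4
    have hρC : ρ ≤ C * ρ := by
      calc ρ = 1 * ρ := (one_mul ρ).symm
        _ ≤ C * ρ := by gcongr
    have h1 : ν * ρ ≤ ν₁ * ρ := by gcongr
    exact harc q hq1 (hq2.trans hρC) (h1.trans hq3) (by linarith)

end Crest.Agent.R102.DiscM519
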