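import Crest.Agent.R102.DiscP_669

/-!
Row 102, T1-B, EDGE / SLOW (helper866): 669's disc estimate `disc_pure` with COMPARABLE depths in
the side hypothesis (`q.2.im ≤ C₁ (-q.1.im)` and `-q.1.im ≤ C₁ q.2.im`): `disc_pureC`.
-/

set_option autoImplicit false
set_option linter.unusedSectionVars false
set_option linter.unusedVariables false

open Set Filter Topology Metric Complex MeasureTheory
open scoped Real

noncomputable section

namespace Crest.Agent.R102.DiscPC866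

open Crest.Agent.R102.Bishop120 (HC HO)
open Crest.Agent.R102.Disc669 Crest.Agent.R102.DiscT669 Crest.Agent.R102.DiscP669

variable {E : Type*} [NormedAddCommGroup E] [NormedSpace ℂ E]

/-- on the real side `Im w` is at most a multiple of the depth -/
lemma ratio1 {σ c ν A c2 s ρ η : ℝ} {H : ℂ → ℂ} {Tq zq : ℂ} {e : ℝ × ℝ}
    (h : Geo σ c ν A c2 s ρ η H Tq zq) {C₁ : ℝ} (hC : 12 * A / (c * c2) ≤ C₁) (hC1 : 1 ≤ C₁)
    (x : ℝ) : (Ph σ c η H Tq zq e x).2.im ≤ C₁ * (-(Ph σ c η H Tq zq e x).1.im) := by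
  have e1 : (Ph σ c η H Tq zq e x).1.im = (TT σ c η H Tq x).im := by simp [Ph]
  have e2 : (Ph σ c η H Tq zq e x).2.im = (ZZ η H zq x).im := by simp [Ph]
  rw [e1, e2]
  have h1 := h.depth x
  have h2 : (t2 η H zq).im ≤ 3 * (A * s) :=
    ((le_abs_self _).trans (Complex.abs_im_le_norm _)).trans h.t2_norm
  have hc := h.c0; have hc2 := h.c20; have hs := h.s0; have hA := h.A1
  have h3 : (H x).im ≤ 0 := by
    refine (h.H3 x (by change (0 : ℝ) ≤ (x : ℂ).im; simp)).trans ?_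
    have := h.ν0; have := h.ρ0
    simp only [ofReal_re, ofReal_im]
    have e : x ^ 2 - (0 : ℝ) ^ 2 = x ^ 2 := by ring
    rw [e]
    have : 0 ≤ ν * x ^ 2 / ρ := by positivity
    linarith
  rw [ZZ_im]
  simp only [ofReal_im, add_zero]
  have h4 : 3 * (A * s) ≤ C₁ * (c * c2 / 4 * s) := by
    rw [div_le_iff₀ (by positivity)] at hC
    nlinarith
  have h5 : -(1 / 4 * (H x).im) ≤ C₁ * (-(H x).im) := by nlinarith
  have h6 : C₁ * (c * c2 / 4 * s - (H x).im) ≤ C₁ * (-(TT σ c η H Tq x).im) :=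
    mul_le_mul_of_nonneg_left h1 (by linarith)
  nlinarith

/-- on the real side the depth is at most a multiple of `Im w` -/
lemma ratio2 {σ c ν A c2 s ρ η : ℝ} {H : ℂ → ℂ} {Tq zq : ℂ} {e : ℝ × ℝ}
    (h : Geo σ c ν A c2 s ρ η H Tq zq) {μ C₁ : ℝ} (hμ0 : 0 < μ) (hμ1 : μ ≤ 1 / 4)
    (hμ2 : μ * ((σ + 2) * A) ≤ ν * c2) (hC : 1 ≤ C₁ * μ) (x : ℝ) :
    -(Ph σ c η H Tq zq e x).1.im ≤ C₁ * (Ph σ c η H Tq zq e x).2.im := by
  have e1 : (Ph σ c η H Tq zq e x).1.im = (TT σ c η H Tq x).im := by simp [Ph]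
  have e2 : (Ph σ c η H Tq zq e x).2.im = (ZZ η H zq x).im := by simp [Ph]
  rw [e1, e2]
  have h1 := h.mu hμ0.le hμ1 hμ2 x
  have h2 := h.depth x
  have hc := h.c0; have hc2 := h.c20; have hs := h.s0
  have h3 : (H x).im ≤ 0 := by
    refine (h.H3 x (by change (0 : ℝ) ≤ (x : ℂ).im; simp)).trans ?_
    have := h.ν0; have := h.ρ0
    simp only [ofReal_re, ofReal_im]
    have e : x ^ 2 - (0 : ℝ) ^ 2 = x ^ 2 := by ring
    rw [e]
    have : 0 ≤ ν * x ^ 2 / ρ := by positivity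
    linarith
  have h4 : 0 < -(TT σ c η H Tq x).im := by
    have : 0 < c * c2 / 4 * s := by positivity
    linarith
  have hC0 : 0 < C₁ := by
    by_contra hcon
    push Not at hcon
    nlinarith
  calc -(TT σ c η H Tq x).im ≤ (C₁ * μ) * (-(TT σ c η H Tq x).im) := by nlinarith
    _ = C₁ * (μ * (-(TT σ c η H Tq x).im)) := by ring
    _ ≤ C₁ * (ZZ η H zq x).im := mul_le_mul_of_nonneg_left h1 hC0.le

set_option maxHeartbeats 1000000 in
theorem disc_normC {σ c A c₂ β α : ℝ} (hσ : 0 ≤ σ) (hc : 0 < c) (hc1 : c ≤ 1) (hA : 1 ≤ A)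
    (hc2 : 0 < c₂) (hc21 : c₂ ≤ 1) (hβ0 : 0 < β) (hβ1 : β ≤ 1 / 2) (hα0 : 0 < α) (hα1 : α < 1) :
    ∃ κ : ℝ, 0 < κ ∧ ∃ C₁ : ℝ, 1 ≤ C₁ ∧ ∃ C : ℝ, 1 ≤ C ∧
    ∀ (e : ℝ × ℝ) (s ρ : ℝ), 0 < s → C * s ≤ ρ →
    ∀ F : ℂ × ℂ → E, DifferentiableOn ℂ F (S5.Half e ρ σ) → ∀ B : ℝ, 0 ≤ B →
    (∀ (q : ℂ × ℂ) (r : ℝ), s ≤ r → r ≤ ρ → |q.1.re - e.1| + ‖q.2 - (e.2 : ℂ)‖ ≤ r →
      κ * (s ^ β * r ^ (1 - β)) ≤ -q.1.im → -q.1.im ≤ r → κ * (s ^ β * r ^ (1 - β)) ≤ q.2.im →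
      q.2.im ≤ C₁ * (-q.1.im) → -q.1.im ≤ C₁ * q.2.im →
      ‖F q‖ ≤ Real.exp (B * (r / s) ^ α)) →
    (∀ q ∈ S5.Half e ρ σ, κ * ρ ≤ q.2.im → q.1.im + κ * ρ ≤ σ * q.2.im →
      ‖F q‖ ≤ Real.exp (B * (ρ / s) ^ α)) →
    ∀ x : ℂ × ℂ, ‖x.1‖ ≤ A → ‖x.2‖ ≤ A → c₂ ≤ x.2.im → x.1.im ≤ (σ - c) * x.2.im →
      ‖F (S5.bl e s x)‖ ≤ Real.exp (C * B) := by
  set ν : ℝ := c / (64 * (σ + 1)) with hνd
  have hσ1 : 0 < σ + 1 := by linarith
  have hν0 : 0 < ν := by positivity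
  have hνc : 64 * (ν * (σ + 1)) = c := by rw [hνd]; field_simp
  have hν64 : ν ≤ 1 / 64 := by nlinarith [mul_nonneg hν0.le hσ]
  set μ : ℝ := ν * c₂ / ((σ + 2) * A) with hμd
  have hμ0 : 0 < μ := by positivity
  have hμ2 : μ * ((σ + 2) * A) ≤ ν * c₂ := by rw [hμd]; exact (div_mul_cancel₀ _ (by positivity)).le
  have hμ1 : μ ≤ 1 / 4 := by
    rw [hμd, div_le_iff₀ (by positivity)]
    have h1 : ν * c₂ ≤ 1 / 64 * 1 := mul_le_mul hν64 hc21 hc2.le (by norm_num)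
    have h2 : 1 ≤ (σ + 2) * A := by nlinarith
    linarith
  have hcg := cgb_pos hβ0 hβ1
  have hcos : 0 < Real.cos (α * (π / 2)) :=
    Real.cos_pos_of_mem_Ioo ⟨by nlinarith [Real.pi_pos], by nlinarith [Real.pi_pos]⟩
  have hcos1 : Real.cos (α * (π / 2)) ≤ 1 := Real.cos_le_one _
  have hC1 := C1c_pos hσ hA
  have hC10 : 0 < C1c σ A := by linarith
  have hb0 : 0 < bc ν β c₂ := by unfold bc; positivity
  set C2 := 2 * C1c σ A / (c * c₂ / 4) + 2 * C1c σ A / bc ν β c₂ with hC2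
  have hC20 : 0 < C2 := by positivity
  set κ : ℝ := min (μ / C2) (ν / (16 * C1c σ A)) with hκd
  have hκ0 : 0 < κ := lt_min (by positivity) (by positivity)
  have hκ1 : κ * C2 ≤ μ := by
    have : κ ≤ μ / C2 := min_le_left _ _
    rwa [le_div_iff₀ hC20] at this
  have hκ2 : κ * (4 * C1c σ A) ≤ ν / 4 := by
    have : κ ≤ ν / (16 * C1c σ A) := min_le_right _ _
    rw [le_div_iff₀ (by positivity)] at this
    linarith
  set C : ℝ := 4 * C1c σ A * (1 + A) / Real.cos (α * (π / 2)) with hCd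
  have hCge : 4 * C1c σ A * (1 + A) ≤ C := by
    rw [hCd, le_div_iff₀ hcos]
    exact mul_le_of_le_one_right (by positivity) hcos1
  have hC1' : 1 ≤ C := by nlinarith
  set C₁ : ℝ := 1 / μ + 12 * A / (c * c₂) with hC₁d
  have hC₁a : 1 ≤ C₁ := by
    have h1 : 4 ≤ 1 / μ := by rw [le_div_iff₀ hμ0]; linarith
    have h2 : 0 ≤ 12 * A / (c * c₂) := by positivity
    linarith
  have hC₁b : 12 * A / (c * c₂) ≤ C₁ := by
    have h2 : 0 ≤ 1 / μ := by positivity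
    linarith
  have hC₁c : 1 ≤ C₁ * μ := by
    have h2 : 0 ≤ 12 * A / (c * c₂) := by positivity
    have h3 : 1 / μ ≤ C₁ := by linarith
    calc (1 : ℝ) = 1 / μ * μ := by field_simp
      _ ≤ C₁ * μ := mul_le_mul_of_nonneg_right h3 hμ0.le
  refine ⟨κ, hκ0, C₁, hC₁a, C, hC1', ?_⟩
  intro e s ρ₀ hs hsρ F hF B hB hside harc x hx1 hx2 hx3 hx4
  set ρ : ℝ := ρ₀ / (4 * C1c σ A) with hρd
  have hρeq : ρ₀ = 4 * (C1c σ A * ρ) := by rw [hρd]; field_simp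
  have hρ₀ : 0 < ρ₀ := lt_of_lt_of_le (by positivity) hsρ
  have hρ : 0 < ρ := by positivity
  have hsρ' : (1 + A) * s ≤ ρ := by
    have h1 : 4 * C1c σ A * (1 + A) * s ≤ 4 * (C1c σ A * ρ) := by
      rw [← hρeq]
      exact (mul_le_mul_of_nonneg_right hCge hs.le).trans hsρ
    have h2 : 4 * C1c σ A * ((1 + A) * s) ≤ 4 * C1c σ A * ρ := by linarith
    exact le_of_mul_le_mul_left h2 (by positivity)
  have hs1 : A * s < ρ := by linarith
  have hsρ'' : s ≤ ρ := by nlinarith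
  have hρ₀' : 2 * (C1c σ A * ρ) < ρ₀ := by
    have : 0 < C1c σ A * ρ := by positivity
    linarith
  set Tq : ℂ := s * x.1 with hTq
  set zq : ℂ := s * x.2 with hzq
  set η : ℝ := (1 - 2 * ν) * zq.im with hη
  have zqim : zq.im = s * x.2.im := by rw [hzq, Complex.im_ofReal_mul]
  have Tqim : Tq.im = s * x.1.im := by rw [hTq, Complex.im_ofReal_mul]
  have hzqn : ‖zq‖ ≤ A * s := by
    rw [hzq, norm_mul, Complex.norm_of_nonneg hs.le, mul_comm]
    exact mul_le_mul_of_nonneg_right hx2 hs.le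
  have hTqn : ‖Tq‖ ≤ A * s := by
    rw [hTq, norm_mul, Complex.norm_of_nonneg hs.le, mul_comm]
    exact mul_le_mul_of_nonneg_right hx1 hs.le
  have hzq2 : c₂ * s ≤ zq.im := by
    rw [zqim, mul_comm]; exact mul_le_mul_of_nonneg_left hx3 hs.le
  have hTq2 : Tq.im ≤ (σ - c) * zq.im := by
    rw [zqim, Tqim]
    have := mul_le_mul_of_nonneg_left hx4 hs.le
    linarith
  have hzqA : zq.im ≤ A * s := ((le_abs_self _).trans (Complex.abs_im_le_norm _)).trans hzqn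
  have hzq0 : 0 < zq.im := lt_of_lt_of_le (by positivity) hzq2
  have hg : HG ν β (c₂ / 2) s ρ 0 (fun _ => 0) :=
    { ν0 := hν0, β0 := hβ0, β1 := hβ1, c20 := by positivity, c21 := by linarith, s0 := hs
      ρ0 := hρ, κ1 := by simpa using hν0.le, Gc := continuousOn_const
      Gd := differentiableOn_const _, Gim := fun z _ => by simp
      Gκ := fun z _ _ => by simp; positivity }
  have hη1 : c₂ / 2 * s ≤ η := by
    have h1 : 1 / 2 * zq.im ≤ (1 - 2 * ν) * zq.im :=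
      mul_le_mul_of_nonneg_right (by linarith) hzq0.le
    linarith
  have hη2 : η ≤ ρ := by
    have h1 : (1 - 2 * ν) * zq.im ≤ 1 * zq.im :=
      mul_le_mul_of_nonneg_right (by linarith) hzq0.le
    linarith
  have hgeo : Geo σ c ν A c₂ s ρ η (HH ν β (c₂ / 2) s ρ (fun _ => 0)) Tq zq :=
    { σ0 := hσ, c0 := hc, c1 := hc1, ν0 := hν0, νc := hνc, A1 := hA, c20 := hc2, c21 := hc21
      s0 := hs, ρ0 := hρ, As := hs1, Tq1 := hTqn, zq1 := hzqn, zq2 := hzq2, Tq2 := hTq2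
      ηe := hη, H1 := fun ζ h1 h2 => hg.H1 h1 h2, H2 := hg.H2 hη1 hη2
      H3 := fun ζ h1 => hg.H3 h1, Hc := hg.Hc, Hd := hg.Hd }
  -- the majorant
  set B' : ℝ := 4 * C1c σ A * B / Real.cos (α * (π / 2)) with hB'
  have hB'0 : 0 ≤ B' := by positivity
  have hBc : B' * Real.cos (α * (π / 2)) = 4 * C1c σ A * B := by
    rw [hB', div_mul_cancel₀ _ hcos.ne']
  have hmaj : ∀ ζ : ℂ, 0 ≤ ζ.im →
      4 * C1c σ A * B * (max 1 (‖ζ‖ / s)) ^ α ≤ (Maj B' s 0 α ζ).re := by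
    intro ζ hζ
    have h1 := Maj_re_ge (B' := B') (s := s) (N := 0) (α := α) (ζ := ζ) hs hB'0 le_rfl
      hα0 hα1 hζ
    rw [hBc, zero_mul, add_zero] at h1
    exact h1
  have hpow : ∀ t X : ℝ, 1 ≤ t → 0 ≤ X → (t * X) ^ α ≤ t * X ^ α := by
    intro t X ht hX
    rw [Real.mul_rpow (by linarith) hX]
    refine mul_le_mul_of_nonneg_right ?_ (by positivity)
    have := Real.rpow_le_rpow_of_exponent_le ht hα1.le
    simpa using this
  have hbd : ∀ ζ : ℂ, ‖ζ‖ ≤ ρ → 0 ≤ ζ.im → (ζ.im = 0 ∨ ‖ζ‖ = ρ) →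
      ‖F (Ph σ c η (HH ν β (c₂ / 2) s ρ (fun _ => 0)) Tq zq e ζ)‖ ≤
        Real.exp (Maj B' s 0 α ζ).re := by
    intro ζ hζρ hζ hor
    rcases hor with him | harc'
    · obtain ⟨y, rfl⟩ : ∃ y : ℝ, ζ = (y : ℂ) := ⟨ζ.re, Complex.ext (by simp) (by simpa using him)⟩
      rw [Complex.norm_real, Real.norm_eq_abs] at hζρ
      obtain ⟨p1, p2, p3, p4⟩ := side_pos hgeo hg hμ0 hμ1 hμ2 hζρ (e := e)
        (q := Ph σ c η (HH ν β (c₂ / 2) s ρ (fun _ => 0)) Tq zq e y)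
        (r := C1c σ A * (s + |y|)) (κ := κ) rfl rfl hκ0 hκ1
      have hy0 := abs_nonneg y
      have p5 := ratio1 (e := e) hgeo (C₁ := C₁) hC₁b hC₁a y
      have p6 := ratio2 (e := e) hgeo hμ0 hμ1 hμ2 hC₁c y
      refine (hside _ _ ?_ ?_ p1 p2 p3 p4 p5 p6).trans (Real.exp_le_exp.2 ?_)
      · nlinarith
      · have h1 : C1c σ A * (s + |y|) ≤ C1c σ A * (2 * ρ) :=
          mul_le_mul_of_nonneg_left (by linarith) hC10.le
        have h2 : 0 < C1c σ A * ρ := by positivity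
        linarith
      · have h1 := hmaj y hζ
        rw [Complex.norm_real, Real.norm_eq_abs] at h1
        refine le_trans ?_ h1
        have hX1 : 1 ≤ max 1 (|y| / s) := le_max_left _ _
        have h2 : C1c σ A * (s + |y|) / s ≤ 2 * C1c σ A * max 1 (|y| / s) := by
          rw [div_le_iff₀ hs]
          have h3 : |y| ≤ max 1 (|y| / s) * s := by
            have := le_max_right 1 (|y| / s)
            rwa [div_le_iff₀ hs] at this
          have h4 : s ≤ max 1 (|y| / s) * s := le_mul_of_one_le_left hs.le hX1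
          calc C1c σ A * (s + |y|) ≤ C1c σ A * (max 1 (|y| / s) * s + max 1 (|y| / s) * s) :=
                mul_le_mul_of_nonneg_left (by linarith) hC10.le
            _ = 2 * C1c σ A * max 1 (|y| / s) * s := by ring
        have h5 : (C1c σ A * (s + |y|) / s) ^ α ≤ 2 * C1c σ A * (max 1 (|y| / s)) ^ α :=
          (Real.rpow_le_rpow (by positivity) h2 hα0.le).trans (hpow _ _ (by linarith) (by linarith))
        have h6 : 0 ≤ (max 1 (|y| / s)) ^ α := by positivity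
        calc B * (C1c σ A * (s + |y|) / s) ^ α
            ≤ B * (2 * C1c σ A * (max 1 (|y| / s)) ^ α) := mul_le_mul_of_nonneg_left h5 hB
          _ = 2 * C1c σ A * B * (max 1 (|y| / s)) ^ α := by ring
          _ ≤ 4 * C1c σ A * B * (max 1 (|y| / s)) ^ α := by
              refine mul_le_mul_of_nonneg_right ?_ h6
              have : 0 ≤ C1c σ A * B := by positivity
              linarith
    · have hζC : ζ ∈ HC := hζ
      refine (harc _ (hgeo.mem_Half hρ₀' hζC hζρ) ?_ ?_).trans (Real.exp_le_exp.2 ?_)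
      · have h1 := hgeo.ZZ_arc hζC harc'
        have h2 : κ * ρ₀ ≤ ν / 4 * ρ := by
          rw [hρeq]
          calc κ * (4 * (C1c σ A * ρ)) = κ * (4 * C1c σ A) * ρ := by ring
            _ ≤ ν / 4 * ρ := mul_le_mul_of_nonneg_right hκ2 hρ.le
        simp only [Ph, add_im, ofReal_im, zero_add]
        linarith
      · have h1 := hgeo.level_arc hζC harc'
        have h2 : κ * ρ₀ ≤ ν / 4 * ρ := by
          rw [hρeq]
          calc κ * (4 * (C1c σ A * ρ)) = κ * (4 * C1c σ A) * ρ := by ring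
            _ ≤ ν / 4 * ρ := mul_le_mul_of_nonneg_right hκ2 hρ.le
        have h3 : 0 < ν * ρ := by positivity
        simp only [Ph, add_im, ofReal_im, zero_add]
        linarith
      · have h1 := hmaj ζ hζ
        rw [harc'] at h1
        refine le_trans ?_ h1
        have h2 : (ρ₀ / s) ^ α ≤ 4 * C1c σ A * (ρ / s) ^ α := by
          have h3 : ρ₀ / s = 4 * C1c σ A * (ρ / s) := by rw [hρeq]; ring
          rw [h3]
          exact hpow _ _ (by linarith) (by positivity)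
        have h4 : (ρ / s) ^ α ≤ (max 1 (ρ / s)) ^ α :=
          Real.rpow_le_rpow (by positivity) (le_max_right _ _) hα0.le
        calc B * (ρ₀ / s) ^ α ≤ B * (4 * C1c σ A * (ρ / s) ^ α) :=
              mul_le_mul_of_nonneg_left h2 hB
          _ = 4 * C1c σ A * B * (ρ / s) ^ α := by ring
          _ ≤ _ := mul_le_mul_of_nonneg_left h4 (by positivity)
  have hη0 := hgeo.η0
  have hmemU : ((η : ℂ) * I) ∈ UD ρ := by
    refine ⟨by rw [norm_I_mul hη0.le]; exact hgeo.ηρ, ?_⟩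
    simpa using hη0
  have hfin := halfdisc_maxE (dccE (e := e) hgeo hρ₀' hF)
    (Maj_diffContOnCl (B' := B') (N := 0) hs hα0 ρ) hbd _ hmemU
  have e1 : F (Ph σ c η (HH ν β (c₂ / 2) s ρ (fun _ => 0)) Tq zq e ((η : ℂ) * I)) =
      F (S5.bl e s x) := by
    unfold Ph S5.bl
    rw [TT_at, ZZ_at]
  rw [e1] at hfin
  refine hfin.trans (Real.exp_le_exp.2 ?_)
  have h8 := Maj_re_le (B' := B') (s := s) (N := 0) (α := α) hs hB'0 hα0 hα1 hη0.le
  have h9 : η / s ≤ A := by rw [div_le_iff₀ hs]; exact hgeo.ηA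
  have h10 : B' * (1 + η / s) ≤ B' * (1 + A) := mul_le_mul_of_nonneg_left (by linarith) hB'0
  have h11 : B' * (1 + A) = C * B := by
    rw [hB', hCd]; ring
  linarith

/-- **the disc estimate** (power type depths, fixed levels), with comparable depths -/
theorem disc_pureC {σ c A c₂ β α : ℝ} (hσ : 0 ≤ σ) (hc : 0 < c) (hA : 0 < A)
    (hc2 : 0 < c₂) (hβ0 : 0 < β) (hβ1 : β ≤ 1 / 2) (hα0 : 0 < α) (hα1 : α < 1) :
    ∃ κ : ℝ, 0 < κ ∧ ∃ C₁ : ℝ, 1 ≤ C₁ ∧ ∃ C : ℝ, 1 ≤ C ∧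
    ∀ (e : ℝ × ℝ) (s ρ : ℝ), 0 < s → C * s ≤ ρ →
    ∀ F : ℂ × ℂ → E, DifferentiableOn ℂ F (S5.Half e ρ σ) → ∀ B : ℝ, 0 ≤ B →
    (∀ (q : ℂ × ℂ) (r : ℝ), s ≤ r → r ≤ ρ → |q.1.re - e.1| + ‖q.2 - (e.2 : ℂ)‖ ≤ r →
      κ * (s ^ β * r ^ (1 - β)) ≤ -q.1.im → -q.1.im ≤ r → κ * (s ^ β * r ^ (1 - β)) ≤ q.2.im →
      q.2.im ≤ C₁ * (-q.1.im) → -q.1.im ≤ C₁ * q.2.im →
      ‖F q‖ ≤ Real.exp (B * (r / s) ^ α)) →
    (∀ q ∈ S5.Half e ρ σ, κ * ρ ≤ q.2.im → q.1.im + κ * ρ ≤ σ * q.2.im →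
      ‖F q‖ ≤ Real.exp (B * (ρ / s) ^ α)) →
    ∀ x : ℂ × ℂ, ‖x.1‖ ≤ A → ‖x.2‖ ≤ A → c₂ ≤ x.2.im → x.1.im ≤ (σ - c) * x.2.im →
      ‖F (S5.bl e s x)‖ ≤ Real.exp (C * B) := by
  obtain ⟨κ, hκ, C₁, hC₁, C, hC, h⟩ := disc_normC (E := E) (σ := σ) (c := min c 1) (A := max A 1)
    (c₂ := min c₂ 1) hσ (lt_min hc one_pos) (min_le_right _ _) (le_max_right _ _)
    (lt_min hc2 one_pos) (min_le_right _ _) hβ0 hβ1 hα0 hα1
  refine ⟨κ, hκ, C₁, hC₁, C, hC, ?_⟩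
  intro e s ρ hs hsρ F hF B hB hside harc x hx1 hx2 hx3 hx4
  refine h e s ρ hs hsρ F hF B hB hside harc x (hx1.trans (le_max_left _ _))
    (hx2.trans (le_max_left _ _)) ((min_le_left _ _).trans hx3) (hx4.trans ?_)
  refine mul_le_mul_of_nonneg_right ?_ (hc2.le.trans hx3)
  have := min_le_left c 1
  linarith

end Crest.Agent.R102.DiscPC866
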