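import Crest.Agent.R102.DiscTC_669

/-!
Row 102, T1-B, EDGE (helper669): **the disc estimate as one pure theorem** (power type depths, no
recursion, fixed levels).
-/

set_option autoImplicit false
set_option linter.unusedSectionVars false
set_option linter.unusedVariables false

open Set Filter Topology Metric Complex MeasureTheory
open scoped Real

noncomputable section

namespace Crest.Agent.R102.DiscP669

open Crest.Agent.R102.Bishop120 (HC HO)
open Crest.Agent.R102.Disc669 Crest.Agent.R102.DiscT669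

variable {E : Type*} [NormedAddCommGroup E] [NormedSpace ℂ E]

theorem halfdisc_maxE {ρ : ℝ} {g : ℂ → E} {Ψ : ℂ → ℂ} (hg : DiffContOnCl ℂ g (UD ρ))
    (hΨ : DiffContOnCl ℂ Ψ (UD ρ))
    (hb : ∀ ζ : ℂ, ‖ζ‖ ≤ ρ → 0 ≤ ζ.im → (ζ.im = 0 ∨ ‖ζ‖ = ρ) → ‖g ζ‖ ≤ Real.exp (Ψ ζ).re) :
    ∀ ζ ∈ UD ρ, ‖g ζ‖ ≤ Real.exp (Ψ ζ).re := by
  intro ζ hζ
  have h2 : DiffContOnCl ℂ (fun z => Complex.exp (-(Ψ z))) (UD ρ) :=
    (Complex.differentiable_exp.comp (Differentiable.neg differentiable_id)).comp_diffContOnCl hΨ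
  have h1 : DiffContOnCl ℂ (fun z => Complex.exp (-(Ψ z)) • g z) (UD ρ) := h2.smul hg
  have key : ∀ z, ‖Complex.exp (-(Ψ z)) • g z‖ = Real.exp (-(Ψ z).re) * ‖g z‖ := by
    intro z; rw [norm_smul, Complex.norm_exp, neg_re]
  have h3 : ∀ z ∈ frontier (UD ρ), ‖Complex.exp (-(Ψ z)) • g z‖ ≤ 1 := by
    intro z hz
    have hz1 := closure_UD ρ hz.1
    have hz2 : z ∉ UD ρ := by
      have := hz.2
      rwa [(isOpen_UD ρ).interior_eq] at this
    have hz3 : z.im = 0 ∨ ‖z‖ = ρ := by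
      by_contra hcon
      push Not at hcon
      exact hz2 ⟨lt_of_le_of_ne hz1.1 hcon.2, lt_of_le_of_ne hz1.2 (Ne.symm hcon.1)⟩
    have h4 := hb z hz1.1 hz1.2 hz3
    rw [key, Real.exp_neg, inv_mul_eq_div]
    exact (div_le_one (Real.exp_pos _)).2 h4
  have h5 := Complex.norm_le_of_forall_mem_frontier_norm_le (bounded_UD ρ) h1 h3
    (subset_closure hζ)
  rw [key, Real.exp_neg, inv_mul_eq_div] at h5
  exact (div_le_one (Real.exp_pos _)).1 h5

lemma isOpen_Half (e : ℝ × ℝ) (η m : ℝ) : IsOpen (S5.Half e η m) := by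
  unfold S5.Half
  have c1 : Continuous (fun q : ℂ × ℂ => |q.1.re - e.1|) := by fun_prop
  have c2 : Continuous (fun q : ℂ × ℂ => q.1.im) := by fun_prop
  have c3 : Continuous (fun q : ℂ × ℂ => ‖q.2 - (e.2 : ℂ)‖) := by fun_prop
  have c4 : Continuous (fun q : ℂ × ℂ => q.2.im) := by fun_prop
  exact (isOpen_lt c1 continuous_const).inter ((isOpen_lt continuous_const c2).inter
    ((isOpen_lt c3 continuous_const).inter ((isOpen_lt continuous_const c4).inter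
      (isOpen_lt c2 (continuous_const.mul c4)))))

lemma dccE {σ c ν A c2 s ρ η ρ₀ : ℝ} {H : ℂ → ℂ} {Tq zq : ℂ} {e : ℝ × ℝ} {f : ℂ × ℂ → E}
    (h : Geo σ c ν A c2 s ρ η H Tq zq) (hρ₀ : 2 * (C1c σ A * ρ) < ρ₀)
    (hf : DifferentiableOn ℂ f (S5.Half e ρ₀ σ)) :
    DiffContOnCl ℂ (fun ζ => f (Ph σ c η H Tq zq e ζ)) (UD ρ) := by
  have hop := isOpen_Half e ρ₀ σ
  constructor
  · intro ζ hζ
    have h1 : ζ ∈ HO := hζ.2
    have h1' : ζ ∈ HC := le_of_lt hζ.2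
    have hnh : HO ∈ 𝓝 ζ := (isOpen_lt continuous_const Complex.continuous_im).mem_nhds h1
    have h2 : DifferentiableAt ℂ (TT σ c η H Tq) ζ := h.TT_diff.differentiableAt hnh
    have h2' : DifferentiableAt ℂ (ZZ η H zq) ζ := h.ZZ_diff.differentiableAt hnh
    have h3 : DifferentiableAt ℂ f (Ph σ c η H Tq zq e ζ) :=
      hf.differentiableAt (hop.mem_nhds (h.mem_Half hρ₀ h1' hζ.1.le))
    have h4 : DifferentiableAt ℂ (Ph σ c η H Tq zq e) ζ := by
      unfold Ph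
      exact ((differentiableAt_const _).add h2).prodMk ((differentiableAt_const _).add h2')
    exact (DifferentiableAt.comp (g := f) (f := Ph σ c η H Tq zq e) ζ h3
      h4).differentiableWithinAt
  · have h1 : ContinuousOn (Ph σ c η H Tq zq e) (closure (UD ρ)) := by
      unfold Ph
      refine ContinuousOn.prodMk ?_ ?_
      · exact continuousOn_const.add (h.TT_cont.mono (fun ζ hζ => (closure_UD ρ hζ).2))
      · exact continuousOn_const.add (h.ZZ_cont.mono (fun ζ hζ => (closure_UD ρ hζ).2))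
    exact hf.continuousOn.comp h1
      (fun ζ hζ => h.mem_Half hρ₀ (closure_UD ρ hζ).2 (closure_UD ρ hζ).1)

/-- position of the real side -/
lemma side_pos {σ c ν A c2 s ρ η β : ℝ} {Tq zq : ℂ} {e : ℝ × ℝ}
    (h : Geo σ c ν A c2 s ρ η (HH ν β (c2 / 2) s ρ (fun _ => 0)) Tq zq)
    (hg : HG ν β (c2 / 2) s ρ 0 (fun _ => 0)) {μ : ℝ} (hμ0 : 0 < μ) (hμ1 : μ ≤ 1 / 4)
    (hμ2 : μ * ((σ + 2) * A) ≤ ν * c2) {x : ℝ} (hx : |x| ≤ ρ) {q : ℂ × ℂ} {r κ : ℝ}
    (hq : q = Ph σ c η (HH ν β (c2 / 2) s ρ (fun _ => 0)) Tq zq e x)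
    (hr : r = C1c σ A * (s + |x|)) (hκ0 : 0 < κ)
    (hκ : κ * (2 * C1c σ A / (c * c2 / 4) + 2 * C1c σ A / bc ν β c2) ≤ μ) :
    |q.1.re - e.1| + ‖q.2 - (e.2 : ℂ)‖ ≤ r ∧ κ * (s ^ β * r ^ (1 - β)) ≤ -q.1.im ∧ -q.1.im ≤ r ∧
      κ * (s ^ β * r ^ (1 - β)) ≤ q.2.im := by
  have hmu := h.mu hμ0.le hμ1 hμ2 x
  have hdep := h.depth x
  have hH4 := hg.H4 x
  have hxC : (x : ℂ) ∈ HC := by change (0 : ℝ) ≤ (x : ℂ).im; simp
  have hnx : ‖(x : ℂ)‖ = |x| := by rw [Complex.norm_real, Real.norm_eq_abs]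
  have hn := h.norms hxC (by rw [hnx]; exact hx)
  rw [hnx] at hn
  have hs := h.s0; have hc := h.c0; have hc2 := h.c20; have hρ := h.ρ0
  have hcg := cgb_pos hg.β0 hg.β1
  have hβ0 := hg.β0; have hβ1 := hg.β1
  have hC1 := C1c_pos h.σ0 h.A1
  set H := HH ν β (c2 / 2) s ρ (fun _ => 0) with hH
  have q1im : q.1.im = (TT σ c η H Tq x).im := by simp [hq, Ph]
  have q1re : q.1.re = e.1 + (TT σ c η H Tq x).re := by simp [hq, Ph]
  have q2 : q.2 = (e.2 : ℂ) + ZZ η H zq x := by rw [hq]; rfl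
  have q2im : q.2.im = (ZZ η H zq x).im := by simp [q2]
  have hb0 : 0 < bc ν β c2 := by
    unfold bc
    have := h.ν0
    positivity
  have hX : cgb β * (amp ν β (c2 / 2) s * |x| ^ (1 - β)) = bc ν β c2 * (s ^ β * |x| ^ (1 - β)) := by
    unfold amp bc; ring
  rw [hX] at hH4
  simp only [Complex.zero_im, neg_zero, zero_add] at hH4
  have hD : c * c2 / 4 * s + bc ν β c2 * (s ^ β * |x| ^ (1 - β)) ≤ -q.1.im := by
    rw [q1im]; linarith
  have hD0 : 0 < -q.1.im := by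
    refine lt_of_lt_of_le ?_ hD
    positivity
  have hr1 : |q.1.re - e.1| + ‖q.2 - (e.2 : ℂ)‖ ≤ r := by
    have e1 : q.1.re - e.1 = (TT σ c η H Tq x).re := by rw [q1re]; ring
    have e2 : q.2 - (e.2 : ℂ) = ZZ η H zq x := by rw [q2]; ring
    rw [e1, e2, hr]
    have := Complex.abs_re_le_norm (TT σ c η H Tq x)
    unfold C1c
    linarith
  have hr2 : -q.1.im ≤ r := by
    rw [q1im, hr]
    have := (abs_le.1 (Complex.abs_im_le_norm (TT σ c η H Tq x))).1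
    have := norm_nonneg (ZZ η H zq x)
    unfold C1c
    linarith
  have hrs : s ≤ r := by
    rw [hr]; have := abs_nonneg x; nlinarith
  have hr0 : 0 < r := hs.trans_le hrs
  -- the ratio
  have hrat := ratio_bound (C1 := C1c σ A) (a := c * c2 / 4) (b := bc ν β c2) (β := β)
    (s := s) (y := |x|) (D := -q.1.im) (by linarith) (by positivity) hb0 hβ0 hβ1 hs
    (abs_nonneg x) hD
  rw [← hr] at hrat
  set C2 := 2 * C1c σ A / (c * c2 / 4) + 2 * C1c σ A / bc ν β c2 with hC2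
  have hC20 : 0 < C2 := by
    have : 0 < C1c σ A := by linarith
    positivity
  have hmax : (max 1 (|x| / s)) ^ β ≤ (r / s) ^ β := by
    refine Real.rpow_le_rpow (le_trans zero_le_one (le_max_left _ _)) ?_ hβ0.le
    refine max_le ((one_le_div hs).2 hrs) (div_le_div_of_nonneg_right ?_ hs.le)
    rw [hr]; have := abs_nonneg x; nlinarith
  have h1 : r ≤ C2 * (r / s) ^ β * (-q.1.im) := by
    have h2 : r / (-q.1.im) ≤ C2 * (r / s) ^ β :=
      hrat.trans (mul_le_mul_of_nonneg_left hmax hC20.le)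
    rwa [div_le_iff₀ hD0] at h2
  have h3 : s ^ β * r ^ (1 - β) ≤ C2 * (-q.1.im) := by
    have h4 : 0 < (r / s) ^ β := by positivity
    have h5 : (r / s) ^ β * (s ^ β * r ^ (1 - β)) = r := by
      rw [Real.div_rpow hr0.le hs.le]
      have h6 : r ^ β * r ^ (1 - β) = r := by
        rw [← Real.rpow_add hr0]; simp
      have h7 : 0 < s ^ β := by positivity
      field_simp
      exact h6
    have h8 : (r / s) ^ β * (s ^ β * r ^ (1 - β)) ≤ (r / s) ^ β * (C2 * (-q.1.im)) := by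
      rw [h5]; linarith
    exact le_of_mul_le_mul_left h8 h4
  have h9 : κ * (s ^ β * r ^ (1 - β)) ≤ μ * (-q.1.im) := by
    calc κ * (s ^ β * r ^ (1 - β)) ≤ κ * (C2 * (-q.1.im)) := mul_le_mul_of_nonneg_left h3 hκ0.le
      _ = κ * C2 * (-q.1.im) := by ring
      _ ≤ μ * (-q.1.im) := mul_le_mul_of_nonneg_right hκ hD0.le
  refine ⟨hr1, ?_, hr2, ?_⟩
  · have : μ * (-q.1.im) ≤ 1 * (-q.1.im) := mul_le_mul_of_nonneg_right (by linarith) hD0.le
    linarith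
  · rw [q2im]
    rw [q1im] at h9
    linarith

theorem disc_norm {σ c A c₂ β α : ℝ} (hσ : 0 ≤ σ) (hc : 0 < c) (hc1 : c ≤ 1) (hA : 1 ≤ A)
    (hc2 : 0 < c₂) (hc21 : c₂ ≤ 1) (hβ0 : 0 < β) (hβ1 : β ≤ 1 / 2) (hα0 : 0 < α) (hα1 : α < 1) :
    ∃ κ : ℝ, 0 < κ ∧ ∃ C : ℝ, 1 ≤ C ∧ ∀ (e : ℝ × ℝ) (s ρ : ℝ), 0 < s → C * s ≤ ρ →
    ∀ F : ℂ × ℂ → E, DifferentiableOn ℂ F (S5.Half e ρ σ) → ∀ B : ℝ, 0 ≤ B →
    (∀ (q : ℂ × ℂ) (r : ℝ), s ≤ r → r ≤ ρ → |q.1.re - e.1| + ‖q.2 - (e.2 : ℂ)‖ ≤ r →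
      κ * (s ^ β * r ^ (1 - β)) ≤ -q.1.im → -q.1.im ≤ r → κ * (s ^ β * r ^ (1 - β)) ≤ q.2.im →
      ‖F q‖ ≤ Real.exp (B * (r / s) ^ α)) →
    (∀ q ∈ S5.Half e ρ σ, κ * ρ ≤ q.2.im → q.1.im + κ * ρ ≤ σ * q.2.im →
      ‖F q‖ ≤ Real.exp (B * (ρ / s) ^ α)) →
    ∀ x : ℂ × ℂ, ‖x.1‖ ≤ A → ‖x.2‖ ≤ A → c₂ ≤ x.2.im → x.1.im ≤ (σ - c) * x.2.im →
      ‖F (S5.bl e s x)‖ ≤ Real.exp (C * B) := by
  set ν : ℝ := c / (64 * (σ + 1)) with hνd
  have hσ1 : 0 < σ + 1 := by linarith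
  have hν0 : 0 < ν := by positivity
  have hνc : 64 * (ν * (σ + 1)) = c := by rw [hνd]; field_simp
  have hν64 : ν ≤ 1 / 64 := by nlinarith [mul_nonneg hν0.le hσ]
  set μ : ℝ := ν * c₂ / ((σ + 2) * A) with hμd
  have hμ0 : 0 < μ := by positivity
  have hμ2 : μ * ((σ + 2) * A) ≤ ν * c₂ := by rw [hμd]; exact (div_mul_cancel₀ _ (by positivity)).le
  have hμ1 : μ ≤ 1 / 4 := by
    rw [hμd, div_le_iff₀ (by positivity)]
    have h1 : ν * c₂ ≤ 1 / 64 * 1 := mul_le_mul hν64 hc21 hc2.le (by norm_num)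
    have h2 : 1 ≤ (σ + 2) * A := by nlinarith
    linarith
  have hcg := cgb_pos hβ0 hβ1
  have hcos : 0 < Real.cos (α * (π / 2)) :=
    Real.cos_pos_of_mem_Ioo ⟨by nlinarith [Real.pi_pos], by nlinarith [Real.pi_pos]⟩
  have hcos1 : Real.cos (α * (π / 2)) ≤ 1 := Real.cos_le_one _
  have hC1 := C1c_pos hσ hA
  have hC10 : 0 < C1c σ A := by linarith
  have hb0 : 0 < bc ν β c₂ := by unfold bc; positivity
  set C2 := 2 * C1c σ A / (c * c₂ / 4) + 2 * C1c σ A / bc ν β c₂ with hC2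
  have hC20 : 0 < C2 := by positivity
  set κ : ℝ := min (μ / C2) (ν / (16 * C1c σ A)) with hκd
  have hκ0 : 0 < κ := lt_min (by positivity) (by positivity)
  have hκ1 : κ * C2 ≤ μ := by
    have : κ ≤ μ / C2 := min_le_left _ _
    rwa [le_div_iff₀ hC20] at this
  have hκ2 : κ * (4 * C1c σ A) ≤ ν / 4 := by
    have : κ ≤ ν / (16 * C1c σ A) := min_le_right _ _
    rw [le_div_iff₀ (by positivity)] at this
    linarith
  set C : ℝ := 4 * C1c σ A * (1 + A) / Real.cos (α * (π / 2)) with hCd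
  have hCge : 4 * C1c σ A * (1 + A) ≤ C := by
    rw [hCd, le_div_iff₀ hcos]
    exact mul_le_of_le_one_right (by positivity) hcos1
  have hC1' : 1 ≤ C := by nlinarith
  refine ⟨κ, hκ0, C, hC1', ?_⟩
  intro e s ρ₀ hs hsρ F hF B hB hside harc x hx1 hx2 hx3 hx4
  set ρ : ℝ := ρ₀ / (4 * C1c σ A) with hρd
  have hρeq : ρ₀ = 4 * (C1c σ A * ρ) := by rw [hρd]; field_simp
  have hρ₀ : 0 < ρ₀ := lt_of_lt_of_le (by positivity) hsρ
  have hρ : 0 < ρ := by positivity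
  have hsρ' : (1 + A) * s ≤ ρ := by
    have h1 : 4 * C1c σ A * (1 + A) * s ≤ 4 * (C1c σ A * ρ) := by
      rw [← hρeq]
      exact (mul_le_mul_of_nonneg_right hCge hs.le).trans hsρ
    have h2 : 4 * C1c σ A * ((1 + A) * s) ≤ 4 * C1c σ A * ρ := by linarith
    exact le_of_mul_le_mul_left h2 (by positivity)
  have hs1 : A * s < ρ := by linarith
  have hsρ'' : s ≤ ρ := by nlinarith
  have hρ₀' : 2 * (C1c σ A * ρ) < ρ₀ := by
    have : 0 < C1c σ A * ρ := by positivity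
    linarith
  set Tq : ℂ := s * x.1 with hTq
  set zq : ℂ := s * x.2 with hzq
  set η : ℝ := (1 - 2 * ν) * zq.im with hη
  have zqim : zq.im = s * x.2.im := by rw [hzq, Complex.im_ofReal_mul]
  have Tqim : Tq.im = s * x.1.im := by rw [hTq, Complex.im_ofReal_mul]
  have hzqn : ‖zq‖ ≤ A * s := by
    rw [hzq, norm_mul, Complex.norm_of_nonneg hs.le, mul_comm]
    exact mul_le_mul_of_nonneg_right hx2 hs.le
  have hTqn : ‖Tq‖ ≤ A * s := by
    rw [hTq, norm_mul, Complex.norm_of_nonneg hs.le, mul_comm]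
    exact mul_le_mul_of_nonneg_right hx1 hs.le
  have hzq2 : c₂ * s ≤ zq.im := by
    rw [zqim, mul_comm]; exact mul_le_mul_of_nonneg_left hx3 hs.le
  have hTq2 : Tq.im ≤ (σ - c) * zq.im := by
    rw [zqim, Tqim]
    have := mul_le_mul_of_nonneg_left hx4 hs.le
    linarith
  have hzqA : zq.im ≤ A * s := ((le_abs_self _).trans (Complex.abs_im_le_norm _)).trans hzqn
  have hzq0 : 0 < zq.im := lt_of_lt_of_le (by positivity) hzq2
  have hg : HG ν β (c₂ / 2) s ρ 0 (fun _ => 0) :=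
    { ν0 := hν0, β0 := hβ0, β1 := hβ1, c20 := by positivity, c21 := by linarith, s0 := hs
      ρ0 := hρ, κ1 := by simpa using hν0.le, Gc := continuousOn_const
      Gd := differentiableOn_const _, Gim := fun z _ => by simp
      Gκ := fun z _ _ => by simp; positivity }
  have hη1 : c₂ / 2 * s ≤ η := by
    have h1 : 1 / 2 * zq.im ≤ (1 - 2 * ν) * zq.im :=
      mul_le_mul_of_nonneg_right (by linarith) hzq0.le
    linarith
  have hη2 : η ≤ ρ := by
    have h1 : (1 - 2 * ν) * zq.im ≤ 1 * zq.im :=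
      mul_le_mul_of_nonneg_right (by linarith) hzq0.le
    linarith
  have hgeo : Geo σ c ν A c₂ s ρ η (HH ν β (c₂ / 2) s ρ (fun _ => 0)) Tq zq :=
    { σ0 := hσ, c0 := hc, c1 := hc1, ν0 := hν0, νc := hνc, A1 := hA, c20 := hc2, c21 := hc21
      s0 := hs, ρ0 := hρ, As := hs1, Tq1 := hTqn, zq1 := hzqn, zq2 := hzq2, Tq2 := hTq2
      ηe := hη, H1 := fun ζ h1 h2 => hg.H1 h1 h2, H2 := hg.H2 hη1 hη2
      H3 := fun ζ h1 => hg.H3 h1, Hc := hg.Hc, Hd := hg.Hd }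
  -- the majorant
  set B' : ℝ := 4 * C1c σ A * B / Real.cos (α * (π / 2)) with hB'
  have hB'0 : 0 ≤ B' := by positivity
  have hBc : B' * Real.cos (α * (π / 2)) = 4 * C1c σ A * B := by
    rw [hB', div_mul_cancel₀ _ hcos.ne']
  have hmaj : ∀ ζ : ℂ, 0 ≤ ζ.im →
      4 * C1c σ A * B * (max 1 (‖ζ‖ / s)) ^ α ≤ (Maj B' s 0 α ζ).re := by
    intro ζ hζ
    have h1 := Maj_re_ge (B' := B') (s := s) (N := 0) (α := α) (ζ := ζ) hs hB'0 le_rfl
      hα0 hα1 hζ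
    rw [hBc, zero_mul, add_zero] at h1
    exact h1
  have hpow : ∀ t X : ℝ, 1 ≤ t → 0 ≤ X → (t * X) ^ α ≤ t * X ^ α := by
    intro t X ht hX
    rw [Real.mul_rpow (by linarith) hX]
    refine mul_le_mul_of_nonneg_right ?_ (by positivity)
    have := Real.rpow_le_rpow_of_exponent_le ht hα1.le
    simpa using this
  have hbd : ∀ ζ : ℂ, ‖ζ‖ ≤ ρ → 0 ≤ ζ.im → (ζ.im = 0 ∨ ‖ζ‖ = ρ) →
      ‖F (Ph σ c η (HH ν β (c₂ / 2) s ρ (fun _ => 0)) Tq zq e ζ)‖ ≤
        Real.exp (Maj B' s 0 α ζ).re := by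
    intro ζ hζρ hζ hor
    rcases hor with him | harc'
    · obtain ⟨y, rfl⟩ : ∃ y : ℝ, ζ = (y : ℂ) := ⟨ζ.re, Complex.ext (by simp) (by simpa using him)⟩
      rw [Complex.norm_real, Real.norm_eq_abs] at hζρ
      obtain ⟨p1, p2, p3, p4⟩ := side_pos hgeo hg hμ0 hμ1 hμ2 hζρ (e := e)
        (q := Ph σ c η (HH ν β (c₂ / 2) s ρ (fun _ => 0)) Tq zq e y)
        (r := C1c σ A * (s + |y|)) (κ := κ) rfl rfl hκ0 hκ1
      have hy0 := abs_nonneg y
      refine (hside _ _ ?_ ?_ p1 p2 p3 p4).trans (Real.exp_le_exp.2 ?_)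
      · nlinarith
      · have h1 : C1c σ A * (s + |y|) ≤ C1c σ A * (2 * ρ) :=
          mul_le_mul_of_nonneg_left (by linarith) hC10.le
        have h2 : 0 < C1c σ A * ρ := by positivity
        linarith
      · have h1 := hmaj y hζ
        rw [Complex.norm_real, Real.norm_eq_abs] at h1
        refine le_trans ?_ h1
        have hX1 : 1 ≤ max 1 (|y| / s) := le_max_left _ _
        have h2 : C1c σ A * (s + |y|) / s ≤ 2 * C1c σ A * max 1 (|y| / s) := by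
          rw [div_le_iff₀ hs]
          have h3 : |y| ≤ max 1 (|y| / s) * s := by
            have := le_max_right 1 (|y| / s)
            rwa [div_le_iff₀ hs] at this
          have h4 : s ≤ max 1 (|y| / s) * s := le_mul_of_one_le_left hs.le hX1
          calc C1c σ A * (s + |y|) ≤ C1c σ A * (max 1 (|y| / s) * s + max 1 (|y| / s) * s) :=
                mul_le_mul_of_nonneg_left (by linarith) hC10.le
            _ = 2 * C1c σ A * max 1 (|y| / s) * s := by ring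
        have h5 : (C1c σ A * (s + |y|) / s) ^ α ≤ 2 * C1c σ A * (max 1 (|y| / s)) ^ α :=
          (Real.rpow_le_rpow (by positivity) h2 hα0.le).trans (hpow _ _ (by linarith) (by linarith))
        have h6 : 0 ≤ (max 1 (|y| / s)) ^ α := by positivity
        calc B * (C1c σ A * (s + |y|) / s) ^ α
            ≤ B * (2 * C1c σ A * (max 1 (|y| / s)) ^ α) := mul_le_mul_of_nonneg_left h5 hB
          _ = 2 * C1c σ A * B * (max 1 (|y| / s)) ^ α := by ring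
          _ ≤ 4 * C1c σ A * B * (max 1 (|y| / s)) ^ α := by
              refine mul_le_mul_of_nonneg_right ?_ h6
              have : 0 ≤ C1c σ A * B := by positivity
              linarith
    · have hζC : ζ ∈ HC := hζ
      refine (harc _ (hgeo.mem_Half hρ₀' hζC hζρ) ?_ ?_).trans (Real.exp_le_exp.2 ?_)
      · have h1 := hgeo.ZZ_arc hζC harc'
        have h2 : κ * ρ₀ ≤ ν / 4 * ρ := by
          rw [hρeq]
          calc κ * (4 * (C1c σ A * ρ)) = κ * (4 * C1c σ A) * ρ := by ring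
            _ ≤ ν / 4 * ρ := mul_le_mul_of_nonneg_right hκ2 hρ.le
        simp only [Ph, add_im, ofReal_im, zero_add]
        linarith
      · have h1 := hgeo.level_arc hζC harc'
        have h2 : κ * ρ₀ ≤ ν / 4 * ρ := by
          rw [hρeq]
          calc κ * (4 * (C1c σ A * ρ)) = κ * (4 * C1c σ A) * ρ := by ring
            _ ≤ ν / 4 * ρ := mul_le_mul_of_nonneg_right hκ2 hρ.le
        have h3 : 0 < ν * ρ := by positivity
        simp only [Ph, add_im, ofReal_im, zero_add]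
        linarith
      · have h1 := hmaj ζ hζ
        rw [harc'] at h1
        refine le_trans ?_ h1
        have h2 : (ρ₀ / s) ^ α ≤ 4 * C1c σ A * (ρ / s) ^ α := by
          have h3 : ρ₀ / s = 4 * C1c σ A * (ρ / s) := by rw [hρeq]; ring
          rw [h3]
          exact hpow _ _ (by linarith) (by positivity)
        have h4 : (ρ / s) ^ α ≤ (max 1 (ρ / s)) ^ α :=
          Real.rpow_le_rpow (by positivity) (le_max_right _ _) hα0.le
        calc B * (ρ₀ / s) ^ α ≤ B * (4 * C1c σ A * (ρ / s) ^ α) :=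
              mul_le_mul_of_nonneg_left h2 hB
          _ = 4 * C1c σ A * B * (ρ / s) ^ α := by ring
          _ ≤ _ := mul_le_mul_of_nonneg_left h4 (by positivity)
  have hη0 := hgeo.η0
  have hmemU : ((η : ℂ) * I) ∈ UD ρ := by
    refine ⟨by rw [norm_I_mul hη0.le]; exact hgeo.ηρ, ?_⟩
    simpa using hη0
  have hfin := halfdisc_maxE (dccE (e := e) hgeo hρ₀' hF)
    (Maj_diffContOnCl (B' := B') (N := 0) hs hα0 ρ) hbd _ hmemU
  have e1 : F (Ph σ c η (HH ν β (c₂ / 2) s ρ (fun _ => 0)) Tq zq e ((η : ℂ) * I)) =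
      F (S5.bl e s x) := by
    unfold Ph S5.bl
    rw [TT_at, ZZ_at]
  rw [e1] at hfin
  refine hfin.trans (Real.exp_le_exp.2 ?_)
  have h8 := Maj_re_le (B' := B') (s := s) (N := 0) (α := α) hs hB'0 hα0 hα1 hη0.le
  have h9 : η / s ≤ A := by rw [div_le_iff₀ hs]; exact hgeo.ηA
  have h10 : B' * (1 + η / s) ≤ B' * (1 + A) := mul_le_mul_of_nonneg_left (by linarith) hB'0
  have h11 : B' * (1 + A) = C * B := by
    rw [hB', hCd]; ring
  linarith

/-- **the disc estimate** (power type depths, fixed levels) -/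
theorem disc_pure {σ c A c₂ β α : ℝ} (hσ : 0 ≤ σ) (hc : 0 < c) (hA : 0 < A)
    (hc2 : 0 < c₂) (hβ0 : 0 < β) (hβ1 : β ≤ 1 / 2) (hα0 : 0 < α) (hα1 : α < 1) :
    ∃ κ : ℝ, 0 < κ ∧ ∃ C : ℝ, 1 ≤ C ∧ ∀ (e : ℝ × ℝ) (s ρ : ℝ), 0 < s → C * s ≤ ρ →
    ∀ F : ℂ × ℂ → E, DifferentiableOn ℂ F (S5.Half e ρ σ) → ∀ B : ℝ, 0 ≤ B →
    (∀ (q : ℂ × ℂ) (r : ℝ), s ≤ r → r ≤ ρ → |q.1.re - e.1| + ‖q.2 - (e.2 : ℂ)‖ ≤ r →
      κ * (s ^ β * r ^ (1 - β)) ≤ -q.1.im → -q.1.im ≤ r → κ * (s ^ β * r ^ (1 - β)) ≤ q.2.im →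
      ‖F q‖ ≤ Real.exp (B * (r / s) ^ α)) →
    (∀ q ∈ S5.Half e ρ σ, κ * ρ ≤ q.2.im → q.1.im + κ * ρ ≤ σ * q.2.im →
      ‖F q‖ ≤ Real.exp (B * (ρ / s) ^ α)) →
    ∀ x : ℂ × ℂ, ‖x.1‖ ≤ A → ‖x.2‖ ≤ A → c₂ ≤ x.2.im → x.1.im ≤ (σ - c) * x.2.im →
      ‖F (S5.bl e s x)‖ ≤ Real.exp (C * B) := by
  obtain ⟨κ, hκ, C, hC, h⟩ := disc_norm (E := E) (σ := σ) (c := min c 1) (A := max A 1)
    (c₂ := min c₂ 1) hσ (lt_min hc one_pos) (min_le_right _ _) (le_max_right _ _)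
    (lt_min hc2 one_pos) (min_le_right _ _) hβ0 hβ1 hα0 hα1
  refine ⟨κ, hκ, C, hC, ?_⟩
  intro e s ρ hs hsρ F hF B hB hside harc x hx1 hx2 hx3 hx4
  refine h e s ρ hs hsρ F hF B hB hside harc x (hx1.trans (le_max_left _ _))
    (hx2.trans (le_max_left _ _)) ((min_le_left _ _).trans hx3) (hx4.trans ?_)
  refine mul_le_mul_of_nonneg_right ?_ (hc2.le.trans hx3)
  have := min_le_left c 1
  linarith

end Crest.Agent.R102.DiscP669
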