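import Crest.Agent.R102.DiscLogC_695

/-!
Row 102, T1-B, EDGE (helper490): the one-disc estimate `discLog` with a REAL SIDE MADE OF RAY
POINTS (the tilt of the disc is chosen by the target): `discRay`.
-/

set_option autoImplicit false

open Set Filter Topology Metric Complex MeasureTheory
open scoped Real

noncomputable section

namespace Crest.Agent.R102.DiscRay490

open Crest.Agent.R102.Disc669 Crest.Agent.R102.DiscLog695
open Crest.Agent.R102.S5 (Half bl ray)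

/-! ### the disc with tilt `t` -/

/-- `T1` with tilt `t` -/
def R1 (t ν s ρ η : ℝ) (Tq : ℂ) : ℂ := Tq - (t : ℂ) * (η * I) - HL ν s ρ (η * I)

/-- `TT` with tilt `t` -/
def RR (t ν s ρ η : ℝ) (Tq ζ : ℂ) : ℂ := R1 t ν s ρ η Tq + (t : ℂ) * ζ + HL ν s ρ ζ

structure GR (σ c ν A c₂ s ρ η t : ℝ) (Tq zq : ℂ) : Prop
    extends GD σ c ν A c₂ s ρ η Tq zq where
  t1 : t ≤ σ - c / 2
  t2 : |t| ≤ σ + c + 2 * A / c₂
  tη : t * η = Tq.im + 4 * zq.im - 4 * η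

section GR

variable {σ c ν A c₂ s ρ η t : ℝ} {Tq zq : ℂ}

lemma RR_at : RR t ν s ρ η Tq (η * I) = Tq := by unfold RR R1; ring

lemma RR_im (ζ : ℂ) : (RR t ν s ρ η Tq ζ).im =
    (R1 t ν s ρ η Tq).im + t * ζ.im + (HL ν s ρ ζ).im := by
  unfold RR
  rw [add_im, add_im, Complex.im_ofReal_mul]

/-- the constant terms have ratio exactly `-4` -/
lemma GR.R1_im (h : GR σ c ν A c₂ s ρ η t Tq zq) :
    (R1 t ν s ρ η Tq).im = -4 * (T2 ν s ρ η zq).im := by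
  have e1 : (R1 t ν s ρ η Tq).im = Tq.im - t * η - (HL ν s ρ (η * I)).im := by
    unfold R1
    rw [sub_im, sub_im, Complex.im_ofReal_mul]
    simp
  have e2 : (T2 ν s ρ η zq).im = zq.im - η + 1 / 4 * (HL ν s ρ (η * I)).im := by
    unfold T2
    rw [add_im, sub_im, Complex.im_ofReal_mul]
    simp
  rw [e1, e2, h.tη]
  ring

/-- **on the real side the point is a ray point** -/
lemma GR.real_im (h : GR σ c ν A c₂ s ρ η t Tq zq) (x : ℝ) :
    (RR t ν s ρ η Tq x).im = -(4 * (ZZ ν s ρ η zq x).im) := by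
  rw [RR_im, ZZ_im, h.R1_im]
  simp only [ofReal_im]
  ring

lemma GR.M0 (h : GR σ c ν A c₂ s ρ η t Tq zq) : 0 ≤ 2 * A / c₂ := by
  have := h.A0; have := h.c20
  positivity

lemma GR.R1_norm (h : GR σ c ν A c₂ s ρ η t Tq zq) :
    ‖R1 t ν s ρ η Tq‖ ≤ (σ + c + 2 * A / c₂ + 2) * (A * s) := by
  unfold R1
  have h1 := h.Hn
  have h2 := h.Tn
  have h3 := h.ηA
  have h6 := h.ν1
  have h7 := h.η0
  have hν := h.ν0
  have h9 : ‖(η : ℂ) * I‖ = η := h.nI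
  have hM : 0 ≤ σ + c + 2 * A / c₂ := by
    have := h.M0; have := h.σ0; have := h.c0
    linarith
  have h10 : ‖(t : ℂ) * ((η : ℂ) * I)‖ ≤ (σ + c + 2 * A / c₂) * (A * s) := by
    rw [norm_mul, Complex.norm_real, Real.norm_eq_abs, h9]
    exact mul_le_mul h.t2 h3 h7.le hM
  have h11 : 2 * ν * η ≤ 1 * (A * s) := mul_le_mul (by linarith) h3 h7.le (by linarith)
  calc _ ≤ ‖Tq‖ + ‖(t : ℂ) * (η * I)‖ + ‖HL ν s ρ (η * I)‖ :=
        (norm_sub_le _ _).trans (add_le_add_left (norm_sub_le _ _) _)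
    _ ≤ (σ + c + 2 * A / c₂ + 2) * (A * s) := by linarith

lemma GR.RR_norm (h : GR σ c ν A c₂ s ρ η t Tq zq) {ζ : ℂ} (hζ : 0 ≤ ζ.im) (hζρ : ‖ζ‖ ≤ ρ) :
    ‖RR t ν s ρ η Tq ζ‖ ≤ (σ + c + 2 * A / c₂ + 3) * (A + 1) * (s + ‖ζ‖) := by
  unfold RR
  have h1 := h.R1_norm
  have h2 := HL_norm (ν := ν) h.ν0.le h.s0 h.ρ0 hζ hζρ
  have h3 := h.ν1
  have h6 := h.A0
  have h7 := h.s0
  have hM : 0 ≤ σ + c + 2 * A / c₂ := by
    have := h.M0; have := h.σ0; have := h.c0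
    linarith
  have h8 := h.t2
  set M := σ + c + 2 * A / c₂ with hMd
  have h9 : ‖(t : ℂ) * ζ‖ ≤ M * ‖ζ‖ := by
    rw [norm_mul, Complex.norm_real, Real.norm_eq_abs]
    exact mul_le_mul_of_nonneg_right h8 (norm_nonneg _)
  have h10 : 2 * ν * ‖ζ‖ ≤ 1 * ‖ζ‖ := mul_le_mul_of_nonneg_right (by linarith) (norm_nonneg _)
  have h11 : (0 : ℝ) ≤ ‖ζ‖ := norm_nonneg _
  calc _ ≤ ‖R1 t ν s ρ η Tq‖ + ‖(t : ℂ) * ζ‖ + ‖HL ν s ρ ζ‖ :=
        (norm_add_le _ _).trans (add_le_add_left (norm_add_le _ _) _)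
    _ ≤ (M + 2) * (A * s) + M * ‖ζ‖ + 1 * ‖ζ‖ := by linarith
    _ ≤ _ := by
      have e : (M + 3) * (A + 1) * (s + ‖ζ‖) - ((M + 2) * (A * s) + M * ‖ζ‖ + 1 * ‖ζ‖) =
        A * s + (M + 3) * s + (M + 3) * A * ‖ζ‖ + 2 * ‖ζ‖ := by ring
      have : 0 ≤ A * s + (M + 3) * s + (M + 3) * A * ‖ζ‖ + 2 * ‖ζ‖ := by positivity
      linarith

lemma GR.ZZ_norm' (h : GR σ c ν A c₂ s ρ η t Tq zq) {ζ : ℂ} (hζ : 0 ≤ ζ.im) (hζρ : ‖ζ‖ ≤ ρ) :
    ‖ZZ ν s ρ η zq ζ‖ ≤ (σ + c + 2 * A / c₂ + 3) * (A + 1) * (s + ‖ζ‖) := by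
  refine (h.toGD.ZZ_norm hζ hζρ).trans ?_
  have h6 := h.A0
  have h7 := h.s0
  have hM := h.M0
  have h11 : (0 : ℝ) ≤ ‖ζ‖ := norm_nonneg _
  have e : (σ + c + 2 * A / c₂ + 3) * (A + 1) * (s + ‖ζ‖) =
    (σ + c + 3) * (A + 1) * (s + ‖ζ‖) + 2 * A / c₂ * (A + 1) * (s + ‖ζ‖) := by ring
  rw [e]
  have : 0 ≤ 2 * A / c₂ * (A + 1) * (s + ‖ζ‖) := by positivity
  linarith

lemma GR.level' (h : GR σ c ν A c₂ s ρ η t Tq zq) {ζ : ℂ} (hζ : 0 ≤ ζ.im) (hζρ : ‖ζ‖ ≤ ρ) :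
    ν * zq.im + c / 4 * ζ.im + ν * (ζ.re ^ 2 / ρ) ≤
      σ * (ZZ ν s ρ η zq ζ).im - (RR t ν s ρ η Tq ζ).im := by
  rw [ZZ_im, RR_im, h.R1_im]
  have h1 := h.toGD.H_low hζ hζρ
  have h2 := h.toGD.T2_im
  have h3 := h.ν2
  have h4 := h.ν0
  have h6 := h.σ0
  have h7 := h.c0
  have h8 : 0 ≤ (T2 ν s ρ η zq).im := le_trans (mul_nonneg h4.le h.toGD.z0.le) h2
  have h9 : 0 ≤ σ * (T2 ν s ρ η zq).im := mul_nonneg h6 h8
  have h10 : 0 ≤ ζ.re ^ 2 / ρ := div_nonneg (sq_nonneg _) h.toGD.ρ0.le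
  have h11 : (1 + σ / 4) * (ν * (ζ.re ^ 2 / ρ) - ν * ζ.im) ≤ (1 + σ / 4) * (-(HL ν s ρ ζ).im) :=
    mul_le_mul_of_nonneg_left h1 (by linarith)
  have h12 : (1 + σ / 4) * ν * ζ.im ≤ c / 4 * ζ.im := by
    refine mul_le_mul_of_nonneg_right ?_ hζ
    nlinarith
  have h13 : 0 ≤ σ / 4 * (ν * (ζ.re ^ 2 / ρ)) := by positivity
  have h14 : t * ζ.im ≤ (σ - c / 2) * ζ.im := mul_le_mul_of_nonneg_right h.t1 hζ
  nlinarith

/-- the disc in absolute coordinates -/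
def Pr (t ν s ρ η : ℝ) (Tq zq : ℂ) (e : ℝ × ℝ) (ζ : ℂ) : ℂ × ℂ :=
  ((e.1 : ℂ) + RR t ν s ρ η Tq ζ, (e.2 : ℂ) + ZZ ν s ρ η zq ζ)

/-- the real side is made of ray points -/
lemma GR.real_ray (h : GR σ c ν A c₂ s ρ η t Tq zq) (e : ℝ × ℝ) (x : ℝ) :
    Pr t ν s ρ η Tq zq e x =
      ray (e.1 + (RR t ν s ρ η Tq x).re, e.2 + (ZZ ν s ρ η zq x).re)
        (4 * (ZZ ν s ρ η zq x).im) := by
  unfold Pr ray bl
  have h1 := h.real_im x
  refine Prod.ext ?_ ?_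
  · apply Complex.ext
    · simp
    · simp [h1]
  · apply Complex.ext
    · simp
    · simp
      ring

lemma GR.mem_Half' (h : GR σ c ν A c₂ s ρ η t Tq zq) {C : ℝ}
    (hC : 2 * ((σ + c + 2 * A / c₂ + 3) * (A + 1)) < C) (e : ℝ × ℝ) {ζ : ℂ} (hζ : 0 ≤ ζ.im)
    (hζρ : ‖ζ‖ ≤ ρ) : Pr t ν s ρ η Tq zq e ζ ∈ Half e (C * ρ) σ := by
  have hρ := h.toGD.ρ0
  have h1 := h.RR_norm hζ hζρ
  have h2 := h.ZZ_norm' hζ hζρ
  have h3 := h.toGD.ZZ_low hζ hζρ
  have h4 := h.level' hζ hζρ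
  have h5 := h.toGD.z0
  have hM := h.M0
  have hK : 0 ≤ (σ + c + 2 * A / c₂ + 3) * (A + 1) := by
    have := h.σ0; have := h.c0; have := h.A0
    positivity
  set K := (σ + c + 2 * A / c₂ + 3) * (A + 1) with hKd
  have h6 : K * (s + ‖ζ‖) < C * ρ := by
    have a1 : s + ‖ζ‖ ≤ 2 * ρ := by linarith [h.sρ]
    have a2 := mul_le_mul_of_nonneg_left a1 hK
    have a3 : 2 * K * ρ < C * ρ := mul_lt_mul_of_pos_right hC hρ
    linarith
  have h7 : 0 ≤ ζ.re ^ 2 / ρ := div_nonneg (sq_nonneg _) hρ.le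
  have hν := h.ν0
  have hc := h.c0
  have b1 := Complex.abs_re_le_norm (RR t ν s ρ η Tq ζ)
  have b2 := abs_le.1 (Complex.abs_im_le_norm (RR t ν s ρ η Tq ζ))
  have n1 : 0 < ν * zq.im := mul_pos hν h5
  have n2 : 0 ≤ ν / 4 * (ζ.im + ζ.re ^ 2 / ρ) := by positivity
  have n4 : 0 ≤ c / 4 * ζ.im := by positivity
  have n5 : 0 ≤ ν * (ζ.re ^ 2 / ρ) := by positivity
  refine ⟨?_, ?_, ?_, ?_, ?_⟩
  · show |((e.1 : ℂ) + RR t ν s ρ η Tq ζ).re - e.1| < C * ρ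
    rw [add_re, ofReal_re, add_sub_cancel_left]
    linarith
  · show -(C * ρ) < ((e.1 : ℂ) + RR t ν s ρ η Tq ζ).im
    rw [add_im, ofReal_im, zero_add]
    linarith [b2.1]
  · show ‖((e.2 : ℂ) + ZZ ν s ρ η zq ζ) - (e.2 : ℂ)‖ < C * ρ
    rw [add_sub_cancel_left]
    linarith
  · show 0 < ((e.2 : ℂ) + ZZ ν s ρ η zq ζ).im
    rw [add_im, ofReal_im, zero_add]
    linarith
  · show ((e.1 : ℂ) + RR t ν s ρ η Tq ζ).im < σ * ((e.2 : ℂ) + ZZ ν s ρ η zq ζ).im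
    rw [add_im, ofReal_im, zero_add, add_im, ofReal_im, zero_add]
    linarith

lemma GR.Pr_diff (h : GR σ c ν A c₂ s ρ η t Tq zq) (e : ℝ × ℝ) {ζ : ℂ} (hζ : 0 ≤ ζ.im) :
    DifferentiableAt ℂ (Pr t ν s ρ η Tq zq e) ζ := by
  have h1 := HL_diff (ν := ν) (ρ := ρ) h.s0 hζ
  have h2 : DifferentiableAt ℂ (RR t ν s ρ η Tq) ζ := by
    unfold RR
    fun_prop
  unfold Pr
  exact ((differentiableAt_const _).add h2).prodMk
    ((differentiableAt_const _).add (h.toGD.ZZ_diff hζ))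

lemma GR.dcc' (h : GR σ c ν A c₂ s ρ η t Tq zq) {C : ℝ}
    (hC : 2 * ((σ + c + 2 * A / c₂ + 3) * (A + 1)) < C) (e : ℝ × ℝ) {f : ℂ × ℂ → ℂ}
    (hf : DifferentiableOn ℂ f (Half e (C * ρ) σ)) :
    DiffContOnCl ℂ (fun ζ => f (Pr t ν s ρ η Tq zq e ζ)) (UD ρ) := by
  have key : ∀ ζ : ℂ, 0 ≤ ζ.im → ‖ζ‖ ≤ ρ →
      DifferentiableAt ℂ (fun ζ => f (Pr t ν s ρ η Tq zq e ζ)) ζ := by
    intro ζ h1 h2
    have h3 : DifferentiableAt ℂ f (Pr t ν s ρ η Tq zq e ζ) :=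
      hf.differentiableAt ((isOpen_Half e (C * ρ) σ).mem_nhds (h.mem_Half' hC e h1 h2))
    exact h3.comp ζ (h.Pr_diff e h1)
  refine ⟨fun z hz => (key z hz.2.le hz.1.le).differentiableWithinAt, fun z hz => ?_⟩
  have := closure_UD ρ hz
  exact (key z this.2 this.1).continuousAt.continuousWithinAt

end GR

/-- the tilt exists -/
lemma GR.mk' {σ c ν A c₂ s ρ η : ℝ} {Tq zq : ℂ} (h : GD σ c ν A c₂ s ρ η Tq zq)
    (hν : 16 * (σ + 1) * ν ≤ c) : ∃ t : ℝ, GR σ c ν A c₂ s ρ η t Tq zq := by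
  have hη := h.η0
  have hz := h.z0
  have h1 := h.hη
  have h2 := h.ν1
  have h3 := h.ν0
  have h4 := h.c0
  have h5 := h.σ0
  have h6 := h.lv
  have h7 := h.ηz
  have h8 := h.z2
  have hc2 := h.c20
  have hs := h.s0
  have hA := h.A0
  set t : ℝ := (Tq.im + 4 * zq.im - 4 * η) / η with ht
  have htη : t * η = Tq.im + 4 * zq.im - 4 * η := by rw [ht]; field_simp
  have ht1 : t ≤ σ - c / 2 := by
    rw [ht, div_le_iff₀ hη]
    have e1 : (σ - c / 2) * η = (σ - c / 2) * zq.im - 2 * ν * (σ - c / 2) * zq.im := by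
      rw [h1]; ring
    have e2 : 4 * zq.im - 4 * η = 8 * ν * zq.im := by rw [h1]; ring
    have e3 : 16 * (σ + 1) * ν * zq.im ≤ c * zq.im := mul_le_mul_of_nonneg_right hν hz.le
    have e4 : 0 ≤ ν * c * zq.im := by positivity
    have e5 : 0 ≤ σ * ν * zq.im := by positivity
    nlinarith
  have hη2 : c₂ * s / 2 ≤ η := by
    have : zq.im / 2 ≤ η := by rw [h1]; nlinarith
    linarith
  have ht2 : -(2 * A / c₂) ≤ t := by
    rw [ht, le_div_iff₀ hη]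
    have e1 : -(A * s) ≤ Tq.im := by
      have := (abs_le.1 (Complex.abs_im_le_norm Tq)).1
      have := h.Tn
      linarith
    have e2 : 2 * A / c₂ * (c₂ * s / 2) = A * s := by field_simp
    have e3 : 2 * A / c₂ * (c₂ * s / 2) ≤ 2 * A / c₂ * η :=
      mul_le_mul_of_nonneg_left hη2 (by positivity)
    linarith
  refine ⟨t, { toGD := h, t1 := ht1, t2 := ?_, tη := htη }⟩
  have hM : 0 ≤ 2 * A / c₂ := by positivity
  exact abs_le.2 ⟨by linarith, by linarith⟩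

set_option maxHeartbeats 1000000 in
/-- **DISC-RAY**: the one-disc estimate, the side hypothesis is asked ONLY at ray points
`ray (x', v') s'` with `ν T / (1 + log (T / s))² ≤ s' ≤ C T` -/
theorem discRay (σ c A c₂ α : ℝ) (hσ : 0 ≤ σ) (hc : 0 < c) (hA : 0 < A) (hc₂ : 0 < c₂)
    (hα0 : 0 < α) (hα1 : α < 1) :
    ∃ ν > 0, ∃ C ≥ 1, ∀ (e : ℝ × ℝ) (s ρ : ℝ), 0 < s → C * s ≤ ρ →
      ∀ f : ℂ × ℂ → ℂ, DifferentiableOn ℂ f (Half e (C * ρ) σ) → ∀ B N : ℝ, 0 ≤ B → 0 ≤ N →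
      (∀ T : ℝ, s ≤ T → T ≤ 2 * ρ → ∀ x' v' s' : ℝ, |x' - e.1| ≤ C * T → |v' - e.2| ≤ C * T →
        ν * T / (1 + Real.log (T / s)) ^ 2 ≤ s' → s' ≤ C * T →
        ‖f (ray (x', v') s')‖ ≤ Real.exp (B * (T / s) ^ α)) →
      (∀ q : ℂ × ℂ, ‖q.1 - e.1‖ ≤ C * ρ → ‖q.2 - e.2‖ ≤ C * ρ → ν * ρ ≤ q.2.im →
        q.1.im ≤ σ * q.2.im - ν * ρ → ‖f q‖ ≤ Real.exp N) →
      ∀ x : ℂ × ℂ, ‖x.1‖ ≤ A → ‖x.2‖ ≤ A → c₂ ≤ x.2.im → x.1.im ≤ (σ - c) * x.2.im →
        ‖f (bl e s x)‖ ≤ Real.exp (C * (B + N * (s / ρ) ^ α)) := by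
  -- constants
  set ν₀ : ℝ := min (1 / 64) (c / (16 * (σ + 1))) with hν₀
  have hν₀0 : 0 < ν₀ := by rw [hν₀]; positivity
  have hν₀1 : ν₀ ≤ 1 / 64 := min_le_left _ _
  have hν₀3 : 16 * (σ + 1) * ν₀ ≤ c := by
    have : ν₀ ≤ c / (16 * (σ + 1)) := min_le_right _ _
    rw [le_div_iff₀ (by positivity)] at this
    linarith
  have hν₀2 : 8 * (σ + 1) * ν₀ ≤ c := by
    have : 0 ≤ 8 * (σ + 1) * ν₀ := by positivity
    linarith
  set K : ℝ := (σ + c + 2 * A / c₂ + 3) * (A + 1) with hK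
  have hK0 : 0 < K := by rw [hK]; positivity
  set κ : ℝ := Real.cos (α * (π / 2)) with hκ
  have hκ0 : 0 < κ := Real.cos_pos_of_mem_Ioo
    ⟨by nlinarith [Real.pi_pos], by nlinarith [Real.pi_pos]⟩
  set ν : ℝ := min (min (ν₀ * c₂) (ν₀ / 16) / 2) (min (ν₀ / 4) (c / 4)) with hν
  have hν0 : 0 < ν := by rw [hν]; positivity
  have hνb : ν ≤ min (ν₀ * c₂) (ν₀ / 16) / 2 := min_le_left _ _
  have hνc : ν ≤ ν₀ / 4 := (min_le_right _ _).trans (min_le_left _ _)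
  have hνd : ν ≤ c / 4 := (min_le_right _ _).trans (min_le_right _ _)
  set C : ℝ := 4 * K + 1 + A + 2 * (1 + A) / κ with hC
  have hCp : 0 ≤ 2 * (1 + A) / κ := by positivity
  have hC1 : 1 ≤ C := by rw [hC]; linarith
  have hCK : 2 * K < C := by rw [hC]; linarith
  have hC4 : 4 * K ≤ C := by rw [hC]; linarith
  have hCA : A ≤ C := by rw [hC]; linarith
  have hCκ : 2 * (1 + A) / κ ≤ C := by rw [hC]; linarith
  refine ⟨ν, hν0, C, hC1, ?_⟩
  intro e s ρ hs hsρ f hf B N hB hN hside harc x hx1 hx2 hx3 hx4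
  have hρ : 0 < ρ := lt_of_lt_of_le (by positivity) hsρ
  have hsρ1 : s ≤ ρ := le_trans (by nlinarith) hsρ
  have hAs : A * s ≤ ρ := le_trans (mul_le_mul_of_nonneg_right hCA hs.le) hsρ
  -- the point
  set Tq : ℂ := s * x.1 with hTq
  set zq : ℂ := s * x.2 with hzq
  have hTq_im : Tq.im = s * x.1.im := by rw [hTq, Complex.im_ofReal_mul]
  have hzq_im : zq.im = s * x.2.im := by rw [hzq, Complex.im_ofReal_mul]
  set η : ℝ := (1 - 2 * ν₀) * zq.im with hη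
  have hGD : GD σ c ν₀ A c₂ s ρ η Tq zq := by
    refine ⟨hσ, hc, hν₀0, hν₀1, hν₀2, hA, hc₂, hs, hAs, hsρ1, ?_, ?_, ?_, ?_, rfl⟩
    · rw [hTq, norm_mul, Complex.norm_of_nonneg hs.le, mul_comm]
      exact mul_le_mul_of_nonneg_right hx1 hs.le
    · rw [hzq, norm_mul, Complex.norm_of_nonneg hs.le, mul_comm]
      exact mul_le_mul_of_nonneg_right hx2 hs.le
    · rw [hzq_im, mul_comm c₂ s]
      exact mul_le_mul_of_nonneg_left hx3 hs.le
    · rw [hTq_im, hzq_im]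
      calc s * x.1.im ≤ s * ((σ - c) * x.2.im) := mul_le_mul_of_nonneg_left hx4 hs.le
        _ = _ := by ring
  obtain ⟨t₀, h⟩ := GR.mk' hGD hν₀3
  have hPh : Pr t₀ ν₀ s ρ η Tq zq e (η * I) = bl e s x := by
    unfold Pr bl
    rw [RR_at, ZZ_at]
  -- the majorant
  set B' : ℝ := (2 * B + N * (s / ρ) ^ α) / κ with hB'
  have hsr : 0 ≤ (s / ρ) ^ α := by positivity
  have hB'0 : 0 ≤ B' := by rw [hB']; positivity
  have hmaj : ∀ ζ : ℂ, ‖ζ‖ ≤ ρ → 0 ≤ ζ.im → (ζ.im = 0 ∨ ‖ζ‖ = ρ) →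
      ‖f (Pr t₀ ν₀ s ρ η Tq zq e ζ)‖ ≤ Real.exp (Maj B' s 0 α ζ).re := by
    intro ζ h1 h2 h3
    have h4 := Maj_re_ge (N := 0) hs hB'0 le_rfl hα0 hα1 h2
    rw [zero_mul, add_zero] at h4
    have h5 : B' * κ = 2 * B + N * (s / ρ) ^ α := by
      rw [hB']; field_simp
    rw [← hκ, h5] at h4
    have hTn := h.RR_norm h2 h1
    have hZn := h.ZZ_norm' h2 h1
    rw [← hK] at hTn hZn
    rcases h3 with h3 | h3
    · -- real side
      have hre : ζ = (ζ.re : ℂ) := by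
        apply Complex.ext <;> simp [h3]
      set t : ℝ := ζ.re with ht
      have hnt : ‖ζ‖ = |t| := by rw [hre, Complex.norm_real, Real.norm_eq_abs]
      rw [hre] at hTn hZn ⊢
      rw [Complex.norm_real, Real.norm_eq_abs] at hTn hZn
      have hT1 : s ≤ s + |t| := by linarith [abs_nonneg t]
      have hT2 : s + |t| ≤ 2 * ρ := by rw [hnt] at h1; linarith
      have hKC : K ≤ C := by linarith
      have hst : 0 ≤ s + |t| := by positivity
      have hb2 := hGD.real_w t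
      have hel : ell s |t| = 1 + Real.log ((s + |t|) / s) := rfl
      rw [hel] at hb2
      have hel1 := ell_ge (t := |t|) hs (abs_nonneg t)
      rw [hel] at hel1
      have hq : 0 ≤ (s + |t|) / (1 + Real.log ((s + |t|) / s)) ^ 2 := by positivity
      have hz0' : 0 ≤ (ZZ ν₀ s ρ η zq t).im := le_trans (by positivity) hb2
      rw [h.real_ray e t]
      have h6 := hside (s + |t|) hT1 hT2 (e.1 + (RR t₀ ν₀ s ρ η Tq t).re)
        (e.2 + (ZZ ν₀ s ρ η zq t).re) (4 * (ZZ ν₀ s ρ η zq t).im)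
        (by
          rw [add_sub_cancel_left]
          exact (Complex.abs_re_le_norm _).trans
            (hTn.trans (mul_le_mul_of_nonneg_right hKC hst)))
        (by
          rw [add_sub_cancel_left]
          exact (Complex.abs_re_le_norm _).trans
            (hZn.trans (mul_le_mul_of_nonneg_right hKC hst)))
        (by
          rw [mul_div_assoc]
          have := (mul_le_mul_of_nonneg_right hνb hq).trans hb2
          linarith)
        (by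
          have a1 := (Complex.im_le_norm (ZZ ν₀ s ρ η zq t)).trans hZn
          have a2 : 4 * K * (s + |t|) ≤ C * (s + |t|) := mul_le_mul_of_nonneg_right hC4 hst
          linarith)
      refine h6.trans (Real.exp_le_exp.2 ?_)
      rw [hre, Complex.norm_real, Real.norm_eq_abs] at h4
      refine le_trans ?_ h4
      have h7 : (s + |t|) / s ≤ 2 * max 1 (|t| / s) := by
        rw [add_div, div_self hs.ne']
        have a1 := le_max_left 1 (|t| / s)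
        have a2 := le_max_right 1 (|t| / s)
        linarith
      have hm1 : 1 ≤ max 1 (|t| / s) := le_max_left _ _
      have h8 : ((s + |t|) / s) ^ α ≤ 2 * (max 1 (|t| / s)) ^ α := by
        calc ((s + |t|) / s) ^ α ≤ (2 * max 1 (|t| / s)) ^ α :=
              Real.rpow_le_rpow (by positivity) h7 hα0.le
          _ = 2 ^ α * (max 1 (|t| / s)) ^ α := Real.mul_rpow (by norm_num) (by positivity)
          _ ≤ 2 * (max 1 (|t| / s)) ^ α := by
              refine mul_le_mul_of_nonneg_right ?_ (by positivity)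
              calc (2 : ℝ) ^ α ≤ 2 ^ (1 : ℝ) :=
                    Real.rpow_le_rpow_of_exponent_le (by norm_num) hα1.le
                _ = 2 := Real.rpow_one 2
      have h9 : B * ((s + |t|) / s) ^ α ≤ 2 * B * (max 1 (|t| / s)) ^ α := by
        calc B * ((s + |t|) / s) ^ α ≤ B * (2 * (max 1 (|t| / s)) ^ α) :=
              mul_le_mul_of_nonneg_left h8 hB
          _ = _ := by ring
      have h10 : 0 ≤ N * (s / ρ) ^ α * (max 1 (|t| / s)) ^ α := by positivity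
      have h11 : (2 * B + N * (s / ρ) ^ α) * (max 1 (|t| / s)) ^ α =
        2 * B * (max 1 (|t| / s)) ^ α + N * (s / ρ) ^ α * (max 1 (|t| / s)) ^ α := by ring
      rw [h11]
      linarith
    · -- arc
      have hzr : ζ.re ^ 2 + ζ.im ^ 2 = ρ ^ 2 := by
        rw [← h3, ← Complex.normSq_eq_norm_sq, Complex.normSq_apply]; ring
      have him : ζ.im ≤ ρ := (Complex.im_le_norm ζ).trans h1
      have hsum : ρ ≤ ζ.im + ζ.re ^ 2 / ρ := by
        have : ζ.im ^ 2 / ρ ≤ ζ.im := by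
          rw [div_le_iff₀ hρ, sq]
          exact mul_le_mul_of_nonneg_left him h2
        have e1 : ζ.re ^ 2 / ρ + ζ.im ^ 2 / ρ = ρ := by
          rw [← add_div, hzr, sq, mul_div_assoc, div_self hρ.ne', mul_one]
        linarith
      have hz := hGD.ZZ_low h2 h1
      have hl := h.level' h2 h1
      have hz0 := hGD.z0
      have hre0 : 0 ≤ ζ.re ^ 2 / ρ := div_nonneg (sq_nonneg _) hρ.le
      have hbig : s + ‖ζ‖ ≤ 2 * ρ := by linarith
      have hn : K * (s + ‖ζ‖) ≤ C * ρ := by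
        have a1 := mul_le_mul_of_nonneg_left hbig hK0.le
        have a2 : 2 * K * ρ ≤ C * ρ := mul_le_mul_of_nonneg_right hCK.le hρ.le
        linarith
      have a3' : 0 ≤ ν₀ * zq.im := by positivity
      have h6 := harc (Pr t₀ ν₀ s ρ η Tq zq e ζ)
        (by
          show ‖((e.1 : ℂ) + RR t₀ ν₀ s ρ η Tq ζ) - e.1‖ ≤ _
          rw [add_sub_cancel_left]
          exact hTn.trans hn)
        (by
          show ‖((e.2 : ℂ) + ZZ ν₀ s ρ η zq ζ) - e.2‖ ≤ _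
          rw [add_sub_cancel_left]
          exact hZn.trans hn)
        (by
          show _ ≤ ((e.2 : ℂ) + ZZ ν₀ s ρ η zq ζ).im
          rw [add_im, ofReal_im, zero_add]
          have a1 : ν * ρ ≤ ν₀ / 4 * ρ := mul_le_mul_of_nonneg_right hνc hρ.le
          have a2 : ν₀ / 4 * ρ ≤ ν₀ / 4 * (ζ.im + ζ.re ^ 2 / ρ) :=
            mul_le_mul_of_nonneg_left hsum (by positivity)
          linarith)
        (by
          show ((e.1 : ℂ) + RR t₀ ν₀ s ρ η Tq ζ).im ≤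
            σ * ((e.2 : ℂ) + ZZ ν₀ s ρ η zq ζ).im - _
          rw [add_im, ofReal_im, zero_add, add_im, ofReal_im, zero_add]
          have a1 : ν * ρ ≤ ν * (ζ.im + ζ.re ^ 2 / ρ) := mul_le_mul_of_nonneg_left hsum hν0.le
          have a2 : ν * ζ.im ≤ c / 4 * ζ.im := mul_le_mul_of_nonneg_right hνd h2
          have a3 : ν * (ζ.re ^ 2 / ρ) ≤ ν₀ * (ζ.re ^ 2 / ρ) :=
            mul_le_mul_of_nonneg_right (by linarith) hre0
          linarith)
      refine h6.trans (Real.exp_le_exp.2 ?_)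
      refine le_trans ?_ h4
      rw [h3]
      have b1 : 1 ≤ ρ / s := (one_le_div hs).2 hsρ1
      have b2 : (ρ / s) ^ α ≤ (max 1 (ρ / s)) ^ α :=
        Real.rpow_le_rpow (by positivity) (le_max_right _ _) hα0.le
      have b3 : (s / ρ) ^ α * (ρ / s) ^ α = 1 := by
        rw [← Real.mul_rpow (by positivity) (by positivity)]
        have : s / ρ * (ρ / s) = 1 := by field_simp
        rw [this, Real.one_rpow]
      have b4 : N ≤ N * (s / ρ) ^ α * (max 1 (ρ / s)) ^ α := by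
        calc N = N * ((s / ρ) ^ α * (ρ / s) ^ α) := by rw [b3, mul_one]
          _ = N * (s / ρ) ^ α * (ρ / s) ^ α := by ring
          _ ≤ _ := mul_le_mul_of_nonneg_left b2 (by positivity)
      have b5 : 0 ≤ 2 * B * (max 1 (ρ / s)) ^ α := by positivity
      have b6 : (2 * B + N * (s / ρ) ^ α) * (max 1 (ρ / s)) ^ α =
        2 * B * (max 1 (ρ / s)) ^ α + N * (s / ρ) ^ α * (max 1 (ρ / s)) ^ α := by ring
      rw [b6]
      linarith
  -- conclusion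
  have hηUD : ((η : ℂ) * I) ∈ UD ρ ∨ ‖(η : ℂ) * I‖ = ρ := by
    rcases hGD.ηρ.lt_or_eq with h1 | h1
    · left
      refine ⟨by rw [hGD.nI]; exact h1, by simpa using hGD.η0⟩
    · right
      rw [hGD.nI]; exact h1
  have hηim : 0 ≤ ((η : ℂ) * I).im := by simpa using hGD.η0.le
  have hval : ‖f (Pr t₀ ν₀ s ρ η Tq zq e (η * I))‖ ≤
      Real.exp (Maj B' s 0 α ((η : ℂ) * I)).re := by
    rcases hηUD with h1 | h1
    · exact halfdisc_max (h.dcc' hCK e hf) (Maj_diffContOnCl hs hα0 ρ)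
        (fun ζ a b c' => hmaj ζ a b c') _ h1
    · exact hmaj _ h1.le hηim (Or.inr h1)
  rw [hPh] at hval
  refine hval.trans (Real.exp_le_exp.2 ?_)
  refine (Maj_re_le hs hB'0 hα0 hα1 hGD.η0.le).trans ?_
  rw [zero_mul, add_zero]
  have h1 : η / s ≤ A := by
    rw [div_le_iff₀ hs]; exact hGD.ηA
  have h2 : B' * (1 + η / s) ≤ B' * (1 + A) := mul_le_mul_of_nonneg_left (by linarith) hB'0
  refine h2.trans ?_
  have hNs : 0 ≤ N * (s / ρ) ^ α := by positivity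
  have h3 : B' * (1 + A) ≤ 2 * (1 + A) / κ * (B + N * (s / ρ) ^ α) := by
    have e1 : B' * (1 + A) = (1 + A) / κ * (2 * B + N * (s / ρ) ^ α) := by rw [hB']; ring
    have e2 : 2 * (1 + A) / κ * (B + N * (s / ρ) ^ α) =
      (1 + A) / κ * (2 * B + 2 * (N * (s / ρ) ^ α)) := by ring
    rw [e1, e2]
    exact mul_le_mul_of_nonneg_left (by linarith) (by positivity)
  exact h3.trans (mul_le_mul_of_nonneg_right hCκ (by linarith))

end Crest.Agent.R102.DiscRay490
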