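import Crest.Agent.R102.BishopDefs_120

/-!
# R102, T1-B, step 5: the TILTED Bishop disc (helper620)

`local_tilt : Local → LocalTilt`: linear corollary of `Bishop120.Local`.  The disc
`T z = σ z + G z`, `W z = z - ε₀ G z` has, on the real side, `Im T = -dep`, `Im W = ε₀ dep`
(`dep = -Im G ≥ 0`) and lies over `(Re T, Re W)`, at distance `≤ dep / lam` from `P`: product cones.
-/

open MeasureTheory Metric Set

namespace Crest.Agent.R102.Tilt620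

open Bishop120

/-- tilted form of `Bishop120.Local` -/
def LocalTilt : Prop :=
  ∀ σ ε₀ c₁ : ℝ, 0 < 1 + ε₀ * σ → 0 < c₁ → ∃ lam : ℝ, 0 < lam ∧
    ∀ P : Set (ℝ × ℝ), IsClosed P → 0 < volume P →
    ∃ p ∈ P, ∃ rho : ℝ, 0 < rho ∧ ∃ κ : ℝ, |κ| ≤ c₁ ∧ ∃ G : ℂ → ℂ,
      ContinuousOn G HC ∧ DifferentiableOn ℂ G HO ∧ G 0 = 0 ∧
      (∀ z ∈ HC, (G z).im ≤ 0) ∧
      HasDerivWithinAt G (κ : ℂ) HC 0 ∧
      ∀ x : ℝ, |x| ≤ rho →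
        lam * infDist (p.1 + σ * x + (G x).re, p.2 + x - ε₀ * (G x).re) P ≤ -(G x).im

/-- the linear change of variables -/
noncomputable def Lm (σ ε₀ : ℝ) (h : 1 + ε₀ * σ ≠ 0) : (ℝ × ℝ) ≃ₗ[ℝ] (ℝ × ℝ) where
  toFun q := (σ * q.2 + q.1, q.2 - ε₀ * q.1)
  invFun q := ((q.1 - σ * q.2) / (1 + ε₀ * σ), (q.2 + ε₀ * q.1) / (1 + ε₀ * σ))
  map_add' a b := by
    ext <;> simp <;> ring
  map_smul' c a := by
    ext <;> simp <;> ring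
  left_inv q := by
    ext
    · simp only; rw [div_eq_iff h]; ring
    · simp only; rw [div_eq_iff h]; ring
  right_inv q := by
    ext
    · simp only; rw [mul_div_assoc', ← add_div, div_eq_iff h]; ring
    · simp only; rw [mul_div_assoc', ← sub_div, div_eq_iff h]; ring

theorem Lm_apply (σ ε₀ : ℝ) (h : 1 + ε₀ * σ ≠ 0) (q : ℝ × ℝ) :
    Lm σ ε₀ h q = (σ * q.2 + q.1, q.2 - ε₀ * q.1) := rfl

theorem Lm_continuous (σ ε₀ : ℝ) (h : 1 + ε₀ * σ ≠ 0) : Continuous (Lm σ ε₀ h) := by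
  have : (Lm σ ε₀ h : ℝ × ℝ → ℝ × ℝ) = fun q => (σ * q.2 + q.1, q.2 - ε₀ * q.1) := rfl
  rw [this]
  fun_prop

theorem Lm_dist (σ ε₀ : ℝ) (h : 1 + ε₀ * σ ≠ 0) (q q' : ℝ × ℝ) :
    dist (Lm σ ε₀ h q) (Lm σ ε₀ h q') ≤ (1 + |σ| + |ε₀|) * dist q q' := by
  rw [Lm_apply, Lm_apply, Prod.dist_eq, Prod.dist_eq]
  simp only [Real.dist_eq]
  set d := max |q.1 - q'.1| |q.2 - q'.2| with hd
  have h1 : |q.1 - q'.1| ≤ d := le_max_left _ _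
  have h2 : |q.2 - q'.2| ≤ d := le_max_right _ _
  have hd0 : 0 ≤ d := le_trans (abs_nonneg _) h1
  apply max_le
  · have e : σ * q.2 + q.1 - (σ * q'.2 + q'.1) = σ * (q.2 - q'.2) + (q.1 - q'.1) := by ring
    rw [e]
    refine (abs_add_le _ _).trans ?_
    rw [abs_mul]
    nlinarith [mul_le_mul_of_nonneg_left h2 (abs_nonneg σ), abs_nonneg ε₀,
      mul_nonneg (abs_nonneg ε₀) hd0]
  · have e : q.2 - ε₀ * q.1 - (q'.2 - ε₀ * q'.1) = (q.2 - q'.2) - ε₀ * (q.1 - q'.1) := by ring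
    rw [e]
    refine (abs_sub _ _).trans ?_
    rw [abs_mul]
    nlinarith [mul_le_mul_of_nonneg_left h1 (abs_nonneg ε₀), abs_nonneg σ,
      mul_nonneg (abs_nonneg σ) hd0]

theorem infDist_Lm (σ ε₀ : ℝ) (h : 1 + ε₀ * σ ≠ 0) {P : Set (ℝ × ℝ)}
    (hne : ((Lm σ ε₀ h) ⁻¹' P).Nonempty) (q : ℝ × ℝ) :
    infDist (Lm σ ε₀ h q) P ≤ (1 + |σ| + |ε₀|) * infDist q ((Lm σ ε₀ h) ⁻¹' P) := by
  have hM : 0 < 1 + |σ| + |ε₀| := by positivity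
  rw [← div_le_iff₀' hM, le_infDist hne]
  intro y hy
  rw [div_le_iff₀' hM]
  exact (infDist_le_dist_of_mem (show Lm σ ε₀ h y ∈ P from hy)).trans (Lm_dist σ ε₀ h q y)

theorem local_tilt (hL : Local) : LocalTilt := by
  intro σ ε₀ c₁ hdet hc₁
  have hne0 : 1 + ε₀ * σ ≠ 0 := ne_of_gt hdet
  have hM : 0 < 1 + |σ| + |ε₀| := by positivity
  obtain ⟨lam0, hlam0, H⟩ := hL 0 c₁ hc₁
  refine ⟨lam0 / (1 + |σ| + |ε₀|), div_pos hlam0 hM, fun P hP hvP => ?_⟩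
  set Q : Set (ℝ × ℝ) := (Lm σ ε₀ hne0) ⁻¹' P with hQ
  have hQc : IsClosed Q := hP.preimage (Lm_continuous σ ε₀ hne0)
  have hdet' : LinearMap.det ((Lm σ ε₀ hne0 : (ℝ × ℝ) ≃ₗ[ℝ] (ℝ × ℝ)) : (ℝ × ℝ) →ₗ[ℝ] (ℝ × ℝ)) ≠ 0 :=
    (LinearEquiv.isUnit_det' (Lm σ ε₀ hne0)).ne_zero
  have hvQ : 0 < volume Q := by
    have := Measure.addHaar_preimage_linearMap (volume : Measure (ℝ × ℝ)) hdet' P
    have e : (((Lm σ ε₀ hne0 : (ℝ × ℝ) ≃ₗ[ℝ] (ℝ × ℝ)) : (ℝ × ℝ) →ₗ[ℝ] (ℝ × ℝ)) ⁻¹' P) = Q := rfl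
    rw [e] at this
    rw [this]
    refine ENNReal.mul_pos ?_ hvP.ne'
    simp only [ne_eq, ENNReal.ofReal_eq_zero, not_le, abs_pos]
    exact inv_ne_zero hdet'
  obtain ⟨p, hp, rho, hrho, κ, hκ, G, hGc, hGd, hG0, hGi, hGk, hG⟩ := H Q hQc hvQ
  refine ⟨Lm σ ε₀ hne0 p, hp, rho, hrho, κ, hκ, G, hGc, hGd, hG0, hGi, hGk, fun x hx => ?_⟩
  have h1 := hG x hx
  have hne : Q.Nonempty := ⟨p, hp⟩
  have h2 := infDist_Lm σ ε₀ hne0 hne (p.1 + 0 * x + (G x).re, p.2 + x)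
  have e : Lm σ ε₀ hne0 (p.1 + 0 * x + (G x).re, p.2 + x) =
      ((Lm σ ε₀ hne0 p).1 + σ * x + (G x).re, (Lm σ ε₀ hne0 p).2 + x - ε₀ * (G x).re) := by
    rw [Lm_apply, Lm_apply]
    ext
    · simp only; ring
    · simp only; ring
  rw [e] at h2
  calc lam0 / (1 + |σ| + |ε₀|) * infDist ((Lm σ ε₀ hne0 p).1 + σ * x + (G x).re,
        (Lm σ ε₀ hne0 p).2 + x - ε₀ * (G x).re) P
      ≤ lam0 / (1 + |σ| + |ε₀|) * ((1 + |σ| + |ε₀|) *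
          infDist (p.1 + 0 * x + (G x).re, p.2 + x) Q) := by gcongr
    _ = lam0 * infDist (p.1 + 0 * x + (G x).re, p.2 + x) Q := by field_simp
    _ ≤ -(G x).im := h1

end Crest.Agent.R102.Tilt620
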