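import Crest.Agent.R102.Disc5_669
import Crest.Agent.R102.Step5Defs_613
import Crest.Agent.R102.Tilt_620

/-!
Row 102, T1-B, step 5 (helper669): the TILTED disc (620 #26995), part A: the correction and the
geometry of the disc `ζ ↦ (τ₁ + σ' ζ + H ζ, τ₂ + ζ - H ζ / 4)`.
-/

set_option autoImplicit false
set_option linter.unusedSectionVars false
set_option linter.unusedVariables false

open Set Filter Topology Metric Complex MeasureTheory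
open scoped Real

noncomputable section

namespace Crest.Agent.R102.DiscT669

open Crest.Agent.R102.Bishop120 (HC HO)
open Crest.Agent.R102.Disc669

/-- III.3 (864): Schottky chain in the sawtooth; `C, S, K` are chosen BEFORE `lam`. -/
def SawChain : Prop :=
  ∀ μ : ℝ, 0 < μ → μ ≤ 1 / 4 → ∃ C S K : ℝ, 1 ≤ C ∧ 1 ≤ S ∧ 1 ≤ K ∧
    ∀ lam : ℝ, 0 < lam → lam ≤ μ / 8 → ∀ (P : Set (ℝ × ℝ)) (ρ₀ : ℝ), 0 < ρ₀ →
    ∀ F : ℂ × ℂ → ℂ, DifferentiableOn ℂ F (S5.Saw P lam ρ₀) →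
      (∀ q ∈ S5.Saw P lam ρ₀, F q ≠ 0 ∧ F q ≠ 1) →
    ∀ (e e' : ℝ × ℝ), e' ∈ P → ∀ (q : ℂ × ℂ) (r : ℝ), 0 < -q.1.im → μ * (-q.1.im) ≤ q.2.im →
      2 * lam * (|q.1.re - e'.1| + ‖q.2 - (e'.2 : ℂ)‖) ≤ -q.1.im →
      |q.1.re - e.1| + ‖q.2 - (e.2 : ℂ)‖ ≤ r → -q.1.im ≤ r → 2 * (K * r) < ρ₀ →
      1 + |Real.log ‖F q‖| ≤
        C * (r / (-q.1.im)) ^ S * (1 + |Real.log ‖F (S5.ray e (K * r))‖|)

/-! ### powers -/

lemma pow_mix {β s r : ℝ} (hβ0 : 0 ≤ β) (hβ1 : β ≤ 1) (hs : 0 ≤ s) (hr : 0 ≤ r) :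
    s ^ β * r ^ (1 - β) ≤ s + r := by
  have h := Real.geom_mean_le_arith_mean2_weighted hβ0 (by linarith : 0 ≤ 1 - β) hs hr (by ring)
  nlinarith

lemma pow_eta {β c2 s η : ℝ} (hβ0 : 0 < β) (hc2 : 0 < c2) (hs : 0 < s) (h : c2 * s ≤ η) :
    c2 ^ β * s ^ β * η ^ (1 - β) ≤ η := by
  have hη : 0 < η := lt_of_lt_of_le (by positivity) h
  rw [← Real.mul_rpow hc2.le hs.le]
  calc (c2 * s) ^ β * η ^ (1 - β) ≤ η ^ β * η ^ (1 - β) :=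
        mul_le_mul_of_nonneg_right (Real.rpow_le_rpow (by positivity) h hβ0.le) (by positivity)
    _ = η := by rw [← Real.rpow_add hη]; simp

def cgb (β : ℝ) : ℝ := Real.cos ((1 - β) * (π / 2))

lemma cgb_pos {β : ℝ} (h0 : 0 < β) (h1 : β ≤ 1 / 2) : 0 < cgb β :=
  Real.cos_pos_of_mem_Ioo ⟨by nlinarith [Real.pi_pos], by nlinarith [Real.pi_pos]⟩

/-! ### the correction -/

/-- amplitude of the power -/
def amp (ν β c2 s : ℝ) : ℝ := ν * (c2 ^ β * s ^ β)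

/-- the correction -/
def HH (ν β c2 s ρ : ℝ) (G : ℂ → ℂ) (ζ : ℂ) : ℂ := G ζ + G1 (amp ν β c2 s) ν ρ (1 - β) ζ

structure HG (ν β c2 s ρ κ : ℝ) (G : ℂ → ℂ) : Prop where
  ν0 : 0 < ν
  β0 : 0 < β
  β1 : β ≤ 1 / 2
  c20 : 0 < c2
  c21 : c2 ≤ 1
  s0 : 0 < s
  ρ0 : 0 < ρ
  κ1 : |κ| ≤ ν
  Gc : ContinuousOn G HC
  Gd : DifferentiableOn ℂ G HO
  Gim : ∀ z ∈ HC, (G z).im ≤ 0
  Gκ : ∀ z ∈ HC, ‖z‖ ≤ ρ → ‖G z - κ * z‖ ≤ ν * ‖z‖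

section HG

variable {ν β c2 s ρ κ : ℝ} {G : ℂ → ℂ}

lemma HG.amp0 (h : HG ν β c2 s ρ κ G) : 0 ≤ amp ν β c2 s := by
  have := h.ν0; have := h.c20; have := h.s0
  unfold amp; positivity

lemma HG.G_norm (h : HG ν β c2 s ρ κ G) {z : ℂ} (hz : z ∈ HC) (hzρ : ‖z‖ ≤ ρ) :
    ‖G z‖ ≤ 2 * ν * ‖z‖ := by
  have h1 := h.Gκ z hz hzρ
  have h2 : ‖G z‖ ≤ ‖G z - κ * z‖ + ‖(κ : ℂ) * z‖ := by
    have := norm_add_le (G z - κ * z) (κ * z)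
    simpa using this
  have h3 : ‖(κ : ℂ) * z‖ ≤ ν * ‖z‖ := by
    rw [norm_mul, Complex.norm_real, Real.norm_eq_abs]
    exact mul_le_mul_of_nonneg_right h.κ1 (norm_nonneg _)
  linarith

lemma HG.quad (h : HG ν β c2 s ρ κ G) {z : ℂ} (hzρ : ‖z‖ ≤ ρ) : ν * ‖z‖ ^ 2 / ρ ≤ ν * ‖z‖ := by
  have h0 := h.ν0
  rw [div_le_iff₀ h.ρ0]
  have h2 : ‖z‖ ^ 2 ≤ ‖z‖ * ρ := by
    rw [pow_two]; exact mul_le_mul_of_nonneg_left hzρ (norm_nonneg _)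
  calc ν * ‖z‖ ^ 2 ≤ ν * (‖z‖ * ρ) := mul_le_mul_of_nonneg_left h2 h0.le
    _ = ν * ‖z‖ * ρ := by ring

lemma HG.H_norm (h : HG ν β c2 s ρ κ G) {z : ℂ} (hz : z ∈ HC) (hzρ : ‖z‖ ≤ ρ) :
    ‖HH ν β c2 s ρ G z‖ ≤ 2 * ν * ‖z‖ + (amp ν β c2 s * ‖z‖ ^ (1 - β) + ν * ‖z‖) := by
  have h1 := h.G_norm hz hzρ
  have h2 := G1_norm (e := amp ν β c2 s) (κ₀ := ν) (ρ := ρ) (γ := 1 - β) (ζ := z) h.amp0 h.ν0.le
    h.ρ0 (by have := h.β1; linarith)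
  have h3 := h.quad hzρ
  refine (norm_add_le _ _).trans ?_
  linarith

lemma HG.H1 (h : HG ν β c2 s ρ κ G) {z : ℂ} (hz : z ∈ HC) (hzρ : ‖z‖ ≤ ρ) :
    ‖HH ν β c2 s ρ G z‖ ≤ ν * s + 4 * ν * ‖z‖ := by
  have h0 := h.H_norm hz hzρ
  have h1 := h.β1
  have h2 := pow_mix h.β0.le (by linarith) h.s0.le (norm_nonneg z)
  have h4 : c2 ^ β ≤ 1 := Real.rpow_le_one h.c20.le h.c21 h.β0.le
  have h5 : 0 ≤ s ^ β * ‖z‖ ^ (1 - β) := mul_nonneg (Real.rpow_nonneg h.s0.le _)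
    (Real.rpow_nonneg (norm_nonneg z) _)
  have h6 := h.ν0
  have h7 : amp ν β c2 s * ‖z‖ ^ (1 - β) ≤ ν * (s + ‖z‖) := by
    unfold amp
    calc ν * (c2 ^ β * s ^ β) * ‖z‖ ^ (1 - β) = ν * (c2 ^ β * (s ^ β * ‖z‖ ^ (1 - β))) := by ring
      _ ≤ ν * (1 * (s ^ β * ‖z‖ ^ (1 - β))) :=
          mul_le_mul_of_nonneg_left (mul_le_mul_of_nonneg_right h4 h5) h6.le
      _ ≤ ν * (s + ‖z‖) := by
          rw [one_mul]; exact mul_le_mul_of_nonneg_left h2 h6.le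
  linarith

lemma mem_HC_I {η : ℝ} (hη : 0 ≤ η) : ((η : ℂ) * I) ∈ HC := by
  change 0 ≤ ((η : ℂ) * I).im
  simpa using hη

lemma norm_I_mul {η : ℝ} (hη : 0 ≤ η) : ‖(η : ℂ) * I‖ = η := by
  rw [norm_mul, norm_I, mul_one, Complex.norm_of_nonneg hη]

lemma HG.H2 (h : HG ν β c2 s ρ κ G) {η : ℝ} (h1 : c2 * s ≤ η) (h2 : η ≤ ρ) :
    ‖HH ν β c2 s ρ G (η * I)‖ ≤ 4 * ν * η := by
  have hη : 0 < η := lt_of_lt_of_le (mul_pos h.c20 h.s0) h1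
  have hn := norm_I_mul hη.le
  have h0 := h.H_norm (mem_HC_I hη.le) (by rw [hn]; exact h2)
  rw [hn] at h0
  have h3 := pow_eta h.β0 h.c20 h.s0 h1
  have h4 : amp ν β c2 s * η ^ (1 - β) ≤ ν * η := by
    unfold amp
    rw [mul_assoc]
    exact mul_le_mul_of_nonneg_left h3 h.ν0.le
  linarith

lemma HG.H3 (h : HG ν β c2 s ρ κ G) {z : ℂ} (hz : z ∈ HC) :
    (HH ν β c2 s ρ G z).im ≤ -(ν * (z.re ^ 2 - z.im ^ 2) / ρ) := by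
  have hb := h.β1
  have hb0 := h.β0
  have h1 := G1_im_le (e := amp ν β c2 s) (κ₀ := ν) (ρ := ρ) (γ := 1 - β) h.amp0
    (by linarith) (by linarith) hz
  have h2 := h.Gim z hz
  have h3 : 0 ≤ amp ν β c2 s * (‖z‖ ^ (1 - β) * Real.cos ((1 - β) * (π / 2))) :=
    mul_nonneg h.amp0 (mul_nonneg (by positivity) (cgb_pos hb0 hb).le)
  unfold HH
  rw [add_im]
  linarith

/-- real side -/
lemma HG.H4 (h : HG ν β c2 s ρ κ G) (x : ℝ) :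
    -(G x).im + cgb β * (amp ν β c2 s * |x| ^ (1 - β)) ≤ -(HH ν β c2 s ρ G x).im := by
  have hb := h.β1
  have hb0 := h.β0
  have h1 := G1_im_le (e := amp ν β c2 s) (κ₀ := ν) (ρ := ρ) (γ := 1 - β) (ζ := (x : ℂ)) h.amp0
    (by linarith) (by linarith) (by simp)
  rw [Complex.norm_real, Real.norm_eq_abs] at h1
  simp only [ofReal_re, ofReal_im] at h1
  have h3 : 0 ≤ ν * (x ^ 2 - 0 ^ 2) / ρ := by
    have := h.ν0; have := h.ρ0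
    have e : x ^ 2 - 0 ^ 2 = x ^ 2 := by ring
    rw [e]; positivity
  unfold HH cgb
  rw [add_im]
  have e2 : Real.cos ((1 - β) * (π / 2)) * (amp ν β c2 s * |x| ^ (1 - β)) =
    amp ν β c2 s * (|x| ^ (1 - β) * Real.cos ((1 - β) * (π / 2))) := by ring
  rw [e2]
  linarith

lemma HG.H5 (h : HG ν β c2 s ρ κ G) (x : ℝ) :
    |(HH ν β c2 s ρ G x).re - (G x).re| ≤ amp ν β c2 s * |x| ^ (1 - β) := by
  have hb := h.β1
  have h1 := G1_re_real (e := amp ν β c2 s) (κ₀ := ν) (ρ := ρ) (γ := 1 - β) h.amp0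
    (by linarith) x
  unfold HH
  rw [add_re]
  have e : (G x).re + (G1 (amp ν β c2 s) ν ρ (1 - β) x).re - (G x).re =
    (G1 (amp ν β c2 s) ν ρ (1 - β) x).re := by ring
  rw [e]
  exact h1

lemma HG.Hc (h : HG ν β c2 s ρ κ G) : ContinuousOn (HH ν β c2 s ρ G) HC := by
  have hb := h.β1
  have h1 := G1_cont (e := amp ν β c2 s) (κ₀ := ν) (ρ := ρ) (γ := 1 - β) (by linarith)
  exact h.Gc.add h1

lemma HG.Hd (h : HG ν β c2 s ρ κ G) : DifferentiableOn ℂ (HH ν β c2 s ρ G) HO := by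
  have h1 := G1_diff (e := amp ν β c2 s) (κ₀ := ν) (ρ := ρ) (γ := 1 - β)
  exact h.Gd.add h1

end HG

/-! ### the disc -/

structure Geo (σ c ν A c2 s ρ η : ℝ) (H : ℂ → ℂ) (Tq zq : ℂ) : Prop where
  σ0 : 0 ≤ σ
  c0 : 0 < c
  c1 : c ≤ 1
  ν0 : 0 < ν
  νc : 64 * (ν * (σ + 1)) = c
  A1 : 1 ≤ A
  c20 : 0 < c2
  c21 : c2 ≤ 1
  s0 : 0 < s
  ρ0 : 0 < ρ
  As : A * s < ρ
  Tq1 : ‖Tq‖ ≤ A * s
  zq1 : ‖zq‖ ≤ A * s
  zq2 : c2 * s ≤ zq.im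
  Tq2 : Tq.im ≤ (σ - c) * zq.im
  ηe : η = (1 - 2 * ν) * zq.im
  H1 : ∀ ζ ∈ HC, ‖ζ‖ ≤ ρ → ‖H ζ‖ ≤ ν * s + 4 * ν * ‖ζ‖
  H2 : ‖H (η * I)‖ ≤ 4 * ν * η
  H3 : ∀ ζ ∈ HC, (H ζ).im ≤ -(ν * (ζ.re ^ 2 - ζ.im ^ 2) / ρ)
  Hc : ContinuousOn H HC
  Hd : DifferentiableOn ℂ H HO

def t1 (σ c η : ℝ) (H : ℂ → ℂ) (Tq : ℂ) : ℂ := Tq - ((σ - c / 2 : ℝ) : ℂ) * (η * I) - H (η * I)

def t2 (η : ℝ) (H : ℂ → ℂ) (zq : ℂ) : ℂ := zq - η * I + ((1 / 4 : ℝ) : ℂ) * H (η * I)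

def TT (σ c η : ℝ) (H : ℂ → ℂ) (Tq ζ : ℂ) : ℂ := t1 σ c η H Tq + ((σ - c / 2 : ℝ) : ℂ) * ζ + H ζ

def ZZ (η : ℝ) (H : ℂ → ℂ) (zq ζ : ℂ) : ℂ := t2 η H zq + ζ - ((1 / 4 : ℝ) : ℂ) * H ζ

section Geo

variable {σ c ν A c2 s ρ η : ℝ} {H : ℂ → ℂ} {Tq zq : ℂ}

lemma TT_at : TT σ c η H Tq (η * I) = Tq := by unfold TT t1; ring

lemma ZZ_at : ZZ η H zq (η * I) = zq := by unfold ZZ t2; ring

lemma TT_im (ζ : ℂ) : (TT σ c η H Tq ζ).im =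
    (t1 σ c η H Tq).im + (σ - c / 2) * ζ.im + (H ζ).im := by
  unfold TT
  rw [add_im, add_im, Complex.im_ofReal_mul]

lemma TT_re (ζ : ℂ) : (TT σ c η H Tq ζ).re =
    (t1 σ c η H Tq).re + (σ - c / 2) * ζ.re + (H ζ).re := by
  unfold TT
  rw [add_re, add_re, Complex.re_ofReal_mul]

lemma ZZ_im (ζ : ℂ) : (ZZ η H zq ζ).im = (t2 η H zq).im + ζ.im - 1 / 4 * (H ζ).im := by
  unfold ZZ
  rw [sub_im, add_im, Complex.im_ofReal_mul]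

lemma ZZ_re (ζ : ℂ) : (ZZ η H zq ζ).re = (t2 η H zq).re + ζ.re - 1 / 4 * (H ζ).re := by
  unfold ZZ
  rw [sub_re, add_re, Complex.re_ofReal_mul]

lemma Geo.ν64 (h : Geo σ c ν A c2 s ρ η H Tq zq) : ν ≤ 1 / 64 := by
  have h1 := h.νc; have h2 := h.c1; have h3 := h.ν0; have h4 := h.σ0
  nlinarith [mul_nonneg h3.le h4]

lemma Geo.zq0 (h : Geo σ c ν A c2 s ρ η H Tq zq) : 0 < zq.im :=
  lt_of_lt_of_le (mul_pos h.c20 h.s0) h.zq2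

lemma Geo.zqA (h : Geo σ c ν A c2 s ρ η H Tq zq) : zq.im ≤ A * s :=
  ((le_abs_self _).trans (Complex.abs_im_le_norm _)).trans h.zq1

lemma Geo.η0 (h : Geo σ c ν A c2 s ρ η H Tq zq) : 0 < η := by
  rw [h.ηe]
  exact mul_pos (by have := h.ν64; linarith) h.zq0

lemma Geo.ηz (h : Geo σ c ν A c2 s ρ η H Tq zq) : η ≤ zq.im := by
  rw [h.ηe]
  nlinarith [mul_pos h.ν0 h.zq0]

lemma Geo.ηA (h : Geo σ c ν A c2 s ρ η H Tq zq) : η ≤ A * s := h.ηz.trans h.zqA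

lemma Geo.ηρ (h : Geo σ c ν A c2 s ρ η H Tq zq) : η < ρ := h.ηA.trans_lt h.As

lemma Geo.Hηim (h : Geo σ c ν A c2 s ρ η H Tq zq) : |(H (η * I)).im| ≤ 4 * ν * η :=
  (Complex.abs_im_le_norm _).trans h.H2

lemma Geo.t1_im (h : Geo σ c ν A c2 s ρ η H Tq zq) : (t1 σ c η H Tq).im ≤ -(c / 4 * zq.im) := by
  have h1 := h.Hηim
  have h2 := (abs_le.1 h1).1
  have h3 := h.Tq2
  have e : (t1 σ c η H Tq).im = Tq.im - (σ - c / 2) * η - (H (η * I)).im := by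
    unfold t1
    rw [sub_im, sub_im, Complex.im_ofReal_mul]
    simp
  rw [e]
  have h4 := h.ηe
  have h5 := h.zq0
  have h6 := h.νc
  have h7 := h.ηz
  have h8 := h.ν0
  have h9 := h.σ0
  have h10 := h.c0
  -- `(σ - c/2) η = (σ - c/2) zq.im - 2 ν (σ - c/2) zq.im`
  have e1 : (σ - c / 2) * η = (σ - c / 2) * zq.im - 2 * (ν * σ) * zq.im + ν * c * zq.im := by
    rw [h4]; ring
  have h11 : 4 * ν * η ≤ 4 * ν * zq.im := mul_le_mul_of_nonneg_left h7 (by positivity)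
  have h12 : 0 ≤ ν * c * zq.im := by positivity
  have h13 : 2 * (ν * σ) * zq.im + 4 * ν * zq.im ≤ c / 16 * zq.im := by
    have h14 : 2 * (ν * σ) + 4 * ν ≤ c / 16 := by
      nlinarith [mul_nonneg h8.le h9]
    calc 2 * (ν * σ) * zq.im + 4 * ν * zq.im = (2 * (ν * σ) + 4 * ν) * zq.im := by ring
      _ ≤ _ := mul_le_mul_of_nonneg_right h14 h5.le
  have h15 : 0 < c * zq.im := by positivity
  rw [e1]
  linarith

lemma Geo.t2_im (h : Geo σ c ν A c2 s ρ η H Tq zq) : ν * zq.im ≤ (t2 η H zq).im := by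
  have h1 := h.Hηim
  have h2 := (abs_le.1 h1).1
  have e : (t2 η H zq).im = zq.im - η + 1 / 4 * (H (η * I)).im := by
    unfold t2
    rw [add_im, sub_im, Complex.im_ofReal_mul]
    simp
  rw [e]
  have h4 := h.ηe
  have h7 := h.ηz
  have h8 := h.ν0
  have h11 : 4 * ν * η ≤ 4 * ν * zq.im := mul_le_mul_of_nonneg_left h7 (by positivity)
  have e1 : zq.im - η = 2 * (ν * zq.im) := by rw [h4]; ring
  rw [e1]
  linarith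

lemma Geo.t1_norm (h : Geo σ c ν A c2 s ρ η H Tq zq) : ‖t1 σ c η H Tq‖ ≤ (σ + 2) * (A * s) := by
  have h1 := h.H2
  have h2 := h.Tq1
  have h3 := h.ηA
  have h4 := h.η0
  have h5 := h.ν64
  have h6 := h.σ0; have h7 := h.c0; have h8 := h.c1
  have h9 : ‖((σ - c / 2 : ℝ) : ℂ) * (η * I)‖ ≤ (σ + 1 / 2) * (A * s) := by
    rw [norm_mul, norm_I_mul h4.le, Complex.norm_real, Real.norm_eq_abs]
    refine mul_le_mul ?_ h3 h4.le (by linarith)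
    rw [abs_le]; constructor <;> linarith
  have h10 : 4 * ν * η ≤ 1 / 2 * (A * s) := by
    have := mul_le_mul (by linarith : 4 * ν ≤ 1 / 2) h3 h4.le (by norm_num)
    linarith
  unfold t1
  have n1 := norm_sub_le (Tq - ((σ - c / 2 : ℝ) : ℂ) * (η * I)) (H (η * I))
  have n2 := norm_sub_le Tq (((σ - c / 2 : ℝ) : ℂ) * (η * I))
  linarith

lemma Geo.t2_norm (h : Geo σ c ν A c2 s ρ η H Tq zq) : ‖t2 η H zq‖ ≤ 3 * (A * s) := by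
  have h1 := h.H2
  have h2 := h.zq1
  have h3 := h.ηA
  have h4 := h.η0
  have h5 := h.ν64
  have h10 : 4 * ν * η ≤ 1 / 2 * (A * s) := by
    have := mul_le_mul (by linarith : 4 * ν ≤ 1 / 2) h3 h4.le (by norm_num)
    linarith
  have hAs : 0 ≤ A * s := h4.le.trans h3
  unfold t2
  have n1 := norm_add_le (zq - η * I) (((1 / 4 : ℝ) : ℂ) * H (η * I))
  have n2 := norm_sub_le zq (η * I)
  rw [norm_I_mul h4.le] at n2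
  rw [norm_mul (((1 / 4 : ℝ) : ℂ)), Complex.norm_of_nonneg (by norm_num : (0 : ℝ) ≤ 1 / 4)] at n1
  linarith

lemma Geo.norms (h : Geo σ c ν A c2 s ρ η H Tq zq) {ζ : ℂ} (hζ : ζ ∈ HC) (hζρ : ‖ζ‖ ≤ ρ) :
    ‖TT σ c η H Tq ζ‖ + ‖ZZ η H zq ζ‖ ≤ (σ + 7) * A * (s + ‖ζ‖) := by
  have h1 := h.H1 ζ hζ hζρ
  have h2 := h.t1_norm
  have h3 := h.t2_norm
  have h5 := h.ν64
  have h6 := h.σ0; have h7 := h.c0; have h8 := h.c1
  have hA := h.A1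
  have hs := h.s0
  have hν := h.ν0
  have hn := norm_nonneg ζ
  have h9 : ‖((σ - c / 2 : ℝ) : ℂ) * ζ‖ ≤ (σ + 1 / 2) * ‖ζ‖ := by
    rw [norm_mul, Complex.norm_real, Real.norm_eq_abs]
    refine mul_le_mul_of_nonneg_right ?_ hn
    rw [abs_le]; constructor <;> linarith
  have h10 : ν * s ≤ A * s := mul_le_mul_of_nonneg_right (by linarith) hs.le
  have h11 : 4 * ν * ‖ζ‖ ≤ 1 / 16 * ‖ζ‖ := mul_le_mul_of_nonneg_right (by linarith) hn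
  have n1 : ‖TT σ c η H Tq ζ‖ ≤ ‖t1 σ c η H Tq‖ + ‖((σ - c / 2 : ℝ) : ℂ) * ζ‖ + ‖H ζ‖ := by
    unfold TT
    exact (norm_add_le _ _).trans (add_le_add (norm_add_le _ _) le_rfl)
  have n2 : ‖ZZ η H zq ζ‖ ≤ ‖t2 η H zq‖ + ‖ζ‖ + 1 / 4 * ‖H ζ‖ := by
    unfold ZZ
    refine (norm_sub_le _ _).trans (add_le_add (norm_add_le _ _) ?_)
    rw [norm_mul, Complex.norm_of_nonneg (by norm_num : (0 : ℝ) ≤ 1 / 4)]
  have h12 : (σ + 7) * ‖ζ‖ ≤ (σ + 7) * A * ‖ζ‖ := by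
    refine mul_le_mul_of_nonneg_right ?_ hn
    nlinarith
  have h13 : (σ + 7) * A * (s + ‖ζ‖) = (σ + 7) * (A * s) + (σ + 7) * A * ‖ζ‖ := by ring
  rw [h13]
  have h14 : 0 ≤ A * s := by positivity
  linarith

/-- `y² / ρ ≤ y` -/
lemma Geo.sq_le (h : Geo σ c ν A c2 s ρ η H Tq zq) {ζ : ℂ} (hζ : ζ ∈ HC) (hζρ : ‖ζ‖ ≤ ρ) :
    -(ν * ζ.im) ≤ ν * (ζ.re ^ 2 - ζ.im ^ 2) / ρ := by
  have hν := h.ν0; have hρ := h.ρ0
  have hz : 0 ≤ ζ.im := hζ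
  have h1 : ζ.im ≤ ρ := ((le_abs_self _).trans (Complex.abs_im_le_norm _)).trans hζρ
  rw [le_div_iff₀ hρ]
  have h2 : ν * (ζ.im * ζ.im) ≤ ν * (ζ.im * ρ) :=
    mul_le_mul_of_nonneg_left (mul_le_mul_of_nonneg_left h1 hz) hν.le
  have h3 : 0 ≤ ν * ζ.re ^ 2 := by positivity
  nlinarith

lemma Geo.arc_le (h : Geo σ c ν A c2 s ρ η H Tq zq) {ζ : ℂ} (hζ : ζ ∈ HC) (hζρ : ‖ζ‖ = ρ) :
    ν * ρ - 2 * (ν * ζ.im) ≤ ν * (ζ.re ^ 2 - ζ.im ^ 2) / ρ := by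
  have hν := h.ν0; have hρ := h.ρ0
  have hz : 0 ≤ ζ.im := hζ
  have h1 : ζ.im ≤ ρ := by
    rw [← hζρ]; exact (le_abs_self _).trans (Complex.abs_im_le_norm _)
  have h0 : ζ.re ^ 2 + ζ.im ^ 2 = ρ ^ 2 := by
    rw [← hζρ, ← Complex.normSq_eq_norm_sq, Complex.normSq_apply]; ring
  rw [le_div_iff₀ hρ]
  have h2 : ν * (ζ.im * ζ.im) ≤ ν * (ζ.im * ρ) :=
    mul_le_mul_of_nonneg_left (mul_le_mul_of_nonneg_left h1 hz) hν.le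
  have h4 : ζ.re ^ 2 - ζ.im ^ 2 = ρ ^ 2 - 2 * (ζ.im * ζ.im) := by linarith
  rw [h4]
  nlinarith

lemma Geo.ZZ_pos (h : Geo σ c ν A c2 s ρ η H Tq zq) {ζ : ℂ} (hζ : ζ ∈ HC) (hζρ : ‖ζ‖ ≤ ρ) :
    0 < (ZZ η H zq ζ).im := by
  have h1 := h.t2_im
  have h2 := h.H3 ζ hζ
  have h3 := h.sq_le hζ hζρ
  have h4 := h.ν64
  have h5 : 0 < ν * zq.im := mul_pos h.ν0 h.zq0
  have hz : 0 ≤ ζ.im := hζ
  have h6 : ν * ζ.im ≤ 1 / 64 * ζ.im := mul_le_mul_of_nonneg_right h4 hz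
  rw [ZZ_im]
  linarith

lemma Geo.level (h : Geo σ c ν A c2 s ρ η H Tq zq) {ζ : ℂ} (hζ : ζ ∈ HC) (hζρ : ‖ζ‖ ≤ ρ) :
    (TT σ c η H Tq ζ).im < σ * (ZZ η H zq ζ).im := by
  have h1 := h.t2_im
  have h1' := h.t1_im
  have h2 := h.H3 ζ hζ
  have h3 := h.sq_le hζ hζρ
  have hν := h.ν0
  have h5 : 0 < ν * zq.im := mul_pos h.ν0 h.zq0
  have hz : 0 ≤ ζ.im := hζ
  have hσ := h.σ0
  have hc := h.c0
  have hcz : 0 < c * zq.im := mul_pos hc h.zq0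
  have h6 := h.νc
  rw [ZZ_im, TT_im]
  -- `(1 + σ/4) Im H ≤ (1 + σ/4) ν y ≤ c/64 y`
  have h7 : (1 + σ / 4) * (H ζ).im ≤ (1 + σ / 4) * (ν * ζ.im) :=
    mul_le_mul_of_nonneg_left (by linarith) (by linarith)
  have h8 : (1 + σ / 4) * (ν * ζ.im) ≤ c / 64 * ζ.im := by
    have h9 : (1 + σ / 4) * ν ≤ c / 64 := by nlinarith [mul_nonneg hν.le hσ]
    calc (1 + σ / 4) * (ν * ζ.im) = ((1 + σ / 4) * ν) * ζ.im := by ring
      _ ≤ _ := mul_le_mul_of_nonneg_right h9 hz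
  have h10 : 0 ≤ σ * (t2 η H zq).im := mul_nonneg hσ (by linarith)
  have h11 : 0 ≤ c * ζ.im := by positivity
  nlinarith

lemma Geo.ZZ_arc (h : Geo σ c ν A c2 s ρ η H Tq zq) {ζ : ℂ} (hζ : ζ ∈ HC) (hζρ : ‖ζ‖ = ρ) :
    ν / 4 * ρ ≤ (ZZ η H zq ζ).im := by
  have h1 := h.t2_im
  have h2 := h.H3 ζ hζ
  have h3 := h.arc_le hζ hζρ
  have h4 := h.ν64
  have h5 : 0 < ν * zq.im := mul_pos h.ν0 h.zq0
  have hz : 0 ≤ ζ.im := hζ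
  have h6 : ν * ζ.im ≤ 1 / 64 * ζ.im := mul_le_mul_of_nonneg_right h4 hz
  rw [ZZ_im]
  linarith

lemma Geo.level_arc (h : Geo σ c ν A c2 s ρ η H Tq zq) {ζ : ℂ} (hζ : ζ ∈ HC) (hζρ : ‖ζ‖ = ρ) :
    (TT σ c η H Tq ζ).im + ν * ρ ≤ σ * (ZZ η H zq ζ).im := by
  have h1 := h.t2_im
  have h1' := h.t1_im
  have h2 := h.H3 ζ hζ
  have h3 := h.arc_le hζ hζρ
  have hν := h.ν0
  have hρ := h.ρ0
  have h5 : 0 < ν * zq.im := mul_pos h.ν0 h.zq0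
  have hz : 0 ≤ ζ.im := hζ
  have hσ := h.σ0
  have hc := h.c0
  have hcz : 0 < c * zq.im := mul_pos hc h.zq0
  have h6 := h.νc
  rw [ZZ_im, TT_im]
  have h7 : (1 + σ / 4) * (H ζ).im ≤ (1 + σ / 4) * (2 * (ν * ζ.im) - ν * ρ) :=
    mul_le_mul_of_nonneg_left (by linarith) (by linarith)
  have h8 : (1 + σ / 4) * (2 * (ν * ζ.im) - ν * ρ) ≤ c / 32 * ζ.im - ν * ρ := by
    have h9 : (1 + σ / 4) * ν ≤ c / 64 := by nlinarith [mul_nonneg hν.le hσ]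
    have h12 : ((1 + σ / 4) * ν) * ζ.im ≤ c / 64 * ζ.im := mul_le_mul_of_nonneg_right h9 hz
    have h13 : 0 ≤ σ * (ν * ρ) := by positivity
    nlinarith
  have h10 : 0 ≤ σ * (t2 η H zq).im := mul_nonneg hσ (by linarith)
  have h11 : 0 ≤ c * ζ.im := by positivity
  nlinarith

lemma Geo.TT_cont (h : Geo σ c ν A c2 s ρ η H Tq zq) : ContinuousOn (TT σ c η H Tq) HC := by
  unfold TT
  have := h.Hc
  fun_prop

lemma Geo.ZZ_cont (h : Geo σ c ν A c2 s ρ η H Tq zq) : ContinuousOn (ZZ η H zq) HC := by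
  unfold ZZ
  have := h.Hc
  fun_prop

lemma Geo.TT_diff (h : Geo σ c ν A c2 s ρ η H Tq zq) : DifferentiableOn ℂ (TT σ c η H Tq) HO := by
  unfold TT
  have := h.Hd
  fun_prop

lemma Geo.ZZ_diff (h : Geo σ c ν A c2 s ρ η H Tq zq) : DifferentiableOn ℂ (ZZ η H zq) HO := by
  unfold ZZ
  have := h.Hd
  fun_prop

/-- the depth on the real side -/
lemma Geo.depth (h : Geo σ c ν A c2 s ρ η H Tq zq) (x : ℝ) :
    c * c2 / 4 * s - (H x).im ≤ -(TT σ c η H Tq x).im := by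
  have h1 := h.t1_im
  have h2 := h.zq2
  have h3 := h.c0
  rw [TT_im]
  simp only [ofReal_im, mul_zero]
  have h4 : c / 4 * (c2 * s) ≤ c / 4 * zq.im := mul_le_mul_of_nonneg_left h2 (by positivity)
  linarith

/-- `Im w` on the real side dominates the depth -/
lemma Geo.mu (h : Geo σ c ν A c2 s ρ η H Tq zq) {μ : ℝ} (hμ0 : 0 ≤ μ) (hμ1 : μ ≤ 1 / 4)
    (hμ2 : μ * ((σ + 2) * A) ≤ ν * c2) (x : ℝ) :
    μ * (-(TT σ c η H Tq x).im) ≤ (ZZ η H zq x).im := by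
  have h1 := h.t1_norm
  have h1' := (abs_le.1 ((Complex.abs_im_le_norm (t1 σ c η H Tq)).trans h1)).1
  have h2 := h.t2_im
  have h3 := h.zq2
  have h4 := h.H3 x (by change (0 : ℝ) ≤ (x : ℂ).im; simp)
  have h5 : (H x).im ≤ 0 := by
    refine h4.trans ?_
    have := h.ν0; have := h.ρ0
    simp only [ofReal_re, ofReal_im]
    have e : x ^ 2 - 0 ^ 2 = x ^ 2 := by ring
    rw [e]
    have : 0 ≤ ν * x ^ 2 / ρ := by positivity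
    linarith
  rw [TT_im, ZZ_im]
  simp only [ofReal_im, mul_zero]
  have h6 : μ * (-(H x).im) ≤ 1 / 4 * (-(H x).im) := mul_le_mul_of_nonneg_right hμ1 (by linarith)
  have h7 : μ * (-(t1 σ c η H Tq).im) ≤ μ * ((σ + 2) * (A * s)) :=
    mul_le_mul_of_nonneg_left (by linarith) hμ0
  have h8 : μ * ((σ + 2) * (A * s)) ≤ ν * c2 * s := by
    calc μ * ((σ + 2) * (A * s)) = (μ * ((σ + 2) * A)) * s := by ring
      _ ≤ _ := mul_le_mul_of_nonneg_right hμ2 h.s0.le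
  have h9 : ν * (c2 * s) ≤ ν * zq.im := mul_le_mul_of_nonneg_left h3 h.ν0.le
  linarith

end Geo

end Crest.Agent.R102.DiscT669
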