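import Crest.Agent.R102.DiscTA_669

/-!
Row 102, T1-B, step 5 (helper669): the TILTED disc, part B: numerics of the real side, the estimate
on one disc.
-/

set_option autoImplicit false
set_option linter.unusedSectionVars false
set_option linter.unusedVariables false

open Set Filter Topology Metric Complex MeasureTheory
open scoped Real

noncomputable section

namespace Crest.Agent.R102.DiscT669

open Crest.Agent.R102.Bishop120 (HC HO)
open Crest.Agent.R102.Disc669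

/-- ratio of the horizontal distance and the depth -/
lemma ratio_bound {C1 a b β s y D : ℝ} (hC1 : 0 < C1) (ha : 0 < a) (hb : 0 < b) (hβ0 : 0 < β)
    (hβ1 : β ≤ 1 / 2) (hs : 0 < s) (hy : 0 ≤ y) (hD : a * s + b * (s ^ β * y ^ (1 - β)) ≤ D) :
    C1 * (s + y) / D ≤ (2 * C1 / a + 2 * C1 / b) * (max 1 (y / s)) ^ β := by
  have hD0 : 0 < D := lt_of_lt_of_le (by positivity) hD
  rw [div_le_iff₀ hD0]
  rcases le_or_gt y s with h | h
  · have h1 : max 1 (y / s) = 1 := max_eq_left ((div_le_one hs).2 h)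
    rw [h1, Real.one_rpow, mul_one]
    have h2 : a * s ≤ D := le_trans (le_add_of_nonneg_right (by positivity)) hD
    calc C1 * (s + y) ≤ C1 * (2 * s) := mul_le_mul_of_nonneg_left (by linarith) hC1.le
      _ = 2 * C1 / a * (a * s) := by field_simp
      _ ≤ (2 * C1 / a + 2 * C1 / b) * (a * s) :=
          mul_le_mul_of_nonneg_right (le_add_of_nonneg_right (by positivity)) (by positivity)
      _ ≤ _ := mul_le_mul_of_nonneg_left h2 (by positivity)
  · have hy0 : 0 < y := hs.trans h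
    have h1 : max 1 (y / s) = y / s := max_eq_right ((one_le_div hs).2 h.le)
    rw [h1]
    have h2 : b * (s ^ β * y ^ (1 - β)) ≤ D := le_trans (le_add_of_nonneg_left (by positivity)) hD
    have h3 : (y / s) ^ β * (s ^ β * y ^ (1 - β)) = y := by
      rw [Real.div_rpow hy hs.le]
      have h4 : y ^ β * y ^ (1 - β) = y := by
        rw [← Real.rpow_add hy0]; simp
      have h5 : 0 < s ^ β := by positivity
      field_simp
      exact h4
    calc C1 * (s + y) ≤ C1 * (2 * y) := mul_le_mul_of_nonneg_left (by linarith) hC1.le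
      _ = 2 * C1 / b * (b * ((y / s) ^ β * (s ^ β * y ^ (1 - β)))) := by rw [h3]; field_simp
      _ ≤ (2 * C1 / a + 2 * C1 / b) * (b * ((y / s) ^ β * (s ^ β * y ^ (1 - β)))) :=
          mul_le_mul_of_nonneg_right (le_add_of_nonneg_left (by positivity)) (by positivity)
      _ = (2 * C1 / a + 2 * C1 / b) * (y / s) ^ β * (b * (s ^ β * y ^ (1 - β))) := by ring
      _ ≤ _ := mul_le_mul_of_nonneg_left h2 (by positivity)

lemma num_bound {C C1 a b β s y D S K : ℝ} (hC : 1 ≤ C) (hC1 : 0 < C1) (ha : 0 < a)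
    (hb : 0 < b) (hβ0 : 0 < β) (hβ1 : β ≤ 1 / 2) (hs : 0 < s) (hy : 0 ≤ y) (hS : 1 ≤ S)
    (hβS : β * S ≤ 1 / 4) (hK : 1 ≤ K) (hD : a * s + b * (s ^ β * y ^ (1 - β)) ≤ D) :
    C * (C1 * (s + y) / D) ^ S * ((K * (C1 * (s + y))) / s) ^ (1 / 2 : ℝ) ≤
      C * (2 * C1 / a + 2 * C1 / b) ^ S * (2 * K * C1) ^ (1 / 2 : ℝ) *
        (max 1 (y / s)) ^ (3 / 4 : ℝ) := by
  have hD0 : 0 < D := lt_of_lt_of_le (by positivity) hD
  have h1 := ratio_bound hC1 ha hb hβ0 hβ1 hs hy hD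
  set X := max 1 (y / s) with hX
  have hX1 : 1 ≤ X := le_max_left _ _
  have hX0 : 0 < X := by linarith
  set C2 := 2 * C1 / a + 2 * C1 / b with hC2
  have hC20 : 0 < C2 := by positivity
  have h2 : (C1 * (s + y) / D) ^ S ≤ C2 ^ S * X ^ (1 / 4 : ℝ) := by
    calc (C1 * (s + y) / D) ^ S ≤ (C2 * X ^ β) ^ S :=
          Real.rpow_le_rpow (by positivity) h1 (by linarith)
      _ = C2 ^ S * X ^ (β * S) := by
          rw [Real.mul_rpow hC20.le (by positivity), ← Real.rpow_mul hX0.le]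
      _ ≤ C2 ^ S * X ^ (1 / 4 : ℝ) :=
          mul_le_mul_of_nonneg_left (Real.rpow_le_rpow_of_exponent_le hX1 hβS) (by positivity)
  have h3 : ((K * (C1 * (s + y))) / s) ^ (1 / 2 : ℝ) ≤
      (2 * K * C1) ^ (1 / 2 : ℝ) * X ^ (1 / 2 : ℝ) := by
    rw [← Real.mul_rpow (by positivity) hX0.le]
    refine Real.rpow_le_rpow (by positivity) ?_ (by norm_num)
    rw [div_le_iff₀ hs]
    have h4 : y ≤ X * s := by
      have := le_max_right 1 (y / s)
      rw [← hX, div_le_iff₀ hs] at this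
      exact this
    have h5 : s ≤ X * s := le_mul_of_one_le_left hs.le hX1
    calc K * (C1 * (s + y)) ≤ K * (C1 * (X * s + X * s)) := by
          refine mul_le_mul_of_nonneg_left (mul_le_mul_of_nonneg_left (by linarith) hC1.le)
            (by linarith)
      _ = 2 * K * C1 * X * s := by ring
  have h6 : X ^ (1 / 4 : ℝ) * X ^ (1 / 2 : ℝ) = X ^ (3 / 4 : ℝ) := by
    rw [← Real.rpow_add hX0]; norm_num
  calc C * (C1 * (s + y) / D) ^ S * ((K * (C1 * (s + y))) / s) ^ (1 / 2 : ℝ)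
      ≤ C * (C2 ^ S * X ^ (1 / 4 : ℝ)) * ((2 * K * C1) ^ (1 / 2 : ℝ) * X ^ (1 / 2 : ℝ)) := by
        refine mul_le_mul (mul_le_mul_of_nonneg_left h2 (by linarith)) h3 (by positivity)
          (by positivity)
    _ = C * C2 ^ S * (2 * K * C1) ^ (1 / 2 : ℝ) * (X ^ (1 / 4 : ℝ) * X ^ (1 / 2 : ℝ)) := by ring
    _ = _ := by rw [h6]

/-- the cone condition on the real side -/
lemma Geo.cone {σ c ν A c2 s ρ η β κ : ℝ} {G : ℂ → ℂ} {Tq zq : ℂ}
    (h : Geo σ c ν A c2 s ρ η (HH ν β (c2 / 2) s ρ G) Tq zq) (hg : HG ν β (c2 / 2) s ρ κ G)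
    {lam lamB : ℝ} {P : Set (ℝ × ℝ)} {e : ℝ × ℝ} (hP : IsClosed P) (he : e ∈ P)
    (hlamB : 0 < lamB) (hlam0 : 0 < lam)
    (hlam : 2 * lam * (4 * ((σ + 9) * A) / (c * c2) + 2 / cgb β + 2 / lamB + 1) ≤ 1)
    {x : ℝ} (hG : lamB * infDist (e.1 + (σ - c / 2) * x + (G x).re, e.2 + x - 1 / 4 * (G x).re) P ≤
      -(G x).im) :
    ∃ e' ∈ P, 2 * lam * (|e.1 + (TT σ c η (HH ν β (c2 / 2) s ρ G) Tq x).re - e'.1| +
      ‖(e.2 : ℂ) + ZZ η (HH ν β (c2 / 2) s ρ G) zq x - (e'.2 : ℂ)‖) ≤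
        -(TT σ c η (HH ν β (c2 / 2) s ρ G) Tq x).im := by
  obtain ⟨e', he', hd⟩ := hP.exists_infDist_eq_dist ⟨e, he⟩
    (e.1 + (σ - c / 2) * x + (G x).re, e.2 + x - 1 / 4 * (G x).re)
  refine ⟨e', he', ?_⟩
  rw [hd, Prod.dist_eq, Real.dist_eq, Real.dist_eq] at hG
  have hcg := cgb_pos hg.β0 hg.β1
  have hH4 := hg.H4 x
  have hH5 := hg.H5 x
  have hdep := h.depth x
  have hn1 := h.t1_norm
  have hn2 := h.t2_norm
  have r1 := (Complex.abs_re_le_norm _).trans hn1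
  have r2 := (Complex.abs_re_le_norm _).trans hn2
  have r3 := (le_abs_self _).trans ((Complex.abs_im_le_norm _).trans hn2)
  have i1 : (t1 σ c η (HH ν β (c2 / 2) s ρ G) Tq).im ≤ 0 := by
    have := h.t1_im
    have : 0 ≤ c / 4 * zq.im := by have := h.c0; have := h.zq0; positivity
    linarith
  set T1 := t1 σ c η (HH ν β (c2 / 2) s ρ G) Tq with hT1
  set T2 := t2 η (HH ν β (c2 / 2) s ρ G) zq with hT2
  set Hx := HH ν β (c2 / 2) s ρ G x with hHx
  have eT : (TT σ c η (HH ν β (c2 / 2) s ρ G) Tq x).im = T1.im + Hx.im := by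
    rw [TT_im, hT1, hHx]; simp
  have eTr : (TT σ c η (HH ν β (c2 / 2) s ρ G) Tq x).re = T1.re + (σ - c / 2) * x + Hx.re := by
    rw [TT_re, hT1, hHx]; simp
  have eZ : (ZZ η (HH ν β (c2 / 2) s ρ G) zq x).im = T2.im - 1 / 4 * Hx.im := by
    rw [ZZ_im, hT2, hHx]; simp
  have eZr : (ZZ η (HH ν β (c2 / 2) s ρ G) zq x).re = T2.re + x - 1 / 4 * Hx.re := by
    rw [ZZ_re, hT2, hHx]; simp
  set D := -(TT σ c η (HH ν β (c2 / 2) s ρ G) Tq x).im with hD
  set X := amp ν β (c2 / 2) s * |x| ^ (1 - β) with hX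
  set g := -(G x).im with hg'
  have hX0 : 0 ≤ X := mul_nonneg hg.amp0 (by positivity)
  have hg0 : 0 ≤ g := by
    have := hg.Gim x (by change (0 : ℝ) ≤ (x : ℂ).im; simp)
    rw [hg']; linarith
  have hc := h.c0; have hc2 := h.c20; have hs := h.s0; have hA := h.A1; have hσ := h.σ0
  have hDge : c * c2 / 4 * s + g + cgb β * X ≤ D := by linarith
  have hcX : 0 ≤ cgb β * X := mul_nonneg hcg.le hX0
  have hcs : 0 < c * c2 / 4 * s := by positivity
  have hD0 : 0 < D := by linarith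
  -- the three bounds
  have b1 : A * s ≤ 4 * A / (c * c2) * D := by
    have : c * c2 / 4 * s ≤ D := by linarith
    calc A * s = 4 * A / (c * c2) * (c * c2 / 4 * s) := by field_simp
      _ ≤ _ := mul_le_mul_of_nonneg_left this (by positivity)
  have b2 : X ≤ 1 / cgb β * D := by
    have : cgb β * X ≤ D := by linarith
    rw [div_mul_eq_mul_div, one_mul, le_div_iff₀ hcg]
    linarith
  have b3 : g ≤ D := by linarith
  -- distances to `e'`
  have d1 : |e.1 + (σ - c / 2) * x + (G x).re - e'.1| ≤ g / lamB := by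
    rw [le_div_iff₀ hlamB, mul_comm]
    exact (mul_le_mul_of_nonneg_left (le_max_left _ _) hlamB.le).trans hG
  have d2 : |e.2 + x - 1 / 4 * (G x).re - e'.2| ≤ g / lamB := by
    rw [le_div_iff₀ hlamB, mul_comm]
    exact (mul_le_mul_of_nonneg_left (le_max_right _ _) hlamB.le).trans hG
  have b4 : g / lamB ≤ 1 / lamB * D := by
    rw [div_mul_eq_mul_div, one_mul]
    exact div_le_div_of_nonneg_right b3 hlamB.le
  have m1 : |e.1 + (TT σ c η (HH ν β (c2 / 2) s ρ G) Tq x).re - e'.1| ≤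
      (σ + 2) * (A * s) + X + g / lamB := by
    rw [eTr]
    have e1 : e.1 + (T1.re + (σ - c / 2) * x + Hx.re) - e'.1 =
      T1.re + (Hx.re - (G x).re) + (e.1 + (σ - c / 2) * x + (G x).re - e'.1) := by ring
    rw [e1]
    refine (abs_add_le _ _).trans ?_
    have := abs_add_le T1.re (Hx.re - (G x).re)
    linarith
  have m2 : ‖(e.2 : ℂ) + ZZ η (HH ν β (c2 / 2) s ρ G) zq x - (e'.2 : ℂ)‖ ≤
      6 * (A * s) + X + g / lamB + D := by
    refine (Complex.norm_le_abs_re_add_abs_im _).trans ?_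
    have e1 : ((e.2 : ℂ) + ZZ η (HH ν β (c2 / 2) s ρ G) zq x - (e'.2 : ℂ)).re =
        T2.re - 1 / 4 * (Hx.re - (G x).re) + (e.2 + x - 1 / 4 * (G x).re - e'.2) := by
      rw [sub_re, add_re, ofReal_re, ofReal_re, eZr]; ring
    have e2 : ((e.2 : ℂ) + ZZ η (HH ν β (c2 / 2) s ρ G) zq x - (e'.2 : ℂ)).im =
        T2.im - 1 / 4 * Hx.im := by
      rw [sub_im, add_im, ofReal_im, ofReal_im, eZ]; ring
    rw [e1, e2]
    have a1 := abs_add_le (T2.re - 1 / 4 * (Hx.re - (G x).re))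
      (e.2 + x - 1 / 4 * (G x).re - e'.2)
    have a2 := abs_sub T2.re (1 / 4 * (Hx.re - (G x).re))
    rw [abs_mul, abs_of_pos (by norm_num : (0 : ℝ) < 1 / 4)] at a2
    have hH : Hx.im ≤ 0 := by linarith
    have a3 : |T2.im - 1 / 4 * Hx.im| ≤ 3 * (A * s) + 1 / 4 * D := by
      have a4 := abs_sub T2.im (1 / 4 * Hx.im)
      have a5 := (Complex.abs_im_le_norm _).trans hn2
      rw [abs_mul, abs_of_pos (by norm_num : (0 : ℝ) < 1 / 4), abs_of_nonpos hH] at a4
      have a6 : -Hx.im ≤ D := by rw [hD, eT]; linarith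
      linarith
    linarith
  have hsum : |e.1 + (TT σ c η (HH ν β (c2 / 2) s ρ G) Tq x).re - e'.1| +
      ‖(e.2 : ℂ) + ZZ η (HH ν β (c2 / 2) s ρ G) zq x - (e'.2 : ℂ)‖ ≤
      (4 * ((σ + 9) * A) / (c * c2) + 2 / cgb β + 2 / lamB + 1) * D := by
    have e3 : (4 * ((σ + 9) * A) / (c * c2) + 2 / cgb β + 2 / lamB + 1) * D =
      (σ + 9) * (4 * A / (c * c2) * D) + 2 * (1 / cgb β * D) + 2 * (1 / lamB * D) + D := by
      ring
    rw [e3]
    have e4 : (σ + 9) * (A * s) ≤ (σ + 9) * (4 * A / (c * c2) * D) :=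
      mul_le_mul_of_nonneg_left b1 (by linarith)
    have e5 : 0 ≤ A * s := by positivity
    linarith
  calc 2 * lam * (|e.1 + (TT σ c η (HH ν β (c2 / 2) s ρ G) Tq x).re - e'.1| +
        ‖(e.2 : ℂ) + ZZ η (HH ν β (c2 / 2) s ρ G) zq x - (e'.2 : ℂ)‖)
      ≤ 2 * lam * ((4 * ((σ + 9) * A) / (c * c2) + 2 / cgb β + 2 / lamB + 1) * D) :=
        mul_le_mul_of_nonneg_left hsum (by positivity)
    _ = (2 * lam * (4 * ((σ + 9) * A) / (c * c2) + 2 / cgb β + 2 / lamB + 1)) * D := by ring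
    _ ≤ 1 * D := mul_le_mul_of_nonneg_right hlam hD0.le
    _ = D := one_mul D

end Crest.Agent.R102.DiscT669
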