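import Crest.Agent.R102.DiscTB_669
import Crest.Agent.R102.Chain_864

/-!
Row 102, T1-B, step 5 (helper669): the TILTED disc, part C: the estimate on one disc.
-/

set_option autoImplicit false
set_option linter.unusedSectionVars false
set_option linter.unusedVariables false

open Set Filter Topology Metric Complex MeasureTheory
open scoped Real

noncomputable section

namespace Crest.Agent.R102.DiscT669

open Crest.Agent.R102.Bishop120 (HC HO)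
open Crest.Agent.R102.Disc669

def C1c (σ A : ℝ) : ℝ := (σ + 7) * A

def bc (ν β c2 : ℝ) : ℝ := cgb β * (ν * (c2 / 2) ^ β)

def C3c (σ c ν A c2 β C S K : ℝ) : ℝ :=
  C * (2 * C1c σ A / (c * c2 / 4) + 2 * C1c σ A / bc ν β c2) ^ S * (2 * K * C1c σ A) ^ (1 / 2 : ℝ)

/-- the output of the chain over `P` -/
def ChainAt (μ lam C S K ρ₀ : ℝ) (P : Set (ℝ × ℝ)) (e : ℝ × ℝ) (F : ℂ × ℂ → ℂ) : Prop :=
  ∀ e' ∈ P, ∀ (q : ℂ × ℂ) (r : ℝ), 0 < -q.1.im → μ * (-q.1.im) ≤ q.2.im →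
    2 * lam * (|q.1.re - e'.1| + ‖q.2 - (e'.2 : ℂ)‖) ≤ -q.1.im →
    |q.1.re - e.1| + ‖q.2 - (e.2 : ℂ)‖ ≤ r → -q.1.im ≤ r → 2 * (K * r) < ρ₀ →
    1 + |Real.log ‖F q‖| ≤ C * (r / (-q.1.im)) ^ S * (1 + |Real.log ‖F (S5.ray e (K * r))‖|)

/-- the disc, translated to `e` -/
def Ph (σ c η : ℝ) (H : ℂ → ℂ) (Tq zq : ℂ) (e : ℝ × ℝ) (ζ : ℂ) : ℂ × ℂ :=
  ((e.1 : ℂ) + TT σ c η H Tq ζ, (e.2 : ℂ) + ZZ η H zq ζ)

section one

variable {σ c ν A c2 s ρ η β κ lam lamB C S K μ ρ₀ N Cs M : ℝ} {G H : ℂ → ℂ} {Tq zq : ℂ}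
  {P : Set (ℝ × ℝ)} {e : ℝ × ℝ} {F f : ℂ × ℂ → ℂ}

lemma C1c_pos (hσ : 0 ≤ σ) (hA : 1 ≤ A) : 7 ≤ C1c σ A := by
  unfold C1c; nlinarith

lemma Geo.norms' (h : Geo σ c ν A c2 s ρ η H Tq zq) {ζ : ℂ} (hζ : ζ ∈ HC) (hζρ : ‖ζ‖ ≤ ρ) :
    ‖TT σ c η H Tq ζ‖ + ‖ZZ η H zq ζ‖ ≤ 2 * (C1c σ A * ρ) := by
  refine (h.norms hζ hζρ).trans ?_
  have h1 : s ≤ ρ := by have := h.A1; have := h.As; have := h.s0; nlinarith
  have h2 := C1c_pos h.σ0 h.A1
  unfold C1c at *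
  have : (σ + 7) * A * (s + ‖ζ‖) ≤ (σ + 7) * A * (2 * ρ) :=
    mul_le_mul_of_nonneg_left (by linarith) (by linarith)
  linarith

lemma Geo.mem_Half (h : Geo σ c ν A c2 s ρ η H Tq zq) (hρ₀ : 2 * (C1c σ A * ρ) < ρ₀)
    {ζ : ℂ} (hζ : ζ ∈ HC) (hζρ : ‖ζ‖ ≤ ρ) : Ph σ c η H Tq zq e ζ ∈ S5.Half e ρ₀ σ := by
  have hn := h.norms' hζ hζρ
  have n1 := norm_nonneg (TT σ c η H Tq ζ)
  have n2 := norm_nonneg (ZZ η H zq ζ)
  refine ⟨?_, ?_, ?_, ?_, ?_⟩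
  · have := Complex.abs_re_le_norm (TT σ c η H Tq ζ)
    simp only [Ph, add_re, ofReal_re, add_sub_cancel_left]
    linarith
  · have := (abs_le.1 (Complex.abs_im_le_norm (TT σ c η H Tq ζ))).1
    simp only [Ph, add_im, ofReal_im, zero_add]
    linarith
  · simp only [Ph, add_sub_cancel_left]
    linarith
  · simp only [Ph, add_im, ofReal_im, zero_add]
    exact h.ZZ_pos hζ hζρ
  · simp only [Ph, add_im, ofReal_im, zero_add]
    exact h.level hζ hζρ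

lemma Geo.dcc (h : Geo σ c ν A c2 s ρ η H Tq zq) (hρ₀ : 2 * (C1c σ A * ρ) < ρ₀)
    (hf : DifferentiableOn ℂ f (S5.Half e ρ₀ σ)) :
    DiffContOnCl ℂ (fun ζ => f (Ph σ c η H Tq zq e ζ)) (UD ρ) := by
  have hop : IsOpen (S5.Half e ρ₀ σ) := by
    unfold S5.Half
    have c1 : Continuous (fun q : ℂ × ℂ => |q.1.re - e.1|) := by fun_prop
    have c2 : Continuous (fun q : ℂ × ℂ => q.1.im) := by fun_prop
    have c3 : Continuous (fun q : ℂ × ℂ => ‖q.2 - (e.2 : ℂ)‖) := by fun_prop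
    have c4 : Continuous (fun q : ℂ × ℂ => q.2.im) := by fun_prop
    exact (isOpen_lt c1 continuous_const).inter ((isOpen_lt continuous_const c2).inter
      ((isOpen_lt c3 continuous_const).inter ((isOpen_lt continuous_const c4).inter
        (isOpen_lt c2 (continuous_const.mul c4)))))
  constructor
  · intro ζ hζ
    have h1 : ζ ∈ HO := hζ.2
    have h1' : ζ ∈ HC := le_of_lt hζ.2
    have hnh : HO ∈ 𝓝 ζ := (isOpen_lt continuous_const Complex.continuous_im).mem_nhds h1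
    have h2 : DifferentiableAt ℂ (TT σ c η H Tq) ζ := h.TT_diff.differentiableAt hnh
    have h2' : DifferentiableAt ℂ (ZZ η H zq) ζ := h.ZZ_diff.differentiableAt hnh
    have h3 : DifferentiableAt ℂ f (Ph σ c η H Tq zq e ζ) :=
      hf.differentiableAt (hop.mem_nhds (h.mem_Half hρ₀ h1' hζ.1.le))
    have h4 : DifferentiableAt ℂ (Ph σ c η H Tq zq e) ζ := by
      unfold Ph
      exact ((differentiableAt_const _).add h2).prodMk ((differentiableAt_const _).add h2')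
    exact (DifferentiableAt.comp (g := f) (f := Ph σ c η H Tq zq e) ζ h3
      h4).differentiableWithinAt
  · have h1 : ContinuousOn (Ph σ c η H Tq zq e) (closure (UD ρ)) := by
      unfold Ph
      refine ContinuousOn.prodMk ?_ ?_
      · exact continuousOn_const.add (h.TT_cont.mono (fun ζ hζ => (closure_UD ρ hζ).2))
      · exact continuousOn_const.add (h.ZZ_cont.mono (fun ζ hζ => (closure_UD ρ hζ).2))
    exact hf.continuousOn.comp h1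
      (fun ζ hζ => h.mem_Half hρ₀ (closure_UD ρ hζ).2 (closure_UD ρ hζ).1)

/-- the bound on the real side -/
lemma real_bound (h : Geo σ c ν A c2 s ρ η (HH ν β (c2 / 2) s ρ G) Tq zq)
    (hg : HG ν β (c2 / 2) s ρ κ G) (hP : IsClosed P) (he : e ∈ P) (hC : 1 ≤ C) (hS : 1 ≤ S)
    (hK : 1 ≤ K) (hμ0 : 0 < μ) (hμ1 : μ ≤ 1 / 4) (hμ2 : μ * ((σ + 2) * A) ≤ ν * c2)
    (hlam0 : 0 < lam) (hlamμ : lam ≤ μ / 8) (hlamB : 0 < lamB)
    (hlam : 2 * lam * (4 * ((σ + 9) * A) / (c * c2) + 2 / cgb β + 2 / lamB + 1) ≤ 1)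
    (hchain : ChainAt μ lam C S K ρ₀ P e F)
    (hfF : ∀ q ∈ S5.Saw P lam ρ₀ ∩ S5.Half e ρ₀ σ, ‖f q‖ ≤ Real.exp (N * (1 + |Real.log ‖F q‖|)))
    (hray : ∀ s' : ℝ, s ≤ s' → s' < ρ₀ →
      1 + |Real.log ‖F (S5.ray e s')‖| ≤ Cs * (s' / s) ^ (1 / 2 : ℝ))
    (hN : 1 ≤ N) (hCs : 1 ≤ Cs) (hβS : β * S ≤ 1 / 4)
    (hρ₀ : 4 * K * (C1c σ A * ρ) < ρ₀) {x : ℝ} (hx : |x| ≤ ρ)
    (hG : lamB * infDist (e.1 + (σ - c / 2) * x + (G x).re, e.2 + x - 1 / 4 * (G x).re) P ≤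
      -(G x).im) :
    ‖f (Ph σ c η (HH ν β (c2 / 2) s ρ G) Tq zq e x)‖ ≤
      Real.exp (N * Cs * (C3c σ c ν A c2 β C S K * (max 1 (|x| / s)) ^ (3 / 4 : ℝ))) := by
  obtain ⟨e', he', hcone⟩ := h.cone hg hP he hlamB hlam0 hlam hG
  have hmu := h.mu hμ0.le hμ1 hμ2 x
  have hdep := h.depth x
  have hH4 := hg.H4 x
  have hxC : (x : ℂ) ∈ HC := by change (0 : ℝ) ≤ (x : ℂ).im; simp
  have hnx : ‖(x : ℂ)‖ = |x| := by rw [Complex.norm_real, Real.norm_eq_abs]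
  have hgim := hg.Gim x hxC
  have hn := h.norms hxC (by rw [hnx]; exact hx)
  have hn' := h.norms' hxC (by rw [hnx]; exact hx)
  rw [hnx] at hn
  have hs := h.s0; have hc := h.c0; have hc2 := h.c20; have hρ := h.ρ0
  have hcg := cgb_pos hg.β0 hg.β1
  have hC1 := C1c_pos h.σ0 h.A1
  have hsρ : s ≤ ρ := by have := h.A1; have := h.As; nlinarith
  have hKC : C1c σ A * ρ ≤ K * (C1c σ A * ρ) := le_mul_of_one_le_left (by positivity) hK
  have hC1ρ : 0 < C1c σ A * ρ := mul_pos (by linarith) hρ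
  have hmemH := h.mem_Half (e := e) (ρ₀ := ρ₀) (by linarith) hxC (by rw [hnx]; exact hx)
  set H := HH ν β (c2 / 2) s ρ G with hH
  set q := Ph σ c η H Tq zq e x with hq
  have q1im : q.1.im = (TT σ c η H Tq x).im := by simp [hq, Ph]
  have q1re : q.1.re = e.1 + (TT σ c η H Tq x).re := by simp [hq, Ph]
  have q2 : q.2 = (e.2 : ℂ) + ZZ η H zq x := rfl
  have q2im : q.2.im = (ZZ η H zq x).im := by simp [q2]
  -- depth
  have hb0 : 0 < bc ν β c2 := by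
    unfold bc
    have := h.ν0
    positivity
  have hX : cgb β * (amp ν β (c2 / 2) s * |x| ^ (1 - β)) = bc ν β c2 * (s ^ β * |x| ^ (1 - β)) := by
    unfold amp bc; ring
  rw [hX] at hH4
  have hD : c * c2 / 4 * s + bc ν β c2 * (s ^ β * |x| ^ (1 - β)) ≤ -q.1.im := by
    rw [q1im]; linarith
  have hD0 : 0 < -q.1.im := by
    refine lt_of_lt_of_le ?_ hD
    positivity
  have hr1 : |q.1.re - e.1| + ‖q.2 - (e.2 : ℂ)‖ ≤ C1c σ A * (s + |x|) := by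
    have e1 : q.1.re - e.1 = (TT σ c η H Tq x).re := by rw [q1re]; ring
    have e2 : q.2 - (e.2 : ℂ) = ZZ η H zq x := by rw [q2]; ring
    rw [e1, e2]
    have := Complex.abs_re_le_norm (TT σ c η H Tq x)
    unfold C1c
    linarith
  have hr2 : -q.1.im ≤ C1c σ A * (s + |x|) := by
    rw [q1im]
    have := (abs_le.1 (Complex.abs_im_le_norm (TT σ c η H Tq x))).1
    have := norm_nonneg (ZZ η H zq x)
    unfold C1c
    linarith
  have hr3 : K * (C1c σ A * (s + |x|)) ≤ 2 * K * (C1c σ A * ρ) := by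
    have h1 : C1c σ A * (s + |x|) ≤ C1c σ A * (2 * ρ) :=
      mul_le_mul_of_nonneg_left (by linarith) (by linarith)
    have h2 := mul_le_mul_of_nonneg_left h1 (by linarith : 0 ≤ K)
    linarith
  have hcone' : 2 * lam * (|q.1.re - e'.1| + ‖q.2 - (e'.2 : ℂ)‖) ≤ -q.1.im := by
    rw [q1re, q2, q1im]; exact hcone
  have hmu' : μ * (-q.1.im) ≤ q.2.im := by rw [q1im, q2im]; exact hmu
  have hch := hchain e' he' q (C1c σ A * (s + |x|)) hD0 hmu' hcone' hr1 hr2 (by linarith)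
  have hKr1 : s ≤ K * (C1c σ A * (s + |x|)) := by
    have h1 : s ≤ C1c σ A * (s + |x|) := by
      have := abs_nonneg x
      nlinarith
    exact h1.trans (le_mul_of_one_le_left (by positivity) hK)
  have hra := hray (K * (C1c σ A * (s + |x|))) hKr1 (by nlinarith)
  have hnum := num_bound (C := C) (C1 := C1c σ A) (a := c * c2 / 4) (b := bc ν β c2) (β := β)
    (s := s) (y := |x|) (D := -q.1.im) (S := S) (K := K) hC (by linarith) (by positivity) hb0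
    hg.β0 hg.β1 hs (abs_nonneg x) hS hβS hK hD
  -- membership in the sawtooth
  have hsaw : q ∈ S5.Saw P lam ρ₀ := by
    refine ⟨by linarith, ?_, ?_, e', he', ?_⟩
    · have : -ρ₀ < q.1.im := hmemH.2.1
      exact this
    · have h1 : lam * (-q.1.im) < μ * (-q.1.im) := mul_lt_mul_of_pos_right (by linarith) hD0
      linarith
    · have h2 : 0 ≤ |q.1.re - e'.1| + ‖q.2 - (e'.2 : ℂ)‖ := by positivity
      have h3 : 0 ≤ lam * (|q.1.re - e'.1| + ‖q.2 - (e'.2 : ℂ)‖) := mul_nonneg hlam0.le h2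
      linarith
  refine (hfF q ⟨hsaw, hmemH⟩).trans (Real.exp_le_exp.2 ?_)
  have hE0 : 0 ≤ C * (C1c σ A * (s + |x|) / -q.1.im) ^ S := by positivity
  calc N * (1 + |Real.log ‖F q‖|)
      ≤ N * (C * (C1c σ A * (s + |x|) / -q.1.im) ^ S *
          (Cs * (K * (C1c σ A * (s + |x|)) / s) ^ (1 / 2 : ℝ))) := by
        refine mul_le_mul_of_nonneg_left (hch.trans ?_) (by linarith)
        exact mul_le_mul_of_nonneg_left hra hE0
    _ = N * Cs * (C * (C1c σ A * (s + |x|) / -q.1.im) ^ S *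
          ((K * (C1c σ A * (s + |x|))) / s) ^ (1 / 2 : ℝ)) := by ring
    _ ≤ N * Cs * (C3c σ c ν A c2 β C S K * (max 1 (|x| / s)) ^ (3 / 4 : ℝ)) := by
        refine mul_le_mul_of_nonneg_left ?_ (by positivity)
        unfold C3c
        exact hnum

/-- **the estimate on one disc** -/
theorem one (h : Geo σ c ν A c2 s ρ η (HH ν β (c2 / 2) s ρ G) Tq zq)
    (hg : HG ν β (c2 / 2) s ρ κ G) (hP : IsClosed P) (he : e ∈ P) (hC : 1 ≤ C) (hS : 1 ≤ S)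
    (hK : 1 ≤ K) (hμ0 : 0 < μ) (hμ1 : μ ≤ 1 / 4) (hμ2 : μ * ((σ + 2) * A) ≤ ν * c2)
    (hlam0 : 0 < lam) (hlamμ : lam ≤ μ / 8) (hlamB : 0 < lamB)
    (hlam : 2 * lam * (4 * ((σ + 9) * A) / (c * c2) + 2 / cgb β + 2 / lamB + 1) ≤ 1)
    (hchain : ChainAt μ lam C S K ρ₀ P e F)
    (hf : DifferentiableOn ℂ f (S5.Half e ρ₀ σ))
    (hfF : ∀ q ∈ S5.Saw P lam ρ₀ ∩ S5.Half e ρ₀ σ, ‖f q‖ ≤ Real.exp (N * (1 + |Real.log ‖F q‖|)))
    (hray : ∀ s' : ℝ, s ≤ s' → s' < ρ₀ →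
      1 + |Real.log ‖F (S5.ray e s')‖| ≤ Cs * (s' / s) ^ (1 / 2 : ℝ))
    (hN : 1 ≤ N) (hCs : 1 ≤ Cs) (hβS : β * S ≤ 1 / 4)
    (hρ₀ : 4 * K * (C1c σ A * ρ) < ρ₀)
    (hG : ∀ x : ℝ, |x| ≤ ρ →
      lamB * infDist (e.1 + (σ - c / 2) * x + (G x).re, e.2 + x - 1 / 4 * (G x).re) P ≤ -(G x).im)
    (hM : ∀ q : ℂ × ℂ, ‖q.1 - (e.1 : ℂ)‖ ≤ 2 * (C1c σ A * ρ) →
      ‖q.2 - (e.2 : ℂ)‖ ≤ 2 * (C1c σ A * ρ) → ν / 4 * ρ ≤ q.2.im →
      q.1.im + ν * ρ ≤ σ * q.2.im → ‖f q‖ ≤ Real.exp M)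
    (hMs : M ≤ C3c σ c ν A c2 β C S K * (ρ / s) ^ (3 / 4 : ℝ)) :
    ‖f ((e.1 : ℂ) + Tq, (e.2 : ℂ) + zq)‖ ≤
      Real.exp (C3c σ c ν A c2 β C S K / Real.cos (3 / 4 * (π / 2)) * (1 + A) * N * Cs) := by
  have hρ := h.ρ0; have hs := h.s0
  have hC1 := C1c_pos h.σ0 h.A1
  have hKC : C1c σ A * ρ ≤ K * (C1c σ A * ρ) := le_mul_of_one_le_left (by positivity) hK
  have hC1ρ : 0 < C1c σ A * ρ := mul_pos (by linarith) hρ
  have hρ₀' : 2 * (C1c σ A * ρ) < ρ₀ := by linarith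
  have hb0 : 0 < bc ν β c2 := by
    unfold bc
    have := h.ν0; have := h.c20; have := cgb_pos hg.β0 hg.β1
    positivity
  have hC3 : 0 ≤ C3c σ c ν A c2 β C S K := by
    unfold C3c
    have := h.c0; have := h.c20
    positivity
  have hcos : 0 < Real.cos (3 / 4 * (π / 2)) :=
    Real.cos_pos_of_mem_Ioo ⟨by nlinarith [Real.pi_pos], by nlinarith [Real.pi_pos]⟩
  set C3 := C3c σ c ν A c2 β C S K with hC3d
  set B' := N * Cs * C3 / Real.cos (3 / 4 * (π / 2)) with hB'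
  have hB'0 : 0 ≤ B' := by positivity
  have hBc : B' * Real.cos (3 / 4 * (π / 2)) = N * Cs * C3 := by
    rw [hB', div_mul_cancel₀ _ hcos.ne']
  have hmaj : ∀ ζ : ℂ, 0 ≤ ζ.im →
      N * Cs * (C3 * (max 1 (‖ζ‖ / s)) ^ (3 / 4 : ℝ)) ≤ (Maj B' s 0 (3 / 4) ζ).re := by
    intro ζ hζ
    have h1 := Maj_re_ge (B' := B') (s := s) (N := 0) (α := 3 / 4) (ζ := ζ) hs hB'0 le_rfl
      (by norm_num) (by norm_num) hζ
    rw [hBc, zero_mul, add_zero] at h1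
    linarith
  have hbd : ∀ ζ : ℂ, ‖ζ‖ ≤ ρ → 0 ≤ ζ.im → (ζ.im = 0 ∨ ‖ζ‖ = ρ) →
      ‖f (Ph σ c η (HH ν β (c2 / 2) s ρ G) Tq zq e ζ)‖ ≤
        Real.exp (Maj B' s 0 (3 / 4) ζ).re := by
    intro ζ hζρ hζ hor
    rcases hor with him | harc
    · obtain ⟨x, rfl⟩ : ∃ x : ℝ, ζ = (x : ℂ) := ⟨ζ.re, Complex.ext (by simp) (by simpa using him)⟩
      rw [Complex.norm_real, Real.norm_eq_abs] at hζρ
      refine (real_bound h hg hP he hC hS hK hμ0 hμ1 hμ2 hlam0 hlamμ hlamB hlam hchain hfF hray hN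
        hCs hβS hρ₀ hζρ (hG x hζρ)).trans (Real.exp_le_exp.2 ?_)
      have := hmaj x hζ
      rwa [Complex.norm_real, Real.norm_eq_abs] at this
    · have hζC : ζ ∈ HC := hζ
      have hn := h.norms' hζC hζρ
      have n1 := norm_nonneg (TT σ c η (HH ν β (c2 / 2) s ρ G) Tq ζ)
      have n2 := norm_nonneg (ZZ η (HH ν β (c2 / 2) s ρ G) zq ζ)
      refine (hM _ ?_ ?_ ?_ ?_).trans (Real.exp_le_exp.2 ?_)
      · simp only [Ph, add_sub_cancel_left]; linarith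
      · simp only [Ph, add_sub_cancel_left]; linarith
      · simp only [Ph, add_im, ofReal_im, zero_add]
        exact h.ZZ_arc hζC harc
      · simp only [Ph, add_im, ofReal_im, zero_add]
        exact h.level_arc hζC harc
      · have h1 := hmaj ζ hζ
        rw [harc] at h1
        have h2 : (ρ / s) ^ (3 / 4 : ℝ) ≤ (max 1 (ρ / s)) ^ (3 / 4 : ℝ) :=
          Real.rpow_le_rpow (by positivity) (le_max_right _ _) (by norm_num)
        have h3 : C3 * (ρ / s) ^ (3 / 4 : ℝ) ≤ C3 * (max 1 (ρ / s)) ^ (3 / 4 : ℝ) :=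
          mul_le_mul_of_nonneg_left h2 hC3
        have h4 : 0 ≤ C3 * (max 1 (ρ / s)) ^ (3 / 4 : ℝ) := by positivity
        have h5 : C3 * (max 1 (ρ / s)) ^ (3 / 4 : ℝ) ≤
            N * Cs * (C3 * (max 1 (ρ / s)) ^ (3 / 4 : ℝ)) := by
          refine le_mul_of_one_le_left h4 ?_
          nlinarith
        linarith
  have hη := h.η0
  have hmemU : ((η : ℂ) * I) ∈ UD ρ := by
    refine ⟨by rw [norm_I_mul hη.le]; exact h.ηρ, ?_⟩
    simpa using hη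
  have hfin := halfdisc_max (h.dcc hρ₀' hf)
    (Maj_diffContOnCl (B' := B') (N := 0) hs (by norm_num : (0 : ℝ) < 3 / 4) ρ) hbd _ hmemU
  have e1 : f (Ph σ c η (HH ν β (c2 / 2) s ρ G) Tq zq e ((η : ℂ) * I)) =
      f ((e.1 : ℂ) + Tq, (e.2 : ℂ) + zq) := by
    unfold Ph
    rw [TT_at, ZZ_at]
  rw [e1] at hfin
  refine hfin.trans (Real.exp_le_exp.2 ?_)
  have h8 := Maj_re_le (B' := B') (s := s) (N := 0) (α := 3 / 4) hs hB'0 (by norm_num)
    (by norm_num) hη.le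
  have h9 : η / s ≤ A := by rw [div_le_iff₀ hs]; exact h.ηA
  have h10 : B' * (1 + η / s) ≤ B' * (1 + A) := mul_le_mul_of_nonneg_left (by linarith) hB'0
  have h11 : B' * (1 + A) = C3 / Real.cos (3 / 4 * (π / 2)) * (1 + A) * N * Cs := by
    rw [hB']; ring
  linarith

end one

end Crest.Agent.R102.DiscT669
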