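import Crest.Agent.R102.DiscTC_669

/-!
Row 102, T1-B, step 5 (helper669): **`discEst_of : LocalTilt → SawChain → S5.DiscEst`**.
-/

set_option autoImplicit false
set_option linter.unusedSectionVars false
set_option linter.unusedVariables false

open Set Filter Topology Metric Complex MeasureTheory
open scoped Real

noncomputable section

namespace Crest.Agent.R102.DiscT669

open Crest.Agent.R102.Bishop120 (HC HO)
open Crest.Agent.R102.Disc669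

/-- compact part of the domain containing the arc of all discs -/
def KM (e : ℝ × ℝ) (R m m' σ : ℝ) : Set (ℂ × ℂ) :=
  {q | ‖q.1 - (e.1 : ℂ)‖ ≤ R ∧ ‖q.2 - (e.2 : ℂ)‖ ≤ R ∧ m ≤ q.2.im ∧ q.1.im + m' ≤ σ * q.2.im}

lemma KM_compact (e : ℝ × ℝ) (R m m' σ : ℝ) : IsCompact (KM e R m m' σ) := by
  have hcl : IsClosed (KM e R m m' σ) := by
    have c1 : Continuous (fun q : ℂ × ℂ => ‖q.1 - (e.1 : ℂ)‖) := by fun_prop
    have c3 : Continuous (fun q : ℂ × ℂ => ‖q.2 - (e.2 : ℂ)‖) := by fun_prop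
    have c2 : Continuous (fun q : ℂ × ℂ => q.1.im + m') := by fun_prop
    have c4 : Continuous (fun q : ℂ × ℂ => q.2.im) := by fun_prop
    exact (isClosed_le c1 continuous_const).inter ((isClosed_le c3 continuous_const).inter
      ((isClosed_le continuous_const c4).inter (isClosed_le c2 (continuous_const.mul c4))))
  refine IsCompact.of_isClosed_subset
    ((isCompact_closedBall (e.1 : ℂ) R).prod (isCompact_closedBall (e.2 : ℂ) R)) hcl ?_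
  intro q hq
  refine ⟨?_, ?_⟩
  · rw [mem_closedBall, dist_eq_norm]; exact hq.1
  · rw [mem_closedBall, dist_eq_norm]; exact hq.2.1

lemma KM_sub {e : ℝ × ℝ} {R m m' σ ρ₀ : ℝ} (hR : R < ρ₀) (hm : 0 < m) (hm' : 0 < m') :
    KM e R m m' σ ⊆ S5.Half e ρ₀ σ := by
  rintro q ⟨h1, h2, h3, h4⟩
  refine ⟨?_, ?_, ?_, ?_, ?_⟩
  · have := Complex.abs_re_le_norm (q.1 - (e.1 : ℂ))
    rw [sub_re, ofReal_re] at this
    linarith
  · have := (abs_le.1 (Complex.abs_im_le_norm (q.1 - (e.1 : ℂ)))).1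
    rw [sub_im, ofReal_im, sub_zero] at this
    linarith
  · linarith
  · linarith
  · linarith

lemma exists_bound {e : ℝ × ℝ} {R m m' σ ρ₀ : ℝ} {f : ℂ × ℂ → ℂ} (hR : R < ρ₀) (hm : 0 < m)
    (hm' : 0 < m') (hf : DifferentiableOn ℂ f (S5.Half e ρ₀ σ)) :
    ∃ M : ℝ, ∀ q : ℂ × ℂ, ‖q.1 - (e.1 : ℂ)‖ ≤ R → ‖q.2 - (e.2 : ℂ)‖ ≤ R → m ≤ q.2.im →
      q.1.im + m' ≤ σ * q.2.im → ‖f q‖ ≤ Real.exp M := by
  obtain ⟨M, hM⟩ := (KM_compact e R m m' σ).exists_bound_of_continuousOn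
    (hf.continuousOn.mono (KM_sub hR hm hm'))
  refine ⟨M, fun q h1 h2 h3 h4 => (hM q ⟨h1, h2, h3, h4⟩).trans ?_⟩
  have := Real.add_one_le_exp M
  linarith

/-- choice of the radius of the disc -/
lemma exists_radius {G : ℂ → ℂ} {κ ν rho r0 : ℝ} (hν : 0 < ν) (hrho : 0 < rho) (hr0 : 0 < r0)
    (hG0 : G 0 = 0) (hd : HasDerivWithinAt G (κ : ℂ) HC 0) :
    ∃ ρ : ℝ, 0 < ρ ∧ ρ ≤ rho ∧ ρ < r0 ∧ ∀ z ∈ HC, ‖z‖ ≤ ρ → ‖G z - κ * z‖ ≤ ν * ‖z‖ := by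
  have h1 := hd.hasFDerivWithinAt.isLittleO.def hν
  have h2 : ∀ᶠ z in 𝓝[HC] (0 : ℂ), ‖G z - κ * z‖ ≤ ν * ‖z‖ := by
    filter_upwards [h1] with z hz
    rw [hG0, sub_zero, sub_zero] at hz
    simpa [mul_comm] using hz
  rw [eventually_nhdsWithin_iff, Metric.eventually_nhds_iff] at h2
  obtain ⟨δ, hδ, h3⟩ := h2
  refine ⟨min rho (min (r0 / 2) (δ / 2)), by positivity, min_le_left _ _, ?_, ?_⟩
  · have := (min_le_right rho (min (r0 / 2) (δ / 2))).trans (min_le_left _ _)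
    linarith
  · intro z hz hzρ
    have := (min_le_right rho (min (r0 / 2) (δ / 2))).trans (min_le_right _ _)
    refine h3 ?_ hz
    rw [dist_zero_right]
    linarith

theorem discEst_norm (hB : Tilt620.LocalTilt) (hS : SawChain) {σ c A c₂ : ℝ} (hσ : 0 ≤ σ)
    (hc : 0 < c) (hc1 : c ≤ 1) (hA : 1 ≤ A) (hc2 : 0 < c₂) (hc21 : c₂ ≤ 1) :
    ∃ lam : ℝ, 0 < lam ∧ ∃ C : ℝ, 0 < C ∧
    ∀ P : Set (ℝ × ℝ), IsClosed P → 0 < volume P → ∃ e ∈ P, ∀ ρ₀ : ℝ, 0 < ρ₀ →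
    ∀ F : ℂ × ℂ → ℂ, DifferentiableOn ℂ F (S5.Saw P lam ρ₀) →
      (∀ q ∈ S5.Saw P lam ρ₀, F q ≠ 0 ∧ F q ≠ 1) →
    ∀ f : ℂ × ℂ → ℂ, DifferentiableOn ℂ f (S5.Half e ρ₀ σ) →
    ∀ N Cs : ℝ, 1 ≤ N → 1 ≤ Cs →
      (∀ q ∈ S5.Saw P lam ρ₀ ∩ S5.Half e ρ₀ σ, ‖f q‖ ≤ Real.exp (N * (1 + |Real.log ‖F q‖|))) →
    ∀ᶠ s : ℝ in 𝓝[>] 0,
      (∀ s' : ℝ, s ≤ s' → s' < ρ₀ →
        1 + |Real.log ‖F (S5.ray e s')‖| ≤ Cs * (s' / s) ^ (1 / 2 : ℝ)) →
      ∀ x : ℂ × ℂ, ‖x.1‖ ≤ A → ‖x.2‖ ≤ A → c₂ ≤ x.2.im → x.1.im ≤ (σ - c) * x.2.im →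
        ‖f (S5.bl e s x)‖ ≤ Real.exp (C * N * Cs) := by
  set ν : ℝ := c / (64 * (σ + 1)) with hνd
  have hσ1 : 0 < σ + 1 := by linarith
  have hν0 : 0 < ν := by positivity
  have hνc : 64 * (ν * (σ + 1)) = c := by rw [hνd]; field_simp
  have hν64 : ν ≤ 1 / 64 := by nlinarith [mul_nonneg hν0.le hσ]
  set μ : ℝ := ν * c₂ / ((σ + 2) * A) with hμd
  have hμ0 : 0 < μ := by positivity
  have hμ2 : μ * ((σ + 2) * A) ≤ ν * c₂ := by rw [hμd]; exact (div_mul_cancel₀ _ (by positivity)).le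
  have hμ1 : μ ≤ 1 / 4 := by
    rw [hμd, div_le_iff₀ (by positivity)]
    have h1 : ν * c₂ ≤ 1 / 64 * 1 := mul_le_mul hν64 hc21 hc2.le (by norm_num)
    have h2 : 1 ≤ (σ + 2) * A := by nlinarith
    linarith
  obtain ⟨C, S, K, hC, hS1, hK, hch⟩ := hS μ hμ0 hμ1
  set β : ℝ := 1 / (4 * S) with hβd
  have hS0 : 0 < S := by linarith
  have hβ0 : 0 < β := by positivity
  have hβS : β * S ≤ 1 / 4 := by rw [hβd]; apply le_of_eq; field_simp
  have hβ1 : β ≤ 1 / 2 := by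
    rw [hβd, div_le_iff₀ (by positivity)]; linarith
  have hcg := cgb_pos hβ0 hβ1
  obtain ⟨lamB, hlamB, hB'⟩ := hB (σ - c / 2) (1 / 4) ν (by linarith) hν0
  set Q : ℝ := 4 * ((σ + 9) * A) / (c * c₂) + 2 / cgb β + 2 / lamB + 1 with hQ
  have hQ0 : 0 < Q := by positivity
  set lam : ℝ := min (μ / 8) (1 / (2 * Q)) with hlamd
  have hlam0 : 0 < lam := by
    rw [hlamd]; exact lt_min (by positivity) (by positivity)
  have hlamμ : lam ≤ μ / 8 := min_le_left _ _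
  have hlamQ : 2 * lam * Q ≤ 1 := by
    have h1 : lam ≤ 1 / (2 * Q) := min_le_right _ _
    rw [le_div_iff₀ (by positivity)] at h1
    linarith
  have hcos : 0 < Real.cos (3 / 4 * (π / 2)) :=
    Real.cos_pos_of_mem_Ioo ⟨by nlinarith [Real.pi_pos], by nlinarith [Real.pi_pos]⟩
  have hC1 := C1c_pos hσ hA
  have hb0 : 0 < bc ν β c₂ := by unfold bc; positivity
  have hC3 : 0 < C3c σ c ν A c₂ β C S K := by
    unfold C3c; positivity
  refine ⟨lam, hlam0, C3c σ c ν A c₂ β C S K / Real.cos (3 / 4 * (π / 2)) * (1 + A),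
    by positivity, ?_⟩
  intro P hP hPv
  obtain ⟨e, he, rho, hrho, κ, hκ, G, hGc, hGd, hG0, hGim, hGder, hGsaw⟩ := hB' P hP hPv
  refine ⟨e, he, ?_⟩
  intro ρ₀ hρ₀ F hF hF01 f hf N Cs hN hCs hfF
  obtain ⟨ρ, hρ, hρrho, hρr, hGκ⟩ := exists_radius (r0 := ρ₀ / (4 * K * C1c σ A)) hν0 hrho
    (by positivity) hG0 hGder
  have hρ₀' : 4 * K * (C1c σ A * ρ) < ρ₀ := by
    rw [lt_div_iff₀ (by positivity)] at hρr
    linarith
  have hC1ρ : 0 < C1c σ A * ρ := by positivity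
  have hKC : C1c σ A * ρ ≤ K * (C1c σ A * ρ) := le_mul_of_one_le_left hC1ρ.le hK
  obtain ⟨M, hM⟩ := exists_bound (e := e) (R := 2 * (C1c σ A * ρ)) (m := ν / 4 * ρ)
    (m' := ν * ρ) (σ := σ) (ρ₀ := ρ₀) (f := f) (by linarith) (by positivity) (by positivity) hf
  have hev1 : ∀ᶠ s : ℝ in 𝓝[>] 0, A * s < ρ := by
    have h1 : Tendsto (fun s : ℝ => A * s) (𝓝[>] 0) (𝓝 (A * 0)) :=
      (tendsto_nhdsWithin_of_tendsto_nhds (continuous_const.mul continuous_id).continuousAt)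
    rw [mul_zero] at h1
    exact h1.eventually_lt_const hρ
  have hev2 : ∀ᶠ s : ℝ in 𝓝[>] 0, M ≤ C3c σ c ν A c₂ β C S K * (ρ / s) ^ (3 / 4 : ℝ) := by
    have h1 : Tendsto (fun s : ℝ => ρ / s) (𝓝[>] 0) atTop := by
      have := tendsto_inv_nhdsGT_zero (𝕜 := ℝ)
      simpa [div_eq_mul_inv] using this.const_mul_atTop hρ
    have h2 := (tendsto_rpow_atTop (by norm_num : (0 : ℝ) < 3 / 4)).comp h1
    exact (h2.const_mul_atTop hC3).eventually_ge_atTop M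
  have hev3 : ∀ᶠ s : ℝ in 𝓝[>] 0, 0 < s := eventually_mem_nhdsWithin
  filter_upwards [hev1, hev2, hev3] with s hs1 hs2 hs0 hray x hx1 hx2 hx3 hx4
  set Tq : ℂ := s * x.1 with hTq
  set zq : ℂ := s * x.2 with hzq
  set η : ℝ := (1 - 2 * ν) * zq.im with hη
  have zqim : zq.im = s * x.2.im := by rw [hzq, Complex.im_ofReal_mul]
  have Tqim : Tq.im = s * x.1.im := by rw [hTq, Complex.im_ofReal_mul]
  have hzqn : ‖zq‖ ≤ A * s := by
    rw [hzq, norm_mul, Complex.norm_of_nonneg hs0.le, mul_comm]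
    exact mul_le_mul_of_nonneg_right hx2 hs0.le
  have hTqn : ‖Tq‖ ≤ A * s := by
    rw [hTq, norm_mul, Complex.norm_of_nonneg hs0.le, mul_comm]
    exact mul_le_mul_of_nonneg_right hx1 hs0.le
  have hzq2 : c₂ * s ≤ zq.im := by
    rw [zqim, mul_comm]; exact mul_le_mul_of_nonneg_left hx3 hs0.le
  have hTq2 : Tq.im ≤ (σ - c) * zq.im := by
    rw [zqim, Tqim]
    have := mul_le_mul_of_nonneg_left hx4 hs0.le
    linarith
  have hzqA : zq.im ≤ A * s := ((le_abs_self _).trans (Complex.abs_im_le_norm _)).trans hzqn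
  have hzq0 : 0 < zq.im := lt_of_lt_of_le (by positivity) hzq2
  have hg : HG ν β (c₂ / 2) s ρ κ G :=
    { ν0 := hν0, β0 := hβ0, β1 := hβ1, c20 := by positivity, c21 := by linarith, s0 := hs0
      ρ0 := hρ, κ1 := hκ, Gc := hGc, Gd := hGd, Gim := hGim, Gκ := hGκ }
  have hη1 : c₂ / 2 * s ≤ η := by
    have h1 : 1 / 2 * zq.im ≤ (1 - 2 * ν) * zq.im :=
      mul_le_mul_of_nonneg_right (by linarith) hzq0.le
    linarith
  have hη2 : η ≤ ρ := by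
    have h1 : (1 - 2 * ν) * zq.im ≤ 1 * zq.im :=
      mul_le_mul_of_nonneg_right (by linarith) hzq0.le
    linarith
  have hgeo : Geo σ c ν A c₂ s ρ η (HH ν β (c₂ / 2) s ρ G) Tq zq :=
    { σ0 := hσ, c0 := hc, c1 := hc1, ν0 := hν0, νc := hνc, A1 := hA, c20 := hc2, c21 := hc21
      s0 := hs0, ρ0 := hρ, As := hs1, Tq1 := hTqn, zq1 := hzqn, zq2 := hzq2, Tq2 := hTq2
      ηe := hη, H1 := fun ζ h1 h2 => hg.H1 h1 h2, H2 := hg.H2 hη1 hη2
      H3 := fun ζ h1 => hg.H3 h1, Hc := hg.Hc, Hd := hg.Hd }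
  have hchain : ChainAt μ lam C S K ρ₀ P e F := by
    intro e' he' q r
    exact hch lam hlam0 hlamμ P ρ₀ hρ₀ F hF hF01 e e' he' q r
  have := one hgeo hg hP he hC hS1 hK hμ0 hμ1 hμ2 hlam0 hlamμ hlamB hlamQ hchain hf hfF hray hN hCs
    hβS hρ₀' (fun x hx => hGsaw x (hx.trans hρrho)) hM hs2
  exact this

/-- **III.3 + III.4 of T1-B** -/
theorem discEst_of (hB : Tilt620.LocalTilt) (hS : SawChain) : S5.DiscEst := by
  intro σ c A c₂ hσ hc hA hc2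
  obtain ⟨lam, hlam, C, hC, h⟩ := discEst_norm hB hS (σ := σ) (c := min c 1) (A := max A 1)
    (c₂ := min c₂ 1) hσ (lt_min hc one_pos) (min_le_right _ _) (le_max_right _ _)
    (lt_min hc2 one_pos) (min_le_right _ _)
  refine ⟨lam, hlam, C, hC, fun P hP hPv => ?_⟩
  obtain ⟨e, he, h'⟩ := h P hP hPv
  refine ⟨e, he, ?_⟩
  intro ρ₀ hρ₀ F hF hF01 f hf N Cs hN hCs hfF
  filter_upwards [h' ρ₀ hρ₀ F hF hF01 f hf N Cs hN hCs hfF] with s hs hray x hx1 hx2 hx3 hx4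
  refine hs hray x (hx1.trans (le_max_left _ _)) (hx2.trans (le_max_left _ _))
    ((min_le_left _ _).trans hx3) (hx4.trans ?_)
  refine mul_le_mul_of_nonneg_right ?_ (hc2.le.trans hx3)
  have := min_le_left c 1
  linarith

end Crest.Agent.R102.DiscT669
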