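import Crest.Agent.R102.RATDefs_926
import Crest.Agent.R102.Free_781

/-!
# Row 102, [H3], (RAT): leaf R2c (helper781)

`disp : DispStmt`: if the generators `m₀, k₀, b j, x j r` (`r ≥ 1`) are algebraically independent,
every family of displacements of the mirrors is realised by a derivation fixing the line `0`.
-/

set_option autoImplicit false

noncomputable section

namespace Crest.Agent.R102.RAT

variable {M : Type*} [Field M]

/-- the displacement of the vertex `j` along the mirror, from `(δ E_j, δ k_j)`. -/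
def bet (μ : ℕ → ℕ → M) (b : ℕ → M) (x : ℕ → ℕ → M) (E : ℕ → M) (j : ℕ) (p : M × M) : M :=
  (2 * E j * p.1 * b j + p.2 - μ j 0) / (x j 1 - E j ^ 2)

/-- `(δ E_j, δ k_j)` by recursion -/
def ek (μ : ℕ → ℕ → M) (b : ℕ → M) (x : ℕ → ℕ → M) (E : ℕ → M) : ℕ → M × M
  | 0 => (0, 0)
  | j + 1 =>
    let p := ek μ b x E j
    let β := bet μ b x E j p
    let ε := (μ j 1 + x j 2 * β - E (j + 1) * p.1) / E j
    (ε, μ j 0 + x j 1 * β - 2 * E (j + 1) * ε * b j - E (j + 1) ^ 2 * β)

theorem disp : DispStmt := by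
  intro M _ _ D₁ D₂ N b x E k hch hfree μ
  have hchar : CharZero M := charZero_of_injective_algebraMap (algebraMap ℂ M).injective
  obtain ⟨δ, hδ⟩ := Free781.exists_derivation _ hfree
    (Sum.elim (fun _ => 0) fun i : Fin N × ℕ =>
      if i.2 = 0 then bet μ b x E i.1 (ek μ b x E i.1)
      else μ i.1 i.2 + x i.1 (i.2 + 1) * bet μ b x E i.1 (ek μ b x E i.1))
  have h0 : δ (E 0 ^ 2) = 0 := hδ (Sum.inl 0)
  have hk0 : δ (k 0) = 0 := hδ (Sum.inl 1)
  have hE0 : δ (E 0) = 0 := by
    rw [Derivation.leibniz_pow] at h0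
    have hne : E 0 ≠ 0 := hch.E_ne 0 (Nat.zero_le _)
    simpa [hne] using h0
  have hb : ∀ j, j < N → δ (b j) = bet μ b x E j (ek μ b x E j) := by
    intro j hj
    have := hδ (Sum.inr (⟨j, hj⟩, 0))
    simpa using this
  have hx : ∀ j, j < N → ∀ r, δ (x j (r + 1)) = μ j (r + 1) + x j (r + 1 + 1) * δ (b j) := by
    intro j hj r
    have := hδ (Sum.inr (⟨j, hj⟩, r + 1))
    rw [hb j hj]
    simpa using this
  have key : ∀ j, j ≤ N → δ (E j) = (ek μ b x E j).1 ∧ δ (k j) = (ek μ b x E j).2 := by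
    intro j
    induction j with
    | zero => exact fun _ => ⟨hE0, hk0⟩
    | succ j ih =>
      intro hj
      obtain ⟨i1, i2⟩ := ih (by omega)
      have hjN : j < N := by omega
      have htr : x j 1 - E j ^ 2 ≠ 0 := sub_ne_zero.2 (hch.tr j hjN)
      have hEj : E j ≠ 0 := hch.E_ne j (by omega)
      have hβ := hb j hjN
      have hE : δ (E (j + 1)) = (ek μ b x E (j + 1)).1 := by
        have h1 := congrArg δ (hch.refl j hjN)
        rw [hx j hjN 0, Derivation.leibniz, i1, hβ] at h1
        simp only [smul_eq_mul] at h1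
        have h2 : (ek μ b x E (j + 1)).1 = (μ j 1 + x j 2 * bet μ b x E j (ek μ b x E j)
          - E (j + 1) * (ek μ b x E j).1) / E j := rfl
        rw [h2, eq_div_iff hEj]
        linear_combination h1
      refine ⟨hE, ?_⟩
      have h1 := congrArg δ (hch.inc' j hjN)
      have h3 := congrArg δ (hch.inc j hjN)
      rw [h3] at h1
      rw [map_add, map_add, Derivation.leibniz, Derivation.leibniz, Derivation.leibniz_pow,
        Derivation.leibniz_pow, hE, i1, i2, hβ] at h1
      simp only [smul_eq_mul, nsmul_eq_mul, Nat.cast_ofNat] at h1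
      have h4 : (ek μ b x E (j + 1)).2 = μ j 0 + x j 1 * bet μ b x E j (ek μ b x E j)
        - 2 * E (j + 1) * (ek μ b x E (j + 1)).1 * b j
        - E (j + 1) ^ 2 * bet μ b x E j (ek μ b x E j) := rfl
      have h5 : bet μ b x E j (ek μ b x E j) * (x j 1 - E j ^ 2)
          = 2 * E j * (ek μ b x E j).1 * b j + (ek μ b x E j).2 - μ j 0 := by
        rw [bet, div_mul_cancel₀ _ htr]
      rw [h4]
      linear_combination (-1 : M) * h1 - h5
  refine ⟨δ, hE0, hk0, fun j hj r => ?_⟩
  cases r with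
  | succ r => exact hx j hj r
  | zero =>
    obtain ⟨i1, i2⟩ := key j hj.le
    have htr : x j 1 - E j ^ 2 ≠ 0 := sub_ne_zero.2 (hch.tr j hj)
    have h3 := congrArg δ (hch.inc j hj)
    rw [map_add, Derivation.leibniz, Derivation.leibniz_pow, i1, i2, hb j hj] at h3
    simp only [smul_eq_mul, nsmul_eq_mul, Nat.cast_ofNat] at h3
    have h5 : bet μ b x E j (ek μ b x E j) * (x j 1 - E j ^ 2)
        = 2 * E j * (ek μ b x E j).1 * b j + (ek μ b x E j).2 - μ j 0 := by
      rw [bet, div_mul_cancel₀ _ htr]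
    rw [h3, hb j hj]
    linear_combination (-1 : M) * h5

end Crest.Agent.R102.RAT
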