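import Crest.Agent.R102.Four_821

/-!
Row 102, part (B), piece B2 (helper821): the divisor lemma on adapted domains.
-/

set_option autoImplicit false

open Set Filter Topology Metric Complex MeasureTheory
open scoped Real ContDiff

noncomputable section

namespace Crest.Agent.R102.B821

section Sine

lemma norm_cos_le (z : ℂ) : ‖Complex.cos z‖ ≤ Real.exp |z.im| := by
  rw [Complex.cos]
  rw [norm_div]
  have h1 : ‖Complex.exp (z * I)‖ ≤ Real.exp |z.im| := by
    rw [Complex.norm_exp]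
    apply Real.exp_le_exp.2
    simp only [Complex.mul_re, Complex.I_re, Complex.I_im, mul_zero, mul_one, zero_sub]
    exact neg_le_abs _
  have h2 : ‖Complex.exp (-z * I)‖ ≤ Real.exp |z.im| := by
    rw [Complex.norm_exp]
    apply Real.exp_le_exp.2
    simp only [Complex.mul_re, Complex.I_re, Complex.I_im, mul_zero, mul_one, zero_sub,
      Complex.neg_im, neg_neg]
    exact le_abs_self _
  have h3 := norm_add_le (Complex.exp (z * I)) (Complex.exp (-z * I))
  have h4 : ‖(2 : ℂ)‖ = 2 := by simp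
  rw [h4, div_le_iff₀ (by norm_num)]
  linarith

lemma norm_sin_le (z : ℂ) : ‖Complex.sin z‖ ≤ ‖z‖ * Real.exp |z.im| := by
  have hconv : Convex ℝ {w : ℂ | |w.im| ≤ |z.im|} := by
    have : {w : ℂ | |w.im| ≤ |z.im|} = Complex.imLm ⁻¹' (Icc (-|z.im|) |z.im|) := by
      ext w
      simp [abs_le]
    rw [this]
    exact (convex_Icc _ _).linear_preimage _
  have h1 := hconv.norm_image_sub_le_of_norm_deriv_le (f := Complex.sin) (C := Real.exp |z.im|)
    (fun x _ => Complex.differentiable_sin x)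
    (fun x hx => by
      rw [Complex.deriv_sin]
      exact (norm_cos_le x).trans (Real.exp_le_exp.2 hx))
    (x := 0) (y := z) (by simp) (by simp)
  simpa [mul_comm] using h1

/-- `sin (π z) / (π z)` -/
def sg (z : ℂ) : ℂ := dslope Complex.sin 0 (π * z)

lemma differentiable_sg : Differentiable ℂ sg := by
  have h : Differentiable ℂ (dslope Complex.sin 0) := by
    rw [← differentiableOn_univ, Complex.differentiableOn_dslope Filter.univ_mem,
      differentiableOn_univ]
    exact Complex.differentiable_sin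
  exact h.comp (by fun_prop)

lemma sg_mul (z : ℂ) : sg z * (π * z) = Complex.sin (π * z) := by
  have h := sub_smul_dslope Complex.sin 0 (π * z)
  rw [sub_zero, Complex.sin_zero, sub_zero, smul_eq_mul] at h
  unfold sg
  rw [← h]
  ring

lemma sg_zero : sg 0 = 1 := by
  unfold sg
  rw [mul_zero, dslope_same, Complex.deriv_sin, Complex.cos_zero]

lemma pi_ne : (π : ℂ) ≠ 0 := by exact_mod_cast Real.pi_ne_zero

lemma sg_int {m : ℤ} (hm : m ≠ 0) : sg m = 0 := by
  have h := sg_mul m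
  have h1 : Complex.sin (π * m) = 0 := by
    rw [mul_comm]
    exact Complex.sin_int_mul_pi m
  rw [h1] at h
  have h2 : (π * m : ℂ) ≠ 0 := mul_ne_zero pi_ne (by exact_mod_cast hm)
  exact (mul_eq_zero.1 h).resolve_right h2

lemma norm_sg_le (z : ℂ) : ‖sg z‖ ≤ Real.exp (π * |z.im|) := by
  by_cases hz : z = 0
  · subst hz
    rw [sg_zero]
    simp
  · have h := sg_mul z
    have h1 : (π * z : ℂ) ≠ 0 := mul_ne_zero pi_ne hz
    have h2 := norm_sin_le (π * z)
    rw [← h, norm_mul, mul_comm] at h2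
    have h3 : 0 < ‖(π * z : ℂ)‖ := norm_pos_iff.2 h1
    have h4 := le_of_mul_le_mul_left h2 h3
    have h5 : |(π * z : ℂ).im| = π * |z.im| := by
      have : (π * z : ℂ).im = π * z.im := by simp
      rw [this, abs_mul, abs_of_pos Real.pi_pos]
    rwa [h5] at h4

lemma sg_eq_zero {z : ℂ} (h : sg z = 0) : ∃ m : ℤ, m ≠ 0 ∧ z = m := by
  have h1 := sg_mul z
  rw [h, zero_mul] at h1
  obtain ⟨m, hm⟩ := Complex.sin_eq_zero_iff.1 h1.symm
  have h2 : z = m := by
    have := pi_ne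
    apply mul_left_cancel₀ this
    rw [hm]; ring
  refine ⟨m, ?_, h2⟩
  rintro rfl
  rw [h2] at h
  simp [sg_zero] at h

lemma norm_sin_pi_shift (z : ℂ) (m : ℤ) :
    ‖Complex.sin (π * z)‖ = ‖Complex.sin (π * (z - m))‖ := by
  have e1 : (π * z : ℂ) = π * (z - m) + m * π := by ring
  conv_lhs => rw [e1]
  rw [Complex.sin_add, Complex.sin_int_mul_pi, mul_zero, add_zero, norm_mul]
  have h1 := Complex.sin_sq_add_cos_sq (m * π)
  rw [Complex.sin_int_mul_pi] at h1
  have h2 : ‖Complex.cos (m * π)‖ ^ 2 = 1 := by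
    rw [← norm_pow]
    have : Complex.cos (m * π) ^ 2 = 1 := by linear_combination h1
    rw [this, norm_one]
  have h3 : ‖Complex.cos (m * π)‖ = 1 := by
    have := norm_nonneg (Complex.cos (m * π))
    nlinarith
  rw [h3, mul_one]

lemma normSq_sin_pi (u y : ℝ) : ‖Complex.sin (π * ((u : ℂ) + y * I))‖ ^ 2 =
    Real.sin (π * u) ^ 2 * Real.cosh (π * y) ^ 2 + Real.cos (π * u) ^ 2 * Real.sinh (π * y) ^ 2 := by
  have e1 : (π * ((u : ℂ) + y * I) : ℂ) = ((π * u : ℝ) : ℂ) + ((π * y : ℝ) : ℂ) * I := by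
    push_cast
    ring
  rw [e1, Complex.sin_add_mul_I, ← Complex.normSq_eq_norm_sq]
  have e2 : Complex.sin ((π * u : ℝ) : ℂ) * Complex.cosh ((π * y : ℝ) : ℂ) +
      Complex.cos ((π * u : ℝ) : ℂ) * Complex.sinh ((π * y : ℝ) : ℂ) * I =
      ((Real.sin (π * u) * Real.cosh (π * y) : ℝ) : ℂ) +
      ((Real.cos (π * u) * Real.sinh (π * y) : ℝ) : ℂ) * I := by
    push_cast
    ring
  rw [e2, Complex.normSq_add_mul_I]
  ring

/-- lower bound for the sine away from the integers -/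
lemma sin_lower {z : ℂ} {lam : ℝ} (h0 : 0 < lam) (h1 : lam ≤ 1)
    (h : ∀ m : ℤ, lam / 8 ≤ ‖z - m‖) :
    lam / 64 * Real.exp (π * |z.im|) ≤ ‖Complex.sin (π * z)‖ := by
  set m : ℤ := round z.re with hm
  set u : ℝ := z.re - m with hu
  have hu1 : |u| ≤ 1 / 2 := abs_sub_round z.re
  set y : ℝ := z.im with hy
  have hpi := Real.pi_pos
  have hpi3 := Real.pi_gt_three
  have hz : z - m = (u : ℂ) + y * I := by
    rw [hu, hy]
    conv_lhs => rw [← Complex.re_add_im z]
    push_cast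
    ring
  rw [norm_sin_pi_shift z m, hz]
  have hsin := normSq_sin_pi u y
  set S := ‖Complex.sin (π * ((u : ℂ) + y * I))‖ with hS
  have hS0 : 0 ≤ S := norm_nonneg _
  have hcase : lam / 16 ≤ |u| ∨ lam / 16 ≤ |y| := by
    by_contra hcon
    rw [not_or, not_le, not_le] at hcon
    have h2 := h m
    have h3 : ‖z - m‖ ≤ |u| + |y| := by
      have := Complex.norm_le_abs_re_add_abs_im (z - m)
      simpa [hu, hy] using this
    linarith [hcon.1, hcon.2]
  have hy0 : 0 ≤ |y| := abs_nonneg y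
  rcases hcase with hc | hc
  · -- horizontal distance
    have h4 : 2 * |u| ≤ |Real.sin (π * u)| := by
      have h5 : |π * u| ≤ π / 2 := by
        rw [abs_mul, abs_of_pos hpi]
        nlinarith
      have h6 := Real.mul_abs_le_abs_sin h5
      rw [abs_mul, abs_of_pos hpi] at h6
      have h7 : 2 / π * (π * |u|) = 2 * |u| := by field_simp
      rwa [h7] at h6
    have h8 : Real.exp (π * |y|) / 2 ≤ Real.cosh (π * y) := by
      have h9 : Real.cosh (π * y) = Real.cosh (π * |y|) := by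
        rw [← Real.cosh_abs (π * y), abs_mul, abs_of_pos hpi]
      rw [h9, Real.cosh_eq]
      have := Real.exp_pos (-(π * |y|))
      linarith
    have h10 : (|u| * Real.exp (π * |y|)) ^ 2 ≤ S ^ 2 := by
      rw [hsin]
      have h11 : (|u| * Real.exp (π * |y|)) ≤ |Real.sin (π * u)| * Real.cosh (π * y) := by
        have h12 : |u| * Real.exp (π * |y|) = (2 * |u|) * (Real.exp (π * |y|) / 2) := by ring
        rw [h12]
        exact mul_le_mul h4 h8 (by positivity) (abs_nonneg _)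
      have h13 : (|u| * Real.exp (π * |y|)) ^ 2 ≤ (|Real.sin (π * u)| * Real.cosh (π * y)) ^ 2 :=
        pow_le_pow_left₀ (by positivity) h11 2
      have h16 : (|Real.sin (π * u)| * Real.cosh (π * y)) ^ 2 =
          Real.sin (π * u) ^ 2 * Real.cosh (π * y) ^ 2 := by rw [mul_pow, sq_abs]
      have h14 : 0 ≤ Real.cos (π * u) ^ 2 * Real.sinh (π * y) ^ 2 := by positivity
      linarith
    have h15 : |u| * Real.exp (π * |y|) ≤ S := le_of_sq_le_sq h10 hS0
    refine le_trans ?_ h15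
    exact mul_le_mul_of_nonneg_right (by linarith) (Real.exp_nonneg _)
  · -- vertical distance
    have h4 : (Real.sinh (π * |y|)) ^ 2 ≤ S ^ 2 := by
      rw [hsin]
      have h5 : Real.sinh (π * |y|) ^ 2 = Real.sinh (π * y) ^ 2 := by
        rcases abs_choice y with h | h <;> rw [h]
        rw [mul_neg, Real.sinh_neg, neg_sq]
      rw [h5]
      have h6 := Real.cosh_sq (π * y)
      have h7 := Real.sin_sq_add_cos_sq (π * u)
      rw [h6]
      have h8 := sq_nonneg (Real.sin (π * u))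
      nlinarith
    have h5 : Real.sinh (π * |y|) ≤ S := le_of_sq_le_sq h4 hS0
    refine le_trans ?_ h5
    set s := π * |y| with hs
    have hs1 : lam / 16 ≤ s := by
      rw [hs]; nlinarith
    rw [Real.sinh_eq]
    have h6 : Real.exp (-s) = Real.exp s * Real.exp (-(2 * s)) := by
      rw [← Real.exp_add]; congr 1; ring
    rw [h6]
    have h7 : Real.exp (-(2 * s)) ≤ 1 - lam / 32 := by
      have h8 : 1 + 2 * s ≤ Real.exp (2 * s) := by
        have := Real.add_one_le_exp (2 * s)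
        linarith
      have h9 : Real.exp (-(2 * s)) * Real.exp (2 * s) = 1 := by
        rw [← Real.exp_add]; simp
      have h10 := Real.exp_pos (-(2 * s))
      have h11 : Real.exp (-(2 * s)) * (1 + lam / 8) ≤ 1 := by
        have : 1 + lam / 8 ≤ Real.exp (2 * s) := by linarith
        calc Real.exp (-(2 * s)) * (1 + lam / 8) ≤ Real.exp (-(2 * s)) * Real.exp (2 * s) := by
              exact mul_le_mul_of_nonneg_left this h10.le
          _ = 1 := h9
      by_contra hcon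
      rw [not_le] at hcon
      nlinarith
    have h8 := Real.exp_pos s
    nlinarith

/-- circles staying away from the integers -/
lemma good_radius (z : ℂ) {lam : ℝ} (h0 : 0 < lam) (h1 : lam ≤ 1) :
    ∃ R : ℝ, 0 < R ∧ R ≤ 3 / 8 * lam ∧ ∀ z' : ℂ, ‖z' - z‖ = R → ∀ m : ℤ, lam / 8 ≤ ‖z' - m‖ := by
  set m0 : ℤ := round z.re with hm
  have hu1 : |z.re - m0| ≤ 1 / 2 := abs_sub_round z.re
  have hother : ∀ m : ℤ, m ≠ m0 → 1 / 2 ≤ ‖z - m‖ := by
    intro m hmm
    have h2 : |z.re - m| ≤ ‖z - m‖ := by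
      have := Complex.abs_re_le_norm (z - m)
      simpa using this
    have h3 : (1 : ℝ) ≤ |((m : ℝ) - m0)| := by
      have : (1 : ℤ) ≤ |m - m0| := Int.one_le_abs (sub_ne_zero.2 hmm)
      exact_mod_cast this
    have h4 : |((m : ℝ) - m0)| ≤ |z.re - m| + |z.re - m0| := by
      have : ((m : ℝ) - m0) = (z.re - m0) - (z.re - m) := by ring
      rw [this]
      have := abs_sub (z.re - m0) (z.re - m)
      linarith
    linarith
  by_cases hc : ‖z - m0‖ < lam / 4
  · refine ⟨3 / 8 * lam, by linarith, le_refl _, fun z' hz' m => ?_⟩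
    by_cases hmm : m = m0
    · subst hmm
      have h5 : ‖z' - z‖ ≤ ‖z' - (m0 : ℂ)‖ + ‖z - m0‖ := by
        have : z' - z = (z' - m0) - (z - m0) := by ring
        rw [this]; exact norm_sub_le _ _
      rw [hz'] at h5
      linarith
    · have h6 := hother m hmm
      have h5 : ‖z - m‖ ≤ ‖z' - (m : ℂ)‖ + ‖z' - z‖ := by
        have : z - m = (z' - m) - (z' - z) := by ring
        rw [this]; exact norm_sub_le _ _
      rw [hz'] at h5
      linarith
  · rw [not_lt] at hc
    refine ⟨lam / 8, by linarith, by linarith, fun z' hz' m => ?_⟩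
    have h5 : ‖z - m‖ ≤ ‖z' - (m : ℂ)‖ + ‖z' - z‖ := by
      have : z - m = (z' - m) - (z' - z) := by ring
      rw [this]; exact norm_sub_le _ _
    rw [hz'] at h5
    by_cases hmm : m = m0
    · subst hmm; linarith
    · have h6 := hother m hmm
      linarith

end Sine

section CoefLemma

/-- LEMMA Q: division of one Fourier coefficient by `2 i sin (π n w) / w`, with bounds -/
theorem coef_quotient_bound {n : ℤ} (hn : n ≠ 0) {k ρ r d B : ℝ} (hk0 : 0 ≤ k) (hk1 : k ≤ 1)
    (hr : r ≤ 1) (hd : 0 < d) (hd1 : d ≤ 1) (hB : 0 ≤ B) {S G : ℂ → ℂ}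
    (hS : DifferentiableOn ℂ S (ball 0 r))
    (hSG : ∀ w : ℂ, ‖w‖ < r → 2 * I * Complex.sin (π * n * w) * S w = w * G w)
    (hG : ∀ w : ℂ, ‖w‖ < r → ‖G w‖ ≤
      B * Real.exp (-(2 * π * |(n : ℝ)| * (ρ - (k + 1 / 2) * |w.im|))))
    {w : ℂ} (hw : ‖w‖ < r - d) :
    ‖S w‖ ≤ 672 / d * B * Real.exp (-(2 * π * |(n : ℝ)| * (ρ - k * |w.im|))) := by
  have hpi := Real.pi_pos
  have hn1 : (1 : ℝ) ≤ |(n : ℝ)| := by exact_mod_cast Int.one_le_abs hn
  have hn0 : (0 : ℝ) < |(n : ℝ)| := by linarith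
  set lam : ℝ := min 1 (|(n : ℝ)| * d) with hlam
  have hlam0 : 0 < lam := lt_min one_pos (by positivity)
  have hlam1 : lam ≤ 1 := min_le_left _ _
  have hlam2 : lam ≤ |(n : ℝ)| * d := min_le_right _ _
  have hlamd : d ≤ lam := le_min hd1 (by nlinarith)
  obtain ⟨R, hR0, hR1, hR⟩ := good_radius ((n : ℂ) * w) hlam0 hlam1
  set τ : ℝ := R / |(n : ℝ)| with hτ
  have hτ0 : 0 < τ := by positivity
  have hτd : τ < d := by
    rw [hτ, div_lt_iff₀ hn0]
    nlinarith
  have hball : closedBall w τ ⊆ ball 0 r := by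
    intro z hz
    rw [mem_closedBall, dist_eq_norm] at hz
    rw [mem_ball_zero_iff]
    have : ‖z‖ ≤ ‖z - w‖ + ‖w‖ := by
      have := norm_add_le (z - w) w
      simpa using this
    linarith
  have hdc : DiffContOnCl ℂ S (ball w τ) := by
    refine (hS.mono hball).diffContOnCl_ball subset_rfl
  have hexp3 : Real.exp (3 * π / 4 * 1) ≤ 21 := by
    have h1 : Real.exp (3 * π / 4 * 1) ≤ Real.exp 3 := by
      apply Real.exp_le_exp.2
      have := Real.pi_lt_d2
      linarith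
    have h2 : Real.exp 3 = Real.exp 1 ^ 3 := by
      rw [← Real.exp_nat_mul]; norm_num
    have h3 := Real.exp_one_lt_d9
    have h4 := Real.exp_pos 1
    have h5 : Real.exp 1 ^ 3 ≤ (2.7182818286 : ℝ) ^ 3 := pow_le_pow_left₀ h4.le h3.le 3
    have h6 : (2.7182818286 : ℝ) ^ 3 ≤ 21 := by norm_num
    linarith
  have hbound : ∀ z ∈ frontier (ball w τ), ‖S z‖ ≤
      672 / d * B * Real.exp (-(2 * π * |(n : ℝ)| * (ρ - k * |w.im|))) := by
    intro z hz
    rw [frontier_ball w hτ0.ne', mem_sphere, dist_eq_norm] at hz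
    have hzr : ‖z‖ < r := by
      have : z ∈ closedBall w τ := by rw [mem_closedBall, dist_eq_norm]; exact hz.le
      simpa using hball this
    have h1 : ‖(n : ℂ) * z - (n : ℂ) * w‖ = R := by
      rw [← mul_sub, norm_mul, hz, hτ]
      have : ‖(n : ℂ)‖ = |(n : ℝ)| := by simp
      rw [this]
      field_simp
    have h2 := sin_lower hlam0 hlam1 (hR _ h1)
    have h3 := congrArg norm (hSG z hzr)
    have h4 : Complex.sin (π * n * z) = Complex.sin (π * (n * z)) := by congr 1; ring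
    rw [h4, norm_mul, norm_mul, norm_mul, norm_mul, Complex.norm_I, mul_one] at h3
    have h5 : ‖(2 : ℂ)‖ = 2 := by simp
    rw [h5] at h3
    have h6 := hG z hzr
    have h7 : |((n : ℂ) * z).im| = |(n : ℝ)| * |z.im| := by
      have : ((n : ℂ) * z).im = n * z.im := by simp
      rw [this, abs_mul]
    rw [h7] at h2
    have h8 : |z.im| ≤ |w.im| + τ := by
      have h9 : |z.im - w.im| ≤ τ := by
        have := Complex.abs_im_le_norm (z - w)
        rw [hz] at this
        simpa using this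
      have := abs_sub_abs_le_abs_sub z.im w.im
      linarith
    have h10 : |(n : ℝ)| * |z.im| ≤ |(n : ℝ)| * |w.im| + 3 / 8 := by
      have h11 : |(n : ℝ)| * τ = R := by rw [hτ]; field_simp
      nlinarith
    -- combine
    have hS1 : lam / 32 * Real.exp (π * (|(n : ℝ)| * |z.im|)) * ‖S z‖ ≤
        B * Real.exp (-(2 * π * |(n : ℝ)| * (ρ - (k + 1 / 2) * |z.im|))) := by
      calc lam / 32 * Real.exp (π * (|(n : ℝ)| * |z.im|)) * ‖S z‖
          = 2 * (lam / 64 * Real.exp (π * (|(n : ℝ)| * |z.im|))) * ‖S z‖ := by ring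
        _ ≤ 2 * ‖Complex.sin (π * (n * z))‖ * ‖S z‖ := by
            gcongr
        _ = ‖z‖ * ‖G z‖ := h3
        _ ≤ 1 * ‖G z‖ := by
            refine mul_le_mul_of_nonneg_right ?_ (norm_nonneg _)
            linarith
        _ ≤ _ := by rw [one_mul]; exact h6
    have h12 : B * Real.exp (-(2 * π * |(n : ℝ)| * (ρ - (k + 1 / 2) * |z.im|))) ≤
        (B * (21 * Real.exp (-(2 * π * |(n : ℝ)| * (ρ - k * |w.im|))))) *
          Real.exp (π * (|(n : ℝ)| * |z.im|)) := by
      rw [mul_assoc B, mul_assoc (21 : ℝ), ← Real.exp_add]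
      refine mul_le_mul_of_nonneg_left ?_ hB
      refine le_trans ?_ (mul_le_mul_of_nonneg_right hexp3 (Real.exp_nonneg _))
      rw [← Real.exp_add]
      apply Real.exp_le_exp.2
      have h13 : k * (|(n : ℝ)| * |z.im|) ≤ k * (|(n : ℝ)| * |w.im|) + 3 / 8 * 1 := by
        have h14 := mul_le_mul_of_nonneg_left h10 hk0
        nlinarith
      have h15 := mul_le_mul_of_nonneg_left h13 (by positivity : (0 : ℝ) ≤ 2 * π)
      nlinarith
    have h16 : lam / 32 * ‖S z‖ ≤ B * (21 * Real.exp (-(2 * π * |(n : ℝ)| * (ρ - k * |w.im|)))) := by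
      have h17 := hS1.trans h12
      have h18 := Real.exp_pos (π * (|(n : ℝ)| * |z.im|))
      have h19 : (lam / 32 * ‖S z‖) * Real.exp (π * (|(n : ℝ)| * |z.im|)) ≤
          (B * (21 * Real.exp (-(2 * π * |(n : ℝ)| * (ρ - k * |w.im|))))) *
          Real.exp (π * (|(n : ℝ)| * |z.im|)) := by
        calc _ = lam / 32 * Real.exp (π * (|(n : ℝ)| * |z.im|)) * ‖S z‖ := by ring
          _ ≤ _ := h17
      exact le_of_mul_le_mul_right h19 h18
    have h20 : d / 32 * ‖S z‖ ≤ B * (21 * Real.exp (-(2 * π * |(n : ℝ)| * (ρ - k * |w.im|)))) := by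
      refine le_trans ?_ h16
      gcongr
    have h21 : ‖S z‖ = (32 / d) * (d / 32 * ‖S z‖) := by field_simp
    rw [h21]
    calc (32 / d) * (d / 32 * ‖S z‖)
        ≤ (32 / d) * (B * (21 * Real.exp (-(2 * π * |(n : ℝ)| * (ρ - k * |w.im|))))) := by
          gcongr
      _ = _ := by ring
  exact Complex.norm_le_of_forall_mem_frontier_norm_le isBounded_ball hdc hbound
    (subset_closure (mem_ball_self hτ0))

/-- holomorphic quotients by a function with simple zeros -/
theorem exists_holo_quotient {U : Set ℂ} (hU : IsOpen U) {f q : ℂ → ℂ}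
    (hf : DifferentiableOn ℂ f U) (hq : DifferentiableOn ℂ q U)
    (h : ∀ z ∈ U, q z = 0 → f z = 0 ∧ deriv q z ≠ 0) :
    ∃ S : ℂ → ℂ, DifferentiableOn ℂ S U ∧ ∀ z ∈ U, f z = q z * S z := by
  classical
  refine ⟨fun z => if q z = 0 then deriv f z / deriv q z else f z / q z, ?_, ?_⟩
  · intro z0 hz0
    refine DifferentiableAt.differentiableWithinAt ?_
    by_cases hqz : q z0 = 0
    · obtain ⟨hfz, hdq⟩ := h z0 hz0 hqz
      have hU0 : U ∈ 𝓝 z0 := hU.mem_nhds hz0
      have h1 : DifferentiableAt ℂ (dslope f z0) z0 :=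
        ((Complex.differentiableOn_dslope hU0).2 hf).differentiableAt hU0
      have h2 : DifferentiableAt ℂ (dslope q z0) z0 :=
        ((Complex.differentiableOn_dslope hU0).2 hq).differentiableAt hU0
      have h3 : dslope q z0 z0 ≠ 0 := by rwa [dslope_same]
      have h4 : DifferentiableAt ℂ (fun z => dslope f z0 z / dslope q z0 z) z0 := h1.div h2 h3
      refine h4.congr_of_eventuallyEq ?_
      have h5 : ∀ᶠ z in 𝓝 z0, dslope q z0 z ≠ 0 := h2.continuousAt.eventually_ne h3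
      filter_upwards [h5] with z hz
      by_cases hzz : z = z0
      · subst hzz
        rw [if_pos hqz, dslope_same, dslope_same]
      · have h6 : q z = (z - z0) * dslope q z0 z := by
          have := sub_smul_dslope q z0 z
          rw [hqz, sub_zero, smul_eq_mul] at this
          exact this.symm
        have h7 : f z = (z - z0) * dslope f z0 z := by
          have := sub_smul_dslope f z0 z
          rw [hfz, sub_zero, smul_eq_mul] at this
          exact this.symm
        have h8 : z - z0 ≠ 0 := sub_ne_zero.2 hzz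
        have h9 : q z ≠ 0 := by rw [h6]; exact mul_ne_zero h8 hz
        rw [if_neg h9]
        rw [h7, h6, mul_div_mul_left _ _ h8]
    · have h1 := (hf.differentiableAt (hU.mem_nhds hz0)).div
        (hq.differentiableAt (hU.mem_nhds hz0)) hqz
      refine h1.congr_of_eventuallyEq ?_
      filter_upwards [(hq.continuousOn.continuousAt (hU.mem_nhds hz0)).eventually_ne hqz] with z hz
      rw [if_neg hz]
      rfl
  · intro z hz
    by_cases hqz : q z = 0
    · simp only [hqz, if_true]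
      rw [(h z hz hqz).1, zero_mul]
    · simp only [hqz, if_false]
      field_simp

/-- the multiplier `2 i sin (π n w) / w` -/
def mq (n : ℤ) (w : ℂ) : ℂ := 2 * π * I * n * sg (n * w)

lemma differentiable_mq (n : ℤ) : Differentiable ℂ (mq n) :=
  (differentiable_sg.comp (by fun_prop : Differentiable ℂ (fun w : ℂ => (n : ℂ) * w))).const_mul _

lemma mq_mul (n : ℤ) (w : ℂ) : mq n w * w = 2 * I * Complex.sin (π * n * w) := by
  have h := sg_mul (n * w)
  have e : (π * n * w : ℂ) = π * (n * w) := by ring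
  unfold mq
  rw [e, ← h]
  ring

lemma mq_eq_zero {n : ℤ} (hn : n ≠ 0) {w : ℂ} (h : mq n w = 0) :
    ∃ j : ℤ, j ≠ 0 ∧ w = j / n := by
  have hn' : (n : ℂ) ≠ 0 := by exact_mod_cast hn
  have h1 : sg (n * w) = 0 := by
    unfold mq at h
    have h2 : (2 * π * I * n : ℂ) ≠ 0 := by
      simp [hn', Complex.I_ne_zero]
    exact (mul_eq_zero.1 h).resolve_left h2
  obtain ⟨j, hj, hj2⟩ := sg_eq_zero h1
  refine ⟨j, hj, ?_⟩
  rw [← hj2]
  field_simp

lemma deriv_mq {n : ℤ} (hn : n ≠ 0) {j : ℤ} (hj : j ≠ 0) : deriv (mq n) ((j : ℂ) / n) ≠ 0 := by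
  have hn' : (n : ℂ) ≠ 0 := by exact_mod_cast hn
  have hj' : (j : ℂ) ≠ 0 := by exact_mod_cast hj
  set w : ℂ := (j : ℂ) / n with hw
  have hw0 : w ≠ 0 := div_ne_zero hj' hn'
  have h0 : mq n w = 0 := by
    unfold mq
    have : (n : ℂ) * w = j := by rw [hw]; field_simp
    rw [this, sg_int hj, mul_zero]
  have h1 : HasDerivAt (fun z => mq n z * z) (deriv (mq n) w * w + mq n w * 1) w :=
    (differentiable_mq n w).hasDerivAt.mul (hasDerivAt_id w)
  have h2 : HasDerivAt (fun z : ℂ => 2 * I * Complex.sin (π * n * z))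
      (2 * I * (Complex.cos (π * n * w) * (π * n))) w := by
    have h3 : HasDerivAt (fun z : ℂ => π * n * z) (π * n) w := by
      simpa using (hasDerivAt_id w).const_mul (π * n : ℂ)
    exact (h3.csin).const_mul _
  have h4 : (fun z => mq n z * z) = fun z : ℂ => 2 * I * Complex.sin (π * n * z) := by
    ext z; exact mq_mul n z
  rw [h4] at h1
  have h5 := h1.unique h2
  rw [h0, zero_mul, add_zero] at h5
  intro h6
  rw [h6, zero_mul] at h5
  have h7 : Complex.cos (π * n * w) ≠ 0 := by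
    have e : (π * n * w : ℂ) = j * π := by rw [hw]; field_simp
    rw [e]
    intro h8
    have h9 := Complex.sin_sq_add_cos_sq (j * π)
    rw [h8, Complex.sin_int_mul_pi] at h9
    simp at h9
  have h8 : (2 * I * (Complex.cos (π * n * w) * (π * n)) : ℂ) ≠ 0 := by
    simp [hn', Complex.I_ne_zero, h7]
  exact h8 h5.symm

/-- the set of interpolation nodes -/
def nodes (r : ℝ) (n : ℤ) : Finset ℤ :=
  (Finset.Icc (-|n|) |n|).filter (fun j => j ≠ 0 ∧ |(j : ℝ) / n| < r)

lemma mem_nodes {r : ℝ} (hr : r ≤ 1) {n : ℤ} (hn : n ≠ 0) {j : ℤ} :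
    j ∈ nodes r n ↔ j ≠ 0 ∧ |(j : ℝ) / n| < r := by
  unfold nodes
  rw [Finset.mem_filter, Finset.mem_Icc]
  constructor
  · exact fun h => h.2
  · intro h
    refine ⟨?_, h⟩
    have hn' : (0 : ℝ) < |(n : ℝ)| := by
      rw [abs_pos]; exact_mod_cast hn
    have h1 := h.2
    rw [abs_div, div_lt_iff₀ hn'] at h1
    have h2 : |(j : ℝ)| ≤ |(n : ℝ)| := by nlinarith
    have h3 : |j| ≤ |n| := by exact_mod_cast h2
    exact abs_le.1 h3

lemma card_nodes_le (r : ℝ) {n : ℤ} (hn : n ≠ 0) : ((nodes r n).card : ℝ) ≤ 3 * |(n : ℝ)| := by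
  have h1 : (nodes r n).card ≤ (Finset.Icc (-|n|) |n|).card := Finset.card_filter_le _ _
  rw [Int.card_Icc] at h1
  have h2 : ((|n| + 1 - -|n|).toNat : ℤ) = 2 * |n| + 1 := by
    rw [Int.toNat_of_nonneg (by have := abs_nonneg n; linarith)]; ring
  have h3 : ((nodes r n).card : ℤ) ≤ 2 * |n| + 1 := by
    rw [← h2]; exact_mod_cast h1
  have h4 : (1 : ℤ) ≤ |n| := Int.one_le_abs hn
  have h5 : ((nodes r n).card : ℤ) ≤ 3 * |n| := by linarith
  exact_mod_cast h5

/-- interpolation at the nodes -/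
def interp (r : ℝ) (n : ℤ) (G : ℂ → ℂ) (w : ℂ) : ℂ :=
  ∑ j ∈ nodes r n, G ((j : ℂ) / n) * sg (n * w - j)

lemma differentiable_interp (r : ℝ) (n : ℤ) (G : ℂ → ℂ) : Differentiable ℂ (interp r n G) := by
  unfold interp
  refine Differentiable.fun_sum (fun j _ => ?_)
  exact (differentiable_sg.comp (by fun_prop : Differentiable ℂ (fun w : ℂ => (n : ℂ) * w - j))).const_mul _

lemma interp_node {r : ℝ} {n : ℤ} (hn : n ≠ 0) (G : ℂ → ℂ) {i : ℤ} (hi : i ∈ nodes r n) :
    interp r n G ((i : ℂ) / n) = G ((i : ℂ) / n) := by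
  have hn' : (n : ℂ) ≠ 0 := by exact_mod_cast hn
  unfold interp
  rw [Finset.sum_eq_single i]
  · have : (n : ℂ) * (i / n) - i = 0 := by field_simp; ring
    rw [this, sg_zero, mul_one]
  · intro j _ hj
    have : (n : ℂ) * (i / n) - j = ((i - j : ℤ) : ℂ) := by push_cast; field_simp
    rw [this, sg_int (sub_ne_zero.2 (Ne.symm hj)), mul_zero]
  · intro h; exact absurd hi h

lemma norm_interp_le {r ρ η : ℝ} {n : ℤ} (hn : n ≠ 0) {G : ℂ → ℂ} (hη : 0 ≤ η)
    (hG : ∀ j ∈ nodes r n, ‖G ((j : ℂ) / n)‖ ≤ η * Real.exp (-(2 * π * |(n : ℝ)| * ρ))) (w : ℂ) :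
    ‖interp r n G w‖ ≤ 3 * |(n : ℝ)| * η *
      Real.exp (-(2 * π * |(n : ℝ)| * (ρ - 1 / 2 * |w.im|))) := by
  unfold interp
  refine (norm_sum_le _ _).trans ?_
  have h1 : ∀ j ∈ nodes r n, ‖G ((j : ℂ) / n) * sg (n * w - j)‖ ≤
      η * Real.exp (-(2 * π * |(n : ℝ)| * (ρ - 1 / 2 * |w.im|))) := by
    intro j hj
    rw [norm_mul]
    have h2 := norm_sg_le (n * w - j)
    have h3 : |((n : ℂ) * w - j).im| = |(n : ℝ)| * |w.im| := by
      have : ((n : ℂ) * w - j).im = n * w.im := by simp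
      rw [this, abs_mul]
    rw [h3] at h2
    calc ‖G ((j : ℂ) / n)‖ * ‖sg (n * w - j)‖
        ≤ (η * Real.exp (-(2 * π * |(n : ℝ)| * ρ))) * Real.exp (π * (|(n : ℝ)| * |w.im|)) :=
          mul_le_mul (hG j hj) h2 (norm_nonneg _) (by positivity)
      _ = η * Real.exp (-(2 * π * |(n : ℝ)| * (ρ - 1 / 2 * |w.im|))) := by
          rw [mul_assoc, ← Real.exp_add]
          congr 2
          ring
  refine (Finset.sum_le_sum h1).trans ?_
  rw [Finset.sum_const, nsmul_eq_mul]
  have h2 := card_nodes_le r hn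
  calc ((nodes r n).card : ℝ) * (η * Real.exp (-(2 * π * |(n : ℝ)| * (ρ - 1 / 2 * |w.im|))))
      ≤ (3 * |(n : ℝ)|) * (η * Real.exp (-(2 * π * |(n : ℝ)| * (ρ - 1 / 2 * |w.im|)))) :=
        mul_le_mul_of_nonneg_right h2 (by positivity)
    _ = _ := by ring

/-- one Fourier coefficient of the divisor lemma -/
theorem coef_divisor {n : ℤ} (hn : n ≠ 0) {k ρ r d B η : ℝ} (hk0 : 0 ≤ k) (hk1 : k ≤ 1)
    (hr : r ≤ 1) (hd : 0 < d) (hd1 : d ≤ 1) (hB : 0 ≤ B) (hη : 0 ≤ η) {G : ℂ → ℂ}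
    (hGd : DifferentiableOn ℂ G (ball 0 r))
    (hG : ∀ w : ℂ, ‖w‖ < r → ‖G w‖ ≤
      B * Real.exp (-(2 * π * |(n : ℝ)| * (ρ - (k + 1 / 2) * |w.im|))))
    (hres : ∀ j : ℤ, j ≠ 0 → |(j : ℝ) / n| < r →
      ‖G ((j : ℂ) / n)‖ ≤ η * Real.exp (-(2 * π * |(n : ℝ)| * ρ))) :
    ∃ S c : ℂ → ℂ, DifferentiableOn ℂ S (ball 0 r) ∧ Differentiable ℂ c ∧
      (∀ w : ℂ, ‖w‖ < r → w * G w = 2 * I * Complex.sin (π * n * w) * S w + w * c w) ∧
      (∀ w : ℂ, ‖c w‖ ≤ 3 * |(n : ℝ)| * η *
        Real.exp (-(2 * π * |(n : ℝ)| * (ρ - 1 / 2 * |w.im|)))) ∧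
      (∀ w : ℂ, ‖w‖ < r - d → ‖S w‖ ≤ 672 / d * (B + 3 * |(n : ℝ)| * η) *
        Real.exp (-(2 * π * |(n : ℝ)| * (ρ - k * |w.im|)))) := by
  have hc := norm_interp_le (r := r) (ρ := ρ) (G := G) hn hη (fun j hj => by
    have := (mem_nodes hr hn).1 hj
    exact hres j this.1 this.2)
  obtain ⟨S, hS1, hS2⟩ := exists_holo_quotient (U := ball (0 : ℂ) r) isOpen_ball
    (f := fun w => G w - interp r n G w) (q := mq n)
    (hGd.sub (differentiable_interp r n G).differentiableOn)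
    (differentiable_mq n).differentiableOn
    (by
      intro z hz hqz
      obtain ⟨j, hj, hzj⟩ := mq_eq_zero hn hqz
      subst hzj
      refine ⟨?_, deriv_mq hn hj⟩
      have h1 : |(j : ℝ) / n| < r := by
        rw [mem_ball_zero_iff] at hz
        have : ‖(j : ℂ) / n‖ = |(j : ℝ) / n| := by
          rw [norm_div, abs_div]; simp
        rwa [this] at hz
      rw [interp_node hn G ((mem_nodes hr hn).2 ⟨hj, h1⟩), sub_self])
  have hid : ∀ w : ℂ, ‖w‖ < r →
      2 * I * Complex.sin (π * n * w) * S w = w * (G w - interp r n G w) := by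
    intro w hw
    rw [hS2 w (by simpa using hw), ← mq_mul]
    ring
  refine ⟨S, interp r n G, hS1, differentiable_interp r n G, ?_, hc, ?_⟩
  · intro w hw
    rw [hid w hw]
    ring
  · intro w hw
    refine coef_quotient_bound hn hk0 hk1 hr hd hd1 (by positivity) hS1 hid ?_ hw
    intro z hz
    refine (norm_sub_le _ _).trans ?_
    have h1 := hG z hz
    have h2 := hc z
    have h3 : 3 * |(n : ℝ)| * η * Real.exp (-(2 * π * |(n : ℝ)| * (ρ - 1 / 2 * |z.im|))) ≤
        3 * |(n : ℝ)| * η * Real.exp (-(2 * π * |(n : ℝ)| * (ρ - (k + 1 / 2) * |z.im|))) := by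
      refine mul_le_mul_of_nonneg_left ?_ (by positivity)
      apply Real.exp_le_exp.2
      have h4 : 1 / 2 * |z.im| ≤ (k + 1 / 2) * |z.im| := by
        have := abs_nonneg z.im
        nlinarith
      have h5 : 0 ≤ 2 * π * |(n : ℝ)| := by positivity
      nlinarith
    linarith

end CoefLemma

section Sums

/-- the geometric series over `ℤ` -/
theorem tsum_exp_abs_le {c : ℝ} (hc : 0 < c) :
    ∑' n : ℤ, Real.exp (-(c * |(n : ℝ)|)) ≤ 2 + 2 / c := by
  have h0 : Real.exp (-c) < 1 := by rw [Real.exp_lt_one_iff]; linarith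
  have h1 : HasSum (fun n : ℕ => (Real.exp (-c)) ^ n) (1 - Real.exp (-c))⁻¹ :=
    hasSum_geometric_of_lt_one (Real.exp_nonneg _) h0
  obtain ⟨f, hf⟩ : ∃ f : ℤ → ℝ, f = fun m : ℤ => Real.exp (-(c * |(m : ℝ)|)) := ⟨_, rfl⟩
  have hfa : ∀ m : ℤ, f m = Real.exp (-(c * |(m : ℝ)|)) := fun m => by rw [hf]
  have e2 : ∀ n : ℕ, f (n : ℤ) = (Real.exp (-c)) ^ n := by
    intro n
    rw [hfa, ← Real.exp_nat_mul]
    congr 1
    simp; ring
  have e3 : ∀ n : ℕ, f (-((n : ℤ) + 1)) = Real.exp (-c) * (Real.exp (-c)) ^ n := by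
    intro n
    rw [hfa, ← Real.exp_nat_mul, ← Real.exp_add]
    congr 1
    have h5 : (0:ℝ) ≤ n := by positivity
    have : |((-((n : ℤ) + 1) : ℤ) : ℝ)| = n + 1 := by
      push_cast
      rw [abs_of_nonpos (by linarith)]
      ring
    rw [this]; ring
  have h2 : HasSum (fun n : ℕ => f (n : ℤ)) (1 - Real.exp (-c))⁻¹ := by
    simp only [e2]; exact h1
  have h3 : HasSum (fun n : ℕ => f (-((n : ℤ) + 1)))
      (Real.exp (-c) * (1 - Real.exp (-c))⁻¹) := by simp only [e3]; exact h1.mul_left _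
  have h4 := HasSum.of_nat_of_neg_add_one h2 h3
  rw [← hf, h4.tsum_eq]
  have h5 : c / (1 + c) ≤ 1 - Real.exp (-c) := by
    have h6 : 1 + c ≤ Real.exp c := by
      have := Real.add_one_le_exp c; linarith
    have h7 : Real.exp (-c) ≤ 1 / (1 + c) := by
      rw [Real.exp_neg, ← one_div]
      exact one_div_le_one_div_of_le (by linarith) h6
    have h8 : c / (1 + c) = 1 - 1 / (1 + c) := by field_simp; ring
    rw [h8]; linarith
  have h9 : (1 - Real.exp (-c))⁻¹ ≤ 1 + 1 / c := by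
    have h10 : 0 < c / (1 + c) := by positivity
    have h11 : (1 - Real.exp (-c))⁻¹ ≤ (c / (1 + c))⁻¹ := inv_anti₀ h10 h5
    refine h11.trans (le_of_eq ?_)
    field_simp
    ring
  have h12 : 0 ≤ (1 - Real.exp (-c))⁻¹ := inv_nonneg.2 (by linarith)
  have h13 : Real.exp (-c) * (1 - Real.exp (-c))⁻¹ ≤ 1 * (1 - Real.exp (-c))⁻¹ :=
    mul_le_mul_of_nonneg_right h0.le h12
  have : 2 + 2 / c = 2 * (1 + 1 / c) := by ring
  rw [this]
  linarith

lemma exp_sum_small {d : ℝ} (hd : 0 < d) (hd1 : d ≤ 1) :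
    ∑' n : ℤ, Real.exp (-(π * d * |(n : ℝ)|)) ≤ 3 / d := by
  have hpi := Real.pi_gt_three
  refine (tsum_exp_abs_le (by positivity)).trans ?_
  have h1 : 2 / (π * d) ≤ 1 / d := by
    rw [div_le_div_iff₀ (by positivity) hd]
    nlinarith
  have h2 : 2 ≤ 2 / d := by
    rw [le_div_iff₀ hd]; linarith
  have h3 : 3 / d = 2 / d + 1 / d := by ring
  linarith

lemma summable_small {d : ℝ} (hd : 0 < d) :
    Summable (fun n : ℤ => Real.exp (-(π * d * |(n : ℝ)|))) :=
  summable_exp_abs (by have := Real.pi_pos; positivity)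

lemma exp_two_le {d : ℝ} (hd : 0 < d) (n : ℤ) :
    Real.exp (-(2 * π * |(n : ℝ)| * d)) ≤ Real.exp (-(π * d * |(n : ℝ)|)) := by
  apply Real.exp_le_exp.2
  have := Real.pi_pos
  have h : 0 ≤ π * d * |(n : ℝ)| := by positivity
  nlinarith

lemma abs_mul_exp_two_le {d : ℝ} (hd : 0 < d) (n : ℤ) :
    |(n : ℝ)| * Real.exp (-(2 * π * |(n : ℝ)| * d)) ≤
      1 / d * Real.exp (-(π * d * |(n : ℝ)|)) := by
  have hpi := Real.pi_gt_three
  have e : -(2 * π * |(n : ℝ)| * d) = -(π * d * |(n : ℝ)|) + -(π * d * |(n : ℝ)|) := by ring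
  rw [e, Real.exp_add, ← mul_assoc]
  refine mul_le_mul_of_nonneg_right ?_ (Real.exp_nonneg _)
  have h1 : (π * d * |(n : ℝ)|) * Real.exp (-(π * d * |(n : ℝ)|)) ≤ 1 := by
    have h2 := Real.add_one_le_exp (π * d * |(n : ℝ)|)
    have h3 : Real.exp (-(π * d * |(n : ℝ)|)) * Real.exp (π * d * |(n : ℝ)|) = 1 := by
      rw [← Real.exp_add]; simp
    have h4 := Real.exp_pos (-(π * d * |(n : ℝ)|))
    nlinarith
  rw [le_div_iff₀ hd]
  have h5 : 0 ≤ |(n : ℝ)| * Real.exp (-(π * d * |(n : ℝ)|)) * d := by positivity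
  nlinarith

end Sums

section Divisor

variable {k ρ r d : ℝ}

lemma k_im_lt {k ρ r : ℝ} (hk : 0 ≤ k) (hρ : 0 < ρ) (hkr : k * r ≤ ρ) {w : ℂ} (hw : ‖w‖ < r) :
    k * |w.im| < ρ := by
  have h1 : |w.im| ≤ ‖w‖ := Complex.abs_im_le_norm w
  rcases eq_or_lt_of_le hk with h | h
  · rw [← h, zero_mul]; exact hρ
  · have : k * |w.im| < k * r := mul_lt_mul_of_pos_left (h1.trans_lt hw) h
    linarith

/-- a bounded function all of whose Fourier coefficients vanish is zero -/
theorem eq_zero_of_fc {f : ℂ × ℂ → ℂ} (hf : IsH k ρ r f) {A : ℝ} (hb : Bdd k ρ r 0 A f)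
    {t w : ℂ} (h : (t, w) ∈ Dom k ρ r) (h0 : ∀ n, fc f n w = 0) : f (t, w) = 0 := by
  have h1 := hasSum_fc hf hb h
  simp only [h0, zero_mul] at h1
  exact h1.unique hasSum_zero

lemma Bdd.add {f g : ℂ × ℂ → ℂ} {M : ℕ} {A A' : ℝ} (hf : Bdd k ρ r M A f)
    (hg : Bdd k ρ r M A' g) : Bdd k ρ r M (A + A') (fun p => f p + g p) := by
  intro p hp
  refine (norm_add_le _ _).trans ?_
  rw [add_mul]
  exact add_le_add (hf p hp) (hg p hp)

lemma Bdd.sub {f g : ℂ × ℂ → ℂ} {M : ℕ} {A A' : ℝ} (hf : Bdd k ρ r M A f)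
    (hg : Bdd k ρ r M A' g) : Bdd k ρ r M (A + A') (fun p => f p - g p) := by
  intro p hp
  refine (norm_sub_le _ _).trans ?_
  rw [add_mul]
  exact add_le_add (hf p hp) (hg p hp)

lemma Bdd.del {f : ℂ × ℂ → ℂ} {M : ℕ} {A : ℝ} (hf : Bdd k ρ r M A f) :
    Bdd (k + 1 / 2) ρ r M (A + A) (del f) := by
  have h1 := hf.tr (1 / 2)
  have h2 := hf.tr (-(1 / 2))
  rw [abs_neg] at h2
  rw [show |(1 / 2 : ℝ)| = 1 / 2 by norm_num] at h1 h2
  exact h1.sub h2

lemma exp_split {k ρ d : ℝ} (n : ℤ) (y : ℝ) :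
    Real.exp (-(2 * π * |(n : ℝ)| * (ρ - k * y))) =
      Real.exp (-(2 * π * |(n : ℝ)| * d)) * Real.exp (-(2 * π * |(n : ℝ)| * ((ρ - d) - k * y))) := by
  rw [← Real.exp_add]
  congr 1
  ring

/-- DIVISOR LEMMA B2, reduced form (`w g = del S + w R`). -/
theorem divisor {k ρ r d B η : ℝ} {N : ℕ} (hk0 : 0 ≤ k) (hk1 : k ≤ 1) (hr0 : 0 < r) (hr : r ≤ 1)
    (hρ : 2 * r ≤ ρ) (hd : 0 < d) (hdr : 2 * d ≤ r) (hB : 0 ≤ B) (hη : 0 ≤ η)
    {g : ℂ × ℂ → ℂ} (hg : IsH (k + 1 / 2) ρ r g) (hgb : Bdd (k + 1 / 2) ρ r 0 B g)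
    (h0 : ∀ w : ℂ, ‖w‖ < r → fc g 0 w = 0)
    (hres : ∀ n : ℤ, n ≠ 0 → |(n : ℝ)| ≤ N → ∀ j : ℤ, j ≠ 0 → |(j : ℝ) / n| < r →
      ‖fc g n ((j : ℂ) / n)‖ ≤ η * Real.exp (-(2 * π * |(n : ℝ)| * ρ))) :
    ∃ S R : ℂ × ℂ → ℂ, IsH k (ρ - d) (r - d) S ∧ IsH (k + 1 / 2) (ρ - d) (r - d) R ∧
      (∀ p ∈ Dom (k + 1 / 2) (ρ - d) (r - d), p.2 * g p = del S p + p.2 * R p) ∧
      Bdd k (ρ - d) (r - d) 0 (10000 / d ^ 3 * (B + η)) S ∧
      Bdd (k + 1 / 2) (ρ - d) (r - d) 0
        (10 / d ^ 2 * η + 3 / d * (B * Real.exp (-(π * d * N)))) R ∧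
      (∀ w : ℂ, ‖w‖ < r - d → fc S 0 w = 0) := by
  classical
  have hpi := Real.pi_gt_three
  have hd1 : d ≤ 1 := by linarith
  have hρd : 0 < ρ - d := by linarith
  -- coefficients of g
  have hkw : ∀ w : ℂ, ‖w‖ < r → (k + 1 / 2) * |w.im| < ρ := fun w hw =>
    k_im_lt (by linarith) (by linarith) (by nlinarith) hw
  have hgd : ∀ n, DifferentiableOn ℂ (fc g n) (ball 0 r) := fun n =>
    differentiableOn_fc hg n isOpen_ball (fun w hw => by
      rw [mem_ball_zero_iff] at hw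
      exact ⟨hw, hkw w hw⟩)
  have hgn : ∀ n : ℤ, ∀ w : ℂ, ‖w‖ < r → ‖fc g n w‖ ≤
      B * Real.exp (-(2 * π * |(n : ℝ)| * (ρ - (k + 1 / 2) * |w.im|))) := by
    intro n w hw
    have := norm_fc_le hg hgb n hw (hkw w hw)
    simpa using this
  -- coefficient data
  have hcoef : ∀ n : ℤ, ∃ S c : ℂ → ℂ, DifferentiableOn ℂ S (ball 0 r) ∧
      DifferentiableOn ℂ c (ball 0 r) ∧
      (∀ w : ℂ, ‖w‖ < r → w * fc g n w = 2 * I * Complex.sin (π * n * w) * S w + w * c w) ∧
      (∀ w : ℂ, ‖w‖ < r → ‖c w‖ ≤ (3 * |(n : ℝ)| * η +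
        B * Real.exp (-(π * d * N)) * Real.exp (π * d * |(n : ℝ)|)) *
        Real.exp (-(2 * π * |(n : ℝ)| * (ρ - (k + 1 / 2) * |w.im|)))) ∧
      (∀ w : ℂ, ‖w‖ < r - d → ‖S w‖ ≤ 672 / d * (B + 3 * |(n : ℝ)| * η) *
        Real.exp (-(2 * π * |(n : ℝ)| * (ρ - k * |w.im|)))) ∧ (n = 0 → ∀ w, S w = 0) := by
    intro n
    by_cases hn : n = 0
    · refine ⟨fun _ => 0, fun _ => 0, differentiableOn_const _, differentiableOn_const _, ?_, ?_,
        ?_, fun _ _ => rfl⟩
      · intro w hw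
        subst hn
        rw [h0 w hw]; simp
      · intro w hw
        rw [norm_zero]; positivity
      · intro w hw
        rw [norm_zero]; positivity
    · by_cases hnN : |(n : ℝ)| ≤ N
      · obtain ⟨S, c, h1, h2, h3, h4, h5⟩ := coef_divisor hn hk0 hk1 hr hd hd1 hB hη (hgd n) (hgn n)
          (hres n hn hnN)
        refine ⟨S, c, h1, h2.differentiableOn, h3, ?_, h5, fun h => absurd h hn⟩
        intro w hw
        refine (h4 w).trans ?_
        refine mul_le_mul ?_ ?_ (Real.exp_nonneg _) (by positivity)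
        · have : 0 ≤ B * Real.exp (-(π * d * N)) * Real.exp (π * d * |(n : ℝ)|) := by positivity
          linarith
        · apply Real.exp_le_exp.2
          have h6 : 1 / 2 * |w.im| ≤ (k + 1 / 2) * |w.im| := by
            have := abs_nonneg w.im
            nlinarith
          have h7 : 0 ≤ 2 * π * |(n : ℝ)| := by positivity
          nlinarith
      · rw [not_le] at hnN
        refine ⟨fun _ => 0, fc g n, differentiableOn_const _, hgd n, ?_, ?_, ?_, fun _ _ => rfl⟩
        · intro w hw; ring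
        · intro w hw
          refine (hgn n w hw).trans ?_
          refine mul_le_mul_of_nonneg_right ?_ (Real.exp_nonneg _)
          have h6 : 1 ≤ Real.exp (-(π * d * N)) * Real.exp (π * d * |(n : ℝ)|) := by
            rw [← Real.exp_add]
            apply Real.one_le_exp
            have h8 : π * d * N ≤ π * d * |(n : ℝ)| :=
              mul_le_mul_of_nonneg_left hnN.le (by positivity)
            linarith
          have h9 : 0 ≤ 3 * |(n : ℝ)| * η := by positivity
          have h10 : B * 1 ≤ B * (Real.exp (-(π * d * N)) * Real.exp (π * d * |(n : ℝ)|)) :=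
            mul_le_mul_of_nonneg_left h6 hB
          nlinarith
        · intro w hw
          rw [norm_zero]; positivity
  choose Sn cn hSd hcd hid hcb hSb hS0 using hcoef
  -- summable majorants
  set uS : ℤ → ℝ := fun n => 672 / d * (B + 3 * |(n : ℝ)| * η) *
    Real.exp (-(2 * π * |(n : ℝ)| * d)) with huS
  set uR : ℤ → ℝ := fun n => (3 * |(n : ℝ)| * η +
        B * Real.exp (-(π * d * N)) * Real.exp (π * d * |(n : ℝ)|)) *
    Real.exp (-(2 * π * |(n : ℝ)| * d)) with huR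
  have huS0 : ∀ n, 0 ≤ uS n := fun n => by rw [huS]; positivity
  have huR0 : ∀ n, 0 ≤ uR n := fun n => by rw [huR]; positivity
  have huSle : ∀ n, uS n ≤ 672 / d * (B + 3 / d * η) * Real.exp (-(π * d * |(n : ℝ)|)) := by
    intro n
    have h1 := exp_two_le hd n
    have h2 := abs_mul_exp_two_le hd n
    have h3 : uS n = 672 / d * (B * Real.exp (-(2 * π * |(n : ℝ)| * d)) +
      3 * η * (|(n : ℝ)| * Real.exp (-(2 * π * |(n : ℝ)| * d)))) := by rw [huS]; ring
    have h4 := mul_le_mul_of_nonneg_left h1 hB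
    have h5 := mul_le_mul_of_nonneg_left h2 (by positivity : (0 : ℝ) ≤ 3 * η)
    have h6 : 672 / d * (B + 3 / d * η) * Real.exp (-(π * d * |(n : ℝ)|)) =
      672 / d * (B * Real.exp (-(π * d * |(n : ℝ)|)) +
        3 * η * (1 / d * Real.exp (-(π * d * |(n : ℝ)|)))) := by
      ring
    rw [h3, h6]
    exact mul_le_mul_of_nonneg_left (add_le_add h4 h5) (by positivity)
  have huRle : ∀ n, uR n ≤ (3 / d * η + B * Real.exp (-(π * d * N))) *
      Real.exp (-(π * d * |(n : ℝ)|)) := by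
    intro n
    have h2 := abs_mul_exp_two_le hd n
    have h3 : uR n = 3 * η * (|(n : ℝ)| * Real.exp (-(2 * π * |(n : ℝ)| * d))) +
      B * Real.exp (-(π * d * N)) * (Real.exp (π * d * |(n : ℝ)|) *
        Real.exp (-(2 * π * |(n : ℝ)| * d))) := by rw [huR]; ring
    have h4 : Real.exp (π * d * |(n : ℝ)|) * Real.exp (-(2 * π * |(n : ℝ)| * d)) =
      Real.exp (-(π * d * |(n : ℝ)|)) := by rw [← Real.exp_add]; congr 1; ring
    rw [h3, h4]
    have h5 := mul_le_mul_of_nonneg_left h2 (by positivity : (0 : ℝ) ≤ 3 * η)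
    have h6 : (3 / d * η + B * Real.exp (-(π * d * N))) * Real.exp (-(π * d * |(n : ℝ)|)) =
      3 * η * (1 / d * Real.exp (-(π * d * |(n : ℝ)|))) +
      B * Real.exp (-(π * d * N)) * Real.exp (-(π * d * |(n : ℝ)|)) := by ring
    rw [h6]
    linarith
  have hsS : Summable uS := Summable.of_nonneg_of_le huS0 huSle ((summable_small hd).mul_left _)
  have hsR : Summable uR := Summable.of_nonneg_of_le huR0 huRle ((summable_small hd).mul_left _)
  have hexps := exp_sum_small hd hd1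
  have htS : ∑' n, uS n ≤ 10000 / d ^ 3 * (B + η) := by
    refine (hsS.tsum_le_tsum huSle ((summable_small hd).mul_left _)).trans ?_
    rw [tsum_mul_left]
    have h1 : 672 / d * (B + 3 / d * η) * (∑' n : ℤ, Real.exp (-(π * d * |(n : ℝ)|))) ≤
      672 / d * (B + 3 / d * η) * (3 / d) := mul_le_mul_of_nonneg_left hexps (by positivity)
    refine h1.trans ?_
    have h2 : 672 / d * (B + 3 / d * η) * (3 / d) = (2016 * d * B + 6048 * η) / d ^ 3 := by
      field_simp; ring
    rw [h2, div_mul_eq_mul_div]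
    refine div_le_div_of_nonneg_right ?_ (by positivity)
    nlinarith
  have htR : ∑' n, uR n ≤ 10 / d ^ 2 * η + 3 / d * (B * Real.exp (-(π * d * N))) := by
    refine (hsR.tsum_le_tsum huRle ((summable_small hd).mul_left _)).trans ?_
    rw [tsum_mul_left]
    have h1 : (3 / d * η + B * Real.exp (-(π * d * N))) *
        (∑' n : ℤ, Real.exp (-(π * d * |(n : ℝ)|))) ≤
      (3 / d * η + B * Real.exp (-(π * d * N))) * (3 / d) :=
        mul_le_mul_of_nonneg_left hexps (by positivity)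
    refine h1.trans ?_
    have h2 : (3 / d * η + B * Real.exp (-(π * d * N))) * (3 / d) =
      9 / d ^ 2 * η + 3 / d * (B * Real.exp (-(π * d * N))) := by field_simp; ring
    rw [h2]
    have h3 : 9 / d ^ 2 * η ≤ 10 / d ^ 2 * η := by gcongr; norm_num
    linarith
  have hbS : ∀ n, ∀ w : ℂ, ‖w‖ < r - d → ‖Sn n w‖ ≤ uS n * ‖w‖ ^ 0 *
      Real.exp (-(2 * π * |(n : ℝ)| * ((ρ - d) - k * |w.im|))) := by
    intro n w hw
    refine (hSb n w hw).trans (le_of_eq ?_)
    rw [exp_split (d := d) n, huS]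
    ring
  have hbR : ∀ n, ∀ w : ℂ, ‖w‖ < r - d → ‖cn n w‖ ≤ uR n * ‖w‖ ^ 0 *
      Real.exp (-(2 * π * |(n : ℝ)| * ((ρ - d) - (k + 1 / 2) * |w.im|))) := by
    intro n w hw
    refine (hcb n w (by linarith)).trans (le_of_eq ?_)
    rw [exp_split (d := d) n, huR]
    ring
  have hsub : ball (0 : ℂ) (r - d) ⊆ ball 0 r := ball_subset_ball (by linarith)
  have hHS : IsH k (ρ - d) (r - d) (syn Sn) := isH_syn (fun n => (hSd n).mono hsub) hbS huS0 hsS
  have hHR : IsH (k + 1 / 2) (ρ - d) (r - d) (syn cn) :=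
    isH_syn (fun n => (hcd n).mono hsub) hbR huR0 hsR
  have hBS := bdd_syn hbS huS0 hsS
  have hBR := bdd_syn hbR huR0 hsR
  have hkw' : ∀ w : ℂ, ‖w‖ < r - d → (k + 1 / 2) * |w.im| < ρ - d := fun w hw =>
    k_im_lt (by linarith) (by linarith) (by nlinarith) hw
  refine ⟨syn Sn, syn cn, hHS, hHR, ?_, hBS.le htS, hBR.le htR, ?_⟩
  · rintro ⟨t, w⟩ hp
    have hw : ‖w‖ < r - d := hp.2
    set f : ℂ × ℂ → ℂ := fun p => p.2 * g p - (del (syn Sn) p + p.2 * syn cn p) with hf
    have hg' : IsH (k + 1 / 2) (ρ - d) (r - d) g := hg.mono le_rfl (by linarith) (by linarith)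
    have hg'b : Bdd (k + 1 / 2) (ρ - d) (r - d) 0 B g :=
      hgb.mono le_rfl (by linarith) (by linarith)
    have h1 : IsH (k + 1 / 2) (ρ - d) (r - d) (fun p => p.2 * g p) := IsH.snd.mul hg'
    have h2 : IsH (k + 1 / 2) (ρ - d) (r - d) (fun p => p.2 * syn cn p) := IsH.snd.mul hHR
    have h3 : IsH (k + 1 / 2) (ρ - d) (r - d) (fun p => del (syn Sn) p + p.2 * syn cn p) :=
      hHS.del.add h2
    have hmulb : ∀ {F : ℂ × ℂ → ℂ} {A : ℝ}, Bdd (k + 1 / 2) (ρ - d) (r - d) 0 A F →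
        Bdd (k + 1 / 2) (ρ - d) (r - d) 0 A (fun p => p.2 * F p) := by
      intro F A hF p hp
      rw [norm_mul]
      have h4 := hF p hp
      have h5 : ‖p.2‖ ≤ 1 := by
        have := hp.2; linarith
      calc ‖p.2‖ * ‖F p‖ ≤ 1 * ‖F p‖ := mul_le_mul_of_nonneg_right h5 (norm_nonneg _)
        _ ≤ _ := by rw [one_mul]; exact h4
    have hfb := (hmulb hg'b).sub (hBS.del.add (hmulb hBR))
    have hf0 : f (t, w) = 0 := by
      refine eq_zero_of_fc (h1.sub h3) hfb hp (fun n => ?_)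
      rw [fc_sub h1 h3 n hw (hkw' w hw), fc_add hHS.del h2 n hw (hkw' w hw),
        fc_mul_w (fun w => w) g, fc_mul_w (fun w => w) (syn cn),
        fc_del hHS n hw (hkw' w hw), fc_syn hbR huR0 hsR n hw (hkw' w hw),
        fc_syn hbS huS0 hsS n hw (by
          have := hkw' w hw
          have h5 := abs_nonneg w.im
          nlinarith), hid n w (by linarith)]
      ring
    exact sub_eq_zero.1 hf0
  · intro w hw
    rw [fc_syn hbS huS0 hsS 0 hw (by
          have := hkw' w hw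
          have h5 := abs_nonneg w.im
          nlinarith)]
    exact hS0 0 rfl w

/-- B2': a primitive that is known to exist is controlled without any resonance hypothesis -/
theorem del_bound {k ρ r d B A : ℝ} (hk0 : 0 ≤ k) (hk1 : k ≤ 1) (hr0 : 0 < r) (hr : r ≤ 1)
    (hρ : 2 * r ≤ ρ) (hd : 0 < d) (hdr : 2 * d ≤ r) (hB : 0 ≤ B)
    {g μ : ℂ × ℂ → ℂ} (hg : IsH (k + 1 / 2) ρ r g) (hgb : Bdd (k + 1 / 2) ρ r 0 B g)
    (hμ : IsH k ρ r μ) (hμb : Bdd k ρ r 0 A μ)
    (hdel : ∀ p ∈ Dom (k + 1 / 2) ρ r, del μ p = p.2 * g p) :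
    Bdd k (ρ - d) (r - d) 0 (10000 / d ^ 2 * B) (fun p => μ p - fc μ 0 p.2) := by
  classical
  have hpi := Real.pi_gt_three
  have hd1 : d ≤ 1 := by linarith
  have hkw : ∀ w : ℂ, ‖w‖ < r → (k + 1 / 2) * |w.im| < ρ := fun w hw =>
    k_im_lt (by linarith) (by linarith) (by nlinarith) hw
  have hkw0 : ∀ w : ℂ, ‖w‖ < r → k * |w.im| < ρ := fun w hw => by
    have := hkw w hw
    have h5 := abs_nonneg w.im
    nlinarith
  set Sn : ℤ → ℂ → ℂ := fun n w => if n = 0 then 0 else fc μ n w with hSn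
  have hSd : ∀ n, DifferentiableOn ℂ (Sn n) (ball 0 (r - d)) := by
    intro n
    by_cases hn : n = 0
    · simp only [hSn, hn, if_true]; exact differentiableOn_const _
    · simp only [hSn, hn, if_false]
      exact differentiableOn_fc hμ n isOpen_ball (fun w hw => by
        rw [mem_ball_zero_iff] at hw
        exact ⟨by linarith, hkw0 w (by linarith)⟩)
  set uS : ℤ → ℝ := fun n => 672 / d * B * Real.exp (-(2 * π * |(n : ℝ)| * d)) with huS
  have huS0 : ∀ n, 0 ≤ uS n := fun n => by rw [huS]; positivity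
  have hbS : ∀ n, ∀ w : ℂ, ‖w‖ < r - d → ‖Sn n w‖ ≤ uS n * ‖w‖ ^ 0 *
      Real.exp (-(2 * π * |(n : ℝ)| * ((ρ - d) - k * |w.im|))) := by
    intro n w hw
    by_cases hn : n = 0
    · simp only [hSn, hn, if_true, norm_zero]
      have := huS0 0
      positivity
    · simp only [hSn, hn, if_false]
      have h1 : ‖fc μ n w‖ ≤ 672 / d * B * Real.exp (-(2 * π * |(n : ℝ)| * (ρ - k * |w.im|))) := by
        refine coef_quotient_bound hn hk0 hk1 hr hd hd1 hB (S := fc μ n) (G := fc g n)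
          (differentiableOn_fc hμ n isOpen_ball (fun w hw => by
            rw [mem_ball_zero_iff] at hw
            exact ⟨hw, hkw0 w hw⟩)) ?_ ?_ hw
        · intro z hz
          rw [← fc_del hμ n hz (hkw z hz), ← fc_mul_w (fun w => w) g]
          exact fc_congr (fun x => hdel _ (real_mem_Dom.2 ⟨hkw z hz, hz⟩)) n
        · intro z hz
          have := norm_fc_le hg hgb n hz (hkw z hz)
          simpa using this
      refine h1.trans (le_of_eq ?_)
      rw [exp_split (d := d) n, huS]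
      ring
  have huSle : ∀ n, uS n ≤ 672 / d * B * Real.exp (-(π * d * |(n : ℝ)|)) := fun n =>
    mul_le_mul_of_nonneg_left (exp_two_le hd n) (by positivity)
  have hsS : Summable uS := Summable.of_nonneg_of_le huS0 huSle ((summable_small hd).mul_left _)
  have htS : ∑' n, uS n ≤ 10000 / d ^ 2 * B := by
    refine (hsS.tsum_le_tsum huSle ((summable_small hd).mul_left _)).trans ?_
    rw [tsum_mul_left]
    have h1 : 672 / d * B * (∑' n : ℤ, Real.exp (-(π * d * |(n : ℝ)|))) ≤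
      672 / d * B * (3 / d) := mul_le_mul_of_nonneg_left (exp_sum_small hd hd1) (by positivity)
    refine h1.trans ?_
    have h2 : 672 / d * B * (3 / d) = 2016 * B / d ^ 2 := by
      field_simp; ring
    rw [h2, div_mul_eq_mul_div]
    refine div_le_div_of_nonneg_right ?_ (by positivity)
    nlinarith
  have hBS := (bdd_syn hbS huS0 hsS).le htS
  have hHS : IsH k (ρ - d) (r - d) (syn Sn) := isH_syn hSd hbS huS0 hsS
  rintro ⟨t, w⟩ hp
  have hw : ‖w‖ < r - d := hp.2
  have hkw' : k * |w.im| < ρ - d := by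
    have := hp.1
    simp only at this
    have h5 := abs_nonneg t.im
    linarith
  have hμ' : IsH k (ρ - d) (r - d) μ := hμ.mono le_rfl (by linarith) (by linarith)
  have hμ'b : Bdd k (ρ - d) (r - d) 0 A μ := hμb.mono le_rfl (by linarith) (by linarith)
  have h0d : DifferentiableOn ℂ (fc μ 0) (ball 0 (r - d)) :=
    differentiableOn_fc hμ 0 isOpen_ball (fun w hw => by
        rw [mem_ball_zero_iff] at hw
        exact ⟨by linarith, hkw0 w (by linarith)⟩)
  have hH0 : IsH k (ρ - d) (r - d) (fun p => fc μ 0 p.2) := IsH.ofW h0d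
  have hH1 := hμ'.sub hH0
  have hb0 : Bdd k (ρ - d) (r - d) 0 A (fun p => fc μ 0 p.2) := by
    rintro ⟨s, z⟩ hz
    have hz' : ‖z‖ < r := by
      have : ‖z‖ < r - d := hz.2
      linarith
    have := norm_fc_le hμ hμb 0 hz' (hkw0 z hz')
    simpa using this
  have hfin : μ (t, w) - fc μ 0 w - syn Sn (t, w) = 0 := by
    have h1 := eq_zero_of_fc (hH1.sub hHS) ((hμ'b.sub hb0).sub hBS) hp (fun n => by
      rw [fc_sub hH1 hHS n hw hkw', fc_sub hμ' hH0 n hw hkw', fc_syn hbS huS0 hsS n hw hkw']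
      have h2 : fc (fun p => fc μ 0 p.2) n w = if n = 0 then fc μ 0 w else 0 := by
        have h4 : fc (fun p => fc μ 0 p.2) n w =
            ∫ x in (0 : ℝ)..1, fc μ 0 w * ee (((-n : ℤ) : ℂ) * x) := by
          conv_lhs => unfold fc
          refine intervalIntegral.integral_congr (fun x _ => ?_)
          change fc μ 0 w * ee (-((n : ℂ) * x)) = fc μ 0 w * ee (((-n : ℤ) : ℂ) * x)
          congr 2
          push_cast
          ring
        rw [h4, intervalIntegral.integral_const_mul, integral_ee]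
        by_cases hn : n = 0
        · simp [hn]
        · simp [hn]
      rw [h2]
      by_cases hn : n = 0
      · simp [hn, hSn]
      · simp [hn, hSn])
    exact h1
  have h9 : μ (t, w) - fc μ 0 w = syn Sn (t, w) := by linear_combination hfin
  simp only
  rw [h9]
  exact hBS _ hp

end Divisor

end Crest.Agent.R102.B821
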