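import Crest.Agent.R102.E4ray_77

/-!
Row 102, T1-E, complements to (E4-1D): no zero-free continuation of `exp (2 i Dl)` beyond `Xt`
(disc form and half-plane form), uniqueness of the germ of `(x, Dl)`. (helper77)
-/

set_option autoImplicit false

open Set Filter Topology Metric

noncomputable section

namespace Crest.Agent.R102.E4ray77

variable {Xt : ℝ} {Us : Set ℂ} {Dl x : ℂ → ℂ}

lemma star_ball (r : ℝ) : Star (ball (0 : ℂ) r) := by
  intro z hz t h0 h1
  rw [mem_ball_zero_iff] at hz ⊢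
  rw [norm_mul, Complex.norm_real, Real.norm_eq_abs, abs_of_nonneg h0]
  exact (mul_le_of_le_one_left (norm_nonneg _) h1).trans_lt hz

namespace Data

/-- `exp (2 i Dl)` has no zero-free continuation to a larger disc -/
theorem no_exp (h : Data Xt Us Dl x) {r : ℝ} (hr : Xt < r) {F : ℂ → ℂ}
    (hF : DifferentiableOn ℂ F (ball 0 r)) (hF0 : ∀ ξ ∈ ball (0 : ℂ) r, F ξ ≠ 0)
    (he : ∀ᶠ ξ in 𝓝 (0 : ℂ), F ξ = Complex.exp (2 * Complex.I * Dl ξ)) : False := by
  have hr0 : 0 < r := h.Xt_pos.trans hr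
  have h0 : (0 : ℂ) ∈ ball (0 : ℂ) r := mem_ball_self hr0
  have hl : DifferentiableOn ℂ (fun ξ => deriv F ξ / F ξ) (ball 0 r) :=
    (hF.deriv isOpen_ball).div hF hF0
  have hL : ∀ ξ ∈ ball (0 : ℂ) r,
      HasDerivAt (prim (fun ξ => deriv F ξ / F ξ)) (deriv F ξ / F ξ) ξ := fun ξ hξ =>
    hasDerivAt_prim isOpen_ball (star_ball r) hl hξ
  set L := prim (fun ξ => deriv F ξ / F ξ) with hLdef
  have hloc : ∀ᶠ ξ in 𝓝 (0 : ℂ), ξ ∈ ball (0 : ℂ) r ∧ HasDerivAt (fun w => 2 * Complex.I * Dl w)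
      (deriv F ξ / F ξ) ξ := by
    filter_upwards [he.eventually_nhds, h.isOpen.mem_nhds h.zero_mem, ball_mem_nhds (0 : ℂ) hr0]
      with ξ h1 h2 h3
    refine ⟨h3, ?_⟩
    have h4 : HasDerivAt (fun w => 2 * Complex.I * Dl w) (2 * Complex.I * deriv Dl ξ) ξ :=
      ((h.Dl_diff.differentiableAt (h.isOpen.mem_nhds h2)).hasDerivAt).const_mul _
    have h5 : HasDerivAt F (Complex.exp (2 * Complex.I * Dl ξ) * (2 * Complex.I * deriv Dl ξ)) ξ :=
      h4.cexp.congr_of_eventuallyEq h1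
    refine h4.congr_deriv ?_
    rw [h5.deriv, h1.self_of_nhds, mul_div_cancel_left₀ _ (Complex.exp_ne_zero _)]
  obtain ⟨δ, hδ, hb⟩ := Metric.eventually_nhds_iff_ball.1 hloc
  have hEq : EqOn L (fun w => 2 * Complex.I * Dl w) (ball 0 δ) := by
    refine isOpen_ball.eqOn_of_deriv_eq (convex_ball (0 : ℂ) δ).isPreconnected ?_ ?_ ?_
      (mem_ball_self hδ) ?_
    · exact fun w hw => (hL w (hb w hw).1).differentiableAt.differentiableWithinAt
    · exact fun w hw => (hb w hw).2.differentiableAt.differentiableWithinAt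
    · exact fun w hw => by rw [(hL w (hb w hw).1).deriv, (hb w hw).2.deriv]
    · rw [h.Dl_zero, mul_zero, hLdef, prim_zero]
  refine h.maximal r hr (fun ξ => L ξ / (2 * Complex.I)) ?_ ?_
  · have : DifferentiableOn ℂ (fun ξ => L ξ / (2 * Complex.I)) (ball 0 r) := fun ξ hξ =>
      ((hL ξ hξ).differentiableAt.div_const _).differentiableWithinAt
    exact this.analyticOnNhd isOpen_ball
  · filter_upwards [ball_mem_nhds (0 : ℂ) hδ] with ξ hξ
    rw [hEq hξ, mul_div_cancel_left₀]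
    simp

/-- half-plane form: `ξ = exp (- i s)` -/
theorem no_strip (h : Data Xt Us Dl x) {c C : ℝ} (hc : Real.log Xt < c) {f : ℂ → ℂ}
    (hf : DifferentiableOn ℂ f {s : ℂ | s.im < c}) (hf0 : ∀ s : ℂ, s.im < c → f s ≠ 0)
    (he : ∀ s : ℂ, s.im < -C → f s = Complex.exp (2 * Complex.I * Dl (Complex.exp (-Complex.I * s)))) :
    False := by
  classical
  have hUo : IsOpen {s : ℂ | s.im < c} := isOpen_lt Complex.continuous_im continuous_const
  have hUc : Convex ℝ {s : ℂ | s.im < c} := convex_halfSpace_im_lt c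
  -- periodicity
  have hper : ∀ s : ℂ, s.im < c → f (s + 2 * Real.pi) = f s := by
    have him : ∀ s : ℂ, (s + 2 * Real.pi).im = s.im := fun s => by simp
    have hexp : ∀ s : ℂ, Complex.exp (-Complex.I * (s + 2 * Real.pi)) =
        Complex.exp (-Complex.I * s) := by
      intro s
      rw [mul_add, Complex.exp_add]
      have : -Complex.I * (2 * (Real.pi : ℂ)) = -(2 * Real.pi * Complex.I) := by ring
      rw [this, Complex.exp_neg, Complex.exp_two_pi_mul_I, inv_one, mul_one]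
    have h1 : EqOn (fun s => f (s + 2 * Real.pi)) f {s : ℂ | s.im < c} := by
      set s0 : ℂ := ((min c (-C) - 1 : ℝ) : ℂ) * Complex.I with hs0
      have hs0im : s0.im = min c (-C) - 1 := by simp [hs0]
      refine AnalyticOnNhd.eqOn_of_preconnected_of_eventuallyEq (𝕜 := ℂ) (z₀ := s0) ?_
        (hf.analyticOnNhd hUo) hUc.isPreconnected ?_ ?_
      · have hd : DifferentiableOn ℂ (fun s => f (s + 2 * Real.pi)) {s : ℂ | s.im < c} :=
          hf.comp (by fun_prop) (fun s hs => by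
            have h2 : s.im < c := hs
            change (s + 2 * Real.pi).im < c
            rwa [him])
        exact hd.analyticOnNhd hUo
      · change s0.im < c
        rw [hs0im]
        linarith [min_le_left c (-C)]
      · have hopen : IsOpen {s : ℂ | s.im < -C} := isOpen_lt Complex.continuous_im continuous_const
        have hmem : s0 ∈ {s : ℂ | s.im < -C} := by
          change s0.im < -C
          rw [hs0im]
          linarith [min_le_right c (-C)]
        filter_upwards [hopen.mem_nhds hmem] with s hs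
        have hs' : s.im < -C := hs
        rw [he s hs', he (s + 2 * Real.pi) (by rw [him]; exact hs'), hexp]
    exact fun s hs => h1 hs
  set f1 : ℂ → ℂ := fun z => if (-(2 * Real.pi) * z).im < c then f (-(2 * Real.pi) * z) else 0
    with hf1
  have him2 : ∀ z : ℂ, (-(2 * (Real.pi : ℂ)) * z).im = -(2 * Real.pi) * z.im := fun z => by
    simp [Complex.mul_im]
  have hP : Function.Periodic f1 (1 : ℝ) := by
    intro z
    have h3 : (-(2 * (Real.pi : ℂ)) * (z + (1 : ℝ))).im = (-(2 * (Real.pi : ℂ)) * z).im := by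
      rw [him2, him2]; simp
    simp only [hf1, h3]
    split_ifs with h4
    · have h5 := hper (-(2 * (Real.pi : ℂ)) * (z + (1 : ℝ))) (by rw [h3]; exact h4)
      rw [← h5]
      congr 1
      push_cast
      ring
    · rfl
  have hr : Xt < Real.exp c := by
    rwa [← Real.log_lt_iff_lt_exp h.Xt_pos]
  set F : ℂ → ℂ := fun ξ => if ξ = 0 then 1 else Function.Periodic.cuspFunction 1 f1 ξ with hF
  have hexq : ∀ ξ : ℂ, ξ ≠ 0 → ∃ z : ℂ, Function.Periodic.qParam 1 z = ξ := fun ξ hξ =>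
    ⟨Function.Periodic.invQParam 1 ξ, Function.Periodic.qParam_right_inv one_ne_zero hξ⟩
  have hq : ∀ z : ℂ, Function.Periodic.qParam 1 z = Complex.exp (-Complex.I * (-(2 * Real.pi) * z)) := by
    intro z
    rw [Function.Periodic.qParam]
    congr 1
    push_cast
    ring
  have hqn : ∀ z : ℂ, ‖Function.Periodic.qParam 1 z‖ = Real.exp ((-(2 * (Real.pi : ℂ)) * z).im) := by
    intro z
    rw [hq, Complex.norm_exp]
    congr 1
    simp [Complex.mul_re, Complex.mul_im]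
  have hFq : ∀ z : ℂ, Function.Periodic.cuspFunction 1 f1 (Function.Periodic.qParam 1 z) = f1 z :=
    fun z => Function.Periodic.eq_cuspFunction one_ne_zero hP z
  have heF : ∀ᶠ ξ in 𝓝 (0 : ℂ), F ξ = Complex.exp (2 * Complex.I * Dl ξ) := by
    filter_upwards [ball_mem_nhds (0 : ℂ) (Real.exp_pos (min c (-C)))] with ξ hξ
    by_cases hξ0 : ξ = 0
    · subst hξ0
      simp [hF, h.Dl_zero]
    · obtain ⟨z, rfl⟩ := hexq ξ hξ0
      simp only [hF, if_neg hξ0]
      rw [mem_ball_zero_iff, hqn, Real.exp_lt_exp] at hξ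
      rw [hFq]
      simp only [hf1, if_pos (lt_of_lt_of_le hξ (min_le_left _ _))]
      rw [he _ (lt_of_lt_of_le hξ (min_le_right _ _)), hq]
  refine h.no_exp hr (F := F) ?_ ?_ heF
  · intro ξ hξ
    by_cases hξ0 : ξ = 0
    · subst hξ0
      have h6 : DifferentiableAt ℂ (fun ξ => Complex.exp (2 * Complex.I * Dl ξ)) 0 :=
        (((h.Dl_diff.differentiableAt (h.isOpen.mem_nhds h.zero_mem)).const_mul _).cexp)
      exact (h6.congr_of_eventuallyEq heF).differentiableWithinAt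
    · obtain ⟨z, rfl⟩ := hexq ξ hξ0
      have h7 : (-(2 * (Real.pi : ℂ)) * z).im < c := by
        rwa [mem_ball_zero_iff, hqn, Real.exp_lt_exp] at hξ
      have h8 : DifferentiableAt ℂ f1 z := by
        have h9 : DifferentiableAt ℂ (fun z => f (-(2 * (Real.pi : ℂ)) * z)) z := by
          have h10 : DifferentiableAt ℂ f (-(2 * (Real.pi : ℂ)) * z) :=
            hf.differentiableAt (hUo.mem_nhds h7)
          exact DifferentiableAt.comp (g := f) (f := fun z => -(2 * (Real.pi : ℂ)) * z) z h10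
            (by fun_prop)
        refine h9.congr_of_eventuallyEq ?_
        have h11 : ∀ᶠ w in 𝓝 z, (-(2 * (Real.pi : ℂ)) * w).im < c :=
          (by fun_prop : Continuous fun w : ℂ =>
            (-(2 * (Real.pi : ℂ)) * w).im).continuousAt.eventually_lt_const h7
        filter_upwards [h11] with w hw
        simp only [hf1, if_pos hw]
      have h12 := Function.Periodic.differentiableAt_cuspFunction one_ne_zero hP h8
      refine (h12.congr_of_eventuallyEq ?_).differentiableWithinAt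
      filter_upwards [isOpen_ne.mem_nhds hξ0] with w hw
      simp only [hF, if_neg hw]
  · intro ξ hξ
    by_cases hξ0 : ξ = 0
    · simp [hF, hξ0]
    · obtain ⟨z, rfl⟩ := hexq ξ hξ0
      have h7 : (-(2 * (Real.pi : ℂ)) * z).im < c := by
        rwa [mem_ball_zero_iff, hqn, Real.exp_lt_exp] at hξ
      simp only [hF, if_neg hξ0]
      rw [hFq]
      simp only [hf1, if_pos h7]
      exact hf0 _ h7

end Data


/-- a germ solving the model equations is the inverse of `Xi` -/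
lemma germ_inv {x1 D1 : ℂ → ℂ} (hx : AnalyticAt ℂ x1 0) (hD : AnalyticAt ℂ D1 0) (hx0 : x1 0 = 0)
    (hx1 : deriv x1 0 = 1) (ho : ∀ᶠ ξ in 𝓝 (0 : ℂ), ξ * deriv x1 ξ = 2 * D1 ξ)
    (hc : ∀ᶠ ξ in 𝓝 (0 : ℂ),
      24 * (Complex.sin (D1 ξ) - D1 ξ * Complex.cos (D1 ξ)) = x1 ξ ^ 3) :
    ∀ᶠ ξ in 𝓝 (0 : ℂ), Xi (D1 ξ) = ξ := by
  have hD0 : D1 0 = 0 := by
    have := ho.self_of_nhds
    rw [zero_mul] at this
    linear_combination -(1 / 2 : ℂ) * this
  have hDd : HasDerivAt D1 (1 / 2) 0 := by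
    have h1 : HasDerivAt (fun ξ => ξ * deriv x1 ξ / 2) ((1 * deriv x1 0 + 0 * deriv (deriv x1) 0) / 2)
        (0 : ℂ) := ((hasDerivAt_id (0 : ℂ)).mul hx.deriv.differentiableAt.hasDerivAt).div_const 2
    rw [hx1] at h1
    refine (h1.congr_of_eventuallyEq ?_).congr_deriv (by norm_num)
    filter_upwards [ho] with ξ h2
    rw [h2]
    ring
  have hNe : ∀ᶠ ξ in 𝓝 (0 : ℂ), D1 ξ ∈ NN :=
    hD.continuousAt.eventually_mem (by rw [hD0]; exact isOpen_NN.mem_nhds zero_mem_NN)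
  have hxha : AnalyticAt ℂ xh 0 := by
    have : DifferentiableOn ℂ xh NN := fun z hz =>
      (hasDerivAt_xh hz).differentiableAt.differentiableWithinAt
    exact this.analyticAt (isOpen_NN.mem_nhds zero_mem_NN)
  have hxh0 : AnalyticAt ℂ (fun ξ => xh (D1 ξ)) 0 :=
    AnalyticAt.comp (g := xh) (f := D1) (by rw [hD0]; exact hxha) hD
  -- step 2
  have h2 : ∀ᶠ ξ in 𝓝 (0 : ℂ), x1 ξ = xh (D1 ξ) := by
    set u := dslope x1 0 with hu
    set v := dslope (fun ξ => xh (D1 ξ)) 0 with hv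
    have hu0 : u 0 = 1 := by rw [hu, dslope_same, hx1]
    have hv0 : v 0 = 1 := by
      rw [hv, dslope_same]
      have h3 : HasDerivAt (fun ξ => xh (D1 ξ)) (2 * qq 0 * (1 / 2)) 0 := by
        have h4 : HasDerivAt xh (2 * qq 0) (D1 0) := by rw [hD0]; exact hasDerivAt_xh zero_mem_NN
        exact h4.comp (0 : ℂ) hDd
      rw [h3.deriv, qq_zero]
      norm_num
    have huc : ContinuousAt u 0 := continuousAt_dslope_same.2 hx.differentiableAt
    have hvc : ContinuousAt v 0 := continuousAt_dslope_same.2 hxh0.differentiableAt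
    have hne : ∀ᶠ ξ in 𝓝 (0 : ℂ), u ξ ^ 2 + u ξ * v ξ + v ξ ^ 2 ≠ 0 := by
      have hcont : ContinuousAt (fun ξ => u ξ ^ 2 + u ξ * v ξ + v ξ ^ 2) 0 :=
        ((huc.pow 2).add (huc.mul hvc)).add (hvc.pow 2)
      refine hcont.eventually_ne ?_
      rw [hu0, hv0]
      norm_num
    filter_upwards [hne, hc, hNe] with ξ h3 h4 h5
    have hxu : ξ * u ξ = x1 ξ := by
      have := sub_smul_dslope x1 0 ξ
      rw [hx0, sub_zero, sub_zero, smul_eq_mul] at this
      exact this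
    have hxv : ξ * v ξ = xh (D1 ξ) := by
      have := sub_smul_dslope (fun ξ => xh (D1 ξ)) 0 ξ
      rw [hD0, xh_zero, sub_zero, sub_zero, smul_eq_mul] at this
      exact this
    rcases eq_or_ne ξ 0 with rfl | hξ
    · rw [hx0, hD0, xh_zero]
    · have h6 := xh_pow h5
      rw [h4, ← hxu, ← hxv] at h6
      have h7 : ξ ^ 3 * ((u ξ - v ξ) * (u ξ ^ 2 + u ξ * v ξ + v ξ ^ 2)) = 0 := by
        linear_combination -h6
      have h8 := (mul_eq_zero.1 h7).resolve_left (pow_ne_zero 3 hξ)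
      have h9 := (mul_eq_zero.1 h8).resolve_right h3
      rw [← hxu, ← hxv, sub_eq_zero.1 h9]
  -- step 3
  set Φ : ℂ → ℂ := fun ξ => Xi (D1 ξ) with hΦ
  have hΦa : AnalyticAt ℂ Φ 0 :=
    AnalyticAt.comp (g := Xi) (f := D1)
      (by rw [hD0]; exact Xi_diff.analyticAt (isOpen_NN.mem_nhds zero_mem_NN)) hD
  have hΦ0 : Φ 0 = 0 := by simp only [hΦ]; rw [hD0, Xi_zero]
  have hΦ1 : deriv Φ 0 = 1 := by
    have h4 : HasDerivAt Xi (Xp 0) (D1 0) := by rw [hD0]; exact hasDerivAt_Xi zero_mem_NN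
    have h5 : HasDerivAt Φ (Xp 0 * (1 / 2)) 0 := h4.comp (0 : ℂ) hDd
    rw [h5.deriv, Xp, AA_zero, qq_zero, Complex.exp_zero]
    norm_num
  have h3 : ∀ᶠ ξ in 𝓝 (0 : ℂ), ξ * deriv Φ ξ = Φ ξ := by
    filter_upwards [h2.eventually_nhds, hNe, hD.eventually_analyticAt, ho] with ξ h4 h5 h6 h7
    have h8 := h6.differentiableAt.hasDerivAt
    have h9 : HasDerivAt Φ (Xp (D1 ξ) * deriv D1 ξ) ξ := (hasDerivAt_Xi h5).comp ξ h8
    have h10 : HasDerivAt (fun ξ => xh (D1 ξ)) (2 * qq (D1 ξ) * deriv D1 ξ) ξ :=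
      (hasDerivAt_xh h5).comp ξ h8
    have h11 := (h10.congr_of_eventuallyEq h4).deriv
    rw [h11] at h7
    rw [h9.deriv]
    simp only [hΦ, Xp, Xi]
    linear_combination Complex.exp (AA (D1 ξ)) * h7
  obtain ⟨p, hp⟩ := hΦa
  -- `Φ = ξ w`
  have hwa : AnalyticAt ℂ (dslope Φ 0) 0 := (hp.has_fpower_series_dslope_fslope).analyticAt
  have hΦa : AnalyticAt ℂ Φ 0 := ⟨p, hp⟩
  have hmul : ∀ ξ, Φ ξ = ξ * dslope Φ 0 ξ := by
    intro ξ
    have := sub_smul_dslope Φ 0 ξ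
    rw [hΦ0, sub_zero, sub_zero, smul_eq_mul] at this
    exact this.symm
  obtain ⟨δ, hδ, hb⟩ := Metric.eventually_nhds_iff_ball.1 (h3.and hwa.eventually_analyticAt)
  have hwd : DifferentiableOn ℂ (dslope Φ 0) (ball 0 δ) := fun w hw =>
    (hb w hw).2.differentiableAt.differentiableWithinAt
  have hdw : EqOn (deriv (dslope Φ 0)) (fun _ => (0 : ℂ)) (ball 0 δ) := by
    have h4 : ∀ ξ ∈ ball (0 : ℂ) δ, ξ ≠ 0 → deriv (dslope Φ 0) ξ = 0 := by
      intro ξ hξ hξ0
      have h5 : HasDerivAt Φ (1 * dslope Φ 0 ξ + ξ * deriv (dslope Φ 0) ξ) ξ := by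
        have h6 := (hasDerivAt_id ξ).mul (hb ξ hξ).2.differentiableAt.hasDerivAt
        exact h6.congr_of_eventuallyEq (Eventually.of_forall hmul)
      have h6 := (hb ξ hξ).1
      rw [h5.deriv, hmul ξ] at h6
      have h7 : ξ ^ 2 * deriv (dslope Φ 0) ξ = 0 := by linear_combination h6
      exact (mul_eq_zero.1 h7).resolve_left (pow_ne_zero 2 hξ0)
    refine AnalyticOnNhd.eqOn_of_preconnected_of_frequently_eq (𝕜 := ℂ) (z₀ := 0)
      ((hwd.deriv isOpen_ball).analyticOnNhd isOpen_ball) (fun _ _ => analyticAt_const)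
      (convex_ball (0 : ℂ) δ).isPreconnected (mem_ball_self hδ) (Eventually.frequently ?_)
    filter_upwards [self_mem_nhdsWithin, nhdsWithin_le_nhds (ball_mem_nhds (0 : ℂ) hδ)]
      with ξ h5 h6 using h4 ξ h6 h5
  have hconst : EqOn (dslope Φ 0) (fun _ => (1 : ℂ)) (ball 0 δ) := by
    refine isOpen_ball.eqOn_of_deriv_eq (convex_ball (0 : ℂ) δ).isPreconnected hwd
      (differentiableOn_const _) (fun w hw => by rw [hdw hw]; simp) (mem_ball_self hδ) ?_
    simp only [dslope_same]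
    exact hΦ1
  filter_upwards [ball_mem_nhds (0 : ℂ) hδ] with ξ hξ
  have := hmul ξ
  rw [hconst hξ, mul_one] at this
  exact this

/-- uniqueness of the germ of the solution of the model equations -/
theorem germ_unique {x1 D1 x2 D2 : ℂ → ℂ}
    (hx : AnalyticAt ℂ x1 0) (hD : AnalyticAt ℂ D1 0) (hx0 : x1 0 = 0)
    (hx1 : deriv x1 0 = 1) (ho : ∀ᶠ ξ in 𝓝 (0 : ℂ), ξ * deriv x1 ξ = 2 * D1 ξ)
    (hc : ∀ᶠ ξ in 𝓝 (0 : ℂ),
      24 * (Complex.sin (D1 ξ) - D1 ξ * Complex.cos (D1 ξ)) = x1 ξ ^ 3)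
    (kx : AnalyticAt ℂ x2 0) (kD : AnalyticAt ℂ D2 0) (kx0 : x2 0 = 0)
    (kx1 : deriv x2 0 = 1) (ko : ∀ᶠ ξ in 𝓝 (0 : ℂ), ξ * deriv x2 ξ = 2 * D2 ξ)
    (kc : ∀ᶠ ξ in 𝓝 (0 : ℂ),
      24 * (Complex.sin (D2 ξ) - D2 ξ * Complex.cos (D2 ξ)) = x2 ξ ^ 3) :
    D1 =ᶠ[𝓝 0] D2 ∧ x1 =ᶠ[𝓝 0] x2 := by
  have h1 := germ_inv hx hD hx0 hx1 ho hc
  have h2 := germ_inv kx kD kx0 kx1 ko kc
  obtain ⟨Xt, f, -, -, -, hf, -⟩ := exists_germ
  have hD0 : D1 0 = 0 := by
    have := ho.self_of_nhds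
    rw [zero_mul] at this
    linear_combination -(1 / 2 : ℂ) * this
  have kD0 : D2 0 = 0 := by
    have := ko.self_of_nhds
    rw [zero_mul] at this
    linear_combination -(1 / 2 : ℂ) * this
  have t1 : Tendsto D1 (𝓝 0) (𝓝 0) := by
    have := hD.continuousAt.tendsto
    rwa [hD0] at this
  have t2 : Tendsto D2 (𝓝 0) (𝓝 0) := by
    have := kD.continuousAt.tendsto
    rwa [kD0] at this
  have hDD : D1 =ᶠ[𝓝 0] D2 := by
    filter_upwards [h1, h2, t1.eventually hf, t2.eventually hf] with ξ a1 a2 a3 a4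
    rw [← a3, ← a4, a1, a2]
  refine ⟨hDD, ?_⟩
  obtain ⟨δ, hδ, hb⟩ := Metric.eventually_nhds_iff_ball.1
    ((hx.eventually_analyticAt.and kx.eventually_analyticAt).and (ho.and (ko.and hDD)))
  have h3 : EqOn x1 x2 (ball 0 δ) := by
    have e1 : DifferentiableOn ℂ x1 (ball 0 δ) := fun w hw =>
      (hb w hw).1.1.differentiableAt.differentiableWithinAt
    have e2 : DifferentiableOn ℂ x2 (ball 0 δ) := fun w hw =>
      (hb w hw).1.2.differentiableAt.differentiableWithinAt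
    refine isOpen_ball.eqOn_of_deriv_eq (convex_ball (0 : ℂ) δ).isPreconnected e1 e2 ?_
      (mem_ball_self hδ) (by rw [hx0, kx0])
    intro w hw
    rcases eq_or_ne w 0 with rfl | hw0
    · rw [hx1, kx1]
    · refine mul_left_cancel₀ hw0 ?_
      rw [(hb w hw).2.1, (hb w hw).2.2.1, (hb w hw).2.2.2]
  filter_upwards [ball_mem_nhds (0 : ℂ) hδ] with ξ hξ using h3 hξ

namespace Data

/-- any germ solving the model equations is the one of the data -/
theorem germ_eq (h : Data Xt Us Dl x) {x1 D1 : ℂ → ℂ}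
    (hx : AnalyticAt ℂ x1 0) (hD : AnalyticAt ℂ D1 0) (hx0 : x1 0 = 0)
    (hx1 : deriv x1 0 = 1) (ho : ∀ᶠ ξ in 𝓝 (0 : ℂ), ξ * deriv x1 ξ = 2 * D1 ξ)
    (hc : ∀ᶠ ξ in 𝓝 (0 : ℂ),
      24 * (Complex.sin (D1 ξ) - D1 ξ * Complex.cos (D1 ξ)) = x1 ξ ^ 3) :
    D1 =ᶠ[𝓝 0] Dl ∧ x1 =ᶠ[𝓝 0] x := by
  have hU := h.isOpen.mem_nhds h.zero_mem
  refine germ_unique hx hD hx0 hx1 ho hc (h.x_diff.analyticAt hU) (h.Dl_diff.analyticAt hU)
    h.x_zero h.deriv_x ?_ ?_
  · filter_upwards [hU] with ξ hξ using h.ode ξ hξ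
  · filter_upwards [hU] with ξ hξ using h.cube ξ hξ

end Data

end Crest.Agent.R102.E4ray77
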