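import Mathlib
import Crest.Agent.R266.SCV

/-!
Row 102, T1-E (architect 758), leaf (E4-1D): the model `x³ = 24 (sin Δ - Δ cos Δ)`, `ξ x' = 2 Δ`
on a star-shaped neighbourhood of the imaginary axis, and its radius of convergence. (helper77)
-/

set_option autoImplicit false

open Set Filter Topology Metric MeasureTheory

noncomputable section

namespace Crest.Agent.R102.E4ray77

open Crest.Agent

/-! ### primitives on a set star-shaped about `0` -/

/-- `S` is star-shaped about `0` (in the form used) -/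
def Star (S : Set ℂ) : Prop := ∀ z ∈ S, ∀ t : ℝ, 0 ≤ t → t ≤ 1 → (t : ℂ) * z ∈ S

/-- the primitive of `f` along rays -/
def prim (f : ℂ → ℂ) (z : ℂ) : ℂ := ∫ r in (0 : ℝ)..1, z * f (r * z)

lemma prim_zero (f : ℂ → ℂ) : prim f 0 = 0 := by simp [prim]

lemma Star.preconnected {S : Set ℂ} (h : Star S) : IsPreconnected S := by
  rcases S.eq_empty_or_nonempty with rfl | ⟨z0, hz0⟩
  · exact isPreconnected_empty
  have h0 : (0 : ℂ) ∈ S := by simpa using h z0 hz0 0 le_rfl zero_le_one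
  refine isPreconnected_of_forall (0 : ℂ) (fun z hz => ?_)
  refine ⟨segment ℝ 0 z, ?_, left_mem_segment _ _ _, right_mem_segment _ _ _,
    (convex_segment _ _).isPreconnected⟩
  rintro w ⟨a, b, ha, hb, hab, rfl⟩
  have := h z hz b hb (by linarith)
  simpa using this

lemma differentiableOn_prim {S : Set ℂ} (hS : IsOpen S) (hs : Star S) {f : ℂ → ℂ}
    (hf : DifferentiableOn ℂ f S) : DifferentiableOn ℂ (prim f) S := by
  have h1 := R266.SCV.analyticOnNhd_intervalIntegral (E := ℂ) (F := ℂ)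
    (f := fun p : ℂ × ℝ => p.1 * f (p.2 * p.1)) (a := 0) (b := 1) hS ?_ ?_
  · exact h1.differentiableOn
  · refine continuousOn_fst.mul ?_
    refine hf.continuousOn.comp (f := fun p : ℂ × ℝ => (p.2 : ℂ) * p.1) (by fun_prop) ?_
    intro p hp
    have h2 := hp.2
    rw [uIcc_of_le zero_le_one] at h2
    exact hs _ hp.1 _ h2.1 h2.2
  · intro r hr
    rw [uIcc_of_le zero_le_one] at hr
    refine differentiableOn_id.mul ?_
    exact hf.comp (f := fun z : ℂ => (r : ℂ) * z) (by fun_prop)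
      (fun z hz => hs _ hz _ hr.1 hr.2)

lemma hasDerivAt_prim {S : Set ℂ} (hS : IsOpen S) (hs : Star S) {f : ℂ → ℂ}
    (hf : DifferentiableOn ℂ f S) {z : ℂ} (hz : z ∈ S) : HasDerivAt (prim f) (f z) z := by
  have h0 : (0 : ℂ) ∈ S := by simpa using hs z hz 0 le_rfl zero_le_one
  have hd := differentiableOn_prim hS hs hf
  obtain ⟨ε, hε, hb⟩ := Metric.isOpen_iff.1 hS 0 h0
  obtain ⟨P, hP⟩ := (hf.mono hb).isExactOn_ball
  have h1 : ∀ w ∈ ball (0 : ℂ) ε, prim f w = P w - P 0 := by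
    intro w hw
    have h2 : ∀ t ∈ uIcc (0 : ℝ) 1, HasDerivAt (fun t : ℝ => P (t * w)) (w * f (t * w)) t := by
      intro t ht
      rw [uIcc_of_le zero_le_one] at ht
      have h3 : (t : ℂ) * w ∈ ball (0 : ℂ) ε := by
        rw [mem_ball_zero_iff] at hw ⊢
        rw [norm_mul, Complex.norm_real, Real.norm_eq_abs, abs_of_nonneg ht.1]
        exact (mul_le_of_le_one_left (norm_nonneg _) ht.2).trans_lt hw
      have h4 : HasDerivAt (fun t : ℝ => (t : ℂ) * w) w t := by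
        simpa using (Complex.ofRealCLM.hasDerivAt (x := t)).mul_const w
      have h5 := (hP _ h3).scomp t h4
      simpa [smul_eq_mul, Function.comp_def] using h5
    have h6 : ContinuousOn (fun t : ℝ => w * f (t * w)) (uIcc (0 : ℝ) 1) := by
      refine continuousOn_const.mul (hf.continuousOn.comp (by fun_prop) ?_)
      intro t ht
      rw [uIcc_of_le zero_le_one] at ht
      refine hs _ (hb hw) _ ht.1 ht.2
    have h7 := intervalIntegral.integral_eq_sub_of_hasDerivAt h2 h6.intervalIntegrable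
    simpa [prim] using h7
  have h8 : EqOn (deriv (prim f)) f S := by
    refine AnalyticOnNhd.eqOn_of_preconnected_of_eventuallyEq (z₀ := 0)
      ((hd.deriv hS).analyticOnNhd hS) (hf.analyticOnNhd hS) hs.preconnected h0 ?_
    filter_upwards [ball_mem_nhds (0 : ℂ) hε] with w hw
    have h9 : prim f =ᶠ[𝓝 w] fun w => P w - P 0 := by
      filter_upwards [isOpen_ball.mem_nhds hw] with v hv using h1 v hv
    rw [h9.deriv_eq, ((hP w hw).sub_const (P 0)).deriv]
  have h10 := (hd.differentiableAt (hS.mem_nhds hz)).hasDerivAt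
  rwa [h8 hz] at h10


/-! ### the entire functions `ss = sin z / z`, `gg = 3 (sin z - z cos z) / z ^ 3` -/

/-- `sin z / z` -/
def ss (z : ℂ) : ℂ := dslope Complex.sin 0 z

lemma ss_diff : Differentiable ℂ ss := by
  rw [← differentiableOn_univ]
  exact (Complex.differentiableOn_dslope Filter.univ_mem).2 Complex.differentiable_sin.differentiableOn

lemma mul_ss (z : ℂ) : z * ss z = Complex.sin z := by
  have := sub_smul_dslope Complex.sin 0 z
  simpa [ss] using this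

lemma ss_zero : ss 0 = 1 := by simp [ss, dslope_same]

lemma ss_neg (z : ℂ) : ss (-z) = ss z := by
  rcases eq_or_ne z 0 with rfl | hz
  · simp
  have h1 := mul_ss (-z)
  have h2 := mul_ss z
  rw [Complex.sin_neg, ← h2] at h1
  exact mul_left_cancel₀ (neg_ne_zero.2 hz) (by linear_combination h1)

/-- `(sin z - z cos z) / z` -/
def g1 (z : ℂ) : ℂ := ss z - Complex.cos z

/-- `(sin z - z cos z) / z ^ 2` -/
def g2 (z : ℂ) : ℂ := dslope g1 0 z

/-- `3 (sin z - z cos z) / z ^ 3` -/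
def gg (z : ℂ) : ℂ := 3 * dslope g2 0 z

lemma g1_diff : Differentiable ℂ g1 := ss_diff.sub Complex.differentiable_cos

lemma g2_diff : Differentiable ℂ g2 := by
  rw [← differentiableOn_univ]
  exact (Complex.differentiableOn_dslope Filter.univ_mem).2 g1_diff.differentiableOn

lemma gg_diff : Differentiable ℂ gg := by
  have h : Differentiable ℂ (dslope g2 0) := by
    rw [← differentiableOn_univ]
    exact (Complex.differentiableOn_dslope Filter.univ_mem).2 g2_diff.differentiableOn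
  exact h.const_mul 3

lemma g1_zero : g1 0 = 0 := by simp [g1, ss_zero]

lemma g2_zero : g2 0 = 0 := by
  have h1 : g2 0 = deriv g1 0 := by simp [g2, dslope_same]
  have h2 : deriv ss 0 = 0 := by
    have h3 : deriv (fun z => ss (-z)) 0 = - deriv ss (-0) := deriv_comp_neg ss 0
    have h4 : (fun z => ss (-z)) = ss := funext ss_neg
    rw [h4, neg_zero] at h3
    linear_combination (1 / 2 : ℂ) * h3
  have h5 : HasDerivAt g1 (deriv ss 0 - (-Complex.sin 0)) 0 :=
    (ss_diff 0).hasDerivAt.sub (Complex.hasDerivAt_cos 0)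
  rw [h1, h5.deriv, h2]
  simp

lemma mul_gg (z : ℂ) : z ^ 3 * gg z = 3 * (Complex.sin z - z * Complex.cos z) := by
  have h1 := sub_smul_dslope g1 0 z
  have h2 := sub_smul_dslope g2 0 z
  rw [g1_zero, sub_zero, sub_zero, smul_eq_mul] at h1
  rw [g2_zero, sub_zero, sub_zero, smul_eq_mul] at h2
  have h3 : z * dslope g1 0 z = z * g2 z := rfl
  rw [h3, g1] at h1
  unfold gg
  linear_combination 3 * z ^ 2 * h2 + 3 * z * h1 + 3 * mul_ss z

lemma gg_neg (z : ℂ) : gg (-z) = gg z := by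
  rcases eq_or_ne z 0 with rfl | hz
  · simp
  have h1 := mul_gg (-z)
  have h2 := mul_gg z
  rw [Complex.sin_neg, Complex.cos_neg] at h1
  refine mul_left_cancel₀ (pow_ne_zero 3 hz) ?_
  linear_combination -h1 - h2

/-- the derivative of `sin z - z cos z` is `z sin z` -/
lemma hasDerivAt_G (z : ℂ) :
    HasDerivAt (fun z => Complex.sin z - z * Complex.cos z) (z * Complex.sin z) z := by
  have h := (Complex.hasDerivAt_sin z).sub ((hasDerivAt_id z).mul (Complex.hasDerivAt_cos z))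
  refine h.congr_deriv ?_
  simp

lemma gg_ode (z : ℂ) : gg z + z * deriv gg z / 3 = ss z := by
  have hc : Continuous (fun z => gg z + z * deriv gg z / 3) :=
    gg_diff.continuous.add ((continuous_id.mul
      (gg_diff.contDiff (n := 1)).continuous_deriv_one).div_const 3)
  have key : EqOn (fun z => gg z + z * deriv gg z / 3) ss ({0}ᶜ : Set ℂ) := by
    intro z hz
    have hz' : z ≠ 0 := hz
    have h1 : HasDerivAt (fun z => z ^ 3 * gg z) (3 * (z * Complex.sin z)) z := by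
      have : (fun z : ℂ => z ^ 3 * gg z) = fun z => 3 * (Complex.sin z - z * Complex.cos z) :=
        funext mul_gg
      rw [this]
      exact (hasDerivAt_G z).const_mul 3
    have h2 : HasDerivAt (fun z => z ^ 3 * gg z) (3 * z ^ 2 * gg z + z ^ 3 * deriv gg z) z := by
      have := (hasDerivAt_pow 3 z).mul (gg_diff z).hasDerivAt
      refine this.congr_deriv ?_
      norm_num
    have h3 := h1.unique h2
    rw [← mul_ss z] at h3
    refine mul_left_cancel₀ (pow_ne_zero 2 hz') ?_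
    simp only
    linear_combination -(1/3 : ℂ) * h3
  have := Continuous.ext_on (dense_compl_singleton (0 : ℂ)) hc ss_diff.continuous key
  exact congrFun this z

lemma gg_zero : gg 0 = 1 := by
  have := gg_ode 0
  rw [ss_zero] at this
  simpa using this


/-! ### the domain `NN`, the cube root `cc`, `qq = ss / cc ^ 2`, `AA`, `Xi` -/

lemma isOpen_forall_mul {W : Set ℂ} (hW : IsOpen W) {f : ℂ → ℂ} (hf : Continuous f) :
    IsOpen {z : ℂ | ∀ t : ℝ, 0 ≤ t → t ≤ 1 → f ((t : ℂ) * z) ∈ W} := by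
  rw [isOpen_iff_mem_nhds]
  intro z hz
  have h := IsCompact.eventually_forall_of_forall_eventually (x₀ := z) (K := Icc (0 : ℝ) 1)
    isCompact_Icc (P := fun z t => f ((t : ℂ) * z) ∈ W) (fun t ht => by
      have hc : Continuous (fun p : ℂ × ℝ => f ((p.2 : ℂ) * p.1)) := by fun_prop
      exact hc.continuousAt.eventually_mem (hW.mem_nhds (hz t ht.1 ht.2)))
  filter_upwards [h] with w hw t h0 h1 using hw t ⟨h0, h1⟩

/-- the rays on which `gg` stays in the slit plane -/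
def NN : Set ℂ := {z : ℂ | ∀ t : ℝ, 0 ≤ t → t ≤ 1 → gg ((t : ℂ) * z) ∈ Complex.slitPlane}

lemma isOpen_NN : IsOpen NN := isOpen_forall_mul Complex.isOpen_slitPlane gg_diff.continuous

lemma star_NN : Star NN := by
  intro z hz t h0 h1 u hu0 hu1
  have := hz (u * t) (mul_nonneg hu0 h0) (mul_le_one₀ hu1 h0 h1)
  push_cast at this
  rwa [mul_assoc] at this

lemma zero_mem_NN : (0 : ℂ) ∈ NN := by
  intro t _ _
  rw [mul_zero, gg_zero]
  exact Complex.one_mem_slitPlane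

lemma gg_mem {z : ℂ} (hz : z ∈ NN) : gg z ∈ Complex.slitPlane := by
  simpa using hz 1 zero_le_one le_rfl

lemma gg_ne {z : ℂ} (hz : z ∈ NN) : gg z ≠ 0 := Complex.slitPlane_ne_zero (gg_mem hz)

/-- the cube root of `gg` -/
def cc (z : ℂ) : ℂ := Complex.exp (Complex.log (gg z) / 3)

lemma cc_ne (z : ℂ) : cc z ≠ 0 := Complex.exp_ne_zero _

lemma cc_pow {z : ℂ} (hz : z ∈ NN) : cc z ^ 3 = gg z := by
  rw [cc, ← Complex.exp_nat_mul]
  push_cast
  rw [mul_div_cancel₀ _ (by norm_num : (3 : ℂ) ≠ 0), Complex.exp_log (gg_ne hz)]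

lemma cc_zero : cc 0 = 1 := by simp [cc, gg_zero]

lemma hasDerivAt_cc {z : ℂ} (hz : z ∈ NN) :
    HasDerivAt cc (cc z * (deriv gg z / gg z / 3)) z := by
  have h := (((gg_diff z).hasDerivAt.clog (gg_mem hz)).div_const 3).cexp
  exact h

/-- `ss / cc ^ 2` -/
def qq (z : ℂ) : ℂ := ss z / cc z ^ 2

lemma qq_zero : qq 0 = 1 := by simp [qq, ss_zero, cc_zero]

lemma qq_diff : DifferentiableOn ℂ qq NN := by
  intro z hz
  exact ((ss_diff z).div ((hasDerivAt_cc hz).differentiableAt.pow 2)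
    (pow_ne_zero 2 (cc_ne z))).differentiableWithinAt

/-- the integrand -/
def aa (z : ℂ) : ℂ := dslope qq 0 z

lemma aa_diff : DifferentiableOn ℂ aa NN :=
  (Complex.differentiableOn_dslope (isOpen_NN.mem_nhds zero_mem_NN)).2 qq_diff

lemma mul_aa (z : ℂ) : z * aa z = qq z - 1 := by
  have := sub_smul_dslope qq 0 z
  rw [qq_zero] at this
  simpa [aa] using this

/-- the exponent -/
def AA (z : ℂ) : ℂ := prim aa z

lemma hasDerivAt_AA {z : ℂ} (hz : z ∈ NN) : HasDerivAt AA (aa z) z :=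
  hasDerivAt_prim isOpen_NN star_NN aa_diff hz

lemma AA_zero : AA 0 = 0 := prim_zero _

/-- the inverse of `Dl` -/
def Xi (z : ℂ) : ℂ := 2 * z * Complex.exp (AA z)

lemma Xi_zero : Xi 0 = 0 := by simp [Xi]

/-- the derivative of `Xi` -/
def Xp (z : ℂ) : ℂ := 2 * Complex.exp (AA z) * qq z

lemma hasDerivAt_Xi {z : ℂ} (hz : z ∈ NN) : HasDerivAt Xi (Xp z) z := by
  have h := ((hasDerivAt_id z).const_mul 2).mul (hasDerivAt_AA hz).cexp
  refine h.congr_deriv ?_
  have h1 := mul_aa z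
  simp only [id, Xp]
  linear_combination 2 * Complex.exp (AA z) * h1

/-- the variable `x` in terms of `Delta` -/
def xh (z : ℂ) : ℂ := 2 * z * cc z

lemma xh_zero : xh 0 = 0 := by simp [xh]

lemma xh_pow {z : ℂ} (hz : z ∈ NN) :
    xh z ^ 3 = 24 * (Complex.sin z - z * Complex.cos z) := by
  have h1 := mul_gg z
  rw [← cc_pow hz] at h1
  unfold xh
  linear_combination 8 * h1

lemma hasDerivAt_xh {z : ℂ} (hz : z ∈ NN) : HasDerivAt xh (2 * qq z) z := by
  have h := ((hasDerivAt_id z).const_mul 2).mul (hasDerivAt_cc hz)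
  refine h.congr_deriv ?_
  have h1 := gg_ode z
  have h2 := cc_pow hz
  have h3 := cc_ne z
  have h4 := gg_ne hz
  simp only [id, qq]
  rw [← h1, ← h2]
  rw [← h2] at h4
  field_simp


/-! ### the imaginary axis -/

lemma dcosh_pos {D : ℝ} (hD : 0 < D) : 0 < D * Real.cosh D - Real.sinh D := by
  have h1 : StrictMonoOn (fun x : ℝ => x * Real.cosh x - Real.sinh x) (Ici 0) := by
    refine strictMonoOn_of_deriv_pos (convex_Ici 0) (by fun_prop) (fun x hx => ?_)
    rw [interior_Ici] at hx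
    have h2 : HasDerivAt (fun x : ℝ => x * Real.cosh x - Real.sinh x) (x * Real.sinh x) x := by
      have := ((hasDerivAt_id x).mul (Real.hasDerivAt_cosh x)).sub (Real.hasDerivAt_sinh x)
      refine this.congr_deriv ?_
      simp
    rw [h2.deriv]
    exact mul_pos hx (Real.sinh_pos_iff.2 hx)
  have h3 := h1 (mem_Ici.2 le_rfl) (mem_Ici.2 hD.le) hD
  simpa using h3

lemma le_sinh_sq {D : ℝ} (hD : 0 ≤ D) :
    3 * (D * Real.cosh D - Real.sinh D) ≤ D ^ 2 * Real.sinh D := by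
  have h1 : MonotoneOn (fun x : ℝ => x ^ 2 * Real.sinh x - 3 * (x * Real.cosh x - Real.sinh x))
      (Ici 0) := by
    refine monotoneOn_of_deriv_nonneg (convex_Ici 0) (by fun_prop) (by fun_prop) (fun x hx => ?_)
    rw [interior_Ici] at hx
    have h2 : HasDerivAt (fun x : ℝ => x ^ 2 * Real.sinh x - 3 * (x * Real.cosh x - Real.sinh x))
        (x * (x * Real.cosh x - Real.sinh x)) x := by
      have := ((hasDerivAt_pow 2 x).mul (Real.hasDerivAt_sinh x)).sub
        ((((hasDerivAt_id x).mul (Real.hasDerivAt_cosh x)).sub (Real.hasDerivAt_sinh x)).const_mul 3)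
      refine this.congr_deriv ?_
      simp
      ring
    rw [h2.deriv]
    exact mul_nonneg (le_of_lt hx) (dcosh_pos hx).le
  have h3 := h1 (mem_Ici.2 le_rfl) (mem_Ici.2 hD) hD
  simp at h3
  linarith

/-- values on the positive imaginary axis -/
lemma axis_pos {D : ℝ} (hD : 0 < D) : ∃ σ γ : ℝ, ss (D * Complex.I) = σ ∧
    gg (D * Complex.I) = γ ∧ 1 ≤ σ ∧ 0 < γ ∧ γ ≤ σ := by
  have hDc : (D : ℂ) ≠ 0 := by exact_mod_cast hD.ne'
  refine ⟨Real.sinh D / D, 3 * (D * Real.cosh D - Real.sinh D) / D ^ 3, ?_, ?_, ?_, ?_, ?_⟩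
  · have h1 := mul_ss (D * Complex.I)
    rw [Complex.sin_mul_I] at h1
    push_cast
    rw [eq_div_iff hDc]
    refine mul_right_cancel₀ Complex.I_ne_zero ?_
    linear_combination h1
  · have h1 := mul_gg (D * Complex.I)
    rw [Complex.sin_mul_I, Complex.cos_mul_I] at h1
    push_cast
    rw [eq_div_iff (pow_ne_zero 3 hDc)]
    refine mul_right_cancel₀ Complex.I_ne_zero ?_
    have h2 : Complex.I ^ 3 = - Complex.I := by rw [pow_succ, Complex.I_sq]; ring
    rw [mul_pow, h2] at h1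
    linear_combination -h1
  · rw [le_div_iff₀ hD, one_mul]
    exact Real.self_le_sinh_iff.2 hD.le
  · have := dcosh_pos hD
    positivity
  · rw [div_le_div_iff₀ (by positivity) hD]
    have := le_sinh_sq hD.le
    nlinarith

lemma axis (D : ℝ) : ∃ σ γ : ℝ, ss (D * Complex.I) = σ ∧
    gg (D * Complex.I) = γ ∧ 1 ≤ σ ∧ 0 < γ ∧ γ ≤ σ := by
  rcases lt_trichotomy D 0 with h | h | h
  · obtain ⟨σ, γ, h1, h2, h3⟩ := axis_pos (D := -D) (by linarith)
    refine ⟨σ, γ, ?_, ?_, h3⟩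
    · rw [← ss_neg, ← h1]; push_cast; ring_nf
    · rw [← gg_neg, ← h2]; push_cast; ring_nf
  · subst h
    exact ⟨1, 1, by simp [ss_zero], by simp [gg_zero], le_rfl, one_pos, le_rfl⟩
  · exact axis_pos h

lemma I_mem_NN (D : ℝ) : (D : ℂ) * Complex.I ∈ NN := by
  intro t _ _
  obtain ⟨σ, γ, -, h2, -, h4, -⟩ := axis (t * D)
  push_cast at h2
  rw [← mul_assoc, h2]
  exact Complex.ofReal_mem_slitPlane.2 h4

lemma axis_cc (D : ℝ) : ∃ κ γ : ℝ, 0 < κ ∧ cc (D * Complex.I) = κ ∧ κ ^ 3 = γ ∧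
    gg (D * Complex.I) = γ := by
  obtain ⟨σ, γ, h1, h2, h3, h4, h5⟩ := axis D
  refine ⟨Real.exp (Real.log γ / 3), γ, Real.exp_pos _, ?_, ?_, h2⟩
  · rw [cc, h2, ← Complex.ofReal_log h4.le]
    push_cast
    rfl
  · rw [← Real.exp_nat_mul]
    push_cast
    rw [mul_div_cancel₀ _ (by norm_num : (3 : ℝ) ≠ 0), Real.exp_log h4]

lemma axis_qq (D : ℝ) : ∃ ρ : ℝ, qq (D * Complex.I) = ρ ∧ 1 ≤ ρ := by
  obtain ⟨σ, γ, h1, h2, h3, h4, h5⟩ := axis D
  obtain ⟨κ, γ', k1, k2, k3, k4⟩ := axis_cc D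
  have hγ : γ' = γ := by rw [h2] at k4; exact_mod_cast k4.symm
  subst hγ
  refine ⟨σ / κ ^ 2, by rw [qq, h1, k2]; push_cast; rfl, ?_⟩
  rw [le_div_iff₀ (by positivity), one_mul]
  have h6 : (κ ^ 2) ^ 3 ≤ σ ^ 3 := by
    calc (κ ^ 2) ^ 3 = (κ ^ 3) ^ 2 := by ring
      _ ≤ σ ^ 2 := by rw [k3]; exact pow_le_pow_left₀ h4.le h5 2
      _ ≤ σ ^ 3 := pow_le_pow_right₀ h3 (by norm_num)
  exact le_of_pow_le_pow_left₀ (by norm_num) (by linarith) h6

/-- real value of `qq` on the imaginary axis -/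
def qr (D : ℝ) : ℝ := (qq (D * Complex.I)).re

lemma qr_eq (D : ℝ) : qq (D * Complex.I) = (qr D : ℂ) := by
  obtain ⟨ρ, h1, -⟩ := axis_qq D
  rw [qr, h1, Complex.ofReal_re]

lemma one_le_qr (D : ℝ) : 1 ≤ qr D := by
  obtain ⟨ρ, h1, h2⟩ := axis_qq D
  rw [qr, h1, Complex.ofReal_re]
  exact h2

/-- real value of the exponent -/
def al (D : ℝ) : ℝ := ∫ r in (0 : ℝ)..1, (qr (r * D) - 1) / r

lemma al_nonneg (D : ℝ) : 0 ≤ al D := by
  refine intervalIntegral.integral_nonneg zero_le_one (fun r hr => ?_)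
  exact div_nonneg (sub_nonneg.2 (one_le_qr _)) hr.1

lemma AA_axis (D : ℝ) : AA (D * Complex.I) = (al D : ℂ) := by
  unfold AA prim al
  rw [← intervalIntegral.integral_ofReal]
  refine intervalIntegral.integral_congr_ae (Eventually.of_forall (fun r hr => ?_))
  rw [uIoc_of_le zero_le_one] at hr
  have hr0 : (r : ℂ) ≠ 0 := by exact_mod_cast hr.1.ne'
  have h1 := mul_aa ((r * D : ℝ) * Complex.I)
  rw [qr_eq] at h1
  push_cast at h1 ⊢
  rw [eq_div_iff hr0, ← mul_assoc (r : ℂ), ← h1]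
  ring

/-- the real height function -/
def eta (D : ℝ) : ℝ := 2 * D * Real.exp (al D)

lemma Xi_axis (D : ℝ) : Xi (D * Complex.I) = (eta D : ℂ) * Complex.I := by
  rw [Xi, AA_axis, eta]
  push_cast
  ring

lemma hasDerivAt_eta (D : ℝ) : HasDerivAt eta (2 * Real.exp (al D) * qr D) D := by
  have h1 : HasDerivAt (fun x : ℝ => (x : ℂ) * Complex.I) Complex.I D := by
    simpa using (Complex.ofRealCLM.hasDerivAt (x := D)).mul_const Complex.I
  have h2 := (hasDerivAt_Xi (I_mem_NN D)).scomp D h1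
  have h3 : (Xi ∘ fun x : ℝ => (x : ℂ) * Complex.I) = fun x : ℝ => (eta x : ℂ) * Complex.I :=
    funext Xi_axis
  rw [h3] at h2
  have h4 := Complex.imCLM.hasFDerivAt.comp_hasDerivAt D h2
  simp only [Function.comp_def, Complex.imCLM_apply] at h4
  have h5 : (fun x : ℝ => ((eta x : ℂ) * Complex.I).im) = eta := by
    funext x; simp
  rw [h5] at h4
  refine h4.congr_deriv ?_
  rw [Xp, AA_axis, qr_eq]
  simp [smul_eq_mul, Complex.exp_ofReal_re]

lemma eta_strictMono : StrictMono eta := by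
  refine strictMono_of_deriv_pos (fun D => ?_)
  rw [(hasDerivAt_eta D).deriv]
  have := one_le_qr D
  positivity

lemma eta_cont : Continuous eta :=
  continuous_iff_continuousAt.2 (fun D => (hasDerivAt_eta D).continuousAt)

lemma eta_surj : Function.Surjective eta := by
  refine eta_cont.surjective ?_ ?_
  · refine tendsto_atTop_mono' atTop ?_ (tendsto_id.const_mul_atTop (zero_lt_two (α := ℝ)))
    filter_upwards [eventually_ge_atTop 0] with D hD
    have := Real.one_le_exp (al_nonneg D)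
    simp only [id, eta]
    nlinarith
  · refine tendsto_atBot_mono' atBot ?_ (tendsto_id.const_mul_atBot (zero_lt_two (α := ℝ)))
    filter_upwards [eventually_le_atBot 0] with D hD
    have := Real.one_le_exp (al_nonneg D)
    simp only [id, eta]
    nlinarith

/-- the inverse of `eta` -/
def iso : ℝ ≃o ℝ := eta_strictMono.orderIsoOfSurjective eta eta_surj

/-- the inverse of `eta` as a function -/
def DD (y : ℝ) : ℝ := iso.symm y

lemma eta_DD (y : ℝ) : eta (DD y) = y := iso.apply_symm_apply y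

lemma DD_eta (D : ℝ) : DD (eta D) = D := iso.symm_apply_apply D

lemma DD_cont : Continuous DD := iso.symm.continuous

lemma eta_zero : eta 0 = 0 := by simp [eta]

lemma DD_zero : DD 0 = 0 := by
  have := DD_eta 0
  rwa [eta_zero] at this


/-! ### local inverses along the axis -/

lemma Xi_diff : DifferentiableOn ℂ Xi NN := fun _ hz =>
  (hasDerivAt_Xi hz).differentiableAt.differentiableWithinAt

lemma Xp_axis_ne (D : ℝ) : Xp (D * Complex.I) ≠ 0 := by
  rw [Xp, qr_eq]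
  refine mul_ne_zero (mul_ne_zero two_ne_zero (Complex.exp_ne_zero _)) ?_
  have := one_le_qr D
  exact_mod_cast (by linarith : (0 : ℝ) < qr D).ne'

lemma exists_loc (y : ℝ) : ∃ ρ : ℝ, 0 < ρ ∧ ∃ h : ℂ → ℂ,
    AnalyticOnNhd ℂ h (ball ((y : ℂ) * Complex.I) ρ) ∧
    (∀ ξ ∈ ball ((y : ℂ) * Complex.I) ρ, h ξ ∈ NN ∧ Xi (h ξ) = ξ) ∧
    (∀ y' : ℝ, |y' - y| < ρ → h ((y' : ℂ) * Complex.I) = (DD y' : ℂ) * Complex.I) ∧
    (∀ᶠ z in 𝓝 ((DD y : ℂ) * Complex.I), h (Xi z) = z) := by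
  set z0 : ℂ := (DD y : ℂ) * Complex.I with hz0
  have hN : z0 ∈ NN := I_mem_NN _
  have hX : Xi z0 = (y : ℂ) * Complex.I := by rw [hz0, Xi_axis, eta_DD]
  have hA : AnalyticAt ℂ Xi z0 := Xi_diff.analyticAt (isOpen_NN.mem_nhds hN)
  have hd : deriv Xi z0 ≠ 0 := by
    rw [(hasDerivAt_Xi hN).deriv]
    exact Xp_axis_ne _
  set h := hA.hasStrictDerivAt.localInverse Xi _ z0 hd with hh
  have h1 : AnalyticAt ℂ h (Xi z0) := hA.analyticAt_localInverse hd
  have h2 : ∀ᶠ z in 𝓝 z0, h (Xi z) = z := HasStrictFDerivAt.eventually_left_inverse _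
  have h3 : ∀ᶠ ξ in 𝓝 (Xi z0), Xi (h ξ) = ξ := HasStrictFDerivAt.eventually_right_inverse _
  have h4 : h (Xi z0) = z0 := h2.self_of_nhds
  have h5 : ∀ᶠ ξ in 𝓝 (Xi z0), h ξ ∈ NN :=
    h1.continuousAt.eventually_mem (by rw [h4]; exact isOpen_NN.mem_nhds hN)
  have h6 : ∀ᶠ ξ in 𝓝 (Xi z0), AnalyticAt ℂ h ξ := h1.eventually_analyticAt
  have h7 : Tendsto (fun y' : ℝ => (DD y' : ℂ) * Complex.I) (𝓝 y) (𝓝 z0) := by
    have hc : Continuous (fun y' : ℝ => (DD y' : ℂ) * Complex.I) := by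
      have := DD_cont
      fun_prop
    exact hc.tendsto y
  have h8 := h7.eventually h2
  obtain ⟨ρ1, hρ1, hb1⟩ := Metric.eventually_nhds_iff_ball.1 (h6.and (h5.and h3))
  obtain ⟨ρ2, hρ2, hb2⟩ := Metric.eventually_nhds_iff_ball.1 h8
  rw [hX] at hb1
  refine ⟨min ρ1 ρ2, lt_min hρ1 hρ2, h, fun ξ hξ => ?_, fun ξ hξ => ?_, fun y' hy' => ?_, h2⟩
  · exact (hb1 ξ (ball_subset_ball (min_le_left _ _) hξ)).1
  · exact (hb1 ξ (ball_subset_ball (min_le_left _ _) hξ)).2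
  · have := hb2 y' (by rw [Real.ball_eq_Ioo]; rw [abs_lt] at hy'; constructor <;> linarith [min_le_right ρ1 ρ2])
    rwa [Xi_axis, eta_DD] at this

/-! ### gluing along the axis -/

lemma mem_ball_I {y' y ρ : ℝ} :
    ((y' : ℂ) * Complex.I) ∈ ball ((y : ℂ) * Complex.I) ρ ↔ |y' - y| < ρ := by
  rw [mem_ball, dist_eq_norm, ← sub_mul, norm_mul, Complex.norm_I, mul_one, ← Complex.ofReal_sub,
    Complex.norm_real, Real.norm_eq_abs]

lemma im_mem_ball {ξ : ℂ} {y ρ : ℝ} (h : ξ ∈ ball ((y : ℂ) * Complex.I) ρ) : |ξ.im - y| < ρ := by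
  rw [mem_ball, dist_eq_norm] at h
  refine lt_of_le_of_lt ?_ h
  have := Complex.abs_im_le_norm (ξ - (y : ℂ) * Complex.I)
  simpa using this

lemma overlap {φ : ℝ → ℂ} {y1 y2 ρ1 ρ2 : ℝ} {h1 h2 : ℂ → ℂ}
    (a1 : AnalyticOnNhd ℂ h1 (ball ((y1 : ℂ) * Complex.I) ρ1))
    (a2 : AnalyticOnNhd ℂ h2 (ball ((y2 : ℂ) * Complex.I) ρ2))
    (e1 : ∀ y' : ℝ, |y' - y1| < ρ1 → h1 ((y' : ℂ) * Complex.I) = φ y')
    (e2 : ∀ y' : ℝ, |y' - y2| < ρ2 → h2 ((y' : ℂ) * Complex.I) = φ y') :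
    EqOn h1 h2 (ball ((y1 : ℂ) * Complex.I) ρ1 ∩ ball ((y2 : ℂ) * Complex.I) ρ2) := by
  intro ξ hξ
  have p1 := im_mem_ball hξ.1
  have p2 := im_mem_ball hξ.2
  have hf : ∃ᶠ z in 𝓝[≠] ((ξ.im : ℂ) * Complex.I), h1 z = h2 z := by
    have ht : Tendsto (fun y' : ℝ => (y' : ℂ) * Complex.I) (𝓝[≠] ξ.im)
        (𝓝[≠] ((ξ.im : ℂ) * Complex.I)) := by
      refine tendsto_nhdsWithin_iff.2 ⟨?_, ?_⟩
      · have hc : Continuous (fun y' : ℝ => (y' : ℂ) * Complex.I) := by fun_prop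
        exact (hc.tendsto _).mono_left nhdsWithin_le_nhds
      · filter_upwards [self_mem_nhdsWithin] with y' hy' h
        apply hy'
        have := mul_right_cancel₀ Complex.I_ne_zero h
        exact_mod_cast this
    refine ht.frequently (Eventually.frequently ?_)
    have q1 : ∀ᶠ y' in 𝓝 ξ.im, |y' - y1| < ρ1 :=
      (by fun_prop : Continuous fun y' : ℝ => |y' - y1|).continuousAt.eventually_lt_const p1
    have q2 : ∀ᶠ y' in 𝓝 ξ.im, |y' - y2| < ρ2 :=
      (by fun_prop : Continuous fun y' : ℝ => |y' - y2|).continuousAt.eventually_lt_const p2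
    filter_upwards [q1.filter_mono nhdsWithin_le_nhds, q2.filter_mono nhdsWithin_le_nhds]
      with y' r1 r2
    rw [e1 y' r1, e2 y' r2]
  exact AnalyticOnNhd.eqOn_of_preconnected_of_frequently_eq (a1.mono inter_subset_left)
    (a2.mono inter_subset_right) ((convex_ball _ _).inter (convex_ball _ _)).isPreconnected
    ⟨mem_ball_I.2 p1, mem_ball_I.2 p2⟩ hf hξ

lemma exists_glue {φ : ℝ → ℂ} {ρ : ℝ → ℝ} {h : ℝ → ℂ → ℂ}
    (ha : ∀ y, AnalyticOnNhd ℂ (h y) (ball ((y : ℂ) * Complex.I) (ρ y)))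
    (he : ∀ y y' : ℝ, |y' - y| < ρ y → h y ((y' : ℂ) * Complex.I) = φ y') :
    ∃ H : ℂ → ℂ, ∀ y, EqOn H (h y) (ball ((y : ℂ) * Complex.I) (ρ y)) := by
  classical
  refine ⟨fun ξ => if hξ : ∃ y : ℝ, ξ ∈ ball ((y : ℂ) * Complex.I) (ρ y) then h hξ.choose ξ else 0,
    fun y ξ hξ => ?_⟩
  have hex : ∃ y : ℝ, ξ ∈ ball ((y : ℂ) * Complex.I) (ρ y) := ⟨y, hξ⟩
  simp only [dif_pos hex]
  exact overlap (ha _) (ha y) (he _) (he y) ⟨hex.choose_spec, hξ⟩


/-! ### the interval `[0, π]` and finiteness of the radius -/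

lemma G_pos {x : ℝ} (h0 : 0 < x) (h1 : x ≤ Real.pi) : 0 < Real.sin x - x * Real.cos x := by
  rcases lt_or_ge x (Real.pi / 2) with h | h
  · have h2 := Real.lt_tan h0 h
    have h3 : 0 < Real.cos x := Real.cos_pos_of_mem_Ioo ⟨by linarith [Real.pi_pos], h⟩
    rw [Real.tan_eq_sin_div_cos, lt_div_iff₀ h3] at h2
    linarith
  · have h2 : Real.cos x ≤ 0 := Real.cos_nonpos_of_pi_div_two_le_of_le h (by linarith [Real.pi_pos])
    have h3 : 0 ≤ Real.sin x := Real.sin_nonneg_of_nonneg_of_le_pi h0.le h1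
    rcases eq_or_lt_of_le h3 with h4 | h4
    · have h5 := Real.sin_sq_add_cos_sq x
      rw [← h4] at h5
      have h6 : Real.cos x ≠ 0 := by
        intro h7
        rw [h7] at h5
        norm_num at h5
      have h7 : Real.cos x < 0 := lt_of_le_of_ne h2 h6
      nlinarith [mul_pos h0 (neg_pos.2 h7)]
    · nlinarith [mul_nonneg h0.le (neg_nonneg.2 h2)]

lemma real_mem_NN {x : ℝ} (h0 : 0 ≤ x) (h1 : x ≤ Real.pi) : (x : ℂ) ∈ NN := by
  intro t ht0 ht1
  rw [← Complex.ofReal_mul]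
  have ha : 0 ≤ t * x := mul_nonneg ht0 h0
  have hb : t * x ≤ Real.pi := (mul_le_of_le_one_left h0 ht1).trans h1
  rcases eq_or_lt_of_le ha with h | h
  · rw [← h, Complex.ofReal_zero, gg_zero]
    exact Complex.one_mem_slitPlane
  · have hne : ((t * x : ℝ) : ℂ) ≠ 0 := by exact_mod_cast h.ne'
    have h2 : gg ((t * x : ℝ) : ℂ) =
        ((3 * (Real.sin (t * x) - (t * x) * Real.cos (t * x)) / (t * x) ^ 3 : ℝ) : ℂ) := by
      have h3 := mul_gg ((t * x : ℝ) : ℂ)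
      push_cast at h3 hne ⊢
      rw [eq_div_iff (pow_ne_zero 3 hne)]
      linear_combination h3
    rw [h2]
    refine Complex.ofReal_mem_slitPlane.2 ?_
    have := G_pos h hb
    positivity

lemma Xp_pi : Xp (Real.pi : ℂ) = 0 := by
  have h1 := mul_ss (Real.pi : ℂ)
  rw [Complex.sin_pi] at h1
  have h2 : (Real.pi : ℂ) ≠ 0 := by exact_mod_cast Real.pi_ne_zero
  have h3 : ss (Real.pi : ℂ) = 0 := (mul_eq_zero.1 h1).resolve_left h2
  simp [Xp, qq, h3]

/-- no entire function is a local inverse of `Xi` at `0` -/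
lemma no_entire {f : ℂ → ℂ} (hf : Differentiable ℂ f) (h : ∀ᶠ z in 𝓝 (0 : ℂ), f (Xi z) = z) :
    False := by
  have hpi : (Real.pi : ℂ) ∈ NN := real_mem_NN Real.pi_pos.le le_rfl
  have hfX : ∀ z ∈ NN, AnalyticAt ℂ (fun z => f (Xi z)) z := fun z hz =>
    AnalyticAt.comp (g := f) (f := Xi) (hf.analyticAt (Xi z))
      (Xi_diff.analyticAt (isOpen_NN.mem_nhds hz))
  have h1 : EqOn (fun z => f (Xi z)) id ((fun x : ℝ => (x : ℂ)) '' Icc 0 Real.pi) := by
    refine AnalyticOnNhd.eqOn_of_preconnected_of_eventuallyEq (𝕜 := ℂ) (z₀ := 0) ?_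
      (fun z _ => analyticAt_id) ?_ ⟨0, ⟨le_rfl, Real.pi_pos.le⟩, by simp⟩ h
    · rintro _ ⟨x, hx, rfl⟩
      exact hfX _ (real_mem_NN hx.1 hx.2)
    · exact isPreconnected_Icc.image _ Complex.continuous_ofReal.continuousOn
  have h2 : (fun z => f (Xi z)) =ᶠ[𝓝 (Real.pi : ℂ)] id := by
    refine ((hfX _ hpi).frequently_eq_iff_eventually_eq analyticAt_id).1 ?_
    have ht : Tendsto (fun x : ℝ => (x : ℂ)) (𝓝[<] Real.pi) (𝓝[≠] (Real.pi : ℂ)) := by
      refine tendsto_nhdsWithin_iff.2 ⟨?_, ?_⟩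
      · exact (Complex.continuous_ofReal.tendsto _).mono_left nhdsWithin_le_nhds
      · filter_upwards [self_mem_nhdsWithin] with y' hy' h
        have h3 : y' = Real.pi := Complex.ofReal_injective (mem_singleton_iff.1 h)
        have h4 : y' < Real.pi := hy'
        exact absurd h3 h4.ne
    refine ht.frequently (Eventually.frequently ?_)
    filter_upwards [Ioo_mem_nhdsLT Real.pi_pos] with x hx
    exact h1 ⟨x, ⟨hx.1.le, hx.2.le⟩, rfl⟩
  have h3 : HasDerivAt (fun z => f (Xi z)) (deriv f (Xi Real.pi) * Xp Real.pi) (Real.pi : ℂ) :=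
    (hf (Xi Real.pi)).hasDerivAt.comp _ (hasDerivAt_Xi hpi)
  rw [Xp_pi, mul_zero] at h3
  have h4 : HasDerivAt (fun z => f (Xi z)) 1 (Real.pi : ℂ) :=
    (hasDerivAt_id _).congr_of_eventuallyEq h2
  exact zero_ne_one (h3.unique h4)

/-- the germ at `0`: radius of convergence -/
lemma exists_germ : ∃ (Xt : ℝ) (f : ℂ → ℂ), 0 < Xt ∧ AnalyticOnNhd ℂ f (ball 0 Xt) ∧
    (∀ᶠ ξ in 𝓝 (0 : ℂ), f ξ ∈ NN ∧ Xi (f ξ) = ξ) ∧
    (∀ᶠ z in 𝓝 (0 : ℂ), f (Xi z) = z) ∧
    (∀ y' : ℝ, |y'| < Xt → f ((y' : ℂ) * Complex.I) = (DD y' : ℂ) * Complex.I) ∧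
    (∀ r, Xt < r → ∀ F : ℂ → ℂ, AnalyticOnNhd ℂ F (ball 0 r) → ¬ (F =ᶠ[𝓝 0] f)) := by
  obtain ⟨ρ, hρ, h, ha, hb, hc, hd⟩ := exists_loc 0
  simp only [Complex.ofReal_zero, zero_mul, DD_zero, sub_zero] at ha hb hc hd
  have h0 : AnalyticAt ℂ h 0 := ha 0 (mem_ball_self hρ)
  obtain ⟨p, r, hp⟩ := h0
  have hpr : 0 < p.radius := lt_of_lt_of_le hp.r_pos hp.r_le
  have hs : HasFPowerSeriesOnBall p.sum p 0 p.radius := p.hasFPowerSeriesOnBall hpr
  have hsh : p.sum =ᶠ[𝓝 0] h := by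
    filter_upwards [Metric.eball_mem_nhds (0 : ℂ) hp.r_pos] with z hz
    rw [← hp.sum hz, zero_add]
  have hinv : ∀ᶠ z in 𝓝 (0 : ℂ), p.sum (Xi z) = z := by
    have h1 : Tendsto Xi (𝓝 0) (𝓝 0) := by
      have := (hasDerivAt_Xi zero_mem_NN).continuousAt.tendsto
      rwa [Xi_zero] at this
    filter_upwards [hd, h1.eventually hsh] with z h2 h3
    rw [h3, h2]
  have hfin : p.radius ≠ ⊤ := by
    intro htop
    rw [htop] at hs
    refine no_entire (f := p.sum) ?_ hinv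
    intro z
    exact (hs.analyticAt_of_mem (by simp)).differentiableAt
  have hball : Metric.eball (0 : ℂ) p.radius = ball 0 p.radius.toReal := by
    rw [← Metric.eball_ofReal, ENNReal.ofReal_toReal hfin]
  have hsa : AnalyticOnNhd ℂ p.sum (ball 0 p.radius.toReal) := by
    intro z hz
    rw [← hball] at hz
    exact hs.analyticAt_of_mem hz
  have hXpos : 0 < p.radius.toReal := ENNReal.toReal_pos hpr.ne' hfin
  refine ⟨p.radius.toReal, p.sum, hXpos, hsa, ?_, hinv, ?_, ?_⟩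
  · filter_upwards [hsh, ball_mem_nhds (0 : ℂ) hρ] with z h1 h2
    rw [h1]
    exact hb z h2
  · -- identity along the axis
    have hax : ∀ y : ℝ, AnalyticAt ℝ (fun y : ℝ => (y : ℂ) * Complex.I) y := fun y =>
      (Complex.ofRealCLM.analyticAt y).mul analyticAt_const
    have h1 : EqOn (fun y : ℝ => p.sum ((y : ℂ) * Complex.I)) (fun y : ℝ => (DD y : ℂ) * Complex.I)
        (Ioo (-p.radius.toReal) p.radius.toReal) := by
      refine AnalyticOnNhd.eqOn_of_preconnected_of_eventuallyEq (𝕜 := ℝ) (z₀ := 0) ?_ ?_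
        isPreconnected_Ioo
        ⟨by linarith, hXpos⟩ ?_
      · intro y hy
        have h2 : ((y : ℂ) * Complex.I) ∈ ball (0 : ℂ) p.radius.toReal := by
          have := (mem_ball_I (y' := y) (y := 0) (ρ := p.radius.toReal)).2
            (by rw [sub_zero, abs_lt]; exact hy)
          simpa using this
        exact AnalyticAt.comp (g := p.sum) (f := fun y : ℝ => (y : ℂ) * Complex.I)
          (hsa _ h2).restrictScalars (hax y)
      · intro y _
        obtain ⟨ρ', hρ', h', ha', hb', hc', hd'⟩ := exists_loc y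
        have h3 : AnalyticAt ℝ (fun t : ℝ => h' ((t : ℂ) * Complex.I)) y :=
          AnalyticAt.comp (g := h') (f := fun y : ℝ => (y : ℂ) * Complex.I)
            (ha' _ (mem_ball_self hρ')).restrictScalars (hax y)
        refine h3.congr ?_
        filter_upwards [Metric.ball_mem_nhds y hρ'] with t ht
        rw [Metric.mem_ball, Real.dist_eq] at ht
        exact hc' t ht
      · have h4 : Tendsto (fun y : ℝ => (y : ℂ) * Complex.I) (𝓝 0) (𝓝 0) := by
          have := (hax 0).continuousAt.tendsto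
          simpa using this
        filter_upwards [h4.eventually hsh, Metric.ball_mem_nhds (0 : ℝ) hρ] with y h5 h6
        rw [Metric.mem_ball, Real.dist_eq, sub_zero] at h6
        rw [h5]
        exact hc y h6
    intro y' hy'
    exact h1 (abs_lt.1 hy')
  · intro r' hr' F hF hFe
    obtain ⟨R, hR1, hR2⟩ := exists_between hr'
    have hR0 : 0 < R := hXpos.trans hR1
    lift R to NNReal using hR0.le
    have h1 : HasFPowerSeriesOnBall F (cauchyPowerSeries F 0 R) 0 R :=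
      DifferentiableOn.hasFPowerSeriesOnBall
        (hF.differentiableOn.mono (closedBall_subset_ball hR2)) (by exact_mod_cast hR0)
    have h2 : p = cauchyPowerSeries F 0 R :=
      hs.hasFPowerSeriesAt.eq_formalMultilinearSeries
        (h1.hasFPowerSeriesAt.congr hFe)
    have h3 : (R : ENNReal) ≤ p.radius := by
      rw [h2]
      exact h1.r_le
    have h4 := ENNReal.toReal_mono hfin h3
    rw [ENNReal.coe_toReal] at h4
    linarith


/-! ### the extension `H` and the star-shaped domain -/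

/-- the glued function on an open set which contains the disc of convergence and the axis -/
lemma exists_ext : ∃ (Xt : ℝ) (W : Set ℂ) (H : ℂ → ℂ), 0 < Xt ∧ IsOpen W ∧ ball 0 Xt ⊆ W ∧
    (∀ y : ℝ, (y : ℂ) * Complex.I ∈ W) ∧ DifferentiableOn ℂ H W ∧
    (∀ᶠ ξ in 𝓝 (0 : ℂ), H ξ ∈ NN ∧ Xi (H ξ) = ξ) ∧
    (∀ᶠ z in 𝓝 (0 : ℂ), H (Xi z) = z) ∧
    (∀ y : ℝ, H ((y : ℂ) * Complex.I) = (DD y : ℂ) * Complex.I) ∧
    (∀ r, Xt < r → ∀ F : ℂ → ℂ, AnalyticOnNhd ℂ F (ball 0 r) → ¬ (F =ᶠ[𝓝 0] H)) := by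
  classical
  obtain ⟨Xt, f, hX, hf, hf1, hf2, hf3, hf4⟩ := exists_germ
  choose ρ hρ h ha hb hc hd using exists_loc
  set ρ' : ℝ → ℝ := fun y => if y = 0 then Xt else ρ y with hρ'
  set h' : ℝ → ℂ → ℂ := fun y => if y = 0 then f else h y with hh'
  have hpos : ∀ y, 0 < ρ' y := by
    intro y
    simp only [hρ']
    split_ifs
    · exact hX
    · exact hρ y
  have ha' : ∀ y, AnalyticOnNhd ℂ (h' y) (ball ((y : ℂ) * Complex.I) (ρ' y)) := by
    intro y
    by_cases hy : y = 0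
    · subst hy
      simpa [hρ', hh'] using hf
    · simp only [hρ', hh', if_neg hy]
      exact ha y
  have he' : ∀ y y' : ℝ, |y' - y| < ρ' y → h' y ((y' : ℂ) * Complex.I) = (DD y' : ℂ) * Complex.I := by
    intro y y'
    by_cases hy : y = 0
    · subst hy
      simpa [hρ', hh'] using hf3 y'
    · simp only [hρ', hh', if_neg hy]
      exact hc y y'
  obtain ⟨H, hH⟩ := exists_glue ha' he'
  have h0 : EqOn H f (ball 0 Xt) := by
    have := hH 0
    simpa [hρ', hh'] using this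
  have h0' : H =ᶠ[𝓝 0] f := by
    filter_upwards [ball_mem_nhds (0 : ℂ) hX] with z hz using h0 hz
  refine ⟨Xt, ⋃ y : ℝ, ball ((y : ℂ) * Complex.I) (ρ' y), H, hX,
    isOpen_iUnion fun y => isOpen_ball, ?_, ?_, ?_, ?_, ?_, ?_, ?_⟩
  · have : ball (0 : ℂ) Xt = ball (((0 : ℝ) : ℂ) * Complex.I) (ρ' 0) := by simp [hρ']
    rw [this]
    exact subset_iUnion (fun y : ℝ => ball ((y : ℂ) * Complex.I) (ρ' y)) 0
  · intro y
    exact mem_iUnion.2 ⟨y, mem_ball_self (hpos y)⟩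
  · intro z hz
    obtain ⟨y, hy⟩ := mem_iUnion.1 hz
    have h1 : DifferentiableAt ℂ (h' y) z := (ha' y z hy).differentiableAt
    have h2 : H =ᶠ[𝓝 z] h' y := by
      filter_upwards [isOpen_ball.mem_nhds hy] with w hw using hH y hw
    exact (h1.congr_of_eventuallyEq h2).differentiableWithinAt
  · filter_upwards [h0', hf1] with z h1 h2
    rw [h1]
    exact h2
  · have h1 : Tendsto Xi (𝓝 0) (𝓝 0) := by
      have := (hasDerivAt_Xi zero_mem_NN).continuousAt.tendsto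
      rwa [Xi_zero] at this
    filter_upwards [hf2, h1.eventually h0'] with z h2 h3
    rw [h3, h2]
  · intro y
    rw [hH y (mem_ball_self (hpos y))]
    exact he' y y (by simpa using hpos y)
  · intro r hr F hF hFe
    exact hf4 r hr F hF (hFe.trans h0')

/-- everything which is used later about the pair `(x, Dl)` -/
structure Data (Xt : ℝ) (Us : Set ℂ) (Dl x : ℂ → ℂ) : Prop where
  Xt_pos : 0 < Xt
  isOpen : IsOpen Us
  star : ∀ z ∈ Us, ∀ t : ℝ, 0 ≤ t → t ≤ 1 → (t : ℂ) * z ∈ Us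
  ball_sub : ball (0 : ℂ) Xt ⊆ Us
  axis_mem : ∀ y : ℝ, (y : ℂ) * Complex.I ∈ Us
  Dl_diff : DifferentiableOn ℂ Dl Us
  x_diff : DifferentiableOn ℂ x Us
  x_zero : x 0 = 0
  Dl_zero : Dl 0 = 0
  deriv_x : deriv x 0 = 1
  deriv_Dl : deriv Dl 0 = 1 / 2
  ode : ∀ ξ ∈ Us, ξ * deriv x ξ = 2 * Dl ξ
  cube : ∀ ξ ∈ Us, 24 * (Complex.sin (Dl ξ) - Dl ξ * Complex.cos (Dl ξ)) = x ξ ^ 3
  sq : ∀ ξ ∈ Us, x ξ ^ 2 = 4 * ξ * Complex.sin (Dl ξ) * deriv Dl ξ
  maximal : ∀ r, Xt < r → ∀ F : ℂ → ℂ, AnalyticOnNhd ℂ F (ball 0 r) → ¬ (F =ᶠ[𝓝 0] Dl)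
  axis_val : ∀ y : ℝ, ∃ d : ℝ, Dl ((y : ℂ) * Complex.I) = (d : ℂ) * Complex.I

theorem exists_data : ∃ (Xt : ℝ) (Us : Set ℂ) (Dl x : ℂ → ℂ), Data Xt Us Dl x := by
  obtain ⟨Xt, W, H, hX, hW, hW1, hW2, hH, hH1, hH2, hH3, hH4⟩ := exists_ext
  set Us : Set ℂ := {z : ℂ | ∀ t : ℝ, 0 ≤ t → t ≤ 1 → (t : ℂ) * z ∈ W} with hUs
  have hUo : IsOpen Us := isOpen_forall_mul hW continuous_id
  have hst : Star Us := by
    intro z hz t h0 h1 u hu0 hu1
    have := hz (u * t) (mul_nonneg hu0 h0) (mul_le_one₀ hu1 h0 h1)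
    push_cast at this
    rwa [mul_assoc] at this
  have hUW : Us ⊆ W := fun z hz => by simpa using hz 1 zero_le_one le_rfl
  have hbU : ball (0 : ℂ) Xt ⊆ Us := by
    intro z hz t h0 h1
    apply hW1
    rw [mem_ball_zero_iff] at hz ⊢
    rw [norm_mul, Complex.norm_real, Real.norm_eq_abs, abs_of_nonneg h0]
    exact (mul_le_of_le_one_left (norm_nonneg _) h1).trans_lt hz
  have h0U : (0 : ℂ) ∈ Us := hbU (mem_ball_self hX)
  have hHU : DifferentiableOn ℂ H Us := hH.mono hUW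
  have hH0 : H 0 = 0 := by
    have := hH2.self_of_nhds
    rwa [Xi_zero] at this
  -- derivative of `H` near zero
  have hHd : ∀ᶠ ξ in 𝓝 (0 : ℂ), HasDerivAt H (deriv H ξ) ξ ∧
      2 * Complex.exp (AA (H ξ)) * qq (H ξ) * deriv H ξ = 1 := by
    filter_upwards [hH1.eventually_nhds, hUo.mem_nhds h0U] with ξ h1 h2
    have h3 : HasDerivAt H (deriv H ξ) ξ := (hHU.differentiableAt (hUo.mem_nhds h2)).hasDerivAt
    refine ⟨h3, ?_⟩
    have h4 : HasDerivAt (fun w => Xi (H w)) (Xp (H ξ) * deriv H ξ) ξ :=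
      (hasDerivAt_Xi h1.self_of_nhds.1).comp ξ h3
    have h5 : HasDerivAt (fun w => Xi (H w)) 1 ξ :=
      (hasDerivAt_id ξ).congr_of_eventuallyEq (by filter_upwards [h1] with w hw using hw.2)
    exact h4.unique h5
  have hdH : deriv H 0 = 1 / 2 := by
    have h1 := hHd.self_of_nhds.2
    rw [hH0, AA_zero, qq_zero, Complex.exp_zero] at h1
    linear_combination (1 / 2 : ℂ) * h1
  set e : ℂ → ℂ := fun ξ => 2 * dslope H 0 ξ with he
  have hed : DifferentiableOn ℂ e Us :=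
    ((Complex.differentiableOn_dslope (hUo.mem_nhds h0U)).2 hHU).const_mul 2
  have hmul : ∀ ξ, ξ * e ξ = 2 * H ξ := by
    intro ξ
    have := sub_smul_dslope H 0 ξ
    rw [hH0, sub_zero, sub_zero, smul_eq_mul] at this
    simp only [he]
    linear_combination 2 * this
  have hx : ∀ ξ ∈ Us, HasDerivAt (prim e) (e ξ) ξ := fun ξ hξ => hasDerivAt_prim hUo hst hed hξ
  have hxd : DifferentiableOn ℂ (prim e) Us :=
    fun ξ hξ => (hx ξ hξ).differentiableAt.differentiableWithinAt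
  -- near zero, `prim e = xh ∘ H`
  have hloc : ∀ᶠ ξ in 𝓝 (0 : ℂ), prim e ξ = xh (H ξ) := by
    have h1 : ∀ᶠ ξ in 𝓝 (0 : ℂ), ξ ∈ Us ∧ HasDerivAt (fun w => xh (H w)) (e ξ) ξ := by
      filter_upwards [hHd, hH1, hUo.mem_nhds h0U] with ξ h2 h3 h4
      refine ⟨h4, ?_⟩
      have h5 : HasDerivAt (fun w => xh (H w)) (2 * qq (H ξ) * deriv H ξ) ξ :=
        (hasDerivAt_xh h3.1).comp ξ h2.1
      refine h5.congr_deriv ?_
      rcases eq_or_ne ξ 0 with rfl | hξ
      · simp only [he, dslope_same]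
        rw [hH0, qq_zero, hdH]
        ring
      · refine mul_left_cancel₀ hξ ?_
        rw [hmul]
        have h6 := h3.2
        rw [Xi] at h6
        have h7 := h2.2
        calc ξ * (2 * qq (H ξ) * deriv H ξ)
            = (2 * H ξ * Complex.exp (AA (H ξ))) * (2 * qq (H ξ) * deriv H ξ) := by rw [h6]
          _ = 2 * H ξ * (2 * Complex.exp (AA (H ξ)) * qq (H ξ) * deriv H ξ) := by ring
          _ = 2 * H ξ := by rw [h7, mul_one]
    obtain ⟨δ, hδ, hb⟩ := Metric.eventually_nhds_iff_ball.1 h1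
    filter_upwards [ball_mem_nhds (0 : ℂ) hδ] with ξ hξ
    have h2 : EqOn (prim e) (fun w => xh (H w)) (ball 0 δ) := by
      refine isOpen_ball.eqOn_of_deriv_eq (convex_ball (0 : ℂ) δ).isPreconnected ?_ ?_ ?_
        (mem_ball_self hδ) ?_
      · exact fun w hw => (hx w (hb w hw).1).differentiableAt.differentiableWithinAt
      · exact fun w hw => (hb w hw).2.differentiableAt.differentiableWithinAt
      · exact fun w hw => by rw [(hx w (hb w hw).1).deriv, (hb w hw).2.deriv]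
      · rw [prim_zero, hH0, xh_zero]
    exact h2 hξ
  have hana : ∀ {F G : ℂ → ℂ}, DifferentiableOn ℂ F Us → DifferentiableOn ℂ G Us →
      F =ᶠ[𝓝 0] G → EqOn F G Us := fun hF hG h =>
    AnalyticOnNhd.eqOn_of_preconnected_of_eventuallyEq (hF.analyticOnNhd hUo)
      (hG.analyticOnNhd hUo) hst.preconnected h0U h
  refine ⟨Xt, Us, H, prim e, hX, hUo, hst, hbU, fun y t _ _ => ?_, hHU, hxd, prim_zero _, hH0,
    ?_, hdH, ?_, ?_, ?_, hH4, fun y => ⟨_, hH3 y⟩⟩
  · rw [← mul_assoc, ← Complex.ofReal_mul]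
    exact hW2 _
  · rw [(hx 0 h0U).deriv]
    simp only [he, dslope_same]
    rw [hdH]
    norm_num
  · intro ξ hξ
    rw [(hx ξ hξ).deriv, hmul]
  · refine hana ?_ (hxd.pow 3) ?_
    · exact (hHU.csin.sub (hHU.mul hHU.ccos)).const_mul 24
    · filter_upwards [hloc, hH1] with ξ h1 h2
      rw [h1, xh_pow h2.1]
  · refine hana (hxd.pow 2) ?_ ?_
    · exact ((differentiableOn_id.const_mul 4).mul hHU.csin).mul (hHU.deriv hUo)
    · filter_upwards [hloc, hH1, hHd] with ξ h1 h2 h3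
      have h4 := h3.2
      have h5 := h2.2
      have h6 : qq (H ξ) * cc (H ξ) ^ 2 = ss (H ξ) := by
        rw [qq]
        field_simp [cc_ne]
      rw [Xi] at h5
      rw [h1, xh, ← mul_ss (H ξ), ← h6]
      calc (2 * H ξ * cc (H ξ)) ^ 2
          = 4 * H ξ ^ 2 * cc (H ξ) ^ 2 * 1 := by ring
        _ = 4 * H ξ ^ 2 * cc (H ξ) ^ 2 *
            (2 * Complex.exp (AA (H ξ)) * qq (H ξ) * deriv H ξ) := by rw [h4]
        _ = 4 * (2 * H ξ * Complex.exp (AA (H ξ))) * (H ξ * (qq (H ξ) * cc (H ξ) ^ 2)) *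
            deriv H ξ := by ring
        _ = 4 * ξ * (H ξ * (qq (H ξ) * cc (H ξ) ^ 2)) * deriv H ξ := by rw [h5]


namespace Data

variable {Xt : ℝ} {Us : Set ℂ} {Dl x : ℂ → ℂ}

lemma zero_mem (h : Data Xt Us Dl x) : (0 : ℂ) ∈ Us := h.ball_sub (mem_ball_self h.Xt_pos)

lemma preconnected (h : Data Xt Us Dl x) : IsPreconnected Us :=
  Star.preconnected (fun z hz t h0 h1 => h.star z hz t h0 h1)

/-- `sin Dl` vanishes only at `0` -/
theorem sin_ne (h : Data Xt Us Dl x) {ξ : ℂ} (hξ : ξ ∈ Us) (h0 : ξ ≠ 0) :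
    Complex.sin (Dl ξ) ≠ 0 := by
  intro hs
  have hxa : AnalyticOnNhd ℂ x Us := h.x_diff.analyticOnNhd h.isOpen
  have h1 := h.sq ξ hξ
  rw [hs, mul_zero, zero_mul] at h1
  have hx0 : x ξ = 0 := by simpa using h1
  have h2 := h.cube ξ hξ
  rw [hs, hx0] at h2
  have h3 : Dl ξ * Complex.cos (Dl ξ) = 0 := by linear_combination (-(1 / 24 : ℂ)) * h2
  have hD0 : Dl ξ = 0 := by
    rcases mul_eq_zero.1 h3 with h4 | h4
    · exact h4
    · exfalso
      have h5 := Complex.sin_sq_add_cos_sq (Dl ξ)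
      rw [hs, h4] at h5
      norm_num at h5
  -- `x` does not vanish identically near `ξ`
  have hne : ¬ (x =ᶠ[𝓝 ξ] 0) := by
    intro h4
    have h5 : EqOn x 0 Us := AnalyticOnNhd.eqOn_of_preconnected_of_eventuallyEq hxa
      (fun z _ => analyticAt_const) h.preconnected hξ h4
    have h6 : x =ᶠ[𝓝 0] fun _ => (0 : ℂ) := by
      filter_upwards [h.isOpen.mem_nhds h.zero_mem] with z hz using h5 hz
    have h7 := h6.deriv_eq
    rw [h.deriv_x] at h7
    simp at h7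
  obtain ⟨n, u, hu, hu0, hxu⟩ := (hxa ξ hξ).exists_eventuallyEq_pow_smul_nonzero_iff.2 hne
  have hn : n ≠ 0 := by
    intro hn
    have := hxu.self_of_nhds
    rw [hn, hx0] at this
    simp only [pow_zero, one_smul] at this
    exact hu0 this.symm
  -- comparison of `Dl` and `x`
  have hDc : Tendsto Dl (𝓝 ξ) (𝓝 0) := by
    have := (h.Dl_diff.differentiableAt (h.isOpen.mem_nhds hξ)).continuousAt.tendsto
    rwa [hD0] at this
  have hg : ∀ᶠ w in 𝓝 ξ, 1 / 8 < ‖gg (Dl w)‖ := by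
    have h4 : Tendsto (fun w => ‖gg (Dl w)‖) (𝓝 ξ) (𝓝 ‖gg 0‖) :=
      ((gg_diff.continuous.tendsto 0).comp hDc).norm
    rw [gg_zero, norm_one] at h4
    exact h4.eventually_const_lt (by norm_num)
  have hcmp : ∀ᶠ w in 𝓝 ξ, ‖w‖ * ‖deriv x w‖ ≤ 2 * ‖x w‖ := by
    filter_upwards [hg, h.isOpen.mem_nhds hξ] with w h4 h5
    have h6 := h.cube w h5
    have h7 : x w ^ 3 = 8 * (Dl w ^ 3 * gg (Dl w)) := by rw [mul_gg, ← h6]; ring
    have h8 : ‖Dl w‖ ^ 3 ≤ ‖x w‖ ^ 3 := by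
      rw [← norm_pow, ← norm_pow, h7, norm_mul, norm_mul]
      have : ‖(8 : ℂ)‖ = 8 := by norm_num
      rw [this]
      nlinarith [norm_nonneg (Dl w ^ 3)]
    have h9 : ‖Dl w‖ ≤ ‖x w‖ := le_of_pow_le_pow_left₀ (by norm_num) (norm_nonneg _) h8
    rw [← norm_mul, h.ode w h5, norm_mul]
    have : ‖(2 : ℂ)‖ = 2 := by norm_num
    rw [this]
    linarith
  -- derivative of `x` near `ξ`
  have hder : ∀ᶠ w in 𝓝 ξ, deriv x w = n * (w - ξ) ^ (n - 1) * u w + (w - ξ) ^ n * deriv u w := by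
    filter_upwards [hxu.eventually_nhds, hu.eventually_analyticAt] with w h4 h5
    have h6 : HasDerivAt (fun z => (z - ξ) ^ n * u z)
        (n * (w - ξ) ^ (n - 1) * 1 * u w + (w - ξ) ^ n * deriv u w) w :=
      (((hasDerivAt_id w).sub_const ξ).pow n).mul h5.differentiableAt.hasDerivAt
    have h7 : HasDerivAt x _ w := h6.congr_of_eventuallyEq (by
      filter_upwards [h4] with z hz
      rw [hz, smul_eq_mul])
    rw [h7.deriv, mul_one]
  have hfin : ∀ᶠ w in 𝓝[≠] ξ,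
      ‖w‖ * ‖n * u w + (w - ξ) * deriv u w‖ ≤ 2 * (‖w - ξ‖ * ‖u w‖) := by
    filter_upwards [hder.filter_mono nhdsWithin_le_nhds, hcmp.filter_mono nhdsWithin_le_nhds,
      hxu.filter_mono nhdsWithin_le_nhds, self_mem_nhdsWithin] with w h4 h5 h6 h7
    have h8 : w - ξ ≠ 0 := sub_ne_zero.2 h7
    have h9 : deriv x w = (w - ξ) ^ (n - 1) * (n * u w + (w - ξ) * deriv u w) := by
      rw [h4]
      obtain ⟨m, rfl⟩ := Nat.exists_eq_succ_of_ne_zero hn
      simp only [Nat.succ_eq_add_one, Nat.add_sub_cancel]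
      ring
    have h10 : x w = (w - ξ) ^ (n - 1) * ((w - ξ) * u w) := by
      rw [h6, smul_eq_mul]
      obtain ⟨m, rfl⟩ := Nat.exists_eq_succ_of_ne_zero hn
      simp only [Nat.succ_eq_add_one, Nat.add_sub_cancel]
      ring
    rw [h9, h10, norm_mul, norm_mul, norm_mul] at h5
    have h11 : 0 < ‖(w - ξ) ^ (n - 1)‖ := norm_pos_iff.2 (pow_ne_zero _ h8)
    nlinarith
  have hl : Tendsto (fun w => ‖w‖ * ‖n * u w + (w - ξ) * deriv u w‖) (𝓝[≠] ξ)
      (𝓝 (‖ξ‖ * ‖n * u ξ + (ξ - ξ) * deriv u ξ‖)) := by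
    have hc : ContinuousAt (fun w => ‖w‖ * ‖n * u w + (w - ξ) * deriv u w‖) ξ := by
      have c1 := hu.continuousAt
      have c2 := hu.deriv.continuousAt
      fun_prop
    exact hc.tendsto.mono_left nhdsWithin_le_nhds
  have hr : Tendsto (fun w => 2 * (‖w - ξ‖ * ‖u w‖)) (𝓝[≠] ξ) (𝓝 (2 * (‖ξ - ξ‖ * ‖u ξ‖))) := by
    have hc : ContinuousAt (fun w => 2 * (‖w - ξ‖ * ‖u w‖)) ξ := by
      have c1 := hu.continuousAt
      fun_prop
    exact hc.tendsto.mono_left nhdsWithin_le_nhds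
  have hle := le_of_tendsto_of_tendsto hl hr hfin
  rw [sub_self, zero_mul, add_zero, norm_zero, zero_mul, mul_zero, norm_mul] at hle
  have hp : 0 < ‖ξ‖ * (‖(n : ℂ)‖ * ‖u ξ‖) := by
    have a1 : 0 < ‖ξ‖ := norm_pos_iff.2 h0
    have a2 : 0 < ‖(n : ℂ)‖ := norm_pos_iff.2 (by exact_mod_cast hn)
    have a3 : 0 < ‖u ξ‖ := norm_pos_iff.2 hu0
    positivity
  linarith

end Data


/-- **leaf (E4-1D) of T1-E (row 102)**: the one-dimensional model of the flow in the window: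
a star-shaped open neighbourhood `Us` of the imaginary axis and of the disc of radius `Xt`, with
functions `Dl`, `x` satisfying the model equations, `sin Dl ≠ 0` off `0`, and `Xt` is the radius of
convergence of `Dl` at `0`. -/
theorem e4ray : ∃ (Xt : ℝ) (Us : Set ℂ) (Dl x : ℂ → ℂ),
    0 < Xt ∧ IsOpen Us ∧ (∀ z ∈ Us, ∀ t : ℝ, 0 ≤ t → t ≤ 1 → (t : ℂ) * z ∈ Us) ∧
    ball (0 : ℂ) Xt ⊆ Us ∧ (∀ y : ℝ, (y : ℂ) * Complex.I ∈ Us) ∧
    DifferentiableOn ℂ Dl Us ∧ DifferentiableOn ℂ x Us ∧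
    x 0 = 0 ∧ Dl 0 = 0 ∧ deriv x 0 = 1 ∧ deriv Dl 0 = 1 / 2 ∧
    (∀ ξ ∈ Us, ξ * deriv x ξ = 2 * Dl ξ) ∧
    (∀ ξ ∈ Us, 24 * (Complex.sin (Dl ξ) - Dl ξ * Complex.cos (Dl ξ)) = x ξ ^ 3) ∧
    (∀ ξ ∈ Us, ξ ≠ 0 → Complex.sin (Dl ξ) ≠ 0) ∧
    (∀ r, Xt < r → ∀ F : ℂ → ℂ, AnalyticOnNhd ℂ F (ball 0 r) → ¬ (F =ᶠ[𝓝 0] Dl)) := by
  obtain ⟨Xt, Us, Dl, x, h⟩ := exists_data
  exact ⟨Xt, Us, Dl, x, h.Xt_pos, h.isOpen, h.star, h.ball_sub, h.axis_mem, h.Dl_diff, h.x_diff,
    h.x_zero, h.Dl_zero, h.deriv_x, h.deriv_Dl, h.ode, h.cube, fun ξ h1 h2 => h.sin_ne h1 h2,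
    h.maximal⟩

end Crest.Agent.R102.E4ray77
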