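import Crest.Agent.R102.BigMontel_948

/-!
Row 102, T1-E, leaf (E5) (helper942).

`Dl` is holomorphic on the disc `|ξ| < X` and does not extend to a larger disc (`X` = radius of
convergence).  Functions `f k` which omit `0` and `1` on a box `|Re s| < A`, `Y < Im s < log X + c`
(`A > π`) and tend to `exp (2 i Dl (exp (-i s)))` on a nonempty open set do not exist.
-/

set_option autoImplicit false

open Set Filter Topology Metric Complex

noncomputable section

namespace Crest.Agent.R102.E5942

open Crest.Agent.R102.M948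

/-- the box -/
def Box (A Y H : ℝ) : Set ℂ := {s | |s.re| < A ∧ Y < s.im ∧ s.im < H}

lemma box_open (A Y H : ℝ) : IsOpen (Box A Y H) := by
  have h1 : IsOpen {s : ℂ | |s.re| < A} := isOpen_lt (continuous_abs.comp continuous_re)
    continuous_const
  have h2 : IsOpen {s : ℂ | Y < s.im} := isOpen_lt continuous_const continuous_im
  have h3 : IsOpen {s : ℂ | s.im < H} := isOpen_lt continuous_im continuous_const
  exact h1.inter (h2.inter h3)

lemma box_convex (A Y H : ℝ) : Convex ℝ (Box A Y H) := by
  have h1 : Convex ℝ {s : ℂ | s.re < A} := convex_halfSpace_re_lt A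
  have h1' : Convex ℝ {s : ℂ | -A < s.re} := convex_halfSpace_re_gt (-A)
  have h2 : Convex ℝ {s : ℂ | Y < s.im} := convex_halfSpace_im_gt Y
  have h3 : Convex ℝ {s : ℂ | s.im < H} := convex_halfSpace_im_lt H
  have := (h1'.inter h1).inter (h2.inter h3)
  convert this using 1
  ext s
  simp only [Box, mem_ofPred_eq, mem_inter_iff, abs_lt]

/-- Hurwitz: the limit of zero free functions, not zero at one point, is zero free -/
lemma hurwitz {ι : Type*} {u : Ultrafilter ι} {D : Set ℂ} (hD : IsOpen D) (hc : IsPreconnected D)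
    {f : ι → ℂ → ℂ} {g : ℂ → ℂ} (hg : DifferentiableOn ℂ g D)
    (hf : ∀ᶠ k in (u : Filter ι), DifferentiableOn ℂ (f k) D)
    (h0 : ∀ᶠ k in (u : Filter ι), ∀ z ∈ D, f k z ≠ 0)
    (hlim : TendstoLocallyUniformlyOn f g u D) {p : ℂ} (hp : p ∈ D) (hgp : g p ≠ 0) :
    ∀ z ∈ D, g z ≠ 0 := by
  intro z hz hgz
  -- `g` is not locally zero at `z`
  have hgan : AnalyticOnNhd ℂ g D := hg.analyticOnNhd hD
  have hnz : ∀ᶠ w in 𝓝[≠] z, g w ≠ 0 := by
    rcases (hgan z hz).eventually_eq_zero_or_eventually_ne_zero with h | h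
    · exact absurd (hgan.eqOn_zero_of_preconnected_of_eventuallyEq_zero hc hz h hp) hgp
    · exact h
  -- a small circle without zeros of `g`
  obtain ⟨R, hR, hRD⟩ := Metric.isOpen_iff.1 hD z hz
  obtain ⟨r, hr, hrz⟩ := Metric.mem_nhdsWithin_iff.1 hnz
  set ρ : ℝ := min R r / 2 with hρ
  have hρ0 : 0 < ρ := by positivity
  have hρR : ρ < R := by
    have := min_le_left R r
    have hm : 0 < min R r := lt_min hR hr
    rw [hρ]; linarith
  have hρr : ρ < r := by
    have := min_le_right R r
    have hm : 0 < min R r := lt_min hR hr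
    rw [hρ]; linarith
  have hcb : closedBall z ρ ⊆ D := (closedBall_subset_ball hρR).trans hRD
  have hsph : ∀ w ∈ sphere z ρ, g w ≠ 0 := by
    intro w hw
    refine hrz ⟨?_, ?_⟩
    · rw [mem_ball]; rw [mem_sphere] at hw; linarith
    · intro h
      rw [mem_singleton_iff] at h
      rw [mem_sphere, h, dist_self] at hw
      linarith
  have hcomp : IsCompact (sphere z ρ) := isCompact_sphere _ _
  have hne : (sphere z ρ).Nonempty := NormedSpace.sphere_nonempty.2 hρ0.le
  obtain ⟨w0, hw0, hmin⟩ := hcomp.exists_isMinOn hne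
    ((hg.continuousOn.mono (sphere_subset_closedBall.trans hcb)).norm)
  set m : ℝ := ‖g w0‖ with hm
  have hm0 : 0 < m := norm_pos_iff.2 (hsph w0 hw0)
  have hunif := (tendstoLocallyUniformlyOn_iff_tendstoUniformlyOn_of_compact
    (isCompact_closedBall z ρ)).1 (hlim.mono hcb)
  have hev := Metric.tendstoUniformlyOn_iff.1 hunif (m / 2) (by positivity)
  obtain ⟨k, hk1, hk2, hk3⟩ := (hev.and (hf.and h0)).exists
  -- maximum modulus for `1 / f k`
  have hcl : closure (ball z ρ) = closedBall z ρ := closure_ball z hρ0.ne'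
  have hfr : frontier (ball z ρ) = sphere z ρ := frontier_ball z hρ0.ne'
  have hdc : DiffContOnCl ℂ (fun w => (f k w)⁻¹) (ball z ρ) := by
    refine ⟨?_, ?_⟩
    · intro w hw
      have hwD := hcb (ball_subset_closedBall hw)
      exact ((hk2.differentiableAt (hD.mem_nhds hwD)).inv (hk3 w hwD)).differentiableWithinAt
    · rw [hcl]
      intro w hw
      have hwD := hcb hw
      exact ((hk2.differentiableAt (hD.mem_nhds hwD)).inv
        (hk3 w hwD)).continuousAt.continuousWithinAt
  have hbd : ∀ w ∈ frontier (ball z ρ), ‖(f k w)⁻¹‖ ≤ 2 / m := by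
    intro w hw
    rw [hfr] at hw
    have h1 := hk1 w (sphere_subset_closedBall hw)
    have h2 : m ≤ ‖g w‖ := hmin hw
    rw [dist_eq_norm] at h1
    have h3 : m / 2 ≤ ‖f k w‖ := by
      have := norm_sub_norm_le (g w) (f k w)
      linarith
    rw [norm_inv]
    rw [inv_le_comm₀ (by linarith) (by positivity)]
    rw [inv_div]
    exact h3
  have hz' : z ∈ closure (ball z ρ) := by rw [hcl]; exact mem_closedBall_self hρ0.le
  have h4 := norm_le_of_forall_mem_frontier_norm_le isBounded_ball hdc hbd hz'
  have h5 := hk1 z (mem_closedBall_self hρ0.le)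
  rw [hgz, dist_eq_norm, zero_sub, norm_neg] at h5
  rw [norm_inv] at h4
  have h6 : 0 < ‖f k z‖ := norm_pos_iff.2 (hk3 z hz)
  rw [inv_le_comm₀ h6 (by positivity), inv_div] at h4
  linarith

/-- gluing: a function on the box, equal to `E (exp (-i s))` below, gives an extension of `E` to the
larger disc -/
lemma extend {X c A Y : ℝ} (hX : 0 < X) (hc : 0 < c) (hA : Real.pi < A) (hY : Y < Real.log X)
    {E : ℂ → ℂ} (hE : DifferentiableOn ℂ E (ball 0 X)) {g : ℂ → ℂ}
    (hg : DifferentiableOn ℂ g (Box A Y (Real.log X + c)))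
    (heq : ∀ s ∈ Box A Y (Real.log X), g s = E (exp (-(I * s)))) :
    ∃ E' : ℂ → ℂ, DifferentiableOn ℂ E' (ball 0 (X * Real.exp c)) ∧
      (∀ ξ ∈ ball (0 : ℂ) X, E' ξ = E ξ) ∧
      ((∀ s ∈ Box A Y (Real.log X + c), g s ≠ 0) → (∀ ξ ∈ ball (0 : ℂ) X, E ξ ≠ 0) →
        ∀ ξ ∈ ball (0 : ℂ) (X * Real.exp c), E' ξ ≠ 0) := by
  classical
  have hgan : AnalyticOnNhd ℂ g (Box A Y (Real.log X + c)) := hg.analyticOnNhd (box_open _ _ _)
  have hpi := Real.pi_pos
  -- periodicity
  have hper : ∀ s : ℂ, |s.re| < A → |(s + 2 * Real.pi).re| < A → Y < s.im →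
      s.im < Real.log X + c → g (s + 2 * Real.pi) = g s := by
    intro s h1 h2 h3 h4
    set D : Set ℂ := {s | -A < s.re} ∩ {s | s.re < A - 2 * Real.pi} ∩
      ({s | Y < s.im} ∩ {s | s.im < Real.log X + c}) with hD
    have hDconv : Convex ℝ D :=
      ((convex_halfSpace_re_gt (-A)).inter (convex_halfSpace_re_lt (A - 2 * Real.pi))).inter
        ((convex_halfSpace_im_gt Y).inter (convex_halfSpace_im_lt (Real.log X + c)))
    have hDopen : IsOpen D :=
      ((isOpen_lt continuous_const continuous_re).inter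
        (isOpen_lt continuous_re continuous_const)).inter
        ((isOpen_lt continuous_const continuous_im).inter
          (isOpen_lt continuous_im continuous_const))
    have hDB : ∀ z ∈ D, z ∈ Box A Y (Real.log X + c) := by
      intro z hz
      obtain ⟨⟨hz1, hz2⟩, hz3, hz4⟩ := hz
      simp only [mem_ofPred_eq] at hz1 hz2 hz3 hz4
      exact ⟨abs_lt.2 ⟨hz1, by linarith⟩, hz3, hz4⟩
    have hDB' : ∀ z ∈ D, z + 2 * Real.pi ∈ Box A Y (Real.log X + c) := by
      intro z hz
      obtain ⟨⟨hz1, hz2⟩, hz3, hz4⟩ := hz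
      simp only [mem_ofPred_eq] at hz1 hz2 hz3 hz4
      refine ⟨?_, ?_, ?_⟩
      · simp only [add_re, mul_re, re_ofNat, ofReal_re, im_ofNat, ofReal_im, mul_zero, sub_zero]
        exact abs_lt.2 ⟨by linarith, by linarith⟩
      · simpa using hz3
      · simpa using hz4
    have han1 : AnalyticOnNhd ℂ (fun z => g (z + 2 * Real.pi)) D := by
      intro z hz
      have h1 : AnalyticAt ℂ (fun z : ℂ => z + 2 * (Real.pi : ℂ)) z :=
        analyticAt_id.add analyticAt_const
      exact AnalyticAt.comp (g := g) (f := fun z : ℂ => z + 2 * (Real.pi : ℂ)) (hgan _ (hDB' z hz))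
        h1
    have han2 : AnalyticOnNhd ℂ g D := fun z hz => hgan z (hDB z hz)
    have hsD : s ∈ D := by
      have h2' : (s + 2 * Real.pi).re = s.re + 2 * Real.pi := by simp
      rw [h2'] at h2
      have := abs_lt.1 h1
      have := abs_lt.1 h2
      exact ⟨⟨by simpa using (abs_lt.1 h1).1, by simp only [mem_ofPred_eq]; linarith [(abs_lt.1 h2).2]⟩, h3, h4⟩
    -- a base point below
    set y0 : ℝ := (Y + Real.log X) / 2 with hy0
    set s0 : ℂ := ⟨s.re, y0⟩ with hs0
    have hs0D : s0 ∈ D := by
      refine ⟨hsD.1, ?_, ?_⟩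
      · simp only [mem_ofPred_eq, hs0, hy0]; linarith
      · simp only [mem_ofPred_eq, hs0, hy0]; linarith
    have hs0L : s0.im < Real.log X := by simp only [hs0, hy0]; linarith
    refine han1.eqOn_of_preconnected_of_eventuallyEq han2 hDconv.isPreconnected hs0D ?_ hsD
    have hopen : IsOpen (D ∩ {z : ℂ | z.im < Real.log X}) :=
      hDopen.inter (isOpen_lt continuous_im continuous_const)
    filter_upwards [hopen.mem_nhds ⟨hs0D, hs0L⟩] with z hz
    have hz1 : z ∈ Box A Y (Real.log X) := ⟨(hDB z hz.1).1, (hDB z hz.1).2.1, hz.2⟩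
    have hz2 : z + 2 * Real.pi ∈ Box A Y (Real.log X) := by
      refine ⟨(hDB' z hz.1).1, (hDB' z hz.1).2.1, ?_⟩
      have : (z + 2 * (Real.pi : ℂ)).im = z.im := by simp
      rw [this]
      exact hz.2
    show g (z + 2 * Real.pi) = g z
    rw [heq _ hz1, heq _ hz2]
    congr 1
    rw [show -(I * (z + 2 * (Real.pi : ℂ))) = -(I * z) - 2 * Real.pi * I by ring,
      Complex.exp_sub, Complex.exp_two_pi_mul_I, div_one]
  -- the extension
  set E' : ℂ → ℂ := fun ξ => if ‖ξ‖ < X then E ξ else g (I * Complex.log ξ) with hE'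
  -- membership
  have hmem : ∀ ξ : ℂ, ξ ≠ 0 → Real.exp Y < ‖ξ‖ → ‖ξ‖ < X * Real.exp c →
      I * Complex.log ξ ∈ Box A Y (Real.log X + c) := by
    intro ξ h0 h1 h2
    refine ⟨?_, ?_, ?_⟩
    · have : (I * Complex.log ξ).re = -ξ.arg := by simp [Complex.log_im]
      rw [this, abs_neg]
      exact (Complex.abs_arg_le_pi ξ).trans_lt hA
    · have : (I * Complex.log ξ).im = Real.log ‖ξ‖ := by simp [Complex.log_re]
      rw [this]
      exact (Real.lt_log_iff_exp_lt (norm_pos_iff.2 h0)).2 h1
    · have : (I * Complex.log ξ).im = Real.log ‖ξ‖ := by simp [Complex.log_re]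
      rw [this, Real.log_lt_iff_lt_exp (norm_pos_iff.2 h0), Real.exp_add, Real.exp_log hX]
      exact h2
  -- on the annulus `E' = g (i log ξ)`
  have hann : ∀ ξ : ℂ, ξ ≠ 0 → Real.exp Y < ‖ξ‖ → ‖ξ‖ < X * Real.exp c →
      E' ξ = g (I * Complex.log ξ) := by
    intro ξ h0 h1 h2
    simp only [hE']
    split_ifs with h
    · rw [heq]
      · congr 1
        rw [show -(I * (I * Complex.log ξ)) = -(I * I) * Complex.log ξ by ring, I_mul_I, neg_neg,
          one_mul, Complex.exp_log h0]
      · refine ⟨(hmem ξ h0 h1 h2).1, (hmem ξ h0 h1 h2).2.1, ?_⟩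
        have : (I * Complex.log ξ).im = Real.log ‖ξ‖ := by simp [Complex.log_re]
        rw [this]
        exact Real.log_lt_log (norm_pos_iff.2 h0) h
    · rfl
  have hXc : X < X * Real.exp c := by
    have := Real.add_one_le_exp c
    nlinarith
  have hYX : Real.exp Y < X := by
    have := Real.exp_lt_exp.2 hY
    rwa [Real.exp_log hX] at this
  refine ⟨E', ?_, ?_, ?_⟩
  · intro ξ hξ
    rw [mem_ball_zero_iff] at hξ
    refine DifferentiableAt.differentiableWithinAt ?_
    rcases lt_or_ge ‖ξ‖ X with h | h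
    · have hev : E' =ᶠ[𝓝 ξ] E := by
        filter_upwards [isOpen_ball.mem_nhds (mem_ball_zero_iff.2 h)] with z hz
        simp only [hE']
        rw [if_pos (mem_ball_zero_iff.1 hz)]
      exact (hE.differentiableAt (isOpen_ball.mem_nhds (mem_ball_zero_iff.2 h))).congr_of_eventuallyEq
        hev
    · have h0 : ξ ≠ 0 := by
        rintro rfl
        rw [norm_zero] at h
        linarith
      have hopenA : IsOpen {z : ℂ | Real.exp Y < ‖z‖ ∧ ‖z‖ < X * Real.exp c} :=
        (isOpen_lt continuous_const continuous_norm).inter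
          (isOpen_lt continuous_norm continuous_const)
      have hxA : ξ ∈ {z : ℂ | Real.exp Y < ‖z‖ ∧ ‖z‖ < X * Real.exp c} :=
        ⟨hYX.trans_le h, hξ⟩
      by_cases hsl : ξ ∈ slitPlane
      · have hev : E' =ᶠ[𝓝 ξ] fun z => g (I * Complex.log z) := by
          filter_upwards [hopenA.mem_nhds hxA, isOpen_slitPlane.mem_nhds hsl] with z hz hz2
          exact hann z (slitPlane_ne_zero hz2) hz.1 hz.2
        refine DifferentiableAt.congr_of_eventuallyEq ?_ hev
        have h1 : DifferentiableAt ℂ g (I * Complex.log ξ) :=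
          hg.differentiableAt ((box_open _ _ _).mem_nhds (hmem ξ h0 hxA.1 hxA.2))
        exact h1.comp ξ ((Complex.differentiableAt_log hsl).const_mul I)
      · -- negative real axis
        have hneg : ξ.re < 0 ∧ ξ.im = 0 := by
          rw [mem_slitPlane_iff, not_or, not_lt, not_not] at hsl
          refine ⟨lt_of_le_of_ne hsl.1 ?_, hsl.2⟩
          intro hre
          exact h0 (Complex.ext hre hsl.2)
        have hslm : -ξ ∈ slitPlane := by
          rw [mem_slitPlane_iff]
          left
          simpa using hneg.1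
        -- near `ξ` : `E' z = g (i log (-z) - π)`
        have hbox : I * Complex.log (-ξ) - Real.pi ∈ Box A Y (Real.log X + c) := by
          have him : (-ξ).im = 0 := by simp [hneg.2]
          have hre : 0 < (-ξ).re := by simpa using hneg.1
          have harg : (-ξ).arg = 0 := by
            rw [Complex.arg_eq_zero_iff]
            exact ⟨hre.le, him⟩
          refine ⟨?_, ?_, ?_⟩
          · have : (I * Complex.log (-ξ) - Real.pi).re = -Real.pi := by
              simp [Complex.log_im, harg]
            rw [this, abs_neg, abs_of_pos hpi]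
            exact hA
          · have : (I * Complex.log (-ξ) - Real.pi).im = Real.log ‖ξ‖ := by simp [Complex.log_re]
            rw [this]
            exact (Real.lt_log_iff_exp_lt (norm_pos_iff.2 h0)).2 hxA.1
          · have : (I * Complex.log (-ξ) - Real.pi).im = Real.log ‖ξ‖ := by simp [Complex.log_re]
            rw [this, Real.log_lt_iff_lt_exp (norm_pos_iff.2 h0), Real.exp_add, Real.exp_log hX]
            exact hxA.2
        have hdl : DifferentiableAt ℂ (fun z : ℂ => I * Complex.log (-z) - Real.pi) ξ := by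
          have : DifferentiableAt ℂ (fun z : ℂ => Complex.log (-z)) ξ :=
            DifferentiableAt.comp (g := Complex.log) (f := fun z : ℂ => -z) ξ
              (Complex.differentiableAt_log hslm) differentiableAt_id.neg
          exact (this.const_mul I).sub_const _
        have hev : E' =ᶠ[𝓝 ξ] fun z => g (I * Complex.log (-z) - Real.pi) := by
          have hc1 : ∀ᶠ z in 𝓝 ξ, I * Complex.log (-z) - Real.pi ∈ Box A Y (Real.log X + c) :=
            hdl.continuousAt.eventually ((box_open _ _ _).mem_nhds hbox)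
          have hc2 : ∀ᶠ z in 𝓝 ξ, z.re < 0 :=
            (isOpen_lt continuous_re continuous_const).mem_nhds hneg.1
          filter_upwards [hopenA.mem_nhds hxA, hc1, hc2] with z hz hz1 hz2
          have hz0 : z ≠ 0 := by
            rintro rfl
            simp at hz2
          rw [hann z hz0 hz.1 hz.2]
          rcases le_or_gt 0 z.im with him | him
          · -- `log z = log (-z) + i π`
            have harg : z.arg = (-z).arg + Real.pi := by
              rw [Complex.arg_neg_eq_arg_sub_pi_iff.2 ?_]
              · ring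
              · rcases him.lt_or_eq with h' | h'
                · exact Or.inl h'
                · exact Or.inr ⟨h'.symm, hz2⟩
            have hlog : Complex.log z = Complex.log (-z) + Real.pi * I := by
              apply Complex.ext
              · simp [Complex.log_re]
              · simp [Complex.log_im, harg]
            rw [hlog]
            congr 1
            rw [mul_add, show I * ((Real.pi : ℂ) * I) = (I * I) * Real.pi by ring, I_mul_I]
            ring
          · have harg : z.arg = (-z).arg - Real.pi := by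
              rw [Complex.arg_neg_eq_arg_add_pi_iff.2 ?_]
              · ring
              · exact Or.inl him
            have hlog : Complex.log z = Complex.log (-z) - Real.pi * I := by
              apply Complex.ext
              · simp [Complex.log_re]
              · simp [Complex.log_im, harg]
            have e1 : I * Complex.log z = (I * Complex.log (-z) - Real.pi) + 2 * Real.pi := by
              rw [hlog, mul_sub, show I * ((Real.pi : ℂ) * I) = (I * I) * Real.pi by ring, I_mul_I]
              ring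
            rw [e1]
            refine hper _ hz1.1 ?_ hz1.2.1 hz1.2.2
            rw [← e1]
            exact (hmem z hz0 hz.1 hz.2).1
        refine DifferentiableAt.congr_of_eventuallyEq ?_ hev
        have h1 : DifferentiableAt ℂ g (I * Complex.log (-ξ) - Real.pi) :=
          hg.differentiableAt ((box_open _ _ _).mem_nhds hbox)
        exact h1.comp ξ hdl
  · intro ξ hξ
    simp only [hE']
    rw [if_pos (mem_ball_zero_iff.1 hξ)]
  · intro hg0 hE0 ξ hξ
    rw [mem_ball_zero_iff] at hξ
    rcases lt_or_ge ‖ξ‖ X with h | h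
    · simp only [hE']
      rw [if_pos h]
      exact hE0 ξ (mem_ball_zero_iff.2 h)
    · have h0 : ξ ≠ 0 := by
        rintro rfl
        rw [norm_zero] at h
        linarith
      rw [hann ξ h0 (hYX.trans_le h) hξ]
      exact hg0 _ (hmem ξ h0 (hYX.trans_le h) hξ)

/-- **(E5)** -/
theorem e5 {X c A Y : ℝ} (hX : 0 < X) (hc : 0 < c) (hA : Real.pi < A) (hY : Y < Real.log X)
    {Dl : ℂ → ℂ} (hD : DifferentiableOn ℂ Dl (ball 0 X))
    (hmax : ∀ r : ℝ, X < r → ¬ ∃ F : ℂ → ℂ, DifferentiableOn ℂ F (ball 0 r) ∧ F =ᶠ[𝓝 0] Dl)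
    {ι : Type*} {l : Filter ι} [l.NeBot] {f : ι → ℂ → ℂ}
    (hf : ∀ᶠ k in l, DifferentiableOn ℂ (f k) (Box A Y (Real.log X + c)))
    (h0 : ∀ᶠ k in l, ∀ z ∈ Box A Y (Real.log X + c), f k z ≠ 0)
    (h1 : ∀ᶠ k in l, ∀ z ∈ Box A Y (Real.log X + c), f k z ≠ 1)
    {W : Set ℂ} (hW : IsOpen W) (hWne : W.Nonempty) (hWB : W ⊆ Box A Y (Real.log X))
    (hlim : ∀ s ∈ W, Tendsto (fun k => f k s) l (𝓝 (exp (2 * I * Dl (exp (-(I * s))))))) :
    False := by
  classical
  set B : Set ℂ := Box A Y (Real.log X + c) with hB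
  have hBo : IsOpen B := box_open _ _ _
  have hBc : IsPreconnected B := (box_convex _ _ _).isPreconnected
  have hWB' : W ⊆ B := fun s hs => ⟨(hWB hs).1, (hWB hs).2.1, (hWB hs).2.2.trans (by linarith)⟩
  obtain ⟨p, hp⟩ := hWne
  have hpB := hWB' hp
  set u : Ultrafilter ι := Ultrafilter.of l with hu
  have hul : (u : Filter ι) ≤ l := Ultrafilter.of_le l
  have hfu := hf.filter_mono hul
  have h0u := h0.filter_mono hul
  have h1u := h1.filter_mono hul
  have hlimu : ∀ s ∈ W, Tendsto (fun k => f k s) u (𝓝 (exp (2 * I * Dl (exp (-(I * s)))))) :=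
    fun s hs => (hlim s hs).mono_left hul
  set E : ℂ → ℂ := fun ξ => exp (2 * I * Dl ξ) with hE
  have hEd : DifferentiableOn ℂ E (ball 0 X) := ((hD.const_mul (2 * I))).cexp
  rcases big_montel_ultra u hBo hBc hfu h0u h1u with ⟨g, hg, hlg⟩ | hinv
  · -- the limit function
    have hgW : ∀ s ∈ W, g s = E (exp (-(I * s))) := by
      intro s hs
      exact tendsto_nhds_unique (hlg.tendsto_at (hWB' hs)) (hlimu s hs)
    have hgan : AnalyticOnNhd ℂ g B := hg.analyticOnNhd hBo
    have hLo : IsOpen (Box A Y (Real.log X)) := box_open _ _ _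
    have hsub : Box A Y (Real.log X) ⊆ B := fun s hs => ⟨hs.1, hs.2.1, hs.2.2.trans (by linarith)⟩
    have hmap : ∀ s ∈ Box A Y (Real.log X), exp (-(I * s)) ∈ ball (0 : ℂ) X := by
      intro s hs
      rw [mem_ball_zero_iff, Complex.norm_exp]
      have : (-(I * s)).re = s.im := by simp
      rw [this]
      have := Real.exp_lt_exp.2 hs.2.2
      rwa [Real.exp_log hX] at this
    have hcomp : AnalyticOnNhd ℂ (fun s => E (exp (-(I * s)))) (Box A Y (Real.log X)) := by
      refine DifferentiableOn.analyticOnNhd ?_ hLo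
      intro s hs
      have h2 : DifferentiableAt ℂ E (exp (-(I * s))) :=
        hEd.differentiableAt (isOpen_ball.mem_nhds (hmap s hs))
      have h3 : DifferentiableAt ℂ (fun s : ℂ => exp (-(I * s))) s :=
        ((differentiableAt_id.const_mul I).neg).cexp
      exact (DifferentiableAt.comp s h2 h3).differentiableWithinAt
    have heq : ∀ s ∈ Box A Y (Real.log X), g s = E (exp (-(I * s))) := by
      intro s hs
      refine (AnalyticOnNhd.eqOn_of_preconnected_of_eventuallyEq (fun z hz => hgan z (hsub hz)) hcomp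
        (box_convex _ _ _).isPreconnected (hWB hp) ?_) hs
      filter_upwards [hW.mem_nhds hp] with z hz
      exact hgW z hz
    have hgp : g p ≠ 0 := by
      rw [hgW p hp]
      exact Complex.exp_ne_zero _
    have hg0 := hurwitz hBo hBc hg hfu h0u hlg hpB hgp
    obtain ⟨E', hE'1, hE'2, hE'3⟩ := extend hX hc hA hY hEd hg heq
    have hE'0 := hE'3 hg0 (fun ξ _ => Complex.exp_ne_zero _)
    have hXc : X < X * Real.exp c := by
      have := Real.add_one_le_exp c
      nlinarith
    obtain ⟨L, hL1, hL2⟩ := exists_log hE'1 hE'0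
    -- normalise
    have h00 : exp (L 0) = exp (2 * I * Dl 0) := by
      have h3 := hL2 0 (mem_ball_self (by positivity))
      rw [hE'2 0 (mem_ball_self hX)] at h3
      exact h3
    obtain ⟨n, hn⟩ := Complex.exp_eq_exp_iff_exists_int.1 h00
    refine hmax (X * Real.exp c) hXc ⟨fun ξ => (L ξ - n * (2 * Real.pi * I)) / (2 * I), ?_, ?_⟩
    · exact (hL1.sub_const _).div_const _
    · -- equality near `0`
      have hcont : ContinuousAt (fun ξ => L ξ - n * (2 * Real.pi * I) - 2 * I * Dl ξ) 0 := by
        have h4 : ContinuousAt L 0 :=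
          (hL1.differentiableAt (isOpen_ball.mem_nhds (mem_ball_self (by positivity)))).continuousAt
        have h5 : ContinuousAt Dl 0 :=
          (hD.differentiableAt (isOpen_ball.mem_nhds (mem_ball_self hX))).continuousAt
        exact (h4.sub continuousAt_const).sub (continuousAt_const.mul h5)
      have hval : L 0 - n * (2 * Real.pi * I) - 2 * I * Dl 0 = 0 := by rw [hn]; ring
      have hsmall : ∀ᶠ ξ in 𝓝 (0 : ℂ), ‖L ξ - n * (2 * Real.pi * I) - 2 * I * Dl ξ‖ < 1 := by
        have h6 : Tendsto (fun ξ => ‖L ξ - n * (2 * Real.pi * I) - 2 * I * Dl ξ‖) (𝓝 0) (𝓝 0) := by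
          have := hcont.norm.tendsto
          simp only [hval, norm_zero] at this
          exact this
        exact h6.eventually (gt_mem_nhds one_pos)
      filter_upwards [hsmall, isOpen_ball.mem_nhds (mem_ball_self hX)] with ξ hξ hξX
      have hξc : ξ ∈ ball (0 : ℂ) (X * Real.exp c) := ball_subset_ball hXc.le hξX
      have h7 : exp (L ξ) = exp (2 * I * Dl ξ) := by
        rw [hL2 ξ hξc, hE'2 ξ hξX]
      obtain ⟨m, hm⟩ := Complex.exp_eq_exp_iff_exists_int.1 h7
      have h8 : ‖((m - n : ℤ) : ℂ) * (2 * Real.pi * I)‖ < 1 := by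
        have : L ξ - n * (2 * Real.pi * I) - 2 * I * Dl ξ = ((m - n : ℤ) : ℂ) * (2 * Real.pi * I) := by
          rw [hm]; push_cast; ring
        rwa [this] at hξ
      have h9 : m = n := by
        by_contra hne
        have h10 : (1 : ℝ) ≤ |((m - n : ℤ) : ℝ)| := by
          have : 1 ≤ |m - n| := Int.one_le_abs (sub_ne_zero.2 hne)
          exact_mod_cast this
        rw [norm_mul] at h8
        have h11 : ‖(2 * Real.pi * I : ℂ)‖ = 2 * Real.pi := by
          simp [abs_of_pos Real.pi_pos]
        rw [h11] at h8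
        have h12 : ‖((m - n : ℤ) : ℂ)‖ = |((m - n : ℤ) : ℝ)| := by
          rw [← Complex.ofReal_intCast, Complex.norm_real, Real.norm_eq_abs]
        rw [h12] at h8
        have := Real.pi_gt_three
        nlinarith
      rw [h9] at hm
      rw [hm]
      field_simp
      ring
  · have hp0 := hinv.tendsto_at hpB
    have hp1 := (hlimu p hp).inv₀ (Complex.exp_ne_zero _)
    have := tendsto_nhds_unique hp0 hp1
    exact (inv_ne_zero (Complex.exp_ne_zero _)) this.symm

end Crest.Agent.R102.E5942
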