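import Mathlib
import Crest.Agent.R102.SpineDefs_478
import Crest.Agent.R102.AlgS_151

/-!
# Row 102: block `EAlg` of the spine (helper151)
-/

set_option autoImplicit false

noncomputable section

open Filter Topology Set

namespace Crest.Agent.R102.EAlg151

open Crest.Agent.R102.T5 Crest.Agent.R102.G576 Crest.Agent.R102.A929 Crest.Agent.R102.B821
open Crest.Agent.R102.C0 Crest.Agent.R102.C1 Crest.Agent.R102.Spine

/-- swap of the two coordinates -/
lemma swap_rel {X : Type*} {l : Filter X} {f g : X → ℂ} {P : MvPolynomial (Fin 2) ℂ} (hP : P ≠ 0)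
    (h : ∀ᶠ x in l, MvPolynomial.eval ![f x, g x] P = 0) :
    ∃ P' : MvPolynomial (Fin 2) ℂ, P' ≠ 0 ∧ ∀ᶠ x in l, MvPolynomial.eval ![g x, f x] P' = 0 := by
  refine ⟨MvPolynomial.rename (Equiv.swap (0 : Fin 2) 1) P, ?_, ?_⟩
  · intro h0
    exact hP ((map_eq_zero_iff _ (MvPolynomial.rename_injective _
      (Equiv.injective (Equiv.swap (0 : Fin 2) 1)))).1 h0)
  · filter_upwards [h] with x hx
    rw [MvPolynomial.eval_rename]
    have : (![g x, f x] : Fin 2 → ℂ) ∘ (Equiv.swap (0 : Fin 2) 1) = ![f x, g x] := by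
      funext i
      fin_cases i <;> simp
    rw [this]
    exact hx

/-- **block `EAlg`** -/
theorem eAlg : EAlg := by
  intro q η ρ r B b φ p m₀ θ H hD ha
  obtain ⟨P, hP, hrel⟩ := ha
  obtain ⟨P', hP', hrel'⟩ := swap_rel hP hrel
  have hdat := hD.fam.dat
  have h1 : Differentiable ℂ θ := differentiableOn_univ.1 hD.ext.θ_diff
  refine T7C151.t7inf hdat h1 ?_ hP' hrel'
  filter_upwards [(T7C151.isOpen_Str η).mem_nhds (T7C151.zero_mem_Str hdat.η_pos)] with z hz
  exact hD.ext.θ_eq z hz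

end Crest.Agent.R102.EAlg151
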