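import Mathlib
import Crest.Agent.R102.BEndB_802

/-!
Row 102, Case E (`h₀ = ∞`): the end of a label (helper348), analytic core.

* `ball_lemma`, `cov` : the image of a half plane under `B̂`, `B̂' = e^{αz} G(e^z)`, `α ≤ 0`,
  `G(0) ≠ 0`, contains balls of arbitrary radius;
* `const_of_balls` : entire, 1-periodic, symmetric, bounded (same bound) on balls of every radius
  `⟹` constant;
* `lim_pos` : `α = m/6 > 0` `⟹` `B̂` has a limit at the end.
-/

set_option autoImplicit false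

noncomputable section

open Filter Topology Set Metric
open scoped ComplexConjugate

namespace Crest.Agent.R102.EndE348

open Crest.Agent.R102.Rule982 Crest.Agent.R102.BEnd802

/-- quantitative inverse function theorem (surjectivity) -/
lemma ball_lemma {f f' : ℂ → ℂ} {ζ A : ℂ} {r : ℝ} (hr : 0 < r) (hA : A ≠ 0)
    (h : ∀ z ∈ closedBall ζ r, HasDerivAt f (f' z) z)
    (hb : ∀ z ∈ closedBall ζ r, ‖f' z - A‖ ≤ ‖A‖ / 2) :
    ball (f ζ) (‖A‖ * r / 4) ⊆ f '' closedBall ζ r := by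
  have hA' : 0 < ‖A‖ := norm_pos_iff.2 hA
  have hζ : ζ ∈ closedBall ζ r := mem_closedBall_self hr.le
  have h1 : ∀ z ∈ closedBall ζ r, ‖(f z - A * z) - (f ζ - A * ζ)‖ ≤ ‖A‖ / 2 * ‖z - ζ‖ := by
    intro z hz
    refine (convex_closedBall ζ r).norm_image_sub_le_of_norm_hasDerivWithin_le
      (f := fun z => f z - A * z) (f' := fun z => f' z - A) ?_ hb hζ hz
    intro x hx
    have h2 := (h x hx).sub ((hasDerivAt_id x).const_mul A)
    rw [mul_one] at h2
    exact h2.hasDerivWithinAt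
  have h2 : ∀ z ∈ sphere ζ r, ‖A‖ * r / 2 ≤ ‖f z - f ζ‖ := by
    intro z hz
    have h3 := h1 z (sphere_subset_closedBall hz)
    have hzr : ‖z - ζ‖ = r := by rw [← dist_eq_norm]; exact mem_sphere.1 hz
    rw [hzr] at h3
    have h4 : ‖A * (z - ζ)‖ = ‖A‖ * r := by rw [norm_mul, hzr]
    have h5 : A * (z - ζ) = (f z - f ζ) - ((f z - A * z) - (f ζ - A * ζ)) := by ring
    have h6 : ‖A * (z - ζ)‖ ≤ ‖f z - f ζ‖ + ‖(f z - A * z) - (f ζ - A * ζ)‖ := by
      rw [h5]; exact norm_sub_le _ _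
    rw [h4] at h6
    linarith
  have hdc : DiffContOnCl ℂ f (ball ζ r) := by
    refine ⟨fun z hz => (h z (ball_subset_closedBall hz)).differentiableAt.differentiableWithinAt, ?_⟩
    rw [closure_ball ζ hr.ne']
    exact fun z hz => (h z hz).continuousAt.continuousWithinAt
  have hne : f' ζ ≠ 0 := by
    intro h0
    have := hb ζ hζ
    rw [h0, zero_sub, norm_neg] at this
    linarith
  have h7 : ∃ᶠ z in 𝓝 ζ, f z ≠ f ζ := by
    have h8 : ∀ᶠ z in 𝓝[≠] ζ, f z ≠ f ζ := (h ζ hζ).eventually_ne hne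
    exact (h8.frequently).filter_mono nhdsWithin_le_nhds
  have h8 := hdc.ball_subset_image_closedBall hr h2 h7
  have h9 : ‖A‖ * r / 2 / 2 = ‖A‖ * r / 4 := by ring
  rwa [h9] at h8

lemma mem_HPl {a : ℝ} {z : ℂ} : z ∈ HPl a ↔ z.re < a := Iff.rfl

/-- the exponential estimate -/
lemma norm_exp_sub_one {w : ℂ} (hw : ‖w‖ ≤ 1) : ‖Complex.exp w - 1‖ ≤ 2 * ‖w‖ :=
  Complex.norm_exp_sub_one_le hw

/-- the image contains arbitrarily large balls -/
lemma cov {b α : ℝ} (hα : α ≤ 0) {G Bh : ℂ → ℂ} (hG : ContinuousAt G 0) (hG0 : G 0 ≠ 0)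
    (hB : ∀ z ∈ HPl b, HasDerivAt Bh (Complex.exp (α * z) * G (Complex.exp z)) z) (R : ℝ) :
    ∃ (ζ : ℂ) (r : ℝ), closedBall ζ r ⊆ HPl b ∧ ball (Bh ζ) R ⊆ Bh '' closedBall ζ r := by
  have hc : 0 < ‖G 0‖ := norm_pos_iff.2 hG0
  obtain ⟨δ, hδ, hδ'⟩ := Metric.continuousAt_iff.1 hG (‖G 0‖ / 8) (by positivity)
  set b1 : ℝ := min b (Real.log δ) with hb1
  have hGb : ∀ z : ℂ, z.re < b1 → ‖G (Complex.exp z) - G 0‖ ≤ ‖G 0‖ / 8 := by
    intro z hz
    have h1 : dist (Complex.exp z) 0 < δ := by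
      rw [dist_zero_right, Complex.norm_exp]
      exact (Real.lt_log_iff_exp_lt hδ).1 (lt_of_lt_of_le hz (min_le_right _ _))
    have h2 := hδ' h1
    rw [dist_eq_norm] at h2
    exact h2.le
  have hre : ∀ (ζ z : ℂ) (r : ℝ), z ∈ closedBall ζ r → z.re ≤ ζ.re + r := by
    intro ζ z r hz
    rw [mem_closedBall, dist_eq_norm] at hz
    have h1 := (le_abs_self _).trans ((Complex.abs_re_le_norm (z - ζ)).trans hz)
    rw [Complex.sub_re] at h1
    linarith
  rcases hα.lt_or_eq with hlt | h0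
  · -- `α < 0`
    set r : ℝ := 1 / (16 * (1 - α)) with hr
    have hr0 : 0 < r := by rw [hr]; apply one_div_pos.2; linarith
    have hr1 : r ≤ 1 := by
      rw [hr, div_le_one (by linarith)]; linarith
    have hαr : -α * r ≤ 1 / 16 := by
      rw [hr, mul_one_div, div_le_iff₀ (by linarith)]; linarith
    set R' : ℝ := max R 1 with hR'
    have hR'0 : 0 < R' := lt_of_lt_of_le one_pos (le_max_right _ _)
    set x : ℝ := min (b1 - 2) (Real.log (4 * R' / (‖G 0‖ * r)) / α) with hx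
    have hx1 : x ≤ b1 - 2 := min_le_left _ _
    have hx2 : Real.log (4 * R' / (‖G 0‖ * r)) ≤ α * x := by
      have h1 : x ≤ Real.log (4 * R' / (‖G 0‖ * r)) / α := min_le_right _ _
      rw [le_div_iff_of_neg hlt] at h1
      linarith
    have hq : 0 < 4 * R' / (‖G 0‖ * r) := by positivity
    have hx3 : 4 * R' / (‖G 0‖ * r) ≤ Real.exp (α * x) := by
      rw [← Real.exp_log hq]; exact Real.exp_le_exp.2 hx2
    have hreb : ∀ z ∈ closedBall (x : ℂ) r, z.re < b1 := by
      intro z hz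
      have := hre _ _ _ hz
      rw [Complex.ofReal_re] at this
      linarith
    have hsub : closedBall (x : ℂ) r ⊆ HPl b := fun z hz =>
      lt_of_lt_of_le (hreb z hz) (min_le_left _ _)
    set A : ℂ := Complex.exp (α * x) * G 0 with hA
    have hA0 : A ≠ 0 := mul_ne_zero (Complex.exp_ne_zero _) hG0
    have hAn : ‖A‖ = Real.exp (α * x) * ‖G 0‖ := by
      rw [hA, norm_mul, Complex.norm_exp]
      congr 2
      simp
    have hbound : ∀ z ∈ closedBall (x : ℂ) r,
        ‖Complex.exp (α * z) * G (Complex.exp z) - A‖ ≤ ‖A‖ / 2 := by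
      intro z hz
      have h1 := hGb z (hreb z hz)
      have h2 : ‖(α : ℂ) * (z - x)‖ ≤ 1 / 16 := by
        rw [norm_mul, Complex.norm_real, Real.norm_eq_abs, abs_of_neg hlt]
        rw [mem_closedBall, dist_eq_norm] at hz
        calc -α * ‖z - x‖ ≤ -α * r := by
              apply mul_le_mul_of_nonneg_left hz; linarith
          _ ≤ 1 / 16 := hαr
      have h3 : ‖Complex.exp ((α : ℂ) * (z - x)) - 1‖ ≤ 1 / 8 := by
        refine (norm_exp_sub_one (h2.trans (by norm_num))).trans ?_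
        linarith
      have h4 : Complex.exp (α * z) * G (Complex.exp z) - A = Complex.exp (α * x) *
          ((Complex.exp ((α : ℂ) * (z - x)) - 1) * G (Complex.exp z) +
            (G (Complex.exp z) - G 0)) := by
        have h5 : Complex.exp (α * z) = Complex.exp (α * x) * Complex.exp ((α : ℂ) * (z - x)) := by
          rw [← Complex.exp_add]; congr 1; ring
        rw [h5, hA]; ring
      have h6 : ‖G (Complex.exp z)‖ ≤ ‖G 0‖ * (9 / 8) := by
        calc ‖G (Complex.exp z)‖ = ‖G 0 + (G (Complex.exp z) - G 0)‖ := by ring_nf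
          _ ≤ ‖G 0‖ + ‖G (Complex.exp z) - G 0‖ := norm_add_le _ _
          _ ≤ _ := by linarith
      rw [h4, norm_mul, hAn]
      have h7 : ‖Complex.exp ((α : ℂ) * x)‖ = Real.exp (α * x) := by
        rw [Complex.norm_exp]; congr 1; simp
      rw [h7, mul_div_assoc]
      refine mul_le_mul_of_nonneg_left ?_ (Real.exp_pos _).le
      calc _ ≤ ‖(Complex.exp ((α : ℂ) * (z - x)) - 1) * G (Complex.exp z)‖ +
            ‖G (Complex.exp z) - G 0‖ := norm_add_le _ _
        _ ≤ 1 / 8 * (‖G 0‖ * (9 / 8)) + ‖G 0‖ / 8 := by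
            rw [norm_mul]
            gcongr
        _ ≤ ‖G 0‖ / 2 := by linarith
    refine ⟨x, r, hsub, ?_⟩
    refine Subset.trans (ball_subset_ball ?_) (ball_lemma hr0 hA0 (fun z hz => hB z (hsub hz)) hbound)
    rw [hAn]
    have h8 : 4 * R' ≤ Real.exp (α * x) * (‖G 0‖ * r) := by
      rwa [div_le_iff₀ (by positivity)] at hx3
    have h9 : R ≤ R' := le_max_left _ _
    linarith
  · -- `α = 0`
    subst h0
    set R' : ℝ := max R 1 with hR'
    have hR'0 : 0 < R' := lt_of_lt_of_le one_pos (le_max_right _ _)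
    set r : ℝ := 4 * R' / ‖G 0‖ with hr
    have hr0 : 0 < r := by positivity
    set x : ℝ := b1 - r - 1 with hx
    have hreb : ∀ z ∈ closedBall (x : ℂ) r, z.re < b1 := by
      intro z hz
      have := hre _ _ _ hz
      rw [Complex.ofReal_re, hx] at this
      linarith
    have hsub : closedBall (x : ℂ) r ⊆ HPl b := fun z hz =>
      lt_of_lt_of_le (hreb z hz) (min_le_left _ _)
    refine ⟨x, r, hsub, ?_⟩
    refine Subset.trans (ball_subset_ball ?_) (ball_lemma hr0 hG0 (fun z hz => hB z (hsub hz)) ?_)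
    · rw [hr]
      have h9 : R ≤ R' := le_max_left _ _
      have h10 : ‖G 0‖ * (4 * R' / ‖G 0‖) / 4 = R' := by field_simp
      rw [h10]; exact h9
    · intro z hz
      have h1 := hGb z (hreb z hz)
      have h2 : Complex.exp (((0 : ℝ) : ℂ) * z) * G (Complex.exp z) - G 0 =
          G (Complex.exp z) - G 0 := by simp
      rw [h2]
      linarith

/-- Liouville for periodic functions bounded on large balls -/
lemma const_of_balls {f : ℂ → ℂ} (hf : Differentiable ℂ f) (hper : ∀ z, f (z + 1) = f z)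
    (hconj : ∀ z, ‖f (conj z)‖ = ‖f z‖) {C : ℝ}
    (h : ∀ R : ℝ, ∃ z₀, ∀ z ∈ ball z₀ R, ‖f z‖ ≤ C) : ∀ z w, f z = f w := by
  have hpern : ∀ (n : ℕ) (z : ℂ), f (z + n) = f z := by
    intro n
    induction n with
    | zero => intro z; simp
    | succ n ih =>
      intro z
      rw [show z + ((n + 1 : ℕ) : ℂ) = (z + n) + 1 by push_cast; ring, hper, ih]
  have hperz : ∀ (n : ℤ) (z : ℂ), f (z + n) = f z := by
    intro n z
    rcases Int.eq_nat_or_neg n with ⟨k, rfl | rfl⟩
    · exact_mod_cast hpern k z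
    · have := hpern k (z + ((-(k : ℤ) : ℤ) : ℂ))
      rw [← this]
      congr 1
      push_cast
      ring
  have hall : ∀ z, ‖f z‖ ≤ C := by
    intro z
    obtain ⟨z₀, hz₀⟩ := h (2 * (|z.im| + 3))
    -- the height
    obtain ⟨y, hy1, hy2⟩ : ∃ y : ℝ, |z.im| + 1 ≤ |y| ∧ |y - z₀.im| ≤ |z.im| + 1 := by
      have h0 := abs_nonneg z.im
      rcases le_total 0 z₀.im with h1 | h1
      · refine ⟨z₀.im + (|z.im| + 1), ?_, ?_⟩
        · rw [abs_of_nonneg (show 0 ≤ z₀.im + (|z.im| + 1) by linarith)]; linarith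
        · rw [add_sub_cancel_left, abs_of_nonneg (show (0 : ℝ) ≤ |z.im| + 1 by linarith)]
      · refine ⟨z₀.im - (|z.im| + 1), ?_, ?_⟩
        · rw [abs_of_nonpos (show z₀.im - (|z.im| + 1) ≤ 0 by linarith)]; linarith
        · rw [show z₀.im - (|z.im| + 1) - z₀.im = -(|z.im| + 1) by ring, abs_neg,
            abs_of_nonneg (show (0 : ℝ) ≤ |z.im| + 1 by linarith)]
    have hline : ∀ x : ℂ, x.im = y → ‖f x‖ ≤ C := by
      intro x hx
      set n : ℤ := ⌊x.re - z₀.re⌋ with hn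
      have h1 := hperz (-n) x
      rw [← h1]
      refine hz₀ _ ?_
      rw [mem_ball, dist_eq_norm]
      have h2 : (x + ((-n : ℤ) : ℂ) - z₀).re = Int.fract (x.re - z₀.re) := by
        have h2' : (x + ((-n : ℤ) : ℂ) - z₀).re = (x.re - z₀.re) - n := by simp; ring
        rw [h2', hn]; rfl
      have h3 : (x + ((-n : ℤ) : ℂ) - z₀).im = y - z₀.im := by
        simp [hx]
      refine lt_of_le_of_lt (Complex.norm_le_abs_re_add_abs_im _) ?_
      rw [h2, h3, abs_of_nonneg (Int.fract_nonneg _)]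
      have h4 := Int.fract_lt_one (x.re - z₀.re)
      have h0 := abs_nonneg z.im
      linarith
    have hline' : ∀ x : ℂ, x.im = -y → ‖f x‖ ≤ C := by
      intro x hx
      rw [← hconj]
      exact hline _ (by simp [hx])
    have hpos : 0 < |y| := by have h0 := abs_nonneg z.im; linarith
    have hla : ∀ x : ℂ, x.im = -|y| → ‖f x‖ ≤ C := by
      intro x hx
      rcases abs_choice y with h1 | h1 <;> rw [h1] at hx
      · exact hline' x hx
      · exact hline x (by rw [hx, neg_neg])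
    have hlb : ∀ x : ℂ, x.im = |y| → ‖f x‖ ≤ C := by
      intro x hx
      rcases abs_choice y with h1 | h1 <;> rw [h1] at hx
      · exact hline x hx
      · exact hline' x hx
    have hK : IsCompact (Icc (0 : ℝ) 1 ×ℂ Icc (-|y|) |y|) := isCompact_Icc.reProdIm isCompact_Icc
    obtain ⟨K, hK'⟩ := hK.exists_bound_of_continuousOn hf.continuous.continuousOn
    have hbd : ∀ x : ℂ, x.im ∈ Ioo (-|y|) |y| → ‖f x‖ ≤ K := by
      intro x hx
      have h1 := hperz (-⌊x.re⌋) x
      rw [← h1]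
      refine hK' _ ?_
      rw [Complex.mem_reProdIm]
      have e1 : (x + ((-⌊x.re⌋ : ℤ) : ℂ)).re = Int.fract x.re := by
        simp [Int.fract, sub_eq_add_neg]
      have e2 : (x + ((-⌊x.re⌋ : ℤ) : ℂ)).im = x.im := by simp
      rw [e1, e2]
      exact ⟨⟨Int.fract_nonneg _, (Int.fract_lt_one _).le⟩, hx.1.le, hx.2.le⟩
    refine PhragmenLindelof.horizontal_strip (a := -|y|) (b := |y|) hf.diffContOnCl ?_ hla hlb ?_ ?_
    · refine ⟨0, by apply div_pos Real.pi_pos; linarith, 0, ?_⟩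
      refine Asymptotics.IsBigO.of_bound K ?_
      refine Filter.Eventually.filter_mono inf_le_right ?_
      rw [Filter.eventually_principal]
      intro x hx
      refine (hbd x hx).trans ?_
      simp
    · have := neg_abs_le z.im; linarith
    · have := le_abs_self z.im; linarith
  refine hf.apply_eq_apply_of_bounded ?_
  rw [Metric.isBounded_iff_subset_closedBall 0]
  refine ⟨C, ?_⟩
  rintro _ ⟨z, rfl⟩
  rw [mem_closedBall_zero_iff]
  exact hall z

/-- positive exponent: the label has a limit -/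
lemma lim_pos {b : ℝ} {m : ℕ} (hm : 0 < m) {G Bh : ℂ → ℂ} (hG : AnalyticAt ℂ G 0)
    (hB : ∀ z ∈ HPl b, HasDerivAt Bh (Complex.exp ((m : ℂ) / 6 * z) * G (Complex.exp z)) z) :
    ∃ d, Tendsto Bh LI (𝓝 d) := by
  obtain ⟨δ₀, hδ₀, hGa⟩ := Metric.eventually_nhds_iff_ball.1 hG.eventually_analyticAt
  set δ : ℝ := min δ₀ 1 with hδ
  have hδ0 : 0 < δ := lt_min hδ₀ one_pos
  have h6 : ∀ s ∈ ball (0 : ℂ) δ, s ^ 6 ∈ ball (0 : ℂ) δ₀ := by
    intro s hs
    rw [mem_ball_zero_iff] at hs ⊢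
    rw [norm_pow]
    have h1 : ‖s‖ < 1 := lt_of_lt_of_le hs (min_le_right _ _)
    calc ‖s‖ ^ 6 ≤ ‖s‖ ^ 1 := pow_le_pow_of_le_one (norm_nonneg _) h1.le (by norm_num)
      _ = ‖s‖ := pow_one _
      _ < δ₀ := lt_of_lt_of_le hs (min_le_left _ _)
  have hd : DifferentiableOn ℂ (fun s : ℂ => 6 * s ^ (m - 1) * G (s ^ 6)) (ball 0 δ) := by
    intro s hs
    have h1 : DifferentiableAt ℂ (fun s : ℂ => G (s ^ 6)) s :=
      DifferentiableAt.comp (g := G) (f := fun s : ℂ => s ^ 6) s (hGa _ (h6 s hs)).differentiableAt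
        (by fun_prop)
    have h2 : DifferentiableAt ℂ (fun s : ℂ => 6 * s ^ (m - 1)) s := by fun_prop
    exact (h2.mul h1).differentiableWithinAt
  obtain ⟨A, -, hA⟩ := (hd.isExactOn_ball).with_val_at 0 0
  set b1 : ℝ := min b (6 * Real.log δ) with hb1
  have hs : ∀ z ∈ HPl b1, Complex.exp (z / 6) ∈ ball (0 : ℂ) δ := by
    intro z hz
    rw [mem_ball_zero_iff, Complex.norm_exp]
    refine (Real.lt_log_iff_exp_lt hδ0).1 ?_
    have h1 : z.re < 6 * Real.log δ := lt_of_lt_of_le hz (min_le_right _ _)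
    have h2 : (z / 6).re = z.re / 6 := by simp
    rw [h2]; linarith
  have h7 : ∀ z ∈ HPl b1, HasDerivAt (fun z => Bh z - A (Complex.exp (z / 6))) 0 z := by
    intro z hz
    have h8 := hB z (show z.re < b from lt_of_lt_of_le hz (min_le_left _ _))
    have h9 : HasDerivAt (fun z : ℂ => Complex.exp (z / 6)) (Complex.exp (z / 6) * (1 / 6)) z :=
      ((hasDerivAt_id z).div_const 6).cexp
    have h10 := h8.sub ((hA _ (hs z hz)).comp z h9)
    refine h10.congr_deriv ?_
    have e1 : Complex.exp (z / 6) ^ 6 = Complex.exp z := by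
      rw [← Complex.exp_nat_mul]; congr 1; push_cast; ring
    have e2 : Complex.exp ((m : ℂ) / 6 * z) = Complex.exp (z / 6) ^ (m - 1) * Complex.exp (z / 6) := by
      rw [← pow_succ, Nat.sub_add_cancel hm, ← Complex.exp_nat_mul]; congr 1; ring
    rw [e1, e2]; ring
  have hz0 : ((b1 - 1 : ℝ) : ℂ) ∈ HPl b1 := by
    rw [mem_HPl, Complex.ofReal_re]; linarith
  refine ⟨A 0 + (Bh ((b1 - 1 : ℝ) : ℂ) - A (Complex.exp (((b1 - 1 : ℝ) : ℂ) / 6))), ?_⟩
  have h11 : Tendsto (fun z : ℂ => Complex.exp (z / 6)) LI (𝓝 0) := by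
    rw [tendsto_zero_iff_norm_tendsto_zero]
    have h12 : (fun z : ℂ => ‖Complex.exp (z / 6)‖) = (fun x : ℝ => Real.exp (x / 6)) ∘ Complex.re := by
      funext z
      simp [Complex.norm_exp]
    rw [h12]
    have h13 : Tendsto (fun x : ℝ => Real.exp (x / 6)) atBot (𝓝 0) :=
      Real.tendsto_exp_atBot.comp (tendsto_id.atBot_div_const (by norm_num))
    exact h13.comp tendsto_comap
  have hA0 : ContinuousAt A 0 := (hA 0 (mem_ball_self hδ0)).continuousAt
  have h12 : Tendsto (fun z => A (Complex.exp (z / 6)) + (Bh ((b1 - 1 : ℝ) : ℂ) -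
      A (Complex.exp (((b1 - 1 : ℝ) : ℂ) / 6)))) LI
      (𝓝 (A 0 + (Bh ((b1 - 1 : ℝ) : ℂ) - A (Complex.exp (((b1 - 1 : ℝ) : ℂ) / 6))))) :=
    (hA0.tendsto.comp h11).add_const _
  refine h12.congr' ?_
  have h13 : ∀ᶠ z in LI, z.re < b1 := eventually_LI.2 ⟨b1, fun z hz => hz⟩
  filter_upwards [h13] with z hz
  have h14 : Bh z - A (Complex.exp (z / 6)) = Bh ((b1 - 1 : ℝ) : ℂ) -
      A (Complex.exp (((b1 - 1 : ℝ) : ℂ) / 6)) :=
    const_of_deriv_zero h7 hz hz0
  rw [← h14]; ring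

end Crest.Agent.R102.EndE348
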