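import Mathlib
import Crest.Agent.R102.EndE_348

set_option autoImplicit false

noncomputable section

open Filter Topology Set Metric
open scoped ComplexConjugate

namespace Crest.Agent.R102.EndE348

open Crest.Agent.R102.Rule982 Crest.Agent.R102.BEnd802

/-- sixth root near a point -/
lemma root6 {F0 : ℂ → ℂ} {t₁ : ℂ} (hF : AnalyticAt ℂ F0 t₁) (h0 : F0 t₁ ≠ 0) :
    ∃ G0 : ℂ → ℂ, AnalyticAt ℂ G0 0 ∧ G0 0 ≠ 0 ∧ ∀ᶠ s in 𝓝 (0 : ℂ), G0 s ^ 6 = F0 (t₁ + s) := by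
  have h1 : AnalyticAt ℂ (fun s => F0 (t₁ + s) / F0 t₁) 0 := by
    have h2 : AnalyticAt ℂ (fun s : ℂ => t₁ + s) 0 := by fun_prop
    have h3 : AnalyticAt ℂ F0 ((fun s : ℂ => t₁ + s) 0) := by simpa using hF
    exact (AnalyticAt.comp (g := F0) (f := fun s : ℂ => t₁ + s) h3 h2).div analyticAt_const h0
  have h2 : F0 (t₁ + 0) / F0 t₁ ∈ Complex.slitPlane := by
    rw [add_zero, div_self h0]; exact Complex.one_mem_slitPlane
  have h3 : AnalyticAt ℂ (fun s => Complex.log (F0 (t₁ + s) / F0 t₁)) 0 := h1.clog h2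
  refine ⟨fun s => Complex.exp ((Complex.log (F0 (t₁ + s) / F0 t₁) + Complex.log (F0 t₁)) / 6),
    ?_, Complex.exp_ne_zero _, ?_⟩
  · exact ((h3.add analyticAt_const).div_const).cexp
  · have h4 : ∀ᶠ s in 𝓝 (0 : ℂ), F0 (t₁ + s) / F0 t₁ ≠ 0 :=
      h1.continuousAt.eventually_ne (Complex.slitPlane_ne_zero h2)
    filter_upwards [h4] with s hs
    rw [← Complex.exp_nat_mul]
    have h5 : ((6 : ℕ) : ℂ) * ((Complex.log (F0 (t₁ + s) / F0 t₁) + Complex.log (F0 t₁)) / 6) =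
        Complex.log (F0 (t₁ + s) / F0 t₁) + Complex.log (F0 t₁) := by push_cast; ring
    rw [h5, Complex.exp_add, Complex.exp_log hs, Complex.exp_log h0, div_mul_cancel₀ _ h0]

/-- two nonvanishing functions with the same sixth power -/
lemma const_ratio {b : ℝ} {g k : ℂ → ℂ} (hg : DifferentiableOn ℂ g (HPl b))
    (hk : DifferentiableOn ℂ k (HPl b)) (hg0 : ∀ z ∈ HPl b, g z ≠ 0) (hk0 : ∀ z ∈ HPl b, k z ≠ 0)
    (h6 : ∀ z ∈ HPl b, g z ^ 6 = k z ^ 6) : ∃ ω : ℂ, ω ≠ 0 ∧ ∀ z ∈ HPl b, g z = ω * k z := by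
  have ho := isOpen_HPl b
  have hd : ∀ z ∈ HPl b, HasDerivAt (fun z => g z / k z) 0 z := by
    intro z hz
    have h1 : HasDerivAt (fun z => g z / k z) (deriv (fun z => g z / k z) z) z :=
      ((hg.differentiableAt (ho.mem_nhds hz)).div (hk.differentiableAt (ho.mem_nhds hz))
        (hk0 z hz)).hasDerivAt
    have h2 := h1.pow 6
    have h4 : (fun z => g z / k z) ^ 6 =ᶠ[𝓝 z] fun _ => 1 := by
      filter_upwards [ho.mem_nhds hz] with w hw
      change (g w / k w) ^ 6 = 1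
      rw [div_pow, h6 w hw, div_self (pow_ne_zero 6 (hk0 w hw))]
    have h5 := h2.unique ((hasDerivAt_const z (1 : ℂ)).congr_of_eventuallyEq h4)
    have h7 : deriv (fun z => g z / k z) z = 0 := by
      rcases mul_eq_zero.1 h5 with h8 | h8
      · exfalso
        have h9 : (6 : ℂ) ≠ 0 := by norm_num
        have h10 : g z / k z ≠ 0 := div_ne_zero (hg0 z hz) (hk0 z hz)
        exact (mul_ne_zero (by exact_mod_cast h9) (pow_ne_zero _ h10)) h8
      · exact h8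
    rwa [h7] at h1
  have hz₀ : ((b - 1 : ℝ) : ℂ) ∈ HPl b := by
    rw [mem_HPl, Complex.ofReal_re]; linarith
  refine ⟨g ((b - 1 : ℝ) : ℂ) / k ((b - 1 : ℝ) : ℂ), div_ne_zero (hg0 _ hz₀) (hk0 _ hz₀), ?_⟩
  intro z hz
  have h1 : g z / k z = g ((b - 1 : ℝ) : ℂ) / k ((b - 1 : ℝ) : ℂ) := const_of_deriv_zero hd hz hz₀
  rw [← h1, div_mul_cancel₀ _ (hk0 z hz)]

/-- `exp z` is near `0` for `re z` very negative -/
lemma exp_near {p : ℂ → Prop} (h : ∀ᶠ s in 𝓝 (0 : ℂ), p s) :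
    ∃ b : ℝ, ∀ z : ℂ, z.re < b → p (Complex.exp z) := by
  obtain ⟨δ, hδ, hδ'⟩ := Metric.eventually_nhds_iff_ball.1 h
  refine ⟨Real.log δ, fun z hz => hδ' _ ?_⟩
  rw [mem_ball_zero_iff, Complex.norm_exp]
  exact (Real.lt_log_iff_exp_lt hδ).1 hz

/-- the form of the sixth root in the logarithmic coordinate -/
lemma root_form {a : ℝ} {F g : ℂ → ℂ} {t₁ : ℂ} (hF : MeromorphicAt F t₁)
    (hne : ∃ᶠ t in 𝓝[≠] t₁, F t ≠ 0) (hg : DifferentiableOn ℂ g (HPl a))
    (hg0 : ∀ z ∈ HPl a, g z ≠ 0)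
    (hg6 : ∀ z ∈ HPl a, g z ^ 6 = F (t₁ + Complex.exp z) * Complex.exp (6 * z)) :
    ∃ (n : ℤ) (b : ℝ) (G : ℂ → ℂ), b ≤ a ∧ AnalyticAt ℂ G 0 ∧ G 0 ≠ 0 ∧
      ∀ z ∈ HPl b, g z = Complex.exp ((n : ℂ) / 6 * z) * G (Complex.exp z) := by
  have hord : meromorphicOrderAt F t₁ ≠ ⊤ := by
    intro h2
    rw [meromorphicOrderAt_eq_top_iff] at h2
    exact hne (h2.mono fun x hx h => h hx)
  obtain ⟨F0, hF0, hF00, hFF⟩ := (meromorphicOrderAt_ne_top_iff hF).1 hord
  set k : ℤ := (meromorphicOrderAt F t₁).untop₀ with hk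
  obtain ⟨G0, hG0, hG00, hG6⟩ := root6 hF0 hF00
  have e1 : ∀ᶠ s in 𝓝 (0 : ℂ), s ≠ 0 → F (t₁ + s) = s ^ k * F0 (t₁ + s) := by
    have h1 := eventually_nhdsWithin_iff.1 hFF
    have h2 : Tendsto (fun s : ℂ => t₁ + s) (𝓝 0) (𝓝 t₁) := by
      have : ContinuousAt (fun s : ℂ => t₁ + s) 0 := by fun_prop
      simpa [ContinuousAt] using this
    filter_upwards [h2.eventually h1] with s hs hs0
    have h3 := hs (by simpa using hs0)
    rw [h3, add_sub_cancel_left, smul_eq_mul]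
  obtain ⟨b, hb⟩ := exp_near (e1.and (hG6.and ((hG0.continuousAt.eventually_ne hG00).and
    hG0.eventually_analyticAt)))
  have hb' : ∀ z ∈ HPl (min a b), z.re < b := fun z hz => lt_of_lt_of_le hz (min_le_right _ _)
  have hba : ∀ z ∈ HPl (min a b), z ∈ HPl a := fun z hz =>
    lt_of_lt_of_le (show z.re < min a b from hz) (min_le_left _ _)
  obtain ⟨ω, hω, hωg⟩ := const_ratio (b := min a b) (g := g)
    (k := fun z => Complex.exp (((k + 6 : ℤ) : ℂ) / 6 * z) * G0 (Complex.exp z))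
    (hg.mono hba)
    (by
      intro z hz
      refine DifferentiableAt.differentiableWithinAt ?_
      have h1 : DifferentiableAt ℂ G0 (Complex.exp z) := (hb z (hb' z hz)).2.2.2.differentiableAt
      have h2 : DifferentiableAt ℂ (fun z => G0 (Complex.exp z)) z :=
        DifferentiableAt.comp (g := G0) (f := Complex.exp) z h1 Complex.differentiableAt_exp
      exact DifferentiableAt.mul (by fun_prop) h2)
    (fun z hz => hg0 z (hba z hz))
    (fun z hz => mul_ne_zero (Complex.exp_ne_zero _) (hb z (hb' z hz)).2.2.1)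
    (by
      intro z hz
      obtain ⟨h1, h2, h3, h4⟩ := hb z (hb' z hz)
      rw [hg6 z (hba z hz), mul_pow, h2, h1 (Complex.exp_ne_zero _)]
      have h5 : Complex.exp (((k + 6 : ℤ) : ℂ) / 6 * z) ^ 6 =
          Complex.exp z ^ k * Complex.exp (6 * z) := by
        rw [← Complex.exp_nat_mul, ← Complex.exp_int_mul, ← Complex.exp_add]
        congr 1
        push_cast
        ring
      rw [h5]; ring)
  refine ⟨k + 6, min a b, fun s => ω * G0 s, min_le_left _ _, analyticAt_const.mul hG0,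
    mul_ne_zero hω hG00, fun z hz => ?_⟩
  rw [hωg z hz]; ring

/-- the logarithmic derivative has at most a simple pole -/
lemma bdd_logder {M : ℂ → ℂ} {t₁ : ℂ} (hM : MeromorphicAt M t₁)
    (hne : ∃ᶠ t in 𝓝[≠] t₁, M t ≠ 0) :
    ∃ C : ℝ, ∀ᶠ t in 𝓝[≠] t₁, ‖(t - t₁) * (deriv M t / M t)‖ ≤ C := by
  have hord : meromorphicOrderAt M t₁ ≠ ⊤ := by
    intro h2
    rw [meromorphicOrderAt_eq_top_iff] at h2
    exact hne (h2.mono fun x hx h => h hx)
  obtain ⟨F0, hF0, hF00, hFF⟩ := (meromorphicOrderAt_ne_top_iff hM).1 hord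
  set k : ℤ := (meromorphicOrderAt M t₁).untop₀ with hk
  have h1 : ContinuousAt (fun t => k + (t - t₁) * (deriv F0 t / F0 t)) t₁ := by
    have h2 : ContinuousAt (deriv F0) t₁ := hF0.deriv.continuousAt
    have h3 : ContinuousAt F0 t₁ := hF0.continuousAt
    exact continuousAt_const.add ((by fun_prop : ContinuousAt (fun t => t - t₁) t₁).mul
      (h2.div h3 hF00))
  have h2 : ∀ᶠ t in 𝓝 t₁, ‖k + (t - t₁) * (deriv F0 t / F0 t)‖ < ‖(k : ℂ)‖ + 1 := by
    have h3 := h1.norm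
    refine h3.eventually (gt_mem_nhds ?_)
    simp
  refine ⟨‖(k : ℂ)‖ + 1, ?_⟩
  have h4 : ∀ᶠ t in 𝓝[≠] t₁, ∀ᶠ s in 𝓝 t, M s = (s - t₁) ^ k * F0 s := by
    have h5 := eventually_nhdsWithin_iff.1 hFF
    rw [eventually_nhdsWithin_iff]
    filter_upwards [h5.eventually_nhds] with t ht htn
    filter_upwards [ht, isOpen_ne.mem_nhds htn] with s hs hsn
    rw [hs hsn, smul_eq_mul]
  filter_upwards [h4, h2.filter_mono nhdsWithin_le_nhds, self_mem_nhdsWithin,
    hF0.eventually_analyticAt.filter_mono nhdsWithin_le_nhds,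
    (hF0.continuousAt.eventually_ne hF00).filter_mono nhdsWithin_le_nhds] with t h5 h6 h7 h8 h9
  have htn : t - t₁ ≠ 0 := sub_ne_zero.2 h7
  have hd : HasDerivAt M (k * (t - t₁) ^ (k - 1) * F0 t + (t - t₁) ^ k * deriv F0 t) t := by
    have h10 : HasDerivAt (fun s => (s - t₁) ^ k) (k * (t - t₁) ^ (k - 1)) t := by
      have := (hasDerivAt_zpow k (t - t₁) (Or.inl htn)).comp_sub_const t t₁
      exact this
    have h11 := h10.mul h8.differentiableAt.hasDerivAt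
    exact h11.congr_of_eventuallyEq h5
  have h12 : (t - t₁) * (deriv M t / M t) = k + (t - t₁) * (deriv F0 t / F0 t) := by
    rw [hd.deriv, h5.self_of_nhds]
    have h13 : (t - t₁) ^ k ≠ 0 := zpow_ne_zero k htn
    have h14 : (t - t₁) ^ k = (t - t₁) ^ (k - 1) * (t - t₁) := by
      rw [← zpow_add_one₀ htn]; congr 1; ring
    rw [← mul_div_assoc, div_eq_iff (mul_ne_zero h13 h9)]
    field_simp
    rw [h14]
    ring
  rw [h12]
  exact h6.le

end Crest.Agent.R102.EndE348
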