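import Mathlib
import Crest.Agent.R102.EndF_348

/-!
Row 102, Case E (helper348): **the label extends across an isolated point** (entire data).
-/

set_option autoImplicit false

noncomputable section

open Filter Topology Set Metric
open scoped ComplexConjugate

namespace Crest.Agent.R102.EndE348

open Crest.Agent.R102.Rule982 Crest.Agent.R102.BEnd802

lemma mem_SgBig (z : ℂ) : z ∈ Sg (|z.im| + 1) := by
  change |z.im| < |z.im| + 1
  exact lt_add_one _

lemma diff_derivE {f : ℂ → ℂ} (hf : Differentiable ℂ f) : Differentiable ℂ (deriv f) := by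
  have h1 : DifferentiableOn ℂ (deriv f) univ := hf.differentiableOn.deriv isOpen_univ
  exact differentiableOn_univ.1 h1

lemma diff_ZnE {ψ H : ℂ → ℂ} (hψ : Differentiable ℂ ψ) (hH : Differentiable ℂ H) (s : ℂ) :
    Differentiable ℂ (Zn ψ H s) := by
  have h1 := diff_derivE hψ
  have h2 := diff_derivE hH
  unfold Zn
  exact (((hψ.const_mul (s * Complex.I)).cexp).const_mul (s * Complex.I)).mul
    ((hH.mul h1).add (h2.const_mul (s * Complex.I)))

/-- **the label extends across an isolated point** (entire data) -/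
theorem ext_ballE {ψ H : ℂ → ℂ} (hψ : Differentiable ℂ ψ) (hH : Differentiable ℂ H) {c : ℂ}
    (hc : c ≠ 0) (rel : ∀ h, Rel h ψ H c) (hperψ : ∀ z, deriv ψ (z + 1) = deriv ψ z)
    (hconj : ∀ z, ‖deriv ψ (conj z)‖ = ‖deriv ψ z‖) (hnc : ¬ ∀ z w, deriv ψ z = deriv ψ w)
    {t₁ : ℂ} {ε : ℝ} (hε : 0 < ε) {P Q : ℂ → ℂ} (hPm : MeromorphicAt P t₁)
    (hQm : MeromorphicAt Q t₁)
    (hP : ∀ t ∈ ball t₁ ε, t ≠ t₁ → AnalyticAt ℂ P t)
    (hQ : ∀ t ∈ ball t₁ ε, t ≠ t₁ → AnalyticAt ℂ Q t)
    (hP' : ∀ t ∈ ball t₁ ε, t ≠ t₁ → deriv P t ≠ 0)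
    (hQ' : ∀ t ∈ ball t₁ ε, t ≠ t₁ → deriv Q t ≠ 0)
    (hM' : ∀ t ∈ ball t₁ ε, t ≠ t₁ → deriv (fun t => deriv P t / deriv Q t) t ≠ 0)
    {t₀ : ℂ} (ht₀ : t₀ ∈ ball t₁ ε) (ht₀' : t₀ ≠ t₁) {B : ℂ → ℂ} (hB : AnalyticAt ℂ B t₀)
    (hrel : ∀ᶠ t in 𝓝 t₀, P t * deriv ψ (B t) = Zn ψ H 1 (B t) ∧
      Q t * deriv ψ (B t) = Zn ψ H (-1) (B t)) :
    ∃ β : ℂ → ℂ, DifferentiableOn ℂ β (ball t₁ ε) ∧
      (∀ t ∈ ball t₁ ε, t ≠ t₁ → P t * deriv ψ (β t) = Zn ψ H 1 (β t) ∧
        Q t * deriv ψ (β t) = Zn ψ H (-1) (β t)) ∧ ∀ᶠ t in 𝓝 t₀, β t = B t := by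
  have hψo : ∀ h, DifferentiableOn ℂ ψ (Sg h) := fun h => hψ.differentiableOn
  have hHo : ∀ h, DifferentiableOn ℂ H (Sg h) := fun h => hH.differentiableOn
  set Wp : Set ℂ := ball t₁ ε \ {t₁} with hWp
  have hWpo : IsOpen Wp := isOpen_ball.sdiff isClosed_singleton
  have hPW : AnalyticOnNhd ℂ P Wp := fun t ht => hP t ht.1 ht.2
  have hQW : AnalyticOnNhd ℂ Q Wp := fun t ht => hQ t ht.1 ht.2
  have hPd : AnalyticOnNhd ℂ (deriv P) Wp := hPW.deriv
  have hQd : AnalyticOnNhd ℂ (deriv Q) Wp := hQW.deriv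
  have hMa : AnalyticOnNhd ℂ (fun t => deriv P t / deriv Q t) Wp :=
    hPd.div hQd fun t ht => hQ' t ht.1 ht.2
  have hM0 : ∀ t ∈ Wp, deriv P t / deriv Q t ≠ 0 := fun t ht =>
    div_ne_zero (hP' t ht.1 ht.2) (hQ' t ht.1 ht.2)
  have hMd : AnalyticOnNhd ℂ (deriv fun t => deriv P t / deriv Q t) Wp := hMa.deriv
  have hFa : AnalyticOnNhd ℂ (Ff c P Q) Wp := by
    unfold Ff
    exact ((hPd.mul hQd).mul ((hMd.div hMa hM0).pow 4)).div analyticOnNhd_const
      fun t _ => mul_ne_zero (by norm_num) (pow_ne_zero 2 hc)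
  have hF0 : ∀ t ∈ Wp, Ff c P Q t ≠ 0 := by
    intro t ht
    unfold Ff
    exact div_ne_zero (mul_ne_zero (mul_ne_zero (hP' t ht.1 ht.2) (hQ' t ht.1 ht.2))
      (pow_ne_zero 4 (div_ne_zero (hM' t ht.1 ht.2) (hM0 t ht))))
      (mul_ne_zero (by norm_num) (pow_ne_zero 2 hc))
  -- logarithmic coordinate
  set a : ℝ := Real.log ε with ha
  set E : ℂ → ℂ := fun z => t₁ + Complex.exp z with hE
  have hEd : ∀ z, HasDerivAt E (Complex.exp z) z := fun z =>
    (Complex.hasDerivAt_exp z).const_add t₁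
  have hEW : MapsTo E (HPl a) Wp := by
    intro z hz
    refine ⟨?_, ?_⟩
    · rw [mem_ball, dist_eq_norm, hE]
      simp only [add_sub_cancel_left]
      rw [Complex.norm_exp]
      have : z.re < Real.log ε := hz
      exact (Real.lt_log_iff_exp_lt hε).1 this
    · rw [mem_singleton_iff, hE]
      simp only [add_eq_left]
      exact Complex.exp_ne_zero z
  have ho := isOpen_HPl a
  have hEdo : DifferentiableOn ℂ E (HPl a) := fun z _ => (hEd z).differentiableAt.differentiableWithinAt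
  have hmemE : ∀ t ∈ ball t₁ ε, t ≠ t₁ → ∃ z ∈ HPl a, E z = t := by
    intro t ht htn
    refine ⟨Complex.log (t - t₁), ?_, ?_⟩
    · change (Complex.log (t - t₁)).re < a
      rw [Complex.log_re, ha]
      rw [mem_ball, dist_eq_norm] at ht
      exact Real.log_lt_log (norm_pos_iff.2 (sub_ne_zero.2 htn)) ht
    · simp only [hE]
      rw [Complex.exp_log (sub_ne_zero.2 htn)]
      ring
  obtain ⟨z₀, hz₀, hEz₀⟩ := hmemE t₀ ht₀ ht₀'
  have ht₀W : t₀ ∈ Wp := ⟨ht₀, ht₀'⟩
  -- the local identities at the start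
  have hne : ∀ᶠ t in 𝓝 t₀, deriv P t ≠ 0 := by
    filter_upwards [hWpo.mem_nhds ht₀W] with t ht
    exact hP' t ht.1 ht.2
  have hBS : B t₀ ∈ Sg (|(B t₀).im| + 1) := mem_SgBig _
  have hid := (local_id (hψo _) (hHo _) hc (rel _) hB hBS hrel).and
    (local_id2 (hψo _) (hHo _) hc (rel _) hB hBS hrel hne)
  have hEt : Tendsto E (𝓝 z₀) (𝓝 t₀) := by
    have := (hEd z₀).continuousAt.tendsto
    rwa [hEz₀] at this
  have hidz := hEt.eventually hid
  obtain ⟨⟨i1, i2, i3, i4, i5, i6, i7⟩, i8, i9, i10, i11⟩ := hidz.self_of_nhds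
  rw [hEz₀] at i1 i2 i3 i4 i5 i6 i7 i8 i9 i10 i11
  -- the root
  set f : ℂ → ℂ := fun z => Ff c P Q (E z) * Complex.exp (6 * z) with hf
  have hfd : DifferentiableOn ℂ f (HPl a) := by
    refine (hFa.differentiableOn.comp hEdo hEW).mul ?_
    exact (Complex.differentiable_exp.comp (differentiable_id.const_mul 6)).differentiableOn
  have hf0 : ∀ z ∈ HPl a, f z ≠ 0 := fun z hz =>
    mul_ne_zero (hF0 _ (hEW hz)) (Complex.exp_ne_zero _)
  have hexp6 : ∀ z, Complex.exp (6 * z) = Complex.exp z ^ 6 := fun z => by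
    rw [← Complex.exp_nat_mul]; norm_num
  have hv0 : deriv B t₀ * Complex.exp z₀ ≠ 0 := mul_ne_zero i8 (Complex.exp_ne_zero _)
  obtain ⟨L, hLd, hL0, hL⟩ := exists_log hfd hf0 (v := 6 * Complex.log (deriv B t₀ * Complex.exp z₀))
    hz₀ (by
      rw [hexp6, Complex.exp_log hv0]
      simp only [hf]
      rw [hEz₀, i10, hexp6]
      ring)
  set g : ℂ → ℂ := fun z => Complex.exp (L z / 6) with hg
  have hgd : DifferentiableOn ℂ g (HPl a) := (hLd.div_const 6).cexp
  have hg0 : ∀ z ∈ HPl a, g z ≠ 0 := fun z _ => Complex.exp_ne_zero _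
  have hg6 : ∀ z ∈ HPl a, g z ^ 6 = f z := by
    intro z hz
    simp only [hg]
    rw [← Complex.exp_nat_mul, ← hL z hz]
    congr 1
    push_cast
    ring
  have hgz₀ : g z₀ = deriv B t₀ * Complex.exp z₀ := by
    simp only [hg]
    rw [hL0, mul_div_cancel_left₀ _ (by norm_num : (6 : ℂ) ≠ 0), Complex.exp_log hv0]
  have hPE : DifferentiableOn ℂ (fun z => P (E z)) (HPl a) :=
    hPW.differentiableOn.comp hEdo hEW
  have hQE : DifferentiableOn ℂ (fun z => Q (E z)) (HPl a) :=
    hQW.differentiableOn.comp hEdo hEW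
  -- the primitive
  obtain ⟨Bh, hBh0, hBh⟩ := exists_prim hgd hz₀ (B t₀)
  have hBhd : DifferentiableOn ℂ Bh (HPl a) := fun z hz =>
    (hBh z hz).differentiableAt.differentiableWithinAt
  have hBEc : ContinuousAt (fun z => B (E z)) z₀ := by
    have h1 : ContinuousAt B (E z₀) := by rw [hEz₀]; exact hB.continuousAt
    exact ContinuousAt.comp h1 (hEd z₀).continuousAt
  -- `g = (B ∘ E)'` near `z₀`
  have hgE : ∀ᶠ z in 𝓝 z₀, g z = deriv B (E z) * Complex.exp z := by
    refine eventually_eq_of_pow (hgd.differentiableAt (ho.mem_nhds hz₀)).continuousAt ?_ ?_ ?_ ?_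
    · have h1 : ContinuousAt (deriv B) (E z₀) := by rw [hEz₀]; exact hB.deriv.continuousAt
      exact (ContinuousAt.comp h1 (hEd z₀).continuousAt).mul Complex.continuous_exp.continuousAt
    · rw [hgz₀, hEz₀]
    · rw [hEz₀]; exact hv0
    · filter_upwards [ho.mem_nhds hz₀, hidz] with z hz hz'
      rw [hg6 z hz]
      simp only [hf]
      rw [hz'.2.2.2.1, hexp6, mul_pow]
  have hBhE : ∀ᶠ z in 𝓝 z₀, Bh z = B (E z) := by
    obtain ⟨r, hr, hrr⟩ := Metric.eventually_nhds_iff_ball.1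
      ((hgE.and hidz).and (ho.mem_nhds hz₀))
    filter_upwards [ball_mem_nhds z₀ hr] with z hz
    have h3 : ∀ z ∈ ball z₀ r, HasDerivAt (fun z => Bh z - B (E z)) 0 z := by
      intro z hz
      obtain ⟨⟨h4, h5⟩, h6⟩ := hrr z hz
      have h7 := (hBh z h6).sub ((h5.1.2.1.differentiableAt.hasDerivAt).comp z (hEd z))
      rw [h4, sub_self] at h7
      exact h7
    have h5 : Bh z - B (E z) = Bh z₀ - B (E z₀) :=
      const_of_deriv_zero' isOpen_ball (convex_ball z₀ r) h3 hz (mem_ball_self hr)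
    rw [hBh0, hEz₀, sub_self] at h5
    exact sub_eq_zero.1 h5
  -- the relations
  have hNd : ∀ s, DifferentiableOn ℂ (fun z => Zn ψ H s (Bh z)) (HPl a) := fun s =>
    (diff_ZnE hψ hH s).comp_differentiableOn hBhd
  have hψB : DifferentiableOn ℂ (fun z => deriv ψ (Bh z)) (HPl a) :=
    (diff_derivE hψ).comp_differentiableOn hBhd
  have hR1 : ∀ z ∈ HPl a, P (E z) * deriv ψ (Bh z) = Zn ψ H 1 (Bh z) := by
    have h1 := AnalyticOnNhd.eqOn_of_preconnected_of_eventuallyEq (𝕜 := ℂ)
      (f := fun z => P (E z) * deriv ψ (Bh z)) (g := fun z => Zn ψ H 1 (Bh z)) (U := HPl a)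
      ((hPE.mul hψB).analyticOnNhd ho) ((hNd 1).analyticOnNhd ho) (convex_HPl a).isPreconnected hz₀
      (by
        filter_upwards [hBhE, hEt.eventually hrel] with z h1 h2
        rw [h1]
        exact h2.1)
    exact h1
  have hR2 : ∀ z ∈ HPl a, Q (E z) * deriv ψ (Bh z) = Zn ψ H (-1) (Bh z) := by
    have h1 := AnalyticOnNhd.eqOn_of_preconnected_of_eventuallyEq (𝕜 := ℂ)
      (f := fun z => Q (E z) * deriv ψ (Bh z)) (g := fun z => Zn ψ H (-1) (Bh z)) (U := HPl a)
      ((hQE.mul hψB).analyticOnNhd ho) ((hNd (-1)).analyticOnNhd ho)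
      (convex_HPl a).isPreconnected hz₀
      (by
        filter_upwards [hBhE, hEt.eventually hrel] with z h1 h2
        rw [h1]
        exact h2.2)
    exact h1
  -- periodicity
  have hEper : ∀ z, E (z + (2 * Real.pi : ℝ) * Complex.I) = E z := by
    intro z
    simp only [hE]
    congr 1
    have := Complex.exp_periodic z
    push_cast
    exact this
  -- the slope
  have hMB : ∀ z ∈ HPl a, deriv P (E z) / deriv Q (E z) =
      Complex.exp (2 * Complex.I * ψ (Bh z)) := by
    have h1 := AnalyticOnNhd.eqOn_of_preconnected_of_eventuallyEq (𝕜 := ℂ)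
      (f := fun z => deriv P (E z) / deriv Q (E z))
      (g := fun z => Complex.exp (2 * Complex.I * ψ (Bh z))) (U := HPl a)
      ((hMa.differentiableOn.comp hEdo hEW).analyticOnNhd ho)
      ((((hψ.comp_differentiableOn hBhd).const_mul _).cexp).analyticOnNhd ho)
      (convex_HPl a).isPreconnected hz₀
      (by
        filter_upwards [hBhE, hidz] with z h1 h2
        rw [h1]
        exact h2.2.2.1)
    exact h1
  have hslope : ∀ z ∈ HPl a, 2 * Complex.I * (deriv ψ (Bh z) * g z) =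
      deriv (fun t => deriv P t / deriv Q t) (E z) / (deriv P (E z) / deriv Q (E z)) *
        Complex.exp z := by
    intro z hz
    have h1 : HasDerivAt (fun z => deriv P (E z) / deriv Q (E z))
        (deriv (fun t => deriv P t / deriv Q t) (E z) * Complex.exp z) z :=
      ((hMa (E z) (hEW hz)).differentiableAt.hasDerivAt).comp z (hEd z)
    have h2 : HasDerivAt (fun z => Complex.exp (2 * Complex.I * ψ (Bh z)))
        (Complex.exp (2 * Complex.I * ψ (Bh z)) * (2 * Complex.I * (deriv ψ (Bh z) * g z))) z :=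
      ((((hψ (Bh z)).hasDerivAt).comp z (hBh z hz)).const_mul (2 * Complex.I)).cexp
    have h3 : (fun z => deriv P (E z) / deriv Q (E z)) =ᶠ[𝓝 z]
        fun z => Complex.exp (2 * Complex.I * ψ (Bh z)) := by
      filter_upwards [ho.mem_nhds hz] with w hw
      exact hMB w hw
    have h4 := h1.unique (h2.congr_of_eventuallyEq h3)
    rw [← hMB z hz] at h4
    rw [div_mul_eq_mul_div, eq_div_iff (hM0 _ (hEW hz)), h4]
    ring
  -- the exponent
  have hFm : MeromorphicAt (Ff c P Q) t₁ := by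
    have m1 := hPm.deriv
    have m2 := hQm.deriv
    have m3 : MeromorphicAt (fun t => deriv P t / deriv Q t) t₁ := m1.div m2
    have m4 := m3.deriv
    have m5 : MeromorphicAt (fun t => deriv P t * deriv Q t *
        (deriv (fun t => deriv P t / deriv Q t) t / (deriv P t / deriv Q t)) ^ 4 / (16 * c ^ 2))
        t₁ := ((m1.mul m2).mul ((m4.div m3).pow 4)).div (MeromorphicAt.const _ _)
    exact m5
  have hWev : ∀ᶠ t in 𝓝[≠] t₁, t ∈ Wp := by
    rw [eventually_nhdsWithin_iff]
    filter_upwards [ball_mem_nhds t₁ hε] with t ht htn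
    exact ⟨ht, htn⟩
  obtain ⟨n, b₀, G, hb₀, hG, hG0, hgG⟩ := root_form hFm
    (hWev.mono fun t ht => hF0 t ht).frequently hgd hg0 hg6
  have hba₀ : ∀ z ∈ HPl b₀, z ∈ HPl a := fun z hz => lt_of_lt_of_le (show z.re < b₀ from hz) hb₀
  have hn : 0 < n := by
    by_contra hn
    push Not at hn
    obtain ⟨C, hC⟩ := bdd_logder (M := fun t => deriv P t / deriv Q t) (hPm.deriv.div hQm.deriv)
      (hWev.mono fun t ht => hM0 t ht).frequently
    have hC' : ∀ᶠ s in 𝓝 (0 : ℂ), s ≠ 0 → ‖s * (deriv (fun t => deriv P t / deriv Q t) (t₁ + s) /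
        (deriv P (t₁ + s) / deriv Q (t₁ + s)))‖ ≤ C := by
      have h1 := eventually_nhdsWithin_iff.1 hC
      have h2 : Tendsto (fun s : ℂ => t₁ + s) (𝓝 0) (𝓝 t₁) := by
        have : ContinuousAt (fun s : ℂ => t₁ + s) 0 := by fun_prop
        simpa [ContinuousAt] using this
      filter_upwards [h2.eventually h1] with s hs hs0
      have h3 := hs (by simpa using hs0)
      rwa [add_sub_cancel_left] at h3
    have hGn : 0 < ‖G 0‖ := norm_pos_iff.2 hG0
    have hGb : ∀ᶠ s in 𝓝 (0 : ℂ), ‖G 0‖ / 2 < ‖G s‖ :=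
      hG.continuousAt.norm.eventually (lt_mem_nhds (by linarith))
    obtain ⟨b₁, hb₁⟩ := exp_near (hC'.and hGb)
    set b₂ : ℝ := min b₀ (min b₁ 0) with hb₂
    have hC0 : 0 ≤ C := by
      have h1 : ((b₁ - 1 : ℝ) : ℂ).re < b₁ := by rw [Complex.ofReal_re]; linarith
      exact (norm_nonneg _).trans ((hb₁ _ h1).1 (Complex.exp_ne_zero _))
    have hbound : ∀ z ∈ HPl b₂, ‖deriv ψ (Bh z)‖ ≤ C / ‖G 0‖ := by
      intro z hz
      have hzr : z.re < b₂ := hz
      have h1 : z.re < b₀ := lt_of_lt_of_le hzr (min_le_left _ _)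
      have h2 : z.re < b₁ := lt_of_lt_of_le hzr ((min_le_right _ _).trans (min_le_left _ _))
      have h3 : z.re < 0 := lt_of_lt_of_le hzr ((min_le_right _ _).trans (min_le_right _ _))
      have h4 := hslope z (hba₀ z h1)
      obtain ⟨h5, h6⟩ := hb₁ z h2
      have h5 := h5 (Complex.exp_ne_zero _)
      have h7 : ‖(2 : ℂ) * Complex.I * (deriv ψ (Bh z) * g z)‖ ≤ C := by
        rw [h4, mul_comm]; exact h5
      have h8 : ‖G 0‖ / 2 ≤ ‖g z‖ := by
        rw [hgG z h1, norm_mul]
        have h9 : 1 ≤ ‖Complex.exp ((n : ℂ) / 6 * z)‖ := by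
          rw [Complex.norm_exp]
          have h10 : ((n : ℂ) / 6 * z).re = (n : ℝ) / 6 * z.re := by
            have : (n : ℂ) / 6 = (((n : ℝ) / 6 : ℝ) : ℂ) := by push_cast; ring
            rw [this, Complex.re_ofReal_mul]
          rw [h10]
          have h11 : (n : ℝ) ≤ 0 := by exact_mod_cast hn
          have h12 : 0 ≤ (n : ℝ) / 6 * z.re :=
            mul_nonneg_of_nonpos_of_nonpos (by linarith) h3.le
          exact Real.one_le_exp h12
        nlinarith [norm_nonneg (G (Complex.exp z))]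
      rw [norm_mul, norm_mul, norm_mul, Complex.norm_I, Complex.norm_ofNat, mul_one] at h7
      rw [le_div_iff₀ hGn]
      nlinarith [norm_nonneg (deriv ψ (Bh z))]
    apply hnc
    refine const_of_balls (C := C / ‖G 0‖) (diff_derivE hψ) hperψ hconj ?_
    intro R
    have hb₂₀ : ∀ z ∈ HPl b₂, z ∈ HPl b₀ := fun z hz =>
      lt_of_lt_of_le (show z.re < b₂ from hz) (min_le_left _ _)
    obtain ⟨ζ, r, hr1, hr2⟩ := cov (b := b₂) (α := (n : ℝ) / 6) (G := G) (Bh := Bh)
      (by have h11 : (n : ℝ) ≤ 0 := by exact_mod_cast hn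
          linarith) hG.continuousAt hG0 (by
        intro z hz
        have h1 := hBh z (hba₀ z (hb₂₀ z hz))
        rw [hgG z (hb₂₀ z hz)] at h1
        have : ((((n : ℝ) / 6 : ℝ)) : ℂ) = (n : ℂ) / 6 := by push_cast; ring
        rw [this]
        exact h1) R
    refine ⟨Bh ζ, fun z hz => ?_⟩
    obtain ⟨w, hw, rfl⟩ := hr2 hz
    exact hbound w (hr1 hw)
  obtain ⟨m, rfl⟩ := Int.eq_ofNat_of_zero_le hn.le
  have hm : 0 < m := by exact_mod_cast hn
  obtain ⟨d, hdL⟩ := lim_pos (b := b₀) hm hG (Bh := Bh) (by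
    intro z hz
    have h1 := hBh z (hba₀ z hz)
    rw [hgG z hz, Int.cast_natCast] at h1
    exact h1)
  -- `2πi` is a period
  obtain ⟨κ, hκ⟩ := inj_near (hψo _) (hHo _) hc (rel _) (s := 1) (by norm_num) (mem_SgBig d)
  obtain ⟨b, hb⟩ := eventually_LI.1 (hdL.eventually hκ)
  have hper : ∀ z ∈ HPl a, Bh (z + (2 * Real.pi : ℝ) * Complex.I) = Bh z := by
    have h1 : ∀ z : ℂ, z.re < min a b → Bh (z + (2 * Real.pi : ℝ) * Complex.I) = Bh z := by
      intro z hz
      have hza : z ∈ HPl a := lt_of_lt_of_le hz (min_le_left _ _)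
      have hza' := add_mem_HPl hza (2 * Real.pi)
      have hzb : z.re < b := lt_of_lt_of_le hz (min_le_right _ _)
      have hzb' : (z + (2 * Real.pi : ℝ) * Complex.I).re < b := by
        simpa using hzb
      have h2 := hb z hzb _ (hR1 z hza)
      have h3 := hb _ hzb' _ (hR1 _ hza')
      rw [hEper z, h2] at h3
      exact h3.symm
    have hx : ((min a b - 1 : ℝ) : ℂ) ∈ HPl a := by
      change ((min a b - 1 : ℝ) : ℂ).re < a
      rw [Complex.ofReal_re]
      linarith [min_le_left a b]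
    have h2 := AnalyticOnNhd.eqOn_of_preconnected_of_eventuallyEq (𝕜 := ℂ)
      (f := fun z => Bh (z + (2 * Real.pi : ℝ) * Complex.I)) (g := Bh) (U := HPl a)
      (DifferentiableOn.analyticOnNhd (fun z hz =>
        (((hBh _ (add_mem_HPl hz _)).comp_add_const z _).differentiableAt).differentiableWithinAt) ho)
      (hBhd.analyticOnNhd ho)
      (convex_HPl a).isPreconnected hx
      (by
        filter_upwards [(isOpen_HPl (min a b)).mem_nhds (show ((min a b - 1 : ℝ) : ℂ) ∈
          HPl (min a b) by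
            change ((min a b - 1 : ℝ) : ℂ).re < min a b
            rw [Complex.ofReal_re]
            linarith)] with z hz
        exact h1 z hz)
    exact h2
  -- descend to the disc
  classical
  set fx : ℂ → ℂ := fun x => if Complex.I * x ∈ HPl a then Bh (Complex.I * x) else 0 with hfx
  have hmem : ∀ z : ℂ, Complex.I * z ∈ HPl a ↔ -a < z.im := by
    intro z
    change (Complex.I * z).re < a ↔ _
    rw [Complex.mul_re, Complex.I_re, Complex.I_im]
    constructor <;> intro h <;> linarith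
  have hfper : Function.Periodic fx ((2 * Real.pi : ℝ) : ℂ) := by
    intro z
    simp only [hfx]
    have h1 : Complex.I * (z + ((2 * Real.pi : ℝ) : ℂ)) ∈ HPl a ↔ Complex.I * z ∈ HPl a := by
      rw [hmem, hmem]
      simp
    have h3 : Complex.I * (z + ((2 * Real.pi : ℝ) : ℂ)) =
        Complex.I * z + (2 * Real.pi : ℝ) * Complex.I := by ring
    by_cases h2 : Complex.I * z ∈ HPl a
    · rw [if_pos h2, if_pos (h1.2 h2), h3, hper _ h2]
    · rw [if_neg h2, if_neg (fun h => h2 (h1.1 h))]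
  have hop : IsOpen {z : ℂ | -a < z.im} := isOpen_lt continuous_const Complex.continuous_im
  have hfxd : ∀ z : ℂ, -a < z.im → DifferentiableAt ℂ fx z := by
    intro z hz
    have h1 : DifferentiableAt ℂ (fun z => Bh (Complex.I * z)) z := by
      have h2 : DifferentiableAt ℂ Bh (Complex.I * z) :=
        hBhd.differentiableAt (ho.mem_nhds ((hmem z).2 hz))
      exact h2.comp z (by fun_prop)
    refine h1.congr_of_eventuallyEq ?_
    filter_upwards [hop.mem_nhds hz] with w hw
    simp only [hfx]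
    rw [if_pos ((hmem w).2 hw)]
  have hev : ∀ᶠ z in comap Complex.im atTop, -a < z.im := by
    rw [Filter.eventually_comap]
    exact (Filter.eventually_gt_atTop (-a)).mono fun x hx z hz => hz ▸ hx
  have hpi2 : (0 : ℝ) < 2 * Real.pi := by positivity
  have hfxt : Tendsto fx (comap Complex.im atTop) (𝓝 d) := by
    have h1 : Tendsto (fun x : ℂ => Complex.I * x) (comap Complex.im atTop) LI := by
      unfold LI
      rw [Filter.tendsto_comap_iff]
      have h1 : (Complex.re ∘ fun z : ℂ => Complex.I * z) = fun z : ℂ => -z.im := by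
        funext z
        simp [Complex.mul_re]
      rw [h1]
      exact tendsto_neg_atTop_atBot.comp tendsto_comap
    refine (hdL.comp h1).congr' ?_
    filter_upwards [hev] with x hx
    simp only [hfx, Function.comp_apply]
    rw [if_pos ((hmem x).2 hx)]
  have hbd : BoundedAtFilter (comap Complex.im atTop) fx := hfxt.isBigO_one ℝ
  have hhol : ∀ᶠ z in comap Complex.im atTop, DifferentiableAt ℂ fx z := hev.mono hfxd
  set cf := Function.Periodic.cuspFunction (2 * Real.pi) fx with hcf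
  have hq : ∀ z : ℂ, Function.Periodic.qParam (2 * Real.pi) (-Complex.I * z) = Complex.exp z := by
    intro z
    unfold Function.Periodic.qParam
    congr 1
    have : (Real.pi : ℂ) ≠ 0 := by exact_mod_cast Real.pi_ne_zero
    push_cast
    field_simp
    rw [Complex.I_sq]
    ring
  have hcfE : ∀ z ∈ HPl a, cf (Complex.exp z) = Bh z ∧ DifferentiableAt ℂ cf (Complex.exp z) := by
    intro z hz
    have h1 : Complex.I * (-Complex.I * z) = z := by
      rw [← mul_assoc, mul_neg, Complex.I_mul_I]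
      ring
    refine ⟨?_, ?_⟩
    · rw [← hq z, hcf, Function.Periodic.eq_cuspFunction hpi2.ne' hfper]
      simp only [hfx]
      rw [h1, if_pos hz]
    · rw [← hq z, hcf]
      refine Function.Periodic.differentiableAt_cuspFunction hpi2.ne' hfper (hfxd _ ?_)
      rw [← hmem, h1]
      exact hz
  have hβE : ∀ z ∈ HPl a, cf (E z - t₁) = Bh z := by
    intro z hz
    simp only [hE, add_sub_cancel_left]
    exact (hcfE z hz).1
  refine ⟨fun t => cf (t - t₁), ?_, ?_, ?_⟩
  · intro t ht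
    refine DifferentiableAt.differentiableWithinAt ?_
    have h1 : DifferentiableAt ℂ cf (t - t₁) := by
      by_cases htn : t = t₁
      · rw [htn, sub_self]
        exact Function.Periodic.differentiableAt_cuspFunction_zero hpi2 hfper hhol hbd
      · obtain ⟨z, hz, rfl⟩ := hmemE t ht htn
        simp only [hE, add_sub_cancel_left]
        exact (hcfE z hz).2
    exact h1.comp t (by fun_prop)
  · intro t ht htn
    obtain ⟨z, hz, rfl⟩ := hmemE t ht htn
    change P (E z) * deriv ψ (cf (E z - t₁)) = Zn ψ H 1 (cf (E z - t₁)) ∧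
      Q (E z) * deriv ψ (cf (E z - t₁)) = Zn ψ H (-1) (cf (E z - t₁))
    rw [hβE z hz]
    exact ⟨hR1 z hz, hR2 z hz⟩
  · have h1 : map E (𝓝 z₀) = 𝓝 t₀ := by
      have h2 : HasStrictDerivAt E (Complex.exp z₀) z₀ := by
        have h3 : AnalyticAt ℂ E z₀ := by
          simp only [hE]
          fun_prop
        have := h3.hasStrictDerivAt
        rwa [(hEd z₀).deriv] at this
      rw [h2.map_nhds_eq (Complex.exp_ne_zero _), hEz₀]
    rw [← h1, Filter.eventually_map]
    filter_upwards [hBhE, ho.mem_nhds hz₀] with z hz hza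
    rw [hβE z hza, hz]

end Crest.Agent.R102.EndE348
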