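import Mathlib
import Crest.Agent.R102.EndG_348

/-!
Row 102, Case E (helper348): **the label extends to every disc on which the vertex is
meromorphic** (one variable, entire data); twin of `BEndB_802`.
-/

set_option autoImplicit false

noncomputable section

open Filter Topology Set Metric
open scoped ComplexConjugate

namespace Crest.Agent.R102.EndE348

open Crest.Agent.R102.Rule982 Crest.Agent.R102.BEnd802 Crest.Agent.R102.DiscExt802

/-- entire data -/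
structure EData (ψ H : ℂ → ℂ) (c₀ : ℂ) : Prop where
  ψd : Differentiable ℂ ψ
  Hd : Differentiable ℂ H
  hc : c₀ ≠ 0
  rel : ∀ h, Rel h ψ H c₀
  per : ∀ z, deriv ψ (z + 1) = deriv ψ z
  cj : ∀ z, ‖deriv ψ (conj z)‖ = ‖deriv ψ z‖
  nc : ¬ ∀ z w, deriv ψ z = deriv ψ w

lemma EData.ψo {ψ H : ℂ → ℂ} {c₀ : ℂ} (D : EData ψ H c₀) (h : ℝ) : DifferentiableOn ℂ ψ (Sg h) :=
  D.ψd.differentiableOn

lemma EData.Ho {ψ H : ℂ → ℂ} {c₀ : ℂ} (D : EData ψ H c₀) (h : ℝ) : DifferentiableOn ℂ H (Sg h) :=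
  D.Hd.differentiableOn

/-- `B` is an admissible label at `t`: holomorphic, and `γ(B) = (P, Q)` near `t` -/
def AdmE (ψ H P Q B : ℂ → ℂ) (t : ℂ) : Prop :=
  AnalyticAt ℂ B t ∧ ∀ᶠ s in 𝓝[≠] t, P s * deriv ψ (B s) = Zn ψ H 1 (B s) ∧
    Q s * deriv ψ (B s) = Zn ψ H (-1) (B s)

lemma AdmE.adm {ψ H P Q B : ℂ → ℂ} {t : ℂ} (hA : AdmE ψ H P Q B t) :
    Adm (|(B t).im| + 1) ψ H P Q B t := ⟨hA.1, mem_SgBig _, hA.2⟩

lemma AdmE.eventually {ψ H P Q B : ℂ → ℂ} {t : ℂ} (hA : AdmE ψ H P Q B t) :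
    ∀ᶠ s in 𝓝 t, AdmE ψ H P Q B s := by
  filter_upwards [hA.adm.eventually] with s hs
  exact ⟨hs.1, hs.2.2⟩

lemma AdmE.full {ψ H P Q B : ℂ → ℂ} {c₀ : ℂ} (D : EData ψ H c₀) {t : ℂ} (hA : AdmE ψ H P Q B t)
    (hP : AnalyticAt ℂ P t) (hQ : AnalyticAt ℂ Q t) :
    ∀ᶠ s in 𝓝 t, P s * deriv ψ (B s) = Zn ψ H 1 (B s) ∧
      Q s * deriv ψ (B s) = Zn ψ H (-1) (B s) :=
  hA.adm.full (D.ψo _) (D.Ho _) hP hQ

/-- local step -/
lemma stepE {ψ H P Q f : ℂ → ℂ} {c₀ : ℂ} (D : EData ψ H c₀) {x : ℂ} {ε : ℝ} (hε : 0 < ε)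
    (hPm : MeromorphicAt P x) (hQm : MeromorphicAt Q x) (hg : Good P Q x ε) {t₀ : ℂ}
    (ht₀ : t₀ ∈ ball x ε) (hne : t₀ ≠ x) (hA : AdmE ψ H P Q f t₀) :
    ∃ β : ℂ → ℂ, DifferentiableOn ℂ β (ball x ε) ∧ (∀ t ∈ ball x ε, AdmE ψ H P Q β t) ∧
      ∀ᶠ t in 𝓝 t₀, β t = f t := by
  have h0 := hg t₀ ht₀ hne
  obtain ⟨β, b1, b3, b4⟩ := ext_ballE D.ψd D.Hd D.hc D.rel D.per D.cj D.nc hε hPm hQm
    (fun t ht htn => (hg t ht htn).1)
    (fun t ht htn => (hg t ht htn).2.1) (fun t ht htn => (hg t ht htn).2.2.1)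
    (fun t ht htn => (hg t ht htn).2.2.2.1) (fun t ht htn => (hg t ht htn).2.2.2.2) ht₀ hne hA.1
    (hA.full D h0.1 h0.2.1)
  refine ⟨β, b1, fun t ht => ⟨b1.analyticAt (isOpen_ball.mem_nhds ht), ?_⟩, b4⟩
  by_cases htx : t = x
  · rw [htx, eventually_nhdsWithin_iff]
    filter_upwards [ball_mem_nhds x hε] with s hs hsx
    exact b3 s hs hsx
  · refine Filter.Eventually.filter_mono nhdsWithin_le_nhds ?_
    filter_upwards [isOpen_ball.mem_nhds ht, isOpen_ne.mem_nhds htx] with s hs hsx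
    exact b3 s hs hsx

/-- extensions are admissible -/
lemma adm_of_extE {ψ H P Q B : ℂ → ℂ} {c₀ : ℂ} (D : EData ψ H c₀) {c : ℂ} {R : ℝ}
    (hPm : MeromorphicOn P (ball c R)) (hQm : MeromorphicOn Q (ball c R))
    (hgood : ∀ x ∈ ball c R, ∃ ε > 0, ball x ε ⊆ ball c R ∧ Good P Q x ε)
    (hA : AdmE ψ H P Q B c) {r : ℝ} (hr : 0 < r) (hrR : r ≤ R) {f : ℂ → ℂ}
    (hf : DifferentiableOn ℂ f (ball c r)) (hfB : ∀ᶠ t in 𝓝 c, f t = B t) :
    ∀ t ∈ ball c r, AdmE ψ H P Q f t := by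
  set Λ : Set ℂ := {t | ∀ᶠ s in 𝓝 t, AdmE ψ H P Q f s} with hΛ
  have hΛo : IsOpen Λ := isOpen_setOfPred_eventually_nhds
  have hΛm : ∀ t, AdmE ψ H P Q f t → t ∈ Λ := fun t ht => ht.eventually
  have hcr : c ∈ ball c r := mem_ball_self hr
  have start : c ∈ Λ := by
    refine hΛm c ⟨hf.analyticAt (ball_mem_nhds c hr), ?_⟩
    · filter_upwards [hA.2, hfB.filter_mono nhdsWithin_le_nhds] with s h1 h2
      rw [h2]; exact h1
  have key : closure Λ ∩ ball c r ⊆ Λ := by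
    rintro x ⟨hxc, hxr⟩
    have hxR : x ∈ ball c R := ball_subset_ball hrR hxr
    obtain ⟨ε, hε, -, hg⟩ := hgood x hxR
    have hnb : ball x ε ∩ ball c r ∈ 𝓝 x := (isOpen_ball.inter isOpen_ball).mem_nhds
      ⟨mem_ball_self hε, hxr⟩
    obtain ⟨t₀, ht₀, ht₀b⟩ : ∃ t ∈ Λ, t ∈ ball x ε ∩ ball c r :=
      ((mem_closure_iff_frequently.1 hxc).and_eventually hnb).exists
    by_cases htx : t₀ = x
    · rw [← htx]; exact ht₀
    · obtain ⟨β, b1, b2, b3⟩ := stepE D hε (hPm x hxR) (hQm x hxR) hg ht₀b.1 htx ht₀.self_of_nhds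
      have hKo : IsOpen (ball x ε ∩ ball c r) := isOpen_ball.inter isOpen_ball
      have heq := AnalyticOnNhd.eqOn_of_preconnected_of_eventuallyEq (𝕜 := ℂ)
        (f := f) (g := β) (U := ball x ε ∩ ball c r)
        ((hf.mono inter_subset_right).analyticOnNhd hKo)
        ((b1.mono inter_subset_left).analyticOnNhd hKo)
        ((convex_ball _ _).inter (convex_ball _ _)).isPreconnected ht₀b
        (b3.mono fun t ht => ht.symm)
      have hev : ∀ᶠ t in 𝓝 x, f t = β t := by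
        filter_upwards [hnb] with t ht
        exact heq ht
      have hβ := b2 x (mem_ball_self hε)
      refine hΛm x ⟨hf.analyticAt (isOpen_ball.mem_nhds hxr), ?_⟩
      · filter_upwards [hβ.2, hev.filter_mono nhdsWithin_le_nhds] with s h1 h2
        rw [h2]; exact h1
  have hsub : ball c r ⊆ Λ :=
    (convex_ball c r).isPreconnected.subset_of_closure_inter_subset hΛo ⟨c, hcr, start⟩ key
  exact fun t ht => (hsub ht).self_of_nhds

/-- **(DISC)** the label extends to every disc on which the vertex is meromorphic, with values in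
the open strip -/
theorem discE {ψ H P Q B : ℂ → ℂ} {c₀ : ℂ} (D : EData ψ H c₀) {c : ℂ} {R : ℝ} (hR : 0 < R) (hP : MeromorphicOn P (ball c R))
    (hQ : MeromorphicOn Q (ball c R)) (hA : AdmE ψ H P Q B c)
    (hnc : ∃ᶠ t in 𝓝 c, deriv B t ≠ 0) :
    ∃ F : ℂ → ℂ, DifferentiableOn ℂ F (ball c R) ∧ (∀ t ∈ ball c R, AdmE ψ H P Q F t) ∧
      ∀ᶠ t in 𝓝 c, F t = B t := by
  have hgood := good (D.ψo _) (D.Ho _) D.hc (D.rel _) hR hP hQ hA.adm hnc
  obtain ⟨F, hF1, hF2⟩ := disc_ext hR hA.1 (by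
    intro r hr hrR f hf hfB x hx
    have hAf := adm_of_extE D hP hQ hgood hA hr hrR.le hf hfB
    have hxR : x ∈ ball c R := by
      rw [mem_ball, mem_sphere.1 hx]; exact hrR
    obtain ⟨ε, hε, -, hg⟩ := hgood x hxR
    have hxcl : x ∈ closure (ball c r) := by
      rw [closure_ball c hr.ne']
      exact sphere_subset_closedBall hx
    obtain ⟨t₀, ht₀, ht₀b⟩ : ∃ t ∈ ball c r, t ∈ ball x ε :=
      ((mem_closure_iff_frequently.1 hxcl).and_eventually (ball_mem_nhds x hε)).exists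
    have htx : t₀ ≠ x := by
      rintro rfl
      rw [mem_ball, mem_sphere.1 hx] at ht₀
      exact lt_irrefl _ ht₀
    obtain ⟨β, b1, b2, b3⟩ := stepE D hε (hP x hxR) (hQ x hxR) hg ht₀b htx (hAf t₀ ht₀)
    refine ⟨ε, hε, β, b1, ?_⟩
    have hKo : IsOpen (ball x ε ∩ ball c r) := isOpen_ball.inter isOpen_ball
    exact AnalyticOnNhd.eqOn_of_preconnected_of_eventuallyEq (𝕜 := ℂ)
      (f := β) (g := f) (U := ball x ε ∩ ball c r)
      ((b1.mono inter_subset_left).analyticOnNhd hKo)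
      ((hf.mono inter_subset_right).analyticOnNhd hKo)
      ((convex_ball _ _).inter (convex_ball _ _)).isPreconnected ⟨ht₀b, ht₀⟩ b3)
  exact ⟨F, hF1, adm_of_extE D hP hQ hgood hA hR le_rfl hF1 hF2, hF2⟩

end Crest.Agent.R102.EndE348
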