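import Crest.Agent.R102.HartR_948

/-!
Row 102, part (C), leaf T1-A (helper88).

If the first singular line of the curve (`w = 0`) has a regular point, then there are arbitrarily
small irrational `u > 0` such that the first singular line of the leaf `u` has a regular point
(or the leaf is entire).

* `hartogs_at` : Hartogs' lemma at the point `0` from almost every real `u > 0` (one scale only);
* `slice_extend` : extension of the slice `w = 0` to a disc;
* `extS_of_discs`, `extS_sup` : gluing in strips;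
* `t1a` : the result.
-/

set_option autoImplicit false
set_option linter.unusedSectionVars false
set_option linter.unusedVariables false

open Set Filter Topology Metric MeasureTheory
open scoped Real ENNReal

noncomputable section

namespace Crest.Agent.R102.T1A88

open Crest.Agent.R102.M948

/-- **Hartogs' lemma at a point**: analytic `b n` on a disc with `|b n| ≤ K A^n`, and
`|b n u| ≤ K_u B^n` for a.e. real `u > 0`; then `|b n 0| ≤ K'' B'^n` for every `B' > B`. -/
theorem hartogs_at {b : ℕ → ℂ → ℂ} {ρ : ℝ} (hρ : 0 < ρ)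
    (hb : ∀ n, DifferentiableOn ℂ (b n) (ball (0 : ℂ) ρ)) {K A : ℝ} (hA : 0 < A)
    (hbd : ∀ n, ∀ z ∈ ball (0 : ℂ) ρ, ‖b n z‖ ≤ K * A ^ n) {B B' : ℝ}
    (hB : 0 < B) (hBB : B < B')
    (hF : ∀ᵐ u : ℝ, u ∈ Ioo 0 ρ → ∃ K', ∀ n, ‖b n u‖ ≤ K' * B ^ n) :
    ∃ K'', ∀ n, ‖b n 0‖ ≤ K'' * B' ^ n := by
  have hK0 : 0 ≤ K := by
    have := (norm_nonneg _).trans (hbd 0 0 (mem_ball_self hρ))
    simpa using this
  have hB' : 0 < B' := hB.trans hBB
  rcases le_or_gt A B' with hAB | hAB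
  · refine ⟨K, fun n => (hbd n 0 (mem_ball_self hρ)).trans ?_⟩
    gcongr
  have hBA : B < A := hBB.trans hAB
  obtain ⟨q, hq⟩ : ∃ q : ℕ, 24 < (B' / B) ^ q :=
    pow_unbounded_of_one_lt _ ((one_lt_div hB).2 hBB)
  have hq0 : q ≠ 0 := by
    rintro rfl
    norm_num at hq
  set ρ' : ℝ := ρ / 2 with hρ'
  have hρ'0 : 0 < ρ' := by positivity
  obtain ⟨s, hs0, hs1, hs2⟩ : ∃ s : ℝ, 0 < s ∧ 2 * s / ρ' ≤ (B / A) ^ q ∧ s ≤ ρ' / 4 := by
    have hpos : 0 < min (ρ' * (B / A) ^ q / 2) (ρ' / 4) := by positivity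
    refine ⟨min (ρ' * (B / A) ^ q / 2) (ρ' / 4), hpos, ?_, min_le_right _ _⟩
    rw [div_le_iff₀ hρ'0]
    have := min_le_left (ρ' * (B / A) ^ q / 2) (ρ' / 4)
    linarith
  -- the sets `E N`
  set E : ℕ → Set ℝ := fun N => {u | ∀ n, ‖b n u‖ ≤ N * B ^ n} with hE
  have hmono : Monotone (fun N => E N ∩ Icc (s - s) (s + s)) := by
    intro N N' h u hu
    refine ⟨fun n => (hu.1 n).trans ?_, hu.2⟩
    have : (N : ℝ) ≤ N' := by exact_mod_cast h
    gcongr
  have hvol : ENNReal.ofReal s < volume (⋃ N, E N ∩ Icc (s - s) (s + s)) := by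
    have h1 : volume (Ioo 0 (2 * s)) ≤ volume (⋃ N, E N ∩ Icc (s - s) (s + s)) := by
      refine measure_mono_ae ?_
      filter_upwards [hF] with u hu
      intro hu2
      have hu3 : u ∈ Ioo 0 (2 * s) := hu2
      obtain ⟨K', hK'⟩ := hu ⟨hu3.1, by rw [hρ'] at hs2; linarith [hu3.2]⟩
      obtain ⟨N, hN⟩ := exists_nat_ge K'
      refine mem_iUnion.2 ⟨N, fun n => (hK' n).trans ?_, ⟨by linarith [hu3.1], by
        linarith [hu3.2]⟩⟩
      gcongr
    refine lt_of_lt_of_le ?_ h1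
    rw [Real.volume_Ioo]
    exact (ENNReal.ofReal_lt_ofReal_iff (by linarith)).2 (by linarith)
  rw [hmono.measure_iUnion, lt_iSup_iff] at hvol
  obtain ⟨N, hN⟩ := hvol
  have hball : ball ((s : ℝ) : ℂ) ρ' ⊆ ball (0 : ℂ) ρ := by
    refine ball_subset_ball' ?_
    rw [dist_zero_right, Complex.norm_real, Real.norm_eq_abs, abs_of_pos hs0, hρ'] 
    rw [hρ'] at hs2
    linarith
  refine ⟨3 * (B' / B) ^ q * (N + 4 * K), fun n => ?_⟩
  set d : ℕ := n / q + 1 with hd
  have hd1 : n ≤ q * d := by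
    rw [hd, mul_add, mul_one]
    have := Nat.div_add_mod n q
    have h2 := Nat.mod_lt n (Nat.pos_of_ne_zero hq0)
    omega
  have hd2 : q * d ≤ n + q := by
    rw [hd, mul_add, mul_one]
    have := Nat.mul_div_le n q
    omega
  have hmain := small_propagation hρ'0 ((hb n).mono hball) (fun z hz => hbd n z (hball hz)) hs0 hs2
    (E := E N ∩ Icc (s - s) (s + s)) inter_subset_right hN.le (fun x hx => hx.1 n) d (z := 0)
    (by rw [zero_sub, norm_neg, Complex.norm_real, Real.norm_eq_abs, abs_of_pos hs0])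
  have h24 : (24 : ℝ) ^ d ≤ (B' / B) ^ (n + q) := by
    calc (24 : ℝ) ^ d ≤ ((B' / B) ^ q) ^ d := by gcongr
      _ = (B' / B) ^ (q * d) := by rw [← pow_mul]
      _ ≤ (B' / B) ^ (n + q) := pow_le_pow_right₀ ((one_lt_div hB).2 hBB).le hd2
  have hAn : A ^ n * (2 * s / ρ') ^ (d + 1) ≤ B ^ n := by
    have h1 : (2 * s / ρ') ^ (d + 1) ≤ (B / A) ^ n := by
      calc (2 * s / ρ') ^ (d + 1) ≤ ((B / A) ^ q) ^ (d + 1) := by gcongr
        _ = (B / A) ^ (q * (d + 1)) := by rw [← pow_mul]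
        _ ≤ (B / A) ^ n := pow_le_pow_of_le_one (by positivity)
            ((div_lt_one hA).2 hBA).le (by
              calc n ≤ q * d := hd1
                _ ≤ q * (d + 1) := Nat.mul_le_mul_left _ (Nat.le_succ _))
    calc A ^ n * (2 * s / ρ') ^ (d + 1) ≤ A ^ n * (B / A) ^ n := by gcongr
      _ = B ^ n := by rw [← mul_pow]; congr 1; field_simp
  calc ‖b n 0‖ ≤ 3 * 24 ^ d * (N * B ^ n + 4 * (K * A ^ n) * (2 * s / ρ') ^ (d + 1)) := hmain
    _ = 3 * 24 ^ d * (N * B ^ n + 4 * K * (A ^ n * (2 * s / ρ') ^ (d + 1))) := by ring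
    _ ≤ 3 * (B' / B) ^ (n + q) * (N * B ^ n + 4 * K * B ^ n) := by gcongr
    _ = 3 * (B' / B) ^ q * (N + 4 * K) * ((B' / B) ^ n * B ^ n) := by rw [pow_add]; ring
    _ = 3 * (B' / B) ^ q * (N + 4 * K) * B' ^ n := by
        rw [← mul_pow]; congr 2; field_simp

/-- **extension of the slice `w = 0` to a disc** (`f(w,t)`, 948's convention) -/
theorem slice_extend {f : ℂ × ℂ → ℂ} {t0 : ℂ} {r r0 : ℝ} (hr : 0 < r)
    (hr0 : 0 < r0) (hf : DifferentiableOn ℂ f (ball (0 : ℂ) r ×ˢ ball t0 r0)) {R : ℝ}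
    (hF : ∀ᵐ u : ℝ, u ∈ Ioo 0 r → ∃ g : ℂ → ℂ, DifferentiableOn ℂ g (ball t0 R) ∧
      ∀ᶠ t in 𝓝 t0, g t = f (u, t)) {R' : ℝ} (hR'0 : 0 < R') (hR' : R' < R) :
    ∃ g : ℂ → ℂ, DifferentiableOn ℂ g (ball t0 R') ∧ ∀ᶠ t in 𝓝 t0, g t = f (0, t) := by
  have hR : 0 < R := hR'0.trans hR'
  obtain ⟨R2, hR2a, hR2b⟩ := exists_between hR'
  obtain ⟨R1, hR1a, hR1b⟩ := exists_between hR2b
  have hR20 : 0 < R2 := hR'0.trans hR2a
  have hR10 : 0 < R1 := hR20.trans hR1a
  have hcomp : IsCompact (closedBall (0 : ℂ) (r / 2) ×ˢ closedBall t0 (r0 / 2)) :=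
    (isCompact_closedBall _ _).prod (isCompact_closedBall _ _)
  have hsub : closedBall (0 : ℂ) (r / 2) ×ˢ closedBall t0 (r0 / 2) ⊆
      ball (0 : ℂ) r ×ˢ ball t0 r0 :=
    prod_mono (closedBall_subset_ball (by linarith)) (closedBall_subset_ball (by linarith))
  obtain ⟨M, hM⟩ := hcomp.exists_bound_of_continuousOn (hf.mono hsub).continuousOn
  have hball : ball (0 : ℂ) (r / 2) ⊆ ball (0 : ℂ) r := ball_subset_ball (by linarith)
  have hbd : ∀ n, ∀ z ∈ ball (0 : ℂ) (r / 2), ‖coefT f t0 n z‖ ≤ M * (1 / (r0 / 2)) ^ n := by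
    intro n z hz
    have hzc : z ∈ closedBall (0 : ℂ) (r / 2) := ball_subset_closedBall hz
    refine norm_coefT_le (by positivity) ?_ (fun t ht => hM _ ⟨hzc, sphere_subset_closedBall ht⟩) n
    exact ((slice_differentiableOn hf (hball hz)).mono
      (closedBall_subset_ball (by linarith))).diffContOnCl_ball (le_refl _)
  have hFb : ∀ᵐ u : ℝ, u ∈ Ioo 0 (r / 2) → ∃ K', ∀ n, ‖coefT f t0 n u‖ ≤ K' * (1 / R1) ^ n := by
    filter_upwards [hF] with u hu hu2
    obtain ⟨g, hg, hgf⟩ := hu ⟨hu2.1, by linarith [hu2.2]⟩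
    obtain ⟨M', hM'⟩ := (isCompact_closedBall t0 R1).exists_bound_of_continuousOn
      (hg.mono (closedBall_subset_ball hR1b)).continuousOn
    refine ⟨M', fun n => ?_⟩
    have h2 : coefT f t0 n u = coefT (fun p => g p.2) t0 n u := by
      unfold coefT
      congr 1
      have h3 : (fun s => f ((u : ℂ), s)) =ᶠ[𝓝 t0] (fun s => g s) := by
        filter_upwards [hgf] with s hs; exact hs.symm
      exact h3.iteratedDeriv_eq n
    rw [h2]
    exact norm_coefT_le (f := fun p => g p.2) (t0 := t0) (w := (u : ℂ)) (r := R1)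
      (M := M') hR10
      ((hg.mono (closedBall_subset_ball hR1b)).diffContOnCl_ball (le_refl _))
      (fun t ht => hM' t (sphere_subset_closedBall ht)) n
  obtain ⟨K, hK⟩ := hartogs_at (b := fun n => coefT f t0 n) (by positivity : 0 < r / 2)
    (fun n => (differentiableOn_coefT isOpen_ball hr0 hf n).mono hball) (by positivity) hbd
    (by positivity : 0 < 1 / R1) (one_div_lt_one_div_of_lt hR20 hR1a) hFb
  have hK0 : 0 ≤ K := by
    have := (norm_nonneg _).trans (hK 0)
    simpa using this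
  refine ⟨fun t => ∑' n, coefT f t0 n 0 * (t - t0) ^ n, ?_, ?_⟩
  · have hsumm : Summable (fun n : ℕ => K * (R' / R2) ^ n) :=
      (summable_geometric_of_lt_one (by positivity) ((div_lt_one hR20).2 hR2a)).mul_left _
    refine Complex.differentiableOn_tsum_of_summable_norm hsumm (fun n => by fun_prop)
      isOpen_ball (fun n t ht => ?_)
    have h1 := hK n
    have h2 : ‖t - t0‖ ≤ R' := by
      rw [mem_ball, dist_eq_norm] at ht; exact ht.le
    rw [norm_mul, norm_pow]
    calc ‖coefT f t0 n 0‖ * ‖t - t0‖ ^ n ≤ K * (1 / R2) ^ n * R' ^ n := by gcongr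
      _ = K * (R' / R2) ^ n := by rw [mul_assoc, ← mul_pow]; congr 2; ring
  · filter_upwards [ball_mem_nhds t0 hr0] with t ht
    have h1 := Complex.hasSum_taylorSeries_on_ball
      (slice_differentiableOn hf (mem_ball_self hr)) (z := t) ht
    have he : (fun n => coefT f t0 n 0 * (t - t0) ^ n) =
        (fun n : ℕ => (n.factorial : ℂ)⁻¹ • (t - t0) ^ n •
          iteratedDeriv n (fun s => f (0, s)) t0) := by
      ext n
      unfold coefT; simp only [smul_eq_mul]; ring
    show ∑' n, coefT f t0 n 0 * (t - t0) ^ n = f (0, t)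
    rw [he]
    exact h1.tsum_eq

/-! ### strips -/

/-- the open strip `|Im t| < h` -/
def Str (h : ℝ) : Set ℂ := {t | |t.im| < h}

theorem isOpen_Str (h : ℝ) : IsOpen (Str h) :=
  isOpen_lt (continuous_abs.comp Complex.continuous_im) continuous_const

theorem convex_Str (h : ℝ) : Convex ℝ (Str h) := by
  have h1 : Str h = Complex.imLm ⁻¹' (Ioo (-h) h) := by
    ext t
    simp only [Str, mem_ofPred_eq, mem_preimage, mem_Ioo, abs_lt]
    rfl
  rw [h1]
  exact (convex_Ioo (-h) h).linear_preimage _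

theorem real_mem_Str {h : ℝ} (hh : 0 < h) (x : ℝ) : (x : ℂ) ∈ Str h := by
  simp [Str, hh]

theorem Str_mono {h h' : ℝ} (hh : h ≤ h') : Str h ⊆ Str h' := fun t ht => lt_of_lt_of_le ht hh

theorem tendsto_ofReal_ne (x : ℝ) :
    Tendsto (fun y : ℝ => (y : ℂ)) (𝓝[≠] x) (𝓝[≠] (x : ℂ)) := by
  refine tendsto_nhdsWithin_of_tendsto_nhds_of_eventually_within _
    ((Complex.continuous_ofReal.tendsto x).mono_left nhdsWithin_le_nhds) ?_
  filter_upwards [self_mem_nhdsWithin] with y hy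
  simp only [mem_compl_iff, mem_singleton_iff] at hy ⊢
  exact_mod_cast hy

/-- identity theorem from the real line -/
theorem eqOn_of_real {U : Set ℂ} (hU : IsOpen U) (hc : IsPreconnected U) {F G : ℂ → ℂ}
    (hF : DifferentiableOn ℂ F U) (hG : DifferentiableOn ℂ G U) {x : ℝ} (hx : (x : ℂ) ∈ U)
    (hr : ∀ᶠ y : ℝ in 𝓝 x, F y = G y) : EqOn F G U := by
  refine (hF.analyticOnNhd hU).eqOn_of_preconnected_of_frequently_eq (hG.analyticOnNhd hU) hc hx ?_
  have h1 : ∀ᶠ y : ℝ in 𝓝[≠] x, F y = G y := hr.filter_mono nhdsWithin_le_nhds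
  exact (tendsto_ofReal_ne x).frequently h1.frequently

theorem eqOn_Str {h : ℝ} {F G : ℂ → ℂ} (hF : DifferentiableOn ℂ F (Str h))
    (hG : DifferentiableOn ℂ G (Str h)) (hr : ∀ x : ℝ, F x = G x) : EqOn F G (Str h) := by
  rcases le_or_gt h 0 with hh | hh
  · intro t ht
    exact absurd (lt_of_le_of_lt (abs_nonneg _) ht) (not_lt.2 hh)
  · exact eqOn_of_real (isOpen_Str h) (convex_Str h).isPreconnected hF hG (real_mem_Str hh 0)
      (Eventually.of_forall hr)

variable {ι : Type*}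

/-- the family `g i` extends holomorphically from the real line to the strip `|Im t| < h` -/
def ExtS (g : ι → ℂ → ℂ) (h : ℝ) : Prop :=
  ∃ G : ι → ℂ → ℂ, (∀ i, DifferentiableOn ℂ (G i) (Str h)) ∧ ∀ i, ∀ x : ℝ, G i x = g i x

theorem ExtS.mono {g : ι → ℂ → ℂ} {h h' : ℝ} (hh : h ≤ h') (H : ExtS g h') : ExtS g h := by
  obtain ⟨G, h1, h2⟩ := H
  exact ⟨G, fun i => (h1 i).mono (Str_mono hh), h2⟩

/-- gluing of extensions to smaller strips -/
theorem extS_sup {g : ι → ℂ → ℂ} {U : ℝ} (H : ∀ h < U, ExtS g h) : ExtS g U := by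
  choose G hG1 hG2 using H
  -- the height used at `t`
  have hlt : ∀ t ∈ Str U, (|t.im| + U) / 2 < U := by
    intro t ht
    have : |t.im| < U := ht
    linarith
  classical
  refine ⟨fun i t => if ht : (|t.im| + U) / 2 < U then G _ ht i t else g i t, ?_, ?_⟩
  · intro i t1 ht1
    have h1 : |t1.im| < U := ht1
    have hm := hlt t1 ht1
    have hmem : t1 ∈ Str ((|t1.im| + U) / 2) := by
      show |t1.im| < (|t1.im| + U) / 2
      linarith
    have hd : DifferentiableAt ℂ (G _ hm i) t1 :=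
      (hG1 _ hm i).differentiableAt ((isOpen_Str _).mem_nhds hmem)
    refine DifferentiableAt.differentiableWithinAt ?_
    refine hd.congr_of_eventuallyEq ?_
    filter_upwards [(isOpen_Str _).mem_nhds hmem] with t ht
    have ht0 : |t.im| < (|t1.im| + U) / 2 := ht
    have htU : |t.im| < U := by linarith
    have hm' := hlt t htU
    rw [dif_pos hm']
    have hmin : t ∈ Str (min ((|t.im| + U) / 2) ((|t1.im| + U) / 2)) := by
      show |t.im| < min _ _
      rw [lt_min_iff]; constructor <;> linarith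
    exact eqOn_Str ((hG1 _ hm' i).mono (Str_mono (min_le_left _ _)))
      ((hG1 _ hm i).mono (Str_mono (min_le_right _ _))) (fun x => by rw [hG2, hG2]) hmin
  · intro i x
    dsimp only
    split_ifs with h
    · exact hG2 _ h i x
    · rfl

/-- gluing of extensions to discs with real centres -/
theorem extS_of_discs {g : ℂ → ℂ} {h1 R : ℝ} (hh1 : 0 < h1) (hg : DifferentiableOn ℂ g (Str h1))
    (H : ∀ x : ℝ, ∀ R', 0 < R' → R' < R → ∃ k : ℂ → ℂ, DifferentiableOn ℂ k (ball (x : ℂ) R') ∧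
      ∀ᶠ t in 𝓝 (x : ℂ), k t = g t) :
    ∃ G : ℂ → ℂ, DifferentiableOn ℂ G (Str R) ∧ ∀ x : ℝ, G x = g x := by
  rcases le_or_gt R 0 with hR | hR
  · refine ⟨g, fun t ht => absurd (lt_of_le_of_lt (abs_nonneg _) ht) (not_lt.2 hR), fun _ => rfl⟩
  choose k hk1 hk2 using H
  -- `k = g` on the part of the ball in the strip `Str h1`
  have hkg : ∀ (x R' : ℝ) (h0 : 0 < R') (hR' : R' < R), ∀ t ∈ ball (x : ℂ) R' ∩ Str h1,
      k x R' h0 hR' t = g t := by
    intro x R' h0 hR'
    have hc : Convex ℝ (ball (x : ℂ) R' ∩ Str h1) := (convex_ball _ _).inter (convex_Str _)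
    refine eqOn_of_real (isOpen_ball.inter (isOpen_Str _)) hc.isPreconnected
      ((hk1 x R' h0 hR').mono inter_subset_left) (hg.mono inter_subset_right) (x := x)
      ⟨mem_ball_self h0, real_mem_Str hh1 x⟩ ?_
    exact (Complex.continuous_ofReal.tendsto x).eventually (hk2 x R' h0 hR')
  have hlt : ∀ t ∈ Str R, 0 < (|t.im| + R) / 2 ∧ (|t.im| + R) / 2 < R := by
    intro t ht
    have : |t.im| < R := ht
    have := abs_nonneg t.im
    constructor <;> linarith
  have him : ∀ t : ℂ, ‖t - (t.re : ℂ)‖ = |t.im| := by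
    intro t
    have : t - (t.re : ℂ) = (t.im : ℂ) * Complex.I := by
      apply Complex.ext <;> simp
    rw [this, norm_mul, Complex.norm_I, mul_one, Complex.norm_real, Real.norm_eq_abs]
  classical
  refine ⟨fun t => if ht : 0 < (|t.im| + R) / 2 ∧ (|t.im| + R) / 2 < R then
    k t.re _ ht.1 ht.2 t else g t, ?_, ?_⟩
  · intro t1 ht1
    have h1 : |t1.im| < R := ht1
    have hm := hlt t1 ht1
    have hmem : t1 ∈ ball (t1.re : ℂ) ((|t1.im| + R) / 2) := by
      rw [mem_ball, dist_eq_norm, him]; linarith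
    have hd : DifferentiableAt ℂ (k t1.re _ hm.1 hm.2) t1 :=
      (hk1 _ _ hm.1 hm.2).differentiableAt (isOpen_ball.mem_nhds hmem)
    refine DifferentiableAt.differentiableWithinAt ?_
    refine hd.congr_of_eventuallyEq ?_
    filter_upwards [isOpen_ball.mem_nhds hmem, (isOpen_Str R).mem_nhds ht1,
      ball_mem_nhds t1 hm.1] with t ht htR htb
    have htR' : |t.im| < R := htR
    have hm' := hlt t htR
    rw [dif_pos hm']
    set x := t.re with hx
    set x1 := t1.re with hx1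
    have hxx : (x : ℂ) ∈ ball (x1 : ℂ) ((|t1.im| + R) / 2) := by
      rw [mem_ball, dist_eq_norm, ← Complex.ofReal_sub, Complex.norm_real, Real.norm_eq_abs]
      have h2 : |(t - t1).re| ≤ ‖t - t1‖ := Complex.abs_re_le_norm _
      rw [Complex.sub_re] at h2
      rw [mem_ball, dist_eq_norm] at htb
      exact lt_of_le_of_lt h2 htb
    have htx : t ∈ ball (x : ℂ) ((|t.im| + R) / 2) := by
      rw [mem_ball, dist_eq_norm, him]; linarith
    have hc : Convex ℝ (ball (x : ℂ) ((|t.im| + R) / 2) ∩ ball (x1 : ℂ) ((|t1.im| + R) / 2)) :=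
      (convex_ball _ _).inter (convex_ball _ _)
    refine eqOn_of_real (isOpen_ball.inter isOpen_ball) hc.isPreconnected
      ((hk1 x _ hm'.1 hm'.2).mono inter_subset_left)
      ((hk1 x1 _ hm.1 hm.2).mono inter_subset_right) (x := x) ⟨mem_ball_self hm'.1, hxx⟩ ?_
      ⟨htx, ht⟩
    have h3 : ∀ᶠ y : ℝ in 𝓝 x, (y : ℂ) ∈ ball (x : ℂ) ((|t.im| + R) / 2) ∩
        ball (x1 : ℂ) ((|t1.im| + R) / 2) :=
      (Complex.continuous_ofReal.tendsto x).eventually
        ((isOpen_ball.inter isOpen_ball).mem_nhds ⟨mem_ball_self hm'.1, hxx⟩)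
    filter_upwards [h3] with y hy
    rw [hkg x _ hm'.1 hm'.2 y ⟨hy.1, real_mem_Str hh1 y⟩,
      hkg x1 _ hm.1 hm.2 y ⟨hy.2, real_mem_Str hh1 y⟩]
  · intro x
    dsimp only
    split_ifs with h
    · exact hkg _ _ h.1 h.2 x ⟨by simpa using h.1, real_mem_Str hh1 x⟩
    · rfl

/-! ### regular points of the top line -/

/-- the holomorphic family `G` on `Str U` is regular at the boundary point `s` -/
def RegAt (G : ι → ℂ → ℂ) (U : ℝ) (s : ℂ) : Prop :=
  ∃ ε > 0, ∃ F : ι → ℂ → ℂ, (∀ i, DifferentiableOn ℂ (F i) (ball s ε)) ∧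
    ∀ i, ∀ t ∈ ball s ε, |t.im| < U → F i t = G i t

/-- `g` is entire, or its first singular line `|Im t| = U` contains a regular point in the upper
half plane -/
def Good (g : ι → ℂ → ℂ) : Prop :=
  (∀ h, ExtS g h) ∨ ∃ U > 0, (¬ ∃ h > U, ExtS g h) ∧ ∃ G : ι → ℂ → ℂ,
    (∀ i, DifferentiableOn ℂ (G i) (Str U)) ∧ (∀ i, ∀ x : ℝ, G i x = g i x) ∧
    ∃ s : ℂ, s.im = U ∧ RegAt G U s

/-- a leaf which is regular near a gap of the top line of the curve is good, or extends further -/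
theorem good_or_ext {g : ι → ℂ → ℂ} {h0 h1 c : ℝ} {tg : ℂ} (htg : tg.im = h0) (hh1 : 0 < h1)
    (hc : 0 < c) (hhc : h0 - c < h1) {F : ι → ℂ → ℂ}
    (hF : ∀ i, DifferentiableOn ℂ (F i) (Str h1 ∪ ball tg c)) (hFg : ∀ i, ∀ x : ℝ, F i x = g i x)
    (hbad : ¬ Good g) {h' : ℝ} (hh' : h' < h0 + c) : ExtS g h' := by
  by_contra hcon
  apply hbad
  by_cases hall : ∀ h, ExtS g h
  · exact Or.inl hall
  right
  set S : Set ℝ := {h | ExtS g h} with hS
  have hne : h1 ∈ S := ⟨F, fun i => (hF i).mono subset_union_left, hFg⟩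
  have hub : ∀ h ∈ S, h ≤ h' := by
    intro h hh
    by_contra hlt
    push Not at hlt
    exact hcon (ExtS.mono hlt.le hh)
  have hbdd : BddAbove S := ⟨h', hub⟩
  set U : ℝ := sSup S with hU
  have hUh' : U ≤ h' := csSup_le ⟨h1, hne⟩ hub
  have hU1 : h1 ≤ U := le_csSup hbdd hne
  have hUext : ExtS g U := by
    refine extS_sup (fun h hh => ?_)
    obtain ⟨k, hk, hk2⟩ := exists_lt_of_lt_csSup ⟨h1, hne⟩ hh
    exact ExtS.mono hk2.le hk
  obtain ⟨G, hG1, hG2⟩ := hUext
  refine ⟨U, hh1.trans_le hU1, ?_, G, hG1, hG2, ⟨tg.re, U⟩, rfl, ?_⟩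
  · rintro ⟨h, hh, hh2⟩
    exact absurd (le_csSup hbdd hh2) (not_le.2 hh)
  · -- regular at `tg.re + i U`
    have hs : (⟨tg.re, U⟩ : ℂ) ∈ ball tg c := by
      have h2 : (⟨tg.re, U⟩ : ℂ) - tg = ((U - h0 : ℝ) : ℂ) * Complex.I := by
        apply Complex.ext <;> simp [htg]
      rw [mem_ball, dist_eq_norm, h2, norm_mul, Complex.norm_I, mul_one, Complex.norm_real,
        Real.norm_eq_abs, abs_lt]
      constructor <;> linarith
    obtain ⟨ε, hε, hεb⟩ := Metric.isOpen_iff.1 isOpen_ball _ hs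
    refine ⟨ε, hε, F, fun i => (hF i).mono (hεb.trans subset_union_right), ?_⟩
    intro i t ht htU
    -- `F = G` on `Str h1`
    have h3 : EqOn (F i) (G i) (Str h1) :=
      eqOn_Str ((hF i).mono subset_union_left) ((hG1 i).mono (Str_mono hU1))
        (fun x => by rw [hFg, hG2])
    -- a point of `ball tg c ∩ Str h1`
    obtain ⟨m, hm1, hm2⟩ : ∃ m, max (-h1) (h0 - c) < m ∧ m < min h1 (h0 + c) := by
      refine exists_between (max_lt (lt_min (by linarith) (by linarith))
        (lt_min hhc (by linarith)))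
    have hm3 : -h1 < m := (le_max_left _ _).trans_lt hm1
    have hm4 : h0 - c < m := (le_max_right _ _).trans_lt hm1
    have hm5 : m < h1 := hm2.trans_le (min_le_left _ _)
    have hm6 : m < h0 + c := hm2.trans_le (min_le_right _ _)
    have hz1 : (⟨tg.re, m⟩ : ℂ) ∈ Str h1 := by
      show |m| < h1
      exact abs_lt.2 ⟨hm3, hm5⟩
    have hz2 : (⟨tg.re, m⟩ : ℂ) ∈ ball tg c := by
      have h2 : (⟨tg.re, m⟩ : ℂ) - tg = ((m - h0 : ℝ) : ℂ) * Complex.I := by
        apply Complex.ext <;> simp [htg]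
      rw [mem_ball, dist_eq_norm, h2, norm_mul, Complex.norm_I, mul_one, Complex.norm_real,
        Real.norm_eq_abs, abs_lt]
      constructor <;> linarith
    have hW : IsOpen (ball tg c ∩ Str U) := isOpen_ball.inter (isOpen_Str U)
    have hWc : IsPreconnected (ball tg c ∩ Str U) :=
      ((convex_ball _ _).inter (convex_Str _)).isPreconnected
    have hFW : DifferentiableOn ℂ (F i) (ball tg c ∩ Str U) :=
      (hF i).mono (inter_subset_left.trans subset_union_right)
    have hGW : DifferentiableOn ℂ (G i) (ball tg c ∩ Str U) := (hG1 i).mono inter_subset_right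
    refine (hFW.analyticOnNhd hW).eqOn_of_preconnected_of_eventuallyEq (hGW.analyticOnNhd hW) hWc
      ⟨hz2, Str_mono hU1 hz1⟩ ?_ ⟨hεb ht, htU⟩
    filter_upwards [(isOpen_Str h1).mem_nhds hz1] with z hz using h3 hz

/-- **T1-A.** `f i (t, w)` = the family of leaves (e.g. `(φ, p)`), regular on
`(Str h1 ∪ ball tg c) × ball 0 r1` where `tg` is a point of the top line `Im t = h0` of the curve
(`w = 0`).  If `f (·, 0)` does not extend beyond `h0`, then there are arbitrarily small irrational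
`u > 0` with `Good (f (·, u))`. -/
theorem t1a {f F : ι → ℂ × ℂ → ℂ} {h0 h1 c r1 : ℝ} {tg : ℂ} (htg : tg.im = h0)
    (hh1 : 0 < h1) (hc : 0 < c) (hhc : h0 - c < h1) (hr1 : 0 < r1)
    (hF : ∀ i, DifferentiableOn ℂ (F i) ((Str h1 ∪ ball tg c) ×ˢ ball (0 : ℂ) r1))
    (hFf : ∀ i, ∀ x : ℝ, ∀ w ∈ ball (0 : ℂ) r1, F i (x, w) = f i (x, w))
    (hmax : ∀ h > h0, ¬ ExtS (fun i t => f i (t, 0)) h) :
    ∀ δ > 0, ∃ u : ℝ, 0 < u ∧ u < δ ∧ Irrational u ∧ Good (fun i t => f i (t, u)) := by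
  intro δ hδ
  by_contra hcon
  push Not at hcon
  set r : ℝ := min δ r1 with hr
  have hr0 : 0 < r := lt_min hδ hr1
  have hrr1 : r ≤ r1 := min_le_right _ _
  have hrδ : r ≤ δ := min_le_left _ _
  -- every small irrational leaf extends to height `h0 + c/2`
  have hext : ∀ u : ℝ, 0 < u → u < r → Irrational u →
      ExtS (fun i t => f i (t, (u : ℂ))) (h0 + c / 2) := by
    intro u hu0 hur hui
    have humem : (u : ℂ) ∈ ball (0 : ℂ) r1 := by
      rw [mem_ball, dist_zero_right, Complex.norm_real, Real.norm_eq_abs, abs_of_pos hu0]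
      exact hur.trans_le hrr1
    refine good_or_ext htg hh1 hc hhc (F := fun i t => F i (t, u)) (fun i => ?_)
      (fun i x => hFf i x u humem) (hcon u hu0 (hur.trans_le hrδ) hui) (by linarith)
    exact (hF i).comp (by fun_prop : DifferentiableOn ℂ (fun t : ℂ => (t, (u : ℂ))) _)
      (fun t ht => ⟨ht, humem⟩)
  -- the slice `w = 0` extends
  refine hmax (h0 + c / 2) (by linarith) ?_
  have hslice : ∀ i, ∃ G : ℂ → ℂ, DifferentiableOn ℂ G (Str (h0 + c / 2)) ∧
      ∀ x : ℝ, G x = F i (x, 0) := by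
    intro i
    have h00 : (0 : ℂ) ∈ ball (0 : ℂ) r1 := mem_ball_self hr1
    refine extS_of_discs (g := fun t => F i (t, 0)) hh1 ?_ ?_
    · exact (hF i).comp (by fun_prop : DifferentiableOn ℂ (fun t : ℂ => (t, (0 : ℂ))) _)
        (fun t ht => ⟨Or.inl ht, h00⟩)
    · intro x R' hR'0 hR'
      have hball : ball (x : ℂ) h1 ⊆ Str h1 := by
        intro t ht
        have h2 : |(t - (x : ℂ)).im| ≤ ‖t - x‖ := Complex.abs_im_le_norm _
        rw [Complex.sub_im, Complex.ofReal_im, sub_zero] at h2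
        rw [mem_ball, dist_eq_norm] at ht
        exact lt_of_le_of_lt h2 ht
      refine slice_extend (f := fun p => F i (p.2, p.1)) (r := r) (r0 := h1) (R := h0 + c / 2)
        hr0 hh1 ?_ ?_ hR'0 hR'
      · exact (hF i).comp (by fun_prop : DifferentiableOn ℂ (fun p : ℂ × ℂ => (p.2, p.1)) _)
          (fun p hp => ⟨Or.inl (hball hp.2), ball_subset_ball hrr1 hp.1⟩)
      · have hirr : ∀ᵐ u : ℝ, Irrational u := by
          have : (range ((↑) : ℚ → ℝ)).Countable := countable_range _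
          exact this.ae_notMem volume
        filter_upwards [hirr] with u hu hu2
        obtain ⟨G, hG1, hG2⟩ := hext u hu2.1 hu2.2 hu
        have humem : (u : ℂ) ∈ ball (0 : ℂ) r1 := by
          rw [mem_ball, dist_zero_right, Complex.norm_real, Real.norm_eq_abs, abs_of_pos hu2.1]
          exact hu2.2.trans_le hrr1
        refine ⟨G i, (hG1 i).mono ?_, ?_⟩
        · intro t ht
          have h2 : |(t - (x : ℂ)).im| ≤ ‖t - x‖ := Complex.abs_im_le_norm _
          rw [Complex.sub_im, Complex.ofReal_im, sub_zero] at h2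
          rw [mem_ball, dist_eq_norm] at ht
          exact lt_of_le_of_lt h2 ht
        · -- `G = F` near `x`
          have hpos : 0 < h0 + c / 2 := hR'0.trans hR'
          have hmin : 0 < min (h0 + c / 2) h1 := lt_min hpos hh1
          have h3 : EqOn (G i) (fun t => F i (t, u)) (Str (min (h0 + c / 2) h1)) := by
            refine eqOn_Str ((hG1 i).mono (Str_mono (min_le_left _ _))) ?_
              (fun y => by rw [hG2, hFf i y u humem])
            exact (hF i).comp (by fun_prop : DifferentiableOn ℂ (fun t : ℂ => (t, (u : ℂ))) _)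
              (fun t ht => ⟨Or.inl (Str_mono (min_le_right _ _) ht), humem⟩)
          filter_upwards [(isOpen_Str _).mem_nhds (real_mem_Str hmin x)] with t ht
          exact h3 ht
  choose G hG1 hG2 using hslice
  exact ⟨G, hG1, fun i x => by rw [hG2, hFf i x 0 (mem_ball_self hr1)]⟩

end Crest.Agent.R102.T1A88
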