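import Mathlib
import Crest.Agent.R102.T1A_88

/-!
Row 102, Case E (helper348): **Hartogs' lemma on a full neighbourhood of a point** and the joint
extension theorem (method of 948 / 88).

* `hartogs_ball` : analytic `b n` on a disc with `|b n| ≤ K A^n`, `|b n u| ≤ K_u B^n` for a.e. real
  `u` near `0`; then `|b n z| ≤ K'' B'^n` for all `z` near `0`;
* `joint_ball` : joint extension of `f (w, t)` to `ball 0 s × ball t0 R'` when the slices `w = u`
  (`u` real, a.e.) extend to `ball t0 R`.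
-/

set_option autoImplicit false

open Set Filter Topology Metric MeasureTheory
open scoped Real ENNReal

noncomputable section

namespace Crest.Agent.R102.EndI348

open Crest.Agent.R102.M948

theorem hartogs_ball {b : ℕ → ℂ → ℂ} {ρ : ℝ} (hρ : 0 < ρ)
    (hb : ∀ n, DifferentiableOn ℂ (b n) (ball (0 : ℂ) ρ)) {K A : ℝ} (hA : 0 < A)
    (hbd : ∀ n, ∀ z ∈ ball (0 : ℂ) ρ, ‖b n z‖ ≤ K * A ^ n) {B B' : ℝ}
    (hB : 0 < B) (hBB : B < B')
    (hF : ∀ᵐ u : ℝ, u ∈ Ioo (-ρ) ρ → ∃ K', ∀ n, ‖b n u‖ ≤ K' * B ^ n) :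
    ∃ s > 0, s ≤ ρ ∧ ∃ K'', ∀ n, ∀ z ∈ ball (0 : ℂ) s, ‖b n z‖ ≤ K'' * B' ^ n := by
  have hK0 : 0 ≤ K := by
    have := (norm_nonneg _).trans (hbd 0 0 (mem_ball_self hρ))
    simpa using this
  have hB' : 0 < B' := hB.trans hBB
  rcases le_or_gt A B' with hAB | hAB
  · refine ⟨ρ, hρ, le_rfl, K, fun n z hz => (hbd n z hz).trans ?_⟩
    gcongr
  have hBA : B < A := hBB.trans hAB
  obtain ⟨q, hq⟩ : ∃ q : ℕ, 24 < (B' / B) ^ q :=
    pow_unbounded_of_one_lt _ ((one_lt_div hB).2 hBB)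
  have hq0 : q ≠ 0 := by
    rintro rfl
    norm_num at hq
  obtain ⟨s, hs0, hs1, hs2⟩ : ∃ s : ℝ, 0 < s ∧ 2 * s / ρ ≤ (B / A) ^ q ∧ s ≤ ρ / 4 := by
    have hpos : 0 < min (ρ * (B / A) ^ q / 2) (ρ / 4) := by positivity
    refine ⟨min (ρ * (B / A) ^ q / 2) (ρ / 4), hpos, ?_, min_le_right _ _⟩
    rw [div_le_iff₀ hρ]
    have := min_le_left (ρ * (B / A) ^ q / 2) (ρ / 4)
    linarith
  -- the sets `E N`
  set E : ℕ → Set ℝ := fun N => {u | ∀ n, ‖b n u‖ ≤ N * B ^ n} with hE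
  have hmono : Monotone (fun N => E N ∩ Icc (0 - s) (0 + s)) := by
    intro N N' h u hu
    refine ⟨fun n => (hu.1 n).trans ?_, hu.2⟩
    have : (N : ℝ) ≤ N' := by exact_mod_cast h
    gcongr
  have hvol : ENNReal.ofReal s < volume (⋃ N, E N ∩ Icc (0 - s) (0 + s)) := by
    have h1 : volume (Ioo (-s) s) ≤ volume (⋃ N, E N ∩ Icc (0 - s) (0 + s)) := by
      refine measure_mono_ae ?_
      filter_upwards [hF] with u hu
      intro hu2
      have hu3 : u ∈ Ioo (-s) s := hu2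
      obtain ⟨K', hK'⟩ := hu ⟨by linarith [hu3.1], by linarith [hu3.2]⟩
      obtain ⟨N, hN⟩ := exists_nat_ge K'
      refine mem_iUnion.2 ⟨N, fun n => (hK' n).trans ?_, ⟨by linarith [hu3.1], by
        linarith [hu3.2]⟩⟩
      gcongr
    refine lt_of_lt_of_le ?_ h1
    rw [Real.volume_Ioo]
    exact (ENNReal.ofReal_lt_ofReal_iff (by linarith)).2 (by linarith)
  rw [hmono.measure_iUnion, lt_iSup_iff] at hvol
  obtain ⟨N, hN⟩ := hvol
  have hball : ball ((0 : ℝ) : ℂ) ρ ⊆ ball (0 : ℂ) ρ := by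
    rw [Complex.ofReal_zero]
  refine ⟨s, hs0, by linarith, 3 * (B' / B) ^ q * (N + 4 * K), fun n z hz => ?_⟩
  set d : ℕ := n / q + 1 with hd
  have hd1 : n ≤ q * d := by
    rw [hd, mul_add, mul_one]
    have := Nat.div_add_mod n q
    have h2 := Nat.mod_lt n (Nat.pos_of_ne_zero hq0)
    omega
  have hd2 : q * d ≤ n + q := by
    rw [hd, mul_add, mul_one]
    have := Nat.mul_div_le n q
    omega
  have hmain := small_propagation hρ ((hb n).mono hball) (fun z hz => hbd n z (hball hz)) hs0 hs2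
    (E := E N ∩ Icc (0 - s) (0 + s)) inter_subset_right hN.le (fun x hx => hx.1 n) d (z := z)
    (by rw [Complex.ofReal_zero, sub_zero]; exact (mem_ball_zero_iff.1 hz).le)
  have h24 : (24 : ℝ) ^ d ≤ (B' / B) ^ (n + q) := by
    calc (24 : ℝ) ^ d ≤ ((B' / B) ^ q) ^ d := by gcongr
      _ = (B' / B) ^ (q * d) := by rw [← pow_mul]
      _ ≤ (B' / B) ^ (n + q) := pow_le_pow_right₀ ((one_lt_div hB).2 hBB).le hd2
  have hAn : A ^ n * (2 * s / ρ) ^ (d + 1) ≤ B ^ n := by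
    have h1 : (2 * s / ρ) ^ (d + 1) ≤ (B / A) ^ n := by
      calc (2 * s / ρ) ^ (d + 1) ≤ ((B / A) ^ q) ^ (d + 1) := by gcongr
        _ = (B / A) ^ (q * (d + 1)) := by rw [← pow_mul]
        _ ≤ (B / A) ^ n := pow_le_pow_of_le_one (by positivity)
            ((div_lt_one hA).2 hBA).le (by
              calc n ≤ q * d := hd1
                _ ≤ q * (d + 1) := Nat.mul_le_mul_left _ (Nat.le_succ _))
    calc A ^ n * (2 * s / ρ) ^ (d + 1) ≤ A ^ n * (B / A) ^ n := by gcongr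
      _ = B ^ n := by rw [← mul_pow]; congr 1; field_simp
  calc ‖b n z‖ ≤ 3 * 24 ^ d * (N * B ^ n + 4 * (K * A ^ n) * (2 * s / ρ) ^ (d + 1)) := hmain
    _ = 3 * 24 ^ d * (N * B ^ n + 4 * K * (A ^ n * (2 * s / ρ) ^ (d + 1))) := by ring
    _ ≤ 3 * (B' / B) ^ (n + q) * (N * B ^ n + 4 * K * B ^ n) := by gcongr
    _ = 3 * (B' / B) ^ q * (N + 4 * K) * ((B' / B) ^ n * B ^ n) := by rw [pow_add]; ring
    _ = 3 * (B' / B) ^ q * (N + 4 * K) * B' ^ n := by
        rw [← mul_pow]; congr 2; field_simp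

/-- **joint extension on a full neighbourhood of the slice `w = 0`** (`f(w,t)`) -/
theorem joint_ball {f : ℂ × ℂ → ℂ} {t0 : ℂ} {r r0 : ℝ} (hr : 0 < r)
    (hr0 : 0 < r0) (hf : DifferentiableOn ℂ f (ball (0 : ℂ) r ×ˢ ball t0 r0)) {R : ℝ}
    (hF : ∀ᵐ u : ℝ, u ∈ Ioo (-r) r → ∃ g : ℂ → ℂ, DifferentiableOn ℂ g (ball t0 R) ∧
      ∀ᶠ t in 𝓝 t0, g t = f (u, t)) {R' : ℝ} (hR'0 : 0 < R') (hR' : R' < R) :
    ∃ s > 0, s ≤ r ∧ ∃ G : ℂ × ℂ → ℂ, DifferentiableOn ℂ G (ball (0 : ℂ) s ×ˢ ball t0 R') ∧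
      ∀ w ∈ ball (0 : ℂ) s, ∀ t ∈ ball t0 r0, G (w, t) = f (w, t) := by
  have hR : 0 < R := hR'0.trans hR'
  obtain ⟨R2, hR2a, hR2b⟩ := exists_between hR'
  obtain ⟨R1, hR1a, hR1b⟩ := exists_between hR2b
  have hR20 : 0 < R2 := hR'0.trans hR2a
  have hR10 : 0 < R1 := hR20.trans hR1a
  have hcomp : IsCompact (closedBall (0 : ℂ) (r / 2) ×ˢ closedBall t0 (r0 / 2)) :=
    (isCompact_closedBall _ _).prod (isCompact_closedBall _ _)
  have hsub : closedBall (0 : ℂ) (r / 2) ×ˢ closedBall t0 (r0 / 2) ⊆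
      ball (0 : ℂ) r ×ˢ ball t0 r0 :=
    prod_mono (closedBall_subset_ball (by linarith)) (closedBall_subset_ball (by linarith))
  obtain ⟨M, hM⟩ := hcomp.exists_bound_of_continuousOn (hf.mono hsub).continuousOn
  have hball : ball (0 : ℂ) (r / 2) ⊆ ball (0 : ℂ) r := ball_subset_ball (by linarith)
  have hbd : ∀ n, ∀ z ∈ ball (0 : ℂ) (r / 2), ‖coefT f t0 n z‖ ≤ M * (1 / (r0 / 2)) ^ n := by
    intro n z hz
    have hzc : z ∈ closedBall (0 : ℂ) (r / 2) := ball_subset_closedBall hz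
    refine norm_coefT_le (by positivity) ?_ (fun t ht => hM _ ⟨hzc, sphere_subset_closedBall ht⟩) n
    exact ((slice_differentiableOn hf (hball hz)).mono
      (closedBall_subset_ball (by linarith))).diffContOnCl_ball (le_refl _)
  have hFb : ∀ᵐ u : ℝ, u ∈ Ioo (-(r / 2)) (r / 2) →
      ∃ K', ∀ n, ‖coefT f t0 n u‖ ≤ K' * (1 / R1) ^ n := by
    filter_upwards [hF] with u hu hu2
    obtain ⟨g, hg, hgf⟩ := hu ⟨by linarith [hu2.1], by linarith [hu2.2]⟩
    obtain ⟨M', hM'⟩ := (isCompact_closedBall t0 R1).exists_bound_of_continuousOn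
      (hg.mono (closedBall_subset_ball hR1b)).continuousOn
    refine ⟨M', fun n => ?_⟩
    have h2 : coefT f t0 n u = coefT (fun p => g p.2) t0 n u := by
      unfold coefT
      congr 1
      have h3 : (fun s => f ((u : ℂ), s)) =ᶠ[𝓝 t0] (fun s => g s) := by
        filter_upwards [hgf] with s hs; exact hs.symm
      exact h3.iteratedDeriv_eq n
    rw [h2]
    exact norm_coefT_le (f := fun p => g p.2) (t0 := t0) (w := (u : ℂ)) (r := R1)
      (M := M') hR10
      ((hg.mono (closedBall_subset_ball hR1b)).diffContOnCl_ball (le_refl _))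
      (fun t ht => hM' t (sphere_subset_closedBall ht)) n
  obtain ⟨s, hs, hsr, K, hK⟩ := hartogs_ball (b := fun n => coefT f t0 n)
    (by positivity : 0 < r / 2)
    (fun n => (differentiableOn_coefT isOpen_ball hr0 hf n).mono hball) (by positivity) hbd
    (by positivity : 0 < 1 / R1) (one_div_lt_one_div_of_lt hR20 hR1a) hFb
  have hsW : ball (0 : ℂ) s ⊆ ball (0 : ℂ) r := ball_subset_ball (by linarith)
  have hK0 : 0 ≤ K := by
    have := (norm_nonneg _).trans (hK 0 0 (mem_ball_self hs))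
    simpa using this
  refine ⟨s, hs, by linarith, fun p => ∑' n, coefT f t0 n p.1 * (p.2 - t0) ^ n, ?_, ?_⟩
  · have hopen : IsOpen (ball (0 : ℂ) s ×ˢ ball t0 R') := isOpen_ball.prod isOpen_ball
    have hsumm : Summable (fun n : ℕ => K * (R' / R2) ^ n) :=
      (summable_geometric_of_lt_one (by positivity) ((div_lt_one hR20).2 hR2a)).mul_left _
    have hbd' : ∀ n : ℕ, ∀ p ∈ ball (0 : ℂ) s ×ˢ ball t0 R',
        ‖coefT f t0 n p.1 * (p.2 - t0) ^ n‖ ≤ K * (R' / R2) ^ n := by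
      intro n p hp
      have h1 := hK n p.1 hp.1
      have h2 : ‖p.2 - t0‖ ≤ R' := by
        have := hp.2; rw [mem_ball, dist_eq_norm] at this; exact this.le
      rw [norm_mul, norm_pow]
      calc ‖coefT f t0 n p.1‖ * ‖p.2 - t0‖ ^ n ≤ K * (1 / R2) ^ n * R' ^ n := by gcongr
        _ = K * (R' / R2) ^ n := by rw [mul_assoc, ← mul_pow]; congr 2; ring
    refine (Crest.Agent.R266.SCV.analyticOnNhd_of_tendstoLocallyUniformlyOn hopen
      (tendstoUniformlyOn_tsum_nat hsumm hbd').tendstoLocallyUniformlyOn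
      (Eventually.of_forall (fun N => ?_))).differentiableOn
    refine DifferentiableOn.fun_sum (fun n _ => ?_)
    refine DifferentiableOn.mul ?_ (by fun_prop)
    exact ((differentiableOn_coefT isOpen_ball hr0 hf n).mono hsW).comp
      (differentiable_fst.differentiableOn) (fun p hp => hp.1)
  · intro w hw t ht
    have h1 := Complex.hasSum_taylorSeries_on_ball (slice_differentiableOn hf (hsW hw))
      (z := t) ht
    have he : (fun n => coefT f t0 n w * (t - t0) ^ n) =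
        (fun n : ℕ => (n.factorial : ℂ)⁻¹ • (t - t0) ^ n •
          iteratedDeriv n (fun s => f (w, s)) t0) := by
      ext n
      unfold coefT; simp only [smul_eq_mul]; ring
    show ∑' n, coefT f t0 n w * (t - t0) ^ n = f (w, t)
    rw [he]
    exact h1.tsum_eq

end Crest.Agent.R102.EndI348
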