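import Mathlib
import Crest.Agent.R102.EndH_348
import Crest.Agent.R102.EndI_348
import Crest.Agent.R102.JX_802
import Crest.Agent.R102.Slice_802

/-!
Row 102, Case E (helper348): **`JX univ`** at every leaf `w0` (joint extension of the label, entire
data): slices `w ≠ w0` by `discE`, then Hartogs (`joint_ball`).
-/

set_option autoImplicit false

noncomputable section

open Filter Topology Set Metric MeasureTheory
open scoped ComplexConjugate

namespace Crest.Agent.R102.EndE348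

open Crest.Agent.R102.Rule982 Crest.Agent.R102.BEnd802 Crest.Agent.R102.Mer88
open Crest.Agent.R102.Slice802 Crest.Agent.R102.EndI348

theorem jx_univ {θ H : ℂ → ℂ} {c₀ : ℂ} (D : EData θ H c₀) (w0 : ℂ) : JX univ θ H w0 := by
  intro c r R R' δ B P Q hr hrR' hR'R hδ hB _ hnc hmer hrep
  have hR'0 : 0 < R' := hr.trans hrR'
  obtain ⟨R1, hR1a, hR1b⟩ := exists_between hR'R
  have hR10 : 0 < R1 := hR'0.trans hR1a
  have hw0 : w0 ∈ ball w0 δ := mem_ball_self hδ
  have hKsub : ∀ t ∈ closedBall c R1, t ∈ ball c R := fun t ht => closedBall_subset_ball hR1b ht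
  obtain ⟨ρ1, hρ1, hP1⟩ := mero_slices_compact (f := P) (w0 := w0) (isCompact_closedBall c R1)
    (fun t ht => (hmer (t, w0) ⟨hKsub t ht, hw0⟩).1)
  obtain ⟨ρ2, hρ2, hQ1⟩ := mero_slices_compact (f := Q) (w0 := w0) (isCompact_closedBall c R1)
    (fun t ht => (hmer (t, w0) ⟨hKsub t ht, hw0⟩).2)
  have hcr : c ∈ ball c r := mem_ball_self hr
  obtain ⟨ρ3, hρ3, hr3⟩ := rep_slices (hrep (c, w0) ⟨hcr, hw0⟩).1
  obtain ⟨ρ4, hρ4, hr4⟩ := rep_slices (hrep (c, w0) ⟨hcr, hw0⟩).2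
  set ρ : ℝ := min δ (min (min ρ1 ρ2) (min ρ3 ρ4)) with hρd
  have hρ : 0 < ρ := lt_min hδ (lt_min (lt_min hρ1 hρ2) (lt_min hρ3 hρ4))
  have q0 : ρ ≤ δ := min_le_left _ _
  have q1 : ρ ≤ ρ1 := (min_le_right _ _).trans ((min_le_left _ _).trans (min_le_left _ _))
  have q2 : ρ ≤ ρ2 := (min_le_right _ _).trans ((min_le_left _ _).trans (min_le_right _ _))
  have q3 : ρ ≤ ρ3 := (min_le_right _ _).trans ((min_le_right _ _).trans (min_le_left _ _))
  have q4 : ρ ≤ ρ4 := (min_le_right _ _).trans ((min_le_right _ _).trans (min_le_right _ _))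
  -- the slices
  have hslice : ∀ w ∈ ball w0 ρ, w ≠ w0 → ∃ g : ℂ → ℂ, DifferentiableOn ℂ g (ball c R1) ∧
      ∀ᶠ t in 𝓝 c, g t = B (t, w) := by
    intro w hw hwn
    have hwδ : w ∈ ball w0 δ := ball_subset_ball q0 hw
    have hBw : DifferentiableOn ℂ (fun t => B (t, w)) (ball c r) :=
      hB.comp (by fun_prop : DifferentiableOn ℂ (fun t : ℂ => (t, w)) (ball c r))
        (fun t ht => ⟨ht, hwδ⟩)
    have hBa : AnalyticOnNhd ℂ (fun t => B (t, w)) (ball c r) := hBw.analyticOnNhd isOpen_ball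
    have hA : AdmE θ H (fun t => P (t, w)) (fun t => Q (t, w)) (fun t => B (t, w)) c := by
      refine ⟨hBa c hcr, ?_⟩
      filter_upwards [hr3 w (ball_subset_ball q3 hw) hwn c (mem_ball_self hρ3),
        hr4 w (ball_subset_ball q4 hw) hwn c (mem_ball_self hρ4)] with s h1 h2
      exact ⟨by rw [mul_comm]; exact h1, by rw [mul_comm]; exact h2⟩
    have hfr : ∃ᶠ t in 𝓝 c, deriv (fun t => B (t, w)) t ≠ 0 := by
      intro hcon
      obtain ⟨t, ht, ht0⟩ := hnc w hwδ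
      have h1 : deriv (fun t => B (t, w)) =ᶠ[𝓝 c] 0 := by
        filter_upwards [hcon] with s hs
        exact not_not.1 hs
      exact ht0 (hBa.deriv.eqOn_zero_of_preconnected_of_eventuallyEq_zero
        (convex_ball c r).isPreconnected hcr h1 ht)
    obtain ⟨F, hF1, -, hF2⟩ := discE D hR10
      (fun t ht => hP1 w (ball_subset_ball q1 hw) hwn t (ball_subset_closedBall ht))
      (fun t ht => hQ1 w (ball_subset_ball q2 hw) hwn t (ball_subset_closedBall ht)) hA hfr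
    exact ⟨F, hF1, hF2⟩
  -- Hartogs
  have hmap : ∀ w ∈ ball (0 : ℂ) ρ, w0 + w ∈ ball w0 ρ := by
    intro w hw
    rw [mem_ball, dist_eq_norm, add_sub_cancel_left]
    exact mem_ball_zero_iff.1 hw
  have hf : DifferentiableOn ℂ (fun p : ℂ × ℂ => B (p.2, w0 + p.1))
      (ball (0 : ℂ) ρ ×ˢ ball c r) := by
    refine hB.comp (by fun_prop : DifferentiableOn ℂ (fun p : ℂ × ℂ => (p.2, w0 + p.1)) _) ?_
    intro p hp
    exact ⟨hp.2, ball_subset_ball q0 (hmap p.1 hp.1)⟩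
  have hF : ∀ᵐ u : ℝ, u ∈ Ioo (-ρ) ρ → ∃ g : ℂ → ℂ, DifferentiableOn ℂ g (ball c R1) ∧
      ∀ᶠ t in 𝓝 c, g t = (fun p : ℂ × ℂ => B (p.2, w0 + p.1)) (u, t) := by
    have h0 : ∀ᵐ u : ℝ, u ≠ 0 := Measure.ae_ne volume 0
    filter_upwards [h0] with u hu hu2
    have h1 : (u : ℂ) ∈ ball (0 : ℂ) ρ := by
      rw [mem_ball_zero_iff, Complex.norm_real, Real.norm_eq_abs, abs_lt]
      exact hu2
    have h2 : w0 + (u : ℂ) ≠ w0 := by
      intro h
      have : (u : ℂ) = 0 := by simpa using h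
      exact hu (by exact_mod_cast this)
    exact hslice _ (hmap _ h1) h2
  obtain ⟨s, hs, hsρ, G, hG1, hG2⟩ := joint_ball hρ hr hf hF hR'0 hR1a
  refine ⟨s, hs, hsρ.trans q0, fun x => G (x.2 - w0, x.1), ?_, fun _ _ => mem_univ _, ?_⟩
  · refine hG1.comp (by fun_prop : DifferentiableOn ℂ (fun x : ℂ × ℂ => (x.2 - w0, x.1)) _) ?_
    intro x hx
    refine ⟨?_, hx.1⟩
    have := hx.2
    rw [mem_ball, dist_eq_norm] at this
    exact mem_ball_zero_iff.2 this
  · intro x hx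
    have h1 : x.2 - w0 ∈ ball (0 : ℂ) s := by
      have := hx.2
      rw [mem_ball, dist_eq_norm] at this
      exact mem_ball_zero_iff.2 this
    have h2 := hG2 _ h1 x.1 hx.1
    change G (x.2 - w0, x.1) = B x
    rw [h2]
    change B (x.1, w0 + (x.2 - w0)) = B x
    congr 1
    ext <;> simp

end Crest.Agent.R102.EndE348
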