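import Mathlib
import Crest.Agent.R102.EndJ_348
import Crest.Agent.R102.Mir_151

/-!
Row 102, Case E (helper348): the data of Case E satisfy `EData`; hence `JX univ` at every leaf.
-/

set_option autoImplicit false

noncomputable section

open Filter Topology Set Metric
open scoped ComplexConjugate

namespace Crest.Agent.R102.EndE348

open Crest.Agent.R102.Rule982 Crest.Agent.R102.BEnd802
open Crest.Agent.R102.T5 Crest.Agent.R102.G576 Crest.Agent.R102.A929 Crest.Agent.R102.B821
open Crest.Agent.R102.C0 Crest.Agent.R102.C1 Crest.Agent.R102.Spine Crest.Agent.R102.Mir151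

/-- the data of Case E -/
theorem edata {q : C(ℂ, ℂ)} {η : ℝ} {θ H : ℂ → ℂ} (hD : Datum q η) (hE : VExt q η univ θ H)
    (hc : ¬ Concl q) : EData θ H (-1) := by
  obtain ⟨K, G, M⟩ := mirE hD hE hc
  have hθ : Differentiable ℂ θ := differentiableOn_univ.1 hE.θ_diff
  have hH : Differentiable ℂ H := differentiableOn_univ.1 hE.H_diff
  refine ⟨hθ, hH, by norm_num, ?_, M.yper, ?_, ?_⟩
  · intro h z _
    exact (ZeroY478.zeroY q η univ θ H hD hE).1 z (mem_univ z)
  · intro z
    rw [M.yconj, Complex.norm_conj]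
  · intro hcon
    apply M.K_nc
    have h0 : deriv θ ((0 : ℝ) : ℂ) ≠ 0 := by
      intro h1
      have h2 := (M.y_pos 0).1
      rw [h1] at h2
      exact lt_irrefl _ h2
    have h1 : deriv θ = fun _ => deriv θ ((0 : ℝ) : ℂ) := funext fun z => hcon z _
    have h2 : deriv (deriv θ) = fun _ => 0 := by
      rw [h1]; funext z; simp
    have h3 : deriv (deriv (deriv θ)) = fun _ => 0 := by
      rw [h2]; funext z; simp
    refine ⟨2 * deriv θ ((0 : ℝ) : ℂ) ^ 2, fun z => ?_⟩
    have h4 := M.hG z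
    have h5 := M.G_eq z
    have h6 : deriv θ z = deriv θ ((0 : ℝ) : ℂ) := hcon z _
    rw [h6] at h4 h5
    rw [h3] at h4
    have h7 : G z = 0 := by
      rcases mul_eq_zero.1 h4.symm with h | h
      · exact h
      · exact absurd h h0
    rw [h7] at h5
    linear_combination -h5

/-- **`JX univ` in Case E** -/
theorem jx_caseE {q : C(ℂ, ℂ)} {η ρ r B : ℝ} {b φ p : ℂ × ℂ → ℂ} {m₀ θ H : ℂ → ℂ}
    (hE : DataE q η ρ r B b φ p m₀ θ H) (hc : ¬ Concl q) (w0 : ℂ) : JX univ θ H w0 :=
  jx_univ (edata hE.fam.dat hE.ext hc) w0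

end Crest.Agent.R102.EndE348
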