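import Mathlib
import Crest.Agent.R102.EndK_348
import Crest.Agent.R102.BEnd_802

/-!
Row 102, Case E (helper348): **the end of Case E** (`EEnd` of `SpineDefs_478`) from `RatCont`:
`b3` (helper802) and the joint extension property `jx_caseE`.
-/

set_option autoImplicit false

noncomputable section

open Filter Topology Set Metric

namespace Crest.Agent.R102.EndE348

open Crest.Agent.R102.Spine Crest.Agent.R102.BEnd802

/-- **EEnd** -/
theorem eEnd (hR : RatCont) : EEnd := by
  intro q η ρ r B b φ p m₀ θ H hE hna hc
  have h0 : {w0 : ℝ | GoodW ρ r b φ p univ w0} = ∅ := by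
    ext w0
    simp only [mem_ofPred_eq, mem_empty_iff_false, iff_false]
    intro hG
    exact b3 hR hE.fam hE.ext hna hG (jx_caseE hE hc (w0 : ℂ))
  rw [h0]
  exact countable_empty

end Crest.Agent.R102.EndE348
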