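import Crest.Agent.R102.EdgeDefs_255
import Crest.Agent.R102.GrowPsi_314

/-!
Row 102, T1-B, EDGE, leaf **EdOf** (helper364): the official sheets are an abstract EDGE datum.
-/

set_option autoImplicit false

open Set Filter Topology Metric MeasureTheory Complex

noncomputable section

namespace Crest.Agent.R102.EdOf364

open Crest.Agent.R102.Sup115 (HDu Dp E2 MaxiX GoodU)
open Crest.Agent.R102.B821 (q1 q2)
open Crest.Agent.R102.C0 Crest.Agent.R102.K669 Crest.Agent.R102.Out559
open Crest.Agent.R102.GlueII559 Crest.Agent.R102.PartII150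
open Crest.Agent.R102.Edge255
open Crest.Agent.R102.Sh982 (Dat SL SB φe pe be sh)

variable {q : C(ℂ, ℂ)} {η ρ r Bc : ℝ} {b φ p : ℂ × ℂ → ℂ} {m₀ : ℂ → ℂ} {h : ℝ} {ψ H K G : ℂ → ℂ}

/-- the curve -/
theorem curve_of (D : Dat q η ρ r Bc b φ p m₀ h ψ H) (hM : Growth.MirS q η h ψ H K G)
    (hG : Chain559.Grow h ψ G) : Curve h ψ H where
  h_pos := D.h_pos
  ψ_diff := D.ψ_diff
  H_diff := D.H_diff
  rel := fun z hz => D.rel z hz
  ψ_per := hM.θper
  H_per := hM.Hper
  y_pos := hM.y_pos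
  grow_y := by
    intro k
    obtain ⟨C, hC, h1⟩ := hG k
    refine ⟨C, hC, fun d hd hdh z hz => le_trans ?_ (h1 d hd hdh z hz)⟩
    apply Real.log_le_log
    · positivity
    · have := norm_nonneg (G z)
      linarith
  grow := by
    intro k
    obtain ⟨C, hC, h1⟩ := GrowPsi314.psi D.h_pos hM hG k
    refine ⟨C, hC, fun d hd hdh z hz => ?_⟩
    obtain ⟨-, -, -, a4, a5, a6⟩ := h1 d hd hdh z hz
    exact ⟨a4, a5, a6⟩

/-- **(EDGE-EDOF)** -/
theorem edOf : EdOf := by
  intro q η ρ r Bc b φ p m₀ h ψ H K G D hNB hM hG u0 R d g hS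
  have hball := hS.ball_sub
  have hG0 : ∀ w ∈ HDu u0 R, 0 ≤ (g w).im := hS.im_nonneg
  have S := supDat D hS.R_pos hS.d_pos hS.d_le hball hS.diff hG0
    (fun w hw t ht => (GlueII559.mem_of_lt_VV D (hball hw.1) (ht.trans_le (hS.im_le w hw))).1)
    (fun w hw t ht => (GlueII559.mem_of_lt_VV D (hball hw.1) (ht.trans_le (hS.im_le w hw))).2)
  have hSB : ∀ x ∈ Xe u0 R d g (OmX b (T5.Str h) (-(ρ / 2)) (ρ / 2) r), ex g x ∈ SB b h ρ r :=
    fun x hx => ex_mem_SB D hG0 hS.d_le hx.1.1 hx.1.2 hx.2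
  have hSL : ∀ x ∈ Le u0 R d g (OmL φ p (-(ρ / 2)) (ρ / 2) r), ln g x ∈ SL φ p ρ r := fun x hx =>
    ln_mem_SL D hball hG0 hS.d_le hx.1.1 hx.1.2 hx.2
  exact
    { curve := curve_of D hM hG
      R_pos := S.R_pos
      d_pos := S.d_pos
      X_open := S.X_open
      L_open := S.L_open
      X_sub := S.X_sub
      L_sub := S.L_sub
      X_star := S.X_star
      Dp_X := S.Dp_X
      Dp_L := S.Dp_L
      φ_diff := S.φ_diff
      p_diff := S.p_diff
      B_diff := S.B_diff
      B_im := S.B_im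
      B_nc := S.B_nc
      inc := by
        intro x hx
        have h1 := D.inc_all (s := -1) (Or.inr rfl) (hSB x hx.1) (by
          rw [← ln_eq]; exact hSL x hx.2)
        rw [← ln_eq] at h1
        exact h1
      sin_ne := by
        intro x hx hx2 hy
        have h1 := D.sin_ne (s := -1) (Or.inr rfl) (hSB x hx.1) (by
          rw [← ln_eq]; exact hSL x hx.2) hx2 hy
        rw [← ln_eq] at h1
        exact h1
      maxi := S.maxi
      area := fun x hx => AreaX982.area_x D hS.d_le hball hS.diff hG0 hx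
      A_diff := (AreaX982.area_coef_diff D).mono hball
      A_ne := fun w hw hw0 => AreaX982.area_coef_ne D (by simpa using hball hw) hw0 }

end Crest.Agent.R102.EdOf364
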