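import Crest.Agent.R102.EdgeDefs_255

/-!
Row 102, T1-B, EDGE: assembly (helper255).
* `rigid_of`  : `NormP`, `ToWorld`, `CuspP`, `FlatP` give `Rigid`;
* `edgeO_of`  : all leaves and `Sup` give `Chain559.EdgeO`.
-/

set_option autoImplicit false

open Set Filter Topology Metric MeasureTheory Complex

noncomputable section

namespace Crest.Agent.R102.Edge255

open Crest.Agent.R102.Sup115 (HDu Dp E2 MaxiX GoodU)
open Crest.Agent.R102.S5 (Half bl ray Cn)
open Crest.Agent.R102.C0 Crest.Agent.R102.K669 Crest.Agent.R102.Out559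
open Crest.Agent.R102.GlueII559 Crest.Agent.R102.PartII150

/-! ### periodicity of the curve -/

section curve

variable {h : ℝ} {ψ H : ℂ → ℂ} (hC : Curve h ψ H)
include hC

omit hC in
lemma str_sub_int {z : ℂ} (hz : z ∈ T5.Str h) (m : ℤ) : z - m ∈ T5.Str h := by
  have h1 : |z.im| < h := hz
  show |(z - m).im| < h
  simpa using h1

lemma ψ_sub_nat {z : ℂ} (hz : z ∈ T5.Str h) (m : ℕ) : ψ (z + m) = ψ z + 2 * Real.pi * m := by
  induction m with
  | zero => simp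
  | succ k ih =>
    have hk : z + k ∈ T5.Str h := by
      have := str_sub_int hz (-(k : ℤ)); simpa using this
    have h1 := hC.ψ_per (z + k) hk
    have e1 : z + ((k + 1 : ℕ) : ℂ) = z + k + 1 := by push_cast; ring
    rw [e1, h1, ih]; push_cast; ring

lemma ψ_sub_int {z : ℂ} (hz : z ∈ T5.Str h) (m : ℤ) : ψ (z - m) = ψ z - 2 * Real.pi * m := by
  obtain ⟨k, rfl | rfl⟩ := m.eq_nat_or_neg
  · have h1 := ψ_sub_nat hC (str_sub_int hz (k : ℤ)) k
    simp only [Int.cast_natCast, sub_add_cancel] at h1 ⊢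
    rw [h1]; ring
  · have h1 := ψ_sub_nat hC hz k
    simp only [Int.cast_neg, Int.cast_natCast, sub_neg_eq_add]
    rw [h1]; ring

lemma dψ_sub_int {z : ℂ} (hz : z ∈ T5.Str h) (m : ℤ) : deriv ψ (z - m) = deriv ψ z := by
  have hz' := str_sub_int hz m
  have h1 : (fun x : ℂ => ψ (x - m)) =ᶠ[𝓝 z] fun x => ψ x - 2 * Real.pi * m := by
    filter_upwards [(T5.isOpen_Str h).mem_nhds hz] with x hx
    exact ψ_sub_int hC hx m
  have h2 : deriv (fun x : ℂ => ψ (x - m)) z = deriv ψ (z - m) := by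
    rw [deriv_comp_sub_const]
  rw [← h2, h1.deriv_eq, deriv_sub_const]

end curve

/-! ### the assembly -/

/-- **EDGE from its leaves** -/
theorem edgeO_of (hED : EdOf) (hM : MarcP) (hB : BalP)
    (hR : ∀ (u0 R d h : ℝ) (ψ H A : ℂ → ℂ) (φ p B : ℂ × ℂ → ℂ) (X L : Set (ℂ × ℂ)),
      ED u0 R d h ψ H A φ p B X L → ∀ u s₀ a g : ℝ, u ∈ Ioo (u0 - R) (u0 + R) → u ≠ 0 →
      0 ≤ a → 0 < g → Rigid u0 R d h ψ φ p B X L u s₀ a g)
    (hS : SlowP) (hSup : Sup115.Sup) : Chain559.EdgeO := by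
  intro q η ρ r Bc b φ p m₀ h ψ H K G D hNB hMir hGr u0 R d g hSh
  have hE := hED q η ρ r Bc b φ p m₀ h ψ H K G D hNB hMir hGr u0 R d g hSh
  have hDat := supDat D hSh.R_pos hSh.d_pos hSh.d_le hSh.ball_sub hSh.diff hSh.im_nonneg
    (fun w hw t ht => (mem_of_lt_VV D (hSh.ball_sub hw.1)
      (lt_of_lt_of_le ht (hSh.im_le w hw))).1)
    (fun w hw t ht => (mem_of_lt_VV D (hSh.ball_sub hw.1)
      (lt_of_lt_of_le ht (hSh.im_le w hw))).2)
  have hS1 := hSup _ _ _ _ _ _ _ _ _ _ _ _ _ _ hDat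
  filter_upwards [hM (Xe u0 R d g (OX b h ρ r)) (Le u0 R d g (OL φ p ρ r)) hE.X_open, hS1] with u hu1 hu2
  intro α β s₀ a₀ c hGA
  have hg := hGA.good
  have hc : 0 < c := hg.2.1
  have hPP := hu1 s₀ a₀ c hg (c / 2) (by linarith) (by linarith)
  have hEL : EdgeLims h (Bx b h ρ r g) u s₀ := hu2 hGA.mem s₀ a₀ c hg
  by_contra hcon
  have hBal := hB q η ρ r Bc b φ p m₀ h ψ H K G D hNB hMir u0 R d g hSh u α β s₀ a₀ c hGA hEL hcon
  have hu0 : u ≠ 0 := hGA.pos.ne'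
  exact hS u0 R d h ψ H _ _ _ _ _ _ hE u s₀ a₀ (c / 2) hGA.mem hu0 hPP
    (hR u0 R d h ψ H _ _ _ _ _ _ hE u s₀ a₀ (c / 2) hGA.mem hu0 hg.1 (by linarith)) hEL hBal

end Crest.Agent.R102.Edge255
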