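import Mathlib
import Crest.Agent.R102.End_613

/-!
Row 102, T1-B, EDGE: the tangent chart (helper654).

Near the tangent line at a point `b₀` with `T' (b₀) ≠ 0` a line `(φ, p)` meets the curve in exactly two
labels near `b₀`; they are different (and then holomorphic in the line) as long as the offset
`p - hs φ` is not `0`, where `hs` is the support function of the curve. Hence a label which satisfies
the incidence relation continues holomorphically over every convex set on which the offset has no zero.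
-/

set_option autoImplicit false

open Set Filter Topology Metric Complex Asymptotics

noncomputable section

namespace Crest.Agent.R102.Tang654

open Crest.Agent.R102.End613

/-! ### square roots -/

section sqrt

variable {E : Type*} [NormedAddCommGroup E] [NormedSpace ℂ E]

theorem hasFDerivAt_sqrt {f g : E → ℂ} {x : E} {g' : E →L[ℂ] ℂ} (hf : ContinuousAt f x)
    (hfg : ∀ᶠ y in 𝓝 x, f y ^ 2 = g y) (hg : HasFDerivAt g g' x) (hx : f x ≠ 0) :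
    HasFDerivAt f ((2 * f x)⁻¹ • g') x := by
  have h0 : f x + f x ≠ 0 := by
    rw [← two_mul]
    exact mul_ne_zero two_ne_zero hx
  let h : E → ℂ := fun y => (f y + f x)⁻¹
  have hc : ContinuousAt (fun y => f y + f x) x := hf.add continuousAt_const
  have hh : Tendsto h (𝓝 x) (𝓝 (h x)) := hc.inv₀ h0
  have hne : ∀ᶠ y in 𝓝 x, f y + f x ≠ 0 := hc.eventually_ne h0
  have hgx : f x ^ 2 = g x := hfg.self_of_nhds
  have e1 : (fun y => (g y - g x - g' (y - x)) * h y) =o[𝓝 x] fun y => y - x := by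
    have h1 := hg.isLittleO
    have h2 : (fun y => (g y - g x - g' (y - x)) * h y) =o[𝓝 x] fun y => ‖y - x‖ * (1 : ℝ) :=
      h1.norm_right.mul_isBigO (hh.isBigO_one ℝ)
    simpa using h2
  have e2 : (fun y => g' (y - x) * (h y - h x)) =o[𝓝 x] fun y => y - x := by
    have h1 : (fun y => g' (y - x)) =O[𝓝 x] fun y => ‖y - x‖ :=
      (g'.isBigO_comp (fun y => y - x) (𝓝 x)).norm_right
    have h2 : (fun y => h y - h x) =o[𝓝 x] fun _ => (1 : ℝ) := by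
      rw [isLittleO_one_iff]
      have := hh.sub_const (h x)
      simpa using this
    have h3 := h1.mul_isLittleO h2
    simpa using h3
  rw [hasFDerivAt_iff_isLittleO]
  refine (e1.add e2).congr' ?_ EventuallyEq.rfl
  filter_upwards [hfg, hne] with y hy hy0
  have h2 : f y - f x = (g y - g x) * h y := by
    simp only [h]
    rw [← hy, ← hgx]
    field_simp
    ring
  have h3 : h x = (2 * f x)⁻¹ := by
    simp only [h]
    rw [two_mul]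
  rw [h2]
  show _ = (g y - g x) * h y - (2 * f x)⁻¹ • g' (y - x)
  rw [smul_eq_mul, ← h3]
  ring

/-- a holomorphic square root on a convex open set -/
theorem exists_sqrt {V : Set E} (hV : IsOpen V) (hVc : Convex ℝ V) {g : E → ℂ}
    (hg : DifferentiableOn ℂ g V) (h0 : ∀ x ∈ V, g x ≠ 0) :
    ∃ s : E → ℂ, DifferentiableOn ℂ s V ∧ ∀ x ∈ V, s x ^ 2 = g x := by
  rcases V.eq_empty_or_nonempty with rfl | hne
  · exact ⟨0, by simp, by simp⟩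
  have hsc : IsSimplyConnected V := by
    have : ContractibleSpace V := hVc.contractibleSpace hne
    exact (inferInstance : SimplyConnectedSpace V)
  have : LocallyPathConnectedSpace E := inferInstance
  obtain ⟨s, hs, hsg⟩ := Complex.exists_continuousOn_pow_eq hsc hV hg.continuousOn
    (by rintro ⟨x, hx, hx0⟩; exact h0 x hx hx0) (n := 2) two_ne_zero
  refine ⟨s, fun x hx => ?_, fun x _ => hsg x⟩
  have hsx : s x ≠ 0 := by
    intro h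
    apply h0 x hx
    rw [← hsg x, h]
    simp
  exact (hasFDerivAt_sqrt (hs.continuousAt (hV.mem_nhds hx)) (Eventually.of_forall hsg)
    (hg.differentiableAt (hV.mem_nhds hx)).hasFDerivAt hsx).differentiableAt.differentiableWithinAt

end sqrt

/-! ### the key asymptotics -/

theorem key {T c : ℂ → ℂ} {b₀ T' : ℂ} (hT : HasStrictDerivAt T T' b₀) (hc : ContinuousAt c b₀)
    {ε : ℝ} (hε : 0 < ε) :
    ∃ r > 0, ∀ b ∈ ball b₀ r, ∀ b' ∈ ball b₀ r,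
      ‖c b * Complex.sin (T b - T b') - c b₀ * T' * (b - b')‖ ≤ ε * ‖b - b'‖ := by
  have h1 : (fun q : ℂ × ℂ => T q.1 - T q.2 - T' * (q.1 - q.2)) =o[𝓝 (b₀, b₀)]
      fun q => q.1 - q.2 := by
    have := hT.hasStrictFDerivAt.isLittleO
    refine this.congr_left fun q => ?_
    simp [mul_comm]
  have h2 : (fun q : ℂ × ℂ => T q.1 - T q.2) =O[𝓝 (b₀, b₀)] fun q => q.1 - q.2 := by
    have h3 : (fun q : ℂ × ℂ => T' * (q.1 - q.2)) =O[𝓝 (b₀, b₀)] fun q => q.1 - q.2 :=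
      isBigO_const_mul_self _ _ _
    refine (h1.isBigO.add h3).congr_left fun q => ?_
    ring
  have hTc : ContinuousAt T b₀ := hT.hasDerivAt.continuousAt
  have h0 : Tendsto (fun q : ℂ × ℂ => T q.1 - T q.2) (𝓝 (b₀, b₀)) (𝓝 0) := by
    have e1 : ContinuousAt (fun q : ℂ × ℂ => T q.1) (b₀, b₀) :=
      ContinuousAt.comp (f := Prod.fst) (g := T) (x := ((b₀, b₀) : ℂ × ℂ)) hTc continuousAt_fst
    have e2 : ContinuousAt (fun q : ℂ × ℂ => T q.2) (b₀, b₀) :=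
      ContinuousAt.comp (f := Prod.snd) (g := T) (x := ((b₀, b₀) : ℂ × ℂ)) hTc continuousAt_snd
    have e3 : Tendsto (fun q : ℂ × ℂ => T q.1 - T q.2) (𝓝 (b₀, b₀)) (𝓝 (T b₀ - T b₀)) :=
      e1.tendsto.sub e2.tendsto
    simpa using e3
  have hsin : (fun y : ℂ => Complex.sin y - y) =o[𝓝 0] fun y => y := by
    have := (Complex.hasDerivAt_sin 0).isLittleO
    simpa using this
  have h4 : (fun q : ℂ × ℂ => Complex.sin (T q.1 - T q.2) - (T q.1 - T q.2)) =o[𝓝 (b₀, b₀)]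
      fun q => q.1 - q.2 :=
    (hsin.comp_tendsto h0).trans_isBigO h2
  have h5 : (fun q : ℂ × ℂ => Complex.sin (T q.1 - T q.2) - T' * (q.1 - q.2)) =o[𝓝 (b₀, b₀)]
      fun q => q.1 - q.2 := by
    refine (h4.add h1).congr_left fun q => ?_
    ring
  have hc1 : Tendsto (fun q : ℂ × ℂ => c q.1) (𝓝 (b₀, b₀)) (𝓝 (c b₀)) :=
    (ContinuousAt.comp (f := Prod.fst) (g := c) (x := ((b₀, b₀) : ℂ × ℂ)) hc
      continuousAt_fst).tendsto
  have h6 : (fun q : ℂ × ℂ => c q.1 * (Complex.sin (T q.1 - T q.2) - T' * (q.1 - q.2)))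
      =o[𝓝 (b₀, b₀)] fun q => q.1 - q.2 := by
    have h7 := (hc1.isBigO_one ℝ).mul_isLittleO h5.norm_right
    simpa using h7
  have h8 : (fun q : ℂ × ℂ => (c q.1 - c b₀) * (T' * (q.1 - q.2))) =o[𝓝 (b₀, b₀)]
      fun q => q.1 - q.2 := by
    have h9 : (fun q : ℂ × ℂ => c q.1 - c b₀) =o[𝓝 (b₀, b₀)] fun _ => (1 : ℝ) := by
      rw [isLittleO_one_iff]
      have := hc1.sub_const (c b₀)
      simpa using this
    have h10 : (fun q : ℂ × ℂ => T' * (q.1 - q.2)) =O[𝓝 (b₀, b₀)] fun q => ‖q.1 - q.2‖ :=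
      (isBigO_const_mul_self _ _ _ : (fun q : ℂ × ℂ => T' * (q.1 - q.2)) =O[𝓝 (b₀, b₀)]
        fun q => q.1 - q.2).norm_right
    have h11 := h9.mul_isBigO h10
    simpa using h11
  have h12 : (fun q : ℂ × ℂ => c q.1 * Complex.sin (T q.1 - T q.2) - c b₀ * T' * (q.1 - q.2))
      =o[𝓝 (b₀, b₀)] fun q => q.1 - q.2 := by
    refine (h6.add h8).congr_left fun q => ?_
    ring
  have h13 := h12.def hε
  obtain ⟨r, hr, h14⟩ := Metric.eventually_nhds_iff_ball.1 h13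
  refine ⟨r, hr, fun b hb b' hb' => h14 (b, b') ?_⟩
  rw [← ball_prod_same]
  exact ⟨hb, hb'⟩

/-! ### the function `Ef φ b` = signed distance to the origin of the line with direction `φ` through the
point with label `b` -/

def Ef (Z Zc : ℂ → ℂ) (φ b : ℂ) : ℂ := (cexp (-(I * φ)) * Z b - cexp (I * φ) * Zc b) / (2 * I)

theorem inc_iff {Z Zc : ℂ → ℂ} {φ p b : ℂ} : Inc φ p (Z b) (Zc b) = 0 ↔ Ef Z Zc φ b = p := by
  have h2 : (2 * I : ℂ) ≠ 0 := by simp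
  unfold Inc Ef
  rw [div_eq_iff h2, sub_eq_zero]
  constructor <;> intro h <;> linear_combination h

theorem Ef_deriv {Z Zc : ℂ → ℂ} {c t b : ℂ} (hZ : HasDerivAt Z (c * cexp (I * t)) b)
    (hZc : HasDerivAt Zc (c * cexp (-(I * t))) b) (φ : ℂ) :
    HasDerivAt (Ef Z Zc φ) (c * Complex.sin (t - φ)) b := by
  have h := ((hZ.const_mul (cexp (-(I * φ)))).sub (hZc.const_mul (cexp (I * φ)))).div_const (2 * I)
  refine h.congr_deriv ?_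
  have h2 : (2 * I : ℂ) ≠ 0 := by simp
  have e1 : cexp (-(I * φ)) * (c * cexp (I * t)) = c * cexp ((t - φ) * I) := by
    rw [mul_left_comm, ← Complex.exp_add]
    congr 2
    ring
  have e2 : cexp (I * φ) * (c * cexp (-(I * t))) = c * cexp (-(t - φ) * I) := by
    rw [mul_left_comm, ← Complex.exp_add]
    congr 2
    ring
  rw [e1, e2, Complex.sin, div_eq_iff h2]
  linear_combination (-c * (cexp (-(t - φ) * I) - cexp ((t - φ) * I))) * I_sq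

/-- everything that is used on a small ball -/
structure Loc (Z Zc T c : ℂ → ℂ) (b₀ T' : ℂ) (r : ℝ) : Prop where
  r_pos : 0 < r
  hZ : ∀ b ∈ closedBall b₀ r, HasDerivAt Z (c b * cexp (I * T b)) b
  hZc : ∀ b ∈ closedBall b₀ r, HasDerivAt Zc (c b * cexp (-(I * T b))) b
  hTd : ∀ b ∈ closedBall b₀ r, DifferentiableAt ℂ T b
  c0 : c b₀ ≠ 0
  T0 : T' ≠ 0
  rT : ‖T'‖ * r ≤ 1 / 2
  hT : ∀ b ∈ closedBall b₀ r, ∀ b' ∈ closedBall b₀ r,
    ‖T b - T b' - T' * (b - b')‖ ≤ ‖T'‖ / 4 * ‖b - b'‖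
  hk : ∀ b ∈ closedBall b₀ r, ∀ b' ∈ closedBall b₀ r,
    ‖c b * Complex.sin (T b - T b') - c b₀ * T' * (b - b')‖ ≤ ‖c b₀ * T'‖ / 32 * ‖b - b'‖

section loc

variable {Z Zc T c : ℂ → ℂ} {b₀ T' : ℂ} {r : ℝ}

theorem exists_loc {S : Set ℂ} (hS : IsOpen S) (hb₀ : b₀ ∈ S)
    (hZ : ∀ b ∈ S, HasDerivAt Z (c b * cexp (I * T b)) b)
    (hZc : ∀ b ∈ S, HasDerivAt Zc (c b * cexp (-(I * T b))) b)
    (hT : DifferentiableOn ℂ T S) (hc : ContinuousAt c b₀) (hc0 : c b₀ ≠ 0)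
    (hT0 : deriv T b₀ ≠ 0) {r0 : ℝ} (hr0 : 0 < r0) :
    ∃ r > 0, r ≤ r0 ∧ closedBall b₀ r ⊆ S ∧ Loc Z Zc T c b₀ (deriv T b₀) r := by
  have hTs : HasStrictDerivAt T (deriv T b₀) b₀ :=
    ((hT.analyticOnNhd hS) b₀ hb₀).hasStrictDerivAt
  have hμ : 0 < ‖c b₀ * deriv T b₀‖ := norm_pos_iff.2 (mul_ne_zero hc0 hT0)
  have hTp : 0 < ‖deriv T b₀‖ := norm_pos_iff.2 hT0
  obtain ⟨r1, hr1, h1⟩ := key hTs hc (ε := ‖c b₀ * deriv T b₀‖ / 32) (by positivity)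
  have h2 : (fun q : ℂ × ℂ => T q.1 - T q.2 - deriv T b₀ * (q.1 - q.2)) =o[𝓝 (b₀, b₀)]
      fun q => q.1 - q.2 := by
    have := hTs.hasStrictFDerivAt.isLittleO
    refine this.congr_left fun q => ?_
    simp [mul_comm]
  have h3 := h2.def (c := ‖deriv T b₀‖ / 4) (by positivity)
  obtain ⟨r2, hr2, h4⟩ := Metric.eventually_nhds_iff_ball.1 h3
  obtain ⟨r3, hr3, h5⟩ := Metric.isOpen_iff.1 hS b₀ hb₀
  let r : ℝ := min (min r0 (1 / (2 * ‖deriv T b₀‖))) (min (r1 / 2) (min (r2 / 2) (r3 / 2)))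
  have hr : 0 < r := by
    simp only [r]
    positivity
  have e0 : r ≤ r0 := (min_le_left _ _).trans (min_le_left _ _)
  have e0' : r ≤ 1 / (2 * ‖deriv T b₀‖) := (min_le_left _ _).trans (min_le_right _ _)
  have e1 : r ≤ r1 / 2 := (min_le_right _ _).trans (min_le_left _ _)
  have e2 : r ≤ r2 / 2 := (min_le_right _ _).trans ((min_le_right _ _).trans (min_le_left _ _))
  have e3 : r ≤ r3 / 2 := (min_le_right _ _).trans ((min_le_right _ _).trans (min_le_right _ _))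
  have f1 : closedBall b₀ r ⊆ ball b₀ r1 := closedBall_subset_ball (by linarith)
  have f2 : closedBall b₀ r ⊆ ball b₀ r2 := closedBall_subset_ball (by linarith)
  have f3 : closedBall b₀ r ⊆ S := (closedBall_subset_ball (by linarith)).trans h5
  refine ⟨r, hr, e0, f3, ⟨hr, fun b hb => hZ b (f3 hb), fun b hb => hZc b (f3 hb),
    fun b hb => hT.differentiableAt (hS.mem_nhds (f3 hb)), hc0, hT0, ?_, ?_,
    fun b hb b' hb' => h1 b (f1 hb) b' (f1 hb')⟩⟩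
  · calc ‖deriv T b₀‖ * r ≤ ‖deriv T b₀‖ * (1 / (2 * ‖deriv T b₀‖)) := by gcongr
      _ = 1 / 2 := by field_simp
  · intro b hb b' hb'
    refine h4 (b, b') ?_
    rw [← ball_prod_same]
    exact ⟨f2 hb, f2 hb'⟩

/-- second order Taylor expansion, Lipschitz form -/
theorem Loc.key2 (h : Loc Z Zc T c b₀ T' r) {w : ℂ} (hw : w ∈ closedBall b₀ r) {R : ℝ} {x y : ℂ}
    (hx : x ∈ closedBall b₀ r) (hxR : ‖x - w‖ ≤ R) (hy : y ∈ closedBall b₀ r) (hyR : ‖y - w‖ ≤ R) :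
    ‖(Ef Z Zc (T w) y - c b₀ * T' * (y - w) ^ 2 / 2) -
      (Ef Z Zc (T w) x - c b₀ * T' * (x - w) ^ 2 / 2)‖ ≤ ‖c b₀ * T'‖ / 32 * R * ‖y - x‖ := by
  have hconv : Convex ℝ (closedBall b₀ r ∩ closedBall w R) :=
    (convex_closedBall _ _).inter (convex_closedBall _ _)
  refine hconv.norm_image_sub_le_of_norm_hasDerivWithin_le
    (f := fun z => Ef Z Zc (T w) z - c b₀ * T' * (z - w) ^ 2 / 2)
    (f' := fun z => c z * Complex.sin (T z - T w) - c b₀ * T' * (z - w)) ?_ ?_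
    ⟨hx, mem_closedBall_iff_norm.2 hxR⟩ ⟨hy, mem_closedBall_iff_norm.2 hyR⟩
  · intro z hz
    have e1 := Ef_deriv (h.hZ z hz.1) (h.hZc z hz.1) (T w)
    have e2 : HasDerivAt (fun z : ℂ => c b₀ * T' * (z - w) ^ 2 / 2) (c b₀ * T' * (z - w)) z := by
      have e3 := ((((hasDerivAt_id z).sub_const w).pow 2).const_mul (c b₀ * T')).div_const 2
      refine e3.congr_deriv ?_
      simp
      ring
    exact (e1.sub e2).hasDerivWithinAt
  · intro z hz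
    refine (h.hk z hz.1 w hw).trans ?_
    have := mem_closedBall_iff_norm.1 hz.2
    gcongr

theorem Loc.key3 (h : Loc Z Zc T c b₀ T' r) {w : ℂ} (hw : w ∈ closedBall b₀ r) {b : ℂ}
    (hb : b ∈ closedBall b₀ r) :
    ‖Ef Z Zc (T w) b - Ef Z Zc (T w) w - c b₀ * T' * (b - w) ^ 2 / 2‖ ≤
      ‖c b₀ * T'‖ / 32 * ‖b - w‖ ^ 2 := by
  have := h.key2 hw (R := ‖b - w‖) hw (by simp) hb le_rfl
  have e : Ef Z Zc (T w) b - Ef Z Zc (T w) w - c b₀ * T' * (b - w) ^ 2 / 2 =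
    (Ef Z Zc (T w) b - c b₀ * T' * (b - w) ^ 2 / 2) -
      (Ef Z Zc (T w) w - c b₀ * T' * (w - w) ^ 2 / 2) := by
    ring
  rw [e]
  refine this.trans (le_of_eq ?_)
  ring

theorem Loc.inj (h : Loc Z Zc T c b₀ T' r) : InjOn T (closedBall b₀ r) := by
  intro b hb b' hb' hbb
  have h1 := h.hT b hb b' hb'
  rw [hbb, sub_self, zero_sub, norm_neg, norm_mul] at h1
  have h2 : 0 < ‖T'‖ := norm_pos_iff.2 h.T0
  by_contra hne
  have h3 : 0 < ‖b - b'‖ := norm_pos_iff.2 (sub_ne_zero.2 hne)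
  nlinarith [mul_pos h2 h3]

/-- the inverse of `T` -/
theorem Loc.tau (h : Loc Z Zc T c b₀ T' r) : ∃ τ : ℂ → ℂ,
    DifferentiableOn ℂ τ (ball (T b₀) (‖T'‖ * r / 16)) ∧
    ∀ φ ∈ ball (T b₀) (‖T'‖ * r / 16), τ φ ∈ closedBall b₀ (r / 8) ∧ T (τ φ) = φ := by
  have hTp : 0 < ‖T'‖ := norm_pos_iff.2 h.T0
  have hr := h.r_pos
  have hsub : closedBall b₀ (r / 8) ⊆ closedBall b₀ r :=
    closedBall_subset_closedBall (by linarith)
  have hF : ∀ g : ℂ → ℂ, DifferentiableOn ℂ g (ball (T b₀) (‖T'‖ * r / 16)) →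
      (∀ x ∈ ball (T b₀) (‖T'‖ * r / 16), g x ∈ closedBall b₀ (r / 8)) →
      DifferentiableOn ℂ (fun x => T (g x) - x) (ball (T b₀) (‖T'‖ * r / 16)) := by
    intro g hg hgm x hx
    exact ((h.hTd (g x) (hsub (hgm x hx))).comp_differentiableWithinAt x (hg x hx)).sub
      differentiableWithinAt_id
  have hF0 : ∀ x ∈ ball (T b₀) (‖T'‖ * r / 16), ‖T b₀ - x‖ ≤ ‖T'‖ * (r / 8) / 2 := by
    intro x hx
    have := mem_ball_iff_norm.1 hx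
    rw [norm_sub_rev]
    linarith
  have hLip : ∀ x ∈ ball (T b₀) (‖T'‖ * r / 16), ∀ b ∈ closedBall b₀ (r / 8),
      ∀ b' ∈ closedBall b₀ (r / 8),
      ‖(T b - x) - (T b' - x) - T' * (b - b')‖ ≤ ‖T'‖ / 4 * ‖b - b'‖ := by
    intro x _ b hb b' hb'
    have := h.hT b (hsub hb) b' (hsub hb')
    have e : (T b - x) - (T b' - x) - T' * (b - b') = T b - T b' - T' * (b - b') := by ring
    rw [e]
    exact this
  obtain ⟨τ, h1, h2, -⟩ := newton (E := ℂ) (V := ball (T b₀) (‖T'‖ * r / 16)) isOpen_ball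
    (b₀ := b₀) (ρ := r / 8) (by positivity) (F := fun b a => T b - a) (A := fun _ => T')
    hF (differentiableOn_const _) (a := ‖T'‖) hTp (fun _ _ => le_rfl) hF0 hLip
  refine ⟨τ, h1, fun φ hφ => ⟨(h2 φ hφ).1, ?_⟩⟩
  exact sub_eq_zero.1 (h2 φ hφ).2

variable {X : Type*} [NormedAddCommGroup X] [NormedSpace ℂ X]

theorem Loc.Ef_diff (h : Loc Z Zc T c b₀ T' r) {V : Set X} {φ g : X → ℂ}
    (hφ : DifferentiableOn ℂ φ V) (hg : DifferentiableOn ℂ g V)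
    (hgm : ∀ x ∈ V, g x ∈ closedBall b₀ r) :
    DifferentiableOn ℂ (fun x => Ef Z Zc (φ x) (g x)) V := by
  have h1 : DifferentiableOn ℂ (fun x => Z (g x)) V := fun x hx =>
    (h.hZ _ (hgm x hx)).differentiableAt.comp_differentiableWithinAt x (hg x hx)
  have h2 : DifferentiableOn ℂ (fun x => Zc (g x)) V := fun x hx =>
    (h.hZc _ (hgm x hx)).differentiableAt.comp_differentiableWithinAt x (hg x hx)
  have h3 : DifferentiableOn ℂ (fun x => cexp (-(I * φ x))) V := (hφ.const_mul I).neg.cexp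
  have h4 : DifferentiableOn ℂ (fun x => cexp (I * φ x)) V := (hφ.const_mul I).cexp
  have h5 := ((h3.mul h1).sub (h4.mul h2)).mul_const ((2 * I : ℂ)⁻¹)
  refine h5.congr fun x _ => ?_
  simp only [Ef, div_eq_mul_inv]
  rfl

/-- the two roots are graphs as long as the offset `s ^ 2` has no zero -/
theorem Loc.graph [FiniteDimensional ℂ X] (h : Loc Z Zc T c b₀ T' r) {k₀ : ℂ}
    (hk₀ : c b₀ * T' * k₀ ^ 2 / 2 = 1) {V : Set X} (hV : IsOpen V)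
    {w s : X → ℂ} (hw : DifferentiableOn ℂ w V) (hwm : ∀ x ∈ V, w x ∈ closedBall b₀ (r / 8))
    (hs : DifferentiableOn ℂ s V) (hs0 : ∀ x ∈ V, s x ≠ 0)
    (hsm : ∀ x ∈ V, ‖s x‖ ≤ r / (16 * ‖k₀‖)) :
    ∃ G : X → ℂ, DifferentiableOn ℂ G V ∧ (∀ x ∈ V, G x ∈ ball b₀ (r / 2) ∧
      Ef Z Zc (T (w x)) (G x) - Ef Z Zc (T (w x)) (w x) = s x ^ 2 ∧
      ‖(G x - w x) / s x - k₀‖ ≤ ‖k₀‖ / 8) ∧
      ∀ x ∈ V, ∀ b ∈ closedBall b₀ r, ‖(b - w x) / s x - k₀‖ ≤ ‖k₀‖ / 8 →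
        Ef Z Zc (T (w x)) b - Ef Z Zc (T (w x)) (w x) = s x ^ 2 → b = G x := by
  have hr := h.r_pos
  have hk0 : k₀ ≠ 0 := by
    rintro rfl
    simp at hk₀
  have hK : 0 < ‖k₀‖ := norm_pos_iff.2 hk0
  have hμ : 0 < ‖c b₀ * T'‖ := norm_pos_iff.2 (mul_ne_zero h.c0 h.T0)
  have hμK : ‖c b₀ * T'‖ * ‖k₀‖ ^ 2 = 2 := by
    have := congrArg norm hk₀
    rw [norm_div, norm_mul, norm_pow] at this
    simp only [norm_one, Complex.norm_ofNat] at this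
    linarith
  have hsub : closedBall b₀ (r / 8) ⊆ closedBall b₀ r :=
    closedBall_subset_closedBall (by linarith)
  have hkn : ∀ k ∈ closedBall k₀ (‖k₀‖ / 8), ‖k‖ ≤ 9 / 8 * ‖k₀‖ := by
    intro k hk
    have h1 := mem_closedBall_iff_norm.1 hk
    have h2 : ‖k‖ ≤ ‖k - k₀‖ + ‖k₀‖ := by
      have := norm_add_le (k - k₀) k₀
      simpa using this
    linarith
  have hsk : ∀ x ∈ V, ∀ k ∈ closedBall k₀ (‖k₀‖ / 8), ‖s x * k‖ ≤ ‖s x‖ * (9 / 8 * ‖k₀‖) := by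
    intro x _ k hk
    rw [norm_mul]
    exact mul_le_mul_of_nonneg_left (hkn k hk) (norm_nonneg _)
  have hsk2 : ∀ x ∈ V, ‖s x‖ * (9 / 8 * ‖k₀‖) ≤ 9 / 128 * r := by
    intro x hx
    calc ‖s x‖ * (9 / 8 * ‖k₀‖) ≤ r / (16 * ‖k₀‖) * (9 / 8 * ‖k₀‖) :=
          mul_le_mul_of_nonneg_right (hsm x hx) (by positivity)
      _ = 9 / 128 * r := by
          field_simp
          ring
  have hmem' : ∀ x ∈ V, ∀ k ∈ closedBall k₀ (‖k₀‖ / 8), ‖w x + s x * k - b₀‖ < r / 2 := by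
    intro x hx k hk
    have h1 := mem_closedBall_iff_norm.1 (hwm x hx)
    have h2 := (hsk x hx k hk).trans (hsk2 x hx)
    have h3 : w x + s x * k - b₀ = (w x - b₀) + s x * k := by ring
    rw [h3]
    refine (norm_add_le _ _).trans_lt ?_
    linarith
  have hmem : ∀ x ∈ V, ∀ k ∈ closedBall k₀ (‖k₀‖ / 8), w x + s x * k ∈ closedBall b₀ r := by
    intro x hx k hk
    rw [mem_closedBall_iff_norm]
    have := hmem' x hx k hk
    linarith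
  have hTw : DifferentiableOn ℂ (fun x => T (w x)) V := fun x hx =>
    (h.hTd _ (hsub (hwm x hx))).comp_differentiableWithinAt x (hw x hx)
  have hF : ∀ g : X → ℂ, DifferentiableOn ℂ g V → (∀ x ∈ V, g x ∈ closedBall k₀ (‖k₀‖ / 8)) →
      DifferentiableOn ℂ (fun x => (Ef Z Zc (T (w x)) (w x + s x * g x) -
        Ef Z Zc (T (w x)) (w x)) / s x ^ 2 - 1) V := by
    intro g hg hgm
    have e1 : DifferentiableOn ℂ (fun x => Ef Z Zc (T (w x)) (w x + s x * g x)) V :=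
      h.Ef_diff hTw (hw.add (hs.mul hg)) fun x hx => hmem x hx _ (hgm x hx)
    have e2 : DifferentiableOn ℂ (fun x => Ef Z Zc (T (w x)) (w x)) V :=
      h.Ef_diff hTw hw fun x hx => hsub (hwm x hx)
    have e3 : DifferentiableOn ℂ (fun x => (s x ^ 2)⁻¹) V := fun x hx =>
      (differentiableAt_inv (pow_ne_zero 2 (hs0 x hx))).comp_differentiableWithinAt x
        ((hs.pow 2) x hx)
    have e4 := ((e1.sub e2).mul e3).sub (differentiableOn_const (c := (1 : ℂ)))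
    refine e4.congr fun x _ => ?_
    simp only [div_eq_mul_inv]
    rfl
  have hF0 : ∀ x ∈ V, ‖(Ef Z Zc (T (w x)) (w x + s x * k₀) - Ef Z Zc (T (w x)) (w x)) / s x ^ 2 -
      1‖ ≤ ‖c b₀ * T'‖ * ‖k₀‖ * (‖k₀‖ / 8) / 2 := by
    intro x hx
    have e0 : k₀ ∈ closedBall k₀ (‖k₀‖ / 8) := mem_closedBall_self (by positivity)
    have e1 := h.key3 (hsub (hwm x hx)) (hmem x hx k₀ e0)
    have e2 : c b₀ * T' * (w x + s x * k₀ - w x) ^ 2 / 2 = s x ^ 2 := by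
      linear_combination (s x ^ 2) * hk₀
    have hs2 : 0 < ‖s x‖ := norm_pos_iff.2 (hs0 x hx)
    have e2' : w x + s x * k₀ - w x = s x * k₀ := by ring
    rw [e2, e2', norm_mul (s x)] at e1
    have e3 : (Ef Z Zc (T (w x)) (w x + s x * k₀) - Ef Z Zc (T (w x)) (w x)) / s x ^ 2 - 1 =
        (Ef Z Zc (T (w x)) (w x + s x * k₀) - Ef Z Zc (T (w x)) (w x) - s x ^ 2) / s x ^ 2 := by
      field_simp [hs0 x hx]
    rw [e3, norm_div, norm_pow, div_le_iff₀ (by positivity)]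
    refine e1.trans ?_
    have e4 : ‖c b₀ * T'‖ / 32 * (‖s x‖ * ‖k₀‖) ^ 2 =
        (‖c b₀ * T'‖ * ‖k₀‖ ^ 2) * ‖s x‖ ^ 2 / 32 := by ring
    have e5 : ‖c b₀ * T'‖ * ‖k₀‖ * (‖k₀‖ / 8) / 2 * ‖s x‖ ^ 2 =
        (‖c b₀ * T'‖ * ‖k₀‖ ^ 2) * ‖s x‖ ^ 2 / 16 := by ring
    rw [e4, e5, hμK]
    nlinarith [sq_nonneg (‖s x‖)]
  have hLip : ∀ x ∈ V, ∀ k ∈ closedBall k₀ (‖k₀‖ / 8), ∀ k' ∈ closedBall k₀ (‖k₀‖ / 8),
      ‖(Ef Z Zc (T (w x)) (w x + s x * k) - Ef Z Zc (T (w x)) (w x)) / s x ^ 2 - 1 -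
        ((Ef Z Zc (T (w x)) (w x + s x * k') - Ef Z Zc (T (w x)) (w x)) / s x ^ 2 - 1) -
        c b₀ * T' * k₀ * (k - k')‖ ≤ ‖c b₀ * T'‖ * ‖k₀‖ / 4 * ‖k - k'‖ := by
    intro x hx k hk k' hk'
    have hs2 : 0 < ‖s x‖ := norm_pos_iff.2 (hs0 x hx)
    have e1 := h.key2 (hsub (hwm x hx)) (R := ‖s x‖ * (9 / 8 * ‖k₀‖)) (hmem x hx k' hk')
      (by rw [add_sub_cancel_left]; exact hsk x hx k' hk') (hmem x hx k hk)
      (by rw [add_sub_cancel_left]; exact hsk x hx k hk)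
    set D : ℂ := (Ef Z Zc (T (w x)) (w x + s x * k) - c b₀ * T' * (w x + s x * k - w x) ^ 2 / 2) -
      (Ef Z Zc (T (w x)) (w x + s x * k') - c b₀ * T' * (w x + s x * k' - w x) ^ 2 / 2) with hD
    have e2 : (Ef Z Zc (T (w x)) (w x + s x * k) - Ef Z Zc (T (w x)) (w x)) / s x ^ 2 - 1 -
        ((Ef Z Zc (T (w x)) (w x + s x * k') - Ef Z Zc (T (w x)) (w x)) / s x ^ 2 - 1) -
        c b₀ * T' * k₀ * (k - k') =
        D / s x ^ 2 + c b₀ * T' * ((k - k') * (((k - k₀) + (k' - k₀)) / 2)) := by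
      rw [hD]
      field_simp [hs0 x hx]
      ring
    have e3 : ‖D / s x ^ 2‖ ≤ ‖c b₀ * T'‖ / 32 * (9 / 8 * ‖k₀‖) * ‖k - k'‖ := by
      rw [norm_div, norm_pow, div_le_iff₀ (by positivity)]
      have e6 : w x + s x * k - (w x + s x * k') = s x * (k - k') := by ring
      rw [e6, norm_mul (s x)] at e1
      refine e1.trans (le_of_eq ?_)
      ring
    have e4 : ‖((k - k₀) + (k' - k₀)) / 2‖ ≤ ‖k₀‖ / 8 := by
      rw [norm_div, Complex.norm_ofNat, div_le_iff₀ two_pos]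
      have h1 := mem_closedBall_iff_norm.1 hk
      have h2 := mem_closedBall_iff_norm.1 hk'
      refine (norm_add_le _ _).trans ?_
      linarith
    have e5 : ‖c b₀ * T' * ((k - k') * (((k - k₀) + (k' - k₀)) / 2))‖ ≤
        ‖c b₀ * T'‖ * (‖k - k'‖ * (‖k₀‖ / 8)) := by
      rw [norm_mul (c b₀ * T'), norm_mul (k - k')]
      gcongr
    rw [e2]
    refine (norm_add_le _ _).trans ((add_le_add e3 e5).trans ?_)
    have : 0 ≤ ‖c b₀ * T'‖ * ‖k₀‖ * ‖k - k'‖ := by positivity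
    nlinarith
  obtain ⟨kG, g1, g2, g3⟩ := newton hV (b₀ := k₀) (ρ := ‖k₀‖ / 8) (by positivity)
    (F := fun k x => (Ef Z Zc (T (w x)) (w x + s x * k) - Ef Z Zc (T (w x)) (w x)) / s x ^ 2 - 1)
    (A := fun _ => c b₀ * T' * k₀) hF (differentiableOn_const _) (a := ‖c b₀ * T'‖ * ‖k₀‖)
    (by positivity) (fun _ _ => (norm_mul _ _).ge) hF0 hLip
  have hz : ∀ x ∈ V, ∀ k, ((Ef Z Zc (T (w x)) (w x + s x * k) - Ef Z Zc (T (w x)) (w x)) /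
      s x ^ 2 - 1 = 0 ↔ Ef Z Zc (T (w x)) (w x + s x * k) - Ef Z Zc (T (w x)) (w x) =
        s x ^ 2) := by
    intro x hx k
    rw [sub_eq_zero, div_eq_iff (pow_ne_zero 2 (hs0 x hx)), one_mul]
  refine ⟨fun x => w x + s x * kG x, hw.add (hs.mul g1), ?_, ?_⟩
  · intro x hx
    obtain ⟨e1, e2⟩ := g2 x hx
    refine ⟨mem_ball_iff_norm.2 (hmem' x hx _ e1), (hz x hx _).1 e2, ?_⟩
    have e3 : (w x + s x * kG x - w x) / s x = kG x := by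
      rw [add_sub_cancel_left, mul_div_cancel_left₀ _ (hs0 x hx)]
    rw [e3]
    exact mem_closedBall_iff_norm.1 e1
  · intro x hx b hb h1 h2
    have e3 : w x + s x * ((b - w x) / s x) = b := by
      rw [mul_div_cancel₀ _ (hs0 x hx)]
      ring
    have e4 : (b - w x) / s x = kG x := by
      refine g3 x hx _ (mem_closedBall_iff_norm.2 h1) ?_
      refine (hz x hx _).2 ?_
      rw [e3]
      exact h2
    show b = w x + s x * kG x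
    rw [← e4, e3]

/-- every root is near one of the two model roots -/
theorem Loc.classify (h : Loc Z Zc T c b₀ T' r) {k₀ : ℂ} (hk₀ : c b₀ * T' * k₀ ^ 2 / 2 = 1)
    {w s b : ℂ} (hw : w ∈ closedBall b₀ r) (hs : s ≠ 0) (hb : b ∈ closedBall b₀ r)
    (hE : Ef Z Zc (T w) b - Ef Z Zc (T w) w = s ^ 2) :
    ‖(b - w) / s - k₀‖ ≤ ‖k₀‖ / 8 ∨ ‖(b - w) / s + k₀‖ ≤ ‖k₀‖ / 8 := by
  have hk0 : k₀ ≠ 0 := by
    rintro rfl
    simp at hk₀
  have hK : 0 < ‖k₀‖ := norm_pos_iff.2 hk0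
  have hμ : 0 < ‖c b₀ * T'‖ := norm_pos_iff.2 (mul_ne_zero h.c0 h.T0)
  have hs2 : 0 < ‖s‖ := norm_pos_iff.2 hs
  have h1 := h.key3 hw hb
  set k : ℂ := (b - w) / s with hk
  have hbk : b - w = s * k := by
    rw [hk]
    field_simp
  rw [hE, hbk, norm_mul s k] at h1
  have h2 : s ^ 2 - c b₀ * T' * (s * k) ^ 2 / 2 =
      s ^ 2 * (-(c b₀ * T' / 2) * ((k - k₀) * (k + k₀))) := by
    linear_combination (-s ^ 2) * hk₀
  rw [h2, norm_mul (s ^ 2), norm_mul (-(c b₀ * T' / 2)), norm_neg, norm_div, Complex.norm_ofNat,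
    norm_pow] at h1
  have h3 : ‖(k - k₀) * (k + k₀)‖ ≤ ‖k‖ ^ 2 / 16 := by
    have h4 : 0 < ‖s‖ ^ 2 * (‖c b₀ * T'‖ / 2) := by positivity
    have h5 : ‖s‖ ^ 2 * (‖c b₀ * T'‖ / 2) * ‖(k - k₀) * (k + k₀)‖ ≤
        ‖s‖ ^ 2 * (‖c b₀ * T'‖ / 2) * (‖k‖ ^ 2 / 16) := by
      refine le_trans (le_of_eq (by ring)) (h1.trans (le_of_eq (by ring)))
    exact le_of_mul_le_mul_left h5 h4
  have h6 : ‖k‖ ^ 2 ≤ ‖k₀‖ ^ 2 + ‖(k - k₀) * (k + k₀)‖ := by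
    rw [← norm_pow, ← norm_pow]
    have h7 : k ^ 2 = k₀ ^ 2 + (k - k₀) * (k + k₀) := by ring
    calc ‖k ^ 2‖ = ‖k₀ ^ 2 + (k - k₀) * (k + k₀)‖ := by rw [← h7]
      _ ≤ _ := norm_add_le _ _
  have h8 : 2 * ‖k₀‖ ≤ ‖k - k₀‖ + ‖k + k₀‖ := by
    have h9 : (2 : ℂ) * k₀ = (k + k₀) - (k - k₀) := by ring
    calc 2 * ‖k₀‖ = ‖(2 : ℂ) * k₀‖ := by rw [norm_mul, Complex.norm_ofNat]
      _ ≤ ‖k + k₀‖ + ‖k - k₀‖ := by rw [h9]; exact norm_sub_le _ _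
      _ = _ := by ring
  rw [norm_mul] at h3 h6
  have h10 : ‖k - k₀‖ * ‖k + k₀‖ ≤ ‖k₀‖ ^ 2 / 15 := by linarith
  rcases le_total ‖k - k₀‖ ‖k + k₀‖ with h11 | h11
  · left
    have h12 : ‖k₀‖ ≤ ‖k + k₀‖ := by linarith
    have h13 : ‖k - k₀‖ * ‖k₀‖ ≤ ‖k₀‖ ^ 2 / 15 :=
      (mul_le_mul_of_nonneg_left h12 (norm_nonneg _)).trans h10
    nlinarith [norm_nonneg (k - k₀)]
  · right
    have h12 : ‖k₀‖ ≤ ‖k - k₀‖ := by linarith
    have h13 : ‖k₀‖ * ‖k + k₀‖ ≤ ‖k₀‖ ^ 2 / 15 :=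
      (mul_le_mul_of_nonneg_right h12 (norm_nonneg _)).trans h10
    nlinarith [norm_nonneg (k + k₀)]

end loc

/-! ### the chart -/

/-- the tangent chart on the polydisc of radius `δ` around the tangent line at `b₀` -/
structure Chart (Z Zc T c : ℂ → ℂ) (b₀ : ℂ) (r δ : ℝ) (τ : ℂ → ℂ) (k₀ : ℂ) : Prop where
  loc : Loc Z Zc T c b₀ (deriv T b₀) r
  k₀_eq : c b₀ * deriv T b₀ * k₀ ^ 2 / 2 = 1
  δ_pos : 0 < δ
  τ_diff : DifferentiableOn ℂ τ (ball (T b₀) δ)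
  τ_mem : ∀ φ ∈ ball (T b₀) δ, τ φ ∈ closedBall b₀ (r / 8)
  τ_eq : ∀ φ ∈ ball (T b₀) δ, T (τ φ) = φ
  small : ∀ φ ∈ ball (T b₀) δ, ∀ p ∈ ball (Ef Z Zc (T b₀) b₀) δ,
    ‖p - Ef Z Zc φ (τ φ)‖ ≤ (r / (16 * ‖k₀‖)) ^ 2

/-- the support function of the curve -/
def hsf (Z Zc τ : ℂ → ℂ) (φ : ℂ) : ℂ := Ef Z Zc φ (τ φ)

theorem exists_chart {S : Set ℂ} {Z Zc T c : ℂ → ℂ} {b₀ : ℂ} (hS : IsOpen S) (hb₀ : b₀ ∈ S)
    (hZ : ∀ b ∈ S, HasDerivAt Z (c b * cexp (I * T b)) b)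
    (hZc : ∀ b ∈ S, HasDerivAt Zc (c b * cexp (-(I * T b))) b)
    (hT : DifferentiableOn ℂ T S) (hc : ContinuousAt c b₀) (hc0 : c b₀ ≠ 0)
    (hT0 : deriv T b₀ ≠ 0) {r0 : ℝ} (hr0 : 0 < r0) :
    ∃ r > 0, r ≤ r0 ∧ closedBall b₀ r ⊆ S ∧ ∃ δ > 0, δ ≤ r0 ∧ ∃ (τ : ℂ → ℂ) (k₀ : ℂ),
      Chart Z Zc T c b₀ r δ τ k₀ := by
  obtain ⟨r, hr, hrr, hrS, h⟩ := exists_loc hS hb₀ hZ hZc hT hc hc0 hT0 hr0
  have hTp : 0 < ‖deriv T b₀‖ := norm_pos_iff.2 hT0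
  obtain ⟨τ, t1, t2⟩ := h.tau
  have hm0 : c b₀ * deriv T b₀ ≠ 0 := mul_ne_zero hc0 hT0
  obtain ⟨k₀, hk₀⟩ := IsAlgClosed.exists_pow_nat_eq (2 / (c b₀ * deriv T b₀)) (n := 2) two_pos
  have hk₀' : c b₀ * deriv T b₀ * k₀ ^ 2 / 2 = 1 := by
    rw [hk₀]
    field_simp
  have hk0 : k₀ ≠ 0 := by
    rintro rfl
    simp at hk₀'
  have hK : 0 < ‖k₀‖ := norm_pos_iff.2 hk0
  have hδ1 : 0 < ‖deriv T b₀‖ * r / 16 := by positivity
  have hsub : closedBall b₀ (r / 8) ⊆ closedBall b₀ r :=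
    closedBall_subset_closedBall (by linarith)
  have hT0m : T b₀ ∈ ball (T b₀) (‖deriv T b₀‖ * r / 16) := mem_ball_self hδ1
  have hτ0 : τ (T b₀) = b₀ :=
    h.inj (hsub (t2 _ hT0m).1) (mem_closedBall_self hr.le) (t2 _ hT0m).2
  have hd : DifferentiableOn ℂ (fun φ => Ef Z Zc φ (τ φ)) (ball (T b₀) (‖deriv T b₀‖ * r / 16)) :=
    h.Ef_diff differentiableOn_id t1 fun x hx => hsub (t2 x hx).1
  have hcont : ContinuousAt (fun φ => Ef Z Zc φ (τ φ)) (T b₀) :=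
    (hd.differentiableAt (isOpen_ball.mem_nhds hT0m)).continuousAt
  have hqm : 0 < (r / (16 * ‖k₀‖)) ^ 2 := by positivity
  obtain ⟨δ2, hδ2, e2⟩ := Metric.continuousAt_iff.1 hcont ((r / (16 * ‖k₀‖)) ^ 2 / 2)
    (by positivity)
  let δ : ℝ := min (min r0 δ2) (min (‖deriv T b₀‖ * r / 16) ((r / (16 * ‖k₀‖)) ^ 2 / 2))
  have hδ : 0 < δ := by
    simp only [δ]
    positivity
  have d0 : δ ≤ r0 := (min_le_left _ _).trans (min_le_left _ _)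
  have d2 : δ ≤ δ2 := (min_le_left _ _).trans (min_le_right _ _)
  have d1 : δ ≤ ‖deriv T b₀‖ * r / 16 := (min_le_right _ _).trans (min_le_left _ _)
  have d3 : δ ≤ (r / (16 * ‖k₀‖)) ^ 2 / 2 := (min_le_right _ _).trans (min_le_right _ _)
  have hb : ball (T b₀) δ ⊆ ball (T b₀) (‖deriv T b₀‖ * r / 16) := ball_subset_ball d1
  refine ⟨r, hr, hrr, hrS, δ, hδ, d0, τ, k₀, h, hk₀', hδ, t1.mono hb, fun φ hφ => (t2 φ (hb hφ)).1,
    fun φ hφ => (t2 φ (hb hφ)).2, fun φ hφ p hp => ?_⟩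
  have f1 := mem_ball_iff_norm.1 hp
  have f2 := e2 (x := φ) (lt_of_lt_of_le (mem_ball.1 hφ) d2)
  rw [hτ0, dist_eq_norm] at f2
  have f3 : p - Ef Z Zc φ (τ φ) = (p - Ef Z Zc (T b₀) b₀) - (Ef Z Zc φ (τ φ) - Ef Z Zc (T b₀) b₀) := by
    ring
  rw [f3]
  refine (norm_sub_le _ _).trans ?_
  linarith

namespace Chart

variable {Z Zc T c τ : ℂ → ℂ} {b₀ k₀ : ℂ} {r δ : ℝ}

theorem r_pos (h : Chart Z Zc T c b₀ r δ τ k₀) : 0 < r := h.loc.r_pos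

theorem k0_ne (h : Chart Z Zc T c b₀ r δ τ k₀) : k₀ ≠ 0 := by
  rintro rfl
  have := h.k₀_eq
  simp at this

theorem muK (h : Chart Z Zc T c b₀ r δ τ k₀) : ‖c b₀ * deriv T b₀‖ * ‖k₀‖ ^ 2 = 2 := by
  have := congrArg norm h.k₀_eq
  rw [norm_div, norm_mul, norm_pow] at this
  simp only [norm_one, Complex.norm_ofNat] at this
  linarith

theorem mu_pos (h : Chart Z Zc T c b₀ r δ τ k₀) : 0 < ‖c b₀ * deriv T b₀‖ :=
  norm_pos_iff.2 (mul_ne_zero h.loc.c0 h.loc.T0)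

theorem τ_mem' (h : Chart Z Zc T c b₀ r δ τ k₀) {φ : ℂ} (hφ : φ ∈ ball (T b₀) δ) :
    τ φ ∈ closedBall b₀ r := by
  have := h.r_pos
  exact closedBall_subset_closedBall (by linarith) (h.τ_mem φ hφ)

theorem τ_unique (h : Chart Z Zc T c b₀ r δ τ k₀) {φ b : ℂ} (hφ : φ ∈ ball (T b₀) δ)
    (hb : b ∈ closedBall b₀ r) (hT : T b = φ) : b = τ φ :=
  h.loc.inj hb (h.τ_mem' hφ) (hT.trans (h.τ_eq φ hφ).symm)

theorem τ_b₀ (h : Chart Z Zc T c b₀ r δ τ k₀) : τ (T b₀) = b₀ :=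
  (h.τ_unique (mem_ball_self h.δ_pos) (mem_closedBall_self h.r_pos.le) rfl).symm

theorem hsf_b₀ (h : Chart Z Zc T c b₀ r δ τ k₀) : hsf Z Zc τ (T b₀) = Ef Z Zc (T b₀) b₀ := by
  unfold hsf
  rw [h.τ_b₀]

theorem hsf_inc (_h : Chart Z Zc T c b₀ r δ τ k₀) (φ : ℂ) :
    Inc φ (hsf Z Zc τ φ) (Z (τ φ)) (Zc (τ φ)) = 0 :=
  inc_iff.2 rfl

theorem hsf_diff (h : Chart Z Zc T c b₀ r δ τ k₀) :
    DifferentiableOn ℂ (hsf Z Zc τ) (ball (T b₀) δ) :=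
  h.loc.Ef_diff differentiableOn_id h.τ_diff fun _ hx => h.τ_mem' hx

/-- the offset and the distance to the point of tangency -/
theorem size (h : Chart Z Zc T c b₀ r δ τ k₀) {φ p b : ℂ} (hφ : φ ∈ ball (T b₀) δ)
    (hb : b ∈ closedBall b₀ r) (hI : Inc φ p (Z b) (Zc b) = 0) :
    ‖(p - hsf Z Zc τ φ) - c b₀ * deriv T b₀ * (b - τ φ) ^ 2 / 2‖ ≤
      ‖c b₀ * deriv T b₀‖ / 32 * ‖b - τ φ‖ ^ 2 := by
  have h1 := h.loc.key3 (h.τ_mem' hφ) hb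
  rw [h.τ_eq φ hφ, inc_iff.1 hI] at h1
  exact h1

theorem size_le (h : Chart Z Zc T c b₀ r δ τ k₀) {φ p b : ℂ} (hφ : φ ∈ ball (T b₀) δ)
    (hb : b ∈ closedBall b₀ r) (hI : Inc φ p (Z b) (Zc b) = 0) :
    15 / 32 * ‖c b₀ * deriv T b₀‖ * ‖b - τ φ‖ ^ 2 ≤ ‖p - hsf Z Zc τ φ‖ := by
  have h1 := h.size hφ hb hI
  have h2 : ‖c b₀ * deriv T b₀ * (b - τ φ) ^ 2 / 2‖ = ‖c b₀ * deriv T b₀‖ * ‖b - τ φ‖ ^ 2 / 2 := by
    rw [norm_div, norm_mul (c b₀ * deriv T b₀), norm_pow, Complex.norm_ofNat]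
  have h3 := norm_sub_norm_le (c b₀ * deriv T b₀ * (b - τ φ) ^ 2 / 2) (p - hsf Z Zc τ φ)
  rw [norm_sub_rev (c b₀ * deriv T b₀ * (b - τ φ) ^ 2 / 2) (p - hsf Z Zc τ φ), h2] at h3
  linarith

theorem size_ge (h : Chart Z Zc T c b₀ r δ τ k₀) {φ p b : ℂ} (hφ : φ ∈ ball (T b₀) δ)
    (hb : b ∈ closedBall b₀ r) (hI : Inc φ p (Z b) (Zc b) = 0) :
    ‖p - hsf Z Zc τ φ‖ ≤ 17 / 32 * ‖c b₀ * deriv T b₀‖ * ‖b - τ φ‖ ^ 2 := by
  have h1 := h.size hφ hb hI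
  have h2 : ‖c b₀ * deriv T b₀ * (b - τ φ) ^ 2 / 2‖ = ‖c b₀ * deriv T b₀‖ * ‖b - τ φ‖ ^ 2 / 2 := by
    rw [norm_div, norm_mul (c b₀ * deriv T b₀), norm_pow, Complex.norm_ofNat]
  have h3 := norm_sub_norm_le (p - hsf Z Zc τ φ) (c b₀ * deriv T b₀ * (b - τ φ) ^ 2 / 2)
  rw [h2] at h3
  linarith

/-- (IN) labels in the big ball are in the ball of half the radius -/
theorem mem_half (h : Chart Z Zc T c b₀ r δ τ k₀) {φ p b : ℂ} (hφ : φ ∈ ball (T b₀) δ)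
    (hp : p ∈ ball (hsf Z Zc τ (T b₀)) δ) (hb : b ∈ closedBall b₀ r)
    (hI : Inc φ p (Z b) (Zc b) = 0) : b ∈ ball b₀ (r / 2) := by
  have hr := h.r_pos
  have h1 := h.size_le hφ hb hI
  rw [h.hsf_b₀] at hp
  have h2 : ‖p - hsf Z Zc τ φ‖ ≤ (r / (16 * ‖k₀‖)) ^ 2 := h.small φ hφ p hp
  have hK : 0 < ‖k₀‖ := norm_pos_iff.2 h.k0_ne
  have hμ := h.mu_pos
  have h3 : (r / (16 * ‖k₀‖)) ^ 2 = r ^ 2 * ‖c b₀ * deriv T b₀‖ / 512 := by
    rw [div_pow, div_eq_iff (by positivity)]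
    have e : r ^ 2 * ‖c b₀ * deriv T b₀‖ / 512 * (16 * ‖k₀‖) ^ 2 =
      r ^ 2 * (‖c b₀ * deriv T b₀‖ * ‖k₀‖ ^ 2) / 2 := by ring
    rw [e, h.muK]
    ring
  have h4 : ‖c b₀ * deriv T b₀‖ * (15 / 32 * ‖b - τ φ‖ ^ 2) ≤
      ‖c b₀ * deriv T b₀‖ * (r ^ 2 / 512) := by
    rw [h3] at h2
    linarith
  have h5 := le_of_mul_le_mul_left h4 hμ
  have h6 : ‖b - τ φ‖ < r / 4 := by
    refine lt_of_pow_lt_pow_left₀ 2 (by positivity) ?_
    nlinarith [sq_nonneg r, mul_pos hr hr]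
  have h7 := mem_closedBall_iff_norm.1 (h.τ_mem φ hφ)
  rw [mem_ball_iff_norm]
  have e : b - b₀ = (b - τ φ) + (τ φ - b₀) := by ring
  rw [e]
  refine (norm_add_le _ _).trans_lt ?_
  linarith

/-- (TAN) the offset is `0` iff some label near `b₀` is a tangency -/
theorem tan_iff (h : Chart Z Zc T c b₀ r δ τ k₀) {φ p : ℂ} (hφ : φ ∈ ball (T b₀) δ) :
    p = hsf Z Zc τ φ ↔ ∃ b ∈ ball b₀ r, Inc φ p (Z b) (Zc b) = 0 ∧ cexp (2 * I * (T b - φ)) = 1 := by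
  have hr := h.r_pos
  constructor
  · rintro rfl
    refine ⟨τ φ, closedBall_subset_ball (by linarith) (h.τ_mem φ hφ), h.hsf_inc φ, ?_⟩
    rw [h.τ_eq φ hφ]
    simp
  · rintro ⟨b, hb, hI, hexp⟩
    have hbc := ball_subset_closedBall hb
    have h1 : ‖T b - φ‖ ≤ 5 / 4 := by
      have h2 := h.loc.hT b hbc (τ φ) (h.τ_mem' hφ)
      rw [h.τ_eq φ hφ] at h2
      have h3 : ‖b - τ φ‖ ≤ 2 * r := by
        have e : b - τ φ = (b - b₀) - (τ φ - b₀) := by ring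
        rw [e]
        refine (norm_sub_le _ _).trans ?_
        have := mem_closedBall_iff_norm.1 hbc
        have := mem_closedBall_iff_norm.1 (h.τ_mem' hφ)
        linarith
      have h4 : ‖deriv T b₀ * (b - τ φ)‖ ≤ ‖deriv T b₀‖ * (2 * r) := by
        rw [norm_mul]
        gcongr
      have h5 : ‖deriv T b₀‖ / 4 * ‖b - τ φ‖ ≤ ‖deriv T b₀‖ / 4 * (2 * r) := by gcongr
      have h6 := h.loc.rT
      have e : T b - φ = (T b - φ - deriv T b₀ * (b - τ φ)) + deriv T b₀ * (b - τ φ) := by ring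
      rw [e]
      refine (norm_add_le _ _).trans ?_
      nlinarith
    obtain ⟨n, hn⟩ := Complex.exp_eq_one_iff.1 hexp
    have h2 : T b - φ = n * Real.pi := by
      have hI2 : (2 * I : ℂ) ≠ 0 := by simp
      have h3 : (2 * I : ℂ) * (T b - φ) = (2 * I) * (n * Real.pi) := by
        rw [hn]
        ring
      exact mul_left_cancel₀ hI2 h3
    have hn0 : n = 0 := by
      by_contra hne
      have h3 : (1 : ℝ) ≤ |(n : ℝ)| := by
        exact_mod_cast Int.one_le_abs hne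
      rw [h2, norm_mul, Complex.norm_intCast, Complex.norm_real, Real.norm_eq_abs,
        abs_of_pos Real.pi_pos] at h1
      nlinarith [Real.pi_gt_three]
    rw [hn0] at h2
    have h4 : T b = φ := by
      have : T b - φ = 0 := by simpa using h2
      exact sub_eq_zero.1 this
    have h5 := h.τ_unique hφ hbc h4
    rw [h5] at hI
    exact (inc_iff.1 hI).symm

variable {X : Type*} [NormedAddCommGroup X] [NormedSpace ℂ X] [FiniteDimensional ℂ X]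

/-- (ROOT) over a convex set of lines on which the offset has no zero the labels are two graphs -/
theorem graphs (h : Chart Z Zc T c b₀ r δ τ k₀) {V : Set X} (hV : IsOpen V) (hVc : Convex ℝ V)
    {φ p : X → ℂ} (hφ : DifferentiableOn ℂ φ V) (hp : DifferentiableOn ℂ p V)
    (hφm : ∀ x ∈ V, φ x ∈ ball (T b₀) δ) (hpm : ∀ x ∈ V, p x ∈ ball (hsf Z Zc τ (T b₀)) δ)
    (hne : ∀ x ∈ V, p x ≠ hsf Z Zc τ (φ x)) :
    ∃ G₁ G₂ : X → ℂ, DifferentiableOn ℂ G₁ V ∧ DifferentiableOn ℂ G₂ V ∧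
      (∀ x ∈ V, G₁ x ∈ ball b₀ (r / 2) ∧ G₂ x ∈ ball b₀ (r / 2) ∧ G₁ x ≠ G₂ x ∧
        Inc (φ x) (p x) (Z (G₁ x)) (Zc (G₁ x)) = 0 ∧ Inc (φ x) (p x) (Z (G₂ x)) (Zc (G₂ x)) = 0) ∧
      ∀ x ∈ V, ∀ b ∈ closedBall b₀ r, Inc (φ x) (p x) (Z b) (Zc b) = 0 → b = G₁ x ∨ b = G₂ x := by
  have hr := h.r_pos
  have hK : 0 < ‖k₀‖ := norm_pos_iff.2 h.k0_ne
  have hq : DifferentiableOn ℂ (fun x => p x - hsf Z Zc τ (φ x)) V := by
    refine hp.sub fun x hx => ?_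
    exact (h.hsf_diff.differentiableAt (isOpen_ball.mem_nhds (hφm x hx))).comp_differentiableWithinAt
      x (hφ x hx)
  obtain ⟨s, hs, hsq⟩ := exists_sqrt hV hVc hq fun x hx => sub_ne_zero.2 (hne x hx)
  have hs0 : ∀ x ∈ V, s x ≠ 0 := by
    intro x hx h0
    apply sub_ne_zero.2 (hne x hx)
    have := hsq x hx
    rw [h0] at this
    rw [← this]
    simp
  have hsm : ∀ x ∈ V, ‖s x‖ ≤ r / (16 * ‖k₀‖) := by
    intro x hx
    refine le_of_sq_le_sq ?_ (by positivity)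
    rw [← norm_pow, hsq x hx]
    have h1 := hpm x hx
    rw [h.hsf_b₀] at h1
    exact h.small _ (hφm x hx) _ h1
  have hw : DifferentiableOn ℂ (fun x => τ (φ x)) V := fun x hx =>
    (h.τ_diff.differentiableAt (isOpen_ball.mem_nhds (hφm x hx))).comp_differentiableWithinAt
      x (hφ x hx)
  obtain ⟨G₁, a1, a2, a3⟩ := h.loc.graph h.k₀_eq hV hw (fun x hx => h.τ_mem _ (hφm x hx)) hs hs0 hsm
  obtain ⟨G₂, b1, b2, b3⟩ := h.loc.graph h.k₀_eq hV hw (fun x hx => h.τ_mem _ (hφm x hx)) hs.neg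
    (fun x hx => by simpa using hs0 x hx) (fun x hx => by simpa using hsm x hx)
  have hiff : ∀ x ∈ V, ∀ b, (Inc (φ x) (p x) (Z b) (Zc b) = 0 ↔
      Ef Z Zc (T (τ (φ x))) b - Ef Z Zc (T (τ (φ x))) (τ (φ x)) = s x ^ 2) := by
    intro x hx b
    rw [inc_iff, h.τ_eq _ (hφm x hx), hsq x hx]
    simp only [hsf]
    constructor <;> intro h <;> linear_combination h
  refine ⟨G₁, G₂, a1, b1, ?_, ?_⟩
  · intro x hx
    obtain ⟨p1, p2, p3⟩ := a2 x hx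
    obtain ⟨q1, q2, q3⟩ := b2 x hx
    refine ⟨p1, q1, ?_, (hiff x hx _).2 p2, (hiff x hx _).2 ?_⟩
    · intro heq
      rw [← heq] at q3
      have e : (G₁ x - τ (φ x)) / (-s) x = -((G₁ x - τ (φ x)) / s x) := by
        rw [Pi.neg_apply, div_neg]
      rw [e] at q3
      have e2 : (2 : ℂ) * k₀ = -((-((G₁ x - τ (φ x)) / s x)) - k₀) -
          ((G₁ x - τ (φ x)) / s x - k₀) := by ring
      have e3 : ‖(2 : ℂ) * k₀‖ ≤ ‖k₀‖ / 8 + ‖k₀‖ / 8 := by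
        rw [e2]
        refine (norm_sub_le _ _).trans (add_le_add ?_ p3)
        rw [norm_neg]
        exact q3
      rw [norm_mul, Complex.norm_ofNat] at e3
      linarith
    · rw [q2]
      simp
  · intro x hx b hb hI
    have h1 := (hiff x hx b).1 hI
    rcases h.loc.classify h.k₀_eq (h.τ_mem' (hφm x hx)) (hs0 x hx) hb h1 with h2 | h2
    · exact Or.inl (a3 x hx b hb h2 h1)
    · right
      refine b3 x hx b hb ?_ (by rw [h1]; simp)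
      rw [Pi.neg_apply, div_neg, ← norm_neg, neg_sub, sub_neg_eq_add, add_comm]
      exact h2

omit [NormedSpace ℂ X] [FiniteDimensional ℂ X] in
/-- a continuous label over a preconnected set is one of two different continuous graphs -/
theorem dich {W : Set X} (hW : IsPreconnected W) {B G₁ G₂ : X → ℂ} (hB : ContinuousOn B W)
    (h1 : ContinuousOn G₁ W) (h2 : ContinuousOn G₂ W) (hne : ∀ x ∈ W, G₁ x ≠ G₂ x)
    (hor : ∀ x ∈ W, B x = G₁ x ∨ B x = G₂ x) : EqOn B G₁ W ∨ EqOn B G₂ W := by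
  rcases W.eq_empty_or_nonempty with rfl | ⟨x₀, hx₀⟩
  · exact Or.inl (eqOn_empty _ _)
  have hne' : ∀ x ∈ W, G₂ x - G₁ x ≠ 0 := fun x hx => sub_ne_zero.2 (hne x hx).symm
  have hc : ContinuousOn (fun x => (B x - G₁ x) / (G₂ x - G₁ x)) W := (hB.sub h1).div (h2.sub h1) hne'
  have hm : MapsTo (fun x => (B x - G₁ x) / (G₂ x - G₁ x)) W ({0, 1} : Set ℂ) := by
    intro x hx
    rcases hor x hx with h | h
    · left
      show (B x - G₁ x) / (G₂ x - G₁ x) = 0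
      rw [h]
      simp
    · right
      show (B x - G₁ x) / (G₂ x - G₁ x) = 1
      rw [h]
      exact div_self (hne' x hx)
  have hfin : IsDiscrete ({0, 1} : Set ℂ) := (Set.toFinite ({0, 1} : Set ℂ)).isDiscrete
  have hconst : ∀ x ∈ W, (B x - G₁ x) / (G₂ x - G₁ x) = (B x₀ - G₁ x₀) / (G₂ x₀ - G₁ x₀) :=
    fun x hx => hW.constant_of_mapsTo hfin hc hm hx hx₀
  rcases hor x₀ hx₀ with h | h
  · left
    intro x hx
    have := hconst x hx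
    rw [h, sub_self, zero_div, div_eq_zero_iff] at this
    rcases this with h3 | h3
    · exact sub_eq_zero.1 h3
    · exact absurd h3 (hne' x hx)
  · right
    intro x hx
    have := hconst x hx
    rw [h, div_self (hne' x₀ hx₀), div_eq_one_iff_eq (hne' x hx)] at this
    linear_combination this

/-- (ROOT) continuation of one label -/
theorem root (h : Chart Z Zc T c b₀ r δ τ k₀) {V : Set X} (hV : IsOpen V) (hVc : Convex ℝ V)
    {φ p : X → ℂ} (hφ : DifferentiableOn ℂ φ V) (hp : DifferentiableOn ℂ p V)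
    (hφm : ∀ x ∈ V, φ x ∈ ball (T b₀) δ) (hpm : ∀ x ∈ V, p x ∈ ball (hsf Z Zc τ (T b₀)) δ)
    (hne : ∀ x ∈ V, p x ≠ hsf Z Zc τ (φ x)) {x₀ : X} (hx₀ : x₀ ∈ V) {b₁ : ℂ}
    (hb₁ : b₁ ∈ closedBall b₀ r) (hI : Inc (φ x₀) (p x₀) (Z b₁) (Zc b₁) = 0) :
    ∃ G : X → ℂ, DifferentiableOn ℂ G V ∧ G x₀ = b₁ ∧
      ∀ x ∈ V, G x ∈ ball b₀ (r / 2) ∧ Inc (φ x) (p x) (Z (G x)) (Zc (G x)) = 0 := by
  obtain ⟨G₁, G₂, d1, d2, e1, e2⟩ := h.graphs hV hVc hφ hp hφm hpm hne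
  rcases e2 x₀ hx₀ b₁ hb₁ hI with h1 | h1
  · exact ⟨G₁, d1, h1.symm, fun x hx => ⟨(e1 x hx).1, (e1 x hx).2.2.2.1⟩⟩
  · exact ⟨G₂, d2, h1.symm, fun x hx => ⟨(e1 x hx).2.1, (e1 x hx).2.2.2.2⟩⟩

/-- (UNIQ) -/
theorem uniq (h : Chart Z Zc T c b₀ r δ τ k₀) {V : Set X} (hV : IsOpen V) (hVc : Convex ℝ V)
    {φ p : X → ℂ} (hφ : DifferentiableOn ℂ φ V) (hp : DifferentiableOn ℂ p V)
    (hφm : ∀ x ∈ V, φ x ∈ ball (T b₀) δ) (hpm : ∀ x ∈ V, p x ∈ ball (hsf Z Zc τ (T b₀)) δ)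
    (hne : ∀ x ∈ V, p x ≠ hsf Z Zc τ (φ x)) {W : Set X} (hWV : W ⊆ V) (hW : IsPreconnected W)
    {B₁ B₂ : X → ℂ} (hB₁ : ContinuousOn B₁ W) (hB₂ : ContinuousOn B₂ W)
    (h₁ : ∀ x ∈ W, B₁ x ∈ closedBall b₀ r ∧ Inc (φ x) (p x) (Z (B₁ x)) (Zc (B₁ x)) = 0)
    (h₂ : ∀ x ∈ W, B₂ x ∈ closedBall b₀ r ∧ Inc (φ x) (p x) (Z (B₂ x)) (Zc (B₂ x)) = 0)
    {x₀ : X} (hx₀ : x₀ ∈ W) (heq : B₁ x₀ = B₂ x₀) : EqOn B₁ B₂ W := by
  obtain ⟨G₁, G₂, d1, d2, e1, e2⟩ := h.graphs hV hVc hφ hp hφm hpm hne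
  have hG : ∀ x ∈ W, G₁ x ≠ G₂ x := fun x hx => (e1 x (hWV hx)).2.2.1
  have c1 := d1.continuousOn.mono hWV
  have c2 := d2.continuousOn.mono hWV
  rcases dich hW hB₁ c1 c2 hG (fun x hx => e2 x (hWV hx) _ (h₁ x hx).1 (h₁ x hx).2) with f1 | f1 <;>
  rcases dich hW hB₂ c1 c2 hG (fun x hx => e2 x (hWV hx) _ (h₂ x hx).1 (h₂ x hx).2) with f2 | f2
  · exact f1.trans f2.symm
  · exact absurd ((f1 hx₀).symm.trans (heq.trans (f2 hx₀))) (hG x₀ hx₀)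
  · exact absurd ((f2 hx₀).symm.trans (heq.symm.trans (f1 hx₀))) (hG x₀ hx₀)
  · exact f1.trans f2.symm

/-- a continuous label over a preconnected set of lines without tangency is the restriction of a
holomorphic label over the whole convex set -/
theorem extend (h : Chart Z Zc T c b₀ r δ τ k₀) {V : Set X} (hV : IsOpen V) (hVc : Convex ℝ V)
    {φ p : X → ℂ} (hφ : DifferentiableOn ℂ φ V) (hp : DifferentiableOn ℂ p V)
    (hφm : ∀ x ∈ V, φ x ∈ ball (T b₀) δ) (hpm : ∀ x ∈ V, p x ∈ ball (hsf Z Zc τ (T b₀)) δ)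
    (hne : ∀ x ∈ V, p x ≠ hsf Z Zc τ (φ x)) {W : Set X} (hWV : W ⊆ V) (hW : IsPreconnected W)
    {B : X → ℂ} (hB : ContinuousOn B W)
    (hBI : ∀ x ∈ W, B x ∈ closedBall b₀ r ∧ Inc (φ x) (p x) (Z (B x)) (Zc (B x)) = 0) :
    ∃ G : X → ℂ, DifferentiableOn ℂ G V ∧ EqOn B G W ∧
      ∀ x ∈ V, G x ∈ ball b₀ (r / 2) ∧ Inc (φ x) (p x) (Z (G x)) (Zc (G x)) = 0 := by
  obtain ⟨G₁, G₂, d1, d2, e1, e2⟩ := h.graphs hV hVc hφ hp hφm hpm hne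
  have hG : ∀ x ∈ W, G₁ x ≠ G₂ x := fun x hx => (e1 x (hWV hx)).2.2.1
  rcases dich hW hB (d1.continuousOn.mono hWV) (d2.continuousOn.mono hWV) hG
    (fun x hx => e2 x (hWV hx) _ (hBI x hx).1 (hBI x hx).2) with f1 | f1
  · exact ⟨G₁, d1, f1, fun x hx => ⟨(e1 x hx).1, (e1 x hx).2.2.2.1⟩⟩
  · exact ⟨G₂, d2, f1, fun x hx => ⟨(e1 x hx).2.1, (e1 x hx).2.2.2.2⟩⟩

omit [FiniteDimensional ℂ X] in
/-- area form of the chart `(φ, Q)`, `Q = p - hs φ` : `dφ ∧ dQ = dφ ∧ dp` -/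
theorem area (h : Chart Z Zc T c b₀ r δ τ k₀) {φ p : X → ℂ} {φ' p' : X →L[ℂ] ℂ} {x : X}
    (hφ : HasFDerivAt φ φ' x) (hp : HasFDerivAt p p' x) (hx : φ x ∈ ball (T b₀) δ) :
    ∃ Q' : X →L[ℂ] ℂ, HasFDerivAt (fun y => p y - hsf Z Zc τ (φ y)) Q' x ∧
      ∀ v w, φ' v * Q' w - φ' w * Q' v = φ' v * p' w - φ' w * p' v := by
  have h1 : HasDerivAt (hsf Z Zc τ) (deriv (hsf Z Zc τ) (φ x)) (φ x) :=
    (h.hsf_diff.differentiableAt (isOpen_ball.mem_nhds hx)).hasDerivAt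
  refine ⟨_, hp.sub (h1.comp_hasFDerivAt x hφ), fun v w => ?_⟩
  simp only [_root_.sub_apply, _root_.smul_apply, smul_eq_mul]
  ring

/-- `(φ, p) ↦ τ φ` and the angle: `exp (2 i (T b - φ)) - 1` is comparable with `b - τ φ` -/
theorem T_lip (h : Chart Z Zc T c b₀ r δ τ k₀) {φ b : ℂ} (hφ : φ ∈ ball (T b₀) δ)
    (hb : b ∈ closedBall b₀ r) :
    ‖(T b - φ) - deriv T b₀ * (b - τ φ)‖ ≤ ‖deriv T b₀‖ / 4 * ‖b - τ φ‖ := by
  have h2 := h.loc.hT b hb (τ φ) (h.τ_mem' hφ)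
  rw [h.τ_eq φ hφ] at h2
  exact h2

end Chart

/-- the form announced in r102 -/
theorem tang {S : Set ℂ} {Z Zc T c : ℂ → ℂ} {b₀ : ℂ} (hS : IsOpen S) (hb₀ : b₀ ∈ S)
    (hZ : ∀ b ∈ S, HasDerivAt Z (c b * cexp (I * T b)) b)
    (hZc : ∀ b ∈ S, HasDerivAt Zc (c b * cexp (-(I * T b))) b)
    (hT : DifferentiableOn ℂ T S) (hc : ContinuousOn c S) (hc0 : c b₀ ≠ 0)
    (hT0 : deriv T b₀ ≠ 0) {r0 : ℝ} (hr0 : 0 < r0) :
    ∃ r > 0, r ≤ r0 ∧ closedBall b₀ r ⊆ S ∧ ∃ δ > 0, ∃ hs : ℂ → ℂ,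
      DifferentiableOn ℂ hs (ball (T b₀) δ) ∧ Inc (T b₀) (hs (T b₀)) (Z b₀) (Zc b₀) = 0 ∧
      (∀ V : Set (ℂ × ℂ), IsOpen V → Convex ℝ V → ∀ φ p : ℂ × ℂ → ℂ, DifferentiableOn ℂ φ V →
        DifferentiableOn ℂ p V → (∀ x ∈ V, φ x ∈ ball (T b₀) δ) →
        (∀ x ∈ V, p x ∈ ball (hs (T b₀)) δ) → (∀ x ∈ V, p x ≠ hs (φ x)) →
        (∀ x₀ ∈ V, ∀ b₁ ∈ ball b₀ r, Inc (φ x₀) (p x₀) (Z b₁) (Zc b₁) = 0 →
          ∃ G : ℂ × ℂ → ℂ, DifferentiableOn ℂ G V ∧ G x₀ = b₁ ∧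
            ∀ x ∈ V, G x ∈ ball b₀ r ∧ Inc (φ x) (p x) (Z (G x)) (Zc (G x)) = 0) ∧
        (∀ W ⊆ V, IsPreconnected W → ∀ B₁ B₂ : ℂ × ℂ → ℂ, ContinuousOn B₁ W → ContinuousOn B₂ W →
          (∀ x ∈ W, B₁ x ∈ ball b₀ r ∧ Inc (φ x) (p x) (Z (B₁ x)) (Zc (B₁ x)) = 0) →
          (∀ x ∈ W, B₂ x ∈ ball b₀ r ∧ Inc (φ x) (p x) (Z (B₂ x)) (Zc (B₂ x)) = 0) →
          (∃ x ∈ W, B₁ x = B₂ x) → EqOn B₁ B₂ W)) ∧
      (∀ φ ∈ ball (T b₀) δ, ∀ p ∈ ball (hs (T b₀)) δ, ∀ b ∈ closedBall b₀ r,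
        Inc φ p (Z b) (Zc b) = 0 → b ∈ ball b₀ (r / 2)) ∧
      (∀ φ ∈ ball (T b₀) δ, ∀ p, p = hs φ ↔
        ∃ b ∈ ball b₀ r, Inc φ p (Z b) (Zc b) = 0 ∧ cexp (2 * I * (T b - φ)) = 1) := by
  obtain ⟨r, hr, hrr, hrS, δ, hδ, -, τ, k₀, h⟩ :=
    exists_chart hS hb₀ hZ hZc hT (hc.continuousAt (hS.mem_nhds hb₀)) hc0 hT0 hr0
  have hb : ball b₀ (r / 2) ⊆ ball b₀ r := ball_subset_ball (by linarith)
  refine ⟨r, hr, hrr, hrS, δ, hδ, hsf Z Zc τ, h.hsf_diff, ?_, ?_, ?_, ?_⟩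
  · have := h.hsf_inc (T b₀)
    rwa [h.τ_b₀] at this
  · intro V hV hVc φ p hφ hp hφm hpm hne
    refine ⟨?_, ?_⟩
    · intro x₀ hx₀ b₁ hb₁ hI
      obtain ⟨G, g1, g2, g3⟩ := h.root hV hVc hφ hp hφm hpm hne hx₀ (ball_subset_closedBall hb₁) hI
      exact ⟨G, g1, g2, fun x hx => ⟨hb (g3 x hx).1, (g3 x hx).2⟩⟩
    · rintro W hWV hW B₁ B₂ hB₁ hB₂ h₁ h₂ ⟨x₀, hx₀, heq⟩
      exact h.uniq hV hVc hφ hp hφm hpm hne hWV hW hB₁ hB₂
        (fun x hx => ⟨ball_subset_closedBall (h₁ x hx).1, (h₁ x hx).2⟩)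
        (fun x hx => ⟨ball_subset_closedBall (h₂ x hx).1, (h₂ x hx).2⟩) hx₀ heq
  · intro φ hφ p hp b hb hI
    exact h.mem_half hφ hp hb hI
  · intro φ hφ p
    exact h.tan_iff hφ

end Crest.Agent.R102.Tang654
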