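import Crest.Agent.R102.EdgeC_300
import Crest.Agent.R102.Tang_654
import Crest.Agent.R102.Face2_300

/-!
Row 102, T1-B, EDGE, case (c1), part B (helper300): births of a sequence of windows converging to
tangent lines are zeros of the offset `p - hsf φ` of the tangent chart of helper654.
-/

set_option autoImplicit false

open Set Filter Topology Metric Complex

noncomputable section

namespace Crest.Agent.R102.EdgeC300

open Crest.Agent.R102.EdgeLim196 Crest.Agent.R102.LemX262 Crest.Agent.R102.SlowLim754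
open Crest.Agent.R102.Tang654 (Chart hsf Ef inc_iff exists_chart)
open Crest.Agent.R266.SCV

/-! ### integer periods -/

theorem Sp_int {h : ℝ} {b : ℂ} (hb : b ∈ Sp h) (n : ℤ) : b + n ∈ Sp h := by
  show |(b + n).im| < h
  have : (b + n).im = b.im := by simp
  rw [this]; exact hb

theorem Sp_int' {h : ℝ} {b : ℂ} (hb : b ∈ Sp h) (n : ℤ) : b - n ∈ Sp h := by
  show |(b - n).im| < h
  have : (b - n).im = b.im := by simp
  rw [this]; exact hb

theorem per_int {h : ℝ} {f : ℂ → ℂ} {d : ℂ} (hf : ∀ b ∈ Sp h, f (b + 1) = f b + d) (n : ℤ) :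
    ∀ b ∈ Sp h, f (b + n) = f b + n * d := by
  have hnat : ∀ m : ℕ, ∀ b ∈ Sp h, f (b + m) = f b + m * d := by
    intro m
    induction m with
    | zero => intro b hb; simp
    | succ m ih =>
      intro b hb
      have h1 : b + m ∈ Sp h := by
        have := Sp_int hb (m : ℤ)
        simpa using this
      have h2 := hf _ h1
      rw [ih b hb] at h2
      push_cast
      rw [← add_assoc, h2]
      ring
  intro b hb
  obtain ⟨m, rfl | rfl⟩ := n.eq_nat_or_neg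
  · simpa using hnat m b hb
  · have h1 := hnat m (b + ((-(m : ℤ) : ℤ) : ℂ)) (Sp_int hb _)
    have h2 : b + ((-(m : ℤ) : ℤ) : ℂ) + m = b := by push_cast; ring
    rw [h2] at h1
    push_cast at h1 ⊢
    rw [h1]; ring

theorem deriv_per_int {h : ℝ} {f : ℂ → ℂ} {d : ℂ} (hf : ∀ b ∈ Sp h, f (b + 1) = f b + d) (n : ℤ) :
    ∀ b ∈ Sp h, deriv f (b + n) = deriv f b := by
  intro b hb
  have h1 : (fun x => f (x + n)) =ᶠ[𝓝 b] fun x => f x + n * d := by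
    filter_upwards [(isOpen_Sp h).mem_nhds hb] with x hx
    exact per_int hf n x hx
  have h2 := h1.deriv_eq
  rw [deriv_comp_add_const, deriv_add_const] at h2
  exact h2

theorem inc_int {h : ℝ} {ψ H : ℂ → ℂ} {k0 : ℤ}
    (hψ : ∀ b ∈ Sp h, ψ (b + 1) = ψ b + 2 * Real.pi * k0) (hH : ∀ b ∈ Sp h, H (b + 1) = H b)
    (n : ℤ) {φ p b : ℂ} (hb : b ∈ Sp h) :
    F300.Inc ψ H φ p (b + n) ↔ F300.Inc ψ H φ p b := by
  have hH' : ∀ b ∈ Sp h, H (b + 1) = H b + 0 := fun b hb => by rw [hH b hb, add_zero]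
  unfold F300.Inc
  rw [deriv_per_int hψ n b hb, deriv_per_int hH' n b hb, per_int hH' n b hb,
    per_int hψ n b hb]
  have e : φ - (ψ b + n * (2 * Real.pi * k0)) = (φ - ψ b) - ((n * k0 : ℤ) : ℂ) * (2 * Real.pi) := by
    push_cast; ring
  rw [e, Complex.cos_sub_int_mul_two_pi, Complex.sin_sub_int_mul_two_pi, mul_zero, add_zero]

theorem tan_int {h : ℝ} {ψ : ℂ → ℂ} {k0 : ℤ}
    (hψ : ∀ b ∈ Sp h, ψ (b + 1) = ψ b + 2 * Real.pi * k0) (n : ℤ) {φ b : ℂ} (hb : b ∈ Sp h) :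
    cexp (2 * I * (ψ (b + n) - φ)) = cexp (2 * I * (ψ b - φ)) := by
  rw [per_int hψ n b hb]
  have e : 2 * I * (ψ b + n * (2 * Real.pi * k0) - φ) =
      2 * I * (ψ b - φ) + ((2 * n * k0 : ℤ) : ℂ) * (2 * Real.pi * I) := by
    push_cast; ring
  rw [e, Complex.exp_periodic.int_mul (2 * n * k0)]

/-! ### pointwise facts on the chart -/

/-- a label which does not continue has a tangent line nearby -/
theorem birth_zero {Z Zc T c τ : ℂ → ℂ} {b1 κ : ℂ} {r δ : ℝ} (hC : Chart Z Zc T c b1 r δ τ κ)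
    {V W : Set (ℂ × ℂ)} (hV : IsOpen V) (hVc : Convex ℝ V) {φ p : ℂ × ℂ → ℂ}
    (hφ : DifferentiableOn ℂ φ V) (hp : DifferentiableOn ℂ p V)
    (hφm : ∀ x ∈ V, φ x ∈ ball (T b1) δ) (hpm : ∀ x ∈ V, p x ∈ ball (hsf Z Zc τ (T b1)) δ)
    (hWV : W ⊆ V) (hW : IsPreconnected W) {B : ℂ × ℂ → ℂ} (hB : ContinuousOn B W)
    (hBI : ∀ x ∈ W, B x ∈ closedBall b1 r ∧ End613.Inc (φ x) (p x) (Z (B x)) (Zc (B x)) = 0)
    (hno : ¬ ∃ G : ℂ × ℂ → ℂ, DifferentiableOn ℂ G V ∧ (∀ x ∈ V, G x ∈ closedBall b1 r) ∧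
      EqOn B G W) :
    ∃ x ∈ V, p x = hsf Z Zc τ (φ x) := by
  by_contra hcon
  push Not at hcon
  obtain ⟨G, g1, g2, g3⟩ := hC.extend hV hVc hφ hp hφm hpm hcon hWV hW hB hBI
  have hr := hC.r_pos
  exact hno ⟨G, g1, fun x hx => ball_subset_closedBall
    (ball_subset_ball (by linarith) (g3 x hx).1), g2⟩

/-- on a tangent line every near label is the point of tangency -/
theorem zero_label {Z Zc T c τ : ℂ → ℂ} {b1 κ : ℂ} {r δ : ℝ} (hC : Chart Z Zc T c b1 r δ τ κ)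
    {φ p b : ℂ} (hφ : φ ∈ ball (T b1) δ) (hb : b ∈ closedBall b1 r)
    (hI : End613.Inc φ p (Z b) (Zc b) = 0) (h0 : p = hsf Z Zc τ φ) : T b = φ := by
  have h1 := hC.size_le hφ hb hI
  rw [h0, sub_self, norm_zero] at h1
  have h2 := hC.mu_pos
  have h3 : ‖b - τ φ‖ = 0 := by
    by_contra hne
    have h4 : 0 < ‖b - τ φ‖ := lt_of_le_of_ne (norm_nonneg _) (Ne.symm hne)
    have : 0 < 15 / 32 * ‖c b1 * deriv T b1‖ * ‖b - τ φ‖ ^ 2 := by positivity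
    linarith
  have h4 : b = τ φ := sub_eq_zero.1 (norm_eq_zero.1 h3)
  rw [h4]
  exact hC.τ_eq φ hφ

/-! ### the chart of a curve given by `(ψ, H)` -/

/-- `T = ψ + π j` -/
def Tj (ψ : ℂ → ℂ) (j : ℤ) (b : ℂ) : ℂ := ψ b + Real.pi * j

/-- the coefficient `c` of the chart -/
def cj (ψ : ℂ → ℂ) (c : ℂ) (j : ℤ) (b : ℂ) : ℂ := cexp (I * (Real.pi * j)) * (-c / deriv ψ b ^ 2)

theorem exp_pij (j : ℤ) : cexp (I * (Real.pi * j)) * cexp (I * (Real.pi * j)) = 1 := by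
  rw [← Complex.exp_add]
  have : I * (Real.pi * j) + I * (Real.pi * j) = (j : ℂ) * (2 * Real.pi * I) := by ring
  rw [this, Complex.exp_int_mul_two_pi_mul_I]

theorem exp_pij' (j : ℤ) : cexp (-(I * (Real.pi * j))) = cexp (I * (Real.pi * j)) := by
  rw [Complex.exp_neg]
  exact (eq_inv_of_mul_eq_one_left (exp_pij j)).symm

/-- chart at a label with `ψ' ≠ 0` -/
theorem exists_chart' {h : ℝ} {ψ H : ℂ → ℂ} {c : ℂ} (hψ : DifferentiableOn ℂ ψ (Sp h))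
    (hH : DifferentiableOn ℂ H (Sp h)) (hrel : F300.Rel (Sp h) ψ H c) (hc : c ≠ 0) {b1 : ℂ}
    (hb1 : |b1.im| < h) (hy : deriv ψ b1 ≠ 0) (j : ℤ) {r0 : ℝ} (hr0 : 0 < r0) :
    ∃ r > 0, r ≤ r0 ∧ (∀ b ∈ closedBall b1 r, |b.im| < h ∧ deriv ψ b ≠ 0) ∧ ∃ δ > 0, δ ≤ r0 ∧
      ∃ (τ : ℂ → ℂ) (κ : ℂ),
        Chart (F300.ZZ ψ H) (F300.ZZc ψ H) (Tj ψ j) (cj ψ c j) b1 r δ τ κ := by
  have hSo : IsOpen {b | b ∈ Sp h ∧ deriv ψ b ≠ 0} := by
    have h1 : ContinuousOn (deriv ψ) (Sp h) := (hψ.deriv (isOpen_Sp h)).continuousOn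
    exact h1.isOpen_inter_preimage (isOpen_Sp h) isOpen_compl_singleton
  have hb1S : b1 ∈ {b | b ∈ Sp h ∧ deriv ψ b ≠ 0} := ⟨hb1, hy⟩
  have hdd : ∀ b ∈ Sp h, deriv (Tj ψ j) b = deriv ψ b := by
    intro b _
    show deriv (fun b => ψ b + Real.pi * j) b = _
    rw [deriv_add_const]
  obtain ⟨r, hr, hrr, hrS, δ, hδ, hδr, τ, κ, hC⟩ := exists_chart (S := {b | b ∈ Sp h ∧ deriv ψ b ≠ 0})
    (Z := F300.ZZ ψ H) (Zc := F300.ZZc ψ H) (T := Tj ψ j) (c := cj ψ c j) hSo hb1S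
    (fun b hb => by
      have h1 := (F300.hasDerivAt_ZZ (isOpen_Sp h) hψ hH hrel hb.1 hb.2).1
      refine h1.congr_deriv ?_
      unfold Tj cj
      rw [mul_add, Complex.exp_add]
      linear_combination (-(-c / deriv ψ b ^ 2) * cexp (I * ψ b)) * exp_pij j)
    (fun b hb => by
      have h1 := (F300.hasDerivAt_ZZ (isOpen_Sp h) hψ hH hrel hb.1 hb.2).2
      refine h1.congr_deriv ?_
      unfold Tj cj
      rw [mul_add, neg_add, Complex.exp_add, exp_pij' j]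
      linear_combination (-(-c / deriv ψ b ^ 2) * cexp (-(I * ψ b))) * exp_pij j)
    ((hψ.mono fun b hb => hb.1).add_const _)
    (by
      have h1 : ContinuousAt (deriv ψ) b1 :=
        ((hψ.deriv (isOpen_Sp h)).differentiableAt ((isOpen_Sp h).mem_nhds hb1)).continuousAt
      exact continuousAt_const.mul (continuousAt_const.div (h1.pow 2) (pow_ne_zero 2 hy)))
    (mul_ne_zero (exp_ne_zero _) (div_ne_zero (neg_ne_zero.2 hc) (pow_ne_zero 2 hy)))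
    (by rw [hdd b1 hb1]; exact hy) hr0
  exact ⟨r, hr, hrr, fun b hb => hrS hb, δ, hδ, hδr, τ, κ, hC⟩

/-- incidence in the two forms -/
theorem inc_iff' {ψ H : ℂ → ℂ} {φ p b : ℂ} (hb : deriv ψ b ≠ 0) :
    End613.Inc φ p (F300.ZZ ψ H b) (F300.ZZc ψ H b) = 0 ↔ F300.Inc ψ H φ p b := by
  rw [← F300.onLine_iff ψ H hb]
  unfold End613.Inc C0.OnLine
  rw [sub_eq_zero]

/-! ### the sequence of windows -/

/-- `f n → fl` locally uniformly: `f n` maps a compact set into an open set which contains the limit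
values -/
theorem ev_mapsTo {ι : Type*} {l : Filter ι} {f : ι → ℂ × ℂ → ℂ} {fl : ℂ × ℂ → ℂ} {D : Set (ℂ × ℂ)}
    (hD : IsOpen D) (hf : TendstoLocallyUniformlyOn f fl l D) (hfl : ContinuousOn fl D)
    {K : Set (ℂ × ℂ)} (hK : K ⊆ D) (hKc : IsCompact K) {O : Set ℂ} (hO : IsOpen O)
    (hm : ∀ x ∈ K, fl x ∈ O) : ∀ᶠ n in l, ∀ x ∈ K, f n x ∈ O := by
  have h1 : TendstoUniformlyOn f fl l K :=
    (tendstoLocallyUniformlyOn_iff_forall_isCompact hD).1 hf K hK hKc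
  have h2 : IsCompact (fl '' K) := hKc.image_of_continuousOn (hfl.mono hK)
  obtain ⟨ε, hε, h3⟩ := h2.exists_thickening_subset_open hO
    (by rintro _ ⟨x, hx, rfl⟩; exact hm x hx)
  filter_upwards [Metric.tendstoUniformlyOn_iff.1 h1 ε hε] with n hn x hx
  exact h3 (mem_thickening_iff.2 ⟨fl x, ⟨x, hx, rfl⟩, by rw [dist_comm]; exact hn x hx⟩)

/-- a sequence of windows which converges, without regular continuation of the label through the
face -/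
structure Seq {ι : Type*} (l : Filter ι) (h a g : ℝ) (ψ H : ℂ → ℂ) (φ p B : ι → ℂ × ℂ → ℂ)
    (k : ι → ℤ) (φl pl Bl : ℂ × ℂ → ℂ) : Prop where
  φd : ∀ K ⊆ Lo (a + g), IsCompact K → ∀ᶠ n in l, ∀ x ∈ K, DifferentiableAt ℂ (φ n) x
  pd : ∀ K ⊆ Lo (a + g), IsCompact K → ∀ᶠ n in l, ∀ x ∈ K, DifferentiableAt ℂ (p n) x
  φt : TendstoLocallyUniformlyOn φ φl l (Lo (a + g))
  pt : TendstoLocallyUniformlyOn p pl l (Lo (a + g))
  Bt : TendstoLocallyUniformlyOn (fun n x => B n x - k n) Bl l (Lo a)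
  φld : DifferentiableOn ℂ φl (Lo (a + g))
  pld : DifferentiableOn ℂ pl (Lo (a + g))
  Bld : DifferentiableOn ℂ Bl (Lo a)
  Blm : ∀ x ∈ Lo a, |(Bl x).im| < h
  lab : ∀ K ⊆ Lo a, IsCompact K → ∀ᶠ n in l, ∀ x ∈ K, DifferentiableAt ℂ (B n) x ∧
    |(B n x).im| < h ∧ F300.Inc ψ H (φ n x) (p n x) (B n x) ∧
    (deriv ψ (B n x) ≠ 0 → cexp (2 * I * (ψ (B n x) - φ n x)) ≠ 1)
  noReg : ∀ q0 ∈ Fc a, ∀ r > 0, ∀ K ⊆ ball q0 r ∩ Lo a, IsCompact K → ∀ᶠ n in l,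
    ¬ ∃ G : ℂ × ℂ → ℂ, DifferentiableOn ℂ G (ball q0 r) ∧ (∀ x ∈ ball q0 r, |(G x).im| < h) ∧
      ∃ x ∈ K, G =ᶠ[𝓝 x] B n

section seq

variable {ι : Type*} {l : Filter ι} {h a g : ℝ} {ψ H : ℂ → ℂ} {φ p B : ι → ℂ × ℂ → ℂ}
  {k : ι → ℤ} {φl pl Bl : ℂ × ℂ → ℂ} {c : ℂ} {k0 : ℤ} {b1 κ : ℂ} {r δ : ℝ} {τ : ℂ → ℂ} {j : ℤ}

/-- labels near the centre of the chart, on a compact set -/
theorem Seq.near (S : Seq l h a g ψ H φ p B k φl pl Bl)
    (hψ : ∀ b ∈ Sp h, ψ (b + 1) = ψ b + 2 * Real.pi * k0) (hH : ∀ b ∈ Sp h, H (b + 1) = H b)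
    (hr : ∀ b ∈ closedBall b1 r, |b.im| < h ∧ deriv ψ b ≠ 0)
    {K : Set (ℂ × ℂ)} (hK : K ⊆ Lo a) (hKc : IsCompact K) (hBl : ∀ x ∈ K, Bl x ∈ ball b1 r) :
    ∀ᶠ n in l, ∀ x ∈ K, B n x - k n ∈ closedBall b1 r ∧
      End613.Inc (φ n x) (p n x) (F300.ZZ ψ H (B n x - k n)) (F300.ZZc ψ H (B n x - k n)) = 0 ∧
      cexp (2 * I * (ψ (B n x - k n) - φ n x)) ≠ 1 ∧ DifferentiableAt ℂ (B n) x := by
  filter_upwards [ev_mapsTo (isOpen_Lo a) S.Bt S.Bld.continuousOn hK hKc isOpen_ball hBl,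
    S.lab K hK hKc] with n hn hl x hx
  obtain ⟨l1, l2, l3, l4⟩ := hl x hx
  have h1 := ball_subset_closedBall (hn x hx)
  have h2 := hr _ h1
  have h3 : B n x - k n + k n = B n x := by ring
  have h4 : F300.Inc ψ H (φ n x) (p n x) (B n x - k n) := by
    rw [← inc_int hψ hH (k n) h2.1, h3]
    exact l3
  have h5 : deriv ψ (B n x) = deriv ψ (B n x - k n) := by
    have := deriv_per_int hψ (k n) (B n x - k n) h2.1
    rwa [h3] at this
  refine ⟨h1, (inc_iff' h2.2).2 h4, ?_, l1⟩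
  have h6 := tan_int hψ (k n) (φ := φ n x) h2.1
  rw [h3] at h6
  rw [← h6]
  exact l4 (by rw [h5]; exact h2.2)

/-- **births are zeros of the offset** -/
theorem Seq.births (S : Seq l h a g ψ H φ p B k φl pl Bl)
    (hψ : ∀ b ∈ Sp h, ψ (b + 1) = ψ b + 2 * Real.pi * k0) (hH : ∀ b ∈ Sp h, H (b + 1) = H b)
    (hC : Chart (F300.ZZ ψ H) (F300.ZZc ψ H) (Tj ψ j) (cj ψ c j) b1 r δ τ κ)
    (hr : ∀ b ∈ closedBall b1 r, |b.im| < h ∧ deriv ψ b ≠ 0)
    {q0 : ℂ × ℂ} (hq0 : q0 ∈ Fc a) {ε : ℝ} (hε : 0 < ε) (hsub : closedBall q0 ε ⊆ Lo (a + g))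
    (hφl : ∀ x ∈ closedBall q0 ε, φl x ∈ ball (Tj ψ j b1) δ)
    (hpl : ∀ x ∈ closedBall q0 ε, pl x ∈ ball (hsf (F300.ZZ ψ H) (F300.ZZc ψ H) τ (Tj ψ j b1)) δ)
    (hBl : ∃ x ∈ Lo a ∩ ball q0 ε, Bl x ∈ ball b1 r) :
    ∀ᶠ n in l, ∃ x ∈ ball q0 ε, p n x = hsf (F300.ZZ ψ H) (F300.ZZc ψ H) τ (φ n x) := by
  obtain ⟨x0, hx0, hx0b⟩ := hBl
  have hBc : ContinuousAt Bl x0 :=
    (S.Bld.differentiableAt ((isOpen_Lo a).mem_nhds hx0.1)).continuousAt
  have hev : ∀ᶠ x in 𝓝 x0, Bl x ∈ ball b1 r ∧ x ∈ Lo a ∩ ball q0 ε :=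
    (hBc.eventually (isOpen_ball.mem_nhds hx0b)).and
      (((isOpen_Lo a).inter isOpen_ball).mem_nhds hx0)
  obtain ⟨η, hη, hηb⟩ := Metric.nhds_basis_closedBall.mem_iff.1 hev
  have hηB : ∀ x ∈ closedBall x0 η, Bl x ∈ ball b1 r := fun x hx => (hηb hx).1
  have hηL : ∀ x ∈ closedBall x0 η, x ∈ Lo a ∩ ball q0 ε := fun x hx => (hηb hx).2
  filter_upwards [S.near hψ hH hr (K := closedBall x0 η) (fun x hx => (hηL x hx).1)
      (isCompact_closedBall _ _) hηB,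
    ev_mapsTo (isOpen_Lo _) S.φt S.φld.continuousOn hsub (isCompact_closedBall _ _) isOpen_ball hφl,
    ev_mapsTo (isOpen_Lo _) S.pt S.pld.continuousOn hsub (isCompact_closedBall _ _) isOpen_ball hpl,
    S.φd _ hsub (isCompact_closedBall _ _), S.pd _ hsub (isCompact_closedBall _ _),
    S.noReg q0 hq0 ε hε {x0} (by rintro x rfl; exact ⟨hx0.2, hx0.1⟩) isCompact_singleton]
    with n h1 h2 h3 h4 h5 h6
  refine birth_zero hC (V := ball q0 ε) (W := ball x0 η) isOpen_ball (convex_ball _ _)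
    (fun x hx => (h4 x (ball_subset_closedBall hx)).differentiableWithinAt)
    (fun x hx => (h5 x (ball_subset_closedBall hx)).differentiableWithinAt)
    (fun x hx => h2 x (ball_subset_closedBall hx)) (fun x hx => h3 x (ball_subset_closedBall hx))
    (fun x hx => (hηL x (ball_subset_closedBall hx)).2) (convex_ball _ _).isPreconnected
    (B := fun x => B n x - k n) ?_ (fun x hx => ?_) ?_
  · intro x hx
    exact ((h1 x (ball_subset_closedBall hx)).2.2.2.continuousAt.sub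
      continuousAt_const).continuousWithinAt
  · have := h1 x (ball_subset_closedBall hx)
    exact ⟨this.1, this.2.1⟩
  · rintro ⟨G, g1, g2, g3⟩
    refine h6 ⟨fun x => G x + k n, g1.add_const _, fun x hx => ?_, x0, rfl, ?_⟩
    · have h7 := (hr _ (g2 x hx)).1
      have h8 : (G x + k n).im = (G x).im := by simp
      rw [h8]; exact h7
    · filter_upwards [ball_mem_nhds x0 hη] with x hx
      have := g3 hx
      simp only at this
      rw [← this]; ring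

/-- **no tangent line below the face** -/
theorem Seq.free (S : Seq l h a g ψ H φ p B k φl pl Bl)
    (hψ : ∀ b ∈ Sp h, ψ (b + 1) = ψ b + 2 * Real.pi * k0) (hH : ∀ b ∈ Sp h, H (b + 1) = H b)
    (hC : Chart (F300.ZZ ψ H) (F300.ZZc ψ H) (Tj ψ j) (cj ψ c j) b1 r δ τ κ)
    (hr : ∀ b ∈ closedBall b1 r, |b.im| < h ∧ deriv ψ b ≠ 0)
    {K : Set (ℂ × ℂ)} (hK : K ⊆ Lo a) (hKg : K ⊆ Lo (a + g)) (hKc : IsCompact K)
    (hφl : ∀ x ∈ K, φl x ∈ ball (Tj ψ j b1) δ) (hBl : ∀ x ∈ K, Bl x ∈ ball b1 r) :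
    ∀ᶠ n in l, ∀ x ∈ K, p n x ≠ hsf (F300.ZZ ψ H) (F300.ZZc ψ H) τ (φ n x) := by
  filter_upwards [S.near hψ hH hr hK hKc hBl,
    ev_mapsTo (isOpen_Lo _) S.φt S.φld.continuousOn hKg hKc isOpen_ball hφl] with n h1 h2 x hx h0
  obtain ⟨n1, n2, n3, n4⟩ := h1 x hx
  have h3 := zero_label hC (h2 x hx) n1 n2 h0
  apply n3
  have h4 : ψ (B n x - k n) - φ n x = ((-j : ℤ) : ℂ) * Real.pi := by
    have : Tj ψ j (B n x - k n) = ψ (B n x - k n) + Real.pi * j := rfl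
    rw [this] at h3
    push_cast
    linear_combination h3
  rw [h4]
  have h5 : 2 * I * (((-j : ℤ) : ℂ) * Real.pi) = ((-j : ℤ) : ℂ) * (2 * Real.pi * I) := by ring
  rw [h5, Complex.exp_int_mul_two_pi_mul_I]

/-- the incidence of the limit -/
theorem Seq.inc_lim [l.NeBot] (S : Seq l h a g ψ H φ p B k φl pl Bl) (hg : 0 < g)
    (hψd : DifferentiableOn ℂ ψ (Sp h)) (hHd : DifferentiableOn ℂ H (Sp h))
    (hψ : ∀ b ∈ Sp h, ψ (b + 1) = ψ b + 2 * Real.pi * k0) (hH : ∀ b ∈ Sp h, H (b + 1) = H b) :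
    ∀ x ∈ Lo a, F300.Inc ψ H (φl x) (pl x) (Bl x) := by
  intro x hx
  have hxg : x ∈ Lo (a + g) := Lo_sub hg hx
  have hS := (isOpen_Sp h).mem_nhds (S.Blm x hx)
  have t1 : Tendsto (fun n => φ n x) l (𝓝 (φl x)) := S.φt.tendsto_at hxg
  have t2 : Tendsto (fun n => p n x) l (𝓝 (pl x)) := S.pt.tendsto_at hxg
  have t3 : Tendsto (fun n => B n x - k n) l (𝓝 (Bl x)) := S.Bt.tendsto_at hx
  have c1 : ContinuousAt ψ (Bl x) := (hψd.differentiableAt hS).continuousAt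
  have c2 : ContinuousAt H (Bl x) := (hHd.differentiableAt hS).continuousAt
  have c3 : ContinuousAt (deriv ψ) (Bl x) :=
    ((hψd.deriv (isOpen_Sp h)).differentiableAt hS).continuousAt
  have c4 : ContinuousAt (deriv H) (Bl x) :=
    ((hHd.deriv (isOpen_Sp h)).differentiableAt hS).continuousAt
  have u1 := c1.tendsto.comp t3
  have u2 := c2.tendsto.comp t3
  have u3 := c3.tendsto.comp t3
  have u4 := c4.tendsto.comp t3
  have v1 := u3.mul t2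
  have v2 := ((u3.mul u2).mul (Complex.continuous_cos.continuousAt.tendsto.comp
    (t1.sub u1))).add (u4.mul (Complex.continuous_sin.continuousAt.tendsto.comp (t1.sub u1)))
  refine tendsto_nhds_unique_of_eventuallyEq v1 v2 ?_
  filter_upwards [S.lab {x} (by rintro y rfl; exact hx) isCompact_singleton] with n hn
  obtain ⟨l1, l2, l3, l4⟩ := hn x rfl
  have h3 : B n x - k n + k n = B n x := by ring
  have h4 : F300.Inc ψ H (φ n x) (p n x) (B n x - k n) := by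
    rw [← inc_int hψ hH (k n) (Sp_int' l2 _), h3]
    exact l3
  exact h4

end seq

end Crest.Agent.R102.EdgeC300
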