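import Crest.Agent.R102.EdgeC2_300

/-!
Row 102, T1-B, EDGE, case (c1), part C (helper300): windows whose limit line is tangent to the curve
at the limit label (`R₀ ≡ 1`) have a constant limit.
-/

set_option autoImplicit false

open Set Filter Topology Metric Complex

noncomputable section

namespace Crest.Agent.R102.EdgeC300

open Crest.Agent.R102.EdgeLim196 Crest.Agent.R102.LemX262 Crest.Agent.R102.SlowLim754
open Crest.Agent.R102.Tang654 (Chart hsf Ef inc_iff exists_chart)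
open Crest.Agent.R266.SCV

/-! ### the coordinates `(s, ζ)`, `s = T - a ζ` -/

/-- `(s, ζ) ↦ (s + a ζ, ζ)` -/
def Ea (a : ℝ) (q : ℂ × ℂ) : ℂ × ℂ := (q.1 + a * q.2, q.2)

theorem Ea_diff (a : ℝ) : Differentiable ℂ (Ea a) := by
  unfold Ea; fun_prop

theorem Ea_mem {a g : ℝ} {q : ℂ × ℂ} : Ea a q ∈ Lo (a + g) ↔ q ∈ Gc g := by
  show (0 < q.2.im ∧ (q.1 + a * q.2).im < (a + g) * q.2.im) ↔ (0 < q.2.im ∧ q.1.im < g * q.2.im)
  have : (q.1 + a * q.2).im = q.1.im + a * q.2.im := by simp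
  rw [this]
  constructor <;> rintro ⟨h1, h2⟩ <;> exact ⟨h1, by linarith⟩

theorem Ea_mem_Lo {a : ℝ} {q : ℂ × ℂ} (h1 : 0 < q.2.im) (h2 : q.1.im < 0) : Ea a q ∈ Lo a := by
  refine ⟨h1, ?_⟩
  show (q.1 + a * q.2).im < a * q.2.im
  have : (q.1 + a * q.2).im = q.1.im + a * q.2.im := by simp
  rw [this]; linarith

theorem Ea_mem_Fc {a : ℝ} {q : ℂ × ℂ} (h1 : 0 < q.2.im) (h2 : q.1.im = 0) : Ea a q ∈ Fc a := by
  refine ⟨h1, ?_⟩
  show (q.1 + a * q.2).im = a * q.2.im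
  have : (q.1 + a * q.2).im = q.1.im + a * q.2.im := by simp
  rw [this]; linarith

theorem Ea_inv (a : ℝ) (x : ℂ × ℂ) : Ea a (x.1 - a * x.2, x.2) = x := by
  unfold Ea; ext <;> simp

theorem hasFDerivAt_Ea (a : ℝ) (q : ℂ × ℂ) :
    ∃ L : ℂ × ℂ →L[ℂ] ℂ × ℂ, HasFDerivAt (Ea a) L q ∧ L (1, 0) = (1, 0) ∧ L (0, 1) = ((a : ℂ), 1) := by
  refine ⟨((ContinuousLinearMap.fst ℂ ℂ ℂ) + (a : ℂ) • (ContinuousLinearMap.snd ℂ ℂ ℂ)).prod
    (ContinuousLinearMap.snd ℂ ℂ ℂ), ?_, ?_, ?_⟩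
  · exact ((hasFDerivAt_fst).add ((hasFDerivAt_snd).const_mul (a : ℂ))).prodMk hasFDerivAt_snd
  · simp
  · simp

theorem d1_Ea {a : ℝ} {f : ℂ × ℂ → ℂ} {q : ℂ × ℂ} (hf : DifferentiableAt ℂ f (Ea a q)) :
    d1 (fun q => f (Ea a q)) q = d1 f (Ea a q) := by
  obtain ⟨L, hL, h1, h2⟩ := hasFDerivAt_Ea a q
  have := (hf.hasFDerivAt.comp q hL).fderiv
  show fderiv ℂ (f ∘ Ea a) q (1, 0) = _
  rw [this, ContinuousLinearMap.comp_apply, h1]
  rfl

theorem d2_Ea {a : ℝ} {f : ℂ × ℂ → ℂ} {q : ℂ × ℂ} (hf : DifferentiableAt ℂ f (Ea a q)) :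
    d2 (fun q => f (Ea a q)) q = a * d1 f (Ea a q) + d2 f (Ea a q) := by
  obtain ⟨L, hL, h1, h2⟩ := hasFDerivAt_Ea a q
  have := (hf.hasFDerivAt.comp q hL).fderiv
  show fderiv ℂ (f ∘ Ea a) q (0, 1) = _
  rw [this, ContinuousLinearMap.comp_apply, h2, fderiv_pair, one_mul]
  rfl

/-- the wedge of differentials in the coordinates `(s, ζ)` -/
theorem jac_Ea {a : ℝ} {f f' : ℂ × ℂ → ℂ} {q : ℂ × ℂ} (hf : DifferentiableAt ℂ f (Ea a q))
    (hf' : DifferentiableAt ℂ f' (Ea a q)) :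
    d1 (fun q => f (Ea a q)) q * d2 (fun q => f' (Ea a q)) q -
      d2 (fun q => f (Ea a q)) q * d1 (fun q => f' (Ea a q)) q =
    d1 f (Ea a q) * d2 f' (Ea a q) - d2 f (Ea a q) * d1 f' (Ea a q) := by
  rw [d1_Ea hf, d1_Ea hf', d2_Ea hf, d2_Ea hf']
  ring

/-! ### Liouville with bounded imaginary part -/

theorem const_of_im_le {F : ℂ → ℂ} (hF : Differentiable ℂ F) {C : ℝ} (hC : ∀ s, |(F s).im| ≤ C) :
    ∀ s t, F s = F t := by
  have h1 : Differentiable ℂ fun s => cexp (I * F s) := (hF.const_mul I).cexp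
  have h2 : Bornology.IsBounded (range fun s => cexp (I * F s)) := by
    refine isBounded_iff_forall_norm_le.2 ⟨Real.exp C, ?_⟩
    rintro _ ⟨s, rfl⟩
    simp only
    rw [Complex.norm_exp]
    refine Real.exp_le_exp.2 ?_
    have : (I * F s).re = -(F s).im := by simp
    rw [this]
    exact (neg_le_abs _).trans (hC s)
  refine is_const_of_deriv_eq_zero hF fun s => ?_
  have h3 : (fun s => cexp (I * F s)) = fun _ => cexp (I * F s) := by
    funext t
    exact h1.apply_eq_apply_of_bounded h2 t s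
  have h4 : HasDerivAt (fun s => cexp (I * F s)) (cexp (I * F s) * (I * deriv F s)) s :=
    ((hF s).hasDerivAt.const_mul I).cexp
  have h5 : HasDerivAt (fun s => cexp (I * F s)) 0 s := by
    rw [h3]; exact hasDerivAt_const _ _
  have h6 := h4.unique h5
  rcases mul_eq_zero.1 h6 with h7 | h7
  · exact absurd h7 (exp_ne_zero _)
  · rcases mul_eq_zero.1 h7 with h8 | h8
    · exact absurd h8 I_ne_zero
    · exact h8

/-! ### the limit line is constant -/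

/-- values in a translate of `π ℤ` -/
theorem const_of_exp {a g : ℝ} (hg : 0 < g) {φ : ℂ × ℂ → ℂ} (hφ : DifferentiableOn ℂ φ (Lo (a + g)))
    {t : ℂ} (hR : ∀ x ∈ Lo a, cexp (2 * I * (t - φ x)) = 1) :
    ∀ x ∈ Lo (a + g), ∀ y ∈ Lo (a + g), φ x = φ y := by
  -- a point of `Lo a`
  obtain ⟨x0, hx0⟩ : (Lo a).Nonempty := by
    refine ⟨(((a - 1 : ℝ) : ℂ) * I, I), ?_, ?_⟩
    · simp
    · simp
  have hx0g := Lo_sub hg hx0
  have hc : ContinuousAt φ x0 := (hφ.differentiableAt ((isOpen_Lo _).mem_nhds hx0g)).continuousAt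
  have hev : φ =ᶠ[𝓝 x0] fun _ => φ x0 := by
    filter_upwards [hc.eventually (ball_mem_nhds _ Real.pi_pos), (isOpen_Lo a).mem_nhds hx0]
      with x h1 h2
    obtain ⟨n, hn⟩ := Complex.exp_eq_one_iff.1 (hR x h2)
    obtain ⟨m, hm⟩ := Complex.exp_eq_one_iff.1 (hR x0 hx0)
    have h2I : (2 : ℂ) * I ≠ 0 := by simp
    have h3 : φ x - φ x0 = ((m - n : ℤ) : ℂ) * Real.pi := by
      refine mul_left_cancel₀ h2I ?_
      push_cast
      linear_combination hm - hn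
    rw [dist_eq_norm, h3, norm_mul, Complex.norm_intCast, Complex.norm_real,
      Real.norm_eq_abs, abs_of_pos Real.pi_pos] at h1
    have h4 : |((m - n : ℤ) : ℝ)| < 1 := by
      by_contra hcon
      push Not at hcon
      nlinarith [Real.pi_pos]
    have h5 : m - n = 0 := by
      rw [← Int.cast_abs] at h4
      have h6 : |m - n| < 1 := by exact_mod_cast h4
      exact Int.abs_lt_one_iff.1 h6
    rw [h5] at h3
    have h7 : φ x - φ x0 = 0 := by rw [h3]; simp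
    exact sub_eq_zero.1 h7
  have key := (analyticOnNhd_of_differentiableOn (isOpen_Lo _) hφ).eqOn_of_preconnected_of_eventuallyEq
    analyticOnNhd_const (convex_Lo (a + g)).isPreconnected hx0g hev
  intro x hx y hy
  rw [key hx, key hy]

section main

variable {ι : Type*} {l : Filter ι} {h a g : ℝ} {ψ H : ℂ → ℂ} {φ p B : ι → ℂ × ℂ → ℂ}
  {k : ι → ℤ} {φl pl Bl : ℂ × ℂ → ℂ} {c : ℂ} {k0 : ℤ}

/-- **case (c1)**, bound of the imaginary part at one point over every `s` -/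
theorem caseC' [l.NeBot] (hg : 0 < g) (hψd : DifferentiableOn ℂ ψ (Sp h))
    (hHd : DifferentiableOn ℂ H (Sp h)) (hrel : F300.Rel (Sp h) ψ H c) (hc : c ≠ 0)
    (hψ : ∀ b ∈ Sp h, ψ (b + 1) = ψ b + 2 * Real.pi * k0) (hH : ∀ b ∈ Sp h, H (b + 1) = H b)
    (S : Seq l h a g ψ H φ p B k φl pl Bl)
    {σ : ι → ℂ} {J : ι → ℂ × ℂ → ℂ} {Jl : ℂ × ℂ → ℂ}
    (hσ : ∀ᶠ n in l, σ n ≠ 0)
    (hJ : ∀ K ⊆ Lo (a + g), IsCompact K → ∀ᶠ n in l, ∀ x ∈ K,
      d1 (φ n) x * d2 (p n) x - d2 (φ n) x * d1 (p n) x = σ n * J n x)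
    (hJt : TendstoLocallyUniformlyOn J Jl l (Lo (a + g))) (hJ0 : ∀ x ∈ Lo (a + g), Jl x ≠ 0)
    {C : ℝ} (hC : ∀ s : ℂ, ∃ z : ℂ, ((s, z) : ℂ × ℂ) ∈ Gc g ∧ |(φl (Ea a (s, z))).im| ≤ C)
    (hR : ∀ x ∈ Lo a, cexp (2 * I * (ψ (Bl x) - φl x)) = 1) :
    (∀ x ∈ Lo a, ∀ y ∈ Lo a, Bl x = Bl y) ∧ ∀ x ∈ Lo (a + g), ∀ y ∈ Lo (a + g), φl x = φl y := by
  obtain ⟨z0, hz0⟩ : (Lo a).Nonempty := by
    refine ⟨(((a - 1 : ℝ) : ℂ) * I, I), ?_, ?_⟩
    · simp
    · simp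
  -- `ψ` is not constant
  have hψne : ∃ b ∈ Sp h, deriv ψ b ≠ 0 := by
    by_contra hcon
    push Not at hcon
    have hb0 : Bl z0 ∈ Sp h := S.Blm z0 hz0
    apply hc
    rw [← hrel _ hb0, hcon _ hb0]
    have h1 : deriv (deriv ψ) (Bl z0) = 0 := by
      have h2 : deriv ψ =ᶠ[𝓝 (Bl z0)] fun _ => 0 := by
        filter_upwards [(isOpen_Sp h).mem_nhds hb0] with b hb
        exact hcon b hb
      rw [h2.deriv_eq, deriv_const]
    rw [h1]; ring
  rcases exists_face hg hψd hψne hψ S.φld S.Bld S.Blm hR with hcst | hface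
  · -- constant label
    refine ⟨hcst, const_of_exp hg S.φld (t := ψ (Bl z0)) fun x hx => ?_⟩
    rw [← hcst x hx z0 hz0]
    exact hR x hx
  obtain ⟨q1, hq1, b1, hb1, hy1, j, hφq1, r0, hr0, hr0L, Bt, hBtd, hBtq, hBtm, hBtB⟩ := hface
  -- the chart
  obtain ⟨r, hr, -, hrS, δ, hδ, -, τ, κ, hCh⟩ := exists_chart' hψd hHd hrel hc hb1 hy1 j one_pos
  have hTj : Tj ψ j b1 = φl q1 := by rw [hφq1]; rfl
  have hq1g : q1 ∈ Lo (a + g) := Fc_sub hg hq1
  have hφc : ContinuousAt φl q1 :=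
    (S.φld.differentiableAt ((isOpen_Lo _).mem_nhds hq1g)).continuousAt
  have hpc : ContinuousAt pl q1 :=
    (S.pld.differentiableAt ((isOpen_Lo _).mem_nhds hq1g)).continuousAt
  have hBtc : ContinuousAt Bt q1 :=
    (hBtd.differentiableAt (ball_mem_nhds q1 hr0)).continuousAt
  -- incidence at the face point
  have hinc1 : F300.Inc ψ H (φl q1) (pl q1) b1 := by
    have hS : Sp h ∈ 𝓝 (Bt q1) := (isOpen_Sp h).mem_nhds (by rw [hBtq]; exact hb1)
    have c1 : ContinuousAt (fun x => ψ (Bt x)) q1 :=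
      ContinuousAt.comp (g := ψ) (hψd.differentiableAt hS).continuousAt hBtc
    have c2 : ContinuousAt (fun x => H (Bt x)) q1 :=
      ContinuousAt.comp (g := H) (hHd.differentiableAt hS).continuousAt hBtc
    have c3 : ContinuousAt (fun x => deriv ψ (Bt x)) q1 :=
      ContinuousAt.comp (g := deriv ψ)
        ((hψd.deriv (isOpen_Sp h)).differentiableAt hS).continuousAt hBtc
    have c4 : ContinuousAt (fun x => deriv H (Bt x)) q1 :=
      ContinuousAt.comp (g := deriv H)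
        ((hHd.deriv (isOpen_Sp h)).differentiableAt hS).continuousAt hBtc
    have c5 : ContinuousAt (fun x => Complex.cos (φl x - ψ (Bt x))) q1 :=
      Complex.continuous_cos.continuousAt.comp (hφc.sub c1)
    have c6 : ContinuousAt (fun x => Complex.sin (φl x - ψ (Bt x))) q1 :=
      Complex.continuous_sin.continuousAt.comp (hφc.sub c1)
    have v1 := (c3.mul hpc).tendsto.mono_left (nhdsWithin_le_nhds (s := Lo a))
    have v2 := (((c3.mul c2).mul c5).add (c4.mul c6)).tendsto.mono_left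
      (nhdsWithin_le_nhds (s := Lo a))
    have hNB := face_mem_closure hq1
    have key := tendsto_nhds_unique_of_eventuallyEq v1 v2 (by
      filter_upwards [self_mem_nhdsWithin, mem_nhdsWithin_of_mem_nhds (ball_mem_nhds q1 hr0)]
        with x hx hxb
      have h1 := S.inc_lim hg hψd hHd hψ hH x hx
      rw [hBtB x hxb hx] at h1
      exact h1)
    simp only [Pi.mul_apply, Pi.add_apply] at key
    rw [hBtq] at key
    exact key
  have hpq1 : pl q1 = hsf (F300.ZZ ψ H) (F300.ZZc ψ H) τ (Tj ψ j b1) := by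
    rw [hCh.hsf_b₀]
    have h1 := (inc_iff' hy1).2 hinc1
    rw [← hTj] at h1
    exact (inc_iff.1 h1).symm
  -- a small ball at the face point
  have hev : ∀ᶠ x in 𝓝 q1, (φl x ∈ ball (Tj ψ j b1) δ ∧
      pl x ∈ ball (hsf (F300.ZZ ψ H) (F300.ZZc ψ H) τ (Tj ψ j b1)) δ) ∧
      (Bt x ∈ ball b1 r ∧ x ∈ ball q1 r0) := by
    refine ((hφc.eventually ?_).and (hpc.eventually ?_)).and
      ((hBtc.eventually ?_).and (ball_mem_nhds q1 hr0))
    · rw [← hTj]; exact ball_mem_nhds _ hδ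
    · rw [hpq1]; exact ball_mem_nhds _ hδ
    · rw [hBtq]; exact ball_mem_nhds _ hr
  obtain ⟨ρ, hρ, hρb⟩ := Metric.nhds_basis_closedBall.mem_iff.1 hev
  have hρL : closedBall q1 ρ ⊆ Lo (a + g) := fun x hx => hr0L (hρb hx).2.2
  have hBlρ : ∀ x ∈ closedBall q1 ρ, x ∈ Lo a → Bl x ∈ ball b1 r := by
    intro x hx hxL
    rw [hBtB x (hρb hx).2.2 hxL]
    exact (hρb hx).2.1
  -- the offset
  set Z := F300.ZZ ψ H with hZ
  set Zc := F300.ZZc ψ H with hZc
  set Q : ι → ℂ × ℂ → ℂ := fun n x => p n x - hsf Z Zc τ (φ n x) with hQ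
  have hφev := ev_mapsTo (isOpen_Lo _) S.φt S.φld.continuousOn hρL (isCompact_closedBall _ _)
    isOpen_ball (fun x hx => (hρb hx).1.1)
  have hφdev := S.φd _ hρL (isCompact_closedBall _ _)
  have hpdev := S.pd _ hρL (isCompact_closedBall _ _)
  have hQd : ∀ᶠ n in l, ∀ x ∈ closedBall q1 ρ, DifferentiableAt ℂ (Q n) x := by
    filter_upwards [hφev, hφdev, hpdev] with n h1 h2 h3 x hx
    exact (h3 x hx).sub ((hCh.hsf_diff.differentiableAt (isOpen_ball.mem_nhds (h1 x hx))).comp x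
      (h2 x hx))
  have harea : ∀ᶠ n in l, ∀ x ∈ closedBall q1 ρ,
      d1 (φ n) x * d2 (Q n) x - d2 (φ n) x * d1 (Q n) x = σ n * J n x := by
    filter_upwards [hφev, hφdev, hpdev, hJ _ hρL (isCompact_closedBall _ _)] with n h1 h2 h3 h4 x hx
    obtain ⟨Q', hQ', hQ2⟩ := hCh.area (h2 x hx).hasFDerivAt (h3 x hx).hasFDerivAt (h1 x hx)
    have h5 : fderiv ℂ (Q n) x = Q' := hQ'.fderiv
    have h6 := hQ2 (1, 0) (0, 1)
    rw [← h4 x hx]
    show fderiv ℂ (φ n) x (1, 0) * fderiv ℂ (Q n) x (0, 1) -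
      fderiv ℂ (φ n) x (0, 1) * fderiv ℂ (Q n) x (1, 0) = _
    rw [h5, h6]
    rfl
  -- Lemma X
  set Ω : Set (ℂ × ℂ) := Ea a ⁻¹' ball q1 ρ with hΩ
  have hΩo : IsOpen Ω := isOpen_ball.preimage (Ea_diff a).continuous
  have hΩG : Ω ⊆ Gc g := fun q hq => Ea_mem.1 (hρL (ball_subset_closedBall hq))
  have hp0 : ((q1.1 - a * q1.2, q1.2) : ℂ × ℂ) ∈ Ω := by
    show Ea a (q1.1 - a * q1.2, q1.2) ∈ ball q1 ρ
    rw [Ea_inv]; exact mem_ball_self hρ
  have hd2 : ∀ q ∈ Gc g, d2 (fun q => φl (Ea a q)) q = 0 := by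
    refine lemX_all (l := l) hΩo (isOpen_Gc g) (convex_Gc g).isPreconnected hΩG
      (U := fun _ => Ω) (fun K hK _ => Eventually.of_forall fun _ => hK)
      (m := fun n q => φ n (Ea a q)) (D := fun n q => (σ n)⁻¹ * Q n (Ea a q))
      (k := fun n q => J n (Ea a q)) (kap := fun q => Jl (Ea a q)) ?_ ?_ ?_ ?_ ?_ ?_ ?_ ?_ ?_ hp0 ?_
    · exact S.φld.comp (Ea_diff a).differentiableOn fun q hq => Ea_mem.2 hq
    · filter_upwards [hφdev] with n hn q hq
      exact ((hn _ (ball_subset_closedBall hq)).comp q (Ea_diff a q)).differentiableWithinAt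
    · filter_upwards [hQd] with n hn q hq
      exact (((hn _ (ball_subset_closedBall hq)).comp q (Ea_diff a q)).const_mul
        _).differentiableWithinAt
    · exact S.φt.comp (Ea a) (fun q hq => Ea_mem.2 (hΩG hq)) (Ea_diff a).continuous.continuousOn
    · filter_upwards [hφdev, hQd, harea, hσ] with n h1 h2 h3 h4 q hq
      have hq' := ball_subset_closedBall hq
      have e1 := jac_Ea (a := a) (f := φ n) (f' := Q n) (h1 _ hq') (h2 _ hq')
      have hcd : DifferentiableAt ℂ (fun q => Q n (Ea a q)) q :=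
        (h2 _ hq').comp q (Ea_diff a q)
      have e2 : d2 (fun q => (σ n)⁻¹ * Q n (Ea a q)) q = (σ n)⁻¹ * d2 (fun q => Q n (Ea a q)) q := by
        show fderiv ℂ _ q (0, 1) = _
        rw [(hcd.hasFDerivAt.const_mul (σ n)⁻¹).fderiv]
        rfl
      have e3 : d1 (fun q => (σ n)⁻¹ * Q n (Ea a q)) q = (σ n)⁻¹ * d1 (fun q => Q n (Ea a q)) q := by
        show fderiv ℂ _ q (1, 0) = _
        rw [(hcd.hasFDerivAt.const_mul (σ n)⁻¹).fderiv]
        rfl
      rw [e2, e3]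
      have e4 := h3 _ hq'
      rw [← e1] at e4
      have e5 : (σ n)⁻¹ * (σ n * J n (Ea a q)) = J n (Ea a q) := by
        rw [← mul_assoc, inv_mul_cancel₀ h4, one_mul]
      rw [← e5, ← e4]
      ring
    · exact hJt.comp (Ea a) (fun q hq => Ea_mem.2 (hΩG hq)) (Ea_diff a).continuous.continuousOn
    · exact fun q hq => hJ0 _ (Ea_mem.2 (hΩG hq))
    · -- no zeros below the face
      intro K hK hKc
      have hKc' : IsCompact (Ea a '' K) := hKc.image (Ea_diff a).continuous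
      have hKρ : Ea a '' K ⊆ closedBall q1 ρ := by
        rintro _ ⟨q, hq, rfl⟩
        exact ball_subset_closedBall (hK hq).1
      have hKL : Ea a '' K ⊆ Lo a := by
        rintro _ ⟨q, hq, rfl⟩
        exact Ea_mem_Lo (hΩG (hK hq).1).1 (hK hq).2
      filter_upwards [S.free hψ hH hCh hrS hKL (hKρ.trans hρL) hKc' (fun x hx => (hρb (hKρ hx)).1.1)
        (fun x hx => hBlρ x (hKρ hx) (hKL hx)), hσ] with n h1 h2 q hq
      exact mul_ne_zero (inv_ne_zero h2) (sub_ne_zero.2 (h1 _ ⟨q, hq, rfl⟩))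
    · -- zeros accumulate on the face
      intro q hq hq0 e he
      have hqF : Ea a q ∈ Fc a := Ea_mem_Fc (hΩG hq).1 hq0
      have hinvc : Continuous fun x : ℂ × ℂ => ((x.1 - a * x.2, x.2) : ℂ × ℂ) := by fun_prop
      have hinvq : (((Ea a q).1 - a * (Ea a q).2, (Ea a q).2) : ℂ × ℂ) = q := by
        unfold Ea; ext <;> simp
      have hev2 : ∀ᶠ x in 𝓝 (Ea a q), ((x.1 - a * x.2, x.2) : ℂ × ℂ) ∈ ball q e ∧ x ∈ ball q1 ρ := by
        have hb : ball q e ∈ 𝓝 (((Ea a q).1 - a * (Ea a q).2, (Ea a q).2) : ℂ × ℂ) := by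
          rw [hinvq]; exact ball_mem_nhds _ he
        exact (hinvc.continuousAt.eventually hb).and (isOpen_ball.mem_nhds hq)
      obtain ⟨ε, hε, hεb⟩ := Metric.nhds_basis_closedBall.mem_iff.1 hev2
      have hερ : closedBall (Ea a q) ε ⊆ closedBall q1 ρ := fun x hx =>
        ball_subset_closedBall (hεb hx).2
      have hx0 : ∃ x ∈ Lo a ∩ ball (Ea a q) ε, Bl x ∈ ball b1 r := by
        have hNB := face_mem_closure hqF
        have h1 : ∀ᶠ x in 𝓝[Lo a] (Ea a q), x ∈ Lo a ∩ ball (Ea a q) ε :=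
          (eventually_mem_nhdsWithin).and (mem_nhdsWithin_of_mem_nhds (ball_mem_nhds _ hε))
        obtain ⟨x, hx⟩ := h1.exists
        exact ⟨x, hx, hBlρ x (hερ (ball_subset_closedBall hx.2)) hx.1⟩
      filter_upwards [S.births hψ hH hCh hrS hqF hε (hερ.trans hρL)
        (fun x hx => (hρb (hερ hx)).1.1) (fun x hx => (hρb (hερ hx)).1.2) hx0] with n hn
      obtain ⟨x, hx, hx0⟩ := hn
      refine ⟨(x.1 - a * x.2, x.2), (hεb (ball_subset_closedBall hx)).1, ?_⟩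
      rw [Ea_inv, hQ]
      simp only
      rw [hx0, sub_self, mul_zero]
    · show (q1.1 - a * q1.2).im = 0
      have : (q1.1 - a * q1.2).im = q1.1.im - a * q1.2.im := by simp
      rw [this, hq1.2, sub_self]
  -- the limit line is constant
  obtain ⟨F, hF, hFeq⟩ := entire_of_face hg
    (S.φld.comp (Ea_diff a).differentiableOn fun q hq => Ea_mem.2 hq)
    (fun q hq _ => hd2 q hq)
  have hFc : ∀ s t, F s = F t := by
    refine const_of_im_le hF (C := C) fun s => ?_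
    obtain ⟨z, hmem, hz⟩ := hC s
    have := hFeq _ hmem
    simp only [Function.comp] at this
    rw [← this]
    exact hz
  have hφcst : ∀ x ∈ Lo (a + g), ∀ y ∈ Lo (a + g), φl x = φl y := by
    have h1 : ∀ x ∈ Lo (a + g), φl x = F (x.1 - a * x.2) := by
      intro x hx
      have h2 : ((x.1 - a * x.2, x.2) : ℂ × ℂ) ∈ Gc g := by
        rw [← Ea_mem (a := a), Ea_inv]; exact hx
      have := hFeq _ h2
      simp only [Function.comp] at this
      rw [Ea_inv] at this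
      exact this
    intro x hx y hy
    rw [h1 x hx, h1 y hy]
    exact hFc _ _
  refine ⟨?_, hφcst⟩
  -- the label is constant
  have h1 : ∀ᶠ z in 𝓝 b1, z ≠ b1 → ψ z ≠ ψ b1 := by
    have hd := (hψd.differentiableAt ((isOpen_Sp h).mem_nhds hb1)).hasDerivAt
    exact eventually_nhdsWithin_iff.1 (hd.eventually_ne hy1)
  have h2 : ∀ᶠ x in 𝓝 q1, Bt x = b1 := by
    have h3 : ∀ᶠ x in 𝓝 q1, Bt x ≠ b1 → ψ (Bt x) ≠ ψ b1 :=
      hBtc.eventually (by rw [hBtq]; exact h1)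
    filter_upwards [h3, ball_mem_nhds q1 hr0] with x hx hxb
    by_contra hcon
    apply hx hcon
    rw [(hBtm x hxb).2, hφcst x (hr0L hxb) q1 hq1g, hφq1]
    ring
  have hNB := face_mem_closure hq1
  have h2' : ∀ᶠ x in 𝓝[Lo a] q1, ∀ᶠ y in 𝓝 x, Bt y = b1 :=
    nhdsWithin_le_nhds h2.eventually_nhds
  have h4 : ∀ᶠ x in 𝓝[Lo a] q1, x ∈ Lo a := self_mem_nhdsWithin
  have h5 : ∀ᶠ x in 𝓝[Lo a] q1, x ∈ ball q1 r0 :=
    mem_nhdsWithin_of_mem_nhds (ball_mem_nhds q1 hr0)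
  obtain ⟨x1, hx1, hx1L, hx1b⟩ := (h2'.and (h4.and h5)).exists
  have hev3 : Bl =ᶠ[𝓝 x1] fun _ => b1 := by
    filter_upwards [hx1, (isOpen_Lo a).mem_nhds hx1L, isOpen_ball.mem_nhds hx1b] with y k1 k2 k3
    rw [hBtB y k3 k2, k1]
  have key := (analyticOnNhd_of_differentiableOn (isOpen_Lo a)
    S.Bld).eqOn_of_preconnected_of_eventuallyEq analyticOnNhd_const
    (convex_Lo a).isPreconnected hx1L hev3
  intro x hx y hy
  rw [key hx, key hy]

/-- **case (c1)** -/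
theorem caseC [l.NeBot] (hg : 0 < g) (hψd : DifferentiableOn ℂ ψ (Sp h))
    (hHd : DifferentiableOn ℂ H (Sp h)) (hrel : F300.Rel (Sp h) ψ H c) (hc : c ≠ 0)
    (hψ : ∀ b ∈ Sp h, ψ (b + 1) = ψ b + 2 * Real.pi * k0) (hH : ∀ b ∈ Sp h, H (b + 1) = H b)
    (S : Seq l h a g ψ H φ p B k φl pl Bl)
    {σ : ι → ℂ} {J : ι → ℂ × ℂ → ℂ} {Jl : ℂ × ℂ → ℂ}
    (hσ : ∀ᶠ n in l, σ n ≠ 0)
    (hJ : ∀ K ⊆ Lo (a + g), IsCompact K → ∀ᶠ n in l, ∀ x ∈ K,
      d1 (φ n) x * d2 (p n) x - d2 (φ n) x * d1 (p n) x = σ n * J n x)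
    (hJt : TendstoLocallyUniformlyOn J Jl l (Lo (a + g))) (hJ0 : ∀ x ∈ Lo (a + g), Jl x ≠ 0)
    {C : ℝ} (hC : ∀ x ∈ Lo (a + g), |(φl x).im| ≤ C)
    (hR : ∀ x ∈ Lo a, cexp (2 * I * (ψ (Bl x) - φl x)) = 1) :
    (∀ x ∈ Lo a, ∀ y ∈ Lo a, Bl x = Bl y) ∧ ∀ x ∈ Lo (a + g), ∀ y ∈ Lo (a + g), φl x = φl y := by
  refine caseC' hg hψd hHd hrel hc hψ hH S hσ hJ hJt hJ0 (C := C) (fun s => ?_) hR
  have hmem : ((s, (((‖s‖ + 1) / g : ℝ) : ℂ) * I) : ℂ × ℂ) ∈ Gc g := by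
    constructor
    · simp only [mul_im, ofReal_re, I_im, mul_one, ofReal_im, I_re, mul_zero, add_zero]
      positivity
    · simp only [mul_im, ofReal_re, I_im, mul_one, ofReal_im, I_re, mul_zero, add_zero]
      have h1 : s.im ≤ ‖s‖ := (le_abs_self _).trans (abs_im_le_norm s)
      have h2 : g * ((‖s‖ + 1) / g) = ‖s‖ + 1 := by field_simp
      linarith
  exact ⟨_, hmem, hC _ (Ea_mem.2 hmem)⟩

end main

end Crest.Agent.R102.EdgeC300
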