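import Crest.Agent.R102.Chain_559
import Crest.Agent.R102.AreaX_982
import Crest.Agent.R102.DEStep_722
import Crest.Agent.R102.Marc_295

/-!
Row 102, T1-B, block **EDGE**: literal interfaces (helper255, architect).
Target: `Chain559.EdgeO` (559).  Plan (619 #28986, 210 #28821, 909 #28960, 528/953, 972 #29047):

* `EdOf`   : the objects are an abstract EDGE datum `ED` (982 / 314);
* `MarcP`  : a.e. `u`: `GoodU → GoodPP` (births `ρ`-dense over all `u' ∈ U`, `U` thick at `u` in the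
             sense of Marcinkiewicz); needed for the lateral windows of the slow regime;
* `BalP`   : if not one edge, there are columns `(x,u)`, `x → s₀`, with interior labels at ALL small
             scales, non degenerate for `y` (528 / 953);
* `NormP`  : 619 (1),(2): normality at windows with interior column (first window `s` very small
             compared with the top `σ` of the column; the outer constant is `Outer`);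
* `ToWorld`: blow-ups with birth precision `ρ_n → 0` are a `World` (pure sequence object);
* `CuspP`  : 619 (a): no cusp window;  `FlatP` : 619 (b),(c): a bounded window is slow;
* `SlowP`  : slow regime = 859 #30686 (N) + (CHAIN) + (END) [kernel records over ALL real bases
             `(x',u')`, births only at windows with `dist(u', U) ≤ κ s`, Marcinkiewicz at `u` only].
* assembly : `edgeO_of`.
-/

set_option autoImplicit false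

open Set Filter Topology Metric MeasureTheory Complex

noncomputable section

namespace Crest.Agent.R102.Edge255

open Crest.Agent.R102.Sup115 (HDu Dp E2 MaxiX GoodU)
open Crest.Agent.R102.S5 (Half bl ray Cn)
open Crest.Agent.R102.B821 (q1 q2)
open Crest.Agent.R102.C0 Crest.Agent.R102.K669 Crest.Agent.R102.Out559
open Crest.Agent.R102.GlueII559 Crest.Agent.R102.PartII150

/-! ### the curve and the objects -/

/-- the curve on the strip, with its near-edge growth (314 `GrowPsi`): `θ = ψ`, `y = ψ'` -/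
structure Curve (h : ℝ) (ψ H : ℂ → ℂ) : Prop where
  h_pos : 0 < h
  ψ_diff : DifferentiableOn ℂ ψ (T5.Str h)
  H_diff : DifferentiableOn ℂ H (T5.Str h)
  rel : ∀ z ∈ T5.Str h, deriv ψ z * deriv (deriv H) z - deriv (deriv ψ) z * deriv H z
    + deriv ψ z ^ 3 * H z = -1
  ψ_per : ∀ z ∈ T5.Str h, ψ (z + 1) = ψ z + 2 * Real.pi
  H_per : ∀ z ∈ T5.Str h, H (z + 1) = H z
  y_pos : ∀ x : ℝ, 0 < (deriv ψ x).re ∧ (deriv ψ x).im = 0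
  grow_y : ∀ k : ℕ, ∃ C : ℝ, 0 < C ∧ ∀ d : ℝ, 0 < d → d < h → ∀ z : ℂ, |z.im| ≤ h - d →
    Real.log (1 + ‖deriv ψ z‖) ≤ C * d ^ (-(1 / ((k : ℝ) + 1)))
  grow : ∀ k : ℕ, ∃ C : ℝ, 0 < C ∧ ∀ d : ℝ, 0 < d → d < h → ∀ z : ℂ, |z.im| ≤ h - d →
    ‖ψ z - 2 * Real.pi * z‖ ≤ Real.exp (C * d ^ (-(1 / ((k : ℝ) + 1)))) ∧
    Real.log (1 + ‖H z‖ + ‖deriv H z‖ + ‖deriv (deriv H) z‖) ≤
      Real.exp (C * d ^ (-(1 / ((k : ℝ) + 1)))) ∧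
    Real.exp (-Real.exp (C * d ^ (-(1 / ((k : ℝ) + 1))))) ≤ ‖deriv ψ z‖ + ‖deriv (deriv ψ) z‖

/-- **abstract EDGE datum** in exact coordinates on the half disc `HDu u0 R` -/
structure ED (u0 R d h : ℝ) (ψ H A : ℂ → ℂ) (φ p B : ℂ × ℂ → ℂ) (X L : Set (ℂ × ℂ)) : Prop where
  curve : Curve h ψ H
  R_pos : 0 < R
  d_pos : 0 < d
  X_open : IsOpen X
  L_open : IsOpen L
  X_sub : ∀ q ∈ X, -d < q.1.im ∧ q.2 ∈ HDu u0 R
  L_sub : ∀ q ∈ L, q.2 ∈ HDu u0 R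
  X_star : ∀ q ∈ X, ∀ y : ℝ, 0 ≤ y → -d < q.1.im - y → (q.1 - y * I, q.2) ∈ X
  Dp_X : Dp u0 R d ⊆ X
  Dp_L : Dp u0 R d ⊆ L
  φ_diff : DifferentiableOn ℂ φ L
  p_diff : DifferentiableOn ℂ p L
  B_diff : DifferentiableOn ℂ B X
  B_im : ∀ q ∈ X, |(B q).im| < h
  B_nc : ∃ q ∈ Dp u0 R d, ∃ q' ∈ Dp u0 R d, B q ≠ B q'
  inc : ∀ q ∈ X ∩ L, F300.Inc ψ H (φ q) (p q) (B q)
  sin_ne : ∀ q ∈ X ∩ L, q.2 ≠ 0 → deriv ψ (B q) ≠ 0 → sin (φ q - ψ (B q)) ≠ 0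
  maxi : MaxiX h X B
  area : ∀ q ∈ L, q1 φ q * q2 p q - q2 φ q * q1 p q = A q.2
  A_diff : DifferentiableOn ℂ A (ball (u0 : ℂ) R)
  A_ne : ∀ w ∈ ball (u0 : ℂ) R, w ≠ 0 → A w ≠ 0

/-- the comparison function `R₀`, zero free; `R₀ = 1` only at the zeros of `y(B)` -/
def R0 (ψ : ℂ → ℂ) (φ B : ℂ × ℂ → ℂ) (q : ℂ × ℂ) : ℂ := cexp (2 * I * (ψ (B q) - φ q))

/-- **(EDGE-EDOF)** [982 + 314] -/
def EdOf : Prop :=
  ∀ (q : C(ℂ, ℂ)) (η ρ r Bc : ℝ) (b φ p : ℂ × ℂ → ℂ) (m₀ : ℂ → ℂ) (h : ℝ) (ψ H K G : ℂ → ℂ),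
    Sh982.Dat q η ρ r Bc b φ p m₀ h ψ H → Rule982.NB h ψ H → Growth.MirS q η h ψ H K G →
    Chain559.Grow h ψ G → ∀ (u0 R d : ℝ) (g : ℂ → ℂ), Chain559.Shift b φ p h ρ r u0 R d g →
    ED u0 R d h ψ H (fun w => w / 4 * m₀ w) (φx φ p ρ r g) (px φ p ρ r g) (Bx b h ρ r g)
      (Xe u0 R d g (OX b h ρ r)) (Le u0 R d g (OL φ p ρ r))

/-! ### good bases -/

/-- `U` is closed and thick at `u`: finite Marcinkiewicz integral (= 295's `GoodPI`) -/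
def Marc (U : Set ℝ) (u : ℝ) : Prop := IsClosed U ∧ Marc295.MI U 1 u < ⊤

/-- precision `ρ` at all bases `(s, u')`, `u' ∈ U`, `|s - s₀| < δ` -/
def GoodPP (X L : Set (ℂ × ℂ)) (u s₀ a g : ℝ) : Prop :=
  0 ≤ a ∧ 0 < g ∧ ∀ ρ > 0, ∃ δ > 0, ∃ U : Set ℝ, u ∈ U ∧ Marc U u ∧
    ∀ u' ∈ U, ∀ s : ℝ, |s - s₀| < δ → E2 X L a g ρ δ (s, u')

/-- **(EDGE-MARC)** -/
def MarcP : Prop :=
  ∀ X L : Set (ℂ × ℂ), IsOpen X → ∀ᵐ u : ℝ, ∀ s₀ a₀ g₀ : ℝ, GoodU X L u s₀ a₀ g₀ →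
    ∀ g : ℝ, 0 < g → g < g₀ → GoodPP X L u s₀ a₀ g

/-! ### windows and columns -/

/-- the base point of the model window -/
def z0 : ℂ × ℂ := (-I, I / 4)

/-- interior label at the window `(e, s)`, margin `κ`, non degenerate for `y` -/
def Intr (h κ : ℝ) (ψ : ℂ → ℂ) (B : ℂ × ℂ → ℂ) (e : ℝ × ℝ) (s : ℝ) : Prop :=
  |(B (ray e s)).im| ≤ h - κ ∧ ∃ q ∈ closedBall z0 (1 / 10), κ ≤ ‖deriv ψ (B (bl e s q))‖

/-- wedge of the line (level below `a + g`), wedge of the label (level below `a`) -/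
def Wg (m : ℝ) : Set (ℂ × ℂ) := {q | 0 < q.2.im ∧ q.1.im < m * q.2.im}

/-- compact window of the wedge `Wg m` with margin `c` -/
def Kc (m c : ℝ) : Set (ℂ × ℂ) :=
  {q | ‖q.1‖ ≤ 1 ∧ ‖q.2‖ ≤ 1 ∧ c ≤ q.2.im ∧ q.1.im ≤ (m - c) * q.2.im}

/-- sequences of windows `(e n, s n)` with interior column up to the scale `σ n`, `s n` very small
compared with the size of the line at the scale `σ n` -/
structure Cols (u0 R d h a g κ : ℝ) (ψ : ℂ → ℂ) (φ p B : ℂ × ℂ → ℂ) (X L : Set (ℂ × ℂ))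
    (u s₀ : ℝ) (e : ℕ → ℝ × ℝ) (s σ : ℕ → ℝ) : Prop where
  e_lim : Tendsto e atTop (𝓝 (s₀, u))
  s_pos : ∀ n, 0 < s n
  s_le : ∀ n, s n ≤ σ n
  σ_le : ∀ n, 4 * σ n ≤ d
  ball_sub : ∀ n, ball (((e n).2 : ℝ) : ℂ) (4 * σ n) ⊆ ball (u0 : ℂ) R
  line : ∀ n, Half (e n) (4 * σ n) (a + g) ⊆ L
  col : ∀ n, ∀ s' ∈ Icc (s n) (σ n), Intr h κ ψ B (e n) s'
  outer : ∀ c > 0, ∃ M : ℕ → ℝ,
    (∀ n, ∀ q ∈ Kc (a + g) c, ‖φ (bl (e n) (σ n) q) - ((φ (ray (e n) (σ n))).re : ℂ)‖ +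
      ‖p (bl (e n) (σ n) q)‖ ≤ M n) ∧
    ∀ τ > 0, Tendsto (fun n => (s n / σ n) ^ (τ : ℝ) * M n) atTop (𝓝 0)

/-- 619 (1): angle at the windows -/
def Nrm1 (m : ℝ) (ψ : ℂ → ℂ) (φ B : ℂ × ℂ → ℂ) (e : ℕ → ℝ × ℝ) (s : ℕ → ℝ) : Prop :=
  ∀ K ⊆ Wg m, IsCompact K → ∃ C : ℝ, ∀ᶠ n in atTop, ∀ q ∈ K,
    ‖φ (bl (e n) (s n) q) - ((φ (ray (e n) (s n))).re : ℂ)‖ ≤
      C * (1 + |Real.log ‖R0 ψ φ B (ray (e n) (s n))‖|)

/-- 619 (2): signed normality of a sequence of lines -/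
def Nrm2 (m : ℝ) (φ p : ℕ → ℂ × ℂ → ℂ) (sg : ℕ → ℝ) : Prop :=
  (∀ n, sg n = 1 ∨ sg n = -1) ∧ ∀ K ⊆ Wg m, IsCompact K → ∃ C : ℝ, ∀ᶠ n in atTop, ∀ q ∈ K,
    ‖p n q * cexp (sg n * I * φ n q)‖ ≤ C ∧ -C ≤ sg n * (φ n q).im

/-- 619 (1) at ALL larger scales `R s n` of the same columns, constant independent of `R`
(consequence of `NormP` by a diagonal sequence; 812 types it: `nrmAll_of`) -/
def NrmAll (m : ℝ) (ψ : ℂ → ℂ) (φ B : ℕ → ℂ × ℂ → ℂ) : Prop :=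
  ∀ K ⊆ Wg m, IsCompact K → ∃ C : ℝ, ∀ R : ℝ, 1 ≤ R → ∀ᶠ n in atTop, ∀ q ∈ K,
    |(φ n ((R : ℂ) * q.1, (R : ℂ) * q.2)).im| ≤
      C * (1 + |Real.log ‖R0 ψ (φ n) (B n) ((R : ℂ) * z0.1, (R : ℂ) * z0.2)‖|)

/-- **(EDGE-NORM)** 619 (1) + (2) -/
def NormP : Prop :=
  ∀ (u0 R d h : ℝ) (ψ H A : ℂ → ℂ) (φ p B : ℂ × ℂ → ℂ) (X L : Set (ℂ × ℂ)),
    ED u0 R d h ψ H A φ p B X L → ∀ (u s₀ a g κ : ℝ) (e : ℕ → ℝ × ℝ) (s σ : ℕ → ℝ),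
    u ∈ Ioo (u0 - R) (u0 + R) → u ≠ 0 → 0 ≤ a → 0 < g → 0 < κ →
    Cols u0 R d h a g κ ψ φ p B X L u s₀ e s σ → Tendsto (fun n => s n / σ n) atTop (𝓝 0) →
    Nrm1 (a + g) ψ φ B e s ∧ ∃ sg : ℕ → ℝ,
      Nrm2 (a + g) (fun n q => φ (bl (e n) (s n) q)) (fun n q => p (bl (e n) (s n) q)) sg

/-! ### worlds (pure sequence objects; no `u`, no scales) -/

/-- **WORLD**: blow-ups of the objects, faces `{Im q.1 = a Im q.2}` with dense births -/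
structure World (h a g : ℝ) (ψ H : ℂ → ℂ) (A0 : ℂ) (φ p B : ℕ → ℂ × ℂ → ℂ) : Prop where
  a_nonneg : 0 ≤ a
  g_pos : 0 < g
  A0_ne : A0 ≠ 0
  curve : Curve h ψ H
  /-- the line is holomorphic on compact subsets of the big wedge -/
  regL : ∀ K ⊆ Wg (a + g), IsCompact K → ∀ᶠ n in atTop, ∃ U : Set (ℂ × ℂ), IsOpen U ∧ K ⊆ U ∧
    DifferentiableOn ℂ (φ n) U ∧ DifferentiableOn ℂ (p n) U
  /-- the label is holomorphic on compact subsets of the small wedge -/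
  regX : ∀ K ⊆ Wg a, IsCompact K → ∀ᶠ n in atTop, ∃ U : Set (ℂ × ℂ), IsOpen U ∧ K ⊆ U ∧
    DifferentiableOn ℂ (B n) U ∧ ∀ q ∈ U, |(B n q).im| < h ∧
      F300.Inc ψ H (φ n q) (p n q) (B n q) ∧
      (deriv ψ (B n q) ≠ 0 → sin (φ n q - ψ (B n q)) ≠ 0)
  /-- area form; `J n = (s n)^2`, `k n w = A (u_n + s_n w)` -/
  area : ∃ (J : ℕ → ℝ) (k : ℕ → ℂ → ℂ), (∀ n, 0 < J n) ∧ Tendsto J atTop (𝓝 0) ∧
    (∀ K : Set ℂ, IsCompact K → TendstoUniformlyOn k (fun _ => A0) atTop K) ∧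
    ∀ K ⊆ Wg (a + g), IsCompact K → ∀ᶠ n in atTop, ∀ q ∈ K,
      q1 (φ n) q * q2 (p n) q - q2 (φ n) q * q1 (p n) q = J n * k n q.2
  /-- births: at a face point the label does not continue to a fixed neighbourhood -/
  births : ∀ q : ℂ × ℂ, 0 < q.2.im → q.1.im = a * q.2.im → ∀ r > 0, closedBall q r ⊆ Wg (a + g) →
    ∃ K ⊆ Wg a, IsCompact K ∧ ∀ᶠ n in atTop, ¬ ∃ (G : ℂ × ℂ → ℂ) (V : Set (ℂ × ℂ)), IsOpen V ∧
      closedBall q r ⊆ V ∧ DifferentiableOn ℂ G V ∧ (∀ x ∈ V, |(G x).im| < h) ∧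
      ∀ x ∈ K ∩ V, G x = B n x

/-- integer normalisation of the label and `2π`-normalisation of the angle -/
def nB (n : ℂ × ℂ → ℂ) : ℂ := (⌊(n z0).re⌋ : ℂ)
def nφ (f : ℂ × ℂ → ℂ) : ℂ := 2 * Real.pi * (⌊(f z0).re / (2 * Real.pi)⌋ : ℂ)

/-- **(EDGE-WORLD)** -/
def ToWorld : Prop :=
  ∀ (u0 R d h : ℝ) (ψ H A : ℂ → ℂ) (φ p B : ℂ × ℂ → ℂ) (X L : Set (ℂ × ℂ)),
    ED u0 R d h ψ H A φ p B X L → ∀ (u s₀ a g : ℝ) (e : ℕ → ℝ × ℝ) (s ρ η : ℕ → ℝ),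
    u ∈ Ioo (u0 - R) (u0 + R) → u ≠ 0 → 0 ≤ a → 0 < g → Tendsto e atTop (𝓝 (s₀, u)) →
    (∀ n, 0 < s n) → Tendsto s atTop (𝓝 0) → (∀ n, 0 < ρ n) → Tendsto ρ atTop (𝓝 0) →
    (∀ n, 0 < η n) → Tendsto (fun n => s n / η n) atTop (𝓝 0) →
    (∀ n, E2 X L a g (ρ n) (η n) (e n)) →
    World h a g ψ H (A u)
      (fun n q => φ (bl (e n) (s n) q) - nφ (fun x => φ (bl (e n) (s n) x)))
      (fun n q => p (bl (e n) (s n) q))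
      (fun n q => B (bl (e n) (s n) q) - nB (fun x => B (bl (e n) (s n) x)))

/-- interior base label (uniform) and non degeneracy for `y` -/
def IntrW (h κ : ℝ) (ψ : ℂ → ℂ) (B : ℕ → ℂ × ℂ → ℂ) : Prop :=
  ∀ n, |(B n z0).im| ≤ h - κ ∧ ∃ q ∈ closedBall z0 (1 / 10), κ ≤ ‖deriv ψ (B n q)‖

/-- **(EDGE-CUSP)** 619 (a): no cusp window -/
def CuspP : Prop :=
  ∀ (h a g κ : ℝ) (ψ H : ℂ → ℂ) (A0 : ℂ) (φ p B : ℕ → ℂ × ℂ → ℂ) (sg : ℕ → ℝ), 0 < κ →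
    World h a g ψ H A0 φ p B → IntrW h κ ψ B → Nrm2 (a + g) φ p sg →
    Tendsto (fun n => |(φ n z0).im|) atTop atTop →
    (∀ n, 0 ≤ (B n z0).re ∧ (B n z0).re ≤ 1) → False

/-- the conclusion at a window: `ε`-slow on the compacts `K` (line) and `K'` (label) -/
def SlowAt (ε : ℝ) (K K' : Set (ℂ × ℂ)) (ψ : ℂ → ℂ) (φ p B : ℂ × ℂ → ℂ) : Prop :=
  (∀ q ∈ K, ‖cexp (2 * I * (φ q - ψ (B z0))) - 1‖ ≤ ε ∧ ‖p q - p z0‖ ≤ ε) ∧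
    ∀ q ∈ K', ‖B q - B z0‖ ≤ ε

/-- **(EDGE-FLAT)** 619 (b), (c) (Lemma X): a world with bounded lines is slow; `NrmAll` is the input
of Liouville in (c) (without it the statement is false) -/
def FlatP : Prop :=
  ∀ (h a g κ : ℝ) (ψ H : ℂ → ℂ) (A0 : ℂ) (φ p B : ℕ → ℂ × ℂ → ℂ), 0 < κ →
    World h a g ψ H A0 φ p B → IntrW h κ ψ B →
    (∀ n, 0 ≤ (B n z0).re ∧ (B n z0).re ≤ 1) →
    (∀ K ⊆ Wg (a + g), IsCompact K → ∃ C : ℝ, ∀ᶠ n in atTop, ∀ q ∈ K, ‖φ n q‖ ≤ C ∧ ‖p n q‖ ≤ C) →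
    NrmAll (a + g) ψ φ B →
    ∀ ε > 0, ∀ K ⊆ Wg (a + g), IsCompact K → ∀ K' ⊆ Wg a, IsCompact K' →
      ∀ᶠ n in atTop, SlowAt ε K K' ψ (φ n) (p n) (B n)

/-! ### rigidity of interior windows -/

/-- **RIGID** at `(u, s₀)`: windows with interior column and birth precision `→ 0` are slow
(a consequence of `NormP`, `ToWorld`, `CuspP`, `FlatP`) -/
def Rigid (u0 R d h : ℝ) (ψ : ℂ → ℂ) (φ p B : ℂ × ℂ → ℂ) (X L : Set (ℂ × ℂ)) (u s₀ a g : ℝ) :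
    Prop :=
  ∀ (κ : ℝ) (e : ℕ → ℝ × ℝ) (s σ ρ η : ℕ → ℝ), 0 < κ →
    Cols u0 R d h a g κ ψ φ p B X L u s₀ e s σ → Tendsto (fun n => s n / σ n) atTop (𝓝 0) →
    Tendsto s atTop (𝓝 0) → (∀ n, 0 < ρ n) → Tendsto ρ atTop (𝓝 0) → (∀ n, σ n ≤ η n) →
    (∀ n, E2 X L a g (ρ n) (η n) (e n)) →
    ∀ ε > 0, ∀ K ⊆ Wg (a + g), IsCompact K → ∀ K' ⊆ Wg a, IsCompact K' →
      ∀ᶠ n in atTop, SlowAt ε K K' ψ (fun q => φ (bl (e n) (s n) q))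
        (fun q => p (bl (e n) (s n) q)) (fun q => B (bl (e n) (s n) q))

/-! ### balanced columns and the slow regime -/

/-- cone limits on the edges over almost every `x` near `s₀` (output of `Sup`) -/
def EdgeLims (h : ℝ) (B : ℂ × ℂ → ℂ) (u s₀ : ℝ) : Prop :=
  ∃ δ > 0, ∀ᵐ x : ℝ, |x - s₀| < δ → ∃ b : ℂ, |b.im| = h ∧
    ∀ M : ℝ, Tendsto B (𝓝[Cn (x, u) M] ((x : ℂ), (u : ℂ))) (𝓝 b)

/-- interior columns near `s₀` down to the scale `0`, uniform margin -/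
def Balanced (h : ℝ) (ψ : ℂ → ℂ) (B : ℂ × ℂ → ℂ) (u s₀ : ℝ) : Prop :=
  ∃ κ > 0, ∀ δ > 0, ∃ x : ℝ, |x - s₀| < δ ∧ ∃ σ > 0, ∀ s ∈ Ioo 0 σ, Intr h κ ψ B (x, u) s

/-- **(EDGE-BAL)** [528 / 953] on the official sheets (real slice `w = u` available there) -/
def BalP : Prop :=
  ∀ (q : C(ℂ, ℂ)) (η ρ r Bc : ℝ) (b φ p : ℂ × ℂ → ℂ) (m₀ : ℂ → ℂ) (h : ℝ) (ψ H K G : ℂ → ℂ),
    Sh982.Dat q η ρ r Bc b φ p m₀ h ψ H → Rule982.NB h ψ H → Growth.MirS q η h ψ H K G →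
    ∀ (u0 R d : ℝ) (g : ℂ → ℂ), Chain559.Shift b φ p h ρ r u0 R d g →
    ∀ u α β s₀ a₀ c : ℝ, Chain559.GoodAt b φ p h ρ r u0 R d g u α β s₀ a₀ c →
      EdgeLims h (Bx b h ρ r g) u s₀ → ¬ Chain559.OneE (Bx b h ρ r g) h u s₀ →
      Balanced h ψ (Bx b h ρ r g) u s₀

/-- **(EDGE-SLOW)** 859 #30686: (N) + (CHAIN) + (END); (N) = 909 (S4), (S5) at a kernel record -/
def SlowP : Prop :=
  ∀ (u0 R d h : ℝ) (ψ H A : ℂ → ℂ) (φ p B : ℂ × ℂ → ℂ) (X L : Set (ℂ × ℂ)),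
    ED u0 R d h ψ H A φ p B X L → ∀ u s₀ a g : ℝ, u ∈ Ioo (u0 - R) (u0 + R) → u ≠ 0 →
    GoodPP X L u s₀ a g → Rigid u0 R d h ψ φ p B X L u s₀ a g → EdgeLims h B u s₀ →
    ¬ Balanced h ψ B u s₀

end Crest.Agent.R102.Edge255
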