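import Crest.Agent.R102.EdgeC3_300
import Crest.Agent.R102.EdgeDefs_255

/-!
Row 102, T1-B, EDGE-FLAT (helper300): the joints `World` (EdgeDefs_255) → births in germ form and
case (c) (`R₀ ≡ 1`) of a world.
-/

set_option autoImplicit false

open Set Filter Topology Metric Complex

noncomputable section

namespace Crest.Agent.R102.EdgeC300

open Crest.Agent.R102.EdgeLim196 Crest.Agent.R102.LemX262 Crest.Agent.R102.SlowLim754
open Crest.Agent.R102.Edge255 (World NrmAll Wg R0 z0)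
open Crest.Agent.R266.SCV

section world

variable {h a g : ℝ} {ψ H : ℂ → ℂ} {A0 : ℂ} {φ p B : ℕ → ℂ × ℂ → ℂ}

/-- a compact preconnected set which contains a given compact subset of a convex set -/
theorem exists_star {O K : Set (ℂ × ℂ)} (hO : Convex ℝ O) (hK : K ⊆ O) (hKc : IsCompact K) :
    ∃ T ⊆ O, K ⊆ T ∧ IsCompact T ∧ IsPreconnected T := by
  rcases K.eq_empty_or_nonempty with rfl | ⟨x1, hx1⟩
  · exact ⟨∅, empty_subset _, subset_rfl, isCompact_empty, isPreconnected_empty⟩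
  set f : ℝ × (ℂ × ℂ) → ℂ × ℂ := fun x => x1 + x.1 • (x.2 - x1) with hf
  have hfc : Continuous f := by fun_prop
  have hseg : ∀ y ∈ K, segment ℝ x1 y = (fun t : ℝ => f (t, y)) '' Icc (0 : ℝ) 1 := by
    intro y _
    rw [segment_eq_image']
  refine ⟨f '' (Icc (0 : ℝ) 1 ×ˢ K), ?_, ?_, ?_, ?_⟩
  · rintro _ ⟨⟨t, y⟩, ⟨ht, hy⟩, rfl⟩
    have h1 := hO.segment_subset (hK hx1) (hK hy)
    rw [hseg y hy] at h1
    exact h1 ⟨t, ht, rfl⟩
  · intro y hy
    exact ⟨(1, y), ⟨⟨zero_le_one, le_rfl⟩, hy⟩, by simp [hf]⟩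
  · exact (isCompact_Icc.prod hKc).image hfc
  · refine isPreconnected_of_forall x1 ?_
    rintro _ ⟨⟨t, y⟩, ⟨ht, hy⟩, rfl⟩
    refine ⟨segment ℝ x1 y, ?_, left_mem_segment ℝ _ _, ?_, (convex_segment _ _).isPreconnected⟩
    · rw [hseg y hy]
      rintro _ ⟨t, ht, rfl⟩
      exact ⟨(t, y), ⟨ht, hy⟩, rfl⟩
    · rw [hseg y hy]
      exact ⟨t, ht, rfl⟩

/-- births of a world, germ form: no holomorphic function on a face ball has the germ of the label
at a point of a given compact set -/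
theorem world_noReg (W : World h a g ψ H A0 φ p B) {q0 : ℂ × ℂ} (hq0 : q0 ∈ Fc a) {r : ℝ}
    (hr : 0 < r) {K : Set (ℂ × ℂ)} (hK : K ⊆ ball q0 r ∩ Lo a) (hKc : IsCompact K) :
    ∀ᶠ n in atTop, ¬ ∃ G : ℂ × ℂ → ℂ, DifferentiableOn ℂ G (ball q0 r) ∧
      (∀ x ∈ ball q0 r, |(G x).im| < h) ∧ ∃ x ∈ K, G =ᶠ[𝓝 x] B n := by
  have hq0g : q0 ∈ Lo (a + g) := Fc_sub W.g_pos hq0
  obtain ⟨r1, hr1, hr1L⟩ := Metric.nhds_basis_closedBall.mem_iff.1 ((isOpen_Lo (a + g)).mem_nhds hq0g)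
  set r2 : ℝ := min r1 (r / 2) with hr2
  have hr2p : 0 < r2 := lt_min hr1 (by positivity)
  obtain ⟨K1, hK1, hK1c, hK1b⟩ := W.births q0 hq0.1 hq0.2 r2 hr2p
    ((closedBall_subset_closedBall (min_le_left _ _)).trans hr1L)
  have h34 : (3 / 4 : ℝ) * r < r := by linarith
  have hK2c : IsCompact (K ∪ (K1 ∩ closedBall q0 (3 / 4 * r))) :=
    hKc.union (hK1c.inter_right isClosed_closedBall)
  have hK2 : K ∪ (K1 ∩ closedBall q0 (3 / 4 * r)) ⊆ ball q0 r ∩ Lo a := by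
    rintro x (hx | hx)
    · exact hK hx
    · exact ⟨closedBall_subset_ball h34 hx.2, hK1 hx.1⟩
  obtain ⟨T, hhs, hKT, hhc, hTp⟩ := exists_star ((convex_ball q0 r).inter (convex_Lo a)) hK2 hK2c
  filter_upwards [hK1b, W.regX _ (fun x hx => (hhs hx).2) hhc] with n hn1 hn2
  rintro ⟨G, g1, g2, x, hx, g3⟩
  obtain ⟨U, hU, hKU, hBU, -⟩ := hn2
  have hGa : AnalyticOnNhd ℂ G T :=
    (analyticOnNhd_of_differentiableOn isOpen_ball g1).mono fun y hy => (hhs hy).1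
  have hBa : AnalyticOnNhd ℂ (B n) T := (analyticOnNhd_of_differentiableOn hU hBU).mono hKU
  have key := hGa.eqOn_of_preconnected_of_eventuallyEq hBa hTp (hKT (Or.inl hx)) g3
  refine hn1 ⟨G, ball q0 (3 / 4 * r), isOpen_ball, ?_, g1.mono (ball_subset_ball h34.le),
    fun y hy => g2 y (ball_subset_ball h34.le hy), fun y hy => ?_⟩
  · refine closedBall_subset_ball ?_
    have := min_le_right r1 (r / 2)
    rw [← hr2] at this
    linarith
  · exact key (hKT (Or.inr ⟨hy.1, ball_subset_closedBall hy.2⟩))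

/-- 196's form of `births` in `ab_pure` -/
theorem world_births (W : World h a g ψ H A0 φ p B) {l : Filter ℕ} (hl : l ≤ atTop)
    (Om : Set (ℂ × ℂ)) :
    ∀ q0 ∈ Fc a, ∀ r > 0, closedBall q0 r ⊆ Om → ∀ x1 ∈ Lo a ∩ ball q0 r,
      ∀ᶠ n in l, ¬ ∃ G : ℂ × ℂ → ℂ, DifferentiableOn ℂ G (ball q0 r) ∧
        (∀ x ∈ ball q0 r, |(G x).im| < h) ∧ G =ᶠ[𝓝 x1] B n := by
  intro q0 hq0 r hr _ x1 hx1
  refine hl ?_
  filter_upwards [world_noReg W hq0 hr (K := {x1}) (by rintro x rfl; exact ⟨hx1.2, hx1.1⟩)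
    isCompact_singleton] with n hn
  rintro ⟨G, g1, g2, g3⟩
  exact hn ⟨G, g1, g2, x1, rfl, g3⟩

/-- a world with a limit along a filter -/
theorem world_seq (W : World h a g ψ H A0 φ p B) {l : Filter ℕ} (hl : l ≤ atTop)
    {φl pl Bl : ℂ × ℂ → ℂ} (hφt : TendstoLocallyUniformlyOn φ φl l (Wg (a + g)))
    (hpt : TendstoLocallyUniformlyOn p pl l (Wg (a + g)))
    (hBt : TendstoLocallyUniformlyOn B Bl l (Wg a))
    (hφd : DifferentiableOn ℂ φl (Wg (a + g))) (hpd : DifferentiableOn ℂ pl (Wg (a + g)))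
    (hBd : DifferentiableOn ℂ Bl (Wg a)) (hBm : ∀ x ∈ Wg a, |(Bl x).im| < h) :
    Seq l h a g ψ H φ p B (fun _ => 0) φl pl Bl where
  φd := by
    intro K hK hKc
    refine hl ?_
    filter_upwards [W.regL K hK hKc] with n hn x hx
    obtain ⟨U, hU, hKU, h1, h2⟩ := hn
    exact h1.differentiableAt (hU.mem_nhds (hKU hx))
  pd := by
    intro K hK hKc
    refine hl ?_
    filter_upwards [W.regL K hK hKc] with n hn x hx
    obtain ⟨U, hU, hKU, h1, h2⟩ := hn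
    exact h2.differentiableAt (hU.mem_nhds (hKU hx))
  φt := hφt
  pt := hpt
  Bt := by
    refine hBt.congr ?_
    intro n x _
    simp
  φld := hφd
  pld := hpd
  Bld := hBd
  Blm := hBm
  lab := by
    intro K hK hKc
    refine hl ?_
    filter_upwards [W.regX K hK hKc] with n hn x hx
    obtain ⟨U, hU, hKU, h1, h2⟩ := hn
    obtain ⟨l1, l2, l3⟩ := h2 x (hKU hx)
    refine ⟨h1.differentiableAt (hU.mem_nhds (hKU hx)), l1, l2, fun h4 h5 => l3 h4 ?_⟩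
    obtain ⟨m, hm⟩ := Complex.exp_eq_one_iff.1 h5
    have h2I : (2 : ℂ) * I ≠ 0 := by simp
    have h6 : φ n x - ψ (B n x) = ((-m : ℤ) : ℂ) * Real.pi := by
      refine mul_left_cancel₀ h2I ?_
      push_cast
      linear_combination -hm
    rw [h6]
    exact Complex.sin_int_mul_pi _
  noReg := by
    intro q0 hq0 r hr K hK hKc
    exact hl (world_noReg W hq0 hr hK hKc)

/-- the area form of a world -/
theorem world_area (W : World h a g ψ H A0 φ p B) {l : Filter ℕ} (hl : l ≤ atTop) :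
    ∃ (σ : ℕ → ℂ) (J : ℕ → ℂ × ℂ → ℂ), (∀ n, σ n ≠ 0) ∧
      (∀ K ⊆ Lo (a + g), IsCompact K → ∀ᶠ n in l, ∀ x ∈ K,
        d1 (φ n) x * d2 (p n) x - d2 (φ n) x * d1 (p n) x = σ n * J n x) ∧
      TendstoLocallyUniformlyOn J (fun _ => A0) l (Lo (a + g)) := by
  obtain ⟨J, k, hJ, -, hk, hA⟩ := W.area
  refine ⟨fun n => (J n : ℂ), fun n x => k n x.2, fun n => ?_, fun K hK hKc => ?_, ?_⟩
  · show ((J n : ℝ) : ℂ) ≠ 0
    exact_mod_cast (hJ n).ne'
  · refine hl ?_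
    filter_upwards [hA K hK hKc] with n hn x hx
    exact hn x hx
  · refine (tendstoLocallyUniformlyOn_iff_forall_isCompact (isOpen_Lo _)).2 fun K hK hKc => ?_
    rw [Metric.tendstoUniformlyOn_iff]
    intro ε hε
    have h1 := Metric.tendstoUniformlyOn_iff.1 (hk (Prod.snd '' K) (hKc.image continuous_snd)) ε hε
    refine hl ?_
    filter_upwards [h1] with n hn x hx
    exact hn x.2 ⟨x, hx, rfl⟩

/-- positive multiples of the cone -/
theorem Lo_smul {m R : ℝ} (hR : 0 < R) {q : ℂ × ℂ} (hq : q ∈ Lo m) :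
    (((R : ℂ) * q.1, (R : ℂ) * q.2) : ℂ × ℂ) ∈ Lo m := by
  obtain ⟨h1, h2⟩ := hq
  have e1 : ((R : ℂ) * q.1).im = R * q.1.im := by simp
  have e2 : ((R : ℂ) * q.2).im = R * q.2.im := by simp
  refine ⟨?_, ?_⟩
  · show 0 < ((R : ℂ) * q.2).im
    rw [e2]; positivity
  · show ((R : ℂ) * q.1).im < m * ((R : ℂ) * q.2).im
    rw [e1, e2]
    nlinarith [mul_lt_mul_of_pos_left h2 hR]

/-- **case (c) for a world**: if the limit line is tangent at the limit label, both are constant -/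
theorem caseC_world (W : World h a g ψ H A0 φ p B) {l : Filter ℕ} [l.NeBot] (hl : l ≤ atTop)
    {φl pl Bl : ℂ × ℂ → ℂ} (hφt : TendstoLocallyUniformlyOn φ φl l (Wg (a + g)))
    (hpt : TendstoLocallyUniformlyOn p pl l (Wg (a + g)))
    (hBt : TendstoLocallyUniformlyOn B Bl l (Wg a))
    (hφd : DifferentiableOn ℂ φl (Wg (a + g))) (hpd : DifferentiableOn ℂ pl (Wg (a + g)))
    (hBd : DifferentiableOn ℂ Bl (Wg a)) (hBm : ∀ x ∈ Wg a, |(Bl x).im| < h)
    (hN : NrmAll (a + g) ψ φ B)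
    (hR : ∀ x ∈ Wg a, cexp (2 * I * (ψ (Bl x) - φl x)) = 1) :
    (∀ x ∈ Wg a, ∀ y ∈ Wg a, Bl x = Bl y) ∧ ∀ x ∈ Wg (a + g), ∀ y ∈ Wg (a + g), φl x = φl y := by
  have S := world_seq W hl hφt hpt hBt hφd hpd hBd hBm
  obtain ⟨σ, J, hσ, hJ, hJt⟩ := world_area W hl
  have hg := W.g_pos
  have ha := W.a_nonneg
  have hψd : DifferentiableOn ℂ ψ (Sp h) := W.curve.ψ_diff
  have hHd : DifferentiableOn ℂ H (Sp h) := W.curve.H_diff
  have hrel : F300.Rel (Sp h) ψ H (-1) := W.curve.rel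
  have hψp : ∀ b ∈ Sp h, ψ (b + 1) = ψ b + 2 * Real.pi * ((1 : ℤ) : ℂ) := by
    intro b hb
    rw [W.curve.ψ_per b hb]; simp
  -- the compact set of the bound
  set y0 : ℝ := 2 / g with hy0
  have hy0p : 0 < y0 := by positivity
  set f : ℂ → ℂ × ℂ := fun s => Ea a (s, (y0 : ℂ) * I) with hf
  have hfc : Continuous f := (Ea_diff a).continuous.comp (by fun_prop)
  have hK : f '' closedBall 0 1 ⊆ Wg (a + g) := by
    rintro _ ⟨s, hs, rfl⟩
    refine Ea_mem.2 ⟨?_, ?_⟩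
    · simpa using hy0p
    · have h1 : s.im ≤ 1 := ((le_abs_self _).trans (abs_im_le_norm s)).trans (by simpa using hs)
      show s.im < g * ((y0 : ℂ) * I).im
      have h2 : ((y0 : ℂ) * I).im = y0 := by simp
      rw [h2]
      have h3 : g * y0 = 2 := by rw [hy0]; field_simp
      linarith
  obtain ⟨C, hC⟩ := hN (f '' closedBall 0 1) hK ((isCompact_closedBall _ _).image hfc)
  refine caseC' hg hψd hHd hrel (by norm_num) hψp W.curve.H_per S (Eventually.of_forall hσ) hJ hJt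
    (fun _ _ => W.A0_ne) (C := C) (fun s => ?_) hR
  set R : ℝ := ‖s‖ + 1 with hRdef
  have hR1 : 1 ≤ R := by rw [hRdef]; linarith [norm_nonneg s]
  have hR0 : 0 < R := by linarith
  have hRc : (R : ℂ) ≠ 0 := by exact_mod_cast hR0.ne'
  have hz0 : z0 ∈ Lo a := by
    refine ⟨?_, ?_⟩
    · show 0 < (I / 4 : ℂ).im
      norm_num
    · show (-I : ℂ).im < a * (I / 4 : ℂ).im
      have : (I / 4 : ℂ).im = 1 / 4 := by norm_num
      rw [this, neg_im, I_im]
      linarith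
  have hRz : (((R : ℂ) * z0.1, (R : ℂ) * z0.2) : ℂ × ℂ) ∈ Lo a := Lo_smul hR0 hz0
  have hfs : s / R ∈ closedBall (0 : ℂ) 1 := by
    rw [mem_closedBall_zero_iff, norm_div, Complex.norm_real, Real.norm_eq_abs, abs_of_pos hR0,
      div_le_one hR0, hRdef]
    linarith
  have hfm := hK ⟨s / R, hfs, rfl⟩
  have hpt : (((R : ℂ) * (f (s / R)).1, (R : ℂ) * (f (s / R)).2) : ℂ × ℂ) =
      Ea a (s, (R : ℂ) * ((y0 : ℂ) * I)) := by
    simp only [hf, Ea]
    refine Prod.ext ?_ rfl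
    simp only
    rw [mul_add, mul_div_cancel₀ _ hRc]
    ring
  have hmem : Ea a (s, (R : ℂ) * ((y0 : ℂ) * I)) ∈ Lo (a + g) := by
    rw [← hpt]; exact Lo_smul hR0 hfm
  refine ⟨(R : ℂ) * ((y0 : ℂ) * I), Ea_mem.1 hmem, ?_⟩
  -- pass to the limit
  have t1 : Tendsto (fun n => φ n (Ea a (s, (R : ℂ) * ((y0 : ℂ) * I)))) l
      (𝓝 (φl (Ea a (s, (R : ℂ) * ((y0 : ℂ) * I))))) := hφt.tendsto_at hmem
  have t2 : Tendsto (fun n => φ n ((R : ℂ) * z0.1, (R : ℂ) * z0.2)) l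
      (𝓝 (φl ((R : ℂ) * z0.1, (R : ℂ) * z0.2))) := hφt.tendsto_at (Lo_sub hg hRz)
  have t3 : Tendsto (fun n => B n ((R : ℂ) * z0.1, (R : ℂ) * z0.2)) l
      (𝓝 (Bl ((R : ℂ) * z0.1, (R : ℂ) * z0.2))) := hBt.tendsto_at hRz
  have c1 : ContinuousAt ψ (Bl ((R : ℂ) * z0.1, (R : ℂ) * z0.2)) :=
    (hψd.differentiableAt ((isOpen_Sp h).mem_nhds (hBm _ hRz))).continuousAt
  have t4 : Tendsto (fun n => R0 ψ (φ n) (B n) ((R : ℂ) * z0.1, (R : ℂ) * z0.2)) l (𝓝 1) := by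
    have h1 := (((c1.tendsto.comp t3).sub t2).const_mul (2 * I)).cexp
    rw [hR _ hRz] at h1
    exact h1
  have t5 : Tendsto (fun n => C * (1 + |Real.log ‖R0 ψ (φ n) (B n)
      ((R : ℂ) * z0.1, (R : ℂ) * z0.2)‖|)) l (𝓝 C) := by
    have h1 := t4.norm
    rw [norm_one] at h1
    have h2 := (Real.continuousAt_log (one_ne_zero)).tendsto.comp h1
    rw [Real.log_one] at h2
    have h3 := (h2.abs.const_add 1).const_mul C
    simpa using h3
  have t6 : Tendsto (fun n => |(φ n (Ea a (s, (R : ℂ) * ((y0 : ℂ) * I)))).im|) l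
      (𝓝 |(φl (Ea a (s, (R : ℂ) * ((y0 : ℂ) * I)))).im|) :=
    ((Complex.continuous_im.tendsto _).comp t1).abs
  refine le_of_tendsto_of_tendsto t6 t5 (hl ?_)
  filter_upwards [hC R hR1] with n hn
  have := hn (f (s / R)) ⟨s / R, hfs, rfl⟩
  rw [hpt] at this
  exact this

end world

end Crest.Agent.R102.EdgeC300
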