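import Mathlib
import Crest.Agent.R266.SCV
import Crest.Agent.R264.MontelU

/-!
# Row 102, T1-B, EDGE: the face lemma (Lemma X of helper210; helper971 (2); helper756 (1))

Zeros of `Q_n` dense near the face `{Im s = 0}`, none below it, Jacobian of `(f_n, Q_n)` a constant
times a convergent non-vanishing function: then `∂_v f = 0` on the face for `f = lim f_n`
(coordinates `(v, s)`).  (helper262)
-/

set_option autoImplicit false

namespace Crest.Agent.R102.LemX262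

open Set Filter Topology Metric Complex

/-- zeros of a holomorphic function with almost constant `s`-derivative, zero free deep inside,
lie on one Lipschitz graph -/
theorem graph {D : ℂ × ℂ → ℂ} {μ₀ s₀ k : ℂ} {ρ : ℝ} (hρ : 0 < ρ) (hk : k ≠ 0)
    (hD : DifferentiableOn ℂ D (ball (μ₀, s₀) ρ))
    (hd : ∀ z ∈ ball (μ₀, s₀) ρ, ‖fderiv ℂ D z (0, 1) - k‖ ≤ ‖k‖ / 8)
    (hfree : ∀ z ∈ ball (μ₀, s₀) ρ, z.2.im < s₀.im - ρ / 8 → D z ≠ 0)
    {z₁ z₂ : ℂ × ℂ} (h₁ : z₁ ∈ ball (μ₀, s₀) (ρ / 4)) (h₂ : z₂ ∈ ball (μ₀, s₀) (ρ / 4))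
    (e₁ : D z₁ = 0) (e₂ : D z₂ = 0) : ‖z₁.2 - z₂.2‖ ≤ 16 * ‖z₁.1 - z₂.1‖ := by
  obtain ⟨μ₁, s₁⟩ := z₁
  obtain ⟨μ₂, s₂⟩ := z₂
  have hk0 : 0 < ‖k‖ := norm_pos_iff.2 hk
  rw [← ball_prod_same] at h₁ h₂
  obtain ⟨hm1, hs1⟩ := h₁
  obtain ⟨hm2, hs2⟩ := h₂
  simp only at hm1 hs1 hm2 hs2 ⊢
  have hmem : ∀ μ ∈ ball μ₀ ρ, ∀ s ∈ ball s₀ ρ, (μ, s) ∈ ball (μ₀, s₀) ρ := by
    intro μ hμ s hs
    rw [← ball_prod_same]
    exact ⟨hμ, hs⟩
  have hDa : ∀ μ ∈ ball μ₀ ρ, ∀ s ∈ ball s₀ ρ, DifferentiableAt ℂ D (μ, s) := fun μ hμ s hs =>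
    hD.differentiableAt (isOpen_ball.mem_nhds (hmem μ hμ s hs))
  have hds : ∀ μ ∈ ball μ₀ ρ, ∀ s ∈ ball s₀ ρ,
      HasDerivAt (fun s => D (μ, s)) (fderiv ℂ D (μ, s) (0, 1)) s := by
    intro μ hμ s hs
    exact (hDa μ hμ s hs).hasFDerivAt.comp_hasDerivAt s
      ((hasDerivAt_const s μ).prodMk (hasDerivAt_id s))
  have hA : ∀ μ ∈ ball μ₀ ρ, ∀ s ∈ ball s₀ ρ, ∀ s' ∈ ball s₀ ρ,
      ‖D (μ, s) - D (μ, s') - k * (s - s')‖ ≤ ‖k‖ / 8 * ‖s - s'‖ := by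
    intro μ hμ s hs s' hs'
    have := Convex.norm_image_sub_le_of_norm_hasDerivWithin_le (s := ball s₀ ρ)
      (f := fun s => D (μ, s) - k * s) (f' := fun s => fderiv ℂ D (μ, s) (0, 1) - k)
      (C := ‖k‖ / 8) (x := s') (y := s) (fun x hx => ?_) (fun x hx => hd _ (hmem μ hμ x hx))
      (convex_ball _ _) hs' hs
    · have e : D (μ, s) - D (μ, s') - k * (s - s') = D (μ, s) - k * s - (D (μ, s') - k * s') := by
        ring
      rw [e]
      exact this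
    · have h := (hds μ hμ x hx).sub ((hasDerivAt_id x).const_mul k)
      simp only [mul_one] at h
      exact h.hasDerivWithinAt
  have hlow : ∀ μ ∈ ball μ₀ ρ, ∀ s ∈ ball s₀ ρ, ∀ s' ∈ ball s₀ ρ,
      7 / 8 * ‖k‖ * ‖s - s'‖ ≤ ‖D (μ, s) - D (μ, s')‖ := by
    intro μ hμ s hs s' hs'
    have h := hA μ hμ s hs s' hs'
    have h2 : ‖k * (s - s')‖ ≤ ‖D (μ, s) - D (μ, s') - k * (s - s')‖ + ‖D (μ, s) - D (μ, s')‖ := by
      have e : k * (s - s') = -(D (μ, s) - D (μ, s') - k * (s - s')) + (D (μ, s) - D (μ, s')) := by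
        ring
      calc ‖k * (s - s')‖ = ‖-(D (μ, s) - D (μ, s') - k * (s - s')) + (D (μ, s) - D (μ, s'))‖ := by
            rw [← e]
        _ ≤ _ := by
            refine (norm_add_le _ _).trans ?_
            rw [norm_neg]
    rw [norm_mul] at h2
    linarith
  have hupp : ∀ μ ∈ ball μ₀ ρ, ∀ s ∈ ball s₀ ρ, ∀ s' ∈ ball s₀ ρ,
      ‖D (μ, s) - D (μ, s')‖ ≤ 9 / 8 * ‖k‖ * ‖s - s'‖ := by
    intro μ hμ s hs s' hs'
    have h := hA μ hμ s hs s' hs'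
    have h2 : ‖D (μ, s) - D (μ, s')‖ ≤ ‖D (μ, s) - D (μ, s') - k * (s - s')‖ + ‖k * (s - s')‖ := by
      refine le_trans (le_of_eq ?_) (norm_add_le _ _)
      congr 1
      ring
    rw [norm_mul] at h2
    linarith
  -- the base level
  set sm : ℂ := s₀ - (ρ / 2 : ℝ) * I with hsm
  have hsmim : sm.im = s₀.im - ρ / 2 := by
    rw [hsm]
    simp
  have hsmd : dist sm s₀ = ρ / 2 := by
    rw [hsm, dist_eq_norm, sub_sub_cancel_left, norm_neg, norm_mul, norm_I, mul_one,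
      Complex.norm_real, Real.norm_of_nonneg (by positivity)]
  have hsmb : sm ∈ ball s₀ ρ := by
    rw [mem_ball, hsmd]
    linarith
  have hsub : closedBall sm (ρ / 4) ⊆ ball s₀ ρ := by
    intro s hs
    rw [mem_closedBall] at hs
    rw [mem_ball]
    have := dist_triangle s sm s₀
    rw [hsmd] at this
    linarith
  have hB : ∀ μ ∈ ball μ₀ ρ, 7 / 64 * ‖k‖ * ρ ≤ ‖D (μ, sm)‖ := by
    intro μ hμ
    have h1 : DiffContOnCl ℂ (fun s => D (μ, s)) (ball sm (ρ / 4)) := by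
      refine DifferentiableOn.diffContOnCl (fun s hs => ?_)
      exact (hds μ hμ s (hsub (closure_ball_subset_closedBall
        hs))).differentiableAt.differentiableWithinAt
    have h2 := h1.ball_subset_image_closedBall (ε := 7 / 32 * ‖k‖ * ρ) (by positivity) ?_ ?_
    · by_contra hcon
      push Not at hcon
      have h3 : (0 : ℂ) ∈ ball (D (μ, sm)) (7 / 32 * ‖k‖ * ρ / 2) := by
        rw [mem_ball, dist_eq_norm, zero_sub, norm_neg]
        linarith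
      obtain ⟨s, hs, hs0⟩ := h2 h3
      refine hfree (μ, s) (hmem μ hμ s (hsub hs)) ?_ hs0
      have h4 : |s.im - sm.im| ≤ ρ / 4 := by
        rw [← Complex.sub_im]
        rw [mem_closedBall, dist_eq_norm] at hs
        exact (Complex.abs_im_le_norm _).trans hs
      have h5 := (abs_le.1 h4).2
      show s.im < _
      rw [hsmim] at h5
      linarith
    · intro s hs
      have h3 := hlow μ hμ s (hsub (sphere_subset_closedBall hs)) sm hsmb
      rw [mem_sphere, dist_eq_norm] at hs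
      rw [hs] at h3
      linarith
    · have h3 : ∀ᶠ z in 𝓝[≠] sm, D (μ, z) ≠ D (μ, sm) := by
        have h4 : ∀ᶠ z in 𝓝[≠] sm, z ∈ ball s₀ ρ :=
          eventually_nhdsWithin_of_eventually_nhds (isOpen_ball.mem_nhds hsmb)
        filter_upwards [h4, self_mem_nhdsWithin] with z hz hne h5
        have h6 := hlow μ hμ z hz sm hsmb
        rw [h5, sub_self, norm_zero] at h6
        have h7 : 0 < ‖z - sm‖ := norm_pos_iff.2 (sub_ne_zero.2 hne)
        nlinarith [mul_pos hk0 h7]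
      exact h3.frequently.filter_mono nhdsWithin_le_nhds
  have hBne : ∀ μ ∈ ball μ₀ ρ, D (μ, sm) ≠ 0 := by
    intro μ hμ h0
    have := hB μ hμ
    rw [h0, norm_zero] at this
    have : 0 < 7 / 64 * ‖k‖ * ρ := by positivity
    linarith
  have hdm : ∀ s ∈ ball s₀ ρ, DifferentiableOn ℂ (fun μ => D (μ, s)) (ball μ₀ ρ) := by
    intro s hs μ hμ
    have : DifferentiableAt ℂ (fun μ : ℂ => ((μ, s) : ℂ × ℂ)) μ := by fun_prop
    exact ((hDa μ hμ s hs).comp μ this).differentiableWithinAt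
  have hsub2 : ball μ₀ (2 * (ρ / 2)) ⊆ ball μ₀ ρ := by
    rw [mul_div_cancel₀ _ (two_ne_zero' ℝ)]
  have hm1' : μ₁ ∈ ball μ₀ (ρ / 2) := ball_subset_ball (by linarith) hm1
  have hm2' : μ₂ ∈ ball μ₀ (ρ / 2) := ball_subset_ball (by linarith) hm2
  have hm1'' : μ₁ ∈ ball μ₀ ρ := ball_subset_ball (by linarith) hm1
  have hm2'' : μ₂ ∈ ball μ₀ ρ := ball_subset_ball (by linarith) hm2
  have hs1'' : s₁ ∈ ball s₀ ρ := ball_subset_ball (by linarith) hs1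
  have hs2'' : s₂ ∈ ball s₀ ρ := ball_subset_ball (by linarith) hs2
  have hC : ‖(D (μ₂, sm))⁻¹ - (D (μ₁, sm))⁻¹‖ ≤ 64 / (7 * ‖k‖ * ρ) / (ρ / 2) * ‖μ₂ - μ₁‖ := by
    refine R264.norm_sub_le_of_bounded (D := ball μ₀ ρ) (f := fun μ => (D (μ, sm))⁻¹)
      ((hdm sm hsmb).inv hBne) (fun μ hμ => ?_) (by positivity) hsub2 hm1' hm2'
    rw [norm_inv]
    have h := hB μ hμ
    have h2 : (7 / 64 * ‖k‖ * ρ)⁻¹ = 64 / (7 * ‖k‖ * ρ) := by
      field_simp
    rw [← h2]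
    exact inv_anti₀ (by positivity) h
  have hE : ‖(D (μ₂, s₂) - D (μ₂, sm) - k * (s₂ - sm)) - (D (μ₁, s₂) - D (μ₁, sm) - k * (s₂ - sm))‖
      ≤ 3 / 32 * ‖k‖ * ρ / (ρ / 2) * ‖μ₂ - μ₁‖ := by
    refine R264.norm_sub_le_of_bounded (D := ball μ₀ ρ)
      (f := fun μ => D (μ, s₂) - D (μ, sm) - k * (s₂ - sm))
      (((hdm s₂ hs2'').sub (hdm sm hsmb)).sub_const _) (fun μ hμ => ?_) (by positivity) hsub2
      hm1' hm2'
    refine (hA μ hμ s₂ hs2'' sm hsmb).trans ?_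
    have h1 : ‖s₂ - sm‖ ≤ 3 / 4 * ρ := by
      rw [← dist_eq_norm]
      have := dist_triangle s₂ s₀ sm
      rw [dist_comm s₀ sm, hsmd] at this
      rw [mem_ball] at hs2
      linarith
    nlinarith
  have hnj : ∀ μ ∈ ball μ₀ ρ, ∀ s ∈ ball s₀ (ρ / 4), D (μ, s) = 0 →
      ‖D (μ, sm)‖ ≤ 27 / 32 * ‖k‖ * ρ := by
    intro μ hμ s hs h0
    have h1 := hupp μ hμ s (ball_subset_ball (by linarith) hs) sm hsmb
    rw [h0, zero_sub, norm_neg] at h1
    have h2 : ‖s - sm‖ ≤ 3 / 4 * ρ := by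
      rw [← dist_eq_norm]
      have := dist_triangle s s₀ sm
      rw [dist_comm s₀ sm, hsmd] at this
      rw [mem_ball] at hs
      linarith
    nlinarith
  have hn1 := hnj μ₁ hm1'' s₁ hs1 e₁
  have hn2 := hnj μ₂ hm2'' s₂ hs2 e₂
  have hab : ‖D (μ₁, sm) - D (μ₂, sm)‖ ≤ 105 / 8 * ‖k‖ * ‖μ₁ - μ₂‖ := by
    have e : D (μ₁, sm) - D (μ₂, sm) =
        ((D (μ₂, sm))⁻¹ - (D (μ₁, sm))⁻¹) * (D (μ₁, sm) * D (μ₂, sm)) := by
      have := hBne μ₁ hm1''
      have := hBne μ₂ hm2''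
      field_simp
    rw [e, norm_mul, norm_mul]
    have hx : ‖μ₂ - μ₁‖ = ‖μ₁ - μ₂‖ := norm_sub_rev _ _
    rw [hx] at hC
    calc ‖(D (μ₂, sm))⁻¹ - (D (μ₁, sm))⁻¹‖ * (‖D (μ₁, sm)‖ * ‖D (μ₂, sm)‖)
        ≤ (64 / (7 * ‖k‖ * ρ) / (ρ / 2) * ‖μ₁ - μ₂‖) *
          ((27 / 32 * ‖k‖ * ρ) * (27 / 32 * ‖k‖ * ρ)) := by gcongr
      _ = 729 / 56 * ‖k‖ * ‖μ₁ - μ₂‖ := by
          field_simp
          ring
      _ ≤ _ := by
          have : 0 ≤ ‖k‖ * ‖μ₁ - μ₂‖ := by positivity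
          nlinarith
  have hfin : ‖D (μ₁, s₂)‖ ≤ 105 / 8 * ‖k‖ * ‖μ₁ - μ₂‖ + 3 / 16 * ‖k‖ * ‖μ₁ - μ₂‖ := by
    have e : D (μ₁, s₂) = (D (μ₁, sm) - D (μ₂, sm)) -
        ((D (μ₂, s₂) - D (μ₂, sm) - k * (s₂ - sm)) -
          (D (μ₁, s₂) - D (μ₁, sm) - k * (s₂ - sm))) := by
      rw [e₂]
      ring
    rw [e]
    refine (norm_sub_le _ _).trans (add_le_add hab (hE.trans ?_))
    rw [norm_sub_rev μ₂ μ₁]
    apply le_of_eq
    field_simp
    ring
  have hl := hlow μ₁ hm1'' s₁ hs1'' s₂ hs2''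
  rw [e₁, zero_sub, norm_neg] at hl
  have h9 : 7 / 8 * ‖k‖ * ‖s₁ - s₂‖ ≤ ‖k‖ * (14 * ‖μ₁ - μ₂‖) := by
    have : 0 ≤ ‖k‖ * ‖μ₁ - μ₂‖ := by positivity
    nlinarith
  have h10 : ‖k‖ * (7 / 8 * ‖s₁ - s₂‖) ≤ ‖k‖ * (14 * ‖μ₁ - μ₂‖) := by linarith
  have h11 := le_of_mul_le_mul_left h10 hk0
  linarith


/-- partial derivatives -/
noncomputable def d1 (f : ℂ × ℂ → ℂ) (q : ℂ × ℂ) : ℂ := fderiv ℂ f q (1, 0)
/-- partial derivatives -/
noncomputable def d2 (f : ℂ × ℂ → ℂ) (q : ℂ × ℂ) : ℂ := fderiv ℂ f q (0, 1)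

theorem fderiv_pair (L : ℂ × ℂ →L[ℂ] ℂ) (x y : ℂ) : L (x, y) = x * L (1, 0) + y * L (0, 1) := by
  have e : ((x, y) : ℂ × ℂ) = x • (1, 0) + y • (0, 1) := by
    simp
  rw [e, map_add, map_smul, map_smul]
  simp

/-- `(x, y) ↦ (B x + A y, x)` -/
noncomputable def Leq (A B : ℂ) (hA : A ≠ 0) : (ℂ × ℂ) ≃L[ℂ] (ℂ × ℂ) :=
  LinearEquiv.toContinuousLinearEquiv
    { toFun := fun z => (B * z.1 + A * z.2, z.1)
      invFun := fun z => (z.2, (z.1 - B * z.2) / A)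
      left_inv := fun z => by
        ext
        · rfl
        · simp only
          field_simp
          ring
      right_inv := fun z => by
        ext
        · simp only
          field_simp
          ring
        · rfl
      map_add' := fun z w => by
        ext
        · simp only [Prod.fst_add, Prod.snd_add]
          ring
        · rfl
      map_smul' := fun c z => by
        ext
        · simp only [Prod.smul_fst, Prod.smul_snd, smul_eq_mul, RingHom.id_apply]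
          ring
        · rfl }

theorem Leq_apply (A B : ℂ) (hA : A ≠ 0) (z : ℂ × ℂ) :
    Leq A B hA z = (B * z.1 + A * z.2, z.1) := rfl

theorem Leq_symm_apply (A B : ℂ) (hA : A ≠ 0) (z : ℂ × ℂ) :
    (Leq A B hA).symm z = (z.2, (z.1 - B * z.2) / A) := rfl

/-- the derivative of `z ↦ (m z, z.1)` -/
theorem hasFDerivAt_box {m : ℂ × ℂ → ℂ} {z : ℂ × ℂ} (hm : DifferentiableAt ℂ m z)
    (hA : d2 m z ≠ 0) :
    HasFDerivAt (fun z => (m z, z.1)) (Leq (d2 m z) (d1 m z) hA : (ℂ × ℂ) →L[ℂ] (ℂ × ℂ)) z := by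
  have h := hm.hasFDerivAt.prodMk (hasFDerivAt_fst (𝕜 := ℂ) (p := z))
  have e : (Leq (d2 m z) (d1 m z) hA : (ℂ × ℂ) →L[ℂ] (ℂ × ℂ)) =
      (fderiv ℂ m z).prod (ContinuousLinearMap.fst ℂ ℂ ℂ) := by
    refine ContinuousLinearMap.ext (fun w => ?_)
    rw [ContinuousLinearEquiv.coe_coe, Leq_apply, ContinuousLinearMap.prod_apply,
      ContinuousLinearMap.coe_fst']
    have h2 := fderiv_pair (fderiv ℂ m z) w.1 w.2
    rw [show fderiv ℂ m z w = fderiv ℂ m z (w.1, w.2) from rfl, h2]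
    simp only [d1, d2]
    ext
    · simp only
      ring
    · rfl
  rw [e]
  exact h

/-- the norm of the difference of the box maps -/
theorem norm_box_sub {A B A' B' : ℂ} (hA : A ≠ 0) (hA' : A' ≠ 0) {c : ℝ} (h1 : ‖A - A'‖ ≤ c)
    (h2 : ‖B - B'‖ ≤ c) :
    ‖(Leq A B hA : (ℂ × ℂ) →L[ℂ] (ℂ × ℂ)) - (Leq A' B' hA' : (ℂ × ℂ) →L[ℂ] (ℂ × ℂ))‖ ≤ 2 * c := by
  have hc : 0 ≤ c := (norm_nonneg _).trans h1
  refine ContinuousLinearMap.opNorm_le_bound _ (by positivity) (fun z => ?_)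
  rw [_root_.sub_apply, ContinuousLinearEquiv.coe_coe, ContinuousLinearEquiv.coe_coe,
    Leq_apply, Leq_apply]
  have e : ((B * z.1 + A * z.2, z.1) : ℂ × ℂ) - (B' * z.1 + A' * z.2, z.1) =
      ((B - B') * z.1 + (A - A') * z.2, 0) := by
    ext
    · simp only [Prod.fst_sub]
      ring
    · simp
  rw [e, Prod.norm_def]
  have h3 : ‖(B - B') * z.1 + (A - A') * z.2‖ ≤ 2 * c * ‖z‖ := by
    refine (norm_add_le _ _).trans ?_
    rw [norm_mul, norm_mul]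
    have h4 : ‖z.1‖ ≤ ‖z‖ := norm_fst_le z
    have h5 : ‖z.2‖ ≤ ‖z‖ := norm_snd_le z
    have h6 : ‖B - B'‖ * ‖z.1‖ ≤ c * ‖z‖ := by gcongr
    have h7 : ‖A - A'‖ * ‖z.2‖ ≤ c * ‖z‖ := by gcongr
    linarith
  rw [norm_zero]
  exact max_le h3 (by positivity)

/-- uniform flow box for `z ↦ (m z, z.1)` -/
theorem box {A B : ℂ} (hA : A ≠ 0) : ∃ c > 0, c < ‖A‖ ∧ ∃ C > 0, ∀ (m : ℂ × ℂ → ℂ) (p : ℂ × ℂ) (r : ℝ),
    0 < r → DifferentiableOn ℂ m (ball p r) →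
    (∀ z ∈ ball p r, ‖d2 m z - A‖ ≤ c ∧ ‖d1 m z - B‖ ≤ c) →
    ∃ G : ℂ × ℂ → ℂ × ℂ, (∀ y ∈ ball (m p, p.1) (C * r), G y ∈ closedBall p (r / 2) ∧
      m (G y) = y.1 ∧ (G y).1 = y.2 ∧ DifferentiableAt ℂ G y ∧
      fderiv ℂ G y (0, 1) = (1, -d1 m (G y) / d2 m (G y))) ∧
      (∀ z ∈ ball p r, (m z, z.1) ∈ ball (m p, p.1) (C * r) → G (m z, z.1) = z) := by
  have hA0 : 0 < ‖A‖ := norm_pos_iff.2 hA
  set N : NNReal := ‖((Leq A B hA).symm : (ℂ × ℂ) →L[ℂ] (ℂ × ℂ))‖₊ with hN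
  have hN0 : 0 < N := (Leq A B hA).nnnorm_symm_pos
  have hN0' : (0 : ℝ) < N := by exact_mod_cast hN0
  refine ⟨min (‖A‖ / 2) ((N : ℝ)⁻¹ / 4), by positivity, (min_le_left _ _).trans_lt (by linarith),
    (N : ℝ)⁻¹ / 4, by positivity, ?_⟩
  intro m p r hr hm hc
  have hne : ∀ z ∈ ball p r, d2 m z ≠ 0 := by
    intro z hz h0
    have h1 := (hc z hz).1.trans (min_le_left _ _)
    rw [h0, zero_sub, norm_neg] at h1
    linarith
  have hda : ∀ z ∈ ball p r, DifferentiableAt ℂ m z := fun z hz =>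
    hm.differentiableAt (isOpen_ball.mem_nhds hz)
  set Φ : ℂ × ℂ → ℂ × ℂ := fun z => (m z, z.1) with hΦ
  have happ : ApproximatesLinearOn Φ (Leq A B hA : (ℂ × ℂ) →L[ℂ] (ℂ × ℂ)) (ball p r) (N⁻¹ / 2) := by
    intro x hx y hy
    have h := Convex.norm_image_sub_le_of_norm_hasFDerivWithin_le' (𝕜 := ℂ) (s := ball p r)
      (f := Φ) (f' := fderiv ℂ Φ) (φ := (Leq A B hA : (ℂ × ℂ) →L[ℂ] (ℂ × ℂ)))
      (C := 2 * ((N : ℝ)⁻¹ / 4)) (fun z hz => ?_) (fun z hz => ?_) (convex_ball p r) hy hx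
    · refine h.trans (le_of_eq ?_)
      push_cast
      ring
    · exact (hasFDerivAt_box (hda z hz) (hne z hz)).differentiableAt.hasFDerivAt.hasFDerivWithinAt
    · rw [(hasFDerivAt_box (hda z hz) (hne z hz)).fderiv]
      exact norm_box_sub _ _ ((hc z hz).1.trans (min_le_right _ _))
        ((hc z hz).2.trans (min_le_right _ _))
  have hcN : Subsingleton (ℂ × ℂ) ∨ N⁻¹ / 2 < N⁻¹ := Or.inr (NNReal.half_lt_self (by positivity))
  set e := happ.toOpenPartialHomeomorph Φ (ball p r) hcN isOpen_ball with he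
  have hes : e.source = ball p r := rfl
  have het : e.target = Φ '' ball p r := rfl
  have heΦ : ∀ z, e z = Φ z := fun z => rfl
  have hsurj := happ.surjOn_closedBall_of_nonlinearRightInverse (Leq A B hA).toNonlinearRightInverse
    (ε := r / 2) (b := p) (by positivity) (closedBall_subset_ball (by linarith))
  have hnn : (((Leq A B hA).toNonlinearRightInverse.nnnorm : NNReal) : ℝ) = N := rfl
  rw [hnn] at hsurj
  have hball : ∀ y ∈ ball (m p, p.1) ((N : ℝ)⁻¹ / 4 * r), ∃ z ∈ closedBall p (r / 2), Φ z = y := by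
    intro y hy
    refine hsurj ?_
    rw [mem_ball] at hy
    rw [mem_closedBall]
    refine hy.le.trans (le_of_eq ?_)
    push_cast
    ring
  have hinj : ∀ z ∈ ball p r, e.symm (Φ z) = z := fun z hz => e.left_inv (by rw [hes]; exact hz)
  refine ⟨e.symm, fun y hy => ?_, fun z hz _ => hinj z hz⟩
  obtain ⟨z, hz, hzy⟩ := hball y hy
  have hz' : z ∈ ball p r := closedBall_subset_ball (by linarith) hz
  have hG : e.symm y = z := by
    rw [← hzy]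
    exact hinj z hz'
  have hyt : y ∈ e.target := by
    rw [het]
    exact ⟨z, hz', hzy⟩
  have hd : HasFDerivAt e.symm ((Leq (d2 m z) (d1 m z) (hne z hz')).symm :
      (ℂ × ℂ) →L[ℂ] (ℂ × ℂ)) y := by
    refine e.hasFDerivAt_symm hyt ?_
    rw [hG]
    exact hasFDerivAt_box (hda z hz') (hne z hz')
  have hzy1 : m z = y.1 := by rw [← hzy]
  have hzy2 : z.1 = y.2 := by rw [← hzy]
  rw [hG]
  refine ⟨hz, hzy1, hzy2, hd.differentiableAt, ?_⟩
  rw [hd.fderiv, ContinuousLinearEquiv.coe_coe, Leq_symm_apply]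
  simp

theorem ev_unif {ι : Type*} {l : Filter ι} {Ω : Set (ℂ × ℂ)} {E : Type*} [NormedAddCommGroup E]
    {f : ι → ℂ × ℂ → E} {g : ℂ × ℂ → E} (h : TendstoLocallyUniformlyOn f g l Ω) {p : ℂ × ℂ} {r : ℝ}
    (hb : closedBall p r ⊆ Ω) {ε : ℝ} (hε : 0 < ε) :
    ∀ᶠ n in l, ∀ z ∈ closedBall p r, ‖f n z - g z‖ < ε := by
  have h2 := (tendstoLocallyUniformlyOn_iff_tendstoUniformlyOn_of_compact
    (isCompact_closedBall p r)).1 (h.mono hb)
  filter_upwards [Metric.tendstoUniformlyOn_iff.1 h2 ε hε] with n hn z hz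
  rw [← dist_eq_norm, dist_comm]
  exact hn z hz

theorem analytic_of_diff {f : ℂ × ℂ → ℂ} {Ω : Set (ℂ × ℂ)} (hΩ : IsOpen Ω)
    (hf : DifferentiableOn ℂ f Ω) : AnalyticOnNhd ℂ f Ω :=
  R266.SCV.analyticOnNhd_of_tendstoLocallyUniformlyOn (ι := ℕ) (φ := atTop) (f := fun _ => f)
    hΩ (Metric.tendstoLocallyUniformlyOn_iff.2 fun ε hε x hx =>
      ⟨Ω, self_mem_nhdsWithin, Eventually.of_forall fun n y hy => by rwa [dist_self]⟩)
    (Eventually.of_forall fun _ => hf)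

theorem cont_d1 {f : ℂ × ℂ → ℂ} {Ω : Set (ℂ × ℂ)} (hf : AnalyticOnNhd ℂ f Ω) :
    ContinuousOn (d1 f) Ω := fun x hx =>
  ((hf x hx).fderiv.continuousAt.clm_apply continuousAt_const).continuousWithinAt

theorem cont_d2 {f : ℂ × ℂ → ℂ} {Ω : Set (ℂ × ℂ)} (hf : AnalyticOnNhd ℂ f Ω) :
    ContinuousOn (d2 f) Ω := fun x hx =>
  ((hf x hx).fderiv.continuousAt.clm_apply continuousAt_const).continuousWithinAt

/-- **Lemma X** (210, 971 (2), 756 (1)): at one face point -/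
theorem lemX_at {ι : Type*} {l : Filter ι} [l.NeBot] {Ω : Set (ℂ × ℂ)} (hΩ : IsOpen Ω)
    {m D k : ι → ℂ × ℂ → ℂ} {mu kap : ℂ × ℂ → ℂ}
    (hm : ∀ᶠ n in l, DifferentiableOn ℂ (m n) Ω) (hD : ∀ᶠ n in l, DifferentiableOn ℂ (D n) Ω)
    (hlim : TendstoLocallyUniformlyOn m mu l Ω)
    (hjac : ∀ᶠ n in l, ∀ q ∈ Ω, d1 (m n) q * d2 (D n) q - d2 (m n) q * d1 (D n) q = k n q)
    (hk : TendstoLocallyUniformlyOn k kap l Ω)
    (hfree : ∀ K ⊆ Ω ∩ {q | q.1.im < 0}, IsCompact K → ∀ᶠ n in l, ∀ q ∈ K, D n q ≠ 0)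
    (hdense : ∀ q ∈ Ω, q.1.im = 0 → ∀ e > 0, ∀ᶠ n in l, ∃ q' ∈ ball q e, D n q' = 0)
    {p : ℂ × ℂ} (hp : p ∈ Ω) (hp0 : p.1.im = 0) (hkp : kap p ≠ 0) : d2 mu p = 0 := by
  by_contra hA
  have hmu : AnalyticOnNhd ℂ mu Ω :=
    R266.SCV.analyticOnNhd_of_tendstoLocallyUniformlyOn hΩ hlim hm
  have hfd := R264.tlu_fderiv hΩ hlim hm
  have hkc : ContinuousOn kap Ω := by
    refine hk.continuousOn ?_
    refine Eventually.frequently ?_
    filter_upwards [hm, hD, hjac] with n hmn hDn hjn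
    have h1 := analytic_of_diff hΩ hmn
    have h2 := analytic_of_diff hΩ hDn
    exact (((cont_d1 h1).mul (cont_d2 h2)).sub ((cont_d2 h1).mul (cont_d1 h2))).congr
      (fun q hq => (hjn q hq).symm)
  obtain ⟨c, hc, hcA, C, hC, hbox⟩ := box (B := d1 mu p) hA
  set k0 : ℂ := -kap p / d2 mu p with hk0
  have hk0ne : k0 ≠ 0 := div_ne_zero (neg_ne_zero.2 hkp) hA
  have hk0pos : 0 < ‖k0‖ := norm_pos_iff.2 hk0ne
  -- continuity of the quotient
  obtain ⟨δ, hδ, hquot⟩ : ∃ δ > 0, ∀ x y : ℂ, ‖x - kap p‖ < δ → ‖y - d2 mu p‖ < δ →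
      ‖-x / y - k0‖ ≤ ‖k0‖ / 8 := by
    have hcont : ContinuousAt (fun z : ℂ × ℂ => -z.1 / z.2) (kap p, d2 mu p) :=
      ContinuousAt.div (by fun_prop) (by fun_prop) hA
    obtain ⟨δ, hδ, h⟩ := Metric.continuousAt_iff.1 hcont (‖k0‖ / 8) (by positivity)
    refine ⟨δ, hδ, fun x y hx hy => ?_⟩
    have := h (x := (x, y)) (by
      rw [Prod.dist_eq, dist_eq_norm, dist_eq_norm]
      exact max_lt hx hy)
    rw [dist_eq_norm] at this
    exact this.le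
  set c' := min c δ with hc'
  have hc'0 : 0 < c' := lt_min hc hδ
  obtain ⟨r, hr, hrΩ⟩ : ∃ r > 0, ∀ z ∈ closedBall p r, z ∈ Ω ∧ ‖d2 mu z - d2 mu p‖ < c' / 2 ∧
      ‖d1 mu z - d1 mu p‖ < c' / 2 ∧ ‖kap z - kap p‖ < δ / 2 := by
    have e1 : ∀ᶠ z in 𝓝 p, z ∈ Ω := hΩ.mem_nhds hp
    have e2 : ∀ᶠ z in 𝓝 p, ‖d2 mu z - d2 mu p‖ < c' / 2 := by
      have := (cont_d2 hmu).continuousAt (hΩ.mem_nhds hp)
      have := Metric.tendsto_nhds.1 this (c' / 2) (by positivity)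
      simpa only [dist_eq_norm] using this
    have e3 : ∀ᶠ z in 𝓝 p, ‖d1 mu z - d1 mu p‖ < c' / 2 := by
      have := (cont_d1 hmu).continuousAt (hΩ.mem_nhds hp)
      have := Metric.tendsto_nhds.1 this (c' / 2) (by positivity)
      simpa only [dist_eq_norm] using this
    have e4 : ∀ᶠ z in 𝓝 p, ‖kap z - kap p‖ < δ / 2 := by
      have := hkc.continuousAt (hΩ.mem_nhds hp)
      have := Metric.tendsto_nhds.1 this (δ / 2) (by positivity)
      simpa only [dist_eq_norm] using this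
    obtain ⟨r, hr, h⟩ := Metric.nhds_basis_closedBall.eventually_iff.1
      (e1.and (e2.and (e3.and e4)))
    exact ⟨r, hr, fun z hz => h hz⟩
  have hsub : closedBall p r ⊆ Ω := fun z hz => (hrΩ z hz).1
  have hbb : ball p r ⊆ closedBall p r := ball_subset_closedBall
  set ρ := C * r with hρ
  have hρ0 : 0 < ρ := by positivity
  set τ := ρ / 3200 with hτ
  have hτ0 : 0 < τ := by positivity
  -- the second point of the leaf
  obtain ⟨c₂, hc2b, hc2m, hc2s⟩ : ∃ c₂ ∈ closedBall p (r / 2), mu c₂ = mu p ∧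
      c₂.1 = p.1 + (ρ / 16 : ℝ) := by
    obtain ⟨G, hG, -⟩ := hbox mu p r hr (hmu.differentiableOn.mono (hbb.trans hsub))
      (fun z hz => ⟨(hrΩ z (hbb hz)).2.1.le.trans (by
          have := min_le_left c δ
          linarith), (hrΩ z (hbb hz)).2.2.1.le.trans (by
          have := min_le_left c δ
          linarith)⟩)
    obtain ⟨h1, h2, h3, -⟩ := hG (mu p, p.1 + (ρ / 16 : ℝ)) (by
      rw [mem_ball, Prod.dist_eq, dist_self, dist_self_add_left, Complex.norm_real,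
        Real.norm_of_nonneg (by positivity)]
      exact max_lt (by positivity) (by
        show ρ / 16 < ρ
        linarith))
    exact ⟨_, h1, h2, h3⟩
  have hc2Ω : c₂ ∈ Ω := hsub (closedBall_subset_closedBall (by linarith) hc2b)
  have hc2im : c₂.1.im = 0 := by
    rw [hc2s, Complex.add_im, hp0, Complex.ofReal_im, add_zero]
  obtain ⟨e, he, heτ, her, hemu⟩ : ∃ e > 0, e ≤ τ ∧ e ≤ r / 4 ∧
      ∀ z, (z ∈ ball p e → ‖mu z - mu p‖ < τ) ∧ (z ∈ ball c₂ e → ‖mu z - mu c₂‖ < τ) := by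
    obtain ⟨e1, he1, h1⟩ := Metric.continuousAt_iff.1 (hmu p hp).continuousAt τ hτ0
    obtain ⟨e2, he2, h2⟩ := Metric.continuousAt_iff.1 (hmu c₂ hc2Ω).continuousAt τ hτ0
    refine ⟨min (min e1 e2) (min τ (r / 4)), by positivity,
      (min_le_right _ _).trans (min_le_left _ _), (min_le_right _ _).trans (min_le_right _ _),
      fun z => ⟨fun hz => ?_, fun hz => ?_⟩⟩
    · rw [← dist_eq_norm]
      exact h1 (lt_of_lt_of_le hz ((min_le_left _ _).trans (min_le_left _ _)))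
    · rw [← dist_eq_norm]
      exact h2 (lt_of_lt_of_le hz ((min_le_left _ _).trans (min_le_right _ _)))
  -- the compact zero free part
  have hK : IsCompact (closedBall p r ∩ {z | z.1.im ≤ -(ρ / 8)}) :=
    (isCompact_closedBall p r).inter_right
      (isClosed_le (Complex.continuous_im.comp continuous_fst) continuous_const)
  have hKs : closedBall p r ∩ {z | z.1.im ≤ -(ρ / 8)} ⊆ Ω ∩ {q | q.1.im < 0} := by
    rintro z ⟨hz, hz2⟩
    refine ⟨hsub hz, ?_⟩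
    have hz3 : z.1.im ≤ -(ρ / 8) := hz2
    show z.1.im < 0
    linarith
  obtain ⟨n, hmn, hDn, hjn, hun, hudn, hkn, hfn, ⟨q₁, hq1, hq10⟩, ⟨q₂, hq2, hq20⟩⟩ :=
    (hm.and (hD.and (hjac.and ((ev_unif hlim hsub hτ0).and ((ev_unif hfd hsub
      (show 0 < c' / 2 by positivity)).and ((ev_unif hk hsub (show 0 < δ / 2 by positivity)).and
      ((hfree _ hKs hK).and ((hdense p hp hp0 e he).and (hdense c₂ hc2Ω hc2im e he))))))))).exists
  have hd2n : ∀ z ∈ closedBall p r, ‖d2 (m n) z - d2 mu p‖ < c' := by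
    intro z hz
    have h1 : ‖d2 (m n) z - d2 mu z‖ ≤ ‖fderiv ℂ (m n) z - fderiv ℂ mu z‖ := by
      have h2 := (fderiv ℂ (m n) z - fderiv ℂ mu z).le_opNorm (0, 1)
      rw [_root_.sub_apply] at h2
      refine h2.trans (le_of_eq ?_)
      rw [Prod.norm_def]
      simp
    have h3 := (hrΩ z hz).2.1
    have h4 := hudn z hz
    have h5 : ‖d2 (m n) z - d2 mu p‖ ≤ ‖d2 (m n) z - d2 mu z‖ + ‖d2 mu z - d2 mu p‖ :=
      norm_sub_le_norm_sub_add_norm_sub _ _ _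
    linarith
  have hd1n : ∀ z ∈ closedBall p r, ‖d1 (m n) z - d1 mu p‖ < c' := by
    intro z hz
    have h1 : ‖d1 (m n) z - d1 mu z‖ ≤ ‖fderiv ℂ (m n) z - fderiv ℂ mu z‖ := by
      have h2 := (fderiv ℂ (m n) z - fderiv ℂ mu z).le_opNorm (1, 0)
      rw [_root_.sub_apply] at h2
      refine h2.trans (le_of_eq ?_)
      rw [Prod.norm_def]
      simp
    have h3 := (hrΩ z hz).2.2.1
    have h4 := hudn z hz
    have h5 : ‖d1 (m n) z - d1 mu p‖ ≤ ‖d1 (m n) z - d1 mu z‖ + ‖d1 mu z - d1 mu p‖ :=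
      norm_sub_le_norm_sub_add_norm_sub _ _ _
    linarith
  obtain ⟨G, hG, hGinv⟩ := hbox (m n) p r hr (hmn.mono (hbb.trans hsub))
    (fun z hz => ⟨(hd2n z (hbb hz)).le.trans (min_le_left _ _),
      (hd1n z (hbb hz)).le.trans (min_le_left _ _)⟩)
  have hhalf : closedBall p (r / 2) ⊆ closedBall p r := closedBall_subset_closedBall (by linarith)
  have hz1 : ‖m n q₁ - m n p‖ < 3 * τ := by
    have a1 := hun q₁ (hhalf (ball_subset_closedBall (ball_subset_ball (by linarith) hq1)))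
    have a2 := (hemu q₁).1 hq1
    have a3 := hun p (mem_closedBall_self hr.le)
    have e1 : m n q₁ - m n p = (m n q₁ - mu q₁) + (mu q₁ - mu p) - (m n p - mu p) := by ring
    rw [e1]
    refine (norm_sub_le _ _).trans_lt ?_
    have := norm_add_le (m n q₁ - mu q₁) (mu q₁ - mu p)
    linarith
  have hq2r : q₂ ∈ ball p r := by
    rw [mem_ball] at hq2 ⊢
    rw [mem_closedBall] at hc2b
    have := dist_triangle q₂ c₂ p
    linarith
  have hq1r : q₁ ∈ ball p r := ball_subset_ball (by linarith) hq1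
  have hz2 : ‖m n q₂ - m n p‖ < 3 * τ := by
    have a1 := hun q₂ (hbb hq2r)
    have a2 := (hemu q₂).2 hq2
    have a3 := hun p (mem_closedBall_self hr.le)
    rw [hc2m] at a2
    have e1 : m n q₂ - m n p = (m n q₂ - mu q₂) + (mu q₂ - mu p) - (m n p - mu p) := by ring
    rw [e1]
    refine (norm_sub_le _ _).trans_lt ?_
    have := norm_add_le (m n q₂ - mu q₂) (mu q₂ - mu p)
    linarith
  have hs1 : ‖q₁.1 - p.1‖ < τ := by
    have h1 : dist q₁.1 p.1 ≤ dist q₁ p := by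
      rw [Prod.dist_eq]
      exact le_max_left _ _
    rw [← dist_eq_norm]
    rw [mem_ball] at hq1
    linarith
  have hs2 : ‖q₂.1 - c₂.1‖ < τ := by
    have h1 : dist q₂.1 c₂.1 ≤ dist q₂ c₂ := by
      rw [Prod.dist_eq]
      exact le_max_left _ _
    rw [← dist_eq_norm]
    rw [mem_ball] at hq2
    linarith
  have hn16 : ‖((ρ / 16 : ℝ) : ℂ)‖ = ρ / 16 := by
    rw [Complex.norm_real, Real.norm_of_nonneg (by positivity)]
  have hs2' : ‖q₂.1 - p.1‖ < τ + ρ / 16 := by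
    have e1 : q₂.1 - p.1 = (q₂.1 - c₂.1) + (ρ / 16 : ℝ) := by
      rw [hc2s]
      ring
    rw [e1]
    refine (norm_add_le _ _).trans_lt ?_
    rw [hn16]
    linarith
  have hb1 : (m n q₁, q₁.1) ∈ ball (m n p, p.1) (ρ / 4) := by
    rw [mem_ball, Prod.dist_eq, dist_eq_norm, dist_eq_norm]
    exact max_lt (by
      show ‖m n q₁ - m n p‖ < _
      linarith) (by
      show ‖q₁.1 - p.1‖ < _
      linarith)
  have hb2 : (m n q₂, q₂.1) ∈ ball (m n p, p.1) (ρ / 4) := by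
    rw [mem_ball, Prod.dist_eq, dist_eq_norm, dist_eq_norm]
    exact max_lt (by
      show ‖m n q₂ - m n p‖ < _
      linarith) (by
      show ‖q₂.1 - p.1‖ < _
      linarith)
  have hGq1 := hGinv q₁ hq1r (ball_subset_ball (by linarith) hb1)
  have hGq2 := hGinv q₂ hq2r (ball_subset_ball (by linarith) hb2)
  have hDa : ∀ z ∈ closedBall p r, DifferentiableAt ℂ (D n) z := fun z hz =>
    hDn.differentiableAt (hΩ.mem_nhds (hsub hz))
  have hfin := graph (D := fun y => D n (G y)) (μ₀ := m n p) (s₀ := p.1) (k := k0) (ρ := ρ) hρ0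
    hk0ne ?_ ?_ ?_ hb1 hb2 (by
      show D n (G _) = 0
      rw [hGq1, hq10]) (by
      show D n (G _) = 0
      rw [hGq2, hq20])
  · simp only at hfin
    have e1 : ‖m n q₁ - m n q₂‖ ≤ 6 * τ := by
      have e2 : m n q₁ - m n q₂ = (m n q₁ - m n p) - (m n q₂ - m n p) := by ring
      rw [e2]
      refine (norm_sub_le _ _).trans ?_
      linarith
    have e3 : ρ / 16 ≤ ‖q₁.1 - q₂.1‖ + 2 * τ := by
      have e4 : ((ρ / 16 : ℝ) : ℂ) = -(q₁.1 - q₂.1) + ((q₁.1 - p.1) - (q₂.1 - c₂.1)) := by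
        rw [hc2s]
        ring
      calc ρ / 16 = ‖((ρ / 16 : ℝ) : ℂ)‖ := hn16.symm
        _ = ‖-(q₁.1 - q₂.1) + ((q₁.1 - p.1) - (q₂.1 - c₂.1))‖ := by rw [← e4]
        _ ≤ ‖-(q₁.1 - q₂.1)‖ + ‖(q₁.1 - p.1) - (q₂.1 - c₂.1)‖ := norm_add_le _ _
        _ ≤ ‖q₁.1 - q₂.1‖ + (‖q₁.1 - p.1‖ + ‖q₂.1 - c₂.1‖) := by
            rw [norm_neg]
            gcongr
            exact norm_sub_le _ _
        _ ≤ _ := by linarith
    linarith
  · intro y hy
    obtain ⟨h1, -, -, h4, -⟩ := hG y hy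
    exact ((hDa _ (hhalf h1)).comp y h4).differentiableWithinAt
  · intro y hy
    obtain ⟨h1, -, -, h4, h5⟩ := hG y hy
    have h6 : fderiv ℂ (fun y => D n (G y)) y = (fderiv ℂ (D n) (G y)).comp (fderiv ℂ G y) :=
      fderiv_comp y (hDa _ (hhalf h1)) h4
    rw [h6, ContinuousLinearMap.comp_apply, h5, fderiv_pair]
    have h7 := hjn (G y) (hsub (hhalf h1))
    have h8 : d2 (m n) (G y) ≠ 0 := by
      intro h0
      have := hd2n (G y) (hhalf h1)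
      rw [h0, zero_sub, norm_neg] at this
      have := min_le_left c δ
      linarith
    have h9 : 1 * fderiv ℂ (D n) (G y) (1, 0) +
        -d1 (m n) (G y) / d2 (m n) (G y) * fderiv ℂ (D n) (G y) (0, 1) =
        -k n (G y) / d2 (m n) (G y) := by
      rw [← h7]
      show 1 * d1 (D n) (G y) + -d1 (m n) (G y) / d2 (m n) (G y) * d2 (D n) (G y) = _
      field_simp
      ring
    rw [h9]
    refine hquot _ _ ?_ ((hd2n _ (hhalf h1)).trans_le (min_le_right _ _))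
    have h10 := hkn (G y) (hhalf h1)
    have h11 := (hrΩ (G y) (hhalf h1)).2.2.2
    have h12 : ‖k n (G y) - kap p‖ ≤ ‖k n (G y) - kap (G y)‖ + ‖kap (G y) - kap p‖ :=
      norm_sub_le_norm_sub_add_norm_sub _ _ _
    linarith
  · intro y hy hyim
    obtain ⟨h1, -, h3, -⟩ := hG y hy
    refine hfn (G y) ⟨hhalf h1, ?_⟩
    show (G y).1.im ≤ -(ρ / 8)
    rw [h3]
    rw [hp0] at hyim
    linarith

/-- **Lemma X**, exhausting domains, general filter -/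
theorem lemX {ι : Type*} {l : Filter ι} [l.NeBot] {Ω : Set (ℂ × ℂ)} (hΩ : IsOpen Ω)
    {U : ι → Set (ℂ × ℂ)} (hU : ∀ K ⊆ Ω, IsCompact K → ∀ᶠ n in l, K ⊆ U n)
    {m D k : ι → ℂ × ℂ → ℂ} {mu kap : ℂ × ℂ → ℂ}
    (hm : ∀ᶠ n in l, DifferentiableOn ℂ (m n) (U n))
    (hD : ∀ᶠ n in l, DifferentiableOn ℂ (D n) (U n))
    (hlim : TendstoLocallyUniformlyOn m mu l Ω)
    (hjac : ∀ᶠ n in l, ∀ q ∈ U n, d1 (m n) q * d2 (D n) q - d2 (m n) q * d1 (D n) q = k n q)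
    (hk : TendstoLocallyUniformlyOn k kap l Ω)
    (hfree : ∀ K ⊆ Ω ∩ {q | q.1.im < 0}, IsCompact K → ∀ᶠ n in l, ∀ q ∈ K, D n q ≠ 0)
    (hdense : ∀ q ∈ Ω, q.1.im = 0 → ∀ e > 0, ∀ᶠ n in l, ∃ q' ∈ ball q e, D n q' = 0) :
    ∀ q ∈ Ω, q.1.im = 0 → kap q ≠ 0 → d2 mu q = 0 := by
  intro p hp hp0 hkp
  obtain ⟨r, hr, hrΩ⟩ := Metric.nhds_basis_closedBall.mem_iff.1 (hΩ.mem_nhds hp)
  have hb : ball p r ⊆ Ω := ball_subset_closedBall.trans hrΩ
  have hUr : ∀ᶠ n in l, ball p r ⊆ U n := by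
    filter_upwards [hU _ hrΩ (isCompact_closedBall p r)] with n hn
    exact ball_subset_closedBall.trans hn
  refine lemX_at (l := l) (Ω := ball p r) isOpen_ball (m := m) (D := D) (k := k) (mu := mu)
    (kap := kap) ?_ ?_ (hlim.mono hb) ?_ (hk.mono hb) (fun K hK hKc => hfree K
      (fun z hz => ⟨hb (hK hz).1, (hK hz).2⟩) hKc) (fun q hq hq0 => hdense q (hb hq) hq0)
    (mem_ball_self hr) hp0 hkp
  · filter_upwards [hm, hUr] with n hn hun
    exact hn.mono hun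
  · filter_upwards [hD, hUr] with n hn hun
    exact hn.mono hun
  · filter_upwards [hjac, hUr] with n hn hun
    exact fun q hq => hn q (hun hq)

/-- helper485's literal form (X), any filter -/
theorem lemX_ball {ι : Type*} {l : Filter ι} [l.NeBot] {s0 : ℝ} {z0 : ℂ} {r : ℝ}
    {m D k : ι → ℂ × ℂ → ℂ} {mu kap : ℂ × ℂ → ℂ}
    (hm : ∀ᶠ n in l, DifferentiableOn ℂ (m n) (ball (s0 : ℂ) r ×ˢ ball z0 r))
    (hD : ∀ᶠ n in l, DifferentiableOn ℂ (D n) (ball (s0 : ℂ) r ×ˢ ball z0 r))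
    (hlim : TendstoLocallyUniformlyOn m mu l (ball (s0 : ℂ) r ×ˢ ball z0 r))
    (hjac : ∀ᶠ n in l, ∀ q ∈ ball (s0 : ℂ) r ×ˢ ball z0 r,
      d1 (m n) q * d2 (D n) q - d2 (m n) q * d1 (D n) q = k n q)
    (hk : TendstoLocallyUniformlyOn k kap l (ball (s0 : ℂ) r ×ˢ ball z0 r))
    (hk0 : ∀ q ∈ ball (s0 : ℂ) r ×ˢ ball z0 r, kap q ≠ 0)
    (hfree : ∀ K ⊆ (ball (s0 : ℂ) r ×ˢ ball z0 r) ∩ {q | q.1.im < 0}, IsCompact K →
      ∀ᶠ n in l, ∀ q ∈ K, D n q ≠ 0)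
    (hdense : ∀ q ∈ ball (s0 : ℂ) r ×ˢ ball z0 r, q.1.im = 0 → ∀ e > 0, ∀ᶠ n in l,
      ∃ q' ∈ ball q e, D n q' = 0) :
    ∀ q ∈ ball (s0 : ℂ) r ×ˢ ball z0 r, q.1.im = 0 → d2 mu q = 0 := fun _ hq hq0 =>
  lemX_at (isOpen_ball.prod isOpen_ball) hm hD hlim hjac hk hfree hdense hq hq0 (hk0 _ hq)

/-- vanishing on the face of a connected domain -/
theorem eq_zero_of_face {g : ℂ × ℂ → ℂ} {Ω : Set (ℂ × ℂ)} (hΩ : IsOpen Ω) (hc : IsPreconnected Ω)
    (hg : AnalyticOnNhd ℂ g Ω) {p : ℂ × ℂ} (hp : p ∈ Ω) (hp0 : p.1.im = 0) {r : ℝ} (hr : 0 < r)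
    (h0 : ∀ q ∈ ball p r, q.1.im = 0 → g q = 0) : ∀ q ∈ Ω, g q = 0 := by
  obtain ⟨r', hr', hrΩ⟩ := Metric.isOpen_iff.1 hΩ p hp
  set R := min r r' with hR
  have hR0 : 0 < R := lt_min hr hr'
  have hRr : ball p R ⊆ ball p r := ball_subset_ball (min_le_left _ _)
  have hRΩ : ball p R ⊆ Ω := (ball_subset_ball (min_le_right _ _)).trans hrΩ
  have hloc : ∀ q ∈ ball p R, g q = 0 := by
    intro q hq
    have hq2 : q.2 ∈ ball p.2 R := by
      rw [mem_ball, Prod.dist_eq] at hq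
      exact (le_max_right _ _).trans_lt hq
    have hq1 : q.1 ∈ ball p.1 R := by
      rw [mem_ball, Prod.dist_eq] at hq
      exact (le_max_left _ _).trans_lt hq
    have hmem : ∀ s ∈ ball p.1 R, (s, q.2) ∈ ball p R := by
      intro s hs
      rw [mem_ball, Prod.dist_eq]
      exact max_lt hs hq2
    have hsl : AnalyticOnNhd ℂ (fun s => g (s, q.2)) (ball p.1 R) := by
      intro s hs
      exact AnalyticAt.fun_comp (f := fun s : ℂ => (s, q.2)) (hg _ (hRΩ (hmem s hs)))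
        (AnalyticAt.prod analyticAt_id analyticAt_const)
    have hfr : ∃ᶠ s in 𝓝[≠] p.1, g (s, q.2) = 0 := by
      have h1 : Tendsto (fun x : ℝ => p.1 + (x : ℂ)) (𝓝[≠] 0) (𝓝[≠] p.1) := by
        refine tendsto_nhdsWithin_iff.2 ⟨?_, ?_⟩
        · have : Tendsto (fun x : ℝ => p.1 + (x : ℂ)) (𝓝 0) (𝓝 (p.1 + ((0 : ℝ) : ℂ))) := by
            apply Continuous.tendsto
            fun_prop
          rw [Complex.ofReal_zero, add_zero] at this
          exact this.mono_left nhdsWithin_le_nhds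
        · filter_upwards [self_mem_nhdsWithin] with x hx
          intro h
          apply hx
          have h3 : (x : ℂ) = 0 := by
            have h4 : p.1 + (x : ℂ) = p.1 := h
            rwa [add_eq_left] at h4
          show x = 0
          exact_mod_cast h3
      refine h1.frequently ?_
      refine Eventually.frequently ?_
      have h2 : ∀ᶠ s in 𝓝[≠] p.1, s ∈ ball p.1 R :=
        eventually_nhdsWithin_of_eventually_nhds (ball_mem_nhds _ hR0)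
      filter_upwards [h1.eventually h2] with x hx
      refine h0 _ (hRr (hmem _ hx)) ?_
      show (p.1 + (x : ℂ)).im = 0
      rw [Complex.add_im, hp0, Complex.ofReal_im, add_zero]
    have := hsl.eqOn_zero_of_preconnected_of_frequently_eq_zero (convex_ball p.1 R).isPreconnected
      (mem_ball_self hR0) hfr hq1
    exact this
  have hev : g =ᶠ[𝓝 p] 0 := by
    filter_upwards [ball_mem_nhds p hR0] with q hq
    exact hloc q hq
  exact hg.eqOn_zero_of_preconnected_of_eventuallyEq_zero hc hp hev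

/-- **Lemma X + identity theorem**: `∂_v f = 0` everywhere -/
theorem lemX_all {ι : Type*} {l : Filter ι} [l.NeBot] {Ω Ω' : Set (ℂ × ℂ)} (hΩ : IsOpen Ω)
    (hΩ' : IsOpen Ω') (hc : IsPreconnected Ω') (hsub : Ω ⊆ Ω')
    {U : ι → Set (ℂ × ℂ)} (hU : ∀ K ⊆ Ω, IsCompact K → ∀ᶠ n in l, K ⊆ U n)
    {m D k : ι → ℂ × ℂ → ℂ} {mu kap : ℂ × ℂ → ℂ} (hmu : DifferentiableOn ℂ mu Ω')
    (hm : ∀ᶠ n in l, DifferentiableOn ℂ (m n) (U n))
    (hD : ∀ᶠ n in l, DifferentiableOn ℂ (D n) (U n))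
    (hlim : TendstoLocallyUniformlyOn m mu l Ω)
    (hjac : ∀ᶠ n in l, ∀ q ∈ U n, d1 (m n) q * d2 (D n) q - d2 (m n) q * d1 (D n) q = k n q)
    (hk : TendstoLocallyUniformlyOn k kap l Ω) (hk0 : ∀ q ∈ Ω, kap q ≠ 0)
    (hfree : ∀ K ⊆ Ω ∩ {q | q.1.im < 0}, IsCompact K → ∀ᶠ n in l, ∀ q ∈ K, D n q ≠ 0)
    (hdense : ∀ q ∈ Ω, q.1.im = 0 → ∀ e > 0, ∀ᶠ n in l, ∃ q' ∈ ball q e, D n q' = 0)
    {p : ℂ × ℂ} (hp : p ∈ Ω) (hp0 : p.1.im = 0) : ∀ q ∈ Ω', d2 mu q = 0 := by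
  have hX := lemX hΩ hU hm hD hlim hjac hk hfree hdense
  obtain ⟨r, hr, hrΩ⟩ := Metric.isOpen_iff.1 hΩ p hp
  have hga : AnalyticOnNhd ℂ (d2 mu) Ω' := by
    have h1 := (analytic_of_diff hΩ' hmu).fderiv
    intro z hz
    exact (ContinuousLinearMap.apply ℂ ℂ ((0, 1) : ℂ × ℂ)).analyticAt _ |>.comp (h1 z hz)
  exact eq_zero_of_face hΩ' hc hga (hsub hp) hp0 hr (fun q hq hq0 => hX q (hrΩ hq) hq0
    (hk0 q (hrΩ hq)))

end Crest.Agent.R102.LemX262
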