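import Crest.Agent.R102.BigMontel_948

/-! # Row 102, EDGE, slow regime (909 (S5)): the limit step

Coordinates `q = (s, ζ)`, `s = T - a* ζ`.  `Gc c` is the limit domain.  A sequence of normalised
midpoints `m n`, holomorphic on exhausting domains, locally bounded, of growth `R ^ θ`, `θ < 1`,
with dense births on the face and no births below the face (Lemma X) has only constant limits.
-/

set_option autoImplicit false

open Set Filter Metric Complex Topology

namespace Crest.Agent.R102.SlowLim754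

open Crest.Agent.R264 Crest.Agent.R266.SCV Crest.Agent.R102.M948

/-- the limit domain in the coordinates `(s, ζ)`, `s = T - a* ζ` -/
def Gc (c : ℝ) : Set (ℂ × ℂ) := {q | 0 < q.2.im ∧ q.1.im < c * q.2.im}

theorem isOpen_Gc (c : ℝ) : IsOpen (Gc c) :=
  (isOpen_lt continuous_const (Complex.continuous_im.comp continuous_snd)).inter
    (isOpen_lt (Complex.continuous_im.comp continuous_fst)
      (continuous_const.mul (Complex.continuous_im.comp continuous_snd)))

theorem convex_Gc (c : ℝ) : Convex ℝ (Gc c) := by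
  intro p hp q hq a b ha hb hab
  obtain ⟨hp1, hp2⟩ := hp
  obtain ⟨hq1, hq2⟩ := hq
  have e1 : (a • p + b • q).1.im = a * p.1.im + b * q.1.im := by simp
  have e2 : (a • p + b • q).2.im = a * p.2.im + b * q.2.im := by simp
  constructor
  · rw [e2]
    rcases eq_or_lt_of_le ha with h | h
    · subst h
      have : b = 1 := by linarith
      subst this
      linarith
    · have := mul_pos h hp1
      have := mul_nonneg hb hq1.le
      linarith
  · rw [e1, e2]
    rcases eq_or_lt_of_le ha with h | h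
    · subst h
      have : b = 1 := by linarith
      subst this
      linarith
    · have h1 := mul_lt_mul_of_pos_left hp2 h
      have h2 := mul_le_mul_of_nonneg_left hq2.le hb
      nlinarith

/-- Montel on exhausting domains, ultrafilter form. -/
theorem montel_exh {E : Type*} [NormedAddCommGroup E] [NormedSpace ℂ E] [FiniteDimensional ℂ E]
    {ι : Type*} (u : Ultrafilter ι) {D : Set E} {f : ι → E → ℂ}
    (hB : ∀ z ∈ D, ∃ r > 0, ∃ M : ℝ, ball z r ⊆ D ∧
      (∀ᶠ k in (u : Filter ι), DifferentiableOn ℂ (f k) (ball z r)) ∧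
      ∀ᶠ k in (u : Filter ι), ∀ w ∈ ball z r, ‖f k w‖ ≤ M) :
    ∃ g : E → ℂ, DifferentiableOn ℂ g D ∧ TendstoLocallyUniformlyOn f g u D := by
  classical
  have hlim : ∀ z, ∃ w, z ∈ D → Tendsto (fun k => f k z) u (𝓝 w) := by
    intro z
    by_cases hz : z ∈ D
    · obtain ⟨r, hr, M, -, -, hM⟩ := hB z hz
      have hK : IsCompact (closedBall (0 : ℂ) M) := isCompact_closedBall _ _
      have hle : ((u.map (fun k => f k z) : Ultrafilter ℂ) : Filter ℂ) ≤
          𝓟 (closedBall (0 : ℂ) M) := by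
        rw [le_principal_iff]
        show (fun k => f k z) ⁻¹' closedBall (0 : ℂ) M ∈ (u : Filter ι)
        filter_upwards [hM] with k hk
        simpa using hk z (mem_ball_self hr)
      obtain ⟨w, hw, hw'⟩ := hK.ultrafilter_le_nhds _ hle
      exact ⟨w, fun _ => hw'⟩
    · exact ⟨0, fun h => (hz h).elim⟩
  choose g hg using hlim
  have hloc : ∀ x ∈ D, ∃ r > 0, ball x r ⊆ D ∧ TendstoLocallyUniformlyOn f g u (ball x r) ∧
      DifferentiableOn ℂ g (ball x r) := by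
    intro x hx
    obtain ⟨r, hr, M, hrD, hd, hM⟩ := hB x hx
    have h2 : TendstoLocallyUniformlyOn f g u (ball x r) :=
      tlu_of_pointwise isOpen_ball hd hM (fun z hz => hg z (hrD hz))
    exact ⟨r, hr, hrD, h2,
      (analyticOnNhd_of_tendstoLocallyUniformlyOn isOpen_ball h2 hd).differentiableOn⟩
  refine ⟨g, fun x hx => ?_, ?_⟩
  · obtain ⟨r, hr, hrD, -, hd⟩ := hloc x hx
    exact (hd.differentiableAt (ball_mem_nhds x hr)).differentiableWithinAt
  · rw [Metric.tendstoLocallyUniformlyOn_iff]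
    intro ε hε x hx
    obtain ⟨r, hr, hrD, h2, -⟩ := hloc x hx
    obtain ⟨t, ht, htu⟩ := (Metric.tendstoLocallyUniformlyOn_iff.1 h2) ε hε x (mem_ball_self hr)
    refine ⟨t, ?_, htu⟩
    rw [isOpen_ball.nhdsWithin_eq (mem_ball_self hr)] at ht
    exact mem_nhdsWithin_of_mem_nhds ht

theorem hasDerivAt_snd {g : ℂ × ℂ → ℂ} {s z : ℂ} (h : DifferentiableAt ℂ g (s, z)) :
    HasDerivAt (fun w : ℂ => g (s, w)) (fderiv ℂ g (s, z) (0, 1)) z := by
  have h1 : HasDerivAt (fun w : ℂ => ((s, w) : ℂ × ℂ)) ((0, 1) : ℂ × ℂ) z :=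
    (hasDerivAt_const z s).prodMk (hasDerivAt_id z)
  exact h.hasFDerivAt.comp_hasDerivAt z h1

/-- a holomorphic function on `Gc c` whose `ζ`-derivative vanishes on the face is an entire
function of `s` only -/
theorem entire_of_face {c : ℝ} (hc : 0 < c) {g : ℂ × ℂ → ℂ} (hg : DifferentiableOn ℂ g (Gc c))
    (h0 : ∀ q ∈ Gc c, q.1.im = 0 → fderiv ℂ g q (0, 1) = 0) :
    ∃ F : ℂ → ℂ, Differentiable ℂ F ∧ ∀ q ∈ Gc c, g q = F q.1 := by
  have hGo := isOpen_Gc c
  have hga : AnalyticOnNhd ℂ g (Gc c) := analyticOnNhd_of_differentiableOn hGo hg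
  have hgf : AnalyticOnNhd ℂ (fderiv ℂ g) (Gc c) := hga.fderiv
  -- step A
  have hA : ∀ q ∈ Gc c, fderiv ℂ g q (0, 1) = 0 := by
    rintro ⟨s, z⟩ ⟨hz1, hz2⟩
    simp only at hz1 hz2
    set H : Set ℂ := {t | t.im < c * z.im} with hH
    have hHo : IsOpen H := isOpen_lt Complex.continuous_im continuous_const
    have hHc : IsPreconnected H := by
      have : Convex ℝ H := convex_halfSpace_im_lt _
      exact this.isPreconnected
    have hφ : DifferentiableOn ℂ (fun t : ℂ => fderiv ℂ g (t, z) (0, 1)) H := by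
      intro t ht
      have h1 : DifferentiableAt ℂ (fderiv ℂ g) (t, z) := (hgf (t, z) ⟨hz1, ht⟩).differentiableAt
      have h2 : DifferentiableAt ℂ (fun t : ℂ => ((t, z) : ℂ × ℂ)) t := by fun_prop
      have h3 : DifferentiableAt ℂ (fun t : ℂ => fderiv ℂ g (t, z)) t := h1.comp t h2
      exact (h3.clm_apply (differentiableAt_const _)).differentiableWithinAt
    have h0H : (0 : ℂ) ∈ H := by
      show (0 : ℂ).im < c * z.im
      rw [zero_im]
      positivity
    have hfreq : ∃ᶠ t in 𝓝[≠] (0 : ℂ), fderiv ℂ g (t, z) (0, 1) = 0 := by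
      have hseq : Tendsto (fun n : ℕ => ((1 / ((n : ℝ) + 1) : ℝ) : ℂ)) atTop (𝓝[≠] (0 : ℂ)) := by
        rw [tendsto_nhdsWithin_iff]
        constructor
        · have := tendsto_one_div_add_atTop_nhds_zero_nat (𝕜 := ℝ)
          have h2 := (Complex.continuous_ofReal.tendsto 0).comp this
          rw [ofReal_zero] at h2
          exact h2
        · refine Eventually.of_forall fun n => ?_
          simp only [mem_compl_iff, mem_singleton_iff]
          rw [Complex.ofReal_eq_zero]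
          positivity
      refine hseq.frequently (Eventually.frequently (Eventually.of_forall fun n => ?_))
      refine h0 _ ⟨hz1, ?_⟩ ?_
      · simp only [Complex.ofReal_im]
        positivity
      · simp
    have := (hφ.analyticOnNhd hHo).eqOn_zero_of_preconnected_of_frequently_eq_zero hHc h0H hfreq
      (show s ∈ H from hz2)
    simpa using this
  -- step B
  have hB : ∀ s z w : ℂ, (s, z) ∈ Gc c → (s, w) ∈ Gc c → g (s, z) = g (s, w) := by
    intro s z w hz hw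
    set V : Set ℂ := (fun z : ℂ => ((s, z) : ℂ × ℂ)) ⁻¹' Gc c with hV
    have hVo : IsOpen V := hGo.preimage (by fun_prop)
    have hVc : IsPreconnected V := by
      have : Convex ℝ V := by
        intro a ha b hb x y hx hy hxy
        have := convex_Gc c (show ((s, a) : ℂ × ℂ) ∈ Gc c from ha)
          (show ((s, b) : ℂ × ℂ) ∈ Gc c from hb) hx hy hxy
        have e : x • ((s, a) : ℂ × ℂ) + y • ((s, b) : ℂ × ℂ) = (s, x • a + y • b) := by
          ext1
          · simp only [Prod.smul_mk, Prod.mk_add_mk]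
            rw [← add_smul, hxy, one_smul]
          · simp
        rw [e] at this
        exact this
      exact this.isPreconnected
    have hd : ∀ t ∈ V, HasDerivAt (fun w : ℂ => g (s, w)) 0 t := by
      intro t ht
      have h1 := hasDerivAt_snd (hg.differentiableAt (hGo.mem_nhds (show (s, t) ∈ Gc c from ht)))
      rwa [hA _ (show (s, t) ∈ Gc c from ht)] at h1
    exact hVo.is_const_of_deriv_eq_zero hVc
      (fun t ht => (hd t ht).differentiableAt.differentiableWithinAt)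
      (fun t ht => (hd t ht).deriv) hz hw
  -- step C
  have hmem : ∀ (s : ℂ) (x : ℝ), ‖s‖ < x → (s, ((x / c : ℝ) : ℂ) * I) ∈ Gc c := by
    intro s x hx
    have hx0 : 0 < x := (norm_nonneg s).trans_lt hx
    constructor
    · simp only [mul_im, ofReal_re, I_im, mul_one, ofReal_im, I_re, mul_zero, add_zero]
      positivity
    · simp only [mul_im, ofReal_re, I_im, mul_one, ofReal_im, I_re, mul_zero, add_zero]
      have h1 : s.im ≤ ‖s‖ := (le_abs_self _).trans (abs_im_le_norm s)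
      have h2 : c * (x / c) = x := by field_simp
      linarith
  refine ⟨fun s => g (s, (((‖s‖ + 1) / c : ℝ) : ℂ) * I), fun s₀ => ?_, ?_⟩
  · have h1 : (fun s => g (s, (((‖s‖ + 1) / c : ℝ) : ℂ) * I)) =ᶠ[𝓝 s₀]
        fun s => g (s, (((‖s₀‖ + 2) / c : ℝ) : ℂ) * I) := by
      filter_upwards [ball_mem_nhds s₀ one_pos] with s hs
      refine hB _ _ _ (hmem _ _ (by linarith)) (hmem _ _ ?_)
      rw [mem_ball_iff_norm] at hs
      have := norm_le_norm_add_norm_sub' s s₀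
      linarith
    refine DifferentiableAt.congr_of_eventuallyEq ?_ h1
    have h2 : DifferentiableAt ℂ g (s₀, (((‖s₀‖ + 2) / c : ℝ) : ℂ) * I) :=
      hg.differentiableAt (hGo.mem_nhds (hmem _ _ (by linarith)))
    exact h2.comp s₀ (f := fun s : ℂ => ((s, (((‖s₀‖ + 2) / c : ℝ) : ℂ) * I) : ℂ × ℂ))
      (by fun_prop)
  · rintro ⟨s, z⟩ hq
    exact hB _ _ _ hq (hmem _ _ (by linarith))

/-- Liouville with growth `θ < 1` -/
theorem const_of_growth {F : ℂ → ℂ} (hF : Differentiable ℂ F) {M θ : ℝ} (hθ : θ < 1)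
    (hg : ∀ R : ℝ, 1 ≤ R → ∀ s : ℂ, ‖s‖ ≤ R → ‖F s‖ ≤ M * R ^ θ) : ∀ s t, F s = F t := by
  refine is_const_of_deriv_eq_zero hF fun s => ?_
  have hlim : Tendsto (fun R : ℝ => M * 2 ^ θ * R ^ (-(1 - θ))) atTop (𝓝 (M * 2 ^ θ * 0)) :=
    (tendsto_rpow_neg_atTop (by linarith)).const_mul _
  rw [mul_zero] at hlim
  have hle : ∀ᶠ R : ℝ in atTop, ‖deriv F s‖ ≤ M * 2 ^ θ * R ^ (-(1 - θ)) := by
    filter_upwards [eventually_ge_atTop (1 + ‖s‖)] with R hR
    have hR0 : 0 < R := by linarith [norm_nonneg s]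
    have h1 : ‖deriv F s‖ ≤ M * (2 * R) ^ θ / R := by
      refine norm_deriv_le_of_forall_mem_sphere_norm_le hR0 hF.diffContOnCl fun z hz => ?_
      refine hg (2 * R) (by linarith [norm_nonneg s]) z ?_
      rw [mem_sphere_iff_norm] at hz
      have := norm_le_norm_add_norm_sub' z s
      linarith
    refine h1.trans_eq ?_
    rw [Real.mul_rpow (by norm_num) hR0.le]
    have : R ^ (-(1 - θ)) = R ^ θ / R := by
      rw [show -(1 - θ) = θ - 1 by ring, Real.rpow_sub_one hR0.ne']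
    rw [this]
    ring
  have := ge_of_tendsto hlim hle
  exact norm_le_zero_iff.1 this

/-- Lemma X of 210 in 485's literal form. -/
def LemX : Prop :=
  ∀ (s0 : ℝ) (z0 : ℂ) (r : ℝ), 0 < r → ∀ (m D k : ℕ → ℂ × ℂ → ℂ) (mu kap : ℂ × ℂ → ℂ),
    (∀ n, DifferentiableOn ℂ (m n) (ball (s0 : ℂ) r ×ˢ ball z0 r)) →
    (∀ n, DifferentiableOn ℂ (D n) (ball (s0 : ℂ) r ×ˢ ball z0 r)) →
    TendstoLocallyUniformlyOn m mu atTop (ball (s0 : ℂ) r ×ˢ ball z0 r) →
    (∀ n, ∀ q ∈ ball (s0 : ℂ) r ×ˢ ball z0 r,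
      fderiv ℂ (m n) q (1, 0) * fderiv ℂ (D n) q (0, 1) -
        fderiv ℂ (m n) q (0, 1) * fderiv ℂ (D n) q (1, 0) = k n q) →
    TendstoLocallyUniformlyOn k kap atTop (ball (s0 : ℂ) r ×ˢ ball z0 r) →
    (∀ q ∈ ball (s0 : ℂ) r ×ˢ ball z0 r, kap q ≠ 0) →
    (∀ K : Set (ℂ × ℂ), K ⊆ (ball (s0 : ℂ) r ×ˢ ball z0 r) ∩ {q | q.1.im < 0} → IsCompact K →
      ∀ᶠ n in atTop, ∀ q ∈ K, D n q ≠ 0) →
    (∀ q ∈ ball (s0 : ℂ) r ×ˢ ball z0 r, q.1.im = 0 → ∀ e > 0,
      ∀ᶠ n in atTop, ∃ q' ∈ ball q e, D n q' = 0) →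
    ∀ q ∈ ball (s0 : ℂ) r ×ˢ ball z0 r, q.1.im = 0 → fderiv ℂ mu q (0, 1) = 0

/-- **The limit step of the slow regime** (909 (S5)). -/
theorem slow_limit_of (hX : LemX) {c θ A M r : ℝ} (hc : 0 < c) (hA : 0 < A) (hcA : 1 < c * A)
    (hθ : θ < 1) (hr : 0 < r)
    {G : Set (ℂ × ℂ)} (hG : IsOpen G) (hGp : IsPreconnected G) (hGc : Gc c ⊆ G)
    {U : ℕ → Set (ℂ × ℂ)} (hU : ∀ K ⊆ G, IsCompact K → ∀ᶠ n in atTop, K ⊆ U n)
    {m D k : ℕ → ℂ × ℂ → ℂ} (hm : ∀ n, DifferentiableOn ℂ (m n) (U n))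
    (hD : ∀ n, DifferentiableOn ℂ (D n) (U n))
    (hbd : ∀ K ⊆ G, IsCompact K → ∃ B : ℝ, ∀ᶠ n in atTop, ∀ q ∈ K, ‖m n q‖ ≤ B)
    (hgrow : ∀ R : ℝ, 1 ≤ R → ∀ᶠ n in atTop, ∀ s : ℂ, ‖s‖ ≤ R →
      ‖m n (s, ((A * R : ℝ) : ℂ) * I)‖ ≤ M * R ^ θ)
    (hjac : ∀ n, ∀ q ∈ U n, fderiv ℂ (m n) q (1, 0) * fderiv ℂ (D n) q (0, 1) -
      fderiv ℂ (m n) q (0, 1) * fderiv ℂ (D n) q (1, 0) = k n q)
    {kap : ℂ × ℂ → ℂ} (hk : TendstoLocallyUniformlyOn k kap atTop (Gc c))
    (hk0 : ∀ q ∈ Gc c, kap q ≠ 0)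
    (hfree : ∀ K ⊆ Gc c ∩ {q | q.1.im < 0}, IsCompact K → ∀ᶠ n in atTop, ∀ q ∈ K, D n q ≠ 0)
    (hdense : ∀ q ∈ Gc c, q.1.im = 0 → ∀ e > 0, ∀ᶠ n in atTop, ∃ q' ∈ ball q e ∩ U n, D n q' = 0)
    {K0 : Set (ℂ × ℂ)} (hK0 : K0 ⊆ G) (hK0c : IsCompact K0)
    (hosc : ∃ᶠ n in atTop, ∃ q ∈ K0, ∃ q' ∈ K0, r ≤ ‖m n q - m n q'‖) : False := by
  classical
  -- an ultrafilter
  have hne : (atTop ⊓ 𝓟 {n : ℕ | ∃ q ∈ K0, ∃ q' ∈ K0, r ≤ ‖m n q - m n q'‖} : Filter ℕ).NeBot :=
    frequently_mem_iff_neBot.1 hosc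
  set u : Ultrafilter ℕ := Ultrafilter.of
    (atTop ⊓ 𝓟 {n : ℕ | ∃ q ∈ K0, ∃ q' ∈ K0, r ≤ ‖m n q - m n q'‖}) with hu
  have hu1 : (u : Filter ℕ) ≤ atTop := (Ultrafilter.of_le _).trans inf_le_left
  have hu2 : ∀ᶠ n in (u : Filter ℕ), ∃ q ∈ K0, ∃ q' ∈ K0, r ≤ ‖m n q - m n q'‖ := by
    have : (u : Filter ℕ) ≤ 𝓟 {n : ℕ | ∃ q ∈ K0, ∃ q' ∈ K0, r ≤ ‖m n q - m n q'‖} :=
      (Ultrafilter.of_le _).trans inf_le_right
    exact this (mem_principal_self _)
  -- Montel
  have hball : ∀ z ∈ G, ∃ r > 0, closedBall z r ⊆ G := by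
    intro z hz
    obtain ⟨r, hr, h⟩ := Metric.isOpen_iff.1 hG z hz
    exact ⟨r / 2, by positivity, (closedBall_subset_ball (by linarith)).trans h⟩
  obtain ⟨g, hgd, hgu⟩ : ∃ g : ℂ × ℂ → ℂ, DifferentiableOn ℂ g G ∧
      TendstoLocallyUniformlyOn m g u G := by
    refine montel_exh u fun z hz => ?_
    obtain ⟨ρ, hρ, hρG⟩ := hball z hz
    obtain ⟨B, hB⟩ := hbd _ hρG (isCompact_closedBall _ _)
    refine ⟨ρ, hρ, B, ball_subset_closedBall.trans hρG, ?_, ?_⟩
    · filter_upwards [hu1 (hU _ hρG (isCompact_closedBall _ _))] with n hn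
      exact (hm n).mono (ball_subset_closedBall.trans hn)
    · filter_upwards [hu1 hB] with n hn w hw
      exact hn w (ball_subset_closedBall hw)
  have hgGc : DifferentiableOn ℂ g (Gc c) := hgd.mono hGc
  -- the face
  have hface : ∀ q ∈ Gc c, q.1.im = 0 → fderiv ℂ g q (0, 1) = 0 := by
    rintro ⟨s, z⟩ hq hs
    obtain ⟨φ, hφ, hφu⟩ := exists_subseq_of_ultra hu1 hG hgu
    obtain ⟨ρ, hρ, hρG⟩ := Metric.isOpen_iff.1 (isOpen_Gc c) _ hq
    have hs' : ((s.re : ℝ) : ℂ) = s := by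
      apply Complex.ext
      · simp
      · simpa using hs.symm
    set P : Set (ℂ × ℂ) := ball ((s.re : ℝ) : ℂ) (ρ / 2) ×ˢ ball z (ρ / 2) with hP
    have hPe : P = ball (s, z) (ρ / 2) := by
      rw [hP, hs', ball_prod_same]
    have hPc : closedBall (s, z) (ρ / 2) ⊆ Gc c :=
      (closedBall_subset_ball (by linarith)).trans hρG
    have hPG : P ⊆ Gc c := by
      rw [hPe]; exact ball_subset_closedBall.trans hPc
    obtain ⟨N, hN⟩ := eventually_atTop.1
      (hU _ (hPc.trans hGc) (isCompact_closedBall _ _))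
    have hNU : ∀ n, P ⊆ U (φ (n + N)) := by
      intro n
      have h1 : N ≤ φ (n + N) := (Nat.le_add_left N n).trans (hφ.le_apply)
      rw [hPe]
      exact ball_subset_closedBall.trans (hN _ h1)
    set ψ : ℕ → ℕ := fun n => φ (n + N) with hψ
    have hψt : Tendsto ψ atTop atTop :=
      hφ.tendsto_atTop.comp (tendsto_add_atTop_nat N)
    have hsub : ∀ (f : ℕ → ℂ × ℂ → ℂ) (F : ℂ × ℂ → ℂ) (S : Set (ℂ × ℂ)) (ψ' : ℕ → ℕ),
        Tendsto ψ' atTop atTop → TendstoLocallyUniformlyOn f F atTop S →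
        TendstoLocallyUniformlyOn (fun n => f (ψ' n)) F atTop S := by
      intro f F S ψ' hψ' h v hv x hx
      obtain ⟨t, ht, h2⟩ := h v hv x hx
      exact ⟨t, ht, hψ'.eventually h2⟩
    refine hX s.re z (ρ / 2) (by positivity) (fun n => m (ψ n)) (fun n => D (ψ n))
      (fun n => k (ψ n)) g kap (fun n => (hm _).mono (hNU n)) (fun n => (hD _).mono (hNU n))
      ?_ ?_ ?_ ?_ ?_ ?_ (s, z) ?_ hs
    · exact hsub _ _ _ (fun n => n + N) (tendsto_add_atTop_nat N) (hφu.mono (hPG.trans hGc))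
    · intro n q hq
      exact hjac _ q (hNU n hq)
    · exact hsub _ _ _ ψ hψt (hk.mono hPG)
    · exact fun q hq => hk0 q (hPG hq)
    · intro K hK hKc
      exact hψt.eventually (hfree K (fun q hq => ⟨hPG (hK hq).1, (hK hq).2⟩) hKc)
    · intro q hq hq0 e he
      refine (hψt.eventually (hdense q (hPG hq) hq0 e he)).mono ?_
      rintro n ⟨q', hq', h⟩
      exact ⟨q', hq'.1, h⟩
    · show (s, z) ∈ P
      rw [hPe]
      exact mem_ball_self (by positivity)
  obtain ⟨F, hF, hgF⟩ := entire_of_face hc hgGc hface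
  -- growth
  have hmemA : ∀ (R : ℝ), 1 ≤ R → ∀ s : ℂ, ‖s‖ ≤ R → (s, ((A * R : ℝ) : ℂ) * I) ∈ Gc c := by
    intro R hR s hs
    have hR0 : 0 < R := by linarith
    constructor
    · simp only [mul_im, ofReal_re, I_im, mul_one, ofReal_im, I_re, mul_zero, add_zero]
      positivity
    · simp only [mul_im, ofReal_re, I_im, mul_one, ofReal_im, I_re, mul_zero, add_zero]
      have h1 : s.im ≤ ‖s‖ := (le_abs_self _).trans (abs_im_le_norm s)
      have h2 : 1 * R < c * A * R := by gcongr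
      nlinarith
  have hFg : ∀ R : ℝ, 1 ≤ R → ∀ s : ℂ, ‖s‖ ≤ R → ‖F s‖ ≤ M * R ^ θ := by
    intro R hR s hs
    have hq := hmemA R hR s hs
    have h1 : Tendsto (fun n => m n (s, ((A * R : ℝ) : ℂ) * I)) u
        (𝓝 (g (s, ((A * R : ℝ) : ℂ) * I))) := hgu.tendsto_at (hGc hq)
    rw [hgF _ hq] at h1
    refine le_of_tendsto h1.norm ?_
    filter_upwards [hu1 (hgrow R hR)] with n hn
    exact hn s hs
  have hFc := const_of_growth hF hθ hFg
  -- `g` is constant on `G`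
  have hp : ((0 : ℂ), I) ∈ Gc c := by
    constructor
    · simp
    · simp [hc]
  have hgc : EqOn g (fun _ => F 0) G := by
    refine (analyticOnNhd_of_differentiableOn hG hgd).eqOn_of_preconnected_of_eventuallyEq
      (analyticOnNhd_const) hGp (hGc hp) ?_
    filter_upwards [(isOpen_Gc c).mem_nhds hp] with q hq
    rw [hgF q hq]
    exact hFc _ _
  -- contradiction
  have h2 := (tendstoLocallyUniformlyOn_iff_tendstoUniformlyOn_of_compact hK0c).1 (hgu.mono hK0)
  have h3 := (Metric.tendstoUniformlyOn_iff.1 h2) (r / 3) (by positivity)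
  obtain ⟨n, ⟨q, hq, q', hq', hn⟩, hn3⟩ := (hu2.and h3).exists
  have e1 := hn3 q hq
  have e2 := hn3 q' hq'
  rw [hgc (hK0 hq)] at e1
  rw [hgc (hK0 hq')] at e2
  simp only at e1 e2
  have e3 := dist_triangle_left (m n q) (m n q') (F 0)
  rw [← dist_eq_norm] at hn
  linarith

end Crest.Agent.R102.SlowLim754
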