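import Crest.Agent.R102.EdgeLim_196
import Crest.Agent.R102.LemX_262
import Crest.Agent.R102.SlowLim_754
import Crest.Agent.R102.Step5Defs_613
import Crest.Agent.R102.Rule1D_982

/-!
Row 102, T1-B, EDGE, case (c1) (helper300): windows whose limit line is tangent to the curve at the
limit label (`R₀ ≡ 1`) have a constant limit.
-/

set_option autoImplicit false

open Set Filter Topology Metric Complex

noncomputable section

namespace Crest.Agent.R102.EdgeC300

open Crest.Agent.R102.EdgeLim196 Crest.Agent.R102.LemX262 Crest.Agent.R102.SlowLim754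
open Crest.Agent.R266.SCV

/-- a connected set of values in the zero set of a nontrivial holomorphic function -/
theorem const_of_zero {a h : ℝ} {f : ℂ → ℂ} (hf : DifferentiableOn ℂ f (Sp h))
    (hne : ∃ b ∈ Sp h, f b ≠ 0) {B : ℂ × ℂ → ℂ} (hB : DifferentiableOn ℂ B (Lo a))
    (hBm : ∀ q ∈ Lo a, |(B q).im| < h) (h0 : ∀ q ∈ Lo a, f (B q) = 0) {q0 : ℂ × ℂ}
    (hq0 : q0 ∈ Lo a) : ∀ q ∈ Lo a, B q = B q0 := by
  have han : AnalyticOnNhd ℂ f (Sp h) := hf.analyticOnNhd (isOpen_Sp h)
  have hb0 : B q0 ∈ Sp h := hBm q0 hq0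
  have h1 : ∀ᶠ z in 𝓝 (B q0), z ≠ B q0 → f z ≠ 0 := by
    rcases (han _ hb0).eventually_eq_zero_or_eventually_ne_zero with h2 | h2
    · exfalso
      obtain ⟨b, hb, hb'⟩ := hne
      exact hb' (han.eqOn_zero_of_preconnected_of_eventuallyEq_zero
        (convex_Sp h).isPreconnected hb0 h2 hb)
    · exact eventually_nhdsWithin_iff.1 h2
  have hc : ContinuousAt B q0 := (hB.differentiableAt ((isOpen_Lo a).mem_nhds hq0)).continuousAt
  have h2 : B =ᶠ[𝓝 q0] fun _ => B q0 := by
    filter_upwards [hc.eventually h1, (isOpen_Lo a).mem_nhds hq0] with q hq hqL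
    by_contra hcon
    exact hq hcon (h0 q hqL)
  have h3 := (analyticOnNhd_of_differentiableOn (isOpen_Lo a) hB).eqOn_of_preconnected_of_eventuallyEq
    analyticOnNhd_const (convex_Lo a).isPreconnected hq0 h2
  exact fun q hq => h3 hq

/-- the face points are inside `Lo (a + g)` -/
theorem Fc_sub {a g : ℝ} (hg : 0 < g) : Fc a ⊆ Lo (a + g) := by
  rintro q ⟨h1, h2⟩
  refine ⟨h1, ?_⟩
  have : 0 < g * q.2.im := mul_pos hg h1
  rw [h2]; nlinarith

theorem Lo_sub {a g : ℝ} (hg : 0 < g) : Lo a ⊆ Lo (a + g) := by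
  rintro q ⟨h1, h2⟩
  refine ⟨h1, ?_⟩
  have : 0 < g * q.2.im := mul_pos hg h1
  nlinarith

/-- (A) either the limit label is constant, or it extends holomorphically to a ball at some face
point, with a label where `T' ≠ 0` -/
theorem exists_face {a g h : ℝ} (hg : 0 < g) {T : ℂ → ℂ} (hT : DifferentiableOn ℂ T (Sp h))
    (hTne : ∃ b ∈ Sp h, deriv T b ≠ 0) {k0 : ℤ}
    (hper : ∀ b ∈ Sp h, T (b + 1) = T b + 2 * Real.pi * k0)
    {φ B : ℂ × ℂ → ℂ} (hφ : DifferentiableOn ℂ φ (Lo (a + g))) (hB : DifferentiableOn ℂ B (Lo a))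
    (hBm : ∀ q ∈ Lo a, |(B q).im| < h)
    (hR : ∀ x ∈ Lo a, cexp (2 * I * (T (B x) - φ x)) = 1) :
    (∀ x ∈ Lo a, ∀ y ∈ Lo a, B x = B y) ∨
    ∃ q1 ∈ Fc a, ∃ b1 : ℂ, |b1.im| < h ∧ deriv T b1 ≠ 0 ∧ ∃ j : ℤ, φ q1 = T b1 + Real.pi * j ∧
      ∃ r > 0, ball q1 r ⊆ Lo (a + g) ∧ ∃ Bt : ℂ × ℂ → ℂ, DifferentiableOn ℂ Bt (ball q1 r) ∧
        Bt q1 = b1 ∧ (∀ x ∈ ball q1 r, |(Bt x).im| < h ∧ T (Bt x) = φ x - Real.pi * j) ∧
        ∀ x ∈ ball q1 r, x ∈ Lo a → B x = Bt x := by
  by_cases hcl : ∀ q ∈ Fc a, ∀ b : ℂ, |b.im| < h → MapClusterPt b (𝓝[Lo a] q) B →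
      deriv (fun z => cexp (2 * I * (T z - φ q)) - 1) b = 0
  · left
    have hOm : IsOpen (Lo (a + g)) := isOpen_Lo _
    have hFd : DifferentiableOn ℂ (fun x : (ℂ × ℂ) × ℂ => cexp (2 * I * (T x.2 - φ x.1)) - 1)
        (Lo (a + g) ×ˢ {z : ℂ | |z.im| < h}) := by
      have e1 : DifferentiableOn ℂ (fun x : (ℂ × ℂ) × ℂ => T x.2)
          (Lo (a + g) ×ˢ {z : ℂ | |z.im| < h}) :=
        hT.comp differentiableOn_snd fun x hx => hx.2
      have e2 : DifferentiableOn ℂ (fun x : (ℂ × ℂ) × ℂ => φ x.1)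
          (Lo (a + g) ×ˢ {z : ℂ | |z.im| < h}) :=
        hφ.comp differentiableOn_fst fun x hx => hx.1
      exact (((e1.sub e2).const_mul (2 * I)).cexp).sub_const 1
    have hexp : ∀ w : ℂ, cexp (2 * I * (w + 2 * Real.pi * k0)) = cexp (2 * I * w) := by
      intro w
      have : 2 * I * (w + 2 * Real.pi * k0) = 2 * I * w + ((2 * k0 : ℤ) : ℂ) * (2 * Real.pi * I) := by
        push_cast; ring
      rw [this]
      exact (Complex.exp_periodic.int_mul (2 * k0)) (2 * I * w)
    have key := tangential (h := h) hOm (Lo_sub hg) (Fc_sub hg) hB hBm hFd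
      (fun q _ b hb => by
        have : T (b + 1) - φ q = (T b - φ q) + 2 * Real.pi * k0 := by rw [hper b hb]; ring
        simp only
        rw [this, hexp])
      (fun q _ => by
        by_contra hcon
        push Not at hcon
        obtain ⟨b, hb, hb'⟩ := hTne
        apply hb'
        have hev : (fun z => cexp (2 * I * (T z - φ q)) - 1) =ᶠ[𝓝 b] fun _ => 0 := by
          filter_upwards [(isOpen_Sp h).mem_nhds hb] with z hz
          exact hcon z hz
        have hd : HasDerivAt (fun z => cexp (2 * I * (T z - φ q)) - 1)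
            (cexp (2 * I * (T b - φ q)) * (2 * I * deriv T b)) b := by
          have h1 := ((hT.differentiableAt ((isOpen_Sp h).mem_nhds hb)).hasDerivAt)
          exact (((h1.sub_const (φ q)).const_mul (2 * I)).cexp).sub_const 1
        have h2 := hd.unique ((hasDerivAt_const b (0 : ℂ)).congr_of_eventuallyEq hev)
        rcases mul_eq_zero.1 h2 with h3 | h3
        · exact absurd h3 (exp_ne_zero _)
        · rcases mul_eq_zero.1 h3 with h4 | h4
          · simp at h4
          · exact h4)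
      (fun q hq => by simp only; rw [hR q hq, sub_self]) hcl
    have hT0 : ∀ q ∈ Lo a, deriv T (B q) = 0 := by
      intro q hq
      have h1 := key q hq
      have hd : HasDerivAt (fun z => cexp (2 * I * (T z - φ q)) - 1)
          (cexp (2 * I * (T (B q) - φ q)) * (2 * I * deriv T (B q))) (B q) := by
        have h1 := ((hT.differentiableAt ((isOpen_Sp h).mem_nhds (hBm q hq))).hasDerivAt)
        exact (((h1.sub_const (φ q)).const_mul (2 * I)).cexp).sub_const 1
      have h2 : deriv (fun z => cexp (2 * I * (T z - φ q)) - 1) (B q) =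
          cexp (2 * I * (T (B q) - φ q)) * (2 * I * deriv T (B q)) := hd.deriv
      have h3 : deriv (fun z => cexp (2 * I * (T z - φ q)) - 1) (B q) = 0 := h1
      rw [h2, hR q hq, one_mul] at h3
      rcases mul_eq_zero.1 h3 with h4 | h4
      · simp at h4
      · exact h4
    intro x hx y hy
    exact (const_of_zero (hT.deriv (isOpen_Sp h)) hTne hB hBm hT0 hy x hx)
  · right
    push Not at hcl
    obtain ⟨q1, hq1, b1, hb1, hcp, hder⟩ := hcl
    have hb1S : b1 ∈ Sp h := hb1
    have hTd := (hT.differentiableAt ((isOpen_Sp h).mem_nhds hb1S)).hasDerivAt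
    have hd : HasDerivAt (fun z => cexp (2 * I * (T z - φ q1)) - 1)
        (cexp (2 * I * (T b1 - φ q1)) * (2 * I * deriv T b1)) b1 :=
      (((hTd.sub_const (φ q1)).const_mul (2 * I)).cexp).sub_const 1
    have hT1 : deriv T b1 ≠ 0 := by
      intro h0
      apply hder
      rw [hd.deriv, h0, mul_zero, mul_zero]
    have hq1O : q1 ∈ Lo (a + g) := Fc_sub hg hq1
    have hφc : ContinuousAt φ q1 := (hφ.differentiableAt ((isOpen_Lo _).mem_nhds hq1O)).continuousAt
    have hTc : ContinuousAt T b1 := hTd.continuousAt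
    -- the relation at the face point
    have hrel : cexp (2 * I * (T b1 - φ q1)) = 1 := by
      by_contra hne
      have hev2 : ∀ᶠ x in 𝓝 b1 ×ˢ 𝓝 q1, cexp (2 * I * (T x.1 - φ x.2)) ≠ 1 := by
        rw [← nhds_prod_eq]
        have hcc : ContinuousAt (fun x : ℂ × (ℂ × ℂ) => cexp (2 * I * (T x.1 - φ x.2))) (b1, q1) := by
          have c1 : ContinuousAt (fun x : ℂ × (ℂ × ℂ) => T x.1) (b1, q1) :=
            ContinuousAt.comp (f := fun x : ℂ × (ℂ × ℂ) => x.1) (x := (b1, q1)) hTc continuousAt_fst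
          have c2 : ContinuousAt (fun x : ℂ × (ℂ × ℂ) => φ x.2) (b1, q1) :=
            ContinuousAt.comp (f := fun x : ℂ × (ℂ × ℂ) => x.2) (x := (b1, q1)) hφc continuousAt_snd
          exact ((c1.sub c2).const_mul (2 * I)).cexp
        exact hcc.eventually_ne hne
      obtain ⟨A, hA, C, hC, hAC⟩ := Filter.eventually_prod_iff.1 hev2
      have h1 := (mapClusterPt_iff_frequently.1 hcp) {z | A z} hA
      have hC' : ∀ᶠ q in 𝓝[Lo a] q1, C q := nhdsWithin_le_nhds hC
      have hL' : ∀ᶠ q in 𝓝[Lo a] q1, q ∈ Lo a := self_mem_nhdsWithin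
      obtain ⟨q, hqA, hqC, hqL⟩ := (h1.and_eventually (hC'.and hL')).exists
      exact hAC hqA hqC (hR q hqL)
    obtain ⟨m, hm⟩ := Complex.exp_eq_one_iff.1 hrel
    have hφq1 : φ q1 = T b1 + Real.pi * ((-m : ℤ) : ℂ) := by
      have h2I : (2 : ℂ) * I ≠ 0 := by simp
      have h3 : T b1 - φ q1 = m * Real.pi := by
        refine mul_left_cancel₀ h2I ?_
        rw [hm]; ring
      push_cast
      linear_combination -h3
    set j : ℤ := -m with hj
    -- local inverse
    have hTan : AnalyticAt ℂ T b1 := hT.analyticAt ((isOpen_Sp h).mem_nhds hb1S)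
    obtain ⟨κ, hκa, hκb, hκr, hκl⟩ := Rule982.exists_local_inverse hTan hT1
      ((isOpen_Sp h).mem_nhds hb1S)
    have hψc : ContinuousAt (fun q => φ q - Real.pi * j) q1 := hφc.sub continuousAt_const
    have hval : φ q1 - Real.pi * j = T b1 := by rw [hφq1]; ring
    have hψt : Tendsto (fun q => φ q - Real.pi * j) (𝓝 q1) (𝓝 (T b1)) := by
      have := hψc.tendsto
      rwa [hval] at this
    have hev : ∀ᶠ q in 𝓝 q1, (AnalyticAt ℂ κ (φ q - Real.pi * j) ∧
        (κ (φ q - Real.pi * j) ∈ Sp h ∧ T (κ (φ q - Real.pi * j)) = φ q - Real.pi * j)) ∧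
        q ∈ Lo (a + g) := by
      exact ((hψt.eventually (hκa.eventually_analyticAt.and hκr))).and
        ((isOpen_Lo _).mem_nhds hq1O)
    obtain ⟨r, hr, hball⟩ := Metric.eventually_nhds_iff_ball.1 hev
    refine ⟨q1, hq1, b1, hb1, hT1, j, hφq1, r, hr, fun x hx => (hball x hx).2,
      fun x => κ (φ x - Real.pi * j), ?_, ?_, ?_, ?_⟩
    · intro x hx
      obtain ⟨⟨k1, k2⟩, k3⟩ := hball x hx
      have h1 : DifferentiableAt ℂ φ x := hφ.differentiableAt ((isOpen_Lo _).mem_nhds k3)
      exact (k1.differentiableAt.comp x (h1.sub_const _)).differentiableWithinAt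
    · simp only
      rw [hval, hκb]
    · intro x hx
      exact ⟨(hball x hx).1.2.1, (hball x hx).1.2.2⟩
    · -- agreement near a point of `Lo a`
      have hBtd : DifferentiableOn ℂ (fun x => κ (φ x - Real.pi * j)) (ball q1 r) := by
        intro x hx
        obtain ⟨⟨k1, k2⟩, k3⟩ := hball x hx
        have h1 : DifferentiableAt ℂ φ x := hφ.differentiableAt ((isOpen_Lo _).mem_nhds k3)
        exact (k1.differentiableAt.comp x (h1.sub_const _)).differentiableWithinAt
      have hpi4 : 0 < Real.pi / 4 := by positivity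
      have hA1 : ∀ᶠ z in 𝓝 b1, κ (T z) = z ∧ dist (T z) (T b1) < Real.pi / 4 :=
        hκl.and (hTc.eventually (ball_mem_nhds _ hpi4))
      have hC1 : ∀ᶠ q in 𝓝 q1, dist (φ q) (φ q1) < Real.pi / 4 ∧ q ∈ ball q1 r :=
        (hφc.eventually (ball_mem_nhds _ hpi4)).and (ball_mem_nhds _ hr)
      have h1 := (mapClusterPt_iff_frequently.1 hcp) _ hA1.eventually_nhds
      have hC' : ∀ᶠ q in 𝓝[Lo a] q1, ∀ᶠ q' in 𝓝 q, dist (φ q') (φ q1) < Real.pi / 4 ∧
            q' ∈ ball q1 r := nhdsWithin_le_nhds hC1.eventually_nhds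
      have hL' : ∀ᶠ q in 𝓝[Lo a] q1, q ∈ Lo a := self_mem_nhdsWithin
      obtain ⟨x0, hx0A, hx0C, hx0L⟩ := (h1.and_eventually (hC'.and hL')).exists
      have hBc : ContinuousAt B x0 :=
        (hB.differentiableAt ((isOpen_Lo a).mem_nhds hx0L)).continuousAt
      have hloc : B =ᶠ[𝓝 x0] fun x => κ (φ x - Real.pi * j) := by
        filter_upwards [hBc.eventually hx0A, hx0C, (isOpen_Lo a).mem_nhds hx0L] with x k1 k2 k3
        obtain ⟨n, hn⟩ := Complex.exp_eq_one_iff.1 (hR x k3)
        have h2I : (2 : ℂ) * I ≠ 0 := by simp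
        have h3 : T (B x) - φ x = n * Real.pi := by
          refine mul_left_cancel₀ h2I ?_
          rw [hn]; ring
        have h4 : ‖((n + j : ℤ) : ℂ) * Real.pi‖ < Real.pi := by
          have e : ((n + j : ℤ) : ℂ) * Real.pi = (T (B x) - T b1) - (φ x - φ q1) := by
            rw [hφq1]; push_cast; linear_combination -h3
          rw [e]
          have a1 := k1.2
          have a2 := k2.1
          rw [dist_eq_norm] at a1 a2
          calc _ ≤ ‖T (B x) - T b1‖ + ‖φ x - φ q1‖ := norm_sub_le _ _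
            _ < Real.pi / 4 + Real.pi / 4 := add_lt_add a1 a2
            _ < Real.pi := by linarith [Real.pi_pos]
        have h5 : n + j = 0 := by
          by_contra hne
          rw [norm_mul, Complex.norm_real, Real.norm_eq_abs, abs_of_pos Real.pi_pos,
            Complex.norm_intCast] at h4
          have h6 : (1 : ℝ) ≤ |((n + j : ℤ) : ℝ)| := by
            rw [← Int.cast_abs]
            exact_mod_cast Int.one_le_abs hne
          nlinarith [Real.pi_pos]
        have h6 : T (B x) = φ x - Real.pi * j := by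
          have : (n : ℂ) = -(j : ℂ) := by
            have h7 : ((n + j : ℤ) : ℂ) = 0 := by rw [h5]; simp
            push_cast at h7
            linear_combination h7
          rw [this] at h3
          linear_combination h3
        rw [← h6, k1.1]
      have hconv : IsPreconnected (ball q1 r ∩ Lo a) :=
        ((convex_ball q1 r).inter (convex_Lo a)).isPreconnected
      have hopen : IsOpen (ball q1 r ∩ Lo a) := isOpen_ball.inter (isOpen_Lo a)
      have hE := (analyticOnNhd_of_differentiableOn hopen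
        (hB.mono inter_subset_right)).eqOn_of_preconnected_of_eventuallyEq
        (analyticOnNhd_of_differentiableOn hopen (hBtd.mono inter_subset_left)) hconv
        ⟨(hx0C.self_of_nhds).2, hx0L⟩ hloc
      exact fun x hx hxL => hE ⟨hx, hxL⟩

end Crest.Agent.R102.EdgeC300
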