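import Crest.Agent.R102.ChainGen_864

/-!
Row 102, T1-B / EDGE, **EdgeChain** (helper864): Harnack / Schottky / Pick chains in the half box
`Half e η 0 = {|Re q.1 - e.1| < η, -η < Im q.1 < 0, ‖q.2 - e.2‖ < η, 0 < Im q.2}` (contained in `Dp`),
along the straight segment from `q` (depths `≥ m`) to a central point `z` (depths `≥ r / 4`).

* `edge_seg`   : generic, for every functional with the one step property `Step`;
* `edge_HE`    : `F` omits `0, 1`;
* `edge_sign`  : the sign of `log ‖F‖` at `z` persists up to `C (r / m)^S`;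
* `edge_log`   : `δ` with `exp (2 i δ) ≠ 1`;
* `edge_depth`, `edge_move` : labels in the strip `|Im| < h`.
-/

set_option autoImplicit false

open Set Filter Metric Complex Topology

namespace Crest.Agent.R102.Edge864

open Crest.Agent.R102.G864 Crest.Agent.R102.F300 Crest.Agent.R102.S5 Crest.Agent.R102.Chain864

theorem isOpen_Half (e : ℝ × ℝ) (η m : ℝ) : IsOpen (Half e η m) := by
  have e1 : Half e η m = {q : ℂ × ℂ | |q.1.re - e.1| < η} ∩ {q | -η < q.1.im} ∩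
      {q | ‖q.2 - (e.2 : ℂ)‖ < η} ∩ {q | 0 < q.2.im} ∩ {q | q.1.im < m * q.2.im} := by
    ext q
    simp only [Half, Set.mem_ofPred_eq, mem_inter_iff]
    tauto
  rw [e1]
  refine IsOpen.inter (IsOpen.inter (IsOpen.inter (IsOpen.inter ?_ ?_) ?_) ?_) ?_
  · exact isOpen_lt (by fun_prop) (by fun_prop)
  · exact isOpen_lt (by fun_prop) (by fun_prop)
  · exact isOpen_lt (by fun_prop) (by fun_prop)
  · exact isOpen_lt (by fun_prop) (by fun_prop)
  · exact isOpen_lt (by fun_prop) (by fun_prop)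

theorem ball_sub_Half {e : ℝ × ℝ} {η : ℝ} {q : ℂ × ℂ} {ρ : ℝ} (h1 : ρ ≤ -q.1.im) (h2 : ρ ≤ q.2.im)
    (h3 : |q.1.re - e.1| + ρ ≤ η) (h4 : -q.1.im + ρ ≤ η) (h5 : ‖q.2 - (e.2 : ℂ)‖ + ρ ≤ η) :
    ball q ρ ⊆ Half e η 0 := by
  intro y hy
  rw [mem_ball, dist_eq_norm, Prod.norm_def, max_lt_iff] at hy
  obtain ⟨hy1, hy2⟩ := hy
  have e1 : |y.1.re - q.1.re| < ρ := (abs_re_le_norm (y - q).1).trans_lt hy1
  have e2 : |y.1.im - q.1.im| < ρ := (abs_im_le_norm (y - q).1).trans_lt hy1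
  have e3 : ‖y.2 - q.2‖ < ρ := hy2
  have e4 : |y.2.im - q.2.im| < ρ := (abs_im_le_norm (y - q).2).trans_lt hy2
  rw [abs_lt] at e2 e4
  have t1 : |y.1.re - e.1| ≤ |y.1.re - q.1.re| + |q.1.re - e.1| := by
    have := abs_add_le (y.1.re - q.1.re) (q.1.re - e.1)
    simpa using this
  have t2 : ‖y.2 - e.2‖ ≤ ‖y.2 - q.2‖ + ‖q.2 - e.2‖ := by
    have := norm_add_le (y.2 - q.2) (q.2 - (e.2 : ℂ))
    simpa using this
  exact ⟨by linarith, by linarith, by linarith, by linarith, by linarith⟩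

/-- central point of the window `(e, r)` -/
structure Cen (e : ℝ × ℝ) (r : ℝ) (z : ℂ × ℂ) : Prop where
  re : |z.1.re - e.1| ≤ r
  w : ‖z.2 - (e.2 : ℂ)‖ ≤ r
  im_le : -z.1.im ≤ r
  im_ge : r / 4 ≤ -z.1.im
  w_ge : r / 4 ≤ z.2.im

theorem cen_ray (e : ℝ × ℝ) {r : ℝ} (hr : 0 < r) : Cen e r (ray e r) := by
  rw [ray_eq]
  constructor
  · simp [hr.le]
  · have : (e.2 : ℂ) + (r / 4 : ℝ) * I - e.2 = ((r / 4 : ℝ) : ℂ) * I := by ring
    simp only
    rw [this, norm_mul, norm_I, mul_one, norm_real, Real.norm_eq_abs, abs_of_pos (by positivity)]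
    linarith
  · simp
  · simp; linarith
  · simp

/-- point at depths `≥ m` in the window `(e, r)` -/
structure Pt (e : ℝ × ℝ) (r m : ℝ) (q : ℂ × ℂ) : Prop where
  m_pos : 0 < m
  re : |q.1.re - e.1| ≤ r
  w : ‖q.2 - (e.2 : ℂ)‖ ≤ r
  im_le : -q.1.im ≤ r
  im_ge : m ≤ -q.1.im
  w_ge : m ≤ q.2.im

theorem Pt.m_le {e : ℝ × ℝ} {r m : ℝ} {q : ℂ × ℂ} (h : Pt e r m q) : m ≤ r :=
  h.im_ge.trans h.im_le

/-- the segment -/
noncomputable def sg (q z : ℂ × ℂ) (θ : ℝ) : ℂ × ℂ := q + θ • (z - q)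

theorem sg_zero (q z : ℂ × ℂ) : sg q z 0 = q := by simp [sg]
theorem sg_one (q z : ℂ × ℂ) : sg q z 1 = z := by simp [sg]

theorem sg_re (q z : ℂ × ℂ) (θ : ℝ) : (sg q z θ).1.re = (1 - θ) * q.1.re + θ * z.1.re := by
  simp [sg]; ring
theorem sg_im (q z : ℂ × ℂ) (θ : ℝ) : (sg q z θ).1.im = (1 - θ) * q.1.im + θ * z.1.im := by
  simp [sg]; ring
theorem sg_im2 (q z : ℂ × ℂ) (θ : ℝ) : (sg q z θ).2.im = (1 - θ) * q.2.im + θ * z.2.im := by
  simp [sg]; ring

theorem norm_sg_sub (q z : ℂ × ℂ) (θ θ' : ℝ) : ‖sg q z θ - sg q z θ'‖ = |θ - θ'| * ‖z - q‖ := by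
  have e : sg q z θ - sg q z θ' = (θ - θ') • (z - q) := by
    simp only [sg, sub_smul]; abel
  rw [e, norm_smul, Real.norm_eq_abs]

theorem continuous_sg (q z : ℂ × ℂ) : Continuous (sg q z) := by
  unfold sg; fun_prop

theorem ball_sg {e : ℝ × ℝ} {η r m : ℝ} {q z : ℂ × ℂ} (hη : 3 * r ≤ η) (hq : Pt e r m q)
    (hz : Cen e r z) {τ : ℝ} (h0 : 0 ≤ τ) (h1 : τ ≤ r) :
    ball (sg q z (τ / r)) ((m + τ) / 16) ⊆ Half e η 0 := by
  have hm := hq.m_pos
  have hr : 0 < r := hm.trans_le hq.m_le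
  obtain ⟨θ, hθ⟩ : ∃ θ : ℝ, θ = τ / r := ⟨_, rfl⟩
  rw [← hθ]
  have hθ0 : 0 ≤ θ := by rw [hθ]; positivity
  have hθ1 : θ ≤ 1 := by rw [hθ, div_le_one hr]; exact h1
  have hτ : τ = θ * r := by rw [hθ]; field_simp
  have hmr := hq.m_le
  have hc : (m + τ) / 16 ≤ (1 - θ) * m + θ * (r / 4) := by
    rw [hτ]
    nlinarith [mul_nonneg hθ0 (by linarith : (0:ℝ) ≤ r - m)]
  have hr16 : (m + τ) / 16 ≤ r := by linarith
  have a1 := mul_le_mul_of_nonneg_left hq.im_ge (by linarith : 0 ≤ 1 - θ)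
  have a2 := mul_le_mul_of_nonneg_left hz.im_ge hθ0
  have a3 := mul_le_mul_of_nonneg_left hq.w_ge (by linarith : 0 ≤ 1 - θ)
  have a4 := mul_le_mul_of_nonneg_left hz.w_ge hθ0
  have a5 := mul_le_mul_of_nonneg_left hq.im_le (by linarith : 0 ≤ 1 - θ)
  have a6 := mul_le_mul_of_nonneg_left hz.im_le hθ0
  refine ball_sub_Half ?_ ?_ ?_ ?_ ?_
  · rw [sg_im]; linarith
  · rw [sg_im2]; linarith
  · have e1 : (sg q z θ).1.re - e.1 = (1 - θ) * (q.1.re - e.1) + θ * (z.1.re - e.1) := by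
      rw [sg_re]; ring
    have : |(sg q z θ).1.re - e.1| ≤ r := by
      rw [e1]
      refine (abs_add_le _ _).trans ?_
      rw [abs_mul, abs_mul, abs_of_nonneg hθ0, abs_of_nonneg (by linarith : 0 ≤ 1 - θ)]
      have b1 := mul_le_mul_of_nonneg_left hq.re (by linarith : 0 ≤ 1 - θ)
      have b2 := mul_le_mul_of_nonneg_left hz.re hθ0
      linarith
    linarith
  · rw [sg_im]; linarith
  · have e1 : (sg q z θ).2 - (e.2 : ℂ) = ((1 - θ : ℝ) : ℂ) * (q.2 - e.2) + (θ : ℂ) * (z.2 - e.2) := by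
      simp only [sg, Prod.snd_add, Prod.smul_snd, Prod.snd_sub, real_smul]
      push_cast
      ring
    have : ‖(sg q z θ).2 - (e.2 : ℂ)‖ ≤ r := by
      rw [e1]
      refine (norm_add_le _ _).trans ?_
      rw [norm_mul, norm_mul, norm_real, norm_real, Real.norm_eq_abs, Real.norm_eq_abs,
        abs_of_nonneg hθ0, abs_of_nonneg (by linarith : 0 ≤ 1 - θ)]
      have b1 := mul_le_mul_of_nonneg_left hq.w (by linarith : 0 ≤ 1 - θ)
      have b2 := mul_le_mul_of_nonneg_left hz.w hθ0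
      linarith
    linarith

theorem norm_cen_sub {e : ℝ × ℝ} {r m : ℝ} {q z : ℂ × ℂ} (hq : Pt e r m q) (hz : Cen e r z) :
    ‖z - q‖ ≤ 3 * r := by
  have hm := hq.m_pos
  have hr : 0 < r := hm.trans_le hq.m_le
  rw [Prod.norm_def]
  refine max_le ?_ ?_
  · refine (norm_le_abs_re_add_abs_im _).trans ?_
    simp only [Prod.fst_sub, sub_re, sub_im]
    have b1 : |z.1.re - q.1.re| ≤ 2 * r := by
      have h1 := abs_le.1 hz.re
      have h2 := abs_le.1 hq.re
      rw [abs_le]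
      constructor <;> linarith
    have b2 : |z.1.im - q.1.im| ≤ r := by
      have h1 := hz.im_le
      have h2 := hz.im_ge
      have h3 := hq.im_le
      have h4 := hq.im_ge
      rw [abs_le]
      constructor <;> linarith
    linarith
  · have : z.2 - q.2 = (z.2 - e.2) - (q.2 - e.2) := by ring
    simp only [Prod.snd_sub]
    rw [this]
    refine (norm_sub_le _ _).trans ?_
    linarith [hz.w, hq.w]

/-- **generic chain along the segment** -/
theorem edge_seg (K0 : ℝ) (hK : 1 ≤ K0) : ∃ C S : ℝ, 1 ≤ C ∧ 1 ≤ S ∧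
    ∀ (e : ℝ × ℝ) (η r m : ℝ) (q z : ℂ × ℂ), 3 * r ≤ η → Pt e r m q → Cen e r z →
    (∀ θ ∈ Icc (0:ℝ) 1, sg q z θ ∈ Half e η 0) ∧
    ∀ Λ : ℂ × ℂ → ℝ, (∀ x ∈ Half e η 0, 0 ≤ Λ x) → Step (Half e η 0) K0 Λ →
      ∀ θ ∈ Icc (0:ℝ) 1, Λ q ≤ C * (r / m) ^ S * Λ (sg q z θ) ∧
        Λ (sg q z θ) ≤ C * (r / m) ^ S * Λ q := by
  have hKp : 0 < K0 := by linarith
  have hL : 0 < Real.log (1 + 1 / 24 / 4 : ℝ) := Real.log_pos (by norm_num)
  have hS0 : 0 ≤ Real.log K0 / Real.log (1 + 1 / 24 / 4 : ℝ) := div_nonneg (Real.log_nonneg hK) hL.le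
  obtain ⟨S, hS⟩ : ∃ S : ℝ, S = Real.log K0 / Real.log (1 + 1 / 24 / 4 : ℝ) := ⟨_, rfl⟩
  rw [← hS] at hS0
  have h2S : (1 : ℝ) ≤ 2 ^ S := Real.one_le_rpow (by norm_num) hS0
  refine ⟨K0 * 2 ^ S, S + 1, by nlinarith, by linarith, ?_⟩
  intro e η r m q z hη hq hz
  have hm := hq.m_pos
  have hmr := hq.m_le
  have hr : 0 < r := hm.trans_le hmr
  have hmem : ∀ θ ∈ Icc (0:ℝ) 1, sg q z θ ∈ Half e η 0 := by
    intro θ hθ
    have h := ball_sg hη hq hz (τ := θ * r) (mul_nonneg hθ.1 hr.le) (by nlinarith [hθ.2])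
    rw [mul_div_assoc, div_self hr.ne', mul_one] at h
    exact h (mem_ball_self (by have := mul_nonneg hθ.1 hr.le; positivity))
  refine ⟨hmem, ?_⟩
  intro Λ hΛ hstep θ hθ
  obtain ⟨hθ0, hθ1⟩ := hθ
  have hT0 : 0 ≤ θ * r := mul_nonneg hθ0 hr.le
  have hT1 : θ * r ≤ r := by nlinarith
  have hz3 := norm_cen_sub hq hz
  have key := iter_gen (K0 := K0) (μ := 1 / 24) (D := m) (T := θ * r)
    (Φ := fun τ => Λ (sg q z (τ / r))) hK (by norm_num) hm hT0 ?_ ?_
  · simp only [zero_div, sg_zero] at key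
    rw [mul_div_assoc, div_self hr.ne', mul_one, ← hS] at key
    have hrm : 1 ≤ r / m := by rw [le_div_iff₀ hm]; linarith
    have hrm0 : 0 < r / m := by linarith
    have hle : ((m + θ * r) / m) ^ S ≤ 2 ^ S * (r / m) ^ (S + 1) := by
      have a1 : (m + θ * r) / m ≤ 2 * (r / m) := by
        rw [div_le_iff₀ hm]
        have : 2 * (r / m) * m = 2 * r := by field_simp
        rw [this]; linarith
      have a0 : 0 ≤ (m + θ * r) / m := by positivity
      calc ((m + θ * r) / m) ^ S ≤ (2 * (r / m)) ^ S := Real.rpow_le_rpow a0 a1 hS0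
        _ = 2 ^ S * (r / m) ^ S := Real.mul_rpow (by norm_num) hrm0.le
        _ ≤ 2 ^ S * (r / m) ^ (S + 1) := by
            gcongr
            · linarith
    have hq0 : 0 ≤ Λ q := by
      have := hΛ _ (hmem 0 ⟨le_rfl, zero_le_one⟩)
      rwa [sg_zero] at this
    have hs0 : 0 ≤ Λ (sg q z θ) := hΛ _ (hmem θ ⟨hθ0, hθ1⟩)
    constructor
    · calc Λ q ≤ K0 * ((m + θ * r) / m) ^ S * Λ (sg q z θ) := key.1
        _ ≤ K0 * (2 ^ S * (r / m) ^ (S + 1)) * Λ (sg q z θ) := by gcongr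
        _ = K0 * 2 ^ S * (r / m) ^ (S + 1) * Λ (sg q z θ) := by ring
    · calc Λ (sg q z θ) ≤ K0 * ((m + θ * r) / m) ^ S * Λ q := key.2
        _ ≤ K0 * (2 ^ S * (r / m) ^ (S + 1)) * Λ q := by gcongr
        _ = K0 * 2 ^ S * (r / m) ^ (S + 1) * Λ q := by ring
  · intro τ h0 hτ
    exact hΛ _ (ball_sg hη hq hz h0 (hτ.trans hT1) (mem_ball_self (by positivity)))
  · intro τ τ' h0 h01 h02 h03
    have hb := ball_sg hη hq hz h0 (h01.trans (h03.trans hT1))
    have hb' := ball_sg hη hq hz (h0.trans h01) (h03.trans hT1)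
    have hτ0' : 0 ≤ τ' := h0.trans h01
    have hd : ‖sg q z (τ / r) - sg q z (τ' / r)‖ ≤ 3 * (τ' - τ) := by
      rw [norm_sg_sub, ← sub_div, abs_div, abs_of_pos hr, abs_sub_comm, abs_of_nonneg (by linarith)]
      rw [div_mul_eq_mul_div, div_le_iff₀ hr]
      nlinarith
    constructor
    · refine hstep _ _ _ (by positivity) hb' (hd.trans ?_)
      linarith
    · refine hstep _ _ _ (by positivity) hb ?_
      rw [norm_sub_rev]
      refine hd.trans ?_
      linarith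

/-- `F` omits `0, 1` -/
theorem edge_HE : ∃ C S : ℝ, 1 ≤ C ∧ 1 ≤ S ∧
    ∀ (e : ℝ × ℝ) (η r m : ℝ) (q z : ℂ × ℂ), 3 * r ≤ η → Pt e r m q → Cen e r z →
    ∀ F : ℂ × ℂ → ℂ, DifferentiableOn ℂ F (Half e η 0) → (∀ x ∈ Half e η 0, F x ≠ 0 ∧ F x ≠ 1) →
      1 + |Real.log ‖F q‖| ≤ C * (r / m) ^ S * (1 + |Real.log ‖F z‖|) ∧
      1 + |Real.log ‖F z‖| ≤ C * (r / m) ^ S * (1 + |Real.log ‖F q‖|) := by
  obtain ⟨C, S, hC, hS, H⟩ := edge_seg K1 one_le_K1
  refine ⟨C, S, hC, hS, ?_⟩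
  intro e η r m q z hη hq hz F hF hF01
  have hO : OmE (Half e η 0) F :=
    ⟨isOpen_Half e η 0, hF, fun x hx => (hF01 x hx).1, fun x hx => (hF01 x hx).2⟩
  have h := (H e η r m q z hη hq hz).2 (HE F) (fun x _ => zero_le_one.trans (one_le_HE F x))
    (step_HE hO) 1 ⟨zero_le_one, le_rfl⟩
  rw [sg_one] at h
  exact h

/-- **the sign of `log ‖F‖` persists** -/
theorem edge_sign : ∃ C S : ℝ, 1 ≤ C ∧ 1 ≤ S ∧
    ∀ (e : ℝ × ℝ) (η r m : ℝ) (q z : ℂ × ℂ), 3 * r ≤ η → Pt e r m q → Cen e r z →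
    ∀ F : ℂ × ℂ → ℂ, DifferentiableOn ℂ F (Half e η 0) → (∀ x ∈ Half e η 0, F x ≠ 0 ∧ F x ≠ 1) →
      (0 ≤ Real.log ‖F z‖ → -(C * (r / m) ^ S) ≤ Real.log ‖F q‖) ∧
      (Real.log ‖F z‖ ≤ 0 → Real.log ‖F q‖ ≤ C * (r / m) ^ S) := by
  obtain ⟨C, S, hC, hS, H⟩ := edge_seg K1 one_le_K1
  refine ⟨C, S, hC, hS, ?_⟩
  intro e η r m q z hη hq hz F hF hF01
  have hO : OmE (Half e η 0) F :=
    ⟨isOpen_Half e η 0, hF, fun x hx => (hF01 x hx).1, fun x hx => (hF01 x hx).2⟩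
  obtain ⟨hmem, h⟩ := H e η r m q z hη hq hz
  have h := h (HE F) (fun x _ => zero_le_one.trans (one_le_HE F x)) (step_HE hO)
  have hm := hq.m_pos
  have hr : 0 < r := hm.trans_le hq.m_le
  have hM0 : 0 ≤ C * (r / m) ^ S := by positivity
  have hcont : ContinuousOn (fun θ : ℝ => Real.log ‖F (sg q z θ)‖) (Icc 0 1) := by
    refine ContinuousOn.log ?_ (fun θ hθ => (norm_pos_iff.2 (hF01 _ (hmem θ hθ)).1).ne')
    exact (hF.continuousOn.comp (continuous_sg q z).continuousOn hmem).norm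
  have hzero : ∀ θ ∈ Icc (0:ℝ) 1, Real.log ‖F (sg q z θ)‖ = 0 →
      |Real.log ‖F q‖| ≤ C * (r / m) ^ S := by
    intro θ hθ h0
    have h1 := (h θ hθ).1
    unfold HE at h1
    rw [h0] at h1
    simp only [abs_zero, add_zero, mul_one] at h1
    linarith
  constructor
  · intro h0
    by_contra hcon
    push Not at hcon
    have hq0 : Real.log ‖F q‖ ≤ 0 := by linarith
    obtain ⟨θ, hθ, hθ0⟩ := intermediate_value_Icc (zero_le_one : (0:ℝ) ≤ 1) hcont
      (show (0:ℝ) ∈ Icc _ _ by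
        simp only [sg_zero, sg_one]
        exact ⟨hq0, h0⟩)
    have h3 := hzero θ hθ hθ0
    have := neg_abs_le (Real.log ‖F q‖)
    linarith
  · intro h0
    by_contra hcon
    push Not at hcon
    have hq0 : 0 ≤ Real.log ‖F q‖ := by linarith
    obtain ⟨θ, hθ, hθ0⟩ := intermediate_value_Icc' (zero_le_one : (0:ℝ) ≤ 1) hcont
      (show (0:ℝ) ∈ Icc _ _ by
        simp only [sg_zero, sg_one]
        exact ⟨h0, hq0⟩)
    have h3 := hzero θ hθ hθ0
    have := le_abs_self (Real.log ‖F q‖)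
    linarith

/-- Pick estimate in a half plane -/
theorem pick_half {E : Type*} [NormedAddCommGroup E] [NormedSpace ℂ E] {g : E → ℂ} {w w' : E}
    {r t : ℝ} (hr : 0 < r) (ht0 : 0 ≤ t) (ht : t < 1) (hg : DifferentiableOn ℂ g (ball w r))
    (hpos : ∀ q ∈ ball w r, 0 < (g q).im) (hw : ‖w' - w‖ ≤ t * r) :
    ‖g w' - g w‖ ≤ 2 * t / (1 - t) * (g w).im := by
  have hw0 : w ∈ ball w r := mem_ball_self hr
  have hw' : w' ∈ ball w r := by
    rw [mem_ball, dist_eq_norm]; nlinarith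
  obtain ⟨a, ha⟩ : ∃ a : ℂ, a = g w := ⟨_, rfl⟩
  have ha0 : 0 < a.im := by rw [ha]; exact hpos w hw0
  have hne : ∀ q ∈ ball w r, g q - (starRingEnd ℂ) a ≠ 0 := by
    intro q hq h0
    have h1 := congrArg Complex.im h0
    simp only [sub_im, conj_im, zero_im] at h1
    have := hpos q hq
    linarith
  obtain ⟨f, hf⟩ : ∃ f : E → ℂ, f = fun q => (g q - a) * (g q - (starRingEnd ℂ) a)⁻¹ := ⟨_, rfl⟩
  have hfd : DifferentiableOn ℂ f (ball w r) := by
    rw [hf]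
    exact (hg.sub_const _).mul ((hg.sub_const _).inv hne)
  have hfw : f w = 0 := by rw [hf]; simp [ha]
  have hfle : ∀ q ∈ ball w r, ‖f q‖ ≤ 1 := by
    intro q hq
    have hp := hpos q hq
    rw [hf]
    simp only
    rw [← div_eq_mul_inv, norm_div, div_le_one (norm_pos_iff.2 (hne q hq))]
    rw [← sq_le_sq₀ (norm_nonneg _) (norm_nonneg _), Complex.sq_norm, Complex.sq_norm,
      normSq_apply, normSq_apply]
    simp only [sub_re, sub_im, conj_re, conj_im]
    nlinarith [mul_pos hp ha0]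
  have hmaps : MapsTo f (ball w r) (closedBall (f w) 1) := by
    intro q hq
    rw [hfw, mem_closedBall, dist_zero_right]
    exact hfle q hq
  have h1 := dist_le_div_mul_dist_of_mapsTo_ball hfd hmaps hw'
  rw [hfw, dist_zero_right, dist_eq_norm] at h1
  have h2 : ‖f w'‖ ≤ t := by
    refine h1.trans ?_
    calc 1 / r * ‖w' - w‖ ≤ 1 / r * (t * r) := mul_le_mul_of_nonneg_left hw (by positivity)
      _ = t := by field_simp
  have h3 : ‖g w' - a‖ ≤ t * ‖g w' - (starRingEnd ℂ) a‖ := by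
    rw [hf] at h2
    simp only at h2
    rw [← div_eq_mul_inv, norm_div, div_le_iff₀ (norm_pos_iff.2 (hne w' hw'))] at h2
    exact h2
  have h4 : ‖g w' - (starRingEnd ℂ) a‖ ≤ ‖g w' - a‖ + 2 * a.im := by
    have e1 : g w' - (starRingEnd ℂ) a = (g w' - a) + (a - (starRingEnd ℂ) a) := by ring
    rw [e1]
    refine (norm_add_le _ _).trans ?_
    have : ‖a - (starRingEnd ℂ) a‖ = 2 * a.im := by
      have e2 : a - (starRingEnd ℂ) a = ((2 * a.im : ℝ) : ℂ) * I := by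
        apply Complex.ext
        · simp
        · simp; ring
      rw [e2, norm_mul, norm_I, mul_one, norm_real, Real.norm_eq_abs, abs_of_pos (by positivity)]
    rw [this]
  rw [← ha]
  have h5 : (1 - t) * ‖g w' - a‖ ≤ 2 * t * a.im := by nlinarith
  rw [div_mul_eq_mul_div, le_div_iff₀ (by linarith)]
  linarith

/-- `Λ = HE (exp 2iδ) + ‖δ - b‖` has the one step property -/
theorem step_log {W : Set (ℂ × ℂ)} {δ : ℂ × ℂ → ℂ} (hW : IsOpen W) (hδ : DifferentiableOn ℂ δ W)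
    (h1 : ∀ x ∈ W, cexp (2 * I * δ x) ≠ 1) (b : ℂ) :
    Step W (K1 + 8 * (K1 * K1)) (fun x => HE (fun x => cexp (2 * I * δ x)) x + ‖δ x - b‖) := by
  have hK := one_le_K1
  have hO : OmE W (fun x => cexp (2 * I * δ x)) :=
    ⟨hW, by fun_prop, fun x _ => exp_ne_zero _, h1⟩
  intro w w' r hr hb hw
  have s1 := HE_step hO hr hb hw
  have hH := one_le_HE (fun x => cexp (2 * I * δ x)) w
  obtain ⟨H0, hH0⟩ : ∃ H0 : ℝ, H0 = HE (fun x => cexp (2 * I * δ x)) w := ⟨_, rfl⟩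
  -- bound of Im δ on the ball of radius 3r/4
  have hlog : ∀ x, Real.log ‖cexp (2 * I * δ x)‖ = -(2 * (δ x).im) := by
    intro x
    rw [norm_exp, Real.log_exp]
    simp
  have him : ∀ x ∈ ball w (3 / 4 * r), |(δ x).im| < K1 * K1 * H0 := by
    intro x hx
    rw [mem_ball, dist_eq_norm] at hx
    -- midpoint `y = w + (2/3) (x - w)`
    obtain ⟨y, hy⟩ : ∃ y : ℂ × ℂ, y = w + (2 / 3 : ℝ) • (x - w) := ⟨_, rfl⟩
    have hyw : ‖y - w‖ ≤ r / 2 := by
      rw [hy, add_sub_cancel_left, norm_smul, Real.norm_eq_abs, abs_of_pos (by norm_num)]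
      linarith
    have hxy : ‖x - y‖ ≤ r / 2 / 2 := by
      have e1 : x - y = (1 / 3 : ℝ) • (x - w) := by
        rw [hy]
        have : x - (w + (2 / 3 : ℝ) • (x - w)) = (1 : ℝ) • (x - w) - (2 / 3 : ℝ) • (x - w) := by
          rw [one_smul]; abel
        rw [this, ← sub_smul]
        norm_num
      rw [e1, norm_smul, Real.norm_eq_abs, abs_of_pos (by norm_num)]
      linarith
    have hby : ball y (r / 2) ⊆ W := by
      refine (ball_subset_ball' ?_).trans hb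
      rw [dist_eq_norm]
      linarith
    have t1 := HE_step hO hr hb hyw
    have t2 := HE_step hO (by positivity) hby hxy
    have t3 : HE (fun x => cexp (2 * I * δ x)) x ≤ K1 * (K1 * H0) := by
      rw [hH0]
      exact t2.trans (mul_le_mul_of_nonneg_left t1 (by linarith))
    unfold HE at t3
    simp only at t3
    rw [hlog x, abs_neg, abs_mul, abs_of_pos (by norm_num : (0:ℝ) < 2)] at t3
    have := abs_nonneg (δ x).im
    nlinarith
  have hM : 0 < K1 * K1 * H0 := by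
    rw [hH0]; positivity
  have hball : ball w (3 / 4 * r) ⊆ W := (ball_subset_ball (by linarith)).trans hb
  have hp := pick_half (g := fun x => δ x + ((K1 * K1 * H0 : ℝ) : ℂ) * I) (w := w) (w' := w')
    (r := 3 / 4 * r) (t := 2 / 3) (by positivity) (by norm_num) (by norm_num)
    ((hδ.mono hball).add_const _)
    (fun q hq => by
      have := abs_lt.1 (him q hq)
      simp only [add_im, mul_im, ofReal_re, I_im, mul_one, ofReal_im, I_re, mul_zero, add_zero]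
      linarith) (by linarith)
  have hww : |(δ w).im| < K1 * K1 * H0 := him w (mem_ball_self (by positivity))
  have hww := abs_lt.1 hww
  have e1 : (δ w' + ((K1 * K1 * H0 : ℝ) : ℂ) * I) - (δ w + ((K1 * K1 * H0 : ℝ) : ℂ) * I)
      = δ w' - δ w := by ring
  rw [e1] at hp
  simp only [add_im, mul_im, ofReal_re, I_im, mul_one, ofReal_im, I_re, mul_zero, add_zero] at hp
  have hδδ : ‖δ w' - δ w‖ ≤ 8 * (K1 * K1) * H0 := by
    refine hp.trans ?_
    have : 2 * (2 / 3 : ℝ) / (1 - 2 / 3) = 4 := by norm_num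
    rw [this]
    linarith
  have e2 : ‖δ w' - b‖ ≤ ‖δ w' - δ w‖ + ‖δ w - b‖ := by
    have := norm_add_le (δ w' - δ w) (δ w - b)
    simpa using this
  simp only
  rw [← hH0] at s1 hH ⊢
  have hb0 := norm_nonneg (δ w - b)
  have hK8 : 1 ≤ K1 + 8 * (K1 * K1) := by nlinarith
  nlinarith [mul_le_mul_of_nonneg_right hK8 hb0]

/-- **`δ` with `exp 2iδ ≠ 1`** -/
theorem edge_log : ∃ C S : ℝ, 1 ≤ C ∧ 1 ≤ S ∧
    ∀ (e : ℝ × ℝ) (η r m : ℝ) (q z : ℂ × ℂ), 3 * r ≤ η → Pt e r m q → Cen e r z →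
    ∀ δ : ℂ × ℂ → ℂ, DifferentiableOn ℂ δ (Half e η 0) →
      (∀ x ∈ Half e η 0, cexp (2 * I * δ x) ≠ 1) →
      ‖δ q - δ z‖ ≤ C * (r / m) ^ S * (1 + |(δ z).im|) := by
  have hK := one_le_K1
  obtain ⟨C, S, hC, hS, H⟩ := edge_seg (K1 + 8 * (K1 * K1)) (by nlinarith)
  refine ⟨2 * C, S, by linarith, hS, ?_⟩
  intro e η r m q z hη hq hz δ hδ h1
  have h := (H e η r m q z hη hq hz).2 _
    (fun x _ => add_nonneg (zero_le_one.trans (one_le_HE (fun x => cexp (2 * I * δ x)) x))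
      (norm_nonneg (δ x - δ z)))
    (step_log (isOpen_Half e η 0) hδ h1 (δ z)) 1 ⟨zero_le_one, le_rfl⟩
  have h2 := h.1
  rw [sg_one, sub_self, norm_zero, add_zero] at h2
  have hlog : Real.log ‖cexp (2 * I * δ z)‖ = -(2 * (δ z).im) := by
    rw [norm_exp, Real.log_exp]
    simp
  have hz' : HE (fun x => cexp (2 * I * δ x)) z = 1 + 2 * |(δ z).im| := by
    unfold HE
    simp only
    rw [hlog, abs_neg, abs_mul, abs_of_pos (by norm_num : (0:ℝ) < 2)]
  rw [hz'] at h2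
  have h3 := one_le_HE (fun x => cexp (2 * I * δ x)) q
  have hm := hq.m_pos
  have hr : 0 < r := hm.trans_le hq.m_le
  have hM0 : 0 ≤ C * (r / m) ^ S := by positivity
  have h4 := abs_nonneg (δ z).im
  calc ‖δ q - δ z‖ ≤ C * (r / m) ^ S * (1 + 2 * |(δ z).im|) := by linarith
    _ ≤ C * (r / m) ^ S * (2 * (1 + |(δ z).im|)) := mul_le_mul_of_nonneg_left (by linarith) hM0
    _ = 2 * C * (r / m) ^ S * (1 + |(δ z).im|) := by ring

/-- **depth of the label** -/
theorem edge_depth : ∃ C S : ℝ, 1 ≤ C ∧ 1 ≤ S ∧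
    ∀ (e : ℝ × ℝ) (η r m : ℝ) (q z : ℂ × ℂ), 3 * r ≤ η → Pt e r m q → Cen e r z →
    ∀ (h : ℝ) (B : ℂ × ℂ → ℂ), DifferentiableOn ℂ B (Half e η 0) →
      (∀ x ∈ Half e η 0, |(B x).im| < h) →
      (h - |(B z).im| ≤ C * (r / m) ^ S * (h - |(B q).im|) ∧
       h - |(B q).im| ≤ C * (r / m) ^ S * (h - |(B z).im|)) ∧
      (h - (B z).im ≤ C * (r / m) ^ S * (h - (B q).im) ∧
       h - (B q).im ≤ C * (r / m) ^ S * (h - (B z).im)) ∧
      (h + (B z).im ≤ C * (r / m) ^ S * (h + (B q).im) ∧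
       h + (B q).im ≤ C * (r / m) ^ S * (h + (B z).im)) := by
  obtain ⟨C, S, hC, hS, H⟩ := edge_seg 3 (by norm_num)
  refine ⟨C, S, hC, hS, ?_⟩
  intro e η r m q z hη hq hz h B hB hBh
  have g1 := (H e η r m q z hη hq hz).2 (fun q => ((h : ℂ) * I - B q).im)
    (fun q hq => by
      have := abs_lt.1 (hBh q hq)
      simp; linarith)
    (step_im (by fun_prop) (fun q hq => by
      have := abs_lt.1 (hBh q hq)
      simp; linarith)) 1 ⟨zero_le_one, le_rfl⟩
  have g2 := (H e η r m q z hη hq hz).2 (fun q => ((h : ℂ) * I + B q).im)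
    (fun q hq => by
      have := abs_lt.1 (hBh q hq)
      simp; linarith)
    (step_im (by fun_prop) (fun q hq => by
      have := abs_lt.1 (hBh q hq)
      simp; linarith)) 1 ⟨zero_le_one, le_rfl⟩
  simp only [sub_im, add_im, mul_im, ofReal_re, I_im, mul_one, ofReal_im, I_re, mul_zero,
    add_zero, sg_one] at g1 g2
  have hm := hq.m_pos
  have hr : 0 < r := hm.trans_le hq.m_le
  have hM : 0 ≤ C * (r / m) ^ S := by positivity
  refine ⟨⟨?_, ?_⟩, ⟨g1.2, g1.1⟩, ⟨g2.2, g2.1⟩⟩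
  · rcases le_total 0 (B q).im with hs | hs
    · rw [abs_of_nonneg hs]
      have := le_abs_self (B z).im
      linarith [g1.2]
    · rw [abs_of_nonpos hs]
      have := neg_le_abs (B z).im
      have e1 : h - -(B q).im = h + (B q).im := by ring
      rw [e1]
      linarith [g2.2]
  · rcases le_total 0 (B z).im with hs | hs
    · rw [abs_of_nonneg hs]
      have := le_abs_self (B q).im
      linarith [g1.1]
    · rw [abs_of_nonpos hs]
      have := neg_le_abs (B q).im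
      have e1 : h - -(B z).im = h + (B z).im := by ring
      rw [e1]
      linarith [g2.1]

/-- **the label moves by at most `C (1 + log (r / m))`** -/
theorem edge_move (h : ℝ) (hh : 0 < h) : ∃ C : ℝ, 1 ≤ C ∧
    ∀ (e : ℝ × ℝ) (η r m : ℝ) (q z : ℂ × ℂ), 3 * r ≤ η → Pt e r m q → Cen e r z →
    ∀ (B : ℂ × ℂ → ℂ), DifferentiableOn ℂ B (Half e η 0) →
      (∀ x ∈ Half e η 0, |(B x).im| < h) → ‖B q - B z‖ ≤ C * (1 + Real.log (r / m)) := by
  obtain ⟨C, S, hC, hS, H⟩ := edge_seg (Real.exp (4 * h)) (Real.one_le_exp (by positivity))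
  refine ⟨Real.log C + S, by have := Real.log_nonneg hC; linarith, ?_⟩
  intro e η r m q z hη hq hz B hB hBh
  have hm := hq.m_pos
  have hr : 0 < r := hm.trans_le hq.m_le
  have hst : Step (Half e η 0) (Real.exp (4 * h)) (fun x => Real.exp ‖B x - B z‖) := by
    intro w w' ρ hρ hb hw
    have hp := pick_half (g := fun x => B x + (h : ℂ) * I) (w := w) (w' := w')
      (r := ρ) (t := 1 / 2) hρ (by norm_num) (by norm_num)
      ((hB.mono hb).add_const _)
      (fun q hq => by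
        have := abs_lt.1 (hBh q (hb hq))
        simp only [add_im, mul_im, ofReal_re, I_im, mul_one, ofReal_im, I_re, mul_zero, add_zero]
        linarith) (by linarith)
    have e1 : (B w' + (h : ℂ) * I) - (B w + (h : ℂ) * I) = B w' - B w := by ring
    rw [e1] at hp
    simp only [add_im, mul_im, ofReal_re, I_im, mul_one, ofReal_im, I_re, mul_zero, add_zero] at hp
    have h0 := abs_lt.1 (hBh w (hb (mem_ball_self hρ)))
    have h1 : ‖B w' - B w‖ ≤ 4 * h := by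
      refine hp.trans ?_
      have : 2 * (1 / 2 : ℝ) / (1 - 1 / 2) = 2 := by norm_num
      rw [this]
      linarith
    have h2 : ‖B w' - B z‖ ≤ ‖B w' - B w‖ + ‖B w - B z‖ := by
      have := norm_add_le (B w' - B w) (B w - B z)
      simpa using this
    simp only
    rw [← Real.exp_add]
    exact Real.exp_le_exp.2 (by linarith)
  have g := ((H e η r m q z hη hq hz).2 _ (fun x _ => (Real.exp_pos _).le) hst 1
    ⟨zero_le_one, le_rfl⟩).1
  rw [sg_one] at g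
  simp only [sub_self, norm_zero, Real.exp_zero, mul_one] at g
  have hrm : 1 ≤ r / m := by rw [le_div_iff₀ hm]; linarith [hq.m_le]
  have hrm0 : 0 < r / m := by linarith
  have hCp : 0 < C := by linarith
  have g2 : ‖B q - B z‖ ≤ Real.log (C * (r / m) ^ S) := by
    rw [Real.le_log_iff_exp_le (by positivity)]
    exact g
  rw [Real.log_mul hCp.ne' (by positivity), Real.log_rpow hrm0] at g2
  have hl := Real.log_nonneg hrm
  have hlC := Real.log_nonneg hC
  nlinarith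

end Crest.Agent.R102.Edge864
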