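import Crest.Agent.R102.EdgeDefs_255

/-!
Row 102, T1-B, block EDGE (helper812): **uniformity in the scale** of 619 (1).

`Edge255.NrmAll` : the angle at the windows `(e n, R s n)` is bounded with a constant INDEPENDENT of
`R ≥ 1`.
* `nrmAll_of`  : this follows from `NormP` (diagonal sequence);
* `nrmAll_nrm` : the same for the normalised blow-ups of `ToWorld` (input of `FlatP`).
-/

set_option autoImplicit false

open Set Filter Topology Metric MeasureTheory Complex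

noncomputable section

namespace Crest.Agent.R102.NrmAll812

open Crest.Agent.R102.S5 (Half bl ray Cn)
open Crest.Agent.R102.Edge255

theorem bl_dil (e : ℝ × ℝ) (s R : ℝ) (q : ℂ × ℂ) :
    bl e s ((R : ℂ) * q.1, (R : ℂ) * q.2) = bl e (R * s) q := by
  unfold bl
  ext1
  · simp only; push_cast; ring
  · simp only; push_cast; ring

theorem ray_eq (e : ℝ × ℝ) (s : ℝ) : ray e s = bl e s z0 := rfl

/-- the columns at the larger scales `t j * s (n j)` -/
theorem cols_sub {u0 R d h a g κ : ℝ} {ψ : ℂ → ℂ} {φ p B : ℂ × ℂ → ℂ} {X L : Set (ℂ × ℂ)}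
    {u s₀ : ℝ} {e : ℕ → ℝ × ℝ} {s σ : ℕ → ℝ} (hC : Cols u0 R d h a g κ ψ φ p B X L u s₀ e s σ)
    (hs : Tendsto (fun n => s n / σ n) atTop (𝓝 0)) {N : ℕ → ℕ} (hN : Tendsto N atTop atTop)
    {t : ℕ → ℝ} (ht : ∀ j, 1 ≤ t j) (ht' : ∀ j, t j ≤ (σ (N j) / s (N j)) ^ (1 / 2 : ℝ)) :
    Cols u0 R d h a g κ ψ φ p B X L u s₀ (fun j => e (N j)) (fun j => t j * s (N j))
      (fun j => σ (N j)) ∧ Tendsto (fun j => t j * s (N j) / σ (N j)) atTop (𝓝 0) := by
  have hs0 : ∀ j, 0 < s (N j) := fun j => hC.s_pos _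
  have hσ0 : ∀ j, 0 < σ (N j) := fun j => (hs0 j).trans_le (hC.s_le _)
  have hr0 : ∀ j, 0 < s (N j) / σ (N j) := fun j => div_pos (hs0 j) (hσ0 j)
  have hr1 : ∀ j, s (N j) / σ (N j) ≤ 1 := fun j => (div_le_one (hσ0 j)).2 (hC.s_le _)
  -- the basic inequality
  have hb : ∀ j, t j * s (N j) / σ (N j) ≤ (s (N j) / σ (N j)) ^ (1 / 2 : ℝ) := by
    intro j
    have h1 : (σ (N j) / s (N j)) ^ (1 / 2 : ℝ) * (s (N j) / σ (N j)) =
        (s (N j) / σ (N j)) ^ (1 / 2 : ℝ) := by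
      have h2 : σ (N j) / s (N j) = (s (N j) / σ (N j))⁻¹ := by rw [inv_div]
      rw [h2, Real.inv_rpow (hr0 j).le]
      have h3 : (s (N j) / σ (N j)) =
          (s (N j) / σ (N j)) ^ (1 / 2 : ℝ) * (s (N j) / σ (N j)) ^ (1 / 2 : ℝ) := by
        rw [← Real.rpow_add (hr0 j)]
        norm_num
      have h4 : (s (N j) / σ (N j)) ^ (1 / 2 : ℝ) ≠ 0 := (Real.rpow_pos_of_pos (hr0 j) _).ne'
      conv_lhs => rw [h3]
      rw [Real.mul_rpow (Real.rpow_nonneg (hr0 j).le _) (Real.rpow_nonneg (hr0 j).le _), ← h3]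
      rw [← Real.rpow_mul (hr0 j).le, ← Real.rpow_add (hr0 j)]
      rw [show (1 / 2 * (1 / 2) + 1 / 2 * (1 / 2) : ℝ) = 1 / 2 by norm_num]
      rw [inv_mul_eq_div, div_eq_iff h4]
      exact h3
    calc t j * s (N j) / σ (N j) = t j * (s (N j) / σ (N j)) := by ring
      _ ≤ (σ (N j) / s (N j)) ^ (1 / 2 : ℝ) * (s (N j) / σ (N j)) :=
        mul_le_mul_of_nonneg_right (ht' j) (hr0 j).le
      _ = _ := h1
  have hpos : ∀ j, 0 < t j * s (N j) / σ (N j) := fun j =>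
    div_pos (mul_pos (by linarith [ht j]) (hs0 j)) (hσ0 j)
  have hlim : Tendsto (fun j => (s (N j) / σ (N j)) ^ (1 / 2 : ℝ)) atTop (𝓝 0) := by
    have h1 : Tendsto (fun j => s (N j) / σ (N j)) atTop (𝓝 0) := hs.comp hN
    have h2 := h1.rpow_const (p := (1 / 2 : ℝ)) (Or.inr (by norm_num))
    rwa [Real.zero_rpow (by norm_num)] at h2
  refine ⟨?_, squeeze_zero (fun j => (hpos j).le) hb hlim⟩
  refine
    { e_lim := hC.e_lim.comp hN
      s_pos := fun j => mul_pos (by linarith [ht j]) (hs0 j)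
      s_le := fun j => ?_
      σ_le := fun j => hC.σ_le _
      ball_sub := fun j => hC.ball_sub _
      line := fun j => hC.line _
      col := fun j s' hs' => hC.col _ s' ⟨?_, hs'.2⟩
      outer := fun c hc => ?_ }
  · have h1 : t j * s (N j) / σ (N j) ≤ 1 :=
      (hb j).trans (Real.rpow_le_one (hr0 j).le (hr1 j) (by norm_num))
    rwa [div_le_one (hσ0 j)] at h1
  · have h1 : 1 * s (N j) ≤ t j * s (N j) := mul_le_mul_of_nonneg_right (ht j) (hs0 j).le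
    rw [one_mul] at h1
    exact h1.trans hs'.1
  · obtain ⟨M, hM1, hM2⟩ := hC.outer c hc
    refine ⟨fun j => M (N j), fun j => hM1 (N j), fun τ hτ => ?_⟩
    have h1 := (hM2 (τ / 2) (by positivity)).comp hN
    refine (tendsto_zero_iff_abs_tendsto_zero _).2 ?_
    have h2 := (tendsto_zero_iff_abs_tendsto_zero _).1 h1
    refine squeeze_zero (fun j => abs_nonneg _) (fun j => ?_) h2
    simp only [Function.comp]
    rw [abs_mul, abs_mul]
    refine mul_le_mul_of_nonneg_right ?_ (abs_nonneg _)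
    rw [abs_of_nonneg (Real.rpow_nonneg (hpos j).le _),
      abs_of_nonneg (Real.rpow_nonneg (hr0 j).le _)]
    calc (t j * s (N j) / σ (N j)) ^ τ ≤ ((s (N j) / σ (N j)) ^ (1 / 2 : ℝ)) ^ τ :=
          Real.rpow_le_rpow (hpos j).le (hb j) hτ.le
      _ = (s (N j) / σ (N j)) ^ (τ / 2) := by
          rw [← Real.rpow_mul (hr0 j).le]; congr 1; ring

/-- **uniformity in the scale** -/
theorem nrmAll_of (hN : NormP) {u0 R d h : ℝ} {ψ H A : ℂ → ℂ} {φ p B : ℂ × ℂ → ℂ}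
    {X L : Set (ℂ × ℂ)} (D : ED u0 R d h ψ H A φ p B X L) {u s₀ a g κ : ℝ} {e : ℕ → ℝ × ℝ}
    {s σ : ℕ → ℝ} (hu : u ∈ Ioo (u0 - R) (u0 + R)) (hu0 : u ≠ 0) (ha : 0 ≤ a) (hg : 0 < g)
    (hκ : 0 < κ) (hC : Cols u0 R d h a g κ ψ φ p B X L u s₀ e s σ)
    (hs : Tendsto (fun n => s n / σ n) atTop (𝓝 0)) :
    NrmAll (a + g) ψ (fun n q => φ (bl (e n) (s n) q)) (fun n q => B (bl (e n) (s n) q)) := by
  intro K hK hKc
  by_contra hcon
  push Not at hcon
  -- the bad scales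
  have hev : ∀ t : ℝ, 1 ≤ t → ∀ᶠ n in atTop, t ≤ (σ n / s n) ^ (1 / 2 : ℝ) := by
    intro t ht
    have h1 : ∀ᶠ n in atTop, s n / σ n < (t ^ 2)⁻¹ :=
      hs.eventually (gt_mem_nhds (by positivity))
    filter_upwards [h1] with n h2
    have hs0 := hC.s_pos n
    have hσ0 := hs0.trans_le (hC.s_le n)
    have h3 : t ^ 2 ≤ σ n / s n := by
      have h4 : 0 < s n / σ n := div_pos hs0 hσ0
      have h5 : (σ n / s n) = (s n / σ n)⁻¹ := by rw [inv_div]
      rw [h5, le_inv_comm₀ (by positivity) h4]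
      exact h2.le
    have h6 : t = (t ^ 2) ^ (1 / 2 : ℝ) := by
      rw [← Real.sqrt_eq_rpow, Real.sqrt_sq (by linarith)]
    rw [h6]
    exact Real.rpow_le_rpow (by positivity) h3 (by norm_num)
  have hch : ∀ j : ℕ, ∃ (t : ℝ) (n : ℕ) (q : ℂ × ℂ), 1 ≤ t ∧ j ≤ n ∧
      t ≤ (σ n / s n) ^ (1 / 2 : ℝ) ∧ q ∈ K ∧
      (j : ℝ) * (1 + |Real.log ‖R0 ψ (fun q => φ (bl (e n) (s n) q))
        (fun q => B (bl (e n) (s n) q)) ((t : ℂ) * z0.1, (t : ℂ) * z0.2)‖|) <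
      |(φ (bl (e n) (s n) ((t : ℂ) * q.1, (t : ℂ) * q.2))).im| := by
    intro j
    obtain ⟨t, ht, hf⟩ := hcon j
    obtain ⟨n, ⟨q, hq, hlt⟩, h1, h2⟩ :=
      (hf.and_eventually ((eventually_ge_atTop j).and (hev t ht))).exists
    exact ⟨t, n, q, ht, h1, h2, hq, hlt⟩
  choose t N q h1 h2 h3 h4 h5 using hch
  have hNt : Tendsto N atTop atTop := tendsto_atTop_mono h2 tendsto_id
  obtain ⟨hC', hs'⟩ := cols_sub hC hs hNt h1 h3
  obtain ⟨C, hev'⟩ := (hN u0 R d h ψ H A φ p B X L D u s₀ a g κ _ _ _ hu hu0 ha hg hκ hC' hs').1 K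
    hK hKc
  obtain ⟨j, h6, h7⟩ := (hev'.and (eventually_gt_atTop (⌈C⌉₊))).exists
  have h8 := h6 (q j) (h4 j)
  have h9 := h5 j
  rw [bl_dil] at h9
  have h10 : R0 ψ (fun q => φ (bl (e (N j)) (s (N j)) q)) (fun q => B (bl (e (N j)) (s (N j)) q))
      ((t j : ℂ) * z0.1, (t j : ℂ) * z0.2) = R0 ψ φ B (ray (e (N j)) (t j * s (N j))) := by
    unfold R0
    simp only
    rw [bl_dil, ray_eq]
  rw [h10] at h9
  have h11 : |(φ (bl (e (N j)) (t j * s (N j)) (q j))).im| ≤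
      ‖φ (bl (e (N j)) (t j * s (N j)) (q j)) - ((φ (ray (e (N j)) (t j * s (N j)))).re : ℂ)‖ := by
    have := Complex.abs_im_le_norm (φ (bl (e (N j)) (t j * s (N j)) (q j)) -
      ((φ (ray (e (N j)) (t j * s (N j)))).re : ℂ))
    rwa [Complex.sub_im, Complex.ofReal_im, sub_zero] at this
  set Λ : ℝ := 1 + |Real.log ‖R0 ψ φ B (ray (e (N j)) (t j * s (N j)))‖| with hΛ
  have hΛ0 : 0 < Λ := by positivity
  have h12 : (j : ℝ) * Λ < C * Λ := h9.trans_le (h11.trans h8)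
  have h13 : (j : ℝ) < C := lt_of_mul_lt_mul_right h12 hΛ0.le
  have h14 : C ≤ ⌈C⌉₊ := Nat.le_ceil C
  have h15 : ((⌈C⌉₊ : ℕ) : ℝ) < (j : ℝ) := by exact_mod_cast h7
  linarith

/-! ### the normalised blow-ups -/

theorem ψ_add_nat {h : ℝ} {ψ H : ℂ → ℂ} (hC : Curve h ψ H) {z : ℂ} (hz : z ∈ T5.Str h) (m : ℕ) :
    ψ (z + m) = ψ z + 2 * Real.pi * m := by
  induction m with
  | zero => simp
  | succ k ih =>
    have hk : z + k ∈ T5.Str h := by
      have h1 : |z.im| < h := hz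
      show |(z + k).im| < h
      simpa using h1
    have h1 := hC.ψ_per (z + k) hk
    have e1 : z + ((k + 1 : ℕ) : ℂ) = z + k + 1 := by push_cast; ring
    rw [e1, h1, ih]; push_cast; ring

theorem ψ_sub_int' {h : ℝ} {ψ H : ℂ → ℂ} (hC : Curve h ψ H) {z : ℂ} (hz : z ∈ T5.Str h) (m : ℤ) :
    ψ (z - m) = ψ z - 2 * Real.pi * m := by
  have hz' : ∀ m : ℤ, z - m ∈ T5.Str h := by
    intro m
    have h1 : |z.im| < h := hz
    show |(z - m).im| < h
    simpa using h1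
  obtain ⟨k, rfl | rfl⟩ := m.eq_nat_or_neg
  · have h1 := ψ_add_nat hC (hz' (k : ℤ)) k
    simp only [Int.cast_natCast, sub_add_cancel] at h1 ⊢
    rw [h1]; ring
  · have h1 := ψ_add_nat hC hz k
    simp only [Int.cast_neg, Int.cast_natCast, sub_neg_eq_add]
    rw [h1]; ring

/-- the modulus of `R₀` does not see real translations of the angle by real numbers and integer
translations of the label -/
theorem norm_R0_nrm {h : ℝ} {ψ H : ℂ → ℂ} (hC : Curve h ψ H) {φ B : ℂ × ℂ → ℂ} {q : ℂ × ℂ}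
    (hq : |(B q).im| < h) (m : ℤ) (c : ℝ) :
    ‖R0 ψ (fun x => φ x - c) (fun x => B x - m) q‖ = ‖R0 ψ φ B q‖ := by
  unfold R0
  simp only
  rw [ψ_sub_int' hC hq m, Complex.norm_exp, Complex.norm_exp]
  congr 1
  simp

theorem nrmAll_nrm (hN : NormP) {u0 R d h : ℝ} {ψ H A : ℂ → ℂ} {φ p B : ℂ × ℂ → ℂ}
    {X L : Set (ℂ × ℂ)} (D : ED u0 R d h ψ H A φ p B X L) {u s₀ a g κ : ℝ} {e : ℕ → ℝ × ℝ}
    {s σ : ℕ → ℝ} (hu : u ∈ Ioo (u0 - R) (u0 + R)) (hu0 : u ≠ 0) (ha : 0 ≤ a) (hg : 0 < g)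
    (hκ : 0 < κ) (hC : Cols u0 R d h a g κ ψ φ p B X L u s₀ e s σ)
    (hs : Tendsto (fun n => s n / σ n) atTop (𝓝 0)) :
    NrmAll (a + g) ψ (fun n q => φ (bl (e n) (s n) q) - nφ (fun x => φ (bl (e n) (s n) x)))
      (fun n q => B (bl (e n) (s n) q) - nB (fun x => B (bl (e n) (s n) x))) := by
  intro K hK hKc
  obtain ⟨C, hC1⟩ := nrmAll_of hN D hu hu0 ha hg hκ hC hs K hK hKc
  refine ⟨C, fun t ht => ?_⟩
  have hev : ∀ᶠ n in atTop, s n / σ n < t⁻¹ := hs.eventually (gt_mem_nhds (by positivity))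
  filter_upwards [hC1 t ht, hev] with n h1 h2 q hq
  have hs0 := hC.s_pos n
  have hσ0 := hs0.trans_le (hC.s_le n)
  have h3 : t * s n ≤ σ n := by
    rw [div_lt_iff₀ hσ0] at h2
    have h4 : t * s n < t * (t⁻¹ * σ n) := mul_lt_mul_of_pos_left h2 (by linarith)
    have h5 : t * (t⁻¹ * σ n) = σ n := by field_simp
    linarith
  have hts : 0 < t * s n := mul_pos (by linarith) hs0
  -- the base point is in the product domain
  have hX : bl (e n) (s n) ((t : ℂ) * z0.1, (t : ℂ) * z0.2) ∈ X := by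
    refine D.Dp_X ?_
    rw [bl_dil]
    have e1 : (bl (e n) (t * s n) z0).1.im = -(t * s n) := by unfold bl z0; simp
    have e2 : (bl (e n) (t * s n) z0).2.im = t * s n / 4 := by
      unfold bl z0
      simp
      ring
    have e3 : (bl (e n) (t * s n) z0).2 - (((e n).2 : ℝ) : ℂ) = ((t * s n / 4 : ℝ) : ℂ) * I := by
      unfold bl z0
      push_cast
      ring
    refine ⟨?_, ?_, ?_, ?_⟩
    · rw [e1]
      linarith [hC.σ_le n]
    · rw [e1]; linarith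
    · refine hC.ball_sub n ?_
      rw [mem_ball, dist_eq_norm, e3, norm_mul, Complex.norm_I, mul_one, Complex.norm_real,
        Real.norm_eq_abs, abs_of_pos (by positivity)]
      linarith
    · show 0 < (bl (e n) (t * s n) z0).2.im
      rw [e2]; positivity
  have h6 : ‖R0 ψ (fun x => φ (bl (e n) (s n) x) - nφ (fun x => φ (bl (e n) (s n) x)))
      (fun x => B (bl (e n) (s n) x) - nB (fun x => B (bl (e n) (s n) x)))
      ((t : ℂ) * z0.1, (t : ℂ) * z0.2)‖ =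
      ‖R0 ψ (fun q => φ (bl (e n) (s n) q)) (fun q => B (bl (e n) (s n) q))
        ((t : ℂ) * z0.1, (t : ℂ) * z0.2)‖ := by
    have h7 := norm_R0_nrm D.curve (φ := fun q => φ (bl (e n) (s n) q))
      (B := fun q => B (bl (e n) (s n) q)) (q := ((t : ℂ) * z0.1, (t : ℂ) * z0.2))
      (D.B_im _ hX) ⌊(B (bl (e n) (s n) z0)).re⌋
      (2 * Real.pi * (⌊(φ (bl (e n) (s n) z0)).re / (2 * Real.pi)⌋ : ℝ))
    rw [← h7]
    unfold nφ nB
    push_cast
    rfl
  have h8 := h1 q hq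
  have h8 : _ ≤ _ := h8
  rw [h6]
  refine le_trans (le_of_eq ?_) h8
  congr 1
  unfold nφ
  rw [Complex.sub_im]
  have h9 : (2 * (Real.pi : ℂ) * (⌊(φ (bl (e n) (s n) z0)).re / (2 * Real.pi)⌋ : ℂ)).im = 0 := by
    have : (2 * (Real.pi : ℂ) * (⌊(φ (bl (e n) (s n) z0)).re / (2 * Real.pi)⌋ : ℂ)) =
        ((2 * Real.pi * (⌊(φ (bl (e n) (s n) z0)).re / (2 * Real.pi)⌋ : ℝ) : ℝ) : ℂ) := by
      push_cast; rfl
    rw [this, Complex.ofReal_im]
  rw [h9, sub_zero]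

end Crest.Agent.R102.NrmAll812
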