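import Crest.Agent.R102.EdgeRig_255
import Crest.Agent.R102.NrmAll_812

/-! Row 102, EDGE: `NrmAllP` from `NormP` (over 812's `nrmAll_of`). -/

namespace Crest.Agent.R102.Edge255

theorem nrmAllP (hN : NormP) : NrmAllP := by
  intro u0 R d h ψ H A φ p B X L hE u s₀ a g κ e s σ hu hu0 ha hg hκ hC hs
  exact NrmAll812.nrmAll_of hN hE hu hu0 ha hg hκ hC hs

end Crest.Agent.R102.Edge255
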