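import Crest.Agent.R102.SumB_602

/-!
Row 102, part (A), LeafSUM: remaining conjuncts and assembly (helper602).
-/

set_option autoImplicit false

open Set Filter Topology Metric Complex MeasureTheory
open scoped Real ContDiff ComplexConjugate

noncomputable section

namespace Crest.Agent.R102.Sum602

open Crest.Agent.R102.A929

/-- the constant `∑ 1/k²`. -/
def SS : ℝ := ∑' k : ℤ, 1 / (k : ℝ) ^ 2

lemma SS_summable : Summable (fun k : ℤ => 1 / (k : ℝ) ^ 2) :=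
  Real.summable_one_div_int_pow.2 (by norm_num)

lemma SS_nonneg : 0 ≤ SS := tsum_nonneg fun k => by positivity

section

variable {α : ℝ} {N n : ℕ} {a : ℤ → ℂ} {G : ℝ}

lemma sum_le {f : ℤ → ℝ} {A : ℝ} (hf : ∀ k, 0 ≤ f k) (hle : ∀ k, f k ≤ A * (1 / (k : ℝ) ^ 2)) :
    Summable f ∧ ∑' k, f k ≤ A * SS := by
  have hs : Summable f := Summable.of_nonneg_of_le hf hle (SS_summable.mul_left A)
  refine ⟨hs, ?_⟩
  calc ∑' k, f k ≤ ∑' k : ℤ, A * (1 / (k : ℝ) ^ 2) := hs.tsum_le_tsum hle (SS_summable.mul_left A)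
    _ = A * SS := tsum_mul_left

lemma pow15 {M : ℝ} (k : ℤ) (hk : (k : ℝ) ≠ 0) (hM : 0 < M) (h : M ≤ 1 + |(k : ℝ)|) :
    ((1 + |(k : ℝ)|) ^ 15)⁻¹ ≤ (M ^ 13)⁻¹ * (1 / (k : ℝ) ^ 2) := by
  rw [one_div, ← mul_inv]
  apply inv_anti₀
  · positivity
  · rw [← sq_abs (k : ℝ)]
    calc M ^ 13 * |(k : ℝ)| ^ 2 ≤ (1 + |(k : ℝ)|) ^ 13 * (1 + |(k : ℝ)|) ^ 2 := by
          gcongr; linarith
      _ = (1 + |(k : ℝ)|) ^ 15 := by ring

lemma om_ge_one (hα : 0 ≤ α) (k : ℤ) : 1 ≤ om α N k := by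
  unfold om
  exact Real.one_le_exp (mul_nonneg hα (le_min (abs_nonneg _) (by positivity)))

/-- pointwise: half weight. -/
lemma aHi_le_half (h : WB α N G a) (hα : 0 ≤ α) (hn : 1 ≤ n) (k : ℤ) :
    ‖aHi a n k‖ ≤ G * Real.exp (-(α * min (n : ℝ) N / 2)) * (2 ^ 13 / (n : ℝ) ^ 13) *
      (1 / (k : ℝ) ^ 2) := by
  have hG := G_nonneg h
  have hn0 : (0 : ℝ) < n := by exact_mod_cast hn
  by_cases hk : |k| ≤ ((n / 2 : ℕ) : ℤ)
  · rw [aHi_zero hk]; positivity
  have h1 := half_lt hk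
  have hk0 : (k : ℝ) ≠ 0 := by
    intro h0
    apply hk
    have : k = 0 := by exact_mod_cast h0
    rw [this, abs_zero]; positivity
  have h2 := aHi_le (n := n) h k
  have h3 := pow15 (M := (n : ℝ) / 2) k hk0 (by positivity) h1
  have h5 : (om α N k)⁻¹ ≤ Real.exp (-(α * min (n : ℝ) N / 2)) := by
    rw [om, ← Real.exp_neg]
    apply Real.exp_le_exp.2
    apply neg_le_neg
    have hh : (n : ℝ) ≤ 2 * |(k : ℝ)| := by
      push Not at hk
      have h1 : ((n / 2 : ℕ) : ℤ) + 1 ≤ |k| := hk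
      have h2 : (n : ℤ) ≤ 2 * ((n / 2 : ℕ) : ℤ) + 1 := by omega
      have : (n : ℤ) ≤ 2 * |k| := by linarith
      exact_mod_cast this
    have hmin : min (n : ℝ) N / 2 ≤ min |(k : ℝ)| N := by
      apply le_min
      · have := min_le_left (n : ℝ) N; linarith
      · have := min_le_right (n : ℝ) N
        have h0 : (0 : ℝ) ≤ N := by positivity
        linarith
    calc α * min (n : ℝ) N / 2 = α * (min (n : ℝ) N / 2) := by ring
      _ ≤ α * min |(k : ℝ)| N := mul_le_mul_of_nonneg_left hmin hα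
  calc ‖aHi a n k‖ ≤ G * (om α N k)⁻¹ * ((1 + |(k : ℝ)|) ^ 15)⁻¹ := h2
    _ ≤ G * Real.exp (-(α * min (n : ℝ) N / 2)) * ((((n : ℝ) / 2) ^ 13)⁻¹ * (1 / (k : ℝ) ^ 2)) := by
        gcongr
    _ = _ := by rw [div_pow, inv_div]; ring

/-- conjuncts (1), (2), (6) of `LeafSUM`. -/
theorem sumHi (h : WB α N G a) (hα : 0 ≤ α) (hn : 1 ≤ n) :
    Summable (fun k => ‖aHi a n k‖) ∧
    (∑' k, ‖aHi a n k‖) ≤ (G * 2 ^ 13 * SS) / (n : ℝ) ^ 13 ∧
    (∑' k, ‖aHi a n k‖) ^ 2 ≤ (G * 2 ^ 13 * SS) ^ 2 / (om α N n * (n : ℝ) ^ 16) := by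
  have hG := G_nonneg h
  have hS := SS_nonneg
  have hn0 : (0 : ℝ) < n := by exact_mod_cast hn
  have hn1 : (1 : ℝ) ≤ n := by exact_mod_cast hn
  obtain ⟨h1, h2⟩ := sum_le (fun k => norm_nonneg _) (aHi_le_half (n := n) h hα hn)
  have hE : Real.exp (-(α * min (n : ℝ) N / 2)) ≤ 1 := by
    apply Real.exp_le_one_iff.2
    have := mul_nonneg hα (min_nonneg' (n := n) (N := N))
    linarith
  refine ⟨h1, ?_, ?_⟩
  · refine h2.trans ?_
    calc G * Real.exp (-(α * min (n : ℝ) N / 2)) * (2 ^ 13 / (n : ℝ) ^ 13) * SS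
        ≤ G * 1 * (2 ^ 13 / (n : ℝ) ^ 13) * SS := by gcongr
      _ = _ := by ring
  · have h0 : 0 ≤ ∑' k, ‖aHi a n k‖ := tsum_nonneg fun k => norm_nonneg _
    calc (∑' k, ‖aHi a n k‖) ^ 2
        ≤ (G * Real.exp (-(α * min (n : ℝ) N / 2)) * (2 ^ 13 / (n : ℝ) ^ 13) * SS) ^ 2 :=
          pow_le_pow_left₀ h0 h2 2
      _ = (G * 2 ^ 13 * SS) ^ 2 * (Real.exp (-(α * min (n : ℝ) N / 2)) ^ 2 / (n : ℝ) ^ 26) := by
          ring
      _ = (G * 2 ^ 13 * SS) ^ 2 * (1 / (om α N n * (n : ℝ) ^ 26)) := by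
          rw [← Real.exp_nat_mul, om_n,
            show ((2 : ℕ) : ℝ) * -(α * min (n : ℝ) N / 2) = -(α * min (n : ℝ) N) by push_cast; ring,
            Real.exp_neg]
          field_simp
      _ ≤ (G * 2 ^ 13 * SS) ^ 2 * (1 / (om α N n * (n : ℝ) ^ 16)) := by
          have ho := om_pos (α := α) (N := N) (n : ℤ)
          apply mul_le_mul_of_nonneg_left _ (by positivity)
          apply one_div_le_one_div_of_le (by positivity)
          exact mul_le_mul_of_nonneg_left (pow_le_pow_right₀ hn1 (by norm_num)) ho.le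
      _ = _ := by ring

/-- conjunct (5) of `LeafSUM`. -/
theorem far (h : WB α N G a) (hα : 0 ≤ α) (hn : 1 ≤ n) :
    (∑' k : ℤ, if (n : ℤ) ^ 2 < |k| then ‖aHi a n k‖ else 0) ≤
      (G * SS) / (om α N n * (n : ℝ) ^ 16) := by
  have hG := G_nonneg h
  have hS := SS_nonneg
  have hn0 : (0 : ℝ) < n := by exact_mod_cast hn
  have hn1 : (1 : ℝ) ≤ n := by exact_mod_cast hn
  have ho := om_pos (α := α) (N := N) (n : ℤ)
  have := sum_le (f := fun k : ℤ => if (n : ℤ) ^ 2 < |k| then ‖aHi a n k‖ else 0)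
    (A := G / (om α N n * (n : ℝ) ^ 16)) (fun k => by positivity) ?_
  · refine this.2.trans (le_of_eq ?_); ring
  intro k
  show (if (n : ℤ) ^ 2 < |k| then ‖aHi a n k‖ else 0) ≤ _
  split_ifs with hk
  · have hk1 : (n : ℝ) ^ 2 < |(k : ℝ)| := by exact_mod_cast hk
    have hk0 : (k : ℝ) ≠ 0 := by
      intro h0; rw [h0, abs_zero] at hk1
      have : 0 ≤ (n : ℝ) ^ 2 := by positivity
      linarith
    have h2 := aHi_le (n := n) h k
    have h3 := pow15 (M := (n : ℝ) ^ 2) k hk0 (by positivity) (by linarith)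
    have hnk : (n : ℝ) ≤ |(k : ℝ)| := by nlinarith
    have h5 : (om α N k)⁻¹ ≤ (om α N n)⁻¹ := by
      apply inv_anti₀ ho
      rw [om_n, om]
      apply Real.exp_le_exp.2
      exact mul_le_mul_of_nonneg_left (min_le_min hnk le_rfl) hα
    have h6 : (((n : ℝ) ^ 2) ^ 13)⁻¹ ≤ ((n : ℝ) ^ 16)⁻¹ := by
      apply inv_anti₀ (by positivity)
      rw [← pow_mul]
      exact pow_le_pow_right₀ hn1 (by norm_num)
    calc ‖aHi a n k‖ ≤ G * (om α N k)⁻¹ * ((1 + |(k : ℝ)|) ^ 15)⁻¹ := h2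
      _ ≤ G * (om α N n)⁻¹ * (((n : ℝ) ^ 16)⁻¹ * (1 / (k : ℝ) ^ 2)) := by
          refine mul_le_mul (mul_le_mul_of_nonneg_left h5 hG) (h3.trans ?_) (by positivity)
            (by positivity)
          exact mul_le_mul_of_nonneg_right h6 (by positivity)
      _ = _ := by field_simp
  · positivity

end

/-- LEAF SUM. -/
theorem leafSUM : LeafSUM := by
  intro G
  have hS := SS_nonneg
  set C := max (max (2 ^ 16 * |G|) (|G| * SS)) (max ((G * 2 ^ 13 * SS) ^ 2) (16 * Real.exp 17)) with hC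
  have c1 : 2 ^ 16 * |G| ≤ C := (le_max_left _ _).trans (le_max_left _ _)
  have c2 : |G| * SS ≤ C := (le_max_right _ _).trans (le_max_left _ _)
  have c3 : (G * 2 ^ 13 * SS) ^ 2 ≤ C := (le_max_left _ _).trans (le_max_right _ _)
  have c4 : 16 * Real.exp 17 ≤ C := (le_max_right _ _).trans (le_max_right _ _)
  have c5 : 1 ≤ C := by
    refine le_trans ?_ c4
    have := Real.one_le_exp (show (0:ℝ) ≤ 17 by norm_num)
    linarith
  obtain ⟨n₀, hn₀⟩ := exists_nat_ge (|G| * 2 ^ 13 * SS)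
  refine ⟨C, max 3 n₀, by linarith, ?_⟩
  intro α N n a hn hα hα1 h
  have hn3 : 3 ≤ n := (le_max_left _ _).trans hn
  have hn1 : 1 ≤ n := by omega
  have hn0' : (n₀ : ℝ) ≤ n := by exact_mod_cast (le_max_right _ _).trans hn
  have hn0 : (0 : ℝ) < n := by exact_mod_cast hn1
  have hnR : (1 : ℝ) ≤ n := by exact_mod_cast hn1
  have hG := G_nonneg h
  rw [abs_of_nonneg hG] at c1 c2 hn₀
  have ho := om_pos (α := α) (N := N) (n : ℤ)
  have hlog := log_one_le hn3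
  obtain ⟨s1, s2, s6⟩ := sumHi (n := n) h hα hn1
  have hD : 0 < om α N n * (n : ℝ) ^ 16 := by positivity
  refine ⟨s1, ?_, ?_, ?_, ?_, ?_, ?_, ?_⟩
  · refine s2.trans ?_
    rw [div_le_div_iff₀ (by positivity) hn0]
    calc G * 2 ^ 13 * SS * n ≤ n * n := by gcongr; linarith
      _ = (n : ℝ) ^ 2 := by ring
      _ ≤ (n : ℝ) ^ 13 := pow_le_pow_right₀ hnR (by norm_num)
      _ = 1 * (n : ℝ) ^ 13 := by ring
  · refine (near h hα hn3).trans ?_
    have : 0 < om α N n * (n : ℝ) ^ 14 * Real.log n := by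
      have : 0 < Real.log n := by linarith
      positivity
    exact div_le_div_of_nonneg_right c1 this.le
  · exact (middle h hα hn3).trans (div_le_div_of_nonneg_right c2 hD.le)
  · exact (far h hα hn1).trans (div_le_div_of_nonneg_right c2 hD.le)
  · exact s6.trans (div_le_div_of_nonneg_right c3 hD.le)
  · refine (expsq hα hα1 hn3).trans (div_le_div_of_nonneg_right ?_ hD.le)
    exact mul_le_mul_of_nonneg_right c4 (by positivity)
  · rw [last hn1]
    exact div_le_div_of_nonneg_right c5 hD.le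

end Crest.Agent.R102.Sum602
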