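import Crest.Agent.R102.VarA_575
import Crest.Agent.R102.SumC_602

/-!
Row 102, part (A) (helper929): sharper forms of two leaves and the size of `EP q - EP qL`.
-/

set_option autoImplicit false

open Set Filter Topology Metric Complex MeasureTheory
open scoped Real ContDiff

noncomputable section

namespace Crest.Agent.R102.A929

/-- sharp form of the square of the high sum -/
theorem sumHi26 {α : ℝ} {N n : ℕ} {a : ℤ → ℂ} {G : ℝ} (h : WB α N G a) (hα : 0 ≤ α)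
    (hn : 1 ≤ n) :
    (∑' k, ‖aHi a n k‖) ^ 2 ≤ (G * 2 ^ 13 * Sum602.SS) ^ 2 / (om α N n * (n : ℝ) ^ 26) := by
  have hG := Sum602.G_nonneg h
  have hS := Sum602.SS_nonneg
  have hn0 : (0 : ℝ) < n := by exact_mod_cast hn
  obtain ⟨h1, h2⟩ := Sum602.sum_le (fun k => norm_nonneg _) (Sum602.aHi_le_half (n := n) h hα hn)
  have h0 : 0 ≤ ∑' k, ‖aHi a n k‖ := tsum_nonneg fun k => norm_nonneg _
  calc (∑' k, ‖aHi a n k‖) ^ 2
      ≤ (G * Real.exp (-(α * min (n : ℝ) N / 2)) * (2 ^ 13 / (n : ℝ) ^ 13) * Sum602.SS) ^ 2 :=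
        pow_le_pow_left₀ h0 h2 2
    _ = (G * 2 ^ 13 * Sum602.SS) ^ 2 * (Real.exp (-(α * min (n : ℝ) N / 2)) ^ 2 / (n : ℝ) ^ 26) := by
        ring
    _ = (G * 2 ^ 13 * Sum602.SS) ^ 2 / (om α N n * (n : ℝ) ^ 26) := by
        rw [← Real.exp_nat_mul, Sum602.om_n,
          show ((2 : ℕ) : ℝ) * -(α * min (n : ℝ) N / 2) = -(α * min (n : ℝ) N) by push_cast; ring,
          Real.exp_neg]
        field_simp

/-- LEAF VAR with the sharp power of `n` -/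
def LeafVAR4 : Prop :=
  ∀ (ρ C : ℝ), LocQ ρ C → ∀ (q : C(ℂ, ℂ)) (q1 q2 : ℂ → ℂ) (B ε₀ ε₁ A : ℝ) (M : ℝ → ℝ → ℝ),
    Sm q q1 q2 RR B → (∀ x : ℝ, (q x).im = 0) → (∀ x : ℝ, q (x + 1) = q x) →
    0 < ε₀ → IsAct q ε₀ M → 0 < ε₁ → RStarP q ε₁ → 0 ≤ A →
    ∃ (K c : ℝ) (n₀ : ℕ), 0 < K ∧ 0 < c ∧ ∀ (n : ℕ) (S : ℝ → ℝ) (r : ℝ), n₀ ≤ n → 0 ≤ r →
      r ≤ c / n ^ 10 → Continuous S → (∀ t, S (t + 1) = S t + 1) →
      (∀ t, |S (t + 1 / n) - S t - 1 / n| ≤ A / (n : ℝ) ^ (5 / 2 : ℝ)) →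
      (∀ t : ℝ, ‖EP q (S (t - 1 / n)) (S t) (S (t + 1 / n))‖ ≤ r) →
      ∃ A₀ : ℝ, ∀ t : ℝ,
        |(∑ i ∈ Finset.range n, M (S (t + i / n)) (S (t + (i + 1) / n))) - A₀| ≤ K * n ^ 4 * r ^ 2

open Crest.Agent.R102.Var575 in
/-- **LEAF VAR**, sharp power (proof of 575) -/
theorem leafVAR4 : LeafVAR4 := by
  intro ρ C hL q q1 q2 B ε₀ ε₁ A M hS hq hper hε₀ hA hε₁ hR hA0
  have hB := hS.B_ge
  have hCX := CX_ge hB
  have hρ := hL.ρ_pos
  set m₀ : ℝ := min (min 1 (ρ / (2 * CX B))) ε₀ with hm₀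
  have hm : 0 < m₀ := lt_min (lt_min one_pos (by positivity)) hε₀
  have hm1 : m₀ ≤ 1 := (min_le_left _ _).trans (min_le_left _ _)
  have hm2 : CX B * m₀ < ρ := by
    have h1 : m₀ ≤ ρ / (2 * CX B) := (min_le_left _ _).trans (min_le_right _ _)
    calc CX B * m₀ ≤ CX B * (ρ / (2 * CX B)) := mul_le_mul_of_nonneg_left h1 (by linarith)
      _ = ρ / 2 := by field_simp
      _ < ρ := by linarith
  have hm3 : m₀ ≤ ε₀ := min_le_right _ _
  have hV := varData_of hL hS hq hper hA hε₁ hR hm hm1 hm2 hm3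
  obtain ⟨n₀, hn₀⟩ := exists_nat_ge (max (max (2 / m₀) (768 * CP C B)) (max (2 / ε₁) (max (8 * A) 1)))
  have b1 : 2 / m₀ ≤ n₀ := ((le_max_left _ _).trans (le_max_left _ _)).trans hn₀
  have b2 : 768 * CP C B ≤ n₀ := ((le_max_right _ _).trans (le_max_left _ _)).trans hn₀
  have b3 : 2 / ε₁ ≤ n₀ := ((le_max_left _ _).trans (le_max_right _ _)).trans hn₀
  have b4 : 8 * A ≤ n₀ :=
    (((le_max_left _ _).trans (le_max_right _ _)).trans (le_max_right _ _)).trans hn₀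
  have b5 : (1 : ℝ) ≤ n₀ :=
    (((le_max_right _ _).trans (le_max_right _ _)).trans (le_max_right _ _)).trans hn₀
  refine ⟨32, 1 / 512, n₀, by norm_num, by norm_num, ?_⟩
  intro n S r hn hr0 hr hSc hS1 hSw hE
  have hn' : (n₀ : ℝ) ≤ n := by exact_mod_cast hn
  have hn1 : (1 : ℝ) ≤ n := b5.trans hn'
  have hnpos : (0 : ℝ) < n := by linarith
  set w : ℝ := 1 / n with hw
  have hw0 : 0 < w := by positivity
  have hnw : (n : ℝ) * w = 1 := by rw [hw]; field_simp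
  have hb : ∀ a : ℝ, 0 ≤ a → a ≤ n₀ → a * w ≤ 1 := by
    intro a _ ha'
    rw [hw, mul_one_div, div_le_one hnpos]
    exact ha'.trans hn'
  have c1 : 2 * w ≤ m₀ := by
    have := hb (2 / m₀) (by positivity) b1
    rw [div_mul_eq_mul_div, div_le_one hm] at this
    exact this
  have c2 : 768 * CP C B * w ≤ 1 := hb _ (by have := hV.C_pos; positivity) b2
  have c3 : 2 * w ≤ ε₁ := by
    have := hb (2 / ε₁) (by positivity) b3
    rw [div_mul_eq_mul_div, div_le_one hε₁] at this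
    exact this
  have hsurj : Function.Surjective S := by
    intro z
    have hSk : ∀ k : ℤ, S k = S 0 + k := by
      intro k
      induction k using Int.induction_on with
      | zero => simp
      | succ i hi => push_cast at hi ⊢; rw [hS1, hi]; ring
      | pred i hi =>
        have := hS1 (-(i : ℝ) - 1)
        have e : -(i : ℝ) - 1 + 1 = -(i : ℝ) := by ring
        rw [e] at this
        push_cast at hi ⊢
        linarith
    set k : ℤ := ⌊z - S 0⌋ with hk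
    have h1 : S (k : ℝ) ≤ z := by
      rw [hSk]; have := Int.floor_le (z - S 0); linarith
    have h2 : z ≤ S ((k + 1 : ℤ) : ℝ) := by
      rw [hSk]; push_cast; have := Int.lt_floor_add_one (z - S 0); linarith
    obtain ⟨t, _, ht⟩ := intermediate_value_Icc (by push_cast; linarith : (k : ℝ) ≤ ((k + 1 : ℤ) : ℝ))
      hSc.continuousOn ⟨h1, h2⟩
    exact ⟨t, ht⟩
  have hstep : ∀ t, |S (t + w) - S t - w| ≤ w / 8 := by
    intro t
    refine (hSw t).trans ?_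
    have h1 : (n : ℝ) ^ (2 : ℝ) ≤ (n : ℝ) ^ (5 / 2 : ℝ) :=
      Real.rpow_le_rpow_of_exponent_le hn1 (by norm_num)
    have h2 : (n : ℝ) ^ (2 : ℝ) = (n : ℝ) ^ 2 := by
      rw [← Real.rpow_natCast]; norm_num
    rw [h2] at h1
    calc A / (n : ℝ) ^ (5 / 2 : ℝ) ≤ A / (n : ℝ) ^ 2 := by gcongr
      _ = (8 * A * w) * (w / 8) := by rw [hw]; field_simp
      _ ≤ 1 * (w / 8) := by
          have := hb (8 * A) (by positivity) b4
          gcongr
      _ = w / 8 := one_mul _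
  have hn10 : (n : ℝ) ^ 4 ≤ (n : ℝ) ^ 10 := pow_le_pow_right₀ hn1 (by norm_num)
  have hr4 : 512 * r ≤ w ^ 4 := by
    have h1 : 512 * r ≤ 1 / (n : ℝ) ^ 10 := by
      calc 512 * r ≤ 512 * (1 / 512 / (n : ℝ) ^ 10) := by gcongr
        _ = _ := by ring
    have h2 : 1 / (n : ℝ) ^ 10 ≤ 1 / (n : ℝ) ^ 4 := by gcongr
    have h3 : w ^ 4 = 1 / (n : ℝ) ^ 4 := by rw [hw]; ring
    rw [h3]; exact h1.trans h2
  have hE' : ∀ t, |EPr (Pr q) (S (t - w)) (S t) (S (t + w))| ≤ r := by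
    intro t
    have h1 := hE t
    rw [EP_real hq, Complex.norm_real] at h1
    exact h1
  obtain ⟨A₀, hA₀⟩ := var_action hV hw0 hnw c1 c2 c3 hsurj hS1 hstep hr0 hr4 hE'
  refine ⟨A₀, fun t => ?_⟩
  have h1 := hA₀ t
  have h2 : ∑ i ∈ Finset.range n, M (S (t + i / n)) (S (t + (i + 1) / n)) =
      ∑ i ∈ Finset.range n, M (S (t + i * w)) (S (t + (i + 1) * w)) := by
    refine Finset.sum_congr rfl (fun i _ => ?_)
    rw [hw, mul_one_div, mul_one_div]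
  rw [h2]
  exact h1

/-- size of the change of `Pq` -/
lemma Pq_diff {ρ C B H : ℝ} {q qL : C(ℂ, ℂ)} {q1 q2 : ℂ → ℂ} {D : Set ℂ} {n : ℕ} (hL : LocQ ρ C)
    (hS : Sm qL q1 q2 D B) (hn : 0 < n) (hn2 : 2 / (n : ℝ) ≤ 1) (hH0 : 0 ≤ H) (hH1 : H ≤ 1)
    (hH : ∀ y : ℝ, ‖q y - qL y‖ ≤ H)
    (hρ : CX B * (2 / n) + (2 + Real.exp (B + 1)) * H < ρ) (x e : ℝ) (hx : (x : ℂ) ∈ D)
    (hxe : (x : ℂ) + e ∈ D) (he : |e| ≤ 2 / n) :
    ‖Pq q x e - Pq qL x e‖ ≤ 4 * ((C + 5 / 2) * (2 + Real.exp (B + 1)) * H) / n ^ 2 := by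
  have hB := hS.B_ge
  have hC := hL.C_ge
  have hCX := CX_ge hB
  have hn' : (0 : ℝ) < n := by exact_mod_cast hn
  have he' : ‖(e : ℂ)‖ ≤ 2 / n := by rw [Complex.norm_real]; exact he
  have hexp := Real.exp_pos (B + 1)
  have d1 : ‖dq q x e - dq qL x e‖ ≤ 2 * H := by
    refine (AA.norm_le (by positivity)).2 (fun r => ?_)
    have e1 : (dq q x e - dq qL x e) r =
        (q ((x + e * (r : ℝ) : ℝ) : ℂ) - qL ((x + e * (r : ℝ) : ℝ) : ℂ)) - (q x - qL x) := by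
      rw [AA.sub_apply, dq_apply, dq_apply]
      push_cast
      ring
    rw [e1]
    refine (norm_sub_le _ _).trans ?_
    have := hH (x + e * (r : ℝ))
    have := hH x
    linarith
  have d2 : ‖Complex.exp (q x) - Complex.exp (qL x)‖ ≤ Real.exp (B + 1) * H := by
    have b1 : ‖qL x‖ ≤ B + 1 := (hS.b0 x hx).trans (by linarith)
    have b2 : ‖q x‖ ≤ B + 1 := by
      have h1 : q x = qL x + (q x - qL x) := by ring
      rw [h1]
      exact (norm_add_le _ _).trans (add_le_add (hS.b0 x hx) ((hH x).trans hH1))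
    exact (norm_cexp_sub_le b1 b2).trans (mul_le_mul_of_nonneg_left (hH x) hexp.le)
  have d3 : ‖Xq q x e - Xq qL x e‖ ≤ (2 + Real.exp (B + 1)) * H := by
    have a3 : ‖Xq q x e - Xq qL x e‖ =
        max ‖dq q x e - dq qL x e‖ ‖(e : ℂ) * Complex.exp (q x) - e * Complex.exp (qL x)‖ := rfl
    rw [a3]
    refine max_le (d1.trans ?_) ?_
    · have := mul_nonneg hexp.le hH0
      linarith
    · rw [← mul_sub, norm_mul]
      have := mul_le_mul (he'.trans hn2) d2 (norm_nonneg _) zero_le_one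
      rw [one_mul] at this
      linarith
  set m : ℝ := CX B * (2 / n) + (2 + Real.exp (B + 1)) * H with hm
  have n1 : ‖Xq qL x e‖ ≤ CX B * (2 / n) := by
    refine (hS.norm_Xq hx hxe he' hn2).trans ?_
    exact mul_le_mul_of_nonneg_left he' (by linarith)
  have n2 : ‖Xq q x e‖ ≤ m := by
    have h1 : Xq q x e = Xq qL x e + (Xq q x e - Xq qL x e) := by abel
    rw [h1]
    exact (norm_add_le _ _).trans (add_le_add n1 d3)
  have n3 : ‖Xq qL x e‖ ≤ m := n1.trans (by rw [hm]; have : 0 ≤ (2 + Real.exp (B + 1)) * H := by positivity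
                                            linarith)
  have hc := hL.c11 m (Xq qL x e) (Xq q x e) hρ n3 n2
  have hl : ‖(1 / 2 : ℂ) * Lf ((Xq q x e).1 - (Xq qL x e).1)‖ ≤
      5 / 2 * ‖Xq q x e - Xq qL x e‖ := by
    rw [norm_mul]
    have h5 : ‖(1 / 2 : ℂ)‖ = 1 / 2 := by norm_num
    have h6 := norm_Lf_le ((Xq q x e).1 - (Xq qL x e).1)
    have h7 : ‖(Xq q x e).1 - (Xq qL x e).1‖ ≤ ‖Xq q x e - Xq qL x e‖ :=
      norm_fst_le (Xq q x e - Xq qL x e)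
    rw [h5]
    linarith
  have hQ : ‖Qf (Xq q x e) - Qf (Xq qL x e)‖ ≤ (C + 5 / 2) * ‖Xq q x e - Xq qL x e‖ := by
    have h1 : Qf (Xq q x e) - Qf (Xq qL x e) = (Qf (Xq q x e) - Qf (Xq qL x e) -
        1 / 2 * Lf ((Xq q x e).1 - (Xq qL x e).1)) +
        1 / 2 * Lf ((Xq q x e).1 - (Xq qL x e).1) := by ring
    rw [h1]
    refine (norm_add_le _ _).trans ?_
    have hm1 : m ≤ 1 := hρ.le.trans hL.ρ_le
    have h2 : C * m * ‖Xq q x e - Xq qL x e‖ ≤ C * ‖Xq q x e - Xq qL x e‖ := by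
      refine mul_le_mul_of_nonneg_right ?_ (norm_nonneg _)
      nlinarith
    linarith
  have e1 : Pq q x e - Pq qL x e = (e : ℂ) ^ 2 * (Qf (Xq q x e) - Qf (Xq qL x e)) := by
    unfold Pq; ring
  rw [e1, norm_mul, norm_pow]
  have h1 : ‖(e : ℂ)‖ ^ 2 ≤ (2 / (n : ℝ)) ^ 2 := pow_le_pow_left₀ (norm_nonneg _) he' 2
  have h2 : (C + 5 / 2) * ‖Xq q x e - Xq qL x e‖ ≤ (C + 5 / 2) * ((2 + Real.exp (B + 1)) * H) :=
    mul_le_mul_of_nonneg_left d3 (by linarith)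
  refine (mul_le_mul h1 (hQ.trans h2) (norm_nonneg _) (by positivity)).trans (le_of_eq ?_)
  field_simp
  ring

/-- size of the change of `EP` -/
lemma EP_diff {ρ C B H : ℝ} {q qL : C(ℂ, ℂ)} {q1 q2 : ℂ → ℂ} {D : Set ℂ} {n : ℕ} (hL : LocQ ρ C)
    (hS : Sm qL q1 q2 D B) (hn : 0 < n) (hn2 : 2 / (n : ℝ) ≤ 1) (hH0 : 0 ≤ H) (hH1 : H ≤ 1)
    (hH : ∀ y : ℝ, ‖q y - qL y‖ ≤ H)
    (hρ : CX B * (2 / n) + (2 + Real.exp (B + 1)) * H < ρ) (a b c : ℝ) (ha : (a : ℂ) ∈ D)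
    (hb : (b : ℂ) ∈ D) (hc : (c : ℂ) ∈ D) (h1 : |b - a| ≤ 2 / n) (h2 : |c - b| ≤ 2 / n) :
    ‖EP q a b c - EP qL a b c‖ ≤ 8 * ((C + 5 / 2) * (2 + Real.exp (B + 1)) * H) / n ^ 2 := by
  have e1 : -((b : ℂ) - (a : ℂ)) = ((-(b - a) : ℝ) : ℂ) := by push_cast; ring
  have e2 : (c : ℂ) - (b : ℂ) = ((c - b : ℝ) : ℂ) := by push_cast; ring
  have p1 := Pq_diff hL hS hn hn2 hH0 hH1 hH hρ b (-(b - a)) hb
    (by have : (b : ℂ) + ((-(b - a) : ℝ) : ℂ) = a := by push_cast; ring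
        rw [this]; exact ha) (by rw [abs_neg]; exact h1)
  have p2 := Pq_diff hL hS hn hn2 hH0 hH1 hH hρ b (c - b) hb
    (by have : (b : ℂ) + ((c - b : ℝ) : ℂ) = c := by push_cast; ring
        rw [this]; exact hc) h2
  unfold EP
  rw [e1, e2]
  have e3 : Pq q b ((-(b - a) : ℝ) : ℂ) - Pq q b ((c - b : ℝ) : ℂ) -
      (Pq qL b ((-(b - a) : ℝ) : ℂ) - Pq qL b ((c - b : ℝ) : ℂ)) =
      (Pq q b ((-(b - a) : ℝ) : ℂ) - Pq qL b ((-(b - a) : ℝ) : ℂ)) -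
      (Pq q b ((c - b : ℝ) : ℂ) - Pq qL b ((c - b : ℝ) : ℂ)) := by ring
  rw [e3]
  refine (norm_sub_le _ _).trans ((add_le_add p1 p2).trans (le_of_eq ?_))
  ring

end Crest.Agent.R102.A929
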