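import Crest.Agent.R102.EndI_929

/-!
Row 102, part (A) (helper575): `LeafBOOT` and `LeafTAIL`.
-/

set_option autoImplicit false

open Set Filter Topology Metric Complex MeasureTheory
open scoped Real ContDiff ComplexConjugate

noncomputable section

namespace Crest.Agent.R102.A929

/-- **LEAF BOOT** -/
theorem leafBOOT : LeafBOOT := by
  intro a B hsym h0 hstep
  have hB : 0 ≤ B := by
    have h1 := h0 0
    refine le_trans ?_ h1
    unfold om
    positivity
  set G : ℝ := 2 * B + 1 with hG
  obtain ⟨n₁, C, hC⟩ := hstep G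
  have hlog : Tendsto (fun n : ℕ => Real.log (n : ℝ)) atTop atTop :=
    Real.tendsto_log_atTop.comp tendsto_natCast_atTop_atTop
  obtain ⟨N₀', hN₀'⟩ := (hlog.eventually_ge_atTop (2 * |C| + 1)).exists_forall_of_atTop
  set N₀ : ℕ := max n₁ N₀' with hN₀
  have hhalf : ∀ n : ℕ, N₀ ≤ n → C / Real.log n ≤ 1 / 2 := by
    intro n hn
    have h1 := hN₀' n ((le_max_right _ _).trans hn)
    have h2 : 0 < Real.log (n : ℝ) := by linarith [abs_nonneg C]
    rw [div_le_iff₀ h2]
    have := le_abs_self C
    linarith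
  set b : ℝ := min 1 (Real.log 2 / (N₀ + 1)) with hb
  have hlog2 : 0 < Real.log 2 := Real.log_pos one_lt_two
  have hb0 : 0 < b := lt_min one_pos (by positivity)
  have hb1 : b ≤ 1 := min_le_left _ _
  have hbN : b * N₀ ≤ Real.log 2 := by
    calc b * N₀ ≤ (Real.log 2 / (N₀ + 1)) * N₀ :=
          mul_le_mul_of_nonneg_right (min_le_right _ _) (Nat.cast_nonneg _)
      _ = Real.log 2 * (N₀ / (N₀ + 1)) := by ring
      _ ≤ Real.log 2 * 1 := by
          refine mul_le_mul_of_nonneg_left ?_ hlog2.le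
          rw [div_le_one (by positivity)]; linarith
      _ = _ := mul_one _
  -- one step
  have hone : ∀ (N : ℕ) (α δ : ℝ), 0 ≤ α → 0 ≤ δ → α + δ ≤ b → δ * N ≤ Real.log 2 →
      WB α N G a → WB (α + δ) N G a := by
    intro N α δ hα hδ hαδ hδN hW k
    rcases lt_or_ge (|k|) (N₀ : ℤ) with hk | hk
    · have h1 : (|(k : ℝ)|) ≤ N₀ := by
        have : ((|k| : ℤ) : ℝ) ≤ ((N₀ : ℤ) : ℝ) := by exact_mod_cast hk.le
        simpa using this
      have h2 : om (α + δ) N k ≤ 2 := by
        unfold om
        have h3 : (α + δ) * min |(k : ℝ)| N ≤ b * N₀ :=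
          mul_le_mul hαδ ((min_le_left _ _).trans h1) (le_min (abs_nonneg _) (Nat.cast_nonneg _))
            hb0.le
        calc Real.exp ((α + δ) * min |(k : ℝ)| N) ≤ Real.exp (Real.log 2) :=
              Real.exp_le_exp.2 (h3.trans hbN)
          _ = 2 := Real.exp_log two_pos
      have h4 := h0 k
      have h5 : om 0 0 k = 1 := by unfold om; simp
      rw [h5, one_mul] at h4
      calc om (α + δ) N k * (1 + |(k : ℝ)|) ^ 15 * ‖a k‖
          = om (α + δ) N k * ((1 + |(k : ℝ)|) ^ 15 * ‖a k‖) := by ring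
        _ ≤ 2 * B := mul_le_mul h2 h4 (by positivity) (by norm_num)
        _ ≤ G := by rw [hG]; linarith
    · -- large modes
      obtain ⟨n, hn⟩ : ∃ n : ℕ, |k| = n := ⟨k.natAbs, by simp⟩
      have hnN : N₀ ≤ n := by
        have : (N₀ : ℤ) ≤ (n : ℤ) := by rw [← hn]; exact hk
        exact_mod_cast this
      have hkn : |(k : ℝ)| = n := by
        have : ((|k| : ℤ) : ℝ) = ((n : ℤ) : ℝ) := by rw [hn]
        simpa using this
      have hak : ‖a k‖ = ‖a n‖ := by
        rcases abs_choice k with h | h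
        · rw [h] at hn; rw [hn]
        · rw [h] at hn
          rw [← hsym k, hn]
      have h1 := hC α N hα (by linarith) hW n ((le_max_left _ _).trans hnN)
      have h2 := h1.trans (hhalf n hnN)
      have h3 : om (α + δ) N k ≤ 2 * om α N n := by
        unfold om
        have e1 : |((n : ℤ) : ℝ)| = n := by simp
        rw [hkn, e1]
        have e2 : (α + δ) * min (n : ℝ) N = α * min (n : ℝ) N + δ * min (n : ℝ) N := by ring
        rw [e2, Real.exp_add, mul_comm]
        refine mul_le_mul_of_nonneg_right ?_ (Real.exp_pos _).le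
        calc Real.exp (δ * min (n : ℝ) N) ≤ Real.exp (Real.log 2) :=
              Real.exp_le_exp.2 ((mul_le_mul_of_nonneg_left (min_le_right _ _) hδ).trans hδN)
          _ = 2 := Real.exp_log two_pos
      calc om (α + δ) N k * (1 + |(k : ℝ)|) ^ 15 * ‖a k‖
          ≤ (2 * om α N n) * (1 + |(k : ℝ)|) ^ 15 * ‖a k‖ := by gcongr
        _ = 2 * (om α N n * (1 + (n : ℝ)) ^ 15 * ‖a n‖) := by rw [hkn, hak]; ring
        _ ≤ 2 * (1 / 2) := by
            refine mul_le_mul_of_nonneg_left ?_ (by norm_num)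
            exact_mod_cast h2
        _ ≤ G := by rw [hG]; linarith
  -- all steps
  have hall : ∀ N : ℕ, WB b N G a := by
    intro N
    obtain ⟨M, hM⟩ := exists_nat_ge (b * N / Real.log 2)
    have hM1 : 0 < ((M : ℝ) + 1) := by positivity
    set δ : ℝ := b / (M + 1) with hδ
    have hδ0 : 0 ≤ δ := by positivity
    have hδN : δ * N ≤ Real.log 2 := by
      rw [hδ, div_mul_eq_mul_div, div_le_iff₀ hM1]
      rw [div_le_iff₀ hlog2] at hM
      nlinarith
    have hind : ∀ j : ℕ, j ≤ M + 1 → WB (j * δ) N G a := by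
      intro j
      induction j with
      | zero =>
        intro _ k
        have h1 := h0 k
        have e1 : om ((0 : ℕ) * δ) N k = 1 := by unfold om; simp
        have e2 : om 0 0 k = 1 := by unfold om; simp
        rw [e1]
        rw [e2] at h1
        linarith
      | succ j ih =>
        intro hj
        have h1 := ih (by omega)
        have e : ((j + 1 : ℕ) : ℝ) * δ = j * δ + δ := by push_cast; ring
        rw [e]
        refine hone N _ _ (by positivity) hδ0 ?_ hδN h1
        have h2 : ((j : ℝ) + 1) ≤ M + 1 := by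
          have : ((j + 1 : ℕ) : ℝ) ≤ ((M + 1 : ℕ) : ℝ) := by exact_mod_cast hj
          push_cast at this; linarith
        calc j * δ + δ = ((j : ℝ) + 1) * δ := by ring
          _ ≤ ((M : ℝ) + 1) * δ := mul_le_mul_of_nonneg_right h2 hδ0
          _ = b := by rw [hδ]; field_simp
    have h3 := hind (M + 1) le_rfl
    have e : ((M + 1 : ℕ) : ℝ) * δ = b := by rw [hδ]; push_cast; field_simp
    rwa [e] at h3
  refine ⟨G, b, hb0, fun k => ?_⟩
  have h1 := hall k.natAbs k
  have hkn : ((k.natAbs : ℕ) : ℝ) = |(k : ℝ)| := by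
    have : ((k.natAbs : ℤ) : ℝ) = ((|k| : ℤ) : ℝ) := by rw [Int.natCast_natAbs]
    simp
  have e1 : om b k.natAbs k = Real.exp (b * |(k : ℝ)|) := by
    unfold om; rw [hkn, min_self]
  rw [e1] at h1
  have h2 : (1 : ℝ) ≤ (1 + |(k : ℝ)|) ^ 15 := one_le_pow₀ (by linarith [abs_nonneg (k : ℝ)])
  have h3 : Real.exp (b * |(k : ℝ)|) * ‖a k‖ ≤ G := by
    refine le_trans ?_ h1
    have h4 : 0 ≤ Real.exp (b * |(k : ℝ)|) * ‖a k‖ := by positivity
    nlinarith
  rw [Real.exp_neg]
  rw [← div_eq_mul_inv, le_div_iff₀ (Real.exp_pos _)]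
  linarith

lemma summable_exp_abs_575 {c : ℝ} (hc : 0 < c) :
    Summable (fun k : ℤ => Real.exp (-(c * |(k : ℝ)|))) := by
  have h1 : Summable (fun n : ℕ => Real.exp (-(c * (n : ℝ)))) := by
    have h2 : (fun n : ℕ => Real.exp (-(c * (n : ℝ)))) = fun n : ℕ => (Real.exp (-c)) ^ n := by
      funext n
      rw [← Real.exp_nat_mul]
      congr 1; ring
    rw [h2]
    exact summable_geometric_of_lt_one (Real.exp_pos _).le (by rw [Real.exp_lt_one_iff]; linarith)
  refine Summable.of_nat_of_neg ?_ ?_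
  · refine h1.congr (fun n => ?_)
    simp
  · refine h1.congr (fun n => ?_)
    simp

/-- **LEAF TAIL** -/
theorem leafTAIL : LeafTAIL := by
  intro g η A n hη hg hper hA hmode x
  have hmem : ∀ x : ℝ, (x : ℂ) ∈ St η := fun x => by simp [St, hη.le]
  have hA0 : 0 ≤ A := (norm_nonneg _).trans (hA 0 (by simp [St, hη.le]))
  set φ : ℝ → ℂ := fun x => g (x : ℂ) with hφ
  have hφc : Continuous φ := hg.continuousOn.comp_continuous (by fun_prop) hmem
  have hφp : Function.Periodic φ 1 := by
    intro y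
    have h2 := hper y (hmem y)
    simp only [hφ]
    rw [← h2]
    push_cast
    rfl
  let F : C(AddCircle (1 : ℝ), ℂ) := ⟨hφp.lift, by exact continuous_coinduced_dom.mpr hφc⟩
  have hFapp : ∀ x : ℝ, F (x : AddCircle (1 : ℝ)) = φ x := fun x => rfl
  have hcoef : ∀ k : ℤ, fourierCoeff F k = ∫ x in (0 : ℝ)..1, g x * ee (-(k * x)) := by
    intro k
    rw [fourierCoeff_eq_intervalIntegral F k 0]
    simp only [one_div, inv_one, one_smul, zero_add]
    refine intervalIntegral.integral_congr (fun x _ => ?_)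
    rw [fourier_coe_apply, hFapp, smul_eq_mul, mul_comm]
    change φ x * _ = φ x * _
    congr 1
    unfold ee
    congr 1
    push_cast
    ring
  set bd : ℤ → ℝ := fun k => if |k| ≤ ((n / 2 : ℕ) : ℤ) then 0 else
      Real.exp (-(2 * π * η * |(k : ℝ)|)) with hbd
  have hbds : Summable bd := by
    refine Summable.of_nonneg_of_le (fun k => ?_) (fun k => ?_)
      (summable_exp_abs_575 (c := 2 * π * η) (by positivity))
    · simp only [hbd]; split_ifs <;> positivity
    · simp only [hbd]; split_ifs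
      · positivity
      · exact le_rfl
  have hnorm : ∀ k : ℤ, ‖fourierCoeff F k‖ ≤ A * bd k := by
    intro k
    rw [hcoef]
    simp only [hbd]
    split_ifs with hk
    · have h1 : 2 * |k| ≤ (n : ℤ) := by
        have : (2 : ℤ) * ((n / 2 : ℕ) : ℤ) ≤ n := by omega
        linarith
      rw [hmode k h1, norm_zero, mul_zero]
    · exact norm_coeff_le hη.le hg hper hA k
  have hsum : Summable (fourierCoeff F) :=
    Summable.of_norm_bounded (hbds.mul_left A) hnorm
  have h8 := has_pointwise_sum_fourier_series_of_summable hsum (x : AddCircle (1 : ℝ))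
  rw [hFapp] at h8
  have h9 : ∀ k : ℤ, ‖fourierCoeff F k • fourier k (x : AddCircle (1 : ℝ))‖ ≤ A * bd k := by
    intro k
    rw [norm_smul]
    have h10 : ‖(fourier k (x : AddCircle (1 : ℝ)) : ℂ)‖ = 1 := by
      rw [fourier_apply]; exact Circle.norm_coe _
    rw [h10, mul_one]
    exact hnorm k
  have h11 : ‖φ x‖ ≤ ∑' k, A * bd k := by
    rw [← h8.tsum_eq]
    exact tsum_of_norm_bounded (hbds.mul_left A).hasSum h9
  rw [tsum_mul_left] at h11
  exact h11

end Crest.Agent.R102.A929
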