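import Mathlib

/-!
Row 102, part (C), T5 input for algebraic curves (Painlevé), part A:
continuous roots of a monic bivariate polynomial over a simply connected space.
-/

set_option autoImplicit false

namespace Crest.Agent.R102.Pain416

open Polynomial Set Filter Topology

noncomputable section

/-- value of a bivariate polynomial -/
def ev (M : Polynomial (Polynomial ℂ)) (p : ℂ × ℂ) : ℂ := M.evalEval p.1 p.2

lemma ev_eq (M : Polynomial (Polynomial ℂ)) (p : ℂ × ℂ) :
    ev M p = ∑ i ∈ Finset.range (M.natDegree + 1), (M.coeff i).eval p.1 * p.2 ^ i := by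
  unfold ev evalEval
  rw [eval_eq_sum_range (p := M), eval_finsetSum]
  simp

lemma ev_map (M : Polynomial (Polynomial ℂ)) (x w : ℂ) :
    ev M (x, w) = (M.map (evalRingHom x)).eval w := by
  unfold ev
  rw [map_evalRingHom_eval]

lemma contDiff_ev (M : Polynomial (Polynomial ℂ)) : ContDiff ℂ 1 (ev M) := by
  have : ev M = fun p : ℂ × ℂ =>
      ∑ i ∈ Finset.range (M.natDegree + 1), (M.coeff i).eval p.1 * p.2 ^ i := by
    funext p; exact ev_eq M p
  rw [this]
  refine ContDiff.sum fun i _ => ?_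
  exact ((M.coeff i).differentiable.contDiff.comp contDiff_fst).mul (contDiff_snd.pow i)

lemma continuous_ev (M : Polynomial (Polynomial ℂ)) : Continuous (ev M) :=
  (contDiff_ev M).continuous

lemma hasDerivAt_ev (M : Polynomial (Polynomial ℂ)) (x w : ℂ) :
    HasDerivAt (fun u => ev M (x, u)) (ev (derivative M) (x, w)) w := by
  have h := (M.map (evalRingHom x)).hasDerivAt w
  have e : (fun u => ev M (x, u)) = fun u => (M.map (evalRingHom x)).eval u := by
    funext u; exact ev_map M x u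
  rw [e, ev_map, derivative_map] at *
  exact h

/-- the shear -/
def shear (a b : ℂ) (hb : b ≠ 0) : (ℂ × ℂ) ≃L[ℂ] (ℂ × ℂ) :=
  ContinuousLinearEquiv.equivOfInverse
    ((ContinuousLinearMap.fst ℂ ℂ ℂ).prod
      (a • ContinuousLinearMap.fst ℂ ℂ ℂ + b • ContinuousLinearMap.snd ℂ ℂ ℂ))
    ((ContinuousLinearMap.fst ℂ ℂ ℂ).prod
      (b⁻¹ • (ContinuousLinearMap.snd ℂ ℂ ℂ - a • ContinuousLinearMap.fst ℂ ℂ ℂ)))
    (by
      intro x
      ext
      · simp
      · simp only [ContinuousLinearMap.prod_apply, ContinuousLinearMap.coe_fst',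
          add_apply, smul_apply, ContinuousLinearMap.coe_snd', sub_apply, smul_eq_mul]
        field_simp
        ring)
    (by
      intro x
      ext
      · simp
      · simp only [ContinuousLinearMap.prod_apply, ContinuousLinearMap.coe_fst',
          add_apply, smul_apply, ContinuousLinearMap.coe_snd', sub_apply, smul_eq_mul]
        field_simp
        ring)

lemma strict_Phi (M : Polynomial (Polynomial ℂ)) (p : ℂ × ℂ) (hp : ev (derivative M) p ≠ 0) :
    ∃ L : (ℂ × ℂ) ≃L[ℂ] (ℂ × ℂ),
      HasStrictFDerivAt (fun q : ℂ × ℂ => (q.1, ev M q)) (L : (ℂ × ℂ) →L[ℂ] (ℂ × ℂ)) p := by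
  have h1 : HasStrictFDerivAt (ev M) (fderiv ℂ (ev M) p) p :=
    ((contDiff_ev M).contDiffAt).hasStrictFDerivAt (by norm_num)
  set D := fderiv ℂ (ev M) p with hD
  have h2 : D (0, 1) = ev (derivative M) p := by
    have h3 : HasDerivAt (fun u : ℂ => ev M (p.1, u)) (D (0, 1)) p.2 := by
      have h4 : HasDerivAt (fun u : ℂ => (p.1, u)) ((0 : ℂ), (1 : ℂ)) p.2 :=
        (hasDerivAt_const p.2 p.1).prodMk (hasDerivAt_id p.2)
      exact (h1.hasFDerivAt (x := p)).comp_hasDerivAt p.2 h4
    exact h3.unique (hasDerivAt_ev M p.1 p.2)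
  refine ⟨shear (D (1, 0)) (ev (derivative M) p) hp, ?_⟩
  have h5 : HasStrictFDerivAt (fun q : ℂ × ℂ => (q.1, ev M q))
      ((ContinuousLinearMap.fst ℂ ℂ ℂ).prod D) p := by
    exact hasStrictFDerivAt_fst.prodMk h1
  convert h5 using 1
  ext
  · simp [shear]
  · simp [shear]
  · simp [shear]
  · simp [shear, h2]

/-- the affine curve -/
abbrev Tt (M : Polynomial (Polynomial ℂ)) : Type := {p : ℂ × ℂ // ev M p = 0}

/-- first projection -/
def pr (M : Polynomial (Polynomial ℂ)) (p : Tt M) : ℂ := p.1.1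

lemma continuous_pr (M : Polynomial (Polynomial ℂ)) : Continuous (pr M) :=
  continuous_fst.comp continuous_subtype_val

lemma root_bound {M : Polynomial (Polynomial ℂ)} (hM : M.Monic) {K : Set ℂ} (hK : IsCompact K) :
    ∃ B : ℝ, ∀ x ∈ K, ∀ w : ℂ, ev M (x, w) = 0 → ‖w‖ ≤ B := by
  have hc : ContinuousOn (fun x : ℂ => ∑ i ∈ Finset.range M.natDegree, ‖(M.coeff i).eval x‖) K := by
    refine Continuous.continuousOn (continuous_finsetSum _ fun i _ => ?_)
    exact (M.coeff i).continuous.norm
  obtain ⟨C, hC⟩ := hK.exists_bound_of_continuousOn hc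
  refine ⟨max 1 C, fun x hx w hw => ?_⟩
  by_contra hlt
  push Not at hlt
  have h1 : 1 < ‖w‖ := lt_of_le_of_lt (le_max_left _ _) hlt
  have h2 : C < ‖w‖ := lt_of_le_of_lt (le_max_right _ _) hlt
  have hsum := hC x hx
  rw [Real.norm_eq_abs] at hsum
  have hsum' := le_trans (le_abs_self _) hsum
  rw [ev_eq, Finset.sum_range_succ] at hw
  simp only at hw
  rw [show M.coeff M.natDegree = 1 from hM, eval_one, one_mul] at hw
  have h3 : w ^ M.natDegree = -∑ i ∈ Finset.range M.natDegree, (M.coeff i).eval x * w ^ i :=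
    eq_neg_of_add_eq_zero_right hw
  rcases Nat.eq_zero_or_pos M.natDegree with h0 | hpos
  · rw [h0] at h3; simp at h3
  · have h4 : ‖w‖ ^ M.natDegree ≤ C * ‖w‖ ^ (M.natDegree - 1) := by
      rw [← norm_pow, h3, norm_neg]
      refine (norm_sum_le _ _).trans ?_
      calc ∑ i ∈ Finset.range M.natDegree, ‖(M.coeff i).eval x * w ^ i‖
          ≤ ∑ i ∈ Finset.range M.natDegree, ‖(M.coeff i).eval x‖ * ‖w‖ ^ (M.natDegree - 1) := by
            refine Finset.sum_le_sum fun i hi => ?_
            rw [norm_mul, norm_pow]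
            refine mul_le_mul_of_nonneg_left ?_ (norm_nonneg _)
            exact pow_le_pow_right₀ h1.le (Nat.le_sub_one_of_lt (Finset.mem_range.1 hi))
        _ = (∑ i ∈ Finset.range M.natDegree, ‖(M.coeff i).eval x‖) * ‖w‖ ^ (M.natDegree - 1) := by
            rw [Finset.sum_mul]
        _ ≤ C * ‖w‖ ^ (M.natDegree - 1) :=
            mul_le_mul_of_nonneg_right hsum' (by positivity)
    have h5 : ‖w‖ ^ M.natDegree = ‖w‖ * ‖w‖ ^ (M.natDegree - 1) := by
      rw [← pow_succ', Nat.sub_add_cancel hpos]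
    rw [h5] at h4
    have h6 : 0 < ‖w‖ ^ (M.natDegree - 1) := by positivity
    exact absurd (le_of_mul_le_mul_right h4 h6) (not_le.2 h2)

lemma isClosedMap_pr {M : Polynomial (Polynomial ℂ)} (hM : M.Monic) : IsClosedMap (pr M) := by
  have hp : IsProperMap (pr M) := by
    rw [isProperMap_iff_isCompact_preimage]
    refine ⟨continuous_pr M, fun K hK => ?_⟩
    obtain ⟨B, hB⟩ := root_bound hM hK
    have hind : IsInducing (Subtype.val : {p : ℂ × ℂ // ev M p = 0} → ℂ × ℂ) :=
      IsInducing.subtypeVal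
    have h1 : IsCompact ((Subtype.val : {p : ℂ × ℂ // ev M p = 0} → ℂ × ℂ) '' (pr M ⁻¹' K)) := by
      refine (hK.prod (isCompact_closedBall (0 : ℂ) B)).of_isClosed_subset ?_ ?_
      · have e : ((Subtype.val : {p : ℂ × ℂ // ev M p = 0} → ℂ × ℂ) '' (pr M ⁻¹' K)) =
            {p : ℂ × ℂ | ev M p = 0} ∩ (Prod.fst ⁻¹' K) := by
          ext p
          constructor
          · rintro ⟨q, hq, rfl⟩
            exact ⟨q.2, hq⟩
          · rintro ⟨h1, h2⟩
            exact ⟨⟨p, h1⟩, h2, rfl⟩
        rw [e]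
        exact (isClosed_eq (continuous_ev M) continuous_const).inter
          (hK.isClosed.preimage continuous_fst)
      · rintro p ⟨q, hq, rfl⟩
        refine ⟨hq, ?_⟩
        rw [mem_closedBall_zero_iff]
        exact hB q.1.1 hq q.1.2 q.2
    exact (hind.isCompact_iff).2 h1
  exact hp.isClosedMap

lemma finite_fiber {M : Polynomial (Polynomial ℂ)} (hM : M.Monic) (x : ℂ) :
    {w : ℂ | ev M (x, w) = 0}.Finite := by
  have h0 : M.map (evalRingHom x) ≠ 0 := (hM.map _).ne_zero
  refine ((M.map (evalRingHom x)).roots.toFinset.finite_toSet).subset ?_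
  intro w hw
  simp only [Finset.mem_coe, Multiset.mem_toFinset]
  rw [mem_roots h0, IsRoot, ← ev_map]
  exact hw

lemma card_fiber {M : Polynomial (Polynomial ℂ)} (hM : M.Monic) (x : ℂ) {n : ℕ}
    (w : Fin n → ℂ) (hw : ∀ j, ev M (x, w j) = 0) (hn : M.natDegree < n) :
    ∃ i j, i < j ∧ w i = w j := by
  have h0 : M.map (evalRingHom x) ≠ 0 := (hM.map _).ne_zero
  by_contra hne
  push Not at hne
  have hinj : Function.Injective w := by
    intro i j hij
    rcases lt_trichotomy i j with h | h | h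
    · exact absurd hij (hne i j h)
    · exact h
    · exact absurd hij.symm (hne j i h)
  have h1 : Finset.univ.image w ⊆ (M.map (evalRingHom x)).roots.toFinset := by
    intro v hv
    obtain ⟨j, _, rfl⟩ := Finset.mem_image.1 hv
    rw [Multiset.mem_toFinset, mem_roots h0, IsRoot, ← ev_map]
    exact hw j
  have h2 := Finset.card_le_card h1
  rw [Finset.card_image_of_injective _ hinj, Finset.card_univ, Fintype.card_fin] at h2
  have h3 := (Multiset.toFinset_card_le (M.map (evalRingHom x)).roots).trans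
    (card_roots' (M.map (evalRingHom x)))
  rw [hM.natDegree_map] at h3
  omega

lemma locHomeo (M : Polynomial (Polynomial ℂ)) (p₀ : Tt M) (hp : ev (derivative M) p₀.1 ≠ 0) :
    ∃ φ : OpenPartialHomeomorph (Tt M) ℂ, p₀ ∈ φ.source ∧ pr M = φ := by
  obtain ⟨L, hL⟩ := strict_Phi M p₀.1 hp
  let R := hL.toOpenPartialHomeomorph (fun q : ℂ × ℂ => (q.1, ev M q))
  have hRc : ∀ q, R q = (q.1, ev M q) := fun q => rfl
  have hsrc : p₀.1 ∈ R.source := hL.mem_toOpenPartialHomeomorph_source
  have hsymm : ∀ x : ℂ, (x, (0 : ℂ)) ∈ R.target →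
      ev M (R.symm (x, 0)) = 0 ∧ (R.symm (x, 0)).1 = x ∧ R.symm (x, 0) ∈ R.source := by
    intro x hx
    have h1 := R.right_inv hx
    rw [hRc] at h1
    exact ⟨(Prod.ext_iff.1 h1).2, (Prod.ext_iff.1 h1).1, R.map_target hx⟩
  have hpt : ∀ p : Tt M, R p.1 = (pr M p, 0) := fun p => by
    rw [hRc]; exact Prod.ext rfl p.2
  classical
  let inv : ℂ → Tt M := fun x =>
    if h : ev M (R.symm (x, 0)) = 0 then ⟨R.symm (x, 0), h⟩ else p₀
  have hinv : ∀ x : ℂ, (x, (0 : ℂ)) ∈ R.target → (inv x).1 = R.symm (x, 0) := by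
    intro x hx
    simp only [inv]
    rw [dif_pos (hsymm x hx).1]
  refine ⟨{ toFun := pr M
            invFun := inv
            source := {p | p.1 ∈ R.source}
            target := {x | (x, (0 : ℂ)) ∈ R.target}
            map_source' := ?ms
            map_target' := ?mt
            left_inv' := ?li
            right_inv' := ?ri
            open_source := ?os
            open_target := ?ot
            continuousOn_toFun := (continuous_pr M).continuousOn
            continuousOn_invFun := ?ci }, hsrc, rfl⟩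
  case ms => 
    intro p hp1
    have := R.map_source hp1
    rw [hpt] at this
    exact this
  case mt =>
    intro x hx
    change (inv x).1 ∈ R.source
    rw [hinv x hx]
    exact (hsymm x hx).2.2
  case li =>
    intro p hp1
    have h1 := R.map_source hp1
    rw [hpt] at h1
    apply Subtype.ext
    rw [hinv _ h1, ← hpt]
    exact R.left_inv hp1
  case ri =>
    intro x hx
    change (inv x).1.1 = x
    rw [hinv x hx]
    exact (hsymm x hx).2.1
  case os => exact R.open_source.preimage continuous_subtype_val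
  case ot => exact R.open_target.preimage (by fun_prop)
  case ci =>
    have hind : IsInducing (Subtype.val : {p : ℂ × ℂ // ev M p = 0} → ℂ × ℂ) :=
      IsInducing.subtypeVal
    refine (hind.continuousOn_iff).2 ?_
    have h1 : ContinuousOn (fun x : ℂ => R.symm (x, 0)) {x | (x, (0 : ℂ)) ∈ R.target} :=
      R.continuousOn_symm.comp (by fun_prop) (fun x hx => hx)
    refine h1.congr fun x hx => ?_
    exact hinv x hx

/-- good parameter set -/
def Sep (M : Polynomial (Polynomial ℂ)) (s : Set ℂ) : Prop :=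
  ∀ x ∈ s, ∀ w : ℂ, ev M (x, w) = 0 → ev (derivative M) (x, w) ≠ 0

theorem cov {M : Polynomial (Polynomial ℂ)} (hM : M.Monic) {s : Set ℂ} (hs : Sep M s) :
    IsCoveringMapOn (pr M) s := by
  refine IsClosedMap.isCoveringMapOn_of_isLocalHomeomorphOn (isClosedMap_pr hM) ?_ ?_
  · intro x _
    refine Set.Finite.of_finite_image (f := fun p : Tt M => p.1.2) ?_ ?_
    · refine (finite_fiber hM x).subset ?_
      rintro w ⟨p, hp, rfl⟩
      have : p.1.1 = x := hp
      have h2 := p.2
      rw [← Prod.mk.eta (p := p.1), this] at h2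
      exact h2
    · intro p hp q hq hpq
      have h1 : p.1.1 = x := hp
      have h2 : q.1.1 = x := hq
      exact Subtype.ext (Prod.ext (h1.trans h2.symm) hpq)
  · intro p hp
    obtain ⟨φ, h1, h2⟩ := locHomeo M p (hs p.1.1 hp p.1.2 p.2)
    exact ⟨φ, h1, h2⟩

/-- existence of a continuous root -/
theorem exists_root {M : Polynomial (Polynomial ℂ)} (hM : M.Monic) {s : Set ℂ} (hs : Sep M s)
    {A : Type} [TopologicalSpace A] [SimplyConnectedSpace A] [LocallyPathConnectedSpace A]
    (f : C(A, ℂ)) (hf : ∀ a, f a ∈ s) (a₀ : A) (w₀ : ℂ) (h₀ : ev M (f a₀, w₀) = 0) :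
    ∃ F : C(A, ℂ), F a₀ = w₀ ∧ ∀ a, ev M (f a, F a) = 0 := by
  obtain ⟨F, ⟨h1, h2⟩, _⟩ := (cov hM hs).existsUnique_continuousMap_lifts f (a₀ := a₀)
    (e₀ := (⟨(f a₀, w₀), h₀⟩ : Tt M)) rfl hf
  refine ⟨⟨fun a => (F a).1.2, ?_⟩, ?_, fun a => ?_⟩
  · exact continuous_snd.comp (continuous_subtype_val.comp F.continuous)
  · change (F a₀).1.2 = w₀
    rw [h1]
  · have h3 : (F a).1.1 = f a := congrFun h2 a
    have h4 := (F a).2
    rw [← Prod.mk.eta (p := (F a).1), h3] at h4
    exact h4

/-- uniqueness -/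
theorem root_unique {M : Polynomial (Polynomial ℂ)} (hM : M.Monic) {s : Set ℂ} (hs : Sep M s)
    {A : Type} [TopologicalSpace A] [PreconnectedSpace A] {f F G : A → ℂ}
    (hfc : Continuous f) (hFc : Continuous F) (hGc : Continuous G) (hf : ∀ a, f a ∈ s)
    (hF : ∀ a, ev M (f a, F a) = 0) (hG : ∀ a, ev M (f a, G a) = 0)
    {a₀ : A} (h₀ : F a₀ = G a₀) : F = G := by
  have hc := (cov hM hs).isCoveringMap_restrictPreimage
  let F' : A → pr M ⁻¹' s := fun a => ⟨⟨(f a, F a), hF a⟩, hf a⟩
  let G' : A → pr M ⁻¹' s := fun a => ⟨⟨(f a, G a), hG a⟩, hf a⟩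
  have hF'c : Continuous F' := Continuous.subtype_mk
    (Continuous.subtype_mk (hfc.prodMk hFc) _) _
  have hG'c : Continuous G' := Continuous.subtype_mk
    (Continuous.subtype_mk (hfc.prodMk hGc) _) _
  have h1 : F' = G' := by
    refine hc.eq_of_comp_eq hF'c hG'c ?_ a₀ ?_
    · funext a; rfl
    · apply Subtype.ext
      apply Subtype.ext
      exact Prod.ext rfl h₀
  funext a
  have h2 := congrArg (fun p : pr M ⁻¹' s => p.1.1.2) (congrFun h1 a)
  exact h2

/-- a continuous root is holomorphic -/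
theorem root_diff {M : Polynomial (Polynomial ℂ)} {f F : ℂ → ℂ} {z : ℂ}
    (hf : DifferentiableAt ℂ f z) (hF : ContinuousAt F z)
    (h0 : ∀ᶠ x in 𝓝 z, ev M (f x, F x) = 0) (hd : ev (derivative M) (f z, F z) ≠ 0) :
    DifferentiableAt ℂ F z := by
  obtain ⟨L, hL⟩ := strict_Phi M (f z, F z) hd
  have hz : ev M (f z, F z) = 0 := h0.self_of_nhds
  have h1 := hL.to_localInverse
  simp only [hz] at h1
  have h2 : DifferentiableAt ℂ (fun x : ℂ =>
      hL.localInverse (fun q : ℂ × ℂ => (q.1, ev M q)) L (f z, F z) (f x, (0 : ℂ))) z := by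
    have h3 : DifferentiableAt ℂ (fun x : ℂ => (f x, (0 : ℂ))) z :=
      hf.prodMk (differentiableAt_const _)
    exact (h1.hasFDerivAt.differentiableAt).comp z h3
  have h4 : (fun x => F x) =ᶠ[𝓝 z] fun x : ℂ =>
      (hL.localInverse (fun q : ℂ × ℂ => (q.1, ev M q)) L (f z, F z) (f x, (0 : ℂ))).2 := by
    have h5 := hL.eventually_left_inverse
    have h6 : Tendsto (fun x => (f x, F x)) (𝓝 z) (𝓝 (f z, F z)) :=
      hf.continuousAt.prodMk hF
    filter_upwards [h6.eventually h5, h0] with x h7 h8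
    rw [h8] at h7
    rw [h7]
  exact (h2.snd).congr_of_eventuallyEq h4

end

end Crest.Agent.R102.Pain416
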