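import Mathlib
import Crest.Agent.R102.PainA_416

/-!
Row 102, part (C), T5 input for algebraic curves (Painlevé), part B (algebra): from one polynomial
relation `Q(E, y) = 0` between holomorphic functions on a connected set to a monic, generically
separable relation for `a(E) y`.
-/

set_option autoImplicit false

namespace Crest.Agent.R102.Pain416

open Polynomial Set Filter Topology

noncomputable section

variable {S : Set ℂ} {E w : ℂ → ℂ}

lemma ev_mul (P R : Polynomial (Polynomial ℂ)) (p : ℂ × ℂ) : ev (P * R) p = ev P p * ev R p :=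
  evalEval_mul _ _ _ _

lemma ev_add (P R : Polynomial (Polynomial ℂ)) (p : ℂ × ℂ) : ev (P + R) p = ev P p + ev R p :=
  evalEval_add _ _ _ _

lemma ev_C (q : Polynomial ℂ) (p : ℂ × ℂ) : ev (C q) p = q.eval p.1 := evalEval_C _ _ _

lemma ev_X (p : ℂ × ℂ) : ev X p = p.2 := evalEval_X _ _

lemma ev_one (p : ℂ × ℂ) : ev 1 p = 1 := evalEval_one _ _

lemma ev_unit {P : Polynomial (Polynomial ℂ)} (hP : IsUnit P) (p : ℂ × ℂ) : ev P p ≠ 0 := by
  obtain ⟨R, hR⟩ := hP.exists_right_inv
  intro h0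
  have := congrArg (fun T => ev T p) hR
  simp only [ev_mul, ev_one, h0, zero_mul] at this
  exact zero_ne_one this

lemma an_ev (hS : IsOpen S) (hE : DifferentiableOn ℂ E S) (hw : DifferentiableOn ℂ w S)
    (P : Polynomial (Polynomial ℂ)) : AnalyticOnNhd ℂ (fun z => ev P (E z, w z)) S := by
  refine DifferentiableOn.analyticOnNhd ?_ hS
  exact ((contDiff_ev P).differentiable (by norm_num)).comp_differentiableOn (hE.prodMk hw)

lemma const_of_root (hSc : IsPreconnected S) (hE : ContinuousOn E S) {q : Polynomial ℂ}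
    (hq : q ≠ 0) (h : ∀ z ∈ S, q.eval (E z) = 0) : ∃ c, ∀ z ∈ S, E z = c := by
  rcases S.eq_empty_or_nonempty with rfl | ⟨z0, hz0⟩
  · exact ⟨0, fun z hz => by simp at hz⟩
  · refine ⟨E z0, fun z hz => ?_⟩
    have hfin : ((q.roots.toFinset : Finset ℂ) : Set ℂ).Finite := q.roots.toFinset.finite_toSet
    refine hSc.constant_of_mapsTo hfin.isDiscrete hE ?_ hz hz0
    intro x hx
    simp only [Finset.mem_coe, Multiset.mem_toFinset]
    rw [mem_roots hq]
    exact h x hx

lemma exists_irred (hS : IsOpen S) (hSc : IsPreconnected S) (hne : S.Nonempty)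
    (hE : DifferentiableOn ℂ E S) (hw : DifferentiableOn ℂ w S) (T : Polynomial (Polynomial ℂ)) :
    T ≠ 0 → (∀ z ∈ S, ev T (E z, w z) = 0) →
      ∃ P, Irreducible P ∧ P ∣ T ∧ ∀ z ∈ S, ev P (E z, w z) = 0 := by
  obtain ⟨z0, hz0⟩ := hne
  refine WfDvdMonoid.induction_on_irreducible
    (motive := fun T : Polynomial (Polynomial ℂ) => T ≠ 0 → (∀ z ∈ S, ev T (E z, w z) = 0) →
      ∃ P, Irreducible P ∧ P ∣ T ∧ ∀ z ∈ S, ev P (E z, w z) = 0) T ?_ ?_ ?_
  · intro h; exact absurd rfl h
  · intro u hu _ h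
    exact absurd (h z0 hz0) (ev_unit hu _)
  · intro a i ha hi ih _ h
    have h1 := (an_ev hS hE hw i).eq_zero_or_eq_zero_of_mul_eq_zero (an_ev hS hE hw a)
      (fun z hz => by rw [← ev_mul]; exact h z hz) hSc
    rcases h1 with h1 | h1
    · exact ⟨i, hi, dvd_mul_right _ _, h1⟩
    · obtain ⟨P, h2, h3, h4⟩ := ih ha h1
      exact ⟨P, h2, h3.trans (dvd_mul_left _ _), h4⟩

lemma sep_of_irred {M : Polynomial (Polynomial ℂ)} (hM : M.Monic) (hi : Irreducible M) :
    ∃ d : Polynomial ℂ, d ≠ 0 ∧ ∃ A B : Polynomial (Polynomial ℂ), A * M + B * derivative M = C d := by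
  let K := FractionRing (Polynomial ℂ)
  have h1 : Irreducible (M.map (algebraMap (Polynomial ℂ) K)) :=
    (hM.irreducible_iff_irreducible_map_fraction_map (K := K)).1 hi
  haveI : CharZero K := by
    refine ⟨fun m n hmn => ?_⟩
    have h2 : algebraMap (Polynomial ℂ) K (m : Polynomial ℂ) =
        algebraMap (Polynomial ℂ) K (n : Polynomial ℂ) := by
      rw [map_natCast, map_natCast]; exact hmn
    exact Nat.cast_injective (IsFractionRing.injective (Polynomial ℂ) K h2)
  obtain ⟨A, B, hAB⟩ := h1.separable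
  obtain ⟨b1, hb1, h3⟩ := IsLocalization.integerNormalization_spec (nonZeroDivisors (Polynomial ℂ)) A
  obtain ⟨b2, hb2, h4⟩ := IsLocalization.integerNormalization_spec (nonZeroDivisors (Polynomial ℂ)) B
  set A0 := IsLocalization.integerNormalization (nonZeroDivisors (Polynomial ℂ)) A
  set B0 := IsLocalization.integerNormalization (nonZeroDivisors (Polynomial ℂ)) B
  refine ⟨b1 * b2, mul_ne_zero (nonZeroDivisors.ne_zero hb1) (nonZeroDivisors.ne_zero hb2),
    C b2 * A0, C b1 * B0, ?_⟩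
  have hinj : Function.Injective (Polynomial.map (algebraMap (Polynomial ℂ) K)) :=
    Polynomial.map_injective _ (IsFractionRing.injective (Polynomial ℂ) K)
  apply hinj
  rw [Polynomial.map_add, Polynomial.map_mul, Polynomial.map_mul, Polynomial.map_mul,
    Polynomial.map_mul, h3, h4, Polynomial.map_C, Polynomial.map_C, Polynomial.map_C]
  rw [derivative_map] at hAB
  have e1 : b1 • A = C (algebraMap (Polynomial ℂ) K b1) * A := by
    rw [← Polynomial.smul_eq_C_mul, algebraMap_smul]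
  have e2 : b2 • B = C (algebraMap (Polynomial ℂ) K b2) * B := by
    rw [← Polynomial.smul_eq_C_mul, algebraMap_smul]
  rw [e1, e2, map_mul, C_mul]
  linear_combination (C (algebraMap (Polynomial ℂ) K b1) * C (algebraMap (Polynomial ℂ) K b2)) * hAB

/-- **good relation** -/
theorem good_poly (hS : IsOpen S) (hSc : IsPreconnected S) (hne : S.Nonempty) {y : ℂ → ℂ}
    (hE : DifferentiableOn ℂ E S) (hy : DifferentiableOn ℂ y S)
    {Q : Polynomial (Polynomial ℂ)} (hQ : Q ≠ 0) (hrel : ∀ z ∈ S, ev Q (E z, y z) = 0)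
    (hEnc : ¬ ∃ c, ∀ z ∈ S, E z = c) (hy0 : ∃ z ∈ S, y z ≠ 0) :
    ∃ (M : Polynomial (Polynomial ℂ)) (a : Polynomial ℂ) (bad : Finset ℂ), M.Monic ∧ a ≠ 0 ∧
      (∀ z ∈ S, ev M (E z, a.eval (E z) * y z) = 0) ∧ Sep M ((bad : Set ℂ)ᶜ) ∧
      ∀ x ∉ bad, a.eval x ≠ 0 ∧ ev M (x, 0) ≠ 0 := by
  obtain ⟨z0, hz0⟩ := hne
  -- degree
  have hdeg : 1 ≤ Q.natDegree := by
    by_contra hlt
    have h0 : Q.natDegree = 0 := by omega
    obtain ⟨q, hq⟩ := natDegree_eq_zero.1 h0
    rw [← hq] at hrel hQ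
    have hq0 : q ≠ 0 := by rintro rfl; simp at hQ
    refine hEnc (const_of_root hSc hE.continuousOn hq0 fun z hz => ?_)
    have := hrel z hz
    rwa [ev_C] at this
  set a := Q.leadingCoeff with ha
  have ha0 : a ≠ 0 := leadingCoeff_ne_zero.2 hQ
  have hwd : DifferentiableOn ℂ (fun z => a.eval (E z) * y z) S :=
    (a.differentiable.comp_differentiableOn hE).mul hy
  have h1 : ∀ z ∈ S, ev Q.integralNormalization (E z, a.eval (E z) * y z) = 0 := by
    intro z hz
    have h2 := integralNormalization_eval₂_leadingCoeff_mul hdeg (evalRingHom (E z)) (y z)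
    rw [eval₂_evalRingHom] at h2
    have h3 : evalEval (E z) (y z) Q = 0 := hrel z hz
    rw [h3, mul_zero] at h2
    exact h2
  have hmon := monic_integralNormalization hQ
  obtain ⟨P, hPi, ⟨R, hR⟩, hP0⟩ := exists_irred hS hSc ⟨z0, hz0⟩ hE hwd _ hmon.ne_zero h1
  have hu : P.leadingCoeff * R.leadingCoeff = 1 := by
    rw [← leadingCoeff_mul, ← hR]; exact hmon
  set M := C R.leadingCoeff * P with hMdef
  have hM : M.Monic := monic_C_mul_of_mul_leadingCoeff_eq_one (by rw [mul_comm]; exact hu)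
  have hCu : IsUnit (C R.leadingCoeff : Polynomial (Polynomial ℂ)) :=
    (IsUnit.of_mul_eq_one _ (by rw [mul_comm]; exact hu)).map C
  have hMi : Irreducible M := (irreducible_isUnit_mul hCu).2 hPi
  have hM0 : ∀ z ∈ S, ev M (E z, a.eval (E z) * y z) = 0 := by
    intro z hz
    rw [hMdef, ev_mul, hP0 z hz, mul_zero]
  obtain ⟨d, hd, A, B, hAB⟩ := sep_of_irred hM hMi
  -- constant coefficient
  have hc0 : M.coeff 0 ≠ 0 := by
    intro h0
    obtain ⟨R', hR'⟩ := X_dvd_iff.2 h0
    have hRu : IsUnit R' := by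
      rcases hMi.isUnit_or_isUnit hR' with h | h
      · exact absurd h not_isUnit_X
      · exact h
    have h2 : ∀ z ∈ S, a.eval (E z) * y z = 0 := by
      intro z hz
      have h3 := hM0 z hz
      rw [hR', ev_mul, ev_X] at h3
      exact (mul_eq_zero.1 h3).resolve_right (ev_unit hRu _)
    rcases AnalyticOnNhd.eq_zero_or_eq_zero_of_mul_eq_zero
      ((a.differentiable.comp_differentiableOn hE).analyticOnNhd hS) (hy.analyticOnNhd hS) h2 hSc
      with h3 | h3
    · exact hEnc (const_of_root hSc hE.continuousOn ha0 h3)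
    · obtain ⟨z1, hz1, h4⟩ := hy0
      exact h4 (h3 z1 hz1)
  refine ⟨M, a, d.roots.toFinset ∪ (M.coeff 0).roots.toFinset ∪ a.roots.toFinset, hM, ha0, hM0,
    ?_, ?_⟩
  · intro x hx w' hw' hdw
    apply hx
    simp only [Finset.coe_union, mem_union, Finset.mem_coe, Multiset.mem_toFinset]
    left; left
    rw [mem_roots hd, IsRoot]
    have h5 := congrArg (fun T => ev T (x, w')) hAB
    simp only [ev_add, ev_mul, ev_C, hw', hdw, mul_zero, add_zero] at h5
    exact h5.symm
  · intro x hx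
    simp only [Finset.mem_union, Multiset.mem_toFinset, not_or] at hx
    obtain ⟨⟨_, h6⟩, h7⟩ := hx
    refine ⟨fun h8 => h7 ?_, fun h8 => h6 ?_⟩
    · rw [mem_roots ha0]; exact h8
    · rw [mem_roots hc0, IsRoot]
      rw [ev_map] at h8
      rw [← coeff_zero_eq_eval_zero, coeff_map] at h8
      exact h8

end

end Crest.Agent.R102.Pain416
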