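import Mathlib
import Crest.Agent.R102.PainB_416

/-!
Row 102, part (C), T5 input for algebraic curves (Painlevé), part C: a solution of the algebraic
autonomous equation has a limit (finite or infinite) at a boundary point.
-/

set_option autoImplicit false

namespace Crest.Agent.R102.Pain416

open Polynomial Set Filter Topology Metric

noncomputable section

/-- lower half disc at `s` -/
def HD (s : ℂ) (r : ℝ) : Set ℂ := ball s r ∩ {z | z.im < s.im}

/-- approach from below -/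
def bl (s : ℂ) : Filter ℂ := 𝓝[{z : ℂ | z.im < s.im}] s

lemma isOpen_HD (s : ℂ) (r : ℝ) : IsOpen (HD s r) :=
  isOpen_ball.inter (isOpen_lt Complex.continuous_im continuous_const)

lemma convex_HD (s : ℂ) (r : ℝ) : Convex ℝ (HD s r) :=
  (convex_ball s r).inter (convex_halfSpace_im_lt s.im)

lemma HD_mem {s : ℂ} {r : ℝ} (hr : 0 < r) : HD s r ∈ bl s := by
  unfold bl HD
  exact inter_mem (mem_nhdsWithin_of_mem_nhds (ball_mem_nhds s hr)) self_mem_nhdsWithin

lemma HD_mono {s : ℂ} {r r' : ℝ} (h : r ≤ r') : HD s r ⊆ HD s r' :=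
  fun _ hz => ⟨ball_subset_ball h hz.1, hz.2⟩

lemma bl_basis {s : ℂ} {p : ℂ → Prop} :
    (∀ᶠ z in bl s, p z) ↔ ∃ r > 0, ∀ z ∈ HD s r, p z := by
  constructor
  · intro h
    unfold bl at h
    rw [eventually_nhdsWithin_iff, Metric.eventually_nhds_iff_ball] at h
    obtain ⟨r, hr, h1⟩ := h
    exact ⟨r, hr, fun z hz => h1 z hz.1 hz.2⟩
  · rintro ⟨r, hr, h⟩
    filter_upwards [HD_mem hr] with z hz using h z hz

lemma path_mem {s : ℂ} {r t : ℝ} {u : ℂ} (hu : ‖u‖ = 1) (hui : u.im < 0) (ht : 0 < t)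
    (htr : t < r) : s + t * u ∈ HD s r := by
  refine ⟨?_, ?_⟩
  · rw [mem_ball, dist_eq_norm, add_sub_cancel_left, norm_mul, hu, mul_one, Complex.norm_real,
      Real.norm_eq_abs, abs_of_pos ht]
    exact htr
  · simp only [mem_ofPred_eq, Complex.add_im, Complex.mul_im, Complex.ofReal_re, Complex.ofReal_im,
      zero_mul, add_zero]
    nlinarith

instance bl_neBot (s : ℂ) : (bl s).NeBot := by
  rw [neBot_iff]
  intro h
  have h1 : ∀ᶠ _z in bl s, False := by rw [h]; exact Filter.eventually_bot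
  obtain ⟨r, hr, h2⟩ := bl_basis.1 h1
  exact h2 (s + (r / 2 : ℝ) * (-Complex.I)) (path_mem (by simp) (by simp) (by linarith) (by linarith))

/-- the data -/
structure Dat (s : ℂ) (r₀ : ℝ) (E y : ℂ → ℂ) (M : Polynomial (Polynomial ℂ)) (a : Polynomial ℂ)
    (bad : Finset ℂ) : Prop where
  r₀_pos : 0 < r₀
  hE : DifferentiableOn ℂ E (HD s r₀)
  hy : DifferentiableOn ℂ y (HD s r₀)
  hE0 : ∀ z ∈ HD s r₀, E z ≠ 0
  ode : ∀ z ∈ HD s r₀, deriv E z = Complex.I * y z * E z
  mon : M.Monic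
  a0 : a ≠ 0
  rel : ∀ z ∈ HD s r₀, ev M (E z, a.eval (E z) * y z) = 0
  sep : Sep M ((bad : Set ℂ)ᶜ)
  good : ∀ x ∉ bad, a.eval x ≠ 0 ∧ ev M (x, 0) ≠ 0
  y0 : ∃ z ∈ HD s r₀, y z ≠ 0

variable {s : ℂ} {r₀ : ℝ} {E y : ℂ → ℂ} {M : Polynomial (Polynomial ℂ)} {a : Polynomial ℂ}
  {bad : Finset ℂ}

lemma Dat.speed (D : Dat s r₀ E y M a bad) {K : Set ℂ} (hK : IsCompact K)
    (hKb : ∀ x ∈ K, x ∉ bad) : ∃ C : ℝ, 0 ≤ C ∧ ∀ z ∈ HD s r₀, E z ∈ K → ‖deriv E z‖ ≤ C := by
  obtain ⟨B, hB⟩ := root_bound D.mon hK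
  have hc : ContinuousOn (fun x : ℂ => (a.eval x)⁻¹ * x) K := by
    refine ContinuousOn.mul (ContinuousOn.inv₀ a.continuous.continuousOn ?_) continuousOn_id
    exact fun x hx => (D.good x (hKb x hx)).1
  obtain ⟨C1, hC1⟩ := hK.exists_bound_of_continuousOn hc
  refine ⟨max 0 (B * C1), le_max_left _ _, fun z hz hzK => ?_⟩
  have ha := (D.good _ (hKb _ hzK)).1
  have e1 : deriv E z = Complex.I * (a.eval (E z) * y z) * ((a.eval (E z))⁻¹ * E z) := by
    rw [D.ode z hz]; field_simp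
  rw [e1, norm_mul, norm_mul, Complex.norm_I, one_mul]
  refine le_trans ?_ (le_max_right _ _)
  have h1 := hB (E z) hzK _ (D.rel z hz)
  exact mul_le_mul h1 (hC1 _ hzK) (norm_nonneg _) ((norm_nonneg _).trans h1)

/-- trapping along a segment -/
lemma trap {f : ℝ → ℂ} {x1 : ℂ} {ε C : ℝ} (hε : 0 < ε) (hC : C < ε / 2)
    (hf : ∀ t ∈ Icc (0 : ℝ) 1, DifferentiableAt ℝ f t) (h0 : ‖f 0 - x1‖ < ε / 2)
    (hb : ∀ t ∈ Icc (0 : ℝ) 1, ‖f t - x1‖ ≤ ε → ‖deriv f t‖ ≤ C) :
    ∀ t ∈ Icc (0 : ℝ) 1, ‖f t - x1‖ ≤ ε := by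
  have key := image_norm_le_of_norm_deriv_right_lt_deriv_boundary' (E := ℂ)
    (f := fun t => f t - x1) (f' := fun t => deriv f t) (a := 0) (b := 1)
    (B := fun t => ε / 2 + ε / 2 * t) (B' := fun _ => ε / 2)
    (fun t ht => ((hf t ht).continuousAt.sub continuousAt_const).continuousWithinAt)
    (fun t ht => ((hf t (Ico_subset_Icc_self ht)).hasDerivAt.sub_const x1).hasDerivWithinAt)
    (by simpa using h0.le) (by fun_prop)
    (fun t _ => by
      have : HasDerivAt (fun t : ℝ => ε / 2 + ε / 2 * t) (ε / 2 * 1) t :=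
        ((hasDerivAt_id t).const_mul (ε / 2)).const_add (ε / 2)
      rw [mul_one] at this
      exact this.hasDerivWithinAt)
    (fun t ht he => by
      have h1 : ‖f t - x1‖ ≤ ε := by
        rw [he]
        nlinarith [ht.1, ht.2]
      exact lt_of_le_of_lt (hb t (Ico_subset_Icc_self ht) h1) hC)
  intro t ht
  have := key ht
  refine this.trans ?_
  nlinarith [ht.1, ht.2]

lemma Dat.tendsto_of_cluster (D : Dat s r₀ E y M a bad) {x1 : ℂ} (hx1 : x1 ∉ bad)
    (hcl : ∀ ε > 0, ∃ᶠ z in bl s, ‖E z - x1‖ < ε) : Tendsto E (bl s) (𝓝 x1) := by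
  -- small closed balls avoid `bad`
  have hopen : IsOpen ((bad : Set ℂ)ᶜ) := (bad.finite_toSet.isClosed).isOpen_compl
  obtain ⟨ε0, hε0, hball⟩ := Metric.isOpen_iff.1 hopen x1 (by simpa using hx1)
  rw [Metric.tendsto_nhds]
  intro ε' hε'
  set ε := min (ε0 / 2) (ε' / 2) with hε
  have hεp : 0 < ε := by positivity
  have hKb : ∀ x ∈ closedBall x1 ε, x ∉ bad := by
    intro x hx
    have : x ∈ ball x1 ε0 := by
      rw [mem_ball]; rw [mem_closedBall] at hx
      have := min_le_left (ε0 / 2) (ε' / 2)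
      linarith
    simpa using hball this
  obtain ⟨C, hC0, hC⟩ := D.speed (isCompact_closedBall x1 ε) hKb
  set δ := min r₀ (ε / (4 * (C + 1))) with hδ
  have hδp : 0 < δ := lt_min D.r₀_pos (by positivity)
  obtain ⟨z0, hz0, hz0D⟩ := ((hcl (ε / 2) (by positivity)).and_eventually (HD_mem hδp)).exists
  filter_upwards [HD_mem hδp] with z hz
  have hseg : ∀ t ∈ Icc (0 : ℝ) 1, z0 + t * (z - z0) ∈ HD s δ := by
    intro t ht
    have := (convex_HD s δ) hz0D hz (sub_nonneg.2 ht.2) ht.1 (by ring)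
    convert this using 1
    simp only [Complex.real_smul]
    push_cast
    ring
  have hmono : HD s δ ⊆ HD s r₀ := HD_mono (min_le_left _ _)
  have hder : ∀ t ∈ Icc (0 : ℝ) 1, HasDerivAt (fun t : ℝ => E (z0 + t * (z - z0)))
      (deriv E (z0 + t * (z - z0)) * (z - z0)) t := by
    intro t ht
    have h1 : HasDerivAt E (deriv E (z0 + t * (z - z0))) (z0 + t * (z - z0)) :=
      ((D.hE _ (hmono (hseg t ht))).differentiableAt
        ((isOpen_HD s r₀).mem_nhds (hmono (hseg t ht)))).hasDerivAt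
    have h2 : HasDerivAt (fun t : ℝ => z0 + (t : ℂ) * (z - z0)) (z - z0) t := by
      have := ((Complex.ofRealCLM.hasDerivAt (x := t)).mul_const (z - z0)).const_add z0
      simpa using this
    exact h1.comp t h2
  have hdist : ‖z - z0‖ ≤ 2 * δ := by
    have h1 := hz.1
    have h2 := hz0D.1
    rw [mem_ball] at h1 h2
    rw [← dist_eq_norm]
    linarith [dist_triangle_right z z0 s]
  have hCδ : C * (2 * δ) < ε / 2 := by
    have h1 : δ ≤ ε / (4 * (C + 1)) := min_le_right _ _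
    have h2 : C * (2 * δ) ≤ C * (2 * (ε / (4 * (C + 1)))) := by gcongr
    refine lt_of_le_of_lt h2 ?_
    have h3 : C * (2 * (ε / (4 * (C + 1)))) = (ε / 2) * (C / (C + 1)) := by field_simp; ring
    rw [h3]
    have h4 : C / (C + 1) < 1 := by rw [div_lt_one (by positivity)]; linarith
    nlinarith
  have key := trap (f := fun t : ℝ => E (z0 + t * (z - z0))) (x1 := x1) (ε := ε)
    (C := C * (2 * δ)) hεp hCδ (fun t ht => (hder t ht).differentiableAt) (by simpa using hz0)
    (fun t ht hle => by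
      rw [(hder t ht).deriv, norm_mul]
      refine mul_le_mul (hC _ (hmono (hseg t ht)) ?_) hdist (norm_nonneg _) hC0
      rw [mem_closedBall, dist_eq_norm]
      exact hle) 1 (by simp)
  simp only [Complex.ofReal_one, one_mul, add_sub_cancel] at key
  rw [dist_eq_norm]
  have := min_le_right (ε0 / 2) (ε' / 2)
  linarith

lemma eventually_lt_of_ne {g : ℂ → ℝ} {c : ℝ} (hr : 0 < r₀) (hg : ContinuousOn g (HD s r₀))
    (hne : ∀ᶠ z in bl s, g z ≠ c) (hf : ∃ᶠ z in bl s, g z < c) : ∀ᶠ z in bl s, g z < c := by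
  obtain ⟨r, hr1, h1⟩ := bl_basis.1 hne
  have hrr : 0 < min r r₀ := lt_min hr1 hr
  obtain ⟨z0, hz0, hz0D⟩ := (hf.and_eventually (HD_mem hrr)).exists
  rw [bl_basis]
  refine ⟨min r r₀, hrr, fun z hz => ?_⟩
  by_contra hle
  push Not at hle
  have hpre : IsPreconnected (HD s (min r r₀)) := (convex_HD s _).isPreconnected
  have himg : Icc (g z0) (g z) ⊆ g '' HD s (min r r₀) :=
    hpre.intermediate_value hz0D hz (hg.mono (HD_mono (min_le_right _ _)))
  obtain ⟨z1, hz1, h2⟩ := himg ⟨hz0.le, hle⟩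
  exact h1 z1 (HD_mono (min_le_left _ _) hz1) h2

/-- **the limit exists** -/
theorem Dat.limit (D : Dat s r₀ E y M a bad) :
    (∃ x0, Tendsto E (bl s) (𝓝 x0)) ∨ Tendsto (fun z => ‖E z‖) (bl s) atTop := by
  by_cases h1 : ∃ x1 ∉ bad, ∀ ε > 0, ∃ᶠ z in bl s, ‖E z - x1‖ < ε
  · obtain ⟨x1, hx1, hcl⟩ := h1
    exact Or.inl ⟨x1, D.tendsto_of_cluster hx1 hcl⟩
  push Not at h1
  -- compact sets off `bad` are left
  have hK : ∀ K : Set ℂ, IsCompact K → (∀ x ∈ K, x ∉ bad) → ∀ᶠ z in bl s, E z ∉ K := by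
    intro K hKc hKb
    by_contra hfr
    rw [not_eventually] at hfr
    simp only [not_not] at hfr
    have hnb : (map E (bl s) ⊓ 𝓟 K).NeBot := by
      rw [← frequently_mem_iff_neBot]
      exact hfr
    obtain ⟨x, hx, hcx⟩ := hKc (f := map E (bl s) ⊓ 𝓟 K) inf_le_right
    obtain ⟨ε, hε, h2⟩ := h1 x (hKb x hx)
    have h3 : ClusterPt x (map E (bl s)) := hcx.mono inf_le_left
    have h4 : ∃ᶠ v in map E (bl s), ‖v - x‖ < ε := by
      rw [clusterPt_iff_frequently] at h3
      have := h3 (ball x ε) (ball_mem_nhds x hε)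
      refine this.mono fun v hv => ?_
      rwa [mem_ball, dist_eq_norm] at hv
    refine h4 ?_
    have h5 : ∀ᶠ v in map E (bl s), ¬ ‖v - x‖ < ε := by
      rw [eventually_map]
      exact h2.mono fun z hz => not_lt.2 hz
    exact h5
  have hcont : ContinuousOn E (HD s r₀) := D.hE.continuousOn
  by_cases h2 : Tendsto (fun z => ‖E z‖) (bl s) atTop
  · exact Or.inr h2
  left
  rw [Filter.tendsto_atTop] at h2
  push Not at h2
  obtain ⟨R0, hR0⟩ := h2
  -- boundedness
  obtain ⟨R1, hR1⟩ : ∃ R1 : ℝ, ∀ x ∈ bad, ‖x‖ ≤ R1 := by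
    obtain ⟨R1, h⟩ := (bad.finite_toSet.isBounded).exists_norm_le
    exact ⟨R1, h⟩
  set R := max R0 R1 + 1 with hR
  have hbdd : ∀ᶠ z in bl s, ‖E z‖ < R := by
    refine eventually_lt_of_ne D.r₀_pos hcont.norm ?_ ?_
    · have := hK (sphere (0 : ℂ) R) (isCompact_sphere 0 R) (fun x hx hxb => by
        have h3 := hR1 x hxb
        rw [mem_sphere_zero_iff_norm] at hx
        have := le_max_right R0 R1
        linarith)
      refine this.mono fun z hz h => hz ?_
      rw [mem_sphere_zero_iff_norm]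
      exact h
    · refine hR0.mono fun z hz => ?_
      have := le_max_left R0 R1
      linarith
  obtain ⟨x0, _, hx0⟩ := (isCompact_closedBall (0 : ℂ) R) (f := map E (bl s)) (by
    rw [le_principal_iff, mem_map]
    filter_upwards [hbdd] with z hz
    simp only [mem_preimage, mem_closedBall, dist_zero_right]
    exact hz.le)
  have hfr : ∀ ε > 0, ∃ᶠ z in bl s, ‖E z - x0‖ < ε := by
    intro ε hε
    rw [clusterPt_iff_frequently] at hx0
    have := hx0 (ball x0 ε) (ball_mem_nhds x0 hε)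
    have h5 : ∃ᶠ z in bl s, E z ∈ ball x0 ε := this
    refine h5.mono fun z hz => ?_
    rwa [mem_ball, dist_eq_norm] at hz
  refine ⟨x0, ?_⟩
  -- isolate x0
  have hopen : IsOpen (((bad.erase x0 : Finset ℂ) : Set ℂ)ᶜ) :=
    ((bad.erase x0).finite_toSet.isClosed).isOpen_compl
  obtain ⟨ε0, hε0, hball⟩ := Metric.isOpen_iff.1 hopen x0 (by simp)
  rw [Metric.tendsto_nhds]
  intro ε' hε'
  set ε := min (ε0 / 2) ε' with hε
  have hεp : 0 < ε := by positivity
  have h6 : ∀ᶠ z in bl s, ‖E z - x0‖ < ε := by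
    refine eventually_lt_of_ne D.r₀_pos (hcont.sub continuousOn_const).norm ?_ (hfr ε hεp)
    have := hK (sphere x0 ε) (isCompact_sphere x0 ε) (fun x hx hxb => by
      have h7 : x ∈ ball x0 ε0 := by
        rw [mem_sphere] at hx
        rw [mem_ball, hx]
        have := min_le_left (ε0 / 2) ε'
        linarith
      have h8 := hball h7
      have h9 : x ≠ x0 := by
        rintro rfl
        rw [mem_sphere, dist_self] at hx
        linarith
      simp only [mem_compl_iff, Finset.mem_coe, Finset.mem_erase, not_and] at h8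
      exact h8 h9 hxb)
    refine this.mono fun z hz h => hz ?_
    rw [mem_sphere, dist_eq_norm]
    exact h
  filter_upwards [h6] with z hz
  rw [dist_eq_norm]
  exact lt_of_lt_of_le hz (min_le_right _ _)

end

end Crest.Agent.R102.Pain416
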