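import Mathlib
import Crest.Agent.R102.PainC_416

/-!
Row 102, part (C), T5 (P1), part A: the `σ`-chart of a Puiseux end of the top line.

`σ = (i (z - s))^(1/n)`; if `(e^{iθ}, H)` is Puiseux in `σ` and `(θ, H)` satisfies the curve
relation `θ' H'' - θ'' H' + θ'^3 H = -1` below `s`, then on a punctured disc of the `σ` plane
`e^{iθ} = σ^a e(σ)`, `θ' = σ^k g(σ)`, `H = f(σ)`, with `k ≥ -n`; `c = k/n = 1/2, 2` and
`k = -n, |a| = 3n` are impossible (residues of `Z_±' = e^{± iθ}/θ'^2`).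
-/

set_option autoImplicit false

namespace Crest.Agent.R102.End416

open Set Filter Topology Metric
open Crest.Agent.R102.Pain416 (HD bl bl_basis HD_mem HD_mono isOpen_HD convex_HD path_mem)

noncomputable section

/-- the chart `σ = (I (z - s))^(1/n)` -/
def sg (n : ℕ) (s z : ℂ) : ℂ := (Complex.I * (z - s)) ^ (1 / (n : ℂ))

variable {s : ℂ} {n : ℕ}

lemma sg_pow (hn : 0 < n) (z : ℂ) : sg n s z ^ n = Complex.I * (z - s) := by
  unfold sg
  rw [one_div]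
  exact Complex.cpow_nat_inv_pow _ hn.ne'

lemma slit_of {z : ℂ} (h : z.im < s.im) : Complex.I * (z - s) ∈ Complex.slitPlane := by
  rw [Complex.mem_slitPlane_iff]
  left
  simp
  linarith

lemma sg_ne (hn : 0 < n) {z : ℂ} (h : z.im < s.im) : sg n s z ≠ 0 := by
  intro h0
  have := sg_pow (s := s) hn z
  rw [h0, zero_pow hn.ne'] at this
  exact Complex.slitPlane_ne_zero (slit_of h) this.symm

lemma sg_norm (hn : 0 < n) (z : ℂ) : ‖sg n s z‖ ^ n = ‖z - s‖ := by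
  rw [← norm_pow, sg_pow hn, norm_mul, Complex.norm_I, one_mul]

lemma sg_lt (hn : 0 < n) {r : ℝ} (hr : 0 < r) {z : ℂ} (h : ‖z - s‖ < r ^ n) : ‖sg n s z‖ < r := by
  refine lt_of_pow_lt_pow_left₀ n hr.le ?_
  rw [sg_norm hn]
  exact h

lemma sg_deriv (hn : 0 < n) {z : ℂ} (h : z.im < s.im) :
    HasDerivAt (sg n s) (Complex.I / (n * sg n s z ^ (n - 1))) z := by
  have h1 : HasDerivAt (fun z : ℂ => Complex.I * (z - s)) Complex.I z := by
    simpa using ((hasDerivAt_id z).sub_const s).const_mul Complex.I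
  have h2 := h1.cpow_const (c := 1 / (n : ℂ)) (slit_of h)
  have hne := Complex.slitPlane_ne_zero (slit_of h)
  have hnC : (n : ℂ) ≠ 0 := by exact_mod_cast hn.ne'
  have hs := sg_ne hn h
  refine h2.congr_deriv ?_
  rw [Complex.cpow_sub _ _ hne, Complex.cpow_one]
  have h3 : (Complex.I * (z - s)) ^ (1 / (n : ℂ)) = sg n s z := rfl
  rw [h3, ← sg_pow (s := s) hn z]
  obtain ⟨m, rfl⟩ : ∃ m, n = m + 1 := ⟨n - 1, by omega⟩
  simp only [Nat.add_sub_cancel]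
  rw [pow_succ]
  field_simp

lemma sg_tendsto (hn : 0 < n) : Tendsto (sg n s) (bl s) (𝓝[≠] 0) := by
  refine tendsto_nhdsWithin_iff.2 ⟨?_, ?_⟩
  · rw [Metric.tendsto_nhds]
    intro ε hε
    refine bl_basis.2 ⟨ε ^ n, by positivity, fun z hz => ?_⟩
    rw [dist_zero_right]
    refine sg_lt hn hε ?_
    have := hz.1
    rwa [mem_ball, dist_eq_norm] at this
  · exact bl_basis.2 ⟨1, one_pos, fun z hz => sg_ne hn hz.2⟩

lemma transfer (hn : 0 < n) {P Q : ℂ → ℂ} (hP : MeromorphicAt P 0) (hQ : MeromorphicAt Q 0)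
    (h : ∀ᶠ z in bl s, P (sg n s z) = Q (sg n s z)) : ∀ᶠ σ in 𝓝[≠] (0 : ℂ), P σ = Q σ :=
  (hP.frequently_eq_iff_eventuallyEq hQ).1 ((sg_tendsto hn).frequently h.frequently)

lemma step_deriv (hn : 0 < n) {u P : ℂ → ℂ} (hP : MeromorphicAt P 0)
    (h : ∀ᶠ z in bl s, u z = P (sg n s z)) :
    ∀ᶠ z in bl s, deriv u z = deriv P (sg n s z) * (Complex.I / (n * sg n s z ^ (n - 1))) := by
  have h1 := (sg_tendsto (s := s) hn).eventually hP.eventually_analyticAt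
  obtain ⟨r, hr, h2⟩ := bl_basis.1 (h.and h1)
  refine bl_basis.2 ⟨r, hr, fun z hz => ?_⟩
  have h3 : u =ᶠ[𝓝 z] fun z => P (sg n s z) := by
    filter_upwards [(isOpen_HD s r).mem_nhds hz] with z' hz' using (h2 z' hz').1
  rw [h3.deriv_eq]
  exact ((h2 z hz).2.differentiableAt.hasDerivAt.comp z (sg_deriv hn hz.2)).deriv

/-- `σ^a e(σ)` -/
def Es (a : ℤ) (e : ℂ → ℂ) (σ : ℂ) : ℂ := σ ^ a * e σ

/-- `dσ/dz` -/
def Dz (n : ℕ) (σ : ℂ) : ℂ := Complex.I / (n * σ ^ (n - 1))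

/-- `H'` in the chart -/
def Hd (n : ℕ) (f : ℂ → ℂ) (σ : ℂ) : ℂ := deriv f σ * Dz n σ

/-- the chart at a Puiseux end -/
structure EndS (θ H : ℂ → ℂ) (s : ℂ) (n : ℕ) (r : ℝ) (a k : ℤ) (e g f : ℂ → ℂ) : Prop where
  n_pos : 0 < n
  r_pos : 0 < r
  e_an : ∀ σ ∈ ball (0 : ℂ) r, AnalyticAt ℂ e σ
  e_ne : ∀ σ ∈ ball (0 : ℂ) r, e σ ≠ 0
  g_an : ∀ σ ∈ ball (0 : ℂ) r, AnalyticAt ℂ g σ
  g_ne : ∀ σ ∈ ball (0 : ℂ) r, g σ ≠ 0
  f_mer : MeromorphicAt f 0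
  f_an : ∀ σ ∈ ball (0 : ℂ) r, σ ≠ 0 → AnalyticAt ℂ f σ
  E_eq : ∀ z ∈ HD s (r ^ n), Complex.exp (Complex.I * θ z) = Es a e (sg n s z)
  y_eq : ∀ z ∈ HD s (r ^ n), deriv θ z = Es k g (sg n s z)
  H_eq : ∀ z ∈ HD s (r ^ n), H z = f (sg n s z)
  dE : ∀ σ ∈ ball (0 : ℂ) r, σ ≠ 0 →
    deriv (Es a e) σ = n * σ ^ (n - 1) * Es k g σ * Es a e σ
  lz : ∀ σ ∈ ball (0 : ℂ) r, σ ≠ 0 → Es k g σ * (deriv (Hd n f) σ * Dz n σ) -
    deriv (Es k g) σ * Dz n σ * Hd n f σ + Es k g σ ^ 3 * f σ = -1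

lemma Es_mer {a : ℤ} {e : ℂ → ℂ} (he : AnalyticAt ℂ e 0) : MeromorphicAt (Es a e) 0 := by
  unfold Es
  exact (MeromorphicAt.zpow (MeromorphicAt.id 0) a).mul he.meromorphicAt

lemma Dz_mer : MeromorphicAt (Dz n) 0 := by
  unfold Dz
  exact (MeromorphicAt.const _ _).div ((MeromorphicAt.const _ _).mul
    ((MeromorphicAt.id 0).pow _))

lemma Es_ne {a : ℤ} {e : ℂ → ℂ} {σ : ℂ} (h : σ ≠ 0) (he : e σ ≠ 0) : Es a e σ ≠ 0 :=
  mul_ne_zero (zpow_ne_zero a h) he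

lemma factor {P : ℂ → ℂ} (hP : MeromorphicAt P 0) (h : ∃ᶠ σ in 𝓝[≠] (0 : ℂ), P σ ≠ 0) :
    ∃ (a : ℤ) (e : ℂ → ℂ), AnalyticAt ℂ e 0 ∧ e 0 ≠ 0 ∧ ∀ᶠ σ in 𝓝[≠] (0 : ℂ), P σ = Es a e σ := by
  have h1 : ∀ᶠ σ in 𝓝[≠] (0 : ℂ), P σ ≠ 0 := by
    rcases hP.eventually_eq_zero_or_eventually_ne_zero with h2 | h2
    · exact absurd h2 (by rw [not_eventually]; exact h)
    · exact h2
  obtain ⟨g, gan, g0, hg⟩ := (meromorphicOrderAt_ne_top_iff hP).1
    ((meromorphicOrderAt_ne_top_iff_eventually_ne_zero hP).2 h1)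
  refine ⟨(meromorphicOrderAt P 0).untop₀, g, gan, g0, ?_⟩
  filter_upwards [hg] with σ h2
  rw [h2, sub_zero, smul_eq_mul]
  rfl

theorem exists_endS {θ H : ℂ → ℂ} (hθ : ∀ᶠ z in bl s, DifferentiableAt ℂ θ z)
    (hLZ : ∀ᶠ z in bl s, deriv θ z * deriv (deriv H) z - deriv (deriv θ) z * deriv H z +
      deriv θ z ^ 3 * H z = -1)
    (hn : 0 < n) {E F : ℂ → ℂ} (hE : MeromorphicAt E 0) (hF : MeromorphicAt F 0)
    (hEF : ∀ᶠ z in bl s, E (sg n s z) = Complex.exp (Complex.I * θ z) ∧ F (sg n s z) = H z)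
    {r0 : ℝ} (hr0 : 0 < r0) :
    ∃ (r : ℝ) (a k : ℤ) (e g f : ℂ → ℂ), r ^ n ≤ r0 ∧ EndS θ H s n r a k e g f := by
  have hnC : (n : ℂ) ≠ 0 := by exact_mod_cast hn.ne'
  have hto := sg_tendsto (s := s) hn
  -- `E`
  obtain ⟨a, e, ean, e0, he⟩ := factor hE (hto.frequently
    ((hEF.mono fun z h => by rw [h.1]; exact Complex.exp_ne_zero _ :
      ∀ᶠ z in bl s, E (sg n s z) ≠ 0).frequently))
  have hE1 : ∀ᶠ z in bl s, Complex.exp (Complex.I * θ z) = Es a e (sg n s z) := by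
    filter_upwards [hEF, hto.eventually he] with z h1 h2
    rw [← h1.1, h2]
  have hEm : MeromorphicAt (Es a e) 0 := Es_mer ean
  have hE2 := step_deriv hn hEm hE1
  have hne : ∀ᶠ z in bl s, sg n s z ≠ 0 := bl_basis.2 ⟨1, one_pos, fun z hz => sg_ne hn hz.2⟩
  -- `y`
  set Y0 : ℂ → ℂ := fun σ => deriv (Es a e) σ / (n * σ ^ (n - 1) * Es a e σ) with hY0
  have hY0m : MeromorphicAt Y0 0 :=
    hEm.deriv.div (((MeromorphicAt.const _ _).mul ((MeromorphicAt.id 0).pow _)).mul hEm)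
  have hy0 : ∀ᶠ z in bl s, deriv θ z = Y0 (sg n s z) := by
    filter_upwards [hE2, hE1, hθ, hne] with z h1 h2 h3 h4
    have h5 : deriv (fun z => Complex.exp (Complex.I * θ z)) z =
        Complex.exp (Complex.I * θ z) * (Complex.I * deriv θ z) :=
      ((h3.hasDerivAt.const_mul Complex.I).cexp).deriv
    rw [h5, h2] at h1
    have h6 : Es a e (sg n s z) ≠ 0 := by rw [← h2]; exact Complex.exp_ne_zero _
    have h7 : sg n s z ^ (n - 1) ≠ 0 := pow_ne_zero _ h4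
    have hI := Complex.I_ne_zero
    simp only [hY0]
    rw [eq_div_iff (mul_ne_zero (mul_ne_zero hnC h7) h6)]
    field_simp at h1
    linear_combination h1
  have hy0ne : ∃ᶠ σ in 𝓝[≠] (0 : ℂ), Y0 σ ≠ 0 := by
    rcases hY0m.eventually_eq_zero_or_eventually_ne_zero with h2 | h2
    · exfalso
      have h3 : ∀ᶠ z in bl s, deriv θ z = 0 := by
        filter_upwards [hy0, hto.eventually h2] with z h4 h5
        rw [h4, h5]
      obtain ⟨r, hr, h4⟩ := bl_basis.1 (h3.and hLZ)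
      have h5 : s + (r / 2 : ℝ) * (-Complex.I) ∈ HD s r :=
        path_mem (by simp) (by simp) (by linarith) (by linarith)
      obtain ⟨h6, h7⟩ := h4 _ h5
      have h8 : deriv θ =ᶠ[𝓝 (s + (r / 2 : ℝ) * (-Complex.I))] fun _ => 0 := by
        filter_upwards [(isOpen_HD s r).mem_nhds h5] with z hz using (h4 z hz).1
      rw [h6, h8.deriv_eq] at h7
      simp at h7
    · exact h2.frequently
  obtain ⟨k, g, gan, g0, hg⟩ := factor hY0m hy0ne
  have hyz : ∀ᶠ z in bl s, deriv θ z = Es k g (sg n s z) := by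
    filter_upwards [hy0, hto.eventually hg] with z h1 h2
    rw [h1, h2]
  have hYm : MeromorphicAt (Es k g) 0 := Es_mer gan
  have hyz' := step_deriv hn hYm hyz
  -- `H`
  have hHz : ∀ᶠ z in bl s, H z = F (sg n s z) := hEF.mono fun z h => h.2.symm
  have hHz' := step_deriv hn hF hHz
  have hHdm : MeromorphicAt (Hd n F) 0 := hF.deriv.mul Dz_mer
  have hHz'' := step_deriv (u := deriv H) (P := Hd n F) hn hHdm hHz'
  -- the relation
  have hlz : ∀ᶠ σ in 𝓝[≠] (0 : ℂ), Es k g σ * (deriv (Hd n F) σ * Dz n σ) -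
      deriv (Es k g) σ * Dz n σ * Hd n F σ + Es k g σ ^ 3 * F σ = -1 := by
    refine transfer (s := s) hn (P := fun σ => Es k g σ * (deriv (Hd n F) σ * Dz n σ) -
      deriv (Es k g) σ * Dz n σ * Hd n F σ + Es k g σ ^ 3 * F σ) (Q := fun _ => -1) ?_
      (MeromorphicAt.const _ _) ?_
    · exact ((hYm.mul (hHdm.deriv.mul Dz_mer)).sub ((hYm.deriv.mul Dz_mer).mul hHdm)).add
        ((hYm.pow 3).mul hF)
    · filter_upwards [hLZ, hyz, hyz', hHz, hHz', hHz''] with z h1 h2 h3 h4 h5 h6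
      rw [h2, h3, h4, h5, h6] at h1
      exact h1
  -- the radius in `σ`
  have hev : ∀ᶠ σ in 𝓝 (0 : ℂ), AnalyticAt ℂ e σ ∧ e σ ≠ 0 ∧ AnalyticAt ℂ g σ ∧ g σ ≠ 0 ∧
      (σ ≠ 0 → AnalyticAt ℂ F σ ∧ deriv (Es a e) σ = n * σ ^ (n - 1) * Es k g σ * Es a e σ ∧
        Es k g σ * (deriv (Hd n F) σ * Dz n σ) -
          deriv (Es k g) σ * Dz n σ * Hd n F σ + Es k g σ ^ 3 * F σ = -1) := by
    filter_upwards [ean.eventually_analyticAt, ean.continuousAt.eventually_ne e0,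
      gan.eventually_analyticAt, gan.continuousAt.eventually_ne g0,
      eventually_nhdsWithin_iff.1 hF.eventually_analyticAt, eventually_nhdsWithin_iff.1 hg,
      eventually_nhdsWithin_iff.1 hlz] with σ h1 h2 h3 h4 h5 h6 h7
    refine ⟨h1, h2, h3, h4, fun hσ => ⟨h5 hσ, ?_, h7 hσ⟩⟩
    have h8 := h6 hσ
    have h9 : Es a e σ ≠ 0 := Es_ne hσ h2
    have h10 : σ ^ (n - 1) ≠ 0 := pow_ne_zero _ hσ
    rw [← h8, hY0]
    field_simp
  obtain ⟨r1, hr1, hb⟩ := Metric.eventually_nhds_iff_ball.1 hev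
  obtain ⟨r2, hr2, hz⟩ := bl_basis.1 (hE1.and (hyz.and hHz))
  set r := min r1 (min 1 (min r0 r2)) with hr
  have hrp : 0 < r := lt_min hr1 (lt_min one_pos (lt_min hr0 hr2))
  have hrn : r ^ n ≤ min r0 r2 := by
    have h1 : r ≤ 1 := (min_le_right _ _).trans (min_le_left _ _)
    calc r ^ n ≤ r ^ 1 := pow_le_pow_of_le_one hrp.le h1 hn
      _ = r := pow_one _
      _ ≤ min r0 r2 := (min_le_right _ _).trans (min_le_right _ _)
  have hball : ∀ σ ∈ ball (0 : ℂ) r, _ := fun σ hσ => hb σ (ball_subset_ball (min_le_left _ _) hσ)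
  have hHD : ∀ z ∈ HD s (r ^ n), _ := fun z hz' => hz z (HD_mono (hrn.trans (min_le_right _ _)) hz')
  exact ⟨r, a, k, e, g, F, hrn.trans (min_le_left _ _),
    ⟨hn, hrp, fun σ h => (hball σ h).1, fun σ h => (hball σ h).2.1, fun σ h => (hball σ h).2.2.1,
      fun σ h => (hball σ h).2.2.2.1, hF, fun σ h h' => ((hball σ h).2.2.2.2 h').1,
      fun z h => (hHD z h).1, fun z h => (hHD z h).2.1, fun z h => (hHD z h).2.2,
      fun σ h h' => ((hball σ h).2.2.2.2 h').2.1, fun σ h h' => ((hball σ h).2.2.2.2 h').2.2⟩⟩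

end

end Crest.Agent.R102.End416
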