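import Crest.Agent.R102.VarA_575

/-!
Row 102, part (A) (helper575): realness of `Pq` and the bridge `varData_exists`.
-/

set_option autoImplicit false

open Set Filter Topology Metric Complex MeasureTheory
open scoped Real ContDiff

noncomputable section

namespace Crest.Agent.R102.A929

open Crest.Agent.R102.Var575

/-- (REAL) -/
theorem Pq_im {ρ C : ℝ} (_hL : LocQ ρ C) {q : C(ℂ, ℂ)} (hq : ∀ x : ℝ, (q x).im = 0) (x e : ℝ)
    (_h : ‖Xq q x e‖ < ρ) : (Pq q x e).im = 0 := im_Pq hq x e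

/-- (BR) -/
theorem varData_exists {ρ C : ℝ} (hL : LocQ ρ C) {q : C(ℂ, ℂ)} {q1 q2 : ℂ → ℂ} {B ε₀ ε₁ : ℝ}
    {M : ℝ → ℝ → ℝ} (hS : Sm q q1 q2 RR B) (hq : ∀ x : ℝ, (q x).im = 0)
    (hper : ∀ x : ℝ, q (x + 1) = q x) (hε₀ : 0 < ε₀) (hA : IsAct q ε₀ M) (hε₁ : 0 < ε₁)
    (hR : RStarP q ε₁) :
    ∃ m₀ C' : ℝ, 0 < m₀ ∧ m₀ ≤ 1 ∧ m₀ ≤ ε₀ ∧ 0 < C' ∧
      ∀ ε₁' : ℝ, 0 < ε₁' → ε₁' ≤ ε₁ → VarData (fun x e => (Pq q x e).re) M m₀ C' ε₁' := by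
  have hB := hS.B_ge
  have hCX := CX_ge hB
  have hρ := hL.ρ_pos
  set m₀ : ℝ := min (min 1 (ρ / (2 * CX B))) ε₀ with hm₀
  have hm : 0 < m₀ := lt_min (lt_min one_pos (by positivity)) hε₀
  have hm1 : m₀ ≤ 1 := (min_le_left _ _).trans (min_le_left _ _)
  have hm2 : CX B * m₀ < ρ := by
    have h1 : m₀ ≤ ρ / (2 * CX B) := (min_le_left _ _).trans (min_le_right _ _)
    calc CX B * m₀ ≤ CX B * (ρ / (2 * CX B)) := mul_le_mul_of_nonneg_left h1 (by linarith)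
      _ = ρ / 2 := by field_simp
      _ < ρ := by linarith
  have hm3 : m₀ ≤ ε₀ := min_le_right _ _
  refine ⟨m₀, CP C B, hm, hm1, hm3, (varData_of hL hS hq hper hA hε₁ hR hm hm1 hm2 hm3).C_pos, ?_⟩
  intro ε₁' h0 h1
  refine varData_of hL hS hq hper hA h0 ?_ hm hm1 hm2 hm3
  intro n j x hn hj hst hcl hcr
  exact hR n j x hn hj (fun i hi => ⟨(hst i hi).1, (hst i hi).2.trans_le h1⟩) hcl hcr

/-- defect of the reflection law as a complex number -/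
theorem EP_eq_EPr {q : C(ℂ, ℂ)} (hq : ∀ x : ℝ, (q x).im = 0) (a b c : ℝ) :
    EP q a b c = ((EPr (fun x e => (Pq q x e).re) a b c : ℝ) : ℂ) := EP_real hq a b c

end Crest.Agent.R102.A929
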