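import Crest.Agent.R102.MeanA_262
import Crest.Agent.R102.RealA_575
import Crest.Agent.R102.End1_575

/-!
Row 102, part (A) (helper575): the `n`-th Fourier mode of the defect is controlled by the
oscillation of the action.
-/

set_option autoImplicit false

open Set Filter Topology Metric Complex MeasureTheory
open scoped Real ContDiff ComplexConjugate

noncomputable section

namespace Crest.Agent.R102.A929

lemma ee_nat (n : ℕ) : ee (n : ℂ) = 1 := by
  have := ee_int (n : ℤ)
  simpa using this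

lemma norm_ee_real (n : ℕ) (x : ℝ) : ‖ee (-(n * x))‖ = 1 := by
  rw [norm_ee]; simp

/-- **mode lemma** -/
theorem mode_real {ρ C : ℝ} (hL : LocQ ρ C) {q : C(ℂ, ℂ)} (hqp : ∀ x : ℝ, q (x + 1) = q x)
    {ε : ℝ} {M : ℝ → ℝ → ℝ} (hM : IsAct q ε M) {s s' : ℝ → ℝ} (hs : ∀ x, HasDerivAt s (s' x) x)
    (hs' : Continuous s') (hper : ∀ x, s (x + 1) = s x + 1) {n : ℕ} (hn : 0 < n) {w : ℝ}
    (hnw : (n : ℝ) * w = 1)
    (hw : ∀ x, 0 < s (x + w) - s x ∧ s (x + w) - s x < ε)
    (hX : ∀ x, ‖Xq q (s x) ((s (x + w) : ℂ) - s x)‖ < ρ)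
    (hX' : ∀ x, ‖Xq q (s x) (-((s x : ℂ) - s (x - w)))‖ < ρ) {A₀ R : ℝ}
    (hR : ∀ t, |∑ i ∈ Finset.range n, M (s (t + i * w)) (s (t + (i + 1) * w)) - A₀| ≤ R) :
    ‖∫ x in (0 : ℝ)..1, (((EP q (s (x - w)) (s x) (s (x + w))).re * s' x : ℝ) : ℂ) *
      ee (-(n * x))‖ ≤ 2 * π * R := by
  have hsc : Continuous s := continuous_iff_continuousAt.2 (fun x => (hs x).continuousAt)
  have hn0 : (0 : ℝ) < n := by exact_mod_cast hn
  have hnw' : (n : ℂ) * (w : ℂ) = 1 := by exact_mod_cast hnw
  set P : ℝ → ℝ := fun x => (Pq q (s x) ((s (x + w) : ℂ) - s x)).re with hP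
  set N : ℝ → ℝ := fun x => (Pq q (s x) (-((s x : ℂ) - s (x - w)))).re with hN
  set e : ℝ → ℂ := fun x => ee (-(n * x)) with he
  have hec : Continuous e := continuous_ee.comp (by fun_prop)
  have hed : ∀ x : ℝ, HasDerivAt e (-(2 * π * I * n) * e x) x := by
    intro x
    have h1 : HasDerivAt (fun x : ℝ => -((n : ℂ) * (x : ℂ))) (-(n : ℂ)) x := by
      have := ((hasDerivAt_id (x : ℂ)).const_mul (n : ℂ)).neg.comp_ofReal
      simpa using this
    have h2 := (hasDerivAt_ee (-((n : ℂ) * (x : ℂ)))).comp x h1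
    refine h2.congr_deriv ?_
    simp only [he]
    ring
  have hew : ∀ x : ℝ, e (x + w) = e x := by
    intro x
    simp only [he]
    have : -((n : ℂ) * ((x + w : ℝ) : ℂ)) = -(n * x) + -(((1 : ℕ) : ℂ)) := by
      push_cast
      linear_combination (-1 : ℂ) * hnw'
    have h1 : ee (-(((1 : ℕ) : ℂ))) = 1 := by rw [ee_neg, ee_nat, inv_one]
    rw [this, ee_add, h1, mul_one]
  have he1 : ∀ x : ℝ, e (x + 1) = e x := by
    intro x
    simp only [he]
    have : -((n : ℂ) * ((x + 1 : ℝ) : ℂ)) = -(n * x) + -((n : ℂ)) := by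
      push_cast; ring
    have h1 : ee (-(n : ℂ)) = 1 := by rw [ee_neg, ee_nat, inv_one]
    rw [this, ee_add, h1, mul_one]
  have hen : ∀ x, ‖e x‖ = 1 := fun x => norm_ee_real n x
  have hPc : Continuous P := Complex.continuous_re.comp (continuous_Pq_comp hL q
    (Complex.continuous_ofReal.comp hsc)
    ((Complex.continuous_ofReal.comp (hsc.comp (continuous_id.add continuous_const))).sub
      (Complex.continuous_ofReal.comp hsc)) hX)
  have hNc : Continuous N := Complex.continuous_re.comp (continuous_Pq_comp hL q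
    (Complex.continuous_ofReal.comp hsc)
    ((Complex.continuous_ofReal.comp hsc).sub
      (Complex.continuous_ofReal.comp (hsc.comp (continuous_id.sub continuous_const)))).neg hX')
  set m : ℝ → ℝ := fun x => M (s x) (s (x + w)) with hm
  have hder : ∀ x, HasDerivAt m (-(P x) * s' x + N (x + w) * s' (x + w)) x := by
    intro x
    have h1 := hM.d (s x) (s (x + w)) (by linarith [(hw x).1]) (hw x).2
    have h2 : HasDerivAt (fun x => (s x, s (x + w))) (s' x, s' (x + w)) x :=
      (hs x).prodMk ((hs (x + w)).comp_add_const x w)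
    have h3 := HasFDerivAt.comp_hasDerivAt (f := fun x => (s x, s (x + w)))
      (l := fun p : ℝ × ℝ => M p.1 p.2) x h1 h2
    refine h3.congr_deriv ?_
    simp only [add_apply, smul_apply, ContinuousLinearMap.coe_fst', ContinuousLinearMap.coe_snd',
      smul_eq_mul, hP, hN]
    rw [add_sub_cancel_right]
  have hmc : Continuous m := continuous_iff_continuousAt.2 (fun x => (hder x).continuousAt)
  have hcont1 : Continuous (fun x => ((-(P x) * s' x : ℝ) : ℂ) * e x) :=
    (Complex.continuous_ofReal.comp (hPc.neg.mul hs')).mul hec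
  have hcont2 : Continuous (fun x => ((N x * s' x : ℝ) : ℂ) * e x) :=
    (Complex.continuous_ofReal.comp (hNc.mul hs')).mul hec
  have hcont3 : Continuous (fun x => ((N (x + w) * s' (x + w) : ℝ) : ℂ) * e x) :=
    (Complex.continuous_ofReal.comp ((hNc.mul hs').comp (continuous_id.add continuous_const))).mul hec
  have hcont4 : Continuous (fun x => ((m x : ℝ) : ℂ) * e x) :=
    (Complex.continuous_ofReal.comp hmc).mul hec
  -- product rule and periodicity
  have hprod : ∀ x, HasDerivAt (fun x => ((m x : ℝ) : ℂ) * e x)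
      ((((-(P x) * s' x : ℝ) : ℂ) * e x + ((N (x + w) * s' (x + w) : ℝ) : ℂ) * e x) +
        -(2 * π * I * n) * (((m x : ℝ) : ℂ) * e x)) x := by
    intro x
    have h1 := (hder x).ofReal_comp.mul (hed x)
    refine h1.congr_deriv ?_
    push_cast
    ring
  have hcont13 : Continuous (fun x => ((-(P x) * s' x : ℝ) : ℂ) * e x +
      ((N (x + w) * s' (x + w) : ℝ) : ℂ) * e x) := hcont1.add hcont3
  have hcont4' : Continuous (fun x => -(2 * π * I * n) * (((m x : ℝ) : ℂ) * e x)) :=
    continuous_const.mul hcont4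
  have hcont134 : Continuous (fun x => (((-(P x) * s' x : ℝ) : ℂ) * e x +
      ((N (x + w) * s' (x + w) : ℝ) : ℂ) * e x) + -(2 * π * I * n) * (((m x : ℝ) : ℂ) * e x)) :=
    hcont13.add hcont4'
  have hmper : ∀ x, m (x + 1) = m x := by
    intro x
    simp only [hm]
    have e1 : x + 1 + w = (x + w) + 1 := by ring
    rw [e1, hper, hper, hM.per]
  have hint := intervalIntegral.integral_eq_sub_of_hasDerivAt (a := (0 : ℝ)) (b := 1)
    (fun x _ => hprod x) (hcont134.intervalIntegrable _ _)
  have hend : ((m 1 : ℝ) : ℂ) * e 1 = ((m 0 : ℝ) : ℂ) * e 0 := by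
    have h1 := hmper 0
    have h2 := he1 0
    rw [zero_add] at h1 h2
    rw [h1, h2]
  rw [hend, sub_self, intervalIntegral.integral_add
    (hcont13.intervalIntegrable _ _) (hcont4'.intervalIntegrable _ _),
    intervalIntegral.integral_add (hcont1.intervalIntegrable _ _) (hcont3.intervalIntegrable _ _),
    intervalIntegral.integral_const_mul] at hint
  -- periodicity of `N x * s' x`
  have hs'per : ∀ x, s' (x + 1) = s' x := by
    intro x
    have h1 : HasDerivAt (fun y => s (y + 1)) (s' (x + 1)) x := (hs (x + 1)).comp_add_const x 1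
    have h2 : HasDerivAt (fun y => s (y + 1)) (s' x) x := by
      have : (fun y => s (y + 1)) = fun y => s y + 1 := funext hper
      rw [this]
      exact (hs x).add_const 1
    exact h1.unique h2
  have hNper : Function.Periodic (fun x => ((N x * s' x : ℝ) : ℂ) * e x) 1 := by
    intro x
    have e1 : N (x + 1) = N x := by
      simp only [hN]
      have e2 : s (x + 1 - w) = s (x - w) + 1 := by
        rw [← hper]; congr 1; ring
      rw [hper, e2]
      have e3 : (-(((s x + 1 : ℝ) : ℂ) - ((s (x - w) + 1 : ℝ) : ℂ))) =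
          ((-(s x - s (x - w)) : ℝ) : ℂ) := by push_cast; ring
      have e4 : (-((s x : ℂ) - (s (x - w) : ℂ))) = ((-(s x - s (x - w)) : ℝ) : ℂ) := by
        push_cast; ring
      rw [e3, e4, Complex.ofReal_add, Complex.ofReal_one, Pq_periodic hqp]
    change ((N (x + 1) * s' (x + 1) : ℝ) : ℂ) * e (x + 1) = ((N x * s' x : ℝ) : ℂ) * e x
    rw [e1, hs'per, he1]
  have hshift : ∫ x in (0 : ℝ)..1, ((N (x + w) * s' (x + w) : ℝ) : ℂ) * e x =
      ∫ x in (0 : ℝ)..1, ((N x * s' x : ℝ) : ℂ) * e x := by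
    have h0 : ∫ x in (0 : ℝ)..1, ((N (x + w) * s' (x + w) : ℝ) : ℂ) * e x =
        ∫ x in (0 : ℝ)..1, ((N (x + w) * s' (x + w) : ℝ) : ℂ) * e (x + w) := by
      refine intervalIntegral.integral_congr (fun x _ => ?_)
      change _ * e x = _ * e (x + w)
      rw [hew]
    have h1 := intervalIntegral.integral_comp_add_right
      (fun x => ((N x * s' x : ℝ) : ℂ) * e x) w (a := 0) (b := 1)
    have h2 := hNper.intervalIntegral_add_eq w 0
    rw [h0]
    refine h1.trans ?_
    rw [zero_add, add_comm (1 : ℝ) w]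
    refine h2.trans ?_
    rw [zero_add]
  rw [hshift, ← intervalIntegral.integral_add (hcont1.intervalIntegrable _ _)
    (hcont2.intervalIntegrable _ _)] at hint
  have hE : ∫ x in (0 : ℝ)..1, (((EP q (s (x - w)) (s x) (s (x + w))).re * s' x : ℝ) : ℂ) *
      ee (-(n * x)) = (2 * π * I * n) * ∫ x in (0 : ℝ)..1, ((m x : ℝ) : ℂ) * e x := by
    have h1 : ∫ x in (0 : ℝ)..1, (((EP q (s (x - w)) (s x) (s (x + w))).re * s' x : ℝ) : ℂ) *
      ee (-(n * x)) = ∫ x in (0 : ℝ)..1, (((-(P x) * s' x : ℝ) : ℂ) * e x +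
        ((N x * s' x : ℝ) : ℂ) * e x) := by
      refine intervalIntegral.integral_congr (fun x _ => ?_)
      change (((EP q (s (x - w)) (s x) (s (x + w))).re * s' x : ℝ) : ℂ) * e x =
        ((-(P x) * s' x : ℝ) : ℂ) * e x + ((N x * s' x : ℝ) : ℂ) * e x
      unfold EP
      rw [Complex.sub_re, ← add_mul]
      congr 1
      simp only [hP, hN]
      push_cast
      ring
    rw [h1]
    linear_combination hint
  rw [hE]
  -- the average
  have hmE : Function.Periodic (fun x => ((m x : ℝ) : ℂ) * e x) 1 := by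
    intro x
    change ((m (x + 1) : ℝ) : ℂ) * e (x + 1) = ((m x : ℝ) : ℂ) * e x
    rw [hmper, he1]
  have hewi : ∀ (i : ℕ) (x : ℝ), e (x + i * w) = e x := by
    intro i
    induction i with
    | zero => intro x; simp
    | succ i ih =>
      intro x
      have : x + ((i + 1 : ℕ) : ℝ) * w = (x + i * w) + w := by push_cast; ring
      rw [this, hew, ih]
  have hmi : ∀ i : ℕ, ∫ x in (0 : ℝ)..1, ((m (x + i * w) : ℝ) : ℂ) * e x =
      ∫ x in (0 : ℝ)..1, ((m x : ℝ) : ℂ) * e x := by
    intro i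
    have h0 : ∫ x in (0 : ℝ)..1, ((m (x + i * w) : ℝ) : ℂ) * e x =
        ∫ x in (0 : ℝ)..1, ((m (x + i * w) : ℝ) : ℂ) * e (x + i * w) := by
      refine intervalIntegral.integral_congr (fun x _ => ?_)
      change _ * e x = _ * e (x + i * w)
      rw [hewi]
    have h1 := intervalIntegral.integral_comp_add_right
      (fun x => ((m x : ℝ) : ℂ) * e x) (i * w) (a := 0) (b := 1)
    have h2 := hmE.intervalIntegral_add_eq (i * w) 0
    rw [h0]
    refine h1.trans ?_
    rw [zero_add, add_comm (1 : ℝ) (i * w)]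
    refine h2.trans ?_
    rw [zero_add]
  have hcmi : ∀ i : ℕ, Continuous (fun x : ℝ => ((m (x + i * w) : ℝ) : ℂ) * e x) := fun i =>
    (Complex.continuous_ofReal.comp (hmc.comp (continuous_id.add continuous_const))).mul hec
  have he0 : ∫ x in (0 : ℝ)..1, e x = 0 := by
    have h1 := intervalIntegral.integral_eq_sub_of_hasDerivAt (a := (0 : ℝ)) (b := 1)
      (fun x _ => hed x) ((continuous_const.mul hec).intervalIntegrable _ _)
    have h2 := he1 0
    rw [zero_add] at h2
    rw [h2, sub_self, intervalIntegral.integral_const_mul] at h1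
    refine (mul_eq_zero.1 h1).resolve_left (neg_ne_zero.2 ?_)
    have : (n : ℂ) ≠ 0 := by exact_mod_cast hn.ne'
    have hpi : (π : ℂ) ≠ 0 := by exact_mod_cast Real.pi_ne_zero
    simp [this, hpi, Complex.I_ne_zero]
  have hsum : ∫ x in (0 : ℝ)..1, (((∑ i ∈ Finset.range n, M (s (x + i * w)) (s (x + (i + 1) * w)) - A₀ :
      ℝ)) : ℂ) * e x = (n : ℂ) * ∫ x in (0 : ℝ)..1, ((m x : ℝ) : ℂ) * e x := by
    have h1 : ∀ x : ℝ, (((∑ i ∈ Finset.range n, M (s (x + i * w)) (s (x + (i + 1) * w)) - A₀ :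
        ℝ)) : ℂ) * e x = (∑ i ∈ Finset.range n, ((m (x + i * w) : ℝ) : ℂ) * e x) - A₀ * e x := by
      intro x
      push_cast
      rw [sub_mul, Finset.sum_mul]
      congr 1
      refine Finset.sum_congr rfl (fun i _ => ?_)
      simp only [hm]
      have : x + (i : ℝ) * w + w = x + ((i : ℝ) + 1) * w := by ring
      rw [this]
    simp_rw [h1]
    rw [intervalIntegral.integral_sub, intervalIntegral.integral_finsetSum]
    · simp_rw [hmi]
      rw [intervalIntegral.integral_const_mul, he0, mul_zero, sub_zero, Finset.sum_const,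
        Finset.card_range, nsmul_eq_mul]
    · intro i _
      exact (hcmi i).intervalIntegrable _ _
    · exact (continuous_finsetSum _ (fun i _ => hcmi i)).intervalIntegrable _ _
    · exact (continuous_const.mul hec).intervalIntegrable _ _
  have hnorm : ‖(n : ℂ) * ∫ x in (0 : ℝ)..1, ((m x : ℝ) : ℂ) * e x‖ ≤ R := by
    rw [← hsum]
    have h1 := intervalIntegral.norm_integral_le_of_norm_le_const (a := (0 : ℝ)) (b := 1) (C := R)
      (f := fun x : ℝ => (((∑ i ∈ Finset.range n, M (s (x + i * w)) (s (x + (i + 1) * w)) - A₀ :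
        ℝ)) : ℂ) * e x) (fun x _ => by
        rw [norm_mul, hen, mul_one, Complex.norm_real]
        exact hR x)
    simpa using h1
  have hfin : (2 * π * I * n) * ∫ x in (0 : ℝ)..1, ((m x : ℝ) : ℂ) * e x =
      (2 * π * I) * ((n : ℂ) * ∫ x in (0 : ℝ)..1, ((m x : ℝ) : ℂ) * e x) := by ring
  rw [hfin, norm_mul]
  have h2pi : ‖(2 * π * I : ℂ)‖ = 2 * π := by
    simp [abs_of_pos Real.pi_pos]
  rw [h2pi]
  exact mul_le_mul_of_nonneg_left hnorm (by positivity)

end Crest.Agent.R102.A929
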