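import Crest.Agent.R102.HolA_929

/-!
Row 102, part (A) (helper262): continuity of `Xq`, `Pq`; (MEAN): the mean of the defect of the
reflection law of a family `S` against `S'` vanishes; (NEG): negative Fourier coefficients.
-/

set_option autoImplicit false

open Set Filter Topology Metric Complex MeasureTheory
open scoped Real ContDiff

noncomputable section

namespace Crest.Agent.R102.A929

/-! ### continuity -/

lemma continuous_dq (q : C(ℂ, ℂ)) : Continuous (fun p : ℂ × ℂ => dq q p.1 p.2) := by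
  have h : Continuous (Function.uncurry (fun (p : ℂ × ℂ) (r : unitInterval) =>
      q (p.1 + p.2 * ((r : ℝ) : ℂ)) - q p.1)) := by
    unfold Function.uncurry
    fun_prop
  exact ContinuousMap.continuous_of_continuous_uncurry
    (f := fun p : ℂ × ℂ => (⟨fun r => q (p.1 + p.2 * ((r : ℝ) : ℂ)) - q p.1, by fun_prop⟩ :
      C(unitInterval, ℂ))) h

lemma continuous_Xq (q : C(ℂ, ℂ)) : Continuous (fun p : ℂ × ℂ => Xq q p.1 p.2) := by
  unfold Xq
  exact (continuous_dq q).prodMk (by fun_prop)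

lemma continuousAt_Pq {ρ C : ℝ} (hL : LocQ ρ C) (q : C(ℂ, ℂ)) {p : ℂ × ℂ}
    (hp : ‖Xq q p.1 p.2‖ < ρ) : ContinuousAt (fun p : ℂ × ℂ => Pq q p.1 p.2) p := by
  unfold Pq
  refine (continuousAt_snd.pow 2).mul ?_
  exact ContinuousAt.comp (g := Qf) (f := fun p : ℂ × ℂ => Xq q p.1 p.2)
    (hL.an _ hp).continuousAt (continuous_Xq q).continuousAt

lemma continuous_Pq_comp {ρ C : ℝ} (hL : LocQ ρ C) (q : C(ℂ, ℂ)) {a b : ℝ → ℂ}
    (ha : Continuous a) (hb : Continuous b) (h : ∀ x, ‖Xq q (a x) (b x)‖ < ρ) :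
    Continuous (fun x => Pq q (a x) (b x)) := by
  rw [continuous_iff_continuousAt]
  intro x
  exact ContinuousAt.comp (g := fun p : ℂ × ℂ => Pq q p.1 p.2) (f := fun x => (a x, b x))
    (continuousAt_Pq hL q (h x)) (ha.prodMk hb).continuousAt

lemma Pq_periodic {q : C(ℂ, ℂ)} (hqp : ∀ x : ℝ, q (x + 1) = q x) (x e : ℝ) :
    Pq q ((x : ℂ) + 1) e = Pq q x e := by
  have h1 : dq q ((x : ℂ) + 1) e = dq q x e := by
    refine AA.ext' (fun r => ?_)
    rw [dq_apply, dq_apply, hqp x]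
    have := hqp (x + e * r)
    push_cast at this
    rw [← this]
    congr 2
    ring
  unfold Pq Xq
  rw [h1, hqp x]

/-! ### (MEAN) -/

theorem mean_real {ρ C : ℝ} (hL : LocQ ρ C) {q : C(ℂ, ℂ)} (hqp : ∀ x : ℝ, q (x + 1) = q x)
    {ε : ℝ} {M : ℝ → ℝ → ℝ} (hM : IsAct q ε M) {s s' : ℝ → ℝ} (hs : ∀ x, HasDerivAt s (s' x) x)
    (hs' : Continuous s') (hper : ∀ x, s (x + 1) = s x + 1) {w : ℝ}
    (hw : ∀ x, 0 < s (x + w) - s x ∧ s (x + w) - s x < ε)
    (hX : ∀ x, ‖Xq q (s x) ((s (x + w) : ℂ) - s x)‖ < ρ)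
    (hX' : ∀ x, ‖Xq q (s x) (-((s x : ℂ) - s (x - w)))‖ < ρ) :
    ∫ x in (0 : ℝ)..1, (EP q (s (x - w)) (s x) (s (x + w))).re * s' x = 0 := by
  have hsc : Continuous s := continuous_iff_continuousAt.2 (fun x => (hs x).continuousAt)
  set P : ℝ → ℝ := fun x => (Pq q (s x) ((s (x + w) : ℂ) - s x)).re with hP
  set N : ℝ → ℝ := fun x => (Pq q (s x) (-((s x : ℂ) - s (x - w)))).re with hN
  have hPc : Continuous P := Complex.continuous_re.comp (continuous_Pq_comp hL q
    (Complex.continuous_ofReal.comp hsc)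
    ((Complex.continuous_ofReal.comp (hsc.comp (continuous_id.add continuous_const))).sub
      (Complex.continuous_ofReal.comp hsc)) hX)
  have hNc : Continuous N := Complex.continuous_re.comp (continuous_Pq_comp hL q
    (Complex.continuous_ofReal.comp hsc)
    ((Complex.continuous_ofReal.comp hsc).sub
      (Complex.continuous_ofReal.comp (hsc.comp (continuous_id.sub continuous_const)))).neg hX')
  have hder : ∀ x, HasDerivAt (fun x => M (s x) (s (x + w)))
      (-(P x) * s' x + N (x + w) * s' (x + w)) x := by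
    intro x
    have h1 := hM.d (s x) (s (x + w)) (by linarith [(hw x).1]) (hw x).2
    have h2 : HasDerivAt (fun x => (s x, s (x + w))) (s' x, s' (x + w)) x :=
      (hs x).prodMk ((hs (x + w)).comp_add_const x w)
    have h3 := HasFDerivAt.comp_hasDerivAt (f := fun x => (s x, s (x + w)))
      (l := fun p : ℝ × ℝ => M p.1 p.2) x h1 h2
    refine h3.congr_deriv ?_
    simp only [add_apply, smul_apply, ContinuousLinearMap.coe_fst', ContinuousLinearMap.coe_snd',
      smul_eq_mul, hP, hN]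
    rw [add_sub_cancel_right]
  have hcont1 : Continuous (fun x => -(P x) * s' x) := hPc.neg.mul hs'
  have hcont2 : Continuous (fun x => N x * s' x) := hNc.mul hs'
  have hcont3 : Continuous (fun x => N (x + w) * s' (x + w)) :=
    hcont2.comp (continuous_id.add continuous_const)
  have hint := intervalIntegral.integral_eq_sub_of_hasDerivAt (a := (0 : ℝ)) (b := 1)
    (fun x _ => hder x) ((hcont1.add hcont3).intervalIntegrable _ _)
  have hMp : M (s 1) (s (1 + w)) = M (s 0) (s (0 + w)) := by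
    have h1 := hper 0
    have h2 := hper w
    rw [zero_add] at h1
    rw [zero_add, add_comm (1 : ℝ) w, h1, h2, hM.per]
  rw [hMp, sub_self, intervalIntegral.integral_add (hcont1.intervalIntegrable _ _)
    (hcont3.intervalIntegrable _ _)] at hint
  -- periodicity of `N x * s' x`
  have hs'per : ∀ x, s' (x + 1) = s' x := by
    intro x
    have h1 : HasDerivAt (fun y => s (y + 1)) (s' (x + 1)) x := (hs (x + 1)).comp_add_const x 1
    have h2 : HasDerivAt (fun y => s (y + 1)) (s' x) x := by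
      have : (fun y => s (y + 1)) = fun y => s y + 1 := funext hper
      rw [this]
      exact (hs x).add_const 1
    exact h1.unique h2
  have hNper : Function.Periodic (fun x => N x * s' x) 1 := by
    intro x
    have e1 : N (x + 1) = N x := by
      simp only [hN]
      have e2 : s (x + 1 - w) = s (x - w) + 1 := by
        rw [← hper]; congr 1; ring
      rw [hper, e2]
      have e3 : (-(((s x + 1 : ℝ) : ℂ) - ((s (x - w) + 1 : ℝ) : ℂ))) =
          ((-(s x - s (x - w)) : ℝ) : ℂ) := by push_cast; ring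
      have e4 : (-((s x : ℂ) - (s (x - w) : ℂ))) = ((-(s x - s (x - w)) : ℝ) : ℂ) := by
        push_cast; ring
      rw [e3, e4, Complex.ofReal_add, Complex.ofReal_one, Pq_periodic hqp]
    change N (x + 1) * s' (x + 1) = N x * s' x
    rw [e1, hs'per]
  have hshift : ∫ x in (0 : ℝ)..1, N (x + w) * s' (x + w) = ∫ x in (0 : ℝ)..1, N x * s' x := by
    have h1 := intervalIntegral.integral_comp_add_right (fun x => N x * s' x) w (a := 0) (b := 1)
    have h2 := hNper.intervalIntegral_add_eq w 0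
    refine h1.trans ?_
    rw [zero_add, add_comm (1 : ℝ) w]
    refine h2.trans ?_
    rw [zero_add]
  rw [hshift, ← intervalIntegral.integral_add (hcont1.intervalIntegrable _ _)
    (hcont2.intervalIntegrable _ _)] at hint
  refine Eq.trans ?_ hint
  refine intervalIntegral.integral_congr (fun x _ => ?_)
  change (EP q (s (x - w)) (s x) (s (x + w))).re * s' x = -(P x) * s' x + N x * s' x
  unfold EP
  rw [Complex.sub_re]
  simp only [hP, hN]
  ring

/-- (MEAN) -/
theorem mean_EP {ρ C : ℝ} (hL : LocQ ρ C) {q : C(ℂ, ℂ)} (hqp : ∀ x : ℝ, q (x + 1) = q x)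
    {ε : ℝ} {M : ℝ → ℝ → ℝ} (hM : IsAct q ε M) {v : ℂ → ℂ} (hv : Differentiable ℂ v)
    (hvp : ∀ z, v (z + 1) = v z) (hvr : ∀ x : ℝ, (v x).im = 0) (n : ℕ)
    (hw : ∀ x : ℝ, 0 < 1 / (n : ℝ) + (v (x + 1 / n)).re - (v x).re ∧
      1 / (n : ℝ) + (v (x + 1 / n)).re - (v x).re < ε)
    (hX : ∀ x : ℝ, ‖Xq q (x + v x) ((x + 1 / n + v (x + 1 / n)) - (x + v x))‖ < ρ)
    (hX' : ∀ x : ℝ, ‖Xq q (x + v x) (-((x + v x) - (x - 1 / n + v (x - 1 / n))))‖ < ρ) :
    ∫ x in (0 : ℝ)..1, (EP q (x - 1 / n + v (x - 1 / n)) (x + v x)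
      (x + 1 / n + v (x + 1 / n))).re * (1 + (deriv v x).re) = 0 := by
  have hvre : ∀ x : ℝ, ((v x).re : ℂ) = v x := fun x => Complex.ext rfl (by simp [hvr x])
  have hvd : ∀ x : ℝ, HasDerivAt (fun x : ℝ => (v x).re) (deriv v x).re x := fun x =>
    (hv x).hasDerivAt.real_of_complex
  have hvc : Continuous (deriv v) := continuous_deriv_of_entire hv
  set s : ℝ → ℝ := fun x => x + (v x).re with hs
  have hsC : ∀ x : ℝ, (s x : ℂ) = x + v x := by
    intro x
    simp only [hs]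
    push_cast
    rw [hvre x]
  have hsp : ∀ x : ℝ, (s (x + 1 / n) : ℂ) = x + 1 / n + v (x + 1 / n) := by
    intro x
    rw [hsC]
    push_cast
    ring
  have hsm : ∀ x : ℝ, (s (x - 1 / n) : ℂ) = x - 1 / n + v (x - 1 / n) := by
    intro x
    rw [hsC]
    push_cast
    ring
  have h := mean_real hL hqp hM (s := s) (s' := fun x => 1 + (deriv v x).re) (w := 1 / n)
    (fun x => (hasDerivAt_id x).add (hvd x))
    (continuous_const.add (Complex.continuous_re.comp (hvc.comp Complex.continuous_ofReal)))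
    (fun x => by
      simp only [hs]
      have := hvp x
      push_cast
      rw [this]; ring)
    (fun x => by
      have h1 := hw x
      have e1 : s (x + 1 / n) - s x = 1 / (n : ℝ) + (v (x + 1 / n)).re - (v x).re := by
        simp only [hs]
        push_cast
        ring
      rw [e1]
      exact h1)
    (fun x => by rw [hsp, hsC]; exact hX x) (fun x => by rw [hsm, hsC]; exact hX' x)
  refine Eq.trans ?_ h
  refine intervalIntegral.integral_congr (fun x _ => ?_)
  change _ = (EP q (s (x - 1 / n)) (s x) (s (x + 1 / n))).re * (1 + (deriv v x).re)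
  rw [hsp, hsm, hsC]

lemma deriv_im_zero {v : ℂ → ℂ} (hv : Differentiable ℂ v) (hvr : ∀ x : ℝ, (v x).im = 0) (x : ℝ) :
    (deriv v x).im = 0 := by
  have h1 : HasDerivAt (fun x : ℝ => v x) (deriv v x) x := (hv x).hasDerivAt.comp_ofReal
  have h2 : HasDerivAt (fun x : ℝ => (v x).im) (deriv v x).im x := by
    exact (Complex.imCLM.hasFDerivAt.comp_hasDerivAt x h1)
  have h3 : (fun x : ℝ => (v x).im) = fun _ => 0 := funext hvr
  rw [h3] at h2
  exact h2.unique (hasDerivAt_const x (0 : ℝ))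

/-- (MEAN), complex form -/
theorem mean_EP_complex {ρ C : ℝ} (hL : LocQ ρ C) {q : C(ℂ, ℂ)}
    (hqp : ∀ x : ℝ, q (x + 1) = q x)
    {ε : ℝ} {M : ℝ → ℝ → ℝ} (hM : IsAct q ε M) {v : ℂ → ℂ} (hv : Differentiable ℂ v)
    (hvp : ∀ z, v (z + 1) = v z) (hvr : ∀ x : ℝ, (v x).im = 0) (n : ℕ)
    (hw : ∀ x : ℝ, 0 < 1 / (n : ℝ) + (v (x + 1 / n)).re - (v x).re ∧
      1 / (n : ℝ) + (v (x + 1 / n)).re - (v x).re < ε)
    (hX : ∀ x : ℝ, ‖Xq q (x + v x) ((x + 1 / n + v (x + 1 / n)) - (x + v x))‖ < ρ)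
    (hX' : ∀ x : ℝ, ‖Xq q (x + v x) (-((x + v x) - (x - 1 / n + v (x - 1 / n))))‖ < ρ)
    (him : ∀ x : ℝ, (EP q (x - 1 / n + v (x - 1 / n)) (x + v x)
      (x + 1 / n + v (x + 1 / n))).im = 0) :
    ∫ x in (0 : ℝ)..1, EP q (x - 1 / n + v (x - 1 / n)) (x + v x)
      (x + 1 / n + v (x + 1 / n)) * (1 + deriv v x) = 0 := by
  have h := mean_EP hL hqp hM hv hvp hvr n hw hX hX'
  have h2 : ∫ x in (0 : ℝ)..1, EP q (x - 1 / n + v (x - 1 / n)) (x + v x)
      (x + 1 / n + v (x + 1 / n)) * (1 + deriv v x) =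
      ((∫ x in (0 : ℝ)..1, (EP q (x - 1 / n + v (x - 1 / n)) (x + v x)
        (x + 1 / n + v (x + 1 / n))).re * (1 + (deriv v x).re) : ℝ) : ℂ) := by
    rw [← intervalIntegral.integral_ofReal]
    refine intervalIntegral.integral_congr (fun x _ => ?_)
    beta_reduce
    apply Complex.ext
    · rw [Complex.ofReal_re, Complex.mul_re, him x]; simp
    · rw [Complex.ofReal_im, Complex.mul_im, him x]
      simp [deriv_im_zero hv hvr x]
  rw [h2, h, Complex.ofReal_zero]

/-! ### (NEG) -/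

lemma conj_ee_262 (z : ℂ) : (starRingEnd ℂ) (ee z) = ee (-(starRingEnd ℂ) z) := by
  unfold ee
  rw [← Complex.exp_conj, map_mul, map_mul, map_mul, Complex.conj_I, Complex.conj_ofReal]
  have : (starRingEnd ℂ) 2 = 2 := Complex.conj_ofNat 2
  rw [this]
  congr 1
  ring

/-- for real `g` the coefficient of index `-k` is the conjugate of that of index `k` -/
lemma coeff_conj (g : ℝ → ℝ) (k : ℤ) :
    ∫ x in (0 : ℝ)..1, (g x : ℂ) * ee (-(((-k : ℤ) : ℂ) * x)) =
      (starRingEnd ℂ) (∫ x in (0 : ℝ)..1, (g x : ℂ) * ee (-(k * x))) := by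
  rw [intervalIntegral.integral_of_le zero_le_one, intervalIntegral.integral_of_le zero_le_one,
    ← integral_conj]
  congr 1
  ext x
  rw [map_mul, Complex.conj_ofReal, conj_ee_262]
  congr 2
  simp

theorem coeff_neg {g : ℝ → ℝ} {K : ℕ}
    (h : ∀ k : ℤ, 1 ≤ k → k ≤ K → ∫ x in (0 : ℝ)..1, (g x : ℂ) * ee (-(k * x)) = 0) :
    ∀ k : ℤ, k ≠ 0 → |k| ≤ K → ∫ x in (0 : ℝ)..1, (g x : ℂ) * ee (-(k * x)) = 0 := by
  intro k hk hkK
  rcases lt_or_gt_of_ne hk with h1 | h1
  · rw [abs_of_neg h1] at hkK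
    have h2 := coeff_conj g (-k)
    rw [neg_neg] at h2
    rw [h2, h (-k) (by omega) hkK, map_zero]
  · rw [abs_of_pos h1] at hkK
    exact h k (by omega) hkK

theorem mean_zero {g : ℝ → ℝ} (hg : Continuous g) {K : ℕ}
    (h : ∀ k : ℤ, 1 ≤ k → k ≤ K → ∫ x in (0 : ℝ)..1, (g x : ℂ) * ee (-(k * x)) = 0)
    {c d : ℕ → ℂ} {u : ℝ → ℂ}
    (hu : ∀ x : ℝ, u x = ∑ k ∈ Finset.Icc 1 K, (c k * ee (k * x) + d k * ee (-(k * x))))
    (hm : ∫ x in (0 : ℝ)..1, (g x : ℂ) * (1 + u x) = 0) :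
    ∫ x in (0 : ℝ)..1, (g x : ℂ) = 0 := by
  have hgc : Continuous (fun x : ℝ => (g x : ℂ)) := Complex.continuous_ofReal.comp hg
  have hec : ∀ k : ℕ, Continuous (fun x : ℝ => (g x : ℂ) * (c k * ee (k * x))) := fun k =>
    hgc.mul (continuous_const.mul (continuous_ee.comp (by fun_prop)))
  have hed : ∀ k : ℕ, Continuous (fun x : ℝ => (g x : ℂ) * (d k * ee (-(k * x)))) := fun k =>
    hgc.mul (continuous_const.mul (continuous_ee.comp (by fun_prop)))
  have h0 := coeff_neg h
  have e1 : ∫ x in (0 : ℝ)..1, (g x : ℂ) * (1 + u x) = (∫ x in (0 : ℝ)..1, (g x : ℂ)) +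
      ∑ k ∈ Finset.Icc 1 K, ((∫ x in (0 : ℝ)..1, (g x : ℂ) * (c k * ee (k * x))) +
        ∫ x in (0 : ℝ)..1, (g x : ℂ) * (d k * ee (-(k * x)))) := by
    have e2 : ∀ x : ℝ, (g x : ℂ) * (1 + u x) = (g x : ℂ) +
        ∑ k ∈ Finset.Icc 1 K, ((g x : ℂ) * (c k * ee (k * x)) +
          (g x : ℂ) * (d k * ee (-(k * x)))) := by
      intro x
      rw [hu x, mul_add, mul_one, Finset.mul_sum]
      congr 1
      refine Finset.sum_congr rfl (fun k _ => ?_)
      ring
    have hc2 : ∀ k : ℕ, Continuous (fun x : ℝ => (g x : ℂ) * (c k * ee (k * x)) +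
        (g x : ℂ) * (d k * ee (-(k * x)))) := fun k => (hec k).add (hed k)
    have hc3 : Continuous (fun x : ℝ => ∑ k ∈ Finset.Icc 1 K, ((g x : ℂ) * (c k * ee (k * x)) +
        (g x : ℂ) * (d k * ee (-(k * x))))) := continuous_finsetSum _ (fun k _ => hc2 k)
    simp_rw [e2]
    rw [intervalIntegral.integral_add (hgc.intervalIntegrable _ _)
      (hc3.intervalIntegrable _ _),
      intervalIntegral.integral_finsetSum (fun k _ => (hc2 k).intervalIntegrable _ _)]
    congr 1
    refine Finset.sum_congr rfl (fun k _ => ?_)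
    exact intervalIntegral.integral_add ((hec k).intervalIntegrable _ _)
      ((hed k).intervalIntegrable _ _)
  have e3 : ∑ k ∈ Finset.Icc 1 K, ((∫ x in (0 : ℝ)..1, (g x : ℂ) * (c k * ee (k * x))) +
        ∫ x in (0 : ℝ)..1, (g x : ℂ) * (d k * ee (-(k * x)))) = 0 := by
    refine Finset.sum_eq_zero (fun k hk => ?_)
    rw [Finset.mem_Icc] at hk
    have a1 : ∫ x in (0 : ℝ)..1, (g x : ℂ) * (c k * ee (k * x)) = 0 := by
      have := h0 (-(k : ℤ)) (by omega) (by rw [abs_neg, abs_of_nonneg (by omega)]; exact_mod_cast hk.2)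
      have e4 : ∀ x : ℝ, (g x : ℂ) * (c k * ee (k * x)) =
          c k * ((g x : ℂ) * ee (-(((-(k : ℤ) : ℤ) : ℂ) * x))) := by
        intro x
        have : (-(((-(k : ℤ) : ℤ) : ℂ) * x)) = (k : ℂ) * x := by push_cast; ring
        rw [this]; ring
      simp_rw [e4]
      rw [intervalIntegral.integral_const_mul, this, mul_zero]
    have a2 : ∫ x in (0 : ℝ)..1, (g x : ℂ) * (d k * ee (-(k * x))) = 0 := by
      have := h0 (k : ℤ) (by omega) (by rw [abs_of_nonneg (by omega)]; exact_mod_cast hk.2)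
      have e4 : ∀ x : ℝ, (g x : ℂ) * (d k * ee (-(k * x))) =
          d k * ((g x : ℂ) * ee (-(((k : ℤ) : ℂ) * x))) := by
        intro x
        push_cast
        ring
      simp_rw [e4]
      rw [intervalIntegral.integral_const_mul, this, mul_zero]
    rw [a1, a2, add_zero]
  rw [e1, e3, add_zero] at hm
  exact hm

end Crest.Agent.R102.A929
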