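import Crest.Agent.R102.LinC_682
import Crest.Agent.R102.MeanA_262

/-!
Row 102, part (A) (helper575): holomorphy, periodicity of the defect of the truncation, and the
difference of the defects of `q` and `qL` on the real line.
-/

set_option autoImplicit false

open Set Filter Topology Metric Complex MeasureTheory
open scoped Real ContDiff

noncomputable section

namespace Crest.Agent.R102.LinA682

open Crest.Agent.R102.A929

/-- the defect of the family `z ↦ z + v z` -/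
def gE (q : C(ℂ, ℂ)) (v : ℂ → ℂ) (n : ℕ) (z : ℂ) : ℂ :=
  EP q (z - 1 / n + v (z - 1 / n)) (z + v z) (z + 1 / n + v (z + 1 / n))

lemma gE_eq (q : C(ℂ, ℂ)) (v : ℂ → ℂ) (n : ℕ) (x : ℂ) :
    gE q v n x =
      Pq q (bp v x) (ep v (((-1 : ℝ) : ℂ) / n) x) - Pq q (bp v x) (ep v (((1 : ℝ) : ℂ) / n) x) := by
  have e1 : -((x : ℂ) + v x - (x - 1 / n + v (x - 1 / n))) = ep v (((-1 : ℝ) : ℂ) / n) x := by
    unfold ep
    have : (x : ℂ) + ((-1 : ℝ) : ℂ) / n = x - 1 / n := by push_cast; ring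
    rw [this]; push_cast; ring
  have e2 : (x : ℂ) + 1 / n + v (x + 1 / n) - (x + v x) = ep v (((1 : ℝ) : ℂ) / n) x := by
    unfold ep
    have : (x : ℂ) + ((1 : ℝ) : ℂ) / n = x + 1 / n := by push_cast; ring
    rw [this]; push_cast; ring
  unfold gE EP
  rw [e1, e2]
  rfl

lemma Xq_per' {q : C(ℂ, ℂ)} (hq : ∀ z, q (z + 1) = q z) (b e : ℂ) : Xq q (b + 1) e = Xq q b e := by
  unfold Xq
  rw [hq]
  congr 1
  refine AA.ext' fun r => ?_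
  rw [dq_apply, dq_apply, hq]
  have : b + 1 + e * ((r : ℝ) : ℂ) = (b + e * ((r : ℝ) : ℂ)) + 1 := by ring
  rw [this, hq]

lemma Pq_per' {q : C(ℂ, ℂ)} (hq : ∀ z, q (z + 1) = q z) (b e : ℂ) : Pq q (b + 1) e = Pq q b e := by
  unfold Pq
  rw [Xq_per' hq]

lemma bp_per {v : ℂ → ℂ} (hv : ∀ z, v (z + 1) = v z) (z : ℂ) : bp v (z + 1) = bp v z + 1 := by
  unfold bp
  rw [hv]; ring

lemma ep_per {v : ℂ → ℂ} (hv : ∀ z, v (z + 1) = v z) (s z : ℂ) : ep v s (z + 1) = ep v s z := by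
  unfold ep
  have : z + 1 + s = (z + s) + 1 := by ring
  rw [this, hv, hv]

lemma gE_per {q : C(ℂ, ℂ)} (hq : ∀ z, q (z + 1) = q z) {v : ℂ → ℂ} (hv : ∀ z, v (z + 1) = v z)
    (n : ℕ) (z : ℂ) : gE q v n (z + 1) = gE q v n z := by
  rw [gE_eq, gE_eq, bp_per hv, ep_per hv, ep_per hv, Pq_per' hq, Pq_per' hq]

/-- the constant of the difference -/
def KD (C B : ℝ) : ℝ := 4 * ((C + 5 / 2) * (2 + 2 * Real.exp B))

lemma Qf_lip' {ρ C : ℝ} (hL : LocQ ρ C) {X X' : AA × ℂ} (hX : ‖X‖ < ρ) (hX' : ‖X'‖ < ρ) :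
    ‖Qf X' - Qf X‖ ≤ (C + 5 / 2) * ‖X' - X‖ := by
  have hC := hL.C_ge
  have hm : max ‖X‖ ‖X'‖ < ρ := max_lt hX hX'
  have h1 := hL.c11 (max ‖X‖ ‖X'‖) X X' hm (le_max_left _ _) (le_max_right _ _)
  have h2 : ‖(1 / 2 : ℂ) * Lf (X'.1 - X.1)‖ ≤ 5 / 2 * ‖X' - X‖ := by
    rw [norm_mul]
    have h3 := norm_Lf_le (X'.1 - X.1)
    have h4 : ‖X'.1 - X.1‖ ≤ ‖X' - X‖ := norm_fst_le (X' - X)
    have h5 : ‖(1 / 2 : ℂ)‖ = 1 / 2 := by norm_num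
    rw [h5]
    linarith
  have h3 : C * max ‖X‖ ‖X'‖ * ‖X' - X‖ ≤ C * ‖X' - X‖ := by
    have h4 : C * max ‖X‖ ‖X'‖ ≤ C * 1 :=
      mul_le_mul_of_nonneg_left (hm.le.trans hL.ρ_le) (by linarith)
    rw [mul_one] at h4
    exact mul_le_mul_of_nonneg_right h4 (norm_nonneg _)
  have h4 : Qf X' - Qf X = (Qf X' - Qf X - 1 / 2 * Lf (X'.1 - X.1)) +
      1 / 2 * Lf (X'.1 - X.1) := by ring
  rw [h4]
  refine (norm_add_le _ _).trans ?_
  linarith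

namespace Dat

variable {ρ C B A : ℝ} {n : ℕ} {σ : ℝ} {qL : C(ℂ, ℂ)} {q1 q2 : ℂ → ℂ} {η : ℝ} {v : ℂ → ℂ}
  {q : C(ℂ, ℂ)} {a : ℤ → ℂ}

lemma diffAt_Pq (d : Dat ρ C B A n σ qL q1 q2 η v) {z : ℂ} (hz : z ∈ St η) :
    DifferentiableAt ℂ (fun z => Pq qL (bp v z) (ep v (σ / n) z)) z := by
  have hb : DifferentiableAt ℂ (bp v) z := by
    unfold bp
    exact differentiableAt_id.add (d.dv z)
  have he : DifferentiableAt ℂ (ep v (σ / n)) z := by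
    unfold ep
    refine DifferentiableAt.sub (DifferentiableAt.add (differentiableAt_const _) ?_) (d.dv z)
    exact DifferentiableAt.comp (g := v) z (d.dv _) (differentiableAt_id.add (differentiableAt_const _))
  unfold Pq
  refine (he.pow 2).mul ?_
  exact DifferentiableAt.comp (g := Qf) (f := fun z => Xq qL (bp v z) (ep v (σ / n) z)) z
    (d.hL.an _ (d.X_lt hz)).differentiableAt (differentiableAt_Xq d.dqL hb he)

lemma Pq_diff (d : Dat ρ C B A n σ qL q1 q2 η v) (hs : Summable fun k => ‖a k‖)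
    (hs1 : ∑' k, ‖a k‖ ≤ 1 / n) (hq : ∀ x : ℝ, q x = qL x + ∑' k : ℤ, a k * ee (k * x)) (x : ℝ) :
    ‖Pq q (bp v x) (ep v (σ / n) x) - Pq qL (bp v x) (ep v (σ / n) x)‖ ≤
      KD C B / n ^ 2 * ∑' k, ‖a k‖ := by
  have h1 := d.dX_le hs hs1 hq x
  have h2 := Qf_lip' d.hL (d.X_lt (d.real_mem x)) (d.Xq_lt hs hs1 hq x)
  have h3 := d.ep_norm (d.real_mem x)
  have hn := d.n_pos
  have hC := d.C_pos
  have hB := Real.exp_pos B
  have h0 : 0 ≤ ∑' k, ‖a k‖ := tsum_nonneg fun _ => norm_nonneg _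
  unfold Pq
  rw [← mul_sub, norm_mul, norm_pow]
  calc ‖ep v (σ / n) x‖ ^ 2 * ‖Qf (Xq q (bp v x) (ep v (σ / n) x)) -
        Qf (Xq qL (bp v x) (ep v (σ / n) x))‖
      ≤ (2 / n) ^ 2 * ((C + 5 / 2) * ((2 + 2 * Real.exp B) * ∑' k, ‖a k‖)) := by
        refine mul_le_mul (pow_le_pow_left₀ (norm_nonneg _) h3 2) (h2.trans ?_) (norm_nonneg _)
          (by positivity)
        exact mul_le_mul_of_nonneg_left h1 (by positivity)
    _ = KD C B / n ^ 2 * ∑' k, ‖a k‖ := by unfold KD; ring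

end Dat

section

variable {ρ C B A : ℝ} {n : ℕ} {qL : C(ℂ, ℂ)} {q1 q2 : ℂ → ℂ} {η : ℝ} {v : ℂ → ℂ}
  {q : C(ℂ, ℂ)} {a : ℤ → ℂ}

/-- the two one-sided data -/
theorem dat_pair (hL : LocQ ρ C) (hA : 0 ≤ A) (hη : 0 ≤ η) (n2 : 2 ≤ n) (nA : A ≤ n)
    (nρ : (2 * CX B + 2 + 2 * Real.exp B) / n < ρ) (dqL : Differentiable ℂ qL)
    (per : ∀ z, qL (z + 1) = qL z) (sm : Sm qL q1 q2 (St (η + 2 / n)) B)
    (dv : Differentiable ℂ v) (vper : ∀ z, v (z + 1) = v z) (vre : ∀ x : ℝ, (v x).im = 0)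
    (v0 : ∀ z ∈ St η, ‖v z‖ ≤ A / n ^ 2)
    (v1 : ∀ z ∈ St η, ‖v (z + 1 / n) - v z‖ ≤ A / (n : ℝ) ^ (5 / 2 : ℝ))
    (v2 : ∀ z ∈ St η, ‖deriv v z‖ ≤ A / n) :
    Dat ρ C B A n 1 qL q1 q2 η v ∧ Dat ρ C B A n (-1) qL q1 q2 η v := by
  have hn2' : (2 : ℝ) ≤ n := by exact_mod_cast n2
  have hn0 : (0 : ℝ) < n := by linarith
  have hpow : (n : ℝ) ^ 2 ≤ (n : ℝ) ^ (5 / 2 : ℝ) := by
    rw [← Real.rpow_natCast]
    exact Real.rpow_le_rpow_of_exponent_le (by linarith) (by norm_num)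
  have hv1 : ∀ z ∈ St η, ‖v (z + 1 / n) - v z‖ ≤ A / n ^ 2 := fun z hz =>
    (v1 z hz).trans (div_le_div_of_nonneg_left hA (by positivity) hpow)
  constructor
  · exact ⟨hL, hA, by simp, hη, n2, nA, nρ, dqL, per, sm, dv, vper, vre, v0, fun z hz => by
      have h1 := hv1 z hz
      have e : (((1 : ℝ) : ℂ) / n) = 1 / n := by push_cast; rfl
      rw [e]; exact h1, v2⟩
  · exact ⟨hL, hA, by simp, hη, n2, nA, nρ, dqL, per, sm, dv, vper, vre, v0, fun z hz => by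
      have hz' : z + (((-1 : ℝ) : ℂ) / n) ∈ St η := Dat.add_s_mem hz
      have h1 := hv1 _ hz'
      have e : z + (((-1 : ℝ) : ℂ) / n) + 1 / n = z := by push_cast; ring
      rw [e, norm_sub_rev] at h1
      exact h1, v2⟩

theorem gE_diffOn (d1 : Dat ρ C B A n 1 qL q1 q2 η v) (d2 : Dat ρ C B A n (-1) qL q1 q2 η v) :
    DifferentiableOn ℂ (gE qL v n) (St η) := by
  intro z hz
  have h1 := (d2.diffAt_Pq hz).sub (d1.diffAt_Pq hz)
  have e : gE qL v n = (fun z => Pq qL (bp v z) (ep v (((-1 : ℝ) : ℂ) / n) z)) -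
      fun z => Pq qL (bp v z) (ep v (((1 : ℝ) : ℂ) / n) z) := funext fun z => gE_eq qL v n z
  rw [e]
  exact h1.differentiableWithinAt

theorem gE_diff (d1 : Dat ρ C B A n 1 qL q1 q2 η v) (d2 : Dat ρ C B A n (-1) qL q1 q2 η v)
    (hs : Summable fun k => ‖a k‖) (hs1 : ∑' k, ‖a k‖ ≤ 1 / n)
    (hq : ∀ x : ℝ, q x = qL x + ∑' k : ℤ, a k * ee (k * x)) (x : ℝ) :
    ‖gE q v n x - gE qL v n x‖ ≤ 2 * KD C B / n ^ 2 * ∑' k, ‖a k‖ := by
  have h1 := d1.Pq_diff hs hs1 hq x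
  have h2 := d2.Pq_diff hs hs1 hq x
  rw [gE_eq, gE_eq]
  have e : (Pq q (bp v x) (ep v (((-1 : ℝ) : ℂ) / n) x) -
      Pq q (bp v x) (ep v (((1 : ℝ) : ℂ) / n) x)) -
      (Pq qL (bp v x) (ep v (((-1 : ℝ) : ℂ) / n) x) - Pq qL (bp v x) (ep v (((1 : ℝ) : ℂ) / n) x)) =
      (Pq q (bp v x) (ep v (((-1 : ℝ) : ℂ) / n) x) -
        Pq qL (bp v x) (ep v (((-1 : ℝ) : ℂ) / n) x)) -
      (Pq q (bp v x) (ep v (((1 : ℝ) : ℂ) / n) x) -
        Pq qL (bp v x) (ep v (((1 : ℝ) : ℂ) / n) x)) := by ring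
  rw [e]
  refine (norm_sub_le _ _).trans ((add_le_add h2 h1).trans (le_of_eq ?_))
  ring

end

end Crest.Agent.R102.LinA682
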