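import Crest.Agent.R102.MeanA_262
import Crest.Agent.R102.End1_575

/-!
Row 102, part (A) (helper575): Fourier coefficients of a smooth periodic function.
-/

set_option autoImplicit false

open Set Filter Topology Metric Complex MeasureTheory
open scoped Real ContDiff ComplexConjugate

noncomputable section

namespace Crest.Agent.R102.A929

/-- Fourier coefficient of a real function -/
def cf (f : ℝ → ℝ) (k : ℤ) : ℂ := ∫ x in (0 : ℝ)..1, (f x : ℂ) * ee (-(k * x))

lemma cf_neg (f : ℝ → ℝ) (k : ℤ) : cf f (-k) = (starRingEnd ℂ) (cf f k) := by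
  unfold cf
  exact coeff_conj f k

lemma norm_cf_neg (f : ℝ → ℝ) (k : ℤ) : ‖cf f (-k)‖ = ‖cf f k‖ := by
  rw [cf_neg]
  exact RCLike.norm_conj _

lemma norm_ee_int_real (k : ℤ) (x : ℝ) : ‖ee (-(k * x))‖ = 1 := by
  rw [norm_ee]; simp

lemma cf_ibp {f f' : ℝ → ℝ} (hf : ∀ x, HasDerivAt f (f' x) x) (hc : Continuous f')
    (hp : ∀ x, f (x + 1) = f x) (k : ℤ) : cf f' k = (2 * π * I * k) * cf f k := by
  have hfc : Continuous f := continuous_iff_continuousAt.2 (fun x => (hf x).continuousAt)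
  set e : ℝ → ℂ := fun x => ee (-(k * x)) with he
  have hec : Continuous e := continuous_ee.comp (by fun_prop)
  have hed : ∀ x : ℝ, HasDerivAt e (-(2 * π * I * k) * e x) x := by
    intro x
    have h1 : HasDerivAt (fun x : ℝ => -((k : ℂ) * (x : ℂ))) (-(k : ℂ)) x := by
      have := ((hasDerivAt_id (x : ℂ)).const_mul (k : ℂ)).neg.comp_ofReal
      simpa using this
    have h2 := (hasDerivAt_ee (-((k : ℂ) * (x : ℂ)))).comp x h1
    refine h2.congr_deriv ?_
    simp only [he]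
    ring
  have c1 : Continuous (fun x : ℝ => (f' x : ℂ) * e x) := (Complex.continuous_ofReal.comp hc).mul hec
  have c2 : Continuous (fun x : ℝ => -(2 * π * I * k) * ((f x : ℂ) * e x)) :=
    continuous_const.mul ((Complex.continuous_ofReal.comp hfc).mul hec)
  have c3 : Continuous (fun x : ℝ => (f' x : ℂ) * e x + -(2 * π * I * k) * ((f x : ℂ) * e x)) :=
    c1.add c2
  have hprod : ∀ x, HasDerivAt (fun x => (f x : ℂ) * e x)
      ((f' x : ℂ) * e x + -(2 * π * I * k) * ((f x : ℂ) * e x)) x := by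
    intro x
    have h1 := (hf x).ofReal_comp.mul (hed x)
    refine h1.congr_deriv ?_
    ring
  have hint := intervalIntegral.integral_eq_sub_of_hasDerivAt (a := (0 : ℝ)) (b := 1)
    (fun x _ => hprod x) (c3.intervalIntegrable _ _)
  have hend : (f 1 : ℂ) * e 1 - (f 0 : ℂ) * e 0 = 0 := by
    have h1 := hp 0
    rw [zero_add] at h1
    have h2 : e 1 = 1 := by
      simp only [he]
      rw [Complex.ofReal_one, mul_one, ee_neg, ee_int, inv_one]
    have h3 : e 0 = 1 := by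
      simp only [he]
      rw [Complex.ofReal_zero, mul_zero, neg_zero, ee_zero]
    rw [h1, h2, h3, sub_self]
  rw [hend, intervalIntegral.integral_add (c1.intervalIntegrable _ _) (c2.intervalIntegrable _ _),
    intervalIntegral.integral_const_mul] at hint
  unfold cf
  linear_combination hint

lemma norm_cf_le {f : ℝ → ℝ} (hf : Continuous f) :
    ∃ B : ℝ, ∀ k : ℤ, ‖cf f k‖ ≤ B := by
  obtain ⟨B, hB⟩ := isCompact_Icc.exists_bound_of_continuousOn (s := Icc (0 : ℝ) 1)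
    hf.continuousOn
  refine ⟨B, fun k => ?_⟩
  unfold cf
  have h1 := intervalIntegral.norm_integral_le_of_norm_le_const (a := (0 : ℝ)) (b := 1) (C := B)
    (f := fun x : ℝ => (f x : ℂ) * ee (-(k * x))) (fun x hx => by
      rw [uIoc_of_le zero_le_one] at hx
      rw [norm_mul, norm_ee_int_real, mul_one, Complex.norm_real]
      exact hB x ⟨hx.1.le, hx.2⟩)
  simpa using h1

lemma contDiff_deriv_smooth {f : ℝ → ℝ} (hf : ContDiff ℝ (⊤ : ℕ∞) f) :
    ContDiff ℝ (⊤ : ℕ∞) (deriv f) := by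
  have h1 : ContDiff ℝ ((⊤ : ℕ∞) + 1) f := by
    simpa using hf
  exact (contDiff_succ_iff_deriv.1 h1).2.2

lemma deriv_periodic {f : ℝ → ℝ} (hp : ∀ x, f (x + 1) = f x) (x : ℝ) :
    deriv f (x + 1) = deriv f x := by
  have h : (fun y => f (y + 1)) = f := funext hp
  have h2 := deriv_comp_add_const f 1 x
  rw [h] at h2
  exact h2.symm

lemma cf_decay (p : ℕ) : ∀ f : ℝ → ℝ, ContDiff ℝ (⊤ : ℕ∞) f → (∀ x, f (x + 1) = f x) →
    ∃ B : ℝ, ∀ k : ℤ, |(k : ℝ)| ^ p * ‖cf f k‖ ≤ B := by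
  induction p with
  | zero =>
    intro f hf _
    obtain ⟨B, hB⟩ := norm_cf_le hf.continuous
    exact ⟨B, fun k => by rw [pow_zero, one_mul]; exact hB k⟩
  | succ p ih =>
    intro f hf hp
    obtain ⟨B, hB⟩ := ih (deriv f) (contDiff_deriv_smooth hf) (deriv_periodic hp)
    refine ⟨B, fun k => ?_⟩
    have hd : ∀ x, HasDerivAt f (deriv f x) x := fun x =>
      ((hf.differentiable (by simp)) x).hasDerivAt
    have h1 := cf_ibp hd (contDiff_deriv_smooth hf).continuous hp k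
    have h2 := hB k
    rw [h1, norm_mul] at h2
    have h3 : ‖(2 * π * I * k : ℂ)‖ = 2 * π * |(k : ℝ)| := by
      rw [norm_mul, norm_mul, norm_mul, Complex.norm_I, Complex.norm_real,
        Real.norm_of_nonneg Real.pi_pos.le, Complex.norm_intCast]
      norm_num
    rw [h3] at h2
    have hpi : (1 : ℝ) ≤ 2 * π := by linarith [Real.pi_gt_three]
    calc |(k : ℝ)| ^ (p + 1) * ‖cf f k‖ = 1 * (|(k : ℝ)| ^ p * (|(k : ℝ)| * ‖cf f k‖)) := by ring
      _ ≤ (2 * π) * (|(k : ℝ)| ^ p * (|(k : ℝ)| * ‖cf f k‖)) := by gcongr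
      _ = |(k : ℝ)| ^ p * (2 * π * |(k : ℝ)| * ‖cf f k‖) := by ring
      _ ≤ B := h2

lemma cf_decay' (p : ℕ) {f : ℝ → ℝ} (hf : ContDiff ℝ (⊤ : ℕ∞) f) (hp : ∀ x, f (x + 1) = f x) :
    ∃ B : ℝ, ∀ k : ℤ, (1 + |(k : ℝ)|) ^ p * ‖cf f k‖ ≤ B := by
  obtain ⟨B0, hB0⟩ := norm_cf_le hf.continuous
  obtain ⟨B1, hB1⟩ := cf_decay p f hf hp
  refine ⟨2 ^ p * (B0 + B1), fun k => ?_⟩
  have h0 := hB0 k
  have h1 := hB1 k
  have hk := abs_nonneg (k : ℝ)
  have h2 : (1 + |(k : ℝ)|) ^ p ≤ 2 ^ p * (1 + |(k : ℝ)| ^ p) := by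
    rcases le_total |(k : ℝ)| 1 with h | h
    · calc (1 + |(k : ℝ)|) ^ p ≤ 2 ^ p := by gcongr; linarith
        _ = 2 ^ p * 1 := by ring
        _ ≤ 2 ^ p * (1 + |(k : ℝ)| ^ p) := by gcongr; linarith [pow_nonneg hk p]
    · calc (1 + |(k : ℝ)|) ^ p ≤ (2 * |(k : ℝ)|) ^ p := by gcongr; linarith
        _ = 2 ^ p * |(k : ℝ)| ^ p := by rw [mul_pow]
        _ ≤ 2 ^ p * (1 + |(k : ℝ)| ^ p) := by gcongr; linarith
  calc (1 + |(k : ℝ)|) ^ p * ‖cf f k‖ ≤ 2 ^ p * (1 + |(k : ℝ)| ^ p) * ‖cf f k‖ := by gcongr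
    _ = 2 ^ p * (‖cf f k‖ + |(k : ℝ)| ^ p * ‖cf f k‖) := by ring
    _ ≤ 2 ^ p * (B0 + B1) := by gcongr

lemma wb_zero {f : ℝ → ℝ} (hf : ContDiff ℝ (⊤ : ℕ∞) f) (hp : ∀ x, f (x + 1) = f x) :
    ∃ B : ℝ, WB 0 0 B (cf f) := by
  obtain ⟨B, hB⟩ := cf_decay' 15 hf hp
  refine ⟨B, fun k => ?_⟩
  have : om 0 0 k = 1 := by unfold om; simp
  rw [this, one_mul]
  exact hB k

lemma cf_summable {f : ℝ → ℝ} (hf : ContDiff ℝ (⊤ : ℕ∞) f) (hp : ∀ x, f (x + 1) = f x) :
    Summable (fun k : ℤ => ‖cf f k‖) := by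
  obtain ⟨B, hB⟩ := cf_decay 2 f hf hp
  have h1 : Summable (fun k : ℤ => B * (1 / (k : ℝ) ^ 2) + if k = 0 then ‖cf f 0‖ else 0) :=
    ((Real.summable_one_div_int_pow.2 (by norm_num)).mul_left B).add
      (summable_of_ne_finset_zero (s := {0}) (fun b hb => by
        rw [if_neg]; simpa using hb))
  refine Summable.of_nonneg_of_le (fun k => norm_nonneg _) (fun k => ?_) h1
  by_cases hk : k = 0
  · subst hk; simp
  · rw [if_neg hk, add_zero, mul_one_div, le_div_iff₀ (by positivity)]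
    have := hB k
    rw [sq_abs] at this
    linarith

lemma cf_hasSum {f : ℝ → ℝ} (hf : ContDiff ℝ (⊤ : ℕ∞) f) (hp : ∀ x, f (x + 1) = f x) (x : ℝ) :
    HasSum (fun k : ℤ => cf f k * ee (k * x)) (f x : ℂ) := by
  set φ : ℝ → ℂ := fun x => (f x : ℂ) with hφ
  have hφc : Continuous φ := Complex.continuous_ofReal.comp hf.continuous
  have hφp : Function.Periodic φ 1 := by
    intro y
    simp only [hφ]
    rw [hp]
  let F : C(AddCircle (1 : ℝ), ℂ) := ⟨hφp.lift, by exact continuous_coinduced_dom.mpr hφc⟩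
  have hFapp : ∀ x : ℝ, F (x : AddCircle (1 : ℝ)) = φ x := fun x => rfl
  have hcoef : ∀ k : ℤ, fourierCoeff F k = cf f k := by
    intro k
    rw [fourierCoeff_eq_intervalIntegral F k 0]
    simp only [one_div, inv_one, one_smul, zero_add]
    refine intervalIntegral.integral_congr (fun x _ => ?_)
    rw [fourier_coe_apply, hFapp, smul_eq_mul, mul_comm]
    change φ x * _ = φ x * _
    congr 1
    unfold ee
    congr 1
    push_cast
    ring
  have hsum : Summable (fourierCoeff F) := by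
    refine Summable.of_norm ?_
    refine (cf_summable hf hp).congr (fun k => ?_)
    rw [hcoef]
  have h8 := has_pointwise_sum_fourier_series_of_summable hsum (x : AddCircle (1 : ℝ))
  rw [hFapp] at h8
  have h9 : (fun k : ℤ => fourierCoeff F k • fourier k (x : AddCircle (1 : ℝ))) =
      fun k : ℤ => cf f k * ee (k * x) := by
    funext k
    rw [hcoef, smul_eq_mul, fourier_coe_apply]
    congr 1
    unfold ee
    congr 1
    push_cast
    ring
  rw [h9] at h8
  exact h8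

end Crest.Agent.R102.A929
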