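import Crest.Agent.R102.EndB_575
import Crest.Agent.R102.EndC_575
import Crest.Agent.R102.End0A_929
import Crest.Agent.R102.FourS_575

/-!
Row 102, part (A) (helper575): the `n`-th mode of the defect of `q`, in the form used by LIN.
-/

set_option autoImplicit false

open Set Filter Topology Metric Complex MeasureTheory
open scoped Real ContDiff

noncomputable section

namespace Crest.Agent.R102.EndA575

open Crest.Agent.R102.A929
open Crest.Agent.R102.LinA682 (Dat gE gE_eq gE_per gE_diffOn gE_diff dat_pair bp ep KD)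

/-- the real family -/
def sv (v : ℂ → ℂ) (x : ℝ) : ℝ := x + (v x).re

section

variable {v : ℂ → ℂ}

lemma sv_cast (hvr : ∀ x : ℝ, (v x).im = 0) (x : ℝ) : ((sv v x : ℝ) : ℂ) = x + v x := by
  unfold sv
  apply Complex.ext <;> simp [hvr]

lemma sv_cast_add (hvr : ∀ x : ℝ, (v x).im = 0) (n : ℕ) (x : ℝ) :
    ((sv v (x + 1 / n) : ℝ) : ℂ) = x + 1 / n + v (x + 1 / n) := by
  rw [sv_cast hvr]; push_cast; ring

lemma sv_cast_sub (hvr : ∀ x : ℝ, (v x).im = 0) (n : ℕ) (x : ℝ) :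
    ((sv v (x - 1 / n) : ℝ) : ℂ) = x - 1 / n + v (x - 1 / n) := by
  rw [sv_cast hvr]; push_cast; ring

lemma gE_real (hvr : ∀ x : ℝ, (v x).im = 0) (q : C(ℂ, ℂ)) (n : ℕ) (x : ℝ) :
    gE q v n x = EP q (sv v (x - 1 / n)) (sv v x) (sv v (x + 1 / n)) := by
  rw [sv_cast_add hvr, sv_cast_sub hvr, sv_cast hvr]
  rfl

lemma sv_per (hvp : ∀ z, v (z + 1) = v z) (x : ℝ) : sv v (x + 1) = sv v x + 1 := by
  unfold sv
  have := hvp x
  push_cast
  rw [this]; ring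

lemma sv_hasDerivAt (hv : Differentiable ℂ v) (x : ℝ) :
    HasDerivAt (sv v) (1 + (deriv v x).re) x := by
  have h1 : HasDerivAt (fun x : ℝ => v x) (deriv v x) x := (hv x).hasDerivAt.comp_ofReal
  have h2 : HasDerivAt (fun x : ℝ => (v x).re) (deriv v x).re x := by
    exact (Complex.reCLM.hasFDerivAt.comp_hasDerivAt x h1)
  exact (hasDerivAt_id x).add h2

lemma sv_continuous (hv : Differentiable ℂ v) : Continuous (sv v) :=
  continuous_iff_continuousAt.2 (fun x => (sv_hasDerivAt hv x).continuousAt)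

lemma cont_dsv (hv : Differentiable ℂ v) : Continuous (fun x : ℝ => 1 + (deriv v x).re) :=
  continuous_const.add (Complex.continuous_re.comp
    ((LinA682.differentiable_deriv hv).continuous.comp Complex.continuous_ofReal))

end

section

variable {ρ C B A : ℝ} {n : ℕ} {qL : C(ℂ, ℂ)} {q1 q2 : ℂ → ℂ} {η : ℝ} {v : ℂ → ℂ}
  {q : C(ℂ, ℂ)} {a : ℤ → ℂ}

lemma ep_plus (hvr : ∀ x : ℝ, (v x).im = 0) (x : ℝ) :
    ep v (((1 : ℝ) : ℂ) / n) x = (sv v (x + 1 / n) : ℂ) - sv v x := by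
  rw [sv_cast_add hvr, sv_cast hvr]
  unfold ep
  push_cast
  ring

lemma ep_minus (hvr : ∀ x : ℝ, (v x).im = 0) (x : ℝ) :
    ep v (((-1 : ℝ) : ℂ) / n) x = -((sv v x : ℂ) - sv v (x - 1 / n)) := by
  rw [sv_cast_sub hvr, sv_cast hvr]
  unfold ep
  have : (x : ℂ) + ((-1 : ℝ) : ℂ) / n = x - 1 / n := by push_cast; ring
  rw [this]
  push_cast
  ring

lemma bp_eq (hvr : ∀ x : ℝ, (v x).im = 0) (x : ℝ) : bp v x = (sv v x : ℂ) := by
  rw [sv_cast hvr]; rfl

lemma step_est (d1 : Dat ρ C B A n 1 qL q1 q2 η v) (hAn : 2 * A ≤ n) (x : ℝ) :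
    0 < sv v (x + 1 / n) - sv v x ∧ sv v (x + 1 / n) - sv v x < 2 / n := by
  have h1 := d1.ep_sub (d1.real_mem x)
  rw [ep_plus d1.vre] at h1
  have e : (sv v (x + 1 / n) : ℂ) - sv v x - ((1 : ℝ) : ℂ) / n =
      ((sv v (x + 1 / n) - sv v x - 1 / n : ℝ) : ℂ) := by push_cast; ring
  rw [e, Complex.norm_real, Real.norm_eq_abs] at h1
  have hn := d1.n_pos
  have h2 : A / n ^ 2 ≤ 1 / (2 * n) := by
    rw [div_le_div_iff₀ (by positivity) (by positivity)]
    nlinarith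
  have h3 := abs_le.1 (h1.trans h2)
  have h4 : 1 / (2 * (n : ℝ)) = (1 / n) / 2 := by ring
  have h5 : 2 / (n : ℝ) = 2 * (1 / n) := by ring
  have h6 : 0 < 1 / (n : ℝ) := by positivity
  rw [h4] at h3
  rw [h5]
  constructor <;> linarith [h3.1, h3.2]

/-- the `n`-th mode of the defect -/
theorem mode_gE (d1 : Dat ρ C B A n 1 qL q1 q2 η v) (d2 : Dat ρ C B A n (-1) qL q1 q2 η v)
    (hAn : 2 * A ≤ n)
    (hs : Summable fun k => ‖a k‖) (hs1 : ∑' k, ‖a k‖ ≤ 1 / n)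
    (hq : ∀ x : ℝ, q x = qL x + ∑' k : ℤ, a k * ee (k * x))
    (hqr : ∀ x : ℝ, (q x).im = 0) (hqp : ∀ x : ℝ, q (x + 1) = q x)
    {ε : ℝ} {M : ℝ → ℝ → ℝ} (hM : IsAct q ε M) (hε : 2 / n ≤ ε) {A₀ R : ℝ}
    (hR : ∀ t : ℝ, |(∑ i ∈ Finset.range n, M (sv v (t + i / n)) (sv v (t + (i + 1) / n))) - A₀| ≤ R) :
    ‖∫ x in (0 : ℝ)..1, gE q v n x * (1 + deriv v x) * ee (-(n * x))‖ ≤ 2 * π * R := by
  have hn := d1.n_pos
  have hn' : 0 < n := by exact_mod_cast hn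
  have hvr := d1.vre
  have h := mode_real d1.hL hqp hM (s := sv v) (s' := fun x => 1 + (deriv v x).re)
    (sv_hasDerivAt d1.dv) (cont_dsv d1.dv) (sv_per d1.vper) hn' (w := 1 / n) (by field_simp)
    (fun x => ⟨(step_est d1 hAn x).1, (step_est d1 hAn x).2.trans_le hε⟩)
    (fun x => by
      have h1 := d1.Xq_lt hs hs1 hq x
      rw [bp_eq hvr, ep_plus hvr] at h1
      exact h1)
    (fun x => by
      have h1 := d2.Xq_lt hs hs1 hq x
      rw [bp_eq hvr, ep_minus hvr] at h1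
      exact h1) (A₀ := A₀) (R := R) (fun t => by
      have h1 := hR t
      simp only [mul_one_div]
      exact h1)
  refine le_trans (le_of_eq ?_) h
  congr 1
  refine intervalIntegral.integral_congr (fun x _ => ?_)
  change gE q v n x * (1 + deriv v x) * ee (-(n * x)) =
    (((EP q (sv v (x - 1 / n)) (sv v x) (sv v (x + 1 / n))).re * (1 + (deriv v x).re) : ℝ) : ℂ) *
      ee (-(n * x))
  congr 1
  rw [gE_real hvr]
  have e1 : EP q (sv v (x - 1 / n)) (sv v x) (sv v (x + 1 / n)) =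
      ((EP q (sv v (x - 1 / n)) (sv v x) (sv v (x + 1 / n))).re : ℂ) := by
    refine eq_re ?_
    rw [EP_real hqr, Complex.ofReal_im]
  have e2 : deriv v x = ((deriv v x).re : ℂ) := eq_re (deriv_im_zero d1.dv hvr x)
  rw [Complex.ofReal_mul, Complex.ofReal_add, Complex.ofReal_one, ← e2, ← e1]

/-- continuity of the integrands -/
lemma cont_gE (d1 : Dat ρ C B A n 1 qL q1 q2 η v) (d2 : Dat ρ C B A n (-1) qL q1 q2 η v)
    (q' : C(ℂ, ℂ)) (h1 : ∀ x : ℝ, ‖Xq q' (bp v x) (ep v (((1 : ℝ) : ℂ) / n) x)‖ < ρ)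
    (h2 : ∀ x : ℝ, ‖Xq q' (bp v x) (ep v (((-1 : ℝ) : ℂ) / n) x)‖ < ρ) :
    Continuous fun x : ℝ => gE q' v n x * (1 + deriv v x) * ee (-(n * x)) := by
  have e : (fun x : ℝ => gE q' v n x * (1 + deriv v x) * ee (-(n * x))) = fun x : ℝ =>
      (Pq q' (bp v x) (ep v (((-1 : ℝ) : ℂ) / n) x) - Pq q' (bp v x) (ep v (((1 : ℝ) : ℂ) / n) x)) *
        (1 + deriv v x) * ee (-(n * x)) := by
    funext x; rw [gE_eq]
  rw [e]
  exact (((d2.cont_Pq q' h2).sub (d1.cont_Pq q' h1)).mul d1.cont_dv).mul Dat.cont_een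

end

end Crest.Agent.R102.EndA575
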