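import Crest.Agent.R102.HolA_929

/-!
Row 102, part (A) (helper929): leaves of the END assembly (weights, data bound, sums, bootstrap).
-/

set_option autoImplicit false

open Set Filter Topology Metric Complex MeasureTheory
open scoped Real ContDiff ComplexConjugate

noncomputable section

namespace Crest.Agent.R102.A929

/-- the weight `exp (α min(|k|, N))` -/
def om (α : ℝ) (N : ℕ) (k : ℤ) : ℝ := Real.exp (α * min |(k : ℝ)| N)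

/-- `a` is bounded by `G` in the weighted norm -/
def WB (α : ℝ) (N : ℕ) (G : ℝ) (a : ℤ → ℂ) : Prop :=
  ∀ k : ℤ, om α N k * (1 + |(k : ℝ)|) ^ 15 * ‖a k‖ ≤ G

/-- half width of the strip used at rotation number `1/n`:
`2 π η n = α min(n, N) + 16 log n` -/
def etan (α : ℝ) (N n : ℕ) : ℝ := (α * min (n : ℝ) N + 16 * Real.log n) / (2 * π * n)

/-- the truncation of `q` to the modes `|k| ≤ n/2` -/
def qTr (a : ℤ → ℂ) (n : ℕ) (z : ℂ) : ℂ :=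
  ∑ k ∈ Finset.Icc (-((n / 2 : ℕ) : ℤ)) ((n / 2 : ℕ) : ℤ), a k * ee (k * z)

/-- the coefficients of the modes `|k| > n/2` -/
def aHi (a : ℤ → ℂ) (n : ℕ) (k : ℤ) : ℂ := if |k| ≤ ((n / 2 : ℕ) : ℤ) then 0 else a k

/-- LEAF BOOT: bootstrap in `α` -/
def LeafBOOT : Prop :=
  ∀ (a : ℤ → ℂ) (B : ℝ), (∀ k, ‖a (-k)‖ = ‖a k‖) → WB 0 0 B a →
    (∀ G : ℝ, ∃ (n₁ : ℕ) (C : ℝ), ∀ (α : ℝ) (N : ℕ), 0 ≤ α → α ≤ 1 → WB α N G a →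
      ∀ n : ℕ, n₁ ≤ n → om α N n * (1 + (n : ℝ)) ^ 15 * ‖a n‖ ≤ C / Real.log n) →
    ∃ C b : ℝ, 0 < b ∧ ∀ k : ℤ, ‖a k‖ ≤ C * Real.exp (-(b * |(k : ℝ)|))

/-- LEAF DB: bounds of the truncation and its derivatives on the strip
(`n^{k/n} ≤ (1+k)^{3/5}` for `0 ≤ k ≤ n/2`, `n ≥ 64`; `15 - 3 - 16·3/5 = 2.4 > 1`) -/
def LeafDB : Prop :=
  ∀ G : ℝ, ∃ B : ℝ, 1 ≤ B ∧ ∀ (α : ℝ) (N n : ℕ) (a : ℤ → ℂ), 64 ≤ n → 0 ≤ α → α ≤ 1 → WB α N G a →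
    ∀ z ∈ St (etan α N n + 2 / n), ‖qTr a n z‖ ≤ B ∧ ‖deriv (qTr a n) z‖ ≤ B ∧
      ‖deriv (deriv (qTr a n)) z‖ ≤ B ∧ ‖deriv (deriv (deriv (qTr a n))) z‖ ≤ B

/-- LEAF SUM: the sums over high modes -/
def LeafSUM : Prop :=
  ∀ G : ℝ, ∃ (C : ℝ) (n₁ : ℕ), 0 ≤ C ∧ ∀ (α : ℝ) (N n : ℕ) (a : ℤ → ℂ), n₁ ≤ n → 0 ≤ α → α ≤ 1 →
    WB α N G a →
    Summable (fun k => ‖aHi a n k‖) ∧ (∑' k, ‖aHi a n k‖) ≤ 1 / n ∧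
    (∑' k : ℤ, if |k| ≤ 2 * n then
        ‖aHi a n k‖ * Real.exp (-(2 * π * etan α N n * |(n : ℝ) - k|)) else 0) ≤
      C / (om α N n * (n : ℝ) ^ 14 * Real.log n) ∧
    (∑' k : ℤ, if 2 * n < |k| ∧ |k| ≤ n ^ 2 then
        ‖aHi a n k‖ * Real.exp (-(2 * π * etan α N n * |(n : ℝ) - k|)) else 0) ≤
      C / (om α N n * (n : ℝ) ^ 16) ∧
    (∑' k : ℤ, if (n : ℤ) ^ 2 < |k| then ‖aHi a n k‖ else 0) ≤ C / (om α N n * (n : ℝ) ^ 16) ∧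
    (∑' k, ‖aHi a n k‖) ^ 2 ≤ C / (om α N n * (n : ℝ) ^ 16) ∧
    (∑' k : ℤ, if |k| ≤ ((n / 2 : ℕ) : ℤ) then 0 else
      Real.exp (-(2 * π * etan α N n * |(k : ℝ)|))) ^ 2 ≤ C * (n : ℝ) ^ 2 / (om α N n * (n : ℝ) ^ 16) ∧
    Real.exp (-(2 * π * etan α N n * n)) ≤ C / (om α N n * (n : ℝ) ^ 16)

/-- LEAF TAIL: a function holomorphic on the closed strip without modes `|k| ≤ n/2` is small on
the real line -/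
def LeafTAIL : Prop :=
  ∀ (g : ℂ → ℂ) (η A : ℝ) (n : ℕ), 0 < η → DifferentiableOn ℂ g (St η) →
    (∀ z ∈ St η, g (z + 1) = g z) → (∀ z ∈ St η, ‖g z‖ ≤ A) →
    (∀ k : ℤ, 2 * |k| ≤ n → ∫ x in (0 : ℝ)..1, g x * ee (-(k * x)) = 0) →
    ∀ x : ℝ, ‖g x‖ ≤ A * ∑' k : ℤ, if |k| ≤ ((n / 2 : ℕ) : ℤ) then 0 else
      Real.exp (-(2 * π * η * |(k : ℝ)|))

end Crest.Agent.R102.A929
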