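import Crest.Agent.R102.WinW_486
import Crest.Agent.R102.GrowthDefs_314

/-!
GROWTH block: (W_k) and (D_k) of GrowthDefs_314.
-/

set_option autoImplicit false

namespace Crest.Agent.R102.WinK486

open Set Filter Topology
open Crest.Agent.R102.WinW486

theorem recordK {k : ℕ} {M : ℝ → ℝ} {a : ℝ} (hM : ConcaveOn ℝ (Ici a) M)
    {b : ℝ} (hab : a + 1 < b) (hun : ∀ V : ℝ, ∃ τ ≥ b, V ≤ τ ^ k * S1 M τ) (T V : ℝ) :
    ∃ R, T ≤ R ∧ b ≤ R ∧ V < R ^ k * S1 M R ∧
      ∀ x, b ≤ x → x ≤ R → x ^ k * S1 M x ≤ R ^ k * S1 M R := by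
  have hcM : ContinuousOn M (Ioi a) := by
    have : ConcaveOn ℝ (Ioi a) M := hM.subset Ioi_subset_Ici_self (convex_Ioi a)
    exact this.continuousOn isOpen_Ioi
  have hcg : ContinuousOn (fun x => x ^ k * S1 M x) (Ioi (a + 1)) := by
    apply ContinuousOn.mul (by fun_prop)
    unfold S1
    apply ContinuousOn.sub
    · exact hcM.mono (Ioi_subset_Ioi (by linarith))
    · apply hcM.comp (by fun_prop)
      intro x hx
      simp only [mem_Ioi] at hx ⊢
      linarith
  have hc : ∀ T', ContinuousOn (fun x => x ^ k * S1 M x) (Icc b T') := fun T' =>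
    hcg.mono (fun x hx => by
      simp only [mem_Ioi]
      exact lt_of_lt_of_le hab hx.1)
  obtain ⟨x0, hx0, hmax0⟩ := isCompact_Icc.exists_isMaxOn (nonempty_Icc.2 (le_max_right T b))
    (hc (max T b))
  set V1 := max (max V 0) (x0 ^ k * S1 M x0) with hV1
  obtain ⟨t, htb, ht⟩ := hun (V1 + 1)
  have ht' : V1 < t ^ k * S1 M t := by linarith
  obtain ⟨R, hR, hmaxR⟩ := isCompact_Icc.exists_isMaxOn (nonempty_Icc.2 htb) (hc t)
  have hRt : t ^ k * S1 M t ≤ R ^ k * S1 M R := hmaxR (right_mem_Icc.2 htb)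
  have hVR : V1 < R ^ k * S1 M R := lt_of_lt_of_le ht' hRt
  refine ⟨R, ?_, hR.1, ?_, fun x h1 h2 => hmaxR ⟨h1, h2.trans hR.2⟩⟩
  · by_contra hlt
    push Not at hlt
    have : R ^ k * S1 M R ≤ x0 ^ k * S1 M x0 := hmax0 ⟨hR.1, hlt.le.trans (le_max_left _ _)⟩
    have h2 : x0 ^ k * S1 M x0 ≤ V1 := le_max_right _ _
    linarith
  · exact lt_of_le_of_lt ((le_max_left _ _).trans (le_max_left _ _)) hVR

/-- Bernoulli: `(R/u)^k ≤ 1 + 2 k (R-u)/R` -/
theorem ratio_pow {k : ℕ} {R u : ℝ} (hR : 0 < R) (hu : u ≤ R) (h2 : 2 * k * (R - u) ≤ R)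
    (hk : 1 ≤ k) : (R / u) ^ k ≤ 1 + 2 * k * (R - u) / R := by
  have hk1 : (1 : ℝ) ≤ k := by exact_mod_cast hk
  have hu0 : 0 < u := by nlinarith
  set x : ℝ := (R - u) / R with hx
  have hx0 : 0 ≤ x := div_nonneg (by linarith) hR.le
  have hkx : k * x ≤ 1 / 2 := by
    rw [hx, ← mul_div_assoc, div_le_iff₀ hR]; linarith
  have hB : 1 + (k : ℝ) * (-x) ≤ (1 + -x) ^ k := by
    apply one_add_mul_le_pow
    nlinarith
  have e1 : 1 + -x = u / R := by rw [hx]; field_simp; ring
  rw [e1] at hB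
  have hpos : 0 < (u / R) ^ k := by positivity
  have e2 : (R / u) ^ k = 1 / (u / R) ^ k := by
    rw [div_pow, div_pow]; field_simp
  rw [e2, div_le_iff₀ hpos]
  have e3 : 2 * k * (R - u) / R = 2 * (k * x) := by rw [hx]; ring
  rw [e3]
  have hy0 : 0 ≤ (k : ℝ) * x := by positivity
  calc (1 : ℝ) ≤ (1 + 2 * (k * x)) * (1 + k * (-x)) := by nlinarith
    _ ≤ (1 + 2 * (k * x)) * (u / R) ^ k := mul_le_mul_of_nonneg_left hB (by linarith)

set_option maxHeartbeats 1000000 in
/-- **(W_k)** -/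
theorem wink : Growth.WINK := by
  intro k M a b C' δ hk hM hC hδ hb hab hun T0
  have hk1 : (1 : ℝ) ≤ k := by exact_mod_cast (by omega : 1 ≤ k)
  have hk0 : (0 : ℝ) < k := by linarith
  obtain ⟨T1, hT1⟩ := eventually_atTop.1 ((eventually_polylog C' (δ / k) (by positivity)).and
    ((eventually_polylog C' (1 / k) (by positivity)).and ((eventually_ge_atTop (16 : ℝ)).and
      ((eventually_ge_atTop (2 * T0)).and ((eventually_ge_atTop (2 * b)).and
        (eventually_ge_atTop (2 * a + 1)))))))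
  obtain ⟨R, hTR, hbR, hVR, hrec⟩ := recordK (k := k) hM hab hun T1 (2 ^ k)
  obtain ⟨h1, h2, h16, hT0, h2b, h2a⟩ := hT1 R hTR
  set A := (C' * Real.log R) ^ 3 with hA
  have hR0 : 0 < R := by linarith
  have hlogR : 0 ≤ Real.log R := Real.log_nonneg (by linarith)
  have hA0 : 0 ≤ A := by positivity
  have hsq : (2 * A + 1) ≤ (2 * A + 1) ^ 2 := by nlinarith
  have h1' : 4 * k * (2 * A + 1) ^ 2 ≤ δ * R := by
    have := mul_le_mul_of_nonneg_left h1 hk0.le
    have e : (k : ℝ) * (δ / k * R) = δ * R := by field_simp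
    rw [e] at this; linarith
  have h2' : 4 * k * (2 * A + 1) ^ 2 ≤ R := by
    have := mul_le_mul_of_nonneg_left h2 hk0.le
    have e : (k : ℝ) * (1 / k * R) = R := by field_simp
    rw [e] at this; linarith
  have hkA : 4 * k * (2 * A + 1) ≤ R := by
    have := mul_le_mul_of_nonneg_left hsq (by positivity : (0:ℝ) ≤ 4 * k)
    linarith
  have hw4 : 2 * A + 1 ≤ R / 4 := by
    have : 4 * (1 : ℝ) * (2 * A + 1) ≤ 4 * k * (2 * A + 1) :=
      mul_le_mul_of_nonneg_right (by linarith) (by linarith)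
    linarith
  set τ := R - A - 1 with hτ
  set S := S1 M R with hS
  have hτR : τ ≤ R := by rw [hτ]; linarith
  have hτ2 : R / 2 ≤ τ := by rw [hτ]; linarith
  have hτ0 : 0 < τ := by linarith
  have hbτ : b ≤ τ := by linarith
  have hτ1 : 1 ≤ τ := by linarith
  have hlogτ : 0 ≤ Real.log τ := Real.log_nonneg hτ1
  have hAτ : (C' * Real.log τ) ^ 3 ≤ A := by
    rw [hA]
    apply pow_le_pow_left₀ (by positivity)
    exact mul_le_mul_of_nonneg_left (Real.log_le_log hτ0 hτR) hC
  have hS4 : 2 ^ k / R ^ k < S := by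
    rw [div_lt_iff₀ (by positivity)]
    linarith [mul_comm (R ^ k) (S1 M R)]
  have hS0 : 0 < S := lt_trans (by positivity) hS4
  have hslope : ∀ u, b ≤ u → u ≤ R → S1 M u ≤ S * (R / u) ^ k := by
    intro u hu1 hu2
    have hu0 : 0 < u := by linarith
    have := hrec u hu1 hu2
    have e : S * (R / u) ^ k = (R ^ k * S) / u ^ k := by rw [div_pow]; ring
    rw [e, le_div_iff₀ (by positivity)]
    linarith [mul_comm (S1 M u) (u ^ k)]
  have hclose : ∀ u, R - (2 * A + 1) ≤ u → u ≤ R → A * ((R / u) ^ k - 1) ≤ δ := by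
    intro u hu1 hu2
    have h3 : (R / u) ^ k ≤ 1 + 2 * k * (R - u) / R := by
      apply ratio_pow hR0 hu2 _ (by omega)
      have : 2 * (k : ℝ) * (R - u) ≤ 2 * k * (2 * A + 1) :=
        mul_le_mul_of_nonneg_left (by linarith) (by positivity)
      have h5 : 0 ≤ 2 * (k : ℝ) * (2 * A + 1) := by positivity
      linarith
    have h4 : (R / u) ^ k - 1 ≤ 2 * k * (2 * A + 1) / R := by
      have : 2 * k * (R - u) / R ≤ 2 * k * (2 * A + 1) / R := by
        apply div_le_div_of_nonneg_right _ hR0.le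
        exact mul_le_mul_of_nonneg_left (by linarith) (by positivity)
      linarith
    calc A * ((R / u) ^ k - 1) ≤ A * (2 * k * (2 * A + 1) / R) := mul_le_mul_of_nonneg_left h4 hA0
      _ = (2 * k * (2 * A + 1) * A) / R := by ring
      _ ≤ δ := by
          rw [div_le_iff₀ hR0]
          have h6 : 2 * k * (2 * A + 1) * A ≤ 2 * k * (2 * A + 1) * (2 * A + 1) :=
            mul_le_mul_of_nonneg_left (by linarith) (by positivity)
          have h7 : 0 ≤ 2 * k * (2 * A + 1) * (2 * A + 1) := by positivity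
          nlinarith
  have hRu1 : ∀ u, 0 < u → u ≤ R → 0 ≤ (R / u) ^ k - 1 := by
    intro u hu0 huR
    have : 1 ≤ R / u := by rw [le_div_iff₀ hu0]; linarith
    have := one_le_pow₀ (n := k) this
    linarith
  refine ⟨τ, S, by linarith, ?_, ⟨hbτ, ?_, ?_, ?_⟩⟩
  · have : R / 2 ≤ τ - A := by rw [hτ]; linarith
    linarith
  · have h3 : (τ ^ k)⁻¹ ≤ 2 ^ k / R ^ k := by
      rw [inv_eq_one_div, div_le_div_iff₀ (by positivity) (by positivity), one_mul, ← mul_pow]
      apply pow_le_pow_left₀ hR0.le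
      linarith
    linarith
  · intro β hβ
    have hβA : |β| ≤ A := hβ.trans hAτ
    rcases le_total 0 β with h0 | h0
    · rw [abs_of_nonneg h0] at hβA
      have hu : τ ≤ τ + β := by linarith
      have h3 : M (τ + β) - M τ ≤ (τ + β - τ) * S1 M τ := sec hM (by linarith) hu
      have h4 : (τ + β - τ) * S1 M (τ + β + 1) ≤ M (τ + β) - M τ := sec2 hM (by linarith) hu
      have h5 : S ≤ S1 M (τ + β + 1) := S1_anti hM (by linarith) (by rw [hτ]; linarith)
      have e : τ + β - τ = β := by ring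
      rw [e] at h3 h4
      have h6 := hslope τ hbτ hτR
      have h7 := hclose τ (by rw [hτ]; linarith) hτR
      have h8 : β * S1 M τ ≤ β * (S * (R / τ) ^ k) := mul_le_mul_of_nonneg_left h6 h0
      have h9 : β * S ≤ β * S1 M (τ + β + 1) := mul_le_mul_of_nonneg_left h5 h0
      have hge := hRu1 τ hτ0 hτR
      have h10 : β * ((R / τ) ^ k - 1) ≤ δ :=
        (mul_le_mul_of_nonneg_right hβA hge).trans h7
      have h11 : S * (β * ((R / τ) ^ k - 1)) ≤ S * δ := mul_le_mul_of_nonneg_left h10 hS0.le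
      have e12 : S * (β * ((R / τ) ^ k - 1)) = β * (S * (R / τ) ^ k) - β * S := by ring
      rw [e12] at h11
      have hpos : 0 < δ * S := by positivity
      have hc1 : β * S = S * β := mul_comm _ _
      have hc2 : S * δ = δ * S := mul_comm _ _
      rw [abs_le]
      constructor
      · linarith
      · linarith
    · have hβ' : |β| = -β := abs_of_nonpos h0
      rw [hβ'] at hβA
      have hu : τ + β ≤ τ := by linarith
      have hub : R - (2 * A + 1) ≤ τ + β := by rw [hτ]; linarith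
      have hbu : b ≤ τ + β := by linarith
      have h3 : M τ - M (τ + β) ≤ (τ - (τ + β)) * S1 M (τ + β) := sec hM (by linarith) hu
      have h4 : (τ - (τ + β)) * S1 M (τ + 1) ≤ M τ - M (τ + β) := sec2 hM (by linarith) hu
      have h5 : S ≤ S1 M (τ + 1) := S1_anti hM (by linarith) (by rw [hτ]; linarith)
      have e : τ - (τ + β) = -β := by ring
      rw [e] at h3 h4
      have h6 := hslope (τ + β) hbu (by linarith)
      have h7 := hclose (τ + β) hub (by linarith)
      have hu0 : 0 < τ + β := by linarith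
      have h8 : -β * S1 M (τ + β) ≤ -β * (S * (R / (τ + β)) ^ k) :=
        mul_le_mul_of_nonneg_left h6 (by linarith)
      have h9 : -β * S ≤ -β * S1 M (τ + 1) := mul_le_mul_of_nonneg_left h5 (by linarith)
      have hge := hRu1 (τ + β) hu0 (by linarith)
      have h10 : -β * ((R / (τ + β)) ^ k - 1) ≤ δ :=
        (mul_le_mul_of_nonneg_right hβA hge).trans h7
      have h11 : S * (-β * ((R / (τ + β)) ^ k - 1)) ≤ S * δ :=
        mul_le_mul_of_nonneg_left h10 hS0.le
      have e12 : S * (-β * ((R / (τ + β)) ^ k - 1)) = -β * (S * (R / (τ + β)) ^ k) - -β * S := by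
        ring
      rw [e12] at h11
      have hpos : 0 < δ * S := by positivity
      have hc1 : -β * S = -(S * β) := by ring
      have hc2 : S * δ = δ * S := mul_comm _ _
      rw [abs_le]
      constructor
      · linarith
      · linarith
  · intro t'' t' ht'' htt ht'
    have h3 : M t' - M t'' ≤ (t' - t'') * S1 M t'' := sec hM (by linarith) htt
    have h6 := hslope t'' ht'' (by linarith)
    have ht0 : 0 < t'' := by linarith
    have hRτ : (R / τ) ^ k ≤ 2 := by
      have h8 : (R / τ) ^ k ≤ 1 + 2 * k * (R - τ) / R := by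
        apply ratio_pow hR0 hτR _ (by omega)
        have : 2 * (k : ℝ) * (R - τ) ≤ 2 * k * (2 * A + 1) :=
          mul_le_mul_of_nonneg_left (by rw [hτ]; linarith) (by positivity)
        have h5 : 0 ≤ 2 * (k : ℝ) * (2 * A + 1) := by positivity
        linarith
      have h9 : 2 * k * (R - τ) / R ≤ 1 := by
        rw [div_le_one hR0]
        have : 2 * (k : ℝ) * (R - τ) ≤ 2 * k * (2 * A + 1) :=
          mul_le_mul_of_nonneg_left (by rw [hτ]; linarith) (by positivity)
        have h5 : 0 ≤ 2 * (k : ℝ) * (2 * A + 1) := by positivity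
        linarith
      linarith
    have h7 : S * (R / t'') ^ k ≤ 2 * S * (τ / t'') ^ k := by
      have e1 : (R / t'') ^ k = (R / τ) ^ k * (τ / t'') ^ k := by
        rw [← mul_pow]; congr 1; field_simp
      rw [e1]
      have h8 : (R / τ) ^ k * (τ / t'') ^ k ≤ 2 * (τ / t'') ^ k :=
        mul_le_mul_of_nonneg_right hRτ (by positivity)
      have := mul_le_mul_of_nonneg_left h8 hS0.le
      linarith
    calc M t' - M t'' ≤ (t' - t'') * S1 M t'' := h3
      _ ≤ (t' - t'') * (2 * S * (τ / t'') ^ k) :=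
          mul_le_mul_of_nonneg_left (h6.trans h7) (by linarith)
      _ = 2 * S * (τ / t'') ^ k * (t' - t'') := by ring

/-- **(D_k)** -/
theorem deck : Growth.DECK := by
  intro k M b l V hk hb hl hV
  set W := max V 0 with hW
  have hW0 : 0 ≤ W := le_max_right _ _
  refine ⟨W + 1, by linarith, ?_⟩
  intro τ hτ
  have hτ0 : 0 < τ := by linarith
  have hk2 : τ ^ (k - 1) = τ ^ (k - 2) * τ := by
    rw [← pow_succ]; congr 1; omega
  have key : ∀ n : ℕ, M (τ + n) ≤ M τ + W * (τ ^ (k - 2))⁻¹ * (1 / τ - 1 / (τ + n)) := by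
    intro n
    induction n with
    | zero => simp
    | succ n ih =>
      have hbn : 0 < τ + (n : ℝ) := by positivity
      have hbn1 : 0 < τ + (n : ℝ) + 1 := by positivity
      have hn0 : (0 : ℝ) ≤ n := Nat.cast_nonneg n
      have h1 := hV (τ + n + 1) (by linarith)
      have e0 : τ + (n : ℝ) + 1 - 1 = τ + n := by ring
      rw [e0] at h1
      have e1 : τ + ((n + 1 : ℕ) : ℝ) = τ + n + 1 := by push_cast; ring
      rw [e1]
      have h2 : M (τ + n + 1) - M (τ + n) ≤ W / (τ + n + 1) ^ k := by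
        rw [le_div_iff₀ (by positivity)]
        have : V ≤ W := le_max_left _ _
        linarith [mul_comm ((τ + (n : ℝ) + 1) ^ k) (M (τ + n + 1) - M (τ + n))]
      have h3 : W / (τ + n + 1) ^ k ≤
          W * (τ ^ (k - 2))⁻¹ * (1 / (τ + n) - 1 / (τ + n + 1)) := by
        rw [div_eq_mul_inv, mul_assoc]
        apply mul_le_mul_of_nonneg_left _ hW0
        have e4 : 1 / (τ + (n : ℝ)) - 1 / (τ + n + 1) = ((τ + n) * (τ + n + 1))⁻¹ := by
          field_simp; ring
        rw [e4, ← mul_inv]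
        apply inv_anti₀ (by positivity)
        have e5 : (τ + (n : ℝ) + 1) ^ k = (τ + n + 1) ^ (k - 2) * (τ + n + 1) ^ 2 := by
          rw [← pow_add]; congr 1; omega
        rw [e5]
        apply mul_le_mul
        · exact pow_le_pow_left₀ hτ0.le (by linarith) _
        · nlinarith
        · positivity
        · positivity
      have e6 : W * (τ ^ (k - 2))⁻¹ * (1 / τ - 1 / (τ + n + 1)) =
          W * (τ ^ (k - 2))⁻¹ * (1 / τ - 1 / (τ + n))
          + W * (τ ^ (k - 2))⁻¹ * (1 / (τ + n) - 1 / (τ + n + 1)) := by ring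
      rw [e6]
      linarith
  have hbd : ∀ n : ℕ, M (τ + n) ≤ M τ + W * (τ ^ (k - 1))⁻¹ := by
    intro n
    have hbn : 0 < τ + (n : ℝ) := by positivity
    have h1 : W * (τ ^ (k - 2))⁻¹ * (1 / τ - 1 / (τ + n)) ≤ W * (τ ^ (k - 2))⁻¹ * (1 / τ) := by
      apply mul_le_mul_of_nonneg_left _ (by positivity)
      have : 0 < 1 / (τ + (n : ℝ)) := by positivity
      linarith
    have e : W * (τ ^ (k - 2))⁻¹ * (1 / τ) = W * (τ ^ (k - 1))⁻¹ := by
      rw [hk2, mul_inv]; ring
    rw [e] at h1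
    linarith [key n]
  have ht : Tendsto (fun n : ℕ => M (τ + n)) atTop (𝓝 l) :=
    hl.comp (tendsto_atTop_add_const_left _ _ tendsto_natCast_atTop_atTop)
  have hle : l ≤ M τ + W * (τ ^ (k - 1))⁻¹ := le_of_tendsto' ht hbd
  have hp : 0 ≤ (τ ^ (k - 1))⁻¹ := by positivity
  nlinarith

end Crest.Agent.R102.WinK486
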