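import Crest.Agent.R102.GrowthDefs_314
import Crest.Agent.R102.WinK_486

/-!
# Row 102, T1-B, GROWTH, (END_k): `endK : WINK → ENDK` (helper203)

Copy of `T1EJ712.endE` (helper712) with windows of order `k`.
-/

set_option autoImplicit false

open Set Filter Topology Metric Complex MeasureTheory
open scoped Real ComplexConjugate

noncomputable section

namespace Crest.Agent.R102.EndK203

open Crest.Agent.R102.T1EJ712 Crest.Agent.R102.Growth

theorem WdwK.mono {M : ℝ → ℝ} {k : ℕ} {C' C'' δ δ' b τ S : ℝ} (h : WdwK M k C'' δ' b τ S)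
    (hC : C' ≤ C'') (hC0 : 0 ≤ C') (hδ : δ' ≤ δ) (hτ : 1 ≤ τ) : WdwK M k C' δ b τ S where
  hb := h.hb
  hS := h.hS
  lin := by
    intro β hβ
    have hS0 : 0 ≤ S := le_trans (by positivity) h.hS
    have hl := Real.log_nonneg hτ
    refine (h.lin β (hβ.trans ?_)).trans (mul_le_mul_of_nonneg_right hδ hS0)
    exact pow_le_pow_left₀ (mul_nonneg hC0 hl) (mul_le_mul_of_nonneg_right hC hl) 3
  rcd := h.rcd

theorem endK_vol (hWK : WINK) {k : ℕ} (hk : 2 ≤ k) {b r0 : ℝ} {Om : Set (ℂ × ℂ)}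
    (h : K669.LV b (ball 0 r0) Om) (hr0 : 0 < r0)
    (hper : Per Om 1) (heven : ∀ t w : ℂ, (t, w) ∈ Om → (t, -w) ∈ Om)
    (hF : ∀ r, 0 < r → Fin' Om r) (hCC : CColK k Om)
    (hinf : ∀ B V : ℝ, ∃ τ ≥ B, V ≤ τ ^ k * (MM Om τ - MM Om (τ - 1)))
    {δ₀ : ℝ} (hδ₀ : 0 < δ₀) :
    volume {u : ℝ | 0 < u ∧ u < δ₀ ∧ Gd Om u} ≠ 0 := by
  intro hnull
  have hLS := LS.of_LV h
  -- the concave function
  set τ0 : ℝ := -Real.log r0 + 1 with hτ0
  have hexp0 : Real.exp (-τ0) < r0 := by
    rw [← Real.lt_log_iff_exp_lt hr0, hτ0]; linarith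
  have hconc := MM_concave hLS one_pos hper hF hexp0
  obtain ⟨B0, hCC⟩ := hCC
  set bb : ℝ := max B0 (max 1 (τ0 + 2)) with hbb
  have hbb1 : 1 ≤ bb := (le_max_left _ _).trans (le_max_right _ _)
  have hbb2 : τ0 + 2 ≤ bb := (le_max_right _ _).trans (le_max_right _ _)
  obtain ⟨C', δ, T0, hC', hδ, hcol⟩ := hCC 4000 bb (le_max_left _ _)
  set C2 : ℝ := max C' 1 with hC2
  set T1 : ℝ := max T0 (max 8 (max (τ0 + 1) (-Real.log (δ₀ / 2)))) with hT1
  obtain ⟨τ, S, hτT, hτA, hW⟩ := hWK k (MM Om) τ0 bb C2 (min δ 1) hk hconc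
    (le_trans zero_le_one (le_max_right _ _)) (lt_min hδ one_pos) hbb1 (by linarith)
    (fun V => hinf bb V) T1
  obtain ⟨hbτ, hSlow, hlin, hrec⟩ := id hW
  have hT0 : T0 ≤ τ := (le_max_left _ _).trans hτT
  have hT8 : 8 ≤ τ := (le_max_left _ _).trans ((le_max_right _ _).trans hτT)
  have hTτ0 : τ0 + 1 ≤ τ :=
    (le_max_left _ _).trans ((le_max_right _ _).trans ((le_max_right _ _).trans hτT))
  have hTδ : -Real.log (δ₀ / 2) ≤ τ :=
    (le_max_right _ _).trans ((le_max_right _ _).trans ((le_max_right _ _).trans hτT))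
  have hS0 : 0 < S := lt_of_lt_of_le (by positivity) hSlow
  obtain ⟨x0, hx0⟩ := hcol τ S hT0
    (WdwK.mono hW (le_max_left _ _) hC' (min_le_left _ _) (by linarith))
  -- notation
  set s : ℝ := Real.exp (-τ) with hs
  have hs0 : 0 < s := Real.exp_pos _
  have hsr : 2 * s < r0 := by
    have h1 : Real.exp (-τ) ≤ Real.exp (-τ0) * Real.exp (-1) := by
      rw [← Real.exp_add]; exact Real.exp_le_exp.2 (by linarith)
    have h2 : Real.exp (-1) < 1 / 2 := by
      have := Real.exp_neg_one_lt_half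
      linarith
    have h3 : Real.exp (-τ0) * Real.exp (-1) ≤ Real.exp (-τ0) * (1 / 2) :=
      mul_le_mul_of_nonneg_left h2.le (Real.exp_pos _).le
    rw [hs]; linarith
  have hsδ : 4 / 3 * s < δ₀ := by
    have h1 : s ≤ δ₀ / 2 := by
      rw [hs, ← Real.le_log_iff_exp_le (by positivity)]; linarith
    linarith
  have e2s : MM Om (τ - Real.log 2) = mm Om (2 * s) := by
    unfold MM
    congr 1
    rw [neg_sub, sub_eq_add_neg, Real.exp_add, Real.exp_log (by norm_num)]
  have e49 : MM Om (τ + Real.log (9 / 4)) = mm Om (4 / 3 * s / 3) := by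
    unfold MM
    congr 1
    rw [neg_add, Real.exp_add, Real.exp_neg (Real.log (9 / 4)), Real.exp_log (by norm_num), ← hs]
    ring
  have hlog2 : Real.log 2 ≤ 1 := by
    have := Real.log_le_sub_one_of_pos (show (0:ℝ) < 2 by norm_num)
    linarith
  have hlog2' : 0 ≤ Real.log 2 := Real.log_nonneg (by norm_num)
  have hlog94 : Real.log (9 / 4) ≤ 5 / 4 := by
    have := Real.log_le_sub_one_of_pos (show (0:ℝ) < 9 / 4 by norm_num)
    linarith
  have hlog94' : 0 ≤ Real.log (9 / 4) := Real.log_nonneg (by norm_num)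
  have hwin : 8 ≤ (C2 * Real.log τ) ^ 3 := by
    have h1 : (2 : ℝ) ≤ Real.log τ := by
      rw [Real.le_log_iff_exp_le (by linarith)]
      have h2 : Real.exp 2 = Real.exp 1 * Real.exp 1 := by rw [← Real.exp_add]; norm_num
      have h3 := Real.exp_one_lt_d9
      have h4 := Real.exp_pos 1
      rw [h2]
      nlinarith
    have h2 : (1 : ℝ) ≤ C2 := le_max_right _ _
    have h3 : 2 ≤ C2 * Real.log τ := by nlinarith
    calc (8 : ℝ) = 2 ^ 3 := by norm_num
      _ ≤ _ := pow_le_pow_left₀ (by norm_num) h3 3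
  have hMup : MM Om (τ + Real.log (9 / 4)) - MM Om (τ - Real.log 2) ≤ 5 * S := by
    have h1 := hlin (Real.log (9 / 4)) (by rw [abs_of_nonneg hlog94']; linarith)
    have h2 := hlin (-Real.log 2) (by rw [abs_neg, abs_of_nonneg hlog2']; linarith)
    have h3 := (abs_le.1 h1).2
    have h4 := (abs_le.1 h2).1
    rw [← sub_eq_add_neg] at h4
    have h5 : min δ 1 * S ≤ 1 * S := mul_le_mul_of_nonneg_right (min_le_right _ _) hS0.le
    have h6 : S * Real.log (9 / 4) ≤ S * (5 / 4) := mul_le_mul_of_nonneg_left hlog94 hS0.le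
    have h7 : S * Real.log 2 ≤ S * 1 := mul_le_mul_of_nonneg_left hlog2 hS0.le
    have h8 : S * -Real.log 2 = -(S * Real.log 2) := by ring
    rw [h8] at h4
    linarith
  set m0 : ℝ := mm Om (2 * s) with hm0
  have hm0M : m0 ≤ MM Om τ := by
    rw [← e2s]
    refine MM_mono hLS hF ?_ (by linarith)
    have : Real.exp (-(τ - Real.log 2)) = 2 * s := by
      rw [neg_sub, sub_eq_add_neg, Real.exp_add, Real.exp_log (by norm_num)]
    rw [this]; exact hsr
  -- the Hartogs figure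
  have hcl2 : closedBall (0 : ℂ) (2 * s) ⊆ ball 0 r0 := closedBall_subset_ball hsr
  have hHF : ∀ u : ℝ, 0 < u → u < 4 / 3 * s → ∀ t : ℂ, |t.re - x0| + 7 * (500 * S) < 4000 * S →
      t.im < m0 + 9 / 10 * (500 * S) → (t, (u : ℂ)) ∈ Om := by
    intro u hu hus
    have hball : ∀ w ∈ closedBall (u : ℂ) (|u| / 2), ‖w‖ < 2 * s := by
      intro w hw
      rw [mem_closedBall, dist_eq_norm, abs_of_pos hu] at hw
      have h2 : ‖w‖ ≤ ‖w - u‖ + ‖(u : ℂ)‖ := by
        have := norm_add_le (w - u) (u : ℂ)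
        simpa using this
      rw [Complex.norm_real, Real.norm_eq_abs, abs_of_pos hu] at h2
      linarith
    exact HF77.hf h (u := u) (m := m0) (x := x0) (l := 4000 * S) (g := 500 * S) hu.ne'
      (fun w hw => hcl2 (by simpa using (hball w hw).le)) (by positivity)
      (fun w hw t ht => mem_of_lt_mm hLS hsr (hball w hw).le ht)
      (fun w hw hwi t h1 h2 => hx0 t w h1 (by linarith) (hball w hw) hwi)
  set a : ℝ := m0 + 9 / 10 * (500 * S) with ha
  have ham : m0 ≤ a := by rw [ha]; linarith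
  -- the exceptional null set
  set N : Set ℝ := {u : ℝ | 0 < u ∧ u < δ₀ ∧ Gd Om u} with hN
  have hNnull : volume (N ∪ (Neg.neg ⁻¹' N) ∪ {0}) = 0 := by
    have h1 : volume (Neg.neg ⁻¹' N) = 0 := by
      have := (Measure.measurePreserving_neg (volume : Measure ℝ)).quasiMeasurePreserving.preimage_null hnull
      exact this
    refine measure_union_null (measure_union_null hnull h1) ?_
    simp
  have hpos : ∀ u : ℝ, 0 < u → u < 4 / 3 * s → u ∉ N → ∀ t : ℂ, t.im < a → (t, (u : ℂ)) ∈ Om := by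
    intro u hu0 hu huN t ht
    by_contra hnot
    apply huN
    have hub : (u : ℂ) ∈ ball (0 : ℂ) r0 := by
      rw [mem_ball_zero_iff, Complex.norm_real, Real.norm_eq_abs, abs_of_pos hu0]; linarith
    have hV : Vh Om a (u : ℂ) < a :=
      (Vh_le_of_notMem (hLS.base _ hub) hnot).trans_lt ht
    refine ⟨hu0, hu.trans hsδ, Vh Om a (u : ℂ), fun t ht => mem_of_lt_Vh (hLS.base _ hub) ht,
      Vh_touch hLS.isOpen one_pos hper (hLS.base _ hub) hV, (x0 : ℂ) + Vh Om a (u : ℂ) * I,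
      by simp, ?_⟩
    refine hHF u hu0 hu _ ?_ ?_
    · simp
      linarith
    · simpa using hV
  have hall : ∀ u : ℝ, |u| < 4 / 3 * s → u ∉ N ∪ (Neg.neg ⁻¹' N) ∪ {0} →
      ∀ t : ℂ, t.im < a → (t, (u : ℂ)) ∈ Om := by
    intro u hu huN t ht
    simp only [mem_union, mem_preimage, mem_singleton_iff, not_or] at huN
    rcases lt_trichotomy u 0 with h1 | h1 | h1
    · have h2 := hpos (-u) (by linarith) (by rw [abs_of_neg h1] at hu; exact hu) huN.1.2 t ht
      have h3 := heven _ _ h2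
      simpa using h3
    · exact absurd h1 huN.2
    · exact hpos u h1 (by rw [abs_of_pos h1] at hu; exact hu) huN.1.1 t ht
  have key := mm_gap hLS one_pos hper hF (ρ := 4 / 3 * s) (m₀ := m0) (a := a) (by positivity)
    (by linarith) ham (fun w hw t ht => mem_of_lt_mm hLS hsr (hw.trans (by linarith)) ht) hNnull hall
  rw [← e49] at key
  rw [ha] at key
  linarith

/-- **(END_k)** -/
theorem endK (hWK : WINK) : ENDK := by
  intro k b r0 Om hk h hr0 hper heven hF hCC hinf δ₀ hδ₀ hcount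
  refine endK_vol hWK hk h hr0 hper heven hF hCC hinf hδ₀ ?_
  have h1 : {u : ℝ | 0 < u ∧ u < δ₀ ∧ Gd Om u} ⊆
      {u : ℝ | Irrational u ∧ 0 < u ∧ u < δ₀ ∧ Gd Om u} ∪ range ((↑) : ℚ → ℝ) := by
    intro u hu
    by_cases hi : Irrational u
    · exact Or.inl ⟨hi, hu⟩
    · right
      unfold Irrational at hi
      push Not at hi
      exact hi
  exact measure_mono_null h1
    ((hcount.union (countable_range _)).measure_zero volume)

/-- **(END_k)**, with 486's `wink` plugged in -/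
theorem endK' : ENDK := endK Crest.Agent.R102.WinK486.wink

end Crest.Agent.R102.EndK203
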