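import Crest.Agent.R102.EdgeLim_196
import Crest.Agent.R102.RegFace_359

/-!
Row 102, T1-B, EDGE (helper196): the end of a normal window, sequence form
(`RegFace_359.regface` + `EdgeLim_196.tangential`).
-/

set_option autoImplicit false

open Set Filter Topology Metric Complex

noncomputable section

namespace Crest.Agent.R102.EndSeq196

open Crest.Agent.R102.EdgeLim196

/-- a local eventual property holds eventually on a compact set -/
theorem ev_compact {ι X : Type*} [TopologicalSpace X] {l : Filter ι} {C : Set X} (hC : IsCompact C)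
    {P : ι → X → Prop} (h : ∀ x ∈ C, ∃ t ∈ 𝓝 x, ∀ᶠ n in l, ∀ y ∈ t, P n y) :
    ∀ᶠ n in l, ∀ x ∈ C, P n x := by
  refine hC.induction_on (p := fun S => ∀ᶠ n in l, ∀ x ∈ S, P n x) ?_ ?_ ?_ ?_
  · exact Eventually.of_forall fun n x hx => hx.elim
  · intro s t hst ht
    exact ht.mono fun n hn x hx => hn x (hst hx)
  · intro s t hs ht
    filter_upwards [hs, ht] with n h1 h2 x hx
    exact hx.elim (h1 x) (h2 x)
  · intro x hx
    obtain ⟨t, ht, hn⟩ := h x hx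
    exact ⟨t, mem_nhdsWithin_of_mem_nhds ht, hn⟩

/-- **transversal interior cluster value at a face point: no births** (sequence form) -/
theorem hbirth_of_births {ι : Type*} {l : Filter ι} [l.NeBot] {a h : ℝ} {Om : Set (ℂ × ℂ)}
    (hOm : IsOpen Om) (hLO : Lo a ⊆ Om) (hFO : Fc a ⊆ Om)
    {Bn : ι → ℂ × ℂ → ℂ} {B : ℂ × ℂ → ℂ} {Fn : ι → (ℂ × ℂ) × ℂ → ℂ} {F : (ℂ × ℂ) × ℂ → ℂ}
    (hBd : ∀ q ∈ Lo a, ∃ r > 0, ∀ᶠ n in l, ContinuousOn (Bn n) (ball q r) ∧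
      ∀ x ∈ ball q r, |(Bn n x).im| < h ∧ Fn n (x, Bn n x) = 0)
    (hBl : ∀ q ∈ Lo a, Tendsto (fun n => Bn n q) l (𝓝 (B q)))
    (hBm : ∀ q ∈ Lo a, |(B q).im| < h)
    (hFn : ∀ x ∈ Om ×ˢ Sp h, ∃ r > 0, ∀ᶠ n in l, DifferentiableOn ℂ (Fn n) (ball x r))
    (hFl : TendstoLocallyUniformlyOn Fn F l (Om ×ˢ Sp h))
    (hF : DifferentiableOn ℂ F (Om ×ˢ Sp h))
    {q0 : ℂ × ℂ} (hq0 : q0 ∈ Fc a)
    (births : ∀ r > 0, closedBall q0 r ⊆ Om → ∃ K ⊆ Lo a, IsCompact K ∧ ∃ᶠ n in l,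
      ¬ ∃ (G : ℂ × ℂ → ℂ) (V : Set (ℂ × ℂ)), IsOpen V ∧ closedBall q0 r ⊆ V ∧ V ⊆ Om ∧
        DifferentiableOn ℂ G V ∧ (∀ x ∈ V, |(G x).im| < h ∧ Fn n (x, G x) = 0) ∧
        ∀ x ∈ K ∩ V, G x = Bn n x)
    {b : ℂ} (hb : |b.im| < h) (hcl : MapClusterPt b (𝓝[Lo a] q0) B) :
    deriv (fun z => F (q0, z)) b = 0 := by
  by_contra hd
  have hOS : IsOpen (Om ×ˢ Sp h) := hOm.prod (isOpen_Sp h)
  have hx0 : ((q0, b) : (ℂ × ℂ) × ℂ) ∈ Om ×ˢ Sp h := ⟨hFO hq0, hb⟩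
  -- the limit relation
  have hinc : ∀ q ∈ Lo a, F (q, B q) = 0 := by
    intro q hq
    have hx : ((q, B q) : (ℂ × ℂ) × ℂ) ∈ Om ×ˢ Sp h := ⟨hLO hq, hBm q hq⟩
    obtain ⟨r, hr, hev⟩ := hBd q hq
    have h1 : Tendsto (fun n => ((q, Bn n q) : (ℂ × ℂ) × ℂ)) l (𝓝[Om ×ˢ Sp h] (q, B q)) := by
      refine tendsto_nhdsWithin_iff.2 ⟨?_, ?_⟩
      · exact Filter.Tendsto.prodMk_nhds tendsto_const_nhds (hBl q hq)
      · filter_upwards [hev] with n hn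
        exact ⟨hLO hq, (hn.2 q (mem_ball_self hr)).1⟩
    have h2 := hFl.tendsto_comp (hF.continuousOn _ hx) hx h1
    have h3 : Tendsto (fun n => Fn n (q, Bn n q)) l (𝓝 0) := by
      refine tendsto_const_nhds.congr' ?_
      filter_upwards [hev] with n hn
      exact (hn.2 q (mem_ball_self hr)).2.symm
    exact tendsto_nhds_unique h2 h3
  have hz : F (q0, b) = 0 := by
    by_contra hne
    have h1 : ∀ᶠ x in 𝓝 (q0, b), F x ≠ 0 :=
      ((hF.continuousOn.continuousAt (hOS.mem_nhds hx0)).eventually_ne hne)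
    rw [nhds_prod_eq] at h1
    obtain ⟨pa, hpa, pb, hpb, hpp⟩ := eventually_prod_iff.1 h1
    have h3 : ∃ᶠ q' in 𝓝[Lo a] q0, pb (B q') := hcl.frequently hpb
    have h4 : ∀ᶠ q' in 𝓝[Lo a] q0, pa q' ∧ q' ∈ Lo a :=
      (hpa.filter_mono nhdsWithin_le_nhds).and eventually_mem_nhdsWithin
    obtain ⟨q', h6, h7, h8⟩ := (h3.and_eventually h4).exists
    exact hpp h7 h6 (hinc q' h8)
  -- a small product ball
  obtain ⟨ra, hra, hFna⟩ := hFn _ hx0
  obtain ⟨t, ht, hut⟩ := tendstoLocallyUniformlyOn_iff_forall_tendsto.1 hFl |> fun _ =>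
    (show ∃ t ∈ 𝓝 ((q0, b) : (ℂ × ℂ) × ℂ), TendstoUniformlyOn Fn F l t from by
      obtain ⟨K, hK, hKo, hKc⟩ := (hOS.mem_nhds hx0 |> fun hn => local_compact_nhds hn)
      exact ⟨K, hK, (tendstoLocallyUniformlyOn_iff_tendstoUniformlyOn_of_compact hKc).1
        (hFl.mono hKo)⟩)
  obtain ⟨rb, hrb, hrbt⟩ := Metric.mem_nhds_iff.1 ht
  obtain ⟨rc, hrc, hrcO⟩ := Metric.isOpen_iff.1 hOS _ hx0
  set r : ℝ := min ra (min rb rc) with hr
  have hr0 : 0 < r := lt_min hra (lt_min hrb hrc)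
  have hballs : ∀ ρ : ℝ, r ≤ ρ → ball q0 r ×ˢ ball b r ⊆ ball ((q0, b) : (ℂ × ℂ) × ℂ) ρ := by
    intro ρ hρ x hx
    have : x ∈ ball ((q0, b) : (ℂ × ℂ) × ℂ) r := by
      rw [← ball_prod_same]; exact hx
    exact ball_subset_ball hρ this
  have hsubO : ball q0 r ×ˢ ball b r ⊆ Om ×ˢ Sp h :=
    (hballs rc ((min_le_right _ _).trans (min_le_right _ _))).trans hrcO
  have hq0im : 0 < q0.2.im := hq0.1
  have hda : HasDerivAt ((fun q z => F (q, z)) q0) (deriv (fun z => F (q0, z)) b) b := by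
    have h1 : DifferentiableAt ℂ F (q0, b) := hF.differentiableAt (hOS.mem_nhds hx0)
    have h2 : HasDerivAt (fun z : ℂ => ((q0, z) : (ℂ × ℂ) × ℂ)) (0, 1) b :=
      (hasDerivAt_const b q0).prodMk (hasDerivAt_id b)
    exact (h1.hasFDerivAt.comp_hasDerivAt b h2).differentiableAt.hasDerivAt
  obtain ⟨r1, r2, hr1, hr1', hr1r, hr2, hr2', hr2r, hreg⟩ :=
    RegFace359.regface (l := l) (F := fun n q z => Fn n (q, z)) (F0 := fun q z => F (q, z))
      (q0 := q0) (b0 := b) hr0 (hF.continuousOn.mono hsubO) hz hda hd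
      (hFna.mono fun n hn => hn.mono (hballs ra (min_le_left _ _)))
      (hut.mono ((hballs rb ((min_le_right _ _).trans (min_le_left _ _))).trans hrbt))
      (r' := q0.2.im / 2) (by positivity)
  -- births
  have hcb : ball q0 r ⊆ Om := by
    intro x hx
    exact (hsubO (mk_mem_prod hx (mem_ball_self hr0))).1
  obtain ⟨K, hKL, hKc, hfreq⟩ := births (r1 / 2) (by positivity)
    ((closedBall_subset_ball (by linarith)).trans hcb)
  -- a point where `B` is near `b`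
  obtain ⟨q1, hq1L, hq1d, hq1b⟩ : ∃ q1 ∈ Lo a, q1 ∈ ball q0 r1 ∧ B q1 ∈ ball b r2 := by
    have h3 : ∃ᶠ q' in 𝓝[Lo a] q0, B q' ∈ ball b r2 := hcl.frequently (ball_mem_nhds b hr2)
    have h4 : ∀ᶠ q' in 𝓝[Lo a] q0, q' ∈ Lo a ∧ q' ∈ ball q0 r1 :=
      eventually_mem_nhdsWithin.and (mem_nhdsWithin_of_mem_nhds (ball_mem_nhds q0 hr1))
    obtain ⟨q', h6, h7, h8⟩ := (h3.and_eventually h4).exists
    exact ⟨q', h7, h8, h6⟩
  have hfc : Continuous fun q : ℂ × ℂ => a * q.2.im - q.1.im := by fun_prop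
  obtain ⟨δ, hδ, hδK⟩ : ∃ δ > 0, ∀ q ∈ insert q1 K, δ < a * q.2.im - q.1.im := by
    have hne : (insert q1 K).Nonempty := insert_nonempty _ _
    obtain ⟨x, hx, hxm⟩ := (hKc.insert q1).exists_isMinOn hne hfc.continuousOn
    have hxL : x ∈ Lo a := by
      rcases hx with rfl | hx
      · exact hq1L
      · exact hKL hx
    have hpos : 0 < a * x.2.im - x.1.im := by linarith [hxL.2]
    refine ⟨(a * x.2.im - x.1.im) / 2, by positivity, fun q hq => ?_⟩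
    have h5 : a * x.2.im - x.1.im ≤ a * q.2.im - q.1.im := hxm hq
    linarith
  set C : Set (ℂ × ℂ) := closedBall q0 r1 ∩ {q | δ ≤ a * q.2.im - q.1.im} with hC
  have hCc : IsCompact C := (isCompact_closedBall q0 r1).inter_right
    (isClosed_le continuous_const hfc)
  have himp : ∀ q ∈ closedBall q0 r1, 0 < q.2.im := by
    intro q hq
    have h1 : ‖q.2 - q0.2‖ ≤ r1 := by
      have := (mem_closedBall.1 hq)
      rw [Prod.dist_eq] at this
      rw [← dist_eq_norm]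
      exact (le_max_right _ _).trans this
    have h2 := Complex.abs_im_le_norm (q.2 - q0.2)
    rw [sub_im, abs_le] at h2
    linarith [h2.1]
  have hCL : C ⊆ Lo a := fun q hq => ⟨himp q hq.1, by
    have h1 : δ ≤ a * q.2.im - q.1.im := hq.2
    linarith⟩
  have hev : ∀ᶠ n in l, ∀ x ∈ C, ContinuousAt (Bn n) x ∧ Fn n (x, Bn n x) = 0 := by
    refine ev_compact hCc fun x hx => ?_
    obtain ⟨rx, hrx, hx2⟩ := hBd x (hCL hx)
    refine ⟨ball x rx, ball_mem_nhds x hrx, hx2.mono fun n hn y hy => ⟨?_, (hn.2 y hy).2⟩⟩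
    exact hn.1.continuousAt (isOpen_ball.mem_nhds hy)
  have hev1 : ∀ᶠ n in l, Bn n q1 ∈ ball b r2 :=
    (hBl q1 hq1L).eventually (isOpen_ball.mem_nhds hq1b)
  obtain ⟨n, hnb, ⟨G, hG1, hG2, hG3, hG4⟩, hnC, hn1⟩ :=
    (hfreq.and_eventually (hreg.and (hev.and hev1))).exists
  apply hnb
  set W : Set (ℂ × ℂ) := {q | δ < a * q.2.im - q.1.im} with hW
  have hWconv : Convex ℝ W := by
    intro x hx y hy s t hs ht hst
    have hx' : δ < a * x.2.im - x.1.im := hx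
    have hy' : δ < a * y.2.im - y.1.im := hy
    show δ < a * (s • x + t • y).2.im - (s • x + t • y).1.im
    have e1 : (s • x + t • y).1.im = s * x.1.im + t * y.1.im := by simp
    have e2 : (s • x + t • y).2.im = s * x.2.im + t * y.2.im := by simp
    rw [e1, e2]
    have : a * (s * x.2.im + t * y.2.im) - (s * x.1.im + t * y.1.im) =
      s * (a * x.2.im - x.1.im) + t * (a * y.2.im - y.1.im) := by ring
    rw [this]
    rcases hs.lt_or_eq with hs | hs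
    · have : δ = s * δ + t * δ := by rw [← add_mul, hst, one_mul]
      nlinarith [mul_lt_mul_of_pos_left hx' hs, mul_le_mul_of_nonneg_left hy'.le ht]
    · have ht1 : t = 1 := by linarith
      subst ht1; subst hs
      linarith
  have hWC : W ∩ ball q0 r1 ⊆ C := fun q hq => by
    have h1 : δ < a * q.2.im - q.1.im := hq.1
    exact ⟨ball_subset_closedBall hq.2, h1.le⟩
  have heq : EqOn (Bn n) G (W ∩ ball q0 r1) := by
    refine hG4 W (Bn n) (hWconv.inter (convex_ball _ _)).isPreconnected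
      (fun q hq => (hnC q (hWC hq)).1.continuousWithinAt) (fun q hq _ => (hnC q (hWC hq)).2)
      ⟨q1, ⟨hδK q1 (mem_insert _ _), hq1d⟩, hn1⟩
  have hbr : ball b r2 ⊆ Sp h := by
    intro z hz
    exact (hsubO (mk_mem_prod (mem_ball_self hr0) (ball_subset_ball (by linarith) hz))).2
  refine ⟨G, ball q0 r1, isOpen_ball, closedBall_subset_ball (by linarith),
    (ball_subset_ball hr1r).trans hcb, hG1, fun x hx => ⟨hbr (hG2 x hx).1, (hG2 x hx).2⟩, ?_⟩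
  rintro x ⟨hxK, hxV⟩
  exact (heq ⟨hδK x (mem_insert_of_mem _ hxK), hxV⟩).symm

/-- **THE END of a normal window, sequence form.** -/
theorem end_seq {ι : Type*} {l : Filter ι} [l.NeBot] {a h : ℝ} {Om : Set (ℂ × ℂ)}
    (hOm : IsOpen Om) (hLO : Lo a ⊆ Om) (hFO : Fc a ⊆ Om)
    {Bn : ι → ℂ × ℂ → ℂ} {B : ℂ × ℂ → ℂ} {Fn : ι → (ℂ × ℂ) × ℂ → ℂ} {F : (ℂ × ℂ) × ℂ → ℂ}
    (hBd : ∀ q ∈ Lo a, ∃ r > 0, ∀ᶠ n in l, ContinuousOn (Bn n) (ball q r) ∧
      ∀ x ∈ ball q r, |(Bn n x).im| < h ∧ Fn n (x, Bn n x) = 0)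
    (hBl : ∀ q ∈ Lo a, Tendsto (fun n => Bn n q) l (𝓝 (B q)))
    (hB : DifferentiableOn ℂ B (Lo a)) (hBm : ∀ q ∈ Lo a, |(B q).im| < h)
    (hFn : ∀ x ∈ Om ×ˢ Sp h, ∃ r > 0, ∀ᶠ n in l, DifferentiableOn ℂ (Fn n) (ball x r))
    (hFl : TendstoLocallyUniformlyOn Fn F l (Om ×ˢ Sp h))
    (hF : DifferentiableOn ℂ F (Om ×ˢ Sp h))
    (hper : ∀ q ∈ Om, ∀ b : ℂ, |b.im| < h → (F (q, b + 1) = 0 ↔ F (q, b) = 0))
    (hne : ∀ q ∈ Fc a, ∃ b : ℂ, |b.im| < h ∧ F (q, b) ≠ 0)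
    (births : ∀ q0 ∈ Fc a, ∀ r > 0, closedBall q0 r ⊆ Om → ∃ K ⊆ Lo a, IsCompact K ∧ ∃ᶠ n in l,
      ¬ ∃ (G : ℂ × ℂ → ℂ) (V : Set (ℂ × ℂ)), IsOpen V ∧ closedBall q0 r ⊆ V ∧ V ⊆ Om ∧
        DifferentiableOn ℂ G V ∧ (∀ x ∈ V, |(G x).im| < h ∧ Fn n (x, G x) = 0) ∧
        ∀ x ∈ K ∩ V, G x = Bn n x) :
    ∀ q ∈ Lo a, F (q, B q) = 0 ∧ deriv (fun z => F (q, z)) (B q) = 0 := by
  have hinc : ∀ q ∈ Lo a, F (q, B q) = 0 := by
    intro q hq
    have hx : ((q, B q) : (ℂ × ℂ) × ℂ) ∈ Om ×ˢ Sp h := ⟨hLO hq, hBm q hq⟩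
    obtain ⟨r, hr, hev⟩ := hBd q hq
    have h1 : Tendsto (fun n => ((q, Bn n q) : (ℂ × ℂ) × ℂ)) l (𝓝[Om ×ˢ Sp h] (q, B q)) := by
      refine tendsto_nhdsWithin_iff.2 ⟨?_, ?_⟩
      · exact Filter.Tendsto.prodMk_nhds tendsto_const_nhds (hBl q hq)
      · filter_upwards [hev] with n hn
        exact ⟨hLO hq, (hn.2 q (mem_ball_self hr)).1⟩
    have h2 := hFl.tendsto_comp (hF.continuousOn _ hx) hx h1
    have h3 : Tendsto (fun n => Fn n (q, Bn n q)) l (𝓝 0) := by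
      refine tendsto_const_nhds.congr' ?_
      filter_upwards [hev] with n hn
      exact (hn.2 q (mem_ball_self hr)).2.symm
    exact tendsto_nhds_unique h2 h3
  intro q hq
  refine ⟨hinc q hq, tangential hOm hLO hFO hB hBm hF hper hne hinc ?_ q hq⟩
  intro q0 hq0 b hb hcl
  exact hbirth_of_births hOm hLO hFO hBd hBl hBm hFn hFl hF hq0 (births q0 hq0) hb hcl

end Crest.Agent.R102.EndSeq196
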