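import Mathlib
import Crest.Agent.R102.Marc_295
import Crest.Agent.R102.MarcSum_292

/-!
Row 102, T1-B, EDGE-SLOW, S-END (helper292): the sum of the kernel bounds over the column of a
Marcinkiewicz point is small.

* `small_MI` : `MI U r u < ⊤` gives `MI U r' u ≤ ε` for a small `r'`;
* `end_sum`  : the sum form;
* **`end_win`** : the per-window form: every `e i` is bounded either by the top term
  `((s₀/2^i)/s₁)^θ` or by a gap term `((s₀/2^i)/r)^θ (s'/r)²`, `κ s' ≤ dist(y, U)`, `|y - u| ≤ r`;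
  then `∑ e i ≤ τ`.
-/

set_option autoImplicit false

open Set Filter Topology Metric MeasureTheory
open scoped ENNReal

noncomputable section

namespace Crest.Agent.R102.EndSum292

open Crest.Agent.R102.MarcSum292

/-- absolute continuity of the Marcinkiewicz integral -/
theorem small_MI {U : Set ℝ} {u r : ℝ} (hr : 0 < r) (hM : Marc295.MI U r u < ⊤) {ε : ℝ}
    (hε : 0 < ε) : ∃ r' : ℝ, 0 < r' ∧ r' ≤ r ∧ Marc295.MI U r' u ≤ ENNReal.ofReal ε := by
  set f : ℝ → ℝ≥0∞ := fun t => ENNReal.ofReal (infDist (u + t) U / t ^ 2) with hf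
  set s : ℕ → Set ℝ := fun n => Ioo (-(r / ((n : ℝ) + 1))) (r / ((n : ℝ) + 1)) with hs
  have hvol : Tendsto ((volume.restrict (Ioo (-r) r)) ∘ s) atTop (𝓝 0) := by
    have h1 : Tendsto (fun n : ℕ => ENNReal.ofReal (2 * (r / ((n : ℝ) + 1)))) atTop (𝓝 0) := by
      have h2 : Tendsto (fun n : ℕ => 2 * (r / ((n : ℝ) + 1))) atTop (𝓝 0) := by
        have h3 := (tendsto_const_div_atTop_nhds_zero_nat r).comp (tendsto_add_atTop_nat 1)
        have h4 := h3.const_mul 2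
        simp only [mul_zero] at h4
        refine h4.congr fun n => ?_
        simp
      have := (ENNReal.continuous_ofReal.tendsto 0).comp h2
      rw [ENNReal.ofReal_zero] at this
      exact this
    refine tendsto_of_tendsto_of_tendsto_of_le_of_le tendsto_const_nhds h1 (fun _ => bot_le) ?_
    intro n
    refine (Measure.restrict_apply_le _ _).trans ?_
    simp only [hs, Real.volume_Ioo]
    refine ENNReal.ofReal_le_ofReal ?_
    linarith
  have hlim := tendsto_setLIntegral_zero (μ := volume.restrict (Ioo (-r) r)) (f := f)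
    (ne_of_lt hM) hvol
  have hε' : (0 : ℝ≥0∞) < ENNReal.ofReal ε := ENNReal.ofReal_pos.2 hε
  obtain ⟨n, hn⟩ := (hlim.eventually (gt_mem_nhds hε')).exists
  have hn0 : (0 : ℝ) < (n : ℝ) + 1 := by positivity
  have hle : r / ((n : ℝ) + 1) ≤ r := by
    rw [div_le_iff₀ hn0]
    nlinarith [Nat.cast_nonneg (α := ℝ) n]
  refine ⟨r / ((n : ℝ) + 1), by positivity, hle, ?_⟩
  have hsub : s n ⊆ Ioo (-r) r := by
    intro t ht
    exact ⟨by linarith [ht.1], by linarith [ht.2]⟩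
  have e : (volume.restrict (Ioo (-r) r)).restrict (s n) = volume.restrict (s n) := by
    rw [Measure.restrict_restrict measurableSet_Ioo, inter_eq_left.2 hsub]
  rw [e] at hn
  exact hn.le

/-- powers of small numbers -/
theorem exists_small {θ : ℝ} (hθ : 0 < θ) {c δ : ℝ} (hc : 0 < c) (hδ : 0 < δ) :
    ∃ m : ℝ, 0 < m ∧ ∀ s : ℝ, 0 < s → s ≤ m → (s / c) ^ θ ≤ δ := by
  refine ⟨c * δ ^ (1 / θ), by positivity, fun s hs hsm => ?_⟩
  have h1 : s / c ≤ δ ^ (1 / θ) := by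
    rw [div_le_iff₀ hc]
    linarith
  calc (s / c) ^ θ ≤ (δ ^ (1 / θ)) ^ θ := Real.rpow_le_rpow (by positivity) h1 hθ.le
    _ = δ := by rw [← Real.rpow_mul hδ.le, one_div, inv_mul_cancel₀ hθ.ne', Real.rpow_one]

/-- **the sum over the column of a Marcinkiewicz point** -/
theorem end_sum {θ κ : ℝ} (hθ : 0 < θ) (hκ : 0 < κ) {U : Set ℝ} {u : ℝ} (hu : u ∈ closure U)
    {r₁ : ℝ} (hr₁ : 0 < r₁) (hM : Marc295.MI U r₁ u < ⊤) : ∀ τ > 0, ∀ s₁ > 0, ∃ sm > 0, sm ≤ s₁ ∧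
      ∀ s₀ : ℝ, 0 < s₀ → s₀ ≤ sm → ∀ (N : ℕ) (r y : ℕ → ℝ), (∀ i, s₀ / 2 ^ i ≤ r i) →
        (∀ i, |y i - u| ≤ r i) →
        ∑ i ∈ Finset.range N, (((s₀ / 2 ^ i) / s₁) ^ θ +
          ((s₀ / 2 ^ i) / r i) ^ θ * (infDist (y i) U / (κ * r i)) ^ 2) ≤ τ := by
  intro τ hτ s₁ hs₁
  obtain ⟨C, hC, hker⟩ := kernel_sum hθ
  set q : ℝ := (1 / 2 : ℝ) ^ θ with hq
  have hq0 : 0 < q := by rw [hq]; positivity
  have hq1 : q < 1 := Real.rpow_lt_one (by norm_num) (by norm_num) hθ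
  have hq2 : 0 < 1 - q := by linarith
  have hε : 0 < τ * κ ^ 2 / (4 * C) := by positivity
  obtain ⟨r', hr', -, hMI⟩ := small_MI hr₁ hM hε
  obtain ⟨m1, hm1, hs1⟩ := exists_small hθ hs₁ (show 0 < τ / 4 * (1 - q) by positivity)
  obtain ⟨m2, hm2, hs2⟩ := exists_small hθ hr' hε
  refine ⟨min s₁ (min m1 m2), by positivity, min_le_left _ _, ?_⟩
  intro s₀ hs0 hsm N r y hr hy
  have h1 := hs1 s₀ hs0 (hsm.trans ((min_le_right _ _).trans (min_le_left _ _)))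
  have h2 := hs2 s₀ hs0 (hsm.trans ((min_le_right _ _).trans (min_le_right _ _)))
  have h3 := hker U u _ r' s₀ hu hr' hε.le hs0 hMI N r y hr hy
  rw [Finset.sum_add_distrib]
  have hA : ∑ i ∈ Finset.range N, ((s₀ / 2 ^ i) / s₁) ^ θ ≤ τ / 4 := by
    have e : ∀ i ∈ Finset.range N, ((s₀ / 2 ^ i) / s₁) ^ θ = (s₀ / s₁) ^ θ * q ^ i := by
      intro i _
      have e1 : (s₀ / 2 ^ i) / s₁ = (s₀ / s₁) * (1 / 2) ^ i := by
        rw [one_div, inv_pow]; field_simp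
      rw [e1, Real.mul_rpow (by positivity) (by positivity), hq, ← Real.rpow_natCast,
        ← Real.rpow_mul (by norm_num), mul_comm (i : ℝ), Real.rpow_mul (by norm_num),
        Real.rpow_natCast]
    rw [Finset.sum_congr rfl e, ← Finset.mul_sum]
    have g : ∑ i ∈ Finset.range N, q ^ i ≤ 1 / (1 - q) := by
      calc ∑ i ∈ Finset.range N, q ^ i ≤ ∑' i, q ^ i :=
            (summable_geometric_of_lt_one hq0.le hq1).sum_le_tsum _ (fun i _ => by positivity)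
        _ = 1 / (1 - q) := by rw [tsum_geometric_of_lt_one hq0.le hq1, one_div]
    calc (s₀ / s₁) ^ θ * ∑ i ∈ Finset.range N, q ^ i
        ≤ (τ / 4 * (1 - q)) * (1 / (1 - q)) :=
          mul_le_mul h1 g (Finset.sum_nonneg fun i _ => by positivity) (by positivity)
      _ = τ / 4 := by field_simp
  have hB : ∑ i ∈ Finset.range N, ((s₀ / 2 ^ i) / r i) ^ θ * (infDist (y i) U / (κ * r i)) ^ 2 ≤
      τ / 2 := by
    have e : ∀ i ∈ Finset.range N, ((s₀ / 2 ^ i) / r i) ^ θ * (infDist (y i) U / (κ * r i)) ^ 2 =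
        1 / κ ^ 2 * (((s₀ / 2 ^ i) / r i) ^ θ * (infDist (y i) U / r i) ^ 2) := by
      intro i _
      have hri : 0 < r i := lt_of_lt_of_le (by positivity) (hr i)
      field_simp
    rw [Finset.sum_congr rfl e, ← Finset.mul_sum]
    calc 1 / κ ^ 2 * ∑ i ∈ Finset.range N, ((s₀ / 2 ^ i) / r i) ^ θ * (infDist (y i) U / r i) ^ 2
        ≤ 1 / κ ^ 2 * (C * (τ * κ ^ 2 / (4 * C) + (s₀ / r') ^ θ)) :=
          mul_le_mul_of_nonneg_left h3 (by positivity)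
      _ ≤ 1 / κ ^ 2 * (C * (τ * κ ^ 2 / (4 * C) + τ * κ ^ 2 / (4 * C))) := by gcongr
      _ = τ / 2 := by field_simp; ring
  linarith

/-- **S-END, per window** : top windows and gap windows -/
theorem end_win {θ κ : ℝ} (hθ : 0 < θ) (hκ : 0 < κ) {U : Set ℝ} {u : ℝ} (hu : u ∈ closure U)
    {r₁ : ℝ} (hr₁ : 0 < r₁) (hM : Marc295.MI U r₁ u < ⊤) : ∀ τ > 0, ∀ s₁ > 0, ∃ sm > 0, sm ≤ s₁ ∧
      ∀ s₀ : ℝ, 0 < s₀ → s₀ ≤ sm → ∀ (N : ℕ) (e : ℕ → ℝ),
        (∀ i < N, e i ≤ ((s₀ / 2 ^ i) / s₁) ^ θ ∨ ∃ r y s' : ℝ, s₀ / 2 ^ i ≤ r ∧ |y - u| ≤ r ∧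
          0 ≤ s' ∧ κ * s' ≤ infDist y U ∧ e i ≤ ((s₀ / 2 ^ i) / r) ^ θ * (s' / r) ^ 2) →
        ∑ i ∈ Finset.range N, e i ≤ τ := by
  intro τ hτ s₁ hs₁
  obtain ⟨sm, hsm, hsm1, h⟩ := end_sum hθ hκ hu hr₁ hM τ hτ s₁ hs₁
  refine ⟨sm, hsm, hsm1, fun s₀ hs0 hs N e he => ?_⟩
  -- choose the data
  have key : ∀ i : ℕ, ∃ r y : ℝ, s₀ / 2 ^ i ≤ r ∧ |y - u| ≤ r ∧
      (i < N → e i ≤ ((s₀ / 2 ^ i) / s₁) ^ θ +
        ((s₀ / 2 ^ i) / r) ^ θ * (infDist y U / (κ * r)) ^ 2) := by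
    intro i
    have hpos : 0 < s₀ / 2 ^ i := by positivity
    by_cases hi : i < N
    · rcases he i hi with h1 | ⟨r, y, s', h1, h2, h3, h4, h5⟩
      · refine ⟨s₀ / 2 ^ i, u, le_rfl, by simp [hpos.le], fun _ => ?_⟩
        have : 0 ≤ ((s₀ / 2 ^ i) / (s₀ / 2 ^ i)) ^ θ *
            (infDist u U / (κ * (s₀ / 2 ^ i))) ^ 2 := by positivity
        linarith
      · refine ⟨r, y, h1, h2, fun _ => ?_⟩
        have hr : 0 < r := lt_of_lt_of_le hpos h1
        have h6 : s' / r ≤ infDist y U / (κ * r) := by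
          rw [div_le_div_iff₀ hr (by positivity)]
          nlinarith
        have h7 : (s' / r) ^ 2 ≤ (infDist y U / (κ * r)) ^ 2 := by
          have : 0 ≤ s' / r := by positivity
          nlinarith
        have h8 : 0 ≤ ((s₀ / 2 ^ i) / s₁) ^ θ := by positivity
        have h9 : ((s₀ / 2 ^ i) / r) ^ θ * (s' / r) ^ 2 ≤
            ((s₀ / 2 ^ i) / r) ^ θ * (infDist y U / (κ * r)) ^ 2 :=
          mul_le_mul_of_nonneg_left h7 (by positivity)
        linarith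
    · exact ⟨s₀ / 2 ^ i, u, le_rfl, by simp [hpos.le], fun hi' => absurd hi' hi⟩
  choose r y k1 k2 k3 using key
  exact (Finset.sum_le_sum fun i hi => k3 i (Finset.mem_range.1 hi)).trans
    (h s₀ hs0 hs N r y k1 k2)

end Crest.Agent.R102.EndSum292
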