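import Mathlib
import Crest.Agent.R102.EndA_416

/-!
Row 102, part (C), T5 (P1), part Z: the isotropic coordinates in the `σ`-chart and the excluded
exponents.
-/

set_option autoImplicit false

namespace Crest.Agent.R102.End416

open Set Filter Topology Metric
open Crest.Agent.R102.Pain416 (HD bl bl_basis HD_mem HD_mono isOpen_HD convex_HD path_mem)

noncomputable section

variable {θ H : ℂ → ℂ} {s : ℂ} {n : ℕ} {r : ℝ} {a k : ℤ} {e g f : ℂ → ℂ}

/-- `Z₊ = e^{iθ}(i H - H'/θ')` in the chart -/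
def Zp (n : ℕ) (a k : ℤ) (e g f : ℂ → ℂ) (σ : ℂ) : ℂ :=
  Es a e σ * (Complex.I * f σ - Hd n f σ / Es k g σ)

/-- `Z₋ = e^{-iθ}(-i H - H'/θ')` in the chart -/
def Zm (n : ℕ) (a k : ℤ) (e g f : ℂ → ℂ) (σ : ℂ) : ℂ :=
  (Es a e σ)⁻¹ * (-Complex.I * f σ - Hd n f σ / Es k g σ)

namespace EndS

lemma Es_anE (D : EndS θ H s n r a k e g f) {σ : ℂ} (h : σ ∈ ball (0 : ℂ) r) (h0 : σ ≠ 0) :
    AnalyticAt ℂ (Es a e) σ := by
  unfold Es
  exact (analyticAt_id.zpow h0).mul (D.e_an σ h)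

lemma Es_anY (D : EndS θ H s n r a k e g f) {σ : ℂ} (h : σ ∈ ball (0 : ℂ) r) (h0 : σ ≠ 0) :
    AnalyticAt ℂ (Es k g) σ := by
  unfold Es
  exact (analyticAt_id.zpow h0).mul (D.g_an σ h)

lemma Dz_an (D : EndS θ H s n r a k e g f) {σ : ℂ} (h0 : σ ≠ 0) : AnalyticAt ℂ (Dz n) σ := by
  unfold Dz
  have hn : (n : ℂ) ≠ 0 := by exact_mod_cast D.n_pos.ne'
  exact analyticAt_const.div (analyticAt_const.mul (analyticAt_id.pow _))
    (mul_ne_zero hn (pow_ne_zero _ h0))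

lemma Hd_an (D : EndS θ H s n r a k e g f) {σ : ℂ} (h : σ ∈ ball (0 : ℂ) r) (h0 : σ ≠ 0) :
    AnalyticAt ℂ (Hd n f) σ := by
  unfold Hd
  exact (D.f_an σ h h0).deriv.mul (D.Dz_an h0)

lemma E_ne (D : EndS θ H s n r a k e g f) {σ : ℂ} (h : σ ∈ ball (0 : ℂ) r) (h0 : σ ≠ 0) :
    Es a e σ ≠ 0 := Es_ne h0 (D.e_ne σ h)

lemma Y_ne (D : EndS θ H s n r a k e g f) {σ : ℂ} (h : σ ∈ ball (0 : ℂ) r) (h0 : σ ≠ 0) :
    Es k g σ ≠ 0 := Es_ne h0 (D.g_ne σ h)

lemma dZp (D : EndS θ H s n r a k e g f) {σ : ℂ} (h : σ ∈ ball (0 : ℂ) r) (h0 : σ ≠ 0) :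
    HasDerivAt (Zp n a k e g f) (-Complex.I * n * σ ^ (n - 1) * Es a e σ / Es k g σ ^ 2) σ := by
  have hE := (D.Es_anE h h0).differentiableAt.hasDerivAt
  have hY := (D.Es_anY h h0).differentiableAt.hasDerivAt
  have hf := (D.f_an σ h h0).differentiableAt.hasDerivAt
  have hH := (D.Hd_an h h0).differentiableAt.hasDerivAt
  have hEn := D.E_ne h h0
  have hYn := D.Y_ne h h0
  have hn : (n : ℂ) ≠ 0 := by exact_mod_cast D.n_pos.ne'
  have hp : σ ^ (n - 1) ≠ 0 := pow_ne_zero _ h0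
  have h1 := hE.mul ((hf.const_mul Complex.I).sub (hH.div hY hYn))
  refine h1.congr_deriv ?_
  have hlz := D.lz σ h h0
  have hdE := D.dE σ h h0
  have hI := Complex.I_ne_zero
  have hdf : deriv f σ = -Complex.I * (n * σ ^ (n - 1)) * Hd n f σ := by
    unfold Hd Dz
    field_simp
    rw [Complex.I_sq]
    ring
  rw [hdE, hdf]
  simp only [Dz] at hlz
  have hlz' : Es k g σ * deriv (Hd n f) σ - deriv (Es k g) σ * Hd n f σ =
      Complex.I * (n * σ ^ (n - 1)) * (1 + Es k g σ ^ 3 * f σ) := by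
    field_simp at hlz
    linear_combination (-Complex.I) * hlz + (Es k g σ * deriv (Hd n f) σ -
      deriv (Es k g) σ * Hd n f σ) * Complex.I_sq
  have hmain : deriv (Hd n f) σ * Es k g σ - Hd n f σ * deriv (Es k g) σ =
      Complex.I * (n * σ ^ (n - 1)) * (1 + Es k g σ ^ 3 * f σ) := by
    linear_combination hlz'
  rw [hmain]
  simp only [Pi.sub_apply, Pi.div_apply]
  field_simp
  linear_combination (-(Es k g σ ^ 2 * Hd n f σ)) * Complex.I_sq

lemma dZm (D : EndS θ H s n r a k e g f) {σ : ℂ} (h : σ ∈ ball (0 : ℂ) r) (h0 : σ ≠ 0) :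
    HasDerivAt (Zm n a k e g f) (-Complex.I * n * σ ^ (n - 1) * (Es a e σ)⁻¹ / Es k g σ ^ 2) σ := by
  have hE := (D.Es_anE h h0).differentiableAt.hasDerivAt
  have hY := (D.Es_anY h h0).differentiableAt.hasDerivAt
  have hf := (D.f_an σ h h0).differentiableAt.hasDerivAt
  have hH := (D.Hd_an h h0).differentiableAt.hasDerivAt
  have hEn := D.E_ne h h0
  have hYn := D.Y_ne h h0
  have hn : (n : ℂ) ≠ 0 := by exact_mod_cast D.n_pos.ne'
  have hp : σ ^ (n - 1) ≠ 0 := pow_ne_zero _ h0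
  have h1 := (hE.inv hEn).mul ((hf.const_mul (-Complex.I)).sub (hH.div hY hYn))
  refine h1.congr_deriv ?_
  have hlz := D.lz σ h h0
  have hdE := D.dE σ h h0
  have hI := Complex.I_ne_zero
  have hdf : deriv f σ = -Complex.I * (n * σ ^ (n - 1)) * Hd n f σ := by
    unfold Hd Dz
    field_simp
    rw [Complex.I_sq]
    ring
  rw [hdE, hdf]
  simp only [Dz] at hlz
  have hlz' : Es k g σ * deriv (Hd n f) σ - deriv (Es k g) σ * Hd n f σ =
      Complex.I * (n * σ ^ (n - 1)) * (1 + Es k g σ ^ 3 * f σ) := by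
    field_simp at hlz
    linear_combination (-Complex.I) * hlz + (Es k g σ * deriv (Hd n f) σ -
      deriv (Es k g) σ * Hd n f σ) * Complex.I_sq
  have hmain : deriv (Hd n f) σ * Es k g σ - Hd n f σ * deriv (Es k g) σ =
      Complex.I * (n * σ ^ (n - 1)) * (1 + Es k g σ ^ 3 * f σ) := by
    linear_combination hlz'
  rw [hmain]
  simp only [Pi.inv_apply, Pi.sub_apply, Pi.div_apply]
  field_simp
  linear_combination (Es k g σ ^ 2 * Hd n f σ) * Complex.I_sq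

end EndS

/-- a derivative has no residue -/
lemma no_residue {P u : ℂ → ℂ} (hP : MeromorphicAt P 0) (hu : ContinuousAt u 0)
    (h : ∀ᶠ σ in 𝓝[≠] (0 : ℂ), deriv P σ = σ⁻¹ * u σ) : u 0 = 0 := by
  have hut : Tendsto u (𝓝[≠] 0) (𝓝 (u 0)) := hu.tendsto.mono_left nhdsWithin_le_nhds
  have hid : Tendsto (fun σ : ℂ => σ) (𝓝[≠] 0) (𝓝 0) := tendsto_id.mono_left nhdsWithin_le_nhds
  have hne : ∀ᶠ σ in 𝓝[≠] (0 : ℂ), σ ≠ 0 := self_mem_nhdsWithin
  rcases hP.eventually_eq_zero_or_eventually_ne_zero with h1 | h1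
  · have h2 : ∀ᶠ σ in 𝓝[≠] (0 : ℂ), u σ = 0 := by
      have h3 : ∀ᶠ σ in 𝓝[≠] (0 : ℂ), ∀ᶠ τ in 𝓝 σ, P τ = 0 := by
        have := (eventually_eventually_nhdsWithin (s := {(0 : ℂ)}ᶜ)).2 h1
        filter_upwards [this, hne] with σ h4 h5
        rwa [IsOpen.nhdsWithin_eq isOpen_compl_singleton (by simpa using h5)] at h4
      filter_upwards [h3, h, hne] with σ h4 h5 h6
      have h7 : P =ᶠ[𝓝 σ] fun _ => 0 := h4
      rw [h7.deriv_eq] at h5
      simp only [deriv_const'] at h5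
      rcases mul_eq_zero.1 h5.symm with h8 | h8
      · exact absurd (inv_eq_zero.1 h8) h6
      · exact h8
    exact tendsto_nhds_unique (hut.congr' h2) tendsto_const_nhds
  · obtain ⟨N, v, van, v0, hv⟩ := factor hP h1.frequently
    have h3 : ∀ᶠ σ in 𝓝[≠] (0 : ℂ), P =ᶠ[𝓝 σ] Es N v := by
      have := (eventually_eventually_nhdsWithin (s := {(0 : ℂ)}ᶜ)).2 hv
      filter_upwards [this, hne] with σ h4 h5
      rwa [IsOpen.nhdsWithin_eq isOpen_compl_singleton (by simpa using h5)] at h4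
    have h4 : ∀ᶠ σ in 𝓝[≠] (0 : ℂ), u σ = σ ^ N * (N * v σ + σ * deriv v σ) := by
      filter_upwards [h3, h, hne,
        eventually_nhdsWithin_of_eventually_nhds van.eventually_analyticAt] with σ h5 h6 h7 h8
      have h9 : HasDerivAt (Es N v) (N * σ ^ (N - 1) * v σ + σ ^ N * deriv v σ) σ :=
        (hasDerivAt_zpow N σ (Or.inl h7)).mul h8.differentiableAt.hasDerivAt
      rw [h5.deriv_eq, h9.deriv] at h6
      have h10 : u σ = σ * (N * σ ^ (N - 1) * v σ + σ ^ N * deriv v σ) := by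
        rw [h6]
        field_simp
      rw [h10, zpow_sub_one₀ h7]
      field_simp
    have hbr : Tendsto (fun σ => (N : ℂ) * v σ + σ * deriv v σ) (𝓝[≠] 0) (𝓝 (N * v 0)) := by
      have h5 : ContinuousAt (fun σ => (N : ℂ) * v σ + σ * deriv v σ) 0 :=
        ((analyticAt_const.mul van).add (analyticAt_id.mul van.deriv)).continuousAt
      have h6 := h5.tendsto.mono_left (nhdsWithin_le_nhds (s := {(0 : ℂ)}ᶜ))
      simpa using h6
    rcases lt_trichotomy N 0 with hN | hN | hN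
    · exfalso
      obtain ⟨m, hm⟩ : ∃ m : ℕ, N = -((m : ℤ) + 1) := ⟨(-N - 1).toNat, by omega⟩
      have h5 : Tendsto (fun σ : ℂ => σ ^ (m + 1) * u σ) (𝓝[≠] 0) (𝓝 (0 * u 0)) := by
        refine Tendsto.mul ?_ hut
        have := hid.pow (m + 1)
        simpa using this
      have h6 : Tendsto (fun σ : ℂ => σ ^ (m + 1) * u σ) (𝓝[≠] 0) (𝓝 (N * v 0)) := by
        refine hbr.congr' ?_
        filter_upwards [h4, hne] with σ h7 h8
        rw [h7, hm, zpow_neg]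
        have h9 : σ ^ ((m : ℤ) + 1) = σ ^ (m + 1) := by
          rw [← zpow_natCast]
          push_cast
          rfl
        rw [h9]
        have h10 : σ ^ (m + 1) ≠ 0 := pow_ne_zero _ h8
        field_simp
      have h7 := tendsto_nhds_unique h5 h6
      rw [zero_mul] at h7
      have hNC : (N : ℂ) ≠ 0 := by exact_mod_cast hN.ne
      exact mul_ne_zero hNC v0 h7.symm
    · subst hN
      have h5 : Tendsto u (𝓝[≠] 0) (𝓝 (((0 : ℤ) : ℂ) * v 0)) := by
        refine hbr.congr' ?_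
        filter_upwards [h4] with σ h6
        rw [h6, zpow_zero, one_mul]
      have := tendsto_nhds_unique hut h5
      simpa using this
    · obtain ⟨m, hm⟩ : ∃ m : ℕ, N = (m : ℤ) + 1 := ⟨(N - 1).toNat, by omega⟩
      have h5 : Tendsto u (𝓝[≠] 0) (𝓝 (0 * (N * v 0))) := by
        have h7 : Tendsto (fun σ : ℂ => σ ^ (m + 1)) (𝓝[≠] 0) (𝓝 0) := by
          have := hid.pow (m + 1)
          simpa using this
        refine (h7.mul hbr).congr' ?_
        filter_upwards [h4] with σ h6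
        rw [h6]
        congr 1
        rw [hm, ← zpow_natCast]
        push_cast
        rfl
      rw [zero_mul] at h5
      exact tendsto_nhds_unique hut h5

/-- `σ^N v → c ≠ 0`, `v → v₀ ≠ 0`: then `N = 0` -/
lemma zpow_lim {N : ℤ} {v w : ℂ → ℂ} {v0 w0 : ℂ} (hv : Tendsto v (𝓝[≠] 0) (𝓝 v0))
    (hw : Tendsto w (𝓝[≠] 0) (𝓝 w0)) (hv0 : v0 ≠ 0) (hw0 : w0 ≠ 0)
    (h : ∀ᶠ σ in 𝓝[≠] (0 : ℂ), σ ^ N * v σ = w σ) : N = 0 ∧ v0 = w0 := by
  have hid : Tendsto (fun σ : ℂ => σ) (𝓝[≠] 0) (𝓝 0) := tendsto_id.mono_left nhdsWithin_le_nhds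
  have hne : ∀ᶠ σ in 𝓝[≠] (0 : ℂ), σ ≠ 0 := self_mem_nhdsWithin
  rcases lt_trichotomy N 0 with hN | hN | hN
  · exfalso
    obtain ⟨m, hm⟩ : ∃ m : ℕ, N = -((m : ℤ) + 1) := ⟨(-N - 1).toNat, by omega⟩
    have h7 : Tendsto (fun σ : ℂ => σ ^ (m + 1)) (𝓝[≠] 0) (𝓝 0) := by
      have := hid.pow (m + 1)
      simpa using this
    have h8 : Tendsto v (𝓝[≠] 0) (𝓝 (0 * w0)) := by
      refine (h7.mul hw).congr' ?_
      filter_upwards [h, hne] with σ h9 h10
      rw [← h9, hm, zpow_neg]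
      have h11 : σ ^ ((m : ℤ) + 1) = σ ^ (m + 1) := by
        rw [← zpow_natCast]
        push_cast
        rfl
      rw [h11]
      have h12 : σ ^ (m + 1) ≠ 0 := pow_ne_zero _ h10
      field_simp
    rw [zero_mul] at h8
    exact hv0 (tendsto_nhds_unique hv h8)
  · subst hN
    refine ⟨rfl, tendsto_nhds_unique (hv.congr' ?_) hw⟩
    filter_upwards [h] with σ h9
    rw [← h9, zpow_zero, one_mul]
  · exfalso
    obtain ⟨m, hm⟩ : ∃ m : ℕ, N = (m : ℤ) + 1 := ⟨(N - 1).toNat, by omega⟩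
    have h7 : Tendsto (fun σ : ℂ => σ ^ (m + 1)) (𝓝[≠] 0) (𝓝 0) := by
      have := hid.pow (m + 1)
      simpa using this
    have h8 : Tendsto w (𝓝[≠] 0) (𝓝 (0 * v0)) := by
      refine (h7.mul hv).congr' ?_
      filter_upwards [h] with σ h9
      rw [← h9, hm, ← zpow_natCast]
      push_cast
      rfl
    rw [zero_mul] at h8
    exact hw0 (tendsto_nhds_unique hw h8)

namespace EndS

lemma zero_mem (D : EndS θ H s n r a k e g f) : (0 : ℂ) ∈ ball (0 : ℂ) r := by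
  simpa using D.r_pos

lemma ev (D : EndS θ H s n r a k e g f) : ∀ᶠ σ in 𝓝[≠] (0 : ℂ), σ ∈ ball (0 : ℂ) r ∧ σ ≠ 0 := by
  filter_upwards [self_mem_nhdsWithin,
    mem_nhdsWithin_of_mem_nhds (ball_mem_nhds (0 : ℂ) D.r_pos)] with σ h1 h2 using ⟨h2, h1⟩

/-- `a e + σ e' = n σ^{n+k} g e` -/
lemma ode (D : EndS θ H s n r a k e g f) {σ : ℂ} (h : σ ∈ ball (0 : ℂ) r) (h0 : σ ≠ 0) :
    σ ^ ((n : ℤ) + k) * (n * g σ * e σ) = a * e σ + σ * deriv e σ := by
  have h1 := D.dE σ h h0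
  have h2 : HasDerivAt (Es a e) (a * σ ^ (a - 1) * e σ + σ ^ a * deriv e σ) σ :=
    (hasDerivAt_zpow a σ (Or.inl h0)).mul (D.e_an σ h).differentiableAt.hasDerivAt
  rw [h2.deriv] at h1
  unfold Es at h1
  have h3 : σ ^ a ≠ 0 := zpow_ne_zero _ h0
  obtain ⟨m, hm⟩ : ∃ m, n = m + 1 := ⟨n - 1, by have := D.n_pos; omega⟩
  have h4 : σ ^ ((n : ℤ) + k) = σ ^ (n - 1) * σ * σ ^ k := by
    rw [zpow_add₀ h0, zpow_natCast]
    congr 1
    rw [hm, pow_succ, Nat.add_sub_cancel]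
  rw [h4]
  rw [zpow_sub_one₀ h0] at h1
  have h5 : σ ^ a * (σ ^ (n - 1) * σ * σ ^ k * (n * g σ * e σ)) =
      σ ^ a * (a * e σ + σ * deriv e σ) := by
    field_simp at h1
    rw [h1]
    ring
  exact mul_left_cancel₀ h3 h5

lemma e_lim (D : EndS θ H s n r a k e g f) : Tendsto e (𝓝[≠] 0) (𝓝 (e 0)) :=
  (D.e_an 0 D.zero_mem).continuousAt.tendsto.mono_left nhdsWithin_le_nhds

lemma g_lim (D : EndS θ H s n r a k e g f) : Tendsto g (𝓝[≠] 0) (𝓝 (g 0)) :=
  (D.g_an 0 D.zero_mem).continuousAt.tendsto.mono_left nhdsWithin_le_nhds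

lemma ode_lim (D : EndS θ H s n r a k e g f) :
    Tendsto (fun σ => (a : ℂ) * e σ + σ * deriv e σ) (𝓝[≠] 0) (𝓝 (a * e 0)) := by
  have van := D.e_an 0 D.zero_mem
  have h5 : ContinuousAt (fun σ => (a : ℂ) * e σ + σ * deriv e σ) 0 :=
    ((analyticAt_const.mul van).add (analyticAt_id.mul van.deriv)).continuousAt
  have h6 := h5.tendsto.mono_left (nhdsWithin_le_nhds (s := {(0 : ℂ)}ᶜ))
  simpa using h6

/-- isotropic end -/
lemma iso (D : EndS θ H s n r a k e g f) (ha : a ≠ 0) : k = -n ∧ g 0 = a / n := by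
  have hn : (n : ℂ) ≠ 0 := by exact_mod_cast D.n_pos.ne'
  have haC : (a : ℂ) ≠ 0 := by exact_mod_cast ha
  have he0 := D.e_ne 0 D.zero_mem
  have hg0 := D.g_ne 0 D.zero_mem
  obtain ⟨h1, h2⟩ := zpow_lim (N := (n : ℤ) + k) (v := fun σ => n * g σ * e σ)
    (w := fun σ => (a : ℂ) * e σ + σ * deriv e σ) (v0 := n * g 0 * e 0) (w0 := a * e 0)
    ((tendsto_const_nhds.mul D.g_lim).mul D.e_lim) D.ode_lim
    (mul_ne_zero (mul_ne_zero hn hg0) he0) (mul_ne_zero haC he0)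
    (by filter_upwards [D.ev] with σ h using D.ode h.1 h.2)
  refine ⟨by omega, ?_⟩
  rw [eq_div_iff hn]
  have := mul_right_cancel₀ he0 h2
  linear_combination this

/-- flat end -/
lemma flat (D : EndS θ H s n r a k e g f) (ha : a = 0) : -(n : ℤ) < k := by
  by_contra hk
  have hid : Tendsto (fun σ : ℂ => σ) (𝓝[≠] 0) (𝓝 0) := tendsto_id.mono_left nhdsWithin_le_nhds
  have hn : (n : ℂ) ≠ 0 := by exact_mod_cast D.n_pos.ne'
  have he0 := D.e_ne 0 D.zero_mem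
  have hg0 := D.g_ne 0 D.zero_mem
  obtain ⟨m, hm⟩ : ∃ m : ℕ, (n : ℤ) + k = -(m : ℤ) := ⟨(-((n : ℤ) + k)).toNat, by omega⟩
  have van := D.e_an 0 D.zero_mem
  have h1 : Tendsto (fun σ => σ ^ m * ((a : ℂ) * e σ + σ * deriv e σ)) (𝓝[≠] 0) (𝓝 0) := by
    have h5 : ContinuousAt (fun σ : ℂ => σ ^ m * ((a : ℂ) * e σ + σ * deriv e σ)) 0 :=
      ((analyticAt_id.pow m).mul
        ((analyticAt_const.mul van).add (analyticAt_id.mul van.deriv))).continuousAt
    have h6 := h5.tendsto.mono_left (nhdsWithin_le_nhds (s := {(0 : ℂ)}ᶜ))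
    simpa [ha] using h6
  have h2 : Tendsto (fun σ => n * g σ * e σ) (𝓝[≠] 0) (𝓝 0) := by
    refine h1.congr' ?_
    filter_upwards [D.ev] with σ h
    rw [← D.ode h.1 h.2, hm, zpow_neg, zpow_natCast]
    have := pow_ne_zero m h.2
    field_simp
  exact mul_ne_zero (mul_ne_zero hn hg0) he0
    (tendsto_nhds_unique ((tendsto_const_nhds.mul D.g_lim).mul D.e_lim) h2)

lemma f_mer' (D : EndS θ H s n r a k e g f) : MeromorphicAt (Hd n f) 0 :=
  D.f_mer.deriv.mul Dz_mer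

lemma Zp_mer (D : EndS θ H s n r a k e g f) : MeromorphicAt (Zp n a k e g f) 0 :=
  (Es_mer (D.e_an 0 D.zero_mem)).mul (((MeromorphicAt.const _ _).mul D.f_mer).sub
    (D.f_mer'.div (Es_mer (D.g_an 0 D.zero_mem))))

lemma Zm_mer (D : EndS θ H s n r a k e g f) : MeromorphicAt (Zm n a k e g f) 0 :=
  (Es_mer (D.e_an 0 D.zero_mem)).inv.mul (((MeromorphicAt.const _ _).mul D.f_mer).sub
    (D.f_mer'.div (Es_mer (D.g_an 0 D.zero_mem))))

lemma pow_zpow (D : EndS θ H s n r a k e g f) {σ : ℂ} (_h0 : σ ≠ 0) :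
    σ ^ (n - 1) = σ ^ ((n : ℤ) - 1) := by
  obtain ⟨m, hm⟩ : ∃ m, n = m + 1 := ⟨n - 1, by have := D.n_pos; omega⟩
  rw [hm, Nat.add_sub_cancel, ← zpow_natCast]
  congr 1
  push_cast
  ring

/-- `m ≠ 3` -/
lemma iso3 (D : EndS θ H s n r a k e g f) (ha : a ≠ 0) : a ≠ 3 * n ∧ a ≠ -(3 * n) := by
  have hn : (n : ℂ) ≠ 0 := by exact_mod_cast D.n_pos.ne'
  have he0 := D.e_ne 0 D.zero_mem
  have hg0 := D.g_ne 0 D.zero_mem
  have hk := (D.iso ha).1
  have hec := (D.e_an 0 D.zero_mem).continuousAt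
  have hgc := (D.g_an 0 D.zero_mem).continuousAt
  constructor
  · intro h
    have h1 := no_residue (u := fun σ => -Complex.I * n * (e σ)⁻¹ / g σ ^ 2) D.Zm_mer
      ((continuousAt_const.mul (hec.inv₀ he0)).div (hgc.pow 2) (pow_ne_zero _ hg0)) (by
        filter_upwards [D.ev] with σ hσ
        have hE := D.e_ne σ hσ.1
        have hG := D.g_ne σ hσ.1
        rw [(D.dZm hσ.1 hσ.2).deriv]
        simp only [Es]
        rw [mul_pow, ← zpow_natCast (σ ^ k) 2, ← zpow_mul, D.pow_zpow hσ.2]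
        have h2 : σ ^ ((n : ℤ) - 1) = σ⁻¹ * (σ ^ a * σ ^ (k * ((2 : ℕ) : ℤ))) := by
          rw [← zpow_neg_one, ← zpow_add₀ hσ.2, ← zpow_add₀ hσ.2]
          congr 1
          rw [h, hk]
          push_cast
          ring
        rw [h2]
        have h3 : σ ^ a ≠ 0 := zpow_ne_zero _ hσ.2
        have h4 : σ ^ (k * ((2 : ℕ) : ℤ)) ≠ 0 := zpow_ne_zero _ hσ.2
        have h5 := hσ.2
        field_simp)
    refine absurd h1 ?_
    exact div_ne_zero (mul_ne_zero (mul_ne_zero (neg_ne_zero.2 Complex.I_ne_zero) hn)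
      (inv_ne_zero he0)) (pow_ne_zero _ hg0)
  · intro h
    have h1 := no_residue (u := fun σ => -Complex.I * n * (e σ) / g σ ^ 2) D.Zp_mer
      ((continuousAt_const.mul hec).div (hgc.pow 2) (pow_ne_zero _ hg0)) (by
        filter_upwards [D.ev] with σ hσ
        have hE := D.e_ne σ hσ.1
        have hG := D.g_ne σ hσ.1
        rw [(D.dZp hσ.1 hσ.2).deriv]
        simp only [Es]
        rw [mul_pow, ← zpow_natCast (σ ^ k) 2, ← zpow_mul, D.pow_zpow hσ.2]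
        have h2 : σ ^ ((n : ℤ) - 1) * σ ^ a = σ⁻¹ * σ ^ (k * ((2 : ℕ) : ℤ)) := by
          rw [← zpow_neg_one, ← zpow_add₀ hσ.2, ← zpow_add₀ hσ.2]
          congr 1
          rw [h, hk]
          push_cast
          ring
        have h4 : σ ^ (k * ((2 : ℕ) : ℤ)) ≠ 0 := zpow_ne_zero _ hσ.2
        have h5 := hσ.2
        have h6 : -Complex.I * n * σ ^ ((n : ℤ) - 1) * (σ ^ a * e σ) =
            -Complex.I * n * e σ * (σ⁻¹ * σ ^ (k * ((2 : ℕ) : ℤ))) := by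
          rw [← h2]
          ring
        rw [h6]
        field_simp)
    refine absurd h1 ?_
    exact div_ne_zero (mul_ne_zero (mul_ne_zero (neg_ne_zero.2 Complex.I_ne_zero) hn)
      he0) (pow_ne_zero _ hg0)

/-- `c ≠ 1/2` -/
lemma flat1 (D : EndS θ H s n r a k e g f) (ha : a = 0) : 2 * k ≠ n := by
  intro hk
  have hn : (n : ℂ) ≠ 0 := by exact_mod_cast D.n_pos.ne'
  have he0 := D.e_ne 0 D.zero_mem
  have hg0 := D.g_ne 0 D.zero_mem
  have hec := (D.e_an 0 D.zero_mem).continuousAt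
  have hgc := (D.g_an 0 D.zero_mem).continuousAt
  have h1 := no_residue (u := fun σ => -Complex.I * n * (e σ) / g σ ^ 2) D.Zp_mer
    ((continuousAt_const.mul hec).div (hgc.pow 2) (pow_ne_zero _ hg0)) (by
      filter_upwards [D.ev] with σ hσ
      have hE := D.e_ne σ hσ.1
      have hG := D.g_ne σ hσ.1
      rw [(D.dZp hσ.1 hσ.2).deriv]
      simp only [Es]
      rw [mul_pow, ← zpow_natCast (σ ^ k) 2, ← zpow_mul, D.pow_zpow hσ.2, ha, zpow_zero, one_mul]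
      have h2 : σ ^ ((n : ℤ) - 1) = σ⁻¹ * σ ^ (k * ((2 : ℕ) : ℤ)) := by
        rw [← zpow_neg_one, ← zpow_add₀ hσ.2]
        congr 1
        push_cast
        omega
      have h4 : σ ^ (k * ((2 : ℕ) : ℤ)) ≠ 0 := zpow_ne_zero _ hσ.2
      have h5 := hσ.2
      rw [h2]
      field_simp)
  refine absurd h1 ?_
  exact div_ne_zero (mul_ne_zero (mul_ne_zero (neg_ne_zero.2 Complex.I_ne_zero) hn)
    he0) (pow_ne_zero _ hg0)

/-- `c ≠ 2` -/
lemma flat2 (D : EndS θ H s n r a k e g f) (ha : a = 0) : k ≠ 2 * n := by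
  intro hk
  have hid : Tendsto (fun σ : ℂ => σ) (𝓝[≠] 0) (𝓝 0) := tendsto_id.mono_left nhdsWithin_le_nhds
  have hn : (n : ℂ) ≠ 0 := by exact_mod_cast D.n_pos.ne'
  have he0 := D.e_ne 0 D.zero_mem
  have hg0 := D.g_ne 0 D.zero_mem
  have hean := D.e_an 0 D.zero_mem
  have hec := (D.e_an 0 D.zero_mem).continuousAt
  have hgc := (D.g_an 0 D.zero_mem).continuousAt
  -- `e - e 0 = σ^N h`
  have hd0 : ∀ σ ∈ ball (0 : ℂ) r, σ ≠ 0 →
      σ ^ (3 * (n : ℤ)) * (n * g σ * e σ) = σ * deriv e σ := by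
    intro σ h1 h2
    have h3 := D.ode h1 h2
    rw [ha] at h3
    rw [Int.cast_zero, zero_mul, zero_add, hk] at h3
    rw [← h3]
    congr 2
    ring
  have hPm : MeromorphicAt (fun σ => e σ - e 0) 0 := (hean.sub analyticAt_const).meromorphicAt
  have hfr : ∃ᶠ σ in 𝓝[≠] (0 : ℂ), e σ - e 0 ≠ 0 := by
    rw [Filter.Frequently]
    intro hcon
    have h1 : ∀ᶠ σ in 𝓝[≠] (0 : ℂ), e σ = e 0 := by
      filter_upwards [hcon] with σ h2
      exact sub_eq_zero.1 (not_not.1 h2)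
    have h3 : ∀ᶠ σ in 𝓝[≠] (0 : ℂ), ∀ᶠ τ in 𝓝 σ, e τ = e 0 := by
      have := (eventually_eventually_nhdsWithin (s := {(0 : ℂ)}ᶜ)).2 h1
      filter_upwards [this, D.ev] with σ h4 h5
      rwa [IsOpen.nhdsWithin_eq isOpen_compl_singleton (by simpa using h5.2)] at h4
    obtain ⟨σ, h4, h5⟩ := (h3.and D.ev).exists
    have h6 := hd0 σ h5.1 h5.2
    have h7 : e =ᶠ[𝓝 σ] fun _ => e 0 := h4
    rw [h7.deriv_eq] at h6
    simp only [deriv_const', mul_zero] at h6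
    exact mul_ne_zero (zpow_ne_zero _ h5.2) (mul_ne_zero (mul_ne_zero hn (D.g_ne σ h5.1))
      (D.e_ne σ h5.1)) h6
  obtain ⟨N, v, van, v0, hv⟩ := factor hPm hfr
  have h3 : ∀ᶠ σ in 𝓝[≠] (0 : ℂ), (fun σ => e σ - e 0) =ᶠ[𝓝 σ] Es N v := by
    have := (eventually_eventually_nhdsWithin (s := {(0 : ℂ)}ᶜ)).2 hv
    filter_upwards [this, D.ev] with σ h4 h5
    rwa [IsOpen.nhdsWithin_eq isOpen_compl_singleton (by simpa using h5.2)] at h4
  have h4 : ∀ᶠ σ in 𝓝[≠] (0 : ℂ),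
      σ ^ (3 * (n : ℤ)) * (n * g σ * e σ) = σ ^ N * (N * v σ + σ * deriv v σ) := by
    filter_upwards [h3, D.ev,
      eventually_nhdsWithin_of_eventually_nhds van.eventually_analyticAt] with σ h5 h7 h8
    have h9 : HasDerivAt (Es N v) (N * σ ^ (N - 1) * v σ + σ ^ N * deriv v σ) σ :=
      (hasDerivAt_zpow N σ (Or.inl h7.2)).mul h8.differentiableAt.hasDerivAt
    have h10 := h5.deriv_eq
    rw [h9.deriv, deriv_sub_const] at h10
    rw [hd0 σ h7.1 h7.2, h10, zpow_sub_one₀ h7.2]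
    have := h7.2
    field_simp
  have hN0 : N ≠ 0 := by
    rintro rfl
    have h5 : Tendsto (fun σ => e σ - e 0) (𝓝[≠] 0) (𝓝 (v 0)) := by
      have h6 : Tendsto v (𝓝[≠] 0) (𝓝 (v 0)) :=
        van.continuousAt.tendsto.mono_left nhdsWithin_le_nhds
      refine h6.congr' ?_
      filter_upwards [hv] with σ h7
      rw [h7, Es, zpow_zero, one_mul]
    have h6 : Tendsto (fun σ => e σ - e 0) (𝓝[≠] 0) (𝓝 (e 0 - e 0)) :=
      D.e_lim.sub tendsto_const_nhds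
    rw [sub_self] at h6
    exact v0 (tendsto_nhds_unique h5 h6)
  have hNC : (N : ℂ) ≠ 0 := by exact_mod_cast hN0
  have hbr : Tendsto (fun σ => (N : ℂ) * v σ + σ * deriv v σ) (𝓝[≠] 0) (𝓝 (N * v 0)) := by
    have h5 : ContinuousAt (fun σ => (N : ℂ) * v σ + σ * deriv v σ) 0 :=
      ((analyticAt_const.mul van).add (analyticAt_id.mul van.deriv)).continuousAt
    have h6 := h5.tendsto.mono_left (nhdsWithin_le_nhds (s := {(0 : ℂ)}ᶜ))
    simpa using h6
  have hN : N = 3 * n := by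
    have h5 := zpow_lim (N := 3 * (n : ℤ) - N) (v := fun σ => n * g σ * e σ)
      (w := fun σ => (N : ℂ) * v σ + σ * deriv v σ)
      ((tendsto_const_nhds.mul D.g_lim).mul D.e_lim) hbr
      (mul_ne_zero (mul_ne_zero hn hg0) he0) (mul_ne_zero hNC v0) (by
        filter_upwards [h4, D.ev] with σ h6 h7
        rw [zpow_sub₀ h7.2, div_mul_eq_mul_div, h6]
        have := zpow_ne_zero N h7.2
        field_simp)
    omega
  -- the residue of `Z₊/e₀ - e₀ Z₋`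
  have hW : MeromorphicAt (fun σ => (e 0)⁻¹ * Zp n a k e g f σ - e 0 * Zm n a k e g f σ) 0 :=
    ((MeromorphicAt.const _ _).mul D.Zp_mer).sub ((MeromorphicAt.const _ _).mul D.Zm_mer)
  have h1 := no_residue (u := fun σ => -Complex.I * n * (v σ * (e σ + e 0)) /
      (e 0 * e σ * g σ ^ 2)) hW ?_ ?_
  · refine absurd h1 ?_
    refine div_ne_zero (mul_ne_zero (mul_ne_zero (neg_ne_zero.2 Complex.I_ne_zero) hn)
      (mul_ne_zero v0 ?_)) (mul_ne_zero (mul_ne_zero he0 he0) (pow_ne_zero _ hg0))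
    rw [← two_mul]
    exact mul_ne_zero two_ne_zero he0
  · exact (continuousAt_const.mul (van.continuousAt.mul (hec.add continuousAt_const))).div
      ((continuousAt_const.mul hec).mul (hgc.pow 2))
      (mul_ne_zero (mul_ne_zero he0 he0) (pow_ne_zero _ hg0))
  · filter_upwards [D.ev, hv] with σ hσ hvσ
    have hE := D.e_ne σ hσ.1
    have hG := D.g_ne σ hσ.1
    have hdW : HasDerivAt (fun σ => (e 0)⁻¹ * Zp n a k e g f σ - e 0 * Zm n a k e g f σ) _ σ :=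
      ((D.dZp hσ.1 hσ.2).const_mul (e 0)⁻¹).sub ((D.dZm hσ.1 hσ.2).const_mul (e 0))
    rw [hdW.deriv]
    rw [Es, hN] at hvσ
    simp only [Es]
    rw [mul_pow, ← zpow_natCast (σ ^ k) 2, ← zpow_mul, D.pow_zpow hσ.2, ha, zpow_zero, one_mul]
    have h2 : σ ^ (k * ((2 : ℕ) : ℤ)) = σ ^ ((n : ℤ) - 1) * (σ * σ ^ (3 * (n : ℤ))) := by
      have h5 : σ * σ ^ (3 * (n : ℤ)) = σ ^ (3 * (n : ℤ) + 1) := by
        rw [zpow_add_one₀ hσ.2, mul_comm]
      rw [h5, ← zpow_add₀ hσ.2]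
      congr 1
      push_cast
      omega
    rw [h2]
    have h4 : σ ^ (3 * (n : ℤ)) ≠ 0 := zpow_ne_zero _ hσ.2
    have h4' : σ ^ ((n : ℤ) - 1) ≠ 0 := zpow_ne_zero _ hσ.2
    have h5 := hσ.2
    have h6 : v σ = (e σ - e 0) / σ ^ (3 * (n : ℤ)) := by
      rw [eq_div_iff h4, hvσ]
      ring
    rw [h6]
    field_simp
    ring

end EndS

end

end Crest.Agent.R102.End416
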