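import Mathlib

/-! R102, EDGE: cluster values in the annulus `S_0/Z`.
`be` is continuous on a domain `D` (locally connected at the boundary point `x`) with values in the
strip `|Im| < h`, and `G (be s) s = 0` where the relation `G b s = 0` is 1-periodic in the label `b` and
`G(.,x)` has isolated zeros in the strip.  If `Im be` has an interior cluster value at `x`, then `be`
converges at `x` to a point of the strip (`ends_gen`; half plane: `ends`; dichotomy: `ends_or_edge`). -/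

set_option autoImplicit false

open Filter Topology Set Metric Complex

namespace Crest.Agent.R102.Ends972

/-- General form: `X` any space, `D` a domain which is locally connected at the boundary point `x`.
The label relation `G b s = 0` is only assumed 1-periodic as a relation. -/
theorem ends_gen {X : Type*} [TopologicalSpace X] {D U0 : Set X} {x : X}
    (hconn : ∀ U ∈ 𝓝 x, ∃ V ∈ 𝓝 x, V ⊆ U ∧ IsPreconnected (V ∩ D)) (hU0 : U0 ∈ 𝓝 x)
    {h : ℝ} {G : ℂ → X → ℂ} {be : X → ℂ}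
    (hbc : ContinuousOn be (U0 ∩ D))
    (hbS : ∀ s ∈ U0 ∩ D, |(be s).im| < h)
    (hper : ∀ b : ℂ, |b.im| < h → ∀ s ∈ U0, (G (b + 1) s = 0 ↔ G b s = 0))
    (hGc : ∀ b : ℂ, |b.im| < h → ContinuousAt (fun p : ℂ × X => G p.1 p.2) (b, x))
    (hGd : ∀ b : ℂ, |b.im| < h → ∀ᶠ b' in 𝓝[≠] b, G b' x ≠ 0)
    (hrel : ∀ s ∈ U0 ∩ D, G (be s) s = 0)
    {c : ℝ} (hc : |c| < h) (hcl : MapClusterPt c (𝓝[D] x) (fun s => (be s).im)) :
    ∃ b0 : ℂ, |b0.im| < h ∧ G b0 x = 0 ∧ Tendsto be (𝓝[D] x) (𝓝 b0) := by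
  -- periodicity with integers
  have hperN : ∀ (n : ℕ) (b : ℂ), |b.im| < h → ∀ s ∈ U0, (G (b + n) s = 0 ↔ G b s = 0) := by
    intro n
    induction n with
    | zero => intro b _ s _; simp
    | succ k ih =>
      intro b hb s hs
      have h1 : |(b + (k:ℂ)).im| < h := by simpa using hb
      have h2 := hper (b + k) h1 s hs
      rw [ih b hb s hs] at h2
      rw [← h2]
      have h3 : b + ((k + 1 : ℕ) : ℂ) = b + k + 1 := by push_cast; ring
      rw [h3]
  have hperZ : ∀ (m : ℤ) (b : ℂ), |b.im| < h → ∀ s ∈ U0, (G (b + m) s = 0 ↔ G b s = 0) := by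
    intro m b hb s hs
    obtain ⟨n, rfl | rfl⟩ := m.eq_nat_or_neg
    · exact_mod_cast hperN n b hb s hs
    · have h1 : |(b + ((-(n:ℤ) : ℤ) : ℂ)).im| < h := by simpa using hb
      have h2 := hperN n (b + ((-(n:ℤ) : ℤ) : ℂ)) h1 s hs
      have h3 : b + ((-(n:ℤ) : ℤ) : ℂ) + (n:ℂ) = b := by push_cast; ring
      rw [h3] at h2
      exact h2.symm
  have hxU0 : x ∈ U0 := mem_of_mem_nhds hU0
  set F : Filter X := 𝓝[D] x with hF
  set g : X → ℂ := fun s => be s - (⌊(be s).re⌋ : ℤ) with hg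
  have hgim : ∀ s, (g s).im = (be s).im := by intro s; simp [hg]
  have hgre : ∀ s, (g s).re = Int.fract (be s).re := by
    intro s; simp [hg]
  -- the refined filter
  set F' : Filter X := F ⊓ comap (fun s => (be s).im) (𝓝 c) with hF'
  have hne' : NeBot F' := by
    have h1 : NeBot (𝓝 c ⊓ map (fun s => (be s).im) F) := hcl
    rw [hF', inf_comm]
    rw [← map_neBot_iff (fun s => (be s).im)]
    rw [Filter.push_pull']
    exact h1
  have hlim' : Tendsto (fun s => (be s).im) F' (𝓝 c) := tendsto_comap.mono_left inf_le_right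
  -- compact set
  set K : Set ℂ := Icc 0 1 ×ℂ Icc (c - 1) (c + 1) with hK
  have hKc : IsCompact K := isCompact_Icc.reProdIm isCompact_Icc
  have hgK : ∀ᶠ s in F', g s ∈ K := by
    have h1 : ∀ᶠ s in F', (be s).im ∈ Icc (c - 1) (c + 1) :=
      hlim' (Icc_mem_nhds (by linarith) (by linarith))
    filter_upwards [h1] with s hs
    rw [hK, mem_reProdIm, hgim, hgre]
    exact ⟨⟨Int.fract_nonneg _, (Int.fract_lt_one _).le⟩, hs⟩
  obtain ⟨b1, -, hb1⟩ := hKc (f := map g F') (by
    rw [le_principal_iff]; exact hgK)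
  have hb1' : MapClusterPt b1 F' g := hb1
  set F2 : Filter X := F' ⊓ comap g (𝓝 b1) with hF2
  have hne2 : NeBot F2 := by
    have h1 : NeBot (𝓝 b1 ⊓ map g F') := hb1'
    rw [hF2, inf_comm]
    rw [← map_neBot_iff g]
    rw [Filter.push_pull']
    exact h1
  have hlim2 : Tendsto g F2 (𝓝 b1) := tendsto_comap.mono_left inf_le_right
  have hF2F' : F2 ≤ F' := inf_le_left
  have hF2F : F2 ≤ F := hF2F'.trans inf_le_left
  have him : b1.im = c := by
    have h1 : Tendsto (fun s => (g s).im) F2 (𝓝 b1.im) :=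
      (continuous_im.tendsto b1).comp hlim2
    have h2 : Tendsto (fun s => (g s).im) F2 (𝓝 c) := by
      simp only [hgim]
      exact hlim'.mono_left hF2F'
    exact tendsto_nhds_unique h1 h2
  have hb1S : |b1.im| < h := by rw [him]; exact hc
  have hdom : ∀ᶠ s in F, s ∈ U0 ∩ D := by
    rw [hF]
    filter_upwards [mem_nhdsWithin_of_mem_nhds hU0, self_mem_nhdsWithin]
      with s h1 h2 using ⟨h1, h2⟩
  have hgG : ∀ s ∈ U0 ∩ D, G (g s) s = 0 := by
    intro s hs
    have h1 := hperZ (-⌊(be s).re⌋) (be s) (hbS s hs) s hs.1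
    have h2 : g s = be s + ((-⌊(be s).re⌋ : ℤ) : ℂ) := by
      simp only [hg]; push_cast; ring
    rw [h2, h1, hrel s hs]
  have hGb1 : G b1 x = 0 := by
    have h1 : Tendsto (fun s => ((g s, s) : ℂ × X)) F2 (𝓝 (b1, x)) := by
      rw [nhds_prod_eq]
      exact hlim2.prodMk (tendsto_id.mono_left (hF2F.trans nhdsWithin_le_nhds))
    have h2 := (hGc b1 hb1S).tendsto.comp h1
    have h3 : Tendsto ((fun p : ℂ × X => G p.1 p.2) ∘ fun s => ((g s, s) : ℂ × X)) F2 (𝓝 0) := by
      apply tendsto_const_nhds.congr'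
      filter_upwards [hF2F hdom] with s hs
      exact (hgG s hs).symm
    exact tendsto_nhds_unique h2 h3
  -- radius
  have hGd1 := hGd b1 hb1S
  rw [eventually_nhdsWithin_iff, Metric.eventually_nhds_iff] at hGd1
  obtain ⟨r1, hr1, hGd2⟩ := hGd1
  set r2 : ℝ := min (min (r1 / 2) (1 / 4)) ((h - |c|) / 2) with hr2def
  have hr2 : 0 < r2 := by
    rw [hr2def]
    exact lt_min (lt_min (by linarith) (by norm_num)) (by linarith)
  have hr21 : r2 < r1 := by
    have : r2 ≤ r1 / 2 := (min_le_left _ _).trans (min_le_left _ _)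
    linarith
  have hr24 : r2 ≤ 1 / 4 := (min_le_left _ _).trans (min_le_right _ _)
  have hr2h : r2 ≤ (h - |c|) / 2 := min_le_right _ _
  -- for every rho in (0, r2] a neighbourhood on which be avoids the spheres
  have key : ∀ rho : ℝ, 0 < rho → rho ≤ r2 → ∃ V ∈ 𝓝 x, ∃ m : ℤ,
      ∀ s ∈ V ∩ D, be s ∈ ball (b1 + m) rho := by
    intro rho hrho hrho2
    have hsph : ∀ᶠ s in 𝓝 x, ∀ b ∈ sphere b1 rho, G b s ≠ 0 := by
      apply (isCompact_sphere b1 rho).eventually_forall_of_forall_eventually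
      intro b hb
      have hbS' : |b.im| < h := by
        have h1 : |b.im - b1.im| ≤ rho := by
          have := abs_im_le_norm (b - b1)
          rw [sub_im] at this
          rw [mem_sphere_iff_norm] at hb
          rw [hb] at this
          exact this
        rw [him] at h1
        have h2 : |b.im| ≤ |b.im - c| + |c| := by
          have := abs_add_le (b.im - c) c
          simpa using this
        have : 0 < h - |c| := by linarith
        linarith
      have hbne : G b x ≠ 0 := by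
        apply hGd2
        · rw [mem_sphere] at hb; rw [hb]; linarith
        · simp only [mem_compl_iff, mem_singleton_iff]
          intro hbb
          rw [hbb, mem_sphere, dist_self] at hb
          linarith
      have h1 : ContinuousAt (fun p : X × ℂ => G p.2 p.1) (x, b) := by
        have h2 : ContinuousAt (fun p : ℂ × X => G p.1 p.2) ((fun q : X × ℂ => (q.2, q.1)) (x, b)) :=
          hGc b hbS'
        exact h2.comp (f := fun q : X × ℂ => (q.2, q.1)) (by fun_prop)
      exact h1.eventually_ne hbne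
    have hsph2 : {s | ∀ b ∈ sphere b1 rho, G b s ≠ 0} ∩ U0 ∈ 𝓝 x := inter_mem hsph hU0
    obtain ⟨V, hVx, hVsub0, hVconn⟩ := hconn _ hsph2
    have hVsub : V ∩ D ⊆ U0 ∩ D := fun s hs => ⟨(hVsub0 hs.1).2, hs.2⟩
    have hVF : ∀ᶠ s in F, s ∈ V ∩ D := by
      rw [hF]
      filter_upwards [mem_nhdsWithin_of_mem_nhds hVx, self_mem_nhdsWithin]
        with s h1 h2 using ⟨h1, h2⟩
    have hex : ∃ s, s ∈ V ∩ D ∧ g s ∈ ball b1 rho := by
      have h1 : ∀ᶠ s in F2, g s ∈ ball b1 rho := hlim2 (ball_mem_nhds b1 hrho)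
      exact (((hVF.filter_mono hF2F)).and h1).exists
    obtain ⟨s1, hs1V, hs1g⟩ := hex
    set m : ℤ := ⌊(be s1).re⌋ with hm
    refine ⟨V, hVx, m, ?_⟩
    have hsub : be '' (V ∩ D) ⊆ ball (b1 + m) rho ∪ (closedBall (b1 + m) rho)ᶜ := by
      rintro _ ⟨s, hs, rfl⟩
      by_contra hcon
      rw [mem_union, not_or, mem_compl_iff, not_not] at hcon
      have hsp : be s ∈ sphere (b1 + m) rho := by
        rw [mem_sphere]
        have h1 := hcon.1
        have h2 := hcon.2
        rw [mem_ball, not_lt] at h1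
        rw [mem_closedBall] at h2
        exact le_antisymm h2 h1
      have hsp2 : be s - m ∈ sphere b1 rho := by
        rw [mem_sphere_iff_norm] at hsp ⊢
        rw [← hsp]
        congr 1
        ring
      have h3 := (hVsub0 hs.1).1 _ hsp2
      apply h3
      have h4 := hperZ (-m) (be s) (hbS s (hVsub hs)) s (hVsub hs).1
      have h5 : be s - (m:ℂ) = be s + ((-m : ℤ) : ℂ) := by push_cast; ring
      rw [h5, h4, hrel s (hVsub hs)]
    have hsub2 : be '' (V ∩ D) ⊆ ball (b1 + m) rho := by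
      apply IsPreconnected.subset_left_of_subset_union isOpen_ball isClosed_closedBall.isOpen_compl
        _ hsub _ (hVconn.image be (hbc.mono hVsub))
      · rw [disjoint_compl_right_iff_subset]; exact ball_subset_closedBall
      · refine ⟨be s1, ⟨s1, hs1V, rfl⟩, ?_⟩
        rw [mem_ball_iff_norm] at hs1g ⊢
        have : be s1 - (b1 + m) = g s1 - b1 := by simp only [hg, hm]; ring
        rw [this]; exact hs1g
    intro s hs
    exact hsub2 ⟨s, hs, rfl⟩
  obtain ⟨V2, hV2, m, hm⟩ := key r2 hr2 le_rfl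
  refine ⟨b1 + m, by simpa using hb1S, by rw [hperZ m b1 hb1S x hxU0]; exact hGb1, ?_⟩
  rw [Metric.tendsto_nhds]
  intro e he
  set rho : ℝ := min e r2 with hrho
  have hrhopos : 0 < rho := lt_min he hr2
  obtain ⟨V, hV, m', hm'⟩ := key rho hrhopos (min_le_right _ _)
  -- m' = m
  have hmm : m' = m := by
    have hex : ∃ s, s ∈ (V ∩ V2) ∩ D := by
      have h1 : ∀ᶠ s in F, s ∈ (V ∩ V2) ∩ D := by
        rw [hF]
        filter_upwards [mem_nhdsWithin_of_mem_nhds (inter_mem hV hV2), self_mem_nhdsWithin]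
          with s h1 h2 using ⟨h1, h2⟩
      exact (h1.filter_mono hF2F).exists
    obtain ⟨s, hs⟩ := hex
    have h1 := hm' s ⟨hs.1.1, hs.2⟩
    have h2 := hm s ⟨hs.1.2, hs.2⟩
    rw [mem_ball, dist_comm] at h1
    rw [mem_ball] at h2
    have h3 : dist (b1 + (m':ℂ)) (b1 + (m:ℂ)) < 1 := by
      have := dist_triangle (b1 + (m':ℂ)) (be s) (b1 + (m:ℂ))
      have h5 : rho ≤ r2 := min_le_right _ _
      linarith
    rw [dist_add_left, dist_eq_norm] at h3
    have h4 : ‖((m' - m : ℤ) : ℂ)‖ < 1 := by push_cast; exact h3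
    rw [Complex.norm_intCast] at h4
    have h5 : |m' - m| < 1 := by exact_mod_cast h4
    have h6 : m' - m = 0 := Int.abs_lt_one_iff.mp h5
    omega
  rw [hF]
  filter_upwards [mem_nhdsWithin_of_mem_nhds hV, self_mem_nhdsWithin] with s h1 h2
  have h3 := hm' s ⟨h1, h2⟩
  rw [hmm, mem_ball] at h3
  exact lt_of_lt_of_le h3 (min_le_left _ _)

/-- Dichotomy form: either `be` converges to an interior label, or `|Im be| → h`. -/
theorem ends_or_edge {X : Type*} [TopologicalSpace X] {D U0 : Set X} {x : X}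
    (hconn : ∀ U ∈ 𝓝 x, ∃ V ∈ 𝓝 x, V ⊆ U ∧ IsPreconnected (V ∩ D)) (hU0 : U0 ∈ 𝓝 x)
    {h : ℝ} {G : ℂ → X → ℂ} {be : X → ℂ}
    (hbc : ContinuousOn be (U0 ∩ D))
    (hbS : ∀ s ∈ U0 ∩ D, |(be s).im| < h)
    (hper : ∀ b : ℂ, |b.im| < h → ∀ s ∈ U0, (G (b + 1) s = 0 ↔ G b s = 0))
    (hGc : ∀ b : ℂ, |b.im| < h → ContinuousAt (fun p : ℂ × X => G p.1 p.2) (b, x))
    (hGd : ∀ b : ℂ, |b.im| < h → ∀ᶠ b' in 𝓝[≠] b, G b' x ≠ 0)
    (hrel : ∀ s ∈ U0 ∩ D, G (be s) s = 0) :
    (∃ b0 : ℂ, |b0.im| < h ∧ G b0 x = 0 ∧ Tendsto be (𝓝[D] x) (𝓝 b0)) ∨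
      Tendsto (fun s => |(be s).im|) (𝓝[D] x) (𝓝 h) := by
  by_cases hcl : ∃ c : ℝ, |c| < h ∧ MapClusterPt c (𝓝[D] x) (fun s => (be s).im)
  · obtain ⟨c, hc, hcl⟩ := hcl
    exact Or.inl (ends_gen hconn hU0 hbc hbS hper hGc hGd hrel hc hcl)
  · right
    push Not at hcl
    have hdom : ∀ᶠ s in 𝓝[D] x, s ∈ U0 ∩ D := by
      filter_upwards [mem_nhdsWithin_of_mem_nhds hU0, self_mem_nhdsWithin]
        with s h1 h2 using ⟨h1, h2⟩
    rw [tendsto_order]
    refine ⟨fun a ha => ?_, fun a ha => ?_⟩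
    · by_contra hcon
      -- frequently |im| ≤ a < h
      have hfr : ∃ᶠ s in 𝓝[D] x, |(be s).im| ≤ a := by
        intro hev
        apply hcon
        filter_upwards [hev] with s hs
        exact not_le.mp hs
      have hfr2 : ∃ᶠ s in 𝓝[D] x, (be s).im ∈ Icc (-a) a := by
        apply hfr.mono
        intro s hs
        exact abs_le.mp hs
      obtain ⟨c, hcI, hc⟩ := (isCompact_Icc (a := -a) (b := a)).exists_mapClusterPt_of_frequently hfr2
      have h1 : |c| ≤ a := abs_le.mpr hcI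
      exact hcl c (lt_of_le_of_lt h1 ha) hc
    · filter_upwards [hdom] with s hs
      exact (hbS s hs).trans ha

/-- the lower half plane -/
def LH : Set ℂ := {s | s.im < 0}

lemma convex_LH : Convex ℝ LH := by
  have : LH = {s : ℂ | s.im < 0} := rfl
  rw [this]
  exact convex_halfSpace_im_lt 0

/-- local connectedness of a convex set at any point of a normed space -/
lemma conn_of_convex {E : Type*} [NormedAddCommGroup E] [NormedSpace ℝ E] {D : Set E}
    (hD : Convex ℝ D) (x : E) :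
    ∀ U ∈ 𝓝 x, ∃ V ∈ 𝓝 x, V ⊆ U ∧ IsPreconnected (V ∩ D) := by
  intro U hU
  obtain ⟨r, hr, hrU⟩ := Metric.mem_nhds_iff.mp hU
  exact ⟨ball x r, ball_mem_nhds x hr, hrU, ((convex_ball x r).inter hD).isPreconnected⟩

/-- one-variable form: `D` = lower half plane, relation `Zf (be s) = k s` -/
theorem ends {h : ℝ} {Zf k : ℂ → ℂ} {x : ℂ} {be : ℂ → ℂ} {r0 : ℝ} (hr0 : 0 < r0)
    (hbc : ContinuousOn be (ball x r0 ∩ LH))
    (hbS : ∀ s ∈ ball x r0 ∩ LH, |(be s).im| < h)
    (hper : ∀ b : ℂ, |b.im| < h → Zf (b + 1) = Zf b)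
    (hZc : ∀ b : ℂ, |b.im| < h → ContinuousAt Zf b)
    (hk : ContinuousAt k x)
    (hd : ∀ b : ℂ, |b.im| < h → ∀ᶠ b' in 𝓝[≠] b, Zf b' ≠ k x)
    (hrel : ∀ s ∈ ball x r0 ∩ LH, Zf (be s) = k s)
    {c : ℝ} (hc : |c| < h) (hcl : MapClusterPt c (𝓝[LH] x) (fun s => (be s).im)) :
    ∃ b0 : ℂ, |b0.im| < h ∧ Zf b0 = k x ∧ Tendsto be (𝓝[LH] x) (𝓝 b0) := by
  obtain ⟨b0, h1, h2, h3⟩ := ends_gen (D := LH) (U0 := ball x r0) (x := x)
    (conn_of_convex convex_LH x) (ball_mem_nhds x hr0) (h := h) (G := fun b s => Zf b - k s)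
    (be := be) hbc hbS (fun b hb s _ => by rw [hper b hb])
    (fun b hb => by
      have e1 : ContinuousAt (fun p : ℂ × ℂ => Zf p.1) (b, x) :=
        ContinuousAt.comp' (x := ((b, x) : ℂ × ℂ)) (f := Prod.fst) (g := Zf) (hZc b hb)
          continuous_fst.continuousAt
      have e2 : ContinuousAt (fun p : ℂ × ℂ => k p.2) (b, x) :=
        ContinuousAt.comp' (x := ((b, x) : ℂ × ℂ)) (f := Prod.snd) (g := k) hk
          continuous_snd.continuousAt
      exact e1.sub e2)
    (fun b hb => (hd b hb).mono fun b' hb' => sub_ne_zero.mpr hb')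
    (fun s hs => by simp only [hrel s hs, sub_self]) hc hcl
  exact ⟨b0, h1, sub_eq_zero.mp h2, h3⟩

end Crest.Agent.R102.Ends972
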