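import Mathlib

/-! # Euler scheme versus flow (helper866, row 102, T1-E, leaf E4-ES)

Discrete Gronwall: a map `T = id + ε V + O(ε²)` near a trajectory `γ' = V(γ)` shadows the
trajectory for `j ε ≤ L` with error `(δ + (C + Λ B) ε L) e^{Λ L}`. -/

namespace Crest.Agent.R102.Euler866

open Set Filter Topology

variable {E : Type*} [NormedAddCommGroup E] [NormedSpace ℝ E]

/-- one step of the exact flow: Taylor error `Λ B h²`. -/
theorem flow_step {V : E → E} {γ : ℝ → E} {L r Λ B s h : ℝ}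
    (hΛ : 0 ≤ Λ) (hB : 0 ≤ B)
    (hγ : ∀ s ∈ Icc 0 L, HasDerivWithinAt γ (V (γ s)) (Icc 0 L) s)
    (hVL : ∀ s ∈ Icc 0 L, ∀ x, ‖x - γ s‖ ≤ r → ‖V x - V (γ s)‖ ≤ Λ * ‖x - γ s‖)
    (hVB : ∀ s ∈ Icc 0 L, ‖V (γ s)‖ ≤ B)
    (hs : 0 ≤ s) (hh : 0 ≤ h) (hsh : s + h ≤ L) (hBr : B * h ≤ r) :
    ‖γ (s + h) - γ s - h • V (γ s)‖ ≤ Λ * B * h ^ 2 := by
  have hsub : Icc s (s + h) ⊆ Icc 0 L := Icc_subset_Icc hs hsh
  have hsm : s ∈ Icc 0 L := ⟨hs, by linarith⟩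
  -- first: ‖γ τ - γ s‖ ≤ B (τ - s)
  have h1 : ∀ τ ∈ Icc s (s + h), ‖γ τ - γ s‖ ≤ B * (τ - s) := by
    refine norm_image_sub_le_of_norm_deriv_right_le_segment (f := γ) (f' := fun τ => V (γ τ))
      ?_ ?_ ?_
    · intro τ hτ
      exact ((hγ τ (hsub hτ)).mono hsub).continuousWithinAt
    · intro τ hτ
      have hτL : τ < L := lt_of_lt_of_le hτ.2 hsh
      have hτ0 : 0 ≤ τ := hs.trans hτ.1
      have := hγ τ ⟨hτ0, hτL.le⟩
      refine (this.mono (s := Ico τ L) (fun y hy => ⟨hτ0.trans hy.1, hy.2.le⟩)).mono_of_mem_nhdsWithin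
        (Ico_mem_nhdsGE hτL)
    · intro τ hτ
      exact hVB τ ⟨hs.trans hτ.1, (hτ.2.le).trans hsh⟩
  -- second: apply to g τ = γ τ - τ • V (γ s)
  have h2 : ∀ τ ∈ Icc s (s + h), ‖(γ τ - τ • V (γ s)) - (γ s - s • V (γ s))‖
      ≤ (Λ * (B * h)) * (τ - s) := by
    refine norm_image_sub_le_of_norm_deriv_right_le_segment
      (f := fun τ => γ τ - τ • V (γ s)) (f' := fun τ => V (γ τ) - (1 : ℝ) • V (γ s))
      ?_ ?_ ?_
    · intro τ hτ
      exact (((hγ τ (hsub hτ)).mono hsub).continuousWithinAt).sub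
        (continuousWithinAt_id.smul continuousWithinAt_const)
    · intro τ hτ
      have hτL : τ < L := lt_of_lt_of_le hτ.2 hsh
      have hτ0 : 0 ≤ τ := hs.trans hτ.1
      have h3 := hγ τ ⟨hτ0, hτL.le⟩
      have h4 : HasDerivWithinAt γ (V (γ τ)) (Ici τ) τ :=
        (h3.mono (s := Ico τ L) (fun y hy => ⟨hτ0.trans hy.1, hy.2.le⟩)).mono_of_mem_nhdsWithin
          (Ico_mem_nhdsGE hτL)
      exact h4.sub ((hasDerivWithinAt_id τ (Ici τ)).smul_const (V (γ s)))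
    · intro τ hτ
      have hτm : τ ∈ Icc s (s + h) := ⟨hτ.1, hτ.2.le⟩
      have h5 := h1 τ hτm
      have h6 : B * (τ - s) ≤ B * h := mul_le_mul_of_nonneg_left (by linarith [hτ.2]) hB
      rw [one_smul]
      calc ‖V (γ τ) - V (γ s)‖ ≤ Λ * ‖γ τ - γ s‖ := hVL s hsm _ (by linarith)
        _ ≤ Λ * (B * h) := mul_le_mul_of_nonneg_left (h5.trans h6) hΛ
  have h7 := h2 (s + h) ⟨by linarith, le_rfl⟩
  have h8 : (γ (s + h) - (s + h) • V (γ s)) - (γ s - s • V (γ s))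
      = γ (s + h) - γ s - h • V (γ s) := by
    rw [add_smul]; abel
  rw [h8] at h7
  calc _ ≤ _ := h7
    _ = Λ * B * h ^ 2 := by ring

/-- **Euler scheme shadows the flow.** -/
theorem euler {V T : E → E} {γ : ℝ → E} {L ε r Λ B C δ : ℝ}
    (hε : 0 < ε) (hΛ : 0 ≤ Λ) (hB : 0 ≤ B) (hC : 0 ≤ C) (hδ : 0 ≤ δ)
    (hγ : ∀ s ∈ Icc 0 L, HasDerivWithinAt γ (V (γ s)) (Icc 0 L) s)
    (hVL : ∀ s ∈ Icc 0 L, ∀ x, ‖x - γ s‖ ≤ r → ‖V x - V (γ s)‖ ≤ Λ * ‖x - γ s‖)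
    (hVB : ∀ s ∈ Icc 0 L, ‖V (γ s)‖ ≤ B)
    (hT : ∀ s ∈ Icc 0 L, ∀ x, ‖x - γ s‖ ≤ r → ‖T x - x - ε • V x‖ ≤ C * ε ^ 2)
    {x0 : E} (hx0 : ‖x0 - γ 0‖ ≤ δ) (hBr : B * ε ≤ r)
    (hsmall : (δ + (C + Λ * B) * ε * L) * Real.exp (Λ * L) ≤ r) :
    ∀ j : ℕ, (j : ℝ) * ε ≤ L →
      ‖T^[j] x0 - γ (j * ε)‖ ≤ (δ + (C + Λ * B) * ε * (j * ε)) * Real.exp (Λ * (j * ε)) := by
  intro j
  induction j with
  | zero =>
    intro _
    simpa using hx0
  | succ j ih =>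
    intro hj
    have hj1 : ((j : ℝ) + 1) * ε ≤ L := by push_cast at hj; exact hj
    have hjε : (j : ℝ) * ε ≤ L := by nlinarith
    have hj0 : 0 ≤ (j : ℝ) * ε := by positivity
    have hL : 0 ≤ L := hj0.trans hjε
    have hD : 0 ≤ (C + Λ * B) := by positivity
    have h1 := ih hjε
    set x := T^[j] x0 with hx
    set s := (j : ℝ) * ε with hs
    have hsm : s ∈ Icc 0 L := ⟨hj0, hjε⟩
    have hbound : (δ + (C + Λ * B) * ε * s) * Real.exp (Λ * s) ≤ r := by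
      refine le_trans ?_ hsmall
      have h2 : Real.exp (Λ * s) ≤ Real.exp (Λ * L) :=
        Real.exp_le_exp.mpr (mul_le_mul_of_nonneg_left hjε hΛ)
      have h3 : δ + (C + Λ * B) * ε * s ≤ δ + (C + Λ * B) * ε * L := by
        have := mul_le_mul_of_nonneg_left hjε (mul_nonneg hD hε.le)
        linarith
      have h4 : 0 ≤ δ + (C + Λ * B) * ε * L := by positivity
      exact mul_le_mul h3 h2 (Real.exp_pos _).le h4
    have hxr : ‖x - γ s‖ ≤ r := h1.trans hbound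
    have h5 := hT s hsm x hxr
    have h6 := flow_step hΛ hB hγ hVL hVB hj0 hε.le (by rw [hs]; linarith) hBr
    have h7 := hVL s hsm x hxr
    have hcast : ((j + 1 : ℕ) : ℝ) * ε = s + ε := by push_cast; rw [hs]; ring
    rw [Function.iterate_succ_apply', hcast]
    have key : T x - γ (s + ε) = (T x - x - ε • V x) + (x - γ s) + ε • (V x - V (γ s))
        - (γ (s + ε) - γ s - ε • V (γ s)) := by
      rw [smul_sub]; abel
    have h8 : ‖T x - γ (s + ε)‖ ≤ C * ε ^ 2 + ‖x - γ s‖ + ε * (Λ * ‖x - γ s‖) + Λ * B * ε ^ 2 := by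
      rw [key]
      calc _ ≤ ‖(T x - x - ε • V x) + (x - γ s) + ε • (V x - V (γ s))‖
            + ‖γ (s + ε) - γ s - ε • V (γ s)‖ := norm_sub_le _ _
        _ ≤ (‖(T x - x - ε • V x) + (x - γ s)‖ + ‖ε • (V x - V (γ s))‖)
            + ‖γ (s + ε) - γ s - ε • V (γ s)‖ := by gcongr; exact norm_add_le _ _
        _ ≤ ((‖T x - x - ε • V x‖ + ‖x - γ s‖) + ‖ε • (V x - V (γ s))‖)
            + ‖γ (s + ε) - γ s - ε • V (γ s)‖ := by gcongr; exact norm_add_le _ _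
        _ ≤ _ := by
            have h9 : ‖ε • (V x - V (γ s))‖ ≤ ε * (Λ * ‖x - γ s‖) := by
              rw [norm_smul, Real.norm_of_nonneg hε.le]
              exact mul_le_mul_of_nonneg_left h7 hε.le
            linarith
    have h10 : C * ε ^ 2 + ‖x - γ s‖ + ε * (Λ * ‖x - γ s‖) + Λ * B * ε ^ 2
        = (1 + Λ * ε) * ‖x - γ s‖ + (C + Λ * B) * ε ^ 2 := by ring
    rw [h10] at h8
    have h11 : 1 + Λ * ε ≤ Real.exp (Λ * ε) := by
      have := Real.add_one_le_exp (Λ * ε); linarith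
    have h12 : (1 + Λ * ε) * ‖x - γ s‖ ≤ Real.exp (Λ * ε)
        * ((δ + (C + Λ * B) * ε * s) * Real.exp (Λ * s)) :=
      mul_le_mul h11 h1 (norm_nonneg _) (Real.exp_pos _).le
    have h13 : Real.exp (Λ * (s + ε)) = Real.exp (Λ * ε) * Real.exp (Λ * s) := by
      rw [← Real.exp_add]; ring_nf
    have h14 : (1 : ℝ) ≤ Real.exp (Λ * (s + ε)) := by
      apply Real.one_le_exp; positivity
    have h15 : (C + Λ * B) * ε ^ 2 ≤ (C + Λ * B) * ε ^ 2 * Real.exp (Λ * (s + ε)) :=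
      le_mul_of_one_le_right (by positivity) h14
    calc ‖T x - γ (s + ε)‖ ≤ _ := h8
      _ ≤ Real.exp (Λ * ε) * ((δ + (C + Λ * B) * ε * s) * Real.exp (Λ * s))
          + (C + Λ * B) * ε ^ 2 * Real.exp (Λ * (s + ε)) := by linarith
      _ = (δ + (C + Λ * B) * ε * (s + ε)) * Real.exp (Λ * (s + ε)) := by rw [h13]; ring


/-- **Uniform limit version**: a family (parameter `p ∈ P`) of trajectories of `V` on `[0, L p]`,
`L p ≤ L`, with uniform tube radius `r` and constants; `T n = id + ε n V + O((ε n)²)` on the tubes,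
`ε n → 0+`, initial errors `→ 0` uniformly.  Then the whole chains converge to the flow uniformly. -/
theorem euler_unif {ι P : Type*} {l : Filter ι} {V : E → E} {T : ι → E → E} {ε δ : ι → ℝ}
    {S : Set P} {Lp : P → ℝ} {γ : P → ℝ → E} {L r Λ B C : ℝ}
    (hr : 0 < r) (hΛ : 0 ≤ Λ) (hB : 0 ≤ B) (hC : 0 ≤ C) (hLp : ∀ p ∈ S, Lp p ≤ L)
    (hε : ∀ᶠ n in l, 0 < ε n) (hε0 : Tendsto ε l (𝓝 0)) (hδ0 : Tendsto δ l (𝓝 0))
    (hγ : ∀ p ∈ S, ∀ s ∈ Icc 0 (Lp p), HasDerivWithinAt (γ p) (V (γ p s)) (Icc 0 (Lp p)) s)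
    (hVL : ∀ p ∈ S, ∀ s ∈ Icc 0 (Lp p), ∀ x, ‖x - γ p s‖ ≤ r →
      ‖V x - V (γ p s)‖ ≤ Λ * ‖x - γ p s‖)
    (hVB : ∀ p ∈ S, ∀ s ∈ Icc 0 (Lp p), ‖V (γ p s)‖ ≤ B)
    (hT : ∀ᶠ n in l, ∀ p ∈ S, ∀ s ∈ Icc 0 (Lp p), ∀ x, ‖x - γ p s‖ ≤ r →
      ‖T n x - x - ε n • V x‖ ≤ C * ε n ^ 2)
    {x0 : ι → P → E} (hx0 : ∀ᶠ n in l, ∀ p ∈ S, ‖x0 n p - γ p 0‖ ≤ δ n) :
    ∀ η > 0, ∀ᶠ n in l, ∀ p ∈ S, ∀ j : ℕ, (j : ℝ) * ε n ≤ Lp p →
      ‖(T n)^[j] (x0 n p) - γ p (j * ε n)‖ ≤ η := by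
  intro η hη
  set m := min η r with hm
  have hm0 : 0 < m := lt_min hη hr
  have hlim : Tendsto (fun n => (|δ n| + (C + Λ * B) * ε n * |L|) * Real.exp (Λ * |L|)) l (𝓝 0) := by
    have h1 : Tendsto (fun n => |δ n|) l (𝓝 0) := by simpa using hδ0.abs
    have h2 : Tendsto (fun n => (C + Λ * B) * ε n * |L|) l (𝓝 0) := by
      simpa using (hε0.const_mul (C + Λ * B)).mul_const |L|
    simpa using (h1.add h2).mul_const (Real.exp (Λ * |L|))
  have hlim2 : Tendsto (fun n => B * ε n) l (𝓝 0) := by simpa using hε0.const_mul B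
  filter_upwards [hε, hT, hx0, hlim.eventually_le_const hm0, hlim2.eventually_le_const hr]
    with n h1 h2 h3 h4 h5 p hp j hj
  have hj0 : 0 ≤ (j : ℝ) * ε n := by positivity
  have hL0 : 0 ≤ Lp p := hj0.trans hj
  have hLL : Lp p ≤ |L| := (hLp p hp).trans (le_abs_self L)
  have hD : 0 ≤ (C + Λ * B) * ε n := by positivity
  have hmono : ∀ a, 0 ≤ a → a ≤ |L| →
      (|δ n| + (C + Λ * B) * ε n * a) * Real.exp (Λ * a) ≤ m := by
    intro a ha haL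
    refine le_trans ?_ h4
    have h6 : Real.exp (Λ * a) ≤ Real.exp (Λ * |L|) :=
      Real.exp_le_exp.mpr (mul_le_mul_of_nonneg_left haL hΛ)
    have h7 : |δ n| + (C + Λ * B) * ε n * a ≤ |δ n| + (C + Λ * B) * ε n * |L| := by
      have := mul_le_mul_of_nonneg_left haL hD
      linarith
    exact mul_le_mul h7 h6 (Real.exp_pos _).le (by positivity)
  have h8 := euler (V := V) (T := T n) (γ := γ p) (L := Lp p) (ε := ε n) (r := r) (Λ := Λ) (B := B)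
    (C := C) (δ := |δ n|) h1 hΛ hB hC (abs_nonneg _) (hγ p hp) (hVL p hp) (hVB p hp) (h2 p hp)
    ((h3 p hp).trans (le_abs_self _)) h5 ((hmono _ hL0 hLL).trans (min_le_right _ _)) j hj
  exact h8.trans ((hmono _ hj0 (hj.trans hLL)).trans (min_le_left _ _))

end Crest.Agent.R102.Euler866
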