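import Crest.Agent.R102.HBirth_150

/-!
Row 102, T1-B (helper150): exit from the saw coordinates: the limit of the label along the product
cones `Cn (s, u) M` in exact coordinates is the vertical limit at the REAL parameter `w = u`.
-/

set_option autoImplicit false

open Set Filter Topology Metric Complex MeasureTheory
open scoped Real

noncomputable section

namespace Crest.Agent.R102.PartII150

open Crest.Agent.R102.S5 (Cn)
open Crest.Agent.R102.Slope845 (Expn)

/-- Lipschitz estimate for a holomorphic function with bounded imaginary part on a disc -/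
theorem lip_of_im_le {f : ℂ → ℂ} {ρ h : ℝ} (hρ : 0 < ρ) (hh : 0 < h)
    (hf : DifferentiableOn ℂ f (ball 0 ρ)) (him : ∀ z ∈ ball (0 : ℂ) ρ, |(f z).im| ≤ h) {z : ℂ}
    (hz : ‖z‖ < ρ / 2) : ‖f z - f 0‖ ≤ 32 * (h / ρ) * ‖z‖ := by
  set F : ℂ → ℂ := fun z => cexp (I * (1 / h : ℝ) * f z) with hF
  have hFd : DifferentiableOn ℂ F (ball 0 ρ) := (hf.const_mul _).cexp
  have hnorm : ∀ w ∈ ball (0 : ℂ) ρ, ‖F w‖ ≤ Real.exp 1 ∧ Real.exp (-1) ≤ ‖F w‖ := by
    intro w hw
    have h1 : ‖F w‖ = Real.exp (-((f w).im / h)) := by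
      rw [hF]
      simp only
      rw [Complex.norm_exp]
      congr 1
      simp [Complex.mul_re, Complex.mul_im]
      field_simp
    have h2 := abs_le.1 (him w hw)
    have h3 : -1 ≤ (f w).im / h ∧ (f w).im / h ≤ 1 := by
      constructor
      · rw [le_div_iff₀ hh]; linarith
      · rw [div_le_iff₀ hh]; linarith
    rw [h1]
    exact ⟨Real.exp_le_exp.2 (by linarith), Real.exp_le_exp.2 (by linarith)⟩
  have hder : ∀ w ∈ ball (0 : ℂ) (ρ / 2), ‖deriv f w‖ ≤ 32 * (h / ρ) := by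
    intro w hw
    rw [mem_ball_zero_iff] at hw
    have hwρ : w ∈ ball (0 : ℂ) ρ := by rw [mem_ball_zero_iff]; linarith
    have hsub : closedBall w (ρ / 2) ⊆ closedBall 0 ρ := by
      intro x hx
      rw [mem_closedBall, dist_eq_norm] at hx
      rw [mem_closedBall_zero_iff]
      have h5 : x = (x - w) + w := by ring
      rw [h5]
      exact (norm_add_le _ _).trans (by linarith)
    have hcb : ∀ ρ' < ρ / 2, closedBall w ρ' ⊆ ball 0 ρ := by
      intro ρ' hρ' x hx
      rw [mem_closedBall, dist_eq_norm] at hx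
      rw [mem_ball_zero_iff]
      have h5 : x = (x - w) + w := by ring
      rw [h5]
      exact (norm_add_le _ _).trans_lt (by linarith)
    have hd : HasDerivAt f (deriv f w) w :=
      (hf.differentiableAt (isOpen_ball.mem_nhds hwρ)).hasDerivAt
    have hd2 : HasDerivAt F (cexp (I * (1 / h : ℝ) * f w) * (I * (1 / h : ℝ) * deriv f w)) w :=
      (hd.const_mul _).cexp
    -- Cauchy estimate on every smaller circle
    have hC : ‖deriv F w‖ ≤ Real.exp 1 / (ρ / 4) := by
      refine Complex.norm_deriv_le_of_forall_mem_sphere_norm_le (by positivity) ?_ ?_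
      · refine DifferentiableOn.diffContOnCl ?_
        rw [closure_ball _ (by positivity)]
        exact hFd.mono (hcb (ρ / 4) (by linarith))
      · intro x hx
        exact (hnorm x (hcb (ρ / 4) (by linarith) (sphere_subset_closedBall hx))).1
    rw [hd2.deriv, norm_mul, norm_mul, norm_mul, Complex.norm_I, one_mul, Complex.norm_real,
      Real.norm_eq_abs, abs_of_pos (by positivity)] at hC
    have h6 : Real.exp (-1) * (1 / h * ‖deriv f w‖) ≤ Real.exp 1 / (ρ / 4) := by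
      refine le_trans ?_ hC
      exact mul_le_mul_of_nonneg_right (hnorm w hwρ).2 (by positivity)
    have he : Real.exp 1 * Real.exp 1 ≤ 8 := by
      have := Real.exp_one_lt_d9
      nlinarith [Real.exp_pos 1]
    have h7 : ‖deriv f w‖ ≤ (Real.exp 1 * Real.exp 1) * (4 * (h / ρ)) := by
      have h8 := mul_le_mul_of_nonneg_left h6 (show 0 ≤ Real.exp 1 * h by positivity)
      have h9 : Real.exp 1 * h * (Real.exp (-1) * (1 / h * ‖deriv f w‖)) = ‖deriv f w‖ := by
        have : Real.exp 1 * Real.exp (-1) = 1 := by rw [← Real.exp_add]; simp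
        field_simp
        linear_combination (‖deriv f w‖) * this
      rw [h9] at h8
      refine h8.trans (le_of_eq ?_)
      field_simp
    refine h7.trans ?_
    have h10 : 0 ≤ h / ρ := by positivity
    nlinarith
  have hconv : Convex ℝ (ball (0 : ℂ) (ρ / 2)) := convex_ball _ _
  have h0 : (0 : ℂ) ∈ ball (0 : ℂ) (ρ / 2) := mem_ball_self (by positivity)
  have := hconv.norm_image_sub_le_of_norm_deriv_le (𝕜 := ℂ) (f := f) (C := 32 * (h / ρ))
    (fun w hw => hf.differentiableAt (isOpen_ball.mem_nhds (by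
      rw [mem_ball_zero_iff] at hw ⊢; linarith))) hder h0 (by rw [mem_ball_zero_iff]; exact hz)
  simpa using this

set_option maxHeartbeats 1600000 in
/-- **exit lemma** -/
theorem exit_lim {B : ℂ × ℂ → ℂ} {V : ℂ → ℝ} {G : ℂ → ℂ} {h y1 R₁ u α β s : ℝ} {g0 b0 : ℂ}
    (hh : 0 < h) (hR₁ : 0 < R₁)
    (hB : ∀ w t : ℂ, ‖w - u‖ < R₁ → y1 < t.im → t.im < V w →
      DifferentiableAt ℂ B (t, w) ∧ |(B (t, w)).im| ≤ h) (hy1 : y1 < V u)
    (hE : Expn G V u α β) (hg : NTL G u α β g0) (hg0 : g0.im = V u)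
    (hlim : ∀ M : ℝ, Tendsto (fun q => B (ex G q)) (𝓝[Cn (s, u) M] ((s : ℂ), (u : ℂ))) (𝓝 b0)) :
    Tendsto (fun y : ℝ => B ((s : ℂ) + g0 - y * I, u)) (𝓝[>] 0) (𝓝 b0) := by
  obtain ⟨-, -, -, hE3⟩ := hE
  -- lower bound of `V`
  obtain ⟨δ1, hδ1, hV1⟩ := hE3 1 one_pos
  set C : ℝ := |α| + |β| + 1 with hC
  have hC1 : 1 ≤ C := by
    rw [hC]; have := abs_nonneg α; have := abs_nonneg β; linarith
  have hVlow : ∀ z : ℂ, ‖z‖ < δ1 → V u - C * ‖z‖ ≤ V (u + z) := by
    intro z hz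
    have h1 := hV1 z hz
    have h2 : |α * z.re| ≤ |α| * ‖z‖ := by
      rw [abs_mul]; exact mul_le_mul_of_nonneg_left (Complex.abs_re_le_norm z) (abs_nonneg _)
    have h3 := neg_abs_le (α * z.re)
    have h4 : -(|β| * ‖z‖) ≤ β * |z.im| := by
      have h5 := mul_le_mul_of_nonneg_right (neg_abs_le β) (abs_nonneg z.im)
      have h6 := mul_le_mul_of_nonneg_left (Complex.abs_im_le_norm z) (abs_nonneg β)
      linarith
    have h5 : C * ‖z‖ = (|α| + |β|) * ‖z‖ + 1 * ‖z‖ := by rw [hC]; ring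
    linarith
  set K : ℝ := ‖((β : ℂ) + I * α)‖ + 1 with hK
  have hK1 : 1 ≤ K := by rw [hK]; linarith [norm_nonneg ((β : ℂ) + I * α)]
  rw [Metric.tendsto_nhds]
  intro ε hε
  -- the small slope
  set κ : ℝ := min (min (1 / (8 * C)) (1 / (2 * K))) (ε / (2 * (64 * h * C + 1))) with hκ
  have hκ0 : 0 < κ := lt_min (lt_min (by positivity) (by positivity)) (by positivity)
  have hκC : κ * C ≤ 1 / 8 := by
    have h1 : κ ≤ 1 / (8 * C) := (min_le_left _ _).trans (min_le_left _ _)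
    calc κ * C ≤ 1 / (8 * C) * C := mul_le_mul_of_nonneg_right h1 (by linarith)
      _ = 1 / 8 := by field_simp
  have hκK : κ * K ≤ 1 / 2 := by
    have h1 : κ ≤ 1 / (2 * K) := (min_le_left _ _).trans (min_le_right _ _)
    calc κ * K ≤ 1 / (2 * K) * K := mul_le_mul_of_nonneg_right h1 (by linarith)
      _ = 1 / 2 := by field_simp
  have hκε : 64 * h * C * κ < ε / 2 := by
    have h1 : κ ≤ ε / (2 * (64 * h * C + 1)) := min_le_right _ _
    have h2 : 0 < 64 * h * C + 1 := by positivity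
    have h3 : (64 * h * C + 1) * κ ≤ ε / 2 := by
      calc (64 * h * C + 1) * κ ≤ (64 * h * C + 1) * (ε / (2 * (64 * h * C + 1))) :=
            mul_le_mul_of_nonneg_left h1 h2.le
        _ = ε / 2 := by field_simp
    linarith
  have hκ1 : κ ≤ 1 / 4 := by nlinarith
  obtain ⟨δ2, hδ2, hg2⟩ := hg 1 one_pos 1 one_pos
  have hM := hlim (2 / κ)
  rw [Metric.tendsto_nhdsWithin_nhds] at hM
  obtain ⟨δ3, hδ3, hM3⟩ := hM (ε / 2) (by positivity)
  have hev : ∀ᶠ y : ℝ in 𝓝[>] 0, y ∈ Ioo (0 : ℝ)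
      (min (min (min δ1 R₁) (min δ2 (δ3 / 2))) (V u - y1)) :=
    Ioo_mem_nhdsGT (lt_min (lt_min (lt_min hδ1 hR₁) (lt_min hδ2 (by positivity))) (by linarith))
  filter_upwards [hev] with y hy
  obtain ⟨hy0, hy'⟩ := hy
  have hyδ1 : y < δ1 := hy'.trans_le ((min_le_left _ _).trans ((min_le_left _ _).trans
    (min_le_left _ _)))
  have hyR : y < R₁ := hy'.trans_le ((min_le_left _ _).trans ((min_le_left _ _).trans
    (min_le_right _ _)))
  have hyδ2 : y < δ2 := hy'.trans_le ((min_le_left _ _).trans ((min_le_right _ _).trans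
    (min_le_left _ _)))
  have hyδ3 : y < δ3 / 2 := hy'.trans_le ((min_le_left _ _).trans ((min_le_right _ _).trans
    (min_le_right _ _)))
  have hyV : y < V u - y1 := hy'.trans_le (min_le_right _ _)
  set t₀ : ℂ := (s : ℂ) + g0 - y * I with ht₀
  have ht₀i : t₀.im = V u - y := by rw [ht₀]; simp [hg0]
  -- the slice
  set ρ : ℝ := y / (2 * C) with hρ
  have hρ0 : 0 < ρ := by positivity
  have hρC : C * ρ = y / 2 := by rw [hρ]; field_simp
  have hρy : ρ ≤ y / 2 := by nlinarith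
  have hslice : ∀ z : ℂ, ‖z‖ < ρ → DifferentiableAt ℂ B (t₀, (u : ℂ) + z) ∧
      |(B (t₀, (u : ℂ) + z)).im| ≤ h := by
    intro z hz
    refine hB _ _ ?_ ?_ ?_
    · rw [add_sub_cancel_left]; linarith
    · rw [ht₀i]; linarith
    · rw [ht₀i]
      have h1 := hVlow z (by linarith)
      have h2 : C * ‖z‖ < C * ρ := mul_lt_mul_of_pos_left hz (by linarith)
      linarith
  have hn : ‖((κ * y : ℝ) : ℂ) * I‖ = κ * y := by
    rw [norm_mul, Complex.norm_I, mul_one, Complex.norm_real, Real.norm_eq_abs,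
      abs_of_pos (by positivity)]
  set z : ℂ := ((κ * y : ℝ) : ℂ) * I with hz
  have hzim : z.im = κ * y := by rw [hz]; simp
  have hκy : κ * y < ρ / 2 := by
    rw [hρ, div_div, lt_div_iff₀ (by positivity)]
    nlinarith
  -- the Lipschitz step
  have hlip : ‖B (t₀, (u : ℂ) + z) - B (t₀, (u : ℂ) + 0)‖ ≤ 32 * (h / ρ) * ‖z‖ := by
    refine lip_of_im_le (f := fun z => B (t₀, (u : ℂ) + z)) hρ0 hh ?_ ?_ (by rw [hn]; exact hκy)
    · intro x hx
      rw [mem_ball_zero_iff] at hx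
      have h1 : DifferentiableAt ℂ (fun z : ℂ => ((t₀, (u : ℂ) + z) : ℂ × ℂ)) x := by fun_prop
      exact (DifferentiableAt.comp (g := B) (f := fun z : ℂ => ((t₀, (u : ℂ) + z) : ℂ × ℂ)) x
        (hslice x hx).1 h1).differentiableWithinAt
    · intro x hx
      rw [mem_ball_zero_iff] at hx
      exact (hslice x hx).2
  have hlip' : ‖B (t₀, (u : ℂ) + z) - B (t₀, (u : ℂ))‖ < ε / 2 := by
    rw [add_zero, hn] at hlip
    have h1 : 32 * (h / ρ) * (κ * y) = 64 * h * C * κ := by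
      rw [hρ]; field_simp; ring
    rw [h1] at hlip
    exact hlip.trans_lt hκε
  -- the point in the product cone
  set q : ℂ × ℂ := (t₀ - G ((u : ℂ) + z), (u : ℂ) + z) with hq
  have hexq : ex G q = (t₀, (u : ℂ) + z) := by
    unfold ex; rw [hq]; simp
  have hG1 : ‖G ((u : ℂ) + z) - g0‖ ≤ K * (κ * y) := by
    have h1 := hg2 z (by rw [hzim]; positivity) (by
      rw [hn]
      have h4 : κ * y ≤ 1 / 4 * y := mul_le_mul_of_nonneg_right hκ1 hy0.le
      linarith) (by rw [hn, hzim, one_mul])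
    have h2 : G ((u : ℂ) + z) - g0 = (G (u + z) - g0 - ((β : ℂ) + I * α) * z) +
        ((β : ℂ) + I * α) * z := by ring
    rw [h2]
    refine (norm_add_le _ _).trans ?_
    rw [norm_mul ((β : ℂ) + I * α), hn]
    rw [hn] at h1
    have h3 : K * (κ * y) = ‖((β : ℂ) + I * α)‖ * (κ * y) + 1 * (κ * y) := by rw [hK]; ring
    linarith
  have hKκ : K * (κ * y) ≤ y / 2 := by
    have h4 : (κ * K) * y ≤ 1 / 2 * y := mul_le_mul_of_nonneg_right hκK hy0.le
    linarith
  have hq1 : ‖q.1 - ((s : ℂ) - y * I)‖ ≤ y / 2 := by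
    have h1 : q.1 - ((s : ℂ) - y * I) = -(G ((u : ℂ) + z) - g0) := by rw [hq, ht₀]; ring
    rw [h1, norm_neg]
    linarith
  have hre : |q.1.re - s| ≤ y / 2 := by
    have h1 := (Complex.abs_re_le_norm _).trans hq1
    have h2 : (q.1 - ((s : ℂ) - y * I)).re = q.1.re - s := by simp
    rwa [h2] at h1
  have him : |q.1.im + y| ≤ y / 2 := by
    have h1 := (Complex.abs_im_le_norm _).trans hq1
    have h2 : (q.1 - ((s : ℂ) - y * I)).im = q.1.im + y := by simp
    rwa [h2] at h1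
  have him' := abs_le.1 him
  have hq2 : ‖q.2 - (u : ℂ)‖ = κ * y := by
    have h1 : q.2 - (u : ℂ) = z := by rw [hq]; ring
    rw [h1, hn]
  have hq2i : q.2.im = κ * y := by rw [hq]; simp [hzim]
  have h2κ : 2 / κ * (κ * y) = 2 * y := by field_simp
  have h8κ : (8 : ℝ) ≤ 2 / κ := by
    rw [le_div_iff₀ hκ0]; linarith
  have hCn : q ∈ Cn (s, u) (2 / κ) := by
    refine ⟨by linarith, ?_, ?_⟩
    · rw [hq2i, h2κ]; linarith
    · show |q.1.re - s| + ‖q.2 - (u : ℂ)‖ ≤ 2 / κ * (-q.1.im)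
      rw [hq2]
      have h1 : 8 * (y / 2) ≤ 2 / κ * (-q.1.im) :=
        mul_le_mul h8κ (by linarith) (by positivity) (by positivity)
      have h4 : κ * y ≤ 1 / 4 * y := mul_le_mul_of_nonneg_right hκ1 hy0.le
      linarith
  have hdist : dist q ((s : ℂ), (u : ℂ)) < δ3 := by
    rw [Prod.dist_eq, max_lt_iff, dist_eq_norm, dist_eq_norm]
    constructor
    · have h1 : q.1 - (s : ℂ) = (q.1 - ((s : ℂ) - y * I)) + (-(y : ℂ) * I) := by ring
      rw [h1]
      refine (norm_add_le _ _).trans_lt ?_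
      have h2 : ‖-(y : ℂ) * I‖ = y := by
        rw [norm_mul, norm_neg, Complex.norm_I, mul_one, Complex.norm_real, Real.norm_eq_abs,
          abs_of_pos hy0]
      rw [h2]; linarith
    · rw [hq2]
      have h4 : κ * y ≤ 1 / 4 * y := mul_le_mul_of_nonneg_right hκ1 hy0.le
      linarith
  have hfin := hM3 hCn hdist
  rw [hexq, dist_eq_norm] at hfin
  rw [dist_eq_norm]
  calc ‖B (t₀, (u : ℂ)) - b0‖ = ‖-(B (t₀, (u : ℂ) + z) - B (t₀, (u : ℂ))) +
        (B (t₀, (u : ℂ) + z) - b0)‖ := by ring_nf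
    _ ≤ ‖-(B (t₀, (u : ℂ) + z) - B (t₀, (u : ℂ)))‖ + ‖B (t₀, (u : ℂ) + z) - b0‖ := norm_add_le _ _
    _ < ε := by rw [norm_neg]; linarith

end Crest.Agent.R102.PartII150
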