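import Crest.Agent.R102.ExitB_150
import Crest.Agent.R102.GlueII_559
import Crest.Agent.R102.GlueIV_812
import Crest.Agent.R102.SupDat_150

/-!
Row 102, T1-B (helper150): exit from the saw coordinates on the official sheets.

* `edge_pt` : the limit along the product cones is the vertical limit at real width;
* `sitE_of` : GoodU + NTL + a.e. edge limits on a subarc give `Glue4812.SitE`;
* `arc_ae`  : **Parts II + III on the official sheets**: for a.e. `u` with `Nn u` there is an arc on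
  which a.e. vertical limit of the label exists and lies on `|Im| = h`, with births everywhere.
-/

set_option autoImplicit false

open Set Filter Topology Metric Complex MeasureTheory
open scoped Real

noncomputable section

namespace Crest.Agent.R102.PartII150

open Crest.Agent.R102.S5 (Cn)
open Crest.Agent.R102.Slope845 (Expn)
open Crest.Agent.R102.Out559 (OmL OmX Nn)
open Crest.Agent.R102.Sup115 (HDu Dp GoodU Sup)
open Crest.Agent.R102.Sh982 (Dat SL SB φe pe be sh)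
open Crest.Agent.R102.GlueII559 (OL OX VV)
open Crest.Agent.R102.Glue4812 (SitE Sit)

variable {q : C(ℂ, ℂ)} {η ρ r Bc : ℝ} {b φ p : ℂ × ℂ → ℂ} {m₀ : ℂ → ℂ} {h : ℝ} {ψ H : ℂ → ℂ}

section

variable (D : Dat q η ρ r Bc b φ p m₀ h ψ H)
include D

/-- the joint domain below `VV` -/
theorem below_VV {w t : ℂ} (hw : w ∈ ball (0 : ℂ) r) (h1 : -(ρ / 2) < t.im)
    (ht : t.im < VV b φ p h ρ r w) : (t, w) ∈ SB b h ρ r :=
  Sh982.SB_iff.2 ⟨(GlueII559.mem_of_lt_VV D hw ht).2, h1⟩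

theorem edge_pt {G : ℂ → ℂ} {u u0 R α β s : ℝ} {g0 b0 : ℂ}
    (hball : ball (u0 : ℂ) R ⊆ ball 0 r) (hu : u ∈ Ioo (u0 - R) (u0 + R))
    (hE : Expn G (VV b φ p h ρ r) u α β) (hg : NTL G u α β g0) (hg0 : g0.im = VV b φ p h ρ r u)
    (hlim : ∀ M : ℝ, Tendsto (Bx b h ρ r G) (𝓝[Cn (s, u) M] ((s : ℂ), (u : ℂ))) (𝓝 b0)) :
    Tendsto (fun y : ℝ => be b h ρ r (((s + g0.re : ℝ) : ℂ) +
      ((VV b φ p h ρ r u - y : ℝ) : ℂ) * I, (u : ℂ))) (𝓝[>] 0) (𝓝 b0) := by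
  have hρ := D.ρ_pos
  have hu1 : |u - u0| < R := by rw [abs_lt]; constructor <;> linarith [hu.1, hu.2]
  have hsub : ∀ w : ℂ, ‖w - u‖ < R - |u - u0| → w ∈ ball (0 : ℂ) r := by
    intro w hw
    apply hball
    rw [mem_ball, dist_eq_norm]
    have h2 : w - u0 = (w - u) + ((u - u0 : ℝ) : ℂ) := by push_cast; ring
    rw [h2]
    refine (norm_add_le _ _).trans_lt ?_
    rw [Complex.norm_real, Real.norm_eq_abs]
    linarith
  have hur : (u : ℂ) ∈ ball (0 : ℂ) r := hsub u (by simpa using hu1)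
  have h1 := exit_lim (B := be b h ρ r) (V := VV b φ p h ρ r) (h := h) (y1 := -(ρ / 2))
    (R₁ := R - |u - u0|) (s := s) (b0 := b0) D.h_pos (by linarith)
    (fun w t hw h1 h2 => by
      have h3 := below_VV D (hsub w hw) h1 h2
      exact ⟨(D.be_an _ h3).differentiableAt, le_of_lt (D.be_mem h3)⟩)
    (by
      have := GlueII559.le_VV D hur
      linarith) hE hg hg0 hlim
  refine h1.congr (fun y => ?_)
  have h2 : (s : ℂ) + g0 - y * I = ((s + g0.re : ℝ) : ℂ) + ((VV b φ p h ρ r u - y : ℝ) : ℂ) * I := by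
    apply Complex.ext
    · simp
    · simp [hg0]
  rw [h2]

/-- **GoodU + edge limits on a subarc give the situation of part IV** -/
theorem sitE_of {G : ℂ → ℂ} {u u0 R d α β s₀ a₀ c : ℝ} {g0 : ℂ} (hd : 0 < d)
    (hball : ball (u0 : ℂ) R ⊆ ball 0 r) (hu : u ∈ Ioo (u0 - R) (u0 + R))
    (hGV : ∀ w ∈ HDu u0 R, (G w).im ≤ VV b φ p h ρ r w) (hg : NTL G u α β g0)
    (hg0 : g0.im = VV b φ p h ρ r u)
    (hGU : GoodU (Xe u0 R d G (OX b h ρ r)) (Le u0 R d G (OL φ p ρ r)) u s₀ a₀ c) :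
    ∃ δ > 0, ∀ e a' b' : ℝ, (∀ x ∈ Ioo a' b', |x - (s₀ + g0.re)| < δ) →
      (∀ᵐ x : ℝ, x ∈ Ioo a' b' →
        Tendsto (fun y : ℝ => (be b h ρ r ((x : ℂ) + ((VV b φ p h ρ r u - y : ℝ) : ℂ) * I,
          (u : ℂ))).im) (𝓝[>] 0) (𝓝 e)) →
      SitE b φ p h ρ r u (VV b φ p h ρ r u) e a' b' := by
  have hρ := D.ρ_pos
  have hu1 : |u - u0| < R := by rw [abs_lt]; constructor <;> linarith [hu.1, hu.2]
  have hur : (u : ℂ) ∈ ball (0 : ℂ) r := by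
    apply hball
    rw [mem_ball, dist_eq_norm, ← Complex.ofReal_sub, Complex.norm_real, Real.norm_eq_abs]
    exact hu1
  obtain ⟨δ, hδ, Hb⟩ := hbirth hd hu hg (X := OX b h ρ r) (L := OL φ p ρ r)
    (fun w hw t ht => (GlueII559.mem_of_lt_VV D (hball hw.1) (ht.trans_le (hGV w hw))).2) hGU
  refine ⟨δ, hδ, fun e a' b' harc hedge => ⟨?_, ?_, hedge, ?_⟩⟩
  · have := GlueII559.le_VV D hur
    linarith
  · intro t h1 h2
    exact below_VV D hur h1 h2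
  · intro x0 hx0 ε hε
    have h1 : |(x0 - g0.re) - s₀| < δ := by
      have := harc x0 hx0
      have h2 : x0 - g0.re - s₀ = x0 - (s₀ + g0.re) := by ring
      rwa [h2]
    obtain ⟨t, w, h2, h3, h4, h5⟩ := Hb (x0 - g0.re) h1 ε hε
    refine ⟨t, w, ?_, h3, h4, h5⟩
    have h6 : ((x0 - g0.re : ℝ) : ℂ) + g0 = (x0 : ℂ) + (VV b φ p h ρ r u : ℂ) * I := by
      apply Complex.ext
      · simp
      · simp [hg0]
    rwa [h6] at h2

/-- everything Parts II and III give at a good real `u` (on the half disc `HDu u0 R`, with the exact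
shift `G`, exact coordinates `ex G`, `ln G`) -/
structure UData (b φ p : ℂ × ℂ → ℂ) (h ρ r : ℝ) (u : ℝ) (u0 R : ℝ) (G : ℂ → ℂ)
    (α β s₀ a₀ c δ : ℝ) (g0 : ℂ) : Prop where
  R_pos : 0 < R
  ball_sub : ball (u0 : ℂ) R ⊆ ball 0 r
  mem : u ∈ Ioo (u0 - R) (u0 + R)
  G_diff : DifferentiableOn ℂ G (HDu u0 R)
  G_nonneg : ∀ w ∈ HDu u0 R, 0 ≤ (G w).im
  G_le : ∀ w ∈ HDu u0 R, (G w).im ≤ VV b φ p h ρ r w
  expn : Expn G (VV b φ p h ρ r) u α β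
  g0_im : g0.im = VV b φ p h ρ r u
  ntl : NTL G u α β g0
  nn : Nn b φ p (T5.Str h) (-(ρ / 2)) (ρ / 2) r h u
  goodU : GoodU (Xe u0 R (ρ / 4) G (OX b h ρ r)) (Le u0 R (ρ / 4) G (OL φ p ρ r)) u s₀ a₀ c
  δ_pos : 0 < δ
  cone : ∀ᵐ s : ℝ, |s - s₀| < δ → ∃ b0 : ℂ, |b0.im| = h ∧
    ∀ M : ℝ, Tendsto (Bx b h ρ r G) (𝓝[Cn (s, u) M] ((s : ℂ), (u : ℂ))) (𝓝 b0)
  edge : ∀ᵐ s : ℝ, |s - s₀| < δ → ∃ b0 : ℂ, |b0.im| = h ∧
    Tendsto (fun y : ℝ => be b h ρ r (((s + g0.re : ℝ) : ℂ) +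
      ((VV b φ p h ρ r u - y : ℝ) : ℂ) * I, (u : ℂ))) (𝓝[>] 0) (𝓝 b0)
  sitE : ∀ e a' b' : ℝ, (∀ x ∈ Ioo a' b', |x - (s₀ + g0.re)| < δ) →
    (∀ᵐ x : ℝ, x ∈ Ioo a' b' →
      Tendsto (fun y : ℝ => (be b h ρ r ((x : ℂ) + ((VV b φ p h ρ r u - y : ℝ) : ℂ) * I,
        (u : ℂ))).im) (𝓝[>] 0) (𝓝 e)) →
    SitE b φ p h ρ r u (VV b φ p h ρ r u) e a' b'

/-- **Parts II and III on the official sheets** -/
theorem udata_ae (hNB : Rule982.NB h ψ H) (hSup : Sup) :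
    ∀ᵐ u : ℝ, u ∈ Ioo 0 r → Nn b φ p (T5.Str h) (-(ρ / 2)) (ρ / 2) r h u →
      ∃ (u0 R : ℝ) (G : ℂ → ℂ) (α β s₀ a₀ c δ : ℝ) (g0 : ℂ),
        UData b φ p h ρ r u u0 R G α β s₀ a₀ c δ g0 := by
  have hρ := D.ρ_pos
  refine GlueII559.ae_of_local (P := fun u => Nn b φ p (T5.Str h) (-(ρ / 2)) (ρ / 2) r h u →
    ∃ (u0 R : ℝ) (G : ℂ → ℂ) (α β s₀ a₀ c δ : ℝ) (g0 : ℂ),
        UData b φ p h ρ r u u0 R G α β s₀ a₀ c δ g0) ?_
  intro u0 R hR hball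
  obtain ⟨G, hG, hGV, -, hae⟩ := GlueII559.goodU_ae D hNB hR (d := ρ / 4) (by positivity) hball
  have hdat := supDat D hR (d := ρ / 4) (by positivity) le_rfl hball hG
    (fun w hw => (hGV w hw).1)
    (fun w hw t ht => (GlueII559.mem_of_lt_VV D (hball hw.1) (ht.trans_le (hGV w hw).2)).1)
    (fun w hw t ht => (GlueII559.mem_of_lt_VV D (hball hw.1) (ht.trans_le (hGV w hw).2)).2)
  filter_upwards [hae, hSup _ _ _ _ _ _ _ _ _ _ _ _ _ _ hdat] with u h1 h2 hu hN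
  obtain ⟨⟨α, β, hE⟩, s₀, a₀, c, hGU⟩ := h1 hu hN
  obtain ⟨g0, hg0, hg⟩ := exists_ntl hu hG hE
  obtain ⟨δ1, hδ1, H1⟩ := h2 hu s₀ a₀ c hGU
  obtain ⟨δ2, hδ2, H2⟩ := sitE_of D (d := ρ / 4) (by positivity) hball hu
    (fun w hw => (hGV w hw).2) hg hg0 hGU
  have H1' : ∀ᵐ s : ℝ, |s - s₀| < min δ1 δ2 → ∃ b0 : ℂ, |b0.im| = h ∧
      ∀ M : ℝ, Tendsto (Bx b h ρ r G) (𝓝[Cn (s, u) M] ((s : ℂ), (u : ℂ))) (𝓝 b0) := by
    filter_upwards [H1] with s hs hs'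
    exact hs (hs'.trans_le (min_le_left _ _))
  refine ⟨u0, R, G, α, β, s₀, a₀, c, min δ1 δ2, g0, ?_⟩
  exact
    { R_pos := hR
      ball_sub := hball
      mem := hu
      G_diff := hG
      G_nonneg := fun w hw => (hGV w hw).1
      G_le := fun w hw => (hGV w hw).2
      expn := hE
      g0_im := hg0
      ntl := hg
      nn := hN
      goodU := hGU
      δ_pos := lt_min hδ1 hδ2
      cone := H1'
      edge := by
        filter_upwards [H1'] with s hs hs'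
        obtain ⟨b0, hb0, hlim⟩ := hs hs'
        exact ⟨b0, hb0, edge_pt D hball hu hE hg hg0 hlim⟩
      sitE := fun e a' b' harc hedge =>
        H2 e a' b' (fun x hx => (harc x hx).trans_le (min_le_right _ _)) hedge }

/-- the data of `Sup` on the half disc of `UData` -/
theorem UData.supDat {u u0 R α β s₀ a₀ c δ : ℝ} {G : ℂ → ℂ} {g0 : ℂ}
    (U : UData b φ p h ρ r u u0 R G α β s₀ a₀ c δ g0) :
    Sup115.Dat u0 R (ρ / 4) h (F300.Sreg (Rule982.Sg h) ψ) (F300.ZZ ψ H) (F300.ZZc ψ H) ψ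
      (fun z => 1 / deriv ψ z ^ 2) (φx φ p ρ r G) (px φ p ρ r G) (Bx b h ρ r G)
      (Xe u0 R (ρ / 4) G (OX b h ρ r)) (Le u0 R (ρ / 4) G (OL φ p ρ r)) := by
  have hρ := D.ρ_pos
  exact PartII150.supDat D U.R_pos (d := ρ / 4) (by positivity) le_rfl U.ball_sub U.G_diff
    U.G_nonneg
    (fun w hw t ht => (GlueII559.mem_of_lt_VV D (U.ball_sub hw.1) (ht.trans_le (U.G_le w hw))).1)
    (fun w hw t ht => (GlueII559.mem_of_lt_VV D (U.ball_sub hw.1) (ht.trans_le (U.G_le w hw))).2)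

/-- **EDGE**, the only remaining block: at a good real `u` the edge label is a.e. constant on a
subarc -/
def EdgeU (b φ p : ℂ × ℂ → ℂ) (h ρ r : ℝ) (u : ℝ) : Prop :=
  ∀ (u0 R : ℝ) (G : ℂ → ℂ) (α β s₀ a₀ c δ : ℝ) (g0 : ℂ),
    UData b φ p h ρ r u u0 R G α β s₀ a₀ c δ g0 →
    ∃ e a' b' : ℝ, (e = h ∨ e = -h) ∧ a' < b' ∧ (∀ x ∈ Ioo a' b', |x - (s₀ + g0.re)| < δ) ∧
      ∀ᵐ x : ℝ, x ∈ Ioo a' b' →
        Tendsto (fun y : ℝ => (be b h ρ r ((x : ℂ) + ((VV b φ p h ρ r u - y : ℝ) : ℂ) * I,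
          (u : ℂ))).im) (𝓝[>] 0) (𝓝 e)

/-- **T1-B core from EDGE**: for a.e. `u`, `Nn u` is false -/
theorem not_nn_ae (hNB : Rule982.NB h ψ H) (hSup : Sup)
    (hEdge : ∀ᵐ u : ℝ, u ∈ Ioo 0 r → EdgeU b φ p h ρ r u) :
    ∀ᵐ u : ℝ, u ∈ Ioo 0 r → ¬ Nn b φ p (T5.Str h) (-(ρ / 2)) (ρ / 2) r h u := by
  filter_upwards [udata_ae D hNB hSup, hEdge, Glue4812.noSit D hNB] with u h1 h2 h3 hu hN
  obtain ⟨u0, R, G, α, β, s₀, a₀, c, δ, g0, U⟩ := h1 hu hN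
  obtain ⟨e, a', b', he, hab, harc, hedge⟩ := h2 hu u0 R G α β s₀ a₀ c δ g0 U
  exact h3 hu ⟨_, e, a', b', he, hab, U.sitE e a' b' harc hedge⟩

end

end Crest.Agent.R102.PartII150
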