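import Crest.Agent.R102.Chain_559
import Crest.Agent.R102.ExitC_150

/-!
Row 102, T1-B (helper150): **EXIT on the official sheets** (`Chain559.ExitO`).
-/

set_option autoImplicit false

open Set Filter Topology Metric Complex MeasureTheory
open scoped Real

noncomputable section

namespace Crest.Agent.R102.PartII150

open Crest.Agent.R102.S5 (Cn)
open Crest.Agent.R102.Slope845 (Expn)
open Crest.Agent.R102.GlueII559 (VV)

/-- **EXIT** -/
theorem exitO : Chain559.ExitO := by
  intro q η ρ r Bc b φ p m₀ h ψ H D hNB u0 R d g S u α β s₀ a₀ c A hE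
  obtain ⟨δ1, hδ1, e, he, hae⟩ := hE
  obtain ⟨g0, hg0, hg⟩ := exists_ntl A.mem S.diff A.expn
  obtain ⟨δ2, hδ2, H2⟩ := sitE_of D S.d_pos S.ball_sub A.mem S.im_le hg hg0 A.good
  have hmin : 0 < min δ1 δ2 := lt_min hδ1 hδ2
  refine ⟨VV b φ p h ρ r u, e, s₀ + g0.re - min δ1 δ2, s₀ + g0.re + min δ1 δ2, he, by linarith,
    H2 e _ _ ?_ ?_⟩
  · intro x hx
    have h1 := min_le_right δ1 δ2
    rw [abs_lt]
    constructor <;> linarith [hx.1, hx.2]
  · have h2 : ∀ᵐ x : ℝ, |(x - g0.re) - s₀| < δ1 → ∃ b1 : ℂ, b1.im = e ∧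
        ∀ M : ℝ, Tendsto (Bx b h ρ r g) (𝓝[Cn (x - g0.re, u) M] (((x - g0.re : ℝ) : ℂ), (u : ℂ)))
          (𝓝 b1) := by
      have hqm : Measure.QuasiMeasurePreserving (fun x : ℝ => x - g0.re) volume volume :=
        (measurePreserving_sub_right volume g0.re).quasiMeasurePreserving
      exact hqm.ae hae
    filter_upwards [h2] with x hx hx'
    have h1 := min_le_left δ1 δ2
    obtain ⟨b1, hb1, hlim⟩ := hx (by
      rw [abs_lt]
      constructor <;> linarith [hx'.1, hx'.2])
    have h3 := edge_pt D S.ball_sub A.mem A.expn hg hg0 hlim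
    rw [sub_add_cancel] at h3
    have h4 := (Complex.continuous_im.tendsto b1).comp h3
    rw [hb1] at h4
    exact h4

end Crest.Agent.R102.PartII150
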