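import Crest.Agent.R102.ExitB_812
import Crest.Agent.R102.Chain_559

/-!
Row 102 (T1-B): **EXIT on the official sheets** (helper812), literal `Chain559.ExitO`.
-/

set_option autoImplicit false

open Set Filter Topology Metric MeasureTheory
open scoped ComplexConjugate

noncomputable section

namespace Crest.Agent.R102.ExitO812

open Crest.Agent.R102.Chain559

/-- EXIT -/
theorem exitO : ExitO := by
  intro q η ρ r Bc b φ p m₀ h ψ H D hNB u0 R d g hS u α β s₀ a₀ c hG hE
  exact Exit812.sit_of_edge D hS.d_pos hS.ball_sub hG.mem hG.nn hS.diff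
    (fun w hw => ⟨hS.im_nonneg w hw, hS.im_le w hw⟩) hG.expn hG.good hE

end Crest.Agent.R102.ExitO812
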