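import Mathlib

/-!
# Row 102, (RAT), helper554: extension of derivations to algebraic extensions, commutation with
automorphisms

* `extDer` : a derivation of a field `M` of characteristic `0` extends to an algebraic extension.
* `der_unique` : a derivation of an algebraic extension is determined on the base field.
* `alg_der` : if `K ≤ M` is stable under `D` and `a ∈ Ω` is algebraic over `K`, ...
-/

set_option autoImplicit false

noncomputable section

namespace Crest.Agent.R102.RAT554

open TensorProduct

variable {A M L : Type*} [CommRing A] [Field M] [Field L] [Algebra A M] [Algebra A L] [Algebra M L]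
  [IsScalarTower A M L]

/-- extension of a derivation of `M` with values in `L` to `L`, for `L / M` algebraic
(characteristic `0`). -/
def extDer' [CharZero M] [Algebra.IsAlgebraic M L] (d : Derivation A M L) : Derivation A L L :=
  haveI : Algebra.FormallyEtale M L := Algebra.FormallyEtale.of_isSeparable M L
  (((d.liftKaehlerDifferential).liftBaseChange L).comp
    (KaehlerDifferential.tensorKaehlerEquivOfFormallyEtale A M L).symm.toLinearMap).compDer
      (KaehlerDifferential.D A L)

theorem extDer'_apply [CharZero M] [Algebra.IsAlgebraic M L] (d : Derivation A M L) (m : M) :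
    extDer' d (algebraMap M L m) = d m := by
  haveI : Algebra.FormallyEtale M L := Algebra.FormallyEtale.of_isSeparable M L
  show ((d.liftKaehlerDifferential).liftBaseChange L)
    ((KaehlerDifferential.tensorKaehlerEquivOfFormallyEtale A M L).symm
      (KaehlerDifferential.D A L (algebraMap M L m))) = d m
  rw [KaehlerDifferential.tensorKaehlerEquivOfFormallyEtale_symm_D_algebraMap,
    LinearMap.liftBaseChange_tmul, one_smul, Derivation.liftKaehlerDifferential_comp_D]

/-- extension of a derivation of `M` to `L`. -/
def extDer [CharZero M] [Algebra.IsAlgebraic M L] (d : Derivation A M M) : Derivation A L L :=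
  extDer' ((Algebra.linearMap M L).compDer d)

theorem extDer_apply [CharZero M] [Algebra.IsAlgebraic M L] (d : Derivation A M M) (m : M) :
    (extDer d : Derivation A L L) (algebraMap M L m) = algebraMap M L (d m) := by
  rw [extDer, extDer'_apply]
  rfl

/-- a derivation of an algebraic extension with values in a vector space is determined on the
base field. -/
theorem der_unique [CharZero M] [Algebra.IsAlgebraic M L] {V : Type*} [AddCommGroup V]
    [Module L V] [Module A V] [Module M V] [IsScalarTower M L V]
    (d e : Derivation A L V) (h : ∀ m : M, d (algebraMap M L m) = e (algebraMap M L m)) :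
    d = e := by
  haveI : Algebra.FormallyUnramified M L := Algebra.FormallyUnramified.of_isSeparable M L
  have h0 : ∀ m : M, (d - e) (algebraMap M L m) = 0 := fun m => by
    rw [Derivation.sub_apply, h m, sub_self]
  let f : L →ₗ[M] V :=
    { toFun := fun x => (d - e) x
      map_add' := fun x y => map_add _ x y
      map_smul' := fun m x => by
        rw [Algebra.smul_def, Derivation.leibniz, h0, smul_zero, add_zero, RingHom.id_apply,
          algebraMap_smul] }
  let g : Derivation M L V := Derivation.mk' f fun x y => Derivation.leibniz (d - e) x y
  have hg : g = 0 := by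
    have h1 := Derivation.liftKaehlerDifferential_comp g
    have h2 : g.liftKaehlerDifferential = 0 := by
      apply LinearMap.ext
      intro x
      rw [Subsingleton.elim x 0, map_zero, map_zero]
    rw [← h1, h2]
    rfl
  ext x
  have h3 : (d - e) x = 0 := by
    have := congrArg (fun D : Derivation M L V => D x) hg
    exact this
  rw [Derivation.sub_apply] at h3
  exact sub_eq_zero.mp h3

/-- an automorphism commutes with a derivation if this holds on the base field -/
theorem der_aut [CharZero M] [Algebra.IsAlgebraic M L] (d : Derivation A L L) (τ : L ≃ₐ[M] L)
    (h : ∀ m : M, ∃ m' : M, d (algebraMap M L m) = algebraMap M L m') (x : L) :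
    τ (d x) = d (τ x) := by
  have hA : ∀ (a : A) (x : L), τ (a • x) = a • τ x := by
    intro a x
    rw [← algebraMap_smul M a x, map_smul, algebraMap_smul]
  have hA' : ∀ (a : A) (x : L), τ.symm (a • x) = a • τ.symm x := by
    intro a x
    rw [← algebraMap_smul M a x, map_smul, algebraMap_smul]
  let f : L →ₗ[A] L :=
    { toFun := fun x => τ (d (τ.symm x))
      map_add' := fun x y => by rw [map_add, map_add, map_add]
      map_smul' := fun a x => by rw [hA', Derivation.map_smul, hA, RingHom.id_apply] }
  let g : Derivation A L L := Derivation.mk' f fun x y => by
    show τ (d (τ.symm (x * y))) = x • τ (d (τ.symm y)) + y • τ (d (τ.symm x))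
    rw [map_mul, Derivation.leibniz, map_add, smul_eq_mul, smul_eq_mul, map_mul, map_mul,
      AlgEquiv.apply_symm_apply, AlgEquiv.apply_symm_apply, smul_eq_mul, smul_eq_mul]
  have hgd : g = d := by
    apply der_unique (M := M)
    intro m
    show τ (d (τ.symm (algebraMap M L m))) = _
    obtain ⟨m', hm'⟩ := h m
    rw [AlgEquiv.commutes, hm', AlgEquiv.commutes]
  have h1 : g (τ x) = d (τ x) := by rw [hgd]
  rw [← h1]
  show τ (d x) = τ (d (τ.symm (τ x)))
  rw [AlgEquiv.symm_apply_apply]

end Crest.Agent.R102.RAT554
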