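import Crest.Agent.R266.SCV
import Crest.Agent.R102.T5Defs_160

/-!
Row 102, [T5] MELNIKOV (helper490's strip proof), leaf ML-E (helper39): the backward solution
operator `x₀ = E_w (x₁, x₂)` of the reflection law, for chords that are NOT near-diagonal
(labels `s - 1, s, s + 1`), as `Ψ_w → 1/6` locally uniformly.
-/

set_option autoImplicit false

namespace Crest.Agent.R102.Solve39

open Complex Set Filter Topology Metric
open Crest.Agent.R102.T5R (EL LL)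

noncomputable section

universe u

/-- contraction step: Lipschitz bound from the sup bound. -/
theorem lip_of_bound {T : ℂ → ℂ} {r η : ℝ} (hr : 0 < r) (hT : DifferentiableOn ℂ T (ball 0 r))
    (hb : ∀ u ∈ ball (0 : ℂ) r, ‖T u‖ ≤ η) (hη : η ≤ r / 8) :
    ∀ u ∈ ball (0 : ℂ) (r / 2), ∀ u' ∈ ball (0 : ℂ) (r / 2), ‖T u - T u'‖ ≤ 1 / 4 * ‖u - u'‖ := by
  intro u hu u' hu'
  have hsub : ∀ x ∈ ball (0 : ℂ) (r / 2), ball x (r / 2) ⊆ ball (0 : ℂ) r := by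
    intro x hx y hy
    rw [mem_ball] at *
    calc dist y 0 ≤ dist y x + dist x 0 := dist_triangle _ _ _
      _ < r / 2 + r / 2 := add_lt_add hy hx
      _ = r := by ring
  have hd : ∀ x ∈ ball (0 : ℂ) (r / 2), DifferentiableAt ℂ T x := by
    intro x hx
    exact hT.differentiableAt (isOpen_ball.mem_nhds (ball_subset_ball (by linarith) hx))
  have hder : ∀ x ∈ ball (0 : ℂ) (r / 2), ‖deriv T x‖ ≤ 1 / 4 := by
    intro x hx
    have h1 := Crest.Agent.R266.SCV.norm_fderiv_le_of_ball (f := T) (x := x) (r := r / 2) (M := η)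
      (by linarith) (hT.mono (hsub x hx)) (fun y hy => hb y (hsub x hx hy))
    rw [norm_deriv_eq_norm_fderiv]
    refine h1.trans ?_
    rw [div_le_iff₀ (by linarith)]
    linarith
  exact (convex_ball (0 : ℂ) (r / 2)).norm_image_sub_le_of_norm_deriv_le hd hder hu' hu

/-- **Lemma A (solve with parameters)**: `G (u, v) ≈ -u`. -/
theorem solveA {E : Type u} [NormedAddCommGroup E] [NormedSpace ℂ E] [FiniteDimensional ℂ E]
    {U : Set E} (hU : IsOpen U) {r η : ℝ} (hr : 0 < r) (hη : η ≤ r / 8) {G : ℂ × E → ℂ}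
    (hG : DifferentiableOn ℂ G (ball (0 : ℂ) r ×ˢ U))
    (hb : ∀ u ∈ ball (0 : ℂ) r, ∀ v ∈ U, ‖G (u, v) + u‖ ≤ η) :
    ∃ φ : E → ℂ, DifferentiableOn ℂ φ U ∧ ∀ v ∈ U, ‖φ v‖ ≤ η ∧ G (φ v, v) = 0 ∧
      ∀ u ∈ ball (0 : ℂ) (r / 2), G (u, v) = 0 → u = φ v := by
  classical
  rcases U.eq_empty_or_nonempty with hUe | ⟨v₀, hv₀⟩
  · subst hUe
    exact ⟨fun _ => 0, differentiableOn_empty, fun v hv => absurd hv (notMem_empty v)⟩
  have hη0 : 0 ≤ η := (norm_nonneg _).trans (hb 0 (mem_ball_self hr) v₀ hv₀)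
  set T : ℂ → E → ℂ := fun u v => G (u, v) + u with hT
  have hTd : ∀ v ∈ U, DifferentiableOn ℂ (fun u => T u v) (ball 0 r) := by
    intro v hv
    apply DifferentiableOn.add _ differentiableOn_id
    apply hG.comp (by fun_prop : DifferentiableOn ℂ (fun u : ℂ => (u, v)) (ball 0 r))
    intro u hu
    exact ⟨hu, hv⟩
  have hlip : ∀ v ∈ U, ∀ u ∈ ball (0 : ℂ) (r / 2), ∀ u' ∈ ball (0 : ℂ) (r / 2),
      ‖T u v - T u' v‖ ≤ 1 / 4 * ‖u - u'‖ := by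
    intro v hv
    exact lip_of_bound hr (hTd v hv) (fun u hu => hb u hu v hv) hη
  -- iterates
  let f : ℕ → E → ℂ := fun k => Nat.rec (fun _ => 0) (fun _ g v => T (g v) v) k
  have hf0 : ∀ v, f 0 v = 0 := fun v => rfl
  have hfs : ∀ k v, f (k + 1) v = T (f k v) v := fun k v => rfl
  have hfb : ∀ k, ∀ v ∈ U, ‖f k v‖ ≤ η := by
    intro k
    induction k with
    | zero => intro v _; rw [hf0, norm_zero]; exact hη0
    | succ k ih =>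
      intro v hv
      rw [hfs]
      apply hb _ _ v hv
      rw [mem_ball_zero_iff]
      have := ih v hv
      linarith
  have hfr : ∀ k, ∀ v ∈ U, f k v ∈ ball (0 : ℂ) (r / 2) := by
    intro k v hv
    rw [mem_ball_zero_iff]
    have := hfb k v hv
    linarith
  have hfd : ∀ k, DifferentiableOn ℂ (f k) U := by
    intro k
    induction k with
    | zero => exact differentiableOn_const 0
    | succ k ih =>
      have : f (k + 1) = fun v => G (f k v, v) + f k v := by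
        funext v
        rw [hfs]
      rw [this]
      apply DifferentiableOn.add _ ih
      apply hG.comp (ih.prodMk differentiableOn_id)
      intro v hv
      exact ⟨ball_subset_ball (by linarith) (hfr k v hv), hv⟩
  have hgeo : ∀ k, ∀ v ∈ U, dist (f k v) (f (k + 1) v) ≤ η * (1 / 4) ^ k := by
    intro k
    induction k with
    | zero =>
      intro v hv
      rw [hf0, dist_comm, dist_zero_right, pow_zero, mul_one]
      exact hfb 1 v hv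
    | succ k ih =>
      intro v hv
      rw [dist_eq_norm, hfs k v, hfs (k + 1) v]
      refine (hlip v hv _ (hfr k v hv) _ (hfr (k + 1) v hv)).trans ?_
      rw [← dist_eq_norm, pow_succ]
      have := ih v hv
      linarith
  have hc : ∀ v ∈ U, ∃ y, Tendsto (fun k => f k v) atTop (𝓝 y) := by
    intro v hv
    exact cauchySeq_tendsto_of_complete
      (cauchySeq_of_le_geometric (1 / 4) η (by norm_num) (fun k => hgeo k v hv))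
  choose! φ hφ using hc
  have hφb : ∀ v ∈ U, ‖φ v‖ ≤ η := by
    intro v hv
    exact le_of_tendsto (hφ v hv).norm (Eventually.of_forall (fun k => hfb k v hv))
  have hφr : ∀ v ∈ U, φ v ∈ ball (0 : ℂ) (r / 2) := by
    intro v hv
    rw [mem_ball_zero_iff]
    have := hφb v hv
    linarith
  have hfix : ∀ v ∈ U, T (φ v) v = φ v := by
    intro v hv
    have hcont : ContinuousAt (fun u => T u v) (φ v) :=
      ((hTd v hv).differentiableAt (isOpen_ball.mem_nhds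
        (ball_subset_ball (by linarith) (hφr v hv)))).continuousAt
    have h1 : Tendsto (fun k => T (f k v) v) atTop (𝓝 (T (φ v) v)) := hcont.tendsto.comp (hφ v hv)
    have h2 : Tendsto (fun k => f (k + 1) v) atTop (𝓝 (φ v)) :=
      (hφ v hv).comp (tendsto_add_atTop_nat 1)
    exact tendsto_nhds_unique h1 h2
  refine ⟨φ, ?_, ?_⟩
  · have hunif : TendstoUniformlyOn f φ atTop U := by
      rw [Metric.tendstoUniformlyOn_iff]
      intro ε hε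
      have hlim : Tendsto (fun k : ℕ => η * (1 / 4 : ℝ) ^ k / (1 - 1 / 4)) atTop (𝓝 0) := by
        have := ((tendsto_pow_atTop_nhds_zero_of_lt_one (r := (1 / 4 : ℝ)) (by norm_num)
          (by norm_num)).const_mul η).div_const (1 - 1 / 4)
        simpa using this
      filter_upwards [hlim.eventually (gt_mem_nhds hε)] with k hk v hv
      rw [dist_comm]
      exact (dist_le_of_le_geometric_of_tendsto (1 / 4) η (by norm_num)
        (fun k => hgeo k v hv) (hφ v hv) k).trans_lt hk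
    exact (Crest.Agent.R266.SCV.analyticOnNhd_of_tendstoLocallyUniformlyOn hU
      hunif.tendstoLocallyUniformlyOn (Eventually.of_forall hfd)).differentiableOn
  · intro v hv
    refine ⟨hφb v hv, ?_, ?_⟩
    · have := hfix v hv
      simp only [hT] at this
      linear_combination this
    · intro u hu hGu
      have h1 : T u v = u := by simp only [hT, hGu, zero_add]
      have h2 := hlip v hv u hu (φ v) (hφr v hv)
      rw [h1, hfix v hv] at h2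
      have h3 : ‖u - φ v‖ = 0 := by
        have := norm_nonneg (u - φ v)
        linarith
      exact sub_eq_zero.mp (norm_eq_zero.mp h3)

/-- chord neighbourhoods: `(x, y)` close to some `(s, s + 1)`, `s ∈ K`. -/
def Nb (K : Set ℂ) (ρ : ℝ) : Set (ℂ × ℂ) := {p | ∃ s ∈ K, ‖p.1 - s‖ < ρ ∧ ‖p.2 - (s + 1)‖ < ρ}

theorem isOpen_Nb (K : Set ℂ) (ρ : ℝ) : IsOpen (Nb K ρ) := by
  have : Nb K ρ = ⋃ s ∈ K, ({p : ℂ × ℂ | ‖p.1 - s‖ < ρ} ∩ {p : ℂ × ℂ | ‖p.2 - (s + 1)‖ < ρ}) := by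
    ext p
    simp only [Nb, mem_iUnion, exists_prop]
    rfl
  rw [this]
  apply isOpen_biUnion
  intro s _
  exact (isOpen_lt (by fun_prop) continuous_const).inter (isOpen_lt (by fun_prop) continuous_const)

theorem Nb_mono {K : Set ℂ} {ρ ρ' : ℝ} (h : ρ ≤ ρ') : Nb K ρ ⊆ Nb K ρ' := by
  rintro p ⟨s, hs, h1, h2⟩
  exact ⟨s, hs, h1.trans_le h, h2.trans_le h⟩

/-- the joint Lagrangian -/
def LJ (Ψ : ℂ → ℂ → ℂ) (p : ℂ × ℂ) : ℂ := LL Ψ p.1 p.2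

theorem LJ_diff {Ψ : ℂ → ℂ → ℂ} {K : Set ℂ} {ρ : ℝ}
    (hΨ : ∀ p ∈ Nb K ρ, DifferentiableAt ℂ (fun p : ℂ × ℂ => Ψ p.1 p.2) p) :
    DifferentiableOn ℂ (LJ Ψ) (Nb K ρ) := by
  intro p hp
  apply DifferentiableAt.differentiableWithinAt
  have h1 : DifferentiableAt ℂ (fun p : ℂ × ℂ => (p.2 - p.1) ^ 3) p := by fun_prop
  exact h1.mul (hΨ p hp)

theorem deriv_snd_eq {Ψ : ℂ → ℂ → ℂ} {x y : ℂ} (h : DifferentiableAt ℂ (LJ Ψ) (x, y)) :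
    deriv (fun y' => LL Ψ x y') y = fderiv ℂ (LJ Ψ) (x, y) (0, 1) := by
  have h1 : HasDerivAt (fun y' : ℂ => (x, y')) ((0 : ℂ), (1 : ℂ)) y :=
    (hasDerivAt_const y x).prodMk (hasDerivAt_id y)
  exact (h.hasFDerivAt.comp_hasDerivAt y h1).deriv

theorem deriv_fst_eq {Ψ : ℂ → ℂ → ℂ} {x y : ℂ} (h : DifferentiableAt ℂ (LJ Ψ) (x, y)) :
    deriv (fun x' => LL Ψ x' y) x = fderiv ℂ (LJ Ψ) (x, y) (1, 0) := by
  have h1 : HasDerivAt (fun x' : ℂ => (x', y)) ((1 : ℂ), (0 : ℂ)) x :=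
    (hasDerivAt_id x).prodMk (hasDerivAt_const x y)
  exact (h.hasFDerivAt.comp_hasDerivAt x h1).deriv

/-- bounds for the derivatives of `LJ Ψ` minus the model. -/
theorem fderiv_close {Ψ : ℂ → ℂ → ℂ} {K : Set ℂ} {ρ e : ℝ} (hρ : 0 < ρ) (hρ1 : ρ ≤ 1)
    (hΨ : ∀ p ∈ Nb K ρ, DifferentiableAt ℂ (fun p : ℂ × ℂ => Ψ p.1 p.2) p ∧
      ‖Ψ p.1 p.2 - 1 / 6‖ ≤ e) {p : ℂ × ℂ} (hp : p ∈ Nb K (ρ / 2)) :
    ‖fderiv ℂ (LJ Ψ) p (0, 1) - (p.2 - p.1) ^ 2 / 2‖ ≤ 54 * e / ρ ∧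
    ‖fderiv ℂ (LJ Ψ) p (1, 0) + (p.2 - p.1) ^ 2 / 2‖ ≤ 54 * e / ρ := by
  have hpρ : p ∈ Nb K ρ := Nb_mono (by linarith) hp
  obtain ⟨s, hs, hp1, hp2⟩ := hp
  set Ψ1 : ℂ → ℂ → ℂ := fun x y => Ψ x y - 1 / 6 with hΨ1
  have hsub : ball p (ρ / 2) ⊆ Nb K ρ := by
    intro q hq
    rw [mem_ball, Prod.dist_eq, max_lt_iff, dist_eq_norm, dist_eq_norm] at hq
    refine ⟨s, hs, ?_, ?_⟩
    · calc ‖q.1 - s‖ = ‖(q.1 - p.1) + (p.1 - s)‖ := by ring_nf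
        _ ≤ ‖q.1 - p.1‖ + ‖p.1 - s‖ := norm_add_le _ _
        _ < ρ := by linarith [hq.1]
    · calc ‖q.2 - (s + 1)‖ = ‖(q.2 - p.2) + (p.2 - (s + 1))‖ := by ring_nf
        _ ≤ ‖q.2 - p.2‖ + ‖p.2 - (s + 1)‖ := norm_add_le _ _
        _ < ρ := by linarith [hq.2]
  have hd1 : DifferentiableOn ℂ (LJ Ψ1) (Nb K ρ) := by
    apply LJ_diff
    intro q hq
    exact (hΨ q hq).1.sub_const _
  have hb1 : ∀ q ∈ ball p (ρ / 2), ‖LJ Ψ1 q‖ ≤ 27 * e := by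
    intro q hq
    obtain ⟨s', _, h1, h2⟩ := hsub hq
    have h3 : ‖q.2 - q.1‖ ≤ 3 := by
      calc ‖q.2 - q.1‖ = ‖(q.2 - (s' + 1)) - (q.1 - s') + 1‖ := by ring_nf
        _ ≤ ‖(q.2 - (s' + 1)) - (q.1 - s')‖ + ‖(1 : ℂ)‖ := norm_add_le _ _
        _ ≤ ‖q.2 - (s' + 1)‖ + ‖q.1 - s'‖ + 1 := by
          rw [norm_one]
          linarith [norm_sub_le (q.2 - (s' + 1)) (q.1 - s')]
        _ ≤ 3 := by linarith
    have h4 := (hΨ q (hsub hq)).2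
    change ‖(q.2 - q.1) ^ 3 * (Ψ q.1 q.2 - 1 / 6)‖ ≤ 27 * e
    rw [norm_mul, norm_pow]
    have h5 : ‖q.2 - q.1‖ ^ 3 ≤ 27 := by
      calc ‖q.2 - q.1‖ ^ 3 ≤ 3 ^ 3 := pow_le_pow_left₀ (norm_nonneg _) h3 3
        _ = 27 := by norm_num
    exact mul_le_mul h5 h4 (norm_nonneg _) (by norm_num)
  have hn := Crest.Agent.R266.SCV.norm_fderiv_le_of_ball (f := LJ Ψ1) (x := p) (r := ρ / 2)
    (M := 27 * e) (by linarith) (hd1.mono hsub) hb1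
  have hn' : ‖fderiv ℂ (LJ Ψ1) p‖ ≤ 54 * e / ρ := by
    refine hn.trans (le_of_eq ?_)
    field_simp
    ring
  -- LJ Ψ = LJ Ψ1 + (y-x)^3/6
  have hm : HasFDerivAt (fun q : ℂ × ℂ => (1 / 6 : ℂ) * (q.2 - q.1) ^ 3)
      ((((p.2 - p.1) ^ 2 / 2) : ℂ) • (ContinuousLinearMap.snd ℂ ℂ ℂ - ContinuousLinearMap.fst ℂ ℂ ℂ)) p := by
    have h1 : HasFDerivAt (fun q : ℂ × ℂ => q.2 - q.1)
        (ContinuousLinearMap.snd ℂ ℂ ℂ - ContinuousLinearMap.fst ℂ ℂ ℂ) p :=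
      hasFDerivAt_snd.sub hasFDerivAt_fst
    have h2 := (h1.pow 3).const_mul (1 / 6 : ℂ)
    refine h2.congr_fderiv ?_
    ext <;> simp <;> ring
  have hdp : DifferentiableAt ℂ (LJ Ψ1) p :=
    hd1.differentiableAt ((isOpen_Nb K ρ).mem_nhds hpρ)
  have hsum : HasFDerivAt (LJ Ψ) (fderiv ℂ (LJ Ψ1) p +
      (((p.2 - p.1) ^ 2 / 2) : ℂ) • (ContinuousLinearMap.snd ℂ ℂ ℂ - ContinuousLinearMap.fst ℂ ℂ ℂ)) p := by
    have := hdp.hasFDerivAt.add hm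
    refine this.congr_of_eventuallyEq (Eventually.of_forall ?_)
    intro q
    change (q.2 - q.1) ^ 3 * Ψ q.1 q.2 = (q.2 - q.1) ^ 3 * (Ψ q.1 q.2 - 1 / 6)
      + (1 / 6 : ℂ) * (q.2 - q.1) ^ 3
    ring
  rw [hsum.fderiv]
  have key : ∀ v : ℂ × ℂ, ‖v‖ ≤ 1 → ‖fderiv ℂ (LJ Ψ1) p v‖ ≤ 54 * e / ρ := by
    intro v hv
    calc ‖fderiv ℂ (LJ Ψ1) p v‖ ≤ ‖fderiv ℂ (LJ Ψ1) p‖ * ‖v‖ := ContinuousLinearMap.le_opNorm _ _
      _ ≤ ‖fderiv ℂ (LJ Ψ1) p‖ * 1 := by gcongr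
      _ ≤ 54 * e / ρ := by rw [mul_one]; exact hn'
  refine ⟨?_, ?_⟩
  · have : (fderiv ℂ (LJ Ψ1) p + (((p.2 - p.1) ^ 2 / 2) : ℂ) • (ContinuousLinearMap.snd ℂ ℂ ℂ
        - ContinuousLinearMap.fst ℂ ℂ ℂ)) ((0 : ℂ), (1 : ℂ)) - (p.2 - p.1) ^ 2 / 2
        = fderiv ℂ (LJ Ψ1) p (0, 1) := by
      simp
    rw [this]
    exact key _ (by simp [Prod.norm_def])
  · have : (fderiv ℂ (LJ Ψ1) p + (((p.2 - p.1) ^ 2 / 2) : ℂ) • (ContinuousLinearMap.snd ℂ ℂ ℂ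
        - ContinuousLinearMap.fst ℂ ℂ ℂ)) ((1 : ℂ), (0 : ℂ)) + (p.2 - p.1) ^ 2 / 2
        = fderiv ℂ (LJ Ψ1) p (1, 0) := by
      simp
    rw [this]
    exact key _ (by simp [Prod.norm_def])

/-- **SOLVE, fixed `w`.** -/
theorem solve_fixed {Ψ : ℂ → ℂ → ℂ} {K : Set ℂ} {ρ e r : ℝ} (hρ : 0 < ρ) (hρ1 : ρ ≤ 1)
    (hr : 0 < r) (hr1 : r ≤ 1 / 16) (hrρ : r ≤ ρ / 4) (he : 108 * e / ρ ≤ r / 16)
    (hΨ : ∀ p ∈ Nb (K ∪ (fun s => s - 1) '' K) ρ,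
      DifferentiableAt ℂ (fun p : ℂ × ℂ => Ψ p.1 p.2) p ∧ ‖Ψ p.1 p.2 - 1 / 6‖ ≤ e) :
    ∃ φ : ℂ × ℂ → ℂ, DifferentiableOn ℂ φ (Nb K (r / 64)) ∧ ∀ v ∈ Nb K (r / 64),
      ‖φ v - (2 * v.1 - v.2)‖ ≤ r / 8 ∧ EL Ψ (φ v) v.1 v.2 = 0 ∧
      ∀ x : ℂ, ‖x - (2 * v.1 - v.2)‖ < r / 2 → EL Ψ x v.1 v.2 = 0 → x = φ v := by
  set K2 : Set ℂ := K ∪ (fun s => s - 1) '' K with hK2
  have hLd : DifferentiableOn ℂ (LJ Ψ) (Nb K2 ρ) := LJ_diff (fun p hp => (hΨ p hp).1)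
  have hLo := isOpen_Nb K2 ρ
  have hfd : DifferentiableOn ℂ (fderiv ℂ (LJ Ψ)) (Nb K2 ρ) := by
    have := (Crest.Agent.R266.SCV.analyticOnNhd_of_tendstoLocallyUniformlyOn (φ := (atTop : Filter ℕ))
      (f := fun _ : ℕ => LJ Ψ) (g := LJ Ψ) hLo
      (TendstoUniformlyOn.tendstoLocallyUniformlyOn (by
        rw [Metric.tendstoUniformlyOn_iff]
        intro ε hε
        filter_upwards with n x _
        simpa using hε)) (Eventually.of_forall (fun _ => hLd)))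
    exact this.fderiv.differentiableOn
  set G : ℂ × (ℂ × ℂ) → ℂ := fun z =>
    fderiv ℂ (LJ Ψ) (2 * z.2.1 - z.2.2 + z.1, z.2.1) (0, 1) + fderiv ℂ (LJ Ψ) (z.2.1, z.2.2) (1, 0)
    with hG
  -- memberships
  have hmem : ∀ u ∈ ball (0 : ℂ) r, ∀ v ∈ Nb K (r / 64),
      (2 * v.1 - v.2 + u, v.1) ∈ Nb K2 (ρ / 2) ∧ (v.1, v.2) ∈ Nb K2 (ρ / 2) := by
    rintro u hu v ⟨s, hs, h1, h2⟩
    rw [mem_ball_zero_iff] at hu
    refine ⟨⟨s - 1, Or.inr ⟨s, hs, rfl⟩, ?_, ?_⟩, ⟨s, Or.inl hs, ?_, ?_⟩⟩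
    · calc ‖2 * v.1 - v.2 + u - (s - 1)‖ = ‖(v.1 - s) + (v.1 - s) - (v.2 - (s + 1)) + u‖ := by
            congr 1; ring
        _ ≤ ‖(v.1 - s) + (v.1 - s) - (v.2 - (s + 1))‖ + ‖u‖ := norm_add_le _ _
        _ ≤ ‖(v.1 - s) + (v.1 - s)‖ + ‖v.2 - (s + 1)‖ + ‖u‖ := by
            linarith [norm_sub_le ((v.1 - s) + (v.1 - s)) (v.2 - (s + 1))]
        _ ≤ ‖v.1 - s‖ + ‖v.1 - s‖ + ‖v.2 - (s + 1)‖ + ‖u‖ := by
            linarith [norm_add_le (v.1 - s) (v.1 - s)]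
        _ < ρ / 2 := by linarith
    · calc ‖v.1 - (s - 1 + 1)‖ = ‖v.1 - s‖ := by ring_nf
        _ < ρ / 2 := by linarith
    · exact h1.trans_le (by linarith)
    · exact h2.trans_le (by linarith)
  have hEL : ∀ u ∈ ball (0 : ℂ) r, ∀ v ∈ Nb K (r / 64),
      EL Ψ (2 * v.1 - v.2 + u) v.1 v.2 = G (u, v) := by
    intro u hu v hv
    obtain ⟨h1, h2⟩ := hmem u hu v hv
    have d1 := hLd.differentiableAt (hLo.mem_nhds (Nb_mono (by linarith) h1))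
    have d2 := hLd.differentiableAt (hLo.mem_nhds (Nb_mono (by linarith) h2))
    rw [EL, deriv_snd_eq d1, deriv_fst_eq d2]
  have hGd : DifferentiableOn ℂ G (ball (0 : ℂ) r ×ˢ Nb K (r / 64)) := by
    rintro ⟨u, v⟩ ⟨hu, hv⟩
    obtain ⟨h1, h2⟩ := hmem u hu v hv
    have f1 := hfd.differentiableAt (hLo.mem_nhds (Nb_mono (by linarith) h1))
    have f2 := hfd.differentiableAt (hLo.mem_nhds (Nb_mono (by linarith) h2))
    apply DifferentiableAt.differentiableWithinAt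
    have g1 : DifferentiableAt ℂ (fun z : ℂ × (ℂ × ℂ) => (2 * z.2.1 - z.2.2 + z.1, z.2.1)) (u, v) := by
      fun_prop
    have g2 : DifferentiableAt ℂ (fun z : ℂ × (ℂ × ℂ) => (z.2.1, z.2.2)) (u, v) := by
      fun_prop
    have k1 : DifferentiableAt ℂ (fun z : ℂ × (ℂ × ℂ) =>
        fderiv ℂ (LJ Ψ) (2 * z.2.1 - z.2.2 + z.1, z.2.1)) (u, v) :=
      DifferentiableAt.comp (u, v) (g := fderiv ℂ (LJ Ψ)) f1 g1
    have k2 : DifferentiableAt ℂ (fun z : ℂ × (ℂ × ℂ) =>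
        fderiv ℂ (LJ Ψ) (z.2.1, z.2.2)) (u, v) :=
      DifferentiableAt.comp (u, v) (g := fderiv ℂ (LJ Ψ)) f2 g2
    exact (k1.clm_apply (differentiableAt_const _)).add (k2.clm_apply (differentiableAt_const _))
  have hGb : ∀ u ∈ ball (0 : ℂ) r, ∀ v ∈ Nb K (r / 64), ‖G (u, v) + u‖ ≤ r / 8 := by
    intro u hu v hv
    obtain ⟨h1, h2⟩ := hmem u hu v hv
    have c1 := (fderiv_close hρ hρ1 hΨ h1).1
    have c2 := (fderiv_close hρ hρ1 hΨ h2).2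
    obtain ⟨s, hs, q1, q2⟩ := hv
    rw [mem_ball_zero_iff] at hu
    simp only at c1 c2
    have hid : G (u, v) + u =
        (fderiv ℂ (LJ Ψ) (2 * v.1 - v.2 + u, v.1) (0, 1) - (v.1 - (2 * v.1 - v.2 + u)) ^ 2 / 2)
        + (fderiv ℂ (LJ Ψ) (v.1, v.2) (1, 0) + (v.2 - v.1) ^ 2 / 2)
        + (((v.1 - s) - (v.2 - (s + 1))) * u + u ^ 2 / 2) := by
      simp only [hG]
      ring
    have hlast : ‖((v.1 - s) - (v.2 - (s + 1))) * u + u ^ 2 / 2‖ ≤ r / 16 := by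
      have n1 : ‖(v.1 - s) - (v.2 - (s + 1))‖ ≤ r / 32 := by
        linarith [norm_sub_le (v.1 - s) (v.2 - (s + 1))]
      have n2 : ‖((v.1 - s) - (v.2 - (s + 1))) * u‖ ≤ r / 32 * r := by
        rw [norm_mul]
        exact mul_le_mul n1 hu.le (norm_nonneg _) (by linarith)
      have n3 : ‖u ^ 2 / 2‖ ≤ r ^ 2 / 2 := by
        rw [norm_div, norm_pow]
        have : ‖(2 : ℂ)‖ = 2 := by norm_num
        rw [this]
        have := pow_le_pow_left₀ (norm_nonneg u) hu.le 2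
        linarith
      have n4 := norm_add_le (((v.1 - s) - (v.2 - (s + 1))) * u) (u ^ 2 / 2)
      nlinarith
    rw [hid]
    refine (norm_add_le _ _).trans ?_
    have n5 := norm_add_le (fderiv ℂ (LJ Ψ) (2 * v.1 - v.2 + u, v.1) (0, 1) -
      (v.1 - (2 * v.1 - v.2 + u)) ^ 2 / 2) (fderiv ℂ (LJ Ψ) (v.1, v.2) (1, 0) + (v.2 - v.1) ^ 2 / 2)
    have n6 : 54 * e / ρ + 54 * e / ρ = 108 * e / ρ := by ring
    linarith
  obtain ⟨φ, hφd, hφ⟩ := solveA (isOpen_Nb K (r / 64)) hr le_rfl hGd hGb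
  refine ⟨fun v => 2 * v.1 - v.2 + φ v, ?_, ?_⟩
  · exact (by fun_prop : DifferentiableOn ℂ (fun v : ℂ × ℂ => 2 * v.1 - v.2) _).add hφd
  · intro v hv
    obtain ⟨a1, a2, a3⟩ := hφ v hv
    have hφr : φ v ∈ ball (0 : ℂ) r := by
      rw [mem_ball_zero_iff]
      linarith
    refine ⟨?_, ?_, ?_⟩
    · simpa using a1
    · simp only
      rw [hEL (φ v) hφr v hv]
      exact a2
    · intro x hx hx0
      have hu : x - (2 * v.1 - v.2) ∈ ball (0 : ℂ) (r / 2) := by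
        rw [mem_ball_zero_iff]
        exact hx
      have hu' : x - (2 * v.1 - v.2) ∈ ball (0 : ℂ) r := ball_subset_ball (by linarith) hu
      have h5 := hEL _ hu' v hv
      rw [add_sub_cancel] at h5
      have h6 := a3 _ hu (by rw [← h5]; exact hx0)
      simp only
      rw [← h6]
      ring

open Classical in
/-- the backward operator: the zero `x₀` of the law with `|x₀ - (2 x₁ - x₂)| < R₀` -/
def back (R₀ : ℝ) (Ψ : ℂ → ℂ → ℂ) (v : ℂ × ℂ) : ℂ :=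
  if h : ∃ x : ℂ, ‖x - (2 * v.1 - v.2)‖ < R₀ ∧ EL Ψ x v.1 v.2 = 0 then h.choose else 0

/-- **SOLVE (ML-E)**, family version.  `K` = set of labels `s` of the chords `(s, s+1)`. -/
theorem solve {ι : Type*} {F : Filter ι} {Ψ : ι → ℂ → ℂ → ℂ} {K : Set ℂ} {ρ : ℝ} (hρ : 0 < ρ)
    (hΨ : ∀ e : ℝ, 0 < e → ∀ᶠ w in F, ∀ p ∈ Nb (K ∪ (fun s => s - 1) '' K) ρ,
      DifferentiableAt ℂ (fun p : ℂ × ℂ => Ψ w p.1 p.2) p ∧ ‖Ψ w p.1 p.2 - 1 / 6‖ ≤ e) :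
    ∃ R₀ d₀ : ℝ, 0 < R₀ ∧ 0 < d₀ ∧
      (∀ᶠ w in F, ∀ v ∈ Nb K d₀, DifferentiableAt ℂ (back R₀ (Ψ w)) v ∧
        EL (Ψ w) (back R₀ (Ψ w) v) v.1 v.2 = 0 ∧
        ∀ x : ℂ, ‖x - (2 * v.1 - v.2)‖ < R₀ → EL (Ψ w) x v.1 v.2 = 0 → x = back R₀ (Ψ w) v) ∧
      (∀ e : ℝ, 0 < e → ∃ d : ℝ, 0 < d ∧ ∀ᶠ w in F, ∀ s ∈ K, ∀ v : ℂ × ℂ, ‖v - (s, s + 1)‖ < d →
        ‖back R₀ (Ψ w) v - (s - 1)‖ < e) := by
  set ρ' : ℝ := min ρ 1 with hρ'
  have hρ'0 : 0 < ρ' := lt_min hρ one_pos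
  have hρ'1 : ρ' ≤ 1 := min_le_right _ _
  have hΨ' : ∀ e : ℝ, 0 < e → ∀ᶠ w in F, ∀ p ∈ Nb (K ∪ (fun s => s - 1) '' K) ρ',
      DifferentiableAt ℂ (fun p : ℂ × ℂ => Ψ w p.1 p.2) p ∧ ‖Ψ w p.1 p.2 - 1 / 6‖ ≤ e := by
    intro e he
    filter_upwards [hΨ e he] with w hw p hp
    exact hw p (Nb_mono (min_le_left _ _) hp)
  set r₀ : ℝ := min (1 / 16) (ρ' / 4) with hr₀
  have hr₀0 : 0 < r₀ := lt_min (by norm_num) (by linarith)
  -- for every r ≤ r₀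
  have main : ∀ r : ℝ, 0 < r → r ≤ r₀ → ∀ᶠ w in F, ∃ φ : ℂ × ℂ → ℂ,
      DifferentiableOn ℂ φ (Nb K (r / 64)) ∧ ∀ v ∈ Nb K (r / 64),
      ‖φ v - (2 * v.1 - v.2)‖ ≤ r / 8 ∧ EL (Ψ w) (φ v) v.1 v.2 = 0 ∧
      ∀ x : ℂ, ‖x - (2 * v.1 - v.2)‖ < r / 2 → EL (Ψ w) x v.1 v.2 = 0 → x = φ v := by
    intro r hr hrr
    have he : 0 < r * ρ' / (16 * 108) := by positivity
    filter_upwards [hΨ' _ he] with w hw
    apply solve_fixed hρ'0 hρ'1 hr (hrr.trans (min_le_left _ _)) (hrr.trans (min_le_right _ _)) _ hw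
    apply le_of_eq
    field_simp
  have m0 := main r₀ hr₀0 le_rfl
  have hback : ∀ w, (∃ φ : ℂ × ℂ → ℂ,
      DifferentiableOn ℂ φ (Nb K (r₀ / 64)) ∧ ∀ v ∈ Nb K (r₀ / 64),
      ‖φ v - (2 * v.1 - v.2)‖ ≤ r₀ / 8 ∧ EL (Ψ w) (φ v) v.1 v.2 = 0 ∧
      ∀ x : ℂ, ‖x - (2 * v.1 - v.2)‖ < r₀ / 2 → EL (Ψ w) x v.1 v.2 = 0 → x = φ v) →
      ∃ φ : ℂ × ℂ → ℂ,
      DifferentiableOn ℂ φ (Nb K (r₀ / 64)) ∧ ∀ v ∈ Nb K (r₀ / 64),
      back (r₀ / 2) (Ψ w) v = φ v ∧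
      ‖φ v - (2 * v.1 - v.2)‖ ≤ r₀ / 8 ∧ EL (Ψ w) (φ v) v.1 v.2 = 0 ∧
      ∀ x : ℂ, ‖x - (2 * v.1 - v.2)‖ < r₀ / 2 → EL (Ψ w) x v.1 v.2 = 0 → x = φ v := by
    rintro w ⟨φ, h1, h2⟩
    refine ⟨φ, h1, fun v hv => ?_⟩
    obtain ⟨a1, a2, a3⟩ := h2 v hv
    refine ⟨?_, a1, a2, a3⟩
    have hex : ∃ x : ℂ, ‖x - (2 * v.1 - v.2)‖ < r₀ / 2 ∧ EL (Ψ w) x v.1 v.2 = 0 :=
      ⟨φ v, by linarith, a2⟩
    rw [back, dif_pos hex]
    exact a3 _ hex.choose_spec.1 hex.choose_spec.2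
  refine ⟨r₀ / 2, r₀ / 64, by linarith, by linarith, ?_, ?_⟩
  · filter_upwards [m0] with w hw v hv
    obtain ⟨φ, h1, h2⟩ := hback w hw
    obtain ⟨b1, b2, b3, b4⟩ := h2 v hv
    have heq : back (r₀ / 2) (Ψ w) =ᶠ[𝓝 v] φ := by
      filter_upwards [(isOpen_Nb K (r₀ / 64)).mem_nhds hv] with v' hv'
      exact (h2 v' hv').1
    refine ⟨?_, ?_, ?_⟩
    · exact (h1.differentiableAt ((isOpen_Nb K (r₀ / 64)).mem_nhds hv)).congr_of_eventuallyEq heq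
    · rw [b1]; exact b3
    · intro x hx hx0
      rw [b1]
      exact b4 x hx hx0
  · intro e he
    set r : ℝ := min r₀ e with hr
    have hr0 : 0 < r := lt_min hr₀0 he
    have hrr : r ≤ r₀ := min_le_left _ _
    refine ⟨r / 64, by linarith, ?_⟩
    filter_upwards [m0, main r hr0 hrr] with w hw hwr s hs v hv
    obtain ⟨φ, h1, h2⟩ := hback w hw
    obtain ⟨φ', h1', h2'⟩ := hwr
    have hv' : ‖v.1 - s‖ < r / 64 ∧ ‖v.2 - (s + 1)‖ < r / 64 := by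
      rw [Prod.norm_def, max_lt_iff] at hv
      exact hv
    have hvN : v ∈ Nb K (r / 64) := ⟨s, hs, hv'.1, hv'.2⟩
    have hvN0 : v ∈ Nb K (r₀ / 64) := Nb_mono (by linarith) hvN
    obtain ⟨b1, b2, b3, b4⟩ := h2 v hvN0
    obtain ⟨c1, c2, c3⟩ := h2' v hvN
    have heq : φ' v = φ v := b4 _ (by linarith) c2
    rw [b1, ← heq]
    have : φ' v - (s - 1) = (φ' v - (2 * v.1 - v.2)) + ((v.1 - s) + (v.1 - s) - (v.2 - (s + 1))) := by
      ring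
    rw [this]
    have hre : r ≤ e := min_le_right _ _
    have n1 := norm_add_le (φ' v - (2 * v.1 - v.2)) ((v.1 - s) + (v.1 - s) - (v.2 - (s + 1)))
    have n2 := norm_sub_le ((v.1 - s) + (v.1 - s)) (v.2 - (s + 1))
    have n3 := norm_add_le (v.1 - s) (v.1 - s)
    linarith [hv'.1, hv'.2]

end

end Crest.Agent.R102.Solve39
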