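import Crest.Agent.R102.MelDefs_490

/-!
# Row 102, [T5]/MEL, leaf (ML-EI) = `ExtI`, part A (helper289): the model and its rigidity

`Y0 s = s (1 - 1/(4 s²))^(1/2)`, `Y0 s ^ 2 = s² - 1/4`; the law of the isotropic end `m = 1` is
`(b₀ + b₋)(b₀ + b₊) = 4 b₀²`, `b = x²`.
-/

set_option autoImplicit false

open Set Filter Topology Metric

noncomputable section

namespace Crest.Agent.R102.ExtI289

open Crest.Agent.R102.T5R Crest.Agent.R102.Mel

/-! ### rigidity -/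

theorem quad_bdd {a b c : ℂ} {C : ℝ} (h : ∀ k : ℕ, ‖a * (k : ℂ) ^ 2 + b * k + c‖ ≤ C) :
    a = 0 ∧ b = 0 := by
  have hC : 0 ≤ C := (norm_nonneg _).trans (h 0)
  have ha : a = 0 := by
    by_contra ha
    have hpos : 0 < ‖a‖ := norm_pos_iff.mpr ha
    obtain ⟨n, hn⟩ := exists_nat_gt (2 * C / ‖a‖)
    have hn0 : (0 : ℝ) < n := lt_of_le_of_lt (by positivity) hn
    have h1 : (2 : ℂ) * a * (n : ℂ) ^ 2 = (a * ((0 : ℕ) : ℂ) ^ 2 + b * ((0 : ℕ) : ℂ) + c)
        - 2 * (a * (n : ℂ) ^ 2 + b * n + c)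
        + (a * ((2 * n : ℕ) : ℂ) ^ 2 + b * ((2 * n : ℕ) : ℂ) + c) := by
      push_cast; ring
    have h2 : ‖(2 : ℂ) * a * (n : ℂ) ^ 2‖ ≤ 4 * C := by
      rw [h1]
      refine (norm_add_le _ _).trans ?_
      have e1 := norm_sub_le (a * ((0 : ℕ) : ℂ) ^ 2 + b * ((0 : ℕ) : ℂ) + c)
        (2 * (a * (n : ℂ) ^ 2 + b * n + c))
      rw [norm_mul] at e1
      have e2 : ‖(2 : ℂ)‖ = 2 := by norm_num
      rw [e2] at e1
      have := h 0
      have := h n
      have := h (2 * n)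
      linarith
    rw [norm_mul, norm_mul, norm_pow, Complex.norm_natCast] at h2
    have e2 : ‖(2 : ℂ)‖ = 2 := by norm_num
    rw [e2] at h2
    have h3 : 2 * C < ‖a‖ * n := by
      rw [div_lt_iff₀ hpos] at hn
      linarith
    have hn1 : (1 : ℝ) ≤ n := by
      have : 0 < n := by exact_mod_cast hn0
      exact_mod_cast this
    nlinarith [mul_nonneg hpos.le hn0.le]
  refine ⟨ha, ?_⟩
  subst ha
  by_contra hb
  have hpos : 0 < ‖b‖ := norm_pos_iff.mpr hb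
  obtain ⟨n, hn⟩ := exists_nat_gt (2 * C / ‖b‖)
  have h1 : b * (n : ℂ) = ((0 : ℂ) * (n : ℂ) ^ 2 + b * n + c)
      - ((0 : ℂ) * ((0 : ℕ) : ℂ) ^ 2 + b * ((0 : ℕ) : ℂ) + c) := by
    push_cast; ring
  have h2 : ‖b * (n : ℂ)‖ ≤ 2 * C := by
    rw [h1]
    refine (norm_sub_le _ _).trans ?_
    have := h 0
    have := h n
    linarith
  rw [norm_mul, Complex.norm_natCast] at h2
  rw [div_lt_iff₀ hpos] at hn
  linarith

/-- the exact solutions of the limit law -/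
theorem rigid {y : ℕ → ℂ} {s : ℂ} {C : ℝ} (hy : ∀ k, y k ≠ 0)
    (law : ∀ k, (y (k + 1) ^ 2 + y k ^ 2) * (y (k + 1) ^ 2 + y (k + 2) ^ 2) = 4 * y (k + 1) ^ 4)
    (hb : ∀ k : ℕ, ‖y k ^ 2 - (s + k) ^ 2‖ ≤ C) : y 0 ^ 2 = s ^ 2 - 1 / 4 := by
  have hs : ∀ k, y (k + 1) ^ 2 + y k ^ 2 ≠ 0 := by
    intro k h0
    have := law k
    rw [h0, zero_mul] at this
    exact (mul_ne_zero (by norm_num) (pow_ne_zero 4 (hy (k + 1)))) this.symm
  set b0 := y 0 ^ 2 with hb0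
  set b1 := y 1 ^ 2 with hb1
  have he : b1 + b0 ≠ 0 := hs 0
  set α : ℂ := (b1 - b0) ^ 2 / (2 * (b1 + b0)) with hα
  set β : ℂ := (b1 - b0) * (3 * b0 + b1) / (2 * (b1 + b0)) with hβ
  have hα' : α * (2 * (b1 + b0)) = (b1 - b0) ^ 2 := by
    rw [hα]; field_simp
  have hβ' : β * (2 * (b1 + b0)) = (b1 - b0) * (3 * b0 + b1) := by
    rw [hβ]; field_simp
  have hsum : α + β = b1 - b0 := by
    have : (α + β) * (2 * (b1 + b0)) = (b1 - b0) * (2 * (b1 + b0)) := by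
      rw [add_mul, hα', hβ']; ring
    exact mul_right_cancel₀ (mul_ne_zero two_ne_zero he) this
  have hΔ : β ^ 2 - 4 * α * b0 - α ^ 2 = 0 := by
    have h1 : (β ^ 2 - 4 * α * b0 - α ^ 2) * (2 * (b1 + b0)) ^ 2 = 0 := by
      have e : (β ^ 2 - 4 * α * b0 - α ^ 2) * (2 * (b1 + b0)) ^ 2 =
          (β * (2 * (b1 + b0))) ^ 2 - 4 * (α * (2 * (b1 + b0))) * b0 * (2 * (b1 + b0))
            - (α * (2 * (b1 + b0))) ^ 2 := by ring
      rw [e, hα', hβ']
      ring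
    exact (mul_eq_zero.1 h1).resolve_right (pow_ne_zero 2 (mul_ne_zero two_ne_zero he))
  have key : ∀ k : ℕ, y k ^ 2 = α * (k : ℂ) ^ 2 + β * k + b0 ∧
      y (k + 1) ^ 2 = α * ((k : ℂ) + 1) ^ 2 + β * ((k : ℂ) + 1) + b0 := by
    intro k
    induction k with
    | zero =>
      refine ⟨by simp [hb0], ?_⟩
      have : y (0 + 1) ^ 2 = b1 := rfl
      rw [this]
      push_cast
      linear_combination -hsum
    | succ k ih =>
      obtain ⟨i1, i2⟩ := ih
      refine ⟨by rw [i2]; push_cast; ring, ?_⟩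
      have hl := law k
      have h4 : y (k + 1) ^ 4 = (y (k + 1) ^ 2) ^ 2 := by ring
      have h5 : (y (k + 1 + 1) ^ 2 - (α * (((k + 1 : ℕ) : ℂ) + 1) ^ 2
          + β * (((k + 1 : ℕ) : ℂ) + 1) + b0)) * (y (k + 1) ^ 2 + y k ^ 2) = 0 := by
        have h6 : y (k + 1 + 1) = y (k + 2) := rfl
        rw [h6]
        rw [h4] at hl
        set B0 := y k ^ 2
        set B1 := y (k + 1) ^ 2
        set B2 := y (k + 2) ^ 2
        push_cast
        rw [i1, i2] at hl ⊢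
        linear_combination hl + hΔ
      have h7 := (mul_eq_zero.1 h5).resolve_right (hs k)
      exact sub_eq_zero.1 h7
  have hq : ∀ k : ℕ, ‖(α - 1) * (k : ℂ) ^ 2 + (β - 2 * s) * k + (b0 - s ^ 2)‖ ≤ C := by
    intro k
    have h1 := hb k
    rw [(key k).1] at h1
    have e : α * (k : ℂ) ^ 2 + β * k + b0 - (s + k) ^ 2 =
        (α - 1) * (k : ℂ) ^ 2 + (β - 2 * s) * k + (b0 - s ^ 2) := by ring
    rwa [e] at h1
  obtain ⟨h1, h2⟩ := quad_bdd hq
  have h1' : α = 1 := sub_eq_zero.1 h1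
  have h2' : β = 2 * s := sub_eq_zero.1 h2
  rw [h1', h2'] at hΔ
  linear_combination -(1 / 4 : ℂ) * hΔ

/-! ### the model -/

theorem arg_mem {s : ℂ} (hs : 1 / 2 < s.re) : 1 - 1 / (4 * s ^ 2) ∈ Complex.slitPlane := by
  have hs0 : s ≠ 0 := by
    rintro rfl
    norm_num at hs
  rw [Complex.mem_slitPlane_iff]
  by_contra hcon
  push Not at hcon
  obtain ⟨h1, h2⟩ := hcon
  -- `1 - 1/(4 s²) = r ≤ 0` real
  set r : ℝ := (1 - 1 / (4 * s ^ 2)).re with hr
  have h3 : (1 : ℂ) - 1 / (4 * s ^ 2) = (r : ℂ) := by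
    apply Complex.ext
    · rw [Complex.ofReal_re]
    · rw [Complex.ofReal_im]; exact h2
  have h4 : (4 * (1 - r) : ℂ) * s ^ 2 = 1 := by
    have : (1 : ℂ) - (r : ℂ) = 1 / (4 * s ^ 2) := by rw [← h3]; ring
    have h5 : (4 * (1 - r) : ℂ) * s ^ 2 = 4 * s ^ 2 * (1 - (r : ℂ)) := by ring
    rw [h5, this]
    field_simp
  have him := congrArg Complex.im h4
  have hre := congrArg Complex.re h4
  have e1 : (4 * (1 - r) : ℂ) = ((4 * (1 - r) : ℝ) : ℂ) := by push_cast; ring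
  rw [e1] at him hre
  rw [Complex.re_ofReal_mul] at hre
  rw [Complex.im_ofReal_mul] at him
  simp only [pow_two, Complex.mul_re, Complex.mul_im, Complex.one_re, Complex.one_im] at him hre
  have hr1 : 0 < 4 * (1 - r) := by linarith
  have h6 : s.re * s.im + s.im * s.re = 0 := by
    rcases mul_eq_zero.1 him with h | h
    · linarith
    · exact h
  have h7 : s.im = 0 := by
    have : s.re * s.im = 0 := by linarith
    rcases mul_eq_zero.1 this with h | h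
    · linarith
    · exact h
  rw [h7] at hre
  nlinarith

theorem Y0_sq {s : ℂ} (hs : 1 / 2 < s.re) : Y0 s ^ 2 = s ^ 2 - 1 / 4 := by
  have hs0 : s ≠ 0 := by
    rintro rfl
    norm_num at hs
  have h1 : ((1 - 1 / (4 * s ^ 2)) ^ (1 / 2 : ℂ)) ^ 2 = 1 - 1 / (4 * s ^ 2) := by
    have h := Complex.cpow_nat_inv_pow (1 - 1 / (4 * s ^ 2)) (n := 2) two_ne_zero
    rw [Nat.cast_ofNat] at h
    rw [one_div (2 : ℂ)]
    exact h
  rw [Y0, mul_pow, h1]
  field_simp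

theorem Y0_diff : DifferentiableOn ℂ Y0 {s | 1 / 2 < s.re} := by
  intro s hs
  have hs0 : s ≠ 0 := by
    rintro rfl
    norm_num at hs
  apply DifferentiableAt.differentiableWithinAt
  have h1 : DifferentiableAt ℂ (fun s : ℂ => 1 - 1 / (4 * s ^ 2)) s := by
    apply DifferentiableAt.sub (by fun_prop)
    apply DifferentiableAt.div (by fun_prop) (by fun_prop)
    exact mul_ne_zero (by norm_num) (pow_ne_zero 2 hs0)
  exact differentiableAt_id.mul (h1.cpow_const (arg_mem hs))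

theorem Y0_re_ne {s : ℂ} (hs : 1 / 2 < s.re) : (Y0 s).re ≠ 0 := by
  intro h0
  have h1 := Y0_sq hs
  have hre := congrArg Complex.re h1
  have him := congrArg Complex.im h1
  simp only [pow_two, Complex.mul_re, Complex.mul_im, h0, Complex.sub_re, Complex.sub_im] at hre him
  have e1 : ((1 : ℂ) / 4).re = 1 / 4 := by norm_num
  have e2 : ((1 : ℂ) / 4).im = 0 := by norm_num
  rw [e1] at hre
  rw [e2] at him
  have h7 : s.im = 0 := by
    have : s.re * s.im = 0 := by linarith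
    rcases mul_eq_zero.1 this with h | h
    · linarith
    · exact h
  rw [h7] at hre
  nlinarith [mul_self_nonneg (Y0 s).im]

theorem Y0_one_re : 0 < (Y0 1).re := by
  have : Y0 1 = (((3 / 4 : ℝ) ^ (1 / 2 : ℝ) : ℝ) : ℂ) := by
    rw [Y0, Complex.ofReal_cpow (by norm_num)]
    norm_num
  rw [this, Complex.ofReal_re]
  positivity

theorem Y0_re_pos {s : ℂ} (hs : 1 / 2 < s.re) : 0 < (Y0 s).re := by
  have hconv : Convex ℝ {s : ℂ | 1 / 2 < s.re} := convex_halfSpace_re_gt _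
  have hpre : IsPreconnected {s : ℂ | 1 / 2 < s.re} := hconv.isPreconnected
  have hcont : ContinuousOn (fun s => (Y0 s).re) {s : ℂ | 1 / 2 < s.re} :=
    Complex.continuous_re.comp_continuousOn Y0_diff.continuousOn
  by_contra hcon
  push Not at hcon
  have h1 : (1 : ℂ) ∈ {s : ℂ | 1 / 2 < s.re} := by norm_num
  have himg := hpre.image _ hcont
  have hoc := himg.ordConnected
  have h0 : (0 : ℝ) ∈ (fun s => (Y0 s).re) '' {s : ℂ | 1 / 2 < s.re} :=
    hoc.out ⟨s, hs, rfl⟩ ⟨1, h1, rfl⟩ ⟨hcon, Y0_one_re.le⟩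
  obtain ⟨z, hz, hz0⟩ := h0
  exact Y0_re_ne hz hz0

/-- lower bound for the real part -/
theorem Y0_re_ge {s : ℂ} (hs : 5 / 8 ≤ s.re) : 3 / 8 ≤ (Y0 s).re := by
  have hs' : 1 / 2 < s.re := by linarith
  have hp := Y0_re_pos hs'
  have h1 := Y0_sq hs'
  have hre := congrArg Complex.re h1
  have him := congrArg Complex.im h1
  simp only [pow_two, Complex.mul_re, Complex.mul_im, Complex.sub_re, Complex.sub_im] at hre him
  have e1 : ((1 : ℂ) / 4).re = 1 / 4 := by norm_num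
  have e2 : ((1 : ℂ) / 4).im = 0 := by norm_num
  rw [e1] at hre
  rw [e2] at him
  set p := (Y0 s).re
  set q := (Y0 s).im
  set a := s.re
  set b := s.im
  by_contra hcon
  push Not at hcon
  -- P = p², A = a² - 1/4, P (P - A) + b² (P - a²) = 0
  have h3 : p * q = a * b := by linarith
  have h4 : p ^ 2 * (p ^ 2 - (a ^ 2 - 1 / 4)) + b ^ 2 * (p ^ 2 - a ^ 2) = 0 := by
    have h5 : p ^ 2 * q ^ 2 = a ^ 2 * b ^ 2 := by
      have : (p * q) ^ 2 = (a * b) ^ 2 := by rw [h3]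
      nlinarith
    nlinarith
  have hA : p ^ 2 < a ^ 2 - 1 / 4 := by nlinarith
  have h5 : p ^ 2 * (p ^ 2 - (a ^ 2 - 1 / 4)) < 0 := by
    apply mul_neg_of_pos_of_neg (by positivity)
    linarith
  have h6 : b ^ 2 * (p ^ 2 - a ^ 2) ≤ 0 := by
    apply mul_nonpos_of_nonneg_of_nonpos (sq_nonneg b)
    nlinarith
  linarith

theorem Y0_norm_le {s : ℂ} {K : ℝ} (hs : 1 / 2 < s.re) (hK : ‖s‖ ≤ K) : ‖Y0 s‖ ≤ K + 1 := by
  have hK0 : 0 ≤ K := (norm_nonneg _).trans hK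
  have h1 : ‖Y0 s‖ ^ 2 ≤ (K + 1) ^ 2 := by
    rw [← norm_pow, Y0_sq hs]
    refine (norm_sub_le _ _).trans ?_
    rw [norm_pow]
    have : ‖(1 / 4 : ℂ)‖ = 1 / 4 := by norm_num
    rw [this]
    nlinarith [norm_nonneg s]
  exact le_of_sq_le_sq h1 (by linarith) |> fun h => h

end Crest.Agent.R102.ExtI289
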