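import Crest.Agent.R102.ExtIL_289

/-!
# Row 102, [T5]/MEL, leaf (ML-EI) = `ExtI` (helper289): the scaled labels converge to the model
-/

set_option autoImplicit false

open Set Filter Topology Metric

noncomputable section

namespace Crest.Agent.R102.ExtI289

open Crest.Agent.R102.T5R Crest.Agent.R102.Mel

theorem norm_le_add {s : ℂ} (hs : 0 ≤ s.re) {k : ℝ} (hk : 0 ≤ k) : ‖s‖ ≤ ‖s + k‖ := by
  apply le_of_sq_le_sq _ (norm_nonneg _)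
  rw [← Complex.normSq_eq_norm_sq, ← Complex.normSq_eq_norm_sq, Complex.normSq_apply,
    Complex.normSq_apply]
  simp only [Complex.add_re, Complex.add_im, Complex.ofReal_re, Complex.ofReal_im, add_zero]
  nlinarith [mul_nonneg hs hk, mul_nonneg hk hk]

theorem norm_le_add_nat {s : ℂ} (hs : 0 ≤ s.re) (k : ℕ) : ‖s‖ ≤ ‖s + k‖ := by
  have := norm_le_add hs (k := (k : ℝ)) (Nat.cast_nonneg k)
  simpa using this

theorem ulim {𝒰 : Ultrafilter (ℝ × ℂ)} {f : ℝ × ℂ → ℂ} {r : ℝ}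
    (h : ∀ᶠ p in (𝒰 : Filter (ℝ × ℂ)), ‖f p‖ ≤ r) : ∃ y, Tendsto f 𝒰 (𝓝 y) := by
  have hc : IsCompact (closedBall (0 : ℂ) r) := isCompact_closedBall 0 r
  have hle : ((𝒰.map f : Ultrafilter ℂ) : Filter ℂ) ≤ 𝓟 (closedBall (0 : ℂ) r) := by
    rw [le_principal_iff]
    change f ⁻¹' _ ∈ (𝒰 : Filter (ℝ × ℂ))
    filter_upwards [h] with p hp
    simpa using hp
  obtain ⟨y, _, hy⟩ := hc.ultrafilter_le_nhds _ hle
  exact ⟨y, hy⟩

theorem mR_tendsto {F : Filter (ℝ × ℂ)} {f g : ℝ × ℂ → ℂ} {y z : ℂ} (hf : Tendsto f F (𝓝 y))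
    (hg : Tendsto g F (𝓝 z)) (hy : y ≠ 0) :
    Tendsto (fun p => mR (f p) (g p)) F (𝓝 (mR y z)) := by
  unfold mR
  refine ((hf.pow 2).add (hg.pow 2)).div (tendsto_const_nhds.mul (hf.pow 2)) ?_
  exact mul_ne_zero two_ne_zero (pow_ne_zero 2 hy)

section side

variable {κ κ' β C cc CC l₀ : ℝ} {q : ℂ → ℂ} {j : ℂ} {M : ℂ → ℂ} {x : ℝ → ℂ → ℂ}

/-- **the scaled labels converge to the model** -/
theorem close (h : RLimI) (S : Side κ κ' (-1) β C cc CC l₀ q j M x)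
    (hlim : Tendsto (fun τ => τ * (j * Complex.exp (q τ))) (𝓝[Sg κ] 0) (𝓝 1)) :
    ∃ R1 : ℝ, 8 ≤ R1 ∧ 8 ≤ cc * R1 ∧ 8 ≤ κ' * R1 ∧ ∀ K ε : ℝ, 0 < ε → ∃ l1 : ℝ, 0 < l1 ∧
      ∀ l : ℝ, 0 < l → l < l1 → ∀ s : ℂ, 5 / 8 ≤ s.re → R1 ≤ ‖s‖ → ‖s‖ ≤ K →
        ‖xl x l s - Y0 s‖ ≤ ε := by
  have hcc : 0 < cc := S.cone.c_pos
  have hκ' : 0 < κ' := S.κ'_pos
  set R1 : ℝ := max 8 (max (8 / cc) (max (8 / κ') (8 * |CC|))) with hR1
  have b1 : 8 ≤ R1 := le_max_left _ _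
  have b2 : 8 / cc ≤ R1 := (le_max_left _ _).trans (le_max_right _ _)
  have b3 : 8 / κ' ≤ R1 := (le_max_left _ _).trans ((le_max_right _ _).trans (le_max_right _ _))
  have b4 : 8 * |CC| ≤ R1 :=
    (le_max_right _ _).trans ((le_max_right _ _).trans (le_max_right _ _))
  have b2' : 8 ≤ cc * R1 := by rw [div_le_iff₀ hcc] at b2; linarith
  have b3' : 8 ≤ κ' * R1 := by rw [div_le_iff₀ hκ'] at b3; linarith
  refine ⟨R1, b1, b2', b3', fun K ε hε => ?_⟩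
  by_contra hcon
  push Not at hcon
  set Bad : Set (ℝ × ℂ) := {p | 0 < p.1 ∧ 5 / 8 ≤ p.2.re ∧ R1 ≤ ‖p.2‖ ∧ ‖p.2‖ ≤ K ∧
    ε < ‖xl x p.1 p.2 - Y0 p.2‖} with hBad
  set F : Filter (ℝ × ℂ) := comap Prod.fst (𝓝 (0 : ℝ)) ⊓ 𝓟 Bad with hF
  have hne : F.NeBot := by
    rw [hF, inf_principal_neBot_iff]
    intro U hU
    obtain ⟨V, hV, hVU⟩ := hU
    obtain ⟨e, he, hball⟩ := Metric.mem_nhds_iff.1 hV
    obtain ⟨l, hl, hle, s, hs1, hs2, hs3, hs4⟩ := hcon e he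
    refine ⟨(l, s), hVU (hball ?_), hl, hs1, hs2, hs3, hs4⟩
    rw [mem_ball, Real.dist_eq, sub_zero, abs_of_pos hl]
    exact hle
  set 𝒰 : Ultrafilter (ℝ × ℂ) := Ultrafilter.of F with h𝒰
  have hle : (𝒰 : Filter (ℝ × ℂ)) ≤ F := Ultrafilter.of_le F
  have tl : Tendsto (Prod.fst : ℝ × ℂ → ℝ) 𝒰 (𝓝 0) :=
    tendsto_comap.mono_left (hle.trans inf_le_left)
  have hB : ∀ᶠ p in (𝒰 : Filter (ℝ × ℂ)), p ∈ Bad :=
    (le_principal_iff.1 (hle.trans inf_le_right))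
  have evl : ∀ b : ℝ, 0 < b → ∀ᶠ p in (𝒰 : Filter (ℝ × ℂ)), p.1 < b := fun b hb =>
    tl.eventually (gt_mem_nhds hb)
  obtain ⟨s0, hs0⟩ := ulim (𝒰 := 𝒰) (f := Prod.snd) (r := K) (hB.mono fun p hp => hp.2.2.2.1)
  have hs0re : 5 / 8 ≤ s0.re :=
    ge_of_tendsto ((Complex.continuous_re.tendsto _).comp hs0) (hB.mono fun p hp => hp.2.1)
  have hs0n : R1 ≤ ‖s0‖ := ge_of_tendsto hs0.norm (hB.mono fun p hp => hp.2.2.1)
  have hCC8 : ∀ z w : ℂ, R1 ≤ ‖w‖ → ‖z - w‖ * ‖w‖ ≤ |CC| → ‖z - w‖ ≤ 1 / 8 := by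
    intro z w hw hzw
    have h1 : ‖z - w‖ * R1 ≤ ‖z - w‖ * ‖w‖ := mul_le_mul_of_nonneg_left hw (norm_nonneg _)
    have h2 : ‖z - w‖ * R1 ≤ R1 / 8 := by linarith
    have h3 : 0 < R1 := by linarith
    by_contra hcon
    push Not at hcon
    have := mul_lt_mul_of_pos_right hcon h3
    linarith
  -- good points
  have good : ∀ k : ℕ, ∀ᶠ p in (𝒰 : Filter (ℝ × ℂ)), 0 < p.1 ∧ p.1 < l₀ ∧
      0 < (p.2 + (k : ℂ)).re ∧ 1 < cc * ‖p.2 + (k : ℂ)‖ ∧ p.1 * ‖p.2 + (k : ℂ)‖ < 1 / 8 ∧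
      R1 ≤ ‖p.2 + (k : ℂ)‖ ∧ 5 / 8 ≤ (p.2 + (k : ℂ)).re ∧ ‖p.2 + (k : ℂ)‖ ≤ |K| + k := by
    intro k
    have hKk : 0 < 1 / (8 * (|K| + k + 1)) := by positivity
    filter_upwards [hB, evl l₀ S.cone.l₀_pos, evl _ hKk] with p hp hp1 hp2
    obtain ⟨q1, q2, q3, q4, _⟩ := hp
    have hre : (p.2 + (k : ℂ)).re = p.2.re + k := by simp
    have hk0 : (0 : ℝ) ≤ k := Nat.cast_nonneg k
    have hn : ‖p.2‖ ≤ ‖p.2 + (k : ℂ)‖ := norm_le_add_nat (by linarith) k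
    have hn2 : ‖p.2 + (k : ℂ)‖ ≤ |K| + k := by
      refine (norm_add_le _ _).trans ?_
      rw [Complex.norm_natCast]
      have := le_abs_self K
      linarith
    refine ⟨q1, hp1, by rw [hre]; linarith, ?_, ?_, by linarith, by rw [hre]; linarith, hn2⟩
    · have h1 : cc * R1 ≤ cc * ‖p.2 + (k : ℂ)‖ :=
        mul_le_mul_of_nonneg_left (by linarith) hcc.le
      linarith
    · rw [lt_div_iff₀ (by positivity)] at hp2
      nlinarith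
  have hyk : ∀ k : ℕ, ∃ y : ℂ, Tendsto (fun p : ℝ × ℂ => xl x p.1 (p.2 + (k : ℂ))) 𝒰 (𝓝 y) ∧
      ‖y - (s0 + (k : ℂ))‖ * ‖s0 + (k : ℂ)‖ ≤ |CC| ∧ 1 / 2 ≤ y.re := by
    intro k
    have hnear : ∀ᶠ p in (𝒰 : Filter (ℝ × ℂ)),
        ‖xl x p.1 (p.2 + (k : ℂ)) - (p.2 + (k : ℂ))‖ * ‖p.2 + (k : ℂ)‖ ≤ |CC| := by
      filter_upwards [good k] with p hp
      exact xl_near S hp.1 hp.2.1 hp.2.2.1 hp.2.2.2.1 hp.2.2.2.2.1
    have hbd : ∀ᶠ p in (𝒰 : Filter (ℝ × ℂ)), ‖xl x p.1 (p.2 + (k : ℂ))‖ ≤ 1 / 8 + (|K| + k) := by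
      filter_upwards [good k, hnear] with p hp hp2
      have h1 := hCC8 _ _ hp.2.2.2.2.2.1 hp2
      have h2 : ‖xl x p.1 (p.2 + (k : ℂ))‖ ≤
          ‖xl x p.1 (p.2 + (k : ℂ)) - (p.2 + (k : ℂ))‖ + ‖p.2 + (k : ℂ)‖ := by
        have := norm_add_le (xl x p.1 (p.2 + (k : ℂ)) - (p.2 + (k : ℂ))) (p.2 + (k : ℂ))
        rwa [sub_add_cancel] at this
      have h3 := hp.2.2.2.2.2.2.2
      linarith
    obtain ⟨y, hy⟩ := ulim hbd
    have hsk : Tendsto (fun p : ℝ × ℂ => p.2 + (k : ℂ)) 𝒰 (𝓝 (s0 + k)) := hs0.add_const _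
    have h1 : ‖y - (s0 + (k : ℂ))‖ * ‖s0 + (k : ℂ)‖ ≤ |CC| :=
      le_of_tendsto ((hy.sub hsk).norm.mul hsk.norm) hnear
    refine ⟨y, hy, h1, ?_⟩
    have hn : ‖s0‖ ≤ ‖s0 + (k : ℂ)‖ := norm_le_add_nat (by linarith) k
    have h2 := hCC8 _ _ (hs0n.trans hn) h1
    have h3 := Complex.abs_re_le_norm (y - (s0 + (k : ℂ)))
    have h4 : (y - (s0 + (k : ℂ))).re = y.re - (s0.re + k) := by simp
    rw [h4] at h3
    have h5 := (abs_le.1 (h3.trans h2)).1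
    have hk0 : (0 : ℝ) ≤ k := Nat.cast_nonneg k
    linarith
  choose y hy1 hy2 hy3 using hyk
  have hy0 : ∀ k, y k ≠ 0 := by
    intro k h0
    have := hy3 k
    rw [h0] at this
    norm_num at this
  -- convergence of the slopes
  have slope : ∀ k m : ℕ, Tendsto (fun p : ℝ × ℂ =>
      Rj q j (al p.1 * xl x p.1 (p.2 + (k : ℂ))) (al p.1 * xl x p.1 (p.2 + (m : ℂ)))) 𝒰
      (𝓝 (mR (y k) (y m))) := by
    intro k m
    have h1 := mR_tendsto (hy1 k) (hy1 m) (hy0 k)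
    have h2 : Tendsto (fun p : ℝ × ℂ =>
        Rj q j (al p.1 * xl x p.1 (p.2 + (k : ℂ))) (al p.1 * xl x p.1 (p.2 + (m : ℂ))) -
          mR (xl x p.1 (p.2 + (k : ℂ))) (xl x p.1 (p.2 + (m : ℂ)))) 𝒰 (𝓝 0) := by
      rw [tendsto_zero_iff_norm_tendsto_zero, Metric.tendsto_nhds]
      intro ε' hε'
      set C1 : ℝ := max 1 (max (‖y k‖ + 1) (‖y m‖ + 1)) with hC1
      obtain ⟨l1, hl1, hmain⟩ := unif h S.hj S.endq hlim (c1 := 1 / 4) (C1 := C1) (by norm_num)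
        (by have : 1 ≤ C1 := le_max_left _ _; linarith) (ε := ε' / 2) (by linarith)
      have r1 : ∀ᶠ p in (𝒰 : Filter (ℝ × ℂ)), 1 / 4 < (xl x p.1 (p.2 + (k : ℂ))).re :=
        (((Complex.continuous_re.tendsto _).comp (hy1 k))).eventually
          (lt_mem_nhds (by linarith [hy3 k]))
      have r2 : ∀ᶠ p in (𝒰 : Filter (ℝ × ℂ)), 1 / 4 < (xl x p.1 (p.2 + (m : ℂ))).re :=
        (((Complex.continuous_re.tendsto _).comp (hy1 m))).eventually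
          (lt_mem_nhds (by linarith [hy3 m]))
      have r3 : ∀ᶠ p in (𝒰 : Filter (ℝ × ℂ)), ‖xl x p.1 (p.2 + (k : ℂ))‖ < ‖y k‖ + 1 :=
        (hy1 k).norm.eventually (gt_mem_nhds (by linarith))
      have r4 : ∀ᶠ p in (𝒰 : Filter (ℝ × ℂ)), ‖xl x p.1 (p.2 + (m : ℂ))‖ < ‖y m‖ + 1 :=
        (hy1 m).norm.eventually (gt_mem_nhds (by linarith))
      filter_upwards [hB, evl l1 hl1, r1, r2, r3, r4] with p hp hp1 hp2 hp3 hp4 hp5
      have h5 : ‖y k‖ + 1 ≤ C1 := (le_max_left _ _).trans (le_max_right _ _)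
      have h6 : ‖y m‖ + 1 ≤ C1 := (le_max_right _ _).trans (le_max_right _ _)
      have h7 := ((hmain p.1 hp.1 hp1).2 _ _ hp2.le hp3.le (by linarith) (by linarith)).2
      rw [dist_eq_norm, sub_zero, norm_norm]
      linarith
    have h3 := h2.add h1
    rw [zero_add] at h3
    refine h3.congr fun p => ?_
    ring
  have law : ∀ k, (y (k + 1) ^ 2 + y k ^ 2) * (y (k + 1) ^ 2 + y (k + 2) ^ 2) =
      4 * y (k + 1) ^ 4 := by
    intro k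
    have h1 := (slope (k + 1) k).mul (slope (k + 1) (k + 2))
    have h2 : ∀ᶠ p in (𝒰 : Filter (ℝ × ℂ)),
        Rj q j (al p.1 * xl x p.1 (p.2 + ((k + 1 : ℕ) : ℂ))) (al p.1 * xl x p.1 (p.2 + (k : ℂ))) *
        Rj q j (al p.1 * xl x p.1 (p.2 + ((k + 1 : ℕ) : ℂ)))
          (al p.1 * xl x p.1 (p.2 + ((k + 2 : ℕ) : ℂ))) = 1 := by
      filter_upwards [good k, good (k + 1), good (k + 2)] with p g0 g1 g2
      have e1 : p.2 + ((k + 1 : ℕ) : ℂ) = p.2 + (k : ℂ) + 1 := by push_cast; ring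
      have e2 : p.2 + ((k + 2 : ℕ) : ℂ) = p.2 + (k : ℂ) + 2 := by push_cast; ring
      rw [e1] at g1 ⊢
      rw [e2] at g2 ⊢
      exact xl_law S g0.1 g0.2.1 g0.2.2.1 g0.2.2.2.1 g2.2.2.2.2.1 g1.2.2.2.1 g2.2.2.2.1
        g1.2.2.2.2.1 g0.2.2.2.2.1
    have h3 : mR (y (k + 1)) (y k) * mR (y (k + 1)) (y (k + 2)) = 1 :=
      tendsto_nhds_unique (h1.congr' h2) tendsto_const_nhds
    have h4 := hy0 (k + 1)
    rw [mR, mR] at h3
    field_simp at h3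
    linear_combination h3
  have hbd : ∀ k : ℕ, ‖y k ^ 2 - (s0 + (k : ℂ)) ^ 2‖ ≤ |CC| * 3 := by
    intro k
    have e : y k ^ 2 - (s0 + (k : ℂ)) ^ 2 =
        (y k - (s0 + (k : ℂ))) * (y k - (s0 + (k : ℂ)) + 2 * (s0 + (k : ℂ))) := by
      ring
    have hn : ‖s0‖ ≤ ‖s0 + (k : ℂ)‖ := norm_le_add_nat (by linarith) k
    have h2 := hCC8 _ _ (hs0n.trans hn) (hy2 k)
    rw [e, norm_mul]
    have h3 : ‖y k - (s0 + (k : ℂ)) + 2 * (s0 + (k : ℂ))‖ ≤ 3 * ‖s0 + (k : ℂ)‖ := by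
      refine (norm_add_le _ _).trans ?_
      rw [norm_mul]
      have e2 : ‖(2 : ℂ)‖ = 2 := by norm_num
      rw [e2]
      linarith
    have h4 := mul_le_mul_of_nonneg_left h3 (norm_nonneg (y k - (s0 + (k : ℂ))))
    have h5 := hy2 k
    nlinarith
  have hr := rigid hy0 law hbd
  have hY := Y0_sq (s := s0) (by linarith)
  have hYre := Y0_re_ge hs0re
  have heq : y 0 = Y0 s0 := by
    have h1 : (y 0 - Y0 s0) * (y 0 + Y0 s0) = 0 := by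
      have : (y 0 - Y0 s0) * (y 0 + Y0 s0) = y 0 ^ 2 - Y0 s0 ^ 2 := by ring
      rw [this, hr, hY, sub_self]
    have h2 : y 0 + Y0 s0 ≠ 0 := by
      intro h0
      have := congrArg Complex.re h0
      rw [Complex.add_re, Complex.zero_re] at this
      linarith [hy3 0]
    exact sub_eq_zero.1 ((mul_eq_zero.1 h1).resolve_right h2)
  have hcY : Tendsto (fun p : ℝ × ℂ => Y0 p.2) 𝒰 (𝓝 (Y0 s0)) := by
    have : ContinuousAt Y0 s0 := by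
      have ho : IsOpen {s : ℂ | 1 / 2 < s.re} := isOpen_lt continuous_const Complex.continuous_re
      exact (Y0_diff.differentiableAt (ho.mem_nhds (by
        change (1 : ℝ) / 2 < s0.re; linarith))).continuousAt
    exact this.tendsto.comp hs0
  have h0 := hy1 0
  simp only [Nat.cast_zero, add_zero] at h0
  have hfin := (h0.sub hcY).norm
  rw [heq, sub_self, norm_zero] at hfin
  have := ge_of_tendsto hfin (hB.mono fun p hp => hp.2.2.2.2.le)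
  linarith

end side

end Crest.Agent.R102.ExtI289
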