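import Crest.Agent.R102.ExtIA_289
import Crest.Agent.R102.Solve_39

/-!
# Row 102, [T5]/MEL, leaf (ML-EI) = `ExtI` (helper289)

* `unif` : uniform limit of the chord slope on compact sets of labels in the right half plane;
* `close` : `x l (-i l s) / (-i l) → Y0 s`, uniformly on `5/8 ≤ Re s`, `R₁ ≤ ‖s‖ ≤ K`;
* `step` : one step of the backward recursion;
* `extI_of` : `RLimI → PAn → ExtI`.
-/

set_option autoImplicit false

open Set Filter Topology Metric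

noncomputable section

namespace Crest.Agent.R102.ExtI289

open Crest.Agent.R102.T5R Crest.Agent.R102.Mel

/-- the scale -/
def al (l : ℝ) : ℂ := -Complex.I * l

theorem norm_al {l : ℝ} (hl : 0 < l) : ‖al l‖ = l := by
  rw [al, norm_mul, norm_neg, Complex.norm_I, one_mul, Complex.norm_real, Real.norm_eq_abs,
    abs_of_pos hl]

theorem al_ne {l : ℝ} (hl : 0 < l) : al l ≠ 0 := by
  rw [← norm_pos_iff, norm_al hl]; exact hl

theorem al_mul_im (l : ℝ) (s : ℂ) : (al l * s).im = -(l * s.re) := by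
  simp [al]

theorem isOpen_Sg (κ : ℝ) : IsOpen (Sg κ) := by
  have : Sg κ = {τ : ℂ | τ ≠ 0} ∩ ({τ : ℂ | ‖τ‖ < 1} ∩ {τ : ℂ | τ.im < κ * ‖τ‖}) := by
    ext τ; rfl
  rw [this]
  refine (isOpen_ne).inter ((isOpen_lt (by fun_prop) (by fun_prop)).inter
    (isOpen_lt Complex.continuous_im (by fun_prop)))

/-- points of the right half plane, scaled, are in the slit sector -/
theorem mem_Sg {κ l c1 C1 : ℝ} (hκ : 0 < κ) (hl : 0 < l) (hc1 : 0 < c1) {z : ℂ} (h1 : c1 ≤ z.re)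
    (h2 : ‖z‖ ≤ C1) (hlC : l * C1 < 1) : al l * z ∈ Sg κ := by
  have hz : 0 < ‖z‖ := lt_of_lt_of_le hc1 (h1.trans (Complex.re_le_norm z))
  have hn : ‖al l * z‖ = l * ‖z‖ := by rw [norm_mul, norm_al hl]
  refine ⟨mul_ne_zero (al_ne hl) (norm_pos_iff.1 hz), ?_, ?_⟩
  · rw [hn]
    have := mul_le_mul_of_nonneg_left h2 hl.le
    linarith
  · rw [hn, al_mul_im]
    have e1 : 0 < l * z.re := mul_pos hl (by linarith)
    have e2 : 0 < κ * (l * ‖z‖) := by positivity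
    linarith

theorem seg_re {c1 : ℝ} {x y : ℂ} (hx : c1 ≤ x.re) (hy : c1 ≤ y.re) {u : ℝ} (hu : u ∈ Icc (0 : ℝ) 1) :
    c1 ≤ (x + u * (y - x)).re := by
  simp only [Complex.add_re, Complex.mul_re, Complex.ofReal_re, Complex.ofReal_im, Complex.sub_re,
    zero_mul, sub_zero]
  nlinarith [hu.1, hu.2]

theorem seg_norm {C1 : ℝ} {x y : ℂ} (hx : ‖x‖ ≤ C1) (hy : ‖y‖ ≤ C1) {u : ℝ}
    (hu : u ∈ Icc (0 : ℝ) 1) : ‖x + u * (y - x)‖ ≤ C1 := by
  have e : x + (u : ℂ) * (y - x) = ((1 - u : ℝ) : ℂ) * x + (u : ℂ) * y := by push_cast; ring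
  rw [e]
  refine (norm_add_le _ _).trans ?_
  rw [norm_mul, norm_mul, Complex.norm_real, Complex.norm_real, Real.norm_eq_abs,
    Real.norm_eq_abs, abs_of_nonneg (by linarith [hu.2]), abs_of_nonneg hu.1]
  nlinarith [hu.1, hu.2, mul_le_mul_of_nonneg_left hx (by linarith [hu.2] : 0 ≤ 1 - u),
    mul_le_mul_of_nonneg_left hy hu.1]

theorem adm {κ l c1 C1 : ℝ} (hκ : 0 < κ) (hl : 0 < l) (hc1 : 0 < c1) {x y : ℂ}
    (hx : c1 ≤ x.re) (hy : c1 ≤ y.re) (hx2 : ‖x‖ ≤ C1) (hy2 : ‖y‖ ≤ C1) (hlC : l * C1 < 1) :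
    Adm κ (C1 / c1) (al l * x) (al l * y) := by
  intro u hu
  have e : al l * x + (u : ℂ) * (al l * y - al l * x) = al l * (x + u * (y - x)) := by ring
  rw [e]
  have h1 := seg_re hx hy hu
  have h2 := seg_norm hx2 hy2 hu
  have h3 : c1 ≤ ‖x + u * (y - x)‖ := h1.trans (Complex.re_le_norm _)
  have h4 : c1 ≤ ‖x‖ := hx.trans (Complex.re_le_norm _)
  have hC1 : 0 < C1 := lt_of_lt_of_le hc1 (h4.trans hx2)
  refine ⟨mem_Sg hκ hl hc1 h1 h2 hlC, ?_, ?_⟩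
  · rw [norm_mul, norm_mul, norm_al hl]
    have : ‖x‖ ≤ C1 / c1 * ‖x + u * (y - x)‖ := by
      rw [div_mul_eq_mul_div, le_div_iff₀ hc1]
      exact mul_le_mul hx2 h3 hc1.le hC1.le
    nlinarith
  · rw [norm_mul, norm_mul, norm_al hl]
    have : ‖x + u * (y - x)‖ ≤ C1 / c1 * ‖x‖ := by
      rw [div_mul_eq_mul_div, le_div_iff₀ hc1]
      exact mul_le_mul h2 h4 hc1.le hC1.le
    nlinarith

/-- the limit of the chord slope -/
def mR (x y : ℂ) : ℂ := (x ^ 2 + y ^ 2) / (2 * x ^ 2)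

theorem quot_close {A D P Q : ℂ} {d M e : ℝ} (hd : 0 < d) (hD : d ≤ ‖D‖) (hA : ‖A‖ ≤ M)
    (hP : ‖P - A‖ ≤ e) (hQ : ‖Q - D‖ ≤ e) (he : e ≤ d / 2) :
    Q ≠ 0 ∧ ‖P / Q - A / D‖ ≤ e * (1 + M / d) * (2 / d) := by
  have hQn : d / 2 ≤ ‖Q‖ := by
    have := norm_sub_norm_le D Q
    rw [norm_sub_rev] at this
    linarith
  have hQ0 : Q ≠ 0 := by
    rw [← norm_pos_iff]; linarith
  have hD0 : D ≠ 0 := by
    rw [← norm_pos_iff]; linarith
  have he0 : 0 ≤ e := (norm_nonneg _).trans hP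
  have hM0 : 0 ≤ M := (norm_nonneg _).trans hA
  refine ⟨hQ0, ?_⟩
  have e1 : P / Q - A / D = ((P - A) + (A / D) * (D - Q)) / Q := by
    field_simp
    ring
  rw [e1, norm_div, div_le_iff₀ (by linarith)]
  have h1 : ‖A / D‖ ≤ M / d := by
    rw [norm_div]
    exact div_le_div₀ hM0 hA hd hD
  have h2 : ‖(P - A) + (A / D) * (D - Q)‖ ≤ e * (1 + M / d) := by
    refine (norm_add_le _ _).trans ?_
    rw [norm_mul]
    have h3 : ‖A / D‖ * ‖D - Q‖ ≤ M / d * e := by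
      rw [norm_sub_rev D Q]
      exact mul_le_mul h1 hQ (norm_nonneg _) (by positivity)
    nlinarith
  refine h2.trans ?_
  have h4 : e * (1 + M / d) = e * (1 + M / d) * (2 / d) * (d / 2) := by
    field_simp
  exact h4.le.trans (mul_le_mul_of_nonneg_left hQn (by positivity))

/-- **uniform limit of the chord slope** -/
theorem unif (h : RLimI) {κ β C : ℝ} {q : ℂ → ℂ} {j : ℂ} (hj : j = Complex.I ∨ j = -Complex.I)
    (hq : EndQ κ (-1) β C q) (hlim : Tendsto (fun τ => τ * (j * Complex.exp (q τ))) (𝓝[Sg κ] 0) (𝓝 1))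
    {c1 C1 : ℝ} (hc1 : 0 < c1) (hC : c1 ≤ C1) {ε : ℝ} (hε : 0 < ε) :
    ∃ l0 : ℝ, 0 < l0 ∧ ∀ l : ℝ, 0 < l → l < l0 → l * C1 < 1 ∧ ∀ x y : ℂ, c1 ≤ x.re → c1 ≤ y.re →
      ‖x‖ ≤ C1 → ‖y‖ ≤ C1 →
        Pj q (-j) (al l * x) (al l * y) ≠ 0 ∧
        ‖Rj q j (al l * x) (al l * y) - mR x y‖ ≤ ε := by
  have hC1 : 0 < C1 := lt_of_lt_of_le hc1 hC
  set d : ℝ := c1 / C1 with hd
  have hdpos : 0 < d := by positivity
  set M : ℝ := C1 ^ 3 / c1 ^ 3 with hM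
  have hMpos : 0 < M := by positivity
  set e : ℝ := min (d / 2) (ε / ((1 + M / d) * (2 / d))) with he
  have hepos : 0 < e := by
    rw [he]; apply lt_min <;> positivity
  obtain ⟨δ, hδ, hmain⟩ := h κ β C q j hj hq hlim (C1 / c1) e
    (by rw [le_div_iff₀ hc1]; linarith) hepos
  refine ⟨min (δ / C1) (1 / C1), by positivity, fun l hl hl0 => ?_⟩
  have h1 : l * C1 < δ := by
    have := hl0.trans_le (min_le_left _ _)
    rwa [lt_div_iff₀ hC1] at this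
  have h2 : l * C1 < 1 := by
    have := hl0.trans_le (min_le_right _ _)
    rwa [lt_div_iff₀ hC1] at this
  refine ⟨h2, fun x y hx hy hx2 hy2 => ?_⟩
  have hadm := adm hq.κ_pos hl hc1 hx hy hx2 hy2 h2
  have hnx : ‖al l * x‖ < δ := by
    rw [norm_mul, norm_al hl]
    exact lt_of_le_of_lt (mul_le_mul_of_nonneg_left hx2 hl.le) h1
  obtain ⟨k1, k2⟩ := hmain _ _ hadm hnx
  have hx4 : c1 ≤ ‖x‖ := hx.trans (Complex.re_le_norm _)
  have hxp : 0 < ‖x‖ := by linarith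
  have hx0 : x ≠ 0 := norm_pos_iff.1 hxp
  have ha := al_ne hl
  have s1 : ((al l * x) ^ 2 + (al l * y) ^ 2) * (al l * x + al l * y) / (4 * (al l * x) ^ 3) =
      (x ^ 2 + y ^ 2) * (x + y) / (4 * x ^ 3) := by
    field_simp
  have s2 : (al l * x + al l * y) / (2 * (al l * x)) = (x + y) / (2 * x) := by
    field_simp
  rw [s1] at k1
  rw [s2] at k2
  have hD : d ≤ ‖(x + y) / (2 * x)‖ := by
    have e2 : ‖(2 : ℂ)‖ = 2 := by norm_num
    rw [norm_div, norm_mul, e2, le_div_iff₀ (by positivity)]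
    have h5 : 2 * c1 ≤ ‖x + y‖ := by
      have := Complex.re_le_norm (x + y)
      rw [Complex.add_re] at this
      linarith
    have h6 : d * (2 * ‖x‖) ≤ d * (2 * C1) := by
      apply mul_le_mul_of_nonneg_left _ hdpos.le
      linarith
    have h7 : d * (2 * C1) = 2 * c1 := by
      rw [hd]; field_simp
    linarith
  have hA : ‖(x ^ 2 + y ^ 2) * (x + y) / (4 * x ^ 3)‖ ≤ M := by
    have e4 : ‖(4 : ℂ)‖ = 4 := by norm_num
    rw [norm_div, norm_mul, norm_mul, norm_pow, e4, div_le_iff₀ (by positivity)]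
    have h5 : ‖x ^ 2 + y ^ 2‖ ≤ 2 * C1 ^ 2 := by
      refine (norm_add_le _ _).trans ?_
      rw [norm_pow, norm_pow]
      have := pow_le_pow_left₀ (norm_nonneg x) hx2 2
      have := pow_le_pow_left₀ (norm_nonneg y) hy2 2
      linarith
    have h6 : ‖x + y‖ ≤ 2 * C1 := by
      refine (norm_add_le _ _).trans ?_
      linarith
    have h7 : ‖x ^ 2 + y ^ 2‖ * ‖x + y‖ ≤ 2 * C1 ^ 2 * (2 * C1) :=
      mul_le_mul h5 h6 (norm_nonneg _) (by positivity)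
    have h8 : c1 ^ 3 ≤ ‖x‖ ^ 3 := pow_le_pow_left₀ hc1.le hx4 3
    have h9 : M * (4 * c1 ^ 3) = 4 * C1 ^ 3 := by
      rw [hM]; field_simp
    have h10 : M * (4 * c1 ^ 3) ≤ M * (4 * ‖x‖ ^ 3) := by
      apply mul_le_mul_of_nonneg_left _ hMpos.le
      linarith
    nlinarith
  obtain ⟨r1, r2⟩ := quot_close hdpos hD hA k1 k2 (min_le_left _ _)
  refine ⟨r1, ?_⟩
  have hxy : x + y ≠ 0 := by
    rw [← norm_pos_iff]
    have := Complex.re_le_norm (x + y)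
    rw [Complex.add_re] at this
    linarith
  have s3 : (x ^ 2 + y ^ 2) * (x + y) / (4 * x ^ 3) / ((x + y) / (2 * x)) = mR x y := by
    rw [mR]
    field_simp
    ring
  rw [s3] at r2
  refine r2.trans ?_
  have h11 : e ≤ ε / ((1 + M / d) * (2 / d)) := min_le_right _ _
  rw [le_div_iff₀ (by positivity)] at h11
  linarith

/-- Lipschitz bound for the model -/
theorem mR_lip {c1 C1 e : ℝ} (hc1 : 0 < c1) {x y x' y' : ℂ} (hx : c1 ≤ ‖x‖) (hx' : c1 ≤ ‖x'‖)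
    (hx2 : ‖x‖ ≤ C1) (hx2' : ‖x'‖ ≤ C1) (hy2 : ‖y‖ ≤ C1) (hy2' : ‖y'‖ ≤ C1)
    (h1 : ‖x - x'‖ ≤ e) (h2 : ‖y - y'‖ ≤ e) :
    ‖mR x y - mR x' y'‖ ≤ 2 * C1 ^ 3 / c1 ^ 4 * e := by
  have hC1 : 0 < C1 := lt_of_lt_of_le hc1 (hx.trans hx2)
  have he : 0 ≤ e := (norm_nonneg _).trans h1
  have hx0 : x ≠ 0 := by rw [← norm_pos_iff]; linarith
  have hx0' : x' ≠ 0 := by rw [← norm_pos_iff]; linarith
  have e1 : mR x y - mR x' y' = ((y - y') * x' + y' * (x' - x)) * (y * x' + y' * x) /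
      (2 * x ^ 2 * x' ^ 2) := by
    rw [mR, mR]
    field_simp
    ring
  have hxp : 0 < ‖x‖ := by linarith
  have hxp' : 0 < ‖x'‖ := by linarith
  rw [e1, norm_div, norm_mul]
  have h3 : ‖(y - y') * x' + y' * (x' - x)‖ ≤ 2 * C1 * e := by
    refine (norm_add_le _ _).trans ?_
    rw [norm_mul, norm_mul, norm_sub_rev x' x]
    have a1 : ‖y - y'‖ * ‖x'‖ ≤ e * C1 := mul_le_mul h2 hx2' (norm_nonneg _) he
    have a2 : ‖y'‖ * ‖x - x'‖ ≤ C1 * e := mul_le_mul hy2' h1 (norm_nonneg _) hC1.le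
    linarith
  have h4 : ‖y * x' + y' * x‖ ≤ 2 * C1 ^ 2 := by
    refine (norm_add_le _ _).trans ?_
    rw [norm_mul, norm_mul]
    have a1 : ‖y‖ * ‖x'‖ ≤ C1 * C1 := mul_le_mul hy2 hx2' (norm_nonneg _) hC1.le
    have a2 : ‖y'‖ * ‖x‖ ≤ C1 * C1 := mul_le_mul hy2' hx2 (norm_nonneg _) hC1.le
    nlinarith
  have h5 : 2 * c1 ^ 4 ≤ ‖2 * x ^ 2 * x' ^ 2‖ := by
    rw [norm_mul, norm_mul, norm_pow, norm_pow]
    have e2 : ‖(2 : ℂ)‖ = 2 := by norm_num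
    rw [e2]
    have a1 := pow_le_pow_left₀ hc1.le hx 2
    have a2 := pow_le_pow_left₀ hc1.le hx' 2
    have a3 : c1 ^ 2 * c1 ^ 2 ≤ ‖x‖ ^ 2 * ‖x'‖ ^ 2 :=
      mul_le_mul a1 a2 (by positivity) (by positivity)
    nlinarith
  rw [div_le_iff₀ (lt_of_lt_of_le (by positivity) h5)]
  have h6 : ‖(y - y') * x' + y' * (x' - x)‖ * ‖y * x' + y' * x‖ ≤ 2 * C1 * e * (2 * C1 ^ 2) :=
    mul_le_mul h3 h4 (norm_nonneg _) (by positivity)
  refine h6.trans ?_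
  have h7 : 2 * C1 ^ 3 / c1 ^ 4 * e * (2 * c1 ^ 4) = 2 * C1 * e * (2 * C1 ^ 2) := by
    field_simp
  rw [← h7]
  exact mul_le_mul_of_nonneg_left h5 (by positivity)

theorem mR_norm {c1 C1 : ℝ} (hc1 : 0 < c1) {x y : ℂ} (hx : c1 ≤ ‖x‖)
    (hx2 : ‖x‖ ≤ C1) (hy2 : ‖y‖ ≤ C1) : ‖mR x y‖ ≤ C1 ^ 2 / c1 ^ 2 := by
  rw [mR, norm_div, norm_mul, norm_pow]
  have e2 : ‖(2 : ℂ)‖ = 2 := by norm_num
  rw [e2]
  have h1 : ‖x ^ 2 + y ^ 2‖ ≤ 2 * C1 ^ 2 := by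
    refine (norm_add_le _ _).trans ?_
    rw [norm_pow, norm_pow]
    have := pow_le_pow_left₀ (norm_nonneg x) hx2 2
    have := pow_le_pow_left₀ (norm_nonneg y) hy2 2
    linarith
  have h2 := pow_le_pow_left₀ hc1.le hx 2
  have hx0 : 0 < ‖x‖ := lt_of_lt_of_le hc1 hx
  rw [div_le_div_iff₀ (by positivity) (by positivity)]
  have h3 : ‖x ^ 2 + y ^ 2‖ * c1 ^ 2 ≤ 2 * C1 ^ 2 * ‖x‖ ^ 2 :=
    mul_le_mul h1 h2 (by positivity) (by positivity)
  linarith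

/-! ### the scaled labels -/

/-- scaled label -/
def xl (x : ℝ → ℂ → ℂ) (l : ℝ) (s : ℂ) : ℂ := x l (al l * s) / al l

theorem al_mul_xl (x : ℝ → ℂ → ℂ) {l : ℝ} (hl : 0 < l) (s : ℂ) :
    al l * xl x l s = x l (al l * s) := by
  rw [xl]; field_simp [al_ne hl]

theorem mem_Dl {κ' cc l : ℝ} (hκ : 0 < κ') (hl : 0 < l) {s : ℂ} (hs : 0 < s.re)
    (h1 : 1 < cc * ‖s‖) (h2 : l * ‖s‖ < 1 / 8) : al l * s ∈ Dl κ' cc l := by
  have hs0 : s ≠ 0 := by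
    rintro rfl
    norm_num at hs
  have hn : ‖al l * s‖ = l * ‖s‖ := by rw [norm_mul, norm_al hl]
  refine ⟨mul_ne_zero (al_ne hl) hs0, by rw [hn]; exact h2, ?_, ?_⟩
  · rw [hn, al_mul_im]
    have e1 : 0 < l * s.re := mul_pos hl hs
    have e2 : 0 < κ' * (l * ‖s‖) := by positivity
    linarith
  · rw [hn]
    have : l * 1 < l * (cc * ‖s‖) := mul_lt_mul_of_pos_left h1 hl
    linarith

theorem Rj_neg (q : ℂ → ℂ) (j x y : ℂ) : Rj q (-j) x y = (Rj q j x y)⁻¹ := by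
  rw [Rj, Rj, neg_neg, inv_div]

section side

variable {κ κ' β C cc CC l₀ : ℝ} {q : ℂ → ℂ} {j : ℂ} {M : ℂ → ℂ} {x : ℝ → ℂ → ℂ}

theorem xl_near (S : Side κ κ' (-1) β C cc CC l₀ q j M x) {l : ℝ} (hl : 0 < l) (hl0 : l < l₀)
    {s : ℂ} (hs : 0 < s.re) (h1 : 1 < cc * ‖s‖) (h2 : l * ‖s‖ < 1 / 8) :
    ‖xl x l s - s‖ * ‖s‖ ≤ |CC| := by
  have hm := mem_Dl S.κ'_pos hl hs h1 h2
  have h3 := S.cone.near l hl hl0 _ hm
  have hn : ‖al l * s‖ = l * ‖s‖ := by rw [norm_mul, norm_al hl]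
  have hspos : 0 < ‖s‖ := lt_of_lt_of_le hs (Complex.re_le_norm s)
  rw [hn] at h3
  have e : xl x l s - s = (x l (al l * s) - al l * s) / al l := by
    rw [xl]; field_simp [al_ne hl]
  rw [e, norm_div, norm_al hl, div_mul_eq_mul_div, div_le_iff₀ hl]
  rw [le_div_iff₀ (by positivity)] at h3
  have h4 : ‖x l (al l * s) - al l * s‖ * ‖s‖ * l ≤ CC * l ^ 2 := by linarith
  have h5 : ‖x l (al l * s) - al l * s‖ * ‖s‖ ≤ CC * l := by
    have : ‖x l (al l * s) - al l * s‖ * ‖s‖ * l ≤ CC * l * l := by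
      calc _ ≤ CC * l ^ 2 := h4
        _ = CC * l * l := by ring
    exact le_of_mul_le_mul_right this hl
  exact h5.trans (mul_le_mul_of_nonneg_right (le_abs_self CC) hl.le)

theorem xl_law (S : Side κ κ' (-1) β C cc CC l₀ q j M x) {l : ℝ} (hl : 0 < l) (hl0 : l < l₀)
    {s : ℂ} (hs : 0 < s.re) (h1 : 1 < cc * ‖s‖) (h2 : l * ‖s + 2‖ < 1 / 8)
    (h1' : 1 < cc * ‖s + 1‖) (h1'' : 1 < cc * ‖s + 2‖) (h2' : l * ‖s + 1‖ < 1 / 8)
    (h2'' : l * ‖s‖ < 1 / 8) :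
    Rj q j (al l * xl x l (s + 1)) (al l * xl x l s) *
      Rj q j (al l * xl x l (s + 1)) (al l * xl x l (s + 2)) = 1 := by
  have r1 : 0 < (s + 1).re := by simp; linarith
  have r2 : 0 < (s + 2).re := by simp; linarith
  have m0 := mem_Dl S.κ'_pos hl hs h1 h2''
  have m1 := mem_Dl S.κ'_pos hl r1 h1' h2'
  have m2 := mem_Dl S.κ'_pos hl r2 h1'' h2
  have e0 : al l * (s + 1) + Complex.I * l = al l * s := by rw [al]; ring
  have e2 : al l * (s + 1) - Complex.I * l = al l * (s + 2) := by rw [al]; ring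
  have h := S.rlaw l hl hl0 (al l * (s + 1)) (by rw [e0]; exact m0) m1 (by rw [e2]; exact m2)
  rw [e0, e2, ← al_mul_xl x hl, ← al_mul_xl x hl, ← al_mul_xl x hl] at h
  rcases S.hj with hj | hj
  · rw [hj]; exact h
  · rw [hj, Rj_neg, Rj_neg, ← mul_inv, h, inv_one]

end side

end Crest.Agent.R102.ExtI289
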