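import Crest.Agent.R102.ExtIC_289

/-!
# Row 102, [T5]/MEL, leaf (ML-EI) = `ExtI` (helper289), final part: backward recursion
-/

set_option autoImplicit false

open Set Filter Topology Metric

noncomputable section

namespace Crest.Agent.R102.ExtI289

open Crest.Agent.R102.T5R Crest.Agent.R102.Mel

section side

variable {κ κ' β C cc CC l₀ : ℝ} {q : ℂ → ℂ} {j : ℂ} {M : ℂ → ℂ} {x : ℝ → ℂ → ℂ}

/-- the region of the recursion -/
def Reg (a K : ℝ) : Set ℂ := {s | a < s.re ∧ ‖s‖ < K}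

theorem isOpen_Reg (a K : ℝ) : IsOpen (Reg a K) :=
  (isOpen_lt continuous_const Complex.continuous_re).inter
    (isOpen_lt continuous_norm continuous_const)

/-- the statement propagated by the recursion -/
def Cl (x : ℝ → ℂ → ℂ) (R a K : ℝ) : Prop :=
  ∀ ε : ℝ, 0 < ε → ∃ l1 : ℝ, 0 < l1 ∧ ∀ l : ℝ, 0 < l → l < l1 → ∃ Y : ℂ → ℂ,
    DifferentiableOn ℂ Y (Reg a K) ∧ (∀ s ∈ Reg a K, ‖Y s - Y0 s‖ ≤ ε) ∧
    (∀ s ∈ Reg a K, R < ‖s‖ → Y s = xl x l s)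

theorem Rj_diffAt (h' : PAn) {κ : ℝ} {q : ℂ → ℂ} (hq : DifferentiableOn ℂ q (Sg κ)) {j x y : ℂ}
    (hseg : ∀ u ∈ Icc (0 : ℝ) 1, x + u * (y - x) ∈ Sg κ) (hP : Pj q (-j) x y ≠ 0) :
    DifferentiableAt ℂ (fun p : ℂ × ℂ => Rj q j p.1 p.2) (x, y) := by
  have h1 := (h' κ q j x y hq (isOpen_Sg κ) hseg).differentiableAt
  have h2 := (h' κ q (-j) x y hq (isOpen_Sg κ) hseg).differentiableAt
  have h3 := DifferentiableAt.inv (h := fun p : ℂ × ℂ => Pj q (-j) p.1 p.2) h2 hP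
  have h4 : DifferentiableAt ℂ (fun p : ℂ × ℂ => Pj q j p.1 p.2 * (Pj q (-j) p.1 p.2)⁻¹) (x, y) :=
    h1.mul h3
  simpa only [Rj, div_eq_mul_inv] using h4

/-- the model identity -/
theorem model_id {s X0 X1 X2 u : ℂ} (h0 : X0 ^ 2 = s ^ 2 - 1 / 4)
    (h1 : X1 ^ 2 = (s + 1) ^ 2 - 1 / 4) (h2 : X2 ^ 2 = (s + 2) ^ 2 - 1 / 4) (hX0 : X0 ≠ 0)
    (hs1 : s + 1 / 2 ≠ 0) (hs2 : s + 3 / 2 ≠ 0) :
    -((s + 1 / 2) ^ 2 / X0) * (mR X1 (X0 + u) * mR X1 X2 - 1) + u = -(u ^ 2 / (2 * X0)) := by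
  have e1 : mR X1 X2 = (s + 3 / 2) / (s + 1 / 2) := by
    rw [mR, h1, h2]
    have e : (2 : ℂ) * ((s + 1) ^ 2 - 1 / 4) = 2 * ((s + 1 / 2) * (s + 3 / 2)) := by ring
    have e' : (s + 1) ^ 2 - 1 / 4 + ((s + 2) ^ 2 - 1 / 4) = 2 * (s + 3 / 2) ^ 2 := by ring
    rw [e, e', div_eq_div_iff (mul_ne_zero two_ne_zero (mul_ne_zero hs1 hs2)) hs1]
    ring
  have e2 : mR X1 (X0 + u) = (2 * (s + 1 / 2) ^ 2 + 2 * X0 * u + u ^ 2) /
      (2 * ((s + 1 / 2) * (s + 3 / 2))) := by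
    rw [mR, h1]
    have e : (2 : ℂ) * ((s + 1) ^ 2 - 1 / 4) = 2 * ((s + 1 / 2) * (s + 3 / 2)) := by ring
    have e' : (s + 1) ^ 2 - 1 / 4 + (X0 + u) ^ 2 = 2 * (s + 1 / 2) ^ 2 + 2 * X0 * u + u ^ 2 := by
      linear_combination h0
    rw [e, e']
  rw [e1, e2]
  generalize s + 1 / 2 = a at *
  generalize s + 3 / 2 = b at *
  field_simp
  ring

/-- **one step of the backward recursion** -/
theorem step (h : RLimI) (h' : PAn) (S : Side κ κ' (-1) β C cc CC l₀ q j M x)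
    (hlim : Tendsto (fun τ => τ * (j * Complex.exp (q τ))) (𝓝[Sg κ] 0) (𝓝 1)) {R : ℝ}
    (hRc : 8 ≤ cc * R)
    (hcl : ∀ K ε : ℝ, 0 < ε → ∃ l1 : ℝ, 0 < l1 ∧ ∀ l : ℝ, 0 < l → l < l1 → ∀ s : ℂ,
      5 / 8 ≤ s.re → R ≤ ‖s‖ → ‖s‖ ≤ K → ‖xl x l s - Y0 s‖ ≤ ε)
    {a K : ℝ} (ha : 5 / 8 ≤ a) (hK : 0 < K) (IH : Cl x R (a + 1) (K + 2)) : Cl x R a K := by
  intro ε hε
  have hcc : 0 < cc := S.cone.c_pos
  set r : ℝ := min (3 / 64) ε with hr
  have hrpos : 0 < r := lt_min (by norm_num) hε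
  have hr1 : r ≤ 3 / 64 := min_le_left _ _
  have hr2 : r ≤ ε := min_le_right _ _
  set c1 : ℝ := 1 / 4 with hc1
  set C1 : ℝ := K + 4 with hC1
  set L : ℝ := 2 * C1 ^ 3 / c1 ^ 4 with hL
  set M1 : ℝ := C1 ^ 2 / c1 ^ 2 with hM1
  set Wt : ℝ := (K + 1) ^ 2 * (8 / 3) with hWt
  have hc1p : 0 < c1 := by norm_num
  have hC1p : 0 < C1 := by linarith
  have hLp : 0 < L := by positivity
  have hM1p : 0 < M1 := by positivity
  have hWtp : 0 < Wt := by positivity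
  set e0 : ℝ := min 1 (r / (16 * (Wt * (2 * M1 + 1)))) with he0
  have he0p : 0 < e0 := lt_min one_pos (by positivity)
  have he01 : e0 ≤ 1 := min_le_left _ _
  have he02 : Wt * ((2 * M1 + 1) * e0) ≤ r / 16 := by
    have := min_le_right 1 (r / (16 * (Wt * (2 * M1 + 1))))
    rw [← he0, le_div_iff₀ (by positivity)] at this
    linarith
  set ε1 : ℝ := min (1 / 8) (e0 / (2 * L)) with hε1
  have hε1p : 0 < ε1 := lt_min (by norm_num) (by positivity)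
  have hε11 : ε1 ≤ 1 / 8 := min_le_left _ _
  have hε12 : L * ε1 ≤ e0 / 2 := by
    have := min_le_right (1 / 8) (e0 / (2 * L))
    rw [← hε1, le_div_iff₀ (by positivity)] at this
    linarith
  obtain ⟨l1, hl1, H1⟩ := IH ε1 hε1p
  obtain ⟨l2, hl2, H2⟩ := unif h S.hj S.endq hlim (c1 := c1) (C1 := C1) hc1p
    (by rw [hC1, hc1]; linarith) (ε := e0 / 2) (by linarith)
  obtain ⟨l3, hl3, H3⟩ := hcl K (r / 4) (by linarith)
  refine ⟨min (min l1 l2) (min l3 (min l₀ (1 / (8 * (K + 4))))), ?_, fun l hl hlt => ?_⟩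
  · have := S.cone.l₀_pos
    refine lt_min (lt_min hl1 hl2) (lt_min hl3 (lt_min this (by positivity)))
  have t1 : l < l1 := hlt.trans_le ((min_le_left _ _).trans (min_le_left _ _))
  have t2 : l < l2 := hlt.trans_le ((min_le_left _ _).trans (min_le_right _ _))
  have t3 : l < l3 := hlt.trans_le ((min_le_right _ _).trans (min_le_left _ _))
  have t4 : l < l₀ := hlt.trans_le ((min_le_right _ _).trans ((min_le_right _ _).trans
    (min_le_left _ _)))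
  have t5 : l * (8 * (K + 4)) < 1 := by
    have := hlt.trans_le ((min_le_right _ _).trans ((min_le_right _ _).trans (min_le_right _ _)))
    rwa [lt_div_iff₀ (by positivity)] at this
  obtain ⟨Y, Y1, Y2, Y3⟩ := H1 l hl t1
  obtain ⟨hlC, H2'⟩ := H2 l hl t2
  -- memberships
  have memb : ∀ s ∈ Reg a K, s + 1 ∈ Reg (a + 1) (K + 2) ∧ s + 2 ∈ Reg (a + 1) (K + 2) := by
    rintro s ⟨hs1, hs2⟩
    refine ⟨⟨?_, ?_⟩, ⟨?_, ?_⟩⟩
    · simp only [Complex.add_re, Complex.one_re]; linarith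
    · refine (norm_add_le _ _).trans_lt ?_
      rw [norm_one]; linarith
    · have : (s + 2).re = s.re + 2 := by simp
      rw [this]; linarith
    · refine (norm_add_le _ _).trans_lt ?_
      have e2 : ‖(2 : ℂ)‖ = 2 := by norm_num
      rw [e2]; linarith
  -- bounds of the labels
  have modb : ∀ s : ℂ, 5 / 8 ≤ s.re → ‖s‖ < K + 2 → ∀ z : ℂ, ‖z - Y0 s‖ ≤ 1 / 8 →
      c1 ≤ z.re ∧ c1 ≤ ‖z‖ ∧ ‖z‖ ≤ C1 := by
    intro s hs hs2 z hz
    have h1 := Y0_re_ge hs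
    have h2 := Y0_norm_le (s := s) (K := K + 2) (by linarith) hs2.le
    have h3 := (abs_le.1 ((Complex.abs_re_le_norm (z - Y0 s)).trans hz)).1
    rw [Complex.sub_re] at h3
    have h4 : c1 ≤ z.re := by rw [hc1]; linarith
    refine ⟨h4, h4.trans (Complex.re_le_norm z), ?_⟩
    have h5 : ‖z‖ ≤ ‖z - Y0 s‖ + ‖Y0 s‖ := by
      have := norm_add_le (z - Y0 s) (Y0 s)
      rwa [sub_add_cancel] at this
    rw [hC1]; linarith
  have lab : ∀ s ∈ Reg a K, ∀ u ∈ ball (0 : ℂ) r,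
      (c1 ≤ (Y (s + 1)).re ∧ c1 ≤ ‖Y (s + 1)‖ ∧ ‖Y (s + 1)‖ ≤ C1) ∧
      (c1 ≤ (Y (s + 2)).re ∧ c1 ≤ ‖Y (s + 2)‖ ∧ ‖Y (s + 2)‖ ≤ C1) ∧
      (c1 ≤ (Y0 s + u).re ∧ c1 ≤ ‖Y0 s + u‖ ∧ ‖Y0 s + u‖ ≤ C1) ∧
      (c1 ≤ (Y0 (s + 1)).re ∧ c1 ≤ ‖Y0 (s + 1)‖ ∧ ‖Y0 (s + 1)‖ ≤ C1) ∧
      (c1 ≤ (Y0 (s + 2)).re ∧ c1 ≤ ‖Y0 (s + 2)‖ ∧ ‖Y0 (s + 2)‖ ≤ C1) := by
    intro s hs u hu
    obtain ⟨m1, m2⟩ := memb s hs
    have hu' : ‖u‖ < r := by simpa using hu
    have hs2 : ‖s‖ < K + 2 := by linarith [hs.2]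
    have hsre : 5 / 8 ≤ s.re := by linarith [hs.1]
    refine ⟨modb (s + 1) (by linarith [m1.1]) m1.2 _ ((Y2 _ m1).trans hε11),
      modb (s + 2) (by linarith [m2.1]) m2.2 _ ((Y2 _ m2).trans hε11),
      modb s hsre hs2 _ (by rw [add_sub_cancel_left]; linarith),
      modb (s + 1) (by linarith [m1.1]) m1.2 _ (by rw [sub_self, norm_zero]; norm_num),
      modb (s + 2) (by linarith [m2.1]) m2.2 _ (by rw [sub_self, norm_zero]; norm_num)⟩
  set G : ℂ × ℂ → ℂ := fun z => -((z.2 + 1 / 2) ^ 2 / Y0 z.2) *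
    (Rj q j (al l * Y (z.2 + 1)) (al l * (Y0 z.2 + z.1)) *
      Rj q j (al l * Y (z.2 + 1)) (al l * Y (z.2 + 2)) - 1) with hG
  have hho : IsOpen {s : ℂ | 1 / 2 < s.re} := isOpen_lt continuous_const Complex.continuous_re
  have hGd : DifferentiableOn ℂ G (ball (0 : ℂ) r ×ˢ Reg a K) := by
    rintro ⟨u, s⟩ ⟨hu, hs⟩
    obtain ⟨⟨p1, p1', p1''⟩, ⟨p2, p2', p2''⟩, ⟨p3, p3', p3''⟩, _, _⟩ := lab s hs u hu
    obtain ⟨m1, m2⟩ := memb s hs
    have hsre : 5 / 8 ≤ s.re := by linarith [hs.1]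
    apply DifferentiableAt.differentiableWithinAt
    have dY0 : DifferentiableAt ℂ (fun z : ℂ × ℂ => Y0 z.2) (u, s) := by
      have : DifferentiableAt ℂ Y0 s := Y0_diff.differentiableAt (hho.mem_nhds (by
        change (1 : ℝ) / 2 < s.re; linarith))
      exact DifferentiableAt.comp (u, s) (g := Y0) (f := Prod.snd) this differentiableAt_snd
    have dY1 : DifferentiableAt ℂ (fun z : ℂ × ℂ => Y (z.2 + 1)) (u, s) := by
      have : DifferentiableAt ℂ Y (s + 1) := Y1.differentiableAt ((isOpen_Reg _ _).mem_nhds m1)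
      exact DifferentiableAt.comp (u, s) (g := Y) (f := fun z : ℂ × ℂ => z.2 + 1) this
        (by fun_prop)
    have dY2 : DifferentiableAt ℂ (fun z : ℂ × ℂ => Y (z.2 + 2)) (u, s) := by
      have : DifferentiableAt ℂ Y (s + 2) := Y1.differentiableAt ((isOpen_Reg _ _).mem_nhds m2)
      exact DifferentiableAt.comp (u, s) (g := Y) (f := fun z : ℂ × ℂ => z.2 + 2) this
        (by fun_prop)
    have seg : ∀ z w : ℂ, c1 ≤ z.re → c1 ≤ w.re → ‖z‖ ≤ C1 → ‖w‖ ≤ C1 →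
        ∀ u ∈ Icc (0 : ℝ) 1, al l * z + u * (al l * w - al l * z) ∈ Sg κ := by
      intro z w hz hw hz2 hw2 u hu
      exact (adm S.endq.κ_pos hl hc1p hz hw hz2 hw2 hlC u hu).1
    have D1 := Rj_diffAt h' S.endq.diff (j := j) (seg _ _ p1 p3 p1'' p3'')
      (H2' _ _ p1 p3 p1'' p3'').1
    have D2 := Rj_diffAt h' S.endq.diff (j := j) (seg _ _ p1 p2 p1'' p2'')
      (H2' _ _ p1 p2 p1'' p2'').1
    have i1 : DifferentiableAt ℂ (fun z : ℂ × ℂ =>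
        ((al l * Y (z.2 + 1), al l * (Y0 z.2 + z.1)) : ℂ × ℂ)) (u, s) :=
      (dY1.const_mul _).prodMk ((dY0.add differentiableAt_fst).const_mul _)
    have i2 : DifferentiableAt ℂ (fun z : ℂ × ℂ =>
        ((al l * Y (z.2 + 1), al l * Y (z.2 + 2)) : ℂ × ℂ)) (u, s) :=
      (dY1.const_mul _).prodMk (dY2.const_mul _)
    have E1 : DifferentiableAt ℂ (fun z : ℂ × ℂ =>
        Rj q j (al l * Y (z.2 + 1)) (al l * (Y0 z.2 + z.1))) (u, s) :=
      DifferentiableAt.comp (u, s) (g := fun p : ℂ × ℂ => Rj q j p.1 p.2)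
        (f := fun z : ℂ × ℂ => ((al l * Y (z.2 + 1), al l * (Y0 z.2 + z.1)) : ℂ × ℂ)) D1 i1
    have E2 : DifferentiableAt ℂ (fun z : ℂ × ℂ =>
        Rj q j (al l * Y (z.2 + 1)) (al l * Y (z.2 + 2))) (u, s) :=
      DifferentiableAt.comp (u, s) (g := fun p : ℂ × ℂ => Rj q j p.1 p.2)
        (f := fun z : ℂ × ℂ => ((al l * Y (z.2 + 1), al l * Y (z.2 + 2)) : ℂ × ℂ)) D2 i2
    have hY0ne : Y0 s ≠ 0 := by
      rw [← norm_pos_iff]
      have := Y0_re_ge hsre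
      have := Complex.re_le_norm (Y0 s)
      linarith
    have F1 : DifferentiableAt ℂ (fun z : ℂ × ℂ => (z.2 + 1 / 2) ^ 2 / Y0 z.2) (u, s) := by
      have f1 : DifferentiableAt ℂ (fun z : ℂ × ℂ => (z.2 + 1 / 2) ^ 2) (u, s) := by fun_prop
      have f2 := DifferentiableAt.inv (h := fun z : ℂ × ℂ => Y0 z.2) dY0 hY0ne
      have f3 : DifferentiableAt ℂ (fun z : ℂ × ℂ => (z.2 + 1 / 2) ^ 2 * (Y0 z.2)⁻¹) (u, s) :=
        f1.mul f2
      simpa only [div_eq_mul_inv] using f3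
    exact F1.neg.mul ((E1.mul E2).sub_const 1)
  have hGb : ∀ u ∈ ball (0 : ℂ) r, ∀ s ∈ Reg a K, ‖G (u, s) + u‖ ≤ r / 8 := by
    intro u hu s hs
    obtain ⟨⟨p1, p1', p1''⟩, ⟨p2, p2', p2''⟩, ⟨p3, p3', p3''⟩, ⟨p4, p4', p4''⟩, ⟨p5, p5', p5''⟩⟩ :=
      lab s hs u hu
    obtain ⟨m1, m2⟩ := memb s hs
    have hu' : ‖u‖ < r := by simpa using hu
    have hsre : 5 / 8 ≤ s.re := by linarith [hs.1]
    have hY0re := Y0_re_ge hsre
    have hY0n : 3 / 8 ≤ ‖Y0 s‖ := hY0re.trans (Complex.re_le_norm _)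
    have hY0ne : Y0 s ≠ 0 := by rw [← norm_pos_iff]; linarith
    have hs1 : s + 1 / 2 ≠ 0 := by
      intro h0
      have := congrArg Complex.re h0
      have e : (s + 1 / 2).re = s.re + 1 / 2 := by simp
      rw [e, Complex.zero_re] at this
      linarith
    have hs2 : s + 3 / 2 ≠ 0 := by
      intro h0
      have := congrArg Complex.re h0
      have e : (s + 3 / 2).re = s.re + 3 / 2 := by simp
      rw [e, Complex.zero_re] at this
      linarith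
    have q1 := (H2' _ _ p1 p3 p1'' p3'').2
    have q2 := (H2' _ _ p1 p2 p1'' p2'').2
    have q3 := mR_lip hc1p p1' p4' p1'' p4'' p3'' p3'' (Y2 _ m1) (y := Y0 s + u) (y' := Y0 s + u)
      (by rw [sub_self, norm_zero]; exact hε1p.le)
    have q4 := mR_lip hc1p p1' p4' p1'' p4'' p2'' p5'' (Y2 _ m1) (Y2 _ m2)
    rw [← hL] at q3 q4
    set P1 := Rj q j (al l * Y (s + 1)) (al l * (Y0 s + u))
    set P2 := Rj q j (al l * Y (s + 1)) (al l * Y (s + 2))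
    set m₁ := mR (Y0 (s + 1)) (Y0 s + u) with hm₁
    set m₂ := mR (Y0 (s + 1)) (Y0 (s + 2)) with hm₂
    have r1 : ‖P1 - m₁‖ ≤ e0 := by
      have e : P1 - m₁ = (P1 - mR (Y (s + 1)) (Y0 s + u)) + (mR (Y (s + 1)) (Y0 s + u) - m₁) := by
        ring
      rw [e]
      refine (norm_add_le _ _).trans ?_
      linarith
    have r2 : ‖P2 - m₂‖ ≤ e0 := by
      have e : P2 - m₂ = (P2 - mR (Y (s + 1)) (Y (s + 2))) + (mR (Y (s + 1)) (Y (s + 2)) - m₂) := by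
        ring
      rw [e]
      refine (norm_add_le _ _).trans ?_
      linarith
    have n1 : ‖m₁‖ ≤ M1 := mR_norm hc1p p4' p4'' p3''
    have n2 : ‖m₂‖ ≤ M1 := mR_norm hc1p p4' p4'' p5''
    have n3 : ‖P2‖ ≤ M1 + 1 := by
      have := norm_add_le (P2 - m₂) m₂
      rw [sub_add_cancel] at this
      linarith
    have r3 : ‖P1 * P2 - m₁ * m₂‖ ≤ (2 * M1 + 1) * e0 := by
      have e : P1 * P2 - m₁ * m₂ = (P1 - m₁) * P2 + m₁ * (P2 - m₂) := by ring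
      rw [e]
      refine (norm_add_le _ _).trans ?_
      rw [norm_mul, norm_mul]
      have a1 : ‖P1 - m₁‖ * ‖P2‖ ≤ e0 * (M1 + 1) := mul_le_mul r1 n3 (norm_nonneg _) he0p.le
      have a2 : ‖m₁‖ * ‖P2 - m₂‖ ≤ M1 * e0 := mul_le_mul n1 r2 (norm_nonneg _) hM1p.le
      linarith
    have hmod := model_id (s := s) (u := u) (Y0_sq (s := s) (by linarith))
      (Y0_sq (s := s + 1) (by have := m1.1; linarith))
      (Y0_sq (s := s + 2) (by have := m2.1; linarith)) hY0ne hs1 hs2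
    rw [← hm₁, ← hm₂] at hmod
    have e : G (u, s) + u = -((s + 1 / 2) ^ 2 / Y0 s) * (P1 * P2 - m₁ * m₂) +
        (-((s + 1 / 2) ^ 2 / Y0 s) * (m₁ * m₂ - 1) + u) := by
      change -((s + 1 / 2) ^ 2 / Y0 s) * (P1 * P2 - 1) + u = _
      ring
    rw [e, hmod]
    refine (norm_add_le _ _).trans ?_
    have k1 : ‖-((s + 1 / 2) ^ 2 / Y0 s) * (P1 * P2 - m₁ * m₂)‖ ≤ r / 16 := by
      rw [norm_mul, norm_neg, norm_div, norm_pow]
      have a1 : ‖s + 1 / 2‖ ≤ K + 1 := by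
        refine (norm_add_le _ _).trans ?_
        have e2 : ‖(1 / 2 : ℂ)‖ = 1 / 2 := by norm_num
        rw [e2]; linarith [hs.2]
      have a2 : ‖s + 1 / 2‖ ^ 2 / ‖Y0 s‖ ≤ Wt := by
        rw [div_le_iff₀ (by linarith)]
        have a3 := pow_le_pow_left₀ (norm_nonneg _) a1 2
        have a4 : Wt * (3 / 8) ≤ Wt * ‖Y0 s‖ := mul_le_mul_of_nonneg_left hY0n hWtp.le
        have a5 : Wt * (3 / 8) = (K + 1) ^ 2 := by rw [hWt]; ring
        linarith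
      have a6 := mul_le_mul a2 r3 (norm_nonneg _) hWtp.le
      linarith
    have k2 : ‖-(u ^ 2 / (2 * Y0 s))‖ ≤ r / 16 := by
      rw [norm_neg, norm_div, norm_mul, norm_pow]
      have e2 : ‖(2 : ℂ)‖ = 2 := by norm_num
      rw [e2, div_le_iff₀ (by linarith)]
      have a1 : ‖u‖ ^ 2 ≤ r * r := by
        rw [pow_two]
        exact mul_le_mul hu'.le hu'.le (norm_nonneg _) hrpos.le
      have a2 : r * r ≤ r * (3 / 64) := mul_le_mul_of_nonneg_left hr1 hrpos.le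
      have a3 : r / 16 * (2 * (3 / 8)) ≤ r / 16 * (2 * ‖Y0 s‖) :=
        mul_le_mul_of_nonneg_left (by linarith) (by linarith)
      linarith
    linarith
  obtain ⟨φ, hφ1, hφ2⟩ := Solve39.solveA (E := ℂ) (isOpen_Reg a K) hrpos (η := r / 8) le_rfl hGd hGb
  refine ⟨fun s => Y0 s + φ s, ?_, ?_, ?_⟩
  · refine DifferentiableOn.add (Y0_diff.mono ?_) hφ1
    intro s hs
    change (1 : ℝ) / 2 < s.re
    linarith [hs.1]
  · intro s hs
    rw [add_sub_cancel_left]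
    have := (hφ2 s hs).1
    linarith
  · intro s hs hRs
    obtain ⟨m1, m2⟩ := memb s hs
    have hsre : 5 / 8 ≤ s.re := by linarith [hs.1]
    have hn1 : ‖s‖ ≤ ‖s + 1‖ := by
      have := norm_le_add_nat (s := s) (by linarith) 1
      simpa using this
    have hn2 : ‖s‖ ≤ ‖s + 2‖ := by
      have := norm_le_add_nat (s := s) (by linarith) 2
      simpa using this
    have hx := H3 l hl t3 s hsre hRs.le hs.2.le
    have hb3 : ∀ z : ℂ, ‖z‖ < K + 2 → l * ‖z‖ < 1 / 8 := by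
      intro z hz
      have : l * ‖z‖ ≤ l * (K + 2) := mul_le_mul_of_nonneg_left hz.le hl.le
      nlinarith
    have hb4 : ∀ z : ℂ, R < ‖z‖ → 1 < cc * ‖z‖ := by
      intro z hz
      have := mul_lt_mul_of_pos_left hz hcc
      linarith
    have hlaw := xl_law S hl t4 (s := s) (by linarith) (hb4 _ hRs) (hb3 _ m2.2)
      (hb4 _ (by linarith)) (hb4 _ (by linarith)) (hb3 _ m1.2) (hb3 _ (by linarith [hs.2]))
    have hu := (hφ2 s hs).2.2 (xl x l s - Y0 s) (by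
      rw [mem_ball_zero_iff]; linarith) (by
      change -((s + 1 / 2) ^ 2 / Y0 s) * (Rj q j (al l * Y (s + 1))
        (al l * (Y0 s + (xl x l s - Y0 s))) *
        Rj q j (al l * Y (s + 1)) (al l * Y (s + 2)) - 1) = 0
      rw [add_sub_cancel, Y3 _ m1 (by linarith), Y3 _ m2 (by linarith), hlaw, sub_self, mul_zero])
    change Y0 s + φ s = xl x l s
    rw [← hu]
    ring

theorem iterate (h : RLimI) (h' : PAn) (S : Side κ κ' (-1) β C cc CC l₀ q j M x)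
    (hlim : Tendsto (fun τ => τ * (j * Complex.exp (q τ))) (𝓝[Sg κ] 0) (𝓝 1)) {R : ℝ}
    (hRc : 8 ≤ cc * R)
    (hcl : ∀ K ε : ℝ, 0 < ε → ∃ l1 : ℝ, 0 < l1 ∧ ∀ l : ℝ, 0 < l → l < l1 → ∀ s : ℂ,
      5 / 8 ≤ s.re → R ≤ ‖s‖ → ‖s‖ ≤ K → ‖xl x l s - Y0 s‖ ≤ ε) (n : ℕ) :
    ∀ {a K : ℝ}, 5 / 8 ≤ a → 0 < K → Cl x R (a + n) (K + 2 * n) → Cl x R a K := by
  induction n with
  | zero => intro a K _ _ hC; simpa using hC
  | succ n ih =>
    intro a K ha hK hC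
    refine step h h' S hlim hRc hcl ha hK (ih (by linarith) (by linarith) ?_)
    have e1 : a + 1 + (n : ℝ) = a + ((n + 1 : ℕ) : ℝ) := by push_cast; ring
    have e2 : K + 2 + 2 * (n : ℝ) = K + 2 * ((n + 1 : ℕ) : ℝ) := by push_cast; ring
    rw [e1, e2]
    exact hC

end side

/-- **(ML-EI)** -/
theorem extI_of (h : RLimI) (h' : PAn) : ExtI := by
  intro κ κ' β C cc CC l₀ q j M x S hlim
  obtain ⟨R1, b1, b2, b3, hcl⟩ := close h S hlim
  refine ⟨R1, b1, b2, b3, fun R ε hR hε => ?_⟩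
  have hcc : 0 < cc := S.cone.c_pos
  have hRc : 8 ≤ cc * R := b2.trans (mul_le_mul_of_nonneg_left hR hcc.le)
  have hcl' : ∀ K ε : ℝ, 0 < ε → ∃ l1 : ℝ, 0 < l1 ∧ ∀ l : ℝ, 0 < l → l < l1 → ∀ s : ℂ,
      5 / 8 ≤ s.re → R ≤ ‖s‖ → ‖s‖ ≤ K → ‖xl x l s - Y0 s‖ ≤ ε := by
    intro K ε hε
    obtain ⟨l1, hl1, h1⟩ := hcl K ε hε
    exact ⟨l1, hl1, fun l hl hlt s hs hRs hK => h1 l hl hlt s hs (hR.trans hRs) hK⟩
  set n : ℕ := ⌈R⌉₊ with hn
  have hnR : R ≤ n := Nat.le_ceil R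
  have hR0 : 0 < R := by linarith
  have base : Cl x R (5 / 8 + n) (4 * R + 2 * n) := by
    intro ε hε
    obtain ⟨l1, hl1, h1⟩ := hcl' (4 * R + 2 * n) ε hε
    have hKp : 0 < 8 * (4 * R + 2 * n + 1) := by positivity
    refine ⟨min l1 (min l₀ (1 / (8 * (4 * R + 2 * n + 1)))), ?_, fun l hl hlt => ?_⟩
    · exact lt_min hl1 (lt_min S.cone.l₀_pos (by positivity))
    have t1 : l < l1 := hlt.trans_le (min_le_left _ _)
    have t2 : l < l₀ := hlt.trans_le ((min_le_right _ _).trans (min_le_left _ _))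
    have t3 : l * (8 * (4 * R + 2 * n + 1)) < 1 := by
      have := hlt.trans_le ((min_le_right _ _).trans (min_le_right _ _))
      rwa [lt_div_iff₀ hKp] at this
    have hreg : ∀ s ∈ Reg (5 / 8 + n) (4 * R + 2 * n), R < ‖s‖ ∧ 0 < s.re := by
      rintro s ⟨hs1, _⟩
      have := Complex.re_le_norm s
      exact ⟨by linarith, by linarith⟩
    refine ⟨xl x l, ?_, ?_, fun s _ _ => rfl⟩
    · have hd := S.cone.diff l hl t2
      have hmap : MapsTo (fun s : ℂ => al l * s) (Reg (5 / 8 + n) (4 * R + 2 * n))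
          (Dl κ' cc l) := by
        intro s hs
        obtain ⟨g1, g2⟩ := hreg s hs
        refine mem_Dl S.κ'_pos hl g2 ?_ ?_
        · have := mul_lt_mul_of_pos_left g1 hcc
          linarith
        · have h2 : l * ‖s‖ ≤ l * (4 * R + 2 * n) := mul_le_mul_of_nonneg_left hs.2.le hl.le
          nlinarith
      exact (hd.comp (by fun_prop) hmap).div_const _
    · intro s hs
      obtain ⟨g1, g2⟩ := hreg s hs
      exact h1 l hl t1 s (by have := hs.1; have : (0 : ℝ) ≤ n := Nat.cast_nonneg n; linarith)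
        g1.le hs.2.le
  have fin := iterate h h' S hlim hRc hcl' n (a := 5 / 8) (K := 4 * R) le_rfl (by linarith) base
  obtain ⟨l1, hl1, h1⟩ := fin ε hε
  refine ⟨min l1 (min l₀ (1 / (200 * R))), lt_min hl1 (lt_min S.cone.l₀_pos (by positivity)),
    (min_le_right _ _).trans (min_le_left _ _), ?_, fun l hl hlt => ?_⟩
  · have h2 : min l1 (min l₀ (1 / (200 * R))) ≤ 1 / (200 * R) :=
      (min_le_right _ _).trans (min_le_right _ _)
    have h3 : min l1 (min l₀ (1 / (200 * R))) * (100 * R) ≤ 1 / (200 * R) * (100 * R) :=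
      mul_le_mul_of_nonneg_right h2 (by linarith)
    have h4 : 1 / (200 * R) * (100 * R) = 1 / 2 := by
      field_simp
      norm_num
    linarith
  · obtain ⟨Y, Y1, Y2, Y3⟩ := h1 l hl (hlt.trans_le (min_le_left _ _))
    refine ⟨fun s => al l * Y s, Y1.const_mul _, fun s hs1 hs2 => ?_, fun s hs1 hs2 hs3 => ?_⟩
    · have h2 := Y2 s ⟨hs1, hs2⟩
      have e : al l * Y s - -Complex.I * (l : ℂ) * Y0 s = al l * (Y s - Y0 s) := by
        rw [al]; ring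
      rw [e, norm_mul, norm_al hl]
      nlinarith
    · have h2 := Y3 s ⟨hs1, hs3⟩ hs2
      change al l * Y s = x l (al l * s)
      rw [h2, al_mul_xl x hl]

end Crest.Agent.R102.ExtI289
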