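import Mathlib

/-!
# Row 102, [H3], F1 (helper201): linear ODEs on a disc and formal deformations

(F1a) `lin_ode` : a linear ODE with holomorphic coefficients on a disc has a solution on the disc
with any prescribed value at any point of the disc; `lin_ode_unique`.
-/

set_option autoImplicit false

open Set Filter Topology Metric

noncomputable section

namespace Crest.Agent.R102.F1201

section LinODE

variable {E : Type*} [NormedAddCommGroup E] [NormedSpace ℂ E]

/-- growth of a primitive along a segment. -/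
theorem prim_bound {V : Set ℂ} (hVc : Convex ℝ V) {b0 : ℂ} (hb : b0 ∈ V)
    {g G : ℂ → E} (hG : ∀ z ∈ V, HasDerivAt G (g z) z) (h0 : G b0 = 0) {C : ℝ} {m : ℕ}
    (hg : ∀ z ∈ V, ‖g z‖ ≤ C * ‖z - b0‖ ^ m) {z : ℂ} (hz : z ∈ V) :
    ‖G z‖ ≤ C * ‖z - b0‖ ^ (m + 1) / (m + 1) := by
  set γ : ℝ → ℂ := fun t => b0 + (t : ℂ) * (z - b0) with hγ
  have hseg : ∀ t ∈ Icc (0 : ℝ) 1, γ t ∈ V := by
    intro t ht
    have := hVc.add_smul_sub_mem hb hz ht
    simpa [hγ, Complex.real_smul] using this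
  have hγd : ∀ t : ℝ, HasDerivAt γ (z - b0) t := by
    intro t
    have h1 : HasDerivAt (fun t : ℝ => (t : ℂ)) 1 t := Complex.ofRealCLM.hasDerivAt
    have h2 := (h1.mul_const (z - b0)).const_add b0
    rw [one_mul] at h2
    exact h2
  have hd : ∀ t ∈ Icc (0 : ℝ) 1, HasDerivAt (fun t => G (γ t)) ((z - b0) • g (γ t)) t := by
    intro t ht
    exact (hG (γ t) (hseg t ht)).scomp t (hγd t)
  have key := image_norm_le_of_norm_deriv_right_le_deriv_boundary
    (f := fun t : ℝ => G (γ t)) (f' := fun t => (z - b0) • g (γ t)) (a := 0) (b := 1)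
    (fun t ht => (hd t ht).continuousAt.continuousWithinAt)
    (fun t ht => (hd t (Ico_subset_Icc_self ht)).hasDerivWithinAt)
    (B := fun t => C * ‖z - b0‖ ^ (m + 1) * t ^ (m + 1) / (m + 1))
    (B' := fun t => C * ‖z - b0‖ ^ (m + 1) * t ^ m)
    (by simp [hγ, h0])
    (by
      intro t
      have h1 := ((hasDerivAt_pow (m + 1) t).const_mul (C * ‖z - b0‖ ^ (m + 1))).div_const
        ((m : ℝ) + 1)
      refine h1.congr_deriv ?_
      have : (m : ℝ) + 1 ≠ 0 := by positivity
      rw [Nat.add_sub_cancel]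
      push_cast
      field_simp)
    (by
      intro t ht
      have h1 := hg (γ t) (hseg t (Ico_subset_Icc_self ht))
      have h2 : ‖γ t - b0‖ = t * ‖z - b0‖ := by
        simp [hγ, abs_of_nonneg ht.1]
      rw [h2] at h1
      calc ‖(z - b0) • g (γ t)‖ = ‖z - b0‖ * ‖g (γ t)‖ := norm_smul _ _
        _ ≤ ‖z - b0‖ * (C * (t * ‖z - b0‖) ^ m) := by gcongr
        _ = C * ‖z - b0‖ ^ (m + 1) * t ^ m := by ring)
    (right_mem_Icc.mpr zero_le_one)
  simpa [hγ] using key

/-- the solution operator of `G' = g`, `G b0 = 0` on a ball. -/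
theorem exists_prim [CompleteSpace E] {z0 : ℂ} {r : ℝ} (b0 : ℂ) {g : ℂ → E}
    (hg : DifferentiableOn ℂ g (ball z0 r)) :
    ∃ G : ℂ → E, G b0 = 0 ∧ ∀ z ∈ ball z0 r, HasDerivAt G (g z) z :=
  hg.isExactOn_ball.with_val_at b0 0

theorem diffOn_of {V : Set ℂ} {g G : ℂ → E} (hG : ∀ z ∈ V, HasDerivAt G (g z) z) :
    DifferentiableOn ℂ G V :=
  fun z hz => (hG z hz).differentiableAt.differentiableWithinAt

/-- uniqueness for linear ODEs on a convex open set. -/
theorem lin_ode_unique {V : Set ℂ} (hVc : Convex ℝ V) {b0 : ℂ} (hb : b0 ∈ V)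
    {A : ℂ → E →L[ℂ] E} (hA : ContinuousOn A V) {u : ℂ → E} (hu0 : u b0 = 0)
    (hu : ∀ z ∈ V, HasDerivAt u (A z (u z)) z) : ∀ z ∈ V, u z = 0 := by
  intro z hz
  set γ : ℝ → ℂ := fun t => b0 + (t : ℂ) * (z - b0) with hγ
  have hseg : ∀ t ∈ Icc (0 : ℝ) 1, γ t ∈ V := by
    intro t ht
    have := hVc.add_smul_sub_mem hb hz ht
    simpa [hγ, Complex.real_smul] using this
  have hγd : ∀ t : ℝ, HasDerivAt γ (z - b0) t := by
    intro t
    have h1 : HasDerivAt (fun t : ℝ => (t : ℂ)) 1 t := Complex.ofRealCLM.hasDerivAt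
    have h2 := (h1.mul_const (z - b0)).const_add b0
    rw [one_mul] at h2
    exact h2
  have hγc : Continuous γ := continuous_iff_continuousAt.mpr fun t => (hγd t).continuousAt
  obtain ⟨K, hK⟩ := (isCompact_Icc (a := (0 : ℝ)) (b := 1)).exists_bound_of_continuousOn
    (f := fun t => A (γ t)) (hA.comp hγc.continuousOn hseg)
  have hd : ∀ t ∈ Icc (0 : ℝ) 1,
      HasDerivAt (fun t => u (γ t)) ((z - b0) • A (γ t) (u (γ t))) t := by
    intro t ht
    exact (hu (γ t) (hseg t ht)).scomp t (hγd t)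
  have key := norm_le_gronwallBound_of_norm_deriv_right_le
    (f := fun t : ℝ => u (γ t)) (f' := fun t => (z - b0) • A (γ t) (u (γ t))) (δ := 0)
    (K := ‖z - b0‖ * K) (ε := 0) (a := 0) (b := 1)
    (fun t ht => (hd t ht).continuousAt.continuousWithinAt)
    (fun t ht => (hd t (Ico_subset_Icc_self ht)).hasDerivWithinAt)
    (by simp [hγ, hu0])
    (by
      intro t ht
      have h1 := hK t (Ico_subset_Icc_self ht)
      rw [norm_smul, add_zero, mul_assoc]
      gcongr
      exact (ContinuousLinearMap.le_opNorm _ _).trans (by gcongr))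
    1 (right_mem_Icc.mpr zero_le_one)
  have h2 : γ 1 = z := by simp [hγ]
  simp only [h2, sub_zero, gronwallBound_ε0_δ0] at key
  exact norm_le_zero_iff.mp key

/-- **(F1a)** a linear ODE with holomorphic coefficients on a disc. -/
theorem lin_ode [CompleteSpace E] {z0 : ℂ} {r : ℝ} {b0 : ℂ} (hb : b0 ∈ ball z0 r)
    {A : ℂ → E →L[ℂ] E} {f : ℂ → E} (hA : DifferentiableOn ℂ A (ball z0 r))
    (hf : DifferentiableOn ℂ f (ball z0 r)) (c : E) :
    ∃ u : ℂ → E, u b0 = c ∧ ∀ z ∈ ball z0 r, HasDerivAt u (A z (u z) + f z) z := by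
  classical
  -- the Picard terms
  have hstep : ∀ g : ℂ → E, ∃ G : ℂ → E, DifferentiableOn ℂ g (ball z0 r) →
      (G b0 = 0 ∧ ∀ z ∈ ball z0 r, HasDerivAt G (g z) z) := by
    intro g
    by_cases hg : DifferentiableOn ℂ g (ball z0 r)
    · obtain ⟨G, hG⟩ := exists_prim b0 hg
      exact ⟨G, fun _ => hG⟩
    · exact ⟨0, fun h => absurd h hg⟩
  choose P hP using hstep
  obtain ⟨v, hv0, hvs⟩ : ∃ v : ℕ → ℂ → E, v 0 = (fun z => c + P f z) ∧
      ∀ m, v (m + 1) = P (fun z => A z (v m z)) :=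
    ⟨fun m => Nat.rec (fun z => c + P f z) (fun _ w => P (fun z => A z (w z))) m, rfl,
      fun _ => rfl⟩
  have hvd : ∀ m, DifferentiableOn ℂ (v m) (ball z0 r) := by
    intro m
    induction m with
    | zero =>
      rw [hv0]
      exact (diffOn_of (hP f hf).2).const_add c
    | succ m ih =>
      rw [hvs]
      exact diffOn_of (hP _ (hA.clm_apply ih)).2
  have hvb : ∀ m, v (m + 1) b0 = 0 := fun m => by
    rw [hvs]; exact (hP _ (hA.clm_apply (hvd m))).1
  have hvD : ∀ m, ∀ z ∈ ball z0 r, HasDerivAt (v (m + 1)) (A z (v m z)) z := fun m => by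
    rw [hvs]; exact (hP _ (hA.clm_apply (hvd m))).2
  have hv0b : v 0 b0 = c := by rw [hv0]; simp [(hP f hf).1]
  have hv0D : ∀ z ∈ ball z0 r, HasDerivAt (v 0) (f z) z := by
    intro z hz
    rw [hv0]
    exact ((hP f hf).2 z hz).const_add c
  refine ⟨fun z => ∑' m, v m z, ?_, ?_⟩
  · show ∑' m, v m b0 = c
    rw [tsum_eq_single 0, hv0b]
    intro m hm
    obtain ⟨k, rfl⟩ := Nat.exists_eq_succ_of_ne_zero hm
    exact hvb k
  intro z hz
  -- a smaller ball containing `b0` and `z`
  obtain ⟨ρ, hρ1, hρ2⟩ : ∃ ρ, max (dist z z0) (dist b0 z0) < ρ ∧ ρ < r :=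
    exists_between (max_lt (mem_ball.mp hz) (mem_ball.mp hb))
  have hzρ : z ∈ ball z0 ρ := mem_ball.mpr (lt_of_le_of_lt (le_max_left _ _) hρ1)
  have hbρ : b0 ∈ ball z0 ρ := mem_ball.mpr (lt_of_le_of_lt (le_max_right _ _) hρ1)
  have hsub : closedBall z0 ρ ⊆ ball z0 r := closedBall_subset_ball hρ2
  have hsub' : ball z0 ρ ⊆ ball z0 r := ball_subset_closedBall.trans hsub
  obtain ⟨K, hK⟩ := (isCompact_closedBall z0 ρ).exists_bound_of_continuousOn
    (hA.continuousOn.mono hsub)
  obtain ⟨C, hC⟩ := (isCompact_closedBall z0 ρ).exists_bound_of_continuousOn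
    ((hvd 0).continuousOn.mono hsub)
  have hK0 : 0 ≤ K := (norm_nonneg _).trans (hK z (ball_subset_closedBall hzρ))
  have hC0 : 0 ≤ C := (norm_nonneg _).trans (hC z (ball_subset_closedBall hzρ))
  have hbd : ∀ m, ∀ w ∈ ball z0 ρ,
      ‖v m w‖ ≤ C * K ^ m / m.factorial * ‖w - b0‖ ^ m := by
    intro m
    induction m with
    | zero =>
      intro w hw
      simpa using hC w (ball_subset_closedBall hw)
    | succ m ih =>
      intro w hw
      have h1 := prim_bound (V := ball z0 ρ) (convex_ball z0 ρ) hbρ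
        (g := fun z => A z (v m z)) (G := v (m + 1)) (fun y hy => hvD m y (hsub' hy)) (hvb m)
        (C := K * (C * K ^ m / m.factorial)) (m := m) (by
          intro y hy
          calc ‖A y (v m y)‖ ≤ ‖A y‖ * ‖v m y‖ := ContinuousLinearMap.le_opNorm _ _
            _ ≤ K * (C * K ^ m / m.factorial * ‖y - b0‖ ^ m) := by
              gcongr
              · exact hK y (ball_subset_closedBall hy)
              · exact ih y hy
            _ = _ := by ring) hw
      refine h1.trans (le_of_eq ?_)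
      rw [Nat.factorial_succ]
      push_cast
      have h2 : (m.factorial : ℝ) ≠ 0 := by positivity
      have h3 : (m : ℝ) + 1 ≠ 0 := by positivity
      field_simp
      ring
  have hbd' : ∀ m, ∀ w ∈ ball z0 ρ, ‖v m w‖ ≤ C * ((K * (2 * ρ)) ^ m / m.factorial) := by
    intro m w hw
    refine (hbd m w hw).trans ?_
    have h1 : ‖w - b0‖ ≤ 2 * ρ := by
      rw [← dist_eq_norm]
      have := dist_triangle_right w b0 z0
      have h2 := mem_ball.mp hw
      have h3 := mem_ball.mp hbρ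
      linarith
    calc C * K ^ m / m.factorial * ‖w - b0‖ ^ m ≤ C * K ^ m / m.factorial * (2 * ρ) ^ m := by
          gcongr
      _ = _ := by rw [mul_pow]; ring
  have hsum : Summable fun m : ℕ => C * ((K * (2 * ρ)) ^ m / m.factorial) :=
    (Real.summable_pow_div_factorial _).mul_left C
  have hdiff := Complex.differentiableOn_tsum_of_summable_norm hsum
    (fun m => (hvd m).mono hsub') isOpen_ball hbd'
  have hder := Complex.hasSum_deriv_of_summable_norm hsum
    (fun m => (hvd m).mono hsub') isOpen_ball hbd' hzρ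
  have h4 : HasDerivAt (fun w => ∑' m, v m w) (deriv (fun w => ∑' m, v m w) z) z :=
    ((hdiff z hzρ).differentiableAt (isOpen_ball.mem_nhds hzρ)).hasDerivAt
  refine h4.congr_deriv ?_
  rw [← hder.tsum_eq, hder.summable.tsum_eq_zero_add, (hv0D z hz).deriv, add_comm]
  congr 1
  have hsz : Summable fun m => v m z :=
    Summable.of_norm_bounded hsum fun m => hbd' m z hzρ
  rw [(A z).map_tsum hsz]
  exact tsum_congr fun m => (hvD m z hz).deriv

end LinODE

end Crest.Agent.R102.F1201
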