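import Mathlib

/-!
# Row 102, [H3], F1 (helper201): formal deformations of differential algebras (algebraic part)

`R` a commutative `ℂ`-algebra with a derivation `D` and a point `ev : R →ₐ[ℂ] ℂ` such that linear
systems `D u = A u + f`, `ev u = c` are solvable (`Lin`) and `ev (D^m f) = 0` for all `m` implies
`f = 0` (`Idt`).  Then every `ψ : A₀ →ₐ[ℂ] ℂ⟦ε⟧` lifting the point `ev ∘ ρ` of a finitely generated
differential algebra `ρ : A₀ → R` extends uniquely to a differential homomorphism
`Φ : A₀ →ₐ[ℂ] R⟦ε⟧` lifting `ρ` (`exists_Phi`).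
-/

set_option autoImplicit false

noncomputable section

namespace Crest.Agent.R102.F1201

/-! ## Coefficientwise derivations -/

section DPS

variable {R : Type*} [CommRing R] [Algebra ℂ R]

/-- the coefficientwise derivation of `R⟦ε⟧`. -/
def dPS (D : Derivation ℂ R R) : Derivation ℂ (PowerSeries R) (PowerSeries R) :=
  Derivation.mk'
    { toFun := fun f => PowerSeries.mk fun k => D (PowerSeries.coeff k f)
      map_add' := fun f g => by ext k; simp
      map_smul' := fun c f => by ext k; simp }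
    (fun f g => by
      ext k
      simp only [LinearMap.coe_mk, AddHom.coe_mk, PowerSeries.coeff_mk, PowerSeries.coeff_mul,
        map_sum, Derivation.leibniz, smul_eq_mul, map_add]
      rw [Finset.sum_add_distrib]
      congr 1
      rw [← Finset.Nat.sum_antidiagonal_swap]
      rfl)

theorem coeff_dPS (D : Derivation ℂ R R) (k : ℕ) (f : PowerSeries R) :
    PowerSeries.coeff k (dPS D f) = D (PowerSeries.coeff k f) := by
  simp [dPS]

end DPS

/-! ## First order Taylor formula for polynomials -/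

section Taylor

open MvPolynomial

variable {n : ℕ} {S : Type*} [CommRing S] [Algebra ℂ S]

theorem taylor_aeval (X U : Fin n → S) (e : S) (P : MvPolynomial (Fin n) ℂ) :
    ∃ q : S, aeval (fun i => X i + e * U i) P =
      aeval X P + e * (∑ j, aeval X (pderiv j P) * U j) + e ^ 2 * q := by
  induction P using MvPolynomial.induction_on with
  | C a => exact ⟨0, by simp⟩
  | add P Q hP hQ =>
    obtain ⟨p, hp⟩ := hP
    obtain ⟨q, hq⟩ := hQ
    refine ⟨p + q, ?_⟩
    rw [map_add, hp, hq]
    simp only [map_add, add_mul, Finset.sum_add_distrib]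
    ring
  | mul_X P i hP =>
    obtain ⟨p, hp⟩ := hP
    refine ⟨p * X i + (∑ j, aeval X (pderiv j P) * U j) * U i + e * p * U i, ?_⟩
    rw [map_mul, hp, aeval_X, map_mul, aeval_X]
    have h1 : ∑ j, aeval X (pderiv j (P * MvPolynomial.X i)) * U j =
        (∑ j, aeval X (pderiv j P) * U j) * X i + aeval X P * U i := by
      simp only [Derivation.leibniz, smul_eq_mul, map_add, map_mul, aeval_X, pderiv_X, add_mul,
        Finset.sum_add_distrib]
      rw [add_comm, Finset.sum_mul]
      congr 1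
      · exact Finset.sum_congr rfl fun j _ => by ring
      · rw [Finset.sum_eq_single i]
        · simp
        · intro j _ hj
          simp [Ne.symm hj]
        · intro h; exact absurd (Finset.mem_univ i) h
    rw [h1]
    ring

end Taylor

/-! ## Congruences -/

section Congr

open MvPolynomial

variable {n : ℕ} {S : Type*} [CommRing S] [Algebra ℂ S]

theorem aeval_sub_mem (I : Ideal S) {X Y : Fin n → S} (h : ∀ i, X i - Y i ∈ I)
    (P : MvPolynomial (Fin n) ℂ) : aeval X P - aeval Y P ∈ I := by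
  rw [← Ideal.Quotient.mk_eq_mk_iff_sub_mem]
  have h1 : (Ideal.Quotient.mkₐ ℂ I).comp (aeval X) = (Ideal.Quotient.mkₐ ℂ I).comp (aeval Y) := by
    rw [comp_aeval, comp_aeval]
    congr 1
    funext i
    exact (Ideal.Quotient.mk_eq_mk_iff_sub_mem _ _).mpr (h i)
  exact DFunLike.congr_fun h1 P

variable {R : Type*} [CommRing R] [Algebra ℂ R]

theorem coeff_aeval_congr {X Y : Fin n → PowerSeries R} {k : ℕ}
    (h : ∀ i, ∀ m ≤ k, PowerSeries.coeff m (X i) = PowerSeries.coeff m (Y i))
    (P : MvPolynomial (Fin n) ℂ) {m : ℕ} (hm : m ≤ k) :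
    PowerSeries.coeff m (aeval X P) = PowerSeries.coeff m (aeval Y P) := by
  have h1 := aeval_sub_mem (Ideal.span {(PowerSeries.X : PowerSeries R) ^ (k + 1)}) (X := X)
    (Y := Y) (fun i => by
      rw [Ideal.mem_span_singleton, PowerSeries.X_pow_dvd_iff]
      intro m hm
      rw [map_sub, h i m (by omega), sub_self]) P
  rw [Ideal.mem_span_singleton, PowerSeries.X_pow_dvd_iff] at h1
  have h2 := h1 m (by omega)
  rw [map_sub, sub_eq_zero] at h2
  exact h2

theorem constantCoeff_aeval {X : Fin n → PowerSeries R} {x : Fin n → R}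
    (h : ∀ i, PowerSeries.coeff 0 (X i) = x i) (P : MvPolynomial (Fin n) ℂ) :
    PowerSeries.coeff 0 (aeval X P) = aeval x P := by
  have h1 : (PowerSeries.constantCoeff (R := R)) (aeval X P) = aeval x P := by
    induction P using MvPolynomial.induction_on with
    | C a =>
      rw [← MvPolynomial.algebraMap_eq, AlgHom.commutes, AlgHom.commutes]
      rw [PowerSeries.algebraMap_apply]
      simp
    | add P Q hP hQ => rw [map_add, map_add, map_add, hP, hQ]
    | mul_X P i hP =>
      rw [map_mul, map_mul, map_mul, hP, aeval_X, aeval_X, ← h i]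
      simp
  simpa using h1

theorem coeff_aeval_step {X : Fin n → PowerSeries R} {x u : Fin n → R} {k : ℕ}
    (h : ∀ i, PowerSeries.coeff 0 (X i) = x i) (P : MvPolynomial (Fin n) ℂ) :
    PowerSeries.coeff (k + 1)
      (aeval (fun i => X i + PowerSeries.X ^ (k + 1) * PowerSeries.C (u i)) P) =
    PowerSeries.coeff (k + 1) (aeval X P) + ∑ j, aeval x (pderiv j P) * u j := by
  obtain ⟨q, hq⟩ := taylor_aeval X (fun i => PowerSeries.C (u i))
    ((PowerSeries.X : PowerSeries R) ^ (k + 1)) P
  rw [hq, map_add, map_add]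
  have h1 : PowerSeries.coeff (k + 1) (((PowerSeries.X : PowerSeries R) ^ (k + 1)) ^ 2 * q) = 0 := by
    rw [← pow_mul]
    exact (PowerSeries.X_pow_dvd_iff.mp (Dvd.intro _ rfl)) _ (by omega)
  rw [h1, add_zero]
  congr 1
  have h2 := PowerSeries.coeff_X_pow_mul
    (∑ j, aeval X (pderiv j P) * PowerSeries.C (u j)) (k + 1) 0
  rw [zero_add] at h2
  rw [h2, map_sum]
  refine Finset.sum_congr rfl fun j _ => ?_
  rw [PowerSeries.coeff_mul_C, constantCoeff_aeval h]

end Congr

/-! ## Existence -/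

section Exist

open MvPolynomial

variable {R : Type*} [CommRing R] [Algebra ℂ R]

/-- solvability of linear systems. -/
def Lin (D : Derivation ℂ R R) (ev : R →ₐ[ℂ] ℂ) : Prop :=
  ∀ (n : ℕ) (A : Fin n → Fin n → R) (f : Fin n → R) (c : Fin n → ℂ),
    ∃ u : Fin n → R, (∀ i, ev (u i) = c i) ∧ ∀ i, D (u i) = (∑ j, A i j * u j) + f i

/-- the identity theorem. -/
def Idt (D : Derivation ℂ R R) (ev : R →ₐ[ℂ] ℂ) : Prop :=
  ∀ f : R, (∀ m : ℕ, ev (D^[m] f) = 0) → f = 0

/-- **(F1b)** existence of formal solutions. -/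
theorem exists_formal {D : Derivation ℂ R R} {ev : R →ₐ[ℂ] ℂ} (hlin : Lin D ev) {n : ℕ}
    {x : Fin n → R} {p : Fin n → MvPolynomial (Fin n) ℂ} (hx : ∀ i, D (x i) = aeval x (p i))
    (X0 : Fin n → PowerSeries ℂ) (h0 : ∀ i, PowerSeries.coeff 0 (X0 i) = ev (x i)) :
    ∃ X : Fin n → PowerSeries R, (∀ i, PowerSeries.coeff 0 (X i) = x i) ∧
      (∀ i, dPS D (X i) = aeval X (p i)) ∧
      ∀ i, PowerSeries.map (ev : R →+* ℂ) (X i) = X0 i := by
  classical
  -- one step
  have hstep : ∀ (k : ℕ) (Y : Fin n → PowerSeries R), ∃ u : Fin n → R,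
      (∀ i, ev (u i) = PowerSeries.coeff (k + 1) (X0 i)) ∧
      ∀ i, D (u i) = (∑ j, aeval x (pderiv j (p i)) * u j) +
        PowerSeries.coeff (k + 1) (aeval Y (p i)) := fun k Y =>
    hlin n (fun i j => aeval x (pderiv j (p i)))
      (fun i => PowerSeries.coeff (k + 1) (aeval Y (p i)))
      (fun i => PowerSeries.coeff (k + 1) (X0 i))
  choose st hst1 hst2 using hstep
  obtain ⟨Y, hY0, hYs⟩ : ∃ Y : ℕ → Fin n → PowerSeries R,
      Y 0 = (fun i => PowerSeries.C (x i)) ∧ ∀ k, Y (k + 1) =
        (fun i => Y k i + PowerSeries.X ^ (k + 1) * PowerSeries.C (st k (Y k) i)) :=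
    ⟨fun k => Nat.rec (fun i => PowerSeries.C (x i))
      (fun k Z => fun i => Z i + PowerSeries.X ^ (k + 1) * PowerSeries.C (st k Z i)) k, rfl,
      fun _ => rfl⟩
  have hcs : ∀ k i, PowerSeries.coeff (k + 1)
      ((PowerSeries.X : PowerSeries R) ^ (k + 1) * PowerSeries.C (st k (Y k) i)) =
        st k (Y k) i := by
    intro k i
    have := PowerSeries.coeff_X_pow_mul (PowerSeries.C (st k (Y k) i)) (k + 1) 0
    rw [zero_add] at this
    rw [this, PowerSeries.coeff_zero_C]
  have hcs' : ∀ k i m, m ≠ k + 1 → PowerSeries.coeff m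
      ((PowerSeries.X : PowerSeries R) ^ (k + 1) * PowerSeries.C (st k (Y k) i)) = 0 := by
    intro k i m hm
    rw [PowerSeries.coeff_X_pow_mul', PowerSeries.coeff_C]
    split_ifs with h1 h2
    · exact absurd (by omega) hm
    · rfl
    · rfl
  have hhigh : ∀ k i m, k < m → PowerSeries.coeff m (Y k i) = 0 := by
    intro k
    induction k with
    | zero =>
      intro i m hm
      rw [hY0]
      show PowerSeries.coeff m (PowerSeries.C (x i)) = 0
      rw [PowerSeries.coeff_C, if_neg (by omega)]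
    | succ k ih =>
      intro i m hm
      rw [hYs]
      show PowerSeries.coeff m (Y k i + _) = 0
      rw [map_add, ih i m (by omega), hcs' k i m (by omega), add_zero]
  have hlow : ∀ k i m, m ≤ k → PowerSeries.coeff m (Y (k + 1) i) = PowerSeries.coeff m (Y k i) := by
    intro k i m hm
    rw [hYs]
    show PowerSeries.coeff m (Y k i + _) = _
    rw [map_add, hcs' k i m (by omega), add_zero]
  have hstab : ∀ k l i m, m ≤ k → k ≤ l →
      PowerSeries.coeff m (Y l i) = PowerSeries.coeff m (Y k i) := by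
    intro k l i m hm hkl
    induction l, hkl using Nat.le_induction with
    | base => rfl
    | succ l hl ih => rw [hlow l i m (by omega), ih]
  have hzero : ∀ k i, PowerSeries.coeff 0 (Y k i) = x i := by
    intro k i
    rw [hstab 0 k i 0 le_rfl (Nat.zero_le _), hY0]
    show PowerSeries.coeff 0 (PowerSeries.C (x i)) = x i
    rw [PowerSeries.coeff_zero_C]
  have htop : ∀ k i, PowerSeries.coeff (k + 1) (Y (k + 1) i) = st k (Y k) i := by
    intro k i
    rw [hYs]
    show PowerSeries.coeff (k + 1) (Y k i + _) = _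
    rw [map_add, hhigh k i (k + 1) (by omega), hcs, zero_add]
  -- the equation at order `k`
  have heq : ∀ k i, D (PowerSeries.coeff k (Y k i)) = PowerSeries.coeff k (aeval (Y k) (p i)) := by
    intro k i
    cases k with
    | zero => rw [hzero, hx, constantCoeff_aeval (hzero 0)]
    | succ k =>
      rw [htop, hst2, hYs, coeff_aeval_step (hzero k), add_comm]
  set X : Fin n → PowerSeries R := fun i => PowerSeries.mk fun k => PowerSeries.coeff k (Y k i)
    with hX
  have hXY : ∀ k i m, m ≤ k → PowerSeries.coeff m (X i) = PowerSeries.coeff m (Y k i) := by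
    intro k i m hm
    rw [hX]
    show PowerSeries.coeff m (PowerSeries.mk fun k => PowerSeries.coeff k (Y k i)) = _
    rw [PowerSeries.coeff_mk, hstab m k i m le_rfl hm]
  refine ⟨X, fun i => ?_, fun i => ?_, fun i => ?_⟩
  · rw [hXY 0 i 0 le_rfl, hzero]
  · ext k
    rw [coeff_dPS, hXY k i k le_rfl, heq]
    exact (coeff_aeval_congr (fun i m hm => hXY k i m hm) (p i) le_rfl).symm
  · ext k
    rw [PowerSeries.coeff_map, hXY k i k le_rfl]
    cases k with
    | zero => rw [hzero, h0]; rfl
    | succ k => rw [htop]; exact hst1 k (Y k) i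

end Exist

/-! ## The homomorphism -/

section Phi

open MvPolynomial

variable {R : Type*} [CommRing R] [Algebra ℂ R]

/-- coefficientwise extension of an algebra hom, applied to power series, is an algebra hom. -/
theorem map_aeval_ps {n : ℕ} (ev : R →ₐ[ℂ] ℂ) (X : Fin n → PowerSeries R)
    (Q : MvPolynomial (Fin n) ℂ) :
    PowerSeries.map (ev : R →+* ℂ) (aeval X Q) =
      aeval (fun i => PowerSeries.map (ev : R →+* ℂ) (X i)) Q := by
  induction Q using MvPolynomial.induction_on with
  | C a =>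
    rw [← MvPolynomial.algebraMap_eq, AlgHom.commutes, AlgHom.commutes,
      PowerSeries.algebraMap_apply, PowerSeries.map_C]
    simp [PowerSeries.algebraMap_apply]
  | add P Q hP hQ => rw [map_add, map_add, map_add, hP, hQ]
  | mul_X P i hP => rw [map_mul, map_mul, map_mul, hP, aeval_X, aeval_X]

/-- the derivation of the polynomial ring. -/
theorem dPS_aeval {D : Derivation ℂ R R} {n : ℕ} {p : Fin n → MvPolynomial (Fin n) ℂ}
    {X : Fin n → PowerSeries R} (hX : ∀ i, dPS D (X i) = aeval X (p i))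
    (Q : MvPolynomial (Fin n) ℂ) : dPS D (aeval X Q) = aeval X (mkDerivation ℂ p Q) := by
  induction Q using MvPolynomial.induction_on with
  | C a =>
    rw [← MvPolynomial.algebraMap_eq, AlgHom.commutes, Derivation.map_algebraMap,
      Derivation.map_algebraMap, map_zero]
  | add P Q hP hQ => rw [map_add, map_add, map_add, map_add, hP, hQ]
  | mul_X P i hP =>
    rw [map_mul, Derivation.leibniz, Derivation.leibniz, aeval_X, hX, hP, mkDerivation_X]
    simp [smul_eq_mul]

theorem aeval_mkDerivation {A₀ : Type*} [CommRing A₀] [Algebra ℂ A₀] {δ : Derivation ℂ A₀ A₀}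
    {n : ℕ} {p : Fin n → MvPolynomial (Fin n) ℂ} {x : Fin n → A₀}
    (hx : ∀ i, δ (x i) = aeval x (p i)) (Q : MvPolynomial (Fin n) ℂ) :
    δ (aeval x Q) = aeval x (mkDerivation ℂ p Q) := by
  induction Q using MvPolynomial.induction_on with
  | C a =>
    rw [← MvPolynomial.algebraMap_eq, AlgHom.commutes, Derivation.map_algebraMap,
      Derivation.map_algebraMap, map_zero]
  | add P Q hP hQ => rw [map_add, map_add, map_add, map_add, hP, hQ]
  | mul_X P i hP =>
    rw [map_mul, Derivation.leibniz, Derivation.leibniz, aeval_X, hx, hP, mkDerivation_X]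
    simp [smul_eq_mul]

theorem coeff_iterate_dPS (D : Derivation ℂ R R) (f : PowerSeries R) (m k : ℕ) :
    PowerSeries.coeff k ((dPS D)^[m] f) = D^[m] (PowerSeries.coeff k f) := by
  induction m with
  | zero => rfl
  | succ m ih => rw [Function.iterate_succ_apply', coeff_dPS, ih, Function.iterate_succ_apply']

/-- two differential homs with the same value at the point are equal. -/
theorem Phi_unique {D : Derivation ℂ R R} {ev : R →ₐ[ℂ] ℂ} (hid : Idt D ev)
    {A₀ : Type*} [CommRing A₀] [Algebra ℂ A₀] {δ : Derivation ℂ A₀ A₀}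
    {ψ : A₀ → PowerSeries ℂ} {Φ Φ' : A₀ → PowerSeries R}
    (h1 : ∀ a, Φ (δ a) = dPS D (Φ a)) (h1' : ∀ a, Φ' (δ a) = dPS D (Φ' a))
    (h2 : ∀ a, PowerSeries.map (ev : R →+* ℂ) (Φ a) = ψ a)
    (h2' : ∀ a, PowerSeries.map (ev : R →+* ℂ) (Φ' a) = ψ a) (a : A₀) : Φ a = Φ' a := by
  have hit : ∀ (Φ : A₀ → PowerSeries R), (∀ a, Φ (δ a) = dPS D (Φ a)) → ∀ m a,
      Φ (δ^[m] a) = (dPS D)^[m] (Φ a) := by
    intro Φ h m
    induction m with
    | zero => intro a; rfl
    | succ m ih => intro a; rw [Function.iterate_succ_apply, ih, h, Function.iterate_succ_apply]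
  ext k
  rw [← sub_eq_zero]
  apply hid
  intro m
  have h3 : D^[m] (PowerSeries.coeff k (Φ a) - PowerSeries.coeff k (Φ' a)) =
      PowerSeries.coeff k (Φ (δ^[m] a)) - PowerSeries.coeff k (Φ' (δ^[m] a)) := by
    rw [hit Φ h1, hit Φ' h1', coeff_iterate_dPS, coeff_iterate_dPS]
    exact iterate_map_sub D m _ _
  rw [h3, map_sub]
  have h4 := congrArg (PowerSeries.coeff k) (h2 (δ^[m] a))
  have h5 := congrArg (PowerSeries.coeff k) (h2' (δ^[m] a))
  rw [PowerSeries.coeff_map] at h4 h5
  have h6 : ev (PowerSeries.coeff k (Φ (δ^[m] a))) = PowerSeries.coeff k (ψ (δ^[m] a)) := h4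
  have h7 : ev (PowerSeries.coeff k (Φ' (δ^[m] a))) = PowerSeries.coeff k (ψ (δ^[m] a)) := h5
  rw [h6, h7, sub_self]

/-- **(F1c)** the deformation homomorphism. -/
theorem exists_Phi {D : Derivation ℂ R R} {ev : R →ₐ[ℂ] ℂ} (hlin : Lin D ev) (hid : Idt D ev)
    {A₀ : Type*} [CommRing A₀] [Algebra ℂ A₀] [Algebra.FiniteType ℂ A₀]
    {δ : Derivation ℂ A₀ A₀} {ρ : A₀ →ₐ[ℂ] R} (hρ : ∀ a, ρ (δ a) = D (ρ a))
    {ψ : A₀ →ₐ[ℂ] PowerSeries ℂ} (hψ : ∀ a, PowerSeries.coeff 0 (ψ a) = ev (ρ a)) :
    ∃ Φ : A₀ →ₐ[ℂ] PowerSeries R, (∀ a, Φ (δ a) = dPS D (Φ a)) ∧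
      (∀ a, PowerSeries.coeff 0 (Φ a) = ρ a) ∧
      ∀ a, PowerSeries.map (ev : R →+* ℂ) (Φ a) = ψ a := by
  classical
  obtain ⟨n, π, hπ⟩ := Algebra.FiniteType.iff_quotient_mvPolynomial''.mp
    (inferInstance : Algebra.FiniteType ℂ A₀)
  set x : Fin n → A₀ := fun i => π (X i) with hxdef
  have hπx : π = aeval x := by
    rw [hxdef]
    exact MvPolynomial.algHom_ext (fun i => by simp)
  choose p hp using fun i => hπ (δ (x i))
  have hx : ∀ i, δ (x i) = aeval x (p i) := fun i => by rw [← hπx, hp]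
  have hρx : ∀ Q : MvPolynomial (Fin n) ℂ, ρ (aeval x Q) = aeval (fun i => ρ (x i)) Q := by
    intro Q
    exact DFunLike.congr_fun (comp_aeval x ρ) Q
  obtain ⟨Y, hY1, hY2, hY3⟩ := exists_formal hlin (x := fun i => ρ (x i)) (p := p)
    (fun i => by rw [← hρ, hx, hρx]) (fun i => ψ (x i)) (fun i => hψ (x i))
  have hker : RingHom.ker π.toRingHom ≤ RingHom.ker (aeval Y : MvPolynomial (Fin n) ℂ →ₐ[ℂ]
      PowerSeries R).toRingHom := by
    intro Q hQ
    have hQ' : aeval x Q = 0 := by rw [← hπx]; exact hQ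
    show aeval Y Q = 0
    ext k
    apply hid
    intro m
    rw [← coeff_iterate_dPS]
    have h1 : (dPS D)^[m] (aeval Y Q) = aeval Y ((mkDerivation ℂ p)^[m] Q) := by
      induction m with
      | zero => rfl
      | succ m ih =>
        rw [Function.iterate_succ_apply', ih, dPS_aeval hY2, Function.iterate_succ_apply']
    have h2 : ∀ m, aeval x ((mkDerivation ℂ p)^[m] Q) = 0 := by
      intro m
      induction m with
      | zero => exact hQ'
      | succ m ih =>
        rw [Function.iterate_succ_apply', ← aeval_mkDerivation hx, ih, map_zero]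
    rw [h1]
    have h3 := map_aeval_ps ev Y ((mkDerivation ℂ p)^[m] Q)
    have h4 : aeval (fun i => PowerSeries.map (ev : R →+* ℂ) (Y i)) ((mkDerivation ℂ p)^[m] Q) =
        ψ (aeval x ((mkDerivation ℂ p)^[m] Q)) := by
      rw [show (fun i => PowerSeries.map (ev : R →+* ℂ) (Y i)) = fun i => ψ (x i) from
        funext hY3]
      exact (DFunLike.congr_fun (comp_aeval x ψ) _).symm
    rw [h4, h2, map_zero] at h3
    have h5 := congrArg (PowerSeries.coeff k) h3
    rw [PowerSeries.coeff_map, map_zero] at h5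
    exact h5
  refine ⟨AlgHom.liftOfSurjective π hπ (aeval Y) hker, ?_, ?_, ?_⟩
  · intro a
    obtain ⟨Q, rfl⟩ := hπ a
    rw [AlgHom.liftOfSurjective_apply, dPS_aeval hY2]
    have : δ (π Q) = π (mkDerivation ℂ p Q) := by
      rw [hπx, aeval_mkDerivation hx]
    rw [this, AlgHom.liftOfSurjective_apply]
  · intro a
    obtain ⟨Q, rfl⟩ := hπ a
    rw [AlgHom.liftOfSurjective_apply, constantCoeff_aeval hY1, hπx, hρx]
  · intro a
    obtain ⟨Q, rfl⟩ := hπ a
    rw [AlgHom.liftOfSurjective_apply, map_aeval_ps, hπx]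
    rw [show (fun i => PowerSeries.map (ev : R →+* ℂ) (Y i)) = fun i => ψ (x i) from funext hY3]
    exact (DFunLike.congr_fun (comp_aeval x ψ) _).symm

end Phi

end Crest.Agent.R102.F1201
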