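import Crest.Agent.R102.F1_201
import Crest.Agent.R102.F1b_201

/-!
# Row 102, [H3], F1 (helper201): the instance for holomorphic functions on a disc.
-/

set_option autoImplicit false

open Set Filter Topology Metric

noncomputable section

namespace Crest.Agent.R102.F1201

/-! ## The ring of holomorphic functions on a set -/

section Hol

variable {E : Type*} [NormedAddCommGroup E] [NormedSpace ℂ E]

/-- holomorphic functions on `U` (functions on the subtype, so equality = equality on `U`). -/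
def Hol (U : Set E) : Subalgebra ℂ (U → ℂ) where
  carrier := {f | ∃ g : E → ℂ, DifferentiableOn ℂ g U ∧ ∀ z : U, f z = g z}
  mul_mem' := by
    rintro f1 f2 ⟨g1, h1, e1⟩ ⟨g2, h2, e2⟩
    exact ⟨fun z => g1 z * g2 z, h1.mul h2, fun z => by simp [e1, e2]⟩
  add_mem' := by
    rintro f1 f2 ⟨g1, h1, e1⟩ ⟨g2, h2, e2⟩
    exact ⟨fun z => g1 z + g2 z, h1.add h2, fun z => by simp [e1, e2]⟩
  algebraMap_mem' c := ⟨fun _ => c, differentiableOn_const c, fun z => rfl⟩

variable {U : Set E}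

/-- a representative on the whole space. -/
def rep (f : Hol U) : E → ℂ := Classical.choose f.2

theorem rep_diff (f : Hol U) : DifferentiableOn ℂ (rep f) U := (Classical.choose_spec f.2).1

theorem rep_apply (f : Hol U) (z : U) : (f : U → ℂ) z = rep f z :=
  (Classical.choose_spec f.2).2 z

/-- constructor. -/
def mkH (g : E → ℂ) (hg : DifferentiableOn ℂ g U) : Hol U := ⟨fun z => g z, g, hg, fun _ => rfl⟩

theorem rep_mkH (g : E → ℂ) (hg : DifferentiableOn ℂ g U) {z : E} (hz : z ∈ U) :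
    rep (mkH g hg) z = g z := (rep_apply (mkH g hg) ⟨z, hz⟩).symm

theorem hol_ext {f g : Hol U} (h : ∀ z ∈ U, rep f z = rep g z) : f = g := by
  apply Subtype.ext
  funext z
  rw [rep_apply, rep_apply]
  exact h z z.2

theorem rep_add (f g : Hol U) {z : E} (hz : z ∈ U) : rep (f + g) z = rep f z + rep g z := by
  have := rep_apply (f + g) ⟨z, hz⟩
  rw [← this, ← rep_apply f ⟨z, hz⟩, ← rep_apply g ⟨z, hz⟩]; rfl

theorem rep_mul (f g : Hol U) {z : E} (hz : z ∈ U) : rep (f * g) z = rep f z * rep g z := by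
  have := rep_apply (f * g) ⟨z, hz⟩
  rw [← this, ← rep_apply f ⟨z, hz⟩, ← rep_apply g ⟨z, hz⟩]; rfl

theorem rep_smul (c : ℂ) (f : Hol U) {z : E} (hz : z ∈ U) : rep (c • f) z = c * rep f z := by
  have := rep_apply (c • f) ⟨z, hz⟩
  rw [← this, ← rep_apply f ⟨z, hz⟩]; rfl

theorem rep_one {z : E} (hz : z ∈ U) : rep (1 : Hol U) z = 1 := by
  rw [← rep_apply (1 : Hol U) ⟨z, hz⟩]; rfl

theorem rep_zero {z : E} (hz : z ∈ U) : rep (0 : Hol U) z = 0 := by
  rw [← rep_apply (0 : Hol U) ⟨z, hz⟩]; rfl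

/-- evaluation. -/
def evH (z : U) : Hol U →ₐ[ℂ] ℂ := (Pi.evalAlgHom ℂ (fun _ : U => ℂ) z).comp (Hol U).val

theorem evH_apply (z : U) (f : Hol U) : evH z f = rep f z := by
  rw [← rep_apply]; rfl

end Hol

section Der

variable {U : Set ℂ}

/-- derivative. -/
def dFun (hU : IsOpen U) (f : Hol U) : Hol U := mkH (deriv (rep f)) ((rep_diff f).deriv hU)

theorem dFun_spec (hU : IsOpen U) (f : Hol U) {z : ℂ} (hz : z ∈ U) :
    HasDerivAt (rep f) (rep (dFun hU f) z) z := by
  rw [dFun, rep_mkH _ _ hz]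
  exact ((rep_diff f z hz).differentiableAt (hU.mem_nhds hz)).hasDerivAt

theorem dFun_eq (hU : IsOpen U) {f g : Hol U}
    (h : ∀ z ∈ U, HasDerivAt (rep f) (rep g z) z) : dFun hU f = g :=
  hol_ext fun z hz => (dFun_spec hU f hz).unique (h z hz)

/-- if `g = rep f` on `U` then derivatives of `g` are derivatives of `rep f`. -/
theorem hasDerivAt_rep (hU : IsOpen U) (f : Hol U) {g : ℂ → ℂ} {c z : ℂ} (hz : z ∈ U)
    (hg : HasDerivAt g c z) (h : ∀ w ∈ U, rep f w = g w) : HasDerivAt (rep f) c z :=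
  hg.congr_of_eventuallyEq (Filter.eventuallyEq_iff_exists_mem.mpr ⟨U, hU.mem_nhds hz, h⟩)

/-- the derivation `d/dz` of the ring of holomorphic functions. -/
def dH (hU : IsOpen U) : Derivation ℂ (Hol U) (Hol U) :=
  Derivation.mk'
    { toFun := dFun hU
      map_add' := fun f g => dFun_eq hU fun z hz => by
        rw [rep_add _ _ hz]
        exact hasDerivAt_rep hU _ hz ((dFun_spec hU f hz).add (dFun_spec hU g hz))
          fun w hw => rep_add _ _ hw
      map_smul' := fun c f => dFun_eq hU fun z hz => by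
        rw [RingHom.id_apply, rep_smul _ _ hz]
        exact hasDerivAt_rep hU _ hz ((dFun_spec hU f hz).const_mul c)
          fun w hw => rep_smul _ _ hw }
    (fun f g => dFun_eq hU fun z hz => by
      rw [rep_add _ _ hz, smul_eq_mul, smul_eq_mul, rep_mul _ _ hz, rep_mul _ _ hz]
      refine (hasDerivAt_rep hU _ hz ((dFun_spec hU f hz).mul (dFun_spec hU g hz))
          fun w hw => rep_mul _ _ hw).congr_deriv ?_
      show _ = rep f z * rep (dFun hU g) z + rep g z * rep (dFun hU f) z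
      ring)

theorem dH_spec (hU : IsOpen U) (f : Hol U) {z : ℂ} (hz : z ∈ U) :
    HasDerivAt (rep f) (rep (dH hU f) z) z := dFun_spec hU f hz

theorem dH_eq (hU : IsOpen U) {f g : Hol U}
    (h : ∀ z ∈ U, HasDerivAt (rep f) (rep g z) z) : dH hU f = g := dFun_eq hU h

/-- identity theorem. -/
theorem hol_eq_zero (hU : IsOpen U) (hc : IsPreconnected U) (f : Hol U) {z0 : ℂ} (hz0 : z0 ∈ U)
    (h : ∀ m : ℕ, rep ((dH hU)^[m] f) z0 = 0) : f = 0 := by
  have hder : ∀ m : ℕ, ∀ z ∈ U, iteratedDeriv m (rep f) z = rep ((dH hU)^[m] f) z := by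
    intro m
    induction m with
    | zero => intro z _; simp
    | succ m ih =>
      intro z hz
      rw [iteratedDeriv_succ, Function.iterate_succ_apply']
      have : iteratedDeriv m (rep f) =ᶠ[𝓝 z] rep ((dH hU)^[m] f) :=
        Filter.eventuallyEq_iff_exists_mem.mpr ⟨U, hU.mem_nhds hz, ih⟩
      rw [this.deriv_eq]
      exact (dH_spec hU _ hz).deriv
  have hA : AnalyticOnNhd ℂ (rep f) U := (rep_diff f).analyticOnNhd hU
  have htop : analyticOrderAt (rep f) z0 = ⊤ := by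
    rw [ENat.eq_top_iff_forall_ge]
    intro n
    rw [natCast_le_analyticOrderAt_iff_iteratedDeriv_eq_zero (hA z0 hz0)]
    intro i _
    rw [hder i z0 hz0, h i]
  have := hA.eqOn_zero_of_preconnected_of_eventuallyEq_zero hc hz0
    (analyticOrderAt_eq_top.mp htop)
  exact hol_ext fun z hz => by rw [this hz, rep_zero hz]; rfl

end Der

/-! ## Linear systems -/

section Sys

/-- **(F1a'), matrix form**: a linear system with holomorphic coefficients on a disc. -/
theorem lin_sys {z0 : ℂ} {r : ℝ} {b0 : ℂ} (hb : b0 ∈ ball z0 r) {n : ℕ}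
    {a : Fin n → Fin n → ℂ → ℂ} {f : Fin n → ℂ → ℂ}
    (ha : ∀ i j, DifferentiableOn ℂ (a i j) (ball z0 r))
    (hf : ∀ i, DifferentiableOn ℂ (f i) (ball z0 r)) (c : Fin n → ℂ) :
    ∃ u : Fin n → ℂ → ℂ, (∀ i, u i b0 = c i) ∧
      ∀ i, ∀ z ∈ ball z0 r, HasDerivAt (u i) ((∑ j, a i j z * u j z) + f i z) z := by
  classical
  set Ac : ℂ → (Fin n → ℂ) →L[ℂ] (Fin n → ℂ) := fun z => ∑ i, ∑ j,
    a i j z • ((ContinuousLinearMap.proj j : (Fin n → ℂ) →L[ℂ] ℂ).smulRight
      (Pi.single i (1 : ℂ) : Fin n → ℂ)) with hAc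
  have hAd : DifferentiableOn ℂ Ac (ball z0 r) := by
    rw [hAc]
    refine DifferentiableOn.fun_sum fun i _ => DifferentiableOn.fun_sum fun j _ => ?_
    exact (ha i j).smul_const _
  have hFd : DifferentiableOn ℂ (fun z => fun i => f i z) (ball z0 r) :=
    differentiableOn_pi.mpr hf
  obtain ⟨u, hu0, hu⟩ := lin_ode hb hAd hFd c
  refine ⟨fun i z => u z i, fun i => congrFun hu0 i, fun i z hz => ?_⟩
  have h1 := (hasDerivAt_pi.mp (hu z hz)) i
  refine h1.congr_deriv ?_
  rw [Pi.add_apply]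
  congr 1
  rw [hAc]
  simp only [sum_apply, smul_apply, ContinuousLinearMap.smulRight_apply, ContinuousLinearMap.proj_apply, Finset.sum_apply,
    Pi.smul_apply, smul_eq_mul]
  rw [Finset.sum_eq_single i]
  · exact Finset.sum_congr rfl fun j _ => by simp
  · intro k _ hk
    exact Finset.sum_eq_zero fun j _ => by simp [Ne.symm hk]
  · intro h; exact absurd (Finset.mem_univ i) h

theorem lin_hol {z0 : ℂ} {r : ℝ} (b0 : ball z0 r) :
    Lin (dH (isOpen_ball (x := z0) (ε := r))) (evH b0) := by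
  intro n A f c
  obtain ⟨u, hu0, hu⟩ := lin_sys b0.2 (a := fun i j => rep (A i j)) (f := fun i => rep (f i))
    (fun i j => rep_diff _) (fun i => rep_diff _) c
  have hd : ∀ i, DifferentiableOn ℂ (u i) (ball z0 r) := fun i z hz =>
    (hu i z hz).differentiableAt.differentiableWithinAt
  refine ⟨fun i => mkH (u i) (hd i), fun i => ?_, fun i => ?_⟩
  · rw [evH_apply, rep_mkH _ _ b0.2, hu0]
  · apply dH_eq
    intro z hz
    have h1 : rep ((∑ j, A i j * mkH (u j) (hd j)) + f i) z =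
        (∑ j, rep (A i j) z * u j z) + rep (f i) z := by
      have e : ∀ g : Hol (ball z0 r), rep g z = evH ⟨z, hz⟩ g := fun g => (evH_apply ⟨z, hz⟩ g).symm
      rw [e, map_add, map_sum, ← e]
      congr 1
      refine Finset.sum_congr rfl fun j _ => ?_
      rw [map_mul, ← e, ← e, rep_mkH _ _ hz]
    rw [h1]
    exact hasDerivAt_rep isOpen_ball _ hz (hu i z hz) fun w hw => rep_mkH _ _ hw

theorem idt_hol {z0 : ℂ} {r : ℝ} (b0 : ball z0 r) :
    Idt (dH (isOpen_ball (x := z0) (ε := r))) (evH b0) := by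
  intro f hf
  refine hol_eq_zero isOpen_ball (convex_ball z0 r).isPreconnected f b0.2 fun m => ?_
  rw [← evH_apply b0]
  exact hf m

/-- **(F1)** the deformation homomorphism for holomorphic functions on a disc. -/
theorem exists_Phi_hol {z0 : ℂ} {r : ℝ} (b0 : ball z0 r)
    {A₀ : Type*} [CommRing A₀] [Algebra ℂ A₀] [Algebra.FiniteType ℂ A₀]
    {δ : Derivation ℂ A₀ A₀} {ρ : A₀ →ₐ[ℂ] Hol (ball z0 r)}
    (hρ : ∀ a, ρ (δ a) = dH isOpen_ball (ρ a))
    {ψ : A₀ →ₐ[ℂ] PowerSeries ℂ} (hψ : ∀ a, PowerSeries.coeff 0 (ψ a) = evH b0 (ρ a)) :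
    ∃ Φ : A₀ →ₐ[ℂ] PowerSeries (Hol (ball z0 r)), (∀ a, Φ (δ a) = dPS (dH isOpen_ball) (Φ a)) ∧
      (∀ a, PowerSeries.coeff 0 (Φ a) = ρ a) ∧
      ∀ a, PowerSeries.map (evH b0 : Hol (ball z0 r) →+* ℂ) (Φ a) = ψ a :=
  exists_Phi (lin_hol b0) (idt_hol b0) hρ hψ

end Sys

end Crest.Agent.R102.F1201
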