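import Mathlib

/-!
Row 102, part (C), H3 / (RAT), leaf F2: the sign flips (pure algebra).
-/

set_option linter.unusedSectionVars false

namespace Crest.Agent.R102.Sign985

open PowerSeries

section kummer

variable {K Ω : Type*} [Field K] [Field Ω] [Algebra K Ω] [CharZero K] {ι : Type*} [DecidableEq ι]

theorem adj_integral (α : ι → K) (r : ι → Ω) (hr : ∀ i, r i ^ 2 = algebraMap K Ω (α i))
    (S : Set ι) {x : Ω} (hx : x ∈ Algebra.adjoin K (r '' S)) : IsIntegral K x := by
  have hle : Algebra.adjoin K (r '' S) ≤ integralClosure K Ω := by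
    refine Algebra.adjoin_le ?_
    rintro _ ⟨i, -, rfl⟩
    refine IsIntegral.of_pow (n := 2) (by norm_num) ?_
    rw [hr]
    exact isIntegral_algebraMap
  exact hle hx

theorem adj_inv (α : ι → K) (r : ι → Ω) (hr : ∀ i, r i ^ 2 = algebraMap K Ω (α i))
    (S : Set ι) {x : Ω} (hx : x ∈ Algebra.adjoin K (r '' S)) :
    x⁻¹ ∈ Algebra.adjoin K (r '' S) :=
  (Algebra.adjoin K (r '' S)).inv_mem_of_algebraic (x := ⟨x, hx⟩)
    (adj_integral α r hr S hx).isAlgebraic

/-- elements of `K(r_S, r_j)` are `u + v r_j` -/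
theorem adj_insert (α : ι → K) (r : ι → Ω) (hr : ∀ i, r i ^ 2 = algebraMap K Ω (α i))
    (S : Set ι) (j : ι) {x : Ω} (hx : x ∈ Algebra.adjoin K (r '' (insert j S))) :
    ∃ u ∈ Algebra.adjoin K (r '' S), ∃ v ∈ Algebra.adjoin K (r '' S), x = u + v * r j := by
  set L := Algebra.adjoin K (r '' S) with hL
  refine Algebra.adjoin_induction (p := fun x _ => ∃ u ∈ L, ∃ v ∈ L, x = u + v * r j)
    ?_ ?_ ?_ ?_ hx
  · rintro _ ⟨i, hi, rfl⟩
    rcases Set.mem_insert_iff.mp hi with rfl | hi
    · exact ⟨0, L.zero_mem, 1, L.one_mem, by ring⟩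
    · exact ⟨r i, Algebra.subset_adjoin ⟨i, hi, rfl⟩, 0, L.zero_mem, by ring⟩
  · intro c
    exact ⟨algebraMap K Ω c, L.algebraMap_mem c, 0, L.zero_mem, by ring⟩
  · rintro x y - - ⟨u, hu, v, hv, rfl⟩ ⟨u', hu', v', hv', rfl⟩
    exact ⟨u + u', L.add_mem hu hu', v + v', L.add_mem hv hv', by ring⟩
  · rintro x y - - ⟨u, hu, v, hv, rfl⟩ ⟨u', hu', v', hv', rfl⟩
    refine ⟨u * u' + v * v' * algebraMap K Ω (α j), ?_, u * v' + v * u', ?_, ?_⟩
    · exact L.add_mem (L.mul_mem hu hu') (L.mul_mem (L.mul_mem hv hv') (L.algebraMap_mem _))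
    · exact L.add_mem (L.mul_mem hu hv') (L.mul_mem hv hu')
    · rw [← hr]
      ring

/-- Kummer theory for square roots -/
theorem kummer (α : ι → K) (r : ι → Ω) (hr : ∀ i, r i ^ 2 = algebraMap K Ω (α i))
    (hα : ∀ i, α i ≠ 0) (S : Finset ι) : ∀ x : Ω, (∃ c : K, x ^ 2 = algebraMap K Ω c) →
      x ∈ Algebra.adjoin K (r '' (S : Set ι)) →
      ∃ I ⊆ S, ∃ c : K, x * ∏ i ∈ I, r i = algebraMap K Ω c := by
  have h2 : (2 : Ω) ≠ 0 := by
    have : CharZero Ω := charZero_of_injective_algebraMap (algebraMap K Ω).injective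
    exact two_ne_zero
  induction S using Finset.induction_on with
  | empty =>
    rintro x - hx
    simp only [Finset.coe_empty, Set.image_empty, Algebra.adjoin_empty] at hx
    obtain ⟨c, rfl⟩ := Algebra.mem_bot.mp hx
    exact ⟨∅, le_rfl, c, by simp⟩
  | insert j S hj ih =>
    rintro x ⟨c, hc⟩ hx
    rw [Finset.coe_insert] at hx
    obtain ⟨u, hu, v, hv, rfl⟩ := adj_insert α r hr _ j hx
    set L := Algebra.adjoin K (r '' (S : Set ι)) with hL
    by_cases hrj : r j ∈ L
    · obtain ⟨I, hI, d, hd⟩ := ih _ ⟨c, hc⟩ (L.add_mem hu (L.mul_mem hv hrj))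
      exact ⟨I, hI.trans (Finset.subset_insert j S), d, hd⟩
    · have huv : u * v = 0 := by
        by_contra hne
        apply hrj
        have h3 : r j = (algebraMap K Ω c - u ^ 2 - v ^ 2 * algebraMap K Ω (α j)) *
            (2 * (u * v))⁻¹ := by
          rw [eq_mul_inv_iff_mul_eq₀ (mul_ne_zero h2 hne), ← hc, ← hr]
          ring
        rw [h3]
        refine L.mul_mem (L.sub_mem (L.sub_mem (L.algebraMap_mem _) (L.pow_mem hu 2))
          (L.mul_mem (L.pow_mem hv 2) (L.algebraMap_mem _))) ?_
        exact adj_inv α r hr _ (L.mul_mem (by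
          have : (2 : Ω) = algebraMap K Ω 2 := (map_ofNat _ 2).symm
          rw [this]
          exact L.algebraMap_mem 2) (L.mul_mem hu hv))
      rcases mul_eq_zero.mp huv with h0 | h0
      · subst h0
        have hx2 : v * algebraMap K Ω (α j) ∈ L := L.mul_mem hv (L.algebraMap_mem _)
        obtain ⟨I, hI, d, hd⟩ := ih (v * algebraMap K Ω (α j)) ⟨c * α j, by
          rw [map_mul, ← hc, ← hr]
          ring⟩ hx2
        refine ⟨insert j I, Finset.insert_subset_insert j hI, d, ?_⟩
        rw [Finset.prod_insert (fun h => hj (hI h)), ← hd, ← hr]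
        ring
      · subst h0
        obtain ⟨I, hI, d, hd⟩ := ih u ⟨c, by simpa using hc⟩ hu
        exact ⟨I, hI.trans (Finset.subset_insert j S), d, by simpa using hd⟩

variable [Fintype ι]

/-- if no nonempty product of the `α_i` is a square, then `r_j` is not in the field generated by
the others -/
theorem notMem (α : ι → K) (r : ι → Ω) (hr : ∀ i, r i ^ 2 = algebraMap K Ω (α i))
    (hns : ∀ I : Finset ι, I.Nonempty → ¬ IsSquare (∏ i ∈ I, α i)) (j : ι) :
    r j ∉ Algebra.adjoin K (r '' ((Finset.univ.erase j : Finset ι) : Set ι)) := by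
  have hα : ∀ i, α i ≠ 0 := by
    intro i h0
    refine hns {i} (by simp) ?_
    rw [Finset.prod_singleton, h0]
    exact ⟨0, by simp⟩
  intro hmem
  obtain ⟨I, hI, c, hc⟩ := kummer α r hr hα _ (r j) ⟨α j, hr j⟩ hmem
  have hj : j ∉ I := fun h => by simpa using hI h
  refine hns (insert j I) (by simp) ⟨c, ?_⟩
  apply (algebraMap K Ω).injective
  rw [map_mul, ← hc, Finset.prod_insert hj, map_mul, map_prod, ← hr]
  simp_rw [← hr]
  rw [Finset.prod_pow]
  ring

theorem flip1 (α : ι → K) (x : ι → Ω) (hx : ∀ i, x i ^ 2 = algebraMap K Ω (α i))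
    (hns : ∀ I : Finset ι, I.Nonempty → ¬ IsSquare (∏ i ∈ I, α i)) (j : ι)
    (P : MvPolynomial ι K) (h : MvPolynomial.aeval x P = 0) :
    MvPolynomial.aeval (Function.update x j (- x j)) P = 0 := by
  set L := Algebra.adjoin K (x '' ((Finset.univ.erase j : Finset ι) : Set ι)) with hL
  have key : ∀ P : MvPolynomial ι K, ∃ u ∈ L, ∃ v ∈ L,
      MvPolynomial.aeval x P = u + v * x j ∧
      MvPolynomial.aeval (Function.update x j (- x j)) P = u - v * x j := by
    intro P
    induction P using MvPolynomial.induction_on with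
    | C c => exact ⟨algebraMap K Ω c, L.algebraMap_mem c, 0, L.zero_mem, by simp, by simp⟩
    | add p q hp hq =>
      obtain ⟨u, hu, v, hv, h1, h2⟩ := hp
      obtain ⟨u', hu', v', hv', h1', h2'⟩ := hq
      exact ⟨u + u', L.add_mem hu hu', v + v', L.add_mem hv hv',
        by rw [map_add, h1, h1']; ring, by rw [map_add, h2, h2']; ring⟩
    | mul_X p i hp =>
      obtain ⟨u, hu, v, hv, h1, h2⟩ := hp
      by_cases hij : i = j
      · subst hij
        refine ⟨v * algebraMap K Ω (α i), L.mul_mem hv (L.algebraMap_mem _), u, hu, ?_, ?_⟩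
        · rw [map_mul, h1, MvPolynomial.aeval_X, ← hx]
          ring
        · rw [map_mul, h2, MvPolynomial.aeval_X, Function.update_self, ← hx]
          ring
      · have hi : x i ∈ L := Algebra.subset_adjoin ⟨i, by simpa using hij, rfl⟩
        refine ⟨u * x i, L.mul_mem hu hi, v * x i, L.mul_mem hv hi, ?_, ?_⟩
        · rw [map_mul, h1, MvPolynomial.aeval_X]
          ring
        · rw [map_mul, h2, MvPolynomial.aeval_X, Function.update_of_ne hij]
          ring
  obtain ⟨u, hu, v, hv, h1, h2⟩ := key P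
  have hv0 : v = 0 := by
    by_contra hne
    refine notMem α x hx hns j ?_
    have h3 : x j = - u * v⁻¹ := by
      rw [eq_mul_inv_iff_mul_eq₀ hne]
      rw [h] at h1
      linear_combination -h1
    rw [h3]
    exact L.mul_mem (L.neg_mem hu) (adj_inv α x hx _ hv)
  rw [h2, hv0]
  rw [h, hv0] at h1
  simp at h1 ⊢
  exact h1.symm

/-- the sign vectors -/
noncomputable def sv (x : ι → Ω) (e : ι → Bool) : ι → Ω := fun i => if e i then x i else - x i

theorem sv_sq (α : ι → K) (x : ι → Ω) (hx : ∀ i, x i ^ 2 = algebraMap K Ω (α i)) (e : ι → Bool) :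
    ∀ i, sv x e i ^ 2 = algebraMap K Ω (α i) := by
  intro i
  unfold sv
  split_ifs
  · exact hx i
  · rw [neg_sq]
    exact hx i

theorem flip (α : ι → K) (x : ι → Ω) (hx : ∀ i, x i ^ 2 = algebraMap K Ω (α i))
    (hns : ∀ I : Finset ι, I.Nonempty → ¬ IsSquare (∏ i ∈ I, α i))
    (P : MvPolynomial ι K) (e e' : ι → Bool) (h : MvPolynomial.aeval (sv x e) P = 0) :
    MvPolynomial.aeval (sv x e') P = 0 := by
  -- change the coordinates of `e` one after the other
  have key : ∀ S : Finset ι, MvPolynomial.aeval (sv x (fun i => if i ∈ S then e' i else e i)) P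
      = 0 := by
    intro S
    induction S using Finset.induction_on with
    | empty => simpa using h
    | insert j S hj ih =>
      by_cases hc : e' j = e j
      · have : (fun i => if i ∈ insert j S then e' i else e i) =
            fun i => if i ∈ S then e' i else e i := by
          funext i
          by_cases hij : i = j
          · subst hij
            simp [hj, hc]
          · simp [hij]
        rw [this]
        exact ih
      · have h1 := flip1 α _ (sv_sq α x hx _) hns j P ih
        have h2 : Function.update (sv x fun i => if i ∈ S then e' i else e i) j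
            (-(sv x fun i => if i ∈ S then e' i else e i) j) =
            sv x (fun i => if i ∈ insert j S then e' i else e i) := by
          funext i
          by_cases hij : i = j
          · subst hij
            rw [Function.update_self]
            simp only [sv, hj, if_false, Finset.mem_insert_self, if_true]
            cases h3 : e i <;> cases h4 : e' i <;> simp_all
          · rw [Function.update_of_ne hij]
            simp [sv, hij]
        rw [h2] at h1
        exact h1
  have := key Finset.univ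
  simpa using this

end kummer

section squares

variable {k : Type*} [Field k] [CharZero k]

/-- no nonempty product of distinct `1 - a_i X`, `a_i ≠ 0`, is a square of a polynomial -/
theorem not_sq_poly {ι : Type*} [DecidableEq ι] (a : ι → k) (ha : Function.Injective a)
    (ha0 : ∀ i, a i ≠ 0) (I : Finset ι) (hI : I.Nonempty) (q : Polynomial k)
    (hq : q ^ 2 = ∏ i ∈ I, (1 - Polynomial.C (a i) * Polynomial.X)) : False := by
  obtain ⟨i0, hi0⟩ := hI
  have h1 : (q ^ 2).eval (a i0)⁻¹ = 0 := by
    rw [hq, Polynomial.eval_prod]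
    refine Finset.prod_eq_zero hi0 ?_
    simp [ha0 i0]
  have h2 : q.eval (a i0)⁻¹ = 0 := by
    rw [Polynomial.eval_pow] at h1
    exact pow_eq_zero_iff (by norm_num) |>.mp h1
  have h3 : (Polynomial.derivative (q ^ 2)).eval (a i0)⁻¹ = 0 := by
    rw [Polynomial.derivative_pow]
    simp [h2]
  rw [hq, ← Finset.mul_prod_erase _ _ hi0, Polynomial.derivative_mul, Polynomial.eval_add,
    Polynomial.eval_mul, Polynomial.eval_mul] at h3
  have h4 : (1 - Polynomial.C (a i0) * Polynomial.X).eval (a i0)⁻¹ = 0 := by simp [ha0 i0]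
  rw [h4, zero_mul, add_zero, Polynomial.eval_prod] at h3
  rcases mul_eq_zero.mp h3 with h5 | h5
  · simp at h5
    exact ha0 i0 h5
  · obtain ⟨i, hi, hi2⟩ := Finset.prod_eq_zero_iff.mp h5
    have hne : i ≠ i0 := (Finset.mem_erase.mp hi).1
    simp only [Polynomial.eval_sub, Polynomial.eval_one, Polynomial.eval_mul, Polynomial.eval_C,
      Polynomial.eval_X] at hi2
    apply hne
    apply ha
    have h0 := ha0 i0
    field_simp at hi2
    linear_combination -hi2

theorem not_isSquare {ι : Type*} [DecidableEq ι] (a : ι → k) (ha : Function.Injective a)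
    (ha0 : ∀ i, a i ≠ 0) (I : Finset ι) (hI : I.Nonempty) :
    ¬ IsSquare (∏ i ∈ I, algebraMap (Polynomial k) (FractionRing (Polynomial k))
      (1 - Polynomial.C (a i) * Polynomial.X)) := by
  rintro ⟨x, hx⟩
  rw [← map_prod] at hx
  have hint : IsIntegral (Polynomial k) (x ^ 2) := by
    rw [sq, ← hx]
    exact isIntegral_algebraMap
  obtain ⟨q, rfl⟩ := IsIntegrallyClosed.exists_algebraMap_eq_of_isIntegral_pow
    (by norm_num : 0 < 2) hint
  refine not_sq_poly a ha ha0 I hI q ?_
  apply IsFractionRing.injective (Polynomial k) (FractionRing (Polynomial k))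
  rw [hx, sq, map_mul]

end squares

section main

variable {H : Type*} [CommRing H] [IsDomain H] [CharZero H]

/-- **Leaf F2**: the sign flips. -/
theorem sign_flips {N : ℕ} (a : Fin N → H) (ha : Function.Injective a) (ha0 : ∀ j, a j ≠ 0)
    (r : Fin N → H⟦X⟧) (hr : ∀ j, r j ^ 2 = 1 - C (a j) * X)
    (hr0 : ∀ j, constantCoeff (r j) = 1) :
    ∃ B : Subring ((Fin N → Bool) → H⟦X⟧),
      (∀ h : H, (fun _ => C h) ∈ B) ∧ ((fun _ => X) ∈ B) ∧
      (∀ j, (fun e : Fin N → Bool => if e j then r j else - r j) ∈ B) ∧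
      (∀ j, ∃ s : H⟦X⟧, r j * s = 1 ∧ (fun e : Fin N → Bool => if e j then s else - s) ∈ B) ∧
      ∀ b ∈ B, ∀ e e', b e = 0 → b e' = 0 := by
  classical
  let k := FractionRing H
  have hck : CharZero k := charZero_of_injective_algebraMap (IsFractionRing.injective H k)
  let K := FractionRing (Polynomial k)
  let Ω := FractionRing (PowerSeries k)
  -- the embedding of `H[[X]]` in `Ω`
  let i0 : H⟦X⟧ →+* k⟦X⟧ := PowerSeries.map (algebraMap H k)
  have hi0C : ∀ h : H, i0 (C h) = C (algebraMap H k h) := fun h => PowerSeries.map_C _ _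
  have hi0X : i0 X = X := PowerSeries.map_X _
  have hi0 : Function.Injective i0 :=
    PowerSeries.map_injective _ (IsFractionRing.injective H k)
  let i1 : k⟦X⟧ →+* Ω := algebraMap _ _
  have hi1 : Function.Injective i1 := IsFractionRing.injective _ _
  let i : H⟦X⟧ →+* Ω := i1.comp i0
  have hi : Function.Injective i := hi1.comp hi0
  -- the embedding of `K` in `Ω`
  let j0 : Polynomial k →+* k⟦X⟧ := Polynomial.coeToPowerSeries.ringHom
  have hj0 : Function.Injective j0 := Polynomial.coe_injective k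
  let j1 : Polynomial k →+* Ω := i1.comp j0
  have hj1 : Function.Injective j1 := hi1.comp hj0
  let j : K →+* Ω := IsFractionRing.lift (A := Polynomial k) (g := j1) hj1
  have hj : ∀ p : Polynomial k, j (algebraMap _ K p) = i1 (p : k⟦X⟧) := fun p =>
    IsFractionRing.lift_algebraMap hj1 p
  let _ : Algebra K Ω := j.toAlgebra
  have halg : ∀ p : Polynomial k, algebraMap K Ω (algebraMap _ K p) = i1 (p : k⟦X⟧) := hj
  let α : Fin N → K := fun m => algebraMap (Polynomial k) K
    (1 - Polynomial.C (algebraMap H k (a m)) * Polynomial.X)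
  let x : Fin N → Ω := fun m => i (r m)
  have hxα : ∀ m, x m ^ 2 = algebraMap K Ω (α m) := by
    intro m
    have h1 : i0 (1 - C (a m) * X) =
        ((1 - Polynomial.C (algebraMap H k (a m)) * Polynomial.X : Polynomial k) : k⟦X⟧) := by
      rw [map_sub, map_one, map_mul, hi0C, hi0X]
      simp
    rw [halg, ← map_pow, hr, ← h1]
    rfl
  have hns : ∀ I : Finset (Fin N), I.Nonempty → ¬ IsSquare (∏ i ∈ I, α i) := fun I hI =>
    not_isSquare (fun m => algebraMap H k (a m)) ((IsFractionRing.injective H k).comp ha)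
      (fun m h0 => ha0 m ((map_eq_zero_iff _ (IsFractionRing.injective H k)).mp h0)) I hI
  have hα0 : ∀ m, α m ≠ 0 := by
    intro m h0
    refine hns {m} (by simp) ?_
    rw [Finset.prod_singleton, h0]
    exact ⟨0, by simp⟩
  have hsv : ∀ e m, sv x e m = i (if e m then r m else - r m) := by
    intro e m
    unfold sv
    split_ifs
    · rfl
    · simp [x]
  let B : Subring ((Fin N → Bool) → H⟦X⟧) :=
    { carrier := {b | ∃ P : MvPolynomial (Fin N) K, ∀ e, i (b e) = MvPolynomial.aeval (sv x e) P}
      mul_mem' := by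
        rintro b c ⟨P, hP⟩ ⟨Q, hQ⟩
        exact ⟨P * Q, fun e => by rw [Pi.mul_apply, map_mul, map_mul, hP, hQ]⟩
      one_mem' := ⟨1, fun e => by simp⟩
      add_mem' := by
        rintro b c ⟨P, hP⟩ ⟨Q, hQ⟩
        exact ⟨P + Q, fun e => by rw [Pi.add_apply, map_add, map_add, hP, hQ]⟩
      zero_mem' := ⟨0, fun e => by simp⟩
      neg_mem' := by
        rintro b ⟨P, hP⟩
        exact ⟨-P, fun e => by rw [Pi.neg_apply, map_neg, map_neg, hP]⟩ }
  refine ⟨B, ?_, ?_, ?_, ?_, ?_⟩
  · intro h
    refine ⟨MvPolynomial.C (algebraMap (Polynomial k) K (Polynomial.C (algebraMap H k h))),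
      fun e => ?_⟩
    rw [MvPolynomial.aeval_C, halg]
    have h1 : i0 (C h) = ((Polynomial.C (algebraMap H k h) : Polynomial k) : k⟦X⟧) := by
      rw [hi0C, Polynomial.coe_C]
    rw [← h1]
    rfl
  · refine ⟨MvPolynomial.C (algebraMap (Polynomial k) K Polynomial.X), fun e => ?_⟩
    rw [MvPolynomial.aeval_C, halg]
    have h1 : i0 X = ((Polynomial.X : Polynomial k) : k⟦X⟧) := by
      rw [hi0X, Polynomial.coe_X]
    rw [← h1]
    rfl
  · intro m
    exact ⟨MvPolynomial.X m, fun e => by rw [MvPolynomial.aeval_X, hsv]⟩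
  · intro m
    have hu : IsUnit (r m) := by
      rw [PowerSeries.isUnit_iff_constantCoeff, hr0]
      exact isUnit_one
    obtain ⟨s, hs⟩ := hu.exists_right_inv
    refine ⟨s, hs, MvPolynomial.C (α m)⁻¹ * MvPolynomial.X m, fun e => ?_⟩
    have hne : sv x e m ≠ 0 := by
      intro h0
      have := sv_sq α x hxα e m
      rw [h0] at this
      have h2 : algebraMap K Ω (α m) = 0 := by rw [← this]; simp
      exact hα0 m ((map_eq_zero_iff _ (algebraMap K Ω).injective).mp h2)
    rw [map_mul, MvPolynomial.aeval_C, MvPolynomial.aeval_X, map_inv₀, ← sv_sq α x hxα e m]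
    have h3 : i (if e m then s else - s) * sv x e m = 1 := by
      rw [hsv, ← map_mul]
      split_ifs
      · rw [mul_comm, hs, map_one]
      · rw [neg_mul_neg, mul_comm, hs, map_one]
    rw [eq_comm, inv_mul_eq_iff_eq_mul₀ (pow_ne_zero 2 hne), sq, mul_assoc,
      mul_comm (sv x e m) (i _), h3, mul_one]
  · rintro b ⟨P, hP⟩ e e' h0
    apply hi
    rw [map_zero, hP]
    refine flip α x hxα hns P e e' ?_
    rw [← hP, h0, map_zero]

end main

end Crest.Agent.R102.Sign985
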