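import Crest.Agent.R102.Outer_575
import Crest.Agent.R102.Sign_985

/-!
Row 102, part (C), leaf H3: formal collapse theorem, part A (sign flips of inner chains).
-/

set_option linter.unusedSectionVars false

namespace Crest.Agent.R102.H3

open PowerSeries Finset

section bs

variable {K H S S' : Type*} [Field K] [CharZero K] [CommRing H] [Algebra K H] [CommRing S]
  [CommRing S']

theorem X_dvd_CX2 (θ : S) : (X : S⟦X⟧) ∣ C θ * X ^ 2 :=
  (dvd_pow_self X two_ne_zero).mul_left _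

theorem X_dvd_X2 : (X : S⟦X⟧) ∣ X ^ 2 := dvd_pow_self X two_ne_zero

/-- the base point of inner chains: `F ↦ ∑ ι(F_i) θ^i X^{2i}` -/
noncomputable def bs (ι : H →+* S) (θ : S) : H⟦X⟧ →+* S⟦X⟧ :=
  evS ((C).comp ι) (C θ * X ^ 2) (X_dvd_CX2 θ)

/-- `H⟦w⟧⟦ε⟧ → S⟦ω⟧`, `w ↦ ω²`, `ε ↦ θ ω²` -/
noncomputable def emb (ι : H →+* S) (θ : S) : H⟦X⟧⟦X⟧ →+* S⟦X⟧ :=
  evS (evS ((C).comp ι) (X ^ 2) X_dvd_X2) (C θ * X ^ 2) (X_dvd_CX2 θ)

/-- even series: `H⟦w⟧ → H⟦ω⟧`, `w ↦ ω²` -/
noncomputable def evn : H⟦X⟧ →+* H⟦X⟧ := evS C (X ^ 2) X_dvd_X2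

@[simp] theorem bs_C (ι : H →+* S) (θ : S) (h : H) : bs ι θ (C h) = C (ι h) := by
  rw [bs, evS_C]; rfl

@[simp] theorem bs_X (ι : H →+* S) (θ : S) : bs ι θ X = C θ * X ^ 2 := by
  rw [bs, evS_X]

theorem X_dvd_map_X (π : S →+* S') : (X : S'⟦X⟧) ∣ PowerSeries.map π X := by
  rw [map_X]

theorem map_bs (π : S →+* S') (ι : H →+* S) (θ : S) :
    (PowerSeries.map π).comp (bs ι θ) = bs (π.comp ι) (π θ) := by
  refine evS_unique _ _ _ (fun a => ?_) ?_
  · simp
  · simp

theorem map_emb (π : S →+* S') (ι : H →+* S) (θ : S) (u : H⟦X⟧⟦X⟧) :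
    PowerSeries.map π (emb ι θ u) = emb (π.comp ι) (π θ) u := by
  have h : (PowerSeries.map π).comp (emb ι θ) = emb (π.comp ι) (π θ) := by
    refine evS_unique _ _ _ (fun a => ?_) ?_
    · rw [RingHom.comp_apply, emb, evS_C, comp_evS (PowerSeries.map π) (X_dvd_map_X π)]
      refine evS_congr _ _ ?_ (by simp) a
      refine RingHom.ext fun b => ?_
      simp
    · rw [RingHom.comp_apply, emb, evS_X]
      simp
  rw [← h]
  rfl

theorem bs_expand (ι : H →+* S) (θ : S) (F : H⟦X⟧) :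
    X ^ 4 ∣ bs ι θ F - (C (ι (constantCoeff F)) + X ^ 2 * C (θ * ι (coeff 1 F))) := by
  have h := evS_eq ((C).comp ι) (X_dvd_CX2 θ) F 2
  rw [Finset.sum_range_succ, Finset.sum_range_one] at h
  have e : bs ι θ F - (C (ι (constantCoeff F)) + X ^ 2 * C (θ * ι (coeff 1 F)))
      = X ^ 4 * ((C θ) ^ 2 * evS ((C).comp ι) (C θ * X ^ 2) (X_dvd_CX2 θ)
        (PowerSeries.mk fun n => coeff (n + 2) F)) := by
    rw [bs, h]
    simp only [coeff_zero_eq_constantCoeff, RingHom.comp_apply, pow_zero, mul_one, pow_one,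
      map_mul]
    ring
  rw [e]
  exact Dvd.intro _ rfl

theorem coeff_dn_cD (d : Derivation K H H) (i n : ℕ) (F : H⟦X⟧) :
    coeff n (dn (cD d) i F) = dn d i (coeff n F) := by
  have h : ∀ i, coeff n ((cD d)^[i] F) = d^[i] (coeff n F) := by
    intro i
    induction i with
    | zero => rfl
    | succ i ih => rw [Function.iterate_succ_apply', coeff_cD, ih, Function.iterate_succ_apply']
  rw [dn, dn, coeff_smul, h]

/-- the mirrors are near the base point -/
theorem near_bs (d : Derivation K H H) (ι : H →+* S) (θ : S) (g : H) (G : ℕ → H⟦X⟧)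
    (hG : ∀ j, constantCoeff (G j) = g) :
    Near (cD d) (bs ι θ) G (fun j => θ * ι (coeff 1 (G j))) (ι g) (ι (d g)) (ι (dn d 2 g)) where
  n0 j := by
    have h := bs_expand ι θ (G j)
    rw [hG] at h
    exact (pow_dvd_pow X (by norm_num)).trans h
  n1 j := by
    have h := bs_expand ι θ (cD d (G j))
    have e : constantCoeff (cD d (G j)) = d g := by
      rw [← coeff_zero_eq_constantCoeff_apply, coeff_cD, coeff_zero_eq_constantCoeff_apply, hG]
    rw [e] at h
    have h2 := dvd_add ((pow_dvd_pow X (by norm_num : 2 ≤ 4)).trans h)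
      (Dvd.intro (C (θ * ι (coeff 1 (cD d (G j))))) rfl : (X : S⟦X⟧) ^ 2 ∣ X ^ 2 * _)
    convert h2 using 1
    ring
  n2 j := by
    have h := bs_expand ι θ (dn (cD d) 2 (G j))
    have e : constantCoeff (dn (cD d) 2 (G j)) = dn d 2 g := by
      rw [← coeff_zero_eq_constantCoeff_apply, coeff_dn_cD, coeff_zero_eq_constantCoeff_apply, hG]
    rw [e] at h
    have h1 : (X : S⟦X⟧) ∣ X ^ 4 := dvd_pow_self X (by norm_num)
    have h2 := dvd_add (h1.trans h)
      ((dvd_pow_self X two_ne_zero).mul_right (C (θ * ι (coeff 1 (dn (cD d) 2 (G j))))) :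
        (X : S⟦X⟧) ∣ X ^ 2 * _)
    convert h2 using 1
    ring

/-- the initial line -/
theorem inv_line (d : Derivation K H H) (ι : H →+* S) (θ : S) {zH g : H} {mh kh : H⟦X⟧}
    (hline : Ty d g = evn mh * (C zH + X) + evn kh) :
    Inv (bs ι θ (C zH)) (ι g) (ι (d g)) (ι (dn d 2 g)) 0 (PowerSeries.map ι (evn mh))
      (PowerSeries.map ι (evn kh)) := by
  have hm := evS_eq (C : H →+* H⟦X⟧) (X_dvd_X2) mh 1
  have hk := evS_eq (C : H →+* H⟦X⟧) (X_dvd_X2) kh 1
  rw [Finset.sum_range_one, pow_zero, mul_one, pow_one] at hm hk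
  set p := evS (C : H →+* H⟦X⟧) (X ^ 2) X_dvd_X2 (PowerSeries.mk fun n => coeff (n + 1) mh)
  set q := evS (C : H →+* H⟦X⟧) (X ^ 2) X_dvd_X2 (PowerSeries.mk fun n => coeff (n + 1) kh)
  change evn mh = _ at hm
  change evn kh = _ at hk
  set a := coeff 0 mh
  set b := coeff 0 kh
  rw [hm, hk] at hline
  have e0 := congrArg (coeff 0) hline
  have e1 := congrArg (coeff 1) hline
  have e2 := congrArg (coeff 2) hline
  have f1 : ((C a + X ^ 2 * p) * (C zH + X) + (C b + X ^ 2 * q) : H⟦X⟧)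
      = C (a * zH + b) + X * C a + X ^ 2 * (p * C zH + q) + X ^ 3 * p := by
    rw [map_add, map_mul]; ring
  rw [f1] at e0 e1 e2
  have c0 : a * zH + b = g := by
    simpa using e0.symm
  have c1 : a = d g := by
    have := e1.symm
    rw [coeff_Ty, dn_one] at this
    rw [← this]
    have h3 : coeff 1 (X * C a : H⟦X⟧) = a := by
      rw [coeff_succ_X_mul]; simp
    have h4 : coeff 1 (C (a * zH + b) : H⟦X⟧) = 0 := by
      rw [coeff_C]; simp
    have h5 : coeff 1 (X ^ 3 * p : H⟦X⟧) = 0 := by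
      rw [coeff_X_pow_mul']; simp
    have h6 : coeff 1 (X ^ 2 * (p * C zH + q) : H⟦X⟧) = 0 := by
      rw [coeff_X_pow_mul']; simp
    rw [map_add (coeff 1) (C (a * zH + b) + X * C a + X ^ 2 * (p * C zH + q)) (X ^ 3 * p),
      map_add (coeff 1) (C (a * zH + b) + X * C a) (X ^ 2 * (p * C zH + q)),
      map_add (coeff 1) (C (a * zH + b)) (X * C a), h3, h4, h5, h6]
    ring
  have c2 : coeff 0 (p * C zH + q) = dn d 2 g := by
    have := e2.symm
    rw [coeff_Ty] at this
    rw [← this]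
    have h3 : coeff 2 (X * C a : H⟦X⟧) = 0 := by
      rw [coeff_succ_X_mul, coeff_C]; simp
    have h4 : coeff 2 (C (a * zH + b) : H⟦X⟧) = 0 := by
      rw [coeff_C]; simp
    have h5 : coeff 2 (X ^ 3 * p : H⟦X⟧) = 0 := by
      rw [coeff_X_pow_mul']; simp
    have h6 : coeff 2 (X ^ 2 * (p * C zH + q) : H⟦X⟧) = coeff 0 (p * C zH + q) := by
      rw [coeff_X_pow_mul']; simp
    rw [map_add (coeff 2) (C (a * zH + b) + X * C a + X ^ 2 * (p * C zH + q)) (X ^ 3 * p),
      map_add (coeff 2) (C (a * zH + b) + X * C a) (X ^ 2 * (p * C zH + q)),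
      map_add (coeff 2) (C (a * zH + b)) (X * C a), h3, h4, h5, h6]
    ring
  constructor
  · rw [hm, c1, mul_zero, map_zero, mul_zero, add_zero]
    refine ⟨PowerSeries.map ι p, ?_⟩
    rw [map_add, map_mul, map_pow, map_X, map_C]
    ring
  · rw [hm, hk, bs_C]
    have h7 : X ∣ (p * C zH + q) - C (dn d 2 g) := by
      rw [X_dvd_iff, map_sub, constantCoeff_C, ← coeff_zero_eq_constantCoeff_apply, c2, sub_self]
    obtain ⟨w, hw⟩ := h7
    have h8 : p * C zH + q = C (dn d 2 g) + X * w := by rw [← hw]; ring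
    refine ⟨PowerSeries.map ι w, ?_⟩
    have h9 : PowerSeries.map ι (C a + X ^ 2 * p) * C (ι zH) + PowerSeries.map ι (C b + X ^ 2 * q)
        = PowerSeries.map ι (C (a * zH + b) + X ^ 2 * (p * C zH + q)) := by
      simp only [map_add, map_mul, map_pow, map_X, map_C]
      ring
    rw [h9, h8, c0]
    simp only [map_add, map_mul, map_pow, map_X, map_C]
    simp
    ring

end bs

section obs

variable {K H Λ Λ' : Type*} [Field K] [CommRing H] [CommRing Λ] [CommRing Λ'] {N : ℕ} {α : Type*}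

/-- evaluation of polynomials in the slope of the first line and the observables at the vertices -/
noncomputable def obs (i : K →+* Λ) (μ : Λ) (Φ : ℕ → H →+* Λ) (x : Fin N → α → H) :
    MvPolynomial (Option (Fin N × α)) K →+* Λ :=
  MvPolynomial.eval₂Hom i (fun o => o.elim μ (fun p => Φ p.1 (x p.1 p.2)))

theorem comp_obs (χ : Λ →+* Λ') (i : K →+* Λ) (μ : Λ) (Φ : ℕ → H →+* Λ) (x : Fin N → α → H) :
    χ.comp (obs i μ Φ x) = obs (χ.comp i) (χ μ) (fun j => χ.comp (Φ j)) x := by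
  refine MvPolynomial.ringHom_ext (fun c => ?_) (fun o => ?_)
  · simp [obs]
  · cases o with
    | none => simp [obs]
    | some p => simp [obs]

theorem obs_congr (i : K →+* Λ) {μ μ' : Λ} {Φ Φ' : ℕ → H →+* Λ} (x : Fin N → α → H)
    (hμ : μ = μ') (hΦ : ∀ j < N, Φ j = Φ' j) : obs i μ Φ x = obs i μ' Φ' x := by
  refine MvPolynomial.ringHom_ext (fun c => ?_) (fun o => ?_)
  · simp [obs]
  · cases o with
    | none => simp [obs, hμ]
    | some p => simp [obs, hΦ p.1 p.1.2]

end obs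

end Crest.Agent.R102.H3

namespace Crest.Agent.R102.H3

open PowerSeries Finset

section flip

variable {K H : Type*} [Field K] [CharZero K] [CommRing H] [IsDomain H] [Algebra K H]

/-- the signed roots -/
noncomputable def sgr {N : ℕ} (r : ℕ → H⟦X⟧) (e : Fin N → Bool) (j : ℕ) : H⟦X⟧ :=
  if h : j < N then (if e ⟨j, h⟩ then r j else - r j) else 1

theorem sgr_of_lt {N : ℕ} (r : ℕ → H⟦X⟧) (e : Fin N → Bool) {j : ℕ} (h : j < N) :
    sgr r e j = if e ⟨j, h⟩ then r j else - r j := dif_pos h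

/-- the structure map `K → H⟦θ⟧⟦ω⟧` -/
noncomputable def kK (K H : Type*) [Field K] [CommRing H] [Algebra K H] : K →+* H⟦X⟧⟦X⟧ :=
  ((C).comp (C)).comp (algebraMap K H)

/-- all sign patterns -/
theorem flip_chain (d : Derivation K H H) {zH g : H} (hz : d zH = 1) (hg1 : IsUnit (d g))
    (hg2 : IsUnit (dn d 2 g)) (N : ℕ) (G : ℕ → H⟦X⟧) (hG : ∀ j, constantCoeff (G j) = g)
    (hGN : ∀ j, N ≤ j → coeff 1 (G j) = 0)
    (hν : ∀ i < N, ∀ j < N, i ≠ j → coeff 1 (G i) ≠ coeff 1 (G j))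
    (hν0 : ∀ j < N, coeff 1 (G j) ≠ 0) {mh kh : H⟦X⟧}
    (hline : Ty d g = evn mh * (C zH + X) + evn kh)
    (r : ℕ → H⟦X⟧) (hr : ∀ j < N, C (dn d 2 g) * r j ^ 2 = C (dn d 2 g) - X * C (coeff 1 (G j)))
    (hr0 : ∀ j < N, constantCoeff (r j) = 1)
    {Y m k : ℕ → H⟦X⟧⟦X⟧} (hm0 : m 0 = PowerSeries.map C (evn mh))
    (hk0 : k 0 = PowerSeries.map C (evn kh))
    (hY : ∀ j < N, constantCoeff (Y j) = 2 * ∑ i ∈ range j, r i + r j)
    (hc : Chain (cD d) (C zH) G N (fun j => pt (cD d) (bs C X) (X * Y j) (X_dvd_X_mul (Y j))) m k)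
    {α : Type*} (x : Fin N → α → H⟦X⟧) (e : Fin N → Bool) :
    ∃ Ye me ke : ℕ → H⟦X⟧⟦X⟧, me 0 = PowerSeries.map C (evn mh) ∧
      ke 0 = PowerSeries.map C (evn kh) ∧
      (∀ j < N, constantCoeff (Ye j) = 2 * ∑ i ∈ range j, sgr r e i + sgr r e j) ∧
      Chain (cD d) (C zH) G N
        (fun j => pt (cD d) (bs C X) (X * Ye j) (X_dvd_X_mul (Ye j))) me ke ∧
      ∀ (P : Polynomial (MvPolynomial (Option (Fin N × α)) K)) (u : H⟦X⟧⟦X⟧),
        P.eval₂ (obs (kK K H) (PowerSeries.map C (evn mh))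
          (fun j => pt (cD d) (bs C X) (X * Y j) (X_dvd_X_mul (Y j))) x) (emb C X u) = 0 ↔
        P.eval₂ (obs (kK K H) (PowerSeries.map C (evn mh))
          (fun j => pt (cD d) (bs C X) (X * Ye j) (X_dvd_X_mul (Ye j))) x) (emb C X u) = 0 := by
  classical
  have hchar : CharZero H := charZero_of_injective_algebraMap (algebraMap K H).injective
  obtain ⟨v2, hv2⟩ := hg2
  set g2 := dn d 2 g with hg2d
  -- the parameters of the sign ring
  let a : Fin N → H := fun j => (↑(v2⁻¹) : H) * coeff 1 (G j)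
  have ha : Function.Injective a := by
    intro i j hij
    by_contra hne
    have h1 : coeff 1 (G i) = coeff 1 (G j) := v2⁻¹.isUnit.mul_right_injective hij
    exact hν i i.2 j j.2 (fun h => hne (Fin.ext h)) h1
  have ha0 : ∀ j, a j ≠ 0 := by
    intro j hj
    exact hν0 j j.2 ((v2⁻¹.isUnit.mul_right_eq_zero).1 hj)
  have hra : ∀ j : Fin N, (r j) ^ 2 = 1 - C (a j) * X := by
    intro j
    have h1 := hr j j.2
    have hu : IsUnit (C g2 : H⟦X⟧) := by
      rw [← hv2]; exact v2.isUnit.map _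
    refine hu.mul_right_injective ?_
    change C g2 * _ = C g2 * _
    rw [h1]
    have h2 : (C g2 : H⟦X⟧) * C (a j) = C (coeff 1 (G j)) := by
      rw [← map_mul]
      congr 1
      simp only [a, ← mul_assoc, ← hv2]
      simp
    rw [mul_sub, mul_one, ← mul_assoc, h2]
    ring
  obtain ⟨B, hBC, hBX, hBr, hBs, hB0⟩ :=
    Sign985.sign_flips a ha ha0 (fun j => r j) hra (fun j => hr0 j j.2)
  -- the ring `B`
  let ιB : H →+* B := RingHom.codRestrict (RingHom.pi fun _ => (C : H →+* H⟦X⟧)) B hBC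
  let θB : B := ⟨fun _ => X, hBX⟩
  let rB : ℕ → B := fun j => if h : j < N then ⟨_, hBr ⟨j, h⟩⟩ else 1
  let π : (Fin N → Bool) → (B →+* H⟦X⟧) := fun e => (Pi.evalRingHom _ e).comp B.subtype
  have hπι : ∀ e, (π e).comp ιB = C := fun e => rfl
  have hπθ : ∀ e, π e θB = X := fun e => rfl
  have hπr : ∀ e j, π e (rB j) = sgr r e j := by
    intro e j
    by_cases h : j < N
    · simp only [rB, dif_pos h, sgr]
      rfl
    · simp only [rB, dif_neg h, sgr]
      simp
  have hBext : ∀ b b' : B, (∀ e, π e b = π e b') → b = b' := fun b b' h =>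
    Subtype.ext (funext h)
  have h2H : IsUnit (2 : H) := by
    have : (2 : H) = algebraMap K H 2 := by rw [map_ofNat]
    rw [this]
    exact (Ne.isUnit two_ne_zero).map _
  have h2B : IsUnit (2 : B) := by
    have : (2 : B) = ιB 2 := by rw [map_ofNat]
    rw [this]
    exact h2H.map _
  have hg1B : IsUnit (ιB (d g)) := hg1.map _
  have hg2B : IsUnit (ιB g2) := by rw [← hv2]; exact v2.isUnit.map _
  have hruB : ∀ j, IsUnit (rB j) := by
    intro j
    by_cases h : j < N
    · obtain ⟨s, hs, hsB⟩ := hBs ⟨j, h⟩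
      refine IsUnit.of_mul_eq_one ⟨_, hsB⟩ ?_
      refine hBext _ _ fun e => ?_
      rw [map_mul, hπr, map_one, sgr_of_lt r e h]
      change _ * (if e ⟨j, h⟩ then s else - s) = 1
      split_ifs
      · exact hs
      · rw [neg_mul_neg]; exact hs
    · simp only [rB, dif_neg h, isUnit_one]
  have hrB : ∀ j, ιB g2 * rB j ^ 2 = ιB g2 - θB * ιB (coeff 1 (G j)) := by
    intro j
    refine hBext _ _ fun e => ?_
    rw [map_mul, map_pow, hπr, map_sub, map_mul, hπθ]
    have e1 : ∀ h, π e (ιB h) = C h := fun h => rfl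
    rw [e1, e1]
    by_cases h : j < N
    · rw [sgr_of_lt r e h, ← hr j h]
      split_ifs <;> ring
    · rw [sgr, dif_neg h, hGN j (not_lt.1 h)]
      simp
  have hNB := near_bs d ιB θB g G hG
  have hIB := inv_line (S := B) d ιB θB hline
  have hzz : cD d (C zH) = (1 : H⟦X⟧) := by rw [cD_C, hz, map_one]
  obtain ⟨YB, mB, kB, hmB0, hkB0, hYB, hcB, hIBj⟩ :=
    inner_exists (z := C zH) hzz h2B hg1B hg2B hNB rB hruB hrB _ _ hIB
  -- the projections
  have hproj : ∀ e, Chain (cD d) (C zH) G N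
      (fun j => pt (cD d) (bs C X) (X * PowerSeries.map (π e) (YB j)) (X_dvd_X_mul _))
      (fun j => PowerSeries.map (π e) (mB j)) (fun j => PowerSeries.map (π e) (kB j)) := by
    intro e
    have h := (hcB N).map (PowerSeries.map (π e))
    have e1 : ∀ j, (PowerSeries.map (π e)).comp
        (pt (cD d) (bs ιB θB) (X * YB j) (X_dvd_X_mul (YB j)))
        = pt (cD d) (bs C X) (X * PowerSeries.map (π e) (YB j)) (X_dvd_X_mul _) := by
      intro j
      rw [comp_pt (cD d) (PowerSeries.map (π e)) (X_dvd_map_X _)]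
      refine pt_congr _ _ _ ?_ (by simp)
      rw [map_bs, hπι, hπθ]
    simp only [e1] at h
    exact h
  have hm0e : ∀ e, PowerSeries.map (π e) (mB 0) = PowerSeries.map C (evn mh) := by
    intro e
    rw [hmB0, ← RingHom.comp_apply, ← PowerSeries.map_comp, hπι]
  have hk0e : ∀ e, PowerSeries.map (π e) (kB 0) = PowerSeries.map C (evn kh) := by
    intro e
    rw [hkB0, ← RingHom.comp_apply, ← PowerSeries.map_comp, hπι]
  have hYe : ∀ e, ∀ j, constantCoeff (PowerSeries.map (π e) (YB j))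
      = 2 * ∑ i ∈ range j, sgr r e i + sgr r e j := by
    intro e j
    have : constantCoeff (PowerSeries.map (π e) (YB j)) = π e (constantCoeff (YB j)) := by
      rw [← coeff_zero_eq_constantCoeff_apply, coeff_map, coeff_zero_eq_constantCoeff_apply]
    rw [this, hYB, map_add, map_mul, map_sum, map_ofNat, hπr]
    simp only [hπr]
  -- the given chain is the `+` chain
  let ep : Fin N → Bool := fun _ => true
  have hsp : ∀ j < N, sgr r ep j = r j := by
    intro j h
    rw [sgr_of_lt r ep h, if_pos rfl]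
  have hIH := inv_line (S := H⟦X⟧) d (C : H →+* H⟦X⟧) X hline
  have hNH := near_bs d (C : H →+* H⟦X⟧) (X : H⟦X⟧) g G hG
  have h2HH : IsUnit (2 : H⟦X⟧) := by
    have : (2 : H⟦X⟧) = C 2 := by rw [map_ofNat]
    rw [this]
    exact h2H.map _
  have hruH : ∀ j < N, IsUnit (r j) := by
    intro j hj
    rw [PowerSeries.isUnit_iff_constantCoeff, hr0 j hj]
    exact isUnit_one
  have huniq := inner_unique (z := C zH) hzz h2HH (hg1.map C) (show IsUnit (C g2 : H⟦X⟧) by rw [← hv2]; exact v2.isUnit.map C)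
    hNH r N hruH (fun j hj => hr j hj) (Y := Y) (m := m) (k := k)
    (Y' := fun j => PowerSeries.map (π ep) (YB j)) (m' := fun j => PowerSeries.map (π ep) (mB j))
    (k' := fun j => PowerSeries.map (π ep) (kB j)) (by rw [hm0, hm0e]) (by rw [hk0, hk0e])
    (by rw [hm0, hk0]; exact hIH) hY (fun j hj => ?_) hc (hproj ep)
  swap
  · change constantCoeff (PowerSeries.map (π ep) (YB j)) = _
    rw [hYe ep j, hsp j hj]
    congr 2
    refine Finset.sum_congr rfl fun i hi => hsp i ((Finset.mem_range.1 hi).trans hj)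
  have hYp : ∀ j < N, Y j = PowerSeries.map (π ep) (YB j) := huniq.2
  -- the relation in `B`
  have hcoef : ∀ (b : B⟦X⟧) (e e' : Fin N → Bool), PowerSeries.map (π e) b = 0 →
      PowerSeries.map (π e') b = 0 := by
    intro b e e' h
    ext n : 1
    rw [coeff_map, map_zero]
    have h1 := congrArg (coeff n) h
    rw [coeff_map, map_zero] at h1
    exact hB0 ((coeff (R := B) n b : B) : (Fin N → Bool) → H⟦X⟧) (coeff (R := B) n b).2 e e' h1
  have hev : ∀ (e : Fin N → Bool) (P : Polynomial (MvPolynomial (Option (Fin N × α)) K))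
      (u : H⟦X⟧⟦X⟧),
      P.eval₂ (obs (kK K H) (PowerSeries.map C (evn mh))
          (fun j => pt (cD d) (bs C X) (X * PowerSeries.map (π e) (YB j)) (X_dvd_X_mul _)) x)
          (emb C X u)
        = PowerSeries.map (π e) (P.eval₂ (obs ((C).comp (ιB.comp (algebraMap K H)))
            (PowerSeries.map ιB (evn mh))
            (fun j => pt (cD d) (bs ιB θB) (X * YB j) (X_dvd_X_mul (YB j))) x)
            (emb ιB θB u)) := by
    intro e P u
    rw [Polynomial.hom_eval₂, comp_obs, map_emb, hπι, hπθ]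
    have e1 : (PowerSeries.map (π e)).comp ((C).comp (ιB.comp (algebraMap K H))) = kK K H := by
      refine RingHom.ext fun c => ?_
      simp only [RingHom.comp_apply, map_C, kK]
      rfl
    have e2 : PowerSeries.map (π e) (PowerSeries.map ιB (evn mh)) = PowerSeries.map C (evn mh) := by
      rw [← RingHom.comp_apply, ← PowerSeries.map_comp, hπι]
    have e3 : ∀ j, (PowerSeries.map (π e)).comp
        (pt (cD d) (bs ιB θB) (X * YB j) (X_dvd_X_mul (YB j)))
        = pt (cD d) (bs C X) (X * PowerSeries.map (π e) (YB j)) (X_dvd_X_mul _) := by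
      intro j
      rw [comp_pt (cD d) (PowerSeries.map (π e)) (X_dvd_map_X _)]
      refine pt_congr _ _ _ ?_ (by simp)
      rw [map_bs, hπι, hπθ]
    rw [e1, e2]
    simp only [e3]
  refine ⟨fun j => PowerSeries.map (π e) (YB j), fun j => PowerSeries.map (π e) (mB j),
    fun j => PowerSeries.map (π e) (kB j), hm0e e, hk0e e, fun j _ => hYe e j, hproj e, ?_⟩
  intro P u
  have e4 : obs (kK K H) (PowerSeries.map C (evn mh))
      (fun j => pt (cD d) (bs C X) (X * Y j) (X_dvd_X_mul (Y j))) x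
      = obs (kK K H) (PowerSeries.map C (evn mh))
      (fun j => pt (cD d) (bs C X) (X * PowerSeries.map (π ep) (YB j)) (X_dvd_X_mul _)) x := by
    refine obs_congr _ x rfl fun j hj => ?_
    exact pt_congr _ _ _ rfl (by rw [hYp j hj])
  rw [e4, hev, hev]
  exact ⟨fun h => hcoef _ _ _ h, fun h => hcoef _ _ _ h⟩

end flip

end Crest.Agent.R102.H3
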