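import Crest.Agent.R102.FCTA_575

/-!
Row 102, part (C), leaf H3: formal collapse theorem, part B.
-/

set_option linter.unusedSectionVars false

namespace Crest.Agent.R102.H3

open PowerSeries Finset

section partB

variable {K H : Type*} [Field K] [CharZero K] [CommRing H] [IsDomain H] [Algebra K H]

theorem evS_C_X (F : H⟦X⟧) : evS (C : H →+* H⟦X⟧) X dvd_rfl F = F := by
  have h := evS_unique (RingHom.id H⟦X⟧) (C : H →+* H⟦X⟧) (y := X) dvd_rfl (fun a => rfl) rfl
  rw [← h]; rfl

theorem bs_id_zero (F : H⟦X⟧) : bs (RingHom.id H) 0 F = C (constantCoeff F) := by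
  have h := evS_eq ((C).comp (RingHom.id H)) (X_dvd_CX2 (0 : H)) F 1
  rw [Finset.sum_range_one] at h
  change bs (RingHom.id H) 0 F = _ at h
  rw [h]
  simp

/-- at `θ = 0` the point `c + ω` is the Taylor morphism -/
theorem pt_zero_one (d : Derivation K H H) (F : H⟦X⟧) :
    pt (cD d) (bs (RingHom.id H) 0) (X * 1) (X_dvd_X_mul 1) F = Ty d (constantCoeff F) := by
  have h1 : bs (RingHom.id H) (0 : H) = (C : H →+* H⟦X⟧).comp (constantCoeff (R := H)) :=
    RingHom.ext bs_id_zero
  have h2 := pt_comp (cD d) d (constantCoeff (R := H)) (fun f => by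
    rw [← coeff_zero_eq_constantCoeff_apply, coeff_cD, coeff_zero_eq_constantCoeff_apply])
    (C : H →+* H⟦X⟧) (X_dvd_X_mul (1 : H⟦X⟧))
  have h3 := congrArg (fun Φ : H⟦X⟧ →+* H⟦X⟧ => Φ F) h2
  simp only [RingHom.comp_apply] at h3
  have h4 : pt (cD d) (bs (RingHom.id H) 0) (X * 1) (X_dvd_X_mul 1) F
      = pt (cD d) ((C : H →+* H⟦X⟧).comp (constantCoeff (R := H))) (X * 1) (X_dvd_X_mul 1) F :=
    congrArg (fun Φ : H⟦X⟧ →+* H⟦X⟧ => Φ F) (pt_congr (cD d) _ _ h1 rfl)
  rw [h4, ← h3, pt_apply]
  have h5 : evS (C : H →+* H⟦X⟧) (X * 1) (X_dvd_X_mul 1) (Ty d (constantCoeff F))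
      = evS (C : H →+* H⟦X⟧) X dvd_rfl (Ty d (constantCoeff F)) :=
    evS_congr _ _ rfl (mul_one X) _
  rw [h5, evS_C_X]

/-- the alternating signs -/
def alt {N : ℕ} : Fin N → Bool := fun j => decide ((j : ℕ) % 2 = 0)

theorem sum_alt (j : ℕ) : ∑ i ∈ range j, (if i % 2 = 0 then (1 : H) else -1)
    = if j % 2 = 0 then 0 else 1 := by
  induction j with
  | zero => simp
  | succ j ih =>
    rw [Finset.sum_range_succ, ih]
    rcases Nat.mod_two_eq_zero_or_one j with h | h
    · have h' : (j + 1) % 2 = 1 := by omega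
      simp [h, h']
    · have h' : (j + 1) % 2 = 0 := by omega
      simp [h, h']

/-- the collapse at `θ = 0` -/
theorem collapse0 (d : Derivation K H H) {zH g : H} (hz : d zH = 1) (hg1 : IsUnit (d g))
    (hg2 : IsUnit (dn d 2 g)) (N : ℕ) (G : ℕ → H⟦X⟧) (hG : ∀ j, constantCoeff (G j) = g)
    {mh kh : H⟦X⟧}
    (hline : Ty d g = evn mh * (C zH + X) + evn kh)
    (r : ℕ → H⟦X⟧) (hr0 : ∀ j < N, constantCoeff (r j) = 1)
    {Y m k : ℕ → H⟦X⟧⟦X⟧} (hm0 : m 0 = PowerSeries.map C (evn mh))
    (hk0 : k 0 = PowerSeries.map C (evn kh))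
    (hY : ∀ j < N, constantCoeff (Y j)
      = 2 * ∑ i ∈ range j, sgr r (alt (N := N)) i + sgr r (alt (N := N)) j)
    (hc : Chain (cD d) (C zH) G N
      (fun j => pt (cD d) (bs C X) (X * Y j) (X_dvd_X_mul (Y j))) m k) :
    ∀ j < N, PowerSeries.map constantCoeff (Y j) = 1 := by
  classical
  set ρ : H⟦X⟧⟦X⟧ →+* H⟦X⟧ := PowerSeries.map (constantCoeff (R := H)) with hρ
  have hchar : CharZero H := charZero_of_injective_algebraMap (algebraMap K H).injective
  have h2H : IsUnit (2 : H) := by
    have : (2 : H) = algebraMap K H 2 := by rw [map_ofNat]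
    rw [this]
    exact (Ne.isUnit two_ne_zero).map _
  have hzz : cD d (C zH) = (1 : H⟦X⟧) := by rw [cD_C, hz, map_one]
  have hρC : ρ.comp (PowerSeries.map (C (R := H))) = RingHom.id H⟦X⟧ := by
    rw [hρ, ← PowerSeries.map_comp]
    have : (constantCoeff (R := H)).comp (C (R := H)) = RingHom.id H := by
      refine RingHom.ext fun a => ?_
      simp
    rw [this]
    exact RingHom.ext fun a => congrFun (PowerSeries.map_id (R := H)) a
  have hρm : ρ (m 0) = evn mh := by
    rw [hm0, ← RingHom.comp_apply, hρC]; rfl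
  have hρk : ρ (k 0) = evn kh := by
    rw [hk0, ← RingHom.comp_apply, hρC]; rfl
  -- the projected chain
  have hcp := hc.map ρ
  have e1 : ∀ j, ρ.comp (pt (cD d) (bs C X) (X * Y j) (X_dvd_X_mul (Y j)))
      = pt (cD d) (bs (RingHom.id H) 0) (X * ρ (Y j)) (X_dvd_X_mul _) := by
    intro j
    rw [hρ, comp_pt (cD d) (PowerSeries.map (constantCoeff (R := H)))
      (X_dvd_map_X (constantCoeff (R := H)))]
    refine pt_congr _ _ _ ?_ (by simp)
    rw [map_bs]
    have f1 : (constantCoeff (R := H)).comp (C (R := H)) = RingHom.id H := by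
      refine RingHom.ext fun a => ?_
      simp
    have f2 : (constantCoeff (R := H)) (X : H⟦X⟧) = 0 := by simp
    rw [f1, f2]
  simp only [e1] at hcp
  -- the explicit chain
  have hI := inv_line (S := H) d (RingHom.id H) 0 hline
  have hid : ∀ F : H⟦X⟧, PowerSeries.map (RingHom.id H) F = F := fun F => by
    rw [PowerSeries.map_id]; rfl
  rw [hid, hid] at hI
  simp only [RingHom.id_apply] at hI
  have hum : IsUnit (evn mh) := hI.isUnit_m hg1
  obtain ⟨v, hv⟩ := hum.exists_right_inv
  let s : H⟦X⟧ := Ty d (d g)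
  let m1 : H⟦X⟧ := s ^ 2 * v
  let k1 : H⟦X⟧ := Ty d g - m1 * (C zH + X)
  let m' : ℕ → H⟦X⟧ := fun j => if j % 2 = 0 then evn mh else m1
  let k' : ℕ → H⟦X⟧ := fun j => if j % 2 = 0 then evn kh else k1
  have hm1 : m1 * evn mh = s ^ 2 := by
    simp only [m1]
    rw [mul_assoc, mul_comm v, hv, mul_one]
  have hzv : (pt (cD d) (bs (RingHom.id H) 0) (X * 1) (X_dvd_X_mul 1)) (C zH) = C zH + X := by
    rw [pt_zero_one, constantCoeff_C]
    have := pt_coord d (C : H →+* H⟦X⟧) (dvd_refl (X : H⟦X⟧)) hz
    rw [pt_apply, evS_C_X] at this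
    exact this
  have hGv : ∀ j, (pt (cD d) (bs (RingHom.id H) 0) (X * 1) (X_dvd_X_mul 1)) (G j) = Ty d g := by
    intro j
    rw [pt_zero_one, hG]
  have hdGv : ∀ j, (pt (cD d) (bs (RingHom.id H) 0) (X * 1) (X_dvd_X_mul 1)) (cD d (G j)) = s := by
    intro j
    rw [pt_zero_one, ← coeff_zero_eq_constantCoeff_apply, coeff_cD,
      coeff_zero_eq_constantCoeff_apply, hG]
  have hline' : ∀ j, Ty d g = m' j * (C zH + X) + k' j := by
    intro j
    rcases Nat.mod_two_eq_zero_or_one j with h | h
    · simp only [m', k', h, if_true]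
      exact hline
    · simp only [m', k', h]
      simp [k1]
  have hc' : Chain (cD d) (C zH) G N
      (fun _ => pt (cD d) (bs (RingHom.id H) 0) (X * 1) (X_dvd_X_mul 1)) m' k' := by
    constructor
    · intro j _
      simp only [hzv, hGv]
      exact hline' j
    · intro j _
      simp only [hzv, hGv]
      exact hline' (j + 1)
    · intro j _
      simp only [hdGv]
      rcases Nat.mod_two_eq_zero_or_one j with h | h
      · have h' : (j + 1) % 2 = 1 := by omega
        simp only [m', h, h', if_true]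
        simpa using hm1
      · have h' : (j + 1) % 2 = 0 := by omega
        simp only [m', h, h', if_true]
        rw [mul_comm]
        simpa using hm1
  have hN := near_bs d (RingHom.id H) (0 : H) g G hG
  simp only [RingHom.id_apply] at hN
  have hsg : ∀ j < N, constantCoeff (sgr r (alt (N := N)) j)
      = if j % 2 = 0 then (1 : H) else -1 := by
    intro j hj
    rw [sgr_of_lt _ _ hj]
    rcases Nat.mod_two_eq_zero_or_one j with h | h
    · simp [alt, h, hr0 j hj]
    · simp [alt, h, hr0 j hj]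
  have huniq := inner_unique (z := C zH) (φ := bs (RingHom.id H) (0 : H)) hzz h2H hg1 hg2 hN
    (fun j => if j % 2 = 0 then (1 : H) else -1) N
    (fun j _ => by split_ifs <;> simp)
    (fun j _ => by split_ifs <;> simp)
    (Y := fun j => ρ (Y j)) (m := fun j => ρ (m j)) (k := fun j => ρ (k j))
    (Y' := fun _ => 1) (m' := m') (k' := k')
    (by simp only [hρm]; simp [m']) (by simp only [hρk]; simp [k'])
    (by simp only [hρm, hρk]; exact hI) (fun j hj => ?_) (fun j hj => ?_) hcp hc'
  · exact huniq.2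
  · have h1 : constantCoeff (ρ (Y j)) = constantCoeff (constantCoeff (Y j)) := by
      rw [← coeff_zero_eq_constantCoeff_apply, hρ, coeff_map, coeff_zero_eq_constantCoeff_apply]
    rw [h1, hY j hj, map_add, map_mul, map_ofNat, map_sum, hsg j hj]
    congr 2
    exact Finset.sum_congr rfl fun i hi => hsg i ((Finset.mem_range.1 hi).trans hj)
  · rw [map_one, sum_alt]
    rcases Nat.mod_two_eq_zero_or_one j with h | h
    · simp [h]
    · simp [h]; norm_num

end partB

end Crest.Agent.R102.H3

namespace Crest.Agent.R102.H3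

open PowerSeries Finset

section indep

variable {K H : Type*} [Field K] [CharZero K] [CommRing H] [IsDomain H] [Algebra K H]

/-- the point `c + ω` and the slope of the chord are independent -/
theorem eval_line_ne_zero (d : Derivation K H H) {zH g : H}
    (hg2 : IsUnit (dn d 2 g)) {mh kh : H⟦X⟧}
    (hline : Ty d g = evn mh * (C zH + X) + evn kh) (p : Polynomial H) (hp : p ≠ 0) :
    p.eval₂ (Ty d) (evn mh) ≠ 0 := by
  have hchar : CharZero H := charZero_of_injective_algebraMap (algebraMap K H).injective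
  -- the derivation `∂_c - ∂_ω`
  let D : Derivation K H⟦X⟧ H⟦X⟧ := cD d - (d⁄dX H).restrictScalars K
  have hDT : ∀ h, D (Ty d h) = 0 := by
    intro h
    have : D (Ty d h) = cD d (Ty d h) - d⁄dX H (Ty d h) := rfl
    rw [this, Ty_ode, sub_self]
  have hDm : D (evn mh) ≠ 0 := by
    have hI := inv_line (S := H) d (RingHom.id H) 0 hline
    have hid : ∀ F : H⟦X⟧, PowerSeries.map (RingHom.id H) F = F := fun F => by
      rw [PowerSeries.map_id]; rfl
    rw [hid, hid] at hI
    simp only [RingHom.id_apply] at hI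
    obtain ⟨w, hw⟩ := hI.i1
    have e : evn mh = C (d g) + X ^ 2 * w := by
      rw [← hw]; simp
    have h0 : constantCoeff (D (evn mh)) = d (d g) := by
      have : D (evn mh) = cD d (evn mh) - d⁄dX H (evn mh) := rfl
      rw [this, e, map_add, map_add, cD_C, Derivation.leibniz, Derivation.leibniz]
      simp [pow_two]
    intro h1
    rw [h1, map_zero, two_dn_two] at h0
    have h2 : (2 : H) ≠ 0 := two_ne_zero
    exact (mul_ne_zero h2 hg2.ne_zero) h0.symm
  -- induction on the degree
  have key : ∀ n, ∀ p : Polynomial H, p.natDegree ≤ n → p ≠ 0 → p.eval₂ (Ty d) (evn mh) ≠ 0 := by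
    intro n
    induction n with
    | zero =>
      intro p hpn hp h
      have hpc := Polynomial.eq_C_of_natDegree_le_zero hpn
      rw [hpc, Polynomial.eval₂_C] at h
      have h1 := congrArg constantCoeff h
      rw [constantCoeff_Ty, map_zero] at h1
      rw [h1, Polynomial.C_0] at hpc
      exact hp hpc
    | succ n ih =>
      intro p hpn hp h
      have hD : D (p.eval₂ (Ty d) (evn mh))
          = (Polynomial.derivative p).eval₂ (Ty d) (evn mh) * D (evn mh) := by
        clear h hp hpn
        induction p using Polynomial.induction_on' with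
        | add p q hp hq =>
          rw [Polynomial.eval₂_add, map_add, hp, hq, Polynomial.derivative_add,
            Polynomial.eval₂_add]
          ring
        | monomial k a =>
          rw [Polynomial.eval₂_monomial, Derivation.leibniz, hDT, Derivation.leibniz_pow,
            Polynomial.derivative_monomial, Polynomial.eval₂_monomial]
          simp only [smul_eq_mul, mul_zero, add_zero, map_mul, map_natCast, nsmul_eq_mul]
          ring
      rw [h, map_zero] at hD
      have h2 := (mul_eq_zero.1 hD.symm).resolve_right hDm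
      by_cases hp' : Polynomial.derivative p = 0
      · have hdeg : p.natDegree = 0 := Polynomial.natDegree_eq_zero_of_derivative_eq_zero hp'
        have hpc := Polynomial.eq_C_of_natDegree_eq_zero hdeg
        rw [hpc, Polynomial.eval₂_C] at h
        have h1 := congrArg constantCoeff h
        rw [constantCoeff_Ty, map_zero] at h1
        rw [h1, Polynomial.C_0] at hpc
        exact hp hpc
      · refine ih _ ?_ hp' h2
        exact (Polynomial.natDegree_derivative_le p).trans (by omega)
  exact key _ p le_rfl hp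

end indep

section collapsed

variable {K H : Type*} [Field K] [CharZero K] [CommRing H] [IsDomain H] [Algebra K H]

/-- the field `κ = Frac(H)(μ)` of the pencil -/
abbrev KK (H : Type*) [CommRing H] [IsDomain H] := FractionRing (Polynomial H)

/-- `H → κ` -/
noncomputable def iK : H →+* KK H := (algebraMap (Polynomial H) (KK H)).comp Polynomial.C

theorem iK_injective : Function.Injective (iK (H := H)) :=
  (IsFractionRing.injective (Polynomial H) (KK H)).comp Polynomial.C_injective

/-- the slope -/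
noncomputable def muK : KK H := algebraMap (Polynomial H) (KK H) Polynomial.X

theorem muK_ne_zero : muK (H := H) ≠ 0 := by
  intro h
  have := IsFractionRing.injective (Polynomial H) (KK H) (h.trans (map_zero _).symm)
  exact Polynomial.X_ne_zero this

theorem muK_ne_iK (a : H) : iK a ≠ muK (H := H) := by
  intro h
  have h1 : (Polynomial.C a : Polynomial H) = Polynomial.X :=
    IsFractionRing.injective (Polynomial H) (KK H) h
  have h2 := congrArg (Polynomial.coeff · 1) h1
  simp [Polynomial.coeff_C, Polynomial.coeff_X] at h2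

/-- the base point over `κ` -/
noncomputable def phK : H⟦X⟧ →+* (KK H)⟦X⟧ := PowerSeries.map iK

/-- slopes of the collapsed chain at `ε = 0` -/
noncomputable def muj (a : H) (j : ℕ) : KK H := if j % 2 = 0 then muK else iK a ^ 2 / muK

theorem muj_ne_zero {a : H} (ha : a ≠ 0) (j : ℕ) : muj a j ≠ 0 := by
  have h1 : iK a ≠ 0 := fun h => ha (iK_injective (h.trans (map_zero _).symm))
  rw [muj]
  split_ifs
  · exact muK_ne_zero
  · exact div_ne_zero (pow_ne_zero _ h1) muK_ne_zero

theorem muj_ne {a : H} (ha : a ≠ 0) (j : ℕ) : iK a - muj a j ≠ 0 := by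
  have h1 : iK a ≠ 0 := fun h => ha (iK_injective (h.trans (map_zero _).symm))
  rw [muj, sub_ne_zero]
  split_ifs
  · exact muK_ne_iK a
  · intro h
    rw [eq_div_iff muK_ne_zero, pow_two] at h
    exact muK_ne_iK a (mul_left_cancel₀ h1 h.symm)

theorem muj_succ {a : H} (ha : a ≠ 0) (j : ℕ) : muj a (j + 1) * muj a j = iK a ^ 2 := by
  have h1 : iK a ≠ 0 := fun h => ha (iK_injective (h.trans (map_zero _).symm))
  rw [muj, muj]
  rcases Nat.mod_two_eq_zero_or_one j with h | h
  · have h' : (j + 1) % 2 = 1 := by omega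
    simp only [h, h', if_true]
    simp
    field_simp [muK_ne_zero (H := H)]
  · have h' : (j + 1) % 2 = 0 := by omega
    simp only [h, h', if_true]
    simp
    field_simp [muK_ne_zero (H := H)]

/-- the collapsed chain over `κ⟦ε⟧` -/
theorem collapsed_exists (d : Derivation K H H) {zH g : H} (hz : d zH = 1) (hg1 : d g ≠ 0)
    (G : ℕ → H⟦X⟧) (hG : ∀ j, constantCoeff (G j) = g) (m0 k0 : (KK H)⟦X⟧)
    (hm0 : constantCoeff m0 = muK) (hk0 : constantCoeff (m0 * phK (C zH) + k0) = iK g) :
    ∃ (y : ℕ → (KK H)⟦X⟧) (hy : ∀ j, X ∣ y j) (m k : ℕ → (KK H)⟦X⟧), m 0 = m0 ∧ k 0 = k0 ∧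
      (∀ N, Chain (cD d) (C zH) G N (fun j => pt (cD d) phK (y j) (hy j)) m k) ∧
      ∀ j, constantCoeff (m j) = muj (d g) j := by
  classical
  have hzz : cD d (C zH) = (1 : H⟦X⟧) := by rw [cD_C, hz, map_one]
  have hcc : ∀ F : H⟦X⟧, constantCoeff (phK F) = iK (constantCoeff F) := by
    intro F
    rw [phK, ← coeff_zero_eq_constantCoeff_apply, coeff_map, coeff_zero_eq_constantCoeff_apply]
  have hcG : ∀ j, constantCoeff (phK (cD d (G j))) = iK (d g) := by
    intro j
    rw [hcc, ← coeff_zero_eq_constantCoeff_apply, coeff_cD, coeff_zero_eq_constantCoeff_apply, hG]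
  let St : ℕ → Type _ := fun j =>
    {p : (KK H)⟦X⟧ × (KK H)⟦X⟧ // constantCoeff p.1 = muj (d g) j ∧
      constantCoeff (p.1 * phK (C zH) + p.2) = iK g}
  have hstep : ∀ j (p : St j), ∃ (y : (KK H)⟦X⟧) (hy : X ∣ y) (m' k' : (KK H)⟦X⟧),
      pt (cD d) phK y hy (G j) = p.1.1 * pt (cD d) phK y hy (C zH) + p.1.2 ∧
      pt (cD d) phK y hy (G j) = m' * pt (cD d) phK y hy (C zH) + k' ∧
      m' * p.1.1 = (pt (cD d) phK y hy (cD d (G j))) ^ 2 ∧
      (constantCoeff m' = muj (d g) (j + 1) ∧
        constantCoeff (m' * phK (C zH) + k') = iK g) := by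
    intro j p
    obtain ⟨⟨m, k⟩, hm, hk⟩ := p
    simp only at hm hk
    obtain ⟨y, hy, hinc⟩ := outer_step (cD d) phK hzz (G j) m k
      (by rw [map_sub, hcc, hG, hk, sub_self])
      (by rw [map_sub, hcG, hm]; exact (muj_ne hg1 j).isUnit)
    have hmu : IsUnit m := by
      rw [PowerSeries.isUnit_iff_constantCoeff, hm]
      exact (muj_ne_zero hg1 j).isUnit
    obtain ⟨v, hv⟩ := hmu.exists_right_inv
    set s := pt (cD d) phK y hy (cD d (G j)) with hs
    set b := pt (cD d) phK y hy (C zH) with hb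
    have hbz : b = phK (C zH) + y := by rw [hb, pt_coord (cD d) _ _ hzz]
    have hs0 : constantCoeff s = iK (d g) := by rw [hs, constantCoeff_pt, hcG]
    have hy0 : constantCoeff y = 0 := X_dvd_iff.1 hy
    have hm'm : s ^ 2 * v * m = s ^ 2 := by rw [mul_assoc, mul_comm v m, hv, mul_one]
    refine ⟨y, hy, s ^ 2 * v, m * b + k - s ^ 2 * v * b, hinc, ?_, hm'm, ?_, ?_⟩
    · rw [hinc]; ring
    · have h1 := congrArg constantCoeff hm'm
      rw [map_mul, hm, map_pow, hs0, ← muj_succ hg1 j] at h1
      exact mul_right_cancel₀ (muj_ne_zero hg1 j) h1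
    · have : s ^ 2 * v * phK (C zH) + (m * b + k - s ^ 2 * v * b)
          = (m * phK (C zH) + k) + (m - s ^ 2 * v) * y := by rw [hbz]; ring
      rw [this, map_add, hk, map_mul, hy0, mul_zero, add_zero]
  choose yf hyf mf kf hf using hstep
  have hinit : constantCoeff m0 = muj (d g) 0 ∧ constantCoeff (m0 * phK (C zH) + k0) = iK g := by
    refine ⟨?_, hk0⟩
    rw [hm0, muj]; simp
  let st : (j : ℕ) → St j := fun j =>
    Nat.rec (motive := fun j => St j) ⟨(m0, k0), hinit⟩
      (fun j p => ⟨(mf j p, kf j p), (hf j p).2.2.2⟩) j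
  have hst : ∀ j, st (j + 1) = ⟨(mf j (st j), kf j (st j)), (hf j (st j)).2.2.2⟩ :=
    fun j => rfl
  refine ⟨fun j => yf j (st j), fun j => hyf j (st j), fun j => (st j).1.1,
    fun j => (st j).1.2, rfl, rfl, fun N => ⟨?_, ?_, ?_⟩, fun j => (st j).2.1⟩
  · intro j _
    exact (hf j (st j)).1
  · intro j _
    change _ = (st (j + 1)).1.1 * _ + (st (j + 1)).1.2
    rw [hst]
    exact (hf j (st j)).2.1
  · intro j _
    change (st (j + 1)).1.1 * _ = _
    rw [hst]
    exact (hf j (st j)).2.2.1

end collapsed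

end Crest.Agent.R102.H3
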