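import Mathlib

/-!
Row 102, [H3], theorem (RAT) of 926 #24024, end of RAT-1 (NL): if `r j ^ 2 = 1 - ν j θ`,
`r j (0) = 1` and `∑ r j = N` as formal power series over a field of characteristic zero, then all
`ν j` vanish.
-/

set_option autoImplicit false

open PowerSeries Finset

noncomputable section

namespace Crest.Agent.R102.RatPS389

variable {K : Type*} [Field K] [CharZero K]

/-- power sums with positive weights -/
theorem weighted_power_sums {ι : Type*} [Fintype ι] (ν : ι → K) (m : ι → ℕ) (hm : ∀ j, 0 < m j)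
    (h : ∀ k : ℕ, 1 ≤ k → ∑ j, (m j : K) * ν j ^ k = 0) : ∀ j, ν j = 0 := by
  classical
  intro j₀
  by_contra hne
  -- for every polynomial with `P(0) = 0`
  have hP : ∀ P : Polynomial K, P.coeff 0 = 0 → ∑ j, (m j : K) * P.eval (ν j) = 0 := by
    intro P hP0
    have h1 : ∀ j, (m j : K) * P.eval (ν j) =
        ∑ k ∈ range (P.natDegree + 1), P.coeff k * ((m j : K) * ν j ^ k) := by
      intro j
      rw [Polynomial.eval_eq_sum_range, mul_sum]
      exact sum_congr rfl fun k _ => by ring
    rw [sum_congr rfl fun j _ => h1 j, sum_comm]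
    refine sum_eq_zero fun k _ => ?_
    rw [← mul_sum]
    rcases Nat.eq_zero_or_pos k with rfl | hk
    · rw [hP0, zero_mul]
    · rw [h k hk, mul_zero]
  set S : Finset K := (univ.image ν).erase (ν j₀) with hS
  set P : Polynomial K := Polynomial.X * ∏ a ∈ S, (Polynomial.X - Polynomial.C a) with hPdef
  have h0 : P.coeff 0 = 0 := by simp [hPdef]
  have h2 := hP P h0
  have hval : ∀ j, P.eval (ν j) = if ν j = ν j₀ then P.eval (ν j₀) else 0 := by
    intro j
    split_ifs with hj
    · rw [hj]
    · have : ν j ∈ S := by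
        rw [hS, mem_erase]
        exact ⟨hj, mem_image_of_mem _ (mem_univ _)⟩
      rw [hPdef, Polynomial.eval_mul, Polynomial.eval_prod]
      rw [prod_eq_zero this (by simp), mul_zero]
  have hne0 : P.eval (ν j₀) ≠ 0 := by
    rw [hPdef, Polynomial.eval_mul, Polynomial.eval_prod]
    refine mul_ne_zero (by simpa using hne) (prod_ne_zero_iff.2 fun a ha => ?_)
    rw [hS, mem_erase] at ha
    simpa using sub_ne_zero.2 (Ne.symm ha.1)
  have h3 : (∑ j, if ν j = ν j₀ then (m j : K) else 0) * P.eval (ν j₀) = 0 := by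
    rw [sum_mul]
    refine Eq.trans (sum_congr rfl fun j _ => ?_) h2
    rw [hval j]
    split_ifs <;> simp
  rcases mul_eq_zero.1 h3 with h4 | h4
  · have h5 : ((∑ j, if ν j = ν j₀ then m j else 0 : ℕ) : K) = 0 := by
      rw [← h4]; push_cast
      exact sum_congr rfl fun j _ => by split_ifs <;> simp
    rw [Nat.cast_eq_zero, sum_eq_zero_iff] at h5
    have := h5 j₀ (mem_univ _)
    simp at this
    exact absurd this (hm j₀).ne'
  · exact hne0 h4

omit [CharZero K] in
/-- arbitrary weights: the weights over every nonzero value of `ν` cancel -/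
theorem weighted_power_sums' {ι : Type*} [Fintype ι] [DecidableEq K] (ν m : ι → K)
    (h : ∀ k : ℕ, 1 ≤ k → ∑ j, m j * ν j ^ k = 0) (a : K) (ha : a ≠ 0) :
    ∑ j with ν j = a, m j = 0 := by
  classical
  have hP : ∀ P : Polynomial K, P.coeff 0 = 0 → ∑ j, m j * P.eval (ν j) = 0 := by
    intro P hP0
    have h1 : ∀ j, m j * P.eval (ν j) =
        ∑ k ∈ range (P.natDegree + 1), P.coeff k * (m j * ν j ^ k) := by
      intro j
      rw [Polynomial.eval_eq_sum_range, mul_sum]
      exact sum_congr rfl fun k _ => by ring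
    rw [sum_congr rfl fun j _ => h1 j, sum_comm]
    refine sum_eq_zero fun k _ => ?_
    rw [← mul_sum]
    rcases Nat.eq_zero_or_pos k with rfl | hk
    · rw [hP0, zero_mul]
    · rw [h k hk, mul_zero]
  set S : Finset K := (univ.image ν).erase a with hS
  set P : Polynomial K := Polynomial.X * ∏ b ∈ S, (Polynomial.X - Polynomial.C b) with hPdef
  have h0 : P.coeff 0 = 0 := by simp [hPdef]
  have h2 := hP P h0
  have hval : ∀ j, P.eval (ν j) = if ν j = a then P.eval a else 0 := by
    intro j
    split_ifs with hj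
    · rw [hj]
    · have : ν j ∈ S := by
        rw [hS, mem_erase]
        exact ⟨hj, mem_image_of_mem _ (mem_univ _)⟩
      rw [hPdef, Polynomial.eval_mul, Polynomial.eval_prod]
      rw [prod_eq_zero this (by simp), mul_zero]
  have hne0 : P.eval a ≠ 0 := by
    rw [hPdef, Polynomial.eval_mul, Polynomial.eval_prod]
    refine mul_ne_zero (by simpa using ha) (prod_ne_zero_iff.2 fun b hb => ?_)
    rw [hS, mem_erase] at hb
    simpa using sub_ne_zero.2 (Ne.symm hb.1)
  have h3 : (∑ j, if ν j = a then m j else 0) * P.eval a = 0 := by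
    rw [sum_mul]
    refine Eq.trans (sum_congr rfl fun j _ => ?_) h2
    rw [hval j]
    split_ifs <;> simp
  rw [sum_filter]
  exact (mul_eq_zero.1 h3).resolve_right hne0

/-- recursion for the coefficients of the square root of `1 - ν θ` -/
theorem coeff_rec {ν : K} {r : PowerSeries K}
    (h : r ^ 2 = 1 - C ν * X) (k : ℕ) :
    (k + 1 : K) * coeff (k + 1) r = ν * (k - 1 / 2) * coeff k r := by
  -- `2 r r' = - ν`, hence `(1 - ν θ) r' = - ν r / 2`
  have h1 : (2 : PowerSeries K) * (r * d⁄dX K r) = - C ν := by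
    have := congrArg (d⁄dX K) h
    rw [Derivation.leibniz_pow, map_sub, Derivation.map_one_eq_zero, Derivation.leibniz] at this
    simp only [PowerSeries.derivative_C, PowerSeries.derivative_X, smul_eq_mul, nsmul_eq_mul,
      mul_zero, mul_one, add_zero, zero_sub] at this
    rw [← this]; push_cast; ring
  have h2 : (2 : PowerSeries K) * ((1 - C ν * X) * d⁄dX K r) = - C ν * r := by
    rw [← h]
    calc (2 : PowerSeries K) * (r ^ 2 * d⁄dX K r) = r * (2 * (r * d⁄dX K r)) := by ring
      _ = - C ν * r := by rw [h1]; ring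
  have h3 := congrArg (coeff k) h2
  have e1 : (2 : PowerSeries K) = C (2 : K) := (map_ofNat C 2).symm
  rw [e1, coeff_C_mul, sub_mul, one_mul, map_sub, mul_assoc, coeff_C_mul, neg_mul, map_neg,
    coeff_C_mul, PowerSeries.coeff_derivative] at h3
  rcases k with _ | k
  · simp only [coeff_zero_X_mul] at h3
    have h2' : (2 : K) ≠ 0 := two_ne_zero
    field_simp
    push_cast at h3 ⊢
    linear_combination h3
  · rw [coeff_succ_X_mul, PowerSeries.coeff_derivative] at h3
    field_simp
    push_cast at h3 ⊢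
    linear_combination h3

/-- coefficients of `√(1 - X)` -/
def fc : ℕ → ℚ
  | 0 => 1
  | k + 1 => (k - 1 / 2) / (k + 1) * fc k

theorem fc_ne_zero (k : ℕ) : fc k ≠ 0 := by
  induction k with
  | zero => simp [fc]
  | succ k ih =>
    rw [fc]
    refine mul_ne_zero (div_ne_zero ?_ (by positivity)) ih
    intro h
    have h1 : (2 * k : ℚ) = 1 := by linarith
    have h2 : (2 * k : ℤ) = 1 := by exact_mod_cast h1
    omega

theorem coeff_sqrt {ν : K} {r : PowerSeries K} (h0 : constantCoeff r = 1)
    (h : r ^ 2 = 1 - C ν * X) (k : ℕ) : coeff k r = (fc k : K) * ν ^ k := by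
  induction k with
  | zero => simp [fc, h0]
  | succ k ih =>
    have h1 := coeff_rec h k
    have hk : (k + 1 : K) ≠ 0 := by exact_mod_cast Nat.succ_ne_zero k
    rw [ih] at h1
    rw [fc]
    push_cast
    field_simp at h1 ⊢
    linear_combination h1

/-- **(PS)** -/
theorem sqrt_sum {ι : Type*} [Fintype ι] (ν : ι → K) (m : ι → ℕ) (hm : ∀ j, 0 < m j)
    (r : ι → PowerSeries K) (h0 : ∀ j, constantCoeff (r j) = 1)
    (h : ∀ j, r j ^ 2 = 1 - C (ν j) * X) (c : K)
    (hs : ∑ j, (m j : PowerSeries K) * r j = C c) : ∀ j, ν j = 0 := by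
  refine weighted_power_sums ν m hm fun k hk => ?_
  have h1 := congrArg (coeff k) hs
  rw [map_sum, coeff_C, if_neg (by omega)] at h1
  have h2 : ∀ j, coeff k ((m j : PowerSeries K) * r j) = (fc k : K) * ((m j : K) * ν j ^ k) := by
    intro j
    have : (m j : PowerSeries K) = C (m j : K) := by simp
    rw [this, coeff_C_mul, coeff_sqrt (h0 j) (h j) k]; ring
  rw [sum_congr rfl fun j _ => h2 j, ← mul_sum] at h1
  have h3 : (fc k : K) ≠ 0 := by exact_mod_cast fc_ne_zero k
  exact (mul_eq_zero.1 h1).resolve_left h3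

/-- **(PS), the form of (RAT)**: `∑ √(1 - ν_j θ) = N` implies `ν = 0`. -/
theorem sqrt_sum_fin {N : ℕ} (ν : Fin N → K) (r : Fin N → PowerSeries K)
    (h0 : ∀ j, constantCoeff (r j) = 1) (h : ∀ j, r j ^ 2 = 1 - C (ν j) * X)
    (hs : ∑ j, r j = (N : PowerSeries K)) : ∀ j, ν j = 0 := by
  refine sqrt_sum ν (fun _ => 1) (fun _ => one_pos) r h0 h (N : K) ?_
  simp [hs]

/-- **(PS) with arbitrary weights** (`m j = ±1`: the nonzero `ν j` cancel in pairs) -/
theorem sqrt_sum_weights {ι : Type*} [Fintype ι] [DecidableEq K] (ν m : ι → K)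
    (r : ι → PowerSeries K) (h0 : ∀ j, constantCoeff (r j) = 1)
    (h : ∀ j, r j ^ 2 = 1 - C (ν j) * X) (c : K)
    (hs : ∑ j, C (m j) * r j = C c) (a : K) (ha : a ≠ 0) : ∑ j with ν j = a, m j = 0 := by
  refine weighted_power_sums' ν m (fun k hk => ?_) a ha
  have h1 := congrArg (coeff k) hs
  rw [map_sum, coeff_C, if_neg (by omega)] at h1
  have h2 : ∀ j, coeff k (C (m j) * r j) = (fc k : K) * (m j * ν j ^ k) := by
    intro j
    rw [coeff_C_mul, coeff_sqrt (h0 j) (h j) k]; ring
  rw [sum_congr rfl fun j _ => h2 j, ← mul_sum] at h1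
  have h3 : (fc k : K) ≠ 0 := by exact_mod_cast fc_ne_zero k
  exact (mul_eq_zero.1 h1).resolve_left h3

end Crest.Agent.R102.RatPS389
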