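import Crest.Agent.R102.FCTA_575
import Crest.Agent.R102.RatPS_389

/-!
Row 102, [H3], theorem (RAT), RAT-1: **formal rigidity**.  If the deformed mirrors
`G i = g + ε ν_i + …` produce the same last line as `g`, then all `ν_i` vanish.
-/

set_option linter.unusedSectionVars false
set_option autoImplicit false

namespace Crest.Agent.R102.H3

open PowerSeries Finset

section aux

variable {K H S : Type*} [Field K] [CharZero K] [CommRing H] [Algebra K H] [CommRing S]

/-- constants are not moved by translations -/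
theorem pt_const (d : Derivation K H H) (φ : H →+* S⟦X⟧) {y : S⟦X⟧} (hy : X ∣ y) {f : H}
    (hf : d f = 0) : pt d φ y hy f = φ f := by
  refine eq_of_forall_X_pow_dvd fun M => ?_
  obtain ⟨q, hq⟩ := pt_eq d φ hy f (M + 1)
  have h2 : ∀ m, dn d (m + 1) f = 0 := by
    intro m
    rw [dn, Function.iterate_succ_apply, hf]
    have h3 : ∀ k, d^[k] (0 : H) = 0 := by
      intro k
      induction k with
      | zero => rfl
      | succ k ih => rw [Function.iterate_succ_apply', ih, map_zero]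
    rw [h3, smul_zero]
  rw [hq, Finset.sum_range_succ']
  simp only [h2, map_zero, zero_mul, Finset.sum_const_zero, zero_add, dn_zero, pow_zero,
    mul_one, add_sub_cancel_left]
  exact ((pow_dvd_pow X (by omega : M ≤ M + 1)).trans (X_pow_dvd_pow hy _)).mul_right _

/-- square roots of `1 - a X` -/
theorem exists_sqrt (h2 : IsUnit (2 : S)) (a : S) :
    ∃ r : S⟦X⟧, constantCoeff r = 1 ∧ r ^ 2 = 1 - C a * X := by
  have h0 : (X : S⟦X⟧) ∣ (1 : S⟦X⟧) ^ 2 - (1 - C a * X) := ⟨C a, by ring⟩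
  obtain ⟨r, h1, h3⟩ := exists_root (fun y : S⟦X⟧ => y ^ 2 - (1 - C a * X)) 1 h0 2 h2
    (fun y y' hy hy' => by
      refine ⟨y + y', ?_, by ring⟩
      rw [X_dvd_iff, map_sub, map_one, sub_eq_zero] at hy hy'
      rw [map_add, hy, hy']
      norm_num)
  refine ⟨r, ?_, sub_eq_zero.1 h3⟩
  rw [X_dvd_iff, map_sub, map_one, sub_eq_zero] at h1
  exact h1

/-- base point at `θ = 0` -/
theorem bs_zero : bs (RingHom.id H) 0 = ((C : H →+* H⟦X⟧)).comp constantCoeff := by
  symm
  refine evS_unique _ _ _ (fun a => ?_) ?_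
  · simp
  · simp

theorem constantCoeff_cD (d : Derivation K H H) (F : H⟦X⟧) :
    constantCoeff (cD d F) = d (constantCoeff F) := by
  rw [← coeff_zero_eq_constantCoeff_apply, coeff_cD, coeff_zero_eq_constantCoeff_apply]

/-- translation of the base point -/
theorem pt_bs_zero (d : Derivation K H H) {y : H⟦X⟧} (hy : X ∣ y) :
    pt (cD d) (bs (RingHom.id H) 0) y hy = (pt d (C : H →+* H⟦X⟧) y hy).comp constantCoeff := by
  rw [pt_comp (cD d) d constantCoeff (constantCoeff_cD d) C hy]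
  exact pt_congr _ _ _ bs_zero rfl

theorem swap_map_C (f : H⟦X⟧) : swap (PowerSeries.map (C : H →+* H⟦X⟧) f) = C f := by
  ext n m
  rw [coeff_coeff_swap, coeff_map, coeff_C, coeff_C]
  split_ifs with h1
  · rfl
  · simp

end aux

section rigid

variable {K H R : Type*} [Field K] [CharZero K] [CommRing H] [IsDomain H] [Algebra K H] [CommRing R]

/-- `R⟦ε⟧ → R⟦θ⟧`, `ε ↦ u² θ` -/
noncomputable def kap (u : R) : R⟦X⟧ →+* R⟦X⟧ :=
  evS C (C (u ^ 2) * X) (Dvd.intro_left _ rfl)

@[simp] theorem kap_C (u : R) (a : R) : kap u (C a) = C a := by rw [kap, evS_C]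

@[simp] theorem kap_X (u : R) : kap u X = C (u ^ 2) * X := by rw [kap, evS_X]

/-- `H⟦θ⟧⟦ω⟧ → R⟦θ⟧` -/
noncomputable def chi (j : H⟦X⟧ →+* R) : H⟦X⟧⟦X⟧ →+* R⟦X⟧ := (PowerSeries.map j).comp swap

theorem chi_map_C (j : H⟦X⟧ →+* R) (f : H⟦X⟧) :
    chi j (PowerSeries.map (C : H →+* H⟦X⟧) f) = C (j f) := by
  rw [chi, RingHom.comp_apply, swap_map_C, map_C]

@[simp] theorem chi_X (j : H⟦X⟧ →+* R) : chi j X = C (j X) := by
  rw [chi, RingHom.comp_apply, swap_X, map_C]

@[simp] theorem chi_C_X (j : H⟦X⟧ →+* R) : chi j (C X) = X := by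
  rw [chi, RingHom.comp_apply, swap_C_X, map_X]

theorem constantCoeff_chi (j : H⟦X⟧ →+* R) (F : H⟦X⟧⟦X⟧) :
    constantCoeff (chi j F) = j (PowerSeries.map constantCoeff F) := by
  rw [chi, RingHom.comp_apply, ← constantCoeff_swap]
  rw [← coeff_zero_eq_constantCoeff_apply, coeff_map, coeff_zero_eq_constantCoeff_apply]

/-- the vertices of the undeformed chain, in `R⟦θ⟧` -/
theorem chi_pt (d : Derivation K H H) (j : H⟦X⟧ →+* R) (β : H⟦X⟧) :
    (chi j).comp (pt (cD d) (bs (C : H →+* H⟦X⟧) X) (X * PowerSeries.map C β) (X_dvd_X_mul _)) =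
      (kap (j X)).comp (PowerSeries.map (j.comp (pt d C (X * β) (X_dvd_X_mul β)))) := by
  have hXd : (X : R⟦X⟧) ∣ C (j X ^ 2) * X := Dvd.intro_left _ rfl
  have h1 := evS_unique ((chi j).comp (pt (cD d) (bs (C : H →+* H⟦X⟧) X)
    (X * PowerSeries.map C β) (X_dvd_X_mul _)))
    ((C).comp (j.comp (pt d C (X * β) (X_dvd_X_mul β)))) (y := C (j X ^ 2) * X) hXd ?_ ?_
  · have h2 := evS_unique ((kap (j X)).comp (PowerSeries.map (j.comp
      (pt d C (X * β) (X_dvd_X_mul β)))))
      ((C).comp (j.comp (pt d C (X * β) (X_dvd_X_mul β)))) (y := C (j X ^ 2) * X) hXd ?_ ?_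
    · rw [h1, h2]
    · intro a
      rw [RingHom.comp_apply, map_C, kap_C]; rfl
    · rw [RingHom.comp_apply, map_X, kap_X]
  · intro a
    have e1 : pt (cD d) (bs (C : H →+* H⟦X⟧) X) (X * PowerSeries.map C β) (X_dvd_X_mul _) (C a) =
        PowerSeries.map C (pt d C (X * β) (X_dvd_X_mul β) a) := by
      have e2 := pt_comp d (cD d) (C : H →+* H⟦X⟧) (fun f => (cD_C d f).symm)
        (bs (C : H →+* H⟦X⟧) X) (X_dvd_X_mul (PowerSeries.map C β))
      have e3 := comp_pt d (PowerSeries.map (C : H →+* H⟦X⟧)) (X_dvd_map_X _) (C : H →+* H⟦X⟧)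
        (X_dvd_X_mul β)
      have e4 : (bs (C : H →+* H⟦X⟧) X).comp (C : H →+* H⟦X⟧) =
          (PowerSeries.map (C : H →+* H⟦X⟧)).comp (C : H →+* H⟦X⟧) := by
        refine RingHom.ext fun a => ?_
        simp
      have e5 := RingHom.congr_fun e2 a
      have e6 := RingHom.congr_fun e3 a
      rw [RingHom.comp_apply] at e5 e6
      rw [e5, e6]
      exact congrArg (fun F : H →+* H⟦X⟧⟦X⟧ => F a) (pt_congr d _ _ e4 (by simp))
    rw [RingHom.comp_apply, e1, chi_map_C]
    rfl
  · rw [RingHom.comp_apply, pt_const (cD d) _ _ (cD_X d), bs_X]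
    simp only [map_mul, map_pow, chi_X, chi_C_X]
    ring

/-- **formal rigidity** -/
theorem rigid (d : Derivation K H H) {z g : H} (hz : d z = 1) (hg1 : IsUnit (d g))
    (hg2 : IsUnit (dn d 2 g)) (N : ℕ) (G : ℕ → H⟦X⟧) (hG : ∀ i, constantCoeff (G i) = g)
    {mh kh : H⟦X⟧} (hline : Ty d g = evn mh * (C z + X) + evn kh)
    (j : H⟦X⟧ →+* R) (hj : Function.Injective j) (hjX : IsUnit (j X))
    (β m0 k0 : ℕ → H⟦X⟧) (hβ : ∀ i < N, constantCoeff (β i) = 2 * i + 1)
    (hbase : Chain d z (fun _ => g) N (fun i => pt d C (X * β i) (X_dvd_X_mul (β i))) m0 k0)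
    (hm00 : m0 0 = evn mh) (hk00 : k0 0 = evn kh)
    (y : ℕ → R⟦X⟧) (hy : ∀ i, X ∣ y i) (m k : ℕ → R⟦X⟧)
    (hout : Chain (cD d) (C z) G N (fun i => pt (cD d)
      (PowerSeries.map (j.comp (pt d C (X * β i) (X_dvd_X_mul (β i))))) (y i) (hy i)) m k)
    (hm0 : m 0 = C (j (m0 0))) (hk0 : k 0 = C (j (k0 0))) (hmN : m N = C (j (m0 N))) :
    ∀ i < N, coeff 1 (G i) = 0 := by
  classical
  have h2H : IsUnit (2 : H) := by
    have : (2 : H) = algebraMap K H 2 := by rw [map_ofNat]
    rw [this]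
    exact (Ne.isUnit two_ne_zero).map _
  have h2HH : IsUnit (2 : H⟦X⟧) := by
    have : (2 : H⟦X⟧) = C 2 := by rw [map_ofNat]
    rw [this]
    exact h2H.map _
  obtain ⟨v2, hv2⟩ := hg2
  set g2 := dn d 2 g with hg2d
  set a : ℕ → H := fun i => (↑(v2⁻¹) : H) * coeff 1 (G i) with ha
  -- square roots
  choose r hr1 hr2 using fun i => exists_sqrt h2H (a i)
  have hr : ∀ i, C g2 * r i ^ 2 = C g2 - X * C (coeff 1 (G i)) := by
    intro i
    rw [hr2]
    have h2 : (C g2 : H⟦X⟧) * C (a i) = C (coeff 1 (G i)) := by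
      rw [← map_mul]
      congr 1
      simp only [ha, ← mul_assoc, ← hv2]
      simp
    rw [mul_sub, mul_one, ← mul_assoc, h2]
    ring
  have hru : ∀ i, IsUnit (r i) := by
    intro i
    rw [PowerSeries.isUnit_iff_constantCoeff, hr1 i]
    exact isUnit_one
  have hzz : cD d (C z) = (1 : H⟦X⟧) := by rw [cD_C, hz, map_one]
  -- the inner chain
  have hNH := near_bs d (C : H →+* H⟦X⟧) (X : H⟦X⟧) g G hG
  have hIH := inv_line (S := H⟦X⟧) d (C : H →+* H⟦X⟧) X hline
  obtain ⟨Y, mi, ki, hmi0, hki0, hY, hci, hIi⟩ :=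
    inner_exists (z := C z) hzz h2HH (hg1.map C)
      (show IsUnit (C g2 : H⟦X⟧) by rw [← hv2]; exact v2.isUnit.map C) hNH r hru hr _ _ hIH
  -- its reduction mod `θ` is the base chain
  set π : H⟦X⟧ →+* H := constantCoeff with hπ
  have hπC : π.comp (C : H →+* H⟦X⟧) = RingHom.id H := RingHom.ext fun a => by simp [hπ]
  have hπX : π X = 0 := by simp [hπ]
  have hred := (hci N).map (PowerSeries.map π)
  have e1 : ∀ i, (PowerSeries.map π).comp
      (pt (cD d) (bs (C : H →+* H⟦X⟧) X) (X * Y i) (X_dvd_X_mul (Y i)))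
      = pt (cD d) (bs (RingHom.id H) 0) (X * PowerSeries.map π (Y i)) (X_dvd_X_mul _) := by
    intro i
    rw [comp_pt (cD d) (PowerSeries.map π) (X_dvd_map_X _)]
    refine pt_congr _ _ _ ?_ (by simp)
    rw [map_bs, hπC, hπX]
  simp only [e1] at hred
  have hbase' : Chain (cD d) (C z) G N
      (fun i => pt (cD d) (bs (RingHom.id H) 0) (X * β i) (X_dvd_X_mul (β i))) m0 k0 := by
    have hG' : ∀ i, π (G i) = g := hG
    refine ⟨fun i hi => ?_, fun i hi => ?_, fun i hi => ?_⟩
    · simp only [pt_bs_zero, RingHom.comp_apply]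
      rw [← hπ, hG', show π (C z) = z from constantCoeff_C z]
      exact hbase.inc i hi
    · simp only [pt_bs_zero, RingHom.comp_apply]
      rw [← hπ, hG', show π (C z) = z from constantCoeff_C z]
      exact hbase.inc' i hi
    · simp only [pt_bs_zero, RingHom.comp_apply]
      rw [constantCoeff_cD, ← hπ, hG']
      exact hbase.refl i hi
  have hN0 := near_bs d (RingHom.id H) (0 : H) g G hG
  have hI0 := inv_line (S := H) d (RingHom.id H) 0 hline
  have hmap0 : ∀ f : H⟦X⟧, PowerSeries.map (RingHom.id H) f = f := fun f => by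
    ext n; simp
  have huniq := inner_unique (z := C z) hzz h2H (hg1.map (RingHom.id H))
    (show IsUnit ((RingHom.id H) g2) by rw [← hv2]; exact v2.isUnit) hN0 (fun _ => 1) N
    (fun _ _ => isUnit_one) (fun i _ => by simp)
    (Y := fun i => PowerSeries.map π (Y i)) (m := fun i => PowerSeries.map π (mi i))
    (k := fun i => PowerSeries.map π (ki i)) (Y' := β) (m' := m0) (k' := k0) ?_ ?_ ?_ ?_ ?_
    hred hbase'
  rotate_left
  · rw [hmi0, hm00, ← RingHom.comp_apply, ← PowerSeries.map_comp, hπC, hmap0]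
  · rw [hki0, hk00, ← RingHom.comp_apply, ← PowerSeries.map_comp, hπC, hmap0]
  · rw [hmi0, hki0, ← RingHom.comp_apply, ← RingHom.comp_apply, ← PowerSeries.map_comp, hπC]
    exact hI0
  · intro i hi
    have : constantCoeff (PowerSeries.map π (Y i)) = π (constantCoeff (Y i)) := by
      rw [← coeff_zero_eq_constantCoeff_apply, coeff_map, coeff_zero_eq_constantCoeff_apply]
    have hr1' : ∀ x, π (r x) = 1 := hr1
    rw [this, hY, map_add, map_mul, map_sum, map_ofNat]
    simp only [hr1']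
  · intro i hi
    rw [hβ i hi]; simp
  obtain ⟨hlines, hYβ⟩ := huniq
  -- comparison in `R⟦θ⟧`
  set φ : ℕ → H →+* H⟦X⟧ := fun i => pt d C (X * β i) (X_dvd_X_mul (β i)) with hφ
  set ξ : ℕ → H⟦X⟧ →+* R⟦X⟧ := fun i => (kap (j X)).comp (PowerSeries.map (j.comp (φ i))) with hξ
  set e : ℕ → R⟦X⟧ := fun i => chi j (X * (Y i - PowerSeries.map C (β i))) with he
  set w : ℕ → R⟦X⟧ := fun i => kap (j X) (y i) with hw
  have hkX : (X : R⟦X⟧) ∣ kap (j X) X := by rw [kap_X]; exact Dvd.intro_left _ rfl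
  have hwd : ∀ i, X ∣ w i := fun i => hkX.trans (map_dvd _ (hy i))
  have hπX' : PowerSeries.map π (X : H⟦X⟧⟦X⟧) = X := map_X _
  have hπmap : ∀ f : H⟦X⟧, PowerSeries.map π (PowerSeries.map (C : H →+* H⟦X⟧) f) = f := by
    intro f
    rw [← RingHom.comp_apply, ← PowerSeries.map_comp, hπC, hmap0]
  have hed : ∀ i < N, X ∣ e i := by
    intro i hi
    rw [X_dvd_iff, he, constantCoeff_chi, ← hπ, map_mul, map_sub, hYβ i hi, hπmap]
    simp
  have hin : ∀ i (hi : i < N), (chi j).comp
      (pt (cD d) (bs (C : H →+* H⟦X⟧) X) (X * Y i) (X_dvd_X_mul (Y i))) =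
      pt (cD d) (ξ i) (e i) (hed i hi) := by
    intro i hi
    have h1 : pt (cD d) (bs (C : H →+* H⟦X⟧) X) (X * Y i) (X_dvd_X_mul (Y i)) =
        pt (cD d) (pt (cD d) (bs (C : H →+* H⟦X⟧) X) (X * PowerSeries.map C (β i))
          (X_dvd_X_mul _)) (X * (Y i - PowerSeries.map C (β i))) (X_dvd_X_mul _) := by
      rw [pt_pt]
      exact pt_congr _ _ _ rfl (by ring)
    rw [h1, map_pt_of_dvd (cD d) (chi j) _ _ (hed i hi)]
    exact pt_congr _ _ _ (chi_pt d j (β i)) rfl
  have hou : ∀ i, (kap (j X)).comp (pt (cD d) (PowerSeries.map (j.comp (φ i))) (y i) (hy i)) =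
      pt (cD d) (ξ i) (w i) (hwd i) := by
    intro i
    rw [comp_pt (cD d) (kap (j X)) hkX]
  have hξ0 : ∀ i (F : H⟦X⟧), constantCoeff (ξ i F) = j (φ i (constantCoeff F)) := by
    intro i F
    rw [hξ]
    simp only [RingHom.comp_apply]
    rw [kap, constantCoeff_evS, constantCoeff_C]
    rw [← coeff_zero_eq_constantCoeff_apply, coeff_map, coeff_zero_eq_constantCoeff_apply]
    rfl
  have hchi0 : ∀ i ≤ N, constantCoeff (chi j (mi i)) = j (m0 i) := by
    intro i hi
    rw [constantCoeff_chi, ← hπ, (hlines i hi).1]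
  have hunit : ∀ i < N, IsUnit (constantCoeff (ξ i (cD d (G i)) - chi j (mi i))) := by
    intro i hi
    rw [map_sub, hξ0, hchi0 i hi.le, ← map_sub, constantCoeff_cD, hG]
    obtain ⟨q, hq⟩ := pt_eq d (C : H →+* H⟦X⟧) (X_dvd_X_mul (β i)) (d g) 2
    rw [Finset.sum_range_succ, Finset.sum_range_one] at hq
    simp only [dn_zero, dn_one, pow_zero, mul_one, pow_one] at hq
    rw [two_dn_two] at hq
    obtain ⟨w1, hw1⟩ := ((hlines i hi.le).2.2).i1
    rw [(hlines i hi.le).1] at hw1
    have hβc : X ∣ β i - C (2 * (i : H) + 1) := by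
      rw [X_dvd_iff, map_sub, constantCoeff_C, hβ i hi, sub_self]
    obtain ⟨w2, hw2⟩ := hβc
    have e1 : m0 i = C (d g) + X * C (2 * g2 * (2 * i)) + X ^ 2 * w1 := by
      rw [← hw1]
      simp
    have e2 : β i = C (2 * (i : H) + 1) + X * w2 := by rw [← hw2]; ring
    have e3 : φ i (d g) - m0 i = X * (C (2 * g2) + X * (2 * C g2 * w2 + β i ^ 2 * q - w1)) := by
      change pt d C (X * β i) (X_dvd_X_mul (β i)) (d g) - m0 i = _
      rw [hq, e1]
      have e4 : (C (2 * g2) : H⟦X⟧) * (X * β i) = X * (C (2 * g2) * C (2 * (i : H) + 1)) +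
          X ^ 2 * (2 * C g2 * w2) := by
        conv_lhs => rw [e2]
        simp only [map_mul, map_ofNat]
        ring
      rw [e4]
      simp only [map_mul, map_add, map_ofNat, map_natCast, map_one]
      ring
    rw [e3, map_mul]
    refine hjX.mul (IsUnit.map j ?_)
    rw [PowerSeries.isUnit_iff_constantCoeff]
    simp only [map_add, map_mul, constantCoeff_C, constantCoeff_X, zero_mul, add_zero]
    rw [← hv2]
    exact h2H.mul v2.isUnit
  have hcomp : ∀ i ≤ N, kap (j X) (m i) = chi j (mi i) ∧ kap (j X) (k i) = chi j (ki i) := by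
    intro i
    induction i with
    | zero =>
      intro _
      rw [hm0, hk0, hmi0, hki0, hm00, hk00, kap_C, kap_C, chi_map_C, chi_map_C]
      exact ⟨rfl, rfl⟩
    | succ i ih =>
      intro hi
      obtain ⟨ihm, ihk⟩ := ih (by omega)
      have hi' : i < N := by omega
      have o1 := (hout.map (kap (j X))).inc i hi'
      have o2 := (hout.map (kap (j X))).inc' i hi'
      have o3 := (hout.map (kap (j X))).refl i hi'
      have n1 := ((hci N).map (chi j)).inc i hi'
      have n2 := ((hci N).map (chi j)).inc' i hi'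
      have n3 := ((hci N).map (chi j)).refl i hi'
      rw [hou i] at o1 o2 o3
      rw [hin i hi'] at n1 n2 n3
      rw [ihm, ihk] at o1
      have hwe : w i = e i := outer_unique (cD d) (ξ i) hzz (G i) (chi j (mi i)) (chi j (ki i))
        (hunit i hi') (hwd i) (hed i hi') o1 n1
      have hpt : pt (cD d) (ξ i) (w i) (hwd i) = pt (cD d) (ξ i) (e i) (hed i hi') :=
        pt_congr _ _ _ rfl hwe
      rw [hpt] at o1 o2 o3
      have hmu : IsUnit (chi j (mi i)) := by
        rw [PowerSeries.isUnit_iff_constantCoeff, hchi0 i hi'.le]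
        have h5 := (hlines i hi'.le).2.2
        rw [(hlines i hi'.le).1] at h5
        exact (h5.isUnit_m (hg1.map (RingHom.id H))).map j
      have em : kap (j X) (m (i + 1)) = chi j (mi (i + 1)) := by
        rw [ihm] at o3
        exact hmu.mul_left_injective (o3.trans n3.symm)
      refine ⟨em, ?_⟩
      rw [em] at o2
      exact add_left_cancel (o2.symm.trans n2)
  -- the last line
  have hfin := (hcomp N le_rfl).1
  rw [hmN, kap_C] at hfin
  have hfin2 : mi N = PowerSeries.map C (m0 N) := by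
    have h6 : PowerSeries.map j (swap (mi N)) = PowerSeries.map j (C (m0 N)) := by
      rw [map_C]; exact hfin.symm
    have h7 : swap (mi N) = C (m0 N) := by
      ext1 n
      have := congrArg (coeff n) h6
      rw [coeff_map, coeff_map] at this
      exact hj this
    rw [← swap_map_C] at h7
    exact swap_injective h7
  have hcoef : (2 : H⟦X⟧) * C g2 * (2 * ∑ i ∈ range N, r i) = C (coeff 1 (m0 N)) := by
    obtain ⟨w1, hw1⟩ := (hIi N).i1
    have h8 : mi N = C (C (d g)) + X * C (2 * C g2 * (2 * ∑ i ∈ range N, r i)) + X ^ 2 * w1 := by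
      rw [← hw1]; ring
    have h9 := congrArg (coeff 1) h8
    rw [hfin2, coeff_map, map_add, map_add, coeff_C, if_neg one_ne_zero, zero_add,
      coeff_succ_X_mul, coeff_C, if_pos rfl, coeff_X_pow_mul', if_neg (by norm_num), add_zero] at h9
    exact h9.symm
  -- power sums
  have hchar : CharZero H := charZero_of_injective_algebraMap (algebraMap K H).injective
  set F := FractionRing H
  set α : H →+* F := algebraMap H F with hα
  have hαinj : Function.Injective α := IsFractionRing.injective H F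
  have hcharF : CharZero F := charZero_of_injective_algebraMap hαinj
  have hg2F : α g2 ≠ 0 := by
    rw [← hv2]
    exact (v2.isUnit.map α).ne_zero
  have hsumF : ∑ i : Fin N, ((1 : ℕ) : F⟦X⟧) * PowerSeries.map α (r i) =
      C (α (coeff 1 (m0 N)) / (4 * α g2)) := by
    have h10 := congrArg (PowerSeries.map α) hcoef
    rw [map_mul, map_mul, map_mul, map_ofNat, map_C, map_C, map_sum] at h10
    have h11 : (C (4 * α g2) : F⟦X⟧) * ∑ i ∈ range N, PowerSeries.map α (r i) =
        C (α (coeff 1 (m0 N))) := by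
      rw [← h10, map_mul, map_ofNat]; ring
    have h12 : (C (4 * α g2) : F⟦X⟧) ≠ 0 := by
      rw [Ne, map_eq_zero_iff C (PowerSeries.C_injective)]
      exact mul_ne_zero (by norm_num) hg2F
    refine mul_left_cancel₀ h12 ?_
    rw [← map_mul, mul_div_cancel₀ _ (mul_ne_zero (by norm_num) hg2F), ← h11]
    congr 1
    simp only [Nat.cast_one, one_mul]
    exact Fin.sum_univ_eq_sum_range (fun i => PowerSeries.map α (r i)) N
  have hz0 := RatPS389.sqrt_sum (fun i : Fin N => α (a i)) (fun _ => 1) (fun _ => one_pos)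
    (fun i => PowerSeries.map α (r i)) (fun i => ?_) (fun i => ?_) _ hsumF
  · intro i hi
    have h13 := hz0 ⟨i, hi⟩
    have h14 : a i = 0 := hαinj (by rw [map_zero]; exact h13)
    exact (v2⁻¹.isUnit.mul_right_eq_zero).1 h14
  · rw [← coeff_zero_eq_constantCoeff_apply, coeff_map, coeff_zero_eq_constantCoeff_apply, hr1,
      map_one]
  · rw [← map_pow, hr2]
    simp

end rigid

end Crest.Agent.R102.H3
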