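import Crest.Agent.R102.FCT_575
import Crest.Agent.R102.Rat1A_389

/-!
Row 102, part (C), leaf H3: comparison of the chain over `R⟦ε⟧` (outer chain) with the chain over
`H⟦θ⟧⟦ω⟧` (inner chain), `ε = θ ω²`; the comparison argument is taken from 389's `H3.rigid`.
Then the formal collapse theorem for chains over `R⟦ε⟧`.
-/

set_option linter.unusedSectionVars false
set_option autoImplicit false

namespace Crest.Agent.R102.H3

open PowerSeries Finset

section compare

variable {K H R : Type*} [Field K] [CharZero K] [CommRing H] [IsDomain H] [Algebra K H] [CommRing R]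

/-- **comparison** of inner and outer chains -/
theorem compare_chains (d : Derivation K H H) {z g : H} (hz : d z = 1) (hg1 : IsUnit (d g))
    (hg2 : IsUnit (dn d 2 g)) (N : ℕ) (G : ℕ → H⟦X⟧) (hG : ∀ i, constantCoeff (G i) = g)
    {mh kh : H⟦X⟧} (hline : Ty d g = evn mh * (C z + X) + evn kh)
    (j : H⟦X⟧ →+* R) (hjX : IsUnit (j X))
    (β m0 k0 : ℕ → H⟦X⟧) (hβ : ∀ i < N, constantCoeff (β i) = 2 * i + 1)
    (hbase : Chain d z (fun _ => g) N (fun i => pt d C (X * β i) (X_dvd_X_mul (β i))) m0 k0)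
    (hm00 : m0 0 = evn mh) (hk00 : k0 0 = evn kh)
    (y : ℕ → R⟦X⟧) (hy : ∀ i, X ∣ y i) (m k : ℕ → R⟦X⟧)
    (hout : Chain (cD d) (C z) G N (fun i => pt (cD d)
      (PowerSeries.map (j.comp (pt d C (X * β i) (X_dvd_X_mul (β i))))) (y i) (hy i)) m k)
    (hm0 : m 0 = C (j (m0 0))) (hk0 : k 0 = C (j (k0 0)))
    (r : ℕ → H⟦X⟧) (hr1 : ∀ i, constantCoeff (r i) = 1)
    {Y mi ki : ℕ → H⟦X⟧⟦X⟧} (hmi0 : mi 0 = PowerSeries.map C (evn mh))
    (hki0 : ki 0 = PowerSeries.map C (evn kh))
    (hY : ∀ i, constantCoeff (Y i) = 2 * ∑ l ∈ range i, r l + r i)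
    (hci : ∀ N, Chain (cD d) (C z) G N
      (fun i => pt (cD d) (bs C X) (X * Y i) (X_dvd_X_mul (Y i))) mi ki) :
    (∀ i ≤ N, kap (j X) (m i) = chi j (mi i) ∧ kap (j X) (k i) = chi j (ki i)) ∧
    ∀ i < N, (kap (j X)).comp (pt (cD d)
      (PowerSeries.map (j.comp (pt d C (X * β i) (X_dvd_X_mul (β i))))) (y i) (hy i)) =
      (chi j).comp (pt (cD d) (bs C X) (X * Y i) (X_dvd_X_mul (Y i))) := by
  classical
  have h2H : IsUnit (2 : H) := by
    have : (2 : H) = algebraMap K H 2 := by rw [map_ofNat]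
    rw [this]
    exact (Ne.isUnit two_ne_zero).map _
  obtain ⟨v2, hv2⟩ := hg2
  set g2 := dn d 2 g with hg2d
  have hzz : cD d (C z) = (1 : H⟦X⟧) := by rw [cD_C, hz, map_one]
  -- its reduction mod `θ` is the base chain
  set π : H⟦X⟧ →+* H := constantCoeff with hπ
  have hπC : π.comp (C : H →+* H⟦X⟧) = RingHom.id H := RingHom.ext fun a => by simp [hπ]
  have hπX : π X = 0 := by simp [hπ]
  have hred := (hci N).map (PowerSeries.map π)
  have e1 : ∀ i, (PowerSeries.map π).comp
      (pt (cD d) (bs (C : H →+* H⟦X⟧) X) (X * Y i) (X_dvd_X_mul (Y i)))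
      = pt (cD d) (bs (RingHom.id H) 0) (X * PowerSeries.map π (Y i)) (X_dvd_X_mul _) := by
    intro i
    rw [comp_pt (cD d) (PowerSeries.map π) (X_dvd_map_X _)]
    refine pt_congr _ _ _ ?_ (by simp)
    rw [map_bs, hπC, hπX]
  simp only [e1] at hred
  have hbase' : Chain (cD d) (C z) G N
      (fun i => pt (cD d) (bs (RingHom.id H) 0) (X * β i) (X_dvd_X_mul (β i))) m0 k0 := by
    have hG' : ∀ i, π (G i) = g := hG
    refine ⟨fun i hi => ?_, fun i hi => ?_, fun i hi => ?_⟩
    · simp only [pt_bs_zero, RingHom.comp_apply]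
      rw [← hπ, hG', show π (C z) = z from constantCoeff_C z]
      exact hbase.inc i hi
    · simp only [pt_bs_zero, RingHom.comp_apply]
      rw [← hπ, hG', show π (C z) = z from constantCoeff_C z]
      exact hbase.inc' i hi
    · simp only [pt_bs_zero, RingHom.comp_apply]
      rw [constantCoeff_cD, ← hπ, hG']
      exact hbase.refl i hi
  have hN0 := near_bs d (RingHom.id H) (0 : H) g G hG
  have hI0 := inv_line (S := H) d (RingHom.id H) 0 hline
  have hmap0 : ∀ f : H⟦X⟧, PowerSeries.map (RingHom.id H) f = f := fun f => by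
    ext n; simp
  have huniq := inner_unique (z := C z) hzz h2H (hg1.map (RingHom.id H))
    (show IsUnit ((RingHom.id H) g2) by rw [← hv2]; exact v2.isUnit) hN0 (fun _ => 1) N
    (fun _ _ => isUnit_one) (fun i _ => by simp)
    (Y := fun i => PowerSeries.map π (Y i)) (m := fun i => PowerSeries.map π (mi i))
    (k := fun i => PowerSeries.map π (ki i)) (Y' := β) (m' := m0) (k' := k0) ?_ ?_ ?_ ?_ ?_
    hred hbase'
  rotate_left
  · rw [hmi0, hm00, ← RingHom.comp_apply, ← PowerSeries.map_comp, hπC, hmap0]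
  · rw [hki0, hk00, ← RingHom.comp_apply, ← PowerSeries.map_comp, hπC, hmap0]
  · rw [hmi0, hki0, ← RingHom.comp_apply, ← RingHom.comp_apply, ← PowerSeries.map_comp, hπC]
    exact hI0
  · intro i hi
    have : constantCoeff (PowerSeries.map π (Y i)) = π (constantCoeff (Y i)) := by
      rw [← coeff_zero_eq_constantCoeff_apply, coeff_map, coeff_zero_eq_constantCoeff_apply]
    have hr1' : ∀ x, π (r x) = 1 := hr1
    rw [this, hY, map_add, map_mul, map_sum, map_ofNat]
    simp only [hr1']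
  · intro i hi
    rw [hβ i hi]; simp
  obtain ⟨hlines, hYβ⟩ := huniq
  -- comparison in `R⟦θ⟧`
  set φ : ℕ → H →+* H⟦X⟧ := fun i => pt d C (X * β i) (X_dvd_X_mul (β i)) with hφ
  set ξ : ℕ → H⟦X⟧ →+* R⟦X⟧ := fun i => (kap (j X)).comp (PowerSeries.map (j.comp (φ i))) with hξ
  set e : ℕ → R⟦X⟧ := fun i => chi j (X * (Y i - PowerSeries.map C (β i))) with he
  set w : ℕ → R⟦X⟧ := fun i => kap (j X) (y i) with hw
  have hkX : (X : R⟦X⟧) ∣ kap (j X) X := by rw [kap_X]; exact Dvd.intro_left _ rfl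
  have hwd : ∀ i, X ∣ w i := fun i => hkX.trans (map_dvd _ (hy i))
  have hπX' : PowerSeries.map π (X : H⟦X⟧⟦X⟧) = X := map_X _
  have hπmap : ∀ f : H⟦X⟧, PowerSeries.map π (PowerSeries.map (C : H →+* H⟦X⟧) f) = f := by
    intro f
    rw [← RingHom.comp_apply, ← PowerSeries.map_comp, hπC, hmap0]
  have hed : ∀ i < N, X ∣ e i := by
    intro i hi
    rw [X_dvd_iff, he, constantCoeff_chi, ← hπ, map_mul, map_sub, hYβ i hi, hπmap]
    simp
  have hin : ∀ i (hi : i < N), (chi j).comp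
      (pt (cD d) (bs (C : H →+* H⟦X⟧) X) (X * Y i) (X_dvd_X_mul (Y i))) =
      pt (cD d) (ξ i) (e i) (hed i hi) := by
    intro i hi
    have h1 : pt (cD d) (bs (C : H →+* H⟦X⟧) X) (X * Y i) (X_dvd_X_mul (Y i)) =
        pt (cD d) (pt (cD d) (bs (C : H →+* H⟦X⟧) X) (X * PowerSeries.map C (β i))
          (X_dvd_X_mul _)) (X * (Y i - PowerSeries.map C (β i))) (X_dvd_X_mul _) := by
      rw [pt_pt]
      exact pt_congr _ _ _ rfl (by ring)
    rw [h1, map_pt_of_dvd (cD d) (chi j) _ _ (hed i hi)]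
    exact pt_congr _ _ _ (chi_pt d j (β i)) rfl
  have hou : ∀ i, (kap (j X)).comp (pt (cD d) (PowerSeries.map (j.comp (φ i))) (y i) (hy i)) =
      pt (cD d) (ξ i) (w i) (hwd i) := by
    intro i
    rw [comp_pt (cD d) (kap (j X)) hkX]
  have hξ0 : ∀ i (F : H⟦X⟧), constantCoeff (ξ i F) = j (φ i (constantCoeff F)) := by
    intro i F
    rw [hξ]
    simp only [RingHom.comp_apply]
    rw [kap, constantCoeff_evS, constantCoeff_C]
    rw [← coeff_zero_eq_constantCoeff_apply, coeff_map, coeff_zero_eq_constantCoeff_apply]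
    rfl
  have hchi0 : ∀ i ≤ N, constantCoeff (chi j (mi i)) = j (m0 i) := by
    intro i hi
    rw [constantCoeff_chi, ← hπ, (hlines i hi).1]
  have hunit : ∀ i < N, IsUnit (constantCoeff (ξ i (cD d (G i)) - chi j (mi i))) := by
    intro i hi
    rw [map_sub, hξ0, hchi0 i hi.le, ← map_sub, constantCoeff_cD, hG]
    obtain ⟨q, hq⟩ := pt_eq d (C : H →+* H⟦X⟧) (X_dvd_X_mul (β i)) (d g) 2
    rw [Finset.sum_range_succ, Finset.sum_range_one] at hq
    simp only [dn_zero, dn_one, pow_zero, mul_one, pow_one] at hq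
    rw [two_dn_two] at hq
    obtain ⟨w1, hw1⟩ := ((hlines i hi.le).2.2).i1
    rw [(hlines i hi.le).1] at hw1
    have hβc : X ∣ β i - C (2 * (i : H) + 1) := by
      rw [X_dvd_iff, map_sub, constantCoeff_C, hβ i hi, sub_self]
    obtain ⟨w2, hw2⟩ := hβc
    have e1 : m0 i = C (d g) + X * C (2 * g2 * (2 * i)) + X ^ 2 * w1 := by
      rw [← hw1]
      simp
    have e2 : β i = C (2 * (i : H) + 1) + X * w2 := by rw [← hw2]; ring
    have e3 : φ i (d g) - m0 i = X * (C (2 * g2) + X * (2 * C g2 * w2 + β i ^ 2 * q - w1)) := by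
      change pt d C (X * β i) (X_dvd_X_mul (β i)) (d g) - m0 i = _
      rw [hq, e1]
      have e4 : (C (2 * g2) : H⟦X⟧) * (X * β i) = X * (C (2 * g2) * C (2 * (i : H) + 1)) +
          X ^ 2 * (2 * C g2 * w2) := by
        conv_lhs => rw [e2]
        simp only [map_mul, map_ofNat]
        ring
      rw [e4]
      simp only [map_mul, map_add, map_ofNat, map_natCast, map_one]
      ring
    rw [e3, map_mul]
    refine hjX.mul (IsUnit.map j ?_)
    rw [PowerSeries.isUnit_iff_constantCoeff]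
    simp only [map_add, map_mul, constantCoeff_C, constantCoeff_X, zero_mul, add_zero]
    rw [← hv2]
    exact h2H.mul v2.isUnit
  have hcomp : ∀ i ≤ N, kap (j X) (m i) = chi j (mi i) ∧ kap (j X) (k i) = chi j (ki i) := by
    intro i
    induction i with
    | zero =>
      intro _
      rw [hm0, hk0, hmi0, hki0, hm00, hk00, kap_C, kap_C, chi_map_C, chi_map_C]
      exact ⟨rfl, rfl⟩
    | succ i ih =>
      intro hi
      obtain ⟨ihm, ihk⟩ := ih (by omega)
      have hi' : i < N := by omega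
      have o1 := (hout.map (kap (j X))).inc i hi'
      have o2 := (hout.map (kap (j X))).inc' i hi'
      have o3 := (hout.map (kap (j X))).refl i hi'
      have n1 := ((hci N).map (chi j)).inc i hi'
      have n2 := ((hci N).map (chi j)).inc' i hi'
      have n3 := ((hci N).map (chi j)).refl i hi'
      rw [hou i] at o1 o2 o3
      rw [hin i hi'] at n1 n2 n3
      rw [ihm, ihk] at o1
      have hwe : w i = e i := outer_unique (cD d) (ξ i) hzz (G i) (chi j (mi i)) (chi j (ki i))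
        (hunit i hi') (hwd i) (hed i hi') o1 n1
      have hpt : pt (cD d) (ξ i) (w i) (hwd i) = pt (cD d) (ξ i) (e i) (hed i hi') :=
        pt_congr _ _ _ rfl hwe
      rw [hpt] at o1 o2 o3
      have hmu : IsUnit (chi j (mi i)) := by
        rw [PowerSeries.isUnit_iff_constantCoeff, hchi0 i hi'.le]
        have h5 := (hlines i hi'.le).2.2
        rw [(hlines i hi'.le).1] at h5
        exact (h5.isUnit_m (hg1.map (RingHom.id H))).map j
      have em : kap (j X) (m (i + 1)) = chi j (mi (i + 1)) := by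
        rw [ihm] at o3
        exact hmu.mul_left_injective (o3.trans n3.symm)
      refine ⟨em, ?_⟩
      rw [em] at o2
      exact add_left_cancel (o2.symm.trans n2)
  refine ⟨hcomp, fun i hi' => ?_⟩
  obtain ⟨ihm, ihk⟩ := hcomp i hi'.le
  have o1 := (hout.map (kap (j X))).inc i hi'
  have n1 := ((hci N).map (chi j)).inc i hi'
  rw [hou i] at o1
  rw [hin i hi'] at n1
  rw [ihm, ihk] at o1
  have hwe : w i = e i := outer_unique (cD d) (ξ i) hzz (G i) (chi j (mi i)) (chi j (ki i))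
    (hunit i hi') (hwd i) (hed i hi') o1 n1
  rw [hou i, hin i hi']
  exact pt_congr _ _ _ rfl hwe

end compare

section fctR

variable {K H R : Type*} [Field K] [CharZero K] [CommRing H] [IsDomain H] [Algebra K H] [CommRing R]

theorem coeff_kap (u : R) (F : R⟦X⟧) (n : ℕ) : coeff n (kap u F) = u ^ (2 * n) * coeff n F := by
  obtain ⟨q, hq⟩ : ∃ q, F = (∑ m ∈ range (n + 1), C (coeff m F) * X ^ m) + X ^ (n + 1) * q := by
    have h : X ^ (n + 1) ∣ F - ∑ m ∈ range (n + 1), C (coeff m F) * X ^ m := by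
      rw [X_pow_dvd_iff]
      intro m hm
      rw [map_sub, map_sum, Finset.sum_eq_single m]
      · rw [coeff_C_mul, coeff_X_pow_self, mul_one, sub_self]
      · intro b _ hb
        rw [coeff_C_mul, coeff_X_pow, if_neg (Ne.symm hb), mul_zero]
      · intro hm'
        exact absurd (Finset.mem_range.2 hm) hm'
    obtain ⟨q, hq⟩ := h
    exact ⟨q, by rw [← hq]; ring⟩
  have h1 : kap u F = (∑ m ∈ range (n + 1), C (coeff m F * u ^ (2 * m)) * X ^ m) +
      X ^ (n + 1) * (C (u ^ (2 * (n + 1))) * kap u q) := by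
    conv_lhs => rw [hq]
    rw [map_add, map_sum, map_mul, map_pow, kap_X]
    congr 1
    · refine Finset.sum_congr rfl fun m _ => ?_
      rw [map_mul, map_pow, kap_C, kap_X, mul_pow, ← map_pow, map_mul (C (R := R)), pow_mul]
      ring
    · rw [mul_pow, ← map_pow, pow_mul]
      ring
  rw [h1, map_add, map_sum, Finset.sum_eq_single n]
  · rw [coeff_C_mul, coeff_X_pow_self, mul_one, coeff_X_pow_mul', if_neg (by omega), add_zero,
      mul_comm]
  · intro b _ hb
    rw [coeff_C_mul, coeff_X_pow, if_neg (Ne.symm hb), mul_zero]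
  · intro hm'
    exact absurd (Finset.mem_range.2 (Nat.lt_succ_self n)) hm'

theorem kap_injective {u : R} (hu : IsUnit u) : Function.Injective (kap u) := by
  intro F G h
  ext n
  have h1 := congrArg (coeff n) h
  rw [coeff_kap, coeff_kap] at h1
  exact (hu.pow _).mul_right_injective h1

theorem X_dvd_chi {j : H⟦X⟧ →+* R} : (X : R⟦X⟧) ∣ chi j (C X) := by rw [chi_C_X]

theorem kap_map_evn (j : H⟦X⟧ →+* R) (u : H⟦X⟧⟦X⟧) :
    kap (j X) (PowerSeries.map (j.comp evn) u) = chi j (emb C X u) := by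
  have hXd : (X : R⟦X⟧) ∣ C (j X ^ 2) * X := Dvd.intro_left _ rfl
  have h1 := evS_unique ((kap (j X)).comp (PowerSeries.map (j.comp (evn : H⟦X⟧ →+* H⟦X⟧))))
    ((C).comp (j.comp evn)) (y := C (j X ^ 2) * X) hXd ?_ ?_
  · have h2 := evS_unique ((chi j).comp (emb (C : H →+* H⟦X⟧) X))
      ((C).comp (j.comp evn)) (y := C (j X ^ 2) * X) hXd ?_ ?_
    · rw [← RingHom.comp_apply, ← RingHom.comp_apply, h1, h2]
    · intro a
      rw [RingHom.comp_apply, emb, evS_C]
      -- both sides are `H⟦w⟧ → R⟦θ⟧`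
      have e : evS ((C).comp (C : H →+* H⟦X⟧)) (X ^ 2) X_dvd_X2 =
          (PowerSeries.map (C : H →+* H⟦X⟧)).comp (evn : H⟦X⟧ →+* H⟦X⟧) := by
        symm
        refine evS_unique _ _ _ (fun b => ?_) ?_
        · rw [RingHom.comp_apply, evn, evS_C, map_C]; rfl
        · rw [RingHom.comp_apply, evn, evS_X, map_pow, map_X]
      rw [e, RingHom.comp_apply, chi_map_C]
      rfl
    · rw [RingHom.comp_apply, emb, evS_X, map_mul, map_pow, chi_C_X, chi_X, ← map_pow]
      ring
  · intro a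
    rw [RingHom.comp_apply, map_C, kap_C]; rfl
  · rw [RingHom.comp_apply, map_X, kap_X]

/-- **The formal collapse theorem over `R⟦ε⟧`.** -/
theorem fctR (d : Derivation K H H) {z g : H} (hz : d z = 1) (hg1 : IsUnit (d g))
    (hg2 : IsUnit (dn d 2 g)) (N : ℕ) (hN : 0 < N) (G : ℕ → H⟦X⟧)
    (hG : ∀ i < N, constantCoeff (G i) = g)
    (hν : ∀ i < N, ∀ l < N, i ≠ l → coeff 1 (G i) ≠ coeff 1 (G l))
    (hν0 : ∀ i < N, coeff 1 (G i) ≠ 0) {mh kh : H⟦X⟧}
    (hline : Ty d g = evn mh * (C z + X) + evn kh)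
    (j : H⟦X⟧ →+* R) (hj : Function.Injective j) (hjX : IsUnit (j X))
    (β m0 k0 : ℕ → H⟦X⟧) (hβ : ∀ i < N, constantCoeff (β i) = 2 * i + 1)
    (hbase : Chain d z (fun _ => g) N (fun i => pt d C (X * β i) (X_dvd_X_mul (β i))) m0 k0)
    (hm00 : m0 0 = evn mh) (hk00 : k0 0 = evn kh)
    (y : ℕ → R⟦X⟧) (hy : ∀ i, X ∣ y i) (m k : ℕ → R⟦X⟧)
    (hout : Chain (cD d) (C z) G N (fun i => pt (cD d)
      (PowerSeries.map (j.comp (pt d C (X * β i) (X_dvd_X_mul (β i))))) (y i) (hy i)) m k)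
    (hm0 : m 0 = C (j (m0 0))) (hk0 : k 0 = C (j (k0 0)))
    {α : Type*} (x : Fin N → α → H⟦X⟧) (u : H⟦X⟧⟦X⟧)
    (P : Polynomial (MvPolynomial (Option (Fin N × α)) K))
    (hrel : P.eval₂ (obs ((C).comp (j.comp (algebraMap K H⟦X⟧))) (C (j (evn mh)))
      (fun i => pt (cD d)
      (PowerSeries.map (j.comp (pt d C (X * β i) (X_dvd_X_mul (β i))))) (y i) (hy i)) x)
      (PowerSeries.map (j.comp evn) u) = 0)
    (hne : P.map (obs ((C).comp (j.comp (algebraMap K H⟦X⟧))) (C (j (evn mh)))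
      (fun i => pt (cD d)
      (PowerSeries.map (j.comp (pt d C (X * β i) (X_dvd_X_mul (β i))))) (y i) (hy i)) x) ≠ 0) :
    ∃ q : Polynomial (Polynomial H), q ≠ 0 ∧
      q.eval₂ (Polynomial.eval₂RingHom (Ty d) (evn mh)) (evn (constantCoeff u)) = 0 := by
  classical
  have h2H : IsUnit (2 : H) := by
    have : (2 : H) = algebraMap K H 2 := by rw [map_ofNat]
    rw [this]
    exact (Ne.isUnit two_ne_zero).map _
  have h2HH : IsUnit (2 : H⟦X⟧) := by
    have : (2 : H⟦X⟧) = C 2 := by rw [map_ofNat]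
    rw [this]
    exact h2H.map _
  set G' : ℕ → H⟦X⟧ := fun i => if i < N then G i else C g with hG'
  have hG'lt : ∀ i < N, G' i = G i := fun i hi => by simp [hG', hi]
  have hG'0 : ∀ i, constantCoeff (G' i) = g := by
    intro i
    by_cases h : i < N
    · rw [hG'lt i h, hG i h]
    · simp [hG', h]
  have hG'N : ∀ i, N ≤ i → coeff 1 (G' i) = 0 := by
    intro i h
    have : ¬ i < N := by omega
    simp [hG', this, coeff_C]
  obtain ⟨v2, hv2⟩ := id hg2
  set g2 := dn d 2 g with hg2d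
  set a : ℕ → H := fun i => (↑(v2⁻¹) : H) * coeff 1 (G' i) with ha
  choose r hr1 hr2 using fun i => exists_sqrt h2H (a i)
  have hr : ∀ i, C g2 * r i ^ 2 = C g2 - X * C (coeff 1 (G' i)) := by
    intro i
    rw [hr2]
    have h2 : (C g2 : H⟦X⟧) * C (a i) = C (coeff 1 (G' i)) := by
      rw [← map_mul]
      congr 1
      simp only [ha, ← mul_assoc, ← hv2]
      simp
    rw [mul_sub, mul_one, ← mul_assoc, h2]
    ring
  have hru : ∀ i, IsUnit (r i) := by
    intro i
    rw [PowerSeries.isUnit_iff_constantCoeff, hr1 i]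
    exact isUnit_one
  have hzz : cD d (C z) = (1 : H⟦X⟧) := by rw [cD_C, hz, map_one]
  have hNH := near_bs d (C : H →+* H⟦X⟧) (X : H⟦X⟧) g G' hG'0
  have hIH := inv_line (S := H⟦X⟧) d (C : H →+* H⟦X⟧) X hline
  obtain ⟨Y, mi, ki, hmi0, hki0, hY, hci, hIi⟩ :=
    inner_exists (z := C z) hzz h2HH (hg1.map C)
      (show IsUnit (C g2 : H⟦X⟧) by rw [← hv2]; exact v2.isUnit.map C) hNH r hru hr _ _ hIH
  have hout' : Chain (cD d) (C z) G' N (fun i => pt (cD d)
      (PowerSeries.map (j.comp (pt d C (X * β i) (X_dvd_X_mul (β i))))) (y i) (hy i)) m k := by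
    refine ⟨fun i hi => ?_, fun i hi => ?_, fun i hi => ?_⟩
    · rw [hG'lt i hi]; exact hout.inc i hi
    · rw [hG'lt i hi]; exact hout.inc' i hi
    · rw [hG'lt i hi]; exact hout.refl i hi
  obtain ⟨hc1, hc2⟩ := compare_chains d hz hg1 hg2 N G' hG'0 hline j hjX β m0 k0 hβ hbase hm00 hk00
    y hy m k hout' hm0 hk0 r hr1 hmi0 hki0 hY hci
  have hobs : (kap (j X)).comp (obs ((C).comp (j.comp (algebraMap K H⟦X⟧))) (C (j (evn mh)))
      (fun i => pt (cD d)
      (PowerSeries.map (j.comp (pt d C (X * β i) (X_dvd_X_mul (β i))))) (y i) (hy i)) x) =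
      (chi j).comp (obs (kK K H) (PowerSeries.map C (evn mh))
        (fun i => pt (cD d) (bs C X) (X * Y i) (X_dvd_X_mul (Y i))) x) := by
    rw [comp_obs, comp_obs]
    have e1 : (kap (j X)).comp ((C).comp (j.comp (algebraMap K H⟦X⟧))) =
        (chi j).comp (kK K H) := by
      refine RingHom.ext fun c => ?_
      simp only [RingHom.comp_apply, kap_C, kK]
      have : (C (C (algebraMap K H c)) : H⟦X⟧⟦X⟧) =
          PowerSeries.map C (C (algebraMap K H c)) := by rw [map_C]
      rw [this, chi_map_C, PowerSeries.algebraMap_apply]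
    rw [e1]
    refine obs_congr _ x ?_ fun i hi => hc2 i hi
    rw [kap_C, chi_map_C]
  have hchi : Function.Injective (chi j) := by
    intro F F' h
    rw [chi, RingHom.comp_apply, RingHom.comp_apply] at h
    exact swap_injective (PowerSeries.map_injective j hj h)
  refine fct d hz hg1 hg2 N hN G' hG'0 hG'N (fun i hi l hl hil => ?_) (fun i hi => ?_) hline r
    (fun i _ => hr i) (fun i _ => hr1 i) hmi0 hki0 (fun i _ => hY i) (hci N) x u P ?_ ?_
  · rw [hG'lt i hi, hG'lt l hl]; exact hν i hi l hl hil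
  · rw [hG'lt i hi]; exact hν0 i hi
  · apply hchi
    rw [Polynomial.hom_eval₂, ← hobs, ← kap_map_evn, ← Polynomial.hom_eval₂, hrel, map_zero,
      map_zero]
  · intro h
    apply hne
    ext i : 1
    rw [Polynomial.coeff_map, Polynomial.coeff_zero]
    apply kap_injective hjX
    have h1 := congrArg (fun Q : Polynomial H⟦X⟧⟦X⟧ => chi j (Q.coeff i)) h
    simp only [Polynomial.coeff_map, Polynomial.coeff_zero] at h1
    have h2 := congrArg (fun Ψ : MvPolynomial (Option (Fin N × α)) K →+* R⟦X⟧ =>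
      Ψ (P.coeff i)) hobs
    simp only [RingHom.comp_apply] at h2
    rw [h2, h1, map_zero, map_zero]

end fctR

end Crest.Agent.R102.H3
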