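import Crest.Agent.R102.FCTB_575

/-!
Row 102, part (C), leaf H3: the formal collapse theorem.
-/

set_option linter.unusedSectionVars false

namespace Crest.Agent.R102.H3

open PowerSeries Finset

section aux

variable {K H S : Type*} [Field K] [CharZero K] [CommRing H] [Algebra K H] [CommRing S]

theorem pt_const575 (d : Derivation K H H) (φ : H →+* S⟦X⟧) {y : S⟦X⟧} (hy : X ∣ y) {f : H}
    (hf : d f = 0) : pt d φ y hy f = φ f := by
  refine eq_of_forall_X_pow_dvd fun M => ?_
  obtain ⟨q, hq⟩ := pt_eq d φ hy f (M + 1)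
  have h2 : ∀ m, dn d (m + 1) f = 0 := by
    intro m
    rw [dn, Function.iterate_succ_apply, hf]
    have h3 : ∀ k, d^[k] (0 : H) = 0 := by
      intro k
      induction k with
      | zero => rfl
      | succ k ih => rw [Function.iterate_succ_apply', ih, map_zero]
    rw [h3, smul_zero]
  rw [hq, Finset.sum_range_succ']
  simp only [h2, map_zero, zero_mul, Finset.sum_const_zero, zero_add, dn_zero, pow_zero,
    mul_one, add_sub_cancel_left]
  exact ((pow_dvd_pow X (by omega : M ≤ M + 1)).trans (X_pow_dvd_pow hy _)).mul_right _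

/-- divide a polynomial with power series coefficients by the maximal power of `X` -/
theorem exists_primitive {k : Type*} [Field k] (Q : Polynomial k⟦X⟧) (hQ : Q ≠ 0) :
    ∃ (v : ℕ) (Q' : Polynomial k⟦X⟧), Q = Polynomial.C (X ^ v) * Q' ∧
      Q'.map (constantCoeff (R := k)) ≠ 0 := by
  classical
  have hex : ∃ v, ¬ Polynomial.C ((X : k⟦X⟧) ^ (v + 1)) ∣ Q := by
    by_contra hcon
    push Not at hcon
    apply hQ
    ext i : 1
    rw [Polynomial.coeff_zero]
    refine eq_of_forall_X_pow_dvd fun M => ?_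
    rw [sub_zero]
    have h1 := (Polynomial.C_dvd_iff_dvd_coeff _ _).1 (hcon M) i
    exact (pow_dvd_pow X (Nat.le_succ M)).trans h1
  set v := Nat.find hex with hv
  have h1 := Nat.find_spec hex
  rw [← hv] at h1
  have h0 : Polynomial.C ((X : k⟦X⟧) ^ v) ∣ Q := by
    rcases Nat.eq_zero_or_pos v with h | h
    · rw [h, pow_zero, Polynomial.C_1]; exact one_dvd _
    · have h2 := Nat.find_min hex (m := v - 1) (by omega)
      push Not at h2
      rwa [Nat.sub_add_cancel h] at h2
  obtain ⟨Q', hQ'⟩ := h0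
  refine ⟨v, Q', hQ', fun h => h1 ?_⟩
  have h3 : Polynomial.C (X : k⟦X⟧) ∣ Q' := by
    rw [Polynomial.C_dvd_iff_dvd_coeff]
    intro i
    rw [X_dvd_iff, ← Polynomial.coeff_map, h, Polynomial.coeff_zero]
  obtain ⟨Q'', hQ''⟩ := h3
  refine ⟨Q'', ?_⟩
  rw [hQ', hQ'', pow_succ, Polynomial.C_mul]
  ring

end aux

section fct

variable {K H : Type*} [Field K] [CharZero K] [CommRing H] [IsDomain H] [Algebra K H]

/-- **The formal collapse theorem.** -/
theorem fct (d : Derivation K H H) {zH g : H} (hz : d zH = 1) (hg1 : IsUnit (d g))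
    (hg2 : IsUnit (dn d 2 g)) (N : ℕ) (hN : 0 < N) (G : ℕ → H⟦X⟧)
    (hG : ∀ j, constantCoeff (G j) = g)
    (hGN : ∀ j, N ≤ j → coeff 1 (G j) = 0)
    (hν : ∀ i < N, ∀ j < N, i ≠ j → coeff 1 (G i) ≠ coeff 1 (G j))
    (hν0 : ∀ j < N, coeff 1 (G j) ≠ 0) {mh kh : H⟦X⟧}
    (hline : Ty d g = evn mh * (C zH + X) + evn kh)
    (r : ℕ → H⟦X⟧) (hr : ∀ j < N, C (dn d 2 g) * r j ^ 2 = C (dn d 2 g) - X * C (coeff 1 (G j)))
    (hr0 : ∀ j < N, constantCoeff (r j) = 1)
    {Y m k : ℕ → H⟦X⟧⟦X⟧} (hm0 : m 0 = PowerSeries.map C (evn mh))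
    (hk0 : k 0 = PowerSeries.map C (evn kh))
    (hY : ∀ j < N, constantCoeff (Y j) = 2 * ∑ i ∈ range j, r i + r j)
    (hc : Chain (cD d) (C zH) G N (fun j => pt (cD d) (bs C X) (X * Y j) (X_dvd_X_mul (Y j))) m k)
    {α : Type*} (x : Fin N → α → H⟦X⟧) (u : H⟦X⟧⟦X⟧)
    (P : Polynomial (MvPolynomial (Option (Fin N × α)) K))
    (hrel : P.eval₂ (obs (kK K H) (PowerSeries.map C (evn mh))
      (fun j => pt (cD d) (bs C X) (X * Y j) (X_dvd_X_mul (Y j))) x) (emb C X u) = 0)
    (hne : P.map (obs (kK K H) (PowerSeries.map C (evn mh))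
      (fun j => pt (cD d) (bs C X) (X * Y j) (X_dvd_X_mul (Y j))) x) ≠ 0) :
    ∃ q : Polynomial (Polynomial H), q ≠ 0 ∧
      q.eval₂ (Polynomial.eval₂RingHom (Ty d) (evn mh)) (evn (constantCoeff u)) = 0 := by
  classical
  have hzz : cD d (C zH) = (1 : H⟦X⟧) := by rw [cD_C, hz, map_one]
  obtain ⟨Ye, me, ke, hme0, hke0, hYe, hce, hiff⟩ :=
    flip_chain d hz hg1 hg2 N G hG hGN hν hν0 hline r hr hr0 hm0 hk0 hY hc x (alt (N := N))
  have hone := collapse0 d hz hg1 hg2 N G hG hline r hr0 hme0 hke0 hYe hce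
  have hrele := (hiff P u).1 hrel
  -- the flipped points
  set Φe : ℕ → H⟦X⟧ →+* H⟦X⟧⟦X⟧ :=
    fun j => pt (cD d) (bs C X) (X * Ye j) (X_dvd_X_mul (Ye j)) with hΦe
  -- `S4 = Frac(H⟦ω⟧)`
  let S4 := FractionRing H⟦X⟧
  let al : H⟦X⟧ →+* S4 := algebraMap H⟦X⟧ S4
  have hal : Function.Injective al := IsFractionRing.injective H⟦X⟧ S4
  let sw : H⟦X⟧⟦X⟧ →+* S4⟦X⟧ := (PowerSeries.map al).comp swap
  have hswi : Function.Injective sw :=
    (PowerSeries.map_injective al hal).comp swap_injective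
  have hccsw : ∀ F : H⟦X⟧⟦X⟧, constantCoeff (sw F)
      = al (PowerSeries.map (constantCoeff (R := H)) F) := by
    intro F
    have : constantCoeff (sw F) = al (constantCoeff (swap F)) := by
      change constantCoeff (PowerSeries.map al (swap F)) = _
      rw [← coeff_zero_eq_constantCoeff_apply, coeff_map, coeff_zero_eq_constantCoeff_apply]
    rw [this, constantCoeff_swap]
  have hρpt : ∀ j < N, (PowerSeries.map (constantCoeff (R := H))).comp (Φe j)
      = (Ty d).comp (constantCoeff (R := H)) := by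
    intro j hj
    rw [hΦe]
    simp only
    rw [comp_pt (cD d) (PowerSeries.map (constantCoeff (R := H)))
      (X_dvd_map_X (constantCoeff (R := H)))]
    refine RingHom.ext fun F => ?_
    rw [RingHom.comp_apply, ← pt_zero_one]
    have f1 : (constantCoeff (R := H)).comp (C (R := H)) = RingHom.id H := by
      refine RingHom.ext fun a => ?_
      simp
    have f2 : (constantCoeff (R := H)) (X : H⟦X⟧) = 0 := by simp
    refine congrArg (fun Ψ : H⟦X⟧ →+* H⟦X⟧ => Ψ F) (pt_congr (cD d) _ _ ?_ ?_)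
    · rw [map_bs, f1, f2]
    · rw [map_mul, map_X, hone j hj]
  -- the base point of the outer ring
  set Φ0 : H⟦X⟧ →+* S4⟦X⟧ := sw.comp (Φe 0) with hΦ0
  have hccΦ0 : ∀ F, constantCoeff (Φ0 F) = al (Ty d (constantCoeff F)) := by
    intro F
    rw [hΦ0, RingHom.comp_apply, hccsw]
    congr 1
    exact congrArg (fun Ψ : H⟦X⟧ →+* H⟦X⟧ => Ψ F) (hρpt 0 hN)
  set muW : S4⟦X⟧ := sw (PowerSeries.map C (evn mh)) with hmuW
  have hccmuW : constantCoeff muW = al (evn mh) := by
    rw [hmuW, hccsw]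
    refine congrArg al ?_
    ext n
    simp
  set eW : S4⟦X⟧ := sw (C X * X ^ 2) with heW
  have hXeW : X ∣ eW := by
    have : eW = X * sw (X ^ 2) := by
      rw [heW, map_mul]
      congr 1
      change PowerSeries.map al (swap (C X)) = X
      rw [swap_C_X, map_X]
    rw [this]
    exact Dvd.intro _ rfl
  have heW0 : eW ≠ 0 := by
    intro h
    have h1 : (C X * X ^ 2 : H⟦X⟧⟦X⟧) = 0 := hswi (h.trans (map_zero sw).symm)
    have h2 := congrArg (fun F : H⟦X⟧⟦X⟧ => coeff 1 (coeff 2 F)) h1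
    simp only [coeff_C_mul, coeff_X_pow, if_true, mul_one, coeff_one_X, map_zero] at h2
    exact one_ne_zero h2
  -- the evaluation on `H[μ]`
  let ev0 : Polynomial H →+* S4⟦X⟧ := Polynomial.eval₂RingHom (Φ0.comp C) muW
  have hccev0 : ∀ p, constantCoeff (ev0 p) = al (p.eval₂ (Ty d) (evn mh)) := by
    intro p
    change constantCoeff (p.eval₂ (Φ0.comp C) muW) = _
    rw [Polynomial.hom_eval₂, Polynomial.hom_eval₂, hccmuW]
    congr 1
    refine RingHom.ext fun a => ?_
    simp only [RingHom.comp_apply, hccΦ0, constantCoeff_C]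
  have hev0u : ∀ y : nonZeroDivisors (Polynomial H), IsUnit (ev0 y) := by
    intro y
    rw [PowerSeries.isUnit_iff_constantCoeff, hccev0]
    have h1 := eval_line_ne_zero d hg2 hline (y : Polynomial H) (nonZeroDivisors.ne_zero y.2)
    have h2 : al ((y : Polynomial H).eval₂ (Ty d) (evn mh)) ≠ 0 := fun h =>
      h1 (hal (h.trans (map_zero al).symm))
    exact h2.isUnit
  let ικ : KK H →+* S4⟦X⟧ := IsLocalization.lift (M := nonZeroDivisors (Polynomial H)) hev0u
  have hικ : ∀ p, ικ (algebraMap (Polynomial H) (KK H) p) = ev0 p := fun p =>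
    IsLocalization.lift_eq hev0u p
  let ι0 : KK H →+* S4 := (constantCoeff (R := S4)).comp ικ
  let ιW : (KK H)⟦X⟧ →+* S4⟦X⟧ := evS ικ eW hXeW
  have hιWC : ∀ a, ιW (C a) = ικ a := fun a => evS_C ικ hXeW a
  have hιWX : ιW X = eW := evS_X ικ hXeW
  have hιWX' : X ∣ ιW X := by rw [hιWX]; exact hXeW
  have hccιW : ∀ F, constantCoeff (ιW F) = ι0 (constantCoeff F) := fun F =>
    constantCoeff_evS ικ hXeW F
  have hicomp : ιW.comp phK = Φ0 := by
    have h1 : Φ0 = evS (Φ0.comp C) eW hXeW := by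
      refine evS_unique _ _ _ (fun a => rfl) ?_
      rw [hΦ0, RingHom.comp_apply, heW, hΦe]
      simp only
      rw [pt_const575 (cD d) _ _ (cD_X d), bs_X]
    have h2 : ιW.comp phK = evS (Φ0.comp C) eW hXeW := by
      refine evS_unique _ _ _ (fun a => ?_) ?_
      · rw [RingHom.comp_apply, phK, map_C, hιWC]
        change ικ (algebraMap (Polynomial H) (KK H) (Polynomial.C a)) = _
        rw [hικ]
        change (Polynomial.C a).eval₂ (Φ0.comp C) muW = _
        rw [Polynomial.eval₂_C]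
      · rw [RingHom.comp_apply, phK, map_X, hιWX]
    rw [h2, ← h1]
  -- the collapsed chain
  have hccph : ∀ F : H⟦X⟧, constantCoeff (phK F) = iK (constantCoeff F) := by
    intro F
    rw [phK, ← coeff_zero_eq_constantCoeff_apply, coeff_map, coeff_zero_eq_constantCoeff_apply]
  obtain ⟨y, hy, mκ, kκ, hmκ0, hkκ0, hcκ, hmuj⟩ :=
    collapsed_exists d hz hg1.ne_zero G hG (C muK) (phK (G 0) - C muK * phK (C zH))
      (by simp) (by rw [add_sub_cancel, hccph, hG])
  have hιm0 : ιW (mκ 0) = sw (me 0) := by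
    rw [hmκ0, hιWC, hme0, ← hmuW]
    change ικ (algebraMap (Polynomial H) (KK H) Polynomial.X) = _
    rw [hικ]
    change (Polynomial.X : Polynomial H).eval₂ (Φ0.comp C) muW = _
    rw [Polynomial.eval₂_X]
  have hcomp : ∀ F, ιW (phK F) = Φ0 F := fun F =>
    congrArg (fun Ψ : H⟦X⟧ →+* S4⟦X⟧ => Ψ F) hicomp
  have hιk0 : ιW (kκ 0) = sw (ke 0) := by
    have h1 := hce.inc 0 hN
    have h2 : ιW (C muK) = sw (me 0) := by rw [← hmκ0]; exact hιm0
    rw [hkκ0, map_sub, map_mul, hcomp, hcomp, h2]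
    have h3 : Φ0 (G 0) = sw (me 0) * Φ0 (C zH) + sw (ke 0) := by
      have h4 := congrArg sw h1
      rw [map_add, map_mul] at h4
      exact h4
    rw [h3]; ring
  -- translations
  let δ : ℕ → S4⟦X⟧ := fun j => sw (X * Ye j - X * Ye 0)
  have hδ : ∀ j < N, X ∣ δ j := by
    intro j hj
    rw [X_dvd_iff, hccsw]
    have : PowerSeries.map (constantCoeff (R := H)) (X * Ye j - X * Ye 0) = 0 := by
      rw [map_sub, map_mul, map_mul, hone j hj, hone 0 hN]
      ring
    rw [this, map_zero]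
  have hswpt : ∀ j (hj : j < N), sw.comp (Φe j) = pt (cD d) Φ0 (δ j) (hδ j hj) := by
    intro j hj
    have h1 : Φe j = pt (cD d) (Φe 0) (X * Ye j - X * Ye 0)
        (dvd_sub (X_dvd_X_mul _) (X_dvd_X_mul _)) := by
      rw [hΦe]
      simp only
      rw [pt_pt]
      exact pt_congr _ _ _ rfl (by ring)
    rw [h1]
    exact map_pt_of_dvd (cD d) sw (Φe 0) _ (hδ j hj)
  have hιpt : ∀ j, ιW.comp (pt (cD d) phK (y j) (hy j))
      = pt (cD d) Φ0 (ιW (y j)) (hιWX'.trans (map_dvd ιW (hy j))) := by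
    intro j
    rw [comp_pt (cD d) ιW hιWX']
    exact pt_congr _ _ _ hicomp rfl
  have hcκN := hcκ N
  have hmain : ∀ j ≤ N, (ιW (mκ j) = sw (me j) ∧ ιW (kκ j) = sw (ke j)) ∧
      (j < N → ιW.comp (pt (cD d) phK (y j) (hy j)) = sw.comp (Φe j)) := by
    -- the step from lines to vertices
    have hvert : ∀ j < N, ιW (mκ j) = sw (me j) → ιW (kκ j) = sw (ke j) →
        ιW.comp (pt (cD d) phK (y j) (hy j)) = sw.comp (Φe j) := by
      intro j hj hm hk
      rw [hιpt, hswpt j hj]
      refine pt_congr _ _ _ rfl ?_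
      refine outer_unique (cD d) Φ0 hzz (G j) (sw (me j)) (sw (ke j)) ?_
        (hιWX'.trans (map_dvd ιW (hy j))) (hδ j hj) ?_ ?_
      · have h1 : Φ0 (cD d (G j)) - sw (me j) = ιW (phK (cD d (G j)) - mκ j) := by
          rw [map_sub, hcomp, hm]
        rw [h1, hccιW, map_sub, hmuj, hccph]
        have h2 : constantCoeff (cD d (G j)) = d g := by
          rw [← coeff_zero_eq_constantCoeff_apply, coeff_cD, coeff_zero_eq_constantCoeff_apply, hG]
        rw [h2]
        have h3 : ι0 (iK (d g) - muj (d g) j) ≠ 0 := by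
          rw [Ne, _root_.map_eq_zero]
          exact muj_ne hg1.ne_zero j
        exact h3.isUnit
      · have h4 := congrArg ιW (hcκN.inc j hj)
        rw [map_add, map_mul, hm, hk] at h4
        rw [← hιpt]
        exact h4
      · have h4 := congrArg sw (hce.inc j hj)
        rw [map_add, map_mul] at h4
        rw [← hswpt j hj]
        exact h4
    intro j
    induction j with
    | zero => exact fun _ => ⟨⟨hιm0, hιk0⟩, fun h => hvert 0 h hιm0 hιk0⟩
    | succ j ih =>
      intro hj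
      obtain ⟨⟨hm, hk⟩, hv⟩ := ih (by omega)
      have hv := hv (by omega)
      have hvf : ∀ F, ιW (pt (cD d) phK (y j) (hy j) F) = sw (Φe j F) := fun F =>
        congrArg (fun Ψ : H⟦X⟧ →+* S4⟦X⟧ => Ψ F) hv
      -- slope
      have hmju : sw (me j) ≠ 0 := by
        rw [← hm]
        intro h
        have h1 := congrArg constantCoeff h
        rw [hccιW, hmuj, map_zero, _root_.map_eq_zero] at h1
        exact muj_ne_zero hg1.ne_zero j h1
      have h1 : ιW (mκ (j + 1)) * sw (me j) = sw (me (j + 1)) * sw (me j) := by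
        have e1 := congrArg ιW (hcκN.refl j (by omega))
        have e2 := congrArg sw (hce.refl j (by omega))
        rw [map_mul, map_pow, hvf, hm] at e1
        rw [map_mul, map_pow] at e2
        rw [e1, e2]
      have h2 := mul_right_cancel₀ hmju h1
      have h3 : ιW (kκ (j + 1)) = sw (ke (j + 1)) := by
        have e1 := congrArg ιW (hcκN.inc' j (by omega))
        have e2 := congrArg sw (hce.inc' j (by omega))
        rw [map_add, map_mul, hvf, hvf, h2] at e1
        rw [map_add, map_mul] at e2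
        exact add_left_cancel (e1.symm.trans e2)
      exact ⟨⟨h2, h3⟩, fun h => hvert (j + 1) h h2 h3⟩
  -- the relation over `κ`
  let obκ : MvPolynomial (Option (Fin N × α)) K →+* (KK H)⟦X⟧ :=
    obs ((C).comp (iK.comp (algebraMap K H))) (C muK)
      (fun j => pt (cD d) phK (y j) (hy j)) x
  have hob : ιW.comp obκ = sw.comp (obs (kK K H) (PowerSeries.map C (evn mh)) Φe x) := by
    rw [comp_obs, comp_obs]
    have e1 : ιW.comp ((C).comp (iK.comp (algebraMap K H))) = sw.comp (kK K H) := by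
      refine RingHom.ext fun c => ?_
      simp only [RingHom.comp_apply, kK, hιWC]
      change ικ (algebraMap (Polynomial H) (KK H) (Polynomial.C _)) = _
      rw [hικ]
      change (Polynomial.C (algebraMap K H c)).eval₂ (Φ0.comp C) muW = _
      rw [Polynomial.eval₂_C, RingHom.comp_apply, hΦ0, RingHom.comp_apply, hΦe]
      simp only
      rw [pt_const575 (cD d) _ _ (by rw [cD_C, Derivation.map_algebraMap, map_zero]), bs_C]
    rw [e1]
    refine obs_congr _ x ?_ fun j hj => ?_
    · rw [← hmκ0, hιm0, hme0]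
    · exact (hmain j hj.le).2 hj
  let Pκ := P.map obκ
  have hPκ : Pκ.eval₂ ιW (sw (emb C X u)) = 0 := by
    change (P.map obκ).eval₂ ιW _ = 0
    rw [Polynomial.eval₂_map, hob, ← Polynomial.hom_eval₂, hrele, map_zero]
  have hPκ0 : Pκ ≠ 0 := by
    intro h
    apply hne
    ext i : 1
    rw [Polynomial.coeff_map, Polynomial.coeff_zero]
    have h1 : obκ (P.coeff i) = 0 := by
      have := congrArg (fun Q : Polynomial (KK H)⟦X⟧ => Q.coeff i) h
      simpa [Pκ, Polynomial.coeff_map] using this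
    have h2 : sw (obs (kK K H) (PowerSeries.map C (evn mh)) Φe x (P.coeff i)) = 0 := by
      have h3 := congrArg (fun Ψ : MvPolynomial (Option (Fin N × α)) K →+* S4⟦X⟧ =>
        Ψ (P.coeff i)) hob
      simp only [RingHom.comp_apply] at h3
      rw [← h3, h1, map_zero]
    have h4 : obs (kK K H) (PowerSeries.map C (evn mh)) Φe x (P.coeff i) = 0 :=
      hswi (h2.trans (map_zero sw).symm)
    have h5 := (hiff (Polynomial.C (P.coeff i)) u).2
      (by rw [Polynomial.eval₂_C]; exact h4)
    rwa [Polynomial.eval₂_C] at h5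
  -- divide by the power of `ε`
  obtain ⟨v, Q, hQ1, hQ2⟩ := exists_primitive Pκ hPκ0
  have hQ3 : Q.eval₂ ιW (sw (emb C X u)) = 0 := by
    have h1 := hPκ
    rw [hQ1, Polynomial.eval₂_mul, Polynomial.eval₂_C, map_pow, hιWX] at h1
    exact (mul_eq_zero.1 h1).resolve_left (pow_ne_zero _ heW0)
  -- constant coefficients
  have hccu : constantCoeff (sw (emb C X u)) = al (evn (constantCoeff u)) := by
    rw [hccsw, map_emb]
    congr 1
    have f1 : (constantCoeff (R := H)).comp (C (R := H)) = RingHom.id H := by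
      refine RingHom.ext fun a => ?_
      simp
    have f2 : (constantCoeff (R := H)) (X : H⟦X⟧) = 0 := by simp
    rw [f1, f2]
    have h := evS_eq (evS ((C).comp (RingHom.id H)) (X ^ 2) X_dvd_X2) (X_dvd_CX2 (0 : H)) u 1
    rw [Finset.sum_range_one] at h
    change emb (RingHom.id H) 0 u = _ at h
    obtain ⟨w, hw⟩ : ∃ w, emb (RingHom.id H) 0 u
        = evS ((C).comp (RingHom.id H)) (X ^ 2) X_dvd_X2 (coeff 0 u) * (C (0 : H) * X ^ 2) ^ 0
          + (C (0 : H) * X ^ 2) ^ 1 * w := ⟨_, h⟩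
    rw [hw, pow_zero, mul_one, pow_one, map_zero, zero_mul, zero_mul, add_zero,
      coeff_zero_eq_constantCoeff_apply]
    rfl
  have hQ4 : (Q.map (constantCoeff (R := KK H))).eval₂ ι0 (al (evn (constantCoeff u))) = 0 := by
    rw [Polynomial.eval₂_map, ← hccu]
    have h1 : ι0.comp (constantCoeff (R := KK H)) = (constantCoeff (R := S4)).comp ιW :=
      RingHom.ext fun F => (hccιW F).symm
    rw [h1, ← Polynomial.hom_eval₂, hQ3, map_zero]
  -- clear denominators
  let q := IsLocalization.integerNormalization (nonZeroDivisors (Polynomial H))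
    (Q.map (constantCoeff (R := KK H)))
  obtain ⟨b, hb⟩ := IsLocalization.integerNormalization_map_to_map
    (nonZeroDivisors (Polynomial H)) (Q.map (constantCoeff (R := KK H)))
  refine ⟨q, ?_, ?_⟩
  · intro h
    rw [IsFractionRing.integerNormalization_eq_zero_iff] at h
    exact hQ2 h
  · apply hal
    rw [map_zero, Polynomial.hom_eval₂]
    have h1 : al.comp (Polynomial.eval₂RingHom (Ty d) (evn mh))
        = ι0.comp (algebraMap (Polynomial H) (KK H)) := by
      refine RingHom.ext fun p => ?_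
      simp only [RingHom.comp_apply]
      change al (p.eval₂ (Ty d) (evn mh)) = constantCoeff (ικ (algebraMap _ _ p))
      rw [hικ, hccev0]
    rw [h1, ← Polynomial.eval₂_map, hb]
    have h2 : ((b : Polynomial H) • Q.map (constantCoeff (R := KK H)))
        = Polynomial.C (algebraMap (Polynomial H) (KK H) b) * Q.map (constantCoeff (R := KK H)) := by
      rw [Polynomial.C_mul', algebraMap_smul]
    rw [h2, Polynomial.eval₂_mul, hQ4, mul_zero]

end fct

end Crest.Agent.R102.H3
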