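import Mathlib
import Crest.Agent.R102.C0Defs_821

/-!
Row 102, T1-B (helper300): **the FACE LEMMA** (R1_523, step 7).

If at one point `x_a` of the parameter space the label `Bt` of a vertex and one of the lines
`(φ, p)` through it are analytic, `∂Bt/∂t ≠ 0`, `dφ ∧ dp ≠ 0`, and `Bt x_a` lies on the boundary of
the domain `S` of the curve, then the isotropic coordinates `Z, Zc` of the curve continue
meromorphically to a neighbourhood of `Bt x_a`: differentiate the incidence relation along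
`Bt = const`.  Consequently `(θ, H)` (tangent angle, speed) continue analytically through all
points of a punctured neighbourhood of `Bt x_a`: the boundary of `S` is not a natural boundary.
-/

set_option autoImplicit false

open Set Filter Topology
open scoped ComplexConjugate

noncomputable section

namespace Crest.Agent.R102.F300

open Crest.Agent.R102.C0 Crest.Agent.R102.B821 Complex

/-- derivative of `f` along the curve `Bt = const` -/
def DB (Bt f : ℂ × ℂ → ℂ) (x : ℂ × ℂ) : ℂ := q2 f x * q1 Bt x - q1 f x * q2 Bt x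

lemma fderiv_dir (f : ℂ × ℂ → ℂ) (x : ℂ × ℂ) (a b : ℂ) :
    fderiv ℂ f x (a, b) = a * q1 f x + b * q2 f x := by
  have h : ((a, b) : ℂ × ℂ) = a • ((1 : ℂ), (0 : ℂ)) + b • ((0 : ℂ), (1 : ℂ)) := by
    ext <;> simp
  rw [h, map_add, map_smul, map_smul]
  rfl

/-- the incidence relation, differentiated along `Bt = const` -/
theorem face_formula {φ p Bt : ℂ × ℂ → ℂ} {Z Zc : ℂ → ℂ} {x : ℂ × ℂ}
    (hφ : DifferentiableAt ℂ φ x) (hp : DifferentiableAt ℂ p x) (hB : DifferentiableAt ℂ Bt x)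
    (hZ : DifferentiableAt ℂ Z (Bt x)) (hZc : DifferentiableAt ℂ Zc (Bt x))
    (hon : ∀ᶠ y in 𝓝 x, OnLine (φ y) (p y) (Z (Bt y)) (Zc (Bt y))) :
    DB Bt φ x * (exp (-(I * φ x)) * Z (Bt x) + exp (I * φ x) * Zc (Bt x)) = -2 * DB Bt p x := by
  set v : ℂ × ℂ := (-(q2 Bt x), q1 Bt x) with hv
  have hc0 : HasDerivAt (fun s : ℂ => x + s • v) v 0 := by
    have h1 : HasDerivAt (fun s : ℂ => s • v) ((1 : ℂ) • v) 0 := (hasDerivAt_id (0 : ℂ)).smul_const v
    simpa using h1.const_add x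
  have hx0 : x + (0 : ℂ) • v = x := by simp
  have hcomp : ∀ f : ℂ × ℂ → ℂ, DifferentiableAt ℂ f x →
      HasDerivAt (fun s : ℂ => f (x + s • v)) (fderiv ℂ f x v) 0 := by
    intro f hf
    have h1 : HasFDerivAt f (fderiv ℂ f x) (x + (0 : ℂ) • v) := by
      rw [hx0]; exact hf.hasFDerivAt
    exact h1.comp_hasDerivAt (0 : ℂ) hc0
  have hφ' := hcomp φ hφ
  have hp' := hcomp p hp
  have hB' := hcomp Bt hB
  have hBv : fderiv ℂ Bt x v = 0 := by rw [hv, fderiv_dir]; ring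
  have hφv : fderiv ℂ φ x v = DB Bt φ x := by rw [hv, fderiv_dir, DB]; ring
  have hpv : fderiv ℂ p x v = DB Bt p x := by rw [hv, fderiv_dir, DB]; ring
  rw [hBv] at hB'
  rw [hφv] at hφ'
  rw [hpv] at hp'
  have hZ' : HasDerivAt (fun s : ℂ => Z (Bt (x + s • v))) 0 0 := by
    have h1 : HasDerivAt Z (deriv Z (Bt x)) (Bt (x + (0 : ℂ) • v)) := by
      rw [hx0]; exact hZ.hasDerivAt
    have h2 := h1.comp (0 : ℂ) hB'
    rw [mul_zero] at h2
    exact h2
  have hZc' : HasDerivAt (fun s : ℂ => Zc (Bt (x + s • v))) 0 0 := by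
    have h1 : HasDerivAt Zc (deriv Zc (Bt x)) (Bt (x + (0 : ℂ) • v)) := by
      rw [hx0]; exact hZc.hasDerivAt
    have h2 := h1.comp (0 : ℂ) hB'
    rw [mul_zero] at h2
    exact h2
  have e1 := ((hφ'.const_mul I).neg.cexp).mul hZ'
  have e2 := ((hφ'.const_mul I).cexp).mul hZc'
  have e3 := (e1.sub e2).sub (hp'.const_mul (2 * I))
  have hcont : Tendsto (fun s : ℂ => x + s • v) (𝓝 0) (𝓝 x) := by
    have := hc0.continuousAt.tendsto
    rwa [hx0] at this
  have hz : (fun s : ℂ => exp (-(I * φ (x + s • v))) * Z (Bt (x + s • v))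
      - exp (I * φ (x + s • v)) * Zc (Bt (x + s • v)) - 2 * I * p (x + s • v))
      =ᶠ[𝓝 0] fun _ => (0 : ℂ) := by
    filter_upwards [hcont.eventually hon] with s hs
    have : exp (-(I * φ (x + s • v))) * Z (Bt (x + s • v))
      - exp (I * φ (x + s • v)) * Zc (Bt (x + s • v)) = 2 * I * p (x + s • v) := hs
    rw [this]; ring
  have e4 := (e3.congr_of_eventuallyEq hz.symm).unique (hasDerivAt_const (0 : ℂ) (0 : ℂ))
  simp only [zero_smul, add_zero, mul_zero, Pi.neg_apply] at e4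
  have hI : I * I = -1 := I_mul_I
  linear_combination I * e4 + (DB Bt φ x * (exp (-(I * φ x)) * Z (Bt x) + exp (I * φ x) * Zc (Bt x))
    + 2 * DB Bt p x) * hI

/-- `D φ ≠ 0` where the relation holds -/
theorem DB_ne {φ p Bt : ℂ × ℂ → ℂ} {x : ℂ × ℂ} {V : ℂ}
    (h : DB Bt φ x * V = -2 * DB Bt p x) (hB : q1 Bt x ≠ 0)
    (har : q1 φ x * q2 p x - q2 φ x * q1 p x ≠ 0) : DB Bt φ x ≠ 0 := by
  intro h0
  have hp : DB Bt p x = 0 := by
    rw [h0, zero_mul] at h
    have : (2 : ℂ) * DB Bt p x = 0 := by linear_combination h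
    simpa using this
  have h3 : q1 Bt x * (q1 φ x * q2 p x - q2 φ x * q1 p x) = 0 := by
    unfold DB at h0 hp
    linear_combination (q1 φ x) * hp - (q1 p x) * h0
  rcases mul_eq_zero.1 h3 with h4 | h4
  · exact hB h4
  · exact har h4

/-- the curve from the line family: values at points over `S` -/
theorem face_values {φ p Bt : ℂ × ℂ → ℂ} {Z Zc : ℂ → ℂ} {x : ℂ × ℂ}
    (hφ : DifferentiableAt ℂ φ x) (hp : DifferentiableAt ℂ p x) (hB : DifferentiableAt ℂ Bt x)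
    (hZ : DifferentiableAt ℂ Z (Bt x)) (hZc : DifferentiableAt ℂ Zc (Bt x))
    (hon : ∀ᶠ y in 𝓝 x, OnLine (φ y) (p y) (Z (Bt y)) (Zc (Bt y)))
    (hB1 : q1 Bt x ≠ 0) (har : q1 φ x * q2 p x - q2 φ x * q1 p x ≠ 0) :
    Z (Bt x) = exp (I * φ x) * (I * p x - DB Bt p x / DB Bt φ x) ∧
    Zc (Bt x) = exp (-(I * φ x)) * (-(I * p x) - DB Bt p x / DB Bt φ x) := by
  have h1 := face_formula hφ hp hB hZ hZc hon
  have h2 := DB_ne h1 hB1 har
  have h3 : exp (-(I * φ x)) * Z (Bt x) - exp (I * φ x) * Zc (Bt x) = 2 * I * p x := hon.self_of_nhds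
  have h4 : exp (-(I * φ x)) * Z (Bt x) + exp (I * φ x) * Zc (Bt x)
      = -2 * (DB Bt p x / DB Bt φ x) := by
    field_simp
    linear_combination h1
  have he : exp (I * φ x) * exp (-(I * φ x)) = 1 := by rw [← exp_add]; simp
  constructor
  · linear_combination (exp (I * φ x) / 2) * (h3 + h4) - Z (Bt x) * he
  · linear_combination (exp (-(I * φ x)) / 2) * (h4 - h3) - Zc (Bt x) * he

lemma analyticAt_q1 {f : ℂ × ℂ → ℂ} {x : ℂ × ℂ} (h : AnalyticAt ℂ f x) : AnalyticAt ℂ (q1 f) x :=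
  ((ContinuousLinearMap.apply ℂ ℂ ((1, 0) : ℂ × ℂ)).analyticAt _).comp h.fderiv

lemma analyticAt_q2 {f : ℂ × ℂ → ℂ} {x : ℂ × ℂ} (h : AnalyticAt ℂ f x) : AnalyticAt ℂ (q2 f) x :=
  ((ContinuousLinearMap.apply ℂ ℂ ((0, 1) : ℂ × ℂ)).analyticAt _).comp h.fderiv

lemma analyticAt_DB {Bt f : ℂ × ℂ → ℂ} {x : ℂ × ℂ} (hB : AnalyticAt ℂ Bt x)
    (h : AnalyticAt ℂ f x) : AnalyticAt ℂ (DB Bt f) x :=
  ((analyticAt_q2 h).mul (analyticAt_q1 hB)).sub ((analyticAt_q1 h).mul (analyticAt_q2 hB))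

/-- **FACE LEMMA, first form**: the isotropic coordinates continue meromorphically to the
boundary point `Bt x`. -/
theorem face_mero {S : Set ℂ} (hS : IsOpen S) {Z Zc : ℂ → ℂ} (hZ : DifferentiableOn ℂ Z S)
    (hZc : DifferentiableOn ℂ Zc S) {φ p Bt : ℂ × ℂ → ℂ} {x : ℂ × ℂ}
    (hφ : AnalyticAt ℂ φ x) (hp : AnalyticAt ℂ p x) (hB : AnalyticAt ℂ Bt x)
    (hB1 : q1 Bt x ≠ 0) (har : q1 φ x * q2 p x - q2 φ x * q1 p x ≠ 0)
    (hon : ∀ᶠ y in 𝓝 x, Bt y ∈ S → OnLine (φ y) (p y) (Z (Bt y)) (Zc (Bt y))) :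
    ∃ G Gc : ℂ → ℂ, MeromorphicAt G (Bt x) ∧ MeromorphicAt Gc (Bt x) ∧
      ∀ᶠ z in 𝓝 (Bt x), z ∈ S → G z = Z z ∧ Gc z = Zc z := by
  -- the slice `w = w_a`
  set f : ℂ → ℂ := fun t => Bt (t, x.2) with hf
  have hfa : AnalyticAt ℂ f x.1 := by
    have h1 : AnalyticAt ℂ (fun t : ℂ => ((t, x.2) : ℂ × ℂ)) x.1 :=
      analyticAt_id.prod analyticAt_const
    exact AnalyticAt.comp (g := Bt) (f := fun t : ℂ => ((t, x.2) : ℂ × ℂ)) hB h1
  have hfd : deriv f x.1 = q1 Bt x := (hasDerivAt_fst hB.differentiableAt).deriv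
  have hf' : deriv f x.1 ≠ 0 := by rw [hfd]; exact hB1
  set β := hfa.hasStrictDerivAt.localInverse _ _ _ hf' with hβ
  have hfx : f x.1 = Bt x := rfl
  have hβa : AnalyticAt ℂ β (Bt x) := hfa.analyticAt_localInverse hf'
  have hβx : β (Bt x) = x.1 := HasStrictFDerivAt.localInverse_apply_image ..
  have hβr : ∀ᶠ z in 𝓝 (Bt x), f (β z) = z := HasStrictDerivAt.eventually_right_inverse ..
  set c : ℂ → ℂ × ℂ := fun z => (β z, x.2) with hc
  have hca : AnalyticAt ℂ c (Bt x) := hβa.prod analyticAt_const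
  have hcx : c (Bt x) = x := by rw [hc]; simp [hβx]
  have hcomp : ∀ g : ℂ × ℂ → ℂ, AnalyticAt ℂ g x → AnalyticAt ℂ (fun z => g (c z)) (Bt x) := by
    intro g hg
    rw [← hcx] at hg
    exact hg.comp hca
  have a1 := hcomp φ hφ
  have a2 := hcomp p hp
  have a3 := hcomp _ (analyticAt_DB hB hp)
  have a4 := hcomp _ (analyticAt_DB hB hφ)
  refine ⟨fun z => exp (I * φ (c z)) * (I * p (c z) - DB Bt p (c z) / DB Bt φ (c z)),
    fun z => exp (-(I * φ (c z))) * (-(I * p (c z)) - DB Bt p (c z) / DB Bt φ (c z)), ?_, ?_, ?_⟩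
  · exact ((analyticAt_const.mul a1).cexp.meromorphicAt).mul
      ((analyticAt_const.mul a2).meromorphicAt.sub (a3.meromorphicAt.div a4.meromorphicAt))
  · exact ((analyticAt_const.mul a1).neg.cexp.meromorphicAt).mul
      ((analyticAt_const.mul a2).neg.meromorphicAt.sub (a3.meromorphicAt.div a4.meromorphicAt))
  · have hct : Tendsto c (𝓝 (Bt x)) (𝓝 x) := by
      have := hca.continuousAt.tendsto
      rwa [hcx] at this
    have b1 : ∀ᶠ y in 𝓝 x, AnalyticAt ℂ φ y := hφ.eventually_analyticAt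
    have b2 : ∀ᶠ y in 𝓝 x, AnalyticAt ℂ p y := hp.eventually_analyticAt
    have b3 : ∀ᶠ y in 𝓝 x, AnalyticAt ℂ Bt y := hB.eventually_analyticAt
    have b4 : ∀ᶠ y in 𝓝 x, q1 Bt y ≠ 0 :=
      (analyticAt_q1 hB).continuousAt.eventually_ne hB1
    have b5 : ∀ᶠ y in 𝓝 x, q1 φ y * q2 p y - q2 φ y * q1 p y ≠ 0 :=
      (((analyticAt_q1 hφ).mul (analyticAt_q2 hp)).sub
        ((analyticAt_q2 hφ).mul (analyticAt_q1 hp))).continuousAt.eventually_ne har
    have b6 := hon.eventually_nhds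
    filter_upwards [hct.eventually (b1.and (b2.and (b3.and (b4.and (b5.and b6))))), hβr]
      with z hz hzr hzS
    obtain ⟨c1, c2, c3, c4, c5, c6⟩ := hz
    have hBz : Bt (c z) = z := hzr
    have hBS : Bt (c z) ∈ S := by rw [hBz]; exact hzS
    have hSn : ∀ᶠ y in 𝓝 (c z), Bt y ∈ S := c3.continuousAt.preimage_mem_nhds (hS.mem_nhds hBS)
    have hon' : ∀ᶠ y in 𝓝 (c z), OnLine (φ y) (p y) (Z (Bt y)) (Zc (Bt y)) := by
      filter_upwards [c6, hSn] with y h1 h2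
      exact h1 h2
    have := face_values c1.differentiableAt c2.differentiableAt c3.differentiableAt
      (hZ.differentiableAt (hS.mem_nhds hBS)) (hZc.differentiableAt (hS.mem_nhds hBS)) hon' c4 c5
    rw [hBz] at this
    exact ⟨this.1.symm, this.2.symm⟩

/-- `(ψ, H)` continues holomorphically to a ball at `s` -/
def RegAt (S : Set ℂ) (ψ H : ℂ → ℂ) (s : ℂ) : Prop :=
  ∃ r : ℝ, 0 < r ∧ ∃ g1 g2 : ℂ → ℂ, DifferentiableOn ℂ g1 (Metric.ball s r) ∧
    DifferentiableOn ℂ g2 (Metric.ball s r) ∧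
    ∀ z ∈ Metric.ball s r, z ∈ S → g1 z = ψ z ∧ g2 z = H z

lemma eq_of_closure {f g : ℂ → ℂ} {z : ℂ} {T : Set ℂ} (hf : ContinuousAt f z)
    (hg : ContinuousAt g z) (hz : z ∈ closure T) (h : ∀ y ∈ T, f y = g y) : f z = g z :=
  tendsto_nhds_unique_of_frequently_eq hf.tendsto hg.tendsto
    ((mem_closure_iff_frequently.1 hz).mono h)

/-- local step: `Z, Zc` continue analytically with nonzero derivatives ⟹ `(ψ, H)` continue -/
theorem reg_of_ext {S S' : Set ℂ} (hS : IsOpen S) (hSc : Convex ℝ S) (hS' : IsOpen S')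
    (hsub : S' ⊆ S) (hdense : S ⊆ closure S') {ψ H Z Zc κ : ℂ → ℂ}
    (hψ : DifferentiableOn ℂ ψ S) (hH : DifferentiableOn ℂ H S)
    (hZ : ∀ z ∈ S', HasDerivAt Z (κ z * exp (I * ψ z)) z)
    (hZc : ∀ z ∈ S', HasDerivAt Zc (κ z * exp (-(I * ψ z))) z)
    (hκ : ∀ z ∈ S', κ z ≠ 0)
    (hon0 : ∀ z ∈ S', OnLine (ψ z) (H z) (Z z) (Zc z))
    {G Gc : ℂ → ℂ} {s : ℂ} (hG : AnalyticAt ℂ G s) (hGc : AnalyticAt ℂ Gc s)
    (hG1 : deriv G s ≠ 0) (hGc1 : deriv Gc s ≠ 0)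
    (heq : ∀ᶠ z in 𝓝 s, z ∈ S' → G z = Z z ∧ Gc z = Zc z) : RegAt S ψ H s := by
  set E : ℂ → ℂ := fun y => deriv G y / deriv Gc y with hE
  have hEa : AnalyticAt ℂ E s := hG.deriv.div hGc.deriv hGc1
  have hEs : E s ≠ 0 := div_ne_zero hG1 hGc1
  set L : ℂ → ℂ := fun y => Complex.log (E y / E s) / (2 * I) with hL
  have h2I : (2 : ℂ) * I ≠ 0 := by simp
  have hLa : AnalyticAt ℂ L s := by
    refine AnalyticAt.div (AnalyticAt.clog (hEa.div analyticAt_const hEs) ?_) analyticAt_const h2I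
    rw [div_self hEs]
    exact Complex.one_mem_slitPlane
  have e1 : ∀ᶠ y in 𝓝 s, AnalyticAt ℂ G y := hG.eventually_analyticAt
  have e2 : ∀ᶠ y in 𝓝 s, AnalyticAt ℂ Gc y := hGc.eventually_analyticAt
  have e3 : ∀ᶠ y in 𝓝 s, AnalyticAt ℂ E y := hEa.eventually_analyticAt
  have e4 : ∀ᶠ y in 𝓝 s, AnalyticAt ℂ L y := hLa.eventually_analyticAt
  have e5 : ∀ᶠ y in 𝓝 s, E y ≠ 0 := hEa.continuousAt.eventually_ne hEs
  have e6 : ∀ᶠ y in 𝓝 s, ∀ᶠ z in 𝓝 y, z ∈ S' → G z = Z z ∧ Gc z = Zc z := heq.eventually_nhds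
  obtain ⟨r, hr, hball⟩ := Metric.eventually_nhds_iff_ball.1
    (e1.and (e2.and (e3.and (e4.and (e5.and e6)))))
  rcases (Metric.ball s r ∩ S).eq_empty_or_nonempty with hemp | ⟨s0, hs0⟩
  · refine ⟨r, hr, 0, 0, differentiableOn_const _, differentiableOn_const _, ?_⟩
    intro z hz hzS
    exact absurd (show z ∈ Metric.ball s r ∩ S from ⟨hz, hzS⟩) (by rw [hemp]; simp)
  have hUo : IsOpen (Metric.ball s r ∩ S) := Metric.isOpen_ball.inter hS
  have hUc : IsPreconnected (Metric.ball s r ∩ S) :=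
    ((convex_ball s r).inter hSc).isPreconnected
  have hUd : ∀ z ∈ Metric.ball s r ∩ S, z ∈ closure (Metric.ball s r ∩ S') := fun z hz =>
    Metric.isOpen_ball.inter_closure ⟨hz.1, hdense hz.2⟩
  have hψa : ∀ z ∈ S, DifferentiableAt ℂ ψ z := fun z hz => hψ.differentiableAt (hS.mem_nhds hz)
  have hHa : ∀ z ∈ S, DifferentiableAt ℂ H z := fun z hz => hH.differentiableAt (hS.mem_nhds hz)
  -- on `S'`
  have c1 : ∀ z ∈ Metric.ball s r ∩ S', exp (2 * I * ψ z) = E z := by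
    rintro z ⟨hz, hz'⟩
    obtain ⟨a1, a2, -, -, -, a6⟩ := hball z hz
    have b1 : G =ᶠ[𝓝 z] Z := by
      filter_upwards [a6, hS'.mem_nhds hz'] with y h1 h2
      exact (h1 h2).1
    have b2 : Gc =ᶠ[𝓝 z] Zc := by
      filter_upwards [a6, hS'.mem_nhds hz'] with y h1 h2
      exact (h1 h2).2
    have d1 : deriv G z = κ z * exp (I * ψ z) := by rw [b1.deriv_eq]; exact (hZ z hz').deriv
    have d2 : deriv Gc z = κ z * exp (-(I * ψ z)) := by rw [b2.deriv_eq]; exact (hZc z hz').deriv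
    have hk := hκ z hz'
    rw [hE]
    simp only
    rw [d1, d2, mul_div_mul_left _ _ hk, ← exp_sub]
    congr 1
    ring
  have c2 : ∀ z ∈ Metric.ball s r ∩ S, exp (2 * I * ψ z) = E z := by
    intro z hz
    refine eq_of_closure (f := fun z => exp (2 * I * ψ z)) ?_
      (hball z hz.1).2.2.1.continuousAt (hUd z hz) c1
    exact (((hψa z hz.2).const_mul (2 * I)).cexp).continuousAt
  have c3 : ∀ z ∈ Metric.ball s r ∩ S, exp (2 * I * (ψ z - L z)) = E s := by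
    intro z hz
    have h5 : E z ≠ 0 := (hball z hz.1).2.2.2.2.1
    have h6 : exp (2 * I * L z) = E z / E s := by
      rw [hL]
      simp only
      rw [mul_div_cancel₀ _ h2I]
      exact exp_log (div_ne_zero h5 hEs)
    rw [mul_sub, exp_sub, c2 z hz, h6]
    field_simp
  have c4 : ∀ z ∈ Metric.ball s r ∩ S, deriv (fun y => ψ y - L y) z = 0 := by
    intro z hz
    have h7 : DifferentiableAt ℂ (fun y => ψ y - L y) z :=
      (hψa z hz.2).sub (hball z hz.1).2.2.2.1.differentiableAt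
    have h8 := (h7.hasDerivAt.const_mul (2 * I)).cexp
    have h9 : (fun y => exp (2 * I * (ψ y - L y))) =ᶠ[𝓝 z] fun _ => E s := by
      filter_upwards [hUo.mem_nhds hz] with y hy
      exact c3 y hy
    have h10 := (h8.congr_of_eventuallyEq h9.symm).unique (hasDerivAt_const z (E s))
    rcases mul_eq_zero.1 h10 with h11 | h11
    · exact absurd h11 (exp_ne_zero _)
    · exact (mul_eq_zero.1 h11).resolve_left h2I
  have c5 : ∀ z ∈ Metric.ball s r ∩ S, L z + (ψ s0 - L s0) = ψ z := by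
    intro z hz
    have hd : DifferentiableOn ℂ (fun y => ψ y - L y) (Metric.ball s r ∩ S) := fun y hy =>
      ((hψa y hy.2).sub (hball y hy.1).2.2.2.1.differentiableAt).differentiableWithinAt
    have := hUo.is_const_of_deriv_eq_zero hUc hd (fun y hy => c4 y hy) hz hs0
    linear_combination -this
  refine ⟨r, hr, fun z => L z + (ψ s0 - L s0), fun z =>
    (exp (-(I * (L z + (ψ s0 - L s0)))) * G z - exp (I * (L z + (ψ s0 - L s0))) * Gc z) / (2 * I),
    ?_, ?_, ?_⟩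
  · intro z hz
    exact ((hball z hz).2.2.2.1.differentiableAt.add_const _).differentiableWithinAt
  · intro z hz
    have d := (hball z hz).2.2.2.1.differentiableAt.add_const (ψ s0 - L s0)
    have dG := (hball z hz).1.differentiableAt
    have dGc := (hball z hz).2.1.differentiableAt
    exact (((((d.const_mul I).neg.cexp).mul dG).sub (((d.const_mul I).cexp).mul dGc)).div_const
      (2 * I)).differentiableWithinAt
  · intro z hz hzS
    refine ⟨c5 z ⟨hz, hzS⟩, ?_⟩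
    have d := (hball z hz).2.2.2.1.differentiableAt.add_const (ψ s0 - L s0)
    have dG := (hball z hz).1.differentiableAt
    have dGc := (hball z hz).2.1.differentiableAt
    refine eq_of_closure (f := fun z => (exp (-(I * (L z + (ψ s0 - L s0)))) * G z
      - exp (I * (L z + (ψ s0 - L s0))) * Gc z) / (2 * I)) (g := H) (z := z)
      (((((d.const_mul I).neg.cexp).mul dG).sub (((d.const_mul I).cexp).mul dGc)).div_const
        (2 * I)).continuousAt (hHa z hzS).continuousAt (hUd z ⟨hz, hzS⟩) ?_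
    rintro y ⟨hy, hyS⟩
    obtain ⟨g1, g2⟩ := (hball y hy).2.2.2.2.2.self_of_nhds hyS
    have h1 : exp (-(I * ψ y)) * Z y - exp (I * ψ y) * Zc y = 2 * I * H y := hon0 y hyS
    rw [c5 y ⟨hy, hsub hyS⟩, g1, g2, h1]
    field_simp

/-- **FACE LEMMA**: `(ψ, H)` continues through every point of a punctured neighbourhood of
`Bt x`. -/
theorem face_reg {S S' : Set ℂ} (hS : IsOpen S) (hSc : Convex ℝ S) (hS' : IsOpen S')
    (hsub : S' ⊆ S) (hdense : S ⊆ closure S') {ψ H Z Zc κ : ℂ → ℂ}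
    (hψ : DifferentiableOn ℂ ψ S) (hH : DifferentiableOn ℂ H S)
    (hZ : ∀ z ∈ S', HasDerivAt Z (κ z * exp (I * ψ z)) z)
    (hZc : ∀ z ∈ S', HasDerivAt Zc (κ z * exp (-(I * ψ z))) z)
    (hκ : ∀ z ∈ S', κ z ≠ 0)
    (hon0 : ∀ z ∈ S', OnLine (ψ z) (H z) (Z z) (Zc z))
    {φ p Bt : ℂ × ℂ → ℂ} {x : ℂ × ℂ}
    (hφ : AnalyticAt ℂ φ x) (hp : AnalyticAt ℂ p x) (hB : AnalyticAt ℂ Bt x)
    (hB1 : q1 Bt x ≠ 0) (har : q1 φ x * q2 p x - q2 φ x * q1 p x ≠ 0)
    (hon : ∀ᶠ y in 𝓝 x, Bt y ∈ S' → OnLine (φ y) (p y) (Z (Bt y)) (Zc (Bt y)))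
    (hx : Bt x ∈ closure S) :
    ∀ᶠ z in 𝓝[≠] (Bt x), RegAt S ψ H z := by
  have hZd : DifferentiableOn ℂ Z S' := fun z hz => (hZ z hz).differentiableAt.differentiableWithinAt
  have hZcd : DifferentiableOn ℂ Zc S' := fun z hz =>
    (hZc z hz).differentiableAt.differentiableWithinAt
  obtain ⟨G, Gc, hG, hGc, heq⟩ := face_mero hS' hZd hZcd hφ hp hB hB1 har hon
  have hcl : Bt x ∈ closure S' := closure_minimal hdense isClosed_closure hx
  -- `S'` accumulates at `Bt x` without `Bt x`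
  have hacc : ∃ᶠ z in 𝓝[≠] (Bt x), z ∈ S' := by
    intro hno
    have h1 : ∀ᶠ z in 𝓝 (Bt x), z ≠ Bt x → z ∉ S' := eventually_nhdsWithin_iff.1 hno
    have h2 := h1.eventually_nhds
    obtain ⟨y, hy, hyS⟩ := ((mem_closure_iff_frequently.1 hcl).and_eventually h2).exists
    -- `y ∈ S'`, every point near `y` in `S'` equals `Bt x`
    have h3 : ∀ᶠ z in 𝓝 y, z = Bt x := by
      filter_upwards [hyS, hS'.mem_nhds hy] with z h4 h5
      by_contra h6
      exact h4 h6 h5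
    have h7 : ∃ z, z ≠ Bt x ∧ z = Bt x := by
      have h8 : ∀ᶠ z in 𝓝[≠] y, z = Bt x := h3.filter_mono nhdsWithin_le_nhds
      have h9 : ∀ᶠ z in 𝓝[≠] y, z ≠ y := eventually_mem_nhdsWithin
      obtain ⟨z, hz1, hz2⟩ := (h8.and h9).exists
      exact ⟨z, by rw [h3.self_of_nhds] at hz2; exact hz2, hz1⟩
    obtain ⟨z, h8, h9⟩ := h7
    exact h8 h9
  have heq2 := heq.eventually_nhds
  have hnz : ∀ (F W v : ℂ → ℂ), MeromorphicAt F (Bt x) → (∀ z ∈ S', HasDerivAt W (v z) z) →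
      (∀ z ∈ S', v z ≠ 0) → (∀ᶠ z in 𝓝 (Bt x), z ∈ S' → F z = W z) →
      ∀ᶠ z in 𝓝[≠] (Bt x), deriv F z ≠ 0 := by
    intro F W v hF hW hv hFW
    rcases hF.deriv.eventually_eq_zero_or_eventually_ne_zero with h1 | h1
    · exfalso
      have h2 : ∀ᶠ z in 𝓝[≠] (Bt x), ∀ᶠ y in 𝓝 z, y ∈ S' → F y = W y :=
        hFW.eventually_nhds.filter_mono nhdsWithin_le_nhds
      obtain ⟨z, hz, hz1, hz2⟩ := (hacc.and_eventually (h1.and h2)).exists
      have h3 : F =ᶠ[𝓝 z] W := by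
        filter_upwards [hz2, hS'.mem_nhds hz] with y h4 h5
        exact h4 h5
      rw [h3.deriv_eq, (hW z hz).deriv] at hz1
      exact hv z hz hz1
    · exact h1
  have n1 := hnz G Z _ hG hZ (fun z hz => mul_ne_zero (hκ z hz) (exp_ne_zero _))
    (heq.mono fun z h hz => (h hz).1)
  have n2 := hnz Gc Zc _ hGc hZc (fun z hz => mul_ne_zero (hκ z hz) (exp_ne_zero _))
    (heq.mono fun z h hz => (h hz).2)
  filter_upwards [hG.eventually_analyticAt, hGc.eventually_analyticAt, n1, n2,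
    heq2.filter_mono nhdsWithin_le_nhds] with z a1 a2 a3 a4 a5
  exact reg_of_ext hS hSc hS' hsub hdense hψ hH hZ hZc hκ hon0 a1 a2 a3 a4 a5

end Crest.Agent.R102.F300
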