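import Crest.Agent.R102.LP_472

/-!
# Poisson integrals on the half plane: nontangential limits at Lebesgue points
-/

namespace Crest.Agent.R102.LP472

open MeasureTheory Set Filter Topology Complex
open scoped Real

theorem pk_le {v : ℝ} (hv : 0 < v) (u t : ℝ) : pk u v t ≤ (π * v)⁻¹ := by
  unfold pk
  have hpi := Real.pi_pos
  have : v / ((t - u) ^ 2 + v ^ 2) ≤ v⁻¹ := by
    rw [div_le_iff₀ (by positivity)]
    have : v⁻¹ * ((t - u) ^ 2 + v ^ 2) = v⁻¹ * (t - u) ^ 2 + v := by
      field_simp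
    rw [this]
    have : 0 ≤ v⁻¹ * (t - u) ^ 2 := by positivity
    linarith
  calc π⁻¹ * (v / ((t - u) ^ 2 + v ^ 2)) ≤ π⁻¹ * v⁻¹ := by gcongr
    _ = (π * v)⁻¹ := by rw [mul_inv]

theorem continuous_pk {v : ℝ} (hv : 0 < v) (u : ℝ) : Continuous (pk u v) := by
  unfold pk
  apply continuous_const.mul
  apply continuous_const.div (by fun_prop)
  intro t
  positivity

/-- Poisson integral of a complex function. -/
noncomputable def PI (φ : ℝ → ℂ) (z : ℂ) : ℂ := ∫ t, (pk z.re z.im t : ℂ) * φ t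

theorem integrable_pk_mul {φ : ℝ → ℂ} (hφ : AEStronglyMeasurable φ volume) {M : ℝ}
    (hM : ∀ t, ‖φ t‖ ≤ M) {v : ℝ} (hv : 0 < v) (u : ℝ) :
    Integrable fun t => (pk u v t : ℂ) * φ t := by
  refine (((integrable_pk hv u).ofReal (𝕜 := ℂ)).mul_bdd (c := M) hφ ?_)
  exact Eventually.of_forall hM

/-- Poisson mass outside of an interval -/
theorem setIntegral_pk_compl_le {v N b x u : ℝ} (hv : 0 < v) (hb : 0 < b)
    (hu : |u - x| ≤ (N - b) * v) :
    ∫ t in (Icc (x - N * v) (x + N * v))ᶜ, pk u v t ≤ 1 - 2 / π * Real.arctan b := by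
  apply setIntegral_pk_le_of_disjoint hv hb
  intro t ht
  by_contra hcon
  push Not at hcon
  apply ht
  have h1 := abs_lt.1 hcon
  have h2 := abs_le.1 hu
  constructor <;> nlinarith

/-- basic estimate of the Poisson integral against a constant -/
theorem norm_PI_sub_le {φ : ℝ → ℂ} (hφ : AEStronglyMeasurable φ volume) {M : ℝ}
    (hM : ∀ t, ‖φ t‖ ≤ M) (x : ℝ) {z : ℂ} (hz : 0 < z.im) {N b : ℝ} (hb : 0 < b) (hN : b < N)
    (hu : |z.re - x| ≤ (N - b) * z.im) :
    ‖PI φ z - φ x‖ ≤ (2 * N / π) * (⨍ t in Metric.closedBall x (N * z.im), ‖φ t - φ x‖) +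
      2 * M * (1 - 2 / π * Real.arctan b) := by
  have hv := hz
  set u := z.re
  set v := z.im
  have hN0 : 0 < N := hb.trans hN
  have hint := integrable_pk_mul hφ hM hv u
  have hpk := integrable_pk hv u
  have h1 : PI φ z - φ x = ∫ t, (pk u v t : ℂ) * (φ t - φ x) := by
    have e1 : (∫ t, (pk u v t : ℂ) * φ x) = φ x := by
      rw [integral_mul_const, integral_complex_ofReal, integral_pk hv u]; simp
    calc PI φ z - φ x = (∫ t, (pk u v t : ℂ) * φ t) - ∫ t, (pk u v t : ℂ) * φ x := by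
          rw [e1]; rfl
      _ = ∫ t, ((pk u v t : ℂ) * φ t - (pk u v t : ℂ) * φ x) :=
          (integral_sub hint (hpk.ofReal.mul_const _)).symm
      _ = _ := by congr 1; ext t; ring
  have hdm : AEStronglyMeasurable (fun t => φ t - φ x) volume :=
    hφ.sub aestronglyMeasurable_const
  have hdb : ∀ t, ‖φ t - φ x‖ ≤ 2 * M := fun t => by
    have := norm_sub_le (φ t) (φ x)
    have := hM t
    have := hM x
    linarith
  have hd : Integrable fun t => pk u v t * ‖φ t - φ x‖ := by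
    refine hpk.mul_bdd (c := 2 * M) hdm.norm ?_
    exact Eventually.of_forall fun t => by simpa using hdb t
  have h2 : ‖PI φ z - φ x‖ ≤ ∫ t, pk u v t * ‖φ t - φ x‖ := by
    rw [h1]
    refine (norm_integral_le_integral_norm _).trans_eq ?_
    congr 1
    ext t
    rw [norm_mul, Complex.norm_real, Real.norm_of_nonneg (pk_nonneg hv u t)]
  set S := Icc (x - N * v) (x + N * v) with hS
  have h3 : (∫ t, pk u v t * ‖φ t - φ x‖) = (∫ t in S, pk u v t * ‖φ t - φ x‖) +
      ∫ t in Sᶜ, pk u v t * ‖φ t - φ x‖ := (integral_add_compl measurableSet_Icc hd).symm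
  have hM0 : 0 ≤ M := (norm_nonneg _).trans (hM x)
  have h4 : (∫ t in Sᶜ, pk u v t * ‖φ t - φ x‖) ≤ 2 * M * (1 - 2 / π * Real.arctan b) := by
    calc (∫ t in Sᶜ, pk u v t * ‖φ t - φ x‖) ≤ ∫ t in Sᶜ, pk u v t * (2 * M) := by
          refine setIntegral_mono hd.integrableOn (hpk.mul_const _).integrableOn ?_
          intro t
          exact mul_le_mul_of_nonneg_left (hdb t) (pk_nonneg hv u t)
      _ = 2 * M * ∫ t in Sᶜ, pk u v t := by rw [integral_mul_const]; ring
      _ ≤ _ := by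
          have := setIntegral_pk_compl_le (N := N) (x := x) hv hb hu
          gcongr
  have hint2 : IntegrableOn (fun t => ‖φ t - φ x‖) S := by
    have hfin : IsFiniteMeasure (volume.restrict S) := ⟨by
      rw [Measure.restrict_apply_univ, hS, Real.volume_Icc]; exact ENNReal.ofReal_lt_top⟩
    refine Integrable.of_bound hdm.norm.restrict (2 * M) ?_
    exact Eventually.of_forall fun t => by simpa using hdb t
  have h5 : (∫ t in S, pk u v t * ‖φ t - φ x‖) ≤ (π * v)⁻¹ * ∫ t in S, ‖φ t - φ x‖ := by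
    rw [← integral_const_mul]
    refine setIntegral_mono hd.integrableOn (hint2.const_mul _) ?_
    intro t
    exact mul_le_mul_of_nonneg_right (pk_le hv u t) (norm_nonneg _)
  have hvol : volume.real S = 2 * (N * v) := by
    rw [hS, Measure.real, Real.volume_Icc, ENNReal.toReal_ofReal (by nlinarith)]
    ring
  have h6 : (∫ t in S, ‖φ t - φ x‖) = 2 * (N * v) *
      (⨍ t in Metric.closedBall x (N * z.im), ‖φ t - φ x‖) := by
    rw [Real.closedBall_eq_Icc, setAverage_eq]
    change _ = 2 * (N * v) * ((volume.real S)⁻¹ • _)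
    rw [hvol, smul_eq_mul, ← mul_assoc, mul_inv_cancel₀ (by positivity), one_mul]
  have h7 : (π * v)⁻¹ * (2 * (N * v)) = 2 * N / π := by
    have := Real.pi_pos
    field_simp
  calc ‖PI φ z - φ x‖ ≤ (∫ t in S, pk u v t * ‖φ t - φ x‖) +
      ∫ t in Sᶜ, pk u v t * ‖φ t - φ x‖ := by rw [← h3]; exact h2
    _ ≤ (π * v)⁻¹ * (2 * (N * v) * (⨍ t in Metric.closedBall x (N * z.im), ‖φ t - φ x‖)) +
      2 * M * (1 - 2 / π * Real.arctan b) := by
        rw [← h6]; exact add_le_add h5 h4
    _ = _ := by rw [← mul_assoc, h7]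

/-- limit of the vertical parameter along a cone -/
theorem tendsto_im_Cone (b h x : ℝ) {N : ℝ} (hN : 0 < N) :
    Tendsto (fun z : ℂ => N * z.im) (𝓝[Cone b h x] (x : ℂ)) (𝓝[>] 0) := by
  rw [tendsto_nhdsWithin_iff]
  constructor
  · have h1 : Tendsto (fun z : ℂ => N * z.im) (𝓝 (x : ℂ)) (𝓝 (N * (x : ℂ).im)) :=
      (continuous_const.mul Complex.continuous_im).tendsto _
    simp only [ofReal_im, mul_zero] at h1
    exact h1.mono_left nhdsWithin_le_nhds
  · filter_upwards [self_mem_nhdsWithin] with z hz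
    exact mul_pos hN hz.1

theorem PI_tendsto_of_lebesgue {φ : ℝ → ℂ} (hφ : AEStronglyMeasurable φ volume) {M : ℝ}
    (hM : ∀ t, ‖φ t‖ ≤ M) {x : ℝ}
    (hx : Tendsto (fun r => ⨍ t in Metric.closedBall x r, ‖φ t - φ x‖) (𝓝[>] 0) (𝓝 0)) (b : ℝ)
    (h : ℝ) : Tendsto (PI φ) (𝓝[Cone b h x] (x : ℂ)) (𝓝 (φ x)) := by
  have hM0 : 0 ≤ M := (norm_nonneg _).trans (hM x)
  rw [Metric.tendsto_nhds]
  intro ε hε
  -- choose d with small tail
  have hlim : Tendsto (fun d : ℝ => 2 * M * (1 - 2 / π * Real.arctan d)) atTop (𝓝 0) := by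
    have h1 : Tendsto Real.arctan atTop (𝓝 (π / 2)) :=
      tendsto_nhds_of_tendsto_nhdsWithin Real.tendsto_arctan_atTop
    have h2 : Tendsto (fun b : ℝ => 2 * M * (1 - 2 / π * Real.arctan b)) atTop
        (𝓝 (2 * M * (1 - 2 / π * (π / 2)))) := (((h1.const_mul _).const_sub _).const_mul _)
    have h3 : 2 * M * (1 - 2 / π * (π / 2)) = 0 := by
      have := Real.pi_ne_zero
      field_simp; ring
    rwa [h3] at h2
  obtain ⟨d, hd1, hd0⟩ := ((hlim.eventually (gt_mem_nhds (show (0 : ℝ) < ε / 2 by positivity))).and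
      (eventually_gt_atTop 0)).exists
  set N : ℝ := d + |b| + 1 with hN
  have hb0 := abs_nonneg b
  have hN0 : 0 < N := by positivity
  have hNd : d < N := by rw [hN]; linarith
  have h1 := (hx.comp (tendsto_im_Cone b h x hN0)).const_mul (2 * N / π)
  rw [mul_zero] at h1
  filter_upwards [h1.eventually (gt_mem_nhds (show (0 : ℝ) < ε / 2 by positivity)),
    self_mem_nhdsWithin] with z hz1 hz2
  rw [dist_eq_norm]
  have h2 := norm_PI_sub_le hφ hM x hz2.1 hd0 hNd (by
    have h3 := hz2.2.2.le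
    have h4 : b ≤ N - d := by rw [hN]; linarith [le_abs_self b]
    have h5 := hz2.1
    nlinarith)
  simp only [Function.comp] at hz1
  linarith

/-- a.e. nontangential limits of Poisson integrals of bounded functions -/
theorem ae_PI_tendsto {φ : ℝ → ℂ} (hφ : AEStronglyMeasurable φ volume) {M : ℝ}
    (hM : ∀ t, ‖φ t‖ ≤ M) :
    ∀ᵐ x : ℝ, ∀ b h : ℝ, Tendsto (PI φ) (𝓝[Cone b h x] (x : ℂ)) (𝓝 (φ x)) := by
  have hloc : LocallyIntegrable φ volume := by
    rw [locallyIntegrable_iff]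
    intro k hk
    have hfin : IsFiniteMeasure (volume.restrict k) := ⟨by
      rw [Measure.restrict_apply_univ]; exact hk.measure_lt_top⟩
    exact Integrable.of_bound hφ.restrict M (Eventually.of_forall hM)
  have hae := IsUnifLocDoublingMeasure.ae_tendsto_average_norm_sub (μ := volume) hloc 0
  filter_upwards [hae] with x hx b h
  apply PI_tendsto_of_lebesgue hφ hM
  refine hx (fun _ => x) (fun r => r) tendsto_id ?_
  filter_upwards [self_mem_nhdsWithin] with r hr
  simp

end Crest.Agent.R102.LP472
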