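import Crest.Agent.R102.FatouA_472

/-!
# weak limits of uniformly bounded families supported in a set of finite measure
-/

namespace Crest.Agent.R102.LP472

open MeasureTheory Set Filter Topology Complex
open scoped Real InnerProductSpace

theorem memLp_of_supp {K : Set ℝ} (hKm : MeasurableSet K) (hKfin : volume K ≠ ⊤) {M : ℝ}
    {φ : ℝ → ℂ} (hφ : AEStronglyMeasurable φ volume) (hM : ∀ t, ‖φ t‖ ≤ M)
    (hs : ∀ t ∉ K, φ t = 0) : MemLp φ 2 volume := by
  have hfin : IsFiniteMeasure (volume.restrict K) := ⟨by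
    rw [Measure.restrict_apply_univ]; exact hKfin.lt_top⟩
  have h1 : MemLp φ 2 (volume.restrict K) := MemLp.of_bound hφ.restrict M (ae_of_all _ hM)
  have h2 : K.indicator φ = φ := by
    ext t
    by_cases ht : t ∈ K
    · simp [ht]
    · simp [ht, hs t ht]
  rw [← h2]
  exact (memLp_indicator_iff_restrict hKm).2 h1

theorem eLpNorm_le_of_supp {K : Set ℝ} (hKm : MeasurableSet K) {M : ℝ}
    {φ : ℝ → ℂ} (hM : ∀ t, ‖φ t‖ ≤ M)
    (hs : ∀ t ∉ K, φ t = 0) :
    eLpNorm φ 2 volume ≤ volume K ^ (2 : ENNReal).toReal⁻¹ * ENNReal.ofReal M := by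
  have h2 : K.indicator φ = φ := by
    ext t
    by_cases ht : t ∈ K
    · simp [ht]
    · simp [ht, hs t ht]
  have h3 : eLpNorm φ 2 volume = eLpNorm φ 2 (volume.restrict K) := by
    conv_lhs => rw [← h2]
    exact eLpNorm_indicator_eq_eLpNorm_restrict hKm
  rw [h3]
  have := eLpNorm_le_of_ae_bound (p := 2) (μ := volume.restrict K) (f := φ) (C := M) (ae_of_all _ hM)
  rwa [Measure.restrict_apply_univ] at this

theorem exists_weak_limit {K : Set ℝ} (hKm : MeasurableSet K) (hKfin : volume K ≠ ⊤) {M : ℝ}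
    (hM0 : 0 ≤ M) (φ : ℝ → ℝ → ℂ) (𝒰 : Ultrafilter ℝ)
    (hφ : ∀ᶠ s in (𝒰 : Filter ℝ), AEStronglyMeasurable (φ s) volume ∧ (∀ t, ‖φ s t‖ ≤ M) ∧
      ∀ t ∉ K, φ s t = 0) :
    ∃ ψ : ℝ → ℂ, AEStronglyMeasurable ψ volume ∧ (∀ t, ‖ψ t‖ ≤ M) ∧
      ∀ g : ℝ → ℝ, MemLp g 2 volume →
        Tendsto (fun s => ∫ t, (g t : ℂ) * φ s t) 𝒰 (𝓝 (∫ t, (g t : ℂ) * ψ t)) := by
  classical
  set R : ENNReal := volume K ^ (2 : ENNReal).toReal⁻¹ * ENNReal.ofReal M with hR
  have hRfin : R ≠ ⊤ := by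
    rw [hR]
    apply ENNReal.mul_ne_top _ ENNReal.ofReal_ne_top
    apply ENNReal.rpow_ne_top_of_nonneg _ hKfin
    simp
  set Φ : ℝ → Lp ℂ 2 (volume : Measure ℝ) := fun s =>
    if h : MemLp (φ s) 2 volume then h.toLp (φ s) else 0 with hΦ
  set T : ℝ → WeakDual ℂ (Lp ℂ 2 (volume : Measure ℝ)) := fun s =>
    StrongDual.toWeakDual (InnerProductSpace.toDual ℂ (Lp ℂ 2 (volume : Measure ℝ)) (Φ s)) with hT
  have hcomp := WeakDual.isCompact_closedBall (𝕜 := ℂ)
    (0 : StrongDual ℂ (Lp ℂ 2 (volume : Measure ℝ))) R.toReal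
  have hmem : ∀ᶠ s in (𝒰 : Filter ℝ), T s ∈ (WeakDual.toStrongDual ⁻¹'
      Metric.closedBall (0 : StrongDual ℂ (Lp ℂ 2 (volume : Measure ℝ))) R.toReal) := by
    filter_upwards [hφ] with s hs
    have h1 : MemLp (φ s) 2 volume := memLp_of_supp hKm hKfin hs.1 hs.2.1 hs.2.2
    rw [mem_preimage, mem_closedBall_zero_iff]
    have h2 : WeakDual.toStrongDual (T s) =
        InnerProductSpace.toDual ℂ (Lp ℂ 2 (volume : Measure ℝ)) (Φ s) := rfl
    rw [h2, LinearIsometryEquiv.norm_map]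
    have h3 : Φ s = h1.toLp (φ s) := by simp only [hΦ, dif_pos h1]
    rw [h3, Lp.norm_toLp]
    exact ENNReal.toReal_mono hRfin (eLpNorm_le_of_supp hKm hs.2.1 hs.2.2)
  have hU : ((𝒰.map T : Ultrafilter _) : Filter _) ≤ 𝓟 (WeakDual.toStrongDual ⁻¹'
      Metric.closedBall (0 : StrongDual ℂ (Lp ℂ 2 (volume : Measure ℝ))) R.toReal) := by
    rw [le_principal_iff, Ultrafilter.coe_map, Filter.mem_map]
    exact hmem
  obtain ⟨Λ, -, hΛ⟩ := hcomp.ultrafilter_le_nhds _ hU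
  have hTL : Tendsto T 𝒰 (𝓝 Λ) := by
    rw [Ultrafilter.coe_map] at hΛ
    exact hΛ
  set Ψ : Lp ℂ 2 (volume : Measure ℝ) :=
    (InnerProductSpace.toDual ℂ (Lp ℂ 2 (volume : Measure ℝ))).symm (WeakDual.toStrongDual Λ)
    with hΨ
  have hlim : ∀ g : Lp ℂ 2 (volume : Measure ℝ),
      Tendsto (fun s => ⟪Φ s, g⟫_ℂ) 𝒰 (𝓝 ⟪Ψ, g⟫_ℂ) := by
    intro g
    have h1 : Tendsto (fun s => T s g) 𝒰 (𝓝 (Λ g)) :=
      ((WeakDual.eval_continuous g).tendsto Λ).comp hTL
    have h2 : ⟪Ψ, g⟫_ℂ = Λ g := InnerProductSpace.toDual_symm_apply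
    rw [h2]
    exact h1
  -- in terms of integrals
  have hint : ∀ g : ℝ → ℝ, MemLp g 2 volume →
        Tendsto (fun s => ∫ t, (g t : ℂ) * φ s t) 𝒰 (𝓝 (∫ t, (g t : ℂ) * Ψ t)) := by
    intro g hg
    have hgc : MemLp (fun t => (g t : ℂ)) 2 volume := hg.ofReal
    have e0 : ∀ (F : Lp ℂ 2 (volume : Measure ℝ)) (f : ℝ → ℂ), F =ᵐ[volume] f →
        (starRingEnd ℂ) ⟪F, hgc.toLp _⟫_ℂ = ∫ t, (g t : ℂ) * f t := by
      intro F f hF
      rw [L2.inner_def, ← integral_conj]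
      apply integral_congr_ae
      filter_upwards [hF, hgc.coeFn_toLp] with t h1 h2
      rw [h1, h2]
      simp [mul_comm]
    have h1 := ((Complex.continuous_conj.tendsto _).comp (hlim (hgc.toLp _)))
    rw [e0 Ψ Ψ (ae_eq_refl _)] at h1
    refine h1.congr' ?_
    filter_upwards [hφ] with s hs
    have h1 : MemLp (φ s) 2 volume := memLp_of_supp hKm hKfin hs.1 hs.2.1 hs.2.2
    have h3 : Φ s = h1.toLp (φ s) := by simp only [hΦ, dif_pos h1]
    simp only [Function.comp]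
    rw [h3]
    exact e0 _ _ h1.coeFn_toLp
  -- a.e. bound
  have hΨloc : LocallyIntegrable (Ψ : ℝ → ℂ) volume :=
    (Lp.memLp Ψ).locallyIntegrable (by norm_num)
  have hball : ∀ x r : ℝ, ‖∫ t in Metric.closedBall x r, Ψ t‖ ≤
      M * volume.real (Metric.closedBall x r) := by
    intro x r
    set A := Metric.closedBall x r with hA
    have hAm : MeasurableSet A := Metric.isClosed_closedBall.measurableSet
    have hAfin : volume A ≠ ⊤ := measure_closedBall_lt_top.ne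
    have hg : MemLp (A.indicator (fun _ => (1 : ℝ))) 2 volume :=
      memLp_indicator_const 2 hAm 1 (Or.inr hAfin)
    have h1 := (hint _ hg).norm
    have e1 : ∀ f : ℝ → ℂ, (∫ t, ((A.indicator (fun _ => (1 : ℝ)) t : ℝ) : ℂ) * f t) =
        ∫ t in A, f t := by
      intro f
      rw [← integral_indicator hAm]
      congr 1
      ext t
      by_cases ht : t ∈ A
      · simp [ht]
      · simp [ht]
    rw [e1] at h1
    apply le_of_tendsto h1
    filter_upwards [hφ] with s hs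
    rw [e1]
    exact norm_setIntegral_le_of_norm_le_const hAfin.lt_top (fun t _ => hs.2.1 t)
  have hbd : ∀ᵐ x : ℝ, ‖Ψ x‖ ≤ M := by
    have hae := IsUnifLocDoublingMeasure.ae_tendsto_average (μ := volume) hΨloc 0
    filter_upwards [hae] with x hx
    have h1 := hx (l := 𝓝[>] (0 : ℝ)) (fun _ => x) (fun r => r) tendsto_id (by
      filter_upwards [self_mem_nhdsWithin] with r hr
      simp)
    apply le_of_tendsto h1.norm
    filter_upwards [self_mem_nhdsWithin] with r hr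
    rw [setAverage_eq, norm_smul]
    have hpos : 0 < volume.real (Metric.closedBall x r) := by
      rw [Real.closedBall_eq_Icc, Measure.real, Real.volume_Icc, ENNReal.toReal_ofReal]
      · have : (0 : ℝ) < r := hr
        linarith
      · have : (0 : ℝ) < r := hr
        linarith
    rw [norm_inv, Real.norm_of_nonneg hpos.le, inv_mul_le_iff₀ hpos]
    rw [mul_comm]
    exact hball x r
  refine ⟨fun t => if ‖Ψ t‖ ≤ M then Ψ t else 0, ?_, ?_, ?_⟩
  · refine (Lp.aestronglyMeasurable Ψ).congr ?_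
    filter_upwards [hbd] with t ht
    rw [if_pos ht]
  · intro t
    by_cases ht : ‖Ψ t‖ ≤ M
    · simp only [if_pos ht]; exact ht
    · simp only [if_neg ht, norm_zero]; exact hM0
  · intro g hg
    have h1 : (∫ t, (g t : ℂ) * (if ‖Ψ t‖ ≤ M then Ψ t else 0)) = ∫ t, (g t : ℂ) * Ψ t := by
      apply integral_congr_ae
      filter_upwards [hbd] with t ht
      rw [if_pos ht]
    rw [h1]
    exact hint g hg

end Crest.Agent.R102.LP472
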