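import Crest.Agent.R102.FatouB_472

/-!
# Calderón's comparison of a bounded holomorphic function in a sawtooth domain with the Poisson
integral of its boundary values
-/

namespace Crest.Agent.R102.LP472

open MeasureTheory Set Filter Topology Complex
open scoped Real

/-- holomorphic function whose real part is the Poisson integral of the real function `ψ`. -/
noncomputable def OmW (ψ : ℝ → ℝ) (z : ℂ) : ℂ :=
  (-(π : ℂ)⁻¹ * I) * ∫ t, (ψ t : ℂ) * ((t : ℂ) - z)⁻¹

theorem continuous_cauchy {z : ℂ} (hz : 0 < z.im) :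
    Continuous fun t : ℝ => ((t : ℂ) - z)⁻¹ :=
  (Complex.continuous_ofReal.sub continuous_const).inv₀ (ofReal_sub_ne hz)

theorem norm_cauchy_le {z : ℂ} (hz : 0 < z.im) (t : ℝ) : ‖((t : ℂ) - z)⁻¹‖ ≤ z.im⁻¹ := by
  have h3 : |((t : ℂ) - z).im| ≤ ‖(t : ℂ) - z‖ := Complex.abs_im_le_norm _
  have h4 : |((t : ℂ) - z).im| = z.im := by simp [abs_of_pos hz]
  rw [h4] at h3
  rw [norm_inv]
  gcongr

theorem integrable_mul_cauchy {ψ : ℝ → ℝ} (hψ : Integrable ψ) {z : ℂ} (hz : 0 < z.im) :
    Integrable (fun t : ℝ => (ψ t : ℂ) * ((t : ℂ) - z)⁻¹) :=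
  hψ.ofReal.mul_bdd (c := z.im⁻¹) (continuous_cauchy hz).aestronglyMeasurable
    (ae_of_all _ (norm_cauchy_le hz))

theorem OmW_re {ψ : ℝ → ℝ} (hψ : Integrable ψ) {z : ℂ} (hz : 0 < z.im) :
    (OmW ψ z).re = ∫ t, pk z.re z.im t * ψ t := by
  unfold OmW
  have hI := integrable_mul_cauchy hψ hz
  have h1 : ((-(π : ℂ)⁻¹ * I) * ∫ t, (ψ t : ℂ) * ((t : ℂ) - z)⁻¹).re
      = π⁻¹ * (∫ t, (ψ t : ℂ) * ((t : ℂ) - z)⁻¹).im := by
    rw [Complex.mul_re]
    have e : (-(π : ℂ)⁻¹ * I) = ((-(π)⁻¹ : ℝ) : ℂ) * I := by push_cast; ring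
    rw [e]
    simp
  rw [h1]
  have h2 : (∫ t, (ψ t : ℂ) * ((t : ℂ) - z)⁻¹).im = ∫ t, ((ψ t : ℂ) * ((t : ℂ) - z)⁻¹).im := by
    have := (Complex.imCLM.integral_comp_comm hI)
    simpa using this.symm
  rw [h2, ← integral_const_mul]
  congr 1
  ext t
  unfold pk
  rw [Complex.im_ofReal_mul, Complex.inv_im]
  simp only [sub_im, ofReal_im, zero_sub, neg_neg, Complex.normSq_apply, sub_re, ofReal_re]
  have : (t - z.re) * (t - z.re) + -z.im * -z.im = (t - z.re) ^ 2 + z.im ^ 2 := by ring
  rw [this]
  ring

theorem OmW_differentiableAt {ψ : ℝ → ℝ} (hψ : Integrable ψ) {z : ℂ} (hz : 0 < z.im) :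
    DifferentiableAt ℂ (OmW ψ) z := by
  unfold OmW
  apply DifferentiableAt.const_mul
  set r := z.im / 2 with hr
  have hrpos : 0 < r := by positivity
  have hball : ∀ w ∈ Metric.ball z r, r ≤ w.im := by
    intro w hw
    have h1 : |w.im - z.im| ≤ ‖w - z‖ := by
      have := Complex.abs_im_le_norm (w - z); simpa using this
    have h2 : ‖w - z‖ < r := by simpa [dist_eq_norm] using hw
    have := (abs_le.1 (h1.trans h2.le)).1
    rw [hr] at this ⊢
    linarith
  have key := hasDerivAt_integral_of_dominated_loc_of_deriv_le (μ := volume)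
    (F := fun (w : ℂ) (t : ℝ) => (ψ t : ℂ) * ((t : ℂ) - w)⁻¹)
    (F' := fun (w : ℂ) (t : ℝ) => (ψ t : ℂ) * (((t : ℂ) - w) ^ 2)⁻¹) (x₀ := z)
    (bound := fun t => |ψ t| * (r ^ 2)⁻¹) (s := Metric.ball z r) (Metric.ball_mem_nhds z hrpos)
    (Metric.isOpen_ball.eventually_mem (Metric.mem_ball_self hrpos) |>.mono fun w hw =>
      (integrable_mul_cauchy hψ (lt_of_lt_of_le hrpos (hball w hw))).aestronglyMeasurable)
    (integrable_mul_cauchy hψ hz)
    (by
      have hc : Continuous fun t : ℝ => (((t : ℂ) - z) ^ 2)⁻¹ :=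
        ((Complex.continuous_ofReal.sub continuous_const).pow 2).inv₀
          (fun t => pow_ne_zero 2 (ofReal_sub_ne hz t))
      exact hψ.ofReal.aestronglyMeasurable.mul hc.aestronglyMeasurable)
    (by
      refine Eventually.of_forall fun t w hw => ?_
      have h1 := hball w hw
      have h2 : r ≤ ‖(t : ℂ) - w‖ := by
        have h3 : |((t : ℂ) - w).im| ≤ ‖(t : ℂ) - w‖ := Complex.abs_im_le_norm _
        have h4 : |((t : ℂ) - w).im| = w.im := by
          simp [abs_of_pos (lt_of_lt_of_le hrpos h1)]
        rw [h4] at h3; linarith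
      rw [norm_mul, norm_inv, norm_pow, Complex.norm_real, Real.norm_eq_abs]
      gcongr)
    (hψ.abs.mul_const _)
    (by
      refine Eventually.of_forall fun t w hw => ?_
      have hne : (t : ℂ) - w ≠ 0 := ofReal_sub_ne (lt_of_lt_of_le hrpos (hball w hw)) t
      have h1 : HasDerivAt (fun w : ℂ => (t : ℂ) - w) (-1) w := by
        simpa using (hasDerivAt_id w).const_sub (t : ℂ)
      have h2 : HasDerivAt (fun w : ℂ => ((t : ℂ) - w)⁻¹) (- -1 / ((t : ℂ) - w) ^ 2) w :=
        h1.inv hne
      have h3 : (- -1 / ((t : ℂ) - w) ^ 2) = (((t : ℂ) - w) ^ 2)⁻¹ := by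
        rw [neg_neg, one_div]
      rw [h3] at h2
      exact h2.const_mul _)
  exact key.2.differentiableAt

/-- Union of the cones over `K`. -/
def Saw (a h : ℝ) (K : Set ℝ) : Set ℂ := ⋃ x ∈ K, Cone a h x

theorem mem_Saw {a h : ℝ} {K : Set ℝ} {z : ℂ} : z ∈ Saw a h K ↔ ∃ x ∈ K, z ∈ Cone a h x := by
  simp [Saw]

theorem isOpen_Saw (a h : ℝ) (K : Set ℝ) : IsOpen (Saw a h K) :=
  isOpen_biUnion fun x _ => isOpen_Cone a h x

theorem Saw_subset_Hull (a h : ℝ) (K : Set ℝ) : Saw a h K ⊆ Hull a h K := by
  intro z hz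
  obtain ⟨x, hx, h1, h2, h3⟩ := mem_Saw.1 hz
  exact ⟨h1.le, h2.le, x, hx, h3.le⟩

theorem Saw_mono {a h h' : ℝ} {K : Set ℝ} (hh : h' ≤ h) : Saw a h' K ⊆ Saw a h K := by
  intro z hz
  obtain ⟨x, hx, h1⟩ := mem_Saw.1 hz
  exact mem_Saw.2 ⟨x, hx, Cone_mono hh h1⟩

/-- Calderón comparison : `g` is holomorphic on the shifted sawtooth `U = {w | w + i s₀ ∈ ...}`
(all we need is: the upward shifts of the closed hull, up to `σ₀`, stay in the open set `U`). -/
theorem comparison {U : Set ℂ} (hU : IsOpen U) {g : ℂ → ℂ} (hg : DifferentiableOn ℂ g U)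
    {M : ℝ} (hM : ∀ z ∈ U, ‖g z‖ ≤ M) (hM0 : 0 ≤ M) {a h σ₀ : ℝ} (ha : 0 < a) (hh : 0 < h)
    (hσ₀ : 0 < σ₀) {K : Set ℝ} (hK : IsCompact K)
    (hsub : ∀ z ∈ Hull a h K, ∀ σ ∈ Icc 0 σ₀, z + (σ : ℂ) * I ∈ U) :
    ∀ z ∈ Saw a h K, (g z).re - (∫ t, pk z.re z.im t * K.indicator (fun t => (g t).re) t) ≤
      2 * M * (1 - (G K (2 / π * Real.arctan (a / 2)) h z).re) := by
  classical
  set c : ℝ := 2 / π * Real.arctan (a / 2) with hcdef
  have hpi := Real.pi_pos
  have hc : 0 < c := by
    have := Real.arctan_pos.2 (show 0 < a / 2 by positivity)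
    positivity
  have hc1 : c ≤ 1 := by
    have h1 := (Real.arctan_lt_pi_div_two (a / 2)).le
    calc c ≤ 2 / π * (π / 2) := by rw [hcdef]; gcongr
      _ = 1 := by field_simp
  -- boundary function
  set ψ : ℝ → ℝ := K.indicator (fun t => (g t).re) with hψdef
  have hKH : ∀ x ∈ K, (x : ℂ) ∈ Hull a h K := fun x hx =>
    ⟨by simp, by simpa using hh.le, x, hx, by simp⟩
  have hKU : ∀ x ∈ K, (x : ℂ) ∈ U := fun x hx => by
    have := hsub x (hKH x hx) 0 ⟨le_rfl, hσ₀.le⟩
    simpa using this
  have hgK : ContinuousOn (fun t : ℝ => (g t).re) K := by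
    intro t ht
    have h1 : ContinuousAt g (t : ℂ) := (hg.differentiableAt (hU.mem_nhds (hKU t ht))).continuousAt
    have h2 : ContinuousAt (fun t : ℝ => g t) t :=
      ContinuousAt.comp (f := fun t : ℝ => (t : ℂ)) h1 Complex.continuous_ofReal.continuousAt
    exact (Complex.continuous_re.continuousAt.comp h2).continuousWithinAt
  have hψint : Integrable ψ := by
    rw [hψdef, integrable_indicator_iff hK.measurableSet]
    exact hgK.integrableOn_compact hK
  have hψM : ∀ t, |ψ t| ≤ M := by
    intro t
    by_cases ht : t ∈ K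
    · rw [hψdef, indicator_of_mem ht]
      exact (Complex.abs_re_le_norm _).trans (hM _ (hKU t ht))
    · rw [hψdef, indicator_of_notMem ht]; simpa using hM0
  have hPψ : ∀ {z : ℂ}, 0 < z.im → |∫ t, pk z.re z.im t * ψ t| ≤ M := by
    intro z hz
    have hb : ∀ t, ‖pk z.re z.im t * ψ t‖ ≤ pk z.re z.im t * M := fun t => by
      rw [norm_mul, Real.norm_of_nonneg (pk_nonneg hz _ _)]
      exact mul_le_mul_of_nonneg_left (hψM t) (pk_nonneg hz _ _)
    have h1 := norm_integral_le_of_norm_le ((integrable_pk hz z.re).mul_const M) (ae_of_all _ hb)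
    rw [integral_mul_const, integral_pk hz, one_mul] at h1
    simpa using h1
  -- shorthand
  set B : ℂ → ℝ := fun z => 1 - (G K c h z).re with hB
  have hB0 : ∀ {z : ℂ}, 0 < z.im → 0 ≤ B z := fun {z} hz => by
    have := G_re_le_one hK hc hh hz
    simp only [hB]; linarith
  have hBom : ∀ {z : ℂ}, 0 < z.im → 1 - ∫ t in K, pk z.re z.im t ≤ B z := fun {z} hz => by
    simp only [hB]
    rw [G_re hK _ hz]
    have h1 := setIntegral_pk_le_one hz z.re K
    have h2 : 1 - ∫ t in K, pk z.re z.im t ≤ c⁻¹ * (1 - ∫ t in K, pk z.re z.im t) := by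
      have h3 : 1 ≤ c⁻¹ := (one_le_inv₀ hc).2 hc1
      nlinarith
    have h3 : 0 ≤ z.im / h := by positivity
    linarith
  -- the compact set of shifted points
  set H2 : Set ℂ := (fun p : ℂ × ℝ => p.1 + (p.2 : ℂ) * I) '' (Hull a h K ×ˢ Icc 0 σ₀) with hH2
  have hH2c : IsCompact H2 :=
    ((isCompact_Hull ha hK).prod isCompact_Icc).image (by fun_prop)
  have hH2U : H2 ⊆ U := by
    rintro _ ⟨⟨w, σ⟩, ⟨hw, hσ⟩, rfl⟩
    exact hsub w hw σ hσ
  have huc : UniformContinuousOn g H2 :=
    hH2c.uniformContinuousOn_of_continuous (hg.continuousOn.mono hH2U)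
  have hKH2 : ∀ x ∈ K, (x : ℂ) ∈ H2 := fun x hx =>
    ⟨((x : ℂ), (0 : ℝ)), ⟨hKH x hx, ⟨le_rfl, hσ₀.le⟩⟩, by simp⟩
  -- closure of the sawtooth
  have hcl : closure (Saw a h K) ⊆ Hull a h K :=
    closure_minimal (Saw_subset_Hull a h K) (isCompact_Hull ha hK).isClosed
  have hbd : Bornology.IsBounded (Saw a h K) :=
    (isCompact_Hull ha hK).isBounded.subset (Saw_subset_Hull a h K)
  have imS : ∀ (w : ℂ) (s : ℝ), (w + s * I).im = w.im + s := fun w s => by simp
  have reS : ∀ (w : ℂ) (s : ℝ), (w + s * I).re = w.re := fun w s => by simp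
  intro z hz
  have hzim : 0 < z.im := by
    obtain ⟨x, hx, h1⟩ := mem_Saw.1 hz; exact h1.1
  have hzU : z ∈ U := by
    have := hsub z (Saw_subset_Hull a h K hz) 0 ⟨le_rfl, hσ₀.le⟩
    simpa using this
  -- the holomorphic function
  set Fn : ℂ → ℂ := fun w => g w - OmW ψ w - (2 * M : ℝ) * (1 - G K c h w) with hFn
  have hFnre : ∀ {w : ℂ}, 0 < w.im → (Fn w).re = (g w).re - (∫ t, pk w.re w.im t * ψ t) -
      2 * M * B w := by
    intro w hw
    simp only [hFn, hB]
    rw [Complex.sub_re, Complex.sub_re, OmW_re hψint hw, Complex.re_ofReal_mul, Complex.sub_re,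
      Complex.one_re]
  have hFnd : ∀ w ∈ U, 0 < w.im → DifferentiableAt ℂ Fn w := by
    intro w hw hw0
    have h1 := hg.differentiableAt (hU.mem_nhds hw)
    have h2 := OmW_differentiableAt hψint hw0
    have h3 := G_differentiableAt hK c h hw0
    exact (h1.sub h2).sub ((h3.const_sub 1).const_mul _)
  suffices hmain : ∀ ε > 0, (Fn z).re ≤ ε by
    have h1 : (Fn z).re ≤ 0 := le_of_forall_pos_le_add fun ε hε => by
      rw [zero_add]; exact hmain ε hε
    rw [hFnre hzim] at h1
    simp only [hB] at h1
    linarith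
  intro ε hε
  -- uniform continuity
  obtain ⟨δ, hδ, hδg⟩ := Metric.uniformContinuousOn_iff_le.1 huc (ε / 4) (by positivity)
  -- tail
  have hlim : Tendsto (fun d : ℝ => 2 * M * (1 - 2 / π * Real.arctan d)) atTop (𝓝 0) := by
    have h1 : Tendsto Real.arctan atTop (𝓝 (π / 2)) :=
      tendsto_nhds_of_tendsto_nhdsWithin Real.tendsto_arctan_atTop
    have h2 : Tendsto (fun b : ℝ => 2 * M * (1 - 2 / π * Real.arctan b)) atTop
        (𝓝 (2 * M * (1 - 2 / π * (π / 2)))) := (((h1.const_mul _).const_sub _).const_mul _)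
    have h3 : 2 * M * (1 - 2 / π * (π / 2)) = 0 := by
      have := Real.pi_ne_zero
      field_simp; ring
    rwa [h3] at h2
  obtain ⟨d, hd1, hd0⟩ := ((hlim.eventually (gt_mem_nhds (show (0 : ℝ) < ε / 4 by positivity))).and
      (eventually_gt_atTop 0)).exists
  -- smallness of σ
  have shift : ∀ σ : ℝ, 0 < σ → σ < σ₀ → (a + d + 2) * (2 * σ) < δ →
      (Fn (z + σ * I)).re ≤ ε := by
    intro σ hσ hσ1 hσ2
    have hdiff : DifferentiableOn ℂ (fun w => Complex.exp (Fn (w + σ * I)))
        (closure (Saw a h K)) := by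
      intro w hw
      have hw' := hcl hw
      have hwU : w + σ * I ∈ U := hsub w hw' σ ⟨hσ.le, hσ1.le⟩
      have him : 0 < (w + σ * I).im := by rw [imS]; have := hw'.1; linarith
      have hsh : DifferentiableAt ℂ (fun w : ℂ => w + σ * I) w := by fun_prop
      have e1 : DifferentiableAt ℂ (fun w : ℂ => Fn (w + σ * I)) w :=
        DifferentiableAt.comp (g := Fn) (f := fun w : ℂ => w + σ * I) w (hFnd _ hwU him) hsh
      exact e1.cexp.differentiableWithinAt
    have hfr : ∀ w ∈ frontier (Saw a h K), ‖Complex.exp (Fn (w + σ * I))‖ ≤ Real.exp ε := by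
      intro w hw
      rw [Complex.norm_exp]
      apply Real.exp_le_exp.2
      have hwcl : w ∈ closure (Saw a h K) := frontier_subset_closure hw
      have hwn : w ∉ Saw a h K := by
        have := hw.2
        rwa [(isOpen_Saw a h K).interior_eq] at this
      obtain ⟨h1, h2, x, hx, h3⟩ := hcl hwcl
      have him : 0 < (w + σ * I).im := by rw [imS]; linarith
      have hwU : w + σ * I ∈ U := hsub w (hcl hwcl) σ ⟨hσ.le, hσ1.le⟩
      rw [hFnre him]
      have hgM : (g (w + σ * I)).re ≤ M :=
        (le_abs_self _).trans ((Complex.abs_re_le_norm _).trans (hM _ hwU))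
      rcases lt_or_ge w.im σ with hlt | hge
      · -- bottom
        set u := (w + σ * I).re with hu
        set v := (w + σ * I).im with hv
        have hvle : v ≤ 2 * σ := by rw [hv, imS]; linarith
        have huw : u = w.re := by rw [hu, reS]
        have hux : |u - x| ≤ a * v := by
          rw [huw, hv, imS]; nlinarith
        -- g close to g x
        have hd1' : dist (g (w + σ * I)) (g x) ≤ ε / 4 := by
          apply hδg _ ⟨(w, σ), ⟨hcl hwcl, ⟨hσ.le, hσ1.le⟩⟩, rfl⟩ _ (hKH2 x hx)
          rw [dist_eq_norm]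
          have e1 : ‖w + σ * I - x‖ ≤ |(w + σ * I - x).re| + |(w + σ * I - x).im| :=
            Complex.norm_le_abs_re_add_abs_im _
          rw [Complex.sub_re, Complex.sub_im, Complex.ofReal_re, Complex.ofReal_im, sub_zero,
            ← hu, ← hv, abs_of_pos him] at e1
          nlinarith
        have hgre : (g (w + σ * I)).re ≤ ψ x + ε / 4 := by
          have e1 : (g (w + σ * I)).re - (g x).re ≤ ε / 4 := by
            have e2 := Complex.abs_re_le_norm (g (w + σ * I) - g x)
            rw [Complex.sub_re] at e2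
            rw [dist_eq_norm] at hd1'
            exact (le_abs_self _).trans (e2.trans hd1')
          have e3 : ψ x = (g x).re := by rw [hψdef, indicator_of_mem hx]
          rw [e3]; linarith
        -- Poisson integral close to ψ x
        have hpk := integrable_pk him u
        have hP : ψ x * (∫ t in K, pk u v t) - ε / 2 ≤ ∫ t, pk u v t * ψ t := by
          have e1 : (∫ t, pk u v t * ψ t) = ∫ t in K, pk u v t * ψ t := by
            rw [← integral_indicator hK.measurableSet]
            congr 1
            ext t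
            by_cases ht : t ∈ K
            · simp [ht]
            · rw [indicator_of_notMem ht, hψdef, indicator_of_notMem ht, mul_zero]
          have e2 : (∫ t in K, pk u v t * ψ t) - ψ x * (∫ t in K, pk u v t) =
              ∫ t in K, pk u v t * (ψ t - ψ x) := by
            rw [← integral_const_mul, ← integral_sub]
            · congr 1
              ext t
              ring
            · exact (hpk.mul_bdd (c := M) hψint.aestronglyMeasurable (ae_of_all _ (by
                intro t; simpa using hψM t))).integrableOn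
            · exact (hpk.const_mul _).integrableOn
          set N : ℝ := d + a with hN
          set S := Icc (x - N * v) (x + N * v) with hS
          have e3 : ∀ t ∈ K, pk u v t * (ψ x - ψ t) ≤
              pk u v t * (ε / 4) + Sᶜ.indicator (fun t => pk u v t * (2 * M)) t := by
            intro t ht
            have hpn := pk_nonneg him u t
            by_cases hts : t ∈ S
            · rw [indicator_of_notMem (by simpa using hts), add_zero]
              apply mul_le_mul_of_nonneg_left _ hpn
              have e4 : dist (g (x : ℂ)) (g (t : ℂ)) ≤ ε / 4 := by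
                apply hδg _ (hKH2 x hx) _ (hKH2 t ht)
                rw [dist_eq_norm, ← Complex.ofReal_sub, Complex.norm_real, Real.norm_eq_abs]
                have e5 : |x - t| ≤ N * v := by
                  rw [abs_le]; constructor <;> linarith [hts.1, hts.2]
                have hN0 : 0 ≤ N := by positivity
                calc |x - t| ≤ N * v := e5
                  _ ≤ N * (2 * σ) := by gcongr
                  _ ≤ (a + d + 2) * (2 * σ) := by
                      apply mul_le_mul_of_nonneg_right _ (by positivity)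
                      rw [hN]; linarith
                  _ ≤ δ := hσ2.le
              have e6 : ψ x = (g x).re := by rw [hψdef, indicator_of_mem hx]
              have e7 : ψ t = (g t).re := by rw [hψdef, indicator_of_mem ht]
              rw [e6, e7, ← Complex.sub_re]
              rw [dist_eq_norm] at e4
              exact (le_abs_self _).trans ((Complex.abs_re_le_norm _).trans e4)
            · rw [indicator_of_mem (by simpa using hts)]
              have e4 : ψ x - ψ t ≤ 2 * M := by
                have := abs_le.1 (hψM x)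
                have := abs_le.1 (hψM t)
                linarith
              have e5 : pk u v t * (ψ x - ψ t) ≤ pk u v t * (2 * M) :=
                mul_le_mul_of_nonneg_left e4 hpn
              have e6 : 0 ≤ pk u v t * (ε / 4) := by positivity
              linarith
          have e8 : (∫ t in K, pk u v t * (ψ x - ψ t)) ≤ ε / 2 := by
            have i1 : IntegrableOn (fun t => pk u v t * (ψ x - ψ t)) K := by
              refine (hpk.mul_bdd (c := 2 * M) ?_ ?_).integrableOn
              · exact aestronglyMeasurable_const.sub hψint.aestronglyMeasurable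
              · refine ae_of_all _ fun t => ?_
                rw [Real.norm_eq_abs]
                have h1 := abs_le.1 (hψM x)
                have h2 := abs_le.1 (hψM t)
                rw [abs_le]; constructor <;> linarith
            have i2 : Integrable (fun t => pk u v t * (ε / 4)) := hpk.mul_const _
            have i3 : Integrable (Sᶜ.indicator (fun t => pk u v t * (2 * M))) :=
              (hpk.mul_const _).indicator measurableSet_Icc.compl
            calc (∫ t in K, pk u v t * (ψ x - ψ t)) ≤
                ∫ t in K, (pk u v t * (ε / 4) + Sᶜ.indicator (fun t => pk u v t * (2 * M)) t) :=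
                  setIntegral_mono_on i1 (i2.add i3).integrableOn hK.measurableSet e3
              _ ≤ ∫ t, (pk u v t * (ε / 4) + Sᶜ.indicator (fun t => pk u v t * (2 * M)) t) := by
                  apply setIntegral_le_integral (i2.add i3)
                  refine ae_of_all _ fun t => ?_
                  have hpn := pk_nonneg him u t
                  have q1 : 0 ≤ Sᶜ.indicator (fun t => pk u v t * (2 * M)) t := by
                    apply indicator_nonneg
                    intro s _
                    have := pk_nonneg him u s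
                    positivity
                  have q2 : 0 ≤ pk u v t * (ε / 4) := by positivity
                  exact add_nonneg q2 q1
              _ = ε / 4 + 2 * M * ∫ t in Sᶜ, pk u v t := by
                  rw [integral_add i2 i3, integral_mul_const, integral_pk him u,
                    integral_indicator measurableSet_Icc.compl, integral_mul_const]
                  ring
              _ ≤ ε / 4 + 2 * M * (1 - 2 / π * Real.arctan d) := by
                  have := setIntegral_pk_compl_le (N := N) (x := x) (u := u) him hd0 (by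
                    rw [hN]; simpa using hux)
                  gcongr
              _ ≤ ε / 2 := by linarith
          have e9 : (∫ t in K, pk u v t * (ψ t - ψ x)) = - ∫ t in K, pk u v t * (ψ x - ψ t) := by
            rw [← integral_neg]; congr 1; ext t; ring
          rw [e1]
          linarith
        have hψx : ψ x ≤ M := (abs_le.1 (hψM x)).2
        have hBw := hBom him
        have hm1 := setIntegral_pk_le_one him u K
        have hkey : ψ x - ψ x * (∫ t in K, pk u v t) ≤ M * B (w + σ * I) := by
          calc ψ x - ψ x * (∫ t in K, pk u v t) = ψ x * (1 - ∫ t in K, pk u v t) := by ring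
            _ ≤ M * (1 - ∫ t in K, pk u v t) := by
                apply mul_le_mul_of_nonneg_right hψx; linarith
            _ ≤ M * B (w + σ * I) := by gcongr
        have hB1 := mul_nonneg hM0 (hB0 him)
        linarith
      · -- the barrier
        have hG1 : (G K c h (w + σ * I)).re ≤ 0 := by
          rcases le_or_gt h w.im with h5 | h5
          · exact G_re_nonpos_top hK hc hh (by rw [imS]; linarith)
          · apply G_re_nonpos_side hK (by positivity) hh him
            intro t ht
            rw [imS, reS]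
            have h6 : w ∉ Cone a h t := fun hcon => hwn (mem_Saw.2 ⟨t, ht, hcon⟩)
            have h7 : a * w.im ≤ |w.re - t| := by
              by_contra hcon
              push Not at hcon
              exact h6 ⟨by linarith, h5, hcon⟩
            nlinarith
        have hB1 : 1 ≤ B (w + σ * I) := by simp only [hB]; linarith
        have hP := (abs_le.1 (hPψ him)).1
        have : 2 * M * 1 ≤ 2 * M * B (w + σ * I) := by gcongr
        linarith
    have hmax := Complex.norm_le_of_forall_mem_frontier_norm_le hbd hdiff.diffContOnCl hfr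
        (subset_closure hz)
    rw [Complex.norm_exp] at hmax
    exact Real.exp_le_exp.1 hmax
  -- let σ → 0
  have hcont : ContinuousAt (fun σ : ℝ => (Fn (z + σ * I)).re) 0 := by
    have hsh : ContinuousAt (fun s : ℝ => z + (s : ℂ) * I) 0 := by fun_prop
    have hz0 : z + ((0 : ℝ) : ℂ) * I = z := by simp
    have hfc : ContinuousAt Fn (z + ((0 : ℝ) : ℂ) * I) := by
      rw [hz0]; exact (hFnd z hzU hzim).continuousAt
    have e1 : ContinuousAt (fun s : ℝ => Fn (z + (s : ℂ) * I)) 0 :=
      ContinuousAt.comp (f := fun s : ℝ => z + (s : ℂ) * I) hfc hsh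
    exact Complex.continuous_re.continuousAt.comp e1
  have hlim2 : Tendsto (fun σ : ℝ => (Fn (z + σ * I)).re) (𝓝[>] 0) (𝓝 (Fn z).re) := by
    have := hcont.tendsto
    simp only [Complex.ofReal_zero, zero_mul, add_zero] at this
    exact this.mono_left nhdsWithin_le_nhds
  apply le_of_tendsto hlim2
  have hE1 : ∀ᶠ y in 𝓝[>] (0 : ℝ), y ∈ Ioo 0 σ₀ := Ioo_mem_nhdsGT hσ₀
  have hE2 : ∀ᶠ y in 𝓝[>] (0 : ℝ), y ∈ Ioo 0 (δ / (2 * (a + d + 2))) :=
    Ioo_mem_nhdsGT (by positivity)
  filter_upwards [hE1, hE2] with s hs1 hs2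
  apply shift s hs1.1 hs1.2
  have := hs2.2
  rw [lt_div_iff₀ (by positivity)] at this
  linarith

end Crest.Agent.R102.LP472
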