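import Crest.Agent.R102.FlatP_196
import Crest.Agent.R102.EdgeC4_300

/-!
Row 102, T1-B, EDGE-FLAT: the leaf `FlatP` (helper196, helper300).
-/

set_option autoImplicit false

open Set Filter Topology Metric Complex

noncomputable section

namespace Crest.Agent.R102.Flat196

open Crest.Agent.R102.Edge255 Crest.Agent.R102.EdgeLim196

/-- **(EDGE-FLAT)** -/
theorem flatP : Edge255.FlatP := by
  refine flatP_of ?_ ?_
  · intro h a g ψ H A0 φ p B W
    exact EdgeC300.world_births W le_rfl (Lo (a + g))
  · intro h a g ψ H A0 φ p B W u hu φl pl Bl h1 h2 h3 h4 h5 h6 h7 h8 h9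
    have : (u : Filter ℕ).NeBot := u.neBot
    exact EdgeC300.caseC_world W hu h4 h5 h6 h1 h2 h3 h7 h8 h9

end Crest.Agent.R102.Flat196
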