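import Crest.Agent.R102.SupA_115
import Crest.Agent.R102.Marc_295

/-!
Row 102, T1-B, EDGE (helper295): good bases with the Marcinkiewicz integral (integral form).

`marcPI` : for a.e. `u`, `GoodU` at `u` gives, for every precision `ρ`, a closed set `U ∋ u` of
bases `u'` with uniform `E2` (over all `s` near `s₀`), such that the Marcinkiewicz integral of `U`
at `u` is finite.
-/

set_option autoImplicit false

open Set Filter Topology Metric MeasureTheory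
open scoped ENNReal

noncomputable section

namespace Crest.Agent.R102.MarcPI295

open Crest.Agent.R102.Sup115 Crest.Agent.R102.Marc295

/-- the Marcinkiewicz integral of a closed set is finite at almost every point of the set -/
theorem ae_MI {C : Set ℝ} (hC : IsClosed C) : ∀ᵐ x : ℝ, x ∈ C → MI C 1 x < ∞ := by
  have h1 : ∀ N : ℕ, ∀ᵐ x : ℝ, x ∈ C ∩ Icc (-(N : ℝ)) N → MI C 1 x < ∞ := by
    intro N
    have hm : MeasurableSet (C ∩ Icc (-(N : ℝ)) N) := hC.measurableSet.inter measurableSet_Icc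
    rw [← ae_restrict_iff' hm]
    refine ae_lt_top (measurable_MI C 1) ?_
    refine ne_top_of_le_ne_top ?_ (total_le hC (Nat.cast_nonneg N))
    exact ENNReal.mul_ne_top (by norm_num) ENNReal.ofReal_ne_top
  filter_upwards [ae_all_iff.2 h1] with x hx hxC
  obtain ⟨N, hN⟩ := exists_nat_ge |x|
  exact hx N ⟨hxC, abs_le.1 hN⟩

/-- the bases with uniform `E2` over the arc `|s - s₁| < δ` -/
def Ux (X L : Set (ℂ × ℂ)) (a g ρ δ s₁ : ℝ) : Set ℝ :=
  {u | ∀ s : ℝ, |s - s₁| < δ → E2 X L a g ρ δ (s, u)}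

theorem closed_Ux {X L : Set (ℂ × ℂ)} (hX : IsOpen X) (a g ρ δ s₁ : ℝ) :
    IsClosed (Ux X L a g ρ δ s₁) := by
  have h1 : Ux X L a g ρ δ s₁ = ⋂ s : ℝ, ⋂ _ : |s - s₁| < δ,
      (fun u : ℝ => ((s, u) : ℝ × ℝ)) ⁻¹' {e | E2 X L a g ρ δ e} := by
    ext u
    simp [Ux]
  rw [h1]
  exact isClosed_iInter fun s => isClosed_iInter fun _ =>
    (closed_E2 hX a g ρ δ).preimage (by fun_prop)

/-- good bases at `u`, integral form -/
def GoodPI (X L : Set (ℂ × ℂ)) (u s₀ a g : ℝ) : Prop :=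
  0 ≤ a ∧ 0 < g ∧ ∀ ρ > 0, ∃ δ > 0, ∃ U : Set ℝ, IsClosed U ∧ u ∈ U ∧
    (∫⁻ t in Ioo (-1 : ℝ) 1, ENNReal.ofReal (infDist (u + t) U / t ^ 2)) < ∞ ∧
    ∀ u' ∈ U, ∀ s : ℝ, |s - s₀| < δ → E2 X L a g ρ δ (s, u')

/-- **(EDGE-MARC), integral form** -/
theorem marcPI (X L : Set (ℂ × ℂ)) (hX : IsOpen X) : ∀ᵐ u : ℝ, ∀ s₀ a₀ g₀ : ℝ,
    GoodU X L u s₀ a₀ g₀ → ∀ g : ℝ, 0 < g → g < g₀ → GoodPI X L u s₀ a₀ g := by
  -- the countable family
  set Q : ℕ × ℕ × ℕ × ℕ × ℕ → Set ℝ := fun P =>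
    Ux X L (TopologicalSpace.denseSeq ℝ P.2.1) (TopologicalSpace.denseSeq ℝ P.2.2.1)
      (1 / ((P.2.2.2.1 : ℝ) + 1)) (1 / ((P.1 : ℝ) + 1))
      (TopologicalSpace.denseSeq ℝ P.2.2.2.2) with hQ
  have hall : ∀ᵐ u : ℝ, ∀ P, u ∈ Q P → MI (Q P) 1 u < ∞ :=
    ae_all_iff.2 fun P => ae_MI (closed_Ux hX _ _ _ _ _)
  filter_upwards [hall] with u hu s₀ a₀ g₀ hgood g hg hgg
  obtain ⟨ha, -, hE⟩ := hgood
  refine ⟨ha, hg, fun ρ hρ => ?_⟩
  -- precision
  obtain ⟨m, hm⟩ := exists_nat_one_div_lt (show 0 < ρ / 4 by positivity)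
  have hm0 : 0 < 1 / ((m : ℝ) + 1) := by positivity
  obtain ⟨δ, hδ, hE⟩ := hE (1 / ((m : ℝ) + 1) / 4) (by positivity)
  obtain ⟨k, hk⟩ := exists_nat_one_div_lt (show 0 < δ / 2 by positivity)
  have hk0 : 0 < 1 / ((k : ℝ) + 1) := by positivity
  have hgd : 0 < g₀ - g := by linarith
  obtain ⟨i, hi⟩ := (TopologicalSpace.denseRange_denseSeq ℝ).exists_dist_lt s₀
    (show 0 < 1 / ((k : ℝ) + 1) / 2 by positivity)
  obtain ⟨j, hj⟩ := (TopologicalSpace.denseRange_denseSeq ℝ).exists_dist_lt a₀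
    (show 0 < min (1 / ((m : ℝ) + 1) / 4) ((g₀ - g) / 8) from lt_min (by positivity)
      (by positivity))
  obtain ⟨l, hl⟩ := (TopologicalSpace.denseRange_denseSeq ℝ).exists_dist_lt ((g + g₀) / 2)
    (show 0 < (g₀ - g) / 8 by positivity)
  rw [Real.dist_eq] at hi hj hl
  set s₁ := TopologicalSpace.denseSeq ℝ i with hs₁
  set a₁ := TopologicalSpace.denseSeq ℝ j with ha₁
  set g₁ := TopologicalSpace.denseSeq ℝ l with hg₁
  have hj1 : |a₀ - a₁| < 1 / ((m : ℝ) + 1) / 4 := hj.trans_le (min_le_left _ _)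
  have hj2 : |a₀ - a₁| < (g₀ - g) / 8 := hj.trans_le (min_le_right _ _)
  have b1 := abs_lt.1 hj2
  have b2 := abs_lt.1 hl
  have hmem : u ∈ Q (k, j, l, m, i) := by
    intro s hs
    have h1 : |s - s₀| < δ := by
      have h2 := abs_sub_le s s₁ s₀
      have h3 : |s₁ - s₀| < 1 / ((k : ℝ) + 1) / 2 := by rwa [abs_sub_comm]
      have hs' : |s - s₁| < 1 / ((k : ℝ) + 1) := hs
      linarith
    refine (hE s h1).transfer ?_ (by positivity) (by linarith) (by linarith) ?_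
    · change 1 / ((k : ℝ) + 1) ≤ δ
      linarith
    · change a₁ + g₁ ≤ a₀ + g₀
      linarith [b1.1, b2.1, b1.2, b2.2]
  refine ⟨1 / ((k : ℝ) + 1) / 2, by positivity, Q (k, j, l, m, i), closed_Ux hX _ _ _ _ _, hmem,
    hu _ hmem, ?_⟩
  intro u' hu' s hs
  have h1 : |s - s₁| < 1 / ((k : ℝ) + 1) := by
    have h2 := abs_sub_le s s₀ s₁
    linarith
  have h2 : E2 X L a₁ g₁ (1 / ((m : ℝ) + 1)) (1 / ((k : ℝ) + 1)) (s, u') := hu' s h1
  refine h2.transfer (by linarith) hm0 (by linarith) ?_ ?_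
  · rw [abs_sub_comm]
    linarith
  · linarith [b1.1, b2.1, b1.2, b2.2]

end Crest.Agent.R102.MarcPI295
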