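import Crest.Agent.R102.EdgeDefs_255
import Crest.Agent.R102.MarcPI_295

/-!
Row 102, T1-B, **EDGE-MARC** (helper295): the literal Prop `Edge255.MarcP`, from `marcPI`.
-/

set_option autoImplicit false

open Set Filter Topology Metric MeasureTheory
open scoped ENNReal

noncomputable section

namespace Crest.Agent.R102.MarcP295

/-- **(EDGE-MARC)** -/
theorem marcP : Edge255.MarcP := by
  intro X L hX
  filter_upwards [MarcPI295.marcPI X L hX] with u hu s₀ a₀ g₀ hG g hg hgg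
  obtain ⟨h0, hg0, hD⟩ := hu s₀ a₀ g₀ hG g hg hgg
  refine ⟨h0, hg0, fun ρ hρ => ?_⟩
  obtain ⟨δ, hδ, U, hU, huU, hI, hE⟩ := hD ρ hρ
  exact ⟨δ, hδ, U, huU, ⟨hU, hI⟩, hE⟩

end Crest.Agent.R102.MarcP295
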