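import Crest.Agent.R102.EdgeRig_255
import Crest.Agent.R102.NrmAll_812

/-!
Row 102, T1-B, block EDGE (helper812): `NrmAllP` from `NormP`.
-/

set_option autoImplicit false

namespace Crest.Agent.R102.NrmAllP812

open Crest.Agent.R102.Edge255

theorem nrmAllP (hN : NormP) : NrmAllP :=
  fun _ _ _ _ _ _ _ _ _ _ _ _ D _ _ _ _ _ _ _ _ hu hu0 ha hg hκ hC hs =>
    NrmAll812.nrmAll_of hN D hu hu0 ha hg hκ hC hs

end Crest.Agent.R102.NrmAllP812
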