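import Mathlib
import Crest.Agent.R102.SupDefs_115
import Crest.Agent.R102.Blow_362

/-!
Row 102, T1-B, III.2, LEAF 1: `prodBlow : ProdBlow` (helper115).

Tilt by `tl ε t = ε / (1 + exp t)` (bounded by `ε`, real and strictly decreasing on `ℝ`, `Im > 0` on
`-1 < Im t < 0`), so that real slices `v` of `F (t, v) = B (t, v + tl ε t)` make sense; then 362's
`blow_im` with `U = 0`.
-/

set_option autoImplicit false

open Set Filter Topology Metric Complex MeasureTheory

noncomputable section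

namespace Crest.Agent.R102.Sup115

open Crest.Agent.R102.End613 Crest.Agent.R102.S5

/-- the tilt -/
def tl (ε : ℝ) (t : ℂ) : ℂ := (ε : ℂ) * (1 + cexp t)⁻¹

/-- the tilt on the real axis -/
def tlr (ε : ℝ) (s : ℝ) : ℝ := ε * (1 + Real.exp s)⁻¹

theorem tl_real (ε s : ℝ) : tl ε (s : ℂ) = (tlr ε s : ℂ) := by
  unfold tl tlr
  push_cast
  rfl

theorem tlr_pos {ε : ℝ} (hε : 0 < ε) (s : ℝ) : 0 < tlr ε s := by
  unfold tlr
  have := Real.exp_pos s
  positivity

theorem tlr_le {ε : ℝ} (hε : 0 < ε) (s : ℝ) : tlr ε s ≤ ε := by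
  unfold tlr
  have h1 := Real.exp_pos s
  have h2 : (1 + Real.exp s)⁻¹ ≤ 1 := inv_le_one_of_one_le₀ (by linarith)
  nlinarith

theorem one_le_re {t : ℂ} (h0 : -1 < t.im) (h1 : t.im < 0) : 1 ≤ (1 + cexp t).re := by
  have hc : 0 < Real.cos t.im :=
    Real.cos_pos_of_mem_Ioo ⟨by linarith [Real.pi_gt_three], by linarith [Real.pi_gt_three]⟩
  rw [add_re, one_re, exp_re]
  have := mul_pos (Real.exp_pos t.re) hc
  linarith

theorem one_im_neg {t : ℂ} (h0 : -1 < t.im) (h1 : t.im < 0) : (1 + cexp t).im < 0 := by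
  have hs : Real.sin t.im < 0 :=
    Real.sin_neg_of_neg_of_neg_pi_lt h1 (by linarith [Real.pi_gt_three])
  rw [add_im, one_im, exp_im, zero_add]
  exact mul_neg_of_pos_of_neg (Real.exp_pos t.re) hs

theorem one_ne {t : ℂ} (h0 : -1 < t.im) (h1 : t.im < 0) : 1 + cexp t ≠ 0 := by
  intro h
  have := one_le_re h0 h1
  rw [h, zero_re] at this
  linarith

theorem tl_im {ε : ℝ} (hε : 0 < ε) {t : ℂ} (h0 : -1 < t.im) (h1 : t.im < 0) :
    0 < (tl ε t).im := by
  unfold tl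
  rw [im_ofReal_mul, inv_im]
  refine mul_pos hε (div_pos (by linarith [one_im_neg h0 h1]) ?_)
  exact normSq_pos.2 (one_ne h0 h1)

theorem tl_norm {ε : ℝ} (hε : 0 < ε) {t : ℂ} (h0 : -1 < t.im) (h1 : t.im < 0) :
    ‖tl ε t‖ ≤ ε := by
  unfold tl
  rw [norm_mul, norm_inv, norm_real, Real.norm_eq_abs, abs_of_pos hε]
  have h2 : 1 ≤ ‖1 + cexp t‖ := (one_le_re h0 h1).trans (re_le_norm _)
  have h3 : ‖1 + cexp t‖⁻¹ ≤ 1 := inv_le_one_of_one_le₀ h2
  nlinarith

theorem tl_diffAt (ε : ℝ) {t : ℂ} (h : 1 + cexp t ≠ 0) : DifferentiableAt ℂ (tl ε) t := by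
  unfold tl
  exact (((differentiableAt_const _).add differentiableAt_id.cexp).inv h).const_mul _

/-- expansion at a real point -/
theorem tl_expand {ε : ℝ} (hε : 0 < ε) (s : ℝ) : ∃ κ : ℝ, 0 < κ ∧ ∀ c > 0, ∃ δ > 0, ∀ x : ℂ,
    ‖x‖ < δ → ‖tl ε (s + x) - tlr ε s + κ * x‖ ≤ c * ‖x‖ := by
  have hpos : 0 < 1 + Real.exp s := by positivity
  have hne : 1 + cexp (s : ℂ) ≠ 0 := by
    have : (1 : ℂ) + cexp (s : ℂ) = ((1 + Real.exp s : ℝ) : ℂ) := by push_cast; rfl
    rw [this]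
    exact_mod_cast hpos.ne'
  have h1 : HasDerivAt (tl ε) (-((ε * Real.exp s / (1 + Real.exp s) ^ 2 : ℝ) : ℂ)) (s : ℂ) := by
    have h2 : HasDerivAt (fun t : ℂ => 1 + cexp t) (cexp s) (s : ℂ) :=
      (Complex.hasDerivAt_exp _).const_add 1
    have h3 := (h2.inv hne).const_mul (ε : ℂ)
    refine h3.congr_deriv ?_
    push_cast
    ring
  refine ⟨ε * Real.exp s / (1 + Real.exp s) ^ 2, by positivity, fun c hc => ?_⟩
  rw [hasDerivAt_iff_isLittleO_nhds_zero] at h1
  obtain ⟨δ, hδ, h4⟩ := Metric.eventually_nhds_iff.1 (h1.def hc)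
  refine ⟨δ, hδ, fun x hx => ?_⟩
  have h5 := h4 (y := x) (by rwa [dist_zero_right])
  rw [tl_real] at h5
  refine le_trans (le_of_eq ?_) h5
  congr 1
  simp only [smul_eq_mul]
  ring

/-- the shear preserves null sets -/
theorem ae_shear (ε : ℝ) {P : ℝ × ℝ → Prop} (h : ∀ᵐ p : ℝ × ℝ, P p) :
    ∀ᵐ e : ℝ × ℝ, P (e.1, e.2 - tlr ε e.1) := by
  have hc : Continuous (tlr ε) := by
    unfold tlr
    have : ∀ x : ℝ, 1 + Real.exp x ≠ 0 := fun x => by positivity
    exact continuous_const.mul ((continuous_const.add Real.continuous_exp).inv₀ this)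
  have h1 : MeasurePreserving (fun p : ℝ × ℝ => (id p.1, p.2 - tlr ε p.1))
      ((volume : Measure ℝ).prod volume) ((volume : Measure ℝ).prod volume) := by
    refine MeasurePreserving.skew_product (g := fun a x => x - tlr ε a)
      (MeasurePreserving.id (volume : Measure ℝ)) ?_ (Eventually.of_forall fun a => ?_)
    · exact (continuous_snd.sub (hc.comp continuous_fst)).measurable
    · exact (measurePreserving_sub_right (volume : Measure ℝ) (tlr ε a)).map_eq
  rw [← Measure.volume_eq_prod] at h1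
  exact h1.quasiMeasurePreserving.ae h

set_option maxHeartbeats 1000000 in
theorem pb_eps {u0 R d h : ℝ} {B : ℂ × ℂ → ℂ} (hd : 0 < d) (hB : DifferentiableOn ℂ B (Dp u0 R d))
    (hM : ∀ q ∈ Dp u0 R d, |(B q).im| ≤ h) {ε : ℝ} (hε : 0 < ε) :
    ∀ᵐ p : ℝ × ℝ, p.2 ∈ Ioo (u0 - R + ε) (u0 + R - ε) → ∃ b : ℂ, ∀ M : ℝ,
      Tendsto B (𝓝[Cn (p.1, p.2 + tlr ε p.1) M] ((p.1 : ℂ), ((p.2 + tlr ε p.1 : ℝ) : ℂ)))
        (𝓝 b) := by
  have hDpo : IsOpen (Dp u0 R d) := by
    have h1 : IsOpen {q : ℂ × ℂ | q.1.im < 0} :=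
      isOpen_lt (continuous_im.comp continuous_fst) continuous_const
    have h2 : IsOpen {q : ℂ × ℂ | q.2 ∈ ball (u0 : ℂ) R} := isOpen_ball.preimage continuous_snd
    have h3 : IsOpen {q : ℂ × ℂ | 0 < q.2.im} :=
      isOpen_lt continuous_const (continuous_im.comp continuous_snd)
    have h4 : IsOpen {q : ℂ × ℂ | -d < q.1.im} :=
      isOpen_lt continuous_const (continuous_im.comp continuous_fst)
    have : Dp u0 R d = {q : ℂ × ℂ | -d < q.1.im} ∩ ({q : ℂ × ℂ | q.1.im < 0} ∩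
        ({q : ℂ × ℂ | q.2 ∈ ball (u0 : ℂ) R} ∩ {q : ℂ × ℂ | 0 < q.2.im})) := by
      ext q
      simp [Dp, HDu]
    rw [this]
    exact h4.inter (h1.inter (h2.inter h3))
  set St : Set (ℂ × ℂ) := {q | -1 < q.1.im ∧ q.1.im < 0} with hSt
  have hSto : IsOpen St :=
    (isOpen_lt continuous_const (continuous_im.comp continuous_fst)).inter
      (isOpen_lt (continuous_im.comp continuous_fst) continuous_const)
  have htd : ∀ q ∈ St, DifferentiableAt ℂ (fun q : ℂ × ℂ => (q.1, q.2 + tl ε q.1)) q := by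
    intro q hq
    have h1 : DifferentiableAt ℂ (fun q : ℂ × ℂ => tl ε q.1) q :=
      DifferentiableAt.comp (g := tl ε) (f := Prod.fst) q (tl_diffAt ε (one_ne hq.1 hq.2))
        differentiableAt_fst
    exact differentiableAt_fst.prodMk (differentiableAt_snd.add h1)
  have htc : ContinuousOn (fun q : ℂ × ℂ => (q.1, q.2 + tl ε q.1)) St :=
    fun q hq => (htd q hq).continuousAt.continuousWithinAt
  set D : Set (ℂ × ℂ) := St ∩ (fun q : ℂ × ℂ => (q.1, q.2 + tl ε q.1)) ⁻¹' (Dp u0 R d) with hD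
  have hDo : IsOpen D := htc.isOpen_inter_preimage hSto hDpo
  set F : ℂ × ℂ → ℂ := fun q => B (q.1, q.2 + tl ε q.1) with hF
  have hFd : DifferentiableOn ℂ F D := by
    intro q hq
    have h1 : DifferentiableAt ℂ B (q.1, q.2 + tl ε q.1) :=
      (hB _ hq.2).differentiableAt (hDpo.mem_nhds hq.2)
    exact (DifferentiableAt.comp (g := B) q h1 (htd q hq.1)).differentiableWithinAt
  have hFM : ∀ q ∈ D, |(F q).im| ≤ h := fun q hq => hM _ hq.2
  have hsl : ∀ u ∈ Ioo (u0 - R + ε) (u0 + R - ε), ∀ t : ℂ, (0 : ℝ) - min 1 d < t.im →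
      t.im < 0 → (t, (u : ℂ)) ∈ D := by
    intro u hu t ht0 ht1
    have h0 : -1 < t.im := by linarith [min_le_left 1 d]
    refine ⟨⟨h0, ht1⟩, by
      show -d < t.im
      linarith [min_le_right 1 d], ht1, ?_, ?_⟩
    · rw [mem_ball, dist_eq_norm]
      have h2 : (u : ℂ) + tl ε t - u0 = ((u - u0 : ℝ) : ℂ) + tl ε t := by push_cast; ring
      calc ‖(u : ℂ) + tl ε t - u0‖ ≤ ‖((u - u0 : ℝ) : ℂ)‖ + ‖tl ε t‖ := by
            rw [h2]; exact norm_add_le _ _
        _ ≤ |u - u0| + ε := by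
            rw [norm_real, Real.norm_eq_abs]
            linarith [tl_norm hε h0 ht1]
        _ < R := by
            have : |u - u0| < R - ε := abs_lt.2 ⟨by linarith [hu.1], by linarith [hu.2]⟩
            linarith
    · show 0 < ((u : ℂ) + tl ε t).im
      rw [add_im, ofReal_im, zero_add]
      exact tl_im hε h0 ht1
  have key := Blow362.blow_im hDo hFd hFM measurableSet_Ioo (U := fun _ => (0 : ℝ))
    measurable_const (lt_min one_pos hd) hsl
  filter_upwards [key] with p hp hpS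
  obtain ⟨b, -, -, hmain⟩ := hp hpS
  refine ⟨b, fun M => ?_⟩
  obtain ⟨κ, hκ, hexp⟩ := tl_expand hε p.1
  -- the limit domain
  set Ω : Set (ℂ × ℂ) := {q | q.1.im < 0 ∧ κ * q.1.im < q.2.im} with hΩ
  have hΩo : IsOpen Ω :=
    (isOpen_lt (continuous_im.comp continuous_fst) continuous_const).inter
      (isOpen_lt (continuous_const.mul (continuous_im.comp continuous_fst))
        (continuous_im.comp continuous_snd))
  have hΩc : Convex ℝ Ω := by
    intro x hx y hy α β hα hβ hαβ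
    have e1 : (α • x + β • y).1.im = α * x.1.im + β * y.1.im := by simp
    have e2 : (α • x + β • y).2.im = α * x.2.im + β * y.2.im := by simp
    obtain ⟨x1, x2⟩ := hx
    obtain ⟨y1, y2⟩ := hy
    show _ < _ ∧ _ < _
    rw [e1, e2]
    rcases hα.eq_or_lt with h0 | h0
    · have : β = 1 := by linarith
      subst this
      rw [← h0]
      constructor <;> linarith
    · constructor
      · nlinarith [mul_pos h0 (neg_pos.2 x1), mul_nonneg hβ (neg_nonneg.2 y1.le)]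
      · nlinarith [mul_pos h0 (sub_pos.2 x2), mul_nonneg hβ (sub_nonneg.2 y2.le)]
  have hC : ∃ C : ℝ, ∀ᶠ r : ℝ in 𝓝[>] 0,
      (∀ u ∈ Ioo (u0 - R + ε) (u0 + R - ε), |u - p.2| ≤ r → (0 : ℝ) - C * r ≤ 0) ∧
      ENNReal.ofReal (3 / 2 * r) ≤
        volume {u ∈ Ioo (u0 - R + ε) (u0 + R - ε) | |u - p.2| ≤ r ∧ (0 : ℝ) ≤ 0 + C * r} := by
    refine ⟨0, ?_⟩
    have h1 : ∀ᶠ r : ℝ in 𝓝[>] 0, r < min (p.2 - (u0 - R + ε)) (u0 + R - ε - p.2) :=
      nhdsWithin_le_nhds (Iio_mem_nhds (lt_min (by linarith [hpS.1]) (by linarith [hpS.2])))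
    filter_upwards [h1, self_mem_nhdsWithin] with r hr hr0
    have hr0' : (0 : ℝ) < r := hr0
    refine ⟨fun u _ _ => by simp, ?_⟩
    have h2 : Icc (p.2 - r) (p.2 + r) ⊆ {u ∈ Ioo (u0 - R + ε) (u0 + R - ε) | |u - p.2| ≤ r ∧
        (0 : ℝ) ≤ 0 + 0 * r} := by
      intro u hu
      have h3 := hr.trans_le (min_le_left _ _)
      have h4 := hr.trans_le (min_le_right _ _)
      exact ⟨⟨by linarith [hu.1], by linarith [hu.2]⟩,
        abs_le.2 ⟨by linarith [hu.1], by linarith [hu.2]⟩, by simp⟩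
    refine le_trans ?_ (measure_mono h2)
    rw [Real.volume_Icc]
    exact ENNReal.ofReal_le_ofReal (by linarith)
  have hexh : ∀ K ⊆ Ω, IsCompact K → ∀ᶠ η : ℝ in 𝓝[>] 0, ∀ q ∈ K,
      ((p.1 : ℂ) + ((0 : ℝ) : ℂ) * I + η * q.1, (p.2 : ℂ) + η * q.2) ∈ D := by
    intro K hK hKc
    rcases K.eq_empty_or_nonempty with hKe | hKne
    · rw [hKe]; exact Eventually.of_forall fun η q hq => absurd hq (notMem_empty _)
    obtain ⟨A, hA⟩ := hKc.isBounded.subset_closedBall (0 : ℂ × ℂ)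
    have hA0 : 0 ≤ A := by
      obtain ⟨q, hq⟩ := hKne
      have := hA hq
      rw [mem_closedBall, dist_zero_right] at this
      exact (norm_nonneg _).trans this
    -- margin
    obtain ⟨m, hm, hmK⟩ : ∃ m > 0, ∀ q ∈ K, κ * q.1.im + m ≤ q.2.im := by
      obtain ⟨q1, hq1, hmin⟩ := hKc.exists_isMinOn hKne
        (f := fun q : ℂ × ℂ => q.2.im - κ * q.1.im) (by fun_prop)
      refine ⟨q1.2.im - κ * q1.1.im, by have := (hK hq1).2; linarith, fun q hq => ?_⟩
      have : q1.2.im - κ * q1.1.im ≤ q.2.im - κ * q.1.im := hmin hq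
      linarith
    have hcpos : 0 < m / (2 * (A + 1)) := by positivity
    obtain ⟨δ, hδ, hexp'⟩ := hexp _ hcpos
    have hgap : 0 < R - ε - |p.2 - u0| := by
      have : |p.2 - u0| < R - ε := abs_lt.2 ⟨by linarith [hpS.1], by linarith [hpS.2]⟩
      linarith
    have f1 : ∀ᶠ η : ℝ in 𝓝[>] 0, η * (A + 1) < δ := by
      have : Tendsto (fun η : ℝ => η * (A + 1)) (𝓝[>] 0) (𝓝 (0 * (A + 1))) :=
        (tendsto_id.mul_const _).mono_left nhdsWithin_le_nhds
      rw [zero_mul] at this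
      exact this.eventually (gt_mem_nhds hδ)
    have f2 : ∀ᶠ η : ℝ in 𝓝[>] 0, η * (A + 1) < min 1 d := by
      have : Tendsto (fun η : ℝ => η * (A + 1)) (𝓝[>] 0) (𝓝 (0 * (A + 1))) :=
        (tendsto_id.mul_const _).mono_left nhdsWithin_le_nhds
      rw [zero_mul] at this
      exact this.eventually (gt_mem_nhds (lt_min one_pos hd))
    have f3 : ∀ᶠ η : ℝ in 𝓝[>] 0, η * (A + 1) < R - ε - |p.2 - u0| := by
      have : Tendsto (fun η : ℝ => η * (A + 1)) (𝓝[>] 0) (𝓝 (0 * (A + 1))) :=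
        (tendsto_id.mul_const _).mono_left nhdsWithin_le_nhds
      rw [zero_mul] at this
      exact this.eventually (gt_mem_nhds hgap)
    filter_upwards [f1, f2, f3, self_mem_nhdsWithin] with η g1 g2 g3 hη0 q hq
    have hη : (0 : ℝ) < η := hη0
    have hqA := hA hq
    rw [mem_closedBall, dist_zero_right] at hqA
    have hq1 : ‖q.1‖ ≤ A := (norm_fst_le q).trans hqA
    have hq2 : ‖q.2‖ ≤ A := (norm_snd_le q).trans hqA
    have e0 : (p.1 : ℂ) + ((0 : ℝ) : ℂ) * I + η * q.1 = (p.1 : ℂ) + η * q.1 := by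
      push_cast; ring
    rw [e0]
    have him1 : ((p.1 : ℂ) + η * q.1).im = η * q.1.im := by simp
    have hneg : ((p.1 : ℂ) + η * q.1).im < 0 := by
      rw [him1]; exact mul_neg_of_pos_of_neg hη (hK hq).1
    have hgt' : -(min 1 d) < ((p.1 : ℂ) + η * q.1).im := by
      rw [him1]
      have h1 : |q.1.im| ≤ A := (abs_im_le_norm _).trans hq1
      have h2 := (abs_le.1 h1).1
      nlinarith
    have hgt : -1 < ((p.1 : ℂ) + η * q.1).im := by linarith [min_le_left 1 d]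
    refine ⟨⟨hgt, hneg⟩, by
      show -d < ((p.1 : ℂ) + η * q.1).im
      linarith [min_le_right 1 d], hneg, ?_, ?_⟩
    · rw [mem_ball, dist_eq_norm]
      show ‖(p.2 : ℂ) + η * q.2 + tl ε (p.1 + η * q.1) - u0‖ < R
      have h2 : (p.2 : ℂ) + η * q.2 + tl ε (p.1 + η * q.1) - u0 =
          ((p.2 - u0 : ℝ) : ℂ) + η * q.2 + tl ε (p.1 + η * q.1) := by push_cast; ring
      rw [h2]
      calc ‖((p.2 - u0 : ℝ) : ℂ) + η * q.2 + tl ε (p.1 + η * q.1)‖
          ≤ ‖((p.2 - u0 : ℝ) : ℂ)‖ + ‖(η : ℂ) * q.2‖ + ‖tl ε (p.1 + η * q.1)‖ :=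
            norm_add₃_le
        _ ≤ |p.2 - u0| + η * A + ε := by
            rw [norm_real, Real.norm_eq_abs, norm_mul, norm_real, Real.norm_eq_abs,
              abs_of_pos hη]
            have := tl_norm hε hgt hneg
            have := mul_le_mul_of_nonneg_left hq2 hη.le
            linarith
        _ < R := by nlinarith
    · show 0 < ((p.2 : ℂ) + η * q.2 + tl ε (p.1 + η * q.1)).im
      have h1 := hexp' ((η : ℂ) * q.1) (by
        rw [norm_mul, norm_real, Real.norm_eq_abs, abs_of_pos hη]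
        nlinarith)
      rw [norm_mul, norm_real, Real.norm_eq_abs, abs_of_pos hη] at h1
      have h2 := (abs_im_le_norm _).trans h1
      have h3 : (tl ε (↑p.1 + ↑η * q.1) - ↑(tlr ε p.1) + ↑κ * (↑η * q.1)).im =
          (tl ε (↑p.1 + ↑η * q.1)).im + κ * (η * q.1.im) := by simp
      rw [h3] at h2
      have h4 := (abs_le.1 h2).1
      have h5 : m / (2 * (A + 1)) * (η * ‖q.1‖) ≤ η * m / 2 := by
        have : ‖q.1‖ ≤ A + 1 := by linarith
        calc m / (2 * (A + 1)) * (η * ‖q.1‖) ≤ m / (2 * (A + 1)) * (η * (A + 1)) := by gcongr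
          _ = η * m / 2 := by field_simp
      have h6 := mul_le_mul_of_nonneg_left (hmK q hq) hη.le
      have h7 : ((p.2 : ℂ) + η * q.2 + tl ε (p.1 + η * q.1)).im =
          η * q.2.im + (tl ε (↑p.1 + ↑η * q.1)).im := by simp
      rw [h7]
      have h8 : 0 < η * m := mul_pos hη hm
      nlinarith
  have hlim := hmain hC Ω hΩo hΩc.isPreconnected ⟨-I, by simp, by simp [hΩ, hκ]⟩ hexh
  -- the cone
  rcases le_or_gt M 0 with hM0 | hM0
  · have : Cn (p.1, p.2 + tlr ε p.1) M = ∅ := by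
      ext q
      simp only [mem_empty_iff_false, iff_false]
      rintro ⟨h1, h2, h3⟩
      have h4 : M * (-q.1.im) ≤ 0 := mul_nonpos_of_nonpos_of_nonneg hM0 (by linarith)
      have h5 : 0 ≤ |q.1.re - (p.1, p.2 + tlr ε p.1).1| := abs_nonneg _
      have h6 : ‖q.2 - ((p.1, p.2 + tlr ε p.1).2 : ℂ)‖ = 0 :=
        le_antisymm (by linarith) (norm_nonneg _)
      have h7 : q.2.im = 0 := by
        rw [sub_eq_zero.1 (norm_eq_zero.1 h6), ofReal_im]
      rw [h7, mul_zero] at h2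
      linarith
    rw [this, nhdsWithin_empty]
    exact tendsto_bot
  -- compact set
  set K : Set (ℂ × ℂ) := {q | q.1.im = -1 ∧ ‖q.1‖ ≤ M + 1 ∧ ‖q.2‖ ≤ M + (κ + 1) * (M + 1) ∧
    -κ + 1 / (2 * M) ≤ q.2.im} with hKdef
  have hKcl : IsClosed K := by
    exact (isClosed_eq (continuous_im.comp continuous_fst) continuous_const).inter
      ((isClosed_le (continuous_norm.comp continuous_fst) continuous_const).inter
        ((isClosed_le (continuous_norm.comp continuous_snd) continuous_const).inter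
          (isClosed_le continuous_const (continuous_im.comp continuous_snd))))
  have hKb : K ⊆ closedBall (0 : ℂ) (M + 1) ×ˢ closedBall (0 : ℂ) (M + (κ + 1) * (M + 1)) := by
    rintro q ⟨-, h1, h2, -⟩
    exact ⟨by rwa [mem_closedBall, dist_zero_right], by rwa [mem_closedBall, dist_zero_right]⟩
  have hKc : IsCompact K :=
    ((isCompact_closedBall _ _).prod (isCompact_closedBall _ _)).of_isClosed_subset hKcl hKb
  have hKΩ : K ⊆ Ω := by
    rintro q ⟨h1, -, -, h2⟩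
    have : 0 < 1 / (2 * M) := by positivity
    refine ⟨by linarith, ?_⟩
    rw [h1]
    linarith
  have hun := (tendstoLocallyUniformlyOn_iff_forall_isCompact hΩo).1 hlim K hKΩ hKc
  rw [Metric.tendsto_nhds]
  intro ε' hε'
  have hun' := Metric.tendstoUniformlyOn_iff.1 hun ε' hε'
  -- `η (q) = - Im q.1`
  have hη : Tendsto (fun q : ℂ × ℂ => -q.1.im)
      (𝓝[Cn (p.1, p.2 + tlr ε p.1) M] ((p.1 : ℂ), ((p.2 + tlr ε p.1 : ℝ) : ℂ))) (𝓝[>] 0) := by
    refine tendsto_nhdsWithin_iff.2 ⟨?_, ?_⟩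
    · have : Tendsto (fun q : ℂ × ℂ => -q.1.im) (𝓝 ((p.1 : ℂ), ((p.2 + tlr ε p.1 : ℝ) : ℂ)))
          (𝓝 (-(((p.1 : ℂ), ((p.2 + tlr ε p.1 : ℝ) : ℂ)) : ℂ × ℂ).1.im)) :=
        (by fun_prop : Continuous fun q : ℂ × ℂ => -q.1.im).tendsto _
      simp only [ofReal_im, neg_zero] at this
      exact this.mono_left nhdsWithin_le_nhds
    · filter_upwards [self_mem_nhdsWithin] with q hq
      show (0 : ℝ) < -q.1.im
      linarith [hq.1]
  have hcpos : 0 < min 1 (1 / (2 * M)) / (M + 1) := by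
    have : 0 < min 1 (1 / (2 * M)) := lt_min one_pos (by positivity)
    positivity
  obtain ⟨δ, hδ, hexp'⟩ := hexp _ hcpos
  have hsm : ∀ᶠ q : ℂ × ℂ in 𝓝[Cn (p.1, p.2 + tlr ε p.1) M]
      ((p.1 : ℂ), ((p.2 + tlr ε p.1 : ℝ) : ℂ)), (M + 1) * (-q.1.im) < δ := by
    have h1 : Tendsto (fun q : ℂ × ℂ => (M + 1) * (-q.1.im))
      (𝓝[Cn (p.1, p.2 + tlr ε p.1) M] ((p.1 : ℂ), ((p.2 + tlr ε p.1 : ℝ) : ℂ)))
      (𝓝 ((M + 1) * 0)) := (hη.mono_right nhdsWithin_le_nhds).const_mul _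
    rw [mul_zero] at h1
    exact h1.eventually (gt_mem_nhds hδ)
  filter_upwards [hη.eventually hun', hsm, self_mem_nhdsWithin] with q h1 h2 hq
  obtain ⟨hq1, hq2, hq3⟩ := hq
  set η : ℝ := -q.1.im with hηdef
  have hη0 : 0 < η := by rw [hηdef]; linarith
  have hηc : (η : ℂ) ≠ 0 := by exact_mod_cast hη0.ne'
  simp only at hq3
  have ha : |q.1.re - p.1| ≤ M * η := by
    have := norm_nonneg (q.2 - ((p.2 + tlr ε p.1 : ℝ) : ℂ))
    linarith
  have hb : ‖q.2 - ((p.2 + tlr ε p.1 : ℝ) : ℂ)‖ ≤ M * η := by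
    have := abs_nonneg (q.1.re - p.1)
    linarith
  set x : ℂ := q.1 - p.1 with hx
  have hxn : ‖x‖ ≤ (M + 1) * η := by
    have h3 : x.re = q.1.re - p.1 := by simp [hx]
    have h4 : x.im = -η := by simp [hx, hηdef]
    have h5 := norm_le_abs_re_add_abs_im x
    rw [h3, h4, abs_neg, abs_of_pos hη0] at h5
    linarith
  have hex := hexp' x (by linarith)
  have hpx : (p.1 : ℂ) + x = q.1 := by rw [hx]; ring
  rw [hpx] at hex
  have hex2 : ‖tl ε q.1 - ↑(tlr ε p.1) + ↑κ * x‖ ≤ min 1 (1 / (2 * M)) * η := by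
    refine hex.trans ?_
    calc min 1 (1 / (2 * M)) / (M + 1) * ‖x‖
        ≤ min 1 (1 / (2 * M)) / (M + 1) * ((M + 1) * η) := by gcongr
      _ = min 1 (1 / (2 * M)) * η := by field_simp
  -- the blown-up point
  set T : ℂ := x / η with hT
  set ζ : ℂ := (q.2 - tl ε q.1 - p.2) / η with hζ
  have hTη : (η : ℂ) * T = x := by rw [hT]; field_simp
  have hζη : (η : ℂ) * ζ = q.2 - tl ε q.1 - p.2 := by rw [hζ]; field_simp
  have hζ' : q.2 - tl ε q.1 - p.2 = (q.2 - ((p.2 + tlr ε p.1 : ℝ) : ℂ)) -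
      (tl ε q.1 - ↑(tlr ε p.1) + ↑κ * x) + κ * x := by push_cast; ring
  have hTK : (T, ζ) ∈ K := by
    refine ⟨?_, ?_, ?_, ?_⟩
    · have : (η * T.im : ℝ) = x.im := by rw [← hTη]; simp
      have h4 : x.im = -η := by simp [hx, hηdef]
      rw [h4] at this
      have h5 : η * (T.im + 1) = 0 := by linarith
      rcases mul_eq_zero.1 h5 with h6 | h6
      · exact absurd h6 hη0.ne'
      · show T.im = -1
        linarith
    · show ‖T‖ ≤ M + 1
      rw [hT, norm_div, norm_real, Real.norm_eq_abs, abs_of_pos hη0, div_le_iff₀ hη0]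
      exact hxn
    · show ‖ζ‖ ≤ _
      rw [hζ, norm_div, norm_real, Real.norm_eq_abs, abs_of_pos hη0, div_le_iff₀ hη0, hζ']
      have h4 : ‖(κ : ℂ) * x‖ ≤ κ * ((M + 1) * η) := by
        rw [norm_mul, norm_real, Real.norm_eq_abs, abs_of_pos hκ]
        gcongr
      have h5 : min 1 (1 / (2 * M)) * η ≤ 1 * η := by
        have := min_le_left 1 (1 / (2 * M))
        gcongr
      have h6 : ‖(q.2 - ((p.2 + tlr ε p.1 : ℝ) : ℂ)) -
          (tl ε q.1 - ↑(tlr ε p.1) + ↑κ * x) + κ * x‖ ≤ M * η + 1 * η + κ * ((M + 1) * η) :=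
        (norm_add_le _ _).trans (add_le_add ((norm_sub_le _ _).trans
          (add_le_add hb (hex2.trans h5))) h4)
      refine h6.trans ?_
      nlinarith [mul_pos hM0 hη0]
    · show -κ + 1 / (2 * M) ≤ ζ.im
      have h4 : η * ζ.im = (q.2 - tl ε q.1 - p.2).im := by rw [← hζη]; simp
      rw [hζ'] at h4
      have h5 : ((q.2 - ((p.2 + tlr ε p.1 : ℝ) : ℂ)) -
          (tl ε q.1 - ↑(tlr ε p.1) + ↑κ * x) + κ * x).im = q.2.im -
          (tl ε q.1 - ↑(tlr ε p.1) + ↑κ * x).im + κ * x.im := by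
        rw [add_im, sub_im, sub_im, ofReal_im, im_ofReal_mul]
        ring
      have h6 : x.im = -η := by simp [hx, hηdef]
      have h7 := (abs_im_le_norm _).trans hex2
      have h8 : min 1 (1 / (2 * M)) * η ≤ 1 / (2 * M) * η := by
        have := min_le_right 1 (1 / (2 * M))
        gcongr
      have h9 := (abs_le.1 h7).2
      have h10 : η / M ≤ q.2.im := by
        rw [div_le_iff₀ hM0]
        linarith
      have h11 : η * (-κ + 1 / (2 * M)) ≤ η * ζ.im := by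
        rw [h4, h5, h6]
        have h12 : η / M = 1 / (2 * M) * η + 1 / (2 * M) * η := by field_simp; ring
        nlinarith
      exact le_of_mul_le_mul_left h11 hη0
  have hfin := h1 (T, ζ) hTK
  rw [dist_comm] at hfin
  refine lt_of_eq_of_lt ?_ hfin
  congr 1
  show B q = B _
  congr 1
  have e1 : (p.1 : ℂ) + ((0 : ℝ) : ℂ) * I + η * T = q.1 := by
    rw [hTη, hx]; push_cast; ring
  have e2 : (p.2 : ℂ) + η * ζ = q.2 - tl ε q.1 := by rw [hζη]; ring
  simp only [e1, e2]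
  ext <;> simp

/-- **LEAF 1** -/
theorem prodBlow : ProdBlow := by
  intro u0 R d h B _ hd hB hM
  have h1 : ∀ n : ℕ, ∀ᵐ e : ℝ × ℝ, e.2 - tlr (1 / ((n : ℝ) + 1)) e.1 ∈
      Ioo (u0 - R + 1 / ((n : ℝ) + 1)) (u0 + R - 1 / ((n : ℝ) + 1)) → ∃ b : ℂ, ∀ M : ℝ,
      Tendsto B (𝓝[Cn e M] ((e.1 : ℂ), (e.2 : ℂ))) (𝓝 b) := by
    intro n
    filter_upwards [ae_shear (1 / ((n : ℝ) + 1))
      (pb_eps hd hB hM (show (0 : ℝ) < 1 / ((n : ℝ) + 1) by positivity))] with e he hn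
    have := he hn
    simp only [sub_add_cancel] at this
    exact this
  filter_upwards [ae_all_iff.2 h1] with e he hI
  have hgap : 0 < min (e.2 - (u0 - R)) (u0 + R - e.2) :=
    lt_min (by linarith [hI.1]) (by linarith [hI.2])
  obtain ⟨n, hn⟩ := exists_nat_one_div_lt (show (0 : ℝ) <
    min (e.2 - (u0 - R)) (u0 + R - e.2) / 2 by positivity)
  refine he n ?_
  have hε : (0 : ℝ) < 1 / ((n : ℝ) + 1) := by positivity
  have h2 := tlr_pos hε e.1
  have h3 := tlr_le hε e.1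
  have h4 := min_le_left (e.2 - (u0 - R)) (u0 + R - e.2)
  have h5 := min_le_right (e.2 - (u0 - R)) (u0 + R - e.2)
  constructor <;> linarith

end Crest.Agent.R102.Sup115
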