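import Mathlib
import Crest.Agent.R102.SupDefs_115
import Crest.Agent.R102.LP_472

/-!
Row 102, T1-B, III.2, LEAF 2 of `SupDefs_115` (helper725): `ProdUniq` = Lusin–Privalov uniqueness
for the product edge, from `LP472.lusin_privalov` on the tilted lines `ζ ↦ (a - ζ, ζ/4)`.
-/

set_option autoImplicit false

open Set Filter Topology Metric Complex MeasureTheory

noncomputable section

namespace Crest.Agent.R102.ProdUniqT725

open Crest.Agent.R102.S5 Crest.Agent.R102.Sup115 Crest.Agent.R102.LP472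

/-- the open cone at `e` -/
def Co (e : ℝ × ℝ) : Set (ℂ × ℂ) :=
  {q | q.1.im < 0 ∧ -q.1.im < 8 * q.2.im ∧ |q.1.re - e.1| + ‖q.2 - (e.2 : ℂ)‖ < 8 * (-q.1.im)}

theorem Co_sub (e : ℝ × ℝ) : Co e ⊆ Cn e 8 := fun _ hq => ⟨hq.1, hq.2.1.le, hq.2.2.le⟩

/-- the closed sets -/
def G (B : ℂ × ℂ → ℂ) (z : ℂ) (n m : ℕ) : Set (ℝ × ℝ) :=
  {e | ∀ q ∈ Co e, dist q ((e.1 : ℂ), (e.2 : ℂ)) < 1 / (m + 1) → ‖B q - z‖ ≤ 1 / (n + 1)}

theorem isClosed_G (B : ℂ × ℂ → ℂ) (z : ℂ) (n m : ℕ) : IsClosed (G B z n m) := by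
  have h : G B z n m = ⋂ q : ℂ × ℂ, {e : ℝ × ℝ | q ∈ Co e ∧
      dist q ((e.1 : ℂ), (e.2 : ℂ)) < 1 / (m + 1) → ‖B q - z‖ ≤ 1 / (n + 1)} := by
    ext e; simp only [G, mem_ofPred_eq, mem_iInter, and_imp]
  rw [h]
  refine isClosed_iInter fun q => ?_
  by_cases hq : ‖B q - z‖ ≤ 1 / (n + 1)
  · have : {e : ℝ × ℝ | q ∈ Co e ∧
        dist q ((e.1 : ℂ), (e.2 : ℂ)) < 1 / (m + 1) → ‖B q - z‖ ≤ 1 / (n + 1)} = univ := by
      ext e; simp only [mem_ofPred_eq, mem_univ, iff_true]; exact fun _ => hq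
    rw [this]; exact isClosed_univ
  · have : {e : ℝ × ℝ | q ∈ Co e ∧
        dist q ((e.1 : ℂ), (e.2 : ℂ)) < 1 / (m + 1) → ‖B q - z‖ ≤ 1 / (n + 1)} =
        {e : ℝ × ℝ | q ∈ Co e ∧ dist q ((e.1 : ℂ), (e.2 : ℂ)) < 1 / (m + 1)}ᶜ := by
      ext e; simp only [mem_ofPred_eq, mem_compl_iff]
      exact ⟨fun h1 h2 => hq (h1 h2), fun h1 h2 => absurd h2 h1⟩
    rw [this, isClosed_compl_iff]
    have c1 : Continuous fun e : ℝ × ℝ => |q.1.re - e.1| + ‖q.2 - (e.2 : ℂ)‖ := by fun_prop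
    have c2 : Continuous fun e : ℝ × ℝ => dist q ((e.1 : ℂ), (e.2 : ℂ)) := by fun_prop
    have o1 : IsOpen {e : ℝ × ℝ | |q.1.re - e.1| + ‖q.2 - (e.2 : ℂ)‖ < 8 * (-q.1.im)} :=
      isOpen_lt c1 continuous_const
    have o2 : IsOpen {e : ℝ × ℝ | dist q ((e.1 : ℂ), (e.2 : ℂ)) < 1 / (m + 1)} :=
      isOpen_lt c2 continuous_const
    by_cases h1 : q.1.im < 0 ∧ -q.1.im < 8 * q.2.im
    · have : {e : ℝ × ℝ | q ∈ Co e ∧ dist q ((e.1 : ℂ), (e.2 : ℂ)) < 1 / (m + 1)} =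
          {e : ℝ × ℝ | |q.1.re - e.1| + ‖q.2 - (e.2 : ℂ)‖ < 8 * (-q.1.im)} ∩
          {e : ℝ × ℝ | dist q ((e.1 : ℂ), (e.2 : ℂ)) < 1 / (m + 1)} := by
        ext e; simp only [Co, mem_ofPred_eq, mem_inter_iff]
        exact ⟨fun h => ⟨h.1.2.2, h.2⟩, fun h => ⟨⟨h1.1, h1.2, h.1⟩, h.2⟩⟩
      rw [this]; exact o1.inter o2
    · have : {e : ℝ × ℝ | q ∈ Co e ∧ dist q ((e.1 : ℂ), (e.2 : ℂ)) < 1 / (m + 1)} = ∅ := by
        ext e; simp only [Co, mem_ofPred_eq, mem_empty_iff_false, iff_false]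
        rintro ⟨h, -⟩; exact h1 ⟨h.1, h.2.1⟩
      rw [this]; exact isOpen_empty

/-- measurable hull of the bad set -/
def Bd (u0 R : ℝ) (B : ℂ × ℂ → ℂ) (z : ℂ) : Set (ℝ × ℝ) :=
  {e | e.2 ∈ Ioo (u0 - R) (u0 + R)} ∩ ⋂ n : ℕ, ⋃ m : ℕ, G B z n m

theorem measurable_Bd (u0 R : ℝ) (B : ℂ × ℂ → ℂ) (z : ℂ) : MeasurableSet (Bd u0 R B z) := by
  refine MeasurableSet.inter (measurable_snd measurableSet_Ioo) ?_
  exact MeasurableSet.iInter fun n => MeasurableSet.iUnion fun m => (isClosed_G B z n m).measurableSet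

theorem bad_sub {u0 R : ℝ} {B : ℂ × ℂ → ℂ} {z : ℂ} {e : ℝ × ℝ}
    (he : e.2 ∈ Ioo (u0 - R) (u0 + R))
    (hl : Tendsto B (𝓝[Cn e 8] ((e.1 : ℂ), (e.2 : ℂ))) (𝓝 z)) : e ∈ Bd u0 R B z := by
  refine ⟨he, mem_iInter.2 fun n => ?_⟩
  have hn : (0 : ℝ) < 1 / (n + 1) := by positivity
  have h1 := hl (Metric.closedBall_mem_nhds z hn)
  rw [Filter.mem_map, mem_nhdsWithin] at h1
  obtain ⟨U, hU, heU, hUs⟩ := h1
  obtain ⟨δ, hδ, hδU⟩ := Metric.isOpen_iff.1 hU _ heU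
  obtain ⟨m, hm⟩ := exists_nat_one_div_lt hδ
  refine mem_iUnion.2 ⟨m, fun q hq hd => ?_⟩
  have h2 : q ∈ U := hδU (by rw [Metric.mem_ball]; exact hd.trans hm)
  have h3 := hUs ⟨h2, Co_sub e hq⟩
  rw [mem_preimage, Metric.mem_closedBall, dist_eq_norm] at h3
  exact h3

theorem Bd_lim {u0 R : ℝ} {B : ℂ × ℂ → ℂ} {z : ℂ} {e : ℝ × ℝ} (he : e ∈ Bd u0 R B z) :
    ∀ ε > 0, ∃ δ > 0, ∀ q ∈ Co e, dist q ((e.1 : ℂ), (e.2 : ℂ)) < δ → ‖B q - z‖ < ε := by
  intro ε hε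
  obtain ⟨n, hn⟩ := exists_nat_one_div_lt hε
  obtain ⟨m, hm⟩ := mem_iUnion.1 (mem_iInter.1 he.2 n)
  exact ⟨1 / (m + 1), by positivity, fun q hq hd => (hm q hq hd).trans_lt hn⟩

/-- the product domain, truncated below -/
def DT (u0 R d : ℝ) : Set (ℂ × ℂ) := {q | -d < q.1.im ∧ q.1.im < 0 ∧ q.2 ∈ HDu u0 R}

/-- the truncated half disc in the parameter `ζ` -/
def V (u0 R d : ℝ) : Set ℂ := {ζ | (0 < ζ.im ∧ ζ.im < d) ∧ ‖ζ / 4 - (u0 : ℂ)‖ < R}

theorem isOpen_V (u0 R d : ℝ) : IsOpen (V u0 R d) :=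
  ((isOpen_lt continuous_const Complex.continuous_im).inter
    (isOpen_lt Complex.continuous_im continuous_const)).inter
    (isOpen_lt (by fun_prop : Continuous fun ζ : ℂ => ‖ζ / 4 - (u0 : ℂ)‖) continuous_const)

theorem convex_V (u0 R d : ℝ) : Convex ℝ (V u0 R d) := by
  have h1 : Convex ℝ {ζ : ℂ | 0 < ζ.im ∧ ζ.im < d} :=
    (convex_halfSpace_im_gt 0).inter (convex_halfSpace_im_lt d)
  have h2 : Convex ℝ {ζ : ℂ | ‖ζ / 4 - (u0 : ℂ)‖ < R} := by
    have : {ζ : ℂ | ‖ζ / 4 - (u0 : ℂ)‖ < R} = ball ((4 * u0 : ℝ) : ℂ) (4 * R) := by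
      ext ζ
      simp only [mem_ofPred_eq, mem_ball, dist_eq_norm]
      have : ζ - ((4 * u0 : ℝ) : ℂ) = 4 * (ζ / 4 - (u0 : ℂ)) := by push_cast; ring
      rw [this, norm_mul]
      have h4 : ‖(4 : ℂ)‖ = 4 := by norm_num
      rw [h4]
      constructor <;> intro h <;> linarith
    rw [this]; exact convex_ball _ _
  exact h1.inter h2

/-- the tilted line -/
def ln (a : ℝ) (ζ : ℂ) : ℂ × ℂ := ((a : ℂ) - ζ, ζ / 4)

theorem ln_mem {u0 R d a : ℝ} {ζ : ℂ} (h : ζ ∈ V u0 R d) : ln a ζ ∈ DT u0 R d := by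
  refine ⟨?_, ?_, ?_, ?_⟩
  · simp only [ln, sub_im, ofReal_im]; linarith [h.1.2]
  · simp only [ln, sub_im, ofReal_im]; linarith [h.1.1]
  · rw [mem_ball, dist_eq_norm]; exact h.2
  · have : (ζ / 4 : ℂ).im = ζ.im / 4 := by
      have := Complex.div_ofReal_im ζ 4
      simpa using this
    simp only [ln, mem_ofPred_eq, this]; linarith [h.1.1]

theorem diff_ln {u0 R d a : ℝ} {B : ℂ × ℂ → ℂ} (hB : DifferentiableOn ℂ B (DT u0 R d)) (z : ℂ) :
    DifferentiableOn ℂ (fun ζ => B (ln a ζ) - z) (V u0 R d) := by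
  have h1 : Differentiable ℂ (ln a) := by
    unfold ln; fun_prop
  exact (hB.comp h1.differentiableOn fun ζ hζ => ln_mem hζ).sub_const z

/-- Lusin–Privalov on one tilted line -/
theorem line_const {u0 R d a : ℝ} {B : ℂ × ℂ → ℂ} {z : ℂ} (hd0 : 0 < d) (hB : DifferentiableOn ℂ B (DT u0 R d))
    (hE : volume {x : ℝ | ((a - x, x / 4) : ℝ × ℝ) ∈ Bd u0 R B z} ≠ 0) :
    ∀ ζ ∈ V u0 R d, B (ln a ζ) = z := by
  have hd := diff_ln (a := a) hB z
  obtain ⟨ζ₀, hζ₀, h0⟩ := lusin_privalov (isOpen_V u0 R d) hd (a := 1) one_pos hE (by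
    intro x hx
    have hx2 : x / 4 ∈ Ioo (u0 - R) (u0 + R) := hx.1
    -- the height
    set r : ℝ := R - |x / 4 - u0| with hr
    have hr0 : 0 < r := by
      have : |x / 4 - u0| < R := abs_lt.2 ⟨by linarith [hx2.1], by linarith [hx2.2]⟩
      linarith
    refine ⟨min r d, lt_min hr0 hd0, ?_, ?_⟩
    · intro ζ hζ
      refine ⟨⟨hζ.1, hζ.2.1.trans_le (min_le_right _ _)⟩, ?_⟩
      have h1 : ζ / 4 - (u0 : ℂ) = ((x / 4 - u0 : ℝ) : ℂ) + (ζ - (x : ℂ)) / 4 := by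
        push_cast; ring
      have h2 : ‖ζ - (x : ℂ)‖ ≤ |(ζ - (x : ℂ)).re| + |(ζ - (x : ℂ)).im| :=
        Complex.norm_le_abs_re_add_abs_im _
      have h3 : (ζ - (x : ℂ)).re = ζ.re - x := by simp
      have h4 : (ζ - (x : ℂ)).im = ζ.im := by simp
      rw [h3, h4, abs_of_pos hζ.1] at h2
      have h5 : |ζ.re - x| < ζ.im := by simpa using hζ.2.2
      have h6 : ‖(ζ - (x : ℂ)) / 4‖ = ‖ζ - (x : ℂ)‖ / 4 := by
        rw [norm_div]; norm_num
      calc ‖ζ / 4 - (u0 : ℂ)‖ ≤ ‖((x / 4 - u0 : ℝ) : ℂ)‖ + ‖(ζ - (x : ℂ)) / 4‖ := by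
            rw [h1]; exact norm_add_le _ _
        _ = |x / 4 - u0| + ‖ζ - (x : ℂ)‖ / 4 := by
            rw [h6, Complex.norm_real, Real.norm_eq_abs]
        _ < R := by
            have := hζ.2.1.trans_le (min_le_left _ _)
            rw [hr] at this
            linarith
    · rw [Metric.tendsto_nhdsWithin_nhds]
      intro ε hε
      obtain ⟨δ, hδ, hδ'⟩ := Bd_lim hx ε hε
      refine ⟨δ, hδ, fun {ζ} hζ hdist => ?_⟩
      rw [dist_zero_right]
      have h5 : |ζ.re - x| < ζ.im := by simpa using hζ.2.2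
      have h2 : ‖ζ - (x : ℂ)‖ ≤ |(ζ - (x : ℂ)).re| + |(ζ - (x : ℂ)).im| :=
        Complex.norm_le_abs_re_add_abs_im _
      have h3 : (ζ - (x : ℂ)).re = ζ.re - x := by simp
      have h4 : (ζ - (x : ℂ)).im = ζ.im := by simp
      rw [h3, h4, abs_of_pos hζ.1] at h2
      have hq4 : (ζ / 4 : ℂ).im = ζ.im / 4 := by
        have := Complex.div_ofReal_im ζ 4
        simpa using this
      have h7 : ζ / 4 - ((x / 4 : ℝ) : ℂ) = (ζ - (x : ℂ)) / 4 := by push_cast; ring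
      have h8 : ‖(ζ - (x : ℂ)) / 4‖ = ‖ζ - (x : ℂ)‖ / 4 := by
        rw [norm_div]; norm_num
      refine hδ' (ln a ζ) ⟨?_, ?_, ?_⟩ ?_
      · simp only [ln, sub_im, ofReal_im]; linarith [hζ.1]
      · simp only [ln, sub_im, ofReal_im, hq4]; linarith [hζ.1]
      · simp only [ln, sub_im, sub_re, ofReal_im, ofReal_re]
        rw [h7, h8]
        have : a - ζ.re - (a - x) = -(ζ.re - x) := by ring
        rw [this, abs_neg]
        linarith [hζ.1]
      · rw [Prod.dist_eq, max_lt_iff]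
        constructor
        · simp only [ln]
          rw [dist_eq_norm]
          have : (a : ℂ) - ζ - ((a - x : ℝ) : ℂ) = -(ζ - (x : ℂ)) := by push_cast; ring
          rw [this, norm_neg, ← dist_eq_norm]; exact hdist
        · simp only [ln]
          rw [dist_eq_norm, h7, h8]
          rw [dist_eq_norm] at hdist
          linarith [norm_nonneg (ζ - (x : ℂ))])
  have han : AnalyticOnNhd ℂ (fun ζ => B (ln a ζ) - z) (V u0 R d) := hd.analyticOnNhd (isOpen_V u0 R d)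
  have h1 := han.eqOn_zero_of_preconnected_of_eventuallyEq_zero
    (convex_V u0 R d).isPreconnected hζ₀ h0
  intro ζ hζ
  have := h1 hζ
  simpa [sub_eq_zero] using this

/-- one value on a fat family of lines: constant -/
theorem all_const {u0 R d : ℝ} {B : ℂ × ℂ → ℂ} {z : ℂ} (hd0 : 0 < d)
    (hB : DifferentiableOn ℂ B (DT u0 R d))
    {A : Set ℝ} (hA : volume A ≠ 0) (h : ∀ a ∈ A, ∀ ζ ∈ V u0 R d, B (ln a ζ) = z) :
    ∀ q ∈ DT u0 R d, B q = z := by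
  -- first for small `Im w`
  have key : ∀ q ∈ DT u0 R d, 4 * q.2.im < d → B q = z := by
    intro q hq hsm
    have hq1 : q.1.im < 0 := hq.2.1
    have hq0 : -d < q.1.im := hq.1
    have hw2 : 0 < q.2.im := hq.2.2.2
    -- the point `ζ = 4 q.2`
    set ζ : ℂ := 4 * q.2 with hζ
    have hζ4 : ζ / 4 = q.2 := by rw [hζ]; ring
    have hζi : ζ.im = 4 * q.2.im := by rw [hζ]; simp
    have hζV : ζ ∈ V u0 R d := by
      refine ⟨⟨?_, ?_⟩, ?_⟩
      · rw [hζi]; linarith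
      · rw [hζi]; exact hsm
      · rw [hζ4]
        have := hq.2.2.1
        rw [mem_ball, dist_eq_norm] at this; exact this
    -- the function of `a`
    set W : Set ℂ := {s | ζ.im - d < s.im ∧ s.im < ζ.im} with hW
    have hWo : IsOpen W := (isOpen_lt continuous_const Complex.continuous_im).inter
      (isOpen_lt Complex.continuous_im continuous_const)
    have hWc : Convex ℝ W := (convex_halfSpace_im_gt _).inter (convex_halfSpace_im_lt _)
    have hmem : ∀ s ∈ W, (s - ζ, q.2) ∈ DT u0 R d := by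
      intro s hs
      refine ⟨?_, ?_, hq.2.2⟩
      · simp only [sub_im]; linarith [hs.1]
      · simp only [sub_im]; linarith [hs.2]
    have hd : DifferentiableOn ℂ (fun s => B (s - ζ, q.2) - z) W := by
      have h1 : Differentiable ℂ (fun s : ℂ => ((s - ζ, q.2) : ℂ × ℂ)) := by fun_prop
      exact (hB.comp h1.differentiableOn hmem).sub_const z
    have hζim : 0 < ζ.im := hζV.1.1
    have hζd : ζ.im < d := hζV.1.2
    obtain ⟨s₀, hs₀, h0⟩ := lusin_privalov hWo hd (a := 1) one_pos hA (by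
      intro x hx
      refine ⟨ζ.im, hζim, fun s hs => ⟨by linarith [hs.1], hs.2.1⟩, ?_⟩
      have hxW : (x : ℂ) ∈ W := by
        refine ⟨?_, ?_⟩ <;> simp only [ofReal_im] <;> linarith
      have h1 : ContinuousAt (fun s => B (s - ζ, q.2) - z) (x : ℂ) :=
        (hd.differentiableAt (hWo.mem_nhds hxW)).continuousAt
      have h2 : B ((x : ℂ) - ζ, q.2) - z = 0 := by
        have := h x hx ζ hζV
        simp only [ln, hζ4] at this
        rw [this, sub_self]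
      have h3 : Tendsto (fun s => B (s - ζ, q.2) - z) (𝓝 (x : ℂ)) (𝓝 0) := by
        have := h1.tendsto
        simpa only [h2] using this
      exact h3.mono_left nhdsWithin_le_nhds)
    have han : AnalyticOnNhd ℂ (fun s => B (s - ζ, q.2) - z) W := hd.analyticOnNhd hWo
    have h1 := han.eqOn_zero_of_preconnected_of_eventuallyEq_zero hWc.isPreconnected hs₀ h0
    have h2 : q.1 + ζ ∈ W := by
      refine ⟨?_, ?_⟩ <;> simp only [add_im] <;> linarith
    have h3 := h1 h2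
    simp only [add_sub_cancel_right, Pi.zero_apply] at h3
    rw [sub_eq_zero] at h3
    exact h3
  -- then slicewise in `w`
  intro q hq
  have hHo : IsOpen (HDu u0 R) :=
    isOpen_ball.inter (isOpen_lt continuous_const Complex.continuous_im)
  have hHc : Convex ℝ (HDu u0 R) := (convex_ball _ _).inter (convex_halfSpace_im_gt 0)
  have hd : DifferentiableOn ℂ (fun w => B (q.1, w) - z) (HDu u0 R) := by
    have h1 : Differentiable ℂ (fun w : ℂ => ((q.1, w) : ℂ × ℂ)) := by fun_prop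
    exact (hB.comp h1.differentiableOn fun w hw => ⟨hq.1, hq.2.1, hw⟩).sub_const z
  have han : AnalyticOnNhd ℂ (fun w => B (q.1, w) - z) (HDu u0 R) := hd.analyticOnNhd hHo
  have hR : 0 < R := by
    have := hq.2.2.1
    rw [mem_ball] at this
    exact dist_nonneg.trans_lt this
  -- a point with small imaginary part
  set y : ℝ := min (R / 2) (d / 8) with hy
  have hy0 : 0 < y := lt_min (by linarith) (by linarith)
  have hw₀ : ((u0 : ℂ) + y * I) ∈ HDu u0 R := by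
    refine ⟨?_, ?_⟩
    · rw [mem_ball, dist_eq_norm, add_sub_cancel_left, norm_mul, norm_I, mul_one, Complex.norm_real,
        Real.norm_eq_abs, abs_of_pos hy0]
      have := min_le_left (R / 2) (d / 8)
      linarith
    · simp [hy0]
  have h0 : (fun w => B (q.1, w) - z) =ᶠ[𝓝 ((u0 : ℂ) + y * I)] 0 := by
    have h1 : ∀ᶠ w : ℂ in 𝓝 ((u0 : ℂ) + y * I), w ∈ HDu u0 R := hHo.mem_nhds hw₀
    have h2 : ∀ᶠ w : ℂ in 𝓝 ((u0 : ℂ) + y * I), 4 * w.im < d := by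
      have hc : ContinuousAt (fun w : ℂ => 4 * w.im) ((u0 : ℂ) + y * I) := by fun_prop
      refine hc.eventually (gt_mem_nhds ?_)
      have := min_le_right (R / 2) (d / 8)
      simp
      linarith
    filter_upwards [h1, h2] with w hw hw'
    rw [key (q.1, w) ⟨hq.1, hq.2.1, hw⟩ hw', sub_self]; rfl
  have h1 := han.eqOn_zero_of_preconnected_of_eventuallyEq_zero hHc.isPreconnected hw₀ h0 hq.2.2
  simp only [Prod.mk.eta, Pi.zero_apply] at h1
  rw [sub_eq_zero] at h1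
  exact h1

/-- **LEAF 2** (truncated domain) -/
theorem prodUniqT (u0 R d : ℝ) (hd0 : 0 < d) (B : ℂ × ℂ → ℂ)
    (hB : DifferentiableOn ℂ B (DT u0 R d))
    (hnc : ∃ q ∈ DT u0 R d, ∃ q' ∈ DT u0 R d, B q ≠ B q') (z : ℂ) :
    ∀ᵐ e : ℝ × ℝ, e.2 ∈ Ioo (u0 - R) (u0 + R) →
      ¬ Tendsto B (𝓝[Cn e 8] ((e.1 : ℂ), (e.2 : ℂ))) (𝓝 z) := by
  -- it is enough that the measurable hull is null
  suffices hnull : volume (Bd u0 R B z) = 0 by
    have : ∀ᵐ e : ℝ × ℝ, e ∉ Bd u0 R B z := by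
      rw [ae_iff]; simpa using hnull
    filter_upwards [this] with e he he2 hl
    exact he (bad_sub he2 hl)
  -- the linear change of variables
  let Ψ : (ℝ × ℝ) →ₗ[ℝ] (ℝ × ℝ) :=
    { toFun := fun p => (p.1 - p.2, p.2 / 4)
      map_add' := fun p q => by ext <;> simp <;> ring
      map_smul' := fun c p => by ext <;> simp <;> ring }
  have hΨm : Measurable (Ψ : ℝ × ℝ → ℝ × ℝ) := by
    have : (Ψ : ℝ × ℝ → ℝ × ℝ) = fun p => (p.1 - p.2, p.2 / 4) := rfl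
    rw [this]; fun_prop
  have himg : Bd u0 R B z = Ψ '' (Ψ ⁻¹' Bd u0 R B z) := by
    rw [image_preimage_eq]
    intro p
    exact ⟨(p.1 + 4 * p.2, 4 * p.2), by
      show ((p.1 + 4 * p.2 - 4 * p.2, 4 * p.2 / 4) : ℝ × ℝ) = p
      ext <;> simp⟩
  have hpre : volume (Ψ ⁻¹' Bd u0 R B z) = 0 := by
    have hms : MeasurableSet (Ψ ⁻¹' Bd u0 R B z) := hΨm (measurable_Bd u0 R B z)
    rw [Measure.volume_eq_prod, Measure.measure_prod_null hms]
    set A : Set ℝ := {a | volume (Prod.mk a ⁻¹' (Ψ ⁻¹' Bd u0 R B z)) ≠ 0} with hA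
    by_contra hcon
    have hA0 : volume A ≠ 0 := by
      intro h0
      apply hcon
      have : ∀ᵐ a : ℝ, a ∉ A := by rw [ae_iff]; simpa using h0
      filter_upwards [this] with a ha
      simpa [hA] using ha
    have hall := all_const hd0 hB hA0 (fun a ha => line_const hd0 hB (a := a) ha)
    obtain ⟨q, hq, q', hq', hne⟩ := hnc
    exact hne ((hall q hq).trans (hall q' hq').symm)
  rw [himg, Measure.addHaar_image_linearMap, hpre, mul_zero]

end Crest.Agent.R102.ProdUniqT725
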