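import Mathlib
import Crest.Agent.R102.SupDefs_115
import Crest.Agent.R102.ProdUniqT_725

/-!
Row 102, T1-B, III.2, LEAF 2 of `SupDefs_115` v3 (helper725): `ProdUniq`, from `prodUniqT`.
-/

set_option autoImplicit false

open Set Filter Topology Metric Complex MeasureTheory

noncomputable section

namespace Crest.Agent.R102.ProdUniq725

open Crest.Agent.R102.S5 Crest.Agent.R102.Sup115

/-- **LEAF 2** (`ProdUniq` of `SupDefs_115` v3). -/
theorem prodUniq : Sup115.ProdUniq := by
  intro u0 R d h B _ hd hB _ hnc z
  exact ProdUniqT725.prodUniqT u0 R d hd B hB hnc z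

end Crest.Agent.R102.ProdUniq725
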