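import Mathlib
import Crest.Agent.R102.SupDefs_115

/-!
Row 102, T1-B, III.2 = SUP (helper115), part A: cones, closed sets, selection.
-/

set_option autoImplicit false
set_option linter.unusedVariables false
set_option linter.unusedSectionVars false

open Set Filter Topology Metric Complex MeasureTheory

noncomputable section

namespace Crest.Agent.R102.Sup115

open Crest.Agent.R102.End613 Crest.Agent.R102.S5

/-- open cone at `e` -/
def Co (lam d : ℝ) (e : ℝ × ℝ) : Set (ℂ × ℂ) :=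
  {q | q.1.im < 0 ∧ -d < q.1.im ∧ lam * (-q.1.im) < q.2.im ∧
    lam * (|q.1.re - e.1| + ‖q.2 - (e.2 : ℂ)‖) < -q.1.im}

lemma mem_Saw {P : Set (ℝ × ℝ)} {lam d : ℝ} {q : ℂ × ℂ} :
    q ∈ Saw P lam d ↔ ∃ e ∈ P, q ∈ Co lam d e := by
  constructor
  · rintro ⟨h1, h2, h3, e, he, h4⟩
    exact ⟨e, he, h1, h2, h3, h4⟩
  · rintro ⟨e, he, h1, h2, h3, h4⟩
    exact ⟨h1, h2, h3, e, he, h4⟩

lemma isOpen_Co_param (lam d : ℝ) (q : ℂ × ℂ) : IsOpen {e : ℝ × ℝ | q ∈ Co lam d e} := by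
  by_cases h : q.1.im < 0 ∧ -d < q.1.im ∧ lam * (-q.1.im) < q.2.im
  · have : {e : ℝ × ℝ | q ∈ Co lam d e} =
        {e : ℝ × ℝ | lam * (|q.1.re - e.1| + ‖q.2 - (e.2 : ℂ)‖) < -q.1.im} := by
      ext e
      exact ⟨fun hq => hq.2.2.2, fun hq => ⟨h.1, h.2.1, h.2.2, hq⟩⟩
    rw [this]
    have c1 : Continuous fun e : ℝ × ℝ => lam * (|q.1.re - e.1| + ‖q.2 - (e.2 : ℂ)‖) := by
      fun_prop
    exact isOpen_lt c1 continuous_const
  · have : {e : ℝ × ℝ | q ∈ Co lam d e} = ∅ := by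
      ext e
      simp only [mem_ofPred_eq, mem_empty_iff_false, iff_false]
      exact fun hq => h ⟨hq.1, hq.2.1, hq.2.2.1⟩
    rw [this]
    exact isOpen_empty

lemma isOpen_Half_param (η m : ℝ) (q : ℂ × ℂ) : IsOpen {e : ℝ × ℝ | q ∈ Half e η m} := by
  by_cases h : -η < q.1.im ∧ 0 < q.2.im ∧ q.1.im < m * q.2.im
  · have : {e : ℝ × ℝ | q ∈ Half e η m} =
        {e : ℝ × ℝ | |q.1.re - e.1| < η} ∩ {e : ℝ × ℝ | ‖q.2 - (e.2 : ℂ)‖ < η} := by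
      ext e
      exact ⟨fun hq => ⟨hq.1, hq.2.2.1⟩, fun hq => ⟨hq.1, h.1, hq.2, h.2.1, h.2.2⟩⟩
    rw [this]
    have c1 : Continuous fun e : ℝ × ℝ => |q.1.re - e.1| := by fun_prop
    have c2 : Continuous fun e : ℝ × ℝ => ‖q.2 - (e.2 : ℂ)‖ := by fun_prop
    exact (isOpen_lt c1 continuous_const).inter (isOpen_lt c2 continuous_const)
  · have : {e : ℝ × ℝ | q ∈ Half e η m} = ∅ := by
      ext e
      simp only [mem_ofPred_eq, mem_empty_iff_false, iff_false]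
      exact fun hq => h ⟨hq.2.1, hq.2.2.2.1, hq.2.2.2.2⟩
    rw [this]
    exact isOpen_empty

lemma closed_Co (lam d : ℝ) (A : Set (ℂ × ℂ)) : IsClosed {e : ℝ × ℝ | Co lam d e ⊆ A} := by
  have : {e : ℝ × ℝ | Co lam d e ⊆ A} = ⋂ q ∈ Aᶜ, {e : ℝ × ℝ | q ∈ Co lam d e}ᶜ := by
    ext e
    simp only [mem_ofPred_eq, mem_iInter, mem_compl_iff]
    exact ⟨fun h q hq hqe => hq (h hqe), fun h q hq => by
      by_contra h1
      exact h q h1 hq⟩
  rw [this]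
  exact isClosed_biInter fun q _ => (isOpen_Co_param lam d q).isClosed_compl

lemma closed_Half (η m : ℝ) (A : Set (ℂ × ℂ)) : IsClosed {e : ℝ × ℝ | Half e η m ⊆ A} := by
  have : {e : ℝ × ℝ | Half e η m ⊆ A} = ⋂ q ∈ Aᶜ, {e : ℝ × ℝ | q ∈ Half e η m}ᶜ := by
    ext e
    simp only [mem_ofPred_eq, mem_iInter, mem_compl_iff]
    exact ⟨fun h q hq hqe => hq (h hqe), fun h q hq => by
      by_contra h1
      exact h q h1 hq⟩
  rw [this]
  exact isClosed_biInter fun q _ => (isOpen_Half_param η m q).isClosed_compl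

/-- the births condition is closed -/
lemma closed_dense {X : Set (ℂ × ℂ)} (hX : IsOpen X) (a ρ η : ℝ) :
    IsClosed {e : ℝ × ℝ | ∀ x : ℝ, |x - e.1| < η → ∀ z : ℂ, ‖z‖ < η → 0 < z.im → ρ * ‖z‖ ≤ z.im →
      ∃ q : ℂ × ℂ, q ∉ X ∧ |q.1.re - (x + a * z.re)| ≤ ρ * ‖z‖ ∧
      ‖q.2 - ((e.2 : ℂ) + z)‖ ≤ ρ * ‖z‖ ∧ (a - ρ) * q.2.im ≤ q.1.im ∧
        q.1.im ≤ (a + ρ) * q.2.im} := by
  refine isClosed_of_closure_subset fun e he => ?_
  obtain ⟨v, hv, hlim⟩ := mem_closure_iff_seq_limit.1 he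
  intro x hx z hz hz0 hzc
  have hl1 : Tendsto (fun n => |x - (v n).1|) atTop (𝓝 |x - e.1|) :=
    ((continuous_fst.tendsto e).comp hlim |>.const_sub x).abs
  have hev : ∀ᶠ n in atTop, |x - (v n).1| < η := hl1.eventually (gt_mem_nhds hx)
  obtain ⟨N, hN⟩ := eventually_atTop.1 hev
  have key' : ∀ n, ∃ q : ℂ × ℂ, q ∉ X ∧ |q.1.re - (x + a * z.re)| ≤ ρ * ‖z‖ ∧
      ‖q.2 - (((v (n + N)).2 : ℂ) + z)‖ ≤ ρ * ‖z‖ ∧ (a - ρ) * q.2.im ≤ q.1.im ∧
        q.1.im ≤ (a + ρ) * q.2.im := fun n =>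
    hv (n + N) x (hN _ (by omega)) z hz hz0 hzc
  choose q hq1 hq2 hq3 hq5 hq4 using key'
  have hlim' : Tendsto (fun n => v (n + N)) atTop (𝓝 e) := hlim.comp (tendsto_add_atTop_nat N)
  have hl2 : Tendsto (fun n => (((v (n + N)).2 : ℝ) : ℂ) + z) atTop (𝓝 ((e.2 : ℂ) + z)) :=
    ((Complex.continuous_ofReal.tendsto _).comp ((continuous_snd.tendsto e).comp hlim')).add_const z
  -- boundedness
  obtain ⟨C, hC⟩ : ∃ C : ℝ, ∀ n, ‖(((v (n + N)).2 : ℝ) : ℂ) + z‖ ≤ C := by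
    obtain ⟨C, hC⟩ := hl2.norm.bddAbove_range
    exact ⟨C, fun n => hC ⟨n, rfl⟩⟩
  have hb2 : ∀ n, ‖(q n).2‖ ≤ ρ * ‖z‖ + C := by
    intro n
    have h1 : ‖(q n).2‖ ≤ ‖(q n).2 - (((v (n + N)).2 : ℂ) + z)‖ + ‖(((v (n + N)).2 : ℝ) : ℂ) + z‖ := by
      have := norm_add_le ((q n).2 - (((v (n + N)).2 : ℂ) + z)) ((((v (n + N)).2 : ℝ) : ℂ) + z)
      rwa [sub_add_cancel] at this
    linarith [hq3 n, hC n]
  have hb1 : ∀ n, ‖(q n).1‖ ≤ (ρ * ‖z‖ + |x + a * z.re|) + (|a + ρ| + |a - ρ|) * (ρ * ‖z‖ + C) := by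
    intro n
    have h1 := Complex.norm_le_abs_re_add_abs_im (q n).1
    have h2 : |(q n).1.re| ≤ ρ * ‖z‖ + |x + a * z.re| := by
      have h3 := abs_add_le ((q n).1.re - (x + a * z.re)) (x + a * z.re)
      rw [sub_add_cancel] at h3
      linarith [hq2 n]
    have h3 : |(q n).1.im| ≤ (|a + ρ| + |a - ρ|) * (ρ * ‖z‖ + C) := by
      have h4 : |(q n).2.im| ≤ ρ * ‖z‖ + C := (Complex.abs_im_le_norm _).trans (hb2 n)
      have h5 : |(a + ρ) * (q n).2.im| ≤ |a + ρ| * (ρ * ‖z‖ + C) := by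
        rw [abs_mul]
        gcongr
      have h6 : |(a - ρ) * (q n).2.im| ≤ |a - ρ| * (ρ * ‖z‖ + C) := by
        rw [abs_mul]
        gcongr
      have h7 : 0 ≤ |a + ρ| * (ρ * ‖z‖ + C) := (abs_nonneg _).trans h5
      have h8 : 0 ≤ |a - ρ| * (ρ * ‖z‖ + C) := (abs_nonneg _).trans h6
      have h9 := (abs_le.1 h5).2
      have h10 := (abs_le.1 h6).1
      rw [add_mul, abs_le]
      constructor <;> linarith [hq4 n, hq5 n]
    linarith
  have hbd : ∀ n, q n ∈ closedBall (0 : ℂ × ℂ)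
      (max ((ρ * ‖z‖ + |x + a * z.re|) + (|a + ρ| + |a - ρ|) * (ρ * ‖z‖ + C)) (ρ * ‖z‖ + C)) := by
    intro n
    rw [mem_closedBall_zero_iff, Prod.norm_def]
    exact max_le_max (hb1 n) (hb2 n)
  obtain ⟨q', -, φ, hφ, hq'⟩ := (isCompact_closedBall _ _).tendsto_subseq hbd
  have hf : Tendsto (fun n => (q (φ n)).1) atTop (𝓝 q'.1) := (continuous_fst.tendsto q').comp hq'
  have hs : Tendsto (fun n => (q (φ n)).2) atTop (𝓝 q'.2) := (continuous_snd.tendsto q').comp hq'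
  refine ⟨q', ?_, ?_, ?_, ?_, ?_⟩
  · exact hX.isClosed_compl.mem_of_tendsto hq' (Eventually.of_forall fun n => hq1 (φ n))
  · refine le_of_tendsto (((Complex.continuous_re.tendsto _).comp hf).sub_const _).abs
      (Eventually.of_forall fun n => hq2 (φ n))
  · refine le_of_tendsto ((hs.sub (hl2.comp hφ.tendsto_atTop)).norm)
      (Eventually.of_forall fun n => hq3 (φ n))
  · have h1 : Tendsto (fun n => (q (φ n)).1.im) atTop (𝓝 q'.1.im) :=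
      (Complex.continuous_im.tendsto _).comp hf
    have h2 : Tendsto (fun n => (a - ρ) * (q (φ n)).2.im) atTop (𝓝 ((a - ρ) * q'.2.im)) :=
      ((Complex.continuous_im.tendsto _).comp hs).const_mul _
    exact le_of_tendsto_of_tendsto' h2 h1 fun n => hq5 (φ n)
  · have h1 : Tendsto (fun n => (q (φ n)).1.im) atTop (𝓝 q'.1.im) :=
      (Complex.continuous_im.tendsto _).comp hf
    have h2 : Tendsto (fun n => (a + ρ) * (q (φ n)).2.im) atTop (𝓝 ((a + ρ) * q'.2.im)) :=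
      ((Complex.continuous_im.tendsto _).comp hs).const_mul _
    exact le_of_tendsto_of_tendsto' h1 h2 fun n => hq4 (φ n)

lemma closed_E2 {X L : Set (ℂ × ℂ)} (hX : IsOpen X) (a g ρ η : ℝ) :
    IsClosed {e : ℝ × ℝ | E2 X L a g ρ η e} := by
  have : {e : ℝ × ℝ | E2 X L a g ρ η e} = {e : ℝ × ℝ | Half e η (a - ρ) ⊆ X} ∩
      ({e : ℝ × ℝ | Half e η (a + g) ⊆ L} ∩
      {e : ℝ × ℝ | ∀ x : ℝ, |x - e.1| < η → ∀ z : ℂ, ‖z‖ < η → 0 < z.im → ρ * ‖z‖ ≤ z.im →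
      ∃ q : ℂ × ℂ, q ∉ X ∧ |q.1.re - (x + a * z.re)| ≤ ρ * ‖z‖ ∧
      ‖q.2 - ((e.2 : ℂ) + z)‖ ≤ ρ * ‖z‖ ∧ (a - ρ) * q.2.im ≤ q.1.im ∧
        q.1.im ≤ (a + ρ) * q.2.im}) := by
    ext e
    exact ⟨fun h => ⟨h.low, h.line, h.dense⟩, fun h => ⟨h.1, h.2.1, h.2.2⟩⟩
  rw [this]
  exact (closed_Half η _ X).inter ((closed_Half η _ L).inter (closed_dense hX a ρ η))

lemma Half_mono {e : ℝ × ℝ} {η η' m m' : ℝ} (hη : η ≤ η') (hm : m ≤ m') :
    Half e η m ⊆ Half e η' m' := by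
  rintro q ⟨h1, h2, h3, h4, h5⟩
  refine ⟨by linarith, by linarith, by linarith, h4, ?_⟩
  nlinarith

/-- change of level and precision -/
lemma E2.transfer {X L : Set (ℂ × ℂ)} {a a₀ g g₀ ρ ρ' η η' : ℝ} {e : ℝ × ℝ}
    (h : E2 X L a₀ g₀ ρ' η' e) (hη : η ≤ η') (hρ' : 0 < ρ') (hρ : 4 * ρ' ≤ ρ)
    (ha : |a₀ - a| ≤ ρ / 4) (hg : a + g ≤ a₀ + g₀) : E2 X L a g ρ η e := by
  obtain ⟨ha1, ha2⟩ := abs_le.1 ha
  refine ⟨(Half_mono hη (by linarith)).trans h.low, (Half_mono hη hg).trans h.line, ?_⟩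
  intro x hx z hz hz0 hzc
  have hzn : 0 < ‖z‖ := norm_pos_iff.2 (by rintro rfl; simp at hz0)
  obtain ⟨q, h1, h2, h3, h0, h4⟩ := h.dense x (by linarith) z (by linarith) hz0 (by nlinarith)
  refine ⟨q, h1, ?_, by nlinarith, ?_⟩
  · have h5 : |(a₀ - a) * z.re| ≤ ρ / 4 * ‖z‖ := by
      rw [abs_mul]
      exact mul_le_mul ha (Complex.abs_re_le_norm z) (abs_nonneg _) (by linarith)
    have h6 : q.1.re - (x + a * z.re) = (q.1.re - (x + a₀ * z.re)) + (a₀ - a) * z.re := by ring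
    rw [h6]
    refine (abs_add_le _ _).trans ?_
    nlinarith
  · have h5 : 0 ≤ q.2.im := by
      have h6 := Complex.abs_im_le_norm (q.2 - ((e.2 : ℂ) + z))
      have h7 : (q.2 - ((e.2 : ℂ) + z)).im = q.2.im - z.im := by simp
      rw [h7] at h6
      have h8 := (abs_le.1 (h6.trans h3)).1
      nlinarith
    exact ⟨by nlinarith, by nlinarith⟩

/-! ### measure theory -/

lemma exists_level {U : Set ℝ} (hU : volume U ≠ 0) {f : ℝ → ℝ} {n : ℝ}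
    (hf : ∀ u ∈ U, f u ∈ Icc 0 n) :
    ∃ a ∈ Icc 0 n, ∀ ε > 0, volume {u ∈ U | |f u - a| < ε} ≠ 0 := by
  by_contra hcon
  push Not at hcon
  choose! ε hε hnull using hcon
  obtain ⟨t, ht, hcov⟩ := (isCompact_Icc : IsCompact (Icc (0:ℝ) n)).elim_nhds_subcover
    (fun a => ball a (ε a)) (fun a ha => ball_mem_nhds a (hε a ha))
  apply hU
  have hsub : U ⊆ ⋃ a ∈ t, {u ∈ U | |f u - a| < ε a} := by
    intro u hu
    obtain ⟨a, ha, hua⟩ := mem_iUnion₂.1 (hcov (hf u hu))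
    exact mem_iUnion₂.2 ⟨a, ha, hu, by rwa [mem_ball, Real.dist_eq] at hua⟩
  refine measure_mono_null hsub ?_
  have h1 := (measure_biUnion_null_iff (μ := (volume : Measure ℝ)) t.countable_toSet
    (s := fun a => {u | u ∈ U ∧ |f u - a| < ε a})).2 (fun a ha => hnull a (ht a ha))
  simpa using h1

lemma planar_pos {C : Set (ℝ × ℝ)} (hC : MeasurableSet C) {U : Set ℝ} (hU : volume U ≠ 0)
    (h : ∀ u ∈ U, volume {s : ℝ | (s, u) ∈ C} ≠ 0) : volume C ≠ 0 := by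
  intro h0
  rw [Measure.volume_eq_prod, Measure.prod_apply_symm hC, lintegral_eq_zero_iff'
    (measurable_measure_prodMk_right hC).aemeasurable] at h0
  apply hU
  refine measure_mono_null ?_ (ae_iff.1 h0)
  intro u hu
  exact h u hu

lemma exists_iUnion {ι : Type*} [Countable ι] {α : Type*} [MeasurableSpace α] {μ : Measure α}
    {U : Set α} {s : ι → Set α} (hU : μ U ≠ 0) (h : U ⊆ ⋃ i, s i) : ∃ i, μ (U ∩ s i) ≠ 0 := by
  by_contra hcon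
  push Not at hcon
  apply hU
  refine measure_mono_null (t := ⋃ i, U ∩ s i) ?_ (measure_iUnion_null hcon)
  intro x hx
  obtain ⟨i, hi⟩ := mem_iUnion.1 (h hx)
  exact mem_iUnion.2 ⟨i, hx, hi⟩

end Crest.Agent.R102.Sup115
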