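import Mathlib
import Crest.Agent.R102.SupA_115

/-!
Row 102, T1-B, III.2 = SUP (helper115), part B: limits along product cones.
-/

set_option autoImplicit false
set_option linter.unusedVariables false
set_option linter.unusedSectionVars false

open Set Filter Topology Metric Complex MeasureTheory

noncomputable section

namespace Crest.Agent.R102.Sup115

open Crest.Agent.R102.End613 Crest.Agent.R102.S5

/-- `B → b` along all product cones at `e` -/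
def Lim (B : ℂ × ℂ → ℂ) (e : ℝ × ℝ) (b : ℂ) : Prop :=
  ∀ M : ℝ, Tendsto B (𝓝[Cn e M] ((e.1 : ℂ), (e.2 : ℂ))) (𝓝 b)

lemma ray_one (e : ℝ × ℝ) (s : ℝ) : ray e s = ((e.1 : ℂ) + s * (-I), (e.2 : ℂ) + s * (I / 4)) := rfl

lemma ray_im1 (e : ℝ × ℝ) (s : ℝ) : (ray e s).1.im = -s := by simp [ray_one]
lemma ray_re1 (e : ℝ × ℝ) (s : ℝ) : (ray e s).1.re = e.1 := by simp [ray_one]
lemma ray_im2 (e : ℝ × ℝ) (s : ℝ) : (ray e s).2.im = s / 4 := by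
  simp [ray_one]
  ring
lemma ray_sub2 (e : ℝ × ℝ) {s : ℝ} (hs : 0 ≤ s) : ‖(ray e s).2 - (e.2 : ℂ)‖ = s / 4 := by
  have : (ray e s).2 - (e.2 : ℂ) = ((s / 4 : ℝ) : ℂ) * I := by
    rw [ray_one]
    push_cast
    ring
  rw [this, norm_mul, Complex.norm_I, mul_one, Complex.norm_real, Real.norm_of_nonneg (by linarith)]

lemma ray_mem_Cn (e : ℝ × ℝ) {s : ℝ} (hs : 0 < s) : ray e s ∈ Cn e 8 := by
  refine ⟨by rw [ray_im1]; linarith, ?_, ?_⟩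
  · rw [ray_im1, ray_im2]; linarith
  · rw [ray_im1, ray_re1, ray_sub2 e hs.le, sub_self, abs_zero]
    linarith

lemma ray_mem_Co (e : ℝ × ℝ) {s lam d : ℝ} (hs : 0 < s) (hd : s < d) (hl : 0 < lam)
    (hl' : lam ≤ 1 / 64) : ray e s ∈ Co lam d e := by
  refine ⟨by rw [ray_im1]; linarith, by rw [ray_im1]; linarith, ?_, ?_⟩
  · rw [ray_im1, ray_im2]; nlinarith
  · rw [ray_im1, ray_re1, ray_sub2 e hs.le, sub_self, abs_zero]
    nlinarith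

lemma tendsto_ray (e : ℝ × ℝ) :
    Tendsto (fun s : ℝ => ray e s) (𝓝[>] 0) (𝓝[Cn e 8] ((e.1 : ℂ), (e.2 : ℂ))) := by
  refine tendsto_nhdsWithin_iff.2 ⟨?_, ?_⟩
  · have h : Continuous fun s : ℝ => ray e s := by
      simp only [ray_one]
      fun_prop
    have h1 := h.tendsto 0
    have h2 : ray e 0 = ((e.1 : ℂ), (e.2 : ℂ)) := by simp [ray_one]
    rw [h2] at h1
    exact h1.mono_left nhdsWithin_le_nhds
  · filter_upwards [self_mem_nhdsWithin] with s hs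
    exact ray_mem_Cn e hs

lemma Lim.ray {B : ℂ × ℂ → ℂ} {e : ℝ × ℝ} {b : ℂ} (h : Lim B e b) :
    Tendsto (fun s : ℝ => B (S5.ray e s)) (𝓝[>] 0) (𝓝 b) := (h 8).comp (tendsto_ray e)

lemma Lim.unique {B : ℂ × ℂ → ℂ} {e : ℝ × ℝ} {b b' : ℂ} (h : Lim B e b) (h' : Lim B e b') :
    b = b' := tendsto_nhds_unique h.ray h'.ray

/-- points of a cone of small depth are near the apex -/
lemma Cn_small (e : ℝ × ℝ) (M : ℝ) {ε : ℝ} (hε : 0 < ε) :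
    ∃ δ > 0, ∀ q ∈ Cn e M, -δ < q.1.im →
      dist q ((e.1 : ℂ), (e.2 : ℂ)) < ε ∧ 0 < q.2.im ∧ ‖q.2 - (e.2 : ℂ)‖ < ε := by
  refine ⟨ε / (2 * (|M| + 2)), by positivity, ?_⟩
  rintro q ⟨h1, h2, h3⟩ h4
  have hd : -q.1.im < ε / (2 * (|M| + 2)) := by linarith
  have hM : 0 ≤ M := by
    by_contra hM
    push Not at hM
    have : 0 ≤ |q.1.re - e.1| + ‖q.2 - (e.2 : ℂ)‖ := by positivity
    nlinarith
  have hMa : |M| = M := abs_of_nonneg hM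
  rw [hMa, lt_div_iff₀ (by positivity)] at hd
  have h5 : M * (-q.1.im) < ε / 2 := by nlinarith
  have h6 : -q.1.im < ε / 2 := by nlinarith
  have h7 : ‖q.2 - (e.2 : ℂ)‖ < ε := by
    have : 0 ≤ |q.1.re - e.1| := abs_nonneg _
    linarith
  refine ⟨?_, ?_, h7⟩
  · rw [Prod.dist_eq]
    refine max_lt ?_ (by rw [dist_eq_norm]; exact h7)
    rw [dist_eq_norm]
    have h8 := Complex.norm_le_abs_re_add_abs_im (q.1 - (e.1 : ℂ))
    have h9 : (q.1 - (e.1 : ℂ)).re = q.1.re - e.1 := by simp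
    have h10 : (q.1 - (e.1 : ℂ)).im = q.1.im := by simp
    rw [h9, h10, abs_of_neg h1] at h8
    have : 0 ≤ ‖q.2 - (e.2 : ℂ)‖ := norm_nonneg _
    show ‖q.1 - (e.1 : ℂ)‖ < ε
    linarith
  · by_contra h8
    push Not at h8
    nlinarith

lemma Co_sub_Cn {e : ℝ × ℝ} {lam d : ℝ} (hl : 0 < lam) : Co lam d e ⊆ Cn e (1 / lam) := by
  rintro q ⟨h1, h2, h3, h4⟩
  refine ⟨h1, ?_, ?_⟩
  · rw [one_div, ← div_eq_inv_mul, le_div_iff₀ hl]
    linarith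
  · rw [one_div, ← div_eq_inv_mul, le_div_iff₀ hl]
    linarith

lemma Co_mono {e : ℝ × ℝ} {lam d d' : ℝ} (hd : d ≤ d') : Co lam d e ⊆ Co lam d' e := by
  rintro q ⟨h1, h2, h3, h4⟩
  exact ⟨h1, by linarith, h3, h4⟩

/-- along the cone of aperture `1/lam`, eventually in a neighbourhood of the limit -/
lemma Lim.exists_co {B : ℂ × ℂ → ℂ} {e : ℝ × ℝ} {b : ℂ} (h : Lim B e b) {lam : ℝ} (hl : 0 < lam)
    {A : Set ℂ} (hA : A ∈ 𝓝 b) : ∃ j : ℕ, Co lam (1 / ((j : ℝ) + 1)) e ⊆ B ⁻¹' A := by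
  have h1 := h (1 / lam) hA
  obtain ⟨ε, hε, h2⟩ := Metric.mem_nhdsWithin_iff.1 h1
  obtain ⟨δ, hδ, h3⟩ := Cn_small e (1 / lam) hε
  obtain ⟨j, hj⟩ := exists_nat_one_div_lt hδ
  refine ⟨j, fun q hq => ?_⟩
  have hq' := Co_sub_Cn hl hq
  exact h2 ⟨(h3 q hq' (by linarith [hq.2.1])).1, hq'⟩

lemma Lim.mem_of_co {B : ℂ × ℂ → ℂ} {e : ℝ × ℝ} {b : ℂ} (h : Lim B e b) {lam d : ℝ} (hl : 0 < lam)
    (hl' : lam ≤ 1 / 64) (hd : 0 < d) {A : Set ℂ} (hA : IsClosed A) (hco : Co lam d e ⊆ B ⁻¹' A) :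
    b ∈ A := by
  refine hA.mem_of_tendsto h.ray ?_
  filter_upwards [Ioo_mem_nhdsGT hd] with s hs
  exact hco (ray_mem_Co e hs.1 hs.2 hl hl')

/-- points of cones are in the product domain -/
lemma Cn_Dp {u0 R d : ℝ} (hd : 0 < d) {e : ℝ × ℝ} (he : e.2 ∈ Ioo (u0 - R) (u0 + R)) (M : ℝ) :
    ∃ δ > 0, ∀ q ∈ Cn e M, -δ < q.1.im → q ∈ Dp u0 R d := by
  have h0 : 0 < R - |e.2 - u0| := by
    have := abs_lt.2 (show -R < e.2 - u0 ∧ e.2 - u0 < R from ⟨by linarith [he.1], by linarith [he.2]⟩)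
    linarith
  obtain ⟨δ, hδ, h3⟩ := Cn_small e M h0
  refine ⟨min δ d, lt_min hδ hd, fun q hq hqd => ?_⟩
  obtain ⟨-, h4, h5⟩ := h3 q hq (by linarith [min_le_left δ d])
  refine ⟨by linarith [min_le_right δ d], hq.1, ?_, h4⟩
  rw [mem_ball, dist_eq_norm]
  have h6 : q.2 - (u0 : ℂ) = (q.2 - (e.2 : ℂ)) + ((e.2 - u0 : ℝ) : ℂ) := by push_cast; ring
  rw [h6]
  refine (norm_add_le _ _).trans_lt ?_
  rw [Complex.norm_real, Real.norm_eq_abs]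
  linarith

lemma Co_Dp {u0 R R' : ℝ} {e : ℝ × ℝ} (he : |e.2 - u0| ≤ R') {lam d d' : ℝ} (hl : 0 < lam)
    (hd : d ≤ lam * (R - R')) (hd' : d ≤ d') : Co lam d e ⊆ Dp u0 R d' := by
  rintro q ⟨h1, h2, h3, h4⟩
  have h7 : 0 < lam * (-q.1.im) := mul_pos hl (by linarith)
  refine ⟨by linarith, h1, ?_, by
    show 0 < q.2.im
    linarith⟩
  rw [mem_ball, dist_eq_norm]
  have h6 : q.2 - (u0 : ℂ) = (q.2 - (e.2 : ℂ)) + ((e.2 - u0 : ℝ) : ℂ) := by push_cast; ring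
  rw [h6]
  refine (norm_add_le _ _).trans_lt ?_
  rw [Complex.norm_real, Real.norm_eq_abs]
  have h5 : lam * ‖q.2 - (e.2 : ℂ)‖ < lam * (R - R') := by
    have : 0 ≤ lam * |q.1.re - e.1| := by positivity
    nlinarith
  have h8 := lt_of_mul_lt_mul_left h5 hl.le
  linarith

lemma isOpen_HDu (u0 R : ℝ) : IsOpen (HDu u0 R) :=
  isOpen_ball.inter (isOpen_lt continuous_const Complex.continuous_im)

lemma isOpen_Dp (u0 R d : ℝ) : IsOpen (Dp u0 R d) :=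
  (isOpen_lt continuous_const (Complex.continuous_im.comp continuous_fst)).inter
    ((isOpen_lt (Complex.continuous_im.comp continuous_fst) continuous_const).inter
      ((isOpen_HDu u0 R).preimage continuous_snd))

variable {u0 R d h : ℝ} {S : Set ℂ} {Z Zc T c : ℂ → ℂ} {φ p B : ℂ × ℂ → ℂ} {X L : Set (ℂ × ℂ)}

/-- planar a.e.: limits exist and are interior (in `S`) or on the edges -/
lemma Dat.ae_lim (D : Dat u0 R d h S Z Zc T c φ p B X L) (hPB : ProdBlow) (hPU : ProdUniq) :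
    ∀ᵐ e : ℝ × ℝ, e.2 ∈ Ioo (u0 - R) (u0 + R) → ∃ b : ℂ, Lim B e b ∧ (b ∈ S ∨ |b.im| = h) := by
  have hBd : DifferentiableOn ℂ B (Dp u0 R d) := D.B_diff.mono D.Dp_X
  have hBi : ∀ q ∈ Dp u0 R d, |(B q).im| ≤ h := fun q hq => (D.B_im q (D.Dp_X hq)).le
  have h1 := hPB u0 R d h B D.R_pos D.d_pos hBd hBi
  have h2 : ∀ᵐ e : ℝ × ℝ, ∀ z ∈ ({b : ℂ | |b.im| < h} \ S), e.2 ∈ Ioo (u0 - R) (u0 + R) →
      ¬ Tendsto B (𝓝[Cn e 8] ((e.1 : ℂ), (e.2 : ℂ))) (𝓝 z) :=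
    (ae_ball_iff D.S_count).2 fun z _ => hPU u0 R d h B D.R_pos D.d_pos hBd hBi D.B_nc z
  filter_upwards [h1, h2] with e he1 he2 he
  obtain ⟨b, hb⟩ := he1 he
  refine ⟨b, hb, ?_⟩
  have hle : |b.im| ≤ h := by
    obtain ⟨δ, hδ, hδ'⟩ := Cn_Dp D.d_pos he 8
    have hL : Lim B e b := hb
    refine le_of_tendsto ((Complex.continuous_im.tendsto b).comp hL.ray).abs ?_
    filter_upwards [Ioo_mem_nhdsGT hδ] with s hs
    exact hBi _ (hδ' _ (ray_mem_Cn e hs.1) (by rw [ray_im1]; linarith [hs.2]))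
  rcases lt_or_eq_of_le hle with h3 | h3
  · left
    by_contra h4
    exact he2 b ⟨h3, h4⟩ he (hb 8)
  · exact Or.inr h3

lemma ae_swap' {P : ℝ × ℝ → Prop} (h : ∀ᵐ e : ℝ × ℝ, P e) : ∀ᵐ u : ℝ, ∀ᵐ s : ℝ, P (s, u) := by
  have h1 := (Measure.measurePreserving_swap (μ := (volume : Measure ℝ))
    (ν := (volume : Measure ℝ))).quasiMeasurePreserving
  rw [← Measure.volume_eq_prod] at h1
  have h2 : ∀ᵐ p : ℝ × ℝ, P p.swap := h1.ae h
  rw [Measure.volume_eq_prod] at h2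
  exact Measure.ae_ae_of_ae_prod h2

/-- a good label disc -/
def GD (S : Set ℂ) (T : ℂ → ℂ) (i l : ℕ) : Prop :=
  closedBall (TopologicalSpace.denseSeq ℂ i) (1 / ((l : ℝ) + 1)) ⊆ S ∧
    ∀ b ∈ closedBall (TopologicalSpace.denseSeq ℂ i) (1 / ((l : ℝ) + 1)),
      ∀ b' ∈ closedBall (TopologicalSpace.denseSeq ℂ i) (1 / ((l : ℝ) + 1)), ‖T b - T b'‖ ≤ 1

lemma exists_GD (hS : IsOpen S) (hT : ContinuousOn T S) {b : ℂ} (hb : b ∈ S) :
    ∃ i l : ℕ, GD S T i l ∧ b ∈ ball (TopologicalSpace.denseSeq ℂ i) (1 / ((l : ℝ) + 1)) := by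
  have h1 : ∀ᶠ z in 𝓝 b, z ∈ S ∧ dist (T z) (T b) < 1 / 2 :=
    (show ∀ᶠ z in 𝓝 b, z ∈ S from hS.mem_nhds hb).and
      ((hT.continuousAt (hS.mem_nhds hb)).eventually (ball_mem_nhds _ (by norm_num)))
  obtain ⟨ε, hε, h2⟩ := Metric.eventually_nhds_iff.1 h1
  obtain ⟨l, hl⟩ := exists_nat_one_div_lt (show 0 < ε / 2 by positivity)
  have hl0 : 0 < 1 / ((l : ℝ) + 1) := by positivity
  obtain ⟨i, hi⟩ := (TopologicalSpace.denseRange_denseSeq ℂ).exists_dist_lt b hl0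
  refine ⟨i, l, ?_, by rw [mem_ball]; exact hi⟩
  have h3 : ∀ z ∈ closedBall (TopologicalSpace.denseSeq ℂ i) (1 / ((l : ℝ) + 1)),
      z ∈ S ∧ dist (T z) (T b) < 1 / 2 := by
    intro z hz
    apply h2
    calc dist z b ≤ dist z (TopologicalSpace.denseSeq ℂ i) +
          dist b (TopologicalSpace.denseSeq ℂ i) := dist_triangle_right _ _ _
      _ < ε := by
          rw [mem_closedBall] at hz
          linarith
  refine ⟨fun z hz => (h3 z hz).1, fun z hz z' hz' => ?_⟩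
  have h4 := (h3 z hz).2
  have h5 := (h3 z' hz').2
  rw [← dist_eq_norm]
  linarith [dist_triangle_right (T z) (T z') (T b)]

end Crest.Agent.R102.Sup115
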