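import Mathlib
import Crest.Agent.R102.SupB_115

/-!
Row 102, T1-B, III.2 = SUP (helper115): the theorem `sup`.
-/

set_option autoImplicit false
set_option linter.unusedVariables false
set_option linter.unusedSectionVars false

open Set Filter Topology Metric Complex MeasureTheory

noncomputable section

namespace Crest.Agent.R102.Sup115

open Crest.Agent.R102.End613 Crest.Agent.R102.S5

variable {u0 R dd h : ℝ} {S : Set ℂ} {Z Zc T c : ℂ → ℂ} {φ p B : ℂ × ℂ → ℂ} {X L : Set (ℂ × ℂ)}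

lemma Co_lam {e : ℝ × ℝ} {lam lam' d : ℝ} (hl : lam' ≤ lam) : Co lam d e ⊆ Co lam' d e := by
  rintro q ⟨h1, h2, h3, h4⟩
  have h5 : 0 ≤ |q.1.re - e.1| + ‖q.2 - (e.2 : ℂ)‖ := by positivity
  exact ⟨h1, h2, by nlinarith, by nlinarith⟩

lemma Dat.F_diff (D : Dat u0 R dd h S Z Zc T c φ p B X L) {q : ℂ × ℂ} (hq : q ∈ Dp u0 R dd)
    (hqS : B q ∈ S) : DifferentiableAt ℂ (fun q => cexp (2 * I * (T (B q) - φ q))) q := by
  have h1 : DifferentiableAt ℂ B q := D.B_diff.differentiableAt (D.X_open.mem_nhds (D.Dp_X hq))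
  have h2 : DifferentiableAt ℂ T (B q) := D.T_diff.differentiableAt (D.S_open.mem_nhds hqS)
  have h3 : DifferentiableAt ℂ φ q := D.φ_diff.differentiableAt (D.L_open.mem_nhds (D.Dp_L hq))
  have h4 : DifferentiableAt ℂ (fun q => T (B q)) q := h2.comp q h1
  exact ((h4.sub h3).const_mul _).cexp

/-- assembling `In5` -/
lemma Dat.mk_In5 (D : Dat u0 R dd h S Z Zc T c φ p B X L) (hBi : BirthsOf)
    {a g T0 e0 Cs lam lam' r ρ η d₀ R' : ℝ} {P : Set (ℝ × ℝ)} {z₀ : ℂ} {r₀ : ℝ}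
    (ha : 0 ≤ a) (hg : 0 < g) (hr : 0 < r) (hρ : 0 < ρ)
    (hρr : ρ * (16 * (a + 4)) ^ 2 ≤ min r g) (hη : 0 < η) (hlam' : 0 < lam') (hll : lam' ≤ lam)
    (hd₀ : 0 < d₀) (hR' : R' < R) (hPc : IsClosed P) (hPp : 0 < volume P)
    (hdisc : closedBall z₀ r₀ ⊆ S)
    (hosc : ∀ b ∈ closedBall z₀ r₀, ∀ b' ∈ closedBall z₀ r₀, ‖T b - T b'‖ ≤ 1)
    (hPu : ∀ e ∈ P, |e.2 - u0| ≤ R') (hPE : ∀ e ∈ P, E2 X L a g ρ η e)
    (hPS : ∀ e ∈ P, Co lam' d₀ e ⊆ B ⁻¹' closedBall z₀ r₀)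
    (hPL : ∀ e ∈ P, ∃ b ∈ closedBall z₀ r₀, Lim B e b)
    (hPA : ∀ e ∈ P, Alt T0 e0 Cs (fun q => cexp (2 * I * (T (B q) - φ q))) e) :
    In5 S Z Zc T c φ p B h a g T0 e0 Cs lam r ρ P z₀ r₀ := by
  have hX : ∀ q ∈ X, DifferentiableAt ℂ B q := fun q hq =>
    D.B_diff.differentiableAt (D.X_open.mem_nhds hq)
  have hφ : ∀ q ∈ L, DifferentiableAt ℂ φ q := fun q hq =>
    D.φ_diff.differentiableAt (D.L_open.mem_nhds hq)
  have hp : ∀ q ∈ L, DifferentiableAt ℂ p q := fun q hq =>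
    D.p_diff.differentiableAt (D.L_open.mem_nhds hq)
  refine { closed := hPc, pos := hPp, disc := hdisc, osc := hosc,
           c_ne := fun b hb => D.c_ne b (hdisc hb), saw := ?_, low := ?_, line := ?_, lim := ?_,
           alt := fun e he => hPA e he, births := ?_ }
  · -- saw
    have hd1 : 0 < lam' * (R - R') := mul_pos hlam' (by linarith)
    refine ⟨min (min d₀ dd) (lam' * (R - R')), lt_min (lt_min hd₀ D.d_pos) hd1, fun q hq => ?_⟩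
    obtain ⟨e, he, hqe⟩ := mem_Saw.1 hq
    have hqe' := Co_lam hll hqe
    have hqD : q ∈ Dp u0 R dd := Co_Dp (hPu e he) hlam' (min_le_right _ _)
      ((min_le_left _ _).trans (min_le_right _ _)) hqe'
    have hqB : B q ∈ closedBall z₀ r₀ :=
      hPS e he (Co_mono ((min_le_left _ _).trans (min_le_left _ _)) hqe')
    have hqS := hdisc hqB
    exact ⟨hφ q (D.Dp_L hqD), hp q (D.Dp_L hqD), hX q (D.Dp_X hqD), hqB,
      D.inc q ⟨D.Dp_X hqD, D.Dp_L hqD⟩ hqS, D.omit1 q hqD hqS⟩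
  · -- low
    intro e he
    refine ⟨η, hη, fun q hq => ?_⟩
    have hqX := (hPE e he).low hq
    have hqL : q ∈ L := (hPE e he).line (Half_mono le_rfl (by linarith) hq)
    exact ⟨hφ q hqL, hp q hqL, hX q hqX, (D.B_im q hqX).le, fun hqS => D.inc q ⟨hqX, hqL⟩ hqS⟩
  · -- line
    intro e he
    exact ⟨η, hη, fun q hq => ⟨hφ q ((hPE e he).line hq), hp q ((hPE e he).line hq)⟩⟩
  · -- lim
    intro e he
    obtain ⟨b, hb, hL⟩ := hPL e he
    exact ⟨b, hb, hL⟩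
  · -- births
    intro e he q hq hqr
    have he2 : e.2 ∈ Ioo (u0 - R) (u0 + R) := by
      obtain ⟨h1, h2⟩ := abs_le.1 (hPu e he)
      exact ⟨by linarith, by linarith⟩
    exact hBi u0 R dd h a g ρ r η X L S Z Zc φ p B e ha hg hr hρ hρr hη D.X_open D.d_pos
      D.X_sub D.X_star
      D.Dp_X D.B_diff D.S_sub D.maxi he2 (hPE e he) q hq hqr

/-- closed subsets of positive measure avoiding a null set -/
lemma exists_closed_diff {C : Set (ℝ × ℝ)} (hC : IsClosed C) (hC0 : volume C ≠ 0)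
    {N : Set (ℝ × ℝ)} (hN : volume N = 0) :
    ∃ P ⊆ C, IsClosed P ∧ 0 < volume P ∧ ∀ e ∈ P, e ∉ N := by
  have hm : MeasurableSet (C \ toMeasurable volume N) :=
    hC.measurableSet.diff (measurableSet_toMeasurable _ _)
  have hv : 0 < volume (C \ toMeasurable volume N) := by
    rw [measure_sdiff_null ((measure_toMeasurable N).trans hN)]
    exact pos_iff_ne_zero.2 hC0
  obtain ⟨K, hK, hKc, hKv⟩ := hm.exists_lt_isCompact hv
  exact ⟨K, fun x hx => (hK hx).1, hKc.isClosed, hKv, fun e he hN' =>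
    (hK he).2 (subset_toMeasurable _ _ hN')⟩

/-- the planar step -/
lemma Dat.planar (D : Dat u0 R dd h S Z Zc T c φ p B X L) (hPB : ProdBlow) (hPU : ProdUniq)
    (hBi : BirthsOf) {T0 e0 Cs : ℝ}
    (hAlt : ∀ (P : Set (ℝ × ℝ)) (lam d : ℝ) (F : ℂ × ℂ → ℂ),
      IsClosed P → 0 < lam → lam ≤ 1 / 64 → 0 < d → DifferentiableOn ℂ F (Saw P lam d) →
      (∀ q ∈ Saw P lam d, F q ≠ 0 ∧ F q ≠ 1) →
      (∀ e ∈ P, ∀ M : ℝ, ∃ δ > 0, ∀ q ∈ Cn e M, -δ < q.1.im →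
        DifferentiableAt ℂ F q ∧ F q ≠ 0 ∧ F q ≠ 1) →
      ∀ᵐ e : ℝ × ℝ, e ∈ P → Alt T0 e0 Cs F e)
    {a g lam lam' r ρ η d₀ R' s' : ℝ} {z₀ : ℂ} {r₀ : ℝ}
    (ha : 0 ≤ a) (hg : 0 < g) (hr : 0 < r) (hρ : 0 < ρ)
    (hρr : ρ * (16 * (a + 4)) ^ 2 ≤ min r g) (hη : 0 < η) (hlam' : 0 < lam') (hll : lam' ≤ lam)
    (hl64 : lam' ≤ 1 / 64) (hd₀ : 0 < d₀) (hR' : R' < R)
    (hdisc : closedBall z₀ r₀ ⊆ S)
    (hosc : ∀ b ∈ closedBall z₀ r₀, ∀ b' ∈ closedBall z₀ r₀, ‖T b - T b'‖ ≤ 1)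
    {U : Set ℝ} (hU : volume U ≠ 0) (hUR : ∀ u ∈ U, |u - u0| ≤ R')
    (hUE : ∀ u ∈ U, ∀ s : ℝ, |s - s'| < η → E2 X L a g ρ η (s, u))
    (hUV : ∀ u ∈ U, volume {s : ℝ | |s - s'| < η ∧
      Co lam' d₀ (s, u) ⊆ B ⁻¹' closedBall z₀ r₀} ≠ 0) :
    ∃ P, In5 S Z Zc T c φ p B h a g T0 e0 Cs lam r ρ P z₀ r₀ := by
  -- the closed set
  set C : Set (ℝ × ℝ) := {e | E2 X L a g ρ η e} ∩ ({e | Co lam' d₀ e ⊆ B ⁻¹' closedBall z₀ r₀} ∩
    {e | |e.2 - u0| ≤ R'}) with hCdef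
  have hC : IsClosed C := (closed_E2 D.X_open a g ρ η).inter
    ((closed_Co lam' d₀ _).inter (isClosed_le (by fun_prop) continuous_const))
  have hC0 : volume C ≠ 0 := by
    refine planar_pos hC.measurableSet hU fun u hu h0 => hUV u hu (measure_mono_null ?_ h0)
    rintro s ⟨h1, h2⟩
    exact ⟨hUE u hu s h1, h2, hUR u hu⟩
  -- limits
  have hlim := D.ae_lim hPB hPU
  obtain ⟨P1, hP1C, hP1c, hP1p, hP1N⟩ := exists_closed_diff hC hC0 (ae_iff.1 hlim)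
  have hI : ∀ e ∈ C, e.2 ∈ Ioo (u0 - R) (u0 + R) := by
    intro e he
    obtain ⟨h1, h2⟩ := abs_le.1 (show |e.2 - u0| ≤ R' from he.2.2)
    exact ⟨by linarith, by linarith⟩
  have hL1 : ∀ e ∈ P1, ∃ b ∈ closedBall z₀ r₀, Lim B e b := by
    intro e he
    have h1 := hP1N e he
    simp only [mem_ofPred_eq, not_not] at h1
    obtain ⟨b, hb, -⟩ := h1 (hI e (hP1C he))
    exact ⟨b, hb.mem_of_co hlam' hl64 hd₀ isClosed_closedBall (hP1C he).2.1, hb⟩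
  -- Lemma G
  set F : ℂ × ℂ → ℂ := fun q => cexp (2 * I * (T (B q) - φ q)) with hF
  have hd1 : 0 < lam' * (R - R') := mul_pos hlam' (by linarith)
  set d := min (min d₀ dd) (lam' * (R - R')) with hd
  have hd0 : 0 < d := lt_min (lt_min hd₀ D.d_pos) hd1
  have hSaw : ∀ q ∈ Saw P1 lam' d, q ∈ Dp u0 R dd ∧ B q ∈ S := by
    intro q hq
    obtain ⟨e, he, hqe⟩ := mem_Saw.1 hq
    exact ⟨Co_Dp (hP1C he).2.2 hlam' (min_le_right _ _)
      ((min_le_left _ _).trans (min_le_right _ _)) hqe,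
      hdisc ((hP1C he).2.1 (Co_mono ((min_le_left _ _).trans (min_le_left _ _)) hqe))⟩
  have hae := hAlt P1 lam' d F hP1c hlam' hl64 hd0
    (fun q hq => (D.F_diff (hSaw q hq).1 (hSaw q hq).2).differentiableWithinAt)
    (fun q hq => ⟨Complex.exp_ne_zero _, D.omit1 q (hSaw q hq).1 (hSaw q hq).2⟩) (by
      intro e he M
      obtain ⟨b, hb, hL⟩ := hL1 e he
      have h1 := hL M (D.S_open.mem_nhds (hdisc hb))
      obtain ⟨ε, hε, h2⟩ := Metric.mem_nhdsWithin_iff.1 h1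
      obtain ⟨δ1, hδ1, h3⟩ := Cn_small e M hε
      obtain ⟨δ2, hδ2, h4⟩ := Cn_Dp D.d_pos (hI e (hP1C he)) M
      refine ⟨min δ1 δ2, lt_min hδ1 hδ2, fun q hq hqd => ?_⟩
      have h5 : q ∈ Dp u0 R dd := h4 q hq (by linarith [min_le_right δ1 δ2])
      have h6 : B q ∈ S := h2 ⟨(h3 q hq (by linarith [min_le_left δ1 δ2])).1, hq⟩
      exact ⟨D.F_diff h5 h6, Complex.exp_ne_zero _, D.omit1 q h5 h6⟩)
  obtain ⟨P, hPP1, hPc, hPp, hPN⟩ := exists_closed_diff hP1c hP1p.ne' (ae_iff.1 hae)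
  refine ⟨P, D.mk_In5 hBi ha hg hr hρ hρr hη hlam' hll hd₀ hR' hPc hPp hdisc hosc
    (fun e he => (hP1C (hPP1 he)).2.2) (fun e he => (hP1C (hPP1 he)).1)
    (fun e he => (hP1C (hPP1 he)).2.1) (fun e he => hL1 e (hPP1 he)) (fun e he => ?_)⟩
  have h1 := hPN e he
  simp only [mem_ofPred_eq, not_not] at h1
  exact h1 (hPP1 he)

/-- **SUP** -/
theorem sup (h5 : Step5) (hPB : ProdBlow) (hPU : ProdUniq) (hAlt : AltAe) (hBi : BirthsOf) :
    Sup := by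
  intro u0 R dd h S Z Zc T c φ p B X L D
  by_contra hcon
  have hlim := D.ae_lim hPB hPU
  have hlim1 := ae_swap' hlim
  -- the bad set
  set U0 : Set ℝ := {u | u ∈ Ioo (u0 - R) (u0 + R) ∧
    (∀ᵐ s : ℝ, ∃ b : ℂ, Lim B (s, u) b ∧ (b ∈ S ∨ |b.im| = h)) ∧
    ∃ s₀ a₀ g₀ : ℝ, GoodU X L u s₀ a₀ g₀ ∧ ¬ ∃ δ > 0, ∀ᵐ s : ℝ, |s - s₀| < δ →
      ∃ b : ℂ, |b.im| = h ∧ Lim B (s, u) b} with hU0
  have hU0v : volume U0 ≠ 0 := by
    intro h0
    apply hcon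
    have h1 : ∀ᵐ u : ℝ, u ∉ U0 := measure_eq_zero_iff_ae_notMem.1 h0
    filter_upwards [h1, hlim1] with u hu1 hu2 hu s₀ a₀ g₀ hgood
    by_contra h3
    exact hu1 ⟨hu, hu2.mono fun s hs => hs hu, s₀, a₀, g₀, hgood, h3⟩
  have hch : ∀ u ∈ U0, ∃ s₀ a₀ g₀ : ℝ, GoodU X L u s₀ a₀ g₀ ∧
      ∀ δ > 0, volume {s : ℝ | |s - s₀| < δ ∧ ∃ b ∈ S, Lim B (s, u) b} ≠ 0 := by
    rintro u ⟨hu1, hu2, s₀, a₀, g₀, hgood, hno⟩
    refine ⟨s₀, a₀, g₀, hgood, fun δ hδ h0 => hno ⟨δ, hδ, ?_⟩⟩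
    filter_upwards [hu2, measure_eq_zero_iff_ae_notMem.1 h0] with s hs1 hs2 hs3
    obtain ⟨b, hb, hb'⟩ := hs1
    rcases hb' with hb' | hb'
    · exact absurd ⟨hs3, b, hb', hb⟩ hs2
    · exact ⟨b, hb', hb⟩
  choose! s₀ a₀ g₀ hgood hpos using hch
  -- the gap
  obtain ⟨n, hn⟩ := exists_iUnion hU0v
    (s := fun n : ℕ => {u : ℝ | 2 * (1 / ((n : ℝ) + 1)) ≤ g₀ u ∧ a₀ u ≤ n}) (by
      intro u hu
      obtain ⟨h1, h2, -⟩ := hgood u hu
      obtain ⟨n1, hn1⟩ := exists_nat_one_div_lt (show 0 < g₀ u / 2 by linarith)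
      obtain ⟨n2, hn2⟩ := exists_nat_ge (a₀ u)
      refine mem_iUnion.2 ⟨max n1 n2, ?_, ?_⟩
      · have h3 : 1 / (((max n1 n2 : ℕ) : ℝ) + 1) ≤ 1 / ((n1 : ℝ) + 1) := by
          apply one_div_le_one_div_of_le (by positivity)
          have : (n1 : ℝ) ≤ ((max n1 n2 : ℕ) : ℝ) := by exact_mod_cast le_max_left _ _
          linarith
        linarith
      · have : (n2 : ℝ) ≤ ((max n1 n2 : ℕ) : ℝ) := by exact_mod_cast le_max_right _ _
        linarith)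
  set g : ℝ := 1 / ((n : ℝ) + 1) with hg
  have hg0 : 0 < g := by positivity
  obtain ⟨a, ha, haU⟩ := exists_level hn (f := a₀) (n := (n : ℝ))
    (fun u hu => ⟨(hgood u hu.1).1, hu.2.2⟩)
  obtain ⟨T0, e0, Cs, he0, hCs, hAlt⟩ := hAlt
  refine h5 S Z Zc T c φ p B h a g T0 e0 Cs D.S_open D.Z_deriv D.Zc_deriv D.T_diff.continuousOn
    D.c_cont ha.1 hg0 he0 hCs ?_
  intro lam hlam r hr
  have ha0 : 0 ≤ a := ha.1
  -- constants
  obtain ⟨lam', hlam', hll, hl64⟩ : ∃ lam' : ℝ, 0 < lam' ∧ lam' ≤ lam ∧ lam' ≤ 1 / 64 :=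
    ⟨min lam (1 / 64), lt_min hlam (by norm_num), min_le_left _ _, min_le_right _ _⟩
  obtain ⟨ρ, hρ, hρ1, hρr⟩ : ∃ ρ : ℝ, 0 < ρ ∧ ρ ≤ 1 ∧ ρ * (16 * (a + 4)) ^ 2 ≤ min r g := by
    have h1 : 0 < min r g := lt_min hr hg0
    have h2 : 0 < (16 * (a + 4)) ^ 2 := by positivity
    refine ⟨min 1 (min r g / (16 * (a + 4)) ^ 2), lt_min one_pos (by positivity),
      min_le_left _ _, ?_⟩
    calc min 1 (min r g / (16 * (a + 4)) ^ 2) * (16 * (a + 4)) ^ 2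
        ≤ (min r g / (16 * (a + 4)) ^ 2) * (16 * (a + 4)) ^ 2 := by
          gcongr
          exact min_le_right _ _
      _ = min r g := by field_simp
  have hU2 := haU (min (ρ / 4) g) (lt_min (by positivity) hg0)
  -- the countable selection
  obtain ⟨⟨k, i', m, i, l, j⟩, hidx⟩ := exists_iUnion hU2
    (s := fun x : ℕ × ℕ × ℕ × ℕ × ℕ × ℕ => {u : ℝ |
      |u - u0| ≤ R - 1 / ((x.2.2.1 : ℝ) + 1) ∧
      (∀ s : ℝ, |s - TopologicalSpace.denseSeq ℝ x.2.1| < 1 / ((x.1 : ℝ) + 1) →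
        E2 X L a g ρ (1 / ((x.1 : ℝ) + 1)) (s, u)) ∧
      GD S T x.2.2.2.1 x.2.2.2.2.1 ∧
      volume {s : ℝ | |s - TopologicalSpace.denseSeq ℝ x.2.1| < 1 / ((x.1 : ℝ) + 1) ∧
        Co lam' (1 / ((x.2.2.2.2.2 : ℝ) + 1)) (s, u) ⊆ B ⁻¹' closedBall
          (TopologicalSpace.denseSeq ℂ x.2.2.2.1) (1 / ((x.2.2.2.2.1 : ℝ) + 1))} ≠ 0}) (by
      rintro u ⟨⟨hu0, hu1, hu2⟩, hu3⟩
      obtain ⟨-, -, hE⟩ := hgood u hu0
      obtain ⟨δ, hδ, hE⟩ := hE (ρ / 4) (by positivity)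
      obtain ⟨k, hk⟩ := exists_nat_one_div_lt (show 0 < δ / 2 by positivity)
      have hk0 : 0 < 1 / ((k : ℝ) + 1) := by positivity
      obtain ⟨i', hi'⟩ := (TopologicalSpace.denseRange_denseSeq ℝ).exists_dist_lt (s₀ u)
        (show 0 < 1 / ((k : ℝ) + 1) / 2 by positivity)
      rw [Real.dist_eq] at hi'
      have hin : 0 < R - |u - u0| := by
        have := abs_lt.2 (show -R < u - u0 ∧ u - u0 < R from
          ⟨by linarith [hu0.1.1], by linarith [hu0.1.2]⟩)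
        linarith
      obtain ⟨m, hm⟩ := exists_nat_one_div_lt hin
      -- the set with limits
      set W : Set ℝ := {s | |s - TopologicalSpace.denseSeq ℝ i'| < 1 / ((k : ℝ) + 1) ∧
        ∃ b ∈ S, Lim B (s, u) b} with hW
      have hWv : volume W ≠ 0 := by
        intro h0
        refine hpos u hu0 (1 / ((k : ℝ) + 1) / 2) (by positivity) (measure_mono_null ?_ h0)
        rintro s ⟨hs1, hs2⟩
        refine ⟨?_, hs2⟩
        calc |s - TopologicalSpace.denseSeq ℝ i'| ≤ |s - s₀ u| +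
              |s₀ u - TopologicalSpace.denseSeq ℝ i'| := abs_sub_le _ _ _
          _ < 1 / ((k : ℝ) + 1) := by linarith
      obtain ⟨⟨i, l, j⟩, hijl⟩ := exists_iUnion hWv
        (s := fun x : ℕ × ℕ × ℕ => {s : ℝ | GD S T x.1 x.2.1 ∧
          Co lam' (1 / ((x.2.2 : ℝ) + 1)) (s, u) ⊆ B ⁻¹' closedBall
            (TopologicalSpace.denseSeq ℂ x.1) (1 / ((x.2.1 : ℝ) + 1))}) (by
          rintro s ⟨-, b, hb, hL⟩
          obtain ⟨i, l, h1, h2⟩ := exists_GD D.S_open D.T_diff.continuousOn hb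
          obtain ⟨j, hj⟩ := hL.exists_co hlam' (closedBall_mem_nhds_of_mem h2)
          exact mem_iUnion.2 ⟨(i, l, j), h1, hj⟩)
      have hne : (W ∩ {s : ℝ | GD S T i l ∧
          Co lam' (1 / ((j : ℝ) + 1)) (s, u) ⊆ B ⁻¹' closedBall
            (TopologicalSpace.denseSeq ℂ i) (1 / ((l : ℝ) + 1))}).Nonempty := by
        by_contra h1
        rw [not_nonempty_iff_eq_empty] at h1
        apply hijl
        show volume (W ∩ {s : ℝ | GD S T i l ∧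
          Co lam' (1 / ((j : ℝ) + 1)) (s, u) ⊆ B ⁻¹' closedBall
            (TopologicalSpace.denseSeq ℂ i) (1 / ((l : ℝ) + 1))}) = 0
        rw [h1, measure_empty]
      obtain ⟨s1, -, hGD, -⟩ := hne
      refine mem_iUnion.2 ⟨(k, i', m, i, l, j), ?_, ?_, hGD, ?_⟩
      · show |u - u0| ≤ R - 1 / ((m : ℝ) + 1)
        linarith
      · intro s hs
        have hs' : |s - s₀ u| < δ := by
          calc |s - s₀ u| ≤ |s - TopologicalSpace.denseSeq ℝ i'| +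
                |TopologicalSpace.denseSeq ℝ i' - s₀ u| := abs_sub_le _ _ _
            _ < δ := by
                rw [abs_sub_comm (TopologicalSpace.denseSeq ℝ i')]
                have hs0 : |s - TopologicalSpace.denseSeq ℝ i'| < 1 / ((k : ℝ) + 1) := hs
                linarith
        have h3 : |a₀ u - a| < ρ / 4 := lt_of_lt_of_le hu3 (min_le_left _ _)
        have h4 : |a₀ u - a| < g := lt_of_lt_of_le hu3 (min_le_right _ _)
        have h5 : 2 * g ≤ g₀ u := hu1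
        exact (hE s hs').transfer (by
          show 1 / ((k : ℝ) + 1) ≤ δ
          linarith) (by positivity) (by linarith) h3.le (by
          obtain ⟨h6, h7⟩ := abs_lt.1 h4
          linarith)
      · intro h0
        refine hijl (measure_mono_null ?_ h0)
        rintro s ⟨⟨h1, -⟩, -, h2⟩
        exact ⟨h1, h2⟩)
  set U3 := {u | u ∈ U0 ∩ {u : ℝ | 2 * (1 / ((n : ℝ) + 1)) ≤ g₀ u ∧ a₀ u ≤ n} ∧
    |a₀ u - a| < min (ρ / 4) g} ∩ {u : ℝ |
      |u - u0| ≤ R - 1 / ((m : ℝ) + 1) ∧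
      (∀ s : ℝ, |s - TopologicalSpace.denseSeq ℝ i'| < 1 / ((k : ℝ) + 1) →
        E2 X L a g ρ (1 / ((k : ℝ) + 1)) (s, u)) ∧
      GD S T i l ∧
      volume {s : ℝ | |s - TopologicalSpace.denseSeq ℝ i'| < 1 / ((k : ℝ) + 1) ∧
        Co lam' (1 / ((j : ℝ) + 1)) (s, u) ⊆ B ⁻¹' closedBall
          (TopologicalSpace.denseSeq ℂ i) (1 / ((l : ℝ) + 1))} ≠ 0} with hU3
  have hU3v : volume U3 ≠ 0 := hidx
  have hne : U3.Nonempty := by
    by_contra h1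
    rw [not_nonempty_iff_eq_empty] at h1
    apply hU3v
    rw [h1, measure_empty]
  obtain ⟨u1, -, -, -, hGD, -⟩ := hne
  obtain ⟨P, hP⟩ := D.planar hPB hPU hBi hAlt (a := a) (g := g) (lam := lam) (lam' := lam')
    (r := r) (ρ := ρ) (η := 1 / ((k : ℝ) + 1)) (d₀ := 1 / ((j : ℝ) + 1))
    (R' := R - 1 / ((m : ℝ) + 1)) (s' := TopologicalSpace.denseSeq ℝ i')
    (z₀ := TopologicalSpace.denseSeq ℂ i) (r₀ := 1 / ((l : ℝ) + 1)) ha0 hg0 hr hρ hρr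
    (by positivity) hlam' hll hl64 (by positivity) (by
      have : 0 < 1 / ((m : ℝ) + 1) := by positivity
      linarith) hGD.1 hGD.2 hU3v (fun u hu => hu.2.1) (fun u hu => hu.2.2.1)
    (fun u hu => hu.2.2.2.2)
  exact ⟨ρ, P, _, _, hρ, hρ1, hP⟩

end Crest.Agent.R102.Sup115
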