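import Mathlib
import Crest.Agent.R102.Sup_115
import Crest.Agent.R102.ProdBlow_115
import Crest.Agent.R102.ProdUniq_725
import Crest.Agent.R102.AltAe_613
import Crest.Agent.R102.BirthsOf_150
import Crest.Agent.R102.DiscF_669

/-!
Row 102, T1-B, III.2: `supFin : Sup` (all leaves plugged; helper115).
-/

set_option autoImplicit false

namespace Crest.Agent.R102.Sup115

theorem supFin : Sup :=
  sup DiscT669.step5 prodBlow ProdUniq725.prodUniq Alt613.altAe PartII150.birthsOf

end Crest.Agent.R102.Sup115
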