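import Crest.Agent.R102.RegFace_359
import Crest.Agent.R102.EdgeLim_196
import Crest.Agent.R102.SupDefs_115

/-!
Row 102, T1-B, EDGE (helper359): **births against regularity, on the objects of `SupDefs_115`**.

* `no_ext`    : at a window of Part II (`E2`) the label has no interior extension across the face;
* `no_simple` : a sequence of windows, limit incidence with an interior SIMPLE root which is a
  cluster value of the labels: contradiction;
* `end_tang`  : hence (196) the limit label is tangential everywhere.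
-/

set_option autoImplicit false

open Set Filter Topology Metric Complex

noncomputable section

namespace Crest.Agent.R102.RegBirths359

open Crest.Agent.R102.S5 (Half bl Gam Low)
open Crest.Agent.R102.Sup115 Crest.Agent.R102.RegFace359
open Crest.Agent.R102.EdgeLim196

/-- inverse blow-up -/
def ib (e : ℝ × ℝ) (s : ℝ) (q : ℂ × ℂ) : ℂ × ℂ := ((q.1 - e.1) / s, (q.2 - e.2) / s)

theorem bl_ib (e : ℝ × ℝ) {s : ℝ} (hs : s ≠ 0) (q : ℂ × ℂ) : bl e s (ib e s q) = q := by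
  have h : (s : ℂ) ≠ 0 := by exact_mod_cast hs
  unfold bl ib
  ext1
  · simp only; field_simp; ring
  · simp only; field_simp; ring

theorem ib_bl (e : ℝ × ℝ) {s : ℝ} (hs : s ≠ 0) (q : ℂ × ℂ) : ib e s (bl e s q) = q := by
  have h : (s : ℂ) ≠ 0 := by exact_mod_cast hs
  unfold bl ib
  ext1
  · simp only; field_simp; ring
  · simp only; field_simp; ring

theorem differentiable_ib (e : ℝ × ℝ) (s : ℝ) : Differentiable ℂ (ib e s) := by
  unfold ib
  fun_prop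

theorem differentiable_bl (e : ℝ × ℝ) (s : ℝ) : Differentiable ℂ (bl e s) := by
  unfold bl
  exact ((differentiable_const _).add ((differentiable_const _).mul differentiable_fst)).prodMk
    ((differentiable_const _).add ((differentiable_const _).mul differentiable_snd))

/-- the low part at level `m` -/
def Wm (m : ℝ) : Set (ℂ × ℂ) := {q | 0 < q.2.im ∧ q.1.im < m * q.2.im}

theorem Wm_eq (m : ℝ) : Wm m = Lo m := rfl

/-- points of the low part are in the sheet -/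
theorem bl_mem {X L : Set (ℂ × ℂ)} {a g ρ η s : ℝ} {e : ℝ × ℝ} (hE : E2 X L a g ρ η e)
    (hs : 0 < s) {x : ℂ × ℂ} (hx : x ∈ Wm (a - ρ)) (hn : s * ‖x‖ < η) : bl e s x ∈ X := by
  refine hE.low ?_
  have h1 : ‖x.1‖ ≤ ‖x‖ := norm_fst_le x
  have h2 : ‖x.2‖ ≤ ‖x‖ := norm_snd_le x
  have hb1 : s * ‖x.1‖ < η := (mul_le_mul_of_nonneg_left h1 hs.le).trans_lt hn
  have hb2 : s * ‖x.2‖ < η := (mul_le_mul_of_nonneg_left h2 hs.le).trans_lt hn
  have e1 : (bl e s x).1.re = e.1 + s * x.1.re := by unfold bl; simp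
  have e2 : (bl e s x).1.im = s * x.1.im := by unfold bl; simp
  have e3 : (bl e s x).2.im = s * x.2.im := by unfold bl; simp
  have e4 : (bl e s x).2 - (e.2 : ℂ) = s * x.2 := by unfold bl; ring
  refine ⟨?_, ?_, ?_, ?_, ?_⟩
  · rw [e1, add_sub_cancel_left, abs_mul, abs_of_pos hs]
    exact (mul_le_mul_of_nonneg_left (Complex.abs_re_le_norm _) hs.le).trans_lt hb1
  · rw [e2]
    have h3 : -‖x.1‖ ≤ x.1.im := (abs_le.1 (Complex.abs_im_le_norm x.1)).1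
    have := mul_le_mul_of_nonneg_left h3 hs.le
    linarith
  · rw [e4, norm_mul, Complex.norm_real, Real.norm_eq_abs, abs_of_pos hs]
    exact hb2
  · rw [e3]; exact mul_pos hs hx.1
  · rw [e2, e3]
    have := mul_lt_mul_of_pos_left hx.2 hs
    linarith

/-- **vertical climb**: a regular interior function which agrees with `B` at the bottom of a
vertical segment keeps the segment in the sheet. -/
theorem climb {X : Set (ℂ × ℂ)} {h : ℝ} {B Bt : ℂ × ℂ → ℂ} (hXo : IsOpen X)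
    (hB : AnalyticOnNhd ℂ B X) (hmax : MaxiX h X B) {q : ℂ × ℂ} {τ0 : ℝ} (hτ0 : 0 ≤ τ0)
    (hBt : ∀ t ∈ Icc (0 : ℝ) τ0, AnalyticAt ℂ Bt (q.1 - t * I, q.2) ∧
      |(Bt (q.1 - t * I, q.2)).im| < h)
    (hbot : (q.1 - τ0 * I, q.2) ∈ X ∧ Bt =ᶠ[𝓝 (q.1 - τ0 * I, q.2)] B) : q ∈ X := by
  set σ : ℝ → ℂ × ℂ := fun t => (q.1 - t * I, q.2) with hσ
  have hσc : Continuous σ := by rw [hσ]; fun_prop
  set P : ℝ → Prop := fun t => σ t ∈ X ∧ Bt =ᶠ[𝓝 (σ t)] B with hP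
  have hPo : IsOpen {t | P t} := by
    rw [isOpen_iff_mem_nhds]
    rintro t ⟨h1, h2⟩
    have h3 : ∀ᶠ x in 𝓝 (σ t), x ∈ X ∧ Bt =ᶠ[𝓝 x] B :=
      (show ∀ᶠ x in 𝓝 (σ t), x ∈ X from hXo.mem_nhds h1).and (eventually_eventually_nhds.2 h2)
    exact hσc.continuousAt.eventually h3
  by_contra hq
  have h0 : ¬ P 0 := by
    rintro ⟨h1, -⟩
    apply hq
    have : σ 0 = q := by rw [hσ]; simp
    rwa [this] at h1
  set Z : Set ℝ := Icc 0 τ0 ∩ {t | P t}ᶜ with hZ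
  have hZc : IsCompact Z := isCompact_Icc.inter_right hPo.isClosed_compl
  obtain ⟨t, ⟨⟨ht0, ht1⟩, htP⟩, htmax⟩ := hZc.exists_isGreatest ⟨0, ⟨le_rfl, hτ0⟩, h0⟩
  have htlt : t < τ0 := by
    rcases ht1.lt_or_eq with h | h
    · exact h
    · exact absurd (h ▸ hbot : P t) htP
  have hup : ∀ t', t < t' → t' ≤ τ0 → P t' := by
    intro t' h1 h2
    by_contra h3
    exact absurd (htmax ⟨⟨ht0.trans h1.le, h2⟩, h3⟩) (not_le.2 h1)
  have hshift : ∀ τ : ℝ, ((σ t).1 - τ * I, (σ t).2) = σ (t + τ) := by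
    intro τ
    rw [hσ]
    simp only
    ext1
    · simp only; push_cast; ring
    · rfl
  have hev : ∀ᶠ τ : ℝ in 𝓝[>] 0, σ (t + τ) ∈ X ∧ Bt =ᶠ[𝓝 (σ (t + τ))] B := by
    have h1 : ∀ᶠ τ : ℝ in 𝓝[>] 0, τ < τ0 - t :=
      mem_nhdsWithin_of_mem_nhds (gt_mem_nhds (by linarith))
    filter_upwards [h1, self_mem_nhdsWithin] with τ h2 h3
    have h3' : (0 : ℝ) < τ := h3
    exact hup (t + τ) (by linarith) (by linarith)
  have htX : σ t ∈ X := by
    refine hmax (σ t) Bt (hBt t ⟨ht0, ht1⟩).1 (hBt t ⟨ht0, ht1⟩).2 ?_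
    filter_upwards [hev] with τ hτ
    rw [hshift τ]
    exact hτ
  apply htP
  refine ⟨htX, ?_⟩
  -- identity theorem on a small ball
  have hBta : ∀ᶠ x in 𝓝 (σ t), AnalyticAt ℂ Bt x := (hBt t ⟨ht0, ht1⟩).1.eventually_analyticAt
  obtain ⟨r, hr, hball⟩ := Metric.eventually_nhds_iff_ball.1 (hBta.and (hXo.mem_nhds htX))
  have hin : ∀ᶠ τ : ℝ in 𝓝[>] 0, σ (t + τ) ∈ ball (σ t) r := by
    have h1 : Continuous fun τ : ℝ => σ (t + τ) := hσc.comp (continuous_const.add continuous_id)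
    have h2 : ∀ᶠ τ : ℝ in 𝓝 0, σ (t + τ) ∈ ball (σ t) r := by
      have h3 := h1.tendsto 0
      rw [add_zero] at h3
      exact h3.eventually (ball_mem_nhds _ hr)
    exact mem_nhdsWithin_of_mem_nhds h2
  obtain ⟨τ, h1, h2⟩ := (hin.and hev).exists
  have h3 : EqOn Bt B (ball (σ t) r) :=
    AnalyticOnNhd.eqOn_of_preconnected_of_eventuallyEq (fun x hx => (hball x hx).1)
      (fun x hx => hB x (hball x hx).2) (convex_ball _ _).isPreconnected h1 h2.2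
  exact h3.eventuallyEq_of_mem (ball_mem_nhds _ hr)

set_option maxHeartbeats 1000000 in
/-- **(A)** no interior extension across the face at a window of Part II -/
theorem no_ext {X L : Set (ℂ × ℂ)} {a g ρ η h s r1 : ℝ} {B : ℂ × ℂ → ℂ} {e : ℝ × ℝ}
    (hE : E2 X L a g ρ η e) (hXo : IsOpen X) (hB : DifferentiableOn ℂ B X) (hmax : MaxiX h X B)
    (ha : 0 ≤ a) (hρ0 : 0 ≤ ρ) (_hρ1 : ρ ≤ 1) (hs : 0 < s) (hr1 : 0 < r1) {q0 : ℂ × ℂ}
    (hq0 : q0.1.im = a * q0.2.im) (hscale : s * ((1 + a) * ‖q0‖ + r1) < η)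
    (hρ2 : ρ * ‖q0‖ < q0.2.im) (hρ3 : ρ * ((4 * a + 16) * ‖q0‖) < r1) :
    ¬ ∃ G : ℂ × ℂ → ℂ, DifferentiableOn ℂ G (ball q0 r1) ∧
      (∀ x ∈ ball q0 r1, |(G x).im| < h) ∧
      ∀ x ∈ ball q0 r1, x ∈ Wm (a - ρ) → G x = B (bl e s x) := by
  rintro ⟨G, hG, hGh, hGB⟩
  have hsne : s ≠ 0 := hs.ne'
  have hsc : (s : ℂ) ≠ 0 := by exact_mod_cast hsne
  have hn0 : 0 ≤ ‖q0‖ := norm_nonneg _
  have hn1 : ‖q0.1‖ ≤ ‖q0‖ := norm_fst_le q0
  have hn2 : ‖q0.2‖ ≤ ‖q0‖ := norm_snd_le q0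
  have him0 : 0 < q0.2.im := lt_of_le_of_lt (mul_nonneg hρ0 hn0) hρ2
  have hρn : ρ * ‖q0.2‖ ≤ ρ * ‖q0‖ := mul_le_mul_of_nonneg_left hn2 hρ0
  -- a point outside the sheet
  obtain ⟨q, hqX, h1, h2, h3, h4⟩ := hE.dense (e.1 + s * (q0.1.re - a * q0.2.re)) (by
      rw [add_sub_cancel_left, abs_mul, abs_of_pos hs]
      refine lt_of_le_of_lt (mul_le_mul_of_nonneg_left ?_ hs.le) hscale
      have h5 : |q0.1.re - a * q0.2.re| ≤ |q0.1.re| + |a * q0.2.re| := abs_sub _ _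
      have h6 : |a * q0.2.re| ≤ a * ‖q0‖ := by
        rw [abs_mul, abs_of_nonneg ha]
        exact mul_le_mul_of_nonneg_left ((Complex.abs_re_le_norm _).trans hn2) ha
      have h7 := (Complex.abs_re_le_norm q0.1).trans hn1
      linarith) (s * q0.2) (by
      rw [norm_mul, Complex.norm_real, Real.norm_eq_abs, abs_of_pos hs]
      refine lt_of_le_of_lt (mul_le_mul_of_nonneg_left ?_ hs.le) hscale
      nlinarith [mul_nonneg ha hn0]) (by
      simpa using mul_pos hs him0) (by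
      rw [norm_mul, Complex.norm_real, Real.norm_eq_abs, abs_of_pos hs]
      have : ((s : ℂ) * q0.2).im = s * q0.2.im := by simp
      rw [this]
      nlinarith)
  -- rescale
  set y : ℂ × ℂ := ib e s q with hy
  have hyq : bl e s y = q := bl_ib e hsne q
  have e1 : q.1.re = e.1 + s * y.1.re := by rw [← hyq]; unfold bl; simp
  have e2 : q.1.im = s * y.1.im := by rw [← hyq]; unfold bl; simp
  have e3 : q.2.im = s * y.2.im := by rw [← hyq]; unfold bl; simp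
  have e4 : q.2 = e.2 + s * y.2 := by rw [← hyq]; unfold bl; simp
  have hns : ‖(s : ℂ) * q0.2‖ = s * ‖q0.2‖ := by
    rw [norm_mul, Complex.norm_real, Real.norm_eq_abs, abs_of_pos hs]
  have g1 : |y.1.re - q0.1.re| ≤ ρ * ‖q0.2‖ := by
    rw [hns, e1] at h1
    have h5 : e.1 + s * y.1.re - (e.1 + s * (q0.1.re - a * q0.2.re) + a * ((s : ℂ) * q0.2).re) =
        s * (y.1.re - q0.1.re) := by
      have : ((s : ℂ) * q0.2).re = s * q0.2.re := by simp
      rw [this]; ring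
    rw [h5, abs_mul, abs_of_pos hs] at h1
    have h6 : s * |y.1.re - q0.1.re| ≤ s * (ρ * ‖q0.2‖) := by linarith
    exact le_of_mul_le_mul_left h6 hs
  have g2 : ‖y.2 - q0.2‖ ≤ ρ * ‖q0.2‖ := by
    rw [hns, e4] at h2
    have h5 : (e.2 : ℂ) + s * y.2 - (e.2 + s * q0.2) = s * (y.2 - q0.2) := by ring
    rw [h5, norm_mul, Complex.norm_real, Real.norm_eq_abs, abs_of_pos hs] at h2
    have h6 : s * ‖y.2 - q0.2‖ ≤ s * (ρ * ‖q0.2‖) := by linarith
    exact le_of_mul_le_mul_left h6 hs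
  have g3 : (a - ρ) * y.2.im ≤ y.1.im := by
    rw [e2, e3] at h3
    have : s * ((a - ρ) * y.2.im) ≤ s * y.1.im := by linarith
    exact le_of_mul_le_mul_left this hs
  have g4 : y.1.im ≤ (a + ρ) * y.2.im := by
    rw [e2, e3] at h4
    have : s * y.1.im ≤ s * ((a + ρ) * y.2.im) := by linarith
    exact le_of_mul_le_mul_left this hs
  have g5 : |y.2.im - q0.2.im| ≤ ρ * ‖q0.2‖ := by
    have := (Complex.abs_im_le_norm (y.2 - q0.2)).trans g2
    rwa [Complex.sub_im] at this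
  have hq2i : q0.2.im ≤ ‖q0‖ := ((le_abs_self _).trans (Complex.abs_im_le_norm _)).trans hn2
  have g5' := abs_le.1 g5
  have hy0 : 0 < y.2.im := by linarith [g5'.1]
  have hy2 : y.2.im ≤ 2 * ‖q0‖ := by nlinarith [g5'.2]
  have hρy : ρ * y.2.im ≤ ρ * (2 * ‖q0‖) := mul_le_mul_of_nonneg_left hy2 hρ0
  have g6 : |y.1.im - q0.1.im| ≤ ρ * ((2 + a) * ‖q0‖) := by
    rw [hq0, abs_le]
    have h5 : a * |y.2.im - q0.2.im| ≤ a * (ρ * ‖q0‖) :=
      mul_le_mul_of_nonneg_left (g5.trans hρn) ha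
    have h6 : |a * (y.2.im - q0.2.im)| ≤ a * (ρ * ‖q0‖) := by
      rw [abs_mul, abs_of_nonneg ha]; exact h5
    have h7 := abs_le.1 h6
    constructor <;> nlinarith [h7.1, h7.2]
  have hN0 : 0 ≤ ρ * ‖q0‖ := mul_nonneg hρ0 hn0
  have hNa : 0 ≤ a * (ρ * ‖q0‖) := mul_nonneg ha hN0
  have hN3 : 4 * (a * (ρ * ‖q0‖)) + 16 * (ρ * ‖q0‖) < r1 := by
    have h5 : ρ * ((4 * a + 16) * ‖q0‖) = 4 * (a * (ρ * ‖q0‖)) + 16 * (ρ * ‖q0‖) := by ring
    rwa [h5] at hρ3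
  have hρr : ρ * ‖q0‖ ≤ r1 / 16 := by linarith
  have hρar : ρ * ((2 + a) * ‖q0‖) + ρ * ‖q0‖ ≤ r1 / 4 := by
    have h5 : ρ * ((2 + a) * ‖q0‖) = a * (ρ * ‖q0‖) + 2 * (ρ * ‖q0‖) := by ring
    rw [h5]; linarith
  have hd1 : ‖y.1 - q0.1‖ ≤ r1 / 4 := by
    refine (Complex.norm_le_abs_re_add_abs_im _).trans ?_
    rw [Complex.sub_re, Complex.sub_im]
    linarith
  have hd2 : ‖y.2 - q0.2‖ ≤ r1 / 16 := g2.trans (hρn.trans hρr)
  -- the vertical segment below `q`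
  have hseg : ∀ t ∈ Icc (0 : ℝ) (s * (r1 / 2)), (y.1 - (t / s : ℝ) * I, y.2) ∈ ball q0 r1 := by
    intro t ht
    rw [mem_ball, Prod.dist_eq, max_lt_iff, dist_eq_norm, dist_eq_norm]
    refine ⟨?_, by linarith⟩
    have h5 : t / s ≤ r1 / 2 := by
      rw [div_le_iff₀ hs]; linarith [ht.2]
    have h6 : 0 ≤ t / s := div_nonneg ht.1 hs.le
    have h7 : y.1 - (t / s : ℝ) * I - q0.1 = (y.1 - q0.1) + -((t / s : ℝ) * I) := by ring
    rw [h7]
    refine (norm_add_le _ _).trans_lt ?_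
    rw [norm_neg, norm_mul, Complex.norm_I, mul_one, Complex.norm_real, Real.norm_eq_abs,
      abs_of_nonneg h6]
    linarith
  have hib : ∀ t : ℝ, ib e s (q.1 - t * I, q.2) = (y.1 - (t / s : ℝ) * I, y.2) := by
    intro t
    rw [hy]
    unfold ib
    ext1
    · simp only; push_cast; field_simp; ring
    · rfl
  set V : Set (ℂ × ℂ) := ib e s ⁻¹' ball q0 r1 with hV
  have hVo : IsOpen V := isOpen_ball.preimage (differentiable_ib e s).continuous
  set Bt : ℂ × ℂ → ℂ := fun x => G (ib e s x) with hBt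
  have hBtd : DifferentiableOn ℂ Bt V :=
    hG.comp (differentiable_ib e s).differentiableOn (fun x hx => hx)
  have hBta : AnalyticOnNhd ℂ Bt V :=
    R266.SCV.analyticOnNhd_of_differentiableOn hVo hBtd
  have hBan : AnalyticOnNhd ℂ B X := R266.SCV.analyticOnNhd_of_differentiableOn hXo hB
  refine hqX (climb (Bt := Bt) (τ0 := s * (r1 / 2)) hXo hBan hmax (by positivity) ?_ ?_)
  · intro t ht
    have h5 : (q.1 - t * I, q.2) ∈ V := by
      show ib e s (q.1 - t * I, q.2) ∈ ball q0 r1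
      rw [hib t]; exact hseg t ht
    exact ⟨hBta _ h5, hGh _ h5⟩
  · -- the bottom
    have ht : s * (r1 / 2) ∈ Icc (0 : ℝ) (s * (r1 / 2)) := ⟨by positivity, le_rfl⟩
    have h5 : ib e s (q.1 - ((s * (r1 / 2) : ℝ) : ℂ) * I, q.2) ∈ ball q0 r1 := by
      rw [hib]; exact hseg _ ht
    have h6 : ib e s (q.1 - ((s * (r1 / 2) : ℝ) : ℂ) * I, q.2) ∈ Wm (a - ρ) := by
      rw [hib]
      refine ⟨hy0, ?_⟩
      have h7 : s * (r1 / 2) / s = r1 / 2 := by field_simp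
      have h8 : (y.1 - ((s * (r1 / 2) / s : ℝ) : ℂ) * I).im = y.1.im - r1 / 2 := by
        rw [h7]; simp
      show (y.1 - ((s * (r1 / 2) / s : ℝ) : ℂ) * I).im < (a - ρ) * y.2.im
      rw [h8]
      have h9 : (a + ρ) * y.2.im = (a - ρ) * y.2.im + 2 * (ρ * y.2.im) := by ring
      have h10 : ρ * (2 * ‖q0‖) = 2 * (ρ * ‖q0‖) := by ring
      rw [h10] at hρy
      rw [h9] at g4
      linarith
    have hbot : ∀ x : ℂ × ℂ, ib e s x ∈ ball q0 r1 → ib e s x ∈ Wm (a - ρ) →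
        x ∈ X ∧ Bt x = B x := by
      intro x hx1 hx2
      have h7 : bl e s (ib e s x) ∈ X := by
        refine bl_mem hE hs hx2 ?_
        refine lt_of_le_of_lt (mul_le_mul_of_nonneg_left ?_ hs.le) hscale
        have h8 : ‖ib e s x‖ ≤ ‖q0‖ + r1 := by
          have h9 := norm_add_le q0 (ib e s x - q0)
          rw [add_sub_cancel] at h9
          have h10 : ‖ib e s x - q0‖ < r1 := by rw [← dist_eq_norm]; exact hx1
          linarith
        have h11 : (1 + a) * ‖q0‖ = ‖q0‖ + a * ‖q0‖ := by ring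
        rw [h11]
        linarith [mul_nonneg ha hn0]
      have h8 := hGB _ hx1 hx2
      rw [bl_ib e hsne] at h7 h8
      exact ⟨h7, h8⟩
    refine ⟨(hbot _ h5 h6).1, ?_⟩
    have hWo : IsOpen (Wm (a - ρ)) := by rw [Wm_eq]; exact isOpen_Lo _
    have hO : IsOpen (ib e s ⁻¹' (ball q0 r1 ∩ Wm (a - ρ))) :=
      (isOpen_ball.inter hWo).preimage (differentiable_ib e s).continuous
    filter_upwards [hO.mem_nhds ⟨h5, h6⟩] with x hx
    exact (hbot x hx.1 hx.2).2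

/-- a sequence of windows of Part II, precision `ρ n → 0`, relative scale `s n / η n → 0` -/
structure Wins {ι : Type*} (l : Filter ι) (X L : Set (ℂ × ℂ)) (a g : ℝ) (e : ι → ℝ × ℝ)
    (s η ρ : ι → ℝ) : Prop where
  part : ∀ᶠ n in l, E2 X L a g (ρ n) (η n) (e n)
  s_pos : ∀ᶠ n in l, 0 < s n
  η_pos : ∀ᶠ n in l, 0 < η n
  ρ_nn : ∀ᶠ n in l, 0 ≤ ρ n
  scale : Tendsto (fun n => s n / η n) l (𝓝 0)
  prec : Tendsto ρ l (𝓝 0)

theorem Wins.small {ι : Type*} {l : Filter ι} {X L : Set (ℂ × ℂ)} {a g : ℝ} {e : ι → ℝ × ℝ}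
    {s η ρ : ι → ℝ} (hw : Wins l X L a g e s η ρ) (C : ℝ) : ∀ᶠ n in l, s n * C < η n := by
  have h1 : ∀ᶠ n in l, s n / η n < 1 / (|C| + 1) :=
    hw.scale.eventually (gt_mem_nhds (by positivity))
  filter_upwards [h1, hw.s_pos, hw.η_pos] with n h2 h3 h4
  rw [div_lt_div_iff₀ h4 (by positivity)] at h2
  have h5 : C ≤ |C| := le_abs_self C
  nlinarith

theorem Wins.prec_lt {ι : Type*} {l : Filter ι} {X L : Set (ℂ × ℂ)} {a g : ℝ} {e : ι → ℝ × ℝ}
    {s η ρ : ι → ℝ} (hw : Wins l X L a g e s η ρ) (C : ℝ) {d : ℝ} (hd : 0 < d) :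
    ∀ᶠ n in l, ρ n * C < d := by
  have h1 := hw.prec.mul_const C
  rw [zero_mul] at h1
  exact h1.eventually (gt_mem_nhds hd)

/-- every point of `Lo a` is eventually in the low part of the windows -/
theorem Wins.mem_Wm {ι : Type*} {l : Filter ι} {X L : Set (ℂ × ℂ)} {a g : ℝ} {e : ι → ℝ × ℝ}
    {s η ρ : ι → ℝ} (hw : Wins l X L a g e s η ρ) {q : ℂ × ℂ} (hq : q ∈ Lo a) :
    ∀ᶠ n in l, q ∈ Wm (a - ρ n) := by
  have h1 : 0 < a * q.2.im - q.1.im := sub_pos.2 hq.2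
  filter_upwards [hw.prec_lt q.2.im h1] with n hn
  refine ⟨hq.1, ?_⟩
  have : (a - ρ n) * q.2.im = a * q.2.im - ρ n * q.2.im := by ring
  rw [this]; linarith

/-- **(B)** an interior cluster value which is a SIMPLE root of the limit incidence contradicts the
births.  `κ n` is the (integer) normalisation of the label; only `Im (κ n) = 0` is used. -/
theorem no_simple {ι : Type*} {l : Filter ι} {X L : Set (ℂ × ℂ)} {a g h : ℝ} {B : ℂ × ℂ → ℂ}
    {e : ι → ℝ × ℝ} {s η ρ : ι → ℝ} {κ : ι → ℂ} (hw : Wins l X L a g e s η ρ)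
    (hXo : IsOpen X) (hB : DifferentiableOn ℂ B X) (hmax : MaxiX h X B) (ha : 0 ≤ a)
    (hκ : ∀ n, (κ n).im = 0) {q0 : ℂ × ℂ} (hq0 : q0 ∈ Fc a) {b0 a' : ℂ} (hb0 : |b0.im| < h)
    {r : ℝ} (hr : 0 < r) {F : ι → ℂ × ℂ → ℂ → ℂ} {F0 : ℂ × ℂ → ℂ → ℂ}
    (hF0 : ContinuousOn (fun x : (ℂ × ℂ) × ℂ => F0 x.1 x.2) (ball q0 r ×ˢ ball b0 r))
    (hz : F0 q0 b0 = 0) (hd : HasDerivAt (F0 q0) a' b0) (ha' : a' ≠ 0)
    (hF : ∀ᶠ n in l, DifferentiableOn ℂ (fun x : (ℂ × ℂ) × ℂ => F n x.1 x.2)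
      (ball q0 r ×ˢ ball b0 r))
    (hlim : TendstoUniformlyOn (fun n (x : (ℂ × ℂ) × ℂ) => F n x.1 x.2) (fun x => F0 x.1 x.2) l
      (ball q0 r ×ˢ ball b0 r))
    (hinc : ∀ᶠ n in l, ∀ q ∈ ball q0 r, q ∈ Wm (a - ρ n) →
      B (bl (e n) (s n) q) - κ n ∈ ball b0 r → F n q (B (bl (e n) (s n) q) - κ n) = 0)
    (hcl : ∀ δ : ℝ, 0 < δ → ∃ᶠ n in l, ∃ q ∈ Wm (a - ρ n), dist q q0 < δ ∧
      dist (B (bl (e n) (s n) q) - κ n) b0 < δ) : False := by
  obtain ⟨hq00, hq01⟩ := hq0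
  -- a small disc of labels inside the strip
  set r' : ℝ := (h - |b0.im|) with hr'
  have hr'0 : 0 < r' := by rw [hr']; linarith
  have hcont : ∀ᶠ n in l, ContinuousOn (fun q => B (bl (e n) (s n) q) - κ n)
      (Wm (a - ρ n) ∩ ball q0 r) := by
    filter_upwards [hw.part, hw.s_pos, hw.small (‖q0‖ + r)] with n h1 h2 h3
    refine ContinuousOn.sub ?_ continuousOn_const
    refine hB.continuousOn.comp (differentiable_bl (e n) (s n)).continuous.continuousOn ?_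
    intro x hx
    refine bl_mem h1 h2 hx.1 ?_
    refine lt_of_le_of_lt (mul_le_mul_of_nonneg_left ?_ h2.le) h3
    have h9 := norm_add_le q0 (x - q0)
    rw [add_sub_cancel] at h9
    have h10 : ‖x - q0‖ < r := by rw [← dist_eq_norm]; exact hx.2
    linarith
  obtain ⟨r1, r2, h1, h2, h3, h4, h5, h6, h7⟩ := regface_cluster (l := l) (F := F) (F0 := F0)
    (q0 := q0) (b0 := b0) (a := a') hr hF0 hz hd ha' hF hlim (W := fun n => Wm (a - ρ n))
    (B := fun n q => B (bl (e n) (s n) q) - κ n)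
    (fun δ _ _ => Eventually.of_forall fun n =>
      ((convex_Lo (a - ρ n)).inter (convex_ball q0 δ)).isPreconnected) hcont
    (by
      filter_upwards [hinc] with n hn q hq hqb
      exact hn q hq.2 hq.1 hqb)
    (by
      intro δ hδ
      refine (hcl δ hδ).mono ?_
      rintro n ⟨q, h1, h2, h3⟩
      exact ⟨q, h1, h2, h3⟩) hr'0
  have hρ1 : ∀ᶠ n in l, ρ n < 1 := hw.prec.eventually (gt_mem_nhds one_pos)
  obtain ⟨n, ⟨G, hG1, hG2, hG3, hG4⟩, hpart, hspos, hρnn, hρ1, hsc, hp2, hp3⟩ :=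
    (h7.and_eventually (hw.part.and (hw.s_pos.and (hw.ρ_nn.and (hρ1.and
      ((hw.small ((1 + a) * ‖q0‖ + r1)).and ((hw.prec_lt ‖q0‖ hq00).and
      (hw.prec_lt ((4 * a + 16) * ‖q0‖) h1)))))))).exists
  refine no_ext hpart hXo hB hmax ha hρnn hρ1.le hspos h1 hq01 hsc hp2 hp3
    ⟨fun q => G q + κ n, hG1.add_const _, ?_, ?_⟩
  · intro x hx
    have h8 := (hG2 x hx).1
    rw [mem_ball, dist_eq_norm] at h8
    have h9 : |(G x - b0).im| < r2 := (Complex.abs_im_le_norm _).trans_lt h8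
    have h10 : (G x + κ n).im = b0.im + (G x - b0).im := by
      rw [Complex.add_im, Complex.sub_im, hκ n]; ring
    rw [h10]
    refine (abs_add_le _ _).trans_lt ?_
    rw [hr'] at h5
    linarith
  · intro x hx hxW
    have h8 : B (bl (e n) (s n) x) - κ n = G x := hG4 ⟨hxW, hx⟩
    show G x + κ n = B (bl (e n) (s n) x)
    rw [← h8]
    ring

/-- **(C)** the end of a normal window sequence: the limit label is tangential everywhere. -/
theorem end_tang {ι : Type*} {l : Filter ι} [l.NeBot] {X L : Set (ℂ × ℂ)} {a g h : ℝ}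
    {B : ℂ × ℂ → ℂ} {e : ι → ℝ × ℝ} {s η ρ : ι → ℝ} {κ : ι → ℂ}
    (hw : Wins l X L a g e s η ρ) (hXo : IsOpen X) (hB : DifferentiableOn ℂ B X)
    (hmax : MaxiX h X B) (ha : 0 ≤ a) (hκ : ∀ n, (κ n).im = 0)
    {Om : Set (ℂ × ℂ)} (hOm : IsOpen Om) (hLO : Lo a ⊆ Om) (hFO : Fc a ⊆ Om)
    {Bh : ℂ × ℂ → ℂ} (hBh : DifferentiableOn ℂ Bh (Lo a)) (hBhm : ∀ q ∈ Lo a, |(Bh q).im| < h)
    (hBlim : ∀ q ∈ Lo a, Tendsto (fun n => B (bl (e n) (s n) q) - κ n) l (𝓝 (Bh q)))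
    {F : ι → (ℂ × ℂ) × ℂ → ℂ} {F0 : (ℂ × ℂ) × ℂ → ℂ}
    (hF : ∀ x ∈ Om ×ˢ {z : ℂ | |z.im| < h}, ∃ r > 0, ∀ᶠ n in l,
      DifferentiableOn ℂ (F n) (ball x.1 r ×ˢ ball x.2 r))
    (hlim : TendstoLocallyUniformlyOn F F0 l (Om ×ˢ {z : ℂ | |z.im| < h}))
    (hF0 : DifferentiableOn ℂ F0 (Om ×ˢ {z : ℂ | |z.im| < h}))
    (hinc : ∀ q0 ∈ Om, ∃ r > 0, ∀ᶠ n in l, ∀ q ∈ ball q0 r, q ∈ Wm (a - ρ n) →
      F n (q, B (bl (e n) (s n) q) - κ n) = 0)
    (hper : ∀ q ∈ Om, ∀ b : ℂ, |b.im| < h → (F0 (q, b + 1) = 0 ↔ F0 (q, b) = 0))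
    (hne : ∀ q ∈ Fc a, ∃ b : ℂ, |b.im| < h ∧ F0 (q, b) ≠ 0) :
    (∀ q ∈ Lo a, F0 (q, Bh q) = 0) ∧
    ∀ q ∈ Lo a, deriv (fun z => F0 (q, z)) (Bh q) = 0 := by
  have hSo : IsOpen {z : ℂ | |z.im| < h} := isOpen_Sp h
  have hOS : IsOpen (Om ×ˢ {z : ℂ | |z.im| < h}) := hOm.prod hSo
  -- incidence of the limit
  have hinc0 : ∀ q ∈ Lo a, F0 (q, Bh q) = 0 := by
    intro q hq
    have hx : (q, Bh q) ∈ Om ×ˢ {z : ℂ | |z.im| < h} := ⟨hLO hq, hBhm q hq⟩
    have h1 : Tendsto (fun n => (q, B (bl (e n) (s n) q) - κ n)) l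
        (𝓝[Om ×ˢ {z : ℂ | |z.im| < h}] (q, Bh q)) := by
      refine tendsto_nhdsWithin_iff.2 ⟨tendsto_const_nhds.prodMk_nhds (hBlim q hq), ?_⟩
      have h2 : Tendsto (fun n => (q, B (bl (e n) (s n) q) - κ n)) l (𝓝 (q, Bh q)) :=
        tendsto_const_nhds.prodMk_nhds (hBlim q hq)
      exact h2.eventually (hOS.mem_nhds hx)
    have h2 : Tendsto (fun n => F n (q, B (bl (e n) (s n) q) - κ n)) l (𝓝 (F0 (q, Bh q))) :=
      hlim.tendsto_comp (hF0.continuousOn (q, Bh q) hx) hx h1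
    obtain ⟨r, hr, h3⟩ := hinc q (hLO hq)
    have h4 : ∀ᶠ n in l, F n (q, B (bl (e n) (s n) q) - κ n) = 0 := by
      filter_upwards [h3, hw.mem_Wm hq] with n h5 h6
      exact h5 q (mem_ball_self hr) h6
    have h5 : Tendsto (fun n => F n (q, B (bl (e n) (s n) q) - κ n)) l (𝓝 0) :=
      tendsto_const_nhds.congr' (h4.mono fun n hn => hn.symm)
    exact tendsto_nhds_unique h2 h5
  refine ⟨hinc0, tangential hOm hLO hFO hBh hBhm hF0 hper hne hinc0 ?_⟩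
  intro q0 hq0 b0 hb0 hcl
  by_contra hne'
  have hx0 : (q0, b0) ∈ Om ×ˢ {z : ℂ | |z.im| < h} := ⟨hFO hq0, hb0⟩
  -- common radius
  obtain ⟨r3, hr3, h3⟩ := hF (q0, b0) hx0
  obtain ⟨r4, hr4, h4⟩ := hinc q0 (hFO hq0)
  obtain ⟨r5, hr5, h5⟩ := Metric.isOpen_iff.1 hOS (q0, b0) hx0
  set r : ℝ := min (min r3 r4) r5 / 2 with hr
  have hmin : 0 < min (min r3 r4) r5 := lt_min (lt_min hr3 hr4) hr5
  have hr0 : 0 < r := by rw [hr]; positivity
  have hrr3 : r ≤ r3 := by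
    have := (min_le_left (min r3 r4) r5).trans (min_le_left _ _)
    rw [hr]; linarith
  have hrr4 : r ≤ r4 := by
    have := (min_le_left (min r3 r4) r5).trans (min_le_right _ _)
    rw [hr]; linarith
  have hrr5 : r < r5 := by
    have := min_le_right (min r3 r4) r5
    rw [hr]; linarith
  have hK : closedBall (q0, b0) r ⊆ Om ×ˢ {z : ℂ | |z.im| < h} :=
    (closedBall_subset_ball hrr5).trans h5
  have hKu : TendstoUniformlyOn F F0 l (closedBall (q0, b0) r) :=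
    (tendstoLocallyUniformlyOn_iff_forall_isCompact hOS).1 hlim _ hK (isCompact_closedBall _ _)
  have hbb : ball q0 r ×ˢ ball b0 r ⊆ closedBall (q0, b0) r := by
    rw [ball_prod_same]; exact ball_subset_closedBall
  -- the point data of the cluster
  have hgood : ∀ δ : ℝ, 0 < δ → ∃ q ∈ Lo a, dist q q0 < δ ∧ dist (Bh q) b0 < δ := by
    intro δ hδ
    have h6 : ∃ᶠ q in 𝓝[Lo a] q0, Bh q ∈ ball b0 δ := hcl.frequently (ball_mem_nhds _ hδ)
    have h7 : ∀ᶠ q in 𝓝[Lo a] q0, q ∈ Lo a ∧ q ∈ ball q0 δ :=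
      eventually_mem_nhdsWithin.and (mem_nhdsWithin_of_mem_nhds (ball_mem_nhds _ hδ))
    obtain ⟨q, h8, h9, h10⟩ := (h6.and_eventually h7).exists
    exact ⟨q, h9, h10, h8⟩
  have hc0 : ContinuousAt F0 (q0, b0) := (hF0.continuousOn).continuousAt (hOS.mem_nhds hx0)
  have hz : F0 (q0, b0) = 0 := by
    by_contra hz
    obtain ⟨δ, hδ, h6⟩ := Metric.eventually_nhds_iff_ball.1 (hc0.eventually_ne hz)
    obtain ⟨q, h7, h8, h9⟩ := hgood δ hδ
    refine h6 (q, Bh q) ?_ (hinc0 q h7)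
    rw [mem_ball, Prod.dist_eq]
    exact max_lt h8 h9
  have hd : HasDerivAt (fun z => F0 (q0, z)) (deriv (fun z => F0 (q0, z)) b0) b0 := by
    have h6 : DifferentiableAt ℂ F0 (q0, b0) := hF0.differentiableAt (hOS.mem_nhds hx0)
    have h7 : DifferentiableAt ℂ (fun z : ℂ => ((q0, z) : (ℂ × ℂ) × ℂ)) b0 :=
      (differentiableAt_const q0).prodMk differentiableAt_id
    exact (DifferentiableAt.comp b0 (g := F0) h6 h7).hasDerivAt
  refine no_simple (F := fun n q b => F n (q, b)) (F0 := fun q b => F0 (q, b)) hw hXo hB hmax ha hκ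
    hq0 hb0 hr0 ?_ hz hd hne' ?_ ?_ ?_ ?_
  · exact hF0.continuousOn.mono (hbb.trans hK)
  · filter_upwards [h3] with n hn
    exact hn.mono (prod_mono (ball_subset_ball hrr3) (ball_subset_ball hrr3))
  · exact hKu.mono hbb
  · filter_upwards [h4] with n hn q hq hqW _
    exact hn q (ball_subset_ball hrr4 hq) hqW
  · intro δ hδ
    obtain ⟨q, h7, h8, h9⟩ := hgood (δ / 2) (by positivity)
    have h10 : ∀ᶠ n in l, dist (B (bl (e n) (s n) q) - κ n) (Bh q) < δ / 2 :=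
      (hBlim q h7).eventually (ball_mem_nhds _ (by positivity))
    refine Eventually.frequently ?_
    filter_upwards [h10, hw.mem_Wm h7] with n h11 h12
    refine ⟨q, h12, by linarith, ?_⟩
    linarith [dist_triangle (B (bl (e n) (s n) q) - κ n) (Bh q) b0]

end Crest.Agent.R102.RegBirths359
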