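import Crest.Agent.R102.EdgeDefs_255
import Crest.Agent.R102.RegBirths_359

/-!
Row 102, T1-B, EDGE (helper150): **EDGE-WORLD** = `Edge255.ToWorld`: blow-ups with birth precision
`ρ n → 0` are a `World`.
-/

set_option autoImplicit false

open Set Filter Topology Metric Complex

noncomputable section

namespace Crest.Agent.R102.World150

open Crest.Agent.R102.Sup115 (HDu Dp E2 MaxiX GoodU)
open Crest.Agent.R102.S5 (Half bl ray Cn)
open Crest.Agent.R102.B821 (q1 q2)
open Crest.Agent.R102.Edge255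
open Crest.Agent.R102.RegBirths359 (ib bl_ib ib_bl differentiable_bl differentiable_ib Wm bl_mem
  no_ext)

/-! ### periods -/

theorem str_add {h : ℝ} {z : ℂ} (m : ℤ) (hz : z ∈ T5.Str h) : z + m ∈ T5.Str h := by
  have h1 : |z.im| < h := hz
  show |(z + m).im| < h
  simpa using h1

theorem per_int {h : ℝ} {ψ H : ℂ → ℂ} (hc : Curve h ψ H) (m : ℤ) {z : ℂ} (hz : z ∈ T5.Str h) :
    ψ (z + m) = ψ z + m * (2 * Real.pi) ∧ H (z + m) = H z := by
  have key : ∀ (k : ℕ) (z : ℂ), z ∈ T5.Str h →
      ψ (z + k) = ψ z + k * (2 * Real.pi) ∧ H (z + k) = H z := by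
    intro k
    induction k with
    | zero => intro z _; simp
    | succ k ih =>
      intro z hz
      obtain ⟨h1, h2⟩ := ih z hz
      have h3 : z + (k : ℂ) ∈ T5.Str h := by
        have := str_add (k : ℤ) hz
        simpa using this
      have h4 := hc.ψ_per _ h3
      have h5 := hc.H_per _ h3
      have h6 : z + ((k + 1 : ℕ) : ℂ) = z + k + 1 := by push_cast; ring
      rw [h6, h4, h5, h1, h2]
      refine ⟨?_, rfl⟩
      push_cast; ring
  rcases Int.eq_nat_or_neg m with ⟨k, rfl | rfl⟩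
  · simpa using key k z hz
  · have h1 := str_add (-(k : ℤ)) hz
    obtain ⟨h2, h3⟩ := key k _ h1
    have h4 : z + ((-(k : ℤ) : ℤ) : ℂ) + (k : ℂ) = z := by push_cast; ring
    rw [h4] at h2 h3
    refine ⟨?_, h3.symm⟩
    rw [h2]; push_cast; ring

theorem isOpen_Str (h : ℝ) : IsOpen (T5.Str h) :=
  isOpen_lt (continuous_abs.comp Complex.continuous_im) continuous_const

theorem per_deriv {h : ℝ} {ψ H : ℂ → ℂ} (hc : Curve h ψ H) (m : ℤ) {z : ℂ} (hz : z ∈ T5.Str h) :
    deriv ψ (z + m) = deriv ψ z ∧ deriv H (z + m) = deriv H z := by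
  constructor
  · rw [← deriv_comp_add_const]
    have h1 : (fun x => ψ (x + m)) =ᶠ[𝓝 z] fun x => ψ x + m * (2 * Real.pi) := by
      filter_upwards [(isOpen_Str h).mem_nhds hz] with x hx
      exact (per_int hc m hx).1
    rw [h1.deriv_eq, deriv_add_const]
  · rw [← deriv_comp_add_const]
    have h1 : (fun x => H (x + m)) =ᶠ[𝓝 z] H := by
      filter_upwards [(isOpen_Str h).mem_nhds hz] with x hx
      exact (per_int hc m hx).2
    rw [h1.deriv_eq]

/-- the incidence is invariant under integer / `2π` normalisation -/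
theorem inc_norm {h : ℝ} {ψ H : ℂ → ℂ} (hc : Curve h ψ H) (m k : ℤ) {φ p b : ℂ}
    (hb : b ∈ T5.Str h) (hi : F300.Inc ψ H φ p b) :
    F300.Inc ψ H (φ - 2 * Real.pi * (k : ℂ)) p (b - (m : ℂ)) ∧
      (deriv ψ b ≠ 0 → sin (φ - ψ b) ≠ 0 →
        deriv ψ (b - (m : ℂ)) ≠ 0 → sin (φ - 2 * Real.pi * (k : ℂ) - ψ (b - (m : ℂ))) ≠ 0) := by
  have e0 : b - (m : ℂ) = b + ((-m : ℤ) : ℂ) := by push_cast; ring
  obtain ⟨h1, h2⟩ := per_int hc (-m) hb
  obtain ⟨h3, h4⟩ := per_deriv hc (-m) hb
  have e1 : φ - 2 * Real.pi * (k : ℂ) - ψ (b - (m : ℂ)) =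
      (φ - ψ b) + ((m - k : ℤ) : ℂ) * (2 * Real.pi) := by
    rw [e0, h1]; push_cast; ring
  constructor
  · unfold F300.Inc at *
    rw [e1, Complex.cos_add_int_mul_two_pi, Complex.sin_add_int_mul_two_pi, e0, h2, h3, h4]
    exact hi
  · intro _ hs _
    rw [e1, Complex.sin_add_int_mul_two_pi]
    exact hs

/-! ### blow-up and partial derivatives -/

theorem hasFDerivAt_bl (e : ℝ × ℝ) (s : ℝ) (x : ℂ × ℂ) :
    HasFDerivAt (bl e s) ((s : ℂ) • ContinuousLinearMap.id ℂ (ℂ × ℂ)) x := by
  have h1 : HasFDerivAt (fun y : ℂ × ℂ => ((e.1 : ℂ), (e.2 : ℂ)) + (s : ℂ) • y)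
      ((s : ℂ) • ContinuousLinearMap.id ℂ (ℂ × ℂ)) x :=
    ((hasFDerivAt_id x).const_smul (s : ℂ)).const_add _
  exact h1

theorem q_bl {F : ℂ × ℂ → ℂ} {e : ℝ × ℝ} {s : ℝ} {c : ℂ} {x : ℂ × ℂ}
    (hF : DifferentiableAt ℂ F (bl e s x)) :
    q1 (fun y => F (bl e s y) - c) x = s * q1 F (bl e s x) ∧
      q2 (fun y => F (bl e s y) - c) x = s * q2 F (bl e s x) := by
  have h1 := (hF.hasFDerivAt.comp x (hasFDerivAt_bl e s x)).sub_const c
  have h2 : fderiv ℂ (fun y => F (bl e s y) - c) x = _ := h1.fderiv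
  constructor
  · unfold q1
    rw [h2]
    show fderiv ℂ F (bl e s x) ((s : ℂ) • ((1, 0) : ℂ × ℂ)) = _
    rw [map_smul, smul_eq_mul]
  · unfold q2
    rw [h2]
    show fderiv ℂ F (bl e s x) ((s : ℂ) • ((0, 1) : ℂ × ℂ)) = _
    rw [map_smul, smul_eq_mul]

/-! ### the wedges -/

theorem isOpen_Wg (m : ℝ) : IsOpen (Wg m) :=
  (isOpen_lt continuous_const (Complex.continuous_im.comp continuous_snd)).inter
    (isOpen_lt (Complex.continuous_im.comp continuous_fst)
      (continuous_const.mul (Complex.continuous_im.comp continuous_snd)))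

theorem convex_Wg (m : ℝ) : Convex ℝ (Wg m) := by
  intro p hp q hq a b ha hb hab
  obtain ⟨hp1, hp2⟩ := hp
  obtain ⟨hq1, hq2⟩ := hq
  have e1 : (a • p + b • q).1.im = a * p.1.im + b * q.1.im := by simp
  have e2 : (a • p + b • q).2.im = a * p.2.im + b * q.2.im := by simp
  rcases eq_or_lt_of_le ha with h | h
  · subst h
    have h1 : b = 1 := by linarith
    subst h1
    constructor
    · rw [e2]; linarith
    · rw [e1, e2]; linarith
  · constructor
    · rw [e2]
      have := mul_pos h hp1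
      have := mul_nonneg hb hq1.le
      linarith
    · rw [e1, e2]
      have h1 := mul_lt_mul_of_pos_left hp2 h
      have h2 := mul_le_mul_of_nonneg_left hq2.le hb
      nlinarith

/-- a blown up compact set of the big wedge is in the half domain -/
theorem ev_half {m : ℝ} {e : ℕ → ℝ × ℝ} {s η : ℕ → ℝ} (hs : ∀ n, 0 < s n) (hη : ∀ n, 0 < η n)
    (hsη : Tendsto (fun n => s n / η n) atTop (𝓝 0)) {K : Set (ℂ × ℂ)} (hK : K ⊆ Wg m)
    (hKc : IsCompact K) : ∀ᶠ n in atTop, ∀ x ∈ K, bl (e n) (s n) x ∈ Half (e n) (η n) m := by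
  obtain ⟨M, hM⟩ := hKc.isBounded.exists_norm_le
  have h1 : ∀ᶠ n in atTop, s n / η n < 1 / (|M| + 1) :=
    hsη.eventually (gt_mem_nhds (by positivity))
  filter_upwards [h1] with n hn x hx
  have hsn := hs n
  have hηn := hη n
  have hM1 : 0 < |M| + 1 := by positivity
  have h2 : s n * (|M| + 1) < η n := by
    rw [div_lt_div_iff₀ hηn hM1] at hn
    linarith
  have hxM : ‖x‖ ≤ |M| := (hM x hx).trans (le_abs_self M)
  have hb : s n * ‖x‖ < η n := by
    have := mul_le_mul_of_nonneg_left hxM hsn.le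
    nlinarith
  have hb1 : s n * ‖x.1‖ < η n := (mul_le_mul_of_nonneg_left (norm_fst_le x) hsn.le).trans_lt hb
  have hb2 : s n * ‖x.2‖ < η n := (mul_le_mul_of_nonneg_left (norm_snd_le x) hsn.le).trans_lt hb
  have e1 : (bl (e n) (s n) x).1.re = (e n).1 + s n * x.1.re := by unfold bl; simp
  have e2 : (bl (e n) (s n) x).1.im = s n * x.1.im := by unfold bl; simp
  have e3 : (bl (e n) (s n) x).2.im = s n * x.2.im := by unfold bl; simp
  have e4 : (bl (e n) (s n) x).2 - ((e n).2 : ℂ) = s n * x.2 := by unfold bl; ring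
  refine ⟨?_, ?_, ?_, ?_, ?_⟩
  · rw [e1, add_sub_cancel_left, abs_mul, abs_of_pos hsn]
    exact (mul_le_mul_of_nonneg_left (Complex.abs_re_le_norm _) hsn.le).trans_lt hb1
  · rw [e2]
    have h3 : -‖x.1‖ ≤ x.1.im := (abs_le.1 (Complex.abs_im_le_norm x.1)).1
    have := mul_le_mul_of_nonneg_left h3 hsn.le
    linarith
  · rw [e4, norm_mul, Complex.norm_real, Real.norm_eq_abs, abs_of_pos hsn]
    exact hb2
  · rw [e3]; exact mul_pos hsn (hK hx).1
  · rw [e2, e3]
    have := mul_lt_mul_of_pos_left (hK hx).2 hsn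
    linarith

/-- compact subsets of `Wg a` are below the precision -/
theorem ev_low {a : ℝ} {ρ : ℕ → ℝ} (hρ : Tendsto ρ atTop (𝓝 0)) {K : Set (ℂ × ℂ)} (hK : K ⊆ Wg a)
    (hKc : IsCompact K) : ∀ᶠ n in atTop, K ⊆ Wm (a - ρ n) := by
  obtain ⟨M, hM⟩ := hKc.isBounded.exists_norm_le
  rcases K.eq_empty_or_nonempty with hE | hne
  · exact Eventually.of_forall fun n => by rw [hE]; exact empty_subset _
  have hcont : ContinuousOn (fun x : ℂ × ℂ => a * x.2.im - x.1.im) K := by fun_prop
  obtain ⟨x0, hx0, hmin⟩ := hKc.exists_isMinOn hne hcont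
  set c : ℝ := a * x0.2.im - x0.1.im with hc
  have hc0 : 0 < c := by have := (hK hx0).2; rw [hc]; linarith
  have h1 : ∀ᶠ n in atTop, |ρ n| < c / (|M| + 1) := by
    have h2 := hρ.abs
    rw [abs_zero] at h2
    exact h2.eventually (gt_mem_nhds (by positivity))
  filter_upwards [h1] with n hn x hx
  refine ⟨(hK hx).1, ?_⟩
  have h2 : c ≤ a * x.2.im - x.1.im := hmin hx
  have h3 : x.2.im ≤ |M| :=
    ((le_abs_self _).trans (Complex.abs_im_le_norm _)).trans
      ((norm_snd_le x).trans ((hM x hx).trans (le_abs_self M)))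
  have h4 : 0 < x.2.im := (hK hx).1
  have h5 : |ρ n| * x.2.im < c := by
    have hM1 : 0 < |M| + 1 := by positivity
    rw [lt_div_iff₀ hM1] at hn
    have h6 : |ρ n| * x.2.im ≤ |ρ n| * (|M| + 1) :=
      mul_le_mul_of_nonneg_left (by linarith) (abs_nonneg _)
    linarith
  have h7 : ρ n * x.2.im ≤ |ρ n| * x.2.im := mul_le_mul_of_nonneg_right (le_abs_self _) h4.le
  show x.1.im < (a - ρ n) * x.2.im
  linarith

set_option maxHeartbeats 1000000 in
/-- **EDGE-WORLD** -/
theorem toWorld : ToWorld := by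
  intro u0 R d h ψ H A φ p B X L D u s₀ a g e s ρ η hu hu0 ha hg he hs hs0 hρ hρ0 hη hsη hE
  have huB : (u : ℂ) ∈ ball (u0 : ℂ) R := by
    rw [mem_ball, dist_eq_norm, ← Complex.ofReal_sub, Complex.norm_real, Real.norm_eq_abs, abs_lt]
    constructor <;> linarith [hu.1, hu.2]
  have hLin : ∀ K ⊆ Wg (a + g), IsCompact K → ∀ᶠ n in atTop, ∀ x ∈ K, bl (e n) (s n) x ∈ L := by
    intro K hK hKc
    filter_upwards [ev_half (e := e) hs hη hsη hK hKc] with n hn x hx
    exact (hE n).line (hn x hx)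
  have hXin : ∀ K ⊆ Wg a, IsCompact K → ∀ᶠ n in atTop, ∀ x ∈ K, bl (e n) (s n) x ∈ X := by
    intro K hK hKc
    filter_upwards [ev_half (e := e) hs hη hsη hK hKc, ev_low hρ0 hK hKc] with n h1 h2 x hx
    obtain ⟨g1, g2, g3, g4, -⟩ := h1 x hx
    refine (hE n).low ⟨g1, g2, g3, g4, ?_⟩
    have e2 : (bl (e n) (s n) x).1.im = s n * x.1.im := by unfold bl; simp
    have e3 : (bl (e n) (s n) x).2.im = s n * x.2.im := by unfold bl; simp
    rw [e2, e3]
    have := mul_lt_mul_of_pos_left (h2 hx).2 (hs n)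
    linarith
  have hWsub : Wg a ⊆ Wg (a + g) := fun q hq => ⟨hq.1, by
    have h1 := mul_pos hg hq.1
    have h2 := hq.2
    show q.1.im < (a + g) * q.2.im
    linarith⟩
  have hBan : AnalyticOnNhd ℂ B X :=
    Crest.Agent.R266.SCV.analyticOnNhd_of_differentiableOn D.X_open D.B_diff
  refine
    { a_nonneg := ha
      g_pos := hg
      A0_ne := D.A_ne _ huB (by exact_mod_cast hu0)
      curve := D.curve
      regL := ?_
      regX := ?_
      area := ?_
      births := ?_ }
  · -- regL
    intro K hK hKc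
    filter_upwards [hLin K hK hKc] with n hn
    refine ⟨bl (e n) (s n) ⁻¹' L, D.L_open.preimage (differentiable_bl _ _).continuous, hn, ?_, ?_⟩
    · exact (D.φ_diff.comp (differentiable_bl _ _).differentiableOn (fun x hx => hx)).sub_const _
    · exact D.p_diff.comp (differentiable_bl _ _).differentiableOn (fun x hx => hx)
  · -- regX
    intro K hK hKc
    filter_upwards [hLin K (hK.trans hWsub) hKc, hXin K hK hKc] with n hn1 hn2
    refine ⟨bl (e n) (s n) ⁻¹' (X ∩ L), (D.X_open.inter D.L_open).preimage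
      (differentiable_bl _ _).continuous, fun x hx => ⟨hn2 x hx, hn1 x hx⟩, ?_, ?_⟩
    · exact (D.B_diff.comp (differentiable_bl _ _).differentiableOn (fun x hx => hx.1)).sub_const _
    · intro x hx
      have hx' : bl (e n) (s n) x ∈ X ∩ L := hx
      have hBs : B (bl (e n) (s n) x) ∈ T5.Str h := D.B_im _ hx'.1
      have hi := inc_norm D.curve ⌊(B (bl (e n) (s n) z0)).re⌋
        ⌊(φ (bl (e n) (s n) z0)).re / (2 * Real.pi)⌋ hBs (D.inc _ hx')
      refine ⟨?_, hi.1, ?_⟩
      · have h1 : |(B (bl (e n) (s n) x)).im| < h := hBs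
        unfold nB
        simpa using h1
      · intro hd
        have hd' : deriv ψ (B (bl (e n) (s n) x)) ≠ 0 := by
          have h1 := (per_deriv D.curve (-⌊(B (bl (e n) (s n) z0)).re⌋) hBs).1
          have e0 : B (bl (e n) (s n) x) - (⌊(B (bl (e n) (s n) z0)).re⌋ : ℂ) =
              B (bl (e n) (s n) x) + ((-⌊(B (bl (e n) (s n) z0)).re⌋ : ℤ) : ℂ) := by
            push_cast; ring
          have h2 : deriv ψ (B (bl (e n) (s n) x) - (⌊(B (bl (e n) (s n) z0)).re⌋ : ℂ)) ≠ 0 := hd
          rw [e0, h1] at h2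
          exact h2
        have hw : (bl (e n) (s n) x).2 ≠ 0 := by
          intro h0
          have h1 : 0 < (bl (e n) (s n) x).2.im := (D.X_sub _ hx'.1).2.2
          rw [h0] at h1
          simp at h1
        exact hi.2 hd' (D.sin_ne _ hx' hw hd') hd
  · -- area
    refine ⟨fun n => s n ^ 2, fun n w => A ((e n).2 + s n * w), fun n => by have := hs n; positivity,
      ?_, ?_, ?_⟩
    · have := hs0.pow 2
      simpa using this
    · intro K hKc
      obtain ⟨M, hM⟩ := hKc.isBounded.exists_norm_le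
      have hAc : ContinuousAt A u :=
        (D.A_diff.differentiableAt (isOpen_ball.mem_nhds huB)).continuousAt
      rw [Metric.tendstoUniformlyOn_iff]
      intro ε hε
      obtain ⟨δ, hδ, H1⟩ := Metric.continuousAt_iff.1 hAc ε hε
      have he2 : Tendsto (fun n => |(e n).2 - u| + s n * |M|) atTop (𝓝 0) := by
        have h1 : Tendsto (fun n => (e n).2) atTop (𝓝 u) :=
          (continuous_snd.tendsto (s₀, u)).comp he
        have h2 := (h1.sub_const u).abs
        rw [sub_self, abs_zero] at h2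
        have h3 := hs0.mul_const |M|
        rw [zero_mul] at h3
        simpa using h2.add h3
      filter_upwards [he2.eventually (gt_mem_nhds hδ)] with n hn w hw
      rw [dist_comm]
      refine H1 ?_
      rw [dist_eq_norm]
      have h1 : ((e n).2 : ℂ) + s n * w - u = (((e n).2 - u : ℝ) : ℂ) + s n * w := by
        push_cast; ring
      rw [h1]
      refine (norm_add_le _ _).trans_lt ?_
      rw [Complex.norm_real, norm_mul, Complex.norm_real, Real.norm_eq_abs, Real.norm_eq_abs,
        abs_of_pos (hs n)]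
      have h2 : s n * ‖w‖ ≤ s n * |M| :=
        mul_le_mul_of_nonneg_left ((hM w hw).trans (le_abs_self M)) (hs n).le
      linarith
    · intro K hK hKc
      filter_upwards [hLin K hK hKc] with n hn x hx
      have hxL := hn x hx
      have h1 := q_bl (F := φ) (e := e n) (s := s n)
        (c := nφ (fun x => φ (bl (e n) (s n) x)))
        (D.φ_diff.differentiableAt (D.L_open.mem_nhds hxL))
      have h2 := q_bl (F := p) (e := e n) (s := s n) (c := 0)
        (D.p_diff.differentiableAt (D.L_open.mem_nhds hxL))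
      simp only [sub_zero] at h2
      rw [h1.1, h1.2, h2.1, h2.2]
      have h3 := D.area _ hxL
      have h4 : (bl (e n) (s n) x).2 = ((e n).2 : ℂ) + s n * x.2 := rfl
      rw [h4] at h3
      push_cast
      linear_combination (s n : ℂ) ^ 2 * h3
  · -- births
    intro q hq0 hq r hr hsub
    -- the test ball
    set x1 : ℂ × ℂ := (q.1 - ((r / 2 : ℝ) : ℂ) * I, q.2) with hx1
    have hx1b : x1 ∈ ball q r ∩ Wg a := by
      constructor
      · rw [mem_ball, Prod.dist_eq, dist_self, dist_eq_norm]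
        have h1 : q.1 - ((r / 2 : ℝ) : ℂ) * I - q.1 = -(((r / 2 : ℝ) : ℂ) * I) := by ring
        simp only [hx1, h1, norm_neg, norm_mul, Complex.norm_I, mul_one, Complex.norm_real,
          Real.norm_eq_abs, abs_of_pos (half_pos hr)]
        exact max_lt (by linarith) hr
      · refine ⟨hq0, ?_⟩
        have h1 : x1.1.im = q.1.im - r / 2 := by rw [hx1]; simp
        show x1.1.im < a * x1.2.im
        rw [h1, hq]
        show a * q.2.im - r / 2 < a * q.2.im
        linarith
    obtain ⟨r2, hr2, hr2s⟩ := Metric.isOpen_iff.1 (isOpen_ball.inter (isOpen_Wg a)) x1 hx1b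
    set K : Set (ℂ × ℂ) := closedBall x1 (r2 / 2) with hK
    have hKs : K ⊆ ball q r ∩ Wg a := (closedBall_subset_ball (by linarith)).trans hr2s
    have hKc : IsCompact K := isCompact_closedBall _ _
    refine ⟨K, fun x hx => (hKs hx).2, hKc, ?_⟩
    have hev1 : ∀ᶠ n in atTop, s n / η n < 1 / ((1 + a) * ‖q‖ + r + 1) :=
      hsη.eventually (gt_mem_nhds (by positivity))
    have hev2 : ∀ᶠ n in atTop, ρ n < min 1 (min (q.2.im / (‖q‖ + 1))
        (r / ((4 * a + 16) * ‖q‖ + 1))) :=
      hρ0.eventually (gt_mem_nhds (lt_min one_pos (lt_min (by positivity) (by positivity))))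
    filter_upwards [hev1, hev2, ev_low hρ0 (fun x hx => (hKs hx).2) hKc] with n h1 h2 h3
    rintro ⟨G, V, hV, hqV, hGd, hGh, hGB⟩
    have hsn := hs n
    have hηn := hη n
    have hρn := hρ n
    have hsc : s n * ((1 + a) * ‖q‖ + r) < η n := by
      rw [div_lt_div_iff₀ hηn (by positivity)] at h1
      nlinarith
    have hρ1 : ρ n ≤ 1 := (h2.trans_le (min_le_left _ _)).le
    have hρ2 : ρ n * ‖q‖ < q.2.im := by
      have h4 := h2.trans_le ((min_le_right _ _).trans (min_le_left _ _))
      rw [lt_div_iff₀ (by positivity)] at h4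
      nlinarith
    have hρ3 : ρ n * ((4 * a + 16) * ‖q‖) < r := by
      have h4 := h2.trans_le ((min_le_right _ _).trans (min_le_right _ _))
      rw [lt_div_iff₀ (by positivity)] at h4
      nlinarith
    refine no_ext (hE n) D.X_open D.B_diff D.maxi ha hρn.le hρ1 hsn hr hq hsc hρ2 hρ3 ?_
    set c : ℂ := nB (fun x => B (bl (e n) (s n) x)) with hc
    have hci : c.im = 0 := by rw [hc]; unfold nB; simp
    have hbV : ball q r ⊆ V := ball_subset_closedBall.trans hqV
    refine ⟨fun x => G x + c, (hGd.mono hbV).add_const _, ?_, ?_⟩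
    · intro x hx
      have := hGh x (hbV hx)
      rwa [Complex.add_im, hci, add_zero]
    · -- identity theorem on the convex set `ball q r ∩ Wm (a - ρ n)`
      have hO : IsOpen (ball q r ∩ Wg (a - ρ n)) := isOpen_ball.inter (isOpen_Wg _)
      have hconv : Convex ℝ (ball q r ∩ Wg (a - ρ n)) :=
        (convex_ball _ _).inter (convex_Wg _)
      have hin : ∀ x ∈ ball q r ∩ Wg (a - ρ n), bl (e n) (s n) x ∈ X := by
        intro x hx
        refine bl_mem (hE n) hsn hx.2 ?_
        have h4 : ‖x‖ ≤ ‖q‖ + r := by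
          have h5 := norm_add_le q (x - q)
          rw [add_sub_cancel] at h5
          have h6 : ‖x - q‖ < r := by rw [← dist_eq_norm]; exact hx.1
          linarith
        refine lt_of_le_of_lt (mul_le_mul_of_nonneg_left (h4.trans ?_) hsn.le) hsc
        have := mul_nonneg ha (norm_nonneg q)
        linarith
      have han1 : AnalyticOnNhd ℂ (fun x => G x + c) (ball q r ∩ Wg (a - ρ n)) :=
        Crest.Agent.R266.SCV.analyticOnNhd_of_differentiableOn hO
          (((hGd.mono hbV).mono inter_subset_left).add_const _)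
      have han2 : AnalyticOnNhd ℂ (fun x => B (bl (e n) (s n) x)) (ball q r ∩ Wg (a - ρ n)) :=
        Crest.Agent.R266.SCV.analyticOnNhd_of_differentiableOn hO
          (D.B_diff.comp (differentiable_bl _ _).differentiableOn hin)
      have hx1K : x1 ∈ ball q r ∩ Wg (a - ρ n) := by
        have h4 : x1 ∈ K := mem_closedBall_self (by linarith)
        exact ⟨(hKs h4).1, h3 h4⟩
      have hev : (fun x => G x + c) =ᶠ[𝓝 x1] fun x => B (bl (e n) (s n) x) := by
        have h4 : ball x1 (r2 / 2) ∈ 𝓝 x1 := ball_mem_nhds _ (by linarith)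
        filter_upwards [h4] with x hx
        have h5 : x ∈ K := ball_subset_closedBall hx
        rw [hGB x ⟨h5, hbV (hKs h5).1⟩, hc]
        ring
      have heq := AnalyticOnNhd.eqOn_of_preconnected_of_eventuallyEq han1 han2
        hconv.isPreconnected hx1K hev
      intro x hx1' hx2
      exact heq ⟨hx1', hx2⟩

end Crest.Agent.R102.World150
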