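import Crest.Agent.R102.Final_802
import Crest.Agent.R102.EdgeRig_255
import Crest.Agent.R102.EdOf_364
import Crest.Agent.R102.NrmAllP_812
import Crest.Agent.R102.ToWorld_150
import Crest.Agent.R102.MarcP_295
import Crest.Agent.R102.SupFin_115
import Crest.Agent.R102.CuspP_985
import Crest.Agent.R102.FlatPP_196

/-!
Row 102, the final assembly (helper802): `Chain559.EdgeO` from the open leaves of `EdgeDefs_255`.
-/

set_option autoImplicit false

namespace Crest.Agent.R102.Final802

open Crest.Agent.R102 Crest.Agent.R102.Edge255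

theorem edgeO_of5 (hB : BalP) (hN : NormP) (hC : CuspP) (hF : FlatP) (hS : SlowP) :
    Chain559.EdgeO :=
  edgeO_all EdOf364.edOf MarcP295.marcP hB hN (NrmAllP812.nrmAllP hN) World150.toWorld hC hF hS
    Sup115.supFin

theorem edgeO_of3 (hB : BalP) (hN : NormP) (hS : SlowP) : Chain559.EdgeO :=
  edgeO_of5 hB hN CuspP985.cuspP Flat196.flatP hS

end Crest.Agent.R102.Final802

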