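import Crest.Agent.R102.EdgeDefs_255
import Crest.Agent.R102.N12_619

/-!
Row 102, EDGE, leaf **NormP** (helper864): the sequence form `Edge255.NormP` from the quantitative
window form `NQ` (619's `n12` + 669's `side_of_dat`).
-/

set_option autoImplicit false

open Set Filter Topology Metric Complex

noncomputable section

namespace Crest.Agent.R102.NormP864

open Crest.Agent.R102.Edge255
open Crest.Agent.R102.S5 (Half bl ray)

/-- model window: size `A`, level gap `c`, height `c₂` -/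
def KM (m A c c₂ : ℝ) : Set (ℂ × ℂ) :=
  {q | ‖q.1‖ ≤ A ∧ ‖q.2‖ ≤ A ∧ c₂ ≤ q.2.im ∧ q.1.im ≤ (m - c) * q.2.im}

/-- **619 (1), (2) at one window**, quantitative and scale invariant -/
def NQ : Prop :=
  ∀ (h κ : ℝ) (ψ H : ℂ → ℂ), Curve h ψ H → 0 < κ → ∀ (m A c c₂ : ℝ), 0 ≤ m → 1 ≤ A → 0 < c →
    c ≤ 1 → c ≤ m → 0 < c₂ → c₂ ≤ 1 →
    ∃ C m₁ τ : ℝ, 1 ≤ C ∧ 0 < m₁ ∧ 0 < τ ∧
    ∀ (u0 R d : ℝ) (Ar : ℂ → ℂ) (φ p B : ℂ × ℂ → ℂ) (X L : Set (ℂ × ℂ)),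
      ED u0 R d h ψ H Ar φ p B X L → ∀ (e : ℝ × ℝ) (s σ M : ℝ), 0 < s → C * s ≤ σ → 4 * σ ≤ d →
      ball ((e.2 : ℝ) : ℂ) (4 * σ) ⊆ ball (u0 : ℂ) R → Half e (4 * σ) m ⊆ L →
      (∀ s' ∈ Icc s σ, Intr h κ ψ B e s') →
      (∀ q ∈ Kc m m₁, ‖φ (bl e σ q) - ((φ (ray e σ)).re : ℂ)‖ + ‖p (bl e σ q)‖ ≤ M) →
      (s / σ) ^ τ * (1 + M) ≤ 1 →
      (∀ q ∈ KM m A c c₂, ‖φ (bl e s q) - ((φ (ray e s)).re : ℂ)‖ ≤
        C * (1 + |Real.log ‖R0 ψ φ B (ray e s)‖|)) ∧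
      ∀ sg : ℝ, (sg = 1 ∨ sg = -1) → 0 ≤ sg * Real.log ‖R0 ψ φ B (ray e s)‖ →
        ∀ q ∈ KM m A c c₂, ‖p (bl e s q) * cexp (sg * I * φ (bl e s q))‖ ≤ C ∧
          -C ≤ sg * (φ (bl e s q)).im

/-- a compact subset of the wedge lies in a model window -/
lemma compact_KM {m : ℝ} (hm : 0 < m) {K : Set (ℂ × ℂ)} (hK : K ⊆ Wg m) (hc : IsCompact K) :
    ∃ A c c₂ : ℝ, 1 ≤ A ∧ 0 < c ∧ c ≤ 1 ∧ c ≤ m ∧ 0 < c₂ ∧ c₂ ≤ 1 ∧ K ⊆ KM m A c c₂ := by
  rcases K.eq_empty_or_nonempty with rfl | hne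
  · exact ⟨1, min 1 m, 1, le_rfl, by positivity, min_le_left _ _, min_le_right _ _, one_pos,
      le_rfl, empty_subset _⟩
  obtain ⟨A, hA⟩ := hc.isBounded.exists_norm_le
  obtain ⟨q₁, hq₁, h1⟩ := hc.exists_isMinOn hne
    (f := fun q : ℂ × ℂ => q.2.im) (by fun_prop)
  obtain ⟨q₂, hq₂, h2⟩ := hc.exists_isMinOn hne
    (f := fun q : ℂ × ℂ => m * q.2.im - q.1.im) (by fun_prop)
  have p1 : 0 < q₁.2.im := (hK hq₁).1
  have p2 : 0 < m * q₂.2.im - q₂.1.im := by have := (hK hq₂).2; linarith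
  set A' := max 1 A with hA'
  have hA1 : 1 ≤ A' := le_max_left _ _
  set c := min (min 1 m) ((m * q₂.2.im - q₂.1.im) / A') with hcdef
  have hcpos : 0 < c := lt_min (lt_min one_pos hm) (by positivity)
  refine ⟨A', c, min 1 q₁.2.im, hA1, hcpos, (min_le_left _ _).trans (min_le_left _ _),
    (min_le_left _ _).trans (min_le_right _ _), lt_min one_pos p1, min_le_left _ _, ?_⟩
  intro q hq
  have hn : ‖q‖ ≤ A' := (hA q hq).trans (le_max_right _ _)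
  have hn1 : ‖q.1‖ ≤ A' := (norm_fst_le q).trans hn
  have hn2 : ‖q.2‖ ≤ A' := (norm_snd_le q).trans hn
  have b1 : q₁.2.im ≤ q.2.im := h1 hq
  have b2 : m * q₂.2.im - q₂.1.im ≤ m * q.2.im - q.1.im := h2 hq
  refine ⟨hn1, hn2, (min_le_right _ _).trans b1, ?_⟩
  have b3 : q.2.im ≤ A' := (Complex.im_le_norm _).trans hn2
  have b4 : c * q.2.im ≤ m * q₂.2.im - q₂.1.im := by
    have hc' : c ≤ (m * q₂.2.im - q₂.1.im) / A' := min_le_right _ _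
    have : c * A' ≤ m * q₂.2.im - q₂.1.im := by
      rw [le_div_iff₀ (by linarith)] at hc'; exact hc'
    nlinarith
  nlinarith

/-- **(EDGE-NORM)** from its window form -/
theorem normP_of (hN : NQ) : NormP := by
  intro u0 R d h ψ H Ar φ p B X L hD u s₀ a g κ e s σ hu hu0 ha hg hκ hC hlim
  have hm : 0 < a + g := by linarith
  set lam : ℕ → ℝ := fun n => Real.log ‖R0 ψ φ B (ray (e n) (s n))‖ with hlam
  -- one compact
  have key : ∀ K ⊆ Wg (a + g), IsCompact K → ∃ C : ℝ, ∀ᶠ n in atTop, (∀ q ∈ K,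
      ‖φ (bl (e n) (s n) q) - ((φ (ray (e n) (s n))).re : ℂ)‖ ≤ C * (1 + |lam n|)) ∧
      ∀ sg : ℝ, (sg = 1 ∨ sg = -1) → 0 ≤ sg * lam n → ∀ q ∈ K,
        ‖p (bl (e n) (s n) q) * cexp (sg * I * φ (bl (e n) (s n) q))‖ ≤ C ∧
          -C ≤ sg * (φ (bl (e n) (s n) q)).im := by
    intro K hK hKc
    obtain ⟨A, c, c₂, hA, hc, hc1, hcm, hc₂, hc₂1, hsub⟩ := compact_KM hm hK hKc
    obtain ⟨C, m₁, τ, hC1, hm₁, hτ, hwin⟩ :=
      hN h κ ψ H hD.curve hκ (a + g) A c c₂ hm.le hA hc hc1 hcm hc₂ hc₂1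
    obtain ⟨M, hM, hMlim⟩ := hC.outer m₁ hm₁
    refine ⟨C, ?_⟩
    have hτ2 : Tendsto (fun n => (s n / σ n) ^ τ) atTop (𝓝 0) := by
      have := hlim.rpow_const (p := τ) (Or.inr hτ.le)
      rwa [Real.zero_rpow hτ.ne'] at this
    have h1 : ∀ᶠ n in atTop, (s n / σ n) ^ τ * (1 + M n) ≤ 1 := by
      have h2 := hτ2.add (hMlim τ hτ)
      rw [add_zero] at h2
      filter_upwards [h2.eventually (ge_mem_nhds one_pos)] with n hn
      rw [mul_add, mul_one]; exact hn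
    have h3 : ∀ᶠ n in atTop, C * s n ≤ σ n := by
      have hC0 : 0 < 1 / C := by positivity
      filter_upwards [hlim.eventually (ge_mem_nhds hC0)] with n hn
      have hσ : 0 < σ n := lt_of_lt_of_le (hC.s_pos n) (hC.s_le n)
      rw [div_le_div_iff₀ hσ (by linarith)] at hn
      linarith
    filter_upwards [h1, h3] with n hn1 hn3
    obtain ⟨r1, r2⟩ := hwin u0 R d Ar φ p B X L hD (e n) (s n) (σ n) (M n) (hC.s_pos n) hn3
      (hC.σ_le n) (hC.ball_sub n) (hC.line n) (hC.col n) (hM n) hn1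
    exact ⟨fun q hq => r1 q (hsub hq), fun sg h1 h2 q hq => r2 sg h1 h2 q (hsub hq)⟩
  constructor
  · intro K hK hKc
    obtain ⟨C, hCn⟩ := key K hK hKc
    exact ⟨C, hCn.mono fun n hn => hn.1⟩
  · refine ⟨fun n => if 0 ≤ lam n then 1 else -1, ?_, ?_⟩
    · intro n
      by_cases h0 : 0 ≤ lam n
      · left; simp [h0]
      · right; simp [h0]
    · intro K hK hKc
      obtain ⟨C, hCn⟩ := key K hK hKc
      refine ⟨C, hCn.mono fun n hn q hq => ?_⟩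
      refine hn.2 (if 0 ≤ lam n then 1 else -1) ?_ ?_ q hq
      · by_cases h0 : 0 ≤ lam n
        · left; simp [h0]
        · right; simp [h0]
      · by_cases h0 : 0 ≤ lam n
        · simp [h0]
        · simp only [h0, if_false]; linarith [not_le.1 h0]

/-- **SIDE ON THE OBJECTS** (669's `side_of_ed`) -/
def SideStmt : Prop :=
  ∀ (h : ℝ) (ψ H : ℂ → ℂ), Curve h ψ H → ∀ (κ A κ' : ℝ), 0 < κ → 1 ≤ A → 0 < κ' →
    ∃ C0 : ℝ, 1 ≤ C0 ∧ ∀ (u0 R d : ℝ) (Af : ℂ → ℂ) (φ p B : ℂ × ℂ → ℂ) (X L : Set (ℂ × ℂ)),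
      ED u0 R d h ψ H Af φ p B X L → ∀ (e : ℝ × ℝ) (s σ : ℝ), 0 < s → s ≤ σ →
      40 * A * σ ≤ d → ball ((e.2 : ℝ) : ℂ) (40 * A * σ) ⊆ ball (u0 : ℂ) R →
      (∀ s' ∈ Icc s σ, Intr h κ ψ B e s') →
      N12.Side e A κ' C0 (fun s' => Real.log ‖R0 ψ φ B (ray e s')‖) φ p s σ

lemma norm_exp_shift (p z : ℂ) (σ c : ℝ) :
    ‖p * cexp (σ * I * (z - (c : ℂ)))‖ = ‖p * cexp (σ * I * z)‖ := by
  rw [norm_mul, norm_mul, Complex.norm_exp, Complex.norm_exp]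
  congr 2
  simp

/-- translation of the angle by a real constant -/
lemma Side_shift {e : ℝ × ℝ} {A κ C0 : ℝ} {lam : ℝ → ℝ} {φ p : ℂ × ℂ → ℂ} {s η₁ : ℝ}
    (h : N12.Side e A κ C0 lam φ p s η₁) (c : ℝ) :
    N12.Side e A κ C0 lam (fun q => φ q - (c : ℂ)) p s η₁ := by
  refine ⟨h.cont, h.lip, ?_, ?_⟩
  · intro s' hs' d hd q hq
    have h1 := h.ph s' hs' d hd q hq
    have h2 : φ q - (c : ℂ) - (((φ (ray e s') - (c : ℂ)).re : ℝ) : ℂ) =
        φ q - ((φ (ray e s')).re : ℂ) := by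
      simp
    rw [h2]; exact h1
  · intro s' hs' d hd σ hσ h0 q hq
    obtain ⟨h1, h2⟩ := h.sgn s' hs' d hd σ hσ h0 q hq
    rw [norm_exp_shift]
    refine ⟨?_, h2⟩
    simpa using h1

lemma size_ok {M D s σ τ' : ℝ} (hs : 0 < s) (hσ : 0 < σ) (hD : 1 ≤ D) (hτ' : 0 < τ')
    (hle : D ^ 2 * s ≤ σ) (hM : (s / σ) ^ (τ' / 2) * (1 + M) ≤ 1) :
    max M 0 * (s / (σ / D)) ^ τ' ≤ 1 := by
  have hD0 : (0 : ℝ) < D := by linarith
  have hx0 : 0 < s / σ := by positivity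
  have e1 : s / (σ / D) = D * (s / σ) := by field_simp
  rw [e1, Real.mul_rpow hD0.le hx0.le]
  have e2 : (s / σ) ^ τ' = (s / σ) ^ (τ' / 2) * (s / σ) ^ (τ' / 2) := by
    rw [← Real.rpow_add hx0]; congr 1; ring
  have hr0 : 0 ≤ (s / σ) ^ (τ' / 2) := by positivity
  have e3 : D ^ τ' * (s / σ) ^ (τ' / 2) ≤ 1 := by
    have e4 : D ^ τ' = (D ^ 2) ^ (τ' / 2) := by
      rw [← Real.rpow_natCast, ← Real.rpow_mul hD0.le]; congr 1; push_cast; ring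
    rw [e4, ← Real.mul_rpow (by positivity) hx0.le]
    refine Real.rpow_le_one (by positivity) ?_ (by positivity)
    rw [← mul_div_assoc, div_le_one hσ]
    exact hle
  have e5 : max M 0 * (s / σ) ^ (τ' / 2) ≤ 1 := by
    rcases le_total M 0 with h0 | h0
    · rw [max_eq_right h0, zero_mul]; exact zero_le_one
    · rw [max_eq_left h0]; nlinarith
  calc max M 0 * (D ^ τ' * (s / σ) ^ τ')
      = (max M 0 * (s / σ) ^ (τ' / 2)) * (D ^ τ' * (s / σ) ^ (τ' / 2)) := by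
        rw [e2]; ring
    _ ≤ 1 * 1 := mul_le_mul e5 e3 (by positivity) zero_le_one
    _ = 1 := one_mul 1

lemma bl_fst (e : ℝ × ℝ) (s : ℝ) (q : ℂ × ℂ) : (bl e s q).1 - (e.1 : ℂ) = (s : ℂ) * q.1 := by
  unfold S5.bl; simp

lemma bl_snd (e : ℝ × ℝ) (s : ℝ) (q : ℂ × ℂ) : (bl e s q).2 - (e.2 : ℂ) = (s : ℂ) * q.2 := by
  unfold S5.bl; simp

lemma bl_fst_im (e : ℝ × ℝ) (s : ℝ) (q : ℂ × ℂ) : (bl e s q).1.im = s * q.1.im := by
  unfold S5.bl; simp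

lemma bl_snd_im (e : ℝ × ℝ) (s : ℝ) (q : ℂ × ℂ) : (bl e s q).2.im = s * q.2.im := by
  unfold S5.bl; simp

/-- points of the top window in the coordinates of the window `σ` -/
lemma top_pt {e : ℝ × ℝ} {D A σ m c m' : ℝ} (hD : D = 10 * A) (hA : 1 ≤ A) (hσ : 0 < σ)
    (hm' : 0 < m') {q : ℂ × ℂ} (a1 : ‖q.1 - (e.1 : ℂ)‖ ≤ A * (σ / D))
    (a2 : ‖q.2 - (e.2 : ℂ)‖ ≤ A * (σ / D)) (a3 : m' * (σ / D) ≤ q.2.im)
    (a4 : q.1.im ≤ (m - c / 4) * q.2.im) :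
    ∃ x ∈ Kc m (min (c / 4) (m' / D)), bl e σ x = q := by
  have hD0 : 0 < D := by linarith
  have hσC : (σ : ℂ) ≠ 0 := by exact_mod_cast hσ.ne'
  have hAσ : A * (σ / D) ≤ σ := by
    have h0 : A * (σ / D) = σ / 10 := by rw [hD]; field_simp
    rw [h0]; linarith
  have hq2 : 0 < q.2.im := lt_of_lt_of_le (by positivity) a3
  refine ⟨((q.1 - (e.1 : ℂ)) / (σ : ℂ), (q.2 - (e.2 : ℂ)) / (σ : ℂ)), ⟨?_, ?_, ?_, ?_⟩, ?_⟩
  · show ‖(q.1 - (e.1 : ℂ)) / (σ : ℂ)‖ ≤ 1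
    rw [norm_div, Complex.norm_real, Real.norm_of_nonneg hσ.le, div_le_one hσ]
    linarith
  · show ‖(q.2 - (e.2 : ℂ)) / (σ : ℂ)‖ ≤ 1
    rw [norm_div, Complex.norm_real, Real.norm_of_nonneg hσ.le, div_le_one hσ]
    linarith
  · show min (c / 4) (m' / D) ≤ ((q.2 - (e.2 : ℂ)) / (σ : ℂ)).im
    have i2 : ((q.2 - (e.2 : ℂ)) / (σ : ℂ)).im = q.2.im / σ := by
      rw [Complex.div_ofReal_im]; simp
    rw [i2]
    refine (min_le_right _ _).trans ?_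
    rw [div_le_div_iff₀ hD0 hσ]
    have : m' * (σ / D) * D = m' * σ := by field_simp
    nlinarith [mul_le_mul_of_nonneg_right a3 hD0.le]
  · show ((q.1 - (e.1 : ℂ)) / (σ : ℂ)).im ≤
      (m - min (c / 4) (m' / D)) * ((q.2 - (e.2 : ℂ)) / (σ : ℂ)).im
    have i1 : ((q.1 - (e.1 : ℂ)) / (σ : ℂ)).im = q.1.im / σ := by
      rw [Complex.div_ofReal_im]; simp
    have i2 : ((q.2 - (e.2 : ℂ)) / (σ : ℂ)).im = q.2.im / σ := by
      rw [Complex.div_ofReal_im]; simp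
    rw [i1, i2, ← mul_div_assoc]
    refine div_le_div_of_nonneg_right ?_ hσ.le
    have h1 : min (c / 4) (m' / D) ≤ c / 4 := min_le_left _ _
    have h2 := mul_le_mul_of_nonneg_right h1 hq2.le
    linarith
  · unfold S5.bl
    ext
    · simp only; field_simp; ring
    · simp only; field_simp; ring

lemma KM_sub {e : ℝ × ℝ} {m A c c₂ s : ℝ} (hs : 0 < s) {q : ℂ × ℂ} (hq : q ∈ KM m A c c₂) :
    bl e s q ∈ N12.KW e m A c c₂ s := by
  obtain ⟨k1, k2, k3, k4⟩ := hq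
  refine ⟨?_, ?_, ?_, ?_⟩
  · rw [bl_fst, norm_mul, Complex.norm_real, Real.norm_of_nonneg hs.le, mul_comm]
    exact mul_le_mul_of_nonneg_right k1 hs.le
  · rw [bl_snd, norm_mul, Complex.norm_real, Real.norm_of_nonneg hs.le, mul_comm]
    exact mul_le_mul_of_nonneg_right k2 hs.le
  · rw [bl_snd_im, mul_comm]
    exact mul_le_mul_of_nonneg_left k3 hs.le
  · rw [bl_fst_im, bl_snd_im]
    have := mul_le_mul_of_nonneg_left k4 hs.le
    linarith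

/-- the window form from `n12` and `side_of_ed` -/
theorem nq_of (hS : SideStmt) : NQ := by
  intro h κ ψ H hcv hκ m A c c₂ hm hA hc hc1 hcm hc₂ hc₂1
  obtain ⟨C0, hC0, hside⟩ := hS h ψ H hcv κ A (1 / 16) hκ hA (by norm_num)
  obtain ⟨C, hC, m', hm', τ', hτ', h12⟩ :=
    N12.n12 (κ := 1 / 16) hm hA hc hc1 hcm hc₂ hc₂1 le_rfl hC0
  obtain ⟨D, hD⟩ : ∃ D : ℝ, D = 10 * A := ⟨_, rfl⟩
  have hD1 : 1 ≤ D := by linarith
  have hD0 : 0 < D := by linarith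
  have hP2 : (1 : ℝ) ≤ D ^ 2 := one_le_pow₀ hD1
  have hDD : D ≤ D ^ 2 := by nlinarith
  have hCle : C ≤ C * D ^ 2 := by nlinarith
  refine ⟨C * D ^ 2, min (c / 4) (m' / D), τ' / 2, hC.trans hCle, by positivity, by positivity, ?_⟩
  intro u0 R d Ar φ p B X L hD' e s σ M hs hCs hσd hball hline hcol htop hM
  have hC0' : 0 < C := by linarith
  have hσ : 0 < σ := by
    have : 0 < C * D ^ 2 * s := by positivity
    linarith
  have hσ'0 : 0 < σ / D := by positivity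
  have h40 : 40 * A * (σ / D) = 4 * σ := by rw [hD]; field_simp; norm_num
  have hσ'le : σ / D ≤ σ := div_le_self hσ.le hD1
  have hCs' : C * s ≤ σ / D := by
    rw [le_div_iff₀ hD0]
    have h0 : 0 ≤ C * s := by positivity
    have := mul_le_mul_of_nonneg_left hDD h0
    linarith
  have hsσ' : s ≤ σ / D := by
    have : s ≤ C * s := le_mul_of_one_le_left hs.le hC
    linarith
  have hSd := hside u0 R d Ar φ p B X L hD' e s (σ / D) hs hsσ' (by rw [h40]; exact hσd)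
    (by rw [h40]; exact hball) (fun s' hs' => hcol s' ⟨hs'.1, hs'.2.trans hσ'le⟩)
  obtain ⟨cc, hcc⟩ : ∃ cc : ℝ, cc = (φ (ray e σ)).re := ⟨_, rfl⟩
  have hSd' := Side_shift hSd cc
  have hHalf : Half e (A * (σ / D)) m ⊆ L := by
    refine (N12.Half_mono ?_).trans hline
    have h0 : A * (σ / D) = σ / 10 := by rw [hD]; field_simp
    rw [h0]; linarith
  have hφd : DifferentiableOn ℂ (fun q => φ q - (cc : ℂ)) (Half e (A * (σ / D)) m) :=
    (hD'.φ_diff.mono hHalf).sub_const _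
  have hpd : DifferentiableOn ℂ p (Half e (A * (σ / D)) m) := hD'.p_diff.mono hHalf
  have hsz : D ^ 2 * s ≤ σ := by
    have h0 : 0 ≤ D ^ 2 * s := by positivity
    have := mul_le_mul_of_nonneg_right hC h0
    linarith
  have hsize : max M 0 * (s / (σ / D)) ^ τ' ≤ 1 := size_ok hs hσ hD1 hτ' hsz hM
  have htop' : ∀ q : ℂ × ℂ, ‖q.1 - (e.1 : ℂ)‖ ≤ A * (σ / D) → ‖q.2 - (e.2 : ℂ)‖ ≤ A * (σ / D) →
      m' * (σ / D) ≤ q.2.im → q.1.im ≤ (m - c / 4) * q.2.im →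
      ‖φ q - (cc : ℂ)‖ ≤ max M 0 ∧ ‖p q‖ ≤ Real.exp (max M 0) := by
    intro q a1 a2 a3 a4
    obtain ⟨x, hx, hq⟩ := top_pt hD hA hσ hm' a1 a2 a3 a4
    have hb := htop x hx
    rw [hq, ← hcc] at hb
    have b1 := norm_nonneg (φ q - (cc : ℂ))
    have b2 := norm_nonneg (p q)
    have b3 : M ≤ max M 0 := le_max_left _ _
    refine ⟨by linarith, ?_⟩
    have : max M 0 + 1 ≤ Real.exp (max M 0) := Real.add_one_le_exp _
    linarith
  obtain ⟨r1, r2⟩ := h12 e s (σ / D) (max M 0) (fun s' => Real.log ‖R0 ψ φ B (ray e s')‖)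
    (fun q => φ q - (cc : ℂ)) p hs hCs' (le_max_right _ _) hsize hφd hpd hSd' htop'
  constructor
  · intro q hq
    have h1 := r1 _ (KM_sub hs hq)
    have h2 : φ (bl e s q) - (cc : ℂ) - (((φ (ray e s) - (cc : ℂ)).re : ℝ) : ℂ) =
        φ (bl e s q) - ((φ (ray e s)).re : ℂ) := by
      simp
    rw [h2] at h1
    refine h1.trans ?_
    refine mul_le_mul_of_nonneg_right hCle (by positivity)
  · intro sg hsg h0 q hq
    obtain ⟨h1, h2⟩ := r2 sg hsg h0 _ (KM_sub hs hq)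
    rw [norm_exp_shift] at h1
    refine ⟨h1.trans hCle, ?_⟩
    have h3 : -C ≤ sg * (φ (bl e s q)).im := by simpa using h2
    linarith

/-- **`Edge255.NormP` from 669's `side_of_ed`** -/
theorem normP_of_side (hS : SideStmt) : NormP := normP_of (nq_of hS)

end Crest.Agent.R102.NormP864
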