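import Crest.Agent.R102.Final2_802
import Crest.Agent.R102.BalP_953
import Crest.Agent.R102.NormP_864
import Crest.Agent.R102.SlowJ_486

/-!
Row 102, the final assembly (helper802): `Chain559.EdgeO` from the last three literals
`NormP864.SideStmt` (669), `SlowJ486.ColPhi` (172 / 841), `SlowJ486.NoRecP` (314).
-/

set_option autoImplicit false

namespace Crest.Agent.R102.Final802

open Crest.Agent.R102 Crest.Agent.R102.Edge255 Crest.AnalysisR.Billiard

theorem edgeO_of_last (hSd : NormP864.SideStmt) (hC : SlowJ486.ColPhi) (hN : SlowJ486.NoRecP) :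
    Chain559.EdgeO :=
  edgeO_of3 BalP953.balP (NormP864.normP_of_side hSd) (SlowJ486.slowP_of hC hN)

/-- both results of row 102 from the last three literals -/
theorem concl_of_last (hSd : NormP864.SideStmt) (hC : SlowJ486.ColPhi) (hN : SlowJ486.NoRecP)
    {Ω : Set (ℝ × ℝ)} {γ : ℝ → ℝ × ℝ} {P : ℝ} (ht : IsTable Ω γ P)
    (hf : HasCausticCollar Ω γ ∨ HasInvariantPhaseFoliation Ω γ) :
    ∃ (c : ℝ × ℝ) (Q : Matrix (Fin 2) (Fin 2) ℝ), Q.PosDef ∧
      Ω = {x : ℝ × ℝ | dotProduct ![x.1 - c.1, x.2 - c.2]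
        (Q.mulVec ![x.1 - c.1, x.2 - c.2]) < 1} :=
  concl_of (edgeO_of_last hSd hC hN) ht hf

end Crest.Agent.R102.Final802

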