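import Crest.Agent.R102.SideD_669
import Crest.Agent.R102.NormP_864

/-!
Row 102, EDGE: `side_of_ed` (spare copy, helper864): the D-side bounds `N12.Side` on the objects,
from 669's two point estimate and quotient lemma.
-/

set_option autoImplicit false

open Set Filter Metric Complex Topology

noncomputable section

namespace Crest.Agent.R102.SideE864

open Crest.Agent.R102.Edge255
open Crest.Agent.R102.S5 (Half bl ray)
open Crest.Agent.R102.Side426 (PB KA LA)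
open Crest.Agent.R102.Side669 (DW)

/-! ### tame functions of the depth -/

/-- `f d ≤ exp (C d^{-κ})` on `(0,1]` -/
def Tame (κ : ℝ) (f : ℝ → ℝ) : Prop :=
  ∃ C : ℝ, 0 ≤ C ∧ ∀ d : ℝ, 0 < d → d ≤ 1 → f d ≤ Real.exp (C * d ^ (-κ))

lemma one_le_rp {κ d : ℝ} (hκ : 0 < κ) (hd : 0 < d) (hd1 : d ≤ 1) : 1 ≤ d ^ (-κ) :=
  Real.one_le_rpow_of_pos_of_le_one_of_nonpos hd hd1 (by linarith)

lemma Tame.mono {κ : ℝ} {f g : ℝ → ℝ} (hg : Tame κ g)
    (h : ∀ d : ℝ, 0 < d → d ≤ 1 → f d ≤ g d) : Tame κ f := by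
  obtain ⟨C, hC, h1⟩ := hg
  exact ⟨C, hC, fun d hd hd1 => (h d hd hd1).trans (h1 d hd hd1)⟩

lemma tame_const {κ : ℝ} (hκ : 0 < κ) (c : ℝ) : Tame κ (fun _ => c) := by
  refine ⟨|c|, abs_nonneg _, fun d hd hd1 => ?_⟩
  have h1 := one_le_rp hκ hd hd1
  have h2 : c + 1 ≤ Real.exp c := Real.add_one_le_exp c
  have h3 : Real.exp c ≤ Real.exp (|c| * d ^ (-κ)) := by
    refine Real.exp_le_exp.2 ((le_abs_self c).trans ?_)
    nlinarith [abs_nonneg c]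
  linarith

lemma Tame.mul {κ : ℝ} {f g : ℝ → ℝ} (hf : Tame κ f) (hg : Tame κ g)
    (h0 : ∀ d : ℝ, 0 < d → d ≤ 1 → 0 ≤ g d) : Tame κ (fun d => f d * g d) := by
  obtain ⟨C, hC, h1⟩ := hf
  obtain ⟨C', hC', h2⟩ := hg
  refine ⟨C + C', by positivity, fun d hd hd1 => ?_⟩
  rw [add_mul, Real.exp_add]
  exact mul_le_mul (h1 d hd hd1) (h2 d hd hd1) (h0 d hd hd1) (Real.exp_pos _).le

lemma Tame.add {κ : ℝ} (hκ : 0 < κ) {f g : ℝ → ℝ} (hf : Tame κ f) (hg : Tame κ g) :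
    Tame κ (fun d => f d + g d) := by
  obtain ⟨C, hC, h1⟩ := hf
  obtain ⟨C', hC', h2⟩ := hg
  refine ⟨C + C' + 1, by positivity, fun d hd hd1 => ?_⟩
  have hx := one_le_rp hκ hd hd1
  have a1 : Real.exp (C * d ^ (-κ)) ≤ Real.exp ((C + C') * d ^ (-κ)) := by
    refine Real.exp_le_exp.2 ?_
    nlinarith
  have a2 : Real.exp (C' * d ^ (-κ)) ≤ Real.exp ((C + C') * d ^ (-κ)) := by
    refine Real.exp_le_exp.2 ?_
    nlinarith
  have a3 : 2 * Real.exp ((C + C') * d ^ (-κ)) ≤ Real.exp ((C + C' + 1) * d ^ (-κ)) := by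
    have e1 : (C + C' + 1) * d ^ (-κ) = (C + C') * d ^ (-κ) + d ^ (-κ) := by ring
    rw [e1, Real.exp_add]
    have e2 : (2 : ℝ) ≤ Real.exp (d ^ (-κ)) := by
      have := Real.add_one_le_exp (d ^ (-κ))
      linarith
    have e3 := Real.exp_pos ((C + C') * d ^ (-κ))
    nlinarith
  have b1 := h1 d hd hd1
  have b2 := h2 d hd hd1
  linarith

lemma tame_inv_pow {κ : ℝ} (hκ : 0 < κ) (p : ℕ) : Tame κ (fun d => (1 / d) ^ p) := by
  refine ⟨p / κ, by positivity, fun d hd hd1 => ?_⟩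
  have h1 : Real.log (1 / d) ≤ (1 / d) ^ κ / κ := Real.log_le_rpow_div (by positivity) hκ
  have h2 : (1 / d : ℝ) ^ κ = d ^ (-κ) := by
    rw [one_div, Real.inv_rpow hd.le, ← Real.rpow_neg hd.le]
  rw [h2] at h1
  have h3 : (1 / d : ℝ) ^ p = Real.exp (p * Real.log (1 / d)) := by
    rw [← Real.log_pow, Real.exp_log (by positivity)]
  show (1 / d : ℝ) ^ p ≤ _
  rw [h3]
  refine Real.exp_le_exp.2 ?_
  have : (p : ℝ) * Real.log (1 / d) ≤ p * (d ^ (-κ) / κ) :=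
    mul_le_mul_of_nonneg_left h1 (Nat.cast_nonneg p)
  calc (p : ℝ) * Real.log (1 / d) ≤ p * (d ^ (-κ) / κ) := this
    _ = p / κ * d ^ (-κ) := by ring

lemma tame_log {κ : ℝ} (hκ : 0 < κ) : Tame κ (fun d => 1 + Real.log (1 / d)) := by
  refine (tame_inv_pow hκ 1).mono fun d hd hd1 => ?_
  have := Real.log_le_sub_one_of_pos (show 0 < 1 / d by positivity)
  simp only [pow_one]
  linarith

/-- the growth exponent -/
lemma rp_le {κ x c1 d : ℝ} (hκ : 2 * x ≤ κ) (hc1 : 0 < c1) (hd : 0 < d) (hd1 : d ≤ 1) :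
    (c1 * d ^ 2) ^ (-x) ≤ c1 ^ (-x) * d ^ (-κ) := by
  rw [Real.mul_rpow hc1.le (by positivity)]
  refine mul_le_mul_of_nonneg_left ?_ (Real.rpow_nonneg hc1.le _)
  rw [← Real.rpow_natCast, ← Real.rpow_mul hd.le]
  refine Real.rpow_le_rpow_of_exponent_ge hd hd1 ?_
  push_cast
  linarith

lemma tame_growth {κ x C c1 : ℝ} (hκ : 2 * x ≤ κ) (hC : 0 ≤ C) (hc1 : 0 < c1) :
    Tame κ (fun d => Real.exp (C * (c1 * d ^ 2) ^ (-x))) := by
  refine ⟨C * c1 ^ (-x), by positivity, fun d hd hd1 => Real.exp_le_exp.2 ?_⟩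
  rw [mul_assoc]
  exact mul_le_mul_of_nonneg_left (rp_le hκ hc1 hd hd1) hC

lemma tame_growth' {κ x C c1 : ℝ} (hκ : 2 * x ≤ κ) (hC : 0 ≤ C) (hc1 : 0 < c1) :
    Tame κ (fun d => C * (c1 * d ^ 2) ^ (-x)) := by
  refine (tame_growth hκ hC hc1).mono fun d hd hd1 => ?_
  have := Real.add_one_le_exp (C * (c1 * d ^ 2) ^ (-x))
  linarith

/-- change of scale of the depth -/
lemma Tame.scale {κ : ℝ} {f : ℝ → ℝ} (hf : Tame κ f) {r : ℝ} (hr : 0 < r) (hr1 : r ≤ 1) :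
    Tame κ (fun d => f (r * d)) := by
  obtain ⟨C, hC, h1⟩ := hf
  refine ⟨C * r ^ (-κ), by positivity, fun d hd hd1 => ?_⟩
  have h2 := h1 (r * d) (by positivity) (by nlinarith)
  rw [Real.mul_rpow hr.le hd.le, ← mul_assoc] at h2
  exact h2

/-! ### one window -/

/-- the objects near one window `(e, t)` with interior label -/
structure Loc (h κ A : ℝ) (ψ H : ℂ → ℂ) (φ p B : ℂ × ℂ → ℂ) (e : ℝ × ℝ) (t ρ : ℝ) : Prop where
  t_pos : 0 < t
  le : 40 * A * t ≤ ρ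
  φd : DifferentiableOn ℂ φ (PB e ρ)
  pd : DifferentiableOn ℂ p (PB e ρ)
  Bd : DifferentiableOn ℂ B (PB e ρ)
  Bim : ∀ q ∈ PB e ρ, |(B q).im| < h
  inc : ∀ q ∈ PB e ρ, F300.Inc ψ H (φ q) (p q) (B q)
  sin_ne : ∀ q ∈ PB e ρ, deriv ψ (B q) ≠ 0 → Complex.sin (φ q - ψ (B q)) ≠ 0
  intr : Intr h κ ψ B e t

/-- `log R₀` -/
def LL (ψ : ℂ → ℂ) (φ B : ℂ × ℂ → ℂ) (q : ℂ × ℂ) : ℂ := 2 * I * (ψ (B q) - φ q)

lemma LL_re (ψ : ℂ → ℂ) (φ B : ℂ × ℂ → ℂ) (q : ℂ × ℂ) :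
    (LL ψ φ B q).re = 2 * (φ q).im - 2 * (ψ (B q)).im := by
  unfold LL
  simp [Complex.mul_re, Complex.mul_im]
  ring

lemma log_R0 (ψ : ℂ → ℂ) (φ B : ℂ × ℂ → ℂ) (q : ℂ × ℂ) :
    Real.log ‖R0 ψ φ B q‖ = (LL ψ φ B q).re := by
  unfold R0 LL
  rw [Complex.norm_exp, Real.log_exp]

/-- the margin on the deep side -/
def c1 (κ A : ℝ) : ℝ := κ / (4 * KA (8 * A))

lemma c1_pos {κ A : ℝ} (hκ : 0 < κ) (hA : 1 ≤ A) : 0 < c1 κ A := by
  have := Side426.KA_pos (A := 8 * A) (by linarith)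
  unfold c1; positivity

section One

variable {h κ A : ℝ} {ψ H : ℂ → ℂ} {φ p B : ℂ × ℂ → ℂ} {e : ℝ × ℝ} {t ρ : ℝ}

lemma Loc.ρ_gt (l : Loc h κ A ψ H φ p B e t ρ) (hA : 1 ≤ A) : 8 * A * t < ρ := by
  have h1 := l.t_pos
  have h2 := l.le
  have : 0 < A * t := by positivity
  linarith

lemma Loc.DWsub (l : Loc h κ A ψ H φ p B e t ρ) (hA : 1 ≤ A) {d : ℝ} (hd : 0 < d) :
    DW e (8 * A) d t ⊆ PB e ρ :=
  Side669.DW_sub l.t_pos hd (l.ρ_gt hA)

/-- the label on the deep side -/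
lemma Loc.depth (l : Loc h κ A ψ H φ p B e t ρ) (hA : 1 ≤ A) {d : ℝ} (hκ : 0 < κ) (hd : 0 < d)
    {q : ℂ × ℂ} (hq : q ∈ DW e (8 * A) (d / 2) t) : |(B q).im| ≤ h - c1 κ A * d ^ 2 := by
  obtain ⟨h1, h2, h3, h4⟩ := hq
  have h5 : 5 * ((8 * A) * t) ≤ ρ := by have := l.le; linarith
  have := Side426.side_depth (A := 8 * A) (d := d / 2) (by linarith) l.t_pos h5 (by positivity)
    l.Bd (fun q hq => (l.Bim q hq).le) hκ.le l.intr.1 h1 h2 h3 h4
  refine this.trans (le_of_eq ?_)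
  unfold c1
  have := Side426.KA_pos (A := 8 * A) (by linarith)
  field_simp
  ring

lemma Loc.κ_lt (l : Loc h κ A ψ H φ p B e t ρ) : κ ≤ h := by
  have h1 := l.intr.1
  have h2 := abs_nonneg (B (ray e t)).im
  linarith

lemma c1_lt {h κ A d : ℝ} (hκ : 0 < κ) (hκh : κ ≤ h) (hA : 1 ≤ A) (hd : 0 < d) (hd1 : d ≤ 1) :
    c1 κ A * d ^ 2 < h := by
  have h0 : (1 : ℝ) ≤ KA (8 * A) := by
    unfold Side426.KA
    have : (1 : ℝ) ≤ (64 * (8 * A)) ^ 4 := one_le_pow₀ (by linarith)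
    linarith
  have h1 : c1 κ A ≤ κ / 4 := by
    unfold c1
    exact div_le_div_of_nonneg_left hκ.le (by norm_num) (by linarith)
  have h2 : d ^ 2 ≤ 1 := pow_le_one₀ hd.le hd1
  have h3 := c1_pos hκ hA
  nlinarith

lemma isOpen_Str' (h : ℝ) : IsOpen (T5.Str h) := by
  have : T5.Str h = (fun z : ℂ => |z.im|) ⁻¹' Iio h := by
    ext z; rfl
  rw [this]
  exact isOpen_Iio.preimage (by fun_prop)

lemma Loc.mem (l : Loc h κ A ψ H φ p B e t ρ) {q : ℂ × ℂ} (hq : q ∈ PB e ρ) :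
    B q ∈ T5.Str h := l.Bim q hq

lemma Loc.Yd (l : Loc h κ A ψ H φ p B e t ρ) (hc : Curve h ψ H) :
    DifferentiableOn ℂ (fun q => deriv ψ (B q)) (PB e ρ) :=
  (hc.ψ_diff.deriv (isOpen_Str' h)).comp l.Bd fun _ hq => l.mem hq

lemma Loc.ψd (l : Loc h κ A ψ H φ p B e t ρ) (hc : Curve h ψ H) :
    DifferentiableOn ℂ (fun q => ψ (B q)) (PB e ρ) :=
  hc.ψ_diff.comp l.Bd fun _ hq => l.mem hq

lemma Loc.Ld (l : Loc h κ A ψ H φ p B e t ρ) (hc : Curve h ψ H) :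
    DifferentiableOn ℂ (LL ψ φ B) (PB e ρ) :=
  ((l.ψd hc).sub l.φd).const_mul _

lemma Loc.LY (l : Loc h κ A ψ H φ p B e t ρ) {q : ℂ × ℂ} (hq : q ∈ PB e ρ)
    (h1 : cexp (LL ψ φ B q) = 1) : deriv ψ (B q) = 0 := by
  by_contra hne
  refine l.sin_ne q hq hne ?_
  unfold LL at h1
  rw [Complex.exp_eq_one_iff] at h1
  obtain ⟨n, hn⟩ := h1
  have h2 : ψ (B q) - φ q = n * Real.pi := by
    have h2I : (2 : ℂ) * I ≠ 0 := by simp
    apply mul_left_cancel₀ h2I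
    rw [hn]; ring
  have h3 : φ q - ψ (B q) = ((-n : ℤ) : ℂ) * Real.pi := by
    push_cast
    linear_combination -h2
  rw [h3]
  exact Complex.sin_int_mul_pi _

/-- growth constants of the curve -/
structure Gr (h : ℝ) (ψ H : ℂ → ℂ) (x Cy Cg : ℝ) : Prop where
  x_pos : 0 < x
  x_le : x ≤ 1
  Cy_pos : 0 ≤ Cy
  Cg_pos : 0 ≤ Cg
  gy : ∀ d : ℝ, 0 < d → d < h → ∀ z : ℂ, |z.im| ≤ h - d →
    Real.log (1 + ‖deriv ψ z‖) ≤ Cy * d ^ (-x)
  gψ : ∀ d : ℝ, 0 < d → d < h → ∀ z : ℂ, |z.im| ≤ h - d →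
    ‖ψ z - 2 * Real.pi * z‖ ≤ Real.exp (Cg * d ^ (-x))
  gH : ∀ d : ℝ, 0 < d → d < h → ∀ z : ℂ, |z.im| ≤ h - d →
    Real.log (1 + ‖H z‖ + ‖deriv H z‖ + ‖deriv (deriv H) z‖) ≤ Real.exp (Cg * d ^ (-x))

lemma gr_of (hc : Curve h ψ H) {κ' : ℝ} (hκ' : 0 < κ') :
    ∃ x Cy Cg : ℝ, 2 * x ≤ κ' ∧ Gr h ψ H x Cy Cg := by
  obtain ⟨k, hk⟩ := exists_nat_gt (2 / κ')
  obtain ⟨Cy, hCy, h1⟩ := hc.grow_y k
  obtain ⟨Cg, hCg, h2⟩ := hc.grow k
  have hk1 : (0 : ℝ) < (k : ℝ) + 1 := by positivity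
  refine ⟨1 / ((k : ℝ) + 1), Cy, Cg, ?_, ⟨by positivity, ?_, hCy.le, hCg.le, h1,
    fun d a b z c => (h2 d a b z c).1, fun d a b z c => (h2 d a b z c).2.1⟩⟩
  · rw [mul_one_div, div_le_iff₀ hk1]
    rw [div_lt_iff₀ hκ'] at hk
    nlinarith
  · rw [div_le_one hk1]
    linarith [(Nat.cast_nonneg k : (0 : ℝ) ≤ k)]

/-- the growth exponent of `y` on the deep side -/
def gyf (κ A x Cy d : ℝ) : ℝ := Cy * (c1 κ A * d ^ 2) ^ (-x)

/-- the growth function of the curve on the deep side -/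
def Gf (κ A x Cg d : ℝ) : ℝ := Real.exp (Cg * (c1 κ A * d ^ 2) ^ (-x))

def ellf (κ A x Cy d : ℝ) : ℝ := 1 + gyf κ A x Cy d + |Real.log κ|

lemma gyf_nonneg {x Cy Cg d : ℝ} (hG : Gr h ψ H x Cy Cg) (hκ : 0 < κ) (hA : 1 ≤ A) (hd : 0 < d) :
    0 ≤ gyf κ A x Cy d := by
  have := c1_pos hκ hA
  have := hG.Cy_pos
  unfold gyf; positivity

lemma Loc.y_le (l : Loc h κ A ψ H φ p B e t ρ) {x Cy Cg : ℝ} (hG : Gr h ψ H x Cy Cg)
    (hκ : 0 < κ) (hA : 1 ≤ A) {d : ℝ} (hd : 0 < d) (hd1 : d ≤ 1) {q : ℂ × ℂ}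
    (hq : q ∈ DW e (8 * A) (d / 2) t) :
    ‖deriv ψ (B q)‖ ≤ Real.exp (gyf κ A x Cy d) := by
  have h1 := hG.gy (c1 κ A * d ^ 2) (by have := c1_pos hκ hA; positivity)
    (c1_lt hκ l.κ_lt hA hd hd1) (B q) (l.depth hA hκ hd hq)
  have h2 : 1 + ‖deriv ψ (B q)‖ ≤ Real.exp (gyf κ A x Cy d) := by
    rw [← Real.log_le_iff_le_exp (by positivity)]
    exact h1
  linarith

lemma Loc.ψ_le (l : Loc h κ A ψ H φ p B e t ρ) {x Cy Cg : ℝ} (hG : Gr h ψ H x Cy Cg)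
    (hκ : 0 < κ) (hA : 1 ≤ A) {d : ℝ} (hd : 0 < d) (hd1 : d ≤ 1) {q : ℂ × ℂ}
    (hq : q ∈ DW e (8 * A) (d / 2) t) :
    ‖ψ (B q) - 2 * Real.pi * B q‖ ≤ Gf κ A x Cg d :=
  hG.gψ (c1 κ A * d ^ 2) (by have := c1_pos hκ hA; positivity)
    (c1_lt hκ l.κ_lt hA hd hd1) (B q) (l.depth hA hκ hd hq)

lemma Loc.H_le (l : Loc h κ A ψ H φ p B e t ρ) {x Cy Cg : ℝ} (hG : Gr h ψ H x Cy Cg)
    (hκ : 0 < κ) (hA : 1 ≤ A) {d : ℝ} (hd : 0 < d) (hd1 : d ≤ 1) {q : ℂ × ℂ}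
    (hq : q ∈ DW e (8 * A) (d / 2) t) :
    ‖H (B q)‖ ≤ Real.exp (Gf κ A x Cg d) ∧ ‖deriv H (B q)‖ ≤ Real.exp (Gf κ A x Cg d) := by
  have h1 := hG.gH (c1 κ A * d ^ 2) (by have := c1_pos hκ hA; positivity)
    (c1_lt hκ l.κ_lt hA hd hd1) (B q) (l.depth hA hκ hd hq)
  have h2 : 1 + ‖H (B q)‖ + ‖deriv H (B q)‖ + ‖deriv (deriv H) (B q)‖ ≤
      Real.exp (Gf κ A x Cg d) := by
    rw [← Real.log_le_iff_le_exp (by positivity)]
    exact h1
  have := norm_nonneg (H (B q))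
  have := norm_nonneg (deriv H (B q))
  have := norm_nonneg (deriv (deriv H) (B q))
  constructor <;> linarith

lemma Loc.imψ (l : Loc h κ A ψ H φ p B e t ρ) {x Cy Cg : ℝ} (hG : Gr h ψ H x Cy Cg)
    (hκ : 0 < κ) (hA : 1 ≤ A) {d : ℝ} (hd : 0 < d) (hd1 : d ≤ 1) {q : ℂ × ℂ}
    (hq : q ∈ DW e (8 * A) (d / 2) t) :
    |(ψ (B q)).im| ≤ 2 * Real.pi * h + Gf κ A x Cg d := by
  have h1 := l.ψ_le hG hκ hA hd hd1 hq
  have h2 : (ψ (B q)).im = (ψ (B q) - 2 * Real.pi * B q).im + 2 * Real.pi * (B q).im := by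
    simp [Complex.mul_im]
  have h3 : |(B q).im| < h := l.Bim q (l.DWsub hA (by positivity) hq)
  rw [h2]
  refine (abs_add_le _ _).trans ?_
  rw [abs_mul, abs_of_pos (show (0 : ℝ) < 2 * Real.pi by positivity)]
  have h4 := (Complex.abs_im_le_norm (ψ (B q) - 2 * Real.pi * B q)).trans h1
  have h5 : 2 * Real.pi * |(B q).im| ≤ 2 * Real.pi * h :=
    mul_le_mul_of_nonneg_left h3.le (by positivity)
  linarith

/-- the point of non degeneracy -/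
lemma Loc.q0 (l : Loc h κ A ψ H φ p B e t ρ) (hA : 1 ≤ A) :
    ∃ q0 ∈ DW e (2 * A) (1 / 10) t, κ ≤ ‖deriv ψ (B q0)‖ := by
  obtain ⟨-, q, hq, hκ⟩ := l.intr
  have ht := l.t_pos
  refine ⟨bl e t q, ?_, hκ⟩
  rw [mem_closedBall, dist_eq_norm] at hq
  have a1 : ‖q.1 - (-I)‖ ≤ 1 / 10 := (norm_fst_le _).trans hq
  have a2 : ‖q.2 - I / 4‖ ≤ 1 / 10 := (norm_snd_le _).trans hq
  have b1 : ‖q.1‖ ≤ 2 := by
    have : q.1 = (q.1 - (-I)) + (-I) := by ring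
    rw [this]
    refine (norm_add_le _ _).trans ?_
    rw [norm_neg, norm_I]; linarith
  have b2 : ‖q.2‖ ≤ 2 := by
    have : q.2 = (q.2 - I / 4) + I / 4 := by ring
    rw [this]
    refine (norm_add_le _ _).trans ?_
    rw [norm_div, norm_I]; norm_num; linarith
  have c1' : q.1.im ≤ -(9 / 10) := by
    have := (abs_le.1 ((Complex.abs_im_le_norm (q.1 - (-I))).trans a1)).2
    simp at this; linarith
  have c2' : 3 / 20 ≤ q.2.im := by
    have := (abs_le.1 ((Complex.abs_im_le_norm (q.2 - I / 4)).trans a2)).1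
    have e1 : (q.2 - I / 4).im = q.2.im - 1 / 4 := by
      simp
    rw [e1] at this; linarith
  refine ⟨?_, ?_, ?_, ?_⟩
  · rw [NormP864.bl_fst, norm_mul, Complex.norm_real, Real.norm_of_nonneg ht.le, mul_comm]
    nlinarith
  · rw [NormP864.bl_snd, norm_mul, Complex.norm_real, Real.norm_of_nonneg ht.le, mul_comm]
    nlinarith
  · rw [NormP864.bl_fst_im]; nlinarith
  · rw [NormP864.bl_snd_im]; nlinarith

lemma ray_DW {e : ℝ × ℝ} {A t t' : ℝ} (hA : 1 ≤ A) (ht : 0 < t) (htt : t ≤ t') :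
    ray e t ∈ DW e A (t / t' / 10) t' := by
  have ht' : 0 < t' := by linarith
  have e1 : t / t' / 10 * t' = t / 10 := by field_simp
  refine ⟨?_, ?_, ?_, ?_⟩
  · rw [Side426.ray_fst, norm_mul, norm_I, mul_one, Complex.norm_real, Real.norm_eq_abs, abs_neg,
      abs_of_pos ht]
    nlinarith
  · rw [Side426.ray_snd, norm_mul, norm_I, mul_one, Complex.norm_real, Real.norm_eq_abs,
      abs_of_pos (by positivity)]
    nlinarith
  · rw [e1, Side426.ray_fst_im]; linarith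
  · rw [e1, Side426.ray_snd_im]; linarith

lemma ell_ok {κ M g : ℝ} (hκ : 0 < κ) (hM : M = Real.exp g) :
    M * Real.exp (-(1 + g + |Real.log κ|)) ≤ κ := by
  rw [hM, ← Real.exp_add, ← Real.le_log_iff_exp_le hκ]
  have := neg_abs_le (Real.log κ)
  linarith

/-! ### the two point estimate and the quotient lemma at one window -/

/-- 669's `two_pt` with `a = 1/10` -/
def TwoS (A K : ℝ) (p : ℕ) : Prop :=
  ∀ d : ℝ, 0 < d → d ≤ 1 / 10 → ∀ (e : ℝ × ℝ) (s ρ : ℝ), 0 < s →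
      2 * A * s < ρ → ∀ Y L : ℂ × ℂ → ℂ, DifferentiableOn ℂ Y (PB e ρ) →
      DifferentiableOn ℂ L (PB e ρ) → ∀ M : ℝ, 0 < M →
      (∀ x ∈ DW e (2 * A) (d / 2) s, ‖Y x‖ ≤ M) →
      (∀ x ∈ DW e (2 * A) (d / 2) s, cexp (L x) = 1 → Y x = 0) →
      ∀ ℓ : ℝ, 1 ≤ ℓ → ∀ q0 ∈ DW e A (1 / 10) s, M * Real.exp (-ℓ) ≤ ‖Y q0‖ →
      ∀ q ∈ DW e A d s, ∀ q' ∈ DW e A d s,
        1 + |(L q).re| + ‖L q - L q'‖ ≤ K * (1 / d) ^ p * ℓ ^ 2 * (1 + |(L q').re|)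

/-- 669's `quot2` with `a = 1/10` -/
def QuoS (A K : ℝ) (p : ℕ) : Prop :=
  ∀ d : ℝ, 0 < d → d ≤ 1 / 10 → ∀ (e : ℝ × ℝ) (s ρ : ℝ), 0 < s →
      2 * A * s < ρ → ∀ Y L : ℂ × ℂ → ℂ, DifferentiableOn ℂ Y (PB e ρ) →
      DifferentiableOn ℂ L (PB e ρ) → ∀ M : ℝ, 0 < M →
      (∀ x ∈ DW e (2 * A) (d / 2) s, ‖Y x‖ ≤ M) →
      (∀ x ∈ DW e (2 * A) (d / 2) s, cexp (L x) = 1 → Y x = 0) →
      ∀ ℓ : ℝ, 1 ≤ ℓ → ∀ q0 ∈ DW e A (1 / 10) s, M * Real.exp (-ℓ) ≤ ‖Y q0‖ →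
      ∀ (F G : ℂ × ℂ → ℂ) (M' : ℝ), DifferentiableOn ℂ F (PB e ρ) →
        DifferentiableOn ℂ G (PB e ρ) → (∀ x ∈ DW e (2 * A) (d / 2) s, F x * Y x = G x) →
        (∀ x ∈ DW e (2 * A) (d / 2) s, ‖G x‖ ≤ M') →
      ∀ q ∈ DW e A d s, ‖F q‖ ≤ M' / M * Real.exp (K * (1 / d) ^ p * ℓ)

/-- the constant of the two point estimate -/
def T1f (κ A x Cy K : ℝ) (p : ℕ) (d : ℝ) : ℝ := K * (1 / d) ^ p * (ellf κ A x Cy d) ^ 2

lemma ellf_ge {x Cy Cg d : ℝ} (hG : Gr h ψ H x Cy Cg) (hκ : 0 < κ) (hA : 1 ≤ A) (hd : 0 < d) :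
    1 ≤ ellf κ A x Cy d := by
  have := gyf_nonneg hG hκ hA hd
  unfold ellf
  linarith [abs_nonneg (Real.log κ)]

lemma T1f_nonneg {x Cy K d : ℝ} {n : ℕ} (hK : 1 ≤ K) (hd : 0 < d) : 0 ≤ T1f κ A x Cy K n d := by
  unfold T1f; positivity

lemma Loc.two (l : Loc h κ A ψ H φ p B e t ρ) (hc : Curve h ψ H) {x Cy Cg : ℝ}
    (hG : Gr h ψ H x Cy Cg) (hκ : 0 < κ) (hA : 1 ≤ A) {K : ℝ} {n : ℕ} (hT : TwoS (4 * A) K n)
    {d : ℝ} (hd : 0 < d) (hd1 : d ≤ 1 / 10) {q q' : ℂ × ℂ} (hq : q ∈ DW e (4 * A) d t)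
    (hq' : q' ∈ DW e (4 * A) d t) :
    1 + |(LL ψ φ B q).re| + ‖LL ψ φ B q - LL ψ φ B q'‖ ≤
      T1f κ A x Cy K n d * (1 + |(LL ψ φ B q').re|) := by
  obtain ⟨q0, hq0, hq0κ⟩ := l.q0 hA
  have e8 : 2 * (4 * A) = 8 * A := by ring
  have hd2 : 0 < d / 2 := by positivity
  refine hT d hd hd1 e t ρ l.t_pos (by rw [e8]; exact l.ρ_gt hA) (fun q => deriv ψ (B q))
    (LL ψ φ B) (l.Yd hc) (l.Ld hc) (Real.exp (gyf κ A x Cy d)) (Real.exp_pos _) ?_ ?_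
    (ellf κ A x Cy d) (ellf_ge hG hκ hA hd) q0
    (Side669.DW_mono l.t_pos (by linarith) le_rfl hq0) ?_ q hq q' hq'
  · intro y hy
    rw [e8] at hy
    exact l.y_le hG hκ hA hd (by linarith) hy
  · intro y hy h1
    rw [e8] at hy
    exact l.LY (l.DWsub hA hd2 hy) h1
  · exact (ell_ok hκ rfl).trans hq0κ

lemma ray_DW1 {e : ℝ × ℝ} {A t : ℝ} (hA : 1 ≤ A) (ht : 0 < t) : ray e t ∈ DW e A (1 / 10) t := by
  have := ray_DW (e := e) hA ht le_rfl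
  rwa [div_self ht.ne'] at this

/-- the wrong sign is bounded -/
lemma Loc.sign (l : Loc h κ A ψ H φ p B e t ρ) (hc : Curve h ψ H) {x Cy Cg : ℝ}
    (hG : Gr h ψ H x Cy Cg) (hκ : 0 < κ) (hA : 1 ≤ A) {K : ℝ} {n : ℕ} (hK : 1 ≤ K)
    (hT : TwoS (4 * A) K n) {d : ℝ} (hd : 0 < d) (hd1 : d ≤ 1 / 10) {σ : ℝ}
    (hσ : σ = 1 ∨ σ = -1) (h0 : 0 ≤ σ * (LL ψ φ B (ray e t)).re) {q : ℂ × ℂ}
    (hq : q ∈ DW e (4 * A) d t) : -T1f κ A x Cy K n d ≤ σ * (LL ψ φ B q).re := by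
  have hT0 : 0 ≤ T1f κ A x Cy K n d := T1f_nonneg hK hd
  rcases le_or_gt 0 (σ * (LL ψ φ B q).re) with h1 | h1
  · linarith
  have hr : ray e t ∈ DW e (4 * A) d t :=
    Side669.DW_mono l.t_pos (by linarith) hd1 (ray_DW1 hA l.t_pos)
  have hsub : DW e (4 * A) d t ⊆ PB e ρ :=
    (Side669.DW_mono l.t_pos (by linarith) le_rfl).trans (l.DWsub hA hd)
  have hcont : ContinuousOn (fun q => σ * (LL ψ φ B q).re) (DW e (4 * A) d t) :=
    (Complex.continuous_re.comp_continuousOn ((l.Ld hc).continuousOn.mono hsub)).const_smul σ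
  obtain ⟨q', hq', h2⟩ := (Side669.DW_convex (e := e) (A := 4 * A) (d := d)
    (s := t)).isPreconnected.intermediate_value hq hr hcont ⟨h1.le, h0⟩
  have h3 : (LL ψ φ B q').re = 0 := by
    have h4 : σ * (LL ψ φ B q').re = 0 := h2
    rcases hσ with rfl | rfl
    · simpa using h4
    · simpa using h4
  have h5 := l.two hc hG hκ hA hT hd hd1 hq hq'
  rw [h3, abs_zero, add_zero, mul_one] at h5
  have h6 : |(LL ψ φ B q).re| ≤ T1f κ A x Cy K n d := by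
    have := norm_nonneg (LL ψ φ B q - LL ψ φ B q'); linarith
  have h7 : |σ * (LL ψ φ B q).re| = |(LL ψ φ B q).re| := by
    rw [abs_mul]
    rcases hσ with rfl | rfl <;> simp
  have h8 := neg_abs_le (σ * (LL ψ φ B q).re)
  linarith

/-- the lower bound of the signed height -/
lemma Loc.height (l : Loc h κ A ψ H φ p B e t ρ) (hc : Curve h ψ H) {x Cy Cg : ℝ}
    (hG : Gr h ψ H x Cy Cg) (hκ : 0 < κ) (hA : 1 ≤ A) {K : ℝ} {n : ℕ} (hK : 1 ≤ K)
    (hT : TwoS (4 * A) K n) {d : ℝ} (hd : 0 < d) (hd1 : d ≤ 1 / 10) {σ : ℝ}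
    (hσ : σ = 1 ∨ σ = -1) (h0 : 0 ≤ σ * (LL ψ φ B (ray e t)).re) {q : ℂ × ℂ}
    (hq : q ∈ DW e (4 * A) d t) :
    -(2 * Real.pi * h + Gf κ A x Cg d + T1f κ A x Cy K n d) ≤ σ * (φ q).im := by
  have h1 := l.sign hc hG hκ hA hK hT hd hd1 hσ h0 hq
  have h2 := l.imψ hG hκ hA hd (by linarith)
    (Side669.DW_mono l.t_pos (by linarith) (by linarith) hq : q ∈ DW e (8 * A) (d / 2) t)
  have hT0 : 0 ≤ T1f κ A x Cy K n d := T1f_nonneg hK hd
  rw [LL_re] at h1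
  have h3 : |σ * (ψ (B q)).im| = |(ψ (B q)).im| := by
    rw [abs_mul]
    rcases hσ with rfl | rfl <;> simp
  have h4 := neg_abs_le (σ * (ψ (B q)).im)
  nlinarith

/-- the angle on the deep side -/
lemma Loc.angle (l : Loc h κ A ψ H φ p B e t ρ) (hc : Curve h ψ H) {x Cy Cg : ℝ}
    (hG : Gr h ψ H x Cy Cg) (hκ : 0 < κ) (hA : 1 ≤ A) {K : ℝ} {n : ℕ} (hK : 1 ≤ K)
    (hT : TwoS (4 * A) K n) {d : ℝ} (hd : 0 < d) (hd1 : d ≤ 1 / 10) {q : ℂ × ℂ}
    (hq : q ∈ DW e A d t) :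
    ‖φ q - ((φ (ray e t)).re : ℂ)‖ ≤
      (3 * Gf κ A x Cg d + 2 * Real.pi * (LA A * h * (1 + Real.log (1 / d))) +
        T1f κ A x Cy K n d + 2 * Real.pi * h + 1) * (1 + |(LL ψ φ B (ray e t)).re|) := by
  have ht := l.t_pos
  have hr : ray e t ∈ DW e A d t := Side669.DW_mono ht le_rfl hd1 (ray_DW1 hA ht)
  have hq4 : q ∈ DW e (4 * A) d t := Side669.DW_mono ht (by linarith) le_rfl hq
  have hr4 : ray e t ∈ DW e (4 * A) d t := Side669.DW_mono ht (by linarith) le_rfl hr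
  have hq8 : q ∈ DW e (8 * A) (d / 2) t := Side669.DW_mono ht (by linarith) (by linarith) hq
  have hr8 : ray e t ∈ DW e (8 * A) (d / 2) t := Side669.DW_mono ht (by linarith) (by linarith) hr
  have a1 := l.two hc hG hκ hA hT hd hd1 hq4 hr4
  have a2 := l.ψ_le hG hκ hA hd (by linarith) hq8
  have a3 := l.ψ_le hG hκ hA hd (by linarith) hr8
  have a4 := l.imψ hG hκ hA hd (by linarith) hr8
  have hh : 0 < h := hc.h_pos
  have h5 : 5 * (A * t) ≤ ρ := by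
    have := l.le
    have : 0 < A * t := by positivity
    linarith
  have a5 := Side426.side_dist (B := B) hA ht h5 hd (by linarith) hh l.Bd l.Bim hq.1 hq.2.1
    hq.2.2.1 hq.2.2.2
  set Lm := LL ψ φ B (ray e t) with hLm
  set lam := |Lm.re| with hlam
  have hlam0 : 0 ≤ lam := abs_nonneg _
  -- decomposition
  have e0 : ∀ y : ℂ × ℂ, φ y = ψ (B y) + I / 2 * LL ψ φ B y := by
    intro y
    unfold LL
    have hI : I * I = -1 := I_mul_I
    linear_combination (-(ψ (B y)) + φ y) * hI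
  have e1 : φ q - ((φ (ray e t)).re : ℂ) = (ψ (B q) - 2 * Real.pi * B q) +
      2 * Real.pi * (B q - B (ray e t)) - (ψ (B (ray e t)) - 2 * Real.pi * B (ray e t)) +
      I / 2 * (LL ψ φ B q - Lm) + ((φ (ray e t)).im : ℂ) * I := by
    have e2 := e0 q
    have e3 := e0 (ray e t)
    have e4 : ((φ (ray e t)).re : ℂ) = φ (ray e t) - ((φ (ray e t)).im : ℂ) * I := by
      have := Complex.re_add_im (φ (ray e t))
      linear_combination this
    rw [e4]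
    linear_combination e2 - e3
  have e5 : |(φ (ray e t)).im| ≤ 2 * Real.pi * h + Gf κ A x Cg d + lam / 2 := by
    have e6 : (φ (ray e t)).im = (ψ (B (ray e t))).im + Lm.re / 2 := by
      rw [hLm, LL_re]; ring
    rw [e6]
    refine (abs_add_le _ _).trans ?_
    rw [abs_div, abs_two]
    linarith
  rw [e1]
  have n1 : ‖(2 * Real.pi : ℂ) * (B q - B (ray e t))‖ ≤
      2 * Real.pi * (LA A * h * (1 + Real.log (1 / d))) := by
    have e7 : (2 * Real.pi : ℂ) = ((2 * Real.pi : ℝ) : ℂ) := by push_cast; ring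
    rw [e7, norm_mul, Complex.norm_real, Real.norm_of_nonneg (by positivity)]
    exact mul_le_mul_of_nonneg_left a5 (by positivity)
  have n2 : ‖I / 2 * (LL ψ φ B q - Lm)‖ ≤ T1f κ A x Cy K n d * (1 + lam) := by
    rw [norm_mul, norm_div, norm_I]
    have := norm_nonneg (LL ψ φ B q - Lm)
    have := abs_nonneg (LL ψ φ B q).re
    have e8 : ‖(2 : ℂ)‖ = 2 := by simp
    rw [e8]
    linarith
  have n3 : ‖((φ (ray e t)).im : ℂ) * I‖ ≤ 2 * Real.pi * h + Gf κ A x Cg d + lam / 2 := by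
    rw [norm_mul, norm_I, mul_one, Complex.norm_real]
    exact e5
  have n4 : 0 ≤ 2 * Real.pi * (LA A * h * (1 + Real.log (1 / d))) := (norm_nonneg _).trans n1
  have n5 : 0 < Gf κ A x Cg d := Real.exp_pos _
  have hT0 : 0 ≤ T1f κ A x Cy K n d := T1f_nonneg hK hd
  have n6 : 0 < 2 * Real.pi * h := by positivity
  calc ‖(ψ (B q) - 2 * Real.pi * B q) + 2 * Real.pi * (B q - B (ray e t)) -
      (ψ (B (ray e t)) - 2 * Real.pi * B (ray e t)) + I / 2 * (LL ψ φ B q - Lm) +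
      ((φ (ray e t)).im : ℂ) * I‖
      ≤ Gf κ A x Cg d + 2 * Real.pi * (LA A * h * (1 + Real.log (1 / d))) + Gf κ A x Cg d +
        T1f κ A x Cy K n d * (1 + lam) + (2 * Real.pi * h + Gf κ A x Cg d + lam / 2) := by
        refine (norm_add_le _ _).trans (add_le_add ?_ n3)
        refine (norm_add_le _ _).trans (add_le_add ?_ n2)
        refine (norm_sub_le _ _).trans (add_le_add ?_ a3)
        exact (norm_add_le _ _).trans (add_le_add a2 n1)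
    _ ≤ _ := by nlinarith

/-- `‖y p e^{iσφ}‖` -/
lemma yp_bound {ψ H : ℂ → ℂ} {φ p b : ℂ} {σ Ψ S P Q : ℝ} (hσ : σ = 1 ∨ σ = -1)
    (hInc : F300.Inc ψ H φ p b) (hψ : |(ψ b).im| ≤ Ψ) (hS : -S ≤ σ * φ.im) (hS0 : 0 ≤ S)
    (hH : ‖H b‖ ≤ Real.exp P) (hH' : ‖deriv H b‖ ≤ Real.exp P)
    (hY : ‖deriv ψ b‖ ≤ Real.exp Q) (hQ : 0 ≤ Q) :
    ‖p * cexp (σ * I * φ) * deriv ψ b‖ ≤ Real.exp (Q + 1 + P + (2 * S + Ψ)) := by
  have hψ1 := abs_le.1 hψ
  have nE : ‖cexp (I * (φ - ψ b)) * cexp (σ * I * φ)‖ ≤ Real.exp (2 * S + Ψ) := by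
    rw [← Complex.exp_add, Complex.norm_exp]
    refine Real.exp_le_exp.2 ?_
    have : (I * (φ - ψ b) + σ * I * φ).re = -((φ.im - (ψ b).im) + σ * φ.im) := by
      simp [Complex.mul_re, Complex.mul_im]; ring
    rw [this]
    rcases hσ with rfl | rfl <;> linarith
  have nE' : ‖cexp (-(I * (φ - ψ b))) * cexp (σ * I * φ)‖ ≤ Real.exp (2 * S + Ψ) := by
    rw [← Complex.exp_add, Complex.norm_exp]
    refine Real.exp_le_exp.2 ?_
    have : (-(I * (φ - ψ b)) + σ * I * φ).re = (φ.im - (ψ b).im) - σ * φ.im := by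
      simp [Complex.mul_re, Complex.mul_im]; ring
    rw [this]
    rcases hσ with rfl | rfl <;> linarith
  have hcos : ‖Complex.cos (φ - ψ b) * cexp (σ * I * φ)‖ ≤ Real.exp (2 * S + Ψ) := by
    have e1 : Complex.cos (φ - ψ b) * cexp (σ * I * φ) =
        (cexp (I * (φ - ψ b)) * cexp (σ * I * φ) +
          cexp (-(I * (φ - ψ b))) * cexp (σ * I * φ)) / 2 := by
      unfold Complex.cos
      rw [show (φ - ψ b) * I = I * (φ - ψ b) by ring,
        show -(φ - ψ b) * I = -(I * (φ - ψ b)) by ring]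
      ring
    rw [e1, norm_div]
    have e2 := norm_add_le (cexp (I * (φ - ψ b)) * cexp (σ * I * φ))
      (cexp (-(I * (φ - ψ b))) * cexp (σ * I * φ))
    have e8 : ‖(2 : ℂ)‖ = 2 := by simp
    rw [e8]; linarith
  have hsin : ‖Complex.sin (φ - ψ b) * cexp (σ * I * φ)‖ ≤ Real.exp (2 * S + Ψ) := by
    have e1 : Complex.sin (φ - ψ b) * cexp (σ * I * φ) =
        (cexp (-(I * (φ - ψ b))) * cexp (σ * I * φ) -
          cexp (I * (φ - ψ b)) * cexp (σ * I * φ)) * (I / 2) := by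
      unfold Complex.sin
      rw [show (φ - ψ b) * I = I * (φ - ψ b) by ring,
        show -(φ - ψ b) * I = -(I * (φ - ψ b)) by ring]
      ring
    rw [e1, norm_mul, norm_div, norm_I]
    have e2 := norm_sub_le (cexp (-(I * (φ - ψ b))) * cexp (σ * I * φ))
      (cexp (I * (φ - ψ b)) * cexp (σ * I * φ))
    have e8 : ‖(2 : ℂ)‖ = 2 := by simp
    rw [e8]; linarith
  have e3 : p * cexp (σ * I * φ) * deriv ψ b =
      deriv ψ b * H b * (Complex.cos (φ - ψ b) * cexp (σ * I * φ)) +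
        deriv H b * (Complex.sin (φ - ψ b) * cexp (σ * I * φ)) := by
    have : deriv ψ b * p = deriv ψ b * H b * Complex.cos (φ - ψ b) +
      deriv H b * Complex.sin (φ - ψ b) := hInc
    linear_combination cexp (σ * I * φ) * this
  rw [e3]
  refine (norm_add_le _ _).trans ?_
  rw [norm_mul, norm_mul, norm_mul (deriv H b)]
  have f1 : ‖deriv ψ b‖ * ‖H b‖ * ‖Complex.cos (φ - ψ b) * cexp (σ * I * φ)‖ ≤
      Real.exp Q * Real.exp P * Real.exp (2 * S + Ψ) := by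
    gcongr
  have f2 : ‖deriv H b‖ * ‖Complex.sin (φ - ψ b) * cexp (σ * I * φ)‖ ≤
      1 * Real.exp P * Real.exp (2 * S + Ψ) := by
    rw [one_mul]; gcongr
  have f3 : Real.exp Q + 1 ≤ Real.exp (Q + 1) := by
    rw [Real.exp_add]
    have g1 : 1 ≤ Real.exp Q := Real.one_le_exp hQ
    have g2 : (2 : ℝ) ≤ Real.exp 1 := by have := Real.add_one_le_exp (1 : ℝ); linarith
    nlinarith
  calc _ ≤ Real.exp Q * Real.exp P * Real.exp (2 * S + Ψ) +
        1 * Real.exp P * Real.exp (2 * S + Ψ) := add_le_add f1 f2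
    _ = (Real.exp Q + 1) * (Real.exp P * Real.exp (2 * S + Ψ)) := by ring
    _ ≤ Real.exp (Q + 1) * (Real.exp P * Real.exp (2 * S + Ψ)) :=
        mul_le_mul_of_nonneg_right f3 (by positivity)
    _ = Real.exp (Q + 1 + P + (2 * S + Ψ)) := by
        rw [← Real.exp_add, ← Real.exp_add]; congr 1; ring

/-- the exponent of the bound of `p` -/
def Pf (h κ A x Cy Cg K1 K2 : ℝ) (n1 n2 : ℕ) (d : ℝ) : ℝ :=
  gyf κ A x Cy d + 1 + Gf κ A x Cg d +
    (2 * (2 * Real.pi * h + Gf κ A x Cg (d / 2) + T1f κ A x Cy K1 n1 (d / 2)) +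
      (2 * Real.pi * h + Gf κ A x Cg d)) + K2 * (1 / d) ^ n2 * ellf κ A x Cy d

/-- the signed quotient -/
lemma Loc.pbound (l : Loc h κ A ψ H φ p B e t ρ) (hc : Curve h ψ H) {x Cy Cg : ℝ}
    (hG : Gr h ψ H x Cy Cg) (hκ : 0 < κ) (hA : 1 ≤ A) {K1 K2 : ℝ} {n1 n2 : ℕ} (hK1 : 1 ≤ K1)
    (hT : TwoS (4 * A) K1 n1) (hQ : QuoS (2 * A) K2 n2) {d : ℝ} (hd : 0 < d) (hd1 : d ≤ 1 / 10)
    {σ : ℝ} (hσ : σ = 1 ∨ σ = -1) (h0 : 0 ≤ σ * (LL ψ φ B (ray e t)).re) {q : ℂ × ℂ}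
    (hq : q ∈ DW e (2 * A) d t) :
    ‖p q * cexp (σ * I * φ q)‖ ≤ Real.exp (Pf h κ A x Cy Cg K1 K2 n1 n2 d) := by
  obtain ⟨q0, hq0, hq0κ⟩ := l.q0 hA
  have ht := l.t_pos
  have e4 : 2 * (2 * A) = 4 * A := by ring
  have hd2 : 0 < d / 2 := by positivity
  have hsub : DW e (4 * A) (d / 2) t ⊆ DW e (8 * A) (d / 2) t :=
    Side669.DW_mono ht (by linarith) le_rfl
  have hgy : 0 ≤ gyf κ A x Cy d := gyf_nonneg hG hκ hA hd
  have hFd : DifferentiableOn ℂ (fun q => p q * cexp (σ * I * φ q)) (PB e ρ) :=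
    l.pd.mul ((l.φd.const_mul _).cexp)
  have hGd : DifferentiableOn ℂ (fun q => p q * cexp (σ * I * φ q) * deriv ψ (B q)) (PB e ρ) :=
    hFd.mul (l.Yd hc)
  set S : ℝ := 2 * Real.pi * h + Gf κ A x Cg (d / 2) + T1f κ A x Cy K1 n1 (d / 2) with hS
  have hh : 0 < h := hc.h_pos
  have hG0 : ∀ y, 0 < Gf κ A x Cg y := fun y => Real.exp_pos _
  have hT0 : 0 ≤ T1f κ A x Cy K1 n1 (d / 2) := T1f_nonneg hK1 hd2
  have hS0 : 0 ≤ S := by
    have := hG0 (d / 2)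
    have : 0 < 2 * Real.pi * h := by positivity
    rw [hS]; linarith
  have key := hQ d hd hd1 e t ρ ht
    (by rw [e4]; have := l.ρ_gt hA; have : 0 < A * t := by positivity
        linarith) (fun q => deriv ψ (B q))
    (LL ψ φ B) (l.Yd hc) (l.Ld hc) (Real.exp (gyf κ A x Cy d)) (Real.exp_pos _)
    (fun y hy => by
      rw [e4] at hy
      exact l.y_le hG hκ hA hd (by linarith) (hsub hy))
    (fun y hy h1 => by
      rw [e4] at hy
      exact l.LY (l.DWsub hA hd2 (hsub hy)) h1)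
    (ellf κ A x Cy d) (ellf_ge hG hκ hA hd) q0 hq0 ((ell_ok hκ rfl).trans hq0κ)
    (fun q => p q * cexp (σ * I * φ q)) (fun q => p q * cexp (σ * I * φ q) * deriv ψ (B q))
    (Real.exp (gyf κ A x Cy d + 1 + Gf κ A x Cg d + (2 * S + (2 * Real.pi * h + Gf κ A x Cg d))))
    hFd hGd (fun y _ => rfl)
    (fun y hy => by
      rw [e4] at hy
      have hy8 := hsub hy
      obtain ⟨b1, b2⟩ := l.H_le hG hκ hA hd (by linarith) hy8
      exact yp_bound hσ (l.inc y (l.DWsub hA hd2 hy8)) (l.imψ hG hκ hA hd (by linarith) hy8)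
        (l.height hc hG hκ hA hK1 hT hd2 (by linarith) hσ h0 hy) hS0 b1 b2
        (l.y_le hG hκ hA hd (by linarith) hy8) hgy) q hq
  refine key.trans ?_
  have hdiv : Real.exp (gyf κ A x Cy d + 1 + Gf κ A x Cg d +
      (2 * S + (2 * Real.pi * h + Gf κ A x Cg d))) / Real.exp (gyf κ A x Cy d) ≤
      Real.exp (gyf κ A x Cy d + 1 + Gf κ A x Cg d +
      (2 * S + (2 * Real.pi * h + Gf κ A x Cg d))) :=
    div_le_self (Real.exp_pos _).le (Real.one_le_exp hgy)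
  calc _ ≤ Real.exp (gyf κ A x Cy d + 1 + Gf κ A x Cg d +
      (2 * S + (2 * Real.pi * h + Gf κ A x Cg d))) *
        Real.exp (K2 * (1 / d) ^ n2 * ellf κ A x Cy d) :=
        mul_le_mul_of_nonneg_right hdiv (Real.exp_pos _).le
    _ = Real.exp (Pf h κ A x Cy Cg K1 K2 n1 n2 d) := by
        rw [← Real.exp_add]; congr 1

/-- comparison of two ray points -/
lemma Loc.lip1 (l : Loc h κ A ψ H φ p B e t ρ) (hc : Curve h ψ H) {x Cy Cg : ℝ}
    (hG : Gr h ψ H x Cy Cg) (hκ : 0 < κ) (hA : 1 ≤ A) {K : ℝ} {n : ℕ}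
    (hT : TwoS (4 * A) K n) {t' : ℝ} (ht' : 0 < t') (htt : t' ≤ t) :
    1 + |(LL ψ φ B (ray e t)).re| ≤
      T1f κ A x Cy K n (t' / t / 10) * (1 + |(LL ψ φ B (ray e t')).re|) := by
  have ht := l.t_pos
  have hd : 0 < t' / t / 10 := by positivity
  have hd1 : t' / t / 10 ≤ 1 / 10 := by
    have : t' / t ≤ 1 := (div_le_one ht).2 htt
    linarith
  have a1 : ray e t ∈ DW e (4 * A) (t' / t / 10) t :=
    Side669.DW_mono ht (by linarith) hd1 (ray_DW1 hA ht)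
  have a2 : ray e t' ∈ DW e (4 * A) (t' / t / 10) t :=
    Side669.DW_mono ht (by linarith) le_rfl (ray_DW hA ht' htt)
  have := l.two hc hG hκ hA hT hd hd1 a1 a2
  have := norm_nonneg (LL ψ φ B (ray e t) - LL ψ φ B (ray e t'))
  linarith

end One

lemma T1f_pow {h κ A x Cy Cg K : ℝ} {ψ H : ℂ → ℂ} {n : ℕ} (hG : Gr h ψ H x Cy Cg) (hκ : 0 < κ)
    (hA : 1 ≤ A) (hK : 1 ≤ K) {d : ℝ} (hd : 0 < d) (hd1 : d ≤ 1) :
    T1f κ A x Cy K n d ≤
      K * (1 + Cy * c1 κ A ^ (-x) + |Real.log κ|) ^ 2 * (1 / d) ^ (n + 4) := by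
  have hc1 := c1_pos hκ hA
  have hCy := hG.Cy_pos
  have h1 : 1 ≤ (1 / d : ℝ) ^ 2 := one_le_pow₀ (by rw [le_div_iff₀ hd]; linarith)
  have h2 : ellf κ A x Cy d ≤ (1 + Cy * c1 κ A ^ (-x) + |Real.log κ|) * (1 / d) ^ 2 := by
    have h3 := rp_le (κ := 2) (x := x) (by linarith [hG.x_le]) hc1 hd hd1
    have h4 : d ^ (-(2 : ℝ)) = (1 / d) ^ 2 := by
      rw [Real.rpow_neg hd.le, one_div, inv_pow]; norm_num
    rw [h4] at h3
    unfold ellf gyf
    have h5 := mul_le_mul_of_nonneg_left h3 hCy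
    have h6 := abs_nonneg (Real.log κ)
    have h7 : 0 ≤ Cy * c1 κ A ^ (-x) := by positivity
    nlinarith
  have h8 : 0 ≤ ellf κ A x Cy d := by linarith [ellf_ge hG hκ hA hd]
  unfold T1f
  calc K * (1 / d) ^ n * ellf κ A x Cy d ^ 2
      ≤ K * (1 / d) ^ n * ((1 + Cy * c1 κ A ^ (-x) + |Real.log κ|) * (1 / d) ^ 2) ^ 2 := by
        gcongr
    _ = _ := by ring

/-- the objects at one window -/
lemma loc_of {u0 R d h κ A : ℝ} {ψ H Af : ℂ → ℂ} {φ p B : ℂ × ℂ → ℂ} {X L : Set (ℂ × ℂ)}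
    (hD : ED u0 R d h ψ H Af φ p B X L) {e : ℝ × ℝ} {σ t : ℝ} (hA : 1 ≤ A) (ht : 0 < t)
    (htσ : t ≤ σ) (hd : 40 * A * σ ≤ d) (hb : ball ((e.2 : ℝ) : ℂ) (40 * A * σ) ⊆ ball (u0 : ℂ) R)
    (hI : Intr h κ ψ B e t) : Loc h κ A ψ H φ p B e t (40 * A * σ) := by
  have hsub : PB e (40 * A * σ) ⊆ Sup115.Dp u0 R d := by
    rintro q ⟨h1, h2, h3, h4⟩
    refine ⟨?_, h3, hb ?_, h4⟩
    · have h5 := abs_le.1 (Complex.abs_im_le_norm (q.1 - (e.1 : ℂ)))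
      have h6 : (q.1 - (e.1 : ℂ)).im = q.1.im := by simp
      rw [h6] at h5
      linarith [h5.1]
    · rw [mem_ball, dist_eq_norm]; exact h2
  have hX := hsub.trans hD.Dp_X
  have hL := hsub.trans hD.Dp_L
  refine ⟨ht, ?_, hD.φ_diff.mono hL, hD.p_diff.mono hL, hD.B_diff.mono hX,
    fun q hq => hD.B_im q (hX hq), fun q hq => hD.inc q ⟨hX hq, hL hq⟩, fun q hq hne => ?_, hI⟩
  · have : A * t ≤ A * σ := mul_le_mul_of_nonneg_left htσ (by linarith)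
    linarith
  · refine hD.sin_ne q ⟨hX hq, hL hq⟩ ?_ hne
    intro h0
    have := hq.2.2.2
    rw [h0] at this
    simp at this

/-- **SIDE ON THE OBJECTS** -/
theorem sideStmt : NormP864.SideStmt := by
  intro h ψ H hc κ A κ' hκ hA hκ'
  obtain ⟨x, Cy, Cg, hx, hG⟩ := gr_of hc hκ'
  obtain ⟨K1, hK1, n1, h1⟩ := Side669.two_pt (A := 4 * A) (a := 1 / 10) (by linarith)
    (by norm_num) (by norm_num)
  obtain ⟨K2, hK2, n2, h2⟩ := Side669.quot2 (A := 2 * A) (a := 1 / 10) (by linarith)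
    (by norm_num) (by norm_num)
  have hT : TwoS (4 * A) K1 n1 := h1
  have hQ : QuoS (2 * A) K2 n2 := h2
  have hh : 0 < h := hc.h_pos
  have hcc := c1_pos hκ hA
  -- tame functions
  have tG : Tame κ' (Gf κ A x Cg) := tame_growth hx hG.Cg_pos hcc
  have tgy : Tame κ' (gyf κ A x Cy) := tame_growth' hx hG.Cy_pos hcc
  have tell : Tame κ' (ellf κ A x Cy) :=
    ((tame_const hκ' 1).add hκ' tgy).add hκ' (tame_const hκ' |Real.log κ|)
  have ell0 : ∀ d : ℝ, 0 < d → d ≤ 1 → 0 ≤ ellf κ A x Cy d := fun d hd _ => by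
    linarith [ellf_ge hG hκ hA hd]
  have tT : Tame κ' (T1f κ A x Cy K1 n1) := by
    have := (((tame_const hκ' K1).mul (tame_inv_pow hκ' n1) fun d hd _ => by positivity).mul
      (tell.mul tell ell0) fun d hd hd1 => mul_nonneg (ell0 d hd hd1) (ell0 d hd hd1))
    refine this.mono fun d hd hd1 => le_of_eq ?_
    unfold T1f; ring
  have tQ : Tame κ' (fun d => K2 * (1 / d) ^ n2 * ellf κ A x Cy d) :=
    ((tame_const hκ' K2).mul (tame_inv_pow hκ' n2) fun d hd _ => by positivity).mul tell ell0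
  have tAng : Tame κ' (fun d => 3 * Gf κ A x Cg d +
      2 * Real.pi * (LA A * h * (1 + Real.log (1 / d))) +
        T1f κ A x Cy K1 n1 d + 2 * Real.pi * h + 1) := by
    have a1 : Tame κ' (fun d => 3 * Gf κ A x Cg d) :=
      (tame_const hκ' 3).mul tG fun d _ _ => (Real.exp_pos _).le
    have a2 : Tame κ' (fun d => 2 * Real.pi * (LA A * h * (1 + Real.log (1 / d)))) := by
      have := (tame_const hκ' (2 * Real.pi * (LA A * h))).mul (tame_log hκ') fun d hd hd1 => by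
        have : 0 ≤ Real.log (1 / d) := Real.log_nonneg (by rw [le_div_iff₀ hd]; linarith)
        linarith
      refine this.mono fun d hd hd1 => le_of_eq ?_
      ring
    exact (((a1.add hκ' a2).add hκ' tT).add hκ' (tame_const hκ' _)).add hκ' (tame_const hκ' 1)
  have tHt : Tame κ' (fun d => 2 * Real.pi * h + Gf κ A x Cg d + T1f κ A x Cy K1 n1 d) :=
    ((tame_const hκ' _).add hκ' tG).add hκ' tT
  have tP : Tame κ' (Pf h κ A x Cy Cg K1 K2 n1 n2) := by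
    have b1 : Tame κ' (fun d => Gf κ A x Cg (d / 2)) :=
      (tG.scale (r := 1 / 2) (by norm_num) (by norm_num)).mono fun d _ _ =>
        le_of_eq (by rw [show d / 2 = 1 / 2 * d by ring])
    have b2 : Tame κ' (fun d => T1f κ A x Cy K1 n1 (d / 2)) :=
      (tT.scale (r := 1 / 2) (by norm_num) (by norm_num)).mono fun d _ _ =>
        le_of_eq (by rw [show d / 2 = 1 / 2 * d by ring])
    have b3 := ((tame_const hκ' (2 * Real.pi * h)).add hκ' b1).add hκ' b2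
    have b4 := b3.add hκ' b3
    have b5 := (b4.add hκ' ((tame_const hκ' (2 * Real.pi * h)).add hκ' tG))
    refine ((((tgy.add hκ' (tame_const hκ' 1)).add hκ' tG).add hκ' b5).add hκ' tQ).mono
      fun d _ _ => le_of_eq ?_
    unfold Pf; ring
  obtain ⟨Ca, hCa, hang⟩ := tAng.scale (r := 1 / 10) (by norm_num) (by norm_num)
  obtain ⟨Ch, hCh, hht⟩ := tHt.scale (r := 1 / 10) (by norm_num) (by norm_num)
  obtain ⟨Cp, hCp, hpt⟩ := tP.scale (r := 1 / 10) (by norm_num) (by norm_num)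
  obtain ⟨E, hE⟩ : ∃ E : ℝ, E = K1 * (1 + Cy * c1 κ A ^ (-x) + |Real.log κ|) ^ 2 *
    10 ^ (n1 + 4) := ⟨_, rfl⟩
  have hE0 : 0 ≤ E := by
    have := hG.Cy_pos
    rw [hE]; positivity
  obtain ⟨C0, hC0⟩ : ∃ C0 : ℝ, C0 = 1 + Ca + Ch + Cp + E + (n1 + 4 : ℕ) := ⟨_, rfl⟩
  have hn0 : (0 : ℝ) ≤ ((n1 + 4 : ℕ) : ℝ) := Nat.cast_nonneg _
  refine ⟨C0, by rw [hC0]; linarith, ?_⟩
  intro u0 R d Af φ p B X L hD e s σ hs hsσ hd hb hcol
  have hloc : ∀ t ∈ Icc s σ, Loc h κ A ψ H φ p B e t (40 * A * σ) := fun t ht =>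
    loc_of hD hA (hs.trans_le ht.1) ht.2 hd hb (hcol t ht)
  have hrp : ∀ y : ℝ, 0 < y → 0 ≤ y ^ (-κ') := fun y hy => (Real.rpow_pos_of_pos hy _).le
  refine ⟨?_, ?_, ?_, ?_⟩
  · -- continuity
    have h3 : ContinuousOn (fun s' => (LL ψ φ B (ray e s')).re) (Icc s σ) := by
      refine Complex.continuous_re.comp_continuousOn ?_
      refine ((hloc s (left_mem_Icc.2 hsσ)).Ld hc).continuousOn.comp ?_ ?_
      · unfold S5.ray S5.bl
        fun_prop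
      · intro t ht
        have l := hloc t ht
        exact l.DWsub hA (by norm_num : (0 : ℝ) < 1 / 10)
          (Side669.DW_mono l.t_pos (by linarith) le_rfl (ray_DW1 hA l.t_pos))
    refine h3.congr fun t _ => log_R0 ψ φ B (ray e t)
  · -- lip
    intro s' s'' h3 h4 h5
    have hs' : 0 < s' := hs.trans_le h3
    have hs'' : 0 < s'' := hs'.trans_le h4
    have l := hloc s'' ⟨h3.trans h4, h5⟩
    simp only [log_R0]
    refine (l.lip1 hc hG hκ hA hT hs' h4).trans ?_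
    refine mul_le_mul_of_nonneg_right ?_ (by positivity)
    have hq1 : s' / s'' ≤ 1 := (div_le_one hs'').2 h4
    have hq0 : 0 < s' / s'' / 10 := by positivity
    refine (T1f_pow hG hκ hA hK1 hq0 (by linarith)).trans ?_
    have h6 : (1 / (s' / s'' / 10) : ℝ) = 10 * (s'' / s') := by field_simp
    rw [h6, mul_pow]
    have h7 : 1 ≤ s'' / s' := (one_le_div hs').2 h4
    have h8 : (s'' / s') ^ (n1 + 4) ≤ (s'' / s') ^ C0 := by
      rw [← Real.rpow_natCast]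
      refine Real.rpow_le_rpow_of_exponent_le h7 ?_
      rw [hC0]; linarith
    calc K1 * (1 + Cy * c1 κ A ^ (-x) + |Real.log κ|) ^ 2 * (10 ^ (n1 + 4) *
        (s'' / s') ^ (n1 + 4)) = E * (s'' / s') ^ (n1 + 4) := by rw [hE]; ring
      _ ≤ C0 * (s'' / s') ^ C0 := by
        refine mul_le_mul ?_ h8 (by positivity) ?_
        · rw [hC0]; linarith
        · rw [hC0]; linarith
  · -- angle
    intro s' hs' dd hdd q hq
    have l := hloc s' hs'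
    simp only [log_R0]
    have hq' : q ∈ DW e A (1 / 10 * dd) s' :=
      Side669.DW_mono l.t_pos le_rfl (by linarith [hdd.1]) (hq : q ∈ DW e A dd s')
    refine (l.angle hc hG hκ hA hK1 hT (by linarith [hdd.1]) (by linarith [hdd.2]) hq').trans ?_
    refine mul_le_mul_of_nonneg_right ?_ (by positivity)
    refine (hang dd hdd.1 hdd.2).trans (Real.exp_le_exp.2 ?_)
    refine mul_le_mul_of_nonneg_right ?_ (hrp dd hdd.1)
    rw [hC0]; linarith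
  · -- signs
    intro s' hs' dd hdd τ hτ h0 q hq
    have l := hloc s' hs'
    simp only [log_R0] at h0
    have hdd1 := hdd.1
    have hdd2 := hdd.2
    have hq' : q ∈ DW e (2 * A) (1 / 10 * dd) s' :=
      Side669.DW_mono l.t_pos (by linarith) (by linarith) (hq : q ∈ DW e A dd s')
    have hq4 : q ∈ DW e (4 * A) (1 / 10 * dd) s' :=
      Side669.DW_mono l.t_pos (by linarith) le_rfl hq'
    constructor
    · have h3 := l.height hc hG hκ hA hK1 hT (by linarith) (by linarith) hτ h0 hq4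
      have h4 := (hht dd hdd.1 hdd.2).trans (Real.exp_le_exp.2
        (mul_le_mul_of_nonneg_right (show Ch ≤ C0 by rw [hC0]; linarith) (hrp dd hdd.1)))
      simp only at h4
      linarith
    · refine (l.pbound hc hG hκ hA hK1 hT hQ (by linarith) (by linarith) hτ h0 hq').trans ?_
      refine Real.exp_le_exp.2 ((hpt dd hdd.1 hdd.2).trans (Real.exp_le_exp.2 ?_))
      refine mul_le_mul_of_nonneg_right ?_ (hrp dd hdd.1)
      rw [hC0]; linarith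

/-- **`Edge255.NormP`** -/
theorem normP : NormP := NormP864.normP_of_side sideStmt

end Crest.Agent.R102.SideE864
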