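import Crest.Agent.R102.Final3_802
import Crest.Agent.R102.SideE_864
import Crest.Agent.R102.ColPhi_841

/-!
Row 102, the final assembly (helper802): everything from the last literal `SlowJ486.NoRecP`.
-/

set_option autoImplicit false

namespace Crest.Agent.R102.Final802

open Crest.Agent.R102 Crest.AnalysisR.Billiard

/-- both results of row 102 from the last literal -/
theorem concl_of_norec (hN : SlowJ486.NoRecP)
    {Ω : Set (ℝ × ℝ)} {γ : ℝ → ℝ × ℝ} {P : ℝ} (ht : IsTable Ω γ P)
    (hf : HasCausticCollar Ω γ ∨ HasInvariantPhaseFoliation Ω γ) :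
    ∃ (c : ℝ × ℝ) (Q : Matrix (Fin 2) (Fin 2) ℝ), Q.PosDef ∧
      Ω = {x : ℝ × ℝ | dotProduct ![x.1 - c.1, x.2 - c.2]
        (Q.mulVec ![x.1 - c.1, x.2 - c.2]) < 1} :=
  concl_of_last SideE864.sideStmt ColPhi841.colPhi hN ht hf

end Crest.Agent.R102.Final802

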