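import Mathlib
import Crest.Agent.R102.PainC_416

/-!
Row 102, part (C), T5 input for algebraic curves (Painlevé), part D: the root of a monic separable
family over a punctured disc becomes single valued after `x = x0 + v ^ m`.
-/

set_option autoImplicit false

namespace Crest.Agent.R102.Pain416

open Polynomial Set Filter Topology Metric

noncomputable section

/-- left half plane -/
def LH (c : ℝ) : Set ℂ := {z | z.re < c}

lemma isOpen_LH (c : ℝ) : IsOpen (LH c) := isOpen_lt Complex.continuous_re continuous_const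

lemma convex_LH (c : ℝ) : Convex ℝ (LH c) := convex_halfSpace_re_lt c

variable {M : Polynomial (Polynomial ℂ)} {s' : Set ℂ} {x0 : ℂ} {ρ : ℝ}

lemma exp_mem (hρ : 0 < ρ) (hs : ∀ x, x ≠ x0 → ‖x - x0‖ < ρ → x ∈ s') {z : ℂ}
    (hz : z ∈ LH (Real.log ρ)) : x0 + Complex.exp z ∈ s' := by
  refine hs _ (by simp [Complex.exp_ne_zero]) ?_
  rw [add_sub_cancel_left, Complex.norm_exp]
  rw [← Real.exp_log hρ]
  exact Real.exp_lt_exp.2 hz

/-- root over the half plane -/
theorem hp_root (hM : M.Monic) (hsep : Sep M s') (hρ : 0 < ρ)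
    (hs : ∀ x, x ≠ x0 → ‖x - x0‖ < ρ → x ∈ s') {z0 w0 : ℂ} (hz0 : z0 ∈ LH (Real.log ρ))
    (hw0 : ev M (x0 + Complex.exp z0, w0) = 0) :
    ∃ W : ℂ → ℂ, DifferentiableOn ℂ W (LH (Real.log ρ)) ∧
      (∀ z ∈ LH (Real.log ρ), ev M (x0 + Complex.exp z, W z) = 0) ∧ W z0 = w0 ∧
      ∃ m : ℕ, 0 < m ∧ ∀ z ∈ LH (Real.log ρ), W (z + m * (2 * Real.pi * Complex.I)) = W z := by
  classical
  set H := LH (Real.log ρ) with hH
  have : ContractibleSpace H := (convex_LH _).contractibleSpace ⟨z0, hz0⟩
  have : LocallyPathConnectedSpace H := (isOpen_LH _).locallyPathConnectedSpace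
  have : PreconnectedSpace H := isPreconnected_iff_preconnectedSpace.1 (convex_LH _).isPreconnected
  let f : C(H, ℂ) := ⟨fun z => x0 + Complex.exp z, by fun_prop⟩
  obtain ⟨F, hF0, hF⟩ := exists_root hM hsep f (fun z => exp_mem hρ hs z.2) ⟨z0, hz0⟩ w0 hw0
  let W : ℂ → ℂ := fun z => if h : z ∈ H then F ⟨z, h⟩ else 0
  have hWF : ∀ z : H, W z = F z := fun z => by simp only [W]; rw [dif_pos z.2]
  have hroot : ∀ z ∈ H, ev M (x0 + Complex.exp z, W z) = 0 := by
    intro z hz
    have := hF ⟨z, hz⟩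
    rw [← hWF ⟨z, hz⟩] at this
    exact this
  have hcont : ContinuousOn W H := by
    rw [continuousOn_iff_continuous_domRestrict]
    have : H.domRestrict W = F := by funext z; exact hWF z
    rw [this]
    exact F.continuous
  have hdiff : DifferentiableOn ℂ W H := by
    intro z hz
    refine (root_diff (M := M) (f := fun z => x0 + Complex.exp z) (by fun_prop)
      (hcont.continuousAt ((isOpen_LH _).mem_nhds hz)) ?_ ?_).differentiableWithinAt
    · filter_upwards [(isOpen_LH _).mem_nhds hz] with z' hz'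
      exact hroot z' hz'
    · exact hsep _ (exp_mem hρ hs hz) _ (hroot z hz)
  refine ⟨W, hdiff, hroot, (hWF ⟨z0, hz0⟩).trans hF0, ?_⟩
  -- period
  have hshift : ∀ (k : ℕ) (z : ℂ), z ∈ H → z + k * (2 * Real.pi * Complex.I) ∈ H := by
    intro k z hz
    have : (z + k * (2 * Real.pi * Complex.I)).re = z.re := by simp
    change (z + k * (2 * Real.pi * Complex.I)).re < _
    rw [this]; exact hz
  have hexp : ∀ (k : ℕ) (z : ℂ), Complex.exp (z + k * (2 * Real.pi * Complex.I)) =
      Complex.exp z := by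
    intro k z
    rw [Complex.exp_add, Complex.exp_nat_mul_two_pi_mul_I, mul_one]
  obtain ⟨i, j, hij, h1⟩ := card_fiber hM (x0 + Complex.exp z0) (n := M.natDegree + 1)
    (fun k => W (z0 + (k : ℕ) * (2 * Real.pi * Complex.I))) (fun k => by
      have := hroot _ (hshift (k : ℕ) z0 hz0)
      rwa [hexp] at this) (by omega)
  have hsh : ∀ k : ℕ, Continuous fun z : H => W (z + k * (2 * Real.pi * Complex.I)) := by
    intro k
    have h2 : ContinuousOn (fun z : ℂ => W (z + k * (2 * Real.pi * Complex.I))) H :=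
      hcont.comp (by fun_prop) (fun z hz => hshift k z hz)
    exact continuousOn_iff_continuous_domRestrict.1 h2
  have key := root_unique hM hsep (A := H) (f := fun z => x0 + Complex.exp z)
    (F := fun z : H => W (z + (i : ℕ) * (2 * Real.pi * Complex.I)))
    (G := fun z : H => W (z + (j : ℕ) * (2 * Real.pi * Complex.I)))
    (by fun_prop) (hsh i) (hsh j) (fun z => exp_mem hρ hs z.2)
    (fun z => by
      have := hroot _ (hshift (i : ℕ) z z.2)
      rwa [hexp] at this)
    (fun z => by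
      have := hroot _ (hshift (j : ℕ) z z.2)
      rwa [hexp] at this) (a₀ := ⟨z0, hz0⟩) h1
  refine ⟨(j : ℕ) - i, by have : (i : ℕ) < j := hij; omega, fun z hz => ?_⟩
  have hz2 : z - (i : ℕ) * (2 * Real.pi * Complex.I) ∈ H := by
    have : (z - (i : ℕ) * (2 * Real.pi * Complex.I)).re = z.re := by simp
    change (z - (i : ℕ) * (2 * Real.pi * Complex.I)).re < _
    rw [this]; exact hz
  have h3 := congrFun key ⟨_, hz2⟩
  simp only [sub_add_cancel] at h3
  rw [h3]
  congr 1
  have : (i : ℕ) ≤ j := le_of_lt hij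
  push_cast [Nat.cast_sub this]
  ring

/-- root over the `m`-fold cover of the punctured disc, with the removable singularity removed -/
theorem disc_root (hM : M.Monic) (hsep : Sep M s') (hρ : 0 < ρ)
    (hs : ∀ x, x ≠ x0 → ‖x - x0‖ < ρ → x ∈ s') {z0 w0 : ℂ} (hz0 : z0 ∈ LH (Real.log ρ))
    (hw0 : ev M (x0 + Complex.exp z0, w0) = 0) :
    ∃ m : ℕ, 0 < m ∧ ∃ (r : ℝ) (V : ℂ → ℂ), 0 < r ∧ r ^ m = ρ ∧ DifferentiableOn ℂ V (ball 0 r) ∧
      (∀ v ∈ ball (0 : ℂ) r, v ≠ 0 → ev M (x0 + v ^ m, V v) = 0) ∧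
      V (Complex.exp (z0 / m)) = w0 := by
  classical
  obtain ⟨W, hWd, hWr, hW0, m, hm, hper⟩ := hp_root hM hsep hρ hs hz0 hw0
  have hm' : (m : ℂ) ≠ 0 := by exact_mod_cast hm.ne'
  have hmR : (m : ℝ) ≠ 0 := by exact_mod_cast hm.ne'
  set r : ℝ := Real.exp (Real.log ρ / m) with hr
  have hrp : 0 < r := Real.exp_pos _
  have hrm : r ^ m = ρ := by
    rw [hr, ← Real.exp_nat_mul, mul_div_cancel₀ _ hmR, Real.exp_log hρ]
  have hlogmem : ∀ v : ℂ, v ≠ 0 → ‖v‖ < r → (m : ℂ) * Complex.log v ∈ LH (Real.log ρ) := by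
    intro v hv hvr
    change ((m : ℂ) * Complex.log v).re < _
    rw [← Complex.ofReal_natCast, Complex.re_ofReal_mul, Complex.log_re]
    have h1 : Real.log ‖v‖ < Real.log ρ / m := by
      rw [← Real.log_exp (Real.log ρ / m)]
      exact Real.log_lt_log (norm_pos_iff.2 hv) hvr
    have hmp : (0 : ℝ) < m := by exact_mod_cast hm
    calc (m : ℝ) * Real.log ‖v‖ < m * (Real.log ρ / m) := by gcongr
      _ = Real.log ρ := by field_simp
  -- integer periods
  have hperZ : ∀ (k : ℤ) (z : ℂ), z ∈ LH (Real.log ρ) →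
      W (z + k * (m * (2 * Real.pi * Complex.I))) = W z := by
    have hmem : ∀ (k : ℤ) (z : ℂ), z ∈ LH (Real.log ρ) →
        z + k * (m * (2 * Real.pi * Complex.I)) ∈ LH (Real.log ρ) := by
      intro k z hz
      have : (z + k * (m * (2 * Real.pi * Complex.I))).re = z.re := by simp
      change (z + k * (m * (2 * Real.pi * Complex.I))).re < _
      rw [this]; exact hz
    intro k z hz
    induction k using Int.induction_on with
    | zero => simp
    | succ i ih =>
      have h1 := hper _ (hmem i z hz)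
      rw [ih] at h1
      rw [← h1]
      congr 1
      push_cast
      ring
    | pred i ih =>
      have h1 := hper _ (hmem (-(i : ℤ) - 1) z hz)
      rw [← h1, ← ih]
      congr 1
      push_cast
      ring
  let V0 : ℂ → ℂ := fun v => W (m * Complex.log v)
  have hV0 : ∀ z ∈ LH (Real.log ρ), V0 (Complex.exp (z / m)) = W z := by
    intro z hz
    simp only [V0]
    obtain ⟨k, hk⟩ := Complex.exp_eq_exp_iff_exists_int.1
      (Complex.exp_log (Complex.exp_ne_zero (z / m)))
    rw [hk]
    have : (m : ℂ) * (z / m + k * (2 * Real.pi * Complex.I)) =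
        z + k * (m * (2 * Real.pi * Complex.I)) := by
      field_simp
    rw [this]
    exact hperZ k z hz
  have hV0d : DifferentiableOn ℂ V0 (ball 0 r \ {0}) := by
    rintro v1 ⟨hv1, hv1'⟩
    rw [mem_ball_zero_iff] at hv1
    have hv10 : v1 ≠ 0 := hv1'
    refine DifferentiableAt.differentiableWithinAt ?_
    set z1 := (m : ℂ) * Complex.log v1 with hz1
    have h1 : DifferentiableAt ℂ (fun v : ℂ => z1 + m * Complex.log (v / v1)) v1 := by
      have h2 : DifferentiableAt ℂ (fun v : ℂ => v / v1) v1 := by fun_prop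
      have h3 : (fun v : ℂ => v / v1) v1 ∈ Complex.slitPlane := by
        simp only [div_self hv10]
        exact Complex.one_mem_slitPlane
      exact (h2.clog h3).const_mul _ |>.const_add _
    have hval : z1 + m * Complex.log (v1 / v1) = z1 := by
      rw [div_self hv10, Complex.log_one, mul_zero, add_zero]
    have hz1mem := hlogmem v1 hv10 hv1
    have h4 : DifferentiableAt ℂ W (z1 + m * Complex.log (v1 / v1)) := by
      rw [hval]
      exact (hWd z1 hz1mem).differentiableAt ((isOpen_LH _).mem_nhds hz1mem)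
    have h5 : DifferentiableAt ℂ (fun v : ℂ => W (z1 + m * Complex.log (v / v1))) v1 :=
      DifferentiableAt.comp v1 h4 h1
    refine h5.congr_of_eventuallyEq ?_
    have h6 : ∀ᶠ v : ℂ in 𝓝 v1, z1 + m * Complex.log (v / v1) ∈ LH (Real.log ρ) := by
      refine h1.continuousAt.eventually_mem ?_
      rw [hval]
      exact (isOpen_LH _).mem_nhds hz1mem
    filter_upwards [h6, isOpen_ne.mem_nhds hv10] with v h7 h8
    rw [← hV0 _ h7]
    congr 1
    rw [hz1, ← mul_add, mul_div_cancel_left₀ _ hm', Complex.exp_add, Complex.exp_log hv10,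
      Complex.exp_log (div_ne_zero h8 hv10)]
    field_simp
  have hV0r : ∀ v ∈ ball (0 : ℂ) r, v ≠ 0 → ev M (x0 + v ^ m, V0 v) = 0 := by
    intro v hv hv0
    rw [mem_ball_zero_iff] at hv
    have h1 := hWr _ (hlogmem v hv0 hv)
    rw [Complex.exp_nat_mul, Complex.exp_log hv0] at h1
    exact h1
  obtain ⟨B, hB⟩ := root_bound hM (isCompact_closedBall x0 ρ)
  have hbd : BddAbove (norm ∘ V0 '' (ball 0 r \ {0})) := by
    refine ⟨B, ?_⟩
    rintro _ ⟨v, ⟨hv, hv0⟩, rfl⟩
    refine hB (x0 + v ^ m) ?_ _ (hV0r v hv hv0)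
    rw [mem_closedBall, dist_eq_norm, add_sub_cancel_left, norm_pow, ← hrm]
    rw [mem_ball_zero_iff] at hv
    gcongr
  have hV := Complex.differentiableOn_update_limUnder_of_bddAbove
    (isOpen_ball.mem_nhds (mem_ball_self hrp)) hV0d hbd
  refine ⟨m, hm, r, Function.update V0 0 (limUnder (𝓝[≠] 0) V0), hrp, hrm, hV, ?_, ?_⟩
  · intro v hv hv0
    rw [Function.update_of_ne hv0]
    exact hV0r v hv hv0
  · rw [Function.update_of_ne (Complex.exp_ne_zero _), hV0 z0 hz0, hW0]

end

end Crest.Agent.R102.Pain416
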