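import Mathlib
import Crest.Agent.R102.PainD_416

/-!
Row 102, part (C), T5 input for algebraic curves (Painlevé), part E: choice of a direction, local
solution of `v' = u R(v)` with `R` meromorphic at `0`.
-/

set_option autoImplicit false

namespace Crest.Agent.R102.Pain416

open Polynomial Set Filter Topology Metric

noncomputable section

/-- a direction from `s` along which `f ≠ x0` -/
lemma dir {s : ℂ} {r₀ : ℝ} {f : ℂ → ℂ} (hf : DifferentiableOn ℂ f (HD s r₀)) {x0 : ℂ}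
    (hne : ∃ z ∈ HD s r₀, f z ≠ x0) :
    ∃ u : ℂ, ‖u‖ = 1 ∧ u.im < 0 ∧ ∀ t : ℝ, 0 < t → t < r₀ → f (s + t * u) ≠ x0 := by
  set Z : Set ℂ := {z | z ∈ HD s r₀ ∧ f z = x0} with hZ
  have han : AnalyticOnNhd ℂ (fun z => f z - x0) (HD s r₀) :=
    (hf.sub_const x0).analyticOnNhd (isOpen_HD s r₀)
  have hdisc : IsDiscrete Z := by
    rw [isDiscrete_iff_forall_mem_exists_isOpen]
    rintro z1 ⟨hz1, hz1'⟩
    have h1 : ∀ᶠ z in 𝓝[≠] z1, f z - x0 ≠ 0 := by
      rcases (han z1 hz1).eventually_eq_zero_or_eventually_ne_zero with h | h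
      · exfalso
        obtain ⟨z2, hz2, h2⟩ := hne
        have := han.eqOn_zero_of_preconnected_of_eventuallyEq_zero (convex_HD s r₀).isPreconnected
          hz1 h hz2
        exact h2 (sub_eq_zero.1 this)
      · exact h
    rw [eventually_nhdsWithin_iff, Metric.eventually_nhds_iff_ball] at h1
    obtain ⟨ε, hε, h2⟩ := h1
    refine ⟨ball z1 ε, isOpen_ball, ?_⟩
    ext z
    constructor
    · rintro ⟨h3, h4⟩
      by_contra h5
      exact h2 z h3 h5 (sub_eq_zero.2 h4.2)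
    · rintro rfl
      exact ⟨mem_ball_self hε, hz1, hz1'⟩
  have hcount : Z.Countable :=
    (HereditarilyLindelofSpace.isLindelof Z).countable_of_isDiscrete hdisc
  have hc2 : ((fun z : ℂ => Complex.arg (z - s)) '' Z).Countable := hcount.image _
  obtain ⟨θ, hθ, hθ'⟩ := (hc2.dense_compl ℝ).exists_mem_open isOpen_Ioo
    (nonempty_Ioo.2 (neg_lt_zero.2 Real.pi_pos))
  refine ⟨Complex.cos θ + Complex.sin θ * Complex.I, ?_, ?_, ?_⟩
  · rw [Complex.norm_cos_add_sin_mul_I]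
  · have : (Complex.cos θ + Complex.sin θ * Complex.I).im = Real.sin θ := by
      simp [Complex.cos_ofReal_im, Complex.sin_ofReal_re]
    rw [this]
    exact Real.sin_neg_of_neg_of_neg_pi_lt hθ'.2 hθ'.1
  · intro t ht htr heq
    apply hθ
    have hu : ‖(Complex.cos θ + Complex.sin θ * Complex.I : ℂ)‖ = 1 := by
      rw [Complex.norm_cos_add_sin_mul_I]
    have hui : (Complex.cos θ + Complex.sin θ * Complex.I : ℂ).im < 0 := by
      have : (Complex.cos θ + Complex.sin θ * Complex.I).im = Real.sin θ := by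
        simp [Complex.cos_ofReal_im, Complex.sin_ofReal_re]
      rw [this]
      exact Real.sin_neg_of_neg_of_neg_pi_lt hθ'.2 hθ'.1
    refine ⟨s + t * (Complex.cos θ + Complex.sin θ * Complex.I),
      ⟨path_mem hu hui ht htr, heq⟩, ?_⟩
    simp only [add_sub_cancel_left]
    exact Complex.arg_mul_cos_add_sin_mul_I ht ⟨hθ'.1, hθ'.2.le.trans Real.pi_pos.le⟩

/-- derivative of a continuous logarithm -/
lemma log_deriv {h L : ℝ → ℂ} {t1 : ℝ} {h' : ℂ} (hL : ContinuousAt L t1)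
    (heq : ∀ᶠ t in 𝓝 t1, Complex.exp (L t) = h t) (hh : HasDerivAt h h' t1) :
    HasDerivAt L (h' / h t1) t1 := by
  have h0 : h t1 ≠ 0 := by rw [← heq.self_of_nhds]; exact Complex.exp_ne_zero _
  have h1 : ∀ᶠ t in 𝓝 t1, L t = L t1 + Complex.log (h t / h t1) := by
    have h2 : ContinuousAt (fun t => (L t - L t1).im) t1 :=
      (Complex.continuous_im.continuousAt).comp (hL.sub continuousAt_const)
    have h3 : ∀ᶠ t in 𝓝 t1, (L t - L t1).im ∈ Ioo (-Real.pi) Real.pi := by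
      refine h2.eventually_mem ?_
      simp only [sub_self, Complex.zero_im]
      exact Ioo_mem_nhds (neg_lt_zero.2 Real.pi_pos) Real.pi_pos
    filter_upwards [h3, heq] with t h4 h5
    have h6 : h t / h t1 = Complex.exp (L t - L t1) := by
      rw [Complex.exp_sub, h5, heq.self_of_nhds]
    rw [h6, Complex.log_exp h4.1 h4.2.le]
    ring
  have h7 : HasDerivAt (fun t => L t1 + Complex.log (h t / h t1)) (h' / h t1) t1 := by
    have h8 : HasDerivAt (fun t => h t / h t1) (h' / h t1) t1 := hh.div_const _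
    have h9 : h t1 / h t1 ∈ Complex.slitPlane := by
      rw [div_self h0]; exact Complex.one_mem_slitPlane
    have h10 := (h8.clog_real h9).const_add (L t1)
    rwa [div_self h0, div_one] at h10
  exact h7.congr_of_eventuallyEq h1

/-- `k`-th root coordinate of an analytic function vanishing at `0` -/
lemma root_coord {G : ℂ → ℂ} (hG : AnalyticAt ℂ G 0) (hG0 : G 0 = 0)
    (hne : ¬ ∀ᶠ z in 𝓝 (0 : ℂ), G z = 0) :
    ∃ (j : ℕ) (Ξ Ψ : ℂ → ℂ), 0 < j ∧ AnalyticAt ℂ Ξ 0 ∧ Ξ 0 = 0 ∧ AnalyticAt ℂ Ψ 0 ∧ Ψ 0 = 0 ∧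
      deriv Ψ 0 ≠ 0 ∧ (∀ᶠ v in 𝓝 (0 : ℂ), Ψ (Ξ v) = v) ∧ ∀ᶠ v in 𝓝 (0 : ℂ), Ξ v ^ j = G v := by
  obtain ⟨j, h2, h2an, h20, h2eq⟩ := hG.exists_eventuallyEq_pow_smul_nonzero_iff.2 hne
  have hj : j ≠ 0 := by
    rintro rfl
    have := h2eq.self_of_nhds
    simp only [pow_zero, one_smul] at this
    exact h20 (this.symm.trans hG0)
  obtain ⟨c0, hc0⟩ := IsAlgClosed.exists_pow_nat_eq (h2 0) (Nat.pos_of_ne_zero hj)
  have hc00 : c0 ≠ 0 := by
    rintro rfl
    rw [zero_pow hj] at hc0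
    exact h20 hc0.symm
  let χ : ℂ → ℂ := fun v => c0 * (h2 v / h2 0) ^ ((j : ℂ)⁻¹)
  have hχan : AnalyticAt ℂ χ 0 := by
    refine analyticAt_const.mul ?_
    refine (h2an.div_const).cpow analyticAt_const ?_
    rw [div_self h20]
    exact Complex.one_mem_slitPlane
  have hχ0 : χ 0 = c0 := by simp only [χ]; rw [div_self h20, Complex.one_cpow, mul_one]
  have hχj : ∀ v, χ v ^ j = h2 v := by
    intro v
    simp only [χ]
    rw [mul_pow, Complex.cpow_nat_inv_pow _ hj, hc0, mul_div_cancel₀ _ h20]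
  let Ξ : ℂ → ℂ := fun v => v * χ v
  have hΞan : AnalyticAt ℂ Ξ 0 := analyticAt_id.mul hχan
  have hΞ0 : Ξ 0 = 0 := by simp [Ξ]
  have hΞd : deriv Ξ 0 = c0 := by
    have h1 : HasDerivAt Ξ (1 * χ 0 + 0 * deriv χ 0) 0 :=
      (hasDerivAt_id (0 : ℂ)).mul hχan.differentiableAt.hasDerivAt
    rw [h1.deriv, hχ0]; ring
  have hΞd0 : deriv Ξ 0 ≠ 0 := by rw [hΞd]; exact hc00
  set Ψ := hΞan.hasStrictDerivAt.localInverse _ _ _ hΞd0 with hΨ
  have hΨan : AnalyticAt ℂ Ψ 0 := by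
    have := hΞan.analyticAt_localInverse hΞd0
    rwa [hΞ0] at this
  have hleft : ∀ᶠ v in 𝓝 (0 : ℂ), Ψ (Ξ v) = v :=
    hΞan.hasStrictDerivAt.eventually_left_inverse hΞd0
  have hΨ0 : Ψ 0 = 0 := by
    have := hleft.self_of_nhds
    rwa [hΞ0] at this
  have hΨd : deriv Ψ 0 ≠ 0 := by
    intro h0
    have h1 : HasDerivAt (fun v => Ψ (Ξ v)) (deriv Ψ (Ξ 0) * deriv Ξ 0) 0 := by
      refine HasDerivAt.comp 0 ?_ hΞan.differentiableAt.hasDerivAt
      rw [hΞ0]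
      exact hΨan.differentiableAt.hasDerivAt
    rw [hΞ0, h0, zero_mul] at h1
    have h3 : HasDerivAt (fun v => Ψ (Ξ v)) 1 0 :=
      (hasDerivAt_id (0 : ℂ)).congr_of_eventuallyEq hleft
    exact zero_ne_one (h1.unique h3)
  refine ⟨j, Ξ, Ψ, Nat.pos_of_ne_zero hj, hΞan, hΞ0, hΨan, hΨ0, hΨd, hleft, ?_⟩
  filter_upwards [h2eq] with v hv
  simp only [Ξ]
  rw [mul_pow, hχj, hv, sub_zero, smul_eq_mul]

/-- **local solution** -/
theorem loc {R : ℂ → ℂ} (hR : MeromorphicAt R 0) (hRne : ∀ᶠ v in 𝓝[≠] (0 : ℂ), R v ≠ 0) {u : ℂ}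
    (hu : ‖u‖ = 1) (hui : u.im < 0) {l : ℝ → ℂ} {t1 : ℝ} (ht1 : 0 < t1)
    (hl : ∀ t ∈ Ioo 0 t1, HasDerivAt l (u * R (Complex.exp (l t)) / Complex.exp (l t)) t)
    (hlim : Tendsto (fun t => Complex.exp (l t)) (𝓝[>] (0 : ℝ)) (𝓝 0)) :
    ∃ (j : ℕ) (ψ : ℂ → ℂ), 0 < j ∧ AnalyticAt ℂ ψ 0 ∧ ψ 0 = 0 ∧ deriv ψ 0 ≠ 0 ∧
      ∀ᶠ t : ℝ in 𝓝[>] (0 : ℝ), Complex.exp (l t) = ψ ((t * u) ^ ((j : ℂ)⁻¹)) := by
  have htop : meromorphicOrderAt R 0 ≠ ⊤ :=
    (meromorphicOrderAt_ne_top_iff_eventually_ne_zero hR).2 hRne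
  obtain ⟨g1, g1an, g10, hg1⟩ := (meromorphicOrderAt_ne_top_iff hR).1 htop
  set κ : ℤ := (meromorphicOrderAt R 0).untop₀ with hκ
  -- a good ball
  have hev : ∀ᶠ v in 𝓝 (0 : ℂ), (v ≠ 0 → R v = v ^ κ * g1 v) ∧ AnalyticAt ℂ g1 v ∧ g1 v ≠ 0 ∧
      ‖g1 v‖ < ‖g1 0‖ + 1 := by
    have e1 : ∀ᶠ v in 𝓝 (0 : ℂ), v ≠ 0 → R v = v ^ κ * g1 v := by
      have := eventually_nhdsWithin_iff.1 hg1
      refine this.mono fun v hv hv0 => ?_
      have h1 : R v = (v - 0) ^ κ • g1 v := hv hv0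
      rwa [sub_zero, smul_eq_mul] at h1
    have e2 : ∀ᶠ v in 𝓝 (0 : ℂ), g1 v ≠ 0 := g1an.continuousAt.eventually_ne g10
    have e3 : ∀ᶠ v in 𝓝 (0 : ℂ), ‖g1 v‖ < ‖g1 0‖ + 1 :=
      g1an.continuousAt.norm.eventually_lt_const (by linarith)
    filter_upwards [e1, g1an.eventually_analyticAt, e2, e3] with v h1 h2 h3 h4
    exact ⟨h1, h2, h3, h4⟩
  obtain ⟨r1', hr1', hball'⟩ := Metric.eventually_nhds_iff_ball.1 hev
  set r1 := min r1' 1 with hr1
  have hr1p : 0 < r1 := lt_min hr1' one_pos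
  have hball : ∀ v ∈ ball (0 : ℂ) r1, (v ≠ 0 → R v = v ^ κ * g1 v) ∧ AnalyticAt ℂ g1 v ∧
      g1 v ≠ 0 ∧ ‖g1 v‖ < ‖g1 0‖ + 1 := fun v hv =>
    hball' v (ball_subset_ball (min_le_left _ _) hv)
  have hlim2 : ∀ δ > 0, ∃ t2, 0 < t2 ∧ t2 ≤ t1 ∧ ∀ t ∈ Ioo 0 t2, ‖Complex.exp (l t)‖ < δ := by
    intro δ hδ
    have h1 : ∀ᶠ t in 𝓝[>] (0 : ℝ), ‖Complex.exp (l t)‖ < δ := by
      have := hlim.norm
      rw [norm_zero] at this
      exact this.eventually_lt_const hδ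
    rw [eventually_nhdsWithin_iff, Metric.eventually_nhds_iff_ball] at h1
    obtain ⟨ε, hε, h2⟩ := h1
    refine ⟨min ε t1, lt_min hε ht1, min_le_right _ _, fun t ht => h2 t ?_ ht.1⟩
    rw [mem_ball, Real.dist_eq, sub_zero, abs_of_pos ht.1]
    exact lt_of_lt_of_le ht.2 (min_le_left _ _)
  obtain ⟨t2, ht2, ht21, hsmall⟩ := hlim2 r1 hr1p
  have hl2 : ∀ t ∈ Ioo 0 t2, HasDerivAt l (u * R (Complex.exp (l t)) / Complex.exp (l t)) t :=
    fun t ht => hl t ⟨ht.1, lt_of_lt_of_le ht.2 ht21⟩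
  have hmemb : ∀ t ∈ Ioo 0 t2, Complex.exp (l t) ∈ ball (0 : ℂ) r1 := fun t ht => by
    rw [mem_ball_zero_iff]; exact hsmall t ht
  have hval : ∀ t ∈ Ioo 0 t2, R (Complex.exp (l t)) =
      Complex.exp (l t) ^ κ * g1 (Complex.exp (l t)) := fun t ht =>
    (hball _ (hmemb t ht)).1 (Complex.exp_ne_zero _)
  -- the exponent is nonpositive
  have hκ0 : κ ≤ 0 := by
    by_contra hpos
    push Not at hpos
    obtain ⟨n, hn⟩ := Int.eq_ofNat_of_zero_le (show 0 ≤ κ - 1 by omega)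
    have hκn : κ = n + 1 := by omega
    set C := ‖g1 0‖ + 1 with hC
    have hb : ∀ t ∈ Ioo 0 t2, ‖u * R (Complex.exp (l t)) / Complex.exp (l t)‖ ≤ C := by
      intro t ht
      have hv0 : Complex.exp (l t) ≠ 0 := Complex.exp_ne_zero _
      have e1 : u * R (Complex.exp (l t)) / Complex.exp (l t) =
          u * (Complex.exp (l t) ^ n * g1 (Complex.exp (l t))) := by
        rw [hval t ht, hκn, zpow_add_one₀ hv0, zpow_natCast]
        field_simp
      rw [e1, norm_mul, hu, one_mul, norm_mul, norm_pow]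
      have h1 : ‖Complex.exp (l t)‖ ^ n ≤ 1 :=
        pow_le_one₀ (norm_nonneg _) ((hsmall t ht).le.trans (min_le_right _ _))
      have h2 := (hball _ (hmemb t ht)).2.2.2.le
      calc ‖Complex.exp (l t)‖ ^ n * ‖g1 (Complex.exp (l t))‖ ≤ 1 * C := by gcongr
        _ = C := one_mul C
    set t3 := t2 / 2 with ht3
    have ht3m : t3 ∈ Ioo 0 t2 := ⟨by positivity, by rw [ht3]; linarith⟩
    have hlip : ∀ t ∈ Ioo 0 t2, ‖l t - l t3‖ ≤ C * t2 := by
      intro t ht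
      have h1 := (convex_Ioo (0 : ℝ) t2).norm_image_sub_le_of_norm_hasDerivWithin_le
        (f := l) (C := C) (fun x hx => (hl2 x hx).hasDerivWithinAt) hb ht3m ht
      refine h1.trans ?_
      have hC0 : 0 ≤ C := by positivity
      gcongr
      rw [Real.norm_eq_abs, abs_le]
      constructor <;> linarith [ht.1, ht.2, ht3m.1, ht3m.2]
    obtain ⟨t4, ht4, ht41, hsm⟩ := hlim2 (Real.exp ((l t3).re - C * t2)) (Real.exp_pos _)
    set t5 := min t4 t2 / 2 with ht5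
    have hmin : 0 < min t4 t2 := lt_min ht4 ht2
    have h5a : t5 ∈ Ioo 0 t4 := ⟨by positivity, by
      rw [ht5]; have := min_le_left t4 t2; linarith⟩
    have h5b : t5 ∈ Ioo 0 t2 := ⟨by positivity, by
      rw [ht5]; have := min_le_right t4 t2; linarith⟩
    have h6 := hsm t5 h5a
    rw [Complex.norm_exp] at h6
    have h7 := Real.exp_lt_exp.1 h6
    have h8 := hlip t5 h5b
    have h9 := (Complex.abs_re_le_norm (l t5 - l t3)).trans h8
    rw [Complex.sub_re] at h9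
    have := (abs_le.1 h9).1
    linarith
  -- the primitive
  obtain ⟨n, hn⟩ := Int.eq_ofNat_of_zero_le (show 0 ≤ -κ by omega)
  have hF : DifferentiableOn ℂ (fun v => v ^ n / g1 v) (ball 0 r1) := by
    intro v hv
    have h1 := hball v hv
    exact ((differentiableAt_id.pow n).div h1.2.1.differentiableAt h1.2.2.1).differentiableWithinAt
  obtain ⟨G, hG0, hG⟩ := hF.isExactOn_ball.with_val_at 0 0
  have hGan : AnalyticAt ℂ G 0 := by
    have : DifferentiableOn ℂ G (ball 0 r1) := fun v hv => (hG v hv).differentiableAt.differentiableWithinAt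
    exact this.analyticAt (ball_mem_nhds 0 hr1p)
  have hGne : ¬ ∀ᶠ z in 𝓝 (0 : ℂ), G z = 0 := by
    intro h0
    have h1 : ∀ᶠ z in 𝓝 (0 : ℂ), ∀ᶠ z' in 𝓝 z, G z' = 0 := h0.eventually_nhds
    obtain ⟨ε, hε, h2⟩ := Metric.eventually_nhds_iff_ball.1 h1
    set δ := min ε r1 / 2 with hδ
    have hmin : 0 < min ε r1 := lt_min hε hr1p
    have hδp : 0 < δ := by positivity
    have hz : (δ : ℂ) ∈ ball (0 : ℂ) ε := by
      rw [mem_ball_zero_iff, Complex.norm_real, Real.norm_eq_abs, abs_of_pos hδp, hδ]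
      have := min_le_left ε r1; linarith
    have hz' : (δ : ℂ) ∈ ball (0 : ℂ) r1 := by
      rw [mem_ball_zero_iff, Complex.norm_real, Real.norm_eq_abs, abs_of_pos hδp, hδ]
      have := min_le_right ε r1; linarith
    have h3 : HasDerivAt G 0 (δ : ℂ) :=
      (hasDerivAt_const (δ : ℂ) (0 : ℂ)).congr_of_eventuallyEq (h2 _ hz)
    have h4 := h3.unique (hG _ hz')
    have h5 : (δ : ℂ) ≠ 0 := by exact_mod_cast hδp.ne'
    exact div_ne_zero (pow_ne_zero n h5) (hball _ hz').2.2.1 h4.symm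
  have hGv : ∀ t ∈ Ioo 0 t2, G (Complex.exp (l t)) = t * u := by
    have hder : ∀ t ∈ Ioo 0 t2, HasDerivAt (fun t : ℝ => G (Complex.exp (l t)) - t * u) 0 t := by
      intro t ht
      have hv0 : Complex.exp (l t) ≠ 0 := Complex.exp_ne_zero _
      have h1 := (hl2 t ht).cexp
      have h2 := (hG _ (hmemb t ht)).comp t h1
      have h3 : HasDerivAt (fun t : ℝ => (t : ℂ) * u) (1 * u) t :=
        (Complex.ofRealCLM.hasDerivAt (x := t)).mul_const u
      have h4 := h2.sub h3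
      have e1 : Complex.exp (l t) ^ n / g1 (Complex.exp (l t)) *
          (Complex.exp (l t) * (u * R (Complex.exp (l t)) / Complex.exp (l t))) - 1 * u = 0 := by
        rw [hval t ht]
        have hg := (hball _ (hmemb t ht)).2.2.1
        have hκn : κ = -(n : ℤ) := by omega
        rw [hκn, zpow_neg, zpow_natCast]
        field_simp
        ring
      rw [e1] at h4
      exact h4
    have hconst : ∀ t ∈ Ioo 0 t2, ∀ t' ∈ Ioo 0 t2,
        G (Complex.exp (l t)) - t * u = G (Complex.exp (l t')) - t' * u := by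
      intro t ht t' ht'
      have h1 := (convex_Ioo (0 : ℝ) t2).norm_image_sub_le_of_norm_hasDerivWithin_le
        (f := fun t : ℝ => G (Complex.exp (l t)) - t * u) (C := 0)
        (fun x hx => (hder x hx).hasDerivWithinAt) (fun x _ => by simp) ht' ht
      rw [zero_mul] at h1
      exact sub_eq_zero.1 (norm_le_zero_iff.1 h1)
    intro t ht
    have hlim3 : Tendsto (fun t' : ℝ => G (Complex.exp (l t')) - t' * u) (𝓝[>] (0 : ℝ)) (𝓝 0) := by
      have h1 : Tendsto (fun t' : ℝ => G (Complex.exp (l t'))) (𝓝[>] (0 : ℝ)) (𝓝 (G 0)) :=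
        (hGan.continuousAt.tendsto).comp hlim
      have h2 : Tendsto (fun t' : ℝ => (t' : ℂ) * u) (𝓝[>] (0 : ℝ)) (𝓝 (((0 : ℝ) : ℂ) * u)) := by
        refine Tendsto.mono_left ?_ nhdsWithin_le_nhds
        exact (Continuous.tendsto (by fun_prop) 0)
      have h3 := h1.sub h2
      rwa [hG0, Complex.ofReal_zero, zero_mul, sub_zero] at h3
    have hlim4 : Tendsto (fun _ : ℝ => G (Complex.exp (l t)) - t * u) (𝓝[>] (0 : ℝ)) (𝓝 0) := by
      refine hlim3.congr' ?_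
      filter_upwards [Ioo_mem_nhdsGT ht2] with t' ht'
      exact hconst t' ht' t ht
    have := tendsto_nhds_unique hlim4 tendsto_const_nhds
    exact (sub_eq_zero.1 this.symm)
  obtain ⟨j, Ξ, Ψ, hj, hΞan, hΞ0, hΨan, hΨ0, hΨd, hleft, hpow⟩ := root_coord hGan hG0 hGne
  obtain ⟨r2, hr2, hball2⟩ := Metric.eventually_nhds_iff_ball.1
    (hleft.and (hpow.and hΞan.eventually_analyticAt))
  obtain ⟨t6, ht6, ht61, hsm6⟩ := hlim2 r2 hr2
  set t7 := min t6 t2 with ht7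
  have ht7p : 0 < t7 := lt_min ht6 ht2
  have hm6 : ∀ t ∈ Ioo 0 t7, Complex.exp (l t) ∈ ball (0 : ℂ) r2 := fun t ht => by
    rw [mem_ball_zero_iff]
    exact hsm6 t ⟨ht.1, lt_of_lt_of_le ht.2 (min_le_left _ _)⟩
  have hm2 : ∀ t ∈ Ioo 0 t7, t ∈ Ioo 0 t2 := fun t ht =>
    ⟨ht.1, lt_of_lt_of_le ht.2 (min_le_right _ _)⟩
  have hu0 : u ≠ 0 := by rintro rfl; simp at hu
  have htu0 : ∀ t ∈ Ioo (0 : ℝ) t7, (t : ℂ) * u ≠ 0 := fun t ht =>
    mul_ne_zero (by exact_mod_cast ht.1.ne') hu0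
  have hslit : ∀ t ∈ Ioo (0 : ℝ) t7, (t : ℂ) * u ∈ Complex.slitPlane := by
    intro t ht
    rw [Complex.mem_slitPlane_iff]
    right
    simp only [Complex.mul_im, Complex.ofReal_re, Complex.ofReal_im, zero_mul, add_zero]
    exact (mul_neg_of_pos_of_neg ht.1 hui).ne
  let p : ℝ → ℂ := fun t => ((t : ℂ) * u) ^ ((j : ℂ)⁻¹)
  have hpj : ∀ t, p t ^ j = t * u := fun t => Complex.cpow_nat_inv_pow _ hj.ne'
  have hp0 : ∀ t ∈ Ioo (0 : ℝ) t7, p t ≠ 0 := by
    intro t ht h0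
    have := hpj t
    rw [h0, zero_pow hj.ne'] at this
    exact htu0 t ht this.symm
  let ω : ℝ → ℂ := fun t => Ξ (Complex.exp (l t)) / p t
  have hωj : ∀ t ∈ Ioo (0 : ℝ) t7, ω t ^ j = 1 := by
    intro t ht
    simp only [ω]
    rw [div_pow, hpj, (hball2 _ (hm6 t ht)).2.1, hGv t (hm2 t ht), div_self (htu0 t ht)]
  have hωc : ContinuousOn ω (Ioo 0 t7) := by
    intro t ht
    refine ContinuousAt.continuousWithinAt ?_
    have h1 : ContinuousAt (fun t => Ξ (Complex.exp (l t))) t := by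
      have h2 : ContinuousAt Ξ (Complex.exp (l t)) := (hball2 _ (hm6 t ht)).2.2.continuousAt
      exact ContinuousAt.comp h2 ((hl2 t (hm2 t ht)).continuousAt.cexp)
    have h3 : ContinuousAt p t := by
      have h4 : ContinuousAt (fun t : ℝ => (t : ℂ) * u) t := by fun_prop
      exact h4.cpow continuousAt_const (hslit t ht)
    exact h1.div h3 (hp0 t ht)
  have hfin : {x : ℂ | x ^ j = 1}.Finite := by
    refine ((nthRootsFinset j (1 : ℂ)).finite_toSet).subset fun x hx => ?_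
    rw [Finset.mem_coe, mem_nthRootsFinset hj]
    exact hx
  set t8 := t7 / 2 with ht8
  have ht8m : t8 ∈ Ioo 0 t7 := ⟨by positivity, by rw [ht8]; linarith⟩
  have hωconst : ∀ t ∈ Ioo (0 : ℝ) t7, ω t = ω t8 := fun t ht =>
    (isPreconnected_Ioo).constant_of_mapsTo hfin.isDiscrete hωc (fun t ht => hωj t ht) ht ht8m
  have hω0 : ω t8 ≠ 0 := by
    intro h0
    have := hωj t8 ht8m
    rw [h0, zero_pow hj.ne'] at this
    exact zero_ne_one this
  refine ⟨j, fun x => Ψ (ω t8 * x), hj, ?_, by simp [hΨ0], ?_, ?_⟩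
  · have h1 : AnalyticAt ℂ Ψ (ω t8 * 0) := by rw [mul_zero]; exact hΨan
    exact AnalyticAt.comp (g := Ψ) (f := fun x => ω t8 * x) h1 (analyticAt_const.mul analyticAt_id)
  · have h1 : HasDerivAt (fun x => Ψ (ω t8 * x)) (deriv Ψ 0 * (ω t8 * 1)) 0 := by
      refine HasDerivAt.comp 0 ?_ ((hasDerivAt_id (0 : ℂ)).const_mul _)
      simp only [mul_zero]
      exact hΨan.differentiableAt.hasDerivAt
    rw [h1.deriv]
    exact mul_ne_zero hΨd (by rw [mul_one]; exact hω0)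
  · filter_upwards [Ioo_mem_nhdsGT ht7p] with t ht
    have h1 : ω t8 * p t = Ξ (Complex.exp (l t)) := by
      rw [← hωconst t ht]
      exact div_mul_cancel₀ _ (hp0 t ht)
    change Complex.exp (l t) = Ψ (ω t8 * p t)
    rw [h1, (hball2 _ (hm6 t ht)).1]

end

end Crest.Agent.R102.Pain416
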