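import Mathlib
import Crest.Agent.R102.PainE_416

/-!
Row 102, part (C), T5 input for algebraic curves (Painlevé), part F: Puiseux form at a finite limit.
-/

set_option autoImplicit false

namespace Crest.Agent.R102.Pain416

open Polynomial Set Filter Topology Metric

noncomputable section

/-- Puiseux form of `f` at `s`, from below -/
def Pui (s : ℂ) (j : ℕ) (k : ℤ) (r : ℝ) (g f : ℂ → ℂ) : Prop :=
  DifferentiableOn ℂ g (ball 0 r) ∧ (∀ x ∈ ball (0 : ℂ) r, g x ≠ 0) ∧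
    ∀ z ∈ HD s (r ^ j), f z = ((z - s) ^ ((j : ℂ)⁻¹)) ^ k * g ((z - s) ^ ((j : ℂ)⁻¹))

lemma path_tendsto {s u : ℂ} (hu : ‖u‖ = 1) (hui : u.im < 0) :
    Tendsto (fun t : ℝ => s + t * u) (𝓝[>] (0 : ℝ)) (bl s) := by
  intro S hS
  have hS' : ∀ᶠ z in bl s, z ∈ S := hS
  obtain ⟨r, hr, h1⟩ := bl_basis.1 hS'
  rw [mem_map]
  filter_upwards [Ioo_mem_nhdsGT hr] with t ht
  exact h1 _ (path_mem hu hui ht.1 ht.2)

lemma mem_slit {s z : ℂ} (h : z.im < s.im) : z - s ∈ Complex.slitPlane := by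
  rw [Complex.mem_slitPlane_iff]
  right
  rw [Complex.sub_im]
  linarith

/-- identity theorem along a ray -/
lemma ray_id {s u : ℂ} {r : ℝ} (hr : 0 < r) (hu : ‖u‖ = 1) (hui : u.im < 0) {f g : ℂ → ℂ}
    (hf : AnalyticOnNhd ℂ f (HD s r)) (hg : AnalyticOnNhd ℂ g (HD s r))
    (h : ∀ᶠ t : ℝ in 𝓝[>] (0 : ℝ), f (s + t * u) = g (s + t * u)) :
    ∀ z ∈ HD s r, f z = g z := by
  rw [eventually_nhdsWithin_iff, Metric.eventually_nhds_iff_ball] at h
  obtain ⟨ε, hε, h1⟩ := h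
  set t9 := min ε r / 2 with ht9
  have hmin : 0 < min ε r := lt_min hε hr
  have ht9p : 0 < t9 := by positivity
  have ht9r : t9 < r := by rw [ht9]; have := min_le_right ε r; linarith
  have ht9e : t9 < ε := by rw [ht9]; have := min_le_left ε r; linarith
  have hu0 : u ≠ 0 := by rintro rfl; simp at hu
  have htend : Tendsto (fun t : ℝ => s + t * u) (𝓝[≠] t9) (𝓝[≠] (s + t9 * u)) := by
    refine tendsto_nhdsWithin_of_tendsto_nhds_of_eventually_within _ ?_ ?_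
    · exact (Continuous.tendsto (by fun_prop) t9).mono_left nhdsWithin_le_nhds
    · filter_upwards [self_mem_nhdsWithin] with t ht
      intro heq
      apply ht
      have h2 : (t : ℂ) * u = t9 * u := add_left_cancel heq
      exact_mod_cast mul_right_cancel₀ hu0 h2
  have hev : ∀ᶠ t : ℝ in 𝓝[≠] t9, f (s + t * u) = g (s + t * u) := by
    have h2 : ∀ᶠ t : ℝ in 𝓝 t9, t ∈ Ioo 0 ε := Ioo_mem_nhds ht9p ht9e
    filter_upwards [mem_nhdsWithin_of_mem_nhds h2] with t ht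
    refine h1 t ?_ ht.1
    rw [mem_ball, Real.dist_eq, sub_zero, abs_of_pos ht.1]
    exact ht.2
  have hfr : ∃ᶠ z in 𝓝[≠] (s + t9 * u), f z = g z := htend.frequently hev.frequently
  exact fun z hz => hf.eqOn_of_preconnected_of_frequently_eq hg (convex_HD s r).isPreconnected
    (path_mem hu hui ht9p ht9r) hfr hz

variable {s : ℂ} {r₀ : ℝ} {E y : ℂ → ℂ} {M : Polynomial (Polynomial ℂ)} {a : Polynomial ℂ}
  {bad : Finset ℂ}

lemma cpow_small {s z : ℂ} {r : ℝ} {j : ℕ} (hj : 0 < j) (hr : 0 < r) (hz : z ∈ HD s (r ^ j)) :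
    (z - s) ^ ((j : ℂ)⁻¹) ∈ ball (0 : ℂ) r ∧ (z - s) ^ ((j : ℂ)⁻¹) ≠ 0 := by
  have h1 : ((z - s) ^ ((j : ℂ)⁻¹)) ^ j = z - s := Complex.cpow_nat_inv_pow _ hj.ne'
  constructor
  · rw [mem_ball_zero_iff]
    refine lt_of_pow_lt_pow_left₀ j hr.le ?_
    rw [← norm_pow, h1]
    have := hz.1
    rwa [mem_ball, dist_eq_norm] at this
  · intro h0
    rw [h0, zero_pow hj.ne'] at h1
    have h2 : z = s := sub_eq_zero.1 h1.symm
    have h3 : z.im < s.im := hz.2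
    rw [h2] at h3
    exact lt_irrefl _ h3

lemma cpow_an {s z : ℂ} {j : ℕ} (hz : z.im < s.im) :
    AnalyticAt ℂ (fun z => (z - s) ^ ((j : ℂ)⁻¹)) z :=
  (analyticAt_id.sub analyticAt_const).cpow analyticAt_const (mem_slit hz)

theorem Dat.puiseux_fin (D : Dat s r₀ E y M a bad) {x0 : ℂ} (hlim : Tendsto E (bl s) (𝓝 x0)) :
    ∃ (j : ℕ) (k k' : ℤ) (r : ℝ) (g e : ℂ → ℂ), 0 < j ∧ 0 < r ∧ r ^ j ≤ r₀ ∧
      Pui s j k r g y ∧ Pui s j k' r e E := by
  classical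
  -- `E` is not constant
  have hEne : ∃ z ∈ HD s r₀, E z ≠ x0 := by
    obtain ⟨z1, hz1, hy1⟩ := D.y0
    by_contra hcon
    push Not at hcon
    have h1 : E =ᶠ[𝓝 z1] fun _ => x0 := by
      filter_upwards [(isOpen_HD s r₀).mem_nhds hz1] with z hz using hcon z hz
    have h2 : deriv E z1 = 0 := by rw [h1.deriv_eq]; simp
    rw [D.ode z1 hz1] at h2
    exact mul_ne_zero (mul_ne_zero Complex.I_ne_zero hy1) (D.hE0 z1 hz1) h2
  obtain ⟨u, hu, hui, hux⟩ := dir D.hE hEne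
  -- the radius
  obtain ⟨ρ, hρ, hρb⟩ : ∃ ρ > 0, ∀ x : ℂ, x ≠ x0 → ‖x - x0‖ < ρ → x ∉ bad ∧ x ≠ 0 := by
    have hopen : IsOpen ((((insert 0 bad).erase x0 : Finset ℂ) : Set ℂ)ᶜ) :=
      (((insert 0 bad).erase x0).finite_toSet.isClosed).isOpen_compl
    obtain ⟨ρ, hρ, hball⟩ := Metric.isOpen_iff.1 hopen x0 (by simp)
    refine ⟨ρ, hρ, fun x hx hxρ => ?_⟩
    have h1 := hball (show x ∈ ball x0 ρ by rwa [mem_ball, dist_eq_norm])
    simp only [mem_compl_iff, Finset.mem_coe, Finset.mem_erase, Finset.mem_insert, not_and,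
      not_or] at h1
    exact ⟨(h1 hx).2, (h1 hx).1⟩
  obtain ⟨t1, ht1, ht1r, hclose⟩ : ∃ t1 > 0, t1 ≤ r₀ ∧ ∀ z ∈ HD s t1, ‖E z - x0‖ < ρ := by
    have h1 : ∀ᶠ z in bl s, ‖E z - x0‖ < ρ := by
      have := Metric.tendsto_nhds.1 hlim ρ hρ
      refine this.mono fun z hz => ?_
      rwa [dist_eq_norm] at hz
    obtain ⟨r, hr, h2⟩ := bl_basis.1 h1
    exact ⟨min r r₀, lt_min hr D.r₀_pos, min_le_right _ _,
      fun z hz => h2 z (HD_mono (min_le_left _ _) hz)⟩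
  have hpm : ∀ t ∈ Ioo (0 : ℝ) t1, s + t * u ∈ HD s t1 := fun t ht => path_mem hu hui ht.1 ht.2
  have hpm0 : ∀ t ∈ Ioo (0 : ℝ) t1, s + t * u ∈ HD s r₀ := fun t ht => HD_mono ht1r (hpm t ht)
  set x : ℝ → ℂ := fun t => E (s + t * u) with hx
  have hxne : ∀ t ∈ Ioo (0 : ℝ) t1, x t ≠ x0 := fun t ht =>
    hux t ht.1 (lt_of_lt_of_le ht.2 ht1r)
  have hxlt : ∀ t ∈ Ioo (0 : ℝ) t1, ‖x t - x0‖ < ρ := fun t ht => hclose _ (hpm t ht)
  have hxbad : ∀ t ∈ Ioo (0 : ℝ) t1, x t ∈ ((bad : Set ℂ)ᶜ) := fun t ht => by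
    simpa using (hρb _ (hxne t ht) (hxlt t ht)).1
  have hpath : ∀ t : ℝ, HasDerivAt (fun t : ℝ => s + (t : ℂ) * u) u t := fun t => by
    have := ((Complex.ofRealCLM.hasDerivAt (x := t)).mul_const u).const_add s
    simpa using this
  have hxd : ∀ t ∈ Ioo (0 : ℝ) t1,
      HasDerivAt x (Complex.I * y (s + t * u) * E (s + t * u) * u) t := by
    intro t ht
    have h1 : HasDerivAt E (deriv E (s + t * u)) (s + t * u) :=
      ((D.hE _ (hpm0 t ht)).differentiableAt ((isOpen_HD s r₀).mem_nhds (hpm0 t ht))).hasDerivAt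
    rw [D.ode _ (hpm0 t ht)] at h1
    exact h1.comp t (hpath t)
  -- logarithm
  have ha0m : t1 / 2 ∈ Ioo (0 : ℝ) t1 := ⟨by positivity, by linarith⟩
  have : ContractibleSpace (Ioo (0 : ℝ) t1) := (convex_Ioo 0 t1).contractibleSpace ⟨_, ha0m⟩
  have : LocallyPathConnectedSpace (Ioo (0 : ℝ) t1) := isOpen_Ioo.locallyPathConnectedSpace
  have : PreconnectedSpace (Ioo (0 : ℝ) t1) := isPreconnected_iff_preconnectedSpace.1
    isPreconnected_Ioo
  have hxc : ContinuousOn x (Ioo (0 : ℝ) t1) := fun t ht =>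
    (hxd t ht).continuousAt.continuousWithinAt
  have hxc' : Continuous (fun t : Ioo (0 : ℝ) t1 => x t) :=
    continuousOn_iff_continuous_domRestrict.1 hxc
  let f : C(Ioo (0 : ℝ) t1, ℂ) := ⟨fun t => x t - x0, hxc'.sub continuous_const⟩
  have hxn0 : ∀ t ∈ Ioo (0 : ℝ) t1, x t - x0 ≠ 0 := fun t ht => sub_ne_zero.2 (hxne t ht)
  obtain ⟨Lc, ⟨_, hLc⟩, _⟩ := Complex.isCoveringMapOn_exp.existsUnique_continuousMap_lifts f
    (a₀ := ⟨t1 / 2, ha0m⟩) (e₀ := Complex.log (x (t1 / 2) - x0))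
    (Complex.exp_log (hxn0 _ ha0m)) (fun t => hxn0 t t.2)
  let L : ℝ → ℂ := fun t => if h : t ∈ Ioo (0 : ℝ) t1 then Lc ⟨t, h⟩ else 0
  have hLLc : ∀ t : Ioo (0 : ℝ) t1, L t = Lc t := fun t => by simp only [L]; rw [dif_pos t.2]
  have hLe : ∀ t ∈ Ioo (0 : ℝ) t1, Complex.exp (L t) = x t - x0 := by
    intro t ht
    rw [hLLc ⟨t, ht⟩]
    exact congrFun hLc ⟨t, ht⟩
  have hLcont : ContinuousOn L (Ioo (0 : ℝ) t1) := by
    rw [continuousOn_iff_continuous_domRestrict]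
    have : (Ioo (0 : ℝ) t1).domRestrict L = Lc := by funext t; exact hLLc t
    rw [this]
    exact Lc.continuous
  have hLd : ∀ t ∈ Ioo (0 : ℝ) t1,
      HasDerivAt L (Complex.I * y (s + t * u) * E (s + t * u) * u / (x t - x0)) t := by
    intro t ht
    refine log_deriv (h := fun t => x t - x0) (hLcont.continuousAt (isOpen_Ioo.mem_nhds ht)) ?_
      ((hxd t ht).sub_const x0)
    filter_upwards [isOpen_Ioo.mem_nhds ht] with t' ht' using hLe t' ht'
  have hLmem : ∀ t ∈ Ioo (0 : ℝ) t1, L t ∈ LH (Real.log ρ) := by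
    intro t ht
    have h1 := hxlt t ht
    rw [← hLe t ht, Complex.norm_exp] at h1
    change (L t).re < Real.log ρ
    rwa [Real.lt_log_iff_exp_lt hρ]
  set w : ℝ → ℂ := fun t => a.eval (x t) * y (s + t * u) with hw
  have hwr : ∀ t ∈ Ioo (0 : ℝ) t1, ev M (x t, w t) = 0 := fun t ht => D.rel _ (hpm0 t ht)
  obtain ⟨m, hm, r, V, hr, hrm, hVd, hVr, hV0⟩ := disc_root D.mon D.sep hρ
    (fun x h1 h2 => by simpa using (hρb x h1 h2).1) (z0 := L (t1 / 2)) (w0 := w (t1 / 2))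
    (hLmem _ ha0m) (by
      have := hwr _ ha0m
      rw [hLe _ ha0m]
      simpa using this)
  have hmC : (m : ℂ) ≠ 0 := by exact_mod_cast hm.ne'
  have hvm : ∀ t ∈ Ioo (0 : ℝ) t1, Complex.exp (L t / m) ^ m = x t - x0 := by
    intro t ht
    rw [← Complex.exp_nat_mul, mul_div_cancel₀ _ hmC, hLe t ht]
  have hvr : ∀ t ∈ Ioo (0 : ℝ) t1, Complex.exp (L t / m) ∈ ball (0 : ℂ) r := by
    intro t ht
    rw [mem_ball_zero_iff]
    refine lt_of_pow_lt_pow_left₀ m hr.le ?_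
    rw [← norm_pow, hvm t ht, hrm]
    exact hxlt t ht
  have hxv : ∀ t ∈ Ioo (0 : ℝ) t1, x0 + Complex.exp (L t / m) ^ m = x t := fun t ht => by
    rw [hvm t ht]; ring
  -- the root along the path
  have hVw : ∀ t ∈ Ioo (0 : ℝ) t1, w t = V (Complex.exp (L t / m)) := by
    have hyc : ContinuousOn (fun t : ℝ => y (s + t * u)) (Ioo (0 : ℝ) t1) :=
      D.hy.continuousOn.comp (by fun_prop) (fun t ht => hpm0 t ht)
    have hwc : ContinuousOn w (Ioo (0 : ℝ) t1) :=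
      (a.continuous.comp_continuousOn hxc).mul hyc
    have hVc : ContinuousOn (fun t : ℝ => V (Complex.exp (L t / m))) (Ioo (0 : ℝ) t1) :=
      hVd.continuousOn.comp (Complex.continuous_exp.comp_continuousOn (hLcont.div_const _))
        (fun t ht => hvr t ht)
    have key := root_unique D.mon D.sep (A := Ioo (0 : ℝ) t1) (f := fun t => x t)
      (F := fun t => w t) (G := fun t => V (Complex.exp (L t / m))) hxc'
      (continuousOn_iff_continuous_domRestrict.1 hwc)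
      (continuousOn_iff_continuous_domRestrict.1 hVc) (fun t => hxbad t t.2)
      (fun t => hwr t t.2) (fun t => by
        have := hVr _ (hvr t t.2) (Complex.exp_ne_zero _)
        rwa [hxv t t.2] at this) (a₀ := ⟨t1 / 2, ha0m⟩) hV0.symm
    intro t ht
    exact congrFun key ⟨t, ht⟩
  -- the right hand side
  set R : ℂ → ℂ := fun v => Complex.I * v * V v * (x0 + v ^ m) /
    (m * v ^ m * a.eval (x0 + v ^ m)) with hR
  have hVan : AnalyticAt ℂ V 0 := hVd.analyticAt (ball_mem_nhds 0 hr)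
  have hpowan : AnalyticAt ℂ (fun v : ℂ => x0 + v ^ m) 0 := by fun_prop
  have haan : AnalyticAt ℂ (fun v : ℂ => a.eval (x0 + v ^ m)) 0 := by
    have : Differentiable ℂ (fun v : ℂ => a.eval (x0 + v ^ m)) := by fun_prop
    exact this.analyticAt 0
  have hRm : MeromorphicAt R 0 := by
    refine MeromorphicAt.div ?_ ?_
    · exact (((analyticAt_const.mul analyticAt_id).mul hVan).mul hpowan).meromorphicAt
    · exact ((analyticAt_const.mul (analyticAt_id.pow m)).mul haan).meromorphicAt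
  have hgoodv : ∀ v ∈ ball (0 : ℂ) r, v ≠ 0 →
      x0 + v ^ m ∉ bad ∧ x0 + v ^ m ≠ 0 ∧ V v ≠ 0 := by
    intro v hv hv0
    have h1 : x0 + v ^ m ≠ x0 := by
      intro h
      exact pow_ne_zero m hv0 (add_eq_left.1 h)
    have h2 : ‖x0 + v ^ m - x0‖ < ρ := by
      rw [add_sub_cancel_left, norm_pow, ← hrm]
      rw [mem_ball_zero_iff] at hv
      exact pow_lt_pow_left₀ hv (norm_nonneg _) hm.ne'
    have h3 := hρb _ h1 h2
    refine ⟨h3.1, h3.2, fun h0 => ?_⟩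
    have h4 := hVr v hv hv0
    rw [h0] at h4
    exact (D.good _ h3.1).2 h4
  have hRne : ∀ᶠ v in 𝓝[≠] (0 : ℂ), R v ≠ 0 := by
    filter_upwards [self_mem_nhdsWithin, mem_nhdsWithin_of_mem_nhds (ball_mem_nhds (0 : ℂ) hr)]
      with v hv0 hv
    have hv0' : v ≠ 0 := hv0
    obtain ⟨h1, h2, h3⟩ := hgoodv v hv hv0'
    exact div_ne_zero (mul_ne_zero (mul_ne_zero (mul_ne_zero Complex.I_ne_zero hv0') h3) h2)
      (mul_ne_zero (mul_ne_zero hmC (pow_ne_zero m hv0')) (D.good _ h1).1)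
  have hl : ∀ t ∈ Ioo (0 : ℝ) t1, HasDerivAt (fun t => L t / m)
      (u * R (Complex.exp (L t / m)) / Complex.exp (L t / m)) t := by
    intro t ht
    have h1 := (hLd t ht).div_const (m : ℂ)
    have hv0 : Complex.exp (L t / m) ≠ 0 := Complex.exp_ne_zero _
    have ha := (D.good _ (hρb _ (hxne t ht) (hxlt t ht)).1).1
    have hy1 : y (s + t * u) = V (Complex.exp (L t / m)) / a.eval (x t) := by
      rw [← hVw t ht, hw]
      field_simp
    have hxn := hxn0 t ht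
    have hE1 : E (s + t * u) = x t := rfl
    have e2 : Complex.I * y (s + t * u) * E (s + t * u) * u / (x t - x0) / m =
        u * R (Complex.exp (L t / m)) / Complex.exp (L t / m) := by
      simp only [hR]
      rw [hxv t ht, hvm t ht, hy1, hE1]
      field_simp
    rw [← e2]
    exact h1
  have hlim0 : Tendsto (fun t => Complex.exp (L t / m)) (𝓝[>] (0 : ℝ)) (𝓝 0) := by
    rw [Metric.tendsto_nhds]
    intro ε hε
    have h1 : Tendsto (fun t : ℝ => x t) (𝓝[>] (0 : ℝ)) (𝓝 x0) := hlim.comp (path_tendsto hu hui)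
    filter_upwards [Metric.tendsto_nhds.1 h1 (ε ^ m) (by positivity), Ioo_mem_nhdsGT ht1] with t h2 h3
    rw [dist_zero_right]
    refine lt_of_pow_lt_pow_left₀ m hε.le ?_
    rw [← norm_pow, hvm t h3, ← dist_eq_norm]
    exact h2
  obtain ⟨j, ψ, hj, hψan, hψ0, hψd, hψe⟩ := loc hRm hRne hu hui ht1 hl hlim0
  -- the two Puiseux functions
  set e1 : ℂ → ℂ := fun ξ => x0 + ψ ξ ^ m with he1
  set Y1 : ℂ → ℂ := fun ξ => V (ψ ξ) / a.eval (x0 + ψ ξ ^ m) with hY1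
  have hVan' : AnalyticAt ℂ V (ψ 0) := by rw [hψ0]; exact hVan
  have he1an : AnalyticAt ℂ e1 0 := analyticAt_const.add (hψan.pow m)
  have hY1m : MeromorphicAt Y1 0 := by
    refine MeromorphicAt.div (AnalyticAt.comp hVan' hψan).meromorphicAt ?_
    have h1 : Differentiable ℂ (fun v : ℂ => a.eval (x0 + v ^ m)) := by fun_prop
    exact (AnalyticAt.comp (h1.analyticAt (ψ 0)) hψan).meromorphicAt
  have hψne : ∀ᶠ ξ in 𝓝[≠] (0 : ℂ), ψ ξ ≠ 0 :=
    hψan.differentiableAt.hasDerivAt.eventually_ne hψd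
  have hψball : ∀ᶠ ξ in 𝓝 (0 : ℂ), ψ ξ ∈ ball (0 : ℂ) r := by
    refine hψan.continuousAt.eventually_mem ?_
    rw [hψ0]
    exact ball_mem_nhds 0 hr
  have hgood : ∀ᶠ ξ in 𝓝[≠] (0 : ℂ), e1 ξ ≠ 0 ∧ Y1 ξ ≠ 0 := by
    filter_upwards [hψne, mem_nhdsWithin_of_mem_nhds hψball] with ξ h1 h2
    obtain ⟨h3, h4, h5⟩ := hgoodv _ h2 h1
    exact ⟨h4, div_ne_zero h5 (D.good _ h3).1⟩
  obtain ⟨g, gan, g0, hg⟩ := (meromorphicOrderAt_ne_top_iff hY1m).1
    ((meromorphicOrderAt_ne_top_iff_eventually_ne_zero hY1m).2 (hgood.mono fun _ h => h.2))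
  obtain ⟨e, ean, e0, he⟩ := (meromorphicOrderAt_ne_top_iff he1an.meromorphicAt).1
    ((meromorphicOrderAt_ne_top_iff_eventually_ne_zero he1an.meromorphicAt).2
      (hgood.mono fun _ h => h.1))
  set k := (meromorphicOrderAt Y1 0).untop₀ with hk
  set k' := (meromorphicOrderAt e1 0).untop₀ with hk'
  have hall : ∀ᶠ ξ in 𝓝 (0 : ℂ), AnalyticAt ℂ ψ ξ ∧ ψ ξ ∈ ball (0 : ℂ) r ∧ AnalyticAt ℂ g ξ ∧
      AnalyticAt ℂ e ξ ∧ g ξ ≠ 0 ∧ e ξ ≠ 0 ∧
      (ξ ≠ 0 → ψ ξ ≠ 0 ∧ Y1 ξ = ξ ^ k * g ξ ∧ e1 ξ = ξ ^ k' * e ξ) := by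
    filter_upwards [hψan.eventually_analyticAt, hψball, gan.eventually_analyticAt,
      ean.eventually_analyticAt, gan.continuousAt.eventually_ne g0,
      ean.continuousAt.eventually_ne e0, eventually_nhdsWithin_iff.1 hψne,
      eventually_nhdsWithin_iff.1 hg, eventually_nhdsWithin_iff.1 he] with ξ h1 h2 h3 h4 h5 h6 h7 h8 h9
    refine ⟨h1, h2, h3, h4, h5, h6, fun h => ⟨h7 h, ?_, ?_⟩⟩
    · have h10 : Y1 ξ = (ξ - 0) ^ k • g ξ := h8 h
      rwa [sub_zero, smul_eq_mul] at h10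
    · have h10 : e1 ξ = (ξ - 0) ^ k' • e ξ := h9 h
      rwa [sub_zero, smul_eq_mul] at h10
  obtain ⟨r4', hr4', hall'⟩ := Metric.eventually_nhds_iff_ball.1 hall
  set r4 := min r4' (min t1 1) with hr4
  have hr4p : 0 < r4 := lt_min hr4' (lt_min ht1 one_pos)
  have hall4 : ∀ ξ ∈ ball (0 : ℂ) r4, _ := fun ξ hξ =>
    hall' ξ (ball_subset_ball (min_le_left _ _) hξ)
  have hr4t : r4 ^ j ≤ t1 := by
    have h1 : r4 ≤ 1 := (min_le_right _ _).trans (min_le_right _ _)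
    calc r4 ^ j ≤ r4 ^ 1 := pow_le_pow_of_le_one hr4p.le h1 hj
      _ = r4 := pow_one _
      _ ≤ t1 := (min_le_right _ _).trans (min_le_left _ _)
  have hr4j : 0 < r4 ^ j := by positivity
  have hsub : HD s (r4 ^ j) ⊆ HD s r₀ := HD_mono (hr4t.trans ht1r)
  -- identities
  have hψan2 : AnalyticOnNhd ℂ (fun z => ψ ((z - s) ^ ((j : ℂ)⁻¹))) (HD s (r4 ^ j)) := by
    intro z hz
    exact AnalyticAt.comp (g := ψ) (f := fun z => (z - s) ^ ((j : ℂ)⁻¹))
      (hall4 _ (cpow_small hj hr4p hz).1).1 (cpow_an hz.2)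
  have hid1 : ∀ z ∈ HD s (r4 ^ j), E z = x0 + ψ ((z - s) ^ ((j : ℂ)⁻¹)) ^ m := by
    refine ray_id hr4j hu hui ((D.hE.mono hsub).analyticOnNhd (isOpen_HD _ _))
      (fun z hz => analyticAt_const.add ((hψan2 z hz).pow m)) ?_
    filter_upwards [hψe, Ioo_mem_nhdsGT ht1] with t h1 h2
    rw [add_sub_cancel_left, ← h1, hxv t h2]
  have hid2 : ∀ z ∈ HD s (r4 ^ j), a.eval (E z) * y z = V (ψ ((z - s) ^ ((j : ℂ)⁻¹))) := by
    have h0 : DifferentiableOn ℂ (fun z => a.eval (E z) * y z) (HD s (r4 ^ j)) :=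
      (a.differentiable.comp_differentiableOn (D.hE.mono hsub)).mul (D.hy.mono hsub)
    refine ray_id hr4j hu hui (h0.analyticOnNhd (isOpen_HD _ _)) (fun z hz => ?_) ?_
    · have h1 := (hall4 _ (cpow_small hj hr4p hz).1).2.1
      exact AnalyticAt.comp (g := V) (f := fun z => ψ ((z - s) ^ ((j : ℂ)⁻¹)))
        (hVd.analyticAt (isOpen_ball.mem_nhds h1)) (hψan2 z hz)
    · filter_upwards [hψe, Ioo_mem_nhdsGT ht1] with t h1 h2
      rw [add_sub_cancel_left, ← h1]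
      exact hVw t h2
  refine ⟨j, k, k', r4, g, e, hj, hr4p, hr4t.trans ht1r, ⟨?_, ?_, ?_⟩, ?_, ?_, ?_⟩
  · exact fun ξ hξ => (hall4 ξ hξ).2.2.1.differentiableAt.differentiableWithinAt
  · exact fun ξ hξ => (hall4 ξ hξ).2.2.2.2.1
  · intro z hz
    obtain ⟨h1, h2⟩ := cpow_small hj hr4p hz
    have h3 := hall4 _ h1
    obtain ⟨h4, h5, h6⟩ := h3.2.2.2.2.2.2 h2
    rw [← h5, hY1]
    simp only
    rw [← hid2 z hz, ← hid1 z hz]
    have h7 := (hgoodv _ h3.2.1 h4).1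
    rw [← hid1 z hz] at h7
    have h8 := (D.good _ h7).1
    field_simp
  · exact fun ξ hξ => (hall4 ξ hξ).2.2.2.1.differentiableAt.differentiableWithinAt
  · exact fun ξ hξ => (hall4 ξ hξ).2.2.2.2.2.1
  · intro z hz
    obtain ⟨h1, h2⟩ := cpow_small hj hr4p hz
    have h3 := hall4 _ h1
    obtain ⟨h4, h5, h6⟩ := h3.2.2.2.2.2.2 h2
    rw [← h6, hid1 z hz]

end

end Crest.Agent.R102.Pain416
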