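import Mathlib
import Crest.Agent.R102.PainF_416
import Crest.Agent.R102.T7Max_416

/-!
Row 102, part (C), T5 input for algebraic curves: **Painlevé's theorem** for the autonomous
algebraic equation `E' = i y E`, `Q(E, y) = 0`: at every boundary point `s` (approached from below)
`y` and `E` are Puiseux functions of `z - s`.
-/

set_option autoImplicit false

namespace Crest.Agent.R102.Pain416

open Polynomial Set Filter Topology Metric

noncomputable section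

lemma ev_swap (Q : Polynomial (Polynomial ℂ)) (hQ : Q ≠ 0) :
    ∃ Q1 : Polynomial (Polynomial ℂ), Q1 ≠ 0 ∧ ∃ N : ℕ, ∀ x y : ℂ, x ≠ 0 →
      ev Q1 (x⁻¹, -y) * x ^ N = ev Q (x, y) := by
  classical
  set N := (Finset.range (Q.natDegree + 1)).sup (fun i => (Q.coeff i).natDegree) with hN
  set Q1 : Polynomial (Polynomial ℂ) :=
    ∑ i ∈ Finset.range (Q.natDegree + 1), C (reflect N (Q.coeff i)) * (-X) ^ i with hQ1
  have key : ∀ x y : ℂ, x ≠ 0 → ev Q1 (x⁻¹, -y) * x ^ N = ev Q (x, y) := by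
    intro x y hx
    have e1 : ev Q1 (x⁻¹, -y) =
        ∑ i ∈ Finset.range (Q.natDegree + 1), (reflect N (Q.coeff i)).eval x⁻¹ * y ^ i := by
      rw [hQ1]
      unfold ev
      rw [evalEval_finsetSum]
      refine Finset.sum_congr rfl fun i _ => ?_
      rw [evalEval_mul, evalEval_pow, evalEval_neg, evalEval_X, evalEval_C, neg_neg]
    rw [e1, ev_eq, Finset.sum_mul]
    refine Finset.sum_congr rfl fun i hi => ?_
    have hdeg : (Q.coeff i).natDegree ≤ N :=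
      Finset.le_sup (f := fun i => (Q.coeff i).natDegree) hi
    let _ : Invertible x := invertibleOfNonzero hx
    have h1 := eval₂_reflect_mul_pow (RingHom.id ℂ) x N (Q.coeff i) hdeg
    rw [invOf_eq_inv] at h1
    simp only [eval₂_id] at h1
    rw [← h1]
    ring
  refine ⟨Q1, ?_, N, key⟩
  intro h0
  apply hQ
  have h1 : ∀ x : ℂ, x ≠ 0 → Q.map (evalRingHom x) = 0 := by
    intro x hx
    refine Polynomial.funext fun y => ?_
    rw [← ev_map, ← key x y hx, h0]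
    simp [ev]
  ext1 i
  rw [coeff_zero]
  have h2 : X * Q.coeff i = 0 := by
    refine Polynomial.funext fun x => ?_
    rw [eval_mul, eval_X, eval_zero]
    by_cases hx : x = 0
    · rw [hx, zero_mul]
    · have h3 := congrArg (fun p => coeff p i) (h1 x hx)
      simp only [coeff_map, coeff_zero, coe_evalRingHom] at h3
      rw [h3, mul_zero]
  exact (mul_eq_zero.1 h2).resolve_left X_ne_zero

variable {s : ℂ} {r₀ : ℝ} {E y : ℂ → ℂ}

lemma exists_Dat (hr₀ : 0 < r₀) (hE : DifferentiableOn ℂ E (HD s r₀))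
    (hy : DifferentiableOn ℂ y (HD s r₀)) (hE0 : ∀ z ∈ HD s r₀, E z ≠ 0)
    (hode : ∀ z ∈ HD s r₀, deriv E z = Complex.I * y z * E z)
    {Q : Polynomial (Polynomial ℂ)} (hQ : Q ≠ 0) (hrel : ∀ z ∈ HD s r₀, ev Q (E z, y z) = 0)
    (hy0 : ∃ z ∈ HD s r₀, y z ≠ 0) :
    ∃ M a bad, Dat s r₀ E y M a bad := by
  have hconst : ¬ ∃ c, ∀ z ∈ HD s r₀, E z = c := by
    rintro ⟨c, hc⟩
    obtain ⟨z1, hz1, hy1⟩ := hy0
    have h1 : E =ᶠ[𝓝 z1] fun _ => c := by
      filter_upwards [(isOpen_HD s r₀).mem_nhds hz1] with z hz using hc z hz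
    have h2 : deriv E z1 = 0 := by rw [h1.deriv_eq]; simp
    rw [hode z1 hz1] at h2
    exact mul_ne_zero (mul_ne_zero Complex.I_ne_zero hy1) (hE0 z1 hz1) h2
  obtain ⟨z1, hz1, hy1⟩ := hy0
  obtain ⟨M, a, bad, h1, h2, h3, h4, h5⟩ := good_poly (isOpen_HD s r₀)
    (convex_HD s r₀).isPreconnected ⟨z1, hz1⟩ hE hy hQ hrel hconst ⟨z1, hz1, hy1⟩
  exact ⟨M, a, bad, ⟨hr₀, hE, hy, hE0, hode, h1, h2, h3, h4, h5, ⟨z1, hz1, hy1⟩⟩⟩

/-- **Painlevé, local form.** -/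
theorem pain_local (hr₀ : 0 < r₀) (hE : DifferentiableOn ℂ E (HD s r₀))
    (hy : DifferentiableOn ℂ y (HD s r₀)) (hE0 : ∀ z ∈ HD s r₀, E z ≠ 0)
    (hode : ∀ z ∈ HD s r₀, deriv E z = Complex.I * y z * E z)
    {Q : Polynomial (Polynomial ℂ)} (hQ : Q ≠ 0) (hrel : ∀ z ∈ HD s r₀, ev Q (E z, y z) = 0)
    (hy0 : ∃ z ∈ HD s r₀, y z ≠ 0) :
    ∃ (j : ℕ) (k k' : ℤ) (r : ℝ) (g e : ℂ → ℂ), 0 < j ∧ 0 < r ∧ r ^ j ≤ r₀ ∧
      Pui s j k r g y ∧ Pui s j k' r e E := by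
  obtain ⟨M, a, bad, D⟩ := exists_Dat hr₀ hE hy hE0 hode hQ hrel hy0
  rcases D.limit with ⟨x0, hx0⟩ | hinf
  · exact D.puiseux_fin hx0
  -- the infinite case
  obtain ⟨Q1, hQ1, N, hN⟩ := ev_swap Q hQ
  have hE1 : DifferentiableOn ℂ (fun z => (E z)⁻¹) (HD s r₀) := hE.inv hE0
  have hode1 : ∀ z ∈ HD s r₀, deriv (fun z => (E z)⁻¹) z = Complex.I * (-y z) * (E z)⁻¹ := by
    intro z hz
    have h1 : HasDerivAt E (deriv E z) z :=
      ((hE z hz).differentiableAt ((isOpen_HD s r₀).mem_nhds hz)).hasDerivAt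
    rw [hode z hz] at h1
    have h2 := h1.inv (hE0 z hz)
    have h3 : HasDerivAt (fun z => (E z)⁻¹) (-(Complex.I * y z * E z) / E z ^ 2) z := h2
    rw [h3.deriv]
    have := hE0 z hz
    field_simp
  have hrel1 : ∀ z ∈ HD s r₀, ev Q1 ((E z)⁻¹, -y z) = 0 := by
    intro z hz
    have h1 := hN (E z) (y z) (hE0 z hz)
    rw [hrel z hz] at h1
    exact (mul_eq_zero.1 h1).resolve_right (pow_ne_zero N (hE0 z hz))
  obtain ⟨z1, hz1, hy1⟩ := hy0
  obtain ⟨M', a', bad', D'⟩ := exists_Dat (E := fun z => (E z)⁻¹) (y := fun z => -y z) hr₀ hE1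
    hy.neg (fun z hz => inv_ne_zero (hE0 z hz)) hode1 hQ1 hrel1 ⟨z1, hz1, neg_ne_zero.2 hy1⟩
  have hlim : Tendsto (fun z => (E z)⁻¹) (bl s) (𝓝 0) := by
    rw [tendsto_zero_iff_norm_tendsto_zero]
    simp only [norm_inv]
    exact hinf.inv_tendsto_atTop
  obtain ⟨j, k, k', r, g, e, hj, hr, hrr, ⟨g1, g2, g3⟩, ⟨e1, e2, e3⟩⟩ := D'.puiseux_fin hlim
  refine ⟨j, k, -k', r, fun x => -g x, fun x => (e x)⁻¹, hj, hr, hrr,
    ⟨g1.neg, fun x hx => neg_ne_zero.2 (g2 x hx), fun z hz => ?_⟩,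
    ⟨e1.inv e2, fun x hx => inv_ne_zero (e2 x hx), fun z hz => ?_⟩⟩
  · have := g3 z hz
    simp only at this
    rw [mul_neg, ← this, neg_neg]
  · have := e3 z hz
    simp only at this
    rw [zpow_neg, ← mul_inv, ← this, inv_inv]

/-- `MvPolynomial (Fin 2)` to bivariate polynomials -/
lemma of_mv {Q : MvPolynomial (Fin 2) ℂ} (hQ : Q ≠ 0) :
    ∃ Q' : Polynomial (Polynomial ℂ), Q' ≠ 0 ∧ ∀ x y : ℂ, ev Q' (x, y) = MvPolynomial.eval ![x, y] Q := by
  let φ : MvPolynomial (Fin 2) ℂ →+* Polynomial (Polynomial ℂ) :=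
    MvPolynomial.eval₂Hom (C.comp C) ![C X, X]
  have h1 : ∀ x y : ℂ, ev (φ Q) (x, y) = MvPolynomial.eval ![x, y] Q := by
    intro x y
    have h2 : (evalEvalRingHom x y).comp φ = MvPolynomial.eval ![x, y] := by
      refine MvPolynomial.ringHom_ext ?_ ?_
      · intro c
        simp [φ]
      · intro i
        fin_cases i <;> simp [φ]
    exact congrArg (fun (ψ : MvPolynomial (Fin 2) ℂ →+* ℂ) => ψ Q) h2
  refine ⟨φ Q, ?_, h1⟩
  intro h0
  apply hQ
  refine MvPolynomial.funext fun v => ?_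
  have h2 : v = ![v 0, v 1] := by funext i; fin_cases i <;> rfl
  rw [h2, ← h1, h0]
  simp [ev]

/-- **Painlevé on the top line of the maximal strip.** -/
theorem pain {h0 : ℝ} (hh : 0 < h0) {y E : ℂ → ℂ} (hy : DifferentiableOn ℂ y (T7M.Sg h0))
    (hE : DifferentiableOn ℂ E (T7M.Sg h0)) (hE0 : ∀ z ∈ T7M.Sg h0, E z ≠ 0)
    (hode : ∀ z ∈ T7M.Sg h0, deriv E z = Complex.I * y z * E z)
    {Q : MvPolynomial (Fin 2) ℂ} (hQ : Q ≠ 0)
    (hrel : ∀ z ∈ T7M.Sg h0, MvPolynomial.eval ![E z, y z] Q = 0)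
    (hy0 : ∃ z ∈ T7M.Sg h0, y z ≠ 0) {s : ℂ} (hs : s.im = h0) :
    ∃ (j : ℕ) (k k' : ℤ) (r : ℝ) (g e : ℂ → ℂ), 0 < j ∧ 0 < r ∧ r ^ j ≤ h0 ∧
      Pui s j k r g y ∧ Pui s j k' r e E := by
  have hsub : HD s h0 ⊆ T7M.Sg h0 := by
    intro z hz
    have h1 := hz.1
    have h2 : z.im < s.im := hz.2
    rw [mem_ball, dist_eq_norm] at h1
    have h3 := (Complex.abs_im_le_norm (z - s)).trans_lt h1
    rw [Complex.sub_im, hs, abs_lt] at h3
    change |z.im| < h0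
    rw [abs_lt]
    constructor <;> linarith [h3.1, h3.2]
  obtain ⟨Q', hQ', hev⟩ := of_mv hQ
  refine pain_local hh (hE.mono hsub) (hy.mono hsub) (fun z hz => hE0 z (hsub hz))
    (fun z hz => hode z (hsub hz)) hQ' (fun z hz => by rw [hev]; exact hrel z (hsub hz)) ?_
  -- `y` does not vanish identically on the half disc
  by_contra hcon
  push Not at hcon
  obtain ⟨z1, hz1, hy1⟩ := hy0
  have hopen : IsOpen (T7M.Sg h0) := T7M.isOpen_Sg h0
  have hconn : IsPreconnected (T7M.Sg h0) := by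
    have : Convex ℝ (T7M.Sg h0) := by
      have e : T7M.Sg h0 = Complex.im ⁻¹' Ioo (-h0) h0 := by
        ext z
        simp [T7M.Sg, abs_lt]
      rw [e]
      exact (convex_Ioo _ _).is_linear_preimage ⟨Complex.add_im, fun r z => by simp⟩
    exact this.isPreconnected
  have hz2 : s + ((h0 / 2 : ℝ) : ℂ) * (-Complex.I) ∈ HD s h0 :=
    path_mem (by simp) (by simp) (by positivity) (by linarith)
  have h4 : y =ᶠ[𝓝 (s + ((h0 / 2 : ℝ) : ℂ) * (-Complex.I))] 0 := by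
    filter_upwards [(isOpen_HD s h0).mem_nhds hz2] with z hz using hcon z hz
  have h5 := (hy.analyticOnNhd hopen).eqOn_zero_of_preconnected_of_eventuallyEq_zero hconn
    (hsub hz2) h4 hz1
  exact hy1 h5

end

end Crest.Agent.R102.Pain416
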