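import Mathlib
import Crest.Agent.R102.SpineDefs_478
import Crest.Agent.R102.AlgS_151
import Crest.Agent.R102.AlgR_151
import Crest.Agent.R102.Pain_416

/-!
# Row 102: `Spine.Pui` (helper714)

Algebraic curves: `(e^{iθ}, H)` is a Puiseux germ at every point of the top line.
Assembled from `AlgS151.alg_datum` (relation `Q (E, θ') = 0` on the strip), `Pain416.pain`
(Painlevé: Puiseux form of `E`, `θ'`), `AlgR151.rat_fun` (`H` is rational in `E`, `θ'`).
-/

set_option autoImplicit false

open Set Filter Topology Metric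
open scoped ComplexConjugate

noncomputable section

namespace Crest.Agent.R102.Pui714

open Crest.Agent.R102.T5 Crest.Agent.R102.G576 Crest.Agent.R102.A929 Crest.Agent.R102.B821
open Crest.Agent.R102.C0 Crest.Agent.R102.C1 Crest.Agent.R102.Mer88

/-- the two uniformizers differ by a constant factor -/
lemma cpow_unif {w : ℂ} (hw : w.im < 0) (j : ℕ) :
    w ^ ((j : ℂ)⁻¹) = Complex.exp (-(Real.pi / 2 * Complex.I * (j : ℂ)⁻¹)) *
      (Complex.I * w) ^ (1 / (j : ℂ)) := by
  have hw0 : w ≠ 0 := by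
    rintro rfl
    simp at hw
  have harg : w.arg < 0 := Complex.arg_neg_iff.2 hw
  have hlog : Complex.log (Complex.I * w) = Complex.log Complex.I + Complex.log w := by
    refine (Complex.log_mul_eq_add_log_iff Complex.I_ne_zero hw0).2 ?_
    rw [Complex.arg_I]
    have h1 := Complex.neg_pi_lt_arg w
    constructor <;> linarith [Real.pi_pos]
  rw [Complex.cpow_def_of_ne_zero hw0, Complex.cpow_def_of_ne_zero
    (mul_ne_zero Complex.I_ne_zero hw0), hlog, Complex.log_I, ← Complex.exp_add, one_div]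
  congr 1
  ring

/-- change of uniformizer in a Puiseux form -/
lemma unif {s : ℂ} {j : ℕ} {k : ℤ} {r : ℝ} {g f : ℂ → ℂ} (hr : 0 < r)
    (h : Pain416.Pui s j k r g f) :
    ∃ F : ℂ → ℂ, MeromorphicAt F 0 ∧
      ∀ z ∈ Pain416.HD s (r ^ j), F ((Complex.I * (z - s)) ^ (1 / (j : ℂ))) = f z := by
  obtain ⟨h1, -, h3⟩ := h
  set c : ℂ := Complex.exp (-(Real.pi / 2 * Complex.I * (j : ℂ)⁻¹)) with hc
  refine ⟨fun u => (c * u) ^ k * g (c * u), ?_, ?_⟩
  · have ha : AnalyticAt ℂ g (c * 0) := by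
      rw [mul_zero]
      exact h1.analyticAt (ball_mem_nhds 0 hr)
    have hl : AnalyticAt ℂ (fun u : ℂ => c * u) 0 := by fun_prop
    have hg : AnalyticAt ℂ (fun u : ℂ => g (c * u)) 0 := ha.comp hl
    exact (hl.meromorphicAt.zpow k).mul hg.meromorphicAt
  · intro z hz
    have him : (z - s).im < 0 := by
      rw [Complex.sub_im]
      exact sub_neg.2 hz.2
    rw [h3 z hz, cpow_unif him]

/-- meromorphy of polynomials in two meromorphic functions -/
lemma mero_eval {f g : ℂ → ℂ} {z₀ : ℂ} (hf : MeromorphicAt f z₀) (hg : MeromorphicAt g z₀)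
    (Q : MvPolynomial (Fin 2) ℂ) :
    MeromorphicAt (fun z => MvPolynomial.eval ![f z, g z] Q) z₀ := by
  induction Q using MvPolynomial.induction_on with
  | C a =>
    simp only [MvPolynomial.eval_C]
    exact MeromorphicAt.const a z₀
  | add p q hp hq =>
    simp only [map_add]
    exact hp.add hq
  | mul_X p i hp =>
    fin_cases i
    · simp only [map_mul, MvPolynomial.eval_X]
      exact hp.mul hf
    · simp only [map_mul, MvPolynomial.eval_X]
      exact hp.mul hg

/-- exchange of the two variables of a relation -/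
lemma swap_rel {P : MvPolynomial (Fin 2) ℂ} (hP : P ≠ 0) :
    ∃ P' : MvPolynomial (Fin 2) ℂ, P' ≠ 0 ∧ ∀ a b : ℂ,
      MvPolynomial.eval ![a, b] P' = MvPolynomial.eval ![b, a] P := by
  refine ⟨MvPolynomial.rename (Equiv.swap (0 : Fin 2) 1) P, ?_, ?_⟩
  · intro h
    exact hP ((MvPolynomial.rename_injective _ (Equiv.swap (0 : Fin 2) 1).injective)
      (by rw [h, map_zero]))
  · intro a b
    rw [MvPolynomial.eval_rename]
    congr 2
    funext i
    fin_cases i <;> simp

lemma isPreconnected_Str (h : ℝ) : IsPreconnected (Str h) := by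
  have : Str h = Complex.im ⁻¹' (Set.Ioo (-h) h) := by
    ext z
    simp [Str, abs_lt]
  rw [this]
  exact ((convex_Ioo _ _).is_linear_preimage
    ⟨Complex.add_im, fun r z => by simp⟩).isPreconnected

/-- **`Spine.Pui`** -/
theorem pui : Spine.Pui := by
  intro q η ρ r B b φ p m₀ θ H h0 hD hA s hs
  obtain ⟨P, hP, hPrel⟩ := hA
  have D := hD.fam.dat
  have X := hD.ext
  have hη : 0 < η := D.η_pos
  have hh : 0 < h0 := hη.trans_le hD.le
  have hU : IsOpen (Str h0) := T7C151.isOpen_Str h0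
  have hc : IsPreconnected (Str h0) := isPreconnected_Str h0
  have h₀ : (0 : ℂ) ∈ Str h0 := T7C151.zero_mem_Str hh
  have hS : ∀ᶠ z in 𝓝 (0 : ℂ), z ∈ Str η :=
    (T7C151.isOpen_Str η).mem_nhds (T7C151.zero_mem_Str hη)
  -- the functions `E`, `y`
  set E : ℂ → ℂ := fun z => Complex.exp (Complex.I * θ z) with hEdef
  set y : ℂ → ℂ := deriv θ with hydef
  have hθ' : ∀ z ∈ Str h0, HasDerivAt θ (y z) z := fun z hz =>
    ((X.θ_diff z hz).differentiableAt (hU.mem_nhds hz)).hasDerivAt
  have hE' : ∀ z ∈ Str h0, HasDerivAt E (Complex.I * y z * E z) z := fun z hz => by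
    have h1 := ((hθ' z hz).const_mul Complex.I).cexp
    rw [mul_comm] at h1
    exact h1
  have hE : DifferentiableOn ℂ E (Str h0) := fun z hz =>
    (hE' z hz).differentiableAt.differentiableWithinAt
  have hy : DifferentiableOn ℂ y (Str h0) := X.θ_diff.deriv hU
  have hE0 : ∀ z ∈ Str h0, E z ≠ 0 := fun z _ => Complex.exp_ne_zero _
  have hode : ∀ z ∈ Str h0, deriv E z = Complex.I * y z * E z := fun z hz => (hE' z hz).deriv
  -- near `0`
  have hθq : ∀ᶠ z in 𝓝 (0 : ℂ), θ z = Tc q z := hS.mono fun z hz => X.θ_eq z hz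
  have hEq : ∀ᶠ z in 𝓝 (0 : ℂ), E z = Complex.exp (Complex.I * Tc q z) :=
    hθq.mono fun z hz => by simp only [hEdef, hz]
  have hyq : ∀ᶠ z in 𝓝 (0 : ℂ), y z = Complex.exp (q z) := by
    filter_upwards [hθq.eventually_nhds, hS] with z hz hzS
    have h1 : θ =ᶠ[𝓝 z] Tc q := hz
    rw [hydef, h1.deriv_eq]
    exact (D.hasDerivAt_Tc hzS).deriv
  have hHq : ∀ᶠ z in 𝓝 (0 : ℂ), H z = Hc q z := hS.mono fun z hz => X.H_eq z hz
  -- the relation
  obtain ⟨P', hP', hPP⟩ := swap_rel hP
  have hrel' : ∀ᶠ z in 𝓝 (0 : ℂ), MvPolynomial.eval ![Zs q 1 z, Zs q (-1) z] P' = 0 := by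
    filter_upwards [hPrel] with z hz
    rw [hPP]
    exact hz
  obtain ⟨Q, hQ, hQrel⟩ := AlgS151.alg_datum D hU hc h₀ hE hy hEq hyq hP' hrel'
  have hy00 : y 0 ≠ 0 := by
    rw [hyq.self_of_nhds]
    exact Complex.exp_ne_zero _
  -- Painlevé
  obtain ⟨j, k, k', r', g, e, hj, hr', hrj, hPy, hPE⟩ := Pain416.pain hh hy hE hE0 hode hQ hQrel
    ⟨0, h₀, hy00⟩ hs
  obtain ⟨Y, hYm, hY⟩ := unif hr' hPy
  obtain ⟨G, hGm, hG⟩ := unif hr' hPE
  -- `H` is rational in `E`, `y`
  have han : ∀ s : ℂ, MeromorphicAt (Zs q s) 0 := fun s =>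
    ((D.Zs_diff s).analyticAt
      ((T7C151.isOpen_Str η).mem_nhds (T7C151.zero_mem_Str hη))).meromorphicAt
  have hya : AnalyticAt ℂ y 0 := hy.analyticAt (hU.mem_nhds h₀)
  have hEa : AnalyticAt ℂ E 0 := hE.analyticAt (hU.mem_nhds h₀)
  obtain ⟨A, C, hC, hAC⟩ := AlgR151.rat_fun (z₀ := 0) (han 1) (han (-1)) hEa.meromorphicAt
    hya.meromorphicAt
    (Filter.Eventually.frequently (Filter.Eventually.of_forall fun z => Complex.exp_ne_zero _))
    (Filter.Eventually.frequently
      ((hya.continuousAt.eventually_ne hy00).filter_mono nhdsWithin_le_nhds))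
    (by
      refine Filter.Eventually.filter_mono nhdsWithin_le_nhds ?_
      filter_upwards [hEq, hyq, hS] with z h1 h2 h3
      rw [(D.hasDerivAt_Zs 1 h3).deriv, h1, h2, C0.vel, ← Complex.exp_nat_mul, ← Complex.exp_sub]
      congr 1
      push_cast
      ring)
    (by
      refine Filter.Eventually.filter_mono nhdsWithin_le_nhds ?_
      filter_upwards [hEq, hyq, hS] with z h1 h2 h3
      rw [(D.hasDerivAt_Zs (-1) h3).deriv, h1, h2, C0.vel, ← Complex.exp_nat_mul,
        ← Complex.exp_add, one_div, ← Complex.exp_neg]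
      congr 1
      push_cast
      ring)
    (by
      refine Filter.Eventually.filter_mono nhdsWithin_le_nhds ?_
      filter_upwards [hU.mem_nhds h₀] with z hz
      exact hode z hz)
    hP' (hrel'.filter_mono nhdsWithin_le_nhds)
  -- `C(E, y) H = A(E, y)` on the strip
  have hCH : EqOn (fun z => MvPolynomial.eval ![E z, y z] C * H z)
      (fun z => MvPolynomial.eval ![E z, y z] A) (Str h0) := by
    refine AnalyticOnNhd.eqOn_of_preconnected_of_frequently_eq
      (((AlgS151.eval_diffOn hE hy C).mul X.H_diff).analyticOnNhd hU)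
      ((AlgS151.eval_diffOn hE hy A).analyticOnNhd hU) hc h₀ ?_
    refine Filter.Eventually.frequently ?_
    filter_upwards [hAC, hθq.filter_mono nhdsWithin_le_nhds,
      hHq.filter_mono nhdsWithin_le_nhds] with z h1 h2 h3
    rw [← h1, h3, Hc]
    simp only [hEdef, h2, Complex.exp_neg]
  refine ⟨j, hj, G, fun u => MvPolynomial.eval ![G u, Y u] A / MvPolynomial.eval ![G u, Y u] C,
    hGm, (mero_eval hGm hYm A).div (mero_eval hGm hYm C), ?_⟩
  -- the uniformizer tends to `0`
  have hj' : 0 < (1 / (j : ℂ)).re := by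
    rw [one_div, ← Complex.ofReal_natCast, ← Complex.ofReal_inv, Complex.ofReal_re]
    exact inv_pos.2 (by exact_mod_cast hj)
  set u : ℂ → ℂ := fun z => (Complex.I * (z - s)) ^ (1 / (j : ℂ)) with hu
  have hu0 : Tendsto u (𝓝 s) (𝓝 0) := by
    have h1 : ContinuousAt (fun x : ℂ => x ^ (1 / (j : ℂ))) 0 :=
      Complex.continuousAt_cpow_const_of_re_pos (Or.inl (by simp)) hj'
    have h2 : Tendsto (fun z : ℂ => Complex.I * (z - s)) (𝓝 s) (𝓝 0) := by
      have : ContinuousAt (fun z : ℂ => Complex.I * (z - s)) s := by fun_prop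
      simpa using this.tendsto
    have h3 : (0 : ℂ) ^ (1 / (j : ℂ)) = 0 := by
      rw [Complex.zero_cpow]
      intro h
      rw [h] at hj'
      simp at hj'
    have h4 := h1.tendsto.comp h2
    rw [h3] at h4
    exact h4
  have hune : ∀ z, z ≠ s → u z ≠ 0 := by
    intro z hz h
    rw [hu] at h
    simp only at h
    rw [Complex.cpow_eq_zero_iff] at h
    exact (mul_ne_zero Complex.I_ne_zero (sub_ne_zero.2 hz)) h.1
  have hball : ∀ᶠ z in 𝓝 s, z ∈ ball s (r' ^ j) := ball_mem_nhds s (pow_pos hr' j)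
  have hmem : ∀ z, z ∈ ball s (r' ^ j) → |z.im| < h0 → z ∈ Pain416.HD s (r' ^ j) := by
    intro z h1 h2
    refine ⟨h1, ?_⟩
    change z.im < s.im
    rw [hs]
    exact (abs_lt.1 h2).2
  -- `C(G, Y)` does not vanish near `0`
  have hCne : ∀ᶠ w in 𝓝[≠] (0 : ℂ), MvPolynomial.eval ![G w, Y w] C ≠ 0 := by
    rcases (mero_eval hGm hYm C).eventually_eq_zero_or_eventually_ne_zero with h | h
    · exfalso
      -- then `C(E, y) = 0` near `s` in the strip
      have h1 : ∀ᶠ z in 𝓝 s, z ≠ s → MvPolynomial.eval ![G (u z), Y (u z)] C = 0 := by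
        have h2 : ∀ᶠ w in 𝓝 (0 : ℂ), w ≠ 0 → MvPolynomial.eval ![G w, Y w] C = 0 :=
          eventually_nhdsWithin_iff.1 h
        filter_upwards [hu0.eventually h2] with z hz hzs
        exact hz (hune z hzs)
      obtain ⟨ε, hε, hεb⟩ := Metric.eventually_nhds_iff_ball.1 (h1.and hball)
      -- a point of the strip near `s`
      set δ : ℝ := min (ε / 2) (h0 / 2) with hδ
      have hδ0 : 0 < δ := lt_min (by linarith) (by linarith)
      set z1 : ℂ := s - δ * Complex.I with hz1
      have him : z1.im = h0 - δ := by simp [hz1, hs]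
      have hz1S : z1 ∈ Str h0 := by
        change |z1.im| < h0
        rw [him, abs_lt]
        have : δ ≤ h0 / 2 := min_le_right _ _
        constructor <;> linarith
      have hz1b : z1 ∈ ball s ε := by
        rw [mem_ball, dist_eq_norm]
        have : z1 - s = -(δ * Complex.I) := by rw [hz1]; ring
        rw [this, norm_neg, norm_mul, Complex.norm_I, mul_one, Complex.norm_real,
          Real.norm_of_nonneg hδ0.le]
        have : δ ≤ ε / 2 := min_le_left _ _
        linarith
      have h5 : ∀ᶠ z in 𝓝 z1, MvPolynomial.eval ![E z, y z] C = 0 := by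
        filter_upwards [isOpen_ball.mem_nhds hz1b, hU.mem_nhds hz1S] with z h6 h7
        have h8 := hmem z (hεb z h6).2 h7
        have h9 : z ≠ s := by
          rintro rfl
          exact lt_irrefl _ (show z.im < z.im from h8.2)
        have h10 := (hεb z h6).1 h9
        rw [← hG z h8, ← hY z h8]
        exact h10
      have h6 := AlgS151.rel_on hU hc hz1S hE hy (h5.filter_mono nhdsWithin_le_nhds)
      refine hC ?_
      refine Filter.Eventually.filter_mono nhdsWithin_le_nhds ?_
      filter_upwards [hU.mem_nhds h₀] with z hz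
      exact not_not.2 (h6 z hz)
    · exact h
  have h2 : ∀ᶠ w in 𝓝 (0 : ℂ), w ≠ 0 → MvPolynomial.eval ![G w, Y w] C ≠ 0 :=
    eventually_nhdsWithin_iff.1 hCne
  filter_upwards [hball, hu0.eventually h2] with z h3 h4 h5
  have h6 := hmem z h3 h5
  have h9 : z ≠ s := by
    rintro rfl
    exact lt_irrefl _ (show z.im < z.im from h6.2)
  have h7 := h4 (hune z h9)
  have h8 := hCH (show z ∈ Str h0 from h5)
  simp only at h8
  refine ⟨hG z h6, ?_⟩
  change MvPolynomial.eval ![G (u z), Y (u z)] A / MvPolynomial.eval ![G (u z), Y (u z)] C = H z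
  rw [div_eq_iff h7]
  have hGz : G (u z) = E z := hG z h6
  have hYz : Y (u z) = y z := hY z h6
  rw [hGz, hYz, ← h8]
  ring

end Crest.Agent.R102.Pui714

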