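import Crest.Agent.R102.PenD_926
import Crest.Agent.R102.RATDefs2_926

/-!
# Row 102, [H3], THEOREM (RAT), step 3: RUN + PENCIL + CT ⟹ contradiction (helper926)
-/

set_option autoImplicit false

open Set Filter Topology Metric TopologicalSpace

noncomputable section

namespace Crest.Agent.R102.RAT

open Crest.Agent.R102.H3 Crest.Agent.R102.Pen926

/-! ### the chain: restriction, chords -/

theorem chain_mono {g : ℂ → ℂ} {c₀ : ℂ} {P : ℕ} {ρ : ℝ} {β m k q q' : ℕ → ℂ × ℂ → ℂ}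
    (h : F7389.Chain g c₀ P ρ β m k q q') {N : ℕ} (hN : N ≤ P) {t : ℂ} {ρ₁ : ℝ} (h1 : 0 < ρ₁)
    (hsub : ball t ρ₁ ⊆ ball c₀ ρ) (hle : ρ₁ ≤ ρ) : F7389.Chain g t N ρ₁ β m k q q' := by
  have hU : ball t ρ₁ ×ˢ ball (0 : ℂ) ρ₁ ⊆ ball c₀ ρ ×ˢ ball (0 : ℂ) ρ :=
    prod_mono hsub (ball_subset_ball hle)
  exact
    { ρ_pos := h1
      an_β := fun i hi => (h.an_β i (hi.trans hN)).mono hU
      an_m := fun i hi => (h.an_m i (hi.trans hN)).mono hU
      an_k := fun i hi => (h.an_k i (hi.trans hN)).mono hU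
      an_q := fun i hi => (h.an_q i (hi.trans hN)).mono hU
      an_q' := fun i hi => (h.an_q' i (hi.trans_le hN)).mono hU
      β_zero := h.β_zero
      β_c := fun i hi c hc => h.β_c i (hi.trans hN) c (hsub hc)
      m_c := fun i hi c hc => h.m_c i (hi.trans hN) c (hsub hc)
      q_c := fun i hi c hc => h.q_c i (hi.trans hN) c (hsub hc)
      q'_c := fun i hi c hc => h.q'_c i (hi.trans_le hN) c (hsub hc)
      an_g := fun i hi p hp => h.an_g i (hi.trans hN) p (hU hp)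
      an_g' := fun p hp => h.an_g' p (hU hp)
      inc := fun i hi p hp => h.inc i (hi.trans hN) p (hU hp)
      inc' := fun i hi p hp => h.inc' i (hi.trans_le hN) p (hU hp)
      chord := fun p hp => h.chord p (hU hp)
      refl := fun i hi p hp => h.refl i (hi.trans_le hN) p (hU hp)
      m_ne := fun i hi p hp => h.m_ne i (hi.trans hN) p (hU hp)
      q_ne := fun i hi p hp => h.q_ne i (hi.trans hN) p (hU hp)
      q'_ne := fun i hi p hp => h.q'_ne i (hi.trans_le hN) p (hU hp)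
      q_eq := fun i hi p hp => h.q_eq i (hi.trans hN) p (hU hp)
      q'_eq := fun i hi p hp => h.q'_eq i (hi.trans_le hN) p (hU hp)
      even_m := fun p hp => h.even_m p (hU hp)
      even_k := fun p hp => h.even_k p (hU hp) }

theorem chord_of_chain {g : ℂ → ℂ} {c₀ : ℂ} {P : ℕ} {ρ : ℝ} {β m k q q' : ℕ → ℂ × ℂ → ℂ}
    (h : F7389.Chain g c₀ P ρ β m k q q') (hg2 : deriv (deriv g) c₀ ≠ 0) :
    Chord g c₀ ρ (m 0) (k 0) where
  ρ_pos := h.ρ_pos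
  g_an := by
    intro z hz
    have hz' : ‖z - c₀‖ < 2 * ρ := mem_ball_iff_norm.1 hz
    have n2 : ‖(2 : ℂ)‖ = 2 := by simp
    have h1 : (((z + c₀) / 2, (z - c₀) / 2) : ℂ × ℂ) ∈ ball c₀ ρ ×ˢ ball (0 : ℂ) ρ := by
      constructor
      · rw [mem_ball_iff_norm]
        have e : (z + c₀) / 2 - c₀ = (z - c₀) / 2 := by ring
        simp only
        rw [e, norm_div, n2]; linarith
      · rw [mem_ball_zero_iff]
        simp only
        rw [norm_div, n2]; linarith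
    have h2 := h.an_g 0 (Nat.zero_le _) _ h1
    rw [h.β_zero] at h2
    have e : (z + c₀) / 2 + (z - c₀) / 2 * 1 = z := by ring
    simp only at h2
    rwa [e] at h2
  g2 := hg2
  an_m := h.an_m 0 (Nat.zero_le _)
  an_k := h.an_k 0 (Nat.zero_le _)
  inc := by
    intro p hp
    have h2 := h.inc 0 (Nat.zero_le _) p hp
    rw [h.β_zero] at h2
    simpa using h2
  chord := h.chord
  m_c := h.m_c 0 (Nat.zero_le _)

/-! ### the relation -/

theorem an_obs {g : ℂ → ℂ} {c₀ : ℂ} {P : ℕ} {ρ : ℝ} {β m k q q' : ℕ → ℂ × ℂ → ℂ}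
    (h : F7389.Chain g c₀ P ρ β m k q q') {r : ℝ} (A : Subalgebra ℂ (Hol (bO c₀ r)))
    (hv : ∀ x ∈ ball c₀ ρ ×ˢ ball (0 : ℂ) ρ, ∀ j ≤ P, x.1 + x.2 * β j x ∈ ball c₀ r)
    {N : ℕ} (hN : N ≤ P) (o : Fin 2 ⊕ (Fin N × A)) :
    AnalyticOnNhd ℂ (fun x => obs A N β m k x o) (ball c₀ ρ ×ˢ ball (0 : ℂ) ρ) := by
  intro x hx
  rcases o with i | ⟨j, a⟩
  · fin_cases i
    · exact h.an_m 0 (Nat.zero_le _) x hx
    · exact h.an_k 0 (Nat.zero_le _) x hx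
  · have hj : (j : ℕ) ≤ P := j.2.le.trans hN
    have h1 : AnalyticAt ℂ (ext0 ((a : Hol (bO c₀ r)) : bO c₀ r → ℂ)) (x.1 + x.2 * β j x) :=
      Hol.an (a : Hol (bO c₀ r)) _ (hv x hx j hj)
    exact AnalyticAt.fun_comp (g := ext0 ((a : Hol (bO c₀ r)) : bO c₀ r → ℂ)) h1
      (analyticAt_fst.add (analyticAt_snd.mul (h.an_β j hj x hx)))

theorem an_eval {g : ℂ → ℂ} {c₀ : ℂ} {P : ℕ} {ρ : ℝ} {β m k q q' : ℕ → ℂ × ℂ → ℂ}
    (h : F7389.Chain g c₀ P ρ β m k q q') {r : ℝ} (A : Subalgebra ℂ (Hol (bO c₀ r)))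
    (hv : ∀ x ∈ ball c₀ ρ ×ˢ ball (0 : ℂ) ρ, ∀ j ≤ P, x.1 + x.2 * β j x ∈ ball c₀ r)
    {N : ℕ} (hN : N ≤ P) (F : MvPolynomial (Fin 2 ⊕ (Fin N × A)) ℂ) :
    AnalyticOnNhd ℂ (fun x => MvPolynomial.eval (obs A N β m k x) F)
      (ball c₀ ρ ×ˢ ball (0 : ℂ) ρ) := by
  intro x hx
  induction F using MvPolynomial.induction_on with
  | C a => simpa using analyticAt_const
  | add p q hp hq =>
    simp only [map_add]
    exact hp.add hq
  | mul_X p o hp =>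
    simp only [map_mul, MvPolynomial.eval_X]
    exact hp.mul (an_obs h A hv hN o x hx)

theorem an_eval₂ {g : ℂ → ℂ} {S : Set ℂ} (hg : AnalyticOnNhd ℂ g S)
    (F : MvPolynomial (Fin 2) ℂ) : AnalyticOnNhd ℂ (fun z => MvPolynomial.eval ![z, g z] F) S := by
  intro z hz
  induction F using MvPolynomial.induction_on with
  | C a => simpa using analyticAt_const
  | add p q hp hq =>
    simp only [map_add]
    exact hp.add hq
  | mul_X p o hp =>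
    simp only [map_mul, MvPolynomial.eval_X]
    refine hp.mul ?_
    fin_cases o
    · exact analyticAt_id
    · exact hg z hz

/-- **RUN + PENCIL + CT**: RAT-3 -/
theorem rat3_core (hCT : CTStmt) {g : ℂ → ℂ} {c₀ : ℂ} {r : ℝ} {A : Subalgebra ℂ (Hol (bO c₀ r))}
    {G : Hol (bO c₀ r)} (hFT : FT g c₀ r A G) {P : ℕ} {ρ : ℝ} {β m k q q' : ℕ → ℂ × ℂ → ℂ}
    (hC : F7389.Chain g c₀ P ρ β m k q q')
    (hv : ∀ x ∈ ball c₀ ρ ×ˢ ball (0 : ℂ) ρ, x.1 - x.2 ∈ ball c₀ r ∧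
      ∀ j ≤ P, x.1 + x.2 * β j x ∈ ball c₀ r)
    (hg2 : deriv (deriv g) c₀ ≠ 0)
    (hna : ¬ ∃ Q : MvPolynomial (Fin 2) ℂ, Q ≠ 0 ∧
      ∀ᶠ z in 𝓝 c₀, MvPolynomial.eval ![z, g z] Q = 0)
    (hrun : ∀ δ > 0, ∀ ρ', 0 < ρ' → ρ' < ρ → ∃ N, 0 < N ∧ N ≤ P ∧
      RunOut g c₀ A G N ρ β m k δ ρ') : False := by
  have hch := chord_of_chain hC hg2
  obtain ⟨δ, hδ, ρ', hρ', hδρ, hρ'ρ, hpen⟩ := pencil hch
  obtain ⟨N, hN, hNP, p, hp, hp0, y, r', ι, gh, hFar, u, hua, huy, hui, htr, hng, hnt, Q, hQ, i,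
    hQi⟩ := hrun δ hδ ρ' hρ' hρ'ρ
  have hv1 : ∀ x ∈ ball c₀ ρ ×ˢ ball (0 : ℂ) ρ, ∀ j ≤ P, x.1 + x.2 * β j x ∈ ball c₀ r :=
    fun x hx => (hv x hx).2
  set U : Set (ℂ × ℂ) := ball c₀ ρ ×ˢ ball (0 : ℂ) ρ with hU
  have hUo : IsOpen U := isOpen_ball.prod isOpen_ball
  have hUp : IsPreconnected U := (convex_ball c₀ ρ).isPreconnected.prod
    (convex_ball (0 : ℂ) ρ).isPreconnected
  have hpU : p ∈ U := Pen926.prod_mono (hδρ.trans hρ'ρ.le) hp
  -- the far mirror is analytic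
  have hghan : ∀ z ∈ ball y r', AnalyticAt ℂ gh z := by
    intro z hz
    have h1 := Hol.an (ι ⟨G, hFT.G_mem⟩) z hz
    refine h1.congr ?_
    exact eventually_ext0_eq (U := bO y r') (F := gh)
      (fun w => (hFar.G_eq hFT.G_mem w).symm) hz
  have hgha : AnalyticAt ℂ gh y := hghan y (mem_ball_self hFar.r'_pos)
  have hghy : gh y = m 0 p * y + k 0 p := by
    have := hui.self_of_nhds
    rwa [huy] at this
  -- the relation as an analytic function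
  set R : ℂ × (ℂ × ℂ) → ℂ := fun v => Q.eval₂ (MvPolynomial.eval (obs A N β m k v.2)) v.1 with hR
  have hRan : AnalyticOnNhd ℂ R (univ ×ˢ U) := by
    rintro ⟨v, x⟩ ⟨-, hx⟩
    have e : R = fun v : ℂ × (ℂ × ℂ) => ∑ i ∈ Finset.range (Q.natDegree + 1),
        MvPolynomial.eval (obs A N β m k v.2) (Q.coeff i) * v.1 ^ i := by
      funext v
      rw [hR]
      exact Polynomial.eval₂_eq_sum_range _ _
    rw [e]
    refine Finset.analyticAt_fun_sum _ fun i _ => ?_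
    refine AnalyticAt.mul ?_ (analyticAt_fst.pow i)
    exact AnalyticAt.fun_comp (g := fun x => MvPolynomial.eval (obs A N β m k x) (Q.coeff i))
      (an_eval hC A hv1 hNP (Q.coeff i) x hx) analyticAt_snd
  have hgood : Pen926.Good (m 0) (k 0) gh y R p := ⟨u, hua, huy, hui, hQ⟩
  obtain ⟨t, ht, hty, hYt, htt, u₁, hu₁a, hu₁y, hu₁i, hu₁R⟩ :=
    hpen p hp hp0 gh y hgha hghy htr hng hnt R hRan hgood
  -- the chain at `t`
  have htρ : ‖t - c₀‖ < ρ' := mem_ball_iff_norm.1 ht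
  set ρ₁ := ρ - ‖t - c₀‖ with hρ₁
  have hρ₁p : 0 < ρ₁ := by rw [hρ₁]; linarith
  have hρ₁le : ρ₁ ≤ ρ := by rw [hρ₁]; linarith [norm_nonneg (t - c₀)]
  have hsub : ball t ρ₁ ⊆ ball c₀ ρ := by
    intro z hz
    rw [mem_ball_iff_norm] at hz ⊢
    calc ‖z - c₀‖ = ‖(z - t) + (t - c₀)‖ := by ring_nf
      _ ≤ ‖z - t‖ + ‖t - c₀‖ := norm_add_le _ _
      _ < ρ := by linarith
  have hCt := chain_mono hC hNP hρ₁p hsub hρ₁le
  have hsubU : ball t ρ₁ ×ˢ ball (0 : ℂ) ρ₁ ⊆ U := Set.prod_mono hsub (ball_subset_ball hρ₁le)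
  have htU : ((t, 0) : ℂ × ℂ) ∈ U := hsubU ⟨mem_ball_self hρ₁p, mem_ball_self hρ₁p⟩
  have hRel : Rel A N β m k (t, 0) u₁ := by
    refine ⟨Q, hu₁R, i, fun hcon => hQi ?_⟩
    have h1 := (an_eval hC A hv1 hNP (Q.coeff i)).eqOn_zero_of_preconnected_of_eventuallyEq_zero
      hUp htU hcon
    filter_upwards [hUo.mem_nhds hpU] with x hx using h1 hx
  obtain ⟨F, hF0, hF⟩ := hCT g c₀ r A G hFT t N ρ₁ β m k q q' hN hCt
    (fun x hx => ⟨(hv x (hsubU hx)).1, fun j hj => (hv x (hsubU hx)).2 j (hj.trans hNP)⟩)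
    y r' ι gh hFar hty.symm hYt htt u₁ hu₁a hu₁y hu₁i hRel
  refine hna ⟨F, hF0, ?_⟩
  -- identity theorem
  have hFan : AnalyticOnNhd ℂ (fun z => MvPolynomial.eval ![z, g z] F) (ball c₀ (2 * ρ)) :=
    an_eval₂ hch.g_an F
  have h2 : t ∈ ball c₀ (2 * ρ) := by
    rw [mem_ball_iff_norm]; linarith
  have h3 := hFan.eqOn_zero_of_preconnected_of_eventuallyEq_zero
    (convex_ball c₀ (2 * ρ)).isPreconnected h2 hF
  filter_upwards [ball_mem_nhds c₀ (show (0 : ℝ) < 2 * ρ by linarith)] with z hz using h3 hz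

end Crest.Agent.R102.RAT
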