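import Crest.Agent.R102.RatDefs7_217
import Crest.Agent.R102.RatGlueA_798
import Crest.Agent.R102.Rat3_926

/-!
# Row 102, (RAT), finite type (helper926): transfer from the big polydisc to an open subset
-/

set_option autoImplicit false

open Set Filter Topology Metric TopologicalSpace

noncomputable section

namespace Crest.Agent.R102.RAT

open Crest.Agent.R102.H3 Crest.Agent.R102.Glue798 Crest.Agent.R102.Rat7217
  Crest.Agent.R102.MerF217 Crest.Agent.R102.DF389

theorem jcb_res {U W : Opens (ℂ × ℂ)} (hle : W ≤ U) (f h : Hol U) :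
    Rat7217.jcb (Hol.res hle f) (Hol.res hle h) = Hol.res hle (Rat7217.jcb f h) := by
  have e : ∀ (v : ℂ × ℂ) (f : Hol U), dV v (Hol.res hle f) = Hol.res hle (dV v f) := by
    intro v f
    have h1 := pdH_res hle v f
    exact h1
  simp only [Rat7217.jcb, e, map_sub, map_mul]

/-- transfer of dual derivations under restriction -/
theorem transferU {U W : Opens (ℂ × ℂ)} (hle : W ≤ U) (hU : IsPreconnected (U : Set (ℂ × ℂ)))
    [hne : Nonempty W] [IsDomain (Hol U)] {μ κ : Hol U}
    {D₁ D₂ : Derivation ℂ (FractionRing (Hol U)) (FractionRing (Hol U))} (h : Dual μ κ D₁ D₂)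
    {M : Type} [Field M] [Algebra ℂ M] [Algebra (Hol W) M] [IsScalarTower ℂ (Hol W) M]
    [IsFractionRing (Hol W) M] {D₁' D₂' : Derivation ℂ M M}
    (h' : Dual (Hol.res hle μ) (Hol.res hle κ) D₁' D₂') :
    ∃ φ : FractionRing (Hol U) →ₐ[ℂ] M,
      (∀ f : Hol U, φ (algebraMap (Hol U) (FractionRing (Hol U)) f) =
        algebraMap (Hol W) M (Hol.res hle f)) ∧
      (∀ x, D₁' (φ x) = φ (D₁ x)) ∧ ∀ x, D₂' (φ x) = φ (D₂ x) := by
  have hinj : Function.Injective ((IsScalarTower.toAlgHom ℂ (Hol W) M).comp (Hol.res hle)) :=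
    (IsFractionRing.injective (Hol W) M).comp (res_injective hle hU)
  let φ : FractionRing (Hol U) →ₐ[ℂ] M := IsFractionRing.liftAlgHom (K := FractionRing (Hol U))
    (g := (IsScalarTower.toAlgHom ℂ (Hol W) M).comp (Hol.res hle)) hinj
  have hφ : ∀ f : Hol U, φ (algebraMap (Hol U) (FractionRing (Hol U)) f) =
      algebraMap (Hol W) M (Hol.res hle f) := fun f => IsLocalization.lift_eq _ _
  refine ⟨φ, hφ, ?_, ?_⟩
  · refine fr_ext (A := Hol U) φ (D := fun x => D₁' (φ x)) (D' := fun x => φ (D₁ x)) (fun a b => ?_)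
      (fun a b => ?_) (fun f => ?_)
    · simp only [map_mul, Derivation.leibniz, smul_eq_mul]
    · simp only [Derivation.leibniz, map_add, smul_eq_mul, map_mul]
    · refine mul_left_cancel₀ h'.ne ?_
      simp only [hφ]
      rw [h'.d₁, jcb_res, jcb_res, ← hφ, ← hφ, ← h.d₁, map_mul]
  · refine fr_ext (A := Hol U) φ (D := fun x => D₂' (φ x)) (D' := fun x => φ (D₂ x)) (fun a b => ?_)
      (fun a b => ?_) (fun f => ?_)
    · simp only [map_mul, Derivation.leibniz, smul_eq_mul]
    · simp only [Derivation.leibniz, map_add, smul_eq_mul, map_mul]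
    · refine mul_left_cancel₀ h'.ne ?_
      simp only [hφ]
      rw [h'.d₂, jcb_res, jcb_res, ← hφ, ← hφ, ← h.d₂, map_mul]

end Crest.Agent.R102.RAT
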