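import Crest.Agent.R102.RunRel_58
import Crest.Agent.R102.RatFinA_926
import Crest.Agent.R102.RatGlueB_798

/-!
# Row 102, [H3], THEOREM (RAT), leaf R5 = RUN (helper58): existence of the second chain
-/

set_option autoImplicit false
set_option linter.unusedSectionVars false
set_option linter.unusedVariables false

open Set Filter Topology Metric TopologicalSpace

noncomputable section

namespace Crest.Agent.R102.RunE58

open Crest.Agent.R102 Crest.Agent.R102.F7389 Crest.Agent.R102.Run58 Crest.Agent.R102.RunD58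
  Crest.Agent.R102.RunAlg58 Crest.Agent.R102.RAT Crest.Agent.R102.Glue798 Crest.Agent.R102.H3
  Crest.Agent.R102.Rat7217

/-! ### Cramer -/

theorem pdH_lin {W : Opens (ℂ × ℂ)} (v : ℂ × ℂ) (f : Hol W) :
    pdH W v f = v.1 • pdH W (1, 0) f + v.2 • pdH W (0, 1) f := by
  ext x
  have e : v = v.1 • ((1, 0) : ℂ × ℂ) + v.2 • ((0, 1) : ℂ × ℂ) := by
    ext <;> simp
  have h1 : (pdH W v f : W → ℂ) x = v.1 • (pdH W (1, 0) f : W → ℂ) x +
      v.2 • (pdH W (0, 1) f : W → ℂ) x := by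
    rw [pdH_apply, pdH_apply, pdH_apply]
    conv_lhs => rw [e]
    rw [map_add, map_smul, map_smul]
  exact h1

section cramer

variable {W : Opens (ℂ × ℂ)} [IsDomain (Hol W)] {μ κ : Hol W}
  {D₁ D₂ : Derivation ℂ (FractionRing (Hol W)) (FractionRing (Hol W))}

theorem grad_of_dual (hD : Dual μ κ D₁ D₂) (f h c : Hol W)
    (h1 : D₁ (al W f) = al W c * D₁ (al W h)) (h2 : D₂ (al W f) = al W c * D₂ (al W h))
    (v : ℂ × ℂ) : pdH W v f = c * pdH W v h := by
  have e : ∀ (v : ℂ × ℂ) (f : Hol W), MerF217.dV v f = pdH W v f := fun v f => by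
    ext x; rw [pdH_apply]; rfl
  have e1 : Rat7217.jcb f κ = c * Rat7217.jcb h κ := by
    apply al_inj W
    have a1 := hD.d₁ f
    have a2 := hD.d₁ h
    rw [map_mul, ← a2]
    change _ = _ * (algebraMap _ _ _ * _)
    rw [mul_left_comm, ← h1]
    exact a1.symm
  have e2 : Rat7217.jcb μ f = c * Rat7217.jcb μ h := by
    apply al_inj W
    have a1 := hD.d₂ f
    have a2 := hD.d₂ h
    rw [map_mul, ← a2]
    change _ = _ * (algebraMap _ _ _ * _)
    rw [mul_left_comm, ← h2]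
    exact a1.symm
  have hJ : Rat7217.jcb μ κ ≠ 0 := by
    intro h0
    apply hD.ne
    rw [h0, map_zero]
  simp only [Rat7217.jcb, e] at e1 e2 hJ
  have hx : pdH W (1, 0) f = c * pdH W (1, 0) h := by
    refine mul_left_cancel₀ hJ ?_
    linear_combination (pdH W (1, 0) μ) * e1 + (pdH W (1, 0) κ) * e2
  have hy : pdH W (0, 1) f = c * pdH W (0, 1) h := by
    refine mul_left_cancel₀ hJ ?_
    linear_combination (pdH W (0, 1) μ) * e1 + (pdH W (0, 1) κ) * e2
  rw [pdH_lin v f, pdH_lin v h, hx, hy, mul_add, mul_smul_comm, mul_smul_comm]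

theorem D_ne_of_pd (hD : Dual μ κ D₁ D₂) {h : Hol W} {v : ℂ × ℂ} (hv : pdH W v h ≠ 0) :
    D₁ (al W h) ≠ 0 ∨ D₂ (al W h) ≠ 0 := by
  by_contra hcon
  push Not at hcon
  apply hv
  have := grad_of_dual hD h 0 0 (by rw [hcon.1, map_zero, zero_mul])
    (by rw [hcon.2, map_zero, zero_mul]) v
  rw [this, zero_mul]

theorem pd_of_D_ne (hD : Dual μ κ D₁ D₂) {h : Hol W}
    (hv : D₁ (al W h) ≠ 0 ∨ D₂ (al W h) ≠ 0) : ∃ v : ℂ × ℂ, pdH W v h ≠ 0 := by
  by_contra hcon
  push Not at hcon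
  have e : ∀ (v : ℂ × ℂ) (f : Hol W), MerF217.dV v f = pdH W v f := fun v f => by
    ext x; rw [pdH_apply]; rfl
  rcases hv with hv | hv
  · apply hv
    refine mul_left_cancel₀ hD.ne ?_
    have a1 := hD.d₁ h
    have a2 : Rat7217.jcb h κ = 0 := by
      simp only [Rat7217.jcb, e, hcon, zero_mul, sub_zero]
    rw [a2, map_zero] at a1
    rw [mul_zero]
    exact a1
  · apply hv
    refine mul_left_cancel₀ hD.ne ?_
    have a1 := hD.d₂ h
    have a2 : Rat7217.jcb μ h = 0 := by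
      simp only [Rat7217.jcb, e, hcon, mul_zero, sub_zero]
    rw [a2, map_zero] at a1
    rw [mul_zero]
    exact a1

end cramer

/-! ### lift of a morphism -/

theorem exists_lift {A : Type*} [CommRing A] [Algebra ℂ A] {W' : Opens (ℂ × ℂ)}
    [IsDomain (Hol W')] (F : A →ₐ[ℂ] FractionRing (Hol W')) (T : Set A)
    (hT : Algebra.adjoin ℂ T = ⊤) (h : ∀ t ∈ T, ∃ y : Hol W', F t = al W' y) :
    ∃ θ : A →ₐ[ℂ] Hol W', ∀ a, al W' (θ a) = F a := by
  set ι : Hol W' →ₐ[ℂ] FractionRing (Hol W') :=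
    IsScalarTower.toAlgHom ℂ (Hol W') (FractionRing (Hol W')) with hι
  have hinj : Function.Injective ι := IsFractionRing.injective (Hol W') (FractionRing (Hol W'))
  have hr : ∀ a, F a ∈ ι.range := by
    intro a
    have ha : a ∈ Algebra.adjoin ℂ T := by rw [hT]; trivial
    induction ha using Algebra.adjoin_induction with
    | mem t ht => obtain ⟨y, hy⟩ := h t ht; exact ⟨y, hy.symm⟩
    | algebraMap c => rw [AlgHom.commutes]; exact ι.range.algebraMap_mem c
    | add a b _ _ h1 h2 => rw [map_add]; exact add_mem h1 h2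
    | mul a b _ _ h1 h2 => rw [map_mul]; exact mul_mem h1 h2
  refine ⟨(AlgEquiv.ofInjective ι hinj).symm.toAlgHom.comp (F.codRestrict ι.range hr), fun a => ?_⟩
  have h1 := (AlgEquiv.ofInjective ι hinj).apply_symm_apply (F.codRestrict ι.range hr a)
  exact congrArg Subtype.val h1


/-! ### the embedding as a total function -/

/-- a morphism of an intermediate field as a function on the whole field -/
structure Tot {M F : Type*} [Field M] [Field F] [Algebra ℂ M] [Algebra ℂ F]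
    (L : IntermediateField ℂ M) (t : M → F) : Prop where
  one : t 1 = 1
  zero : t 0 = 0
  mul : ∀ x ∈ L, ∀ y ∈ L, t (x * y) = t x * t y
  add : ∀ x ∈ L, ∀ y ∈ L, t (x + y) = t x + t y
  alg : ∀ c : ℂ, t (algebraMap ℂ M c) = algebraMap ℂ F c
  inj : ∀ x ∈ L, ∀ y ∈ L, t x = t y → x = y

theorem exists_tot {M F : Type*} [Field M] [Field F] [Algebra ℂ M] [Algebra ℂ F]
    (L : IntermediateField ℂ M) (τ : L →ₐ[ℂ] F) :
    ∃ t : M → F, Tot L t ∧ ∀ (x : M) (hx : x ∈ L), t x = τ ⟨x, hx⟩ := by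
  classical
  have h : ∀ (x : M) (hx : x ∈ L), (if h : x ∈ L then τ ⟨x, h⟩ else 0) = τ ⟨x, hx⟩ :=
    fun x hx => dif_pos hx
  refine ⟨fun x => if h : x ∈ L then τ ⟨x, h⟩ else 0, ⟨?_, ?_, ?_, ?_, ?_, ?_⟩, h⟩
  · change (if h : (1 : M) ∈ L then τ ⟨1, h⟩ else 0) = 1
    rw [h 1 (one_mem _)]
    exact map_one τ
  · change (if h : (0 : M) ∈ L then τ ⟨0, h⟩ else 0) = 0
    rw [h 0 (zero_mem _)]
    exact map_zero τ
  · intro x hx y hy
    change (if h : x * y ∈ L then τ ⟨x * y, h⟩ else 0) = (if h : x ∈ L then τ ⟨x, h⟩ else 0) *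
      (if h : y ∈ L then τ ⟨y, h⟩ else 0)
    rw [h _ (mul_mem hx hy), h _ hx, h _ hy, ← map_mul]
    rfl
  · intro x hx y hy
    change (if h : x + y ∈ L then τ ⟨x + y, h⟩ else 0) = (if h : x ∈ L then τ ⟨x, h⟩ else 0) +
      (if h : y ∈ L then τ ⟨y, h⟩ else 0)
    rw [h _ (add_mem hx hy), h _ hx, h _ hy, ← map_add]
    rfl
  · intro c
    change (if h : algebraMap ℂ M c ∈ L then τ ⟨algebraMap ℂ M c, h⟩ else 0) = _
    rw [h _ (L.algebraMap_mem c)]
    exact τ.commutes c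
  · intro x hx y hy hxy
    change (if h : x ∈ L then τ ⟨x, h⟩ else 0) = (if h : y ∈ L then τ ⟨y, h⟩ else 0) at hxy
    rw [h _ hx, h _ hy] at hxy
    exact congrArg Subtype.val (τ.injective hxy)

theorem Tot.pow {M F : Type*} [Field M] [Field F] [Algebra ℂ M] [Algebra ℂ F]
    {L : IntermediateField ℂ M} {t : M → F} (h : Tot L t) {x : M} (hx : x ∈ L) (n : ℕ) :
    t (x ^ n) = t x ^ n := by
  induction n with
  | zero => rw [pow_zero, pow_zero, h.one]
  | succ n ih => rw [pow_succ, pow_succ, h.mul _ (pow_mem hx n) _ hx, ih]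

/-! ### the second chain -/

set_option maxHeartbeats 4000000 in
theorem second : SecondStmt := by
  intro g c₀ P ρ β m k q q' r ρ₀ V W _ S N hN hNP2 A₀ z₀ G₀ G₁ hz hG0 hG1 hfg hDA E hsq hrefl
    D₁ D₂ hD hinj halg hnot U hUne hUW
  classical
  have hNP : N ≤ P := by omega
  obtain ⟨Ez, hEz, R⟩ := exists_roots S hNP E hsq hrefl
  have hzA : zH V ∈ A₀ := hz ▸ z₀.2
  have hgA : toH V g ∈ A₀ := hG0 ▸ G₀.2
  have hLLle := LL_le S hNP A₀ hzA hgA hDA (k := k) E
  have hpch := pchain S hNP R (a := 0) (Nat.zero_le _) D₁ (D1_x S hD)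
  simp only [Nat.cast_zero, sub_zero, add_zero, hEz] at hpch
  have hline : ∀ j, j ≤ N → E j ∈ LLA N β k W A₀ (E 0) ∧
      al W (mH k W j) ∈ LLA N β k W A₀ (E 0) := fun j hj =>
    ⟨hLLle (line_mem hpch j hj).1, hLLle (line_mem hpch j hj).2⟩
  have hEne : ∀ j, j ≤ N → E j ≠ 0 := fun j hj => hpch.E_ne j hj
  have hKL : KK D₁ D₂ N E (fun j : ℕ => al W (mH k W j)) ≤ LLA N β k W A₀ (E 0) := by
    have h1 := KK_le_shift S hNP hD hEz R (a := 0) (Nat.zero_le _)
    simp only [Nat.cast_zero, sub_zero, add_zero, hEz] at h1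
    exact h1.trans hLLle
  obtain ⟨s', hs'⟩ := LLA_FG S hNP (k := k) A₀ hfg (E 0)
  have hLFG : (LLA N β k W A₀ (E 0)).FG := ⟨s', hs'.symm⟩
  have hcoe : (({E 0, al W (mH k W ((0 : ℕ) : ℤ)), E N, al W (mH k W (N : ℤ))} :
      Finset (FractionRing (Hol W))) : Set (FractionRing (Hol W))) =
      {E 0, al W (mH k W ((0 : ℕ) : ℤ)), E N, al W (mH k W (N : ℤ))} := by
    rw [Finset.coe_insert, Finset.coe_insert, Finset.coe_insert, Finset.coe_singleton]
  have hKFG : (KK D₁ D₂ N E (fun j : ℕ => al W (mH k W j))).FG := by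
    have h1 := DF389.dfield_fg ![D₁, D₂]
      ({E 0, al W (mH k W ((0 : ℕ) : ℤ)), E N, al W (mH k W (N : ℤ))} :
        Finset (FractionRing (Hol W))) s' (fun x hx => by
        rw [← hs']
        rw [hcoe] at hx
        have h2 : x ∈ LLA N β k W A₀ (E 0) := hKL hx
        exact isAlgebraic_algebraMap (⟨x, h2⟩ : LLA N β k W A₀ (E 0)))
    rw [hcoe] at h1
    exact h1
  have hK1 : ∀ f ∈ KK D₁ D₂ N E (fun j : ℕ => al W (mH k W j)),
      D₁ f ∈ KK D₁ D₂ N E (fun j : ℕ => al W (mH k W j)) :=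
    fun f hf => DF389.dfield_stable ![D₁, D₂] _ 0 f hf
  have hK2 : ∀ f ∈ KK D₁ D₂ N E (fun j : ℕ => al W (mH k W j)),
      D₂ f ∈ KK D₁ D₂ N E (fun j : ℕ => al W (mH k W j)) :=
    fun f hf => DF389.dfield_stable ![D₁, D₂] _ 1 f hf
  have hKmem : ∀ x ∈ ({E 0, al W (mH k W ((0 : ℕ) : ℤ)), E N, al W (mH k W (N : ℤ))} :
      Set (FractionRing (Hol W))), x ∈ KK D₁ D₂ N E (fun j : ℕ => al W (mH k W j)) :=
    fun x hx => DF389.subset_dfield ![D₁, D₂] _ hx
  obtain ⟨hL1, hL2⟩ := LLA_stable' S hNP hD A₀ hzA hgA hDA hEz R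
  obtain ⟨T, hT⟩ := (Subalgebra.fg_top A₀).2 hfg
  -- the finite set of functions which have to be regular
  set Sf : Set (FractionRing (Hol W)) :=
    (⋃ j ∈ Set.Iio N, (fun f : A₀ => al W (xH β W (j : ℤ) (f : Hol V))) '' (T : Set A₀)) ∪
    ((fun j : ℕ => E j) '' Set.Iic N) ∪ ((fun j : ℕ => (E j)⁻¹) '' Set.Iic N) ∪
    ((fun j : ℕ => al W (mH k W j)) '' Set.Iic N) with hSf
  have hSfin : Sf.Finite := by
    refine Set.Finite.union (Set.Finite.union (Set.Finite.union ?_ ?_) ?_) ?_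
    · exact Set.Finite.biUnion (Set.finite_Iio N) fun j _ => T.finite_toSet.image _
    · exact (Set.finite_Iic N).image _
    · exact (Set.finite_Iic N).image _
    · exact (Set.finite_Iic N).image _
  have hSL : Sf ⊆ (LLA N β k W A₀ (E 0) : Set (FractionRing (Hol W))) := by
    rintro y (((hy | ⟨j, hj, rfl⟩) | ⟨j, hj, rfl⟩) | ⟨j, hj, rfl⟩)
    · rw [Set.mem_iUnion₂] at hy
      obtain ⟨j, hj, f, -, rfl⟩ := hy
      exact x_mem_LLA A₀ _ hj f.2
    · exact (hline j hj).1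
    · exact inv_mem (hline j hj).1
    · exact (hline j hj).2
  obtain ⟨W', hle, hdom, hW'U, hW'ne, hW'pre, ro, τ, hro, hτK, hτne, hreg, hder⟩ :=
    Alg985.alg_main S.pre _ _ hKL hKFG hLFG halg (al W (bH β W 0))
      (b_mem_LLA (j := 0) S hNP A₀ hzA _ hN) hnot Sf hSfin hSL U hUne hUW
  have hne' : Nonempty W' := ⟨⟨hW'ne.some, hW'ne.some_mem⟩⟩
  have hinjW' := al_inj W'
  have S' := S.res hle hW'ne hW'pre
  have hτinj : Function.Injective τ := τ.injective
  -- the dual derivations over `W'`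
  have hdual' : ∃ D₁' D₂' : Derivation ℂ (FractionRing (Hol W')) (FractionRing (Hol W')),
      Dual (Hol.res hle (mH m W 0)) (Hol.res hle (mH k W 0)) D₁' D₂' := by
    refine ⟨_, _, dual_of_ne ?_⟩
    rw [RAT.jcb_res hle]
    intro h0
    apply hD.ne
    have h1 := (map_eq_zero_iff _ hinjW').1 h0
    have h2 := (map_eq_zero_iff _ (Glue798.res_injective hle S.pre)).1 h1
    rw [h2, map_zero]
  obtain ⟨D₁', D₂', hD'⟩ := hdual'
  obtain ⟨φ, hφ, hφ1, hφ2⟩ := RAT.transferU hle S.pre hD hD'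
  have hφro : φ = ro := by
    refine AlgHom.coe_ringHom_injective ?_
    refine IsFractionRing.ringHom_ext (A := Hol W) ?_
    intro f
    have h1 := hφ f
    have h2 := hro f
    exact h1.trans h2.symm
  rw [hφro] at hφ1 hφ2
  have hd1 := hder D₁ D₁' hL1 hK1 (fun f _ => hφ1 f)
  have hd2 := hder D₂ D₂' hL2 hK2 (fun f _ => hφ2 f)
  obtain ⟨t, ht, htτ⟩ := exists_tot (LLA N β k W A₀ (E 0)) τ
  have htK : ∀ f ∈ KK D₁ D₂ N E (fun j : ℕ => al W (mH k W j)), t f = ro f := fun f hf => by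
    rw [htτ f (hKL hf)]
    exact hτK f hf
  have hb0L : al W (bH β W 0) ∈ LLA N β k W A₀ (E 0) := b_mem_LLA (j := 0) S hNP A₀ hzA _ hN
  have htne : t (al W (bH β W 0)) ≠ ro (al W (bH β W 0)) := by
    rw [htτ _ hb0L]
    exact hτne
  have htreg : ∀ s ∈ Sf, ∃ h : Hol W', t s = al W' h := fun s hs => by
    rw [htτ _ (hSL hs)]
    exact (hreg s hs).2
  have htd1 : ∀ f ∈ LLA N β k W A₀ (E 0), t (D₁ f) = D₁' (t f) := fun f hf => by
    rw [htτ _ (hL1 f hf), htτ f hf]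
    exact hd1 f hf
  have htd2 : ∀ f ∈ LLA N β k W A₀ (E 0), t (D₂ f) = D₂' (t f) := fun f hf => by
    rw [htτ _ (hL2 f hf), htτ f hf]
    exact hd2 f hf
  clear hd1 hd2 hder hτne
  -- the vertices
  have hxL : ∀ (j : ℕ), j < N → ∀ f : A₀, al W (xH β W (j : ℤ) (f : Hol V)) ∈
      LLA N β k W A₀ (E 0) := fun j hj f => x_mem_LLA A₀ _ hj f.2
  have hF : ∀ (j : ℕ), j < N → ∃ F : A₀ →ₐ[ℂ] FractionRing (Hol W'), ∀ f : A₀,
      F f = t (al W (xH β W (j : ℤ) (f : Hol V))) := by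
    intro j hj
    have hx : ∀ f, xH β W (j : ℤ) f = compH (bH β W (j : ℤ)) (S.bH_mem (by omega) (by omega)) f :=
      S.xH_eq (by omega) (by omega)
    refine ⟨{ toFun := fun f => t (al W (xH β W (j : ℤ) (f : Hol V)))
              map_one' := ?_
              map_mul' := ?_
              map_zero' := ?_
              map_add' := ?_
              commutes' := ?_ }, fun f => rfl⟩
    · rw [hx, OneMemClass.coe_one, map_one, map_one, ht.one]
    · intro f h
      have e : al W (xH β W (j : ℤ) ((f * h : A₀) : Hol V)) =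
          al W (xH β W (j : ℤ) (f : Hol V)) * al W (xH β W (j : ℤ) (h : Hol V)) := by
        rw [hx, hx, hx, MulMemClass.coe_mul, map_mul, map_mul]
      rw [e, ht.mul _ (hxL j hj f) _ (hxL j hj h)]
    · change t (al W (xH β W (j : ℤ) ((0 : A₀) : Hol V))) = 0
      rw [hx, ZeroMemClass.coe_zero, map_zero, map_zero, ht.zero]
    · intro f h
      have e : al W (xH β W (j : ℤ) ((f + h : A₀) : Hol V)) =
          al W (xH β W (j : ℤ) (f : Hol V)) + al W (xH β W (j : ℤ) (h : Hol V)) := by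
        rw [hx, hx, hx, AddMemClass.coe_add, map_add, map_add]
      change t (al W (xH β W (j : ℤ) ((f + h : A₀) : Hol V))) = _
      rw [e, ht.add _ (hxL j hj f) _ (hxL j hj h)]
    · intro c
      have e : al W (xH β W (j : ℤ) ((algebraMap ℂ A₀ c : A₀) : Hol V)) =
          algebraMap ℂ (FractionRing (Hol W)) c := by
        change al W (xH β W (j : ℤ) (algebraMap ℂ (Hol V) c)) = _
        rw [hx, AlgHom.commutes, al, ← IsScalarTower.algebraMap_apply]
      change t (al W (xH β W (j : ℤ) ((algebraMap ℂ A₀ c : A₀) : Hol V))) = _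
      rw [e, ht.alg]
  have hθ0 : ∀ (j : ℕ), j < N → ∃ θ : A₀ →ₐ[ℂ] Hol W', ∀ f : A₀,
      al W' (θ f) = t (al W (xH β W (j : ℤ) (f : Hol V))) := by
    intro j hj
    obtain ⟨F, hF⟩ := hF j hj
    obtain ⟨θ, hθ⟩ := exists_lift F (T : Set A₀) hT (fun u hu => by
      have hmem : al W (xH β W (j : ℤ) (u : Hol V)) ∈ Sf := by
        rw [hSf]
        refine Or.inl (Or.inl (Or.inl ?_))
        rw [Set.mem_iUnion₂]
        exact ⟨j, hj, u, hu, rfl⟩
      rw [hF]
      exact htreg _ hmem)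
    exact ⟨θ, fun f => by rw [hθ, hF]⟩
  have hθ : ∀ j : ℕ, ∃ θ : A₀ →ₐ[ℂ] Hol W', j < N → ∀ f : A₀,
      al W' (θ f) = t (al W (xH β W (j : ℤ) (f : Hol V))) := by
    intro j
    by_cases hj : j < N
    · obtain ⟨θ, hθ⟩ := hθ0 j hj
      exact ⟨θ, fun _ => hθ⟩
    · obtain ⟨θ, hθ⟩ := hθ0 0 hN
      exact ⟨θ, fun h => absurd h hj⟩
  choose θ hθ using hθ
  -- the lines
  have hmL : ∀ (j : ℕ), j ≤ N → al W (mH m W (j : ℤ)) ∈ LLA N β k W A₀ (E 0) := by
    intro j hj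
    rw [← hsq j hj]
    exact pow_mem (hline j hj).1 2
  have hm0 : ∀ j : ℕ, ∃ y y' : Hol W', y * y' = 1 ∧ (j ≤ N →
      al W' y = t (al W (mH m W (j : ℤ)))) := by
    intro j
    by_cases hj : j ≤ N
    · have m1 : E j ∈ Sf := by rw [hSf]; exact Or.inl (Or.inl (Or.inr ⟨j, hj, rfl⟩))
      have m2 : (E j)⁻¹ ∈ Sf := by rw [hSf]; exact Or.inl (Or.inr ⟨j, hj, rfl⟩)
      obtain ⟨y, hy⟩ := htreg _ m1
      obtain ⟨y', hy'⟩ := htreg _ m2
      refine ⟨y ^ 2, y' ^ 2, ?_, fun _ => ?_⟩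
      · apply hinjW'
        have e2 := ht.mul _ (hSL m1) _ (hSL m2)
        rw [mul_inv_cancel₀ (hEne j hj), ht.one, hy, hy'] at e2
        rw [← mul_pow, map_pow, map_mul, map_one, ← e2, one_pow]
      · rw [← hsq j hj, ht.pow (hSL m1), map_pow, hy]
    · exact ⟨1, 1, one_mul 1, fun h => absurd h hj⟩
  choose m' mi' hmi' hm' using hm0
  have hk0 : ∀ j : ℕ, ∃ y : Hol W', j ≤ N → al W' y = t (al W (mH k W (j : ℤ))) := by
    intro j
    by_cases hj : j ≤ N
    · have m1 : al W (mH k W (j : ℤ)) ∈ Sf := by rw [hSf]; exact Or.inr ⟨j, hj, rfl⟩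
      obtain ⟨y, hy⟩ := htreg _ m1
      exact ⟨y, fun _ => hy.symm⟩
    · exact ⟨1, fun h => absurd h hj⟩
  choose k' hk' using hk0
  -- values
  have hxz : ∀ j : ℕ, j < N → xH β W (j : ℤ) (z₀ : Hol V) = bH β W (j : ℤ) := fun j hj => by
    rw [hz, xH_z S (by omega) (by omega)]
  have hbL : ∀ j : ℕ, j < N → al W (bH β W (j : ℤ)) ∈ LLA N β k W A₀ (E 0) := fun j hj => by
    rw [← hxz j hj]; exact hxL j hj z₀
  have hθz : ∀ j : ℕ, j < N → al W' (θ j z₀) = t (al W (bH β W (j : ℤ))) := fun j hj => by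
    rw [hθ j hj, hxz j hj]
  have hder1 : ∀ j : ℕ, j < N → ∀ f f' : A₀, (f' : Hol V) = DH V f →
      D₁' (al W' (θ j f)) = al W' (θ j f') * D₁' (al W' (θ j z₀)) := by
    intro j hj f f' hf
    rw [hθ j hj, ← htd1 _ (hxL j hj f), D1_x S hD (j : ℤ) (f : Hol V) (by omega) (by omega),
      ht.mul _ (by rw [← hf]; exact hxL j hj f') _ (hL1 _ (hbL j hj)), ← hf, ← hθ j hj,
      htd1 _ (hbL j hj), ← hθz j hj]
  have hder2 : ∀ j : ℕ, j < N → ∀ f f' : A₀, (f' : Hol V) = DH V f →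
      D₂' (al W' (θ j f)) = al W' (θ j f') * D₂' (al W' (θ j z₀)) := by
    intro j hj f f' hf
    rw [hθ j hj, ← htd2 _ (hxL j hj f), D2_x S hD (j : ℤ) (f : Hol V) (by omega) (by omega),
      ht.mul _ (by rw [← hf]; exact hxL j hj f') _ (hL2 _ (hbL j hj)), ← hf, ← hθ j hj,
      htd2 _ (hbL j hj), ← hθz j hj]
  have hends : ∀ j : ℕ, j = 0 ∨ j = N → m' j = mH m W' (j : ℤ) ∧ k' j = mH k W' (j : ℤ) := by
    intro j hj
    have hjN : j ≤ N := by omega
    have hEK : E j ∈ KK D₁ D₂ N E (fun j : ℕ => al W (mH k W j)) := by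
      rcases hj with rfl | rfl
      · exact hKmem _ (Or.inl rfl)
      · exact hKmem _ (Or.inr (Or.inr (Or.inl rfl)))
    have hkK : al W (mH k W (j : ℤ)) ∈ KK D₁ D₂ N E (fun j : ℕ => al W (mH k W j)) := by
      rcases hj with rfl | rfl
      · exact hKmem _ (Or.inr (Or.inl rfl))
      · exact hKmem _ (Or.inr (Or.inr (Or.inr rfl)))
    constructor
    · apply hinjW'
      rw [hm' j hjN, ← hsq j hjN, htK _ (pow_mem hEK 2), hsq j hjN]
      have h1 := hro (mH m W (j : ℤ))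
      rw [S.res_m hle (by omega) (by omega)] at h1
      exact h1
    · apply hinjW'
      rw [hk' j hjN, htK _ hkK]
      have h1 := hro (mH k W (j : ℤ))
      rw [S.res_k hle (by omega) (by omega)] at h1
      exact h1
  have hcast : ∀ j : ℕ, (((j + 1 : ℕ) : ℤ)) = (j : ℤ) + 1 := fun j => by push_cast; ring
  refine ⟨W', θ, m', k', hW'U, hW'ne, hW'pre, ?_⟩
  refine
    { inc := ?_, inc' := ?_, refl := ?_, m_ne := ?_, start_m := ?_, start_k := ?_, end_m := ?_,
      end_k := ?_, dx := ?_, db := ?_, ne := ?_, ne₀ := ?_, tr := ?_, inj := ?_, rel := ?_ }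
  · intro j hj
    apply hinjW'
    rw [map_add, map_mul, hθ j hj, hm' j hj.le, hθz j hj, hk' j hj.le,
      ← ht.mul _ (hmL j hj.le) _ (hbL j hj),
      ← ht.add _ (mul_mem (hmL j hj.le) (hbL j hj)) _ (hline j hj.le).2, hG0,
      S.inc (by omega) (by omega), map_add, map_mul]
  · intro j hj
    apply hinjW'
    rw [map_add, map_mul, hθ j hj, hm' (j + 1) hj, hθz j hj, hk' (j + 1) hj,
      ← ht.mul _ (hmL (j + 1) hj) _ (hbL j hj),
      ← ht.add _ (mul_mem (hmL (j + 1) hj) (hbL j hj)) _ (hline (j + 1) hj).2, hG0,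
      S.inc' (by omega) (by omega), map_add, map_mul, hcast]
  · intro j hj
    apply hinjW'
    rw [map_mul, map_pow, hm' (j + 1) hj, hm' j hj.le, hθ j hj,
      ← ht.mul _ (hmL (j + 1) hj) _ (hmL j hj.le), ← ht.pow (hxL j hj G₁), hcast, hG1,
      ← map_mul, S.refl (by omega) (by omega), map_pow]
  · intro j hj p h0
    have h1 := congrArg (fun f : Hol W' => (f : W' → ℂ) p) (hmi' j)
    have h2 : (m' j : W' → ℂ) p * (mi' j : W' → ℂ) p = 1 := h1
    rw [h0, zero_mul] at h2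
    exact zero_ne_one h2
  · exact (hends 0 (Or.inl rfl)).1
  · exact (hends 0 (Or.inl rfl)).2
  · exact (hends N (Or.inr rfl)).1
  · exact (hends N (Or.inr rfl)).2
  · intro j hj v f f' hf
    exact grad_of_dual hD' (θ j f) (θ j z₀) (θ j f') (hder1 j hj f f' hf) (hder2 j hj f f' hf) v
  · intro j hj
    have h1 := D_ne_of_pd hD (S.pd_b (j := j) (hj.le.trans hNP))
    refine pd_of_D_ne hD' ?_
    rw [hθz j hj, ← htd1 _ (hbL j hj), ← htd2 _ (hbL j hj)]
    rcases h1 with h1 | h1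
    · left
      intro h2
      exact h1 (ht.inj _ (hL1 _ (hbL j hj)) _ (zero_mem _) (h2.trans ht.zero.symm))
    · right
      intro h2
      exact h1 (ht.inj _ (hL2 _ (hbL j hj)) _ (zero_mem _) (h2.trans ht.zero.symm))
  · intro j hj h
    have h1 := congrArg (al W') h
    rw [hθz (j + 1) hj, hθz j (by omega)] at h1
    have h2 := al_inj W (ht.inj _ (hbL (j + 1) hj) _ (hbL j (by omega)) h1)
    have h3 := S.b_succ_ne (j := ((j + 1 : ℕ) : ℤ)) (by omega) (by omega)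
    apply h3
    rw [h2, hcast, add_sub_cancel_right]
  · intro h
    have h1 := congrArg (al W') h
    rw [hθz 0 hN] at h1
    apply htne
    have h2 := hro (bH β W 0)
    rw [S.res_b hle (by omega) (by omega)] at h2
    exact h1.trans h2.symm
  · intro j hj h
    have h1 := congrArg (al W') h
    rw [hθ j hj, hm' j hj.le] at h1
    have h2 := al_inj W (ht.inj _ (hxL j hj G₁) _ (hmL j hj.le) h1)
    rw [hG1] at h2
    exact S.tr (by omega) (by omega) h2
  · intro j hj f h hfh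
    have h1 := congrArg (al W') hfh
    rw [hθ j hj, hθ j hj] at h1
    have h2 := al_inj W (ht.inj _ (hxL j hj f) _ (hxL j hj h) h1)
    have hx : ∀ f, xH β W (j : ℤ) f = compH (bH β W (j : ℤ)) (S.bH_mem (by omega) (by omega)) f :=
      S.xH_eq (by omega) (by omega)
    have h3 := hinj j hj ((f : Hol V) - h) (sub_mem f.2 h.2) (by
      rw [hx, map_sub, ← hx, ← hx, h2, sub_self])
    exact Subtype.ext (sub_eq_zero.1 h3)
  · intro a ha j hj
    refine rel_of S hle hNP (by omega) A₀ hzA hgA hDA R ro hro (θ j z₀) ?_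
    have h1 := tau_alg _ _ _ hKL (KK_le_shift S hNP hD hEz R (a := a) (by omega)) τ ro hτK
      ⟨al W (bH β W (j : ℤ)), hbL j hj⟩ (halg _ (hbL j hj))
    rw [← htτ _ (hbL j hj), ← hθz j hj] at h1
    exact h1

end Crest.Agent.R102.RunE58
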