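import Crest.Agent.R102.RatAll_926
import Crest.Agent.R102.RunSec_58

/-!
# Row 102, [H3]: THEOREM (RAT) and its continuation form, closed (helper926)

`ratGerm2 : RatGerm2` and `ratCont : Spine.RatCont`, no hypotheses.
Leaves: `CT575.ct` (575), `Rat1389.r4Stmt` (389), `RunE58.second` (58), `RatInf` (201),
`Rat7217.ratCont` (217); assembly `RatFin_926`, `RatAsm_926`, `RatAll_926`.
-/

set_option autoImplicit false

noncomputable section

namespace Crest.Agent.R102.RAT

theorem ratGerm2 : RatGerm2 := ratGerm2_of_second RunE58.second

theorem ratCont : Spine.RatCont := ratCont_of_second RunE58.second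

end Crest.Agent.R102.RAT
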