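import Crest.Agent.R102.T1EAsm_314
import Crest.Agent.R102.RuleVE_628

/-!
Row 102: **`T1E : Spine.T1E`** (proof of helper516; leaves by 151, 300, 350, 486, 516, 599, 628, 712,
77, 942, 982, 669; assembly helper314).
-/

namespace Crest.Agent.R102.T1E314

/-- **T1-E** -/
theorem t1E : Spine.T1E := T1EAsm314.t1e_of_rule
  (fun _ _ _ _ _ _ _ _ _ _ _ _ _ hD hM => ShE628.rule_vertexE hD hM)

end Crest.Agent.R102.T1E314
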