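import Crest.Agent.R102.MelIDefs_963

/-!
# Row 102, [T5]/MEL-I, (I3) EInv: inverse of `E / C₀` near the positive real axis (helper490)
-/

set_option autoImplicit false

open Set Filter Topology Metric
open scoped ComplexConjugate

noncomputable section

namespace Crest.Agent.R102.MelI3490

open Crest.Agent.R102.T5R Crest.Agent.R102.Mel Crest.Agent.R102.MelI963

lemma OvR_open (κ : ℝ) : IsOpen (OvR κ) := by
  refine IsOpen.inter isOpen_ne (IsOpen.inter ?_ (IsOpen.inter ?_ ?_))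
  · exact isOpen_lt continuous_norm continuous_const
  · exact isOpen_lt Complex.continuous_im.abs (continuous_const.mul continuous_norm)
  · exact isOpen_lt continuous_const Complex.continuous_re

/-- linear form of the cone condition -/
lemma cone_iff {κ : ℝ} (hκ0 : 0 < κ) (hκ1 : κ < 1) {τ : ℂ} (hre : 0 < τ.re) :
    |τ.im| < κ * ‖τ‖ ↔ |τ.im| * Real.sqrt (1 - κ ^ 2) < κ * τ.re := by
  have h1 : 0 < 1 - κ ^ 2 := by nlinarith
  have hn : ‖τ‖ ^ 2 = τ.re ^ 2 + τ.im ^ 2 := by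
    rw [Complex.sq_norm, Complex.normSq_apply]; ring
  have hn0 : 0 ≤ ‖τ‖ := norm_nonneg τ
  have hs := Real.sq_sqrt h1.le
  have hs0 := Real.sqrt_nonneg (1 - κ ^ 2)
  have ha : |τ.im| ^ 2 = τ.im ^ 2 := sq_abs _
  constructor
  · intro h
    refine lt_of_pow_lt_pow_left₀ 2 (by positivity) ?_
    rw [mul_pow, hs, ha, mul_pow]
    have h2 : |τ.im| ^ 2 < (κ * ‖τ‖) ^ 2 := by gcongr
    rw [ha, mul_pow, hn] at h2
    nlinarith
  · intro h
    refine lt_of_pow_lt_pow_left₀ 2 (by positivity) ?_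
    rw [mul_pow, hn, ha]
    have h2 : (|τ.im| * Real.sqrt (1 - κ ^ 2)) ^ 2 < (κ * τ.re) ^ 2 := by gcongr
    rw [mul_pow, hs, ha, mul_pow] at h2
    nlinarith

lemma OvR_convex {κ R : ℝ} (hκ0 : 0 < κ) (hκ1 : κ < 1) : Convex ℝ {τ | τ ∈ OvR κ ∧ ‖τ‖ < R} := by
  rintro x ⟨⟨x1, x2, x3, x4⟩, x5⟩ y ⟨⟨y1, y2, y3, y4⟩, y5⟩ p q hp hq hpq
  have e1 : (p • x + q • y).re = p * x.re + q * y.re := by simp
  have e2 : (p • x + q • y).im = p * x.im + q * y.im := by simp
  have hre : 0 < (p • x + q • y).re := by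
    rw [e1]
    rcases hp.eq_or_lt with h | h
    · have : q = 1 := by linarith
      rw [← h, this]; linarith
    · have := mul_pos h x4
      have := mul_nonneg hq y4.le
      linarith
  have hnorm : ∀ {K : ℝ}, ‖x‖ < K → ‖y‖ < K → ‖p • x + q • y‖ < K := by
    intro K hx hy
    have := (convex_ball (0 : ℂ) K) (mem_ball_zero_iff.2 hx) (mem_ball_zero_iff.2 hy) hp hq hpq
    exact mem_ball_zero_iff.1 this
  refine ⟨⟨?_, hnorm x2 y2, ?_, hre⟩, hnorm x5 y5⟩
  · intro h0
    rw [h0] at hre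
    simp at hre
  · rw [cone_iff hκ0 hκ1 hre, e1, e2]
    have a1 := (cone_iff hκ0 hκ1 x4).1 x3
    have a2 := (cone_iff hκ0 hκ1 y4).1 y3
    have hs0 := Real.sqrt_nonneg (1 - κ ^ 2)
    have f1 : |p * x.im + q * y.im| ≤ p * |x.im| + q * |y.im| := by
      refine (abs_add_le _ _).trans ?_
      rw [abs_mul, abs_mul, abs_of_nonneg hp, abs_of_nonneg hq]
    have f2 : |p * x.im + q * y.im| * Real.sqrt (1 - κ ^ 2) ≤
        p * (|x.im| * Real.sqrt (1 - κ ^ 2)) + q * (|y.im| * Real.sqrt (1 - κ ^ 2)) := by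
      calc _ ≤ (p * |x.im| + q * |y.im|) * Real.sqrt (1 - κ ^ 2) := by gcongr
        _ = _ := by ring
    rcases hp.eq_or_lt with h | h
    · have hq1 : q = 1 := by linarith
      rw [← h, hq1] at f2 ⊢
      linarith
    · have f3 : p * (|x.im| * Real.sqrt (1 - κ ^ 2)) < p * (κ * x.re) := by gcongr
      have f4 : q * (|y.im| * Real.sqrt (1 - κ ^ 2)) ≤ q * (κ * y.re) := by gcongr
      linarith

/-- room between the two cones -/
lemma room {κ κ₁ : ℝ} (h0 : 0 < κ₁) (h1 : κ₁ < κ) (h2 : κ < 1) {u y : ℂ} (hu : u ∈ OvR κ₁)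
    (hy : ‖y - u‖ ≤ (κ - κ₁) / 4 * ‖u‖) (hn : ‖y‖ < 1) : y ∈ OvR κ := by
  obtain ⟨u1, u2, u3, u4⟩ := hu
  have hun : 0 < ‖u‖ := norm_pos_iff.2 u1
  have hyn : ‖u‖ * (1 - (κ - κ₁) / 4) ≤ ‖y‖ := by
    have := norm_sub_norm_le u y
    rw [norm_sub_rev] at this
    nlinarith
  have him : |y.im| ≤ |u.im| + (κ - κ₁) / 4 * ‖u‖ := by
    have h3 := (Complex.abs_im_le_norm (y - u)).trans hy
    rw [Complex.sub_im] at h3
    have := abs_sub_abs_le_abs_sub y.im u.im
    linarith
  have hypos : 0 < ‖y‖ := lt_of_lt_of_le (by nlinarith) hyn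
  refine ⟨norm_pos_iff.1 hypos, hn, ?_, ?_⟩
  · have g1 : κ * (‖u‖ * (1 - (κ - κ₁) / 4)) ≤ κ * ‖y‖ :=
      mul_le_mul_of_nonneg_left hyn (by linarith)
    have g2 : 0 < (κ - κ₁) * ‖u‖ := mul_pos (by linarith) hun
    have g3 : κ * ((κ - κ₁) * ‖u‖) < 1 * ((κ - κ₁) * ‖u‖) := by gcongr
    nlinarith
  · have h3 := (Complex.abs_re_le_norm (y - u)).trans hy
    rw [Complex.sub_re] at h3
    have h4 := (abs_le.1 h3).1
    have h5 : ‖u‖ ^ 2 = u.re ^ 2 + u.im ^ 2 := by
      rw [Complex.sq_norm, Complex.normSq_apply]; ring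
    have h6 : u.im ^ 2 < (κ₁ * ‖u‖) ^ 2 := by
      rw [← sq_abs u.im]; gcongr
    have h7 : ((κ - κ₁) / 4 * ‖u‖) ^ 2 < u.re ^ 2 := by
      have : ((κ - κ₁) / 4) ^ 2 + κ₁ ^ 2 < 1 := by nlinarith
      nlinarith [mul_pos hun hun]
    have h8 := lt_of_pow_lt_pow_left₀ 2 u4.le h7
    linarith

theorem eInv : EInv := by
  intro κ κ₁ E C₀ hκ₁ hκ hκ1 hE hC hlim hlim'
  have hκ0 : 0 < κ := by linarith
  set η : ℝ := (κ - κ₁) / 40 with hη
  have hη0 : 0 < η := by rw [hη]; linarith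
  have hη1 : η < 1 / 40 := by rw [hη]; linarith
  -- the normalised function
  set f : ℂ → ℂ := fun τ => E τ / C₀ with hf
  have hSg : ∀ {R : ℝ}, ∀ τ ∈ OvR κ, τ ∈ Sg κ := fun {R} τ hτ =>
    ⟨hτ.1, hτ.2.1, (le_abs_self _).trans_lt hτ.2.2.1⟩
  have hSgo : IsOpen (Sg κ) := by
    refine IsOpen.inter isOpen_ne (IsOpen.inter ?_ ?_)
    · exact isOpen_lt continuous_norm continuous_const
    · exact isOpen_lt Complex.continuous_im (continuous_const.mul continuous_norm)
  have hfd : ∀ τ ∈ Sg κ, HasDerivAt f (deriv E τ / C₀) τ := fun τ hτ =>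
    ((hE.differentiableAt (hSgo.mem_nhds hτ)).hasDerivAt).div_const C₀
  -- smallness
  have hl1 : Tendsto (fun τ => f τ / τ) (𝓝[Sg κ] 0) (𝓝 1) := by
    have := hlim.div_const C₀
    rw [div_self hC] at this
    refine this.congr (fun τ => ?_)
    simp only [hf]
    ring
  have hl2 : Tendsto (fun τ => deriv E τ / C₀) (𝓝[Sg κ] 0) (𝓝 1) := by
    have := hlim'.div_const C₀
    rwa [div_self hC] at this
  obtain ⟨d, hd, hd1, hA⟩ : ∃ d : ℝ, 0 < d ∧ d < 1 ∧ ∀ τ ∈ Sg κ, ‖τ‖ < d →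
      ‖f τ / τ - 1‖ < η ∧ ‖deriv E τ / C₀ - 1‖ < η := by
    have e1 := (Metric.tendsto_nhds.1 hl1 η hη0).and (Metric.tendsto_nhds.1 hl2 η hη0)
    rw [eventually_nhdsWithin_iff, Metric.eventually_nhds_iff_ball] at e1
    obtain ⟨d, hd, h⟩ := e1
    refine ⟨min d (1 / 2), lt_min hd (by norm_num), (min_le_right _ _).trans_lt (by norm_num), ?_⟩
    intro τ hτ hn
    have := h τ (mem_ball_zero_iff.2 (hn.trans_le (min_le_left _ _))) hτ
    simpa only [dist_eq_norm] using this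
  have hfn : ∀ τ ∈ Sg κ, ‖τ‖ < d → ‖f τ - τ‖ ≤ η * ‖τ‖ := by
    intro τ hτ hn
    have h1 := (hA τ hτ hn).1.le
    have e : f τ - τ = (f τ / τ - 1) * τ := by field_simp [hτ.1]
    rw [e, norm_mul]
    gcongr
  set K : Set ℂ := {τ | τ ∈ OvR κ ∧ ‖τ‖ < d} with hK
  have hKc : Convex ℝ K := OvR_convex hκ0 hκ1
  have hKo : IsOpen K := (OvR_open κ).inter (isOpen_lt continuous_norm continuous_const)
  have hKS : ∀ τ ∈ K, τ ∈ Sg κ := fun τ hτ => hSg (R := 0) τ hτ.1
  -- `f - id` is a contraction on `K`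
  have hcon : ∀ x ∈ K, ∀ y ∈ K, ‖(f x - x) - (f y - y)‖ ≤ η * ‖x - y‖ := by
    intro x hx y hy
    refine Convex.norm_image_sub_le_of_norm_hasDerivWithin_le
      (f := fun τ => f τ - τ) (f' := fun τ => deriv E τ / C₀ - 1) (s := K) ?_ ?_ hKc hy hx
    · intro τ hτ
      exact ((hfd τ (hKS τ hτ)).sub (hasDerivAt_id τ)).hasDerivWithinAt
    · intro τ hτ
      exact (hA τ (hKS τ hτ) hτ.2).2.le
  have hinj : ∀ x ∈ K, ∀ y ∈ K, f x = f y → x = y := by
    intro x hx y hy h
    have := hcon x hx y hy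
    rw [h] at this
    have e : f y - x - (f y - y) = -(x - y) := by ring
    rw [e, norm_neg] at this
    have h0 : ‖x - y‖ = 0 := by
      have := norm_nonneg (x - y)
      nlinarith
    exact sub_eq_zero.1 (norm_eq_zero.1 h0)
  -- surjectivity
  set δ : ℝ := d / 8 with hδ
  have hδ0 : 0 < δ := by rw [hδ]; linarith
  have hsurj : ∀ u ∈ OvR κ₁, ‖u‖ < δ → ∃ y ∈ K, f y = u ∧ ‖y - u‖ ≤ 2 * η * ‖u‖ := by
    intro u hu hun
    have hu0 : 0 < ‖u‖ := norm_pos_iff.2 hu.1
    have hball : ∀ y ∈ closedBall u (2 * η * ‖u‖), y ∈ K := by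
      intro y hy
      rw [mem_closedBall, dist_eq_norm] at hy
      have h1 : ‖y‖ ≤ ‖u‖ + 2 * η * ‖u‖ := by
        have := norm_sub_norm_le y u
        linarith
      have h2 : ‖y‖ < d := by
        have : 2 * η * ‖u‖ ≤ ‖u‖ := by nlinarith
        rw [hδ] at hun
        linarith
      refine ⟨room hκ₁ hκ hκ1 hu ?_ (h2.trans hd1), h2⟩
      refine hy.trans ?_
      rw [hη]
      nlinarith
    -- contraction
    set T : ℂ → ℂ := fun y => u - (f y - y) with hT
    have hTm : MapsTo T (closedBall u (2 * η * ‖u‖)) (closedBall u (2 * η * ‖u‖)) := by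
      intro y hy
      have hyK := hball y hy
      have h1 := hfn y (hKS y hyK) hyK.2
      rw [mem_closedBall, dist_eq_norm] at hy ⊢
      have e : T y - u = -(f y - y) := by rw [hT]; ring
      rw [e, norm_neg]
      have h2 : ‖y‖ ≤ ‖u‖ + 2 * η * ‖u‖ := by
        have := norm_sub_norm_le y u
        linarith
      calc ‖f y - y‖ ≤ η * ‖y‖ := h1
        _ ≤ η * (‖u‖ + 2 * η * ‖u‖) := by gcongr
        _ ≤ 2 * η * ‖u‖ := by nlinarith [mul_pos hη0 hu0]
    have hcomp : IsComplete (closedBall u (2 * η * ‖u‖)) := isClosed_closedBall.isComplete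
    have hLip : ContractingWith (Real.toNNReal η) (hTm.restrict T _ _) := by
      refine ⟨by rw [Real.toNNReal_lt_one]; linarith, ?_⟩
      refine LipschitzWith.of_dist_le_mul ?_
      rintro ⟨x, hx⟩ ⟨y, hy⟩
      rw [Real.coe_toNNReal η hη0.le]
      simp only [Subtype.dist_eq, MapsTo.val_restrict_apply]
      rw [dist_eq_norm, dist_eq_norm]
      have := hcon x (hball x hx) y (hball y hy)
      have e : T x - T y = -((f x - x) - (f y - y)) := by rw [hT]; ring
      rw [e, norm_neg]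
      exact this
    obtain ⟨y, hy, hfix, -⟩ := ContractingWith.exists_fixedPoint' hcomp hTm hLip
      (x := u) (mem_closedBall_self (by positivity)) (edist_ne_top _ _)
    refine ⟨y, hball y hy, ?_, ?_⟩
    · have h1 : T y = y := hfix
      rw [hT] at h1
      simp only at h1
      linear_combination -h1
    · rw [mem_closedBall, dist_eq_norm] at hy
      exact hy
  choose! G hG1 hG2 hG3 using hsurj
  have hGeq : ∀ y ∈ K, f y ∈ OvR κ₁ → ‖f y‖ < δ → G (f y) = y := by
    intro y hy h1 h2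
    exact hinj _ (hG1 _ h1 h2) _ hy (hG2 _ h1 h2)
  have hDo : IsOpen {u : ℂ | u ∈ OvR κ₁ ∧ ‖u‖ < δ} :=
    (OvR_open κ₁).inter (isOpen_lt continuous_norm continuous_const)
  -- strict derivative of `f` and local inverse
  have hGd : DifferentiableOn ℂ G {u | u ∈ OvR κ₁ ∧ ‖u‖ < δ} := by
    rintro u ⟨hu1, hu2⟩
    refine DifferentiableAt.differentiableWithinAt ?_
    set y := G u with hy
    have hyK : y ∈ K := hG1 u hu1 hu2
    have hfy : f y = u := hG2 u hu1 hu2
    have hfan : AnalyticAt ℂ f y := by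
      have : DifferentiableOn ℂ f K := fun τ hτ =>
        (hfd τ (hKS τ hτ)).differentiableAt.differentiableWithinAt
      exact this.analyticAt (hKo.mem_nhds hyK)
    have hst : HasStrictDerivAt f (deriv E y / C₀) y := by
      have := hfan.hasStrictDerivAt
      rwa [(hfd y (hKS y hyK)).deriv] at this
    have hne : deriv E y / C₀ ≠ 0 := by
      intro h0
      have := (hA y (hKS y hyK) hyK.2).2
      rw [h0, zero_sub, norm_neg, norm_one] at this
      linarith
    have hinv := hst.to_localInverse hne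
    rw [hfy] at hinv
    have hloc : ∀ᶠ v in 𝓝 u, hst.localInverse f (deriv E y / C₀) y hne v = G v := by
      have h1 : ∀ᶠ v in 𝓝 (f y), f (hst.localInverse f (deriv E y / C₀) y hne v) = v :=
        (hst.hasStrictFDerivAt_equiv hne).eventually_right_inverse
      have h2 : Tendsto (hst.localInverse f (deriv E y / C₀) y hne) (𝓝 (f y)) (𝓝 y) := by
        have h3 := (hst.hasStrictFDerivAt_equiv hne).localInverse_continuousAt
        have h4 : hst.localInverse f (deriv E y / C₀) y hne (f y) = y :=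
          (hst.hasStrictFDerivAt_equiv hne).localInverse_apply_image
        have h5 := h3.tendsto
        have h6 : (hst.hasStrictFDerivAt_equiv hne).localInverse f _ y (f y) = y :=
          (hst.hasStrictFDerivAt_equiv hne).localInverse_apply_image
        rw [h6] at h5
        exact h5
      rw [hfy] at h1 h2
      filter_upwards [h1, h2.eventually (hKo.mem_nhds hyK), hDo.mem_nhds ⟨hu1, hu2⟩] with v a1 a2 a3
      have := hGeq _ a2 (by rw [a1]; exact a3.1) (by rw [a1]; exact a3.2)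
      rw [a1] at this
      exact this.symm
    exact hinv.hasDerivAt.differentiableAt.congr_of_eventuallyEq
      (hloc.mono fun v hv => hv.symm)
  refine ⟨δ, G, hδ0, by rw [hδ]; linarith, hGd, ?_, ?_, ?_, ?_, ?_⟩
  · intro u hu hun
    exact (hG1 u hu hun).1
  · intro u hu hun
    have := hG2 u hu hun
    simp only [hf] at this
    rw [div_eq_iff hC] at this
    rw [this]; ring
  · intro u hu hun
    refine (hG3 u hu hun).trans ?_
    have := norm_nonneg u
    nlinarith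
  · -- limit
    rw [Metric.tendsto_nhds]
    intro ε hε
    have e1 := Metric.tendsto_nhds.1 hl1 (min (ε / 2) (1 / 4)) (lt_min (by linarith) (by norm_num))
    rw [eventually_nhdsWithin_iff, Metric.eventually_nhds_iff_ball] at e1
    obtain ⟨d', hd', h⟩ := e1
    rw [eventually_nhdsWithin_iff, Metric.eventually_nhds_iff_ball]
    refine ⟨min δ (d' / 2), lt_min hδ0 (by linarith), ?_⟩
    intro u hub hu
    rw [mem_ball_zero_iff] at hub
    have hun : ‖u‖ < δ := hub.trans_le (min_le_left _ _)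
    have hun' : ‖u‖ < d' / 2 := hub.trans_le (min_le_right _ _)
    have hu0 : 0 < ‖u‖ := norm_pos_iff.2 hu.1
    have hyK := hG1 u hu hun
    have hfy := hG2 u hu hun
    have h3 := hG3 u hu hun
    have hyn : ‖G u‖ ≤ 2 * ‖u‖ := by
      have := norm_sub_norm_le (G u) u
      nlinarith
    have h4 := h (G u) (mem_ball_zero_iff.2 (by linarith)) (hKS _ hyK)
    rw [dist_eq_norm, hfy] at h4
    have hG0 : G u ≠ 0 := hyK.1.1
    have hGn : 0 < ‖G u‖ := norm_pos_iff.2 hG0
    have h5 : ‖u - G u‖ < min (ε / 2) (1 / 4) * ‖G u‖ := by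
      have e : u / G u - 1 = (u - G u) / G u := by field_simp
      rw [e, norm_div, div_lt_iff₀ hGn] at h4
      exact h4
    rw [dist_eq_norm]
    have e : G u / u - 1 = -((u - G u) / u) := by field_simp [hu.1]; ring
    rw [e, norm_neg, norm_div, div_lt_iff₀ hu0]
    calc ‖u - G u‖ < min (ε / 2) (1 / 4) * ‖G u‖ := h5
      _ ≤ (ε / 2) * (2 * ‖u‖) := by gcongr; exact min_le_left _ _
      _ = ε * ‖u‖ := by ring
  · intro y hy hyn h1 h2
    exact hGeq y ⟨hy, by rw [hδ] at hyn; linarith⟩ h1 h2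

end Crest.Agent.R102.MelI3490
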