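import Crest.Agent.R102.RLimA_231

/-!
# T5 MEL: leaf ML-LI (`RLimI`) (helper231)
-/

set_option autoImplicit false

open Set Filter Topology Metric MeasureTheory
open scoped ComplexConjugate

noncomputable section

namespace Crest.Agent.R102.Mel

open Crest.Agent.R102.T5R Crest.Agent.R102.Mel231 Crest.Agent.R102.T5R.L4346

theorem hasDeriv_prim {f : ℝ → ℂ} (hf : ContinuousOn f (Icc (0 : ℝ) 1)) :
    ∀ s ∈ Icc (0 : ℝ) 1, HasDerivWithinAt (fun s => ∫ r in (0 : ℝ)..s, f r) (f s) (Icc 0 1) s := by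
  intro s hs
  have hI : IntervalIntegrable f volume 0 s :=
    (hf.mono (by rw [uIcc_of_le hs.1]; exact Icc_subset_Icc_right hs.2)).intervalIntegrable
  have : Fact (s ∈ Icc (0 : ℝ) 1) := ⟨hs⟩
  exact intervalIntegral.integral_hasDerivWithinAt_right hI
    (hf.stronglyMeasurableAtFilter_nhdsWithin measurableSet_Icc s) (hf s hs)

theorem int_V3 {x y : ℂ} (hx : x ≠ 0) :
    (∫ u in (0 : ℝ)..1, ((x + u * (y - x)) / x) ^ 3) =
      (x ^ 2 + y ^ 2) * (x + y) / (4 * x ^ 3) := by
  have hd : ∀ u ∈ uIcc (0 : ℝ) 1, HasDerivAt (fun u : ℝ => (x ^ 3 * (u : ℂ) +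
      3 * x ^ 2 * (y - x) * (u : ℂ) ^ 2 / 2 + x * (y - x) ^ 2 * (u : ℂ) ^ 3 +
      (y - x) ^ 3 * (u : ℂ) ^ 4 / 4) / x ^ 3) (((x + u * (y - x)) / x) ^ 3) u := by
    intro u _
    have h1 : HasDerivAt (fun r : ℝ => (r : ℂ)) 1 u := by
      simpa using (hasDerivAt_id u).ofReal_comp
    refine (((((h1.const_mul (x ^ 3)).add (((h1.pow 2).const_mul
      (3 * x ^ 2 * (y - x))).div_const 2)).add ((h1.pow 3).const_mul (x * (y - x) ^ 2))).add
      (((h1.pow 4).const_mul ((y - x) ^ 3)).div_const 4)).div_const (x ^ 3)).congr_deriv ?_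
    push_cast
    field_simp
    ring
  rw [intervalIntegral.integral_eq_sub_of_hasDerivAt hd (by
    apply Continuous.intervalIntegrable; fun_prop)]
  simp only [Complex.ofReal_one, Complex.ofReal_zero]
  field_simp
  ring

theorem int_V1 {x y : ℂ} (hx : x ≠ 0) :
    (∫ u in (0 : ℝ)..1, ((x + u * (y - x)) / x)) = (x + y) / (2 * x) := by
  have hd : ∀ u ∈ uIcc (0 : ℝ) 1, HasDerivAt (fun u : ℝ => (x * (u : ℂ) +
      (y - x) * (u : ℂ) ^ 2 / 2) / x) ((x + u * (y - x)) / x) u := by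
    intro u _
    have h1 : HasDerivAt (fun r : ℝ => (r : ℂ)) 1 u := by
      simpa using (hasDerivAt_id u).ofReal_comp
    refine (((h1.const_mul x).add (((h1.pow 2).const_mul (y - x)).div_const 2)).div_const
      x).congr_deriv ?_
    push_cast
    field_simp
  rw [intervalIntegral.integral_eq_sub_of_hasDerivAt hd (by
    apply Continuous.intervalIntegrable; fun_prop)]
  simp only [Complex.ofReal_one, Complex.ofReal_zero]
  field_simp
  ring

/-- comparison of integrals -/
theorem int_near {f g : ℝ → ℂ} {B : ℝ} (hf : ContinuousOn f (Icc (0 : ℝ) 1))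
    (hg : ContinuousOn g (Icc (0 : ℝ) 1)) (h : ∀ s ∈ Icc (0 : ℝ) 1, ‖f s - g s‖ ≤ B) :
    ‖(∫ s in (0 : ℝ)..1, f s) - ∫ s in (0 : ℝ)..1, g s‖ ≤ B := by
  have hI : uIcc (0 : ℝ) 1 = Icc 0 1 := uIcc_of_le zero_le_one
  rw [← intervalIntegral.integral_sub (ContinuousOn.intervalIntegrable (by rwa [hI]))
    (ContinuousOn.intervalIntegrable (by rwa [hI]))]
  have := intervalIntegral.norm_integral_le_of_norm_le_const (f := fun s => f s - g s) (a := 0)
    (b := 1) (C := B) (fun s hs => by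
      rw [uIoc_of_le zero_le_one] at hs
      exact h s ⟨hs.1.le, hs.2⟩)
  simpa using this

/-- integrand of `Pj` -/
theorem Pj_cont {q : ℂ → ℂ} {x y : ℂ} (hqc : ContinuousOn (fun u : ℝ => q (x + u * (y - x)))
    (Icc (0 : ℝ) 1)) (j : ℂ) :
    ContinuousOn (fun s : ℝ => Complex.exp (-2 * (q (x + s * (y - x)) - q x)) *
    Complex.exp (j * ((y - x) * ∫ s' in (0 : ℝ)..s, Complex.exp (q (x + s' * (y - x))))))
    (Icc 0 1) := by
  have hec : ContinuousOn (fun s : ℝ => Complex.exp (q (x + s * (y - x)))) (Icc (0 : ℝ) 1) :=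
    Complex.continuous_exp.comp_continuousOn hqc
  have hT : ContinuousOn (fun s : ℝ => ∫ s' in (0 : ℝ)..s, Complex.exp (q (x + s' * (y - x))))
      (Icc 0 1) := fun s hs => (hasDeriv_prim hec s hs).continuousWithinAt
  exact (Complex.continuous_exp.comp_continuousOn (continuousOn_const.mul
    (hqc.sub continuousOn_const))).mul (Complex.continuous_exp.comp_continuousOn
    (continuousOn_const.mul (continuousOn_const.mul hT)))

/-- **ML-LI** -/
theorem rLimI : RLimI := by
  intro κ β C q j hj h hlim N ε hN hε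
  have hC := C_nonneg h
  have hN0 : 0 < N := by linarith
  set K : ℝ := C * ((1 / N) ^ (β - 1) + N ^ (β - 1)) * (N + 1) with hK
  set t0 : ℝ := min 1 (ε / (2 * N ^ 3)) with ht0
  have ht0pos : 0 < t0 := by positivity
  have ht01 : t0 ≤ 1 := min_le_left _ _
  have ht02 : N ^ 3 * (2 * t0) ≤ ε := by
    have h1 : t0 ≤ ε / (2 * N ^ 3) := min_le_right _ _
    rw [le_div_iff₀ (by positivity)] at h1
    linarith
  set δ' : ℝ := t0 / (2 * (N * (N + 1))) with hδ'
  have hδ'pos : 0 < δ' := by positivity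
  -- radius for the limit
  obtain ⟨r, hr, hlr⟩ : ∃ r > 0, ∀ τ ∈ Sg κ, ‖τ‖ < r →
      ‖τ * (j * Complex.exp (q τ)) - 1‖ ≤ δ' := by
    have h1 := (Metric.tendsto_nhdsWithin_nhds.1 hlim) δ' hδ'pos
    obtain ⟨r, hr, h2⟩ := h1
    refine ⟨r, hr, fun τ hτ hτr => ?_⟩
    have h3 := h2 hτ (by simpa using hτr)
    rw [dist_eq_norm] at h3
    exact h3.le
  -- radius for the power
  obtain ⟨r2, hr2, hpow⟩ : ∃ r2 > 0, ∀ t : ℝ, 0 < t → t < r2 → K * t ^ β ≤ t0 / 4 := by
    have h1 : ContinuousAt (fun t : ℝ => K * t ^ β) 0 :=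
      continuousAt_const.mul (Real.continuousAt_rpow_const 0 β (Or.inr h.β_pos.le))
    have h2 := h1.tendsto
    simp only [Real.zero_rpow h.β_pos.ne', mul_zero] at h2
    have h3 : ∀ᶠ t : ℝ in 𝓝 0, K * t ^ β < t0 / 4 := h2.eventually (gt_mem_nhds (by positivity))
    obtain ⟨r2, hr2, h4⟩ := Metric.eventually_nhds_iff.1 h3
    refine ⟨r2, hr2, fun t ht htr => (h4 ?_).le⟩
    rw [Real.dist_eq, sub_zero, abs_of_pos ht]; exact htr
  refine ⟨min (r / N) r2, by positivity, fun x y hA hxδ => ?_⟩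
  obtain ⟨Λ, L, hch⟩ := exists_chord h hN hA
  have hseg : ∀ u ∈ Icc (0 : ℝ) 1, x + u * (y - x) ∈ Sg κ := fun u hu => (hA u hu).1
  have hx : x ∈ Sg κ := by
    have := hseg 0 ⟨le_rfl, zero_le_one⟩
    simpa using this
  have hx0 : 0 < ‖x‖ := norm_pos_iff.2 hx.1
  have hy : ‖y‖ ≤ N * ‖x‖ := by
    have := (hA 1 ⟨zero_le_one, le_rfl⟩).2.2
    simpa using this
  have hyx : ‖y - x‖ ≤ (N + 1) * ‖x‖ := by
    have := norm_sub_le y x
    linarith
  have hLs : ∀ u ∈ Icc (0 : ℝ) 1, ‖L u‖ ≤ t0 / 4 := fun u hu =>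
    (hch.L_bd u hu).trans (hpow _ hx0 (hxδ.trans_le (min_le_right _ _)))
  have hec : ContinuousOn (fun s : ℝ => Complex.exp (q (x + s * (y - x)))) (Icc (0 : ℝ) 1) :=
    Complex.continuous_exp.comp_continuousOn hch.contQ
  set T : ℝ → ℂ := fun s => ∫ s' in (0 : ℝ)..s, Complex.exp (q (x + s' * (y - x))) with hT
  set E : ℝ → ℂ := fun s => j * ((y - x) * T s) - Λ s with hE
  have hEs : ∀ s ∈ Icc (0 : ℝ) 1, ‖E s‖ ≤ t0 / 2 := by
    intro s hs
    have key := norm_image_sub_le_of_norm_deriv_le_segment' (f := E)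
      (f' := fun u : ℝ => j * ((y - x) * Complex.exp (q (x + u * (y - x)))) -
        (y - x) / (x + u * (y - x))) (a := 0) (b := 1) (C := t0 / 2)
      (fun u hu => (((hasDeriv_prim hec u hu).const_mul (y - x)).const_mul j).sub
        (hch.Λ_der u hu).hasDerivWithinAt) (fun u hu => ?_) s hs
    · have hE0 : E 0 = 0 := by simp [hE, hT, hch.Λ_zero]
      rw [hE0, sub_zero, sub_zero] at key
      refine key.trans ?_
      exact mul_le_of_le_one_right (by positivity) hs.2
    · have hu' : u ∈ Icc (0 : ℝ) 1 := ⟨hu.1, hu.2.le⟩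
      obtain ⟨h1, h2, h3⟩ := hA u hu'
      have h0 := h1.1
      have h0n : 0 < ‖x + u * (y - x)‖ := norm_pos_iff.2 h0
      have e1 : j * ((y - x) * Complex.exp (q (x + u * (y - x)))) - (y - x) / (x + u * (y - x)) =
          (y - x) / (x + u * (y - x)) * ((x + u * (y - x)) *
            (j * Complex.exp (q (x + u * (y - x)))) - 1) := by
        have e0 : ∀ a z E : ℂ, z ≠ 0 → j * (a * E) - a / z = a / z * (z * (j * E) - 1) := by
          intro a z E hz; field_simp
        exact e0 _ _ _ h0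
      rw [e1, norm_mul, norm_div]
      have h4 : ‖y - x‖ / ‖x + u * (y - x)‖ ≤ N * (N + 1) := by
        rw [div_le_iff₀ h0n]
        calc ‖y - x‖ ≤ (N + 1) * ‖x‖ := hyx
          _ ≤ (N + 1) * (N * ‖x + u * (y - x)‖) := by gcongr
          _ = _ := by ring
      have h5 := hlr _ h1 (by
        have h6 := hxδ.trans_le (min_le_left _ _)
        rw [lt_div_iff₀ hN0] at h6
        linarith)
      calc ‖y - x‖ / ‖x + u * (y - x)‖ * _ ≤ (N * (N + 1)) * δ' := by gcongr
        _ = t0 / 2 := by rw [hδ']; field_simp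
  have hVn : ∀ u ∈ Icc (0 : ℝ) 1, ‖(x + u * (y - x)) / x‖ ≤ N := by
    intro u hu
    rw [norm_div, div_le_iff₀ hx0]
    exact (hA u hu).2.2
  have hexp : ∀ a : ℂ, ‖a‖ ≤ t0 → ‖Complex.exp a - 1‖ ≤ 2 * t0 := by
    intro a ha
    have := Complex.norm_exp_sub_one_le (ha.trans ht01)
    linarith
  have hcV : Continuous fun u : ℝ => (x + u * (y - x)) / x := by fun_prop
  have hPc := fun i : ℂ => Pj_cont (q := q) (x := x) (y := y) hch.contQ i
  constructor
  · rw [← int_V3 hx.1]
    unfold Pj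
    refine (int_near (hPc j) (g := fun u : ℝ => ((x + u * (y - x)) / x) ^ 3)
      (by fun_prop) (B := N ^ 3 * (2 * t0)) ?_).trans ht02
    intro s hs
    have e1 : Complex.exp (-2 * (q (x + s * (y - x)) - q x)) * Complex.exp (j * ((y - x) *
        ∫ s' in (0 : ℝ)..s, Complex.exp (q (x + s' * (y - x))))) =
        ((x + s * (y - x)) / x) ^ 3 * Complex.exp (E s - 2 * L s) := by
      rw [hch.dec s hs, ← hch.Λ_exp s hs, ← Complex.exp_nat_mul, ← Complex.exp_add,
        ← Complex.exp_add]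
      congr 1
      simp only [hE, hT]
      push_cast
      ring
    rw [e1, ← mul_sub_one, norm_mul, norm_pow]
    have h2 : ‖E s - 2 * L s‖ ≤ t0 := by
      have h3 := norm_sub_le (E s) (2 * L s)
      rw [norm_mul, Complex.norm_ofNat] at h3
      have := hEs s hs
      have := hLs s hs
      linarith
    have h4 := hexp _ h2
    have h5 := hVn s hs
    gcongr
  · rw [← int_V1 hx.1]
    unfold Pj
    refine (int_near (hPc (-j)) hcV.continuousOn (B := N * (2 * t0)) ?_).trans ?_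
    · intro s hs
      have e1 : Complex.exp (-2 * (q (x + s * (y - x)) - q x)) * Complex.exp (-j * ((y - x) *
          ∫ s' in (0 : ℝ)..s, Complex.exp (q (x + s' * (y - x))))) =
          ((x + s * (y - x)) / x) * Complex.exp (-E s - 2 * L s) := by
        rw [hch.dec s hs, ← hch.Λ_exp s hs, ← Complex.exp_add, ← Complex.exp_add]
        congr 1
        simp only [hE, hT]
        push_cast
        ring
      rw [e1, ← mul_sub_one, norm_mul]
      have h2 : ‖-E s - 2 * L s‖ ≤ t0 := by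
        have h3 := norm_sub_le (-E s) (2 * L s)
        rw [norm_mul, norm_neg, Complex.norm_ofNat] at h3
        have := hEs s hs
        have := hLs s hs
        linarith
      have h4 := hexp _ h2
      have h5 := hVn s hs
      gcongr
    · have h1 : N ≤ N ^ 3 := by nlinarith [mul_pos hN0 hN0]
      have h2 : N * (2 * t0) ≤ N ^ 3 * (2 * t0) := by gcongr
      linarith

end Crest.Agent.R102.Mel
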