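import Crest.Agent.R102.MelIDefs_963
import Crest.Agent.R102.RLimI_231

/-!
# T5 MEL-I: leaf (I1) `ELim` (helper231)
-/

set_option autoImplicit false

open Set Filter Topology Metric MeasureTheory
open scoped ComplexConjugate

noncomputable section

namespace Crest.Agent.R102.MelI963

open Crest.Agent.R102.T5R Crest.Agent.R102.Mel Crest.Agent.R102.T5R.L4346

namespace I1

variable {κ β C : ℝ} {q : ℂ → ℂ} {j : ℂ}

theorem mem_ray {e : ℂ} (he : ‖e‖ = 1) (hei : e.im < κ) {r : ℝ} (hr : 0 < r) (hr1 : r < 1) :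
    (r : ℂ) * e ∈ Sg κ := by
  have hn : ‖(r : ℂ) * e‖ = r := by
    rw [norm_mul, Complex.norm_real, he, mul_one, Real.norm_eq_abs, abs_of_pos hr]
  refine ⟨norm_pos_iff.1 (by rw [hn]; exact hr), by rw [hn]; exact hr1, ?_⟩
  rw [hn, Complex.im_ofReal_mul]
  nlinarith

/-- `|v - 1| ≤ K |τ|^β` -/
theorem v_bound (h : EndQ κ (-1) β C q)
    (hlim : Tendsto (fun τ => τ * (j * Complex.exp (q τ))) (𝓝[Sg κ] 0) (𝓝 1)) {τ : ℂ}
    (hτ : τ ∈ Sg κ) (hs : C / β * ‖τ‖ ^ β ≤ 1) :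
    ‖τ * (j * Complex.exp (q τ)) - 1‖ ≤ 2 * (C / β * ‖τ‖ ^ β) := by
  have hτ0 : 0 < ‖τ‖ := norm_pos_iff.2 hτ.1
  set b : ℝ := ‖τ‖ with hb
  set e : ℂ := τ / (b : ℂ) with he
  have hbc : (b : ℂ) ≠ 0 := by exact_mod_cast hτ0.ne'
  have hen : ‖e‖ = 1 := by
    rw [he, norm_div, Complex.norm_real, Real.norm_of_nonneg hτ0.le, ← hb, div_self hτ0.ne']
  have hei : e.im < κ := by
    rw [he, Complex.div_ofReal_im, div_lt_iff₀ hτ0]
    exact hτ.2.2
  have hbe : (b : ℂ) * e = τ := by rw [he]; field_simp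
  set D : ℝ := C / β * b ^ β with hD
  have hb1 : b < 1 := hτ.2.1
  -- for every `a ≤ b`
  have key : ∀ a : ℝ, 0 < a → a ≤ b →
      ‖τ * (j * Complex.exp (q τ)) - (a * e) * (j * Complex.exp (q (a * e)))‖ ≤
        ‖(a * e) * (j * Complex.exp (q (a * e)))‖ * (2 * D) := by
    intro a ha hab
    have h1 := radial h hen hei ha hab hb1
    rw [hbe] at h1
    set δ : ℂ := (q τ - ((-1 : ℝ) : ℂ) * Real.log b) - (q (a * e) - ((-1 : ℝ) : ℂ) * Real.log a)
      with hδ
    have hac : (a : ℂ) ≠ 0 := by exact_mod_cast ha.ne'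
    have e1 : τ * (j * Complex.exp (q τ)) =
        (a * e) * (j * Complex.exp (q (a * e))) * Complex.exp δ := by
      have e2 : Complex.exp δ = Complex.exp (q τ) / Complex.exp (q (a * e)) * (b / a) := by
        rw [hδ]
        have e3 : (q τ - ((-1 : ℝ) : ℂ) * Real.log b) -
            (q (a * e) - ((-1 : ℝ) : ℂ) * Real.log a) =
            q τ - q (a * e) + (Real.log b - Real.log a : ℝ) := by push_cast; ring
        rw [e3, Complex.exp_add, Complex.exp_sub, ← Real.log_div hτ0.ne' ha.ne',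
          ← Complex.ofReal_exp, Real.exp_log (by positivity)]
        push_cast
        ring
      rw [e2]
      have := Complex.exp_ne_zero (q (a * e))
      rw [← hbe]
      field_simp
    rw [e1, ← mul_sub_one, norm_mul]
    have h2 := Complex.norm_exp_sub_one_le (h1.trans hs)
    gcongr
    linarith
  -- `a → 0`
  have hray : Tendsto (fun a : ℝ => (a : ℂ) * e) (𝓝[>] 0) (𝓝[Sg κ] 0) := by
    rw [tendsto_nhdsWithin_iff]
    constructor
    · have h1 : Continuous (fun l : ℝ => (l : ℂ) * e) := by fun_prop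
      have h2 := h1.tendsto 0
      simp only [Complex.ofReal_zero, zero_mul] at h2
      exact h2.mono_left nhdsWithin_le_nhds
    · filter_upwards [Ioo_mem_nhdsGT one_pos] with a ha
      exact mem_ray hen hei ha.1 ha.2
  have hlim2 := hlim.comp hray
  have h3 : Tendsto (fun a : ℝ => ‖τ * (j * Complex.exp (q τ)) -
      (a * e) * (j * Complex.exp (q (a * e)))‖) (𝓝[>] 0)
      (𝓝 ‖τ * (j * Complex.exp (q τ)) - 1‖) := (tendsto_const_nhds.sub hlim2).norm
  have h4 : Tendsto (fun a : ℝ => ‖(a * e) * (j * Complex.exp (q (a * e)))‖ * (2 * D)) (𝓝[>] 0)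
      (𝓝 (‖(1 : ℂ)‖ * (2 * D))) := hlim2.norm.mul_const _
  rw [norm_one, one_mul] at h4
  refine le_of_tendsto_of_tendsto h3 h4 ?_
  filter_upwards [Ioc_mem_nhdsGT hτ0] with a ha
  exact key a ha.1 ha.2

variable {σ : ℂ} {M E Z Zc : ℂ → ℂ}

theorem E_ne (hM : Slope κ q j M) (hP : Pos κ q j σ M E Z Zc) {τ : ℂ} (hτ : τ ∈ Sg κ) :
    E τ ≠ 0 := by
  intro h0
  have := hP.E_sq τ hτ
  rw [h0] at this
  exact hM.ne τ hτ (by rw [← this]; simp)

/-- `E' = j e^q E` -/
theorem E_der (hM : Slope κ q j M) (hP : Pos κ q j σ M E Z Zc) {τ : ℂ} (hτ : τ ∈ Sg κ) :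
    HasDerivAt E (j * Complex.exp (q τ) * E τ) τ := by
  have hopen := isOpen_Sg κ
  have hE : HasDerivAt E (deriv E τ) τ :=
    (hP.E_diff.differentiableAt (hopen.mem_nhds hτ)).hasDerivAt
  have h1 : HasDerivAt (fun t => E t ^ 2) (2 * E τ * deriv E τ) τ := by
    have := hE.fun_pow 2
    simpa using this
  have h2 : HasDerivAt M (2 * j * Complex.exp (q τ) * M τ) τ := by
    rw [← hM.der τ hτ]
    exact (hM.diff.differentiableAt (hopen.mem_nhds hτ)).hasDerivAt
  have h3 : (fun t => E t ^ 2) =ᶠ[𝓝 τ] M := by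
    filter_upwards [hopen.mem_nhds hτ] with t ht
    exact hP.E_sq t ht
  have h4 := h1.congr_of_eventuallyEq h3.symm
  have h5 := h4.unique h2
  have h6 := hP.E_sq τ hτ
  have h7 := E_ne hM hP hτ
  have h8 : deriv E τ = j * Complex.exp (q τ) * E τ := by
    have : 2 * E τ * (deriv E τ - j * Complex.exp (q τ) * E τ) = 0 := by
      rw [← h6] at h5
      linear_combination h5
    rcases mul_eq_zero.1 this with h | h
    · exact absurd (mul_eq_zero.1 h) (by simp [h7])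
    · exact sub_eq_zero.1 h
  rw [← h8]
  exact hE

/-- the ratio formula along a segment -/
theorem seg_ratio (h : EndQ κ (-1) β C q) (hM : Slope κ q j M) (hP : Pos κ q j σ M E Z Zc)
    {x y : ℂ} (hseg : ∀ u ∈ Icc (0 : ℝ) 1, x + u * (y - x) ∈ Sg κ) :
    ∃ Er : ℝ → ℂ, Er 0 = 0 ∧
      (∀ u ∈ Icc (0 : ℝ) 1, E (x + u * (y - x)) / (x + u * (y - x)) =
        E x / x * Complex.exp (Er u)) ∧
      ∀ u ∈ Icc (0 : ℝ) 1, HasDerivWithinAt Er ((y - x) / (x + u * (y - x)) *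
        ((x + u * (y - x)) * (j * Complex.exp (q (x + u * (y - x)))) - 1)) (Icc 0 1) u := by
  have hx : x ∈ Sg κ := by
    have := hseg 0 ⟨le_rfl, zero_le_one⟩
    simpa using this
  have hopen := isOpen_Sg κ
  have hec : ContinuousOn (fun s : ℝ => Complex.exp (q (x + s * (y - x)))) (Icc (0 : ℝ) 1) :=
    Complex.continuous_exp.comp_continuousOn (exp_gg_cont h.diff hseg)
  have hslit := seg_slit hx.1 (fun u hu => (hseg u hu).1)
  set Λ : ℝ → ℂ := fun u => Complex.log ((x + u * (y - x)) / x) with hΛ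
  have hzd : ∀ u : ℝ, HasDerivAt (fun u : ℝ => x + (u : ℂ) * (y - x)) (y - x) u := by
    intro u
    have h2 : HasDerivAt (fun u : ℝ => (u : ℂ) * (y - x)) (y - x) u := by
      simpa using ((hasDerivAt_id u).ofReal_comp).mul_const (y - x)
    exact h2.const_add x
  have hΛd : ∀ u ∈ Icc (0 : ℝ) 1, HasDerivAt Λ ((y - x) / (x + u * (y - x))) u := by
    intro u hu
    refine (((hzd u).div_const x).clog_real (hslit u hu)).congr_deriv ?_
    have := (hseg u hu).1
    have := hx.1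
    field_simp
  set T : ℝ → ℂ := fun s => ∫ r in (0 : ℝ)..s, Complex.exp (q (x + r * (y - x))) with hT
  have hTd := hasDeriv_prim hec
  set Er : ℝ → ℂ := fun u => j * ((y - x) * T u) - Λ u with hEr
  have hErd : ∀ u ∈ Icc (0 : ℝ) 1, HasDerivWithinAt Er ((y - x) / (x + u * (y - x)) *
        ((x + u * (y - x)) * (j * Complex.exp (q (x + u * (y - x)))) - 1)) (Icc 0 1) u := by
    intro u hu
    refine ((((hTd u hu).const_mul (y - x)).const_mul j).sub
      (hΛd u hu).hasDerivWithinAt).congr_deriv ?_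
    have e0 : ∀ a z E : ℂ, z ≠ 0 → j * (a * E) - a / z = a / z * (z * (j * E) - 1) := by
      intro a z E hz; field_simp
    exact e0 _ _ _ (hseg u hu).1
  have hEr0 : Er 0 = 0 := by simp [hEr, hT, hΛ, hx.1]
  refine ⟨Er, hEr0, ?_, hErd⟩
  -- constancy
  set F : ℝ → ℂ := fun u => E (x + u * (y - x)) / (x + u * (y - x)) * Complex.exp (-(Er u)) with hF
  have hFd : ∀ u ∈ Icc (0 : ℝ) 1, HasDerivWithinAt F 0 (Icc 0 1) u := by
    intro u hu
    have hz := hseg u hu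
    have h1 : HasDerivAt (fun u : ℝ => E (x + u * (y - x)))
        (j * Complex.exp (q (x + u * (y - x))) * E (x + u * (y - x)) * (y - x)) u :=
      HasDerivAt.comp_of_eq u (E_der hM hP hz) (hzd u) rfl
    have h2 := (h1.div (hzd u) hz.1).hasDerivWithinAt (s := Icc 0 1)
    have h3 := (hErd u hu).neg.cexp
    refine (h2.mul h3).congr_deriv ?_
    simp only [Pi.neg_apply]
    have := hz.1
    have e0 : ∀ z a e E x : ℂ, z ≠ 0 → (j * e * E * a * z - E * a) / z ^ 2 * x +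
        E / z * (x * -(a / z * (z * (j * e) - 1))) = 0 := by
      intro z a e E x hz; field_simp; ring
    exact e0 _ _ _ _ _ this
  have hconst : ∀ s ∈ Icc (0 : ℝ) 1, F s = F 0 := by
    have hFc : ContinuousOn F (Icc 0 1) := fun s hs => (hFd s hs).continuousWithinAt
    intro s hs
    refine constant_of_has_deriv_right_zero hFc (fun t ht => ?_) s hs
    exact (hFd t ⟨ht.1, ht.2.le⟩).mono_of_mem_nhdsWithin (Icc_mem_nhdsGE_of_mem ht)
  intro u hu
  have h1 := hconst u hu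
  simp only [hF, hEr0, Complex.ofReal_zero, zero_mul, add_zero, neg_zero, Complex.exp_zero,
    mul_one] at h1
  rw [← h1, mul_assoc, ← Complex.exp_add, neg_add_cancel, Complex.exp_zero, mul_one]

/-- radial ratio -/
theorem radial_ratio (h : EndQ κ (-1) β C q)
    (hlim : Tendsto (fun τ => τ * (j * Complex.exp (q τ))) (𝓝[Sg κ] 0) (𝓝 1))
    (hM : Slope κ q j M) (hP : Pos κ q j σ M E Z Zc) {e : ℂ} (he : ‖e‖ = 1) (hei : e.im < κ)
    {a b : ℝ} (ha : 0 < a) (hab : a ≤ b) (hb : b < 1) (hs : C / β * b ^ β ≤ 1) :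
    ∃ δ : ℂ, ‖δ‖ ≤ 2 * (C / β) / β * b ^ β ∧
      E (b * e) / (b * e) = E (a * e) / (a * e) * Complex.exp δ := by
  have hC := C_nonneg h
  have hβ := h.β_pos
  have hz : ∀ u : ℝ, (a : ℂ) * e + u * (b * e - a * e) = ((a + u * (b - a) : ℝ) : ℂ) * e := by
    intro u; push_cast; ring
  have hr : ∀ u ∈ Icc (0 : ℝ) 1, a ≤ a + u * (b - a) ∧ a + u * (b - a) ≤ b := by
    intro u hu
    have h1 : 0 ≤ u * (b - a) := mul_nonneg hu.1 (by linarith)
    have h2 : u * (b - a) ≤ b - a := mul_le_of_le_one_left (by linarith) hu.2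
    constructor <;> linarith
  have hseg : ∀ u ∈ Icc (0 : ℝ) 1, (a : ℂ) * e + u * (b * e - a * e) ∈ Sg κ := by
    intro u hu
    rw [hz]
    obtain ⟨h1, h2⟩ := hr u hu
    exact mem_ray he hei (by linarith) (by linarith)
  obtain ⟨Er, h0, hfo, hd⟩ := seg_ratio h hM hP hseg
  refine ⟨Er 1, ?_, ?_⟩
  · have key := image_norm_le_of_norm_deriv_right_le_deriv_boundary' (f := Er)
      (f' := fun u : ℝ => (b * e - a * e) / ((a : ℂ) * e + u * (b * e - a * e)) *
        (((a : ℂ) * e + u * (b * e - a * e)) *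
          (j * Complex.exp (q ((a : ℂ) * e + u * (b * e - a * e)))) - 1))
      (a := 0) (b := 1) (B := fun u => 2 * (C / β) / β * (a + u * (b - a)) ^ β)
      (B' := fun u => 2 * (C / β) * ((a + u * (b - a)) ^ (β - 1) * (b - a)))
      (fun u hu => (hd u hu).continuousWithinAt)
      (fun u hu => (hd u ⟨hu.1, hu.2.le⟩).mono_of_mem_nhdsWithin (Icc_mem_nhdsGE_of_mem hu))
      (by
        rw [h0, norm_zero]
        have : 0 ≤ (a + 0 * (b - a)) ^ β := Real.rpow_nonneg (by linarith) _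
        positivity)
      (by
        intro u hu
        obtain ⟨h1, h2⟩ := hr u hu
        have h3 : ContinuousAt (fun u : ℝ => (a + u * (b - a)) ^ β) u :=
          ContinuousAt.rpow_const (by fun_prop) (Or.inl (by linarith))
        exact (h3.const_mul _).continuousWithinAt)
      (by
        intro u hu
        obtain ⟨h1, h2⟩ := hr u ⟨hu.1, hu.2.le⟩
        have h3 : HasDerivAt (fun u : ℝ => a + u * (b - a)) (b - a) u := by
          simpa using ((hasDerivAt_id u).mul_const (b - a)).const_add a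
        have h4 := (h3.rpow_const (p := β) (Or.inl (by linarith))).const_mul (2 * (C / β) / β)
        refine (h4.congr_deriv ?_).hasDerivWithinAt
        field_simp)
      (by
        intro u hu
        have hu' : u ∈ Icc (0 : ℝ) 1 := ⟨hu.1, hu.2.le⟩
        obtain ⟨h1, h2⟩ := hr u hu'
        have hpos : 0 < a + u * (b - a) := by linarith
        have hm := hseg u hu'
        have hn : ‖(a : ℂ) * e + u * (b * e - a * e)‖ = a + u * (b - a) := by
          rw [hz, norm_mul, Complex.norm_real, he, mul_one, Real.norm_of_nonneg hpos.le]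
        have hmono : (a + u * (b - a)) ^ β ≤ b ^ β := Real.rpow_le_rpow hpos.le h2 hβ.le
        have hv := v_bound h hlim hm (by
          rw [hn]
          refine le_trans ?_ hs
          have : 0 ≤ C / β := by positivity
          gcongr)
        rw [hn] at hv
        have hba : ‖(b * e - a * e : ℂ)‖ = b - a := by
          have : (b * e - a * e : ℂ) = ((b - a : ℝ) : ℂ) * e := by push_cast; ring
          rw [this, norm_mul, Complex.norm_real, he, mul_one, Real.norm_of_nonneg (by linarith)]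
        rw [norm_mul, norm_div, hn, hba]
        have h5 : (a + u * (b - a)) ^ (β - 1) = (a + u * (b - a)) ^ β / (a + u * (b - a)) :=
          Real.rpow_sub_one hpos.ne' β
        rw [h5]
        have h6 : 0 ≤ (b - a) / (a + u * (b - a)) := div_nonneg (by linarith) hpos.le
        calc (b - a) / (a + u * (b - a)) * _ ≤
            (b - a) / (a + u * (b - a)) * (2 * (C / β * (a + u * (b - a)) ^ β)) := by gcongr
          _ = _ := by field_simp)
    have h1 := key (right_mem_Icc.2 zero_le_one)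
    rw [show a + 1 * (b - a) = b by ring] at h1
    exact h1
  · have h1 := hfo 1 ⟨zero_le_one, le_rfl⟩
    rw [Complex.ofReal_one, one_mul] at h1
    rw [show (a : ℂ) * e + (b * e - a * e) = b * e by ring] at h1
    exact h1

/-- the segment from `-i r` to a point of norm `r` -/
theorem chord_mem (hκ : 0 < κ) (hκ1 : κ < 1) {x : ℂ} (hx : x ∈ Sg κ) {u : ℝ}
    (hu : u ∈ Icc (0 : ℝ) 1) :
    -Complex.I * (‖x‖ : ℂ) + u * (x - -Complex.I * (‖x‖ : ℂ)) ∈ Sg κ ∧
      (1 - κ) / 2 * ‖x‖ ≤ ‖-Complex.I * (‖x‖ : ℂ) + u * (x - -Complex.I * (‖x‖ : ℂ))‖ ∧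
      ‖-Complex.I * (‖x‖ : ℂ) + u * (x - -Complex.I * (‖x‖ : ℂ))‖ ≤ ‖x‖ := by
  have hx0 : 0 < ‖x‖ := norm_pos_iff.2 hx.1
  set r : ℝ := ‖x‖ with hr
  set z : ℂ := -Complex.I * (r : ℂ) + u * (x - -Complex.I * (r : ℂ)) with hz
  have hzre : z.re = u * x.re := by rw [hz]; simp
  have hzim : z.im = u * x.im - (1 - u) * r := by rw [hz]; simp; ring
  have hxim : x.im < κ * r := hx.2.2
  have hr2 : r ^ 2 = x.re ^ 2 + x.im ^ 2 := by
    rw [hr, Complex.sq_norm, Complex.normSq_apply]; ring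
  have hzn : ‖z‖ ^ 2 = z.re ^ 2 + z.im ^ 2 := by
    rw [Complex.sq_norm, Complex.normSq_apply]; ring
  have hu0 := hu.1
  have hu1 : 0 ≤ 1 - u := by linarith [hu.2]
  have hlow : ((1 - κ) / 2 * r) ^ 2 ≤ ‖z‖ ^ 2 := by
    rw [hzn, hzre, hzim]
    have e1 : (u * x.re) ^ 2 + (u * x.im - (1 - u) * r) ^ 2 =
        u ^ 2 * r ^ 2 + (1 - u) ^ 2 * r ^ 2 - 2 * (u * (1 - u)) * (x.im * r) := by
      rw [hr2]; ring_nf; rw [hr2]; ring
    rw [e1]
    have h1 : x.im * r ≤ κ * r * r := by nlinarith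
    have h2 : 0 ≤ u * (1 - u) := mul_nonneg hu0 hu1
    have h3 : (u * (1 - u)) * (x.im * r) ≤ (u * (1 - u)) * (κ * r * r) := by gcongr
    have h4 : u * (1 - u) ≤ 1 / 4 := by nlinarith [sq_nonneg (2 * u - 1)]
    have h5 : 0 ≤ r ^ 2 := sq_nonneg _
    have h6 : (u * (1 - u)) * ((1 + κ) * r ^ 2) ≤ 1 / 4 * ((1 + κ) * r ^ 2) := by gcongr
    have h7 : (1 - κ) ^ 2 / 4 * r ^ 2 ≤ (1 - κ) / 2 * r ^ 2 := by
      have : (1 - κ) ^ 2 / 4 ≤ (1 - κ) / 2 := by nlinarith
      gcongr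
    nlinarith
  have hlow' : (1 - κ) / 2 * r ≤ ‖z‖ :=
    (pow_le_pow_iff_left₀ (by
      have : 0 < 1 - κ := by linarith
      positivity) (norm_nonneg _) two_ne_zero).1 hlow
  have hzpos : 0 < ‖z‖ := lt_of_lt_of_le (by
    have : 0 < 1 - κ := by linarith
    positivity) hlow'
  have hup : ‖z‖ ≤ r := by
    have e1 : z = ((1 - u : ℝ) : ℂ) * (-Complex.I * (r : ℂ)) + (u : ℂ) * x := by
      rw [hz]; push_cast; ring
    rw [e1]
    refine (norm_add_le _ _).trans ?_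
    rw [norm_mul, norm_mul, norm_mul, norm_neg, Complex.norm_I, Complex.norm_real,
      Complex.norm_real, Complex.norm_real, Real.norm_of_nonneg hu1, Real.norm_of_nonneg hu0,
      Real.norm_of_nonneg hx0.le, ← hr]
    linarith
  refine ⟨⟨norm_pos_iff.1 hzpos, hup.trans_lt hx.2.1, ?_⟩, hlow', hup⟩
  -- the sector condition
  by_cases hneg : x.im ≤ 0
  · have h1 : z.im ≤ 0 := by
      rw [hzim]
      nlinarith [mul_nonneg hu1 hx0.le]
    have : 0 < κ * ‖z‖ := by positivity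
    linarith
  · push Not at hneg
    have h1 : z.im ≤ u * x.im := by
      rw [hzim]; nlinarith [mul_nonneg hu1 hx0.le]
    by_cases hz0 : z.im ≤ 0
    · have : 0 < κ * ‖z‖ := by positivity
      linarith
    push Not at hz0
    -- `x.im ^ 2 (1 - κ²) < κ² x.re²`
    have h2 : x.im ^ 2 * (1 - κ ^ 2) < κ ^ 2 * x.re ^ 2 := by
      have : x.im ^ 2 < (κ * r) ^ 2 := by
        apply pow_lt_pow_left₀ hxim hneg.le two_ne_zero
      nlinarith
    have hu0' : 0 < u := by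
      rcases hu0.lt_or_eq with h | h
      · exact h
      · rw [hzim, ← h] at hz0; linarith
    have h3 : z.im ^ 2 * (1 - κ ^ 2) < κ ^ 2 * z.re ^ 2 := by
      have h4 : z.im ^ 2 ≤ (u * x.im) ^ 2 := pow_le_pow_left₀ hz0.le h1 2
      have h5 : 0 < 1 - κ ^ 2 := by nlinarith
      calc z.im ^ 2 * (1 - κ ^ 2) ≤ (u * x.im) ^ 2 * (1 - κ ^ 2) := by gcongr
        _ = u ^ 2 * (x.im ^ 2 * (1 - κ ^ 2)) := by ring
        _ < u ^ 2 * (κ ^ 2 * x.re ^ 2) := by gcongr
        _ = κ ^ 2 * z.re ^ 2 := by rw [hzre]; ring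
    have h6 : z.im ^ 2 < (κ * ‖z‖) ^ 2 := by
      rw [mul_pow, hzn]; nlinarith
    exact lt_of_pow_lt_pow_left₀ 2 (by positivity) h6

/-- chord ratio -/
theorem chord_ratio (h : EndQ κ (-1) β C q)
    (hlim : Tendsto (fun τ => τ * (j * Complex.exp (q τ))) (𝓝[Sg κ] 0) (𝓝 1))
    (hM : Slope κ q j M) (hP : Pos κ q j σ M E Z Zc) {x : ℂ} (hx : x ∈ Sg κ)
    (hs : C / β * ‖x‖ ^ β ≤ 1) :
    ∃ δ : ℂ, ‖δ‖ ≤ 8 / (1 - κ) * (C / β) * ‖x‖ ^ β ∧
      E x / x = E (-Complex.I * (‖x‖ : ℂ)) / (-Complex.I * (‖x‖ : ℂ)) * Complex.exp δ := by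
  have hC := C_nonneg h
  have hβ := h.β_pos
  have hκ := h.κ_pos
  have hκ1 : 0 < 1 - κ := by linarith [h.κ_lt]
  have hx0 : 0 < ‖x‖ := norm_pos_iff.2 hx.1
  have hmem := fun (u : ℝ) (hu : u ∈ Icc (0 : ℝ) 1) => chord_mem hκ h.κ_lt hx hu
  obtain ⟨Er, h0, hfo, hd⟩ := seg_ratio h hM hP (fun u hu => (hmem u hu).1)
  refine ⟨Er 1, ?_, ?_⟩
  · have key := norm_image_sub_le_of_norm_deriv_le_segment_01' (f := Er)
      (C := 8 / (1 - κ) * (C / β) * ‖x‖ ^ β) (fun u hu => hd u hu) (fun u hu => ?_)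
    · rwa [h0, sub_zero] at key
    · obtain ⟨m1, m2, m3⟩ := hmem u ⟨hu.1, hu.2.le⟩
      set z : ℂ := -Complex.I * (‖x‖ : ℂ) + u * (x - -Complex.I * (‖x‖ : ℂ)) with hz
      have hzpos : 0 < ‖z‖ := norm_pos_iff.2 m1.1
      have hmono : ‖z‖ ^ β ≤ ‖x‖ ^ β := Real.rpow_le_rpow hzpos.le m3 hβ.le
      have hv := v_bound h hlim m1 (by
        refine le_trans ?_ hs
        have : 0 ≤ C / β := by positivity
        gcongr)
      have hnum : ‖x - -Complex.I * (‖x‖ : ℂ)‖ ≤ 2 * ‖x‖ := by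
        refine (norm_sub_le _ _).trans ?_
        rw [norm_mul, norm_neg, Complex.norm_I, one_mul, Complex.norm_real, norm_norm]
        linarith
      rw [norm_mul, norm_div]
      have h4 : ‖x - -Complex.I * (‖x‖ : ℂ)‖ / ‖z‖ ≤ 4 / (1 - κ) := by
        rw [div_le_div_iff₀ hzpos hκ1]
        nlinarith
      have hCβ : 0 ≤ C / β := by positivity
      calc ‖x - -Complex.I * (‖x‖ : ℂ)‖ / ‖z‖ * ‖z * (j * Complex.exp (q z)) - 1‖
          ≤ 4 / (1 - κ) * (2 * (C / β * ‖z‖ ^ β)) := by gcongr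
        _ ≤ 4 / (1 - κ) * (2 * (C / β * ‖x‖ ^ β)) := by gcongr
        _ = _ := by ring
  · have h1 := hfo 1 ⟨zero_le_one, le_rfl⟩
    rw [Complex.ofReal_one, one_mul] at h1
    rw [show -Complex.I * (‖x‖ : ℂ) + (x - -Complex.I * (‖x‖ : ℂ)) = x by ring] at h1
    exact h1

end I1

open I1 in
/-- **(I1)** -/
theorem eLim : ELim := by
  intro κ β C q j σ M E Z Zc hj h hlim hM hP
  have hC := C_nonneg h
  have hβ := h.β_pos
  have hκ := h.κ_pos
  have hκ1 : 0 < 1 - κ := by linarith [h.κ_lt]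
  have hCβ : 0 ≤ C / β := by positivity
  set A1 : ℝ := 2 * (C / β) / β with hA1
  set A2 : ℝ := 8 / (1 - κ) * (C / β) with hA2
  have hA10 : 0 ≤ A1 := by positivity
  have hA20 : 0 ≤ A2 := by positivity
  -- powers tend to zero
  have hpow : Tendsto (fun r : ℝ => r ^ β) (𝓝[>] 0) (𝓝 0) := by
    have h1 : ContinuousAt (fun t : ℝ => t ^ β) 0 := Real.continuousAt_rpow_const 0 β (Or.inr hβ.le)
    have h2 := h1.tendsto
    simp only [Real.zero_rpow hβ.ne'] at h2
    exact h2.mono_left nhdsWithin_le_nhds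
  have hpowc : ∀ A ε : ℝ, 0 < ε → ∀ᶠ r : ℝ in 𝓝[>] 0, A * r ^ β < ε := by
    intro A ε hε
    have h1 := hpow.const_mul A
    rw [mul_zero] at h1
    exact h1.eventually (gt_mem_nhds hε)
  obtain ⟨r1, ⟨⟨hs1, hs2⟩, hs3⟩, hr12⟩ := ((((hpowc (C / β) 1 one_pos).and
    (hpowc A1 1 one_pos)).and (hpowc A2 1 one_pos)).and
    (Ioo_mem_nhdsGT (show (0 : ℝ) < 1 / 2 by norm_num))).exists
  have hr1pos : 0 < r1 := hr12.1
  have hr1h : r1 < 1 / 2 := hr12.2
  have hmono : ∀ a b : ℝ, 0 < a → a ≤ b → a ^ β ≤ b ^ β := fun a b ha hab =>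
    Real.rpow_le_rpow ha.le hab hβ.le
  set e0 : ℂ := -Complex.I with he0
  have he0n : ‖e0‖ = 1 := by rw [he0, norm_neg, Complex.norm_I]
  have he0i : e0.im < κ := by rw [he0]; simp; linarith
  set φ : ℝ → ℂ := fun r => E (r * e0) / (r * e0) with hφ
  have hrad : ∀ a b : ℝ, 0 < a → a ≤ b → b ≤ r1 →
      ∃ δ : ℂ, ‖δ‖ ≤ A1 * b ^ β ∧ ‖δ‖ ≤ 1 ∧ φ b = φ a * Complex.exp δ := by
    intro a b ha hab hb
    have hb0 : 0 < b := by linarith
    have m1 := hmono b r1 hb0 hb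
    obtain ⟨δ, hδ, hδe⟩ := radial_ratio h hlim hM hP he0n he0i ha hab (by linarith)
      (by nlinarith)
    refine ⟨δ, hδ, ?_, hδe⟩
    refine hδ.trans ?_
    nlinarith
  have hexp1 : Real.exp 1 ≤ 3 := by
    have := Real.exp_one_lt_d9
    linarith
  set m0 : ℝ := ‖φ r1‖ with hm0
  have hm0pos : 0 < m0 := by
    rw [hm0, norm_pos_iff]
    have hmem : (r1 : ℂ) * e0 ∈ Sg κ := mem_ray he0n he0i hr1pos (by linarith)
    exact div_ne_zero (E_ne hM hP hmem) hmem.1
  have hbds : ∀ a : ℝ, 0 < a → a ≤ r1 → ‖φ a‖ ≤ 3 * m0 ∧ m0 / 3 ≤ ‖φ a‖ := by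
    intro a ha har
    obtain ⟨δ, -, hδ, hδe⟩ := hrad a r1 ha har le_rfl
    have h1 : m0 = ‖φ a‖ * ‖Complex.exp δ‖ := by rw [hm0, hδe, norm_mul]
    have h2 : ‖Complex.exp δ‖ ≤ 3 := by
      rw [Complex.norm_exp]
      refine (Real.exp_le_exp.2 ((Complex.re_le_norm δ).trans hδ)).trans hexp1
    have h3 : 1 / 3 ≤ ‖Complex.exp δ‖ := by
      rw [Complex.norm_exp]
      have h4 : -1 ≤ δ.re := by
        have := (abs_le.1 (Complex.abs_re_le_norm δ)).1
        linarith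
      have h5 : Real.exp (-1) ≤ Real.exp δ.re := Real.exp_le_exp.2 h4
      refine le_trans ?_ h5
      rw [Real.exp_neg, ← one_div]
      exact one_div_le_one_div_of_le (Real.exp_pos _) hexp1
    have h0 := norm_nonneg (φ a)
    constructor
    · nlinarith
    · nlinarith
  have hdiff : ∀ a b : ℝ, 0 < a → a ≤ b → b ≤ r1 → ‖φ b - φ a‖ ≤ 6 * m0 * A1 * b ^ β := by
    intro a b ha hab hb
    obtain ⟨δ, hδ, hδ1, hδe⟩ := hrad a b ha hab hb
    rw [hδe, ← mul_sub_one, norm_mul]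
    have h1 := Complex.norm_exp_sub_one_le hδ1
    have h2 := (hbds a ha (hab.trans hb)).1
    calc ‖φ a‖ * ‖Complex.exp δ - 1‖ ≤ (3 * m0) * (2 * (A1 * b ^ β)) := by
          gcongr
          linarith
      _ = _ := by ring
  -- the limit
  obtain ⟨C₀, hC₀⟩ : ∃ C₀ : ℂ, Tendsto φ (𝓝[>] 0) (𝓝 C₀) := by
    rw [← cauchy_map_iff_exists_tendsto, Metric.cauchy_iff]
    refine ⟨inferInstance, fun ε hε => ?_⟩
    obtain ⟨b, hb⟩ := ((hpowc (6 * m0 * A1) ε hε).and
      (Ioo_mem_nhdsGT hr1pos)).exists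
    refine ⟨φ '' Ioo 0 b, image_mem_map (Ioo_mem_nhdsGT hb.2.1), ?_⟩
    have hsym : ∀ x ∈ Ioo (0 : ℝ) b, ∀ y ∈ Ioo (0 : ℝ) b, x ≤ y → ‖φ y - φ x‖ < ε := by
      intro x hx y hy hxy
      have h1 := hdiff x y hx.1 hxy (by linarith [hy.2, hb.2.2])
      have h2 := hmono y b hy.1 hy.2.le
      have h3 : 6 * m0 * A1 * y ^ β ≤ 6 * m0 * A1 * b ^ β := by gcongr
      linarith [hb.1]
    rintro _ ⟨x, hx, rfl⟩ _ ⟨y, hy, rfl⟩
    rcases le_total x y with hxy | hxy
    · rw [dist_comm, dist_eq_norm]; exact hsym x hx y hy hxy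
    · rw [dist_eq_norm]; exact hsym y hy x hx hxy
  have hC₀ne : C₀ ≠ 0 := by
    have h1 : m0 / 3 ≤ ‖C₀‖ := by
      refine ge_of_tendsto hC₀.norm ?_
      filter_upwards [Ioc_mem_nhdsGT hr1pos] with a ha
      exact (hbds a ha.1 ha.2).2
    exact norm_pos_iff.1 (by linarith)
  -- full limit
  have hnorm : Tendsto (fun τ : ℂ => ‖τ‖) (𝓝[Sg κ] 0) (𝓝[>] 0) := by
    rw [tendsto_nhdsWithin_iff]
    constructor
    · have h2 := (continuous_norm (E := ℂ)).tendsto 0
      rw [norm_zero] at h2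
      exact h2.mono_left nhdsWithin_le_nhds
    · filter_upwards [self_mem_nhdsWithin] with τ hτ
      exact norm_pos_iff.2 hτ.1
  have hfull : Tendsto (fun τ => E τ / τ) (𝓝[Sg κ] 0) (𝓝 C₀) := by
    have h1 := hC₀.comp hnorm
    have h2 : Tendsto (fun τ : ℂ => E τ / τ - φ ‖τ‖) (𝓝[Sg κ] 0) (𝓝 0) := by
      have h3 := ((hpow.const_mul (6 * m0 * A2)).comp hnorm)
      rw [mul_zero] at h3
      refine squeeze_zero_norm' ?_ h3
      filter_upwards [self_mem_nhdsWithin, hnorm (Ioc_mem_nhdsGT hr1pos)] with τ hτ hτr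
      simp only [mem_preimage] at hτr
      have m1 := hmono ‖τ‖ r1 hτr.1 hτr.2
      obtain ⟨δ, hδ, hδe⟩ := chord_ratio h hlim hM hP hτ (by nlinarith)
      have hδ' : ‖δ‖ ≤ A2 * ‖τ‖ ^ β := hδ
      have hδ1 : ‖δ‖ ≤ 1 := by nlinarith
      have e1 : φ ‖τ‖ = E (-Complex.I * (‖τ‖ : ℂ)) / (-Complex.I * (‖τ‖ : ℂ)) := by
        simp only [hφ, he0]
        rw [mul_comm (‖τ‖ : ℂ)]
      simp only [Function.comp]
      rw [hδe, ← e1, ← mul_sub_one, norm_mul]
      have h4 := Complex.norm_exp_sub_one_le hδ1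
      have h5 := (hbds ‖τ‖ hτr.1 hτr.2).1
      calc ‖φ ‖τ‖‖ * ‖Complex.exp δ - 1‖ ≤ (3 * m0) * (2 * (A2 * ‖τ‖ ^ β)) := by
            gcongr
            linarith
        _ = _ := by ring
    have h3 := h2.add h1
    simp only [zero_add, Function.comp, sub_add_cancel] at h3
    exact h3
  refine ⟨C₀, hC₀ne, hfull, ?_⟩
  have h1 := hlim.mul hfull
  rw [one_mul] at h1
  refine h1.congr' ?_
  filter_upwards [self_mem_nhdsWithin] with τ hτ
  rw [(E_der hM hP hτ).deriv]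
  have := hτ.1
  field_simp

end Crest.Agent.R102.MelI963
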