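import Crest.Agent.R266.SCV
import Crest.Agent.R102.T5Defs_160

/-!
# T5 MEL-RED, M3-FLAT: the scaled Lagrangian of a curve on the `d`-sheeted cover (helper231)

Part A: parametric integrals and division.
-/

set_option autoImplicit false

open Set Filter Topology Metric Complex MeasureTheory

noncomputable section

namespace Crest.Agent.R102.Mel231

section Param

variable {E : Type} [NormedAddCommGroup E] [NormedSpace ℂ E] [FiniteDimensional ℂ E]

omit [FiniteDimensional ℂ E] in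
/-- tube lemma for analyticity -/
theorem tube {f : E × ℂ → ℂ} {x0 : E} (h : ∀ t ∈ Icc (0 : ℝ) 1, AnalyticAt ℂ f (x0, (t : ℂ))) :
    ∃ U : Set E, IsOpen U ∧ x0 ∈ U ∧ ∀ x ∈ U, ∀ t ∈ Icc (0 : ℝ) 1, AnalyticAt ℂ f (x, (t : ℂ)) := by
  have hopen : IsOpen {p : E × ℝ | AnalyticAt ℂ f (p.1, (p.2 : ℂ))} := by
    have h1 : IsOpen {q : E × ℂ | AnalyticAt ℂ f q} := isOpen_analyticAt ℂ f
    exact h1.preimage (f := fun p : E × ℝ => ((p.1, (p.2 : ℂ)) : E × ℂ)) (by fun_prop)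
  have hsub : ({x0} : Set E) ×ˢ (Icc (0 : ℝ) 1) ⊆ {p : E × ℝ | AnalyticAt ℂ f (p.1, (p.2 : ℂ))} := by
    rintro ⟨x, t⟩ ⟨hx, ht⟩
    rw [mem_singleton_iff] at hx
    simp only at hx
    subst hx
    exact h t ht
  obtain ⟨U, V, hU, hV, hxU, hIV, hUV⟩ := generalized_tube_lemma isCompact_singleton isCompact_Icc
    hopen hsub
  exact ⟨U, hU, hxU (mem_singleton x0), fun x hx t ht => hUV (mk_mem_prod hx (hIV ht))⟩

/-- holomorphic parameter integrals -/
theorem anInt {f : E × ℂ → ℂ} {x0 : E} (h : ∀ t ∈ Icc (0 : ℝ) 1, AnalyticAt ℂ f (x0, (t : ℂ))) :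
    AnalyticAt ℂ (fun x => ∫ t in (0 : ℝ)..1, f (x, (t : ℂ))) x0 := by
  obtain ⟨U, hU, hx0, hUf⟩ := tube h
  have hI : uIcc (0 : ℝ) 1 = Icc 0 1 := uIcc_of_le zero_le_one
  have := R266.SCV.analyticOnNhd_intervalIntegral (f := fun p : E × ℝ => f (p.1, (p.2 : ℂ)))
    (a := 0) (b := 1) hU (by
      rw [hI]
      rintro ⟨x, t⟩ ⟨hx, ht⟩
      have h1 : ContinuousAt f (x, (t : ℂ)) := (hUf x hx t ht).continuousAt
      have h2 : ContinuousAt (fun p : E × ℝ => ((p.1, (p.2 : ℂ)) : E × ℂ)) (x, t) := by fun_prop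
      exact (ContinuousAt.comp (f := fun p : E × ℝ => ((p.1, (p.2 : ℂ)) : E × ℂ)) h1 h2
        ).continuousWithinAt) (by
      rw [hI]
      intro t ht x hx
      have h1 : DifferentiableAt ℂ f (x, (t : ℂ)) := (hUf x hx t ht).differentiableAt
      exact (DifferentiableAt.comp (f := fun x : E => ((x, (t : ℂ)) : E × ℂ)) x h1
        (by fun_prop)).differentiableWithinAt)
  exact this x0 hx0

/-- derivative of a parameter integral -/
theorem derivInt {F : ℂ × ℂ → ℂ} {k0 : ℂ} (h : ∀ t ∈ Icc (0 : ℝ) 1, AnalyticAt ℂ F (k0, (t : ℂ))) :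
    HasDerivAt (fun k : ℂ => ∫ t in (0 : ℝ)..1, F (k, (t : ℂ)))
      (∫ t in (0 : ℝ)..1, fderiv ℂ F (k0, (t : ℂ)) (1, 0)) k0 := by
  obtain ⟨U, hU, hx0, hUf⟩ := tube h
  obtain ⟨ρ, hρ, hρU⟩ := Metric.nhds_basis_closedBall.mem_iff.1 (hU.mem_nhds hx0)
  have hcompact : IsCompact (closedBall k0 ρ ×ˢ Icc (0 : ℝ) 1) :=
    (isCompact_closedBall k0 ρ).prod isCompact_Icc
  have hD : ContinuousOn (fun p : ℂ × ℝ => fderiv ℂ F (p.1, (p.2 : ℂ)) (1, 0))
      (closedBall k0 ρ ×ˢ Icc (0 : ℝ) 1) := by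
    rintro ⟨k, t⟩ ⟨hk, ht⟩
    have h1 : ContinuousAt (fderiv ℂ F) (k, (t : ℂ)) := (hUf k (hρU hk) t ht).fderiv.continuousAt
    have h2 : ContinuousAt (fun p : ℂ × ℝ => ((p.1, (p.2 : ℂ)) : ℂ × ℂ)) (k, t) := by fun_prop
    have h3 := ContinuousAt.comp (f := fun p : ℂ × ℝ => ((p.1, (p.2 : ℂ)) : ℂ × ℂ)) h1 h2
    exact (h3.clm_apply continuousAt_const).continuousWithinAt
  obtain ⟨B, hB⟩ := hcompact.exists_bound_of_continuousOn hD
  have hF : ∀ k ∈ closedBall k0 ρ, ContinuousOn (fun t : ℝ => F (k, (t : ℂ))) (Icc 0 1) := by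
    intro k hk t ht
    have h1 : ContinuousAt F (k, (t : ℂ)) := (hUf k (hρU hk) t ht).continuousAt
    exact (ContinuousAt.comp (f := fun t : ℝ => ((k, (t : ℂ)) : ℂ × ℂ)) h1
      (by fun_prop)).continuousWithinAt
  have hI : uIcc (0 : ℝ) 1 = Icc 0 1 := uIcc_of_le zero_le_one
  have hIoc : uIoc (0 : ℝ) 1 = Ioc 0 1 := uIoc_of_le zero_le_one
  refine (intervalIntegral.hasDerivAt_integral_of_dominated_loc_of_deriv_le (s := ball k0 ρ)
    (F' := fun k t => fderiv ℂ F (k, (t : ℂ)) (1, 0)) (bound := fun _ => B)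
    (ball_mem_nhds k0 hρ) ?_ ?_ ?_ ?_ ?_ ?_).2
  · filter_upwards [ball_mem_nhds k0 hρ] with k hk
    rw [hIoc]
    exact ((hF k (ball_subset_closedBall hk)).mono Ioc_subset_Icc_self).aestronglyMeasurable
      measurableSet_Ioc
  · apply ContinuousOn.intervalIntegrable
    rw [hI]
    exact hF k0 (mem_closedBall_self hρ.le)
  · rw [hIoc]
    have h1 : ContinuousOn (fun t : ℝ => fderiv ℂ F (k0, (t : ℂ)) (1, 0)) (Icc 0 1) :=
      hD.comp (f := fun t : ℝ => ((k0, t) : ℂ × ℝ)) (by fun_prop)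
        (fun t ht => ⟨mem_closedBall_self hρ.le, ht⟩)
    exact (h1.mono Ioc_subset_Icc_self).aestronglyMeasurable measurableSet_Ioc
  · refine Eventually.of_forall fun t ht k hk => ?_
    rw [hIoc] at ht
    exact hB (k, t) ⟨ball_subset_closedBall hk, Ioc_subset_Icc_self ht⟩
  · exact intervalIntegrable_const
  · refine Eventually.of_forall fun t ht k hk => ?_
    rw [hIoc] at ht
    have h1 := (hUf k (hρU (ball_subset_closedBall hk)) t (Ioc_subset_Icc_self ht)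
      ).differentiableAt.hasFDerivAt
    have h2 : HasDerivAt (fun k : ℂ => ((k, (t : ℂ)) : ℂ × ℂ)) (1, 0) k :=
      (hasDerivAt_id k).prodMk (hasDerivAt_const k _)
    exact h1.comp_hasDerivAt k h2

/-- division by the last variable -/
theorem divLast {f : E × ℂ → ℂ} {p0 : E} (hf : AnalyticAt ℂ f (p0, 0))
    (h0 : ∀ᶠ p in 𝓝 p0, f (p, 0) = 0) :
    ∃ q : E × ℂ → ℂ, AnalyticAt ℂ q (p0, 0) ∧ (∀ᶠ x in 𝓝 ((p0, 0) : E × ℂ), f x = x.2 * q x) ∧
      ∀ᶠ p in 𝓝 p0, q (p, 0) = fderiv ℂ f (p, 0) (0, 1) := by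
  set g : (E × ℂ) × ℂ → ℂ := fun y => fderiv ℂ f (y.1.1, y.2 * y.1.2) (0, 1) with hg
  have hga : ∀ t ∈ Icc (0 : ℝ) 1, AnalyticAt ℂ g (((p0, 0) : E × ℂ), (t : ℂ)) := by
    intro t _
    have h1 : AnalyticAt ℂ (fderiv ℂ f) (p0, (t : ℂ) * 0) := by rw [mul_zero]; exact hf.fderiv
    have h2 : AnalyticAt ℂ (fun y : (E × ℂ) × ℂ => ((y.1.1, y.2 * y.1.2) : E × ℂ))
        (((p0, 0) : E × ℂ), (t : ℂ)) := by
      have a1 : AnalyticAt ℂ (fun y : (E × ℂ) × ℂ => y.1.1) (((p0, 0) : E × ℂ), (t : ℂ)) :=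
        ((ContinuousLinearMap.fst ℂ E ℂ).comp (ContinuousLinearMap.fst ℂ (E × ℂ) ℂ)).analyticAt _
      have a2 : AnalyticAt ℂ (fun y : (E × ℂ) × ℂ => y.1.2) (((p0, 0) : E × ℂ), (t : ℂ)) :=
        ((ContinuousLinearMap.snd ℂ E ℂ).comp (ContinuousLinearMap.fst ℂ (E × ℂ) ℂ)).analyticAt _
      exact a1.prod (analyticAt_snd.mul a2)
    have h3 := AnalyticAt.fun_comp (g := fderiv ℂ f)
      (f := fun y : (E × ℂ) × ℂ => ((y.1.1, y.2 * y.1.2) : E × ℂ)) h1 h2
    exact ((ContinuousLinearMap.apply ℂ ℂ ((0, 1) : E × ℂ)).analyticAt _).comp h3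
  refine ⟨fun x => ∫ t in (0 : ℝ)..1, g (x, (t : ℂ)), anInt hga, ?_, ?_⟩
  · -- the fundamental theorem of calculus
    obtain ⟨ρ, hρ, hball⟩ := Metric.eventually_nhds_iff.1 (hf.eventually_analyticAt.and
      ((continuous_fst.tendsto ((p0, 0) : E × ℂ)).eventually h0))
    filter_upwards [ball_mem_nhds ((p0, 0) : E × ℂ) hρ] with x hx
    have hx' : dist x.1 p0 < ρ ∧ dist x.2 0 < ρ := by
      have : dist x ((p0, 0) : E × ℂ) < ρ := hx
      rw [Prod.dist_eq] at this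
      exact max_lt_iff.1 this
    have hmem : ∀ t ∈ Icc (0 : ℝ) 1, dist ((x.1, (t : ℂ) * x.2) : E × ℂ) (p0, 0) < ρ := by
      intro t ht
      rw [Prod.dist_eq]
      refine max_lt hx'.1 ?_
      have h1 : dist ((t : ℂ) * x.2) 0 ≤ dist x.2 0 := by
        rw [dist_zero_right, dist_zero_right, norm_mul, Complex.norm_real, Real.norm_eq_abs,
          abs_of_nonneg ht.1]
        exact mul_le_of_le_one_left (norm_nonneg _) ht.2
      exact lt_of_le_of_lt h1 hx'.2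
    have hfz : f (x.1, 0) = 0 := by
      have := (hball (y := ((x.1, 0) : E × ℂ)) (by
        rw [Prod.dist_eq]; simpa using hx'.1)).2
      exact this
    have hder : ∀ t ∈ uIcc (0 : ℝ) 1, HasDerivAt (fun t : ℝ => f (x.1, (t : ℂ) * x.2))
        (x.2 * g (x, (t : ℂ))) t := by
      intro t ht
      rw [uIcc_of_le zero_le_one] at ht
      have h1 := (hball (hmem t ht)).1.differentiableAt.hasFDerivAt
      have h2 : HasDerivAt (fun t : ℝ => ((x.1, (t : ℂ) * x.2) : E × ℂ)) (0, x.2) t := by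
        have a := ((hasDerivAt_id t).ofReal_comp.mul_const x.2)
        simp only [ofReal_one, one_mul] at a
        exact (hasDerivAt_const t _).prodMk a
      have h3 := (h1.restrictScalars ℝ).comp_hasDerivAt t h2
      have h4 : fderiv ℂ f (x.1, (t : ℂ) * x.2) (0, x.2) = x.2 * g (x, (t : ℂ)) := by
        have : ((0, x.2) : E × ℂ) = x.2 • ((0, 1) : E × ℂ) := by
          rw [Prod.smul_mk, smul_zero, smul_eq_mul, mul_one]
        rw [this, map_smul, smul_eq_mul]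
      rw [← h4]
      exact h3
    have hint : IntervalIntegrable (fun t : ℝ => x.2 * g (x, (t : ℂ))) volume 0 1 := by
      apply ContinuousOn.intervalIntegrable
      rw [uIcc_of_le zero_le_one]
      intro t ht
      have h1 : ContinuousAt (fderiv ℂ f) (x.1, (t : ℂ) * x.2) :=
        (hball (hmem t ht)).1.fderiv.continuousAt
      have h2 : ContinuousAt (fun t : ℝ => ((x.1, (t : ℂ) * x.2) : E × ℂ)) t := by fun_prop
      have h3 := ContinuousAt.comp (f := fun t : ℝ => ((x.1, (t : ℂ) * x.2) : E × ℂ)) h1 h2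
      exact (continuousAt_const.mul (h3.clm_apply continuousAt_const)).continuousWithinAt
    have hftc := intervalIntegral.integral_eq_sub_of_hasDerivAt hder hint
    rw [intervalIntegral.integral_const_mul] at hftc
    rw [hftc]
    simp only [ofReal_one, one_mul, ofReal_zero, zero_mul, hfz, sub_zero]
  · refine Eventually.of_forall fun p => ?_
    simp [hg]

end Param

end Crest.Agent.R102.Mel231
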