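import Crest.Agent.R102.T5Defs_160
import Crest.Agent.R266.SCV

/-!
# Row 102, [T5], L4: common part (helper346)

Bounds, holomorphy and symmetry of `PsiQ q` at a finite-time end.
-/

set_option autoImplicit false

open Set Filter Topology Metric

noncomputable section

namespace Crest.Agent.R102.T5R.L4346

open Crest.Agent.R102.T5R

/-! ### geometry of the slit sector -/

lemma isOpen_Sg (κ : ℝ) : IsOpen (Sg κ) := by
  unfold Sg
  have h1 : IsOpen {τ : ℂ | τ ≠ 0} := isOpen_ne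
  have h2 : IsOpen {τ : ℂ | ‖τ‖ < 1} := isOpen_lt continuous_norm continuous_const
  have h3 : IsOpen {τ : ℂ | τ.im < κ * ‖τ‖} :=
    isOpen_lt Complex.continuous_im (continuous_const.mul continuous_norm)
  exact h1.inter (h2.inter h3)

lemma isOpen_DD (κ c₀ : ℝ) : IsOpen (DD κ c₀) := by
  unfold DD
  have h1 : IsOpen {p : ℂ × ℂ | p.1 ∈ Sg κ} := (isOpen_Sg κ).preimage continuous_fst
  have h2 : IsOpen {p : ℂ × ℂ | p.2 ∈ Sg κ} := (isOpen_Sg κ).preimage continuous_snd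
  have h3 : IsOpen {p : ℂ × ℂ | ‖p.2 - p.1‖ < c₀ * ‖p.1‖} :=
    isOpen_lt (by fun_prop) (by fun_prop)
  have h4 : IsOpen {p : ℂ × ℂ | ‖p.2 - p.1‖ < c₀ * ‖p.2‖} :=
    isOpen_lt (by fun_prop) (by fun_prop)
  exact h1.inter (h2.inter (h3.inter h4))

lemma norm_seg {c₀ : ℝ} {x y : ℂ} (hxy : ‖y - x‖ < c₀ * ‖x‖) {s : ℝ}
    (hs : s ∈ Icc (0 : ℝ) 1) :
    (1 - c₀) * ‖x‖ ≤ ‖x + s * (y - x)‖ ∧ ‖x + s * (y - x)‖ ≤ (1 + c₀) * ‖x‖ := by
  have h1 : ‖(s : ℂ) * (y - x)‖ ≤ c₀ * ‖x‖ := by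
    rw [norm_mul, Complex.norm_real, Real.norm_eq_abs, abs_of_nonneg hs.1]
    calc s * ‖y - x‖ ≤ 1 * ‖y - x‖ := by gcongr; exact hs.2
      _ ≤ c₀ * ‖x‖ := by rw [one_mul]; exact hxy.le
  have h2 := norm_sub_norm_le x (-((s : ℂ) * (y - x)))
  rw [norm_neg, sub_neg_eq_add] at h2
  have h3 := norm_add_le x ((s : ℂ) * (y - x))
  constructor <;> nlinarith

lemma seg_mem {κ κ' c₀ : ℝ} (hκ' : 0 < κ') (hκ0 : κ' < κ) (hc0 : 0 < c₀)
    (hc1 : c₀ < 1) (hc : κ' + c₀ ≤ κ * (1 - c₀)) {x y : ℂ} (hx : x ≠ 0)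
    (hxi : x.im < κ' * ‖x‖) (hxy : ‖y - x‖ < c₀ * ‖x‖) {s : ℝ} (hs : s ∈ Icc (0 : ℝ) 1) :
    x + s * (y - x) ≠ 0 ∧ (x + s * (y - x)).im < κ * ‖x + s * (y - x)‖ := by
  have hx0 : 0 < ‖x‖ := norm_pos_iff.2 hx
  obtain ⟨h1, h2⟩ := norm_seg hxy hs
  have h3 : 0 < ‖x + s * (y - x)‖ := lt_of_lt_of_le (by nlinarith) h1
  refine ⟨norm_pos_iff.1 h3, ?_⟩
  have h4 : (x + s * (y - x)).im ≤ x.im + c₀ * ‖x‖ := by
    rw [Complex.add_im, Complex.im_ofReal_mul]
    have h5 : s * (y - x).im ≤ c₀ * ‖x‖ := by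
      have h6 : (y - x).im ≤ ‖y - x‖ := (le_abs_self _).trans (Complex.abs_im_le_norm _)
      have h7 : s * (y - x).im ≤ s * ‖y - x‖ := mul_le_mul_of_nonneg_left h6 hs.1
      have h8 : s * ‖y - x‖ ≤ 1 * ‖y - x‖ := by gcongr; exact hs.2
      linarith
    linarith
  have h5 : κ * ((1 - c₀) * ‖x‖) ≤ κ * ‖x + s * (y - x)‖ := by
    have : 0 < κ := hκ'.trans hκ0
    gcongr
  nlinarith

lemma seg_mem_Sg {κ κ' c₀ : ℝ} (hκ' : 0 < κ') (hκ0 : κ' < κ) (hc0 : 0 < c₀)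
    (hc1 : c₀ < 1) (hc : κ' + c₀ ≤ κ * (1 - c₀)) {x y : ℂ} (hx : x ∈ Sg κ') (hy : ‖y‖ < 1)
    (hxy : ‖y - x‖ < c₀ * ‖x‖) {s : ℝ} (hs : s ∈ Icc (0 : ℝ) 1) :
    x + s * (y - x) ∈ Sg κ := by
  obtain ⟨h1, h2⟩ := seg_mem hκ' hκ0 hc0 hc1 hc hx.1 hx.2.2 hxy hs
  refine ⟨h1, ?_, h2⟩
  have h3 : x + s * (y - x) ∈ ball (0 : ℂ) 1 := by
    have hconv : Convex ℝ (ball (0 : ℂ) 1) := convex_ball _ _
    have h4 := hconv.add_smul_sub_mem (x := x) (y := y) (by simpa using hx.2.1)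
      (by simpa using hy) hs
    simpa using h4
  simpa using h3


/-! ### bounds for `q` -/

section EndQ

variable {κ c β C : ℝ} {q : ℂ → ℂ}

lemma C_nonneg (h : EndQ κ c β C q) : 0 ≤ C := by
  have h1 : -(Complex.I / 2) ∈ Sg κ := by
    refine ⟨by simp, ?_, ?_⟩
    · rw [norm_neg, norm_div, Complex.norm_I]; norm_num
    · have h2 : (0 : ℝ) ≤ κ * ‖-(Complex.I / 2)‖ := mul_nonneg h.κ_pos.le (norm_nonneg _)
      have h3 : (-(Complex.I / 2)).im < 0 := by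
        rw [Complex.neg_im]
        have : (Complex.I / 2).im = 1 / 2 := by simp
        rw [this]; norm_num
      linarith
  have h2 := (norm_nonneg _).trans (h.asym _ h1)
  have h3 : 0 < ‖-(Complex.I / 2)‖ ^ (β - 1) := by
    apply Real.rpow_pos_of_pos
    rw [norm_neg, norm_div, Complex.norm_I]; norm_num
  exact nonneg_of_mul_nonneg_left h2 h3

lemma norm_deriv_le (h : EndQ κ c β C q) {τ : ℂ} (hτ : τ ∈ Sg κ) :
    ‖deriv q τ‖ ≤ (|c| + C) / ‖τ‖ := by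
  have h0 : 0 < ‖τ‖ := norm_pos_iff.2 hτ.1
  have h1 := h.asym τ hτ
  have h2 : ‖τ‖ ^ (β - 1) ≤ ‖τ‖⁻¹ := by
    rw [← Real.rpow_neg_one]
    exact Real.rpow_le_rpow_of_exponent_ge h0 hτ.2.1.le (by linarith [h.β_pos])
  have h3 : ‖(c : ℂ) / τ‖ = |c| / ‖τ‖ := by
    rw [norm_div, Complex.norm_real, Real.norm_eq_abs]
  have h4 : ‖deriv q τ‖ ≤ ‖deriv q τ - c / τ‖ + ‖(c : ℂ) / τ‖ := by
    have := norm_add_le (deriv q τ - c / τ) ((c : ℂ) / τ)
    rwa [sub_add_cancel] at this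
  have h5 : C * ‖τ‖ ^ (β - 1) ≤ C * ‖τ‖⁻¹ := mul_le_mul_of_nonneg_left h2 (C_nonneg h)
  calc ‖deriv q τ‖ ≤ C * ‖τ‖ ^ (β - 1) + |c| / ‖τ‖ := by rw [h3] at h4; linarith
    _ ≤ C * ‖τ‖⁻¹ + |c| / ‖τ‖ := by linarith
    _ = (|c| + C) / ‖τ‖ := by ring

/-- `q` varies little along a chord -/
lemma norm_q_sub_le (h : EndQ κ c β C q) {κ' c₀ : ℝ} (hκ' : 0 < κ') (hκ0 : κ' < κ) (hc0 : 0 < c₀)
    (hc1 : c₀ ≤ 1 / 2) (hc : κ' + c₀ ≤ κ * (1 - c₀)) {x y : ℂ} (hx : x ∈ Sg κ') (hy : ‖y‖ < 1)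
    (hxy : ‖y - x‖ < c₀ * ‖x‖) {s : ℝ} (hs : s ∈ Icc (0 : ℝ) 1) :
    ‖q (x + s * (y - x)) - q x‖ ≤ 2 * (|c| + C) * c₀ := by
  have hC := C_nonneg h
  have hx0 : 0 < ‖x‖ := norm_pos_iff.2 hx.1
  have hseg : ∀ z ∈ segment ℝ x y, ∃ r ∈ Icc (0 : ℝ) 1, z = x + r * (y - x) := by
    intro z hz
    rw [segment_eq_image'] at hz
    obtain ⟨r, hr, rfl⟩ := hz
    exact ⟨r, hr, by simp⟩
  have hmem : ∀ z ∈ segment ℝ x y, z ∈ Sg κ := by
    intro z hz
    obtain ⟨r, hr, rfl⟩ := hseg z hz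
    exact seg_mem_Sg hκ' hκ0 hc0 (by linarith) hc hx hy hxy hr
  have h1 : ∀ z ∈ segment ℝ x y, ‖deriv q z‖ ≤ 2 * (|c| + C) / ‖x‖ := by
    intro z hz
    obtain ⟨r, hr, rfl⟩ := hseg z hz
    obtain ⟨h2, -⟩ := norm_seg hxy hr
    have h3 := norm_deriv_le h (hmem _ hz)
    refine h3.trans ?_
    rw [div_le_div_iff₀ (by nlinarith) hx0]
    have h5 : 0 ≤ |c| + C := by positivity
    have h4 : ‖x‖ ≤ 2 * ‖x + (r : ℂ) * (y - x)‖ := by nlinarith
    have h6 := mul_le_mul_of_nonneg_left h4 h5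
    linarith
  have h2 := (convex_segment x y).norm_image_sub_le_of_norm_deriv_le
    (fun z hz => (h.diff z (hmem z hz)).differentiableAt ((isOpen_Sg κ).mem_nhds (hmem z hz)))
    h1 (left_mem_segment ℝ x y) (y := x + s * (y - x)) (by
      rw [segment_eq_image']; exact ⟨s, hs, by simp⟩)
  refine h2.trans ?_
  have h3 : ‖x + (s : ℂ) * (y - x) - x‖ ≤ c₀ * ‖x‖ := by
    rw [add_sub_cancel_left, norm_mul, Complex.norm_real, Real.norm_eq_abs, abs_of_nonneg hs.1]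
    calc s * ‖y - x‖ ≤ 1 * ‖y - x‖ := by gcongr; exact hs.2
      _ ≤ c₀ * ‖x‖ := by rw [one_mul]; exact hxy.le
  calc 2 * (|c| + C) / ‖x‖ * ‖x + (s : ℂ) * (y - x) - x‖
      ≤ 2 * (|c| + C) / ‖x‖ * (c₀ * ‖x‖) := by gcongr
    _ = 2 * (|c| + C) * c₀ := by field_simp

/-- radial comparison -/
lemma radial (h : EndQ κ c β C q) {e : ℂ} (he : ‖e‖ = 1) (hei : e.im < κ) {a b : ℝ} (ha : 0 < a)
    (hab : a ≤ b) (hb : b < 1) :
    ‖(q (b * e) - c * Real.log b) - (q (a * e) - c * Real.log a)‖ ≤ C / β * b ^ β := by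
  have hC := C_nonneg h
  have hmem : ∀ r : ℝ, 0 < r → r < 1 → (r : ℂ) * e ∈ Sg κ := by
    intro r hr hr1
    have hn : ‖(r : ℂ) * e‖ = r := by
      rw [norm_mul, Complex.norm_real, he, mul_one, Real.norm_eq_abs, abs_of_pos hr]
    refine ⟨norm_pos_iff.1 (by rw [hn]; exact hr), by rw [hn]; exact hr1, ?_⟩
    rw [hn, Complex.im_ofReal_mul]
    nlinarith
  set f : ℝ → ℂ := fun r => (q (r * e) - c * Real.log r) - (q (a * e) - c * Real.log a) with hf
  set f' : ℝ → ℂ := fun r => deriv q (r * e) * e - c * ((r⁻¹ : ℝ) : ℂ) with hf'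
  have hd : ∀ r : ℝ, 0 < r → r < 1 → HasDerivAt f (f' r) r := by
    intro r hr hr1
    have h1 : HasDerivAt q (deriv q (r * e)) ((r : ℂ) * e) :=
      ((h.diff _ (hmem r hr hr1)).differentiableAt
        ((isOpen_Sg κ).mem_nhds (hmem r hr hr1))).hasDerivAt
    have h2 : HasDerivAt (fun r : ℝ => (r : ℂ) * e) e r := by
      simpa using (Complex.ofRealCLM.hasDerivAt (x := r)).mul_const e
    have h3 : HasDerivAt (fun r : ℝ => q (r * e)) (deriv q (r * e) * e) r :=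
      h1.comp r h2
    have h4 : HasDerivAt (fun r : ℝ => ((Real.log r : ℝ) : ℂ)) ((r⁻¹ : ℝ) : ℂ) r :=
      (Real.hasDerivAt_log hr.ne').ofReal_comp
    exact (h3.sub (h4.const_mul (c : ℂ))).sub_const _
  have hb' : ∀ r : ℝ, 0 < r → r < 1 → ‖f' r‖ ≤ C * r ^ (β - 1) := by
    intro r hr hr1
    have hn : ‖(r : ℂ) * e‖ = r := by
      rw [norm_mul, Complex.norm_real, he, mul_one, Real.norm_eq_abs, abs_of_pos hr]
    have h1 := h.asym _ (hmem r hr hr1)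
    rw [hn] at h1
    have he0 : e ≠ 0 := by
      intro h0; rw [h0] at he; simp at he
    have hr0 : (r : ℂ) ≠ 0 := by exact_mod_cast hr.ne'
    have h2 : f' r = (deriv q (r * e) - c / (r * e)) * e := by
      simp only [hf']
      push_cast
      field_simp
    rw [h2, norm_mul, he, mul_one]
    exact h1
  have key := image_norm_le_of_norm_deriv_right_le_deriv_boundary' (f := f) (f' := f')
    (a := a) (b := b) (B := fun r => C / β * (r ^ β - a ^ β)) (B' := fun r => C * r ^ (β - 1))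
    (fun r hr => (hd r (ha.trans_le hr.1) (hr.2.trans_lt hb)).continuousAt.continuousWithinAt)
    (fun r hr => (hd r (ha.trans_le hr.1) (hr.2.trans hb)).hasDerivWithinAt)
    (by simp [hf])
    (by
      intro r hr
      have hr0 : 0 < r := ha.trans_le hr.1
      exact (((Real.continuousAt_rpow_const r β (Or.inl hr0.ne')).sub
        continuousAt_const).const_mul _).continuousWithinAt)
    (by
      intro r hr
      have hr0 : 0 < r := ha.trans_le hr.1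
      have h1 := ((Real.hasDerivAt_rpow_const (x := r) (p := β) (Or.inl hr0.ne')).sub_const
        (a ^ β)).const_mul (C / β)
      refine (h1.congr_deriv ?_).hasDerivWithinAt
      have := h.β_pos.ne'
      field_simp)
    (fun r hr => hb' r (ha.trans_le hr.1) (hr.2.trans hb))
  have h1 := key (right_mem_Icc.2 hab)
  refine h1.trans ?_
  have h2 : 0 ≤ a ^ β := (Real.rpow_pos_of_pos ha β).le
  have h3 : 0 ≤ C / β := div_nonneg hC h.β_pos.le
  nlinarith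

/-- `‖x exp (q x)‖` is bounded on a smaller sector when `c ≥ -1` -/
lemma exists_B (h : EndQ κ c β C q) (hc : -1 ≤ c) {κ' : ℝ} (hκ0 : κ' < κ) :
    ∃ B : ℝ, 0 < B ∧ ∀ x ∈ Sg κ', ‖x‖ * ‖Complex.exp (q x)‖ ≤ B := by
  have hC := C_nonneg h
  set K : Set ℂ := {τ | ‖τ‖ = 1 / 2 ∧ τ.im ≤ κ' / 2} with hK
  have hKc : IsCompact K := by
    refine (isCompact_closedBall (0 : ℂ) (1 / 2)).of_isClosed_subset ?_ ?_
    · exact (isClosed_eq continuous_norm continuous_const).inter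
        (isClosed_le Complex.continuous_im continuous_const)
    · intro τ hτ
      simp [hτ.1]
  have hKS : K ⊆ Sg κ := by
    intro τ hτ
    have h1 : 0 < ‖τ‖ := by rw [hτ.1]; norm_num
    refine ⟨norm_pos_iff.1 h1, by rw [hτ.1]; norm_num, ?_⟩
    have := hτ.2
    rw [hτ.1]
    linarith
  obtain ⟨B1, hB1⟩ := (hKc.image_of_continuousOn (h.diff.continuousOn.mono hKS)).isBounded.exists_norm_le
  have hB1' : ∀ τ ∈ K, ‖q τ‖ ≤ B1 := fun τ hτ => hB1 _ (mem_image_of_mem _ hτ)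
  refine ⟨Real.exp (C / β + |c| * Real.log 2 + B1), Real.exp_pos _, fun x hx => ?_⟩
  have hx0 : 0 < ‖x‖ := norm_pos_iff.2 hx.1
  have hx0' : (‖x‖ : ℂ) ≠ 0 := by exact_mod_cast hx0.ne'
  set e : ℂ := x / ‖x‖ with he
  have hen : ‖e‖ = 1 := by
    rw [he, norm_div, Complex.norm_real, norm_norm, div_self hx0.ne']
  have hxe : (‖x‖ : ℂ) * e = x := by rw [he]; field_simp
  have hei : e.im < κ' := by
    rw [he, Complex.div_ofReal_im, div_lt_iff₀ hx0]
    exact hx.2.2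
  have hhalf : (((1 / 2 : ℝ) : ℝ) : ℂ) * e ∈ K := by
    refine ⟨?_, ?_⟩
    · rw [norm_mul, hen, mul_one, Complex.norm_real, Real.norm_eq_abs]; norm_num [abs_of_pos]
    · rw [Complex.im_ofReal_mul]; linarith
  have h1 : ‖(q x - c * Real.log ‖x‖) -
      (q (((1 / 2 : ℝ) : ℝ) * e) - c * Real.log (1 / 2))‖ ≤ C / β := by
    have hCb : 0 ≤ C / β := div_nonneg hC h.β_pos.le
    rcases le_total ‖x‖ (1 / 2) with h2 | h2
    · have h3 := radial h hen (hei.trans hκ0) hx0 h2 (by norm_num)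
      rw [hxe, norm_sub_rev] at h3
      refine h3.trans ?_
      have h4 : ((1 / 2 : ℝ)) ^ β ≤ 1 := Real.rpow_le_one (by norm_num) (by norm_num) h.β_pos.le
      nlinarith
    · have h3 := radial h hen (hei.trans hκ0) (by norm_num : (0 : ℝ) < 1 / 2) h2 hx.2.1
      rw [hxe] at h3
      refine h3.trans ?_
      have h4 : ‖x‖ ^ β ≤ 1 := Real.rpow_le_one hx0.le hx.2.1.le h.β_pos.le
      nlinarith
  have h2 : (q x).re ≤ c * Real.log ‖x‖ + (C / β + |c| * Real.log 2 + B1) := by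
    have h3 := (Complex.re_le_norm _).trans h1
    have h4 := (Complex.re_le_norm _).trans (hB1' _ hhalf)
    have h5 : (c * Real.log (1 / 2)) ≥ -(|c| * Real.log 2) := by
      have h6 : Real.log (1 / 2) = - Real.log 2 := by
        rw [one_div, Real.log_inv]
      rw [h6]
      have h7 : 0 < Real.log 2 := Real.log_pos (by norm_num)
      nlinarith [le_abs_self c]
    simp only [Complex.sub_re, Complex.mul_re, Complex.ofReal_re, Complex.ofReal_im, zero_mul,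
      sub_zero] at h3
    linarith
  rw [Complex.norm_exp]
  have h3 : ‖x‖ = Real.exp (Real.log ‖x‖) := (Real.exp_log hx0).symm
  have h4 : Real.log ‖x‖ ≤ 0 := Real.log_nonpos hx0.le hx.2.1.le
  calc ‖x‖ * Real.exp (q x).re
      = Real.exp (Real.log ‖x‖ + (q x).re) := by rw [Real.exp_add, ← h3]
    _ ≤ Real.exp (C / β + |c| * Real.log 2 + B1) := by
        apply Real.exp_le_exp.2
        nlinarith

end EndQ

/-! ### parametric integrals on `DD` -/

lemma contOn_primitive {X : Type*} [TopologicalSpace X] [FirstCountableTopology X] {U : Set X}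
    {f : X × ℝ → ℂ} (hf : ContinuousOn f (U ×ˢ Icc (0 : ℝ) 1)) :
    ContinuousOn (fun x : X × ℝ => ∫ r in (0 : ℝ)..x.2, f (x.1, r)) (U ×ˢ Icc (0 : ℝ) 1) := by
  rw [continuousOn_iff_continuous_domRestrict]
  set pr : ℝ → Icc (0 : ℝ) 1 := projIcc (0 : ℝ) 1 zero_le_one with hpr
  have hprc : Continuous pr := continuous_projIcc
  set F : ↥(U ×ˢ Icc (0 : ℝ) 1) → ℝ → ℂ := fun x r => f (x.1.1, pr r) with hF
  have hFc : Continuous (Function.uncurry F) := by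
    refine hf.comp_continuous (f := fun x : ↥(U ×ˢ Icc (0 : ℝ) 1) × ℝ => (x.1.1.1, ((pr x.2 : Icc (0:ℝ) 1) : ℝ)))
      (by fun_prop) (fun x => ⟨x.1.2.1, (pr x.2).2⟩)
  have h1 := intervalIntegral.continuous_parametric_intervalIntegral_of_continuous
    (μ := MeasureTheory.volume) (a₀ := 0) hFc
    (s := fun x : ↥(U ×ˢ Icc (0 : ℝ) 1) => x.1.2) (by fun_prop)
  refine h1.congr (fun x => ?_)
  rw [domRestrict_apply]
  refine intervalIntegral.integral_congr (fun r hr => ?_)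
  have hx2 := x.2.2
  rw [uIcc_of_le hx2.1] at hr
  have hr' : r ∈ Icc (0 : ℝ) 1 := ⟨hr.1, hr.2.trans hx2.2⟩
  simp only [hF, hpr, projIcc_of_mem zero_le_one hr']

/-- smallness assumptions -/
structure Sm (κ κ' c₀ c β C B : ℝ) (q : ℂ → ℂ) : Prop where
  h : EndQ κ c β C q
  κ'_pos : 0 < κ'
  κ'_lt : κ' < κ
  c0_pos : 0 < c₀
  c0_lt : c₀ < 1 / 4
  geo : κ' + c₀ ≤ κ * (1 - c₀)
  B_nonneg : 0 ≤ B
  hB : ∀ x ∈ Sg κ', ‖x‖ * ‖Complex.exp (q x)‖ ≤ B
  small : 4 * (|c| + C) * c₀ + 2 * B * c₀ ≤ 1 / 16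

def gg (q : ℂ → ℂ) (p : ℂ × ℂ) (s : ℝ) : ℂ := q (p.1 + s * (p.2 - p.1)) - q p.1

def EE (q : ℂ → ℂ) (p : ℂ × ℂ) (s : ℝ) : ℂ := ∫ r in (0 : ℝ)..s, Complex.exp (gg q p r)

def ph (q : ℂ → ℂ) (p : ℂ × ℂ) : ℂ := (p.2 - p.1) * Complex.exp (q p.1)

def II (q : ℂ → ℂ) (G : ℂ × ℂ → ℂ) (p : ℂ × ℂ) : ℂ :=
  ∫ s in (0 : ℝ)..1, Complex.exp (-2 * gg q p s) * G (ph q p, EE q p s)

section Param

variable {κ κ' c₀ c β C B : ℝ} {q : ℂ → ℂ}

lemma Sm.mem (S : Sm κ κ' c₀ c β C B q) {p : ℂ × ℂ} (hp : p ∈ DD κ' c₀) {s : ℝ}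
    (hs : s ∈ Icc (0 : ℝ) 1) : p.1 + s * (p.2 - p.1) ∈ Sg κ :=
  seg_mem_Sg S.κ'_pos S.κ'_lt S.c0_pos (by linarith [S.c0_lt]) S.geo hp.1 hp.2.1.2.1 hp.2.2.1 hs

lemma Sm.mem1 (S : Sm κ κ' c₀ c β C B q) {x : ℂ} (hx : x ∈ Sg κ') : x ∈ Sg κ := by
  refine ⟨hx.1, hx.2.1, hx.2.2.trans_le ?_⟩
  have := S.κ'_lt
  gcongr

lemma Sm.gg_cont (S : Sm κ κ' c₀ c β C B q) :
    ContinuousOn (fun x : (ℂ × ℂ) × ℝ => gg q x.1 x.2) (DD κ' c₀ ×ˢ Icc (0 : ℝ) 1) := by
  unfold gg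
  refine ContinuousOn.sub ?_ ?_
  · exact S.h.diff.continuousOn.comp (by fun_prop) (fun x hx => S.mem hx.1 hx.2)
  · exact S.h.diff.continuousOn.comp (by fun_prop) (fun x hx => S.mem1 hx.1.1)

lemma Sm.gg_diff (S : Sm κ κ' c₀ c β C B q) {s : ℝ} (hs : s ∈ Icc (0 : ℝ) 1) :
    DifferentiableOn ℂ (fun p : ℂ × ℂ => gg q p s) (DD κ' c₀) := by
  unfold gg
  refine DifferentiableOn.sub ?_ ?_
  · exact S.h.diff.comp (by fun_prop) (fun x hx => S.mem hx hs)
  · exact S.h.diff.comp (by fun_prop) (fun x hx => S.mem1 hx.1)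

lemma Sm.EE_cont (S : Sm κ κ' c₀ c β C B q) :
    ContinuousOn (fun x : (ℂ × ℂ) × ℝ => EE q x.1 x.2) (DD κ' c₀ ×ˢ Icc (0 : ℝ) 1) :=
  contOn_primitive (f := fun x : (ℂ × ℂ) × ℝ => Complex.exp (gg q x.1 x.2))
    (Complex.continuous_exp.comp_continuousOn S.gg_cont)

lemma Sm.EE_diff (S : Sm κ κ' c₀ c β C B q) {s : ℝ} (hs : s ∈ Icc (0 : ℝ) 1) :
    DifferentiableOn ℂ (fun p : ℂ × ℂ => EE q p s) (DD κ' c₀) := by
  have hsub : uIcc (0 : ℝ) s ⊆ Icc (0 : ℝ) 1 := by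
    rw [uIcc_of_le hs.1]; exact Icc_subset_Icc_right hs.2
  exact (R266.SCV.analyticOnNhd_intervalIntegral
    (f := fun x : (ℂ × ℂ) × ℝ => Complex.exp (gg q x.1 x.2)) (isOpen_DD κ' c₀)
    ((Complex.continuous_exp.comp_continuousOn S.gg_cont).mono
      (prod_mono subset_rfl hsub))
    (fun t ht => (S.gg_diff (hsub ht)).cexp)).differentiableOn

lemma Sm.ph_diff (S : Sm κ κ' c₀ c β C B q) :
    DifferentiableOn ℂ (fun p : ℂ × ℂ => ph q p) (DD κ' c₀) := by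
  unfold ph
  refine DifferentiableOn.mul (by fun_prop) (DifferentiableOn.cexp ?_)
  exact S.h.diff.comp (by fun_prop) (fun x hx => S.mem1 hx.1)

lemma Sm.int_cont (S : Sm κ κ' c₀ c β C B q) {G : ℂ × ℂ → ℂ} (hG : Continuous G) :
    ContinuousOn (fun x : (ℂ × ℂ) × ℝ => Complex.exp (-2 * gg q x.1 x.2) *
      G (ph q x.1, EE q x.1 x.2)) (DD κ' c₀ ×ˢ Icc (0 : ℝ) 1) := by
  have h1 := S.gg_cont
  have h2 := S.EE_cont
  have h3 : ContinuousOn (fun x : (ℂ × ℂ) × ℝ => ph q x.1) (DD κ' c₀ ×ˢ Icc (0 : ℝ) 1) :=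
    S.ph_diff.continuousOn.comp (by fun_prop) (fun x hx => hx.1)
  refine ContinuousOn.mul ?_ (hG.comp_continuousOn (h3.prodMk h2))
  exact Complex.continuous_exp.comp_continuousOn (continuousOn_const.mul h1)

lemma Sm.II_diff (S : Sm κ κ' c₀ c β C B q) {G : ℂ × ℂ → ℂ} (hG : Differentiable ℂ G) :
    DifferentiableOn ℂ (II q G) (DD κ' c₀) := by
  refine (R266.SCV.analyticOnNhd_intervalIntegral
    (f := fun x : (ℂ × ℂ) × ℝ => Complex.exp (-2 * gg q x.1 x.2) *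
      G (ph q x.1, EE q x.1 x.2)) (isOpen_DD κ' c₀) ?_ ?_).differentiableOn
  · rw [uIcc_of_le zero_le_one]; exact S.int_cont hG.continuous
  · intro t ht
    rw [uIcc_of_le zero_le_one] at ht
    refine DifferentiableOn.mul ((S.gg_diff ht).const_mul _).cexp ?_
    exact hG.comp_differentiableOn (S.ph_diff.prodMk (S.EE_diff ht))

lemma Sm.gg_le (S : Sm κ κ' c₀ c β C B q) {p : ℂ × ℂ} (hp : p ∈ DD κ' c₀) {s : ℝ}
    (hs : s ∈ Icc (0 : ℝ) 1) : ‖gg q p s‖ ≤ 2 * (|c| + C) * c₀ :=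
  norm_q_sub_le S.h S.κ'_pos S.κ'_lt S.c0_pos (by linarith [S.c0_lt]) S.geo hp.1 hp.2.1.2.1
    hp.2.2.1 hs

lemma Sm.gg_le' (S : Sm κ κ' c₀ c β C B q) {p : ℂ × ℂ} (hp : p ∈ DD κ' c₀) {s : ℝ}
    (hs : s ∈ Icc (0 : ℝ) 1) : ‖gg q p s‖ ≤ 1 / 32 := by
  have h1 := S.gg_le hp hs
  have h2 := S.small
  have h3 : 0 ≤ B * c₀ := mul_nonneg S.B_nonneg S.c0_pos.le
  linarith

lemma exp_small {u : ℂ} (hu : ‖u‖ ≤ 1 / 16) : ‖Complex.exp u - 1‖ ≤ 1 / 8 := by
  have := Complex.norm_exp_sub_one_le (x := u) (by linarith)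
  linarith

lemma exp_small' {u : ℂ} (hu : ‖u‖ ≤ 1 / 16) : ‖Complex.exp u‖ ≤ 2 := by
  have h1 := exp_small hu
  have h2 := norm_add_le (Complex.exp u - 1) 1
  rw [sub_add_cancel, norm_one] at h2
  linarith

lemma Sm.EE_le (S : Sm κ κ' c₀ c β C B q) {p : ℂ × ℂ} (hp : p ∈ DD κ' c₀) {s : ℝ}
    (hs : s ∈ Icc (0 : ℝ) 1) : ‖EE q p s‖ ≤ 2 := by
  unfold EE
  have h1 := intervalIntegral.norm_integral_le_of_norm_le_const
    (f := fun r => Complex.exp (gg q p r)) (a := 0) (b := s) (C := 2) (fun r hr => by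
      rw [uIoc_of_le hs.1] at hr
      exact exp_small' ((S.gg_le' hp ⟨hr.1.le, hr.2.trans hs.2⟩).trans (by norm_num)))
  rw [sub_zero, abs_of_nonneg hs.1] at h1
  linarith [hs.2]

lemma Sm.ph_le (S : Sm κ κ' c₀ c β C B q) {p : ℂ × ℂ} (hp : p ∈ DD κ' c₀) :
    ‖ph q p‖ ≤ c₀ * B := by
  unfold ph
  rw [norm_mul]
  have h1 := S.hB p.1 hp.1
  have h2 := hp.2.2.1
  calc ‖p.2 - p.1‖ * ‖Complex.exp (q p.1)‖ ≤ (c₀ * ‖p.1‖) * ‖Complex.exp (q p.1)‖ := by gcongr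
    _ = c₀ * (‖p.1‖ * ‖Complex.exp (q p.1)‖) := by ring
    _ ≤ c₀ * B := by have := S.c0_pos; gcongr

lemma Sm.ph_le' (S : Sm κ κ' c₀ c β C B q) {p : ℂ × ℂ} (hp : p ∈ DD κ' c₀) :
    ‖ph q p‖ ≤ 1 := by
  have h1 := S.ph_le hp
  have h2 := S.small
  have h3 : 0 ≤ (|c| + C) * c₀ := mul_nonneg (add_nonneg (abs_nonneg _) (C_nonneg S.h)) S.c0_pos.le
  linarith

lemma Sm.slice_cont (S : Sm κ κ' c₀ c β C B q) {G : ℂ × ℂ → ℂ} (hG : Continuous G) {p : ℂ × ℂ}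
    (hp : p ∈ DD κ' c₀) :
    ContinuousOn (fun s : ℝ => Complex.exp (-2 * gg q p s) * G (ph q p, EE q p s))
      (Icc (0 : ℝ) 1) :=
  (S.int_cont hG).comp (f := fun s : ℝ => (p, s)) (by fun_prop) (fun s hs => ⟨hp, hs⟩)

lemma Sm.slice_int (S : Sm κ κ' c₀ c β C B q) {G : ℂ × ℂ → ℂ} (hG : Continuous G) {p : ℂ × ℂ}
    (hp : p ∈ DD κ' c₀) :
    IntervalIntegrable (fun s : ℝ => Complex.exp (-2 * gg q p s) * G (ph q p, EE q p s))
      MeasureTheory.volume 0 1 := by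
  apply ContinuousOn.intervalIntegrable
  rw [uIcc_of_le zero_le_one]
  exact S.slice_cont hG hp

lemma Sm.II_bound (S : Sm κ κ' c₀ c β C B q) {G : ℂ × ℂ → ℂ} {M : ℝ}
    (hM : ∀ u : ℂ × ℂ, ‖u.1‖ ≤ 1 → ‖u.2‖ ≤ 2 → ‖G u‖ ≤ M) {p : ℂ × ℂ} (hp : p ∈ DD κ' c₀) :
    ‖II q G p‖ ≤ 2 * M := by
  unfold II
  have h1 := intervalIntegral.norm_integral_le_of_norm_le_const
    (f := fun s : ℝ => Complex.exp (-2 * gg q p s) * G (ph q p, EE q p s)) (a := 0) (b := 1)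
    (C := 2 * M) (fun r hr => by
      rw [uIoc_of_le zero_le_one] at hr
      have hr' : r ∈ Icc (0 : ℝ) 1 := ⟨hr.1.le, hr.2⟩
      rw [norm_mul]
      have h2 : ‖Complex.exp (-2 * gg q p r)‖ ≤ 2 := by
        apply exp_small'
        rw [norm_mul, norm_neg, Complex.norm_ofNat]
        have := S.gg_le' hp hr'
        linarith
      have h3 := hM (ph q p, EE q p r) (S.ph_le' hp) (S.EE_le hp hr')
      have h4 := norm_nonneg (G (ph q p, EE q p r))
      nlinarith [norm_nonneg (Complex.exp (-2 * gg q p r))])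
  simpa using h1

lemma exists_bound {G : ℂ × ℂ → ℂ} (hG : Continuous G) :
    ∃ M : ℝ, 0 ≤ M ∧ ∀ u : ℂ × ℂ, ‖u.1‖ ≤ 1 → ‖u.2‖ ≤ 2 → ‖G u‖ ≤ M := by
  have hK : IsCompact (closedBall (0 : ℂ) 1 ×ˢ closedBall (0 : ℂ) 2) :=
    (isCompact_closedBall _ _).prod (isCompact_closedBall _ _)
  obtain ⟨M, hM⟩ := (hK.image hG).isBounded.exists_norm_le
  refine ⟨max M 0, le_max_right _ _, fun u h1 h2 => ?_⟩
  exact (hM _ (mem_image_of_mem _ ⟨by simpa using h1, by simpa using h2⟩)).trans (le_max_left _ _)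

lemma Pj_eq (q : ℂ → ℂ) (j x y : ℂ) :
    Pj q j x y = II q (fun u => Complex.exp (j * (u.1 * u.2))) (x, y) := by
  unfold Pj II
  refine intervalIntegral.integral_congr (fun s _ => ?_)
  have h1 : ph q (x, y) * EE q (x, y) s =
      (y - x) * ∫ s' in (0 : ℝ)..s, Complex.exp (q (x + s' * (y - x))) := by
    unfold ph EE gg
    have h2 : ∀ r : ℝ, Complex.exp (q (x + r * (y - x)) - q x) =
        Complex.exp (q (x + r * (y - x))) * Complex.exp (-q x) := by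
      intro r
      rw [sub_eq_add_neg, Complex.exp_add]
    simp only [h2]
    rw [intervalIntegral.integral_mul_const, Complex.exp_neg]
    have := Complex.exp_ne_zero (q x)
    field_simp
  simp only [h1, gg]

lemma Sm.II_near (S : Sm κ κ' c₀ c β C B q) {j : ℂ} (hj : ‖j‖ ≤ 1) {p : ℂ × ℂ}
    (hp : p ∈ DD κ' c₀) :
    ‖II q (fun u => Complex.exp (j * (u.1 * u.2))) p - 1‖ ≤ 1 / 8 := by
  have hG : Continuous (fun u : ℂ × ℂ => Complex.exp (j * (u.1 * u.2))) := by fun_prop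
  have h0 : II q (fun u => Complex.exp (j * (u.1 * u.2))) p - 1 =
      ∫ s in (0 : ℝ)..1, (Complex.exp (-2 * gg q p s) *
        Complex.exp (j * (ph q p * EE q p s)) - 1) := by
    unfold II
    rw [intervalIntegral.integral_sub (S.slice_int hG hp) (by simp)]
    simp
  rw [h0]
  have h1 := intervalIntegral.norm_integral_le_of_norm_le_const
    (f := fun s : ℝ => (Complex.exp (-2 * gg q p s) *
        Complex.exp (j * (ph q p * EE q p s)) - 1)) (a := 0) (b := 1)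
    (C := 1 / 8) (fun r hr => by
      rw [uIoc_of_le zero_le_one] at hr
      have hr' : r ∈ Icc (0 : ℝ) 1 := ⟨hr.1.le, hr.2⟩
      rw [← Complex.exp_add]
      apply exp_small
      have h2 := S.gg_le hp hr'
      have h3 := S.EE_le hp hr'
      have h4 := S.ph_le hp
      have h5 : ‖-2 * gg q p r‖ = 2 * ‖gg q p r‖ := by
        rw [norm_mul, norm_neg, Complex.norm_ofNat]
      have h6 : ‖j * (ph q p * EE q p r)‖ ≤ 2 * B * c₀ := by
        rw [norm_mul, norm_mul]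
        calc ‖j‖ * (‖ph q p‖ * ‖EE q p r‖) ≤ 1 * ((c₀ * B) * 2) := by
              have : 0 ≤ c₀ * B := mul_nonneg S.c0_pos.le S.B_nonneg
              gcongr
          _ = 2 * B * c₀ := by ring
      have h7 := norm_add_le (-2 * gg q p r) (j * (ph q p * EE q p r))
      have h8 := S.small
      linarith)
  simpa using h1

end Param

/-! ### `sin u / u` -/

def sc : ℂ → ℂ := dslope Complex.sin 0

lemma sc_diff : Differentiable ℂ sc := by
  have h := (Complex.differentiableOn_dslope (s := univ) (c := (0 : ℂ)) (f := Complex.sin)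
    univ_mem).2 Complex.differentiable_sin.differentiableOn
  exact differentiableOn_univ.1 h

lemma mul_sc (u : ℂ) : u * sc u = Complex.sin u := by
  have h := sub_smul_dslope Complex.sin 0 u
  simpa [sc] using h

lemma sc_zero : sc 0 = 1 := by
  rw [sc, dslope_same, Complex.deriv_sin, Complex.cos_zero]

lemma cos_eq (u : ℂ) : Complex.cos u = 1 - u ^ 2 * (sc (u / 2) ^ 2 / 2) := by
  have h1 : Complex.cos u = 1 - 2 * Complex.sin (u / 2) ^ 2 := by
    have h2 := Complex.cos_two_mul (u / 2)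
    have h3 := Complex.sin_sq_add_cos_sq (u / 2)
    rw [show 2 * (u / 2) = u by ring] at h2
    rw [h2]
    linear_combination 2 * h3
  rw [h1, ← mul_sc]
  ring

/-! ### square roots near `1` -/

lemma sqrt_near {P : ℂ} (hP : ‖P - 1‖ ≤ 1 / 8) :
    (P ^ (1 / 2 : ℂ)) ^ 2 = P ∧ ‖P ^ (1 / 2 : ℂ) - 1‖ ≤ 1 / 8 ∧ P ∈ Complex.slitPlane := by
  have hre : 7 / 8 ≤ P.re := by
    have h1 := (Complex.abs_re_le_norm (P - 1)).trans hP
    rw [Complex.sub_re, Complex.one_re, abs_le] at h1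
    linarith [h1.1]
  have hP0 : P ≠ 0 := by
    rintro rfl
    simp at hre
    linarith
  have hsl : P ∈ Complex.slitPlane := Or.inl (by linarith)
  have h2 : (P ^ (1 / 2 : ℂ)) ^ 2 = P := by
    rw [Complex.cpow_def_of_ne_zero hP0, ← Complex.exp_nat_mul]
    rw [show ((2 : ℕ) : ℂ) * (Complex.log P * (1 / 2)) = Complex.log P by push_cast; ring]
    exact Complex.exp_log hP0
  have h3 : 0 < (P ^ (1 / 2 : ℂ)).re := by
    rw [Complex.cpow_def_of_ne_zero hP0, Complex.exp_re]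
    refine mul_pos (Real.exp_pos _) (Real.cos_pos_of_mem_Ioo ?_)
    have h4 : (Complex.log P * (1 / 2)).im = P.arg / 2 := by
      have : Complex.log P * (1 / 2) = Complex.log P * ((1 / 2 : ℝ) : ℂ) := by push_cast; ring
      rw [this, Complex.mul_im]
      simp [Complex.log_im]
      ring
    rw [h4]
    have h5 := Complex.mem_slitPlane_iff_arg.1 hsl
    have h6 := Complex.neg_pi_lt_arg P
    have h7 := lt_of_le_of_ne (Complex.arg_le_pi P) h5.1
    constructor <;> linarith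
  refine ⟨h2, ?_, hsl⟩
  set r := P ^ (1 / 2 : ℂ) with hr
  have h4 : (r - 1) * (r + 1) = P - 1 := by linear_combination h2
  have h5 : 1 ≤ ‖r + 1‖ := by
    have h6 := Complex.re_le_norm (r + 1)
    rw [Complex.add_re, Complex.one_re] at h6
    linarith
  have h6 : ‖r - 1‖ * ‖r + 1‖ = ‖P - 1‖ := by rw [← norm_mul, h4]
  nlinarith [norm_nonneg (r - 1)]

lemma mul_near {a b : ℂ} (ha : ‖a - 1‖ ≤ 1 / 8) (hb : ‖b - 1‖ ≤ 1 / 8) :
    ‖a * b - 1‖ ≤ 17 / 64 := by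
  have h1 : a * b - 1 = (a - 1) * (b - 1) + (a - 1) + (b - 1) := by ring
  rw [h1]
  have h2 := norm_add_le ((a - 1) * (b - 1) + (a - 1)) (b - 1)
  have h3 := norm_add_le ((a - 1) * (b - 1)) (a - 1)
  have h4 : ‖(a - 1) * (b - 1)‖ ≤ 1 / 64 := by
    rw [norm_mul]
    calc ‖a - 1‖ * ‖b - 1‖ ≤ (1 / 8) * (1 / 8) := by gcongr
      _ = 1 / 64 := by norm_num
  linarith


/-! ### the removable form of `PsiQ` -/

def GA : ℂ × ℂ → ℂ := fun _ => 1
def Gh : ℂ × ℂ → ℂ := fun u => u.2 ^ 2 * (sc (u.1 * u.2 / 2) ^ 2 / 2)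
def Gs : ℂ × ℂ → ℂ := fun u => u.2 * sc (u.1 * u.2)
def Gj (j : ℂ) : ℂ × ℂ → ℂ := fun u => Complex.exp (j * (u.1 * u.2))

lemma GA_diff : Differentiable ℂ GA := by unfold GA; fun_prop

lemma Gh_diff : Differentiable ℂ Gh := by
  unfold Gh
  have h1 : Differentiable ℂ (fun u : ℂ × ℂ => sc (u.1 * u.2 / 2)) :=
    sc_diff.comp (by fun_prop)
  fun_prop

lemma Gs_diff : Differentiable ℂ Gs := by
  unfold Gs
  have h1 : Differentiable ℂ (fun u : ℂ × ℂ => sc (u.1 * u.2)) :=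
    sc_diff.comp (by fun_prop)
  fun_prop

lemma Gj_diff (j : ℂ) : Differentiable ℂ (Gj j) := by unfold Gj; fun_prop

/-- `Q = √P₊ √P₋` -/
def QQ (q : ℂ → ℂ) (p : ℂ × ℂ) : ℂ :=
  II q (Gj Complex.I) p ^ (1 / 2 : ℂ) * II q (Gj (-Complex.I)) p ^ (1 / 2 : ℂ)

/-- numerator -/
def NN (q : ℂ → ℂ) (p : ℂ × ℂ) : ℂ :=
  2 * II q GA p * II q Gh p - ph q p ^ 2 * II q Gh p ^ 2 - II q Gs p ^ 2

/-- removable form -/
def PsiN (q : ℂ → ℂ) (p : ℂ × ℂ) : ℂ := 4 * NN q p / (II q GA p + QQ q p)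

section Rem

variable {κ κ' c₀ c β C B : ℝ} {q : ℂ → ℂ}

lemma PsiQ_eq (q : ℂ → ℂ) (x y : ℂ) :
    PsiQ q x y = if y = x then 1 / 6 else
      4 * (II q GA (x, y) - QQ q (x, y)) / ((y - x) ^ 2 * Complex.exp (2 * q x)) := by
  unfold PsiQ QQ
  rw [Pj_eq, Pj_eq, Pj_eq]
  have : (fun u : ℂ × ℂ => Complex.exp (0 * (u.1 * u.2))) = GA := by
    funext u; simp [GA]
  rw [this]
  rfl

lemma Sm.plus_eq (S : Sm κ κ' c₀ c β C B q) {p : ℂ × ℂ} (hp : p ∈ DD κ' c₀) {e : ℂ}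
    (he : e = 1 ∨ e = -1) :
    II q (Gj (e * Complex.I)) p =
      II q GA p - ph q p ^ 2 * II q Gh p + e * Complex.I * ph q p * II q Gs p := by
  have hA := S.slice_int GA_diff.continuous hp
  have hh := S.slice_int Gh_diff.continuous hp
  have hs := S.slice_int Gs_diff.continuous hp
  unfold II
  rw [← intervalIntegral.integral_const_mul, ← intervalIntegral.integral_const_mul,
    ← intervalIntegral.integral_sub hA (hh.const_mul _),
    ← intervalIntegral.integral_add (hA.sub (hh.const_mul _)) (hs.const_mul _)]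
  refine intervalIntegral.integral_congr (fun s _ => ?_)
  simp only [GA, Gh, Gs, Gj]
  set u := ph q p * EE q p s with hu
  have h1 : Complex.exp (e * Complex.I * u) = Complex.cos u + e * Complex.I * Complex.sin u := by
    rcases he with rfl | rfl
    · rw [one_mul, mul_comm Complex.I u, Complex.exp_mul_I]; ring
    · rw [show -1 * Complex.I * u = (-u) * Complex.I by ring, Complex.exp_mul_I, Complex.cos_neg,
        Complex.sin_neg]; ring
  rw [h1, cos_eq, ← mul_sc u]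
  rw [hu]
  ring

lemma Sm.prod_eq (S : Sm κ κ' c₀ c β C B q) {p : ℂ × ℂ} (hp : p ∈ DD κ' c₀) :
    II q GA p ^ 2 - II q (Gj Complex.I) p * II q (Gj (-Complex.I)) p = ph q p ^ 2 * NN q p := by
  have h1 := S.plus_eq hp (e := 1) (Or.inl rfl)
  have h2 := S.plus_eq hp (e := -1) (Or.inr rfl)
  rw [one_mul] at h1
  rw [show (-1 : ℂ) * Complex.I = -Complex.I by ring] at h2
  rw [h1, h2]
  unfold NN
  have hI : Complex.I ^ 2 = -1 := Complex.I_sq
  linear_combination (ph q p ^ 2 * II q Gs p ^ 2) * hI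

lemma Sm.near_I (S : Sm κ κ' c₀ c β C B q) {p : ℂ × ℂ} (hp : p ∈ DD κ' c₀) {j : ℂ}
    (hj : ‖j‖ ≤ 1) : ‖II q (Gj j) p - 1‖ ≤ 1 / 8 := S.II_near hj hp

lemma Sm.near_A (S : Sm κ κ' c₀ c β C B q) {p : ℂ × ℂ} (hp : p ∈ DD κ' c₀) :
    ‖II q GA p - 1‖ ≤ 1 / 8 := by
  have h := S.II_near (j := 0) (by simp) hp
  have : (fun u : ℂ × ℂ => Complex.exp (0 * (u.1 * u.2))) = GA := by
    funext u; simp [GA]
  rwa [this] at h

lemma Sm.QQ_sq (S : Sm κ κ' c₀ c β C B q) {p : ℂ × ℂ} (hp : p ∈ DD κ' c₀) :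
    QQ q p ^ 2 = II q (Gj Complex.I) p * II q (Gj (-Complex.I)) p := by
  have h1 := (sqrt_near (S.near_I hp (j := Complex.I) (by simp))).1
  have h2 := (sqrt_near (S.near_I hp (j := -Complex.I) (by simp))).1
  unfold QQ
  rw [mul_pow, h1, h2]

lemma Sm.QQ_near (S : Sm κ κ' c₀ c β C B q) {p : ℂ × ℂ} (hp : p ∈ DD κ' c₀) :
    ‖QQ q p - 1‖ ≤ 17 / 64 :=
  mul_near (sqrt_near (S.near_I hp (j := Complex.I) (by simp))).2.1
    (sqrt_near (S.near_I hp (j := -Complex.I) (by simp))).2.1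

lemma Sm.den (S : Sm κ κ' c₀ c β C B q) {p : ℂ × ℂ} (hp : p ∈ DD κ' c₀) :
    1 ≤ ‖II q GA p + QQ q p‖ := by
  have h1 := S.near_A hp
  have h2 := S.QQ_near hp
  have h3 : (2 : ℂ) = (II q GA p + QQ q p) - (II q GA p - 1) - (QQ q p - 1) := by ring
  have h4 := norm_sub_le ((II q GA p + QQ q p) - (II q GA p - 1)) (QQ q p - 1)
  have h5 := norm_sub_le (II q GA p + QQ q p) (II q GA p - 1)
  rw [← h3] at h4
  rw [Complex.norm_ofNat] at h4
  linarith

lemma Sm.den_ne (S : Sm κ κ' c₀ c β C B q) {p : ℂ × ℂ} (hp : p ∈ DD κ' c₀) :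
    II q GA p + QQ q p ≠ 0 := by
  have := S.den hp
  intro h
  rw [h, norm_zero] at this
  linarith

lemma ph_sq (q : ℂ → ℂ) (x y : ℂ) :
    ph q (x, y) ^ 2 = (y - x) ^ 2 * Complex.exp (2 * q x) := by
  unfold ph
  simp only
  rw [mul_pow, ← Complex.exp_nat_mul]
  norm_num

lemma Sm.PsiQ_eq_N (S : Sm κ κ' c₀ c β C B q) {x y : ℂ} (hp : (x, y) ∈ DD κ' c₀) :
    PsiQ q x y = PsiN q (x, y) := by
  rw [PsiQ_eq]
  have hden := S.den_ne hp
  split_ifs with hxy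
  · subst hxy
    have hg : ∀ s : ℝ, gg q (y, y) s = 0 := by intro s; simp [gg]
    have hE : ∀ s : ℝ, EE q (y, y) s = s := by intro s; simp [EE, hg]
    have hph : ph q (y, y) = 0 := by simp [ph]
    have hA : II q GA (y, y) = 1 := by simp [II, hg, GA]
    have hIj : ∀ j, II q (Gj j) (y, y) = 1 := by
      intro j; simp [II, hg, Gj, hph]
    have hQ : QQ q (y, y) = 1 := by simp [QQ, hIj]
    have hh : II q Gh (y, y) = 1 / 6 := by
      simp only [II, hg, Gh, hph, hE, zero_mul, zero_div, sc_zero, mul_zero, Complex.exp_zero]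
      have : ∀ s : ℝ, (1 : ℂ) * ((s : ℂ) ^ 2 * (1 ^ 2 / 2)) = (((s ^ 2 / 2 : ℝ)) : ℂ) := by
        intro s; push_cast; ring
      simp only [this]
      rw [intervalIntegral.integral_ofReal, intervalIntegral.integral_div, integral_pow]
      norm_num
    have hs : II q Gs (y, y) = 1 / 2 := by
      simp only [II, hg, Gs, hph, hE, zero_mul, sc_zero, mul_zero, Complex.exp_zero]
      have : ∀ s : ℝ, (1 : ℂ) * ((s : ℂ) * 1) = (s : ℂ) := by
        intro s; ring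
      simp only [this]
      rw [intervalIntegral.integral_ofReal, integral_id]
      norm_num
    unfold PsiN NN
    rw [hA, hQ, hh, hs, hph]
    norm_num
  · have h1 := S.prod_eq hp
    rw [← S.QQ_sq hp] at h1
    rw [← ph_sq]
    have hph : ph q (x, y) ≠ 0 := by
      unfold ph
      exact mul_ne_zero (sub_ne_zero.2 hxy) (Complex.exp_ne_zero _)
    unfold PsiN
    rw [div_eq_div_iff (pow_ne_zero 2 hph) hden]
    linear_combination 4 * h1

lemma Sm.QQ_diff (S : Sm κ κ' c₀ c β C B q) : DifferentiableOn ℂ (QQ q) (DD κ' c₀) := by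
  unfold QQ
  refine DifferentiableOn.mul ?_ ?_
  · intro p hp
    exact (S.II_diff (Gj_diff _) p hp).cpow (differentiableWithinAt_const _)
      (sqrt_near (S.near_I hp (j := Complex.I) (by simp))).2.2
  · intro p hp
    exact (S.II_diff (Gj_diff _) p hp).cpow (differentiableWithinAt_const _)
      (sqrt_near (S.near_I hp (j := -Complex.I) (by simp))).2.2

lemma Sm.PsiN_diff (S : Sm κ κ' c₀ c β C B q) : DifferentiableOn ℂ (PsiN q) (DD κ' c₀) := by
  unfold PsiN NN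
  have hA := S.II_diff GA_diff
  have hh := S.II_diff Gh_diff
  have hs := S.II_diff Gs_diff
  have hph := S.ph_diff
  have hQ := S.QQ_diff
  have h1 : DifferentiableOn ℂ (fun p => 4 * (2 * II q GA p * II q Gh p -
      ph q p ^ 2 * II q Gh p ^ 2 - II q Gs p ^ 2)) (DD κ' c₀) :=
    (((((hA.const_mul 2).mul hh)).sub ((hph.pow 2).mul (hh.pow 2))).sub (hs.pow 2)).const_mul 4
  have h2 : DifferentiableOn ℂ (fun p => (II q GA p + QQ q p)⁻¹) (DD κ' c₀) :=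
    (hA.add hQ).inv (fun p hp => S.den_ne hp)
  exact (h1.mul h2).congr (fun p _ => by rw [div_eq_mul_inv]; rfl)

lemma Sm.PsiN_bound (S : Sm κ κ' c₀ c β C B q) :
    ∃ M : ℝ, ∀ p ∈ DD κ' c₀, ‖PsiN q p‖ ≤ M := by
  obtain ⟨M1, hM1, h1⟩ := exists_bound GA_diff.continuous
  obtain ⟨M2, hM2, h2⟩ := exists_bound Gh_diff.continuous
  obtain ⟨M3, hM3, h3⟩ := exists_bound Gs_diff.continuous
  refine ⟨4 * (2 * (2 * M1) * (2 * M2) + 1 ^ 2 * (2 * M2) ^ 2 + (2 * M3) ^ 2), fun p hp => ?_⟩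
  have hA := S.II_bound h1 hp
  have hh := S.II_bound h2 hp
  have hs := S.II_bound h3 hp
  have hph := S.ph_le' hp
  have hd := S.den hp
  unfold PsiN
  rw [norm_div, div_le_iff₀ (by linarith)]
  have hN : ‖NN q p‖ ≤ 2 * (2 * M1) * (2 * M2) + 1 ^ 2 * (2 * M2) ^ 2 + (2 * M3) ^ 2 := by
    unfold NN
    refine (norm_sub_le _ _).trans (add_le_add ((norm_sub_le _ _).trans (add_le_add ?_ ?_)) ?_)
    · rw [norm_mul, norm_mul, Complex.norm_ofNat]
      gcongr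
    · rw [norm_mul, norm_pow, norm_pow]
      gcongr
    · rw [norm_pow]
      gcongr
  rw [norm_mul, Complex.norm_ofNat]
  have h0 : 0 ≤ 4 * (2 * (2 * M1) * (2 * M2) + 1 ^ 2 * (2 * M2) ^ 2 + (2 * M3) ^ 2) := by positivity
  calc 4 * ‖NN q p‖ ≤ 4 * (2 * (2 * M1) * (2 * M2) + 1 ^ 2 * (2 * M2) ^ 2 + (2 * M3) ^ 2) := by
        gcongr
    _ ≤ 4 * (2 * (2 * M1) * (2 * M2) + 1 ^ 2 * (2 * M2) ^ 2 + (2 * M3) ^ 2) *
        ‖II q GA p + QQ q p‖ := le_mul_of_one_le_right h0 hd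

/-! ### symmetry -/

lemma DD_symm {p : ℂ × ℂ} (hp : p ∈ DD κ' c₀) : (p.2, p.1) ∈ DD κ' c₀ := by
  refine ⟨hp.2.1, hp.1, ?_, ?_⟩
  · simp only; rw [norm_sub_rev]; exact hp.2.2.2
  · simp only; rw [norm_sub_rev]; exact hp.2.2.1

lemma Sm.swap (S : Sm κ κ' c₀ c β C B q) {x y : ℂ} (hp : (x, y) ∈ DD κ' c₀) (j : ℂ) :
    II q (Gj j) (y, x) = Complex.exp (2 * (q y - q x)) *
      Complex.exp (-j * (ph q (x, y) * EE q (x, y) 1)) * II q (Gj j) (x, y) := by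
  set D := q y - q x with hD
  have hg : ∀ s : ℝ, gg q (y, x) s = gg q (x, y) (1 - s) - D := by
    intro s
    simp only [gg, hD]
    rw [show y + (s : ℂ) * (x - y) = x + ((1 - s : ℝ) : ℂ) * (y - x) by push_cast; ring]
    ring
  have hint : ∀ a ∈ Icc (0 : ℝ) 1, ∀ b ∈ Icc (0 : ℝ) 1,
      IntervalIntegrable (fun r => Complex.exp (gg q (x, y) r)) MeasureTheory.volume a b := by
    intro a ha b hb
    apply ContinuousOn.intervalIntegrable
    have h1 : ContinuousOn (fun s : ℝ => gg q (x, y) s) (Icc (0 : ℝ) 1) :=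
      S.gg_cont.comp (f := fun s : ℝ => ((x, y), s)) (by fun_prop) (fun s hs => ⟨hp, hs⟩)
    exact (Complex.continuous_exp.comp_continuousOn h1).mono (uIcc_subset_Icc ha hb)
  have hE : ∀ s ∈ Icc (0 : ℝ) 1, EE q (y, x) s =
      Complex.exp (-D) * (EE q (x, y) 1 - EE q (x, y) (1 - s)) := by
    intro s hs
    have h1 : EE q (y, x) s = ∫ r in (0 : ℝ)..s, Complex.exp (-D) *
        Complex.exp (gg q (x, y) (1 - r)) := by
      unfold EE
      refine intervalIntegral.integral_congr (fun r _ => ?_)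
      simp only [hg]
      rw [← Complex.exp_add]
      ring_nf
    rw [h1, intervalIntegral.integral_const_mul,
      intervalIntegral.integral_comp_sub_left (fun r => Complex.exp (gg q (x, y) r)) 1, sub_zero]
    congr 1
    unfold EE
    rw [eq_sub_iff_add_eq, add_comm]
    exact intervalIntegral.integral_add_adjacent_intervals
      (hint 0 (by simp) (1 - s) ⟨by linarith [hs.2], by linarith [hs.1]⟩)
      (hint (1 - s) ⟨by linarith [hs.2], by linarith [hs.1]⟩ 1 (by simp))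
  have hph : ph q (y, x) = -ph q (x, y) * Complex.exp D := by
    unfold ph
    simp only
    rw [hD, Complex.exp_sub]
    have := Complex.exp_ne_zero (q x)
    field_simp
    ring
  have h2 : II q (Gj j) (y, x) = ∫ s in (0 : ℝ)..1, (fun s : ℝ => Complex.exp (2 * D) *
      Complex.exp (-j * (ph q (x, y) * EE q (x, y) 1)) *
      (Complex.exp (-2 * gg q (x, y) s) * Gj j (ph q (x, y), EE q (x, y) s))) (1 - s) := by
    unfold II
    refine intervalIntegral.integral_congr (fun s hs => ?_)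
    rw [uIcc_of_le zero_le_one] at hs
    simp only [Gj]
    rw [hg, hE s hs, hph, ← Complex.exp_add, ← Complex.exp_add, ← Complex.exp_add,
      ← Complex.exp_add]
    congr 1
    have h3 : Complex.exp D * Complex.exp (-D) = 1 := by
      rw [← Complex.exp_add]; simp
    linear_combination (-j * ph q (x, y) * (EE q (x, y) 1 - EE q (x, y) (1 - s))) * h3
  rw [h2, intervalIntegral.integral_comp_sub_left (fun s : ℝ => Complex.exp (2 * D) *
      Complex.exp (-j * (ph q (x, y) * EE q (x, y) 1)) *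
      (Complex.exp (-2 * gg q (x, y) s) * Gj j (ph q (x, y), EE q (x, y) s))) 1]
  rw [sub_self, sub_zero, intervalIntegral.integral_const_mul]
  rfl

lemma Sm.QQ_swap (S : Sm κ κ' c₀ c β C B q) {x y : ℂ} (hp : (x, y) ∈ DD κ' c₀) :
    QQ q (y, x) = Complex.exp (2 * (q y - q x)) * QQ q (x, y) := by
  have hp' : (y, x) ∈ DD κ' c₀ := DD_symm hp
  have h1 := S.QQ_sq hp
  have h2 := S.QQ_sq hp'
  rw [S.swap hp, S.swap hp] at h2
  set e := Complex.exp (2 * (q y - q x)) with he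
  have h3 : Complex.exp (-Complex.I * (ph q (x, y) * EE q (x, y) 1)) *
      Complex.exp (- -Complex.I * (ph q (x, y) * EE q (x, y) 1)) = 1 := by
    rw [← Complex.exp_add]; simp
  have h4 : (QQ q (y, x) - e * QQ q (x, y)) * (QQ q (y, x) + e * QQ q (x, y)) = 0 := by
    linear_combination h2 - e ^ 2 * h1 + e ^ 2 * II q (Gj Complex.I) (x, y) *
      II q (Gj (-Complex.I)) (x, y) * h3
  rcases mul_eq_zero.1 h4 with h5 | h5
  · exact sub_eq_zero.1 h5
  · exfalso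
    have h6 : ‖e - 1‖ ≤ 1 / 8 := by
      apply exp_small
      have h7 := S.gg_le' hp (s := 1) (by simp)
      have h8 : gg q (x, y) 1 = q y - q x := by simp [gg]
      rw [norm_mul, Complex.norm_ofNat, ← h8]
      linarith
    have h7 := S.QQ_near hp
    have h8 := S.QQ_near hp'
    have h9 : (2 : ℂ) = (QQ q (y, x) + e * QQ q (x, y)) - (QQ q (y, x) - 1) -
        ((e - 1) * (QQ q (x, y) - 1) + (e - 1) + (QQ q (x, y) - 1)) := by ring
    rw [h5, zero_sub] at h9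
    have h10 : ‖(2 : ℂ)‖ ≤ 17 / 64 + ((1 / 8) * (17 / 64) + 1 / 8 + 17 / 64) := by
      rw [h9]
      refine (norm_sub_le _ _).trans (add_le_add (by rw [norm_neg]; exact h8) ?_)
      refine (norm_add_le _ _).trans (add_le_add ((norm_add_le _ _).trans
        (add_le_add ?_ h6)) h7)
      rw [norm_mul]
      gcongr
    rw [Complex.norm_ofNat] at h10
    norm_num at h10

lemma Sm.symm (S : Sm κ κ' c₀ c β C B q) {x y : ℂ} (hp : (x, y) ∈ DD κ' c₀) :
    PsiQ q x y = PsiQ q y x := by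
  rcases eq_or_ne y x with h | h
  · rw [h]
  have h1 := S.QQ_swap hp
  have h2 := S.swap hp 0
  have h0 : Gj 0 = GA := by funext u; simp [Gj, GA]
  rw [h0] at h2
  rw [neg_zero, zero_mul, Complex.exp_zero, mul_one] at h2
  rw [PsiQ_eq, PsiQ_eq, if_neg h, if_neg h.symm, h1, h2]
  have h3 : Complex.exp (2 * q y) = Complex.exp (2 * (q y - q x)) * Complex.exp (2 * q x) := by
    rw [← Complex.exp_add]; ring_nf
  rw [h3]
  have h4 := Complex.exp_ne_zero (2 * (q y - q x))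
  have h5 := Complex.exp_ne_zero (2 * q x)
  have h6 : y - x ≠ 0 := sub_ne_zero.2 h
  have h7 : x - y ≠ 0 := sub_ne_zero.2 h.symm
  field_simp
  ring

/-- **common part of L4** -/
theorem Sm.endPsi (S : Sm κ κ' c₀ c β C B q) : ∃ M : ℝ, EndPsi κ' c₀ M (PsiQ q) := by
  obtain ⟨M, hM⟩ := S.PsiN_bound
  refine ⟨M, S.κ'_pos, S.κ'_lt.trans S.h.κ_lt, S.c0_pos, S.c0_lt, ?_, ?_, ?_, ?_⟩
  · exact S.PsiN_diff.congr (fun p hp => S.PsiQ_eq_N hp)
  · exact fun x y hp => S.symm hp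
  · intro x _
    simp [PsiQ]
  · intro x y hp
    rw [S.PsiQ_eq_N hp]
    exact hM _ hp

end Rem

/-- existence of `c₀` -/
theorem exists_Sm {κ κ' c β C : ℝ} {q : ℂ → ℂ} (hκ' : 0 < κ') (hκ : κ' < κ)
    (h : EndQ κ c β C q) (hc : -1 ≤ c) : ∃ c₀ B : ℝ, Sm κ κ' c₀ c β C B q := by
  obtain ⟨B, hB0, hB⟩ := exists_B h hc hκ
  have hC := C_nonneg h
  set L : ℝ := 4 * (|c| + C) + 2 * B with hL
  have hL0 : 0 < L := by positivity
  refine ⟨min (1 / 8) (min ((κ - κ') / (1 + κ)) (1 / (16 * L))), B, h, hκ', hκ, ?_, ?_, ?_,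
    hB0.le, hB, ?_⟩
  · have : 0 < κ := h.κ_pos
    have h1 : 0 < (κ - κ') / (1 + κ) := div_pos (by linarith) (by linarith)
    have h2 : 0 < 1 / (16 * L) := by positivity
    exact lt_min (by norm_num) (lt_min h1 h2)
  · exact (min_le_left _ _).trans_lt (by norm_num)
  · have h0 : 0 < κ := h.κ_pos
    have h1 : min (1 / 8) (min ((κ - κ') / (1 + κ)) (1 / (16 * L))) ≤ (κ - κ') / (1 + κ) :=
      (min_le_right _ _).trans (min_le_left _ _)
    rw [le_div_iff₀ (by linarith)] at h1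
    linarith
  · have h1 : min (1 / 8) (min ((κ - κ') / (1 + κ)) (1 / (16 * L))) ≤ 1 / (16 * L) :=
      (min_le_right _ _).trans (min_le_right _ _)
    calc 4 * (|c| + C) * min (1 / 8) (min ((κ - κ') / (1 + κ)) (1 / (16 * L))) +
          2 * B * min (1 / 8) (min ((κ - κ') / (1 + κ)) (1 / (16 * L)))
        = L * min (1 / 8) (min ((κ - κ') / (1 + κ)) (1 / (16 * L))) := by rw [hL]; ring
      _ ≤ L * (1 / (16 * L)) := by gcongr
      _ = 1 / 16 := by field_simp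

end Crest.Agent.R102.T5R.L4346
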