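import Crest.Agent.R102.MelDefs_490
import Crest.Agent.R102.T5L4_346
import Crest.Agent.R102.MelF_231

/-!
# T5 MEL: leaves ML-A (`PAn`), ML-R0 (`RRot`), ML-S (`RSym`) (helper231)
-/

set_option autoImplicit false

open Set Filter Topology Metric MeasureTheory
open scoped ComplexConjugate

noncomputable section

namespace Crest.Agent.R102.Mel

open Crest.Agent.R102.T5R Crest.Agent.R102.Mel231

/-- **ML-A** -/
theorem pAn : PAn := by
  intro κ q j x y hq hopen hseg
  have hqa : ∀ s ∈ Icc (0 : ℝ) 1, AnalyticAt ℂ q (x + s * (y - x)) := fun s hs =>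
    hq.analyticAt (hopen.mem_nhds (hseg s hs))
  have hqx : AnalyticAt ℂ q x := by
    have := hqa 0 ⟨le_rfl, zero_le_one⟩
    simpa using this
  have e : (fun p : ℂ × ℂ => Pj q j p.1 p.2) = fun p : ℂ × ℂ => ∫ s in (0 : ℝ)..1,
      (fun v : (ℂ × ℂ) × ℂ => Complex.exp (-2 * (q (v.1.1 + v.2 * (v.1.2 - v.1.1)) - q v.1.1)) *
        Complex.exp (j * ((v.1.2 - v.1.1) * (v.2 * ∫ r in (0 : ℝ)..1,
          Complex.exp (q (v.1.1 + (v.2 * r) * (v.1.2 - v.1.1))))))) (p, (s : ℂ)) := by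
    ext p
    unfold Pj
    apply intervalIntegral.integral_congr
    intro s _
    simp only
    congr 4
    have := intervalIntegral.smul_integral_comp_mul_left (a := 0) (b := 1)
      (fun r : ℝ => Complex.exp (q (p.1 + r * (p.2 - p.1)))) s
    simp only [mul_zero, mul_one] at this
    rw [← this, Complex.real_smul]
    congr 2
    ext r
    push_cast
    rfl
  rw [e]
  apply anInt (E := ℂ × ℂ) (f := fun v : (ℂ × ℂ) × ℂ =>
    Complex.exp (-2 * (q (v.1.1 + v.2 * (v.1.2 - v.1.1)) - q v.1.1)) *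
        Complex.exp (j * ((v.1.2 - v.1.1) * (v.2 * ∫ r in (0 : ℝ)..1,
          Complex.exp (q (v.1.1 + (v.2 * r) * (v.1.2 - v.1.1)))))))
  intro s hs
  have l1 : AnalyticAt ℂ (fun v : (ℂ × ℂ) × ℂ => v.1.1) ((x, y), (s : ℂ)) :=
    ((ContinuousLinearMap.fst ℂ ℂ ℂ).comp (ContinuousLinearMap.fst ℂ (ℂ × ℂ) ℂ)).analyticAt _
  have l2 : AnalyticAt ℂ (fun v : (ℂ × ℂ) × ℂ => v.1.2) ((x, y), (s : ℂ)) :=
    ((ContinuousLinearMap.snd ℂ ℂ ℂ).comp (ContinuousLinearMap.fst ℂ (ℂ × ℂ) ℂ)).analyticAt _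
  have l3 : AnalyticAt ℂ (fun v : (ℂ × ℂ) × ℂ => v.2) ((x, y), (s : ℂ)) := analyticAt_snd
  have q1 : AnalyticAt ℂ (fun v : (ℂ × ℂ) × ℂ => q v.1.1) ((x, y), (s : ℂ)) :=
    AnalyticAt.fun_comp (g := q) (f := fun v : (ℂ × ℂ) × ℂ => v.1.1) hqx l1
  have q2 : AnalyticAt ℂ (fun v : (ℂ × ℂ) × ℂ => q (v.1.1 + v.2 * (v.1.2 - v.1.1)))
      ((x, y), (s : ℂ)) :=
    AnalyticAt.fun_comp (g := q) (f := fun v : (ℂ × ℂ) × ℂ => v.1.1 + v.2 * (v.1.2 - v.1.1))
      (hqa s hs) (l1.add (l3.mul (l2.sub l1)))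
  refine (analyticAt_const.mul (q2.sub q1)).cexp.mul
    (analyticAt_const.mul ((l2.sub l1).mul (l3.mul ?_))).cexp
  apply anInt (E := (ℂ × ℂ) × ℂ) (f := fun u : ((ℂ × ℂ) × ℂ) × ℂ =>
    Complex.exp (q (u.1.1.1 + (u.1.2 * u.2) * (u.1.1.2 - u.1.1.1))))
  intro r hr
  have m1 : AnalyticAt ℂ (fun u : ((ℂ × ℂ) × ℂ) × ℂ => u.1.1.1) (((x, y), (s : ℂ)), (r : ℂ)) :=
    ((ContinuousLinearMap.fst ℂ ℂ ℂ).comp ((ContinuousLinearMap.fst ℂ (ℂ × ℂ) ℂ).comp
      (ContinuousLinearMap.fst ℂ ((ℂ × ℂ) × ℂ) ℂ))).analyticAt _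
  have m2 : AnalyticAt ℂ (fun u : ((ℂ × ℂ) × ℂ) × ℂ => u.1.1.2) (((x, y), (s : ℂ)), (r : ℂ)) :=
    ((ContinuousLinearMap.snd ℂ ℂ ℂ).comp ((ContinuousLinearMap.fst ℂ (ℂ × ℂ) ℂ).comp
      (ContinuousLinearMap.fst ℂ ((ℂ × ℂ) × ℂ) ℂ))).analyticAt _
  have m3 : AnalyticAt ℂ (fun u : ((ℂ × ℂ) × ℂ) × ℂ => u.1.2) (((x, y), (s : ℂ)), (r : ℂ)) :=
    ((ContinuousLinearMap.snd ℂ (ℂ × ℂ) ℂ).comp
      (ContinuousLinearMap.fst ℂ ((ℂ × ℂ) × ℂ) ℂ)).analyticAt _
  have m4 : AnalyticAt ℂ (fun u : ((ℂ × ℂ) × ℂ) × ℂ => u.2) (((x, y), (s : ℂ)), (r : ℂ)) :=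
    analyticAt_snd
  refine AnalyticAt.cexp ?_
  refine AnalyticAt.fun_comp (g := q) (f := fun u : ((ℂ × ℂ) × ℂ) × ℂ =>
    u.1.1.1 + (u.1.2 * u.2) * (u.1.1.2 - u.1.1.1)) ?_ (m1.add ((m3.mul m4).mul (m2.sub m1)))
  change AnalyticAt ℂ q (x + ((s : ℂ) * r) * (y - x))
  have := hqa (s * r) ⟨mul_nonneg hs.1 hr.1, mul_le_one₀ hs.2 hr.1 hr.2⟩
  push_cast at this
  exact this

/-- **ML-R0** -/
theorem rRot : RRot := by
  constructor
  · intro q j x y
    unfold Rj
    rw [neg_neg, inv_div]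
  · intro κ q q' j x y _ _ h hseg
    have hx : Complex.exp (q' (-x)) = Complex.exp (q x) := by
      have := hseg 0 ⟨le_rfl, zero_le_one⟩
      simp only [Complex.ofReal_zero, zero_mul, add_zero] at this
      exact h x this
    have key : ∀ i : ℂ, Pj q' i (-x) (-y) = Pj q (-i) x y := by
      intro i
      unfold Pj
      apply intervalIntegral.integral_congr
      intro s hs
      rw [uIcc_of_le zero_le_one] at hs
      simp only
      have hz : ∀ r : ℝ, -x + (r : ℂ) * (-y - -x) = -(x + r * (y - x)) := by intro r; ring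
      have hsq : ∀ a b : ℂ, Complex.exp (-2 * (a - b)) = Complex.exp b ^ 2 / Complex.exp a ^ 2 := by
        intro a b
        rw [← Complex.exp_nat_mul, ← Complex.exp_nat_mul, ← Complex.exp_sub]
        congr 1
        push_cast
        ring
      rw [hz, hsq, hsq, hx, h _ (hseg s hs)]
      congr 2
      have e2 : (∫ s' in (0 : ℝ)..s, Complex.exp (q' (-x + s' * (-y - -x)))) =
          ∫ s' in (0 : ℝ)..s, Complex.exp (q (x + s' * (y - x))) := by
        apply intervalIntegral.integral_congr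
        intro r hr
        rw [uIcc_of_le hs.1] at hr
        simp only
        rw [hz, h _ (hseg r ⟨hr.1, hr.2.trans hs.2⟩)]
      rw [e2]
      ring
    unfold Rj
    rw [key, key]

theorem exp_gg_cont {κ : ℝ} {q : ℂ → ℂ} {x y : ℂ} (hq : DifferentiableOn ℂ q (Sg κ))
    (hseg : ∀ u ∈ Icc (0 : ℝ) 1, x + u * (y - x) ∈ Sg κ) :
    ContinuousOn (fun s : ℝ => q (x + s * (y - x))) (Icc (0 : ℝ) 1) :=
  hq.continuousOn.comp (by fun_prop) fun s hs => hseg s hs

/-- the swap identity -/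
theorem Pj_swap {κ : ℝ} {q : ℂ → ℂ} {x y : ℂ} (hq : DifferentiableOn ℂ q (Sg κ))
    (hseg : ∀ u ∈ Icc (0 : ℝ) 1, x + u * (y - x) ∈ Sg κ) (j : ℂ) :
    Pj q j y x = Complex.exp (2 * (q y - q x)) * Complex.exp (-j * ((y - x) *
      ∫ s in (0 : ℝ)..1, Complex.exp (q (x + s * (y - x))))) * Pj q j x y := by
  have hc := exp_gg_cont hq hseg
  have hec : ContinuousOn (fun s : ℝ => Complex.exp (q (x + s * (y - x)))) (Icc (0 : ℝ) 1) :=
    Complex.continuous_exp.comp_continuousOn hc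
  have hint : ∀ a ∈ Icc (0 : ℝ) 1, ∀ b ∈ Icc (0 : ℝ) 1,
      IntervalIntegrable (fun r : ℝ => Complex.exp (q (x + r * (y - x)))) volume a b := by
    intro a ha b hb
    exact (hec.mono (uIcc_subset_Icc ha hb)).intervalIntegrable
  have hE : ∀ s ∈ Icc (0 : ℝ) 1, (∫ r in (0 : ℝ)..s, Complex.exp (q (y + r * (x - y)))) =
      (∫ r in (0 : ℝ)..1, Complex.exp (q (x + r * (y - x)))) -
        ∫ r in (0 : ℝ)..(1 - s), Complex.exp (q (x + r * (y - x))) := by
    intro s hs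
    have h1 : (∫ r in (0 : ℝ)..s, Complex.exp (q (y + r * (x - y)))) =
        ∫ r in (0 : ℝ)..s, (fun r : ℝ => Complex.exp (q (x + r * (y - x)))) (1 - r) := by
      refine intervalIntegral.integral_congr (fun r _ => ?_)
      simp only
      congr 2
      push_cast
      ring
    rw [h1, intervalIntegral.integral_comp_sub_left
      (fun r : ℝ => Complex.exp (q (x + r * (y - x)))) 1, sub_zero, eq_sub_iff_add_eq, add_comm]
    exact intervalIntegral.integral_add_adjacent_intervals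
      (hint 0 (by simp) (1 - s) ⟨by linarith [hs.2], by linarith [hs.1]⟩)
      (hint (1 - s) ⟨by linarith [hs.2], by linarith [hs.1]⟩ 1 (by simp))
  have h2 : Pj q j y x = ∫ s in (0 : ℝ)..1, (fun s : ℝ => Complex.exp (2 * (q y - q x)) *
      Complex.exp (-j * ((y - x) * ∫ s in (0 : ℝ)..1, Complex.exp (q (x + s * (y - x))))) *
      (Complex.exp (-2 * (q (x + s * (y - x)) - q x)) *
    Complex.exp (j * ((y - x) * ∫ s' in (0 : ℝ)..s, Complex.exp (q (x + s' * (y - x))))))) (1 - s) := by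
    unfold Pj
    refine intervalIntegral.integral_congr (fun s hs => ?_)
    rw [uIcc_of_le zero_le_one] at hs
    simp only
    rw [hE s hs, ← Complex.exp_add, ← Complex.exp_add, ← Complex.exp_add, ← Complex.exp_add]
    congr 1
    have e3 : y + (s : ℂ) * (x - y) = x + ((1 - s : ℝ) : ℂ) * (y - x) := by push_cast; ring
    rw [e3]
    ring
  rw [h2, intervalIntegral.integral_comp_sub_left (fun s : ℝ => Complex.exp (2 * (q y - q x)) *
      Complex.exp (-j * ((y - x) * ∫ s in (0 : ℝ)..1, Complex.exp (q (x + s * (y - x))))) *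
      (Complex.exp (-2 * (q (x + s * (y - x)) - q x)) *
    Complex.exp (j * ((y - x) * ∫ s' in (0 : ℝ)..s, Complex.exp (q (x + s' * (y - x))))))) 1]
  rw [sub_self, sub_zero, intervalIntegral.integral_const_mul]
  rfl

/-- slope along a segment -/
theorem slope_seg {κ : ℝ} {q : ℂ → ℂ} {j : ℂ} {M : ℂ → ℂ} {x y : ℂ}
    (hq : DifferentiableOn ℂ q (Sg κ)) (hM : Slope κ q j M)
    (hseg : ∀ u ∈ Icc (0 : ℝ) 1, x + u * (y - x) ∈ Sg κ) :
    M y = M x * Complex.exp (2 * j * ((y - x) * ∫ s in (0 : ℝ)..1,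
      Complex.exp (q (x + s * (y - x))))) := by
  have hopen := L4346.isOpen_Sg κ
  have hc := exp_gg_cont hq hseg
  have hec : ContinuousOn (fun s : ℝ => Complex.exp (q (x + s * (y - x)))) (Icc (0 : ℝ) 1) :=
    Complex.continuous_exp.comp_continuousOn hc
  have hlogder : ∀ s ∈ uIcc (0 : ℝ) 1, HasDerivAt (fun s : ℝ => x + s * (y - x)) (y - x) s := by
    intro s _
    have h1 : HasDerivAt (fun s : ℝ => (s : ℂ) * (y - x)) (y - x) s := by
      simpa using ((hasDerivAt_id s).ofReal_comp).mul_const (y - x)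
    exact h1.const_add x
  -- primitive
  set T : ℝ → ℂ := fun s => ∫ r in (0 : ℝ)..s, Complex.exp (q (x + r * (y - x))) with hT
  have hTd : ∀ s ∈ Icc (0 : ℝ) 1, HasDerivWithinAt T (Complex.exp (q (x + s * (y - x))))
      (Icc 0 1) s := by
    intro s hs
    have hI : IntervalIntegrable (fun r : ℝ => Complex.exp (q (x + r * (y - x)))) volume 0 s :=
      (hec.mono (by rw [uIcc_of_le hs.1]; exact Icc_subset_Icc_right hs.2)).intervalIntegrable
    have : Fact (s ∈ Icc (0 : ℝ) 1) := ⟨hs⟩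
    exact intervalIntegral.integral_hasDerivWithinAt_right hI
      (hec.stronglyMeasurableAtFilter_nhdsWithin measurableSet_Icc s) (hec s hs)
  have hMd : ∀ s ∈ Icc (0 : ℝ) 1, HasDerivWithinAt (fun s : ℝ => M (x + s * (y - x)))
      (2 * j * Complex.exp (q (x + s * (y - x))) * M (x + s * (y - x)) * (y - x)) (Icc 0 1) s := by
    intro s hs
    have h1 : HasDerivAt M (2 * j * Complex.exp (q (x + s * (y - x))) * M (x + s * (y - x)))
        (x + s * (y - x)) := by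
      rw [← hM.der _ (hseg s hs)]
      exact (hM.diff.differentiableAt (hopen.mem_nhds (hseg s hs))).hasDerivAt
    exact (HasDerivAt.comp_of_eq s h1 (hlogder s (by rwa [uIcc_of_le zero_le_one])) rfl).hasDerivWithinAt
  set G : ℝ → ℂ := fun s => M (x + s * (y - x)) * Complex.exp (-(2 * j * ((y - x) * T s))) with hG
  have hGd : ∀ s ∈ Icc (0 : ℝ) 1, HasDerivWithinAt G 0 (Icc 0 1) s := by
    intro s hs
    have h1 := ((hTd s hs).const_mul (y - x)).const_mul (2 * j)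
    have h2 := (hMd s hs).mul (h1.neg.cexp)
    refine h2.congr_deriv ?_
    simp only [Pi.neg_apply]
    ring
  have hconst : ∀ s ∈ Icc (0 : ℝ) 1, G s = G 0 := by
    have hGc : ContinuousOn G (Icc 0 1) := fun s hs => (hGd s hs).continuousWithinAt
    intro s hs
    refine constant_of_has_deriv_right_zero hGc (fun t ht => ?_) s hs
    exact (hGd t ⟨ht.1, ht.2.le⟩).mono_of_mem_nhdsWithin (Icc_mem_nhdsGE_of_mem ht)
  have h1 := hconst 1 ⟨zero_le_one, le_rfl⟩
  simp only [hG, hT] at h1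
  rw [intervalIntegral.integral_same] at h1
  simp only [Complex.ofReal_one, one_mul, Complex.ofReal_zero, zero_mul, add_zero, mul_zero,
    neg_zero, Complex.exp_zero, mul_one] at h1
  rw [show x + (y - x) = y by ring] at h1
  rw [← h1, mul_assoc, ← Complex.exp_add, neg_add_cancel, Complex.exp_zero, mul_one]

/-- **ML-S** -/
theorem rSym : RSym := by
  intro κ q j M x y hq hM hseg h1 h2
  have hs := slope_seg hq hM hseg
  unfold Rj
  rw [Pj_swap hq hseg j, Pj_swap hq hseg (-j), hs]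
  set T : ℂ := (y - x) * ∫ s in (0 : ℝ)..1, Complex.exp (q (x + s * (y - x)))
  have e1 := Complex.exp_ne_zero (2 * (q y - q x))
  have e2 := Complex.exp_ne_zero (-(-j) * T)
  have e3 : Complex.exp (2 * j * T) * Complex.exp (-j * T) = Complex.exp (-(-j) * T) := by
    rw [← Complex.exp_add]; congr 1; ring
  rw [mul_div_assoc', mul_div_assoc', div_eq_div_iff h2 (mul_ne_zero (mul_ne_zero e1 e2) h2)]
  linear_combination (-(M x * Complex.exp (2 * (q y - q x)) * Pj q j x y * Pj q (-j) x y)) * e3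

end Crest.Agent.R102.Mel
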