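import Mathlib
import Crest.Agent.R102.MelDefs_490

/-!
# Row 102, part (C), [T5]/MEL: **MEL-I**, literal leaves (helper963)

`MelI` of `MelDefs_490` from `ExtI`, `RLimI`, `RSym`, `PAn`, `RRot` through

* (I1) `ELim`   : `E / τ → C₀ ≠ 0`, `E' → C₀`;
* (I2) `PosF`   : the position formulas;
* (I3) `EInv`   : inverse of `E / C₀` near the positive real axis;
* (I4) `TrapL`  : the incidence relation on the trapezoids `-ρ < Re t < -R₁ l`;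
* (I5) `JointL` : the relations at `w = 0`;
* (I6) `FinL`   : conclusion.

`w = - i l`; side `A` has label `x_A l t`, side `B` has label `x_B l (-t)`.
-/

set_option autoImplicit false

open Set Filter Topology Metric
open scoped ComplexConjugate

noncomputable section

namespace Crest.Agent.R102.MelI963

open Crest.Agent.R102.T5R Crest.Agent.R102.Mel

/-- **(I1)** [consequence of `E' = j e^q E`] -/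
def ELim : Prop :=
  ∀ (κ β C : ℝ) (q : ℂ → ℂ) (j σ : ℂ) (M E Z Zc : ℂ → ℂ),
    (j = Complex.I ∨ j = -Complex.I) → EndQ κ (-1) β C q →
    Tendsto (fun τ => τ * (j * Complex.exp (q τ))) (𝓝[Sg κ] 0) (𝓝 1) →
    Slope κ q j M → Pos κ q j σ M E Z Zc →
    ∃ C₀ : ℂ, C₀ ≠ 0 ∧ Tendsto (fun τ => E τ / τ) (𝓝[Sg κ] 0) (𝓝 C₀) ∧
      Tendsto (deriv E) (𝓝[Sg κ] 0) (𝓝 C₀)

/-- **(I2)** positions -/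
def PosF : Prop :=
  ∀ (κ : ℝ) (q : ℂ → ℂ) (j σ : ℂ) (M E Z Zc : ℂ → ℂ) (x y : ℂ), DifferentiableOn ℂ q (Sg κ) →
    Slope κ q j M → Pos κ q j σ M E Z Zc → (∀ u ∈ Icc (0 : ℝ) 1, x + u * (y - x) ∈ Sg κ) →
    Z y - Z x = σ * Complex.exp (-2 * q x) * E x * (y - x) * Pj q j x y ∧
    Zc y - Zc x = σ * Complex.exp (-2 * q x) / E x * (y - x) * Pj q (-j) x y

/-- `G` inverts `E / C₀` near the positive real axis -/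
structure InvE (κ κ₁ δ : ℝ) (E : ℂ → ℂ) (C₀ : ℂ) (G : ℂ → ℂ) : Prop where
  δ_pos : 0 < δ
  δ_lt : δ < 1 / 4
  diff : DifferentiableOn ℂ G {u | u ∈ OvR κ₁ ∧ ‖u‖ < δ}
  mem : ∀ u ∈ OvR κ₁, ‖u‖ < δ → G u ∈ OvR κ
  eq : ∀ u ∈ OvR κ₁, ‖u‖ < δ → E (G u) = C₀ * u
  near : ∀ u ∈ OvR κ₁, ‖u‖ < δ → ‖G u - u‖ ≤ ‖u‖ / 10
  lim : Tendsto (fun u => G u / u) (𝓝[OvR κ₁] 0) (𝓝 1)
  uniq : ∀ y ∈ OvR κ, ‖y‖ < 2 * δ → E y / C₀ ∈ OvR κ₁ → ‖E y / C₀‖ < δ → G (E y / C₀) = y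

/-- **(I3)** -/
def EInv : Prop :=
  ∀ (κ κ₁ : ℝ) (E : ℂ → ℂ) (C₀ : ℂ), 0 < κ₁ → κ₁ < κ → κ < 1 → DifferentiableOn ℂ E (Sg κ) →
    C₀ ≠ 0 → Tendsto (fun τ => E τ / τ) (𝓝[Sg κ] 0) (𝓝 C₀) →
    Tendsto (deriv E) (𝓝[Sg κ] 0) (𝓝 C₀) → ∃ (δ : ℝ) (G : ℂ → ℂ), InvE κ κ₁ δ E C₀ G

/-- slope of the chord from time `t` to time `t + w = t - i l` -/
def mc (q : ℂ → ℂ) (j : ℂ) (M : ℂ → ℂ) (x : ℝ → ℂ → ℂ) (l : ℝ) (t : ℂ) : ℂ :=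
  M (x l t) * Rj q j (x l t) (x l (t - Complex.I * l))

/-- the label of the common vertex from the two slopes, time `t` near the negative real axis -/
def yv (C₀ : ℂ) (G : ℂ → ℂ) (t a b : ℂ) : ℂ := G (-t * (a * b / (C₀ * t) ^ 4) ^ (1 / 4 : ℂ))

/-- all data of `MelI` (with `C₀` and the inverse `G` on side `A`) -/
structure DatI (κ κ' β C cc CC l₀ : ℝ) (qA : ℂ → ℂ) (jA : ℂ) (MA EA ZA ZcA : ℂ → ℂ)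
    (xA : ℝ → ℂ → ℂ) (qB : ℂ → ℂ) (jB : ℂ) (MB EB ZB ZcB : ℂ → ℂ) (xB : ℝ → ℂ → ℂ)
    (C₀ : ℂ) (δ : ℝ) (G : ℂ → ℂ) : Prop where
  sA : Side κ κ' (-1) β C cc CC l₀ qA jA MA xA
  sB : Side κ κ' (-1) β C cc CC l₀ qB jB MB xB
  mt : Match κ κ' cc l₀ qA jA MA xA qB jB MB xB
  limA : Tendsto (fun τ => τ * (jA * Complex.exp (qA τ))) (𝓝[Sg κ] 0) (𝓝 1)
  limB : Tendsto (fun τ => τ * (jB * Complex.exp (qB τ))) (𝓝[Sg κ] 0) (𝓝 1)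
  pA : Pos κ qA jA 1 MA EA ZA ZcA
  pB : Pos κ qB jB (-1) MB EB ZB ZcB
  mp : ∀ τ ∈ OvR κ, EB (-τ) = EA τ ∧ ZB (-τ) = ZA τ ∧ ZcB (-τ) = ZcA τ
  C_ne : C₀ ≠ 0
  EA_lim : Tendsto (fun τ => EA τ / τ) (𝓝[Sg κ] 0) (𝓝 C₀)
  EB_lim : Tendsto (fun τ => EB τ / τ) (𝓝[Sg κ] 0) (𝓝 (-C₀))
  inv : InvE κ κ' δ EA C₀ G

/-- the incidence relation on the trapezoids -/
structure Trap (κ' ρ R₁ l₂ : ℝ) (qA : ℂ → ℂ) (jA : ℂ) (MA ZA ZcA : ℂ → ℂ)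
    (xA : ℝ → ℂ → ℂ) (qB : ℂ → ℂ) (jB : ℂ) (MB ZB ZcB : ℂ → ℂ) (xB : ℝ → ℂ → ℂ)
    (C₀ : ℂ) (δ : ℝ) (G : ℂ → ℂ) : Prop where
  ρ_pos : 0 < ρ
  ρ_lt : ρ < δ / 2
  l₂_pos : 0 < l₂
  near : ∀ l : ℝ, 0 < l → l < l₂ → ∀ t : ℂ, -ρ < t.re → t.re < -R₁ * l →
    |t.im| < κ' / 10 * |t.re| →
    ‖mc qA jA MA xA l t * mc qB jB MB xB l (-t) / (C₀ * t) ^ 4 - 1‖ ≤ κ' / 10
  inc : ∀ l : ℝ, 0 < l → l < l₂ → ∀ t : ℂ, -ρ < t.re → t.re < -R₁ * l →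
    |t.im| < κ' / 10 * |t.re| →
    ZA (yv C₀ G t (mc qA jA MA xA l t) (mc qB jB MB xB l (-t))) - ZB (xB l (-t - Complex.I * l)) =
      mc qB jB MB xB l (-t) *
        (ZcA (yv C₀ G t (mc qA jA MA xA l t) (mc qB jB MB xB l (-t))) -
          ZcB (xB l (-t - Complex.I * l)))

/-- **(I4)** strip and trapezoid  (963) -/
def TrapL : Prop :=
  ∀ (κ κ' β C cc CC l₀ : ℝ) (qA : ℂ → ℂ) (jA : ℂ) (MA EA ZA ZcA : ℂ → ℂ)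
    (xA : ℝ → ℂ → ℂ) (qB : ℂ → ℂ) (jB : ℂ) (MB EB ZB ZcB : ℂ → ℂ) (xB : ℝ → ℂ → ℂ)
    (C₀ : ℂ) (δ : ℝ) (G : ℂ → ℂ),
    DatI κ κ' β C cc CC l₀ qA jA MA EA ZA ZcA xA qB jB MB EB ZB ZcB xB C₀ δ G →
    ∃ ρ R₁ l₂ : ℝ, Trap κ' ρ R₁ l₂ qA jA MA ZA ZcA xA qB jB MB ZB ZcB xB C₀ δ G

/-- the label at `w = 0` -/
def sg (MA MB : ℂ → ℂ) (C₀ : ℂ) (G : ℂ → ℂ) (τ : ℂ) : ℂ :=
  G (τ * (MA (-τ) * MB τ / (C₀ * τ) ^ 4) ^ (1 / 4 : ℂ))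

/-- the relations at `w = 0` (narrow sector) -/
structure Joint (κ' ρ : ℝ) (MA ZcA MB ZcB : ℂ → ℂ) (C₀ : ℂ) (δ : ℝ) (G : ℂ → ℂ) : Prop where
  ρ_pos : 0 < ρ
  ρ_lt : ρ < δ / 2
  near : ∀ τ : ℂ, 0 < τ.re → τ.re < ρ → |τ.im| < κ' / 10 * τ.re →
    ‖MA (-τ) * MB τ / (C₀ * τ) ^ 4 - 1‖ ≤ κ' / 10
  AB : ∀ τ : ℂ, 0 < τ.re → τ.re < ρ → |τ.im| < κ' / 10 * τ.re → MA (-τ) = MB τ
  Ms : ∀ τ : ℂ, 0 < τ.re → τ.re < ρ → |τ.im| < κ' / 10 * τ.re → MA (sg MA MB C₀ G τ) = MB τ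
  Zs : ∀ τ : ℂ, 0 < τ.re → τ.re < ρ → |τ.im| < κ' / 10 * τ.re → ZcA (sg MA MB C₀ G τ) = ZcB τ

/-- **(I5)** [joint holomorphy near `(t₀, 0)`, evenness, `MelN963.tangent_of_even`] -/
def JointL : Prop :=
  ∀ (κ κ' β C cc CC l₀ : ℝ) (qA : ℂ → ℂ) (jA : ℂ) (MA EA ZA ZcA : ℂ → ℂ)
    (xA : ℝ → ℂ → ℂ) (XA : ℂ × ℂ → ℂ) (qB : ℂ → ℂ) (jB : ℂ) (MB EB ZB ZcB : ℂ → ℂ)
    (xB : ℝ → ℂ → ℂ) (XB : ℂ × ℂ → ℂ) (C₀ : ℂ) (δ : ℝ) (G : ℂ → ℂ) (ρ R₁ l₂ : ℝ),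
    DatI κ κ' β C cc CC l₀ qA jA MA EA ZA ZcA xA qB jB MB EB ZB ZcB xB C₀ δ G →
    Near0 (OvL κ') κ' cc l₀ xA XA → Near0 (OvR κ') κ' cc l₀ xB XB →
    Trap κ' ρ R₁ l₂ qA jA MA ZA ZcA xA qB jB MB ZB ZcB xB C₀ δ G →
    ∃ ρ' : ℝ, Joint κ' ρ' MA ZcA MB ZcB C₀ δ G

/-- **(I6)** [`σ = sg τ`: `σ'^6 = 1`, `σ / τ → 1`, so `σ = τ`] -/
def FinL : Prop :=
  ∀ (κ κ' β C cc CC l₀ : ℝ) (qA : ℂ → ℂ) (jA : ℂ) (MA EA ZA ZcA : ℂ → ℂ)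
    (xA : ℝ → ℂ → ℂ) (qB : ℂ → ℂ) (jB : ℂ) (MB EB ZB ZcB : ℂ → ℂ)
    (xB : ℝ → ℂ → ℂ) (C₀ : ℂ) (δ : ℝ) (G : ℂ → ℂ) (ρ : ℝ),
    DatI κ κ' β C cc CC l₀ qA jA MA EA ZA ZcA xA qB jB MB EB ZB ZcB xB C₀ δ G →
    Joint κ' ρ MA ZcA MB ZcB C₀ δ G →
    ∃ δ' > 0, ∀ τ ∈ OvR κ', ‖τ‖ < δ' →
      Complex.exp (qB τ) = -Complex.exp (qA τ) ∧ Complex.exp (qA (-τ)) = Complex.exp (qB τ)

end Crest.Agent.R102.MelI963
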