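import Mathlib
import Crest.Agent.R102.MelIDefs_963
import Crest.Agent.R102.MelA_231

/-!
# Row 102, T5-MEL-I, (I2) `PosF`: the position formulas (helper519)
-/

set_option autoImplicit false

open Complex Metric Set Filter Topology

namespace Crest.Agent.R102.MelI519

open Crest.Agent.R102.T5R Crest.Agent.R102.Mel Crest.Agent.R102.MelI963

/-- `E = sqrt M` solves `E' = j e^q E` -/
lemma E_slope {κ : ℝ} {q : ℂ → ℂ} {j σ : ℂ} {M E Z Zc : ℂ → ℂ} (hM : Slope κ q j M)
    (hP : Pos κ q j σ M E Z Zc) : Slope κ q (j / 2) E := by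
  have hopen := L4346.isOpen_Sg κ
  have hne : ∀ τ ∈ Sg κ, E τ ≠ 0 := by
    intro τ hτ h0
    have := hP.E_sq τ hτ
    rw [h0, zero_pow two_ne_zero] at this
    exact hM.ne τ hτ this.symm
  refine ⟨hP.E_diff, hne, fun τ hτ => ?_⟩
  have hd := hP.E_diff.differentiableAt (hopen.mem_nhds hτ)
  have h1 : HasDerivAt (fun τ => E τ ^ 2) (2 * E τ * deriv E τ) τ := by
    have := hd.hasDerivAt.fun_pow 2
    simpa using this
  have h2 : (fun τ => E τ ^ 2) =ᶠ[𝓝 τ] M := by
    filter_upwards [hopen.mem_nhds hτ] with τ' h using hP.E_sq τ' h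
  have h3 := h2.deriv_eq
  rw [h1.deriv, hM.der τ hτ, ← hP.E_sq τ hτ] at h3
  have h4 : 2 * E τ ≠ 0 := mul_ne_zero two_ne_zero (hne τ hτ)
  apply mul_left_cancel₀ h4
  rw [h3]; ring

/-- `E` along a segment -/
lemma E_seg {κ : ℝ} {q : ℂ → ℂ} {c : ℂ} {E : ℂ → ℂ} {x y : ℂ}
    (hq : DifferentiableOn ℂ q (Sg κ)) (hE : Slope κ q (c / 2) E)
    (hseg : ∀ u ∈ Icc (0 : ℝ) 1, x + u * (y - x) ∈ Sg κ) {s : ℝ} (hs : s ∈ Icc (0 : ℝ) 1) :
    E (x + s * (y - x)) = E x * exp (c * ((y - x) * ∫ r in (0 : ℝ)..s,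
      exp (q (x + r * (y - x))))) := by
  have h1 := slope_seg (x := x) (y := x + s * (y - x)) hq hE (fun u hu => by
    have := hseg (u * s) ⟨mul_nonneg hu.1 hs.1, mul_le_one₀ hu.2 hs.1 hs.2⟩
    rw [show x + (u : ℂ) * (x + s * (y - x) - x) = x + ((u * s : ℝ) : ℂ) * (y - x) by
      push_cast; ring]
    exact this)
  rw [h1]
  congr 2
  have h2 := intervalIntegral.smul_integral_comp_mul_left (a := 0) (b := 1)
    (fun r : ℝ => exp (q (x + r * (y - x)))) s
  simp only [mul_zero, mul_one] at h2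
  rw [← h2, Complex.real_smul]
  have h3 : (∫ s_1 in (0 : ℝ)..1, exp (q (x + (s_1 : ℂ) * (x + s * (y - x) - x)))) =
      ∫ x_1 in (0 : ℝ)..1, exp (q (x + ((s * x_1 : ℝ) : ℂ) * (y - x))) := by
    refine intervalIntegral.integral_congr fun u _ => ?_
    congr 3
    push_cast; ring
  rw [h3]; ring

/-- position along a segment -/
lemma Z_seg {κ : ℝ} {q : ℂ → ℂ} {c σ : ℂ} {E Z : ℂ → ℂ} {x y : ℂ}
    (hq : DifferentiableOn ℂ q (Sg κ)) (hE : Slope κ q (c / 2) E)
    (hZ : DifferentiableOn ℂ Z (Sg κ))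
    (hZd : ∀ τ ∈ Sg κ, deriv Z τ = σ * exp (-2 * q τ) * E τ)
    (hseg : ∀ u ∈ Icc (0 : ℝ) 1, x + u * (y - x) ∈ Sg κ) :
    Z y - Z x = σ * exp (-2 * q x) * E x * (y - x) * Pj q c x y := by
  have hopen := L4346.isOpen_Sg κ
  have hline : ∀ s : ℝ, HasDerivAt (fun s : ℝ => x + s * (y - x)) (y - x) s := by
    intro s
    have h1 : HasDerivAt (fun s : ℝ => (s : ℂ) * (y - x)) (y - x) s := by
      simpa using ((hasDerivAt_id s).ofReal_comp).mul_const (y - x)
    exact h1.const_add x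
  have hcont : ∀ F : ℂ → ℂ, DifferentiableOn ℂ F (Sg κ) →
      ContinuousOn (fun s : ℝ => F (x + s * (y - x))) (uIcc 0 1) := by
    intro F hF
    rw [uIcc_of_le zero_le_one]
    exact hF.continuousOn.comp (by fun_prop) fun s hs => hseg s hs
  have hc : ContinuousOn (fun s : ℝ => σ * exp (-2 * q (x + s * (y - x))) *
      E (x + s * (y - x))) (uIcc 0 1) :=
    (continuousOn_const.mul (Complex.continuous_exp.comp_continuousOn
      (continuousOn_const.mul (hcont q hq)))).mul (hcont E hE.diff)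
  have h1 := intervalIntegral.integral_eq_sub_of_hasDerivAt (a := 0) (b := 1)
    (f := fun s : ℝ => Z (x + s * (y - x)))
    (f' := fun s : ℝ => σ * exp (-2 * q (x + s * (y - x))) * E (x + s * (y - x)) * (y - x))
    (fun s hs => by
      rw [uIcc_of_le zero_le_one] at hs
      refine HasDerivAt.comp_of_eq s ?_ (hline s) rfl
      have := (hZ.differentiableAt (hopen.mem_nhds (hseg s hs))).hasDerivAt
      rwa [hZd _ (hseg s hs)] at this)
    ((hc.mul continuousOn_const).intervalIntegrable)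
  have e2 : x + ((1 : ℝ) : ℂ) * (y - x) = y := by push_cast; ring
  have e3 : x + ((0 : ℝ) : ℂ) * (y - x) = x := by push_cast; ring
  simp only [e2, e3] at h1
  rw [← h1]
  unfold Pj
  rw [← intervalIntegral.integral_const_mul]
  refine intervalIntegral.integral_congr fun s hs => ?_
  rw [uIcc_of_le zero_le_one] at hs
  rw [E_seg hq hE hseg hs]
  have e4 : exp (-2 * q (x + s * (y - x))) =
      exp (-2 * q x) * exp (-2 * (q (x + s * (y - x)) - q x)) := by
    rw [← Complex.exp_add]; congr 1; ring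
  rw [e4]; ring

/-- **(I2)** -/
theorem posF : PosF := by
  intro κ q j σ M E Z Zc x y hq hM hP hseg
  have hE := E_slope hM hP
  have hopen := L4346.isOpen_Sg κ
  refine ⟨Z_seg hq hE hP.Z_diff hP.Z_der hseg, ?_⟩
  have hEi : Slope κ q (-j / 2) (fun τ => (E τ)⁻¹) := by
    refine ⟨hP.E_diff.inv hE.ne, fun τ hτ => inv_ne_zero (hE.ne τ hτ), fun τ hτ => ?_⟩
    have hd := hP.E_diff.differentiableAt (hopen.mem_nhds hτ)
    have h1 : deriv (fun τ => (E τ)⁻¹) τ = -deriv E τ / E τ ^ 2 :=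
      (hd.hasDerivAt.inv (hE.ne τ hτ)).deriv
    rw [h1, hE.der τ hτ]
    have := hE.ne τ hτ
    field_simp
  have h2 := Z_seg (c := -j) (σ := σ) hq hEi hP.Zc_diff (fun τ hτ => by
    rw [hP.Zc_der τ hτ, div_eq_mul_inv]) hseg
  rw [h2, div_eq_mul_inv]

end Crest.Agent.R102.MelI519
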