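import Mathlib
import Crest.Agent.R102.MelIDefs_963
import Crest.Agent.R102.ExtF_39
import Crest.Agent.R102.MelA_231
import Crest.Agent.R102.RLimI_231

/-!
# Row 102, part (C), [T5]/MEL, **MEL-I**, (I4) part a (helper963)

The model `Y0`, one family `Y l` for all `ε`, the slope `ms` on the strip and its limit.
-/

set_option autoImplicit false

open Set Filter Topology Metric
open scoped ComplexConjugate

noncomputable section

namespace Crest.Agent.R102.MelI963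

open Crest.Agent.R102.T5R Crest.Agent.R102.Mel Crest.Agent.R102.ExtF39

/-! ### square roots -/

lemma half_sq (z : ℂ) : (z ^ (1 / 2 : ℂ)) ^ 2 = z := by
  have := Complex.cpow_nat_inv_pow z (n := 2) (by norm_num)
  rw [one_div]
  exact_mod_cast this

lemma quarter_pow (z : ℂ) : (z ^ (1 / 4 : ℂ)) ^ 4 = z := by
  have := Complex.cpow_nat_inv_pow z (n := 4) (by norm_num)
  rw [one_div]
  exact_mod_cast this

lemma half_re (z : ℂ) : 0 ≤ (z ^ (1 / 2 : ℂ)).re := by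
  by_cases hz : z = 0
  · subst hz
    rw [Complex.zero_cpow (by norm_num)]
    simp
  rw [Complex.cpow_def_of_ne_zero hz, Complex.exp_re]
  refine mul_nonneg (Real.exp_pos _).le (Real.cos_nonneg_of_neg_pi_div_two_le_of_le ?_ ?_)
  · have h := Complex.neg_pi_lt_arg z
    have e : (Complex.log z * (1 / 2 : ℂ)).im = Complex.arg z / 2 := by
      have : Complex.log z * (1 / 2 : ℂ) = Complex.log z * ((1 / 2 : ℝ) : ℂ) := by norm_num
      rw [this, Complex.im_mul_ofReal, Complex.log_im]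
      ring
    rw [e]; linarith
  · have h := Complex.arg_le_pi z
    have e : (Complex.log z * (1 / 2 : ℂ)).im = Complex.arg z / 2 := by
      have : Complex.log z * (1 / 2 : ℂ) = Complex.log z * ((1 / 2 : ℝ) : ℂ) := by norm_num
      rw [this, Complex.im_mul_ofReal, Complex.log_im]
      ring
    rw [e]; linarith

/-! ### the model label -/

lemma Y0_sq {s : ℂ} (hs : s ≠ 0) : Y0 s ^ 2 = s ^ 2 - 1 / 4 := by
  unfold Y0
  rw [mul_pow, half_sq]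
  field_simp

lemma Y0_near {s : ℂ} (hs : 5 / 8 < s.re) : ‖Y0 s - s‖ ≤ 2 / 5 := by
  have h0 : s ≠ 0 := by
    rintro rfl
    simp at hs
    linarith
  have hn : 5 / 8 < ‖s‖ := hs.trans_le (Complex.re_le_norm s)
  have e1 : (Y0 s - s) * (s * (1 + (1 - 1 / (4 * s ^ 2)) ^ (1 / 2 : ℂ))) = -(1 / 4) := by
    have : s * (1 + (1 - 1 / (4 * s ^ 2)) ^ (1 / 2 : ℂ)) = Y0 s + s := by unfold Y0; ring
    rw [this]
    linear_combination Y0_sq h0
  have e2 : ‖Y0 s - s‖ * (‖s‖ * ‖1 + (1 - 1 / (4 * s ^ 2)) ^ (1 / 2 : ℂ)‖) = 1 / 4 := by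
    rw [← norm_mul, ← norm_mul, e1]
    norm_num
  have e3 : 1 ≤ ‖1 + (1 - 1 / (4 * s ^ 2)) ^ (1 / 2 : ℂ)‖ := by
    refine le_trans ?_ (Complex.re_le_norm _)
    rw [Complex.add_re, Complex.one_re]
    linarith [half_re (1 - 1 / (4 * s ^ 2))]
  have e4 : 5 / 8 ≤ ‖s‖ * ‖1 + (1 - 1 / (4 * s ^ 2)) ^ (1 / 2 : ℂ)‖ := by nlinarith
  nlinarith [norm_nonneg (Y0 s - s)]

lemma Y0_re {s : ℂ} (hs : 5 / 8 < s.re) : 1 / 5 < (Y0 s).re := by
  have h1 := Y0_near hs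
  have h2 := (Complex.abs_re_le_norm (Y0 s - s)).trans h1
  rw [Complex.sub_re] at h2
  have := (abs_le.1 h2).1
  linarith

lemma Y0_norm {s : ℂ} (hs : 5 / 8 < s.re) : ‖Y0 s‖ ≤ ‖s‖ + 2 / 5 := by
  have h1 := Y0_near hs
  have : ‖Y0 s‖ ≤ ‖Y0 s - s‖ + ‖s‖ := by simpa using norm_add_le (Y0 s - s) s
  linarith

/-! ### one family for all `ε` -/

/-- domain of the extension -/
def DI (R : ℝ) : Set ℂ := {s | 5 / 8 < s.re ∧ ‖s‖ < 4 * R}

lemma DI_open (R : ℝ) : IsOpen (DI R) :=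
  (isOpen_lt continuous_const Complex.continuous_re).inter
    (isOpen_lt continuous_norm continuous_const)

lemma DI_convex (R : ℝ) : Convex ℝ (DI R) := by
  have h1 : Convex ℝ {s : ℂ | 5 / 8 < s.re} := convex_halfSpace_re_gt _
  have h2 : Convex ℝ {s : ℂ | ‖s‖ < 4 * R} := by
    have : {s : ℂ | ‖s‖ < 4 * R} = ball 0 (4 * R) := by
      ext s
      rw [mem_ball_zero_iff]
      rfl
    rw [this]
    exact convex_ball 0 _
  exact h1.inter h2

/-- the extended labels -/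
structure YF (x : ℝ → ℂ → ℂ) (R : ℝ) (Y : ℝ → ℂ → ℂ) : Prop where
  close : ∀ ε : ℝ, 0 < ε → ∀ᶠ l in 𝓝[>] (0 : ℝ), ∀ s ∈ DI R, ‖Y l s - lam l * Y0 s‖ ≤ ε * l
  diff : ∀ᶠ l in 𝓝[>] (0 : ℝ), DifferentiableOn ℂ (Y l) (DI R)
  eq : ∀ᶠ l in 𝓝[>] (0 : ℝ), ∀ s ∈ DI R, R < ‖s‖ → Y l s = x l (lam l * s)

lemma exists_YF (h : ExtI) {κ κ' β C cc CC l₀ : ℝ} {q : ℂ → ℂ} {j : ℂ} {M : ℂ → ℂ}
    {x : ℝ → ℂ → ℂ} (hS : Side κ κ' (-1) β C cc CC l₀ q j M x)
    (hlim : Tendsto (fun τ => τ * (j * Complex.exp (q τ))) (𝓝[Sg κ] 0) (𝓝 1)) :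
    ∃ R₀ : ℝ, 8 ≤ R₀ ∧ 8 ≤ cc * R₀ ∧ 8 ≤ κ' * R₀ ∧ ∀ R : ℝ, R₀ ≤ R → ∃ Y, YF x R Y := by
  obtain ⟨R₀, h1, h2, h3, H⟩ := h κ κ' β C cc CC l₀ q j M x hS hlim
  refine ⟨R₀, h1, h2, h3, fun R hR => ?_⟩
  obtain ⟨la, la0, la1, la2, Ha⟩ := H R 1 hR one_pos
  classical
  choose Y hYd hYn hYe using Ha
  let Y' : ℝ → ℂ → ℂ := fun l => if hl : 0 < l ∧ l < la then Y l hl.1 hl.2 else 0
  have hY' : ∀ l (hl : 0 < l) (hl' : l < la), Y' l = Y l hl hl' := fun l hl hl' => by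
    simp only [Y', dif_pos (And.intro hl hl')]
  have ev : ∀ b : ℝ, 0 < b → ∀ᶠ l in 𝓝[>] (0 : ℝ), 0 < l ∧ l < b := fun b hb =>
    Ioo_mem_nhdsGT hb
  have hz0 : ((2 * R : ℝ) : ℂ) ∈ DI R ∧ R < ‖((2 * R : ℝ) : ℂ)‖ := by
    have hR8 : 8 ≤ R := h1.trans hR
    rw [Complex.norm_real, Real.norm_eq_abs, abs_of_pos (by linarith)]
    refine ⟨⟨?_, ?_⟩, by linarith⟩
    · rw [Complex.ofReal_re]; linarith
    · rw [Complex.norm_real, Real.norm_eq_abs, abs_of_pos (by linarith)]; linarith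
  refine ⟨Y', ?_, ?_, ?_⟩
  · intro ε hε
    obtain ⟨lb, lb0, lb1, lb2, Hb⟩ := H R ε hR hε
    filter_upwards [ev (min la lb) (lt_min la0 lb0)] with l hl s hs
    have hla := hl.2.trans_le (min_le_left _ _)
    have hlb := hl.2.trans_le (min_le_right _ _)
    obtain ⟨Yb, b1, b2, b3⟩ := Hb l hl.1 hlb
    have heq : EqOn (Y' l) Yb (DI R) := by
      rw [hY' l hl.1 hla]
      have a1 : AnalyticOnNhd ℂ (Y l hl.1 hla) (DI R) :=
        (hYd l hl.1 hla).analyticOnNhd (DI_open R)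
      have a2 : AnalyticOnNhd ℂ Yb (DI R) := DifferentiableOn.analyticOnNhd b1 (DI_open R)
      refine a1.eqOn_of_preconnected_of_eventuallyEq a2 (DI_convex R).isPreconnected hz0.1 ?_
      have o1 : IsOpen {s : ℂ | R < ‖s‖} := isOpen_lt continuous_const continuous_norm
      filter_upwards [(DI_open R).mem_nhds hz0.1, o1.mem_nhds hz0.2] with s hs1 hs2
      have hs1' : 5 / 8 < s.re ∧ ‖s‖ < 4 * R := hs1
      have hs2' : R < ‖s‖ := hs2
      rw [hYe l hl.1 hla s hs1'.1 hs2' hs1'.2, b3 s hs1'.1 hs2' hs1'.2]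
    rw [heq hs]
    exact b2 s hs.1 hs.2
  · filter_upwards [ev la la0] with l hl
    rw [hY' l hl.1 hl.2]
    exact hYd l hl.1 hl.2
  · filter_upwards [ev la la0] with l hl s hs hsR
    rw [hY' l hl.1 hl.2]
    exact hYe l hl.1 hl.2 s hs.1 hsR hs.2

end Crest.Agent.R102.MelI963
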