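import Mathlib
import Crest.Agent.R102.MelI4a_963

/-!
# Row 102, part (C), [T5]/MEL, **MEL-I**, (I4) part b (helper963)

The slope `ms` on the strip, its limit and its holomorphy.
-/

set_option autoImplicit false

open Set Filter Topology Metric
open scoped ComplexConjugate

noncomputable section

namespace Crest.Agent.R102.MelI963

open Crest.Agent.R102.T5R Crest.Agent.R102.Mel Crest.Agent.R102.ExtF39

/-! ### relative limits -/

lemma tendsto_div_zero {ι : Type*} {F : Filter ι} {f g : ι → ℂ} {c : ℝ} (hc : 0 < c)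
    (hg : ∀ᶠ p in F, c ≤ ‖g p‖) (hf : Tendsto f F (𝓝 0)) :
    Tendsto (fun p => f p / g p) F (𝓝 0) := by
  rw [tendsto_zero_iff_norm_tendsto_zero] at hf ⊢
  have h1 : Tendsto (fun p => ‖f p‖ / c) F (𝓝 0) := by simpa using hf.div_const c
  refine squeeze_zero' (Eventually.of_forall fun p => norm_nonneg _) ?_ h1
  filter_upwards [hg] with p hp
  rw [norm_div]
  exact div_le_div_of_nonneg_left (norm_nonneg _) hc hp

lemma tendsto_div_one {ι : Type*} {F : Filter ι} {f g : ι → ℂ} {c : ℝ} (hc : 0 < c)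
    (hg : ∀ᶠ p in F, c ≤ ‖g p‖) (hf : Tendsto (fun p => f p - g p) F (𝓝 0)) :
    Tendsto (fun p => f p / g p) F (𝓝 1) := by
  have h1 := tendsto_div_zero hc hg hf
  have h2 : Tendsto (fun p => (f p - g p) / g p + 1) F (𝓝 (0 + 1)) := h1.add_const 1
  rw [zero_add] at h2
  refine h2.congr' ?_
  filter_upwards [hg] with p hp
  have : g p ≠ 0 := norm_pos_iff.1 (hc.trans_le hp)
  field_simp
  ring

lemma tendsto_sq_sub {ι : Type*} {F : Filter ι} {f g : ι → ℂ} {N : ℝ}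
    (hg : ∀ᶠ p in F, ‖g p‖ ≤ N) (hf : Tendsto (fun p => f p - g p) F (𝓝 0)) :
    Tendsto (fun p => f p ^ 2 - g p ^ 2) F (𝓝 0) := by
  have h1 : Tendsto (fun p => (f p - g p) * g p) F (𝓝 0) := by
    rw [tendsto_zero_iff_norm_tendsto_zero] at hf ⊢
    have h1 : Tendsto (fun p => ‖f p - g p‖ * N) F (𝓝 0) := by simpa using hf.mul_const N
    refine squeeze_zero' (Eventually.of_forall fun p => norm_nonneg _) ?_ h1
    filter_upwards [hg] with p hp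
    rw [norm_mul]
    exact mul_le_mul_of_nonneg_left hp (norm_nonneg _)
  have h2 : Tendsto (fun p => (f p - g p) * (f p - g p) + 2 * ((f p - g p) * g p)) F
      (𝓝 (0 * 0 + 2 * 0)) := (hf.mul hf).add (h1.const_mul 2)
  simp only [mul_zero, add_zero] at h2
  refine h2.congr fun p => ?_
  ring

/-! ### the strip -/

/-- the strip -/
def St (a R : ℝ) : Set ℂ := {s | |s.re| < a ∧ |s.im| < 2 * R}

lemma St_open (a R : ℝ) : IsOpen (St a R) :=
  (isOpen_lt (continuous_abs.comp Complex.continuous_re) continuous_const).inter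
    (isOpen_lt (continuous_abs.comp Complex.continuous_im) continuous_const)

lemma St_neg {a R : ℝ} {s : ℂ} (hs : s ∈ St a R) : -s ∈ St a R := by
  obtain ⟨h1, h2⟩ := hs
  exact ⟨by simpa using h1, by simpa using h2⟩

lemma St_DI {R : ℝ} (hR : 8 ≤ R) {s : ℂ} (hs : s ∈ St (1 / 8) R) {k : ℝ} (hk1 : 1 ≤ k)
    (hk2 : k ≤ 2) : s + k ∈ DI R := by
  obtain ⟨h1, h2⟩ := hs
  have h3 := (abs_lt.1 h1).1
  refine ⟨?_, ?_⟩
  · rw [Complex.add_re, Complex.ofReal_re]; linarith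
  · have h4 : ‖s + (k : ℂ)‖ ≤ |s.re| + |s.im| + k := by
      refine (norm_add_le _ _).trans ?_
      rw [Complex.norm_real, Real.norm_eq_abs, abs_of_pos (by linarith : (0 : ℝ) < k)]
      linarith [Complex.norm_le_abs_re_add_abs_im s]
    linarith

/-- the slope of the chord `s, s + 1` from the extended labels at `s + 1`, `s + 2` -/
def ms (q : ℂ → ℂ) (j : ℂ) (M : ℂ → ℂ) (Y : ℝ → ℂ → ℂ) (l : ℝ) (s : ℂ) : ℂ :=
  M (Y l (s + 1)) * Rj q (-j) (Y l (s + 1)) (Y l (s + 2))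

/-- the scaled labels are in the half disc -/
lemma YF_Hp {x : ℝ → ℂ → ℂ} {R : ℝ} {Y : ℝ → ℂ → ℂ} (hY : YF x R Y) :
    ∀ᶠ l in 𝓝[>] (0 : ℝ), 0 < l ∧ l * (4 * R + 1) < 1 ∧
      ∀ s ∈ DI R, Y l s = lam l * (Y l s / lam l) ∧ Y l s / lam l ∈ Hp (4 * R + 1) := by
  have h2 : Tendsto (fun l : ℝ => l * (4 * R + 1)) (𝓝[>] 0) (𝓝 0) := by
    have : Tendsto (fun l : ℝ => l * (4 * R + 1)) (𝓝 0) (𝓝 (0 * (4 * R + 1))) :=
      tendsto_id.mul_const _
    rw [zero_mul] at this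
    exact this.mono_left nhdsWithin_le_nhds
  filter_upwards [hY.close (1 / 40) (by norm_num), self_mem_nhdsWithin,
    h2.eventually (gt_mem_nhds one_pos)] with l h1 hl h3
  have hl : 0 < l := hl
  refine ⟨hl, h3, fun s hs => ?_⟩
  have hlam := lam_ne hl
  refine ⟨by field_simp, ?_⟩
  have h4 : ‖Y l s / lam l - Y0 s‖ ≤ 1 / 40 := by
    have e : Y l s / lam l - Y0 s = (Y l s - lam l * Y0 s) / lam l := by field_simp
    rw [e, norm_div, norm_lam hl, div_le_iff₀ hl]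
    exact h1 s hs
  constructor
  · have h5 := (Complex.abs_re_le_norm (Y l s / lam l - Y0 s)).trans h4
    rw [Complex.sub_re] at h5
    have h6 := (abs_le.1 h5).1
    have h7 := Y0_re hs.1
    show 1 / 16 < (Y l s / lam l).re
    linarith
  · have h5 : ‖Y l s / lam l‖ ≤ ‖Y l s / lam l - Y0 s‖ + ‖Y0 s‖ := by
      simpa using norm_add_le (Y l s / lam l - Y0 s) (Y0 s)
    have h6 := Y0_norm hs.1
    have h7 := hs.2
    show ‖Y l s / lam l‖ < 4 * R + 1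
    linarith

section

variable {κ κ' β C cc CC l₀ : ℝ} {q : ℂ → ℂ} {j : ℂ} {M E Z Zc : ℂ → ℂ} {σ : ℂ}
  {x : ℝ → ℂ → ℂ} {C₀ : ℂ} {R : ℝ} {Y : ℝ → ℂ → ℂ}

lemma ms_limit (hS : Side κ κ' (-1) β C cc CC l₀ q j M x)
    (hlim : Tendsto (fun τ => τ * (j * Complex.exp (q τ))) (𝓝[Sg κ] 0) (𝓝 1))
    (hP : Pos κ q j σ M E Z Zc) (hC : C₀ ≠ 0)
    (hE : Tendsto (fun τ => E τ / τ) (𝓝[Sg κ] 0) (𝓝 C₀)) (hR : 8 ≤ R) (hY : YF x R Y) :
    Tendsto (fun p : ℝ × ℂ => ms q j M Y p.1 p.2 / (C₀ * lam p.1 * (p.2 + 1 / 2)) ^ 2)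
      (𝓝[>] (0 : ℝ) ×ˢ 𝓟 (St (1 / 8) R)) (𝓝 1) ∧
    ∀ᶠ l in 𝓝[>] (0 : ℝ), ∀ s ∈ St (1 / 8) R, Y l (s + 1) ∈ Sg κ ∧
      Adm κ (16 * (4 * R + 1)) (Y l (s + 1)) (Y l (s + 2)) ∧
      Pj q j (Y l (s + 1)) (Y l (s + 2)) ≠ 0 ∧ Pj q (-j) (Y l (s + 1)) (Y l (s + 2)) ≠ 0 := by
  have hκ : 0 < κ := hS.endq.κ_pos
  set F : Filter (ℝ × ℂ) := 𝓝[>] (0 : ℝ) ×ˢ 𝓟 (St (1 / 8) R) with hF
  set N : ℝ := 4 * R + 1 with hN
  have hN1 : 33 ≤ N := by rw [hN]; linarith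
  have hfst : Tendsto (fun p : ℝ × ℂ => p.1) F (𝓝[>] 0) := tendsto_fst
  have hin : ∀ᶠ p : ℝ × ℂ in F, p.2 ∈ St (1 / 8) R := by
    have : Tendsto (fun p : ℝ × ℂ => p.2) F (𝓟 (St (1 / 8) R)) := tendsto_snd
    exact this.eventually (mem_principal_self _)
  have hD1 : ∀ s ∈ St (1 / 8) R, s + 1 ∈ DI R := fun s hs => by
    simpa using St_DI hR hs le_rfl one_le_two
  have hD2 : ∀ s ∈ St (1 / 8) R, s + 2 ∈ DI R := fun s hs => by
    simpa using St_DI hR hs one_le_two le_rfl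
  have hHp := hfst.eventually (YF_Hp hY)
  set a : ℝ × ℂ → ℂ := fun p => Y0 (p.2 + 1) with ha
  set b : ℝ × ℂ → ℂ := fun p => Y0 (p.2 + 2) with hb
  set ξ : ℝ × ℂ → ℂ := fun p => Y p.1 (p.2 + 1) / lam p.1 with hξ
  set η : ℝ × ℂ → ℂ := fun p => Y p.1 (p.2 + 2) / lam p.1 with hη
  -- differences
  have hdiff : ∀ (k : ℂ), (∀ s ∈ St (1 / 8) R, s + k ∈ DI R) →
      Tendsto (fun p : ℝ × ℂ => Y p.1 (p.2 + k) / lam p.1 - Y0 (p.2 + k)) F (𝓝 0) := by
    intro k hk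
    rw [Metric.tendsto_nhds]
    intro ε hε
    filter_upwards [hfst.eventually (hY.close (ε / 2) (by positivity)), hin,
      hfst.eventually self_mem_nhdsWithin] with p h1 h2 h3
    have hl : 0 < p.1 := h3
    rw [dist_zero_right]
    have e : Y p.1 (p.2 + k) / lam p.1 - Y0 (p.2 + k) =
        (Y p.1 (p.2 + k) - lam p.1 * Y0 (p.2 + k)) / lam p.1 := by
      have := lam_ne hl
      field_simp
    rw [e, norm_div, norm_lam hl, div_lt_iff₀ hl]
    have := h1 _ (hk _ h2)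
    nlinarith
  have hξa : Tendsto (fun p => ξ p - a p) F (𝓝 0) := hdiff 1 hD1
  have hηb : Tendsto (fun p => η p - b p) F (𝓝 0) := hdiff 2 hD2
  -- bounds for the model
  have hare : ∀ᶠ p in F, 1 / 5 < (a p).re ∧ ‖a p‖ ≤ N := by
    filter_upwards [hin] with p hp
    have h1 := hD1 _ hp
    refine ⟨Y0_re h1.1, (Y0_norm h1.1).trans ?_⟩
    have := h1.2
    rw [hN]; linarith
  have hbre : ∀ᶠ p in F, 1 / 5 < (b p).re ∧ ‖b p‖ ≤ N := by
    filter_upwards [hin] with p hp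
    have h1 := hD2 _ hp
    refine ⟨Y0_re h1.1, (Y0_norm h1.1).trans ?_⟩
    have := h1.2
    rw [hN]; linarith
  have ha5 : ∀ᶠ p in F, 1 / 5 ≤ ‖a p‖ := by
    filter_upwards [hare] with p hp using hp.1.le.trans (Complex.re_le_norm _)
  have hab : ∀ᶠ p in F, 2 / 5 ≤ ‖a p + b p‖ := by
    filter_upwards [hare, hbre] with p h1 h2
    refine le_trans ?_ (Complex.re_le_norm _)
    rw [Complex.add_re]
    linarith [h1.1, h2.1]
  have ha2 : ∀ᶠ p in F, a p ^ 2 = (p.2 + 1 / 2) * (p.2 + 3 / 2) := by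
    filter_upwards [hin] with p hp
    have h1 := hD1 _ hp
    have h0 : p.2 + 1 ≠ 0 := by
      intro h
      have := h1.1
      rw [h] at this
      simp at this
      linarith
    simp only [ha]
    rw [Y0_sq h0]
    ring
  have hb2 : ∀ᶠ p in F, b p ^ 2 = (p.2 + 5 / 2) * (p.2 + 3 / 2) := by
    filter_upwards [hin] with p hp
    have h1 := hD2 _ hp
    have h0 : p.2 + 2 ≠ 0 := by
      intro h
      have := h1.1
      rw [h] at this
      simp at this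
      linarith
    simp only [hb]
    rw [Y0_sq h0]
    ring
  have hs3 : ∀ᶠ p : ℝ × ℂ in F, 1 ≤ ‖p.2 + 3 / 2‖ ∧ 3 / 8 ≤ ‖p.2 + 1 / 2‖ := by
    filter_upwards [hin] with p hp
    have h1 := (abs_lt.1 hp.1).1
    constructor
    · refine le_trans ?_ (Complex.re_le_norm _)
      rw [Complex.add_re]
      norm_num
      linarith
    · refine le_trans ?_ (Complex.re_le_norm _)
      rw [Complex.add_re]
      norm_num
      linarith
  have hsum2 : ∀ᶠ p in F, a p ^ 2 + b p ^ 2 = 2 * (p.2 + 3 / 2) ^ 2 := by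
    filter_upwards [ha2, hb2] with p h1 h2
    rw [h1, h2]
    ring
  have hsq : ∀ᶠ p in F, 2 ≤ ‖a p ^ 2 + b p ^ 2‖ := by
    filter_upwards [hsum2, hs3] with p h1 h2
    rw [h1, norm_mul, norm_pow]
    norm_num
    nlinarith [h2.1]
  -- ratios
  have r1 : Tendsto (fun p => ξ p / a p) F (𝓝 1) := tendsto_div_one (by norm_num) ha5 hξa
  have r2 : Tendsto (fun p => (ξ p + η p) / (a p + b p)) F (𝓝 1) := by
    refine tendsto_div_one (c := 2 / 5) (by norm_num) hab ?_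
    have h := hξa.add hηb
    rw [add_zero] at h
    refine h.congr fun p => ?_
    ring
  have r3 : Tendsto (fun p => (ξ p ^ 2 + η p ^ 2) / (a p ^ 2 + b p ^ 2)) F (𝓝 1) := by
    refine tendsto_div_one (c := 2) (by norm_num) hsq ?_
    have h := (tendsto_sq_sub (hare.mono fun p hp => hp.2) hξa).add
      (tendsto_sq_sub (hbre.mono fun p hp => hp.2) hηb)
    rw [add_zero] at h
    refine h.congr fun p => ?_
    ring
  -- admissibility
  have hadm : ∀ᶠ p in F, Adm κ (16 * N) (Y p.1 (p.2 + 1)) (Y p.1 (p.2 + 2)) ∧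
      Y p.1 (p.2 + 1) ∈ Sg κ ∧ ‖Y p.1 (p.2 + 1)‖ ≤ p.1 * N ∧ 0 < p.1 ∧ 
      Y p.1 (p.2 + 1) = lam p.1 * ξ p ∧ Y p.1 (p.2 + 2) = lam p.1 * η p ∧ ξ p ≠ 0 := by
    filter_upwards [hHp, hin] with p ⟨hl, hlN, h1⟩ h2
    obtain ⟨e1, m1⟩ := h1 _ (hD1 _ h2)
    obtain ⟨e2, m2⟩ := h1 _ (hD2 _ h2)
    refine ⟨?_, ?_, ?_, hl, e1, e2, ?_⟩
    · rw [e1, e2]
      exact adm_of hκ hl hlN m1 m2
    · rw [e1]
      exact lam_mem hκ hl hlN (by linarith [m1.1]) m1.2.le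
    · rw [e1, norm_mul, norm_lam hl]
      exact mul_le_mul_of_nonneg_left m1.2.le hl.le
    · exact re_pos_ne (by linarith [m1.1])
  have hx0 : Tendsto (fun p : ℝ × ℂ => Y p.1 (p.2 + 1)) F (𝓝[Sg κ] 0) := by
    rw [tendsto_nhdsWithin_iff]
    refine ⟨?_, hadm.mono fun p hp => hp.2.1⟩
    rw [tendsto_zero_iff_norm_tendsto_zero]
    have h1 : Tendsto (fun p : ℝ × ℂ => p.1 * N) F (𝓝 0) := by
      have h2 : Tendsto (fun p : ℝ × ℂ => p.1) F (𝓝 0) := hfst.mono_right nhdsWithin_le_nhds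
      simpa using h2.mul_const N
    exact squeeze_zero' (Eventually.of_forall fun p => norm_nonneg _)
      (hadm.mono fun p hp => hp.2.2.1) h1
  -- limits of the integrals
  have hN16 : (1 : ℝ) ≤ 16 * N := by linarith
  have p1 : Tendsto (fun p : ℝ × ℂ => Pj q j (Y p.1 (p.2 + 1)) (Y p.1 (p.2 + 2)) -
      (ξ p ^ 2 + η p ^ 2) * (ξ p + η p) / (4 * ξ p ^ 3)) F (𝓝 0) := by
    rw [Metric.tendsto_nhds]
    intro ε hε
    obtain ⟨δ, hδ, H⟩ := rLimI κ β C q j hS.hj hS.endq hlim (16 * N) (ε / 2) hN16 (by positivity)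
    have hsm := (hx0.mono_right nhdsWithin_le_nhds).eventually (ball_mem_nhds (0 : ℂ) hδ)
    filter_upwards [hadm, hsm] with p h1 h2
    have h2 : ‖Y p.1 (p.2 + 1)‖ < δ := by rw [← dist_zero_right]; exact h2
    have h3 := (H _ _ h1.1 h2).1
    rw [dist_zero_right]
    obtain ⟨-, -, -, hl, e1, e2, hξ0⟩ := h1
    have e3 : (Y p.1 (p.2 + 1) ^ 2 + Y p.1 (p.2 + 2) ^ 2) * (Y p.1 (p.2 + 1) + Y p.1 (p.2 + 2)) /
        (4 * Y p.1 (p.2 + 1) ^ 3) = (ξ p ^ 2 + η p ^ 2) * (ξ p + η p) / (4 * ξ p ^ 3) := by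
      rw [e1, e2]
      have := lam_ne hl
      field_simp
    rw [e3] at h3
    linarith
  have p2 : Tendsto (fun p : ℝ × ℂ => Pj q (-j) (Y p.1 (p.2 + 1)) (Y p.1 (p.2 + 2)) -
      (ξ p + η p) / (2 * ξ p)) F (𝓝 0) := by
    rw [Metric.tendsto_nhds]
    intro ε hε
    obtain ⟨δ, hδ, H⟩ := rLimI κ β C q j hS.hj hS.endq hlim (16 * N) (ε / 2) hN16 (by positivity)
    have hsm := (hx0.mono_right nhdsWithin_le_nhds).eventually (ball_mem_nhds (0 : ℂ) hδ)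
    filter_upwards [hadm, hsm] with p h1 h2
    have h2 : ‖Y p.1 (p.2 + 1)‖ < δ := by rw [← dist_zero_right]; exact h2
    have h3 := (H _ _ h1.1 h2).2
    rw [dist_zero_right]
    obtain ⟨-, -, -, hl, e1, e2, hξ0⟩ := h1
    have e3 : (Y p.1 (p.2 + 1) + Y p.1 (p.2 + 2)) /
        (2 * Y p.1 (p.2 + 1)) = (ξ p + η p) / (2 * ξ p) := by
      rw [e1, e2]
      have := lam_ne hl
      field_simp
    rw [e3] at h3
    linarith
  have hNpos : 0 < N := by linarith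
  have q1 : Tendsto (fun p : ℝ × ℂ => Pj q j (Y p.1 (p.2 + 1)) (Y p.1 (p.2 + 2)) /
      ((a p ^ 2 + b p ^ 2) * (a p + b p) / (4 * a p ^ 3))) F (𝓝 1) := by
    have hlow : ∀ᶠ p in F, 2 * (2 / 5) / (4 * N ^ 3) ≤
        ‖(a p ^ 2 + b p ^ 2) * (a p + b p) / (4 * a p ^ 3)‖ := by
      filter_upwards [hsq, hab, hare, ha5] with p h1 h2 h3 h4
      rw [norm_div, norm_mul, norm_mul, norm_pow]
      have e4 : ‖(4 : ℂ)‖ = 4 := by norm_num
      rw [e4]
      have hap : 0 < ‖a p‖ := by linarith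
      gcongr
      exact h3.2
    have h1 := tendsto_div_zero (c := 2 * (2 / 5) / (4 * N ^ 3)) (by positivity) hlow p1
    have h2 := h1.add ((r3.mul r2).div (r1.pow 3) (by norm_num))
    have e5 : (0 : ℂ) + 1 * 1 / 1 ^ 3 = 1 := by norm_num
    rw [e5] at h2
    refine h2.congr' ?_
    filter_upwards [hsq, hab, ha5, hadm] with p h3 h4 h5 h6
    have n1 : a p ≠ 0 := norm_pos_iff.1 (by linarith)
    have n2 : a p + b p ≠ 0 := norm_pos_iff.1 (by linarith)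
    have n3 : a p ^ 2 + b p ^ 2 ≠ 0 := norm_pos_iff.1 (by linarith)
    have n4 : ξ p ≠ 0 := h6.2.2.2.2.2.2
    simp only [Pi.div_apply]
    field_simp
    ring
  have q2 : Tendsto (fun p : ℝ × ℂ => Pj q (-j) (Y p.1 (p.2 + 1)) (Y p.1 (p.2 + 2)) /
      ((a p + b p) / (2 * a p))) F (𝓝 1) := by
    have hlow : ∀ᶠ p in F, (2 / 5) / (2 * N) ≤ ‖(a p + b p) / (2 * a p)‖ := by
      filter_upwards [hsq, hab, hare, ha5] with p h1 h2 h3 h4
      rw [norm_div, norm_mul]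
      have e4 : ‖(2 : ℂ)‖ = 2 := by norm_num
      rw [e4]
      have hap : 0 < ‖a p‖ := by linarith
      gcongr
      exact h3.2
    have h1 := tendsto_div_zero (c := (2 / 5) / (2 * N)) (by positivity) hlow p2
    have h2 := h1.add (r2.div r1 one_ne_zero)
    have e5 : (0 : ℂ) + 1 / 1 = 1 := by norm_num
    rw [e5] at h2
    refine h2.congr' ?_
    filter_upwards [hsq, hab, ha5, hadm] with p h3 h4 h5 h6
    have n1 : a p ≠ 0 := norm_pos_iff.1 (by linarith)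
    have n2 : a p + b p ≠ 0 := norm_pos_iff.1 (by linarith)
    have n4 : ξ p ≠ 0 := h6.2.2.2.2.2.2
    simp only [Pi.div_apply]
    field_simp
    ring
  -- the slope of the tangent
  have q3 : Tendsto (fun p : ℝ × ℂ => M (Y p.1 (p.2 + 1)) / (C₀ * lam p.1 * a p) ^ 2) F (𝓝 1) := by
    have h1 : Tendsto (fun p : ℝ × ℂ => E (Y p.1 (p.2 + 1)) / Y p.1 (p.2 + 1)) F (𝓝 C₀) :=
      hE.comp hx0
    have h2 : Tendsto (fun p : ℝ × ℂ => (E (Y p.1 (p.2 + 1)) / Y p.1 (p.2 + 1)) ^ 2 / C₀ ^ 2 *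
        (ξ p / a p) ^ 2) F (𝓝 (C₀ ^ 2 / C₀ ^ 2 * 1 ^ 2)) :=
      ((h1.pow 2).div_const _).mul (r1.pow 2)
    have e5 : C₀ ^ 2 / C₀ ^ 2 * 1 ^ 2 = 1 := by field_simp
    rw [e5] at h2
    refine h2.congr' ?_
    filter_upwards [ha5, hadm] with p h5 h6
    obtain ⟨-, hmem, -, hl, e1, e2, hξ0⟩ := h6
    have n1 : a p ≠ 0 := norm_pos_iff.1 (by linarith)
    have n2 := lam_ne hl
    rw [← hP.E_sq _ hmem]
    have e6 : (E (Y p.1 (p.2 + 1)) / Y p.1 (p.2 + 1)) ^ 2 / C₀ ^ 2 * (ξ p / a p) ^ 2 =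
        E (Y p.1 (p.2 + 1)) ^ 2 / (lam p.1 * ξ p) ^ 2 / C₀ ^ 2 * (ξ p / a p) ^ 2 := by
      rw [div_pow, e1]
    rw [e6]
    field_simp
  have hN1' : ∀ᶠ p in F, Pj q j (Y p.1 (p.2 + 1)) (Y p.1 (p.2 + 2)) ≠ 0 ∧
      Pj q (-j) (Y p.1 (p.2 + 1)) (Y p.1 (p.2 + 2)) ≠ 0 := by
    filter_upwards [q1.eventually_ne one_ne_zero, q2.eventually_ne one_ne_zero] with p h1 h2
    exact ⟨fun h => h1 (by rw [h, zero_div]), fun h => h2 (by rw [h, zero_div])⟩
  refine ⟨?_, ?_⟩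
  · have h1 := (q3.mul q2).div q1 one_ne_zero
    have e5 : (1 : ℂ) * 1 / 1 = 1 := by norm_num
    rw [e5] at h1
    refine h1.congr' ?_
    filter_upwards [hN1', ha5, hab, hsq, hadm, hsum2, ha2, hs3] with p h2 h3 h4 h5 h6 h7 h8 h9
    obtain ⟨-, hmem, -, hl, e1, e2, hξ0⟩ := h6
    have n1 : a p ≠ 0 := norm_pos_iff.1 (by linarith)
    have n2 : a p + b p ≠ 0 := norm_pos_iff.1 (by linarith)
    have n3 : a p ^ 2 + b p ^ 2 ≠ 0 := norm_pos_iff.1 (by linarith)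
    have n4 := lam_ne hl
    have n5 : p.2 + 1 / 2 ≠ 0 := norm_pos_iff.1 (by linarith [h9.2])
    have n6 : p.2 + 3 / 2 ≠ 0 := norm_pos_iff.1 (by linarith [h9.1])
    simp only [ms, Rj, neg_neg]
    obtain ⟨n7, n8⟩ := h2
    have key : (a p ^ 2) ^ 2 * 2 = (a p ^ 2 + b p ^ 2) * (p.2 + 1 / 2) ^ 2 := by
      rw [h7, h8]; ring
    have key2 : (C₀ * lam p.1 * a p) ^ 2 * ((a p + b p) / (2 * a p)) /
        ((a p ^ 2 + b p ^ 2) * (a p + b p) / (4 * a p ^ 3)) =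
        (C₀ * lam p.1 * (p.2 + 1 / 2)) ^ 2 := by
      have e8 : (C₀ * lam p.1 * a p) ^ 2 * ((a p + b p) / (2 * a p)) /
        ((a p ^ 2 + b p ^ 2) * (a p + b p) / (4 * a p ^ 3)) =
        (C₀ * lam p.1) ^ 2 * (2 * a p ^ 4) / (a p ^ 2 + b p ^ 2) := by
        field_simp
        ring
      have e9 : 2 * a p ^ 4 = (a p ^ 2 + b p ^ 2) * (p.2 + 1 / 2) ^ 2 := by
        linear_combination key
      rw [e8, e9]
      field_simp
    rw [← key2]
    simp only [Pi.div_apply]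
    field_simp
  · have := hN1'.and hadm
    rw [hF, eventually_prod_principal_iff] at this
    filter_upwards [this] with l hl s hs
    obtain ⟨⟨h1, h2⟩, h3⟩ := hl s hs
    exact ⟨h3.2.1, h3.1, h1, h2⟩

end

end Crest.Agent.R102.MelI963
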