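import Mathlib
import Crest.Agent.R102.MelI4b_963

/-!
# Row 102, part (C), [T5]/MEL, **MEL-I**, (I4) part c (helper963)

Far chords: `x l t, x l (t - i l)` with `R₁ l ≤ ‖t‖`; the slope `mc` and its limit; `ms = mc`.
-/

set_option autoImplicit false

open Set Filter Topology Metric
open scoped ComplexConjugate

noncomputable section

namespace Crest.Agent.R102.MelI963

open Crest.Agent.R102.T5R Crest.Agent.R102.Mel Crest.Agent.R102.ExtF39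

variable {κ κ' β C cc CC l₀ : ℝ} {q : ℂ → ℂ} {j : ℂ} {M E Z Zc : ℂ → ℂ} {σ : ℂ}
  {x : ℝ → ℂ → ℂ} {C₀ : ℂ}

/-- the labels are close to the times -/
lemma x_near (hS : Side κ κ' (-1) β C cc CC l₀ q j M x) {l : ℝ} (hl : 0 < l) (hl0 : l < l₀)
    {t : ℂ} (ht : t ∈ Dl κ' cc l) : ‖x l t - t‖ ≤ l / 8 := by
  have h1 := hS.cone.near l hl hl0 t ht
  have h2 := hS.cone.Cc
  obtain ⟨h3, -, -, h4⟩ := ht
  have hn : 0 < ‖t‖ := norm_pos_iff.2 h3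
  refine h1.trans ?_
  rw [div_le_iff₀ hn]
  by_cases hC : 0 ≤ CC
  · have h5 : CC * l ≤ CC * (cc * ‖t‖) := mul_le_mul_of_nonneg_left h4.le hC
    have h6 : CC * l * l ≤ CC * (cc * ‖t‖) * l := mul_le_mul_of_nonneg_right h5 hl.le
    have h7 : CC * cc * (‖t‖ * l) ≤ 1 / 8 * (‖t‖ * l) :=
      mul_le_mul_of_nonneg_right h2 (by positivity)
    nlinarith
  · push Not at hC
    have : CC * l ^ 2 ≤ 0 := by nlinarith [sq_nonneg l]
    have : 0 ≤ l / 8 * ‖t‖ := by positivity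
    linarith

/-- geometry of a far chord -/
lemma far_chord (hS : Side κ κ' (-1) β C cc CC l₀ q j M x) {l : ℝ} (hl : 0 < l) (hl0 : l < l₀)
    {t t' : ℂ} (ht : t ∈ Dl κ' cc l) (ht' : t' ∈ Dl κ' cc l) (htt : ‖t' - t‖ ≤ l) {R₁ : ℝ}
    (hR : 8 ≤ R₁) (hRκ : 4 ≤ (κ - κ') * R₁) (hRl : R₁ * l ≤ ‖t‖) :
    Adm κ 2 (x l t) (x l t') ∧ ‖x l t' - x l t‖ ≤ 5 / 4 * l ∧ ‖x l t - t‖ ≤ l / 8 ∧
      7 * l ≤ ‖x l t‖ ∧ ‖x l t‖ ≤ 2 * ‖t‖ := by
  have hκ1 : κ < 1 := hS.endq.κ_lt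
  have hκ0 : 0 < κ := hS.endq.κ_pos
  have hκκ := hS.κ'_lt
  have hκ' := hS.κ'_pos
  have a1 := x_near hS hl hl0 ht
  have a2 := x_near hS hl hl0 ht'
  have a3 : ‖x l t' - x l t‖ ≤ 5 / 4 * l := by
    have e : x l t' - x l t = (x l t' - t') + (t' - t) - (x l t - t) := by ring
    rw [e]
    refine (norm_sub_le _ _).trans ?_
    have := norm_add_le (x l t' - t') (t' - t)
    linarith
  have hRl' : 8 * l ≤ ‖t‖ := by nlinarith
  have a4 : ‖t‖ ≤ ‖x l t‖ + l / 8 := by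
    have : ‖t‖ ≤ ‖x l t‖ + ‖x l t - t‖ := by
      have := norm_sub_le (x l t) (x l t - t)
      simpa using this
    linarith
  have a5 : ‖x l t‖ ≤ ‖t‖ + l / 8 := by
    have : ‖x l t‖ ≤ ‖x l t - t‖ + ‖t‖ := by simpa using norm_add_le (x l t - t) t
    linarith
  refine ⟨?_, a3, a1, by linarith, by linarith⟩
  intro u hu
  set z : ℂ := x l t + u * (x l t' - x l t) with hz
  have hzt : ‖z - t‖ ≤ 3 / 2 * l := by
    have e : z - t = (x l t - t) + u * (x l t' - x l t) := by rw [hz]; ring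
    rw [e]
    refine (norm_add_le _ _).trans ?_
    rw [norm_mul, Complex.norm_real, Real.norm_eq_abs, abs_of_nonneg hu.1]
    have : u * ‖x l t' - x l t‖ ≤ 1 * (5 / 4 * l) :=
      mul_le_mul hu.2 a3 (norm_nonneg _) zero_le_one
    linarith
  have b1 : ‖t‖ ≤ ‖z‖ + 3 / 2 * l := by
    have := norm_sub_le z (z - t)
    simp only [sub_sub_cancel] at this
    linarith
  have b2 : ‖z‖ ≤ ‖t‖ + 3 / 2 * l := by
    have : ‖z‖ ≤ ‖z - t‖ + ‖t‖ := by simpa using norm_add_le (z - t) t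
    linarith
  have b3 : |z.im - t.im| ≤ 3 / 2 * l := by
    have := Complex.abs_im_le_norm (z - t)
    rw [Complex.sub_im] at this
    linarith
  refine ⟨⟨?_, ?_, ?_⟩, ?_, ?_⟩
  · exact norm_pos_iff.1 (by linarith)
  · have := ht.2.1
    linarith
  · have c1 := (abs_le.1 b3).2
    have c2 := ht.2.2.1
    have c3 : 4 * l ≤ (κ - κ') * ‖t‖ := by
      have : (κ - κ') * (R₁ * l) ≤ (κ - κ') * ‖t‖ :=
        mul_le_mul_of_nonneg_left hRl (by linarith)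
      nlinarith
    have c4 : κ * ‖t‖ ≤ κ * ‖z‖ + κ * (3 / 2 * l) := by nlinarith
    have c5 : κ * (3 / 2 * l) ≤ 3 / 2 * l := by nlinarith
    nlinarith
  · linarith
  · linarith

/-- convergence of the integrals on far chords -/
lemma far_Pj (hS : Side κ κ' (-1) β C cc CC l₀ q j M x)
    (hlim : Tendsto (fun τ => τ * (j * Complex.exp (q τ))) (𝓝[Sg κ] 0) (𝓝 1)) {ε : ℝ}
    (hε : 0 < ε) : ∃ δ > 0, ∀ x y : ℂ, Adm κ 2 x y → ‖x‖ < δ →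
      ‖Pj q j x y - (x ^ 2 + y ^ 2) * (x + y) / (4 * x ^ 3)‖ ≤ ε ∧
      ‖Pj q (-j) x y - (x + y) / (2 * x)‖ ≤ ε :=
  rLimI κ β C q j hS.hj hS.endq hlim 2 ε (by norm_num) hε

/-- the filter: `l / ‖t‖ → 0`, `‖t‖ → 0` -/
def Fc (κ' cc l₀ : ℝ) : Filter (ℝ × ℂ) :=
  comap (fun p : ℝ × ℂ => (p.1 / ‖p.2‖, ‖p.2‖)) (𝓝 ((0, 0) : ℝ × ℝ)) ⊓
    𝓟 {p | 0 < p.1 ∧ p.1 < l₀ ∧ p.2 ∈ Dl κ' cc p.1 ∧ p.2 - Complex.I * p.1 ∈ Dl κ' cc p.1}

lemma Fc_iff {P : ℝ × ℂ → Prop} :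
    (∀ᶠ p in Fc κ' cc l₀, P p) → ∃ R₁ ρ : ℝ, 0 < R₁ ∧ 0 < ρ ∧ ∀ (l : ℝ) (t : ℂ), 0 < l → l < l₀ →
      t ∈ Dl κ' cc l → t - Complex.I * l ∈ Dl κ' cc l → R₁ * l < ‖t‖ → ‖t‖ < ρ → P (l, t) := by
  intro h
  have hb := ((Metric.nhds_basis_ball (x := ((0, 0) : ℝ × ℝ))).comap
    (fun p : ℝ × ℂ => (p.1 / ‖p.2‖, ‖p.2‖))).inf_principal
    {p | 0 < p.1 ∧ p.1 < l₀ ∧ p.2 ∈ Dl κ' cc p.1 ∧ p.2 - Complex.I * p.1 ∈ Dl κ' cc p.1}
  obtain ⟨r, hr, H⟩ := hb.eventually_iff.1 h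
  refine ⟨1 / r, r, by positivity, hr, fun l t h1 h2 h3 h4 h5 h6 => ?_⟩
  apply H
  refine ⟨?_, h1, h2, h3, h4⟩
  have ht : 0 < ‖t‖ := norm_pos_iff.2 h3.1
  simp only [mem_preimage, mem_ball]
  have e : ((0, 0) : ℝ × ℝ) = 0 := rfl
  rw [e, dist_zero_right, Prod.norm_def, max_lt_iff]
  constructor
  · simp only [Real.norm_eq_abs]
    rw [abs_of_pos (by positivity), div_lt_iff₀ ht]
    rw [div_mul_eq_mul_div, one_mul, div_lt_iff₀ hr] at h5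
    linarith
  · simpa using h6

lemma Fc_tendsto : Tendsto (fun p : ℝ × ℂ => p.1 / ‖p.2‖) (Fc κ' cc l₀) (𝓝 0) ∧
    Tendsto (fun p : ℝ × ℂ => ‖p.2‖) (Fc κ' cc l₀) (𝓝 0) ∧
    ∀ᶠ p in Fc κ' cc l₀, 0 < p.1 ∧ p.1 < l₀ ∧ p.2 ∈ Dl κ' cc p.1 ∧
      p.2 - Complex.I * p.1 ∈ Dl κ' cc p.1 := by
  have h0 : Tendsto (fun p : ℝ × ℂ => (p.1 / ‖p.2‖, ‖p.2‖)) (Fc κ' cc l₀) (𝓝 (0, 0)) :=
    tendsto_comap.mono_left inf_le_left
  refine ⟨?_, ?_, ?_⟩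
  · exact (continuous_fst.tendsto ((0, 0) : ℝ × ℝ)).comp h0
  · exact (continuous_snd.tendsto ((0, 0) : ℝ × ℝ)).comp h0
  · exact mem_inf_of_right (mem_principal_self _)

lemma mc_tendsto (hS : Side κ κ' (-1) β C cc CC l₀ q j M x)
    (hlim : Tendsto (fun τ => τ * (j * Complex.exp (q τ))) (𝓝[Sg κ] 0) (𝓝 1))
    (hP : Pos κ q j σ M E Z Zc) (hC : C₀ ≠ 0)
    (hE : Tendsto (fun τ => E τ / τ) (𝓝[Sg κ] 0) (𝓝 C₀)) :
    Tendsto (fun p : ℝ × ℂ => mc q j M x p.1 p.2 / (C₀ * p.2) ^ 2) (Fc κ' cc l₀) (𝓝 1) ∧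
    ∀ᶠ p in Fc κ' cc l₀, Pj q j (x p.1 p.2) (x p.1 (p.2 - Complex.I * p.1)) ≠ 0 ∧
      Pj q (-j) (x p.1 p.2) (x p.1 (p.2 - Complex.I * p.1)) ≠ 0 := by
  obtain ⟨f1, f2, f3⟩ := Fc_tendsto (κ' := κ') (cc := cc) (l₀ := l₀)
  have hκκ := hS.κ'_lt
  set R₁ : ℝ := max 8 (4 / (κ - κ')) with hR₁
  have hR8 : 8 ≤ R₁ := le_max_left _ _
  have hRκ : 4 ≤ (κ - κ') * R₁ := by
    have h1 : 4 / (κ - κ') ≤ R₁ := le_max_right _ _
    rw [div_le_iff₀ (by linarith)] at h1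
    linarith
  have hR0 : 0 < R₁ := by linarith
  set F := Fc κ' cc l₀ with hF
  have far : ∀ᶠ p : ℝ × ℂ in F, 0 < p.1 ∧ 0 < ‖p.2‖ ∧ 8 * p.1 ≤ ‖p.2‖ ∧
      Adm κ 2 (x p.1 p.2) (x p.1 (p.2 - Complex.I * p.1)) ∧
      ‖x p.1 (p.2 - Complex.I * p.1) - x p.1 p.2‖ ≤ 5 / 4 * p.1 ∧ ‖x p.1 p.2 - p.2‖ ≤ p.1 / 8 ∧
      7 * p.1 ≤ ‖x p.1 p.2‖ ∧ ‖x p.1 p.2‖ ≤ 2 * ‖p.2‖ := by
    have h1 := f1.eventually (gt_mem_nhds (show (0 : ℝ) < 1 / R₁ by positivity))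
    filter_upwards [h1, f3] with p h2 ⟨h3, h4, h5, h6⟩
    have ht : 0 < ‖p.2‖ := norm_pos_iff.2 h5.1
    rw [div_lt_div_iff₀ ht hR0] at h2
    have h7 : ‖p.2 - Complex.I * p.1 - p.2‖ ≤ p.1 := by
      have : p.2 - Complex.I * p.1 - p.2 = -(Complex.I * p.1) := by ring
      rw [this, norm_neg, norm_mul, Complex.norm_I, one_mul, Complex.norm_real, Real.norm_eq_abs,
        abs_of_pos h3]
    have := far_chord hS h3 h4 h5 h6 h7 hR8 hRκ (by linarith)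
    exact ⟨h3, ht, by nlinarith, this⟩
  -- ratios
  have r1 : Tendsto (fun p : ℝ × ℂ => x p.1 p.2 / p.2) F (𝓝 1) := by
    rw [tendsto_iff_norm_sub_tendsto_zero]
    have h1 : Tendsto (fun p : ℝ × ℂ => p.1 / ‖p.2‖ / 8) F (𝓝 0) := by simpa using f1.div_const 8
    refine squeeze_zero' (Eventually.of_forall fun p => norm_nonneg _) ?_ h1
    filter_upwards [far] with p hp
    have hne : p.2 ≠ 0 := norm_pos_iff.1 hp.2.1
    have e : x p.1 p.2 / p.2 - 1 = (x p.1 p.2 - p.2) / p.2 := by field_simp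
    rw [e, norm_div, div_right_comm]
    exact div_le_div_of_nonneg_right hp.2.2.2.2.2.1 hp.2.1.le
  have r2 : Tendsto (fun p : ℝ × ℂ => x p.1 (p.2 - Complex.I * p.1) / x p.1 p.2) F (𝓝 1) := by
    rw [tendsto_iff_norm_sub_tendsto_zero]
    have h1 : Tendsto (fun p : ℝ × ℂ => 2 * (p.1 / ‖p.2‖)) F (𝓝 0) := by simpa using f1.const_mul 2
    refine squeeze_zero' (Eventually.of_forall fun p => norm_nonneg _) ?_ h1
    filter_upwards [far] with p ⟨h1, h2, h3, h4, h5, h6, h7, h8⟩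
    have hne : x p.1 p.2 ≠ 0 := norm_pos_iff.1 (by linarith)
    have e : x p.1 (p.2 - Complex.I * p.1) / x p.1 p.2 - 1 =
        (x p.1 (p.2 - Complex.I * p.1) - x p.1 p.2) / x p.1 p.2 := by field_simp
    rw [e, norm_div, ← mul_div_assoc, div_le_div_iff₀ (by linarith) h2]
    have h9 : ‖p.2‖ ≤ ‖x p.1 p.2‖ + p.1 / 8 := by
      have := norm_sub_le (x p.1 p.2) (x p.1 p.2 - p.2)
      simp only [sub_sub_cancel] at this
      linarith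
    nlinarith [norm_nonneg (x p.1 (p.2 - Complex.I * p.1) - x p.1 p.2)]
  have hx0 : Tendsto (fun p : ℝ × ℂ => x p.1 p.2) F (𝓝[Sg κ] 0) := by
    rw [tendsto_nhdsWithin_iff]
    constructor
    · rw [tendsto_zero_iff_norm_tendsto_zero]
      have h1 : Tendsto (fun p : ℝ × ℂ => 2 * ‖p.2‖) F (𝓝 0) := by simpa using f2.const_mul 2
      exact squeeze_zero' (Eventually.of_forall fun p => norm_nonneg _)
        (far.mono fun p hp => hp.2.2.2.2.2.2.2) h1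
    · filter_upwards [far] with p hp
      have := (hp.2.2.2.1 0 ⟨le_rfl, zero_le_one⟩).1
      simpa using this
  have p1 : Tendsto (fun p : ℝ × ℂ => Pj q j (x p.1 p.2) (x p.1 (p.2 - Complex.I * p.1))) F
      (𝓝 1) := by
    have h1 : Tendsto (fun p : ℝ × ℂ => Pj q j (x p.1 p.2) (x p.1 (p.2 - Complex.I * p.1)) -
        (x p.1 p.2 ^ 2 + x p.1 (p.2 - Complex.I * p.1) ^ 2) *
          (x p.1 p.2 + x p.1 (p.2 - Complex.I * p.1)) / (4 * x p.1 p.2 ^ 3)) F (𝓝 0) := by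
      rw [Metric.tendsto_nhds]
      intro ε hε
      obtain ⟨δ, hδ, H⟩ := far_Pj hS hlim (ε := ε / 2) (by positivity)
      have hsm := (hx0.mono_right nhdsWithin_le_nhds).eventually (ball_mem_nhds (0 : ℂ) hδ)
      filter_upwards [far, hsm] with p h1 h2
      have h2 : ‖x p.1 p.2‖ < δ := by rw [← dist_zero_right]; exact h2
      have := (H _ _ h1.2.2.2.1 h2).1
      rw [dist_zero_right]
      linarith
    have h2 : Tendsto (fun p : ℝ × ℂ =>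
        (1 + (x p.1 (p.2 - Complex.I * p.1) / x p.1 p.2) ^ 2) *
          (1 + x p.1 (p.2 - Complex.I * p.1) / x p.1 p.2) / 4) F
        (𝓝 ((1 + 1 ^ 2) * (1 + 1) / 4)) :=
      (((r2.pow 2).const_add 1).mul (r2.const_add 1)).div_const 4
    have h3 := h1.add h2
    have e : (0 : ℂ) + (1 + 1 ^ 2) * (1 + 1) / 4 = 1 := by norm_num
    rw [e] at h3
    refine h3.congr' ?_
    filter_upwards [far] with p ⟨h1, h2, h3, h4, h5, h6, h7, h8⟩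
    have hne : x p.1 p.2 ≠ 0 := norm_pos_iff.1 (by linarith)
    field_simp
    ring
  have p2 : Tendsto (fun p : ℝ × ℂ => Pj q (-j) (x p.1 p.2) (x p.1 (p.2 - Complex.I * p.1))) F
      (𝓝 1) := by
    have h1 : Tendsto (fun p : ℝ × ℂ => Pj q (-j) (x p.1 p.2) (x p.1 (p.2 - Complex.I * p.1)) -
        (x p.1 p.2 + x p.1 (p.2 - Complex.I * p.1)) / (2 * x p.1 p.2)) F (𝓝 0) := by
      rw [Metric.tendsto_nhds]
      intro ε hε
      obtain ⟨δ, hδ, H⟩ := far_Pj hS hlim (ε := ε / 2) (by positivity)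
      have hsm := (hx0.mono_right nhdsWithin_le_nhds).eventually (ball_mem_nhds (0 : ℂ) hδ)
      filter_upwards [far, hsm] with p h1 h2
      have h2 : ‖x p.1 p.2‖ < δ := by rw [← dist_zero_right]; exact h2
      have := (H _ _ h1.2.2.2.1 h2).2
      rw [dist_zero_right]
      linarith
    have h2 : Tendsto (fun p : ℝ × ℂ =>
          (1 + x p.1 (p.2 - Complex.I * p.1) / x p.1 p.2) / 2) F
        (𝓝 ((1 + 1) / 2)) := (r2.const_add 1).div_const 2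
    have h3 := h1.add h2
    have e : (0 : ℂ) + (1 + 1) / 2 = 1 := by norm_num
    rw [e] at h3
    refine h3.congr' ?_
    filter_upwards [far] with p ⟨h1, h2, h3, h4, h5, h6, h7, h8⟩
    have hne : x p.1 p.2 ≠ 0 := norm_pos_iff.1 (by linarith)
    field_simp
    ring
  refine ⟨?_, ?_⟩
  · have q3 : Tendsto (fun p : ℝ × ℂ => M (x p.1 p.2) / (C₀ * p.2) ^ 2) F (𝓝 1) := by
      have h1 : Tendsto (fun p : ℝ × ℂ => E (x p.1 p.2) / x p.1 p.2) F (𝓝 C₀) := hE.comp hx0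
      have h2 : Tendsto (fun p : ℝ × ℂ => (E (x p.1 p.2) / x p.1 p.2) ^ 2 / C₀ ^ 2 *
          (x p.1 p.2 / p.2) ^ 2) F (𝓝 (C₀ ^ 2 / C₀ ^ 2 * 1 ^ 2)) :=
        ((h1.pow 2).div_const _).mul (r1.pow 2)
      have e5 : C₀ ^ 2 / C₀ ^ 2 * 1 ^ 2 = 1 := by field_simp
      rw [e5] at h2
      refine h2.congr' ?_
      filter_upwards [far] with p ⟨h1, h2, h3, h4, h5, h6, h7, h8⟩
      have hne : x p.1 p.2 ≠ 0 := norm_pos_iff.1 (by linarith)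
      have hne2 : p.2 ≠ 0 := norm_pos_iff.1 h2
      have hmem : x p.1 p.2 ∈ Sg κ := by
        have := (h4 0 ⟨le_rfl, zero_le_one⟩).1
        simpa using this
      rw [← hP.E_sq _ hmem]
      field_simp
    have h1 := q3.mul (p1.div p2 one_ne_zero)
    have e : (1 : ℂ) * (1 / 1) = 1 := by norm_num
    rw [e] at h1
    refine h1.congr fun p => ?_
    simp only [mc, Rj, Pi.div_apply]
    ring
  · filter_upwards [p1.eventually_ne one_ne_zero, p2.eventually_ne one_ne_zero] with p h1 h2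
    exact ⟨h1, h2⟩

end Crest.Agent.R102.MelI963
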