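import Mathlib
import Crest.Agent.R102.MelI4c_963

/-!
# Row 102, part (C), [T5]/MEL, **MEL-I**, (I4) part d (helper963)

Chord conversion, `ms = mc`, holomorphy, the slope formula, the top of the strip.
-/

set_option autoImplicit false

open Set Filter Topology Metric
open scoped ComplexConjugate

noncomputable section

namespace Crest.Agent.R102.MelI963

open Crest.Agent.R102.T5R Crest.Agent.R102.Mel Crest.Agent.R102.ExtF39

variable {κ κ' β C cc CC l₀ : ℝ} {q : ℂ → ℂ} {j : ℂ} {M E Z Zc : ℂ → ℂ} {σ : ℂ}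
  {x : ℝ → ℂ → ℂ} {C₀ : ℂ}

lemma rlaw_j (hS : Side κ κ' (-1) β C cc CC l₀ q j M x) {l : ℝ} (hl : 0 < l) (hl0 : l < l₀)
    {t : ℂ} (h0 : t + Complex.I * l ∈ Dl κ' cc l) (h1 : t ∈ Dl κ' cc l)
    (h2 : t - Complex.I * l ∈ Dl κ' cc l) :
    Rj q j (x l t) (x l (t + Complex.I * l)) * Rj q j (x l t) (x l (t - Complex.I * l)) = 1 := by
  have h := hS.rlaw l hl hl0 t h0 h1 h2
  rcases hS.hj with hj | hj
  · rw [hj]; exact h
  · rw [hj, rRot.1, rRot.1, ← mul_inv, h, inv_one]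

/-- chord conversion -/
lemma chord_conv (hS : Side κ κ' (-1) β C cc CC l₀ q j M x) {l : ℝ} (hl : 0 < l) (hl0 : l < l₀)
    {t : ℂ} (h0 : t ∈ Dl κ' cc l) (h1 : t - Complex.I * l ∈ Dl κ' cc l)
    (h2 : t - Complex.I * l - Complex.I * l ∈ Dl κ' cc l)
    (hseg : ∀ u ∈ Icc (0 : ℝ) 1, x l t + u * (x l (t - Complex.I * l) - x l t) ∈ Sg κ)
    (hp : Pj q j (x l t) (x l (t - Complex.I * l)) ≠ 0)
    (hm : Pj q (-j) (x l t) (x l (t - Complex.I * l)) ≠ 0) :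
    M (x l (t - Complex.I * l)) *
      Rj q (-j) (x l (t - Complex.I * l)) (x l (t - Complex.I * l - Complex.I * l)) =
      mc q j M x l t := by
  have e : t - Complex.I * l + Complex.I * l = t := by ring
  have hr := rlaw_j hS hl hl0 (t := t - Complex.I * l) (by rw [e]; exact h0) h1 h2
  rw [e] at hr
  rw [mc, rSym κ q j M _ _ hS.endq.diff hS.slope hseg hp hm, rRot.1]
  rw [eq_inv_of_mul_eq_one_left hr]

/-- slope formula -/
lemma slope_pos (hPF : PosF) (hq : DifferentiableOn ℂ q (Sg κ)) (hsl : Slope κ q j M)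
    (hP : Pos κ q j σ M E Z Zc) {a b : ℂ} (hseg : ∀ u ∈ Icc (0 : ℝ) 1, a + u * (b - a) ∈ Sg κ)
    (hm : Pj q (-j) a b ≠ 0) : Z b - Z a = M a * Rj q j a b * (Zc b - Zc a) := by
  obtain ⟨h1, h2⟩ := hPF κ q j σ M E Z Zc a b hq hsl hP hseg
  have ha : a ∈ Sg κ := by simpa using hseg 0 ⟨le_rfl, zero_le_one⟩
  have hE : E a ≠ 0 := by
    intro h
    have := hP.E_sq a ha
    rw [h] at this
    exact hsl.ne a ha (by rw [← this]; ring)
  rw [h1, h2, ← hP.E_sq a ha, Rj]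
  field_simp

/-- holomorphy of a slope -/
lemma slope_diff (hκ : DifferentiableOn ℂ q (Sg κ)) (hsl : Slope κ q j M) {k : ℂ} {f g : ℂ → ℂ}
    {s : ℂ} (hf : DifferentiableAt ℂ f s) (hg : DifferentiableAt ℂ g s)
    (hseg : ∀ u ∈ Icc (0 : ℝ) 1, f s + u * (g s - f s) ∈ Sg κ) (hm : Pj q (-k) (f s) (g s) ≠ 0) :
    DifferentiableAt ℂ (fun s => M (f s) * Rj q k (f s) (g s)) s := by
  have ha : f s ∈ Sg κ := by simpa using hseg 0 ⟨le_rfl, zero_le_one⟩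
  have h1 : DifferentiableAt ℂ (fun s => M (f s)) s :=
    DifferentiableAt.comp (g := M) (f := f) s
      (hsl.diff.differentiableAt ((isOpen_Sg κ).mem_nhds ha)) hf
  have hfg : DifferentiableAt ℂ (fun s => (f s, g s)) s := hf.prodMk hg
  have h2 : ∀ i : ℂ, DifferentiableAt ℂ (fun s => Pj q i (f s) (g s)) s := by
    intro i
    have h3 : DifferentiableAt ℂ (fun p : ℂ × ℂ => Pj q i p.1 p.2) ((fun s => (f s, g s)) s) :=
      (pAn κ q i (f s) (g s) hκ (isOpen_Sg κ) hseg).differentiableAt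
    exact DifferentiableAt.comp (g := fun p : ℂ × ℂ => Pj q i p.1 p.2)
      (f := fun s => (f s, g s)) s h3 hfg
  exact h1.mul (dAt_div (h2 k) (h2 (-k)) hm)

/-- far chords are good -/
structure FG (κ' cc l₀ : ℝ) (q : ℂ → ℂ) (j : ℂ) (M : ℂ → ℂ) (x : ℝ → ℂ → ℂ) (C₀ : ℂ)
    (R₁ ρ η : ℝ) : Prop where
  good : ∀ (l : ℝ) (t : ℂ), 0 < l → l < l₀ →
      t ∈ Dl κ' cc l → t - Complex.I * l ∈ Dl κ' cc l → R₁ * l < ‖t‖ → ‖t‖ < ρ →
      Pj q j (x l t) (x l (t - Complex.I * l)) ≠ 0 ∧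
      Pj q (-j) (x l t) (x l (t - Complex.I * l)) ≠ 0 ∧
      ‖mc q j M x l t / (C₀ * t) ^ 2 - 1‖ ≤ η

lemma FG.mono {κ' cc l₀ : ℝ} {q : ℂ → ℂ} {j : ℂ} {M : ℂ → ℂ} {x : ℝ → ℂ → ℂ} {C₀ : ℂ}
    {R₁ R₂ ρ ρ' η : ℝ} (h : FG κ' cc l₀ q j M x C₀ R₁ ρ η) (hR : R₁ ≤ R₂) (hρ : ρ' ≤ ρ) :
    FG κ' cc l₀ q j M x C₀ R₂ ρ' η :=
  ⟨fun l t h1 h2 h3 h4 h5 h6 => h.good l t h1 h2 h3 h4
    ((mul_le_mul_of_nonneg_right hR h1.le).trans_lt h5) (h6.trans_le hρ)⟩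

lemma exists_FG (hS : Side κ κ' (-1) β C cc CC l₀ q j M x)
    (hlim : Tendsto (fun τ => τ * (j * Complex.exp (q τ))) (𝓝[Sg κ] 0) (𝓝 1))
    (hP : Pos κ q j σ M E Z Zc) (hC : C₀ ≠ 0)
    (hE : Tendsto (fun τ => E τ / τ) (𝓝[Sg κ] 0) (𝓝 C₀)) {η : ℝ} (hη : 0 < η) :
    ∃ R₁ ρ : ℝ, 0 < R₁ ∧ 0 < ρ ∧ FG κ' cc l₀ q j M x C₀ R₁ ρ η := by
  obtain ⟨h1, h2⟩ := mc_tendsto hS hlim hP hC hE
  have h3 := h1.eventually (Metric.closedBall_mem_nhds (1 : ℂ) hη)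
  obtain ⟨R₁, ρ, h4, h5, h6⟩ := Fc_iff (h2.and h3)
  refine ⟨R₁, ρ, h4, h5, ⟨fun l t a1 a2 a3 a4 a5 a6 => ?_⟩⟩
  obtain ⟨⟨b1, b2⟩, b3⟩ := h6 l t a1 a2 a3 a4 a5 a6
  refine ⟨b1, b2, ?_⟩
  have b3' : dist (mc q j M x l t / (C₀ * t) ^ 2) 1 ≤ η := b3
  rwa [dist_eq_norm] at b3'

lemma lam_re (l : ℝ) (s : ℂ) : (lam l * s).re = l * s.im := by
  simp [lam, Complex.mul_re]

lemma lam_sub (l : ℝ) (s : ℂ) : lam l * s - Complex.I * l = lam l * (s + 1) := by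
  rw [lam]; ring

lemma lam_add (l : ℝ) (s : ℂ) : lam l * s + Complex.I * l = lam l * (s - 1) := by
  rw [lam]; ring

/-- times on the strip, away from the middle, are in the directional cone -/
lemma lamS_Dl {R : ℝ} (hcR : 8 ≤ cc * R) (hκR : 8 ≤ κ' * R) (hcc : 0 < cc) (hκ' : 0 < κ')
    (hR : 8 ≤ R) {l : ℝ} (hl : 0 < l) (hlR : l * (100 * R) < 1) {s : ℂ} (h1 : |s.re| ≤ 3)
    (h2 : R ≤ ‖s‖) (h3 : ‖s‖ ≤ 4 * R) : lam l * s ∈ Dl κ' cc l := by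
  have hs : s ≠ 0 := norm_pos_iff.1 (by linarith)
  refine ⟨mul_ne_zero (lam_ne hl) hs, ?_, ?_, ?_⟩
  · rw [norm_mul, norm_lam hl]
    nlinarith
  · rw [lam_im, norm_mul, norm_lam hl]
    have a1 : -s.re ≤ 3 := by linarith [(abs_le.1 h1).1]
    have a2 : 8 ≤ κ' * ‖s‖ := by nlinarith
    nlinarith
  · rw [norm_mul, norm_lam hl]
    have a2 : 8 ≤ cc * ‖s‖ := by nlinarith
    nlinarith

lemma norm_strip {R : ℝ} (hR : 8 ≤ R) {s : ℂ} (h1 : |s.re| ≤ 3) (h2 : R < |s.im|)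
    (h3 : |s.im| ≤ 2 * R) : R < ‖s‖ ∧ ‖s‖ ≤ 4 * R := by
  refine ⟨h2.trans_le (Complex.abs_im_le_norm s), ?_⟩
  have := Complex.norm_le_abs_re_add_abs_im s
  linarith

/-- **the extended slope is the true slope away from the middle** -/
lemma ms_eq_mc (hS : Side κ κ' (-1) β C cc CC l₀ q j M x) {R ρ η : ℝ} {Y : ℝ → ℂ → ℂ}
    (hG : FG κ' cc l₀ q j M x C₀ R ρ η) (hR : 8 ≤ R) (hcR : 8 ≤ cc * R) (hκR : 8 ≤ κ' * R)
    (hRκ : 4 ≤ (κ - κ') * R) (hY : YF x R Y) (hρ : 0 < ρ) :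
    ∀ᶠ l in 𝓝[>] (0 : ℝ), 0 < l ∧ l < l₀ ∧ l * (100 * R) < 1 ∧ ∀ s ∈ St (1 / 8) R, R < |s.im| →
      Y l (s + 1) = x l (lam l * (s + 1)) ∧ ms q j M Y l s = mc q j M x l (lam l * s) ∧
      lam l * s ∈ Dl κ' cc l ∧ lam l * (s + 1) ∈ Dl κ' cc l ∧ lam l * (s - 1) ∈ Dl κ' cc l ∧
      Adm κ 2 (x l (lam l * s)) (x l (lam l * (s + 1))) ∧
      Adm κ 2 (x l (lam l * s)) (x l (lam l * (s - 1))) ∧
      ‖x l (lam l * s) - lam l * s‖ ≤ l / 8 ∧
      ‖x l (lam l * (s + 1)) - lam l * (s + 1)‖ ≤ l / 8 ∧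
      ‖x l (lam l * (s - 1)) - lam l * (s - 1)‖ ≤ l / 8 ∧
      Pj q j (x l (lam l * s)) (x l (lam l * (s + 1))) ≠ 0 ∧
      Pj q (-j) (x l (lam l * s)) (x l (lam l * (s + 1))) ≠ 0 := by
  have hcc := hS.cone.c_pos
  have hκ' := hS.κ'_pos
  have ev : ∀ b : ℝ, 0 < b → ∀ᶠ l in 𝓝[>] (0 : ℝ), 0 < l ∧ l < b := fun b hb =>
    Ioo_mem_nhdsGT hb
  filter_upwards [ev l₀ hS.cone.l₀_pos, ev (1 / (100 * R)) (by positivity),
    ev (ρ / (4 * R)) (by positivity), hY.eq] with l h1 h2 h3 h4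
  have hl := h1.1
  have hlR : l * (100 * R) < 1 := by
    have := h2.2
    rwa [lt_div_iff₀ (by positivity)] at this
  have hlρ : l * (4 * R) < ρ := by
    have := h3.2
    rwa [lt_div_iff₀ (by positivity)] at this
  refine ⟨hl, h1.2, hlR, fun s hs hsR => ?_⟩
  have hre : |s.re| < 1 / 8 := hs.1
  have him : |s.im| < 2 * R := hs.2
  have k0 : |s.re| ≤ 3 := by linarith
  have k1 : |(s + 1).re| ≤ 3 := by
    rw [Complex.add_re, Complex.one_re]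
    exact (abs_add_le _ _).trans (by norm_num; linarith)
  have k2 : |(s + 1 + 1).re| ≤ 3 := by
    rw [Complex.add_re, Complex.add_re, Complex.one_re]
    refine (abs_add_le _ _).trans ?_
    have := abs_add_le s.re 1
    norm_num at this ⊢
    linarith
  have k3 : |(s - 1).re| ≤ 3 := by
    rw [Complex.sub_re, Complex.one_re]
    exact (abs_sub _ _).trans (by norm_num; linarith)
  have i1 : (s + 1).im = s.im := by simp
  have i2 : (s + 1 + 1).im = s.im := by simp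
  have i3 : (s - 1).im = s.im := by simp
  have n0 := norm_strip hR k0 hsR him.le
  have n1 := norm_strip hR k1 (by rw [i1]; exact hsR) (by rw [i1]; exact him.le)
  have n2 := norm_strip hR k2 (by rw [i2]; exact hsR) (by rw [i2]; exact him.le)
  have n3 := norm_strip hR k3 (by rw [i3]; exact hsR) (by rw [i3]; exact him.le)
  have d0 := lamS_Dl hcR hκR hcc hκ' hR hl hlR k0 n0.1.le n0.2
  have d1 := lamS_Dl hcR hκR hcc hκ' hR hl hlR k1 n1.1.le n1.2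
  have d2 := lamS_Dl hcR hκR hcc hκ' hR hl hlR k2 n2.1.le n2.2
  have d3 := lamS_Dl hcR hκR hcc hκ' hR hl hlR k3 n3.1.le n3.2
  have D1 : s + 1 ∈ DI R := by simpa using St_DI hR hs le_rfl one_le_two
  have D2 : s + 2 ∈ DI R := by simpa using St_DI hR hs one_le_two le_rfl
  have e2 : s + 1 + 1 = s + 2 := by ring
  have y1 := h4 _ D1 n1.1
  have y2 := h4 _ D2 (by rw [← e2]; exact n2.1)
  have g0 : ‖lam l * s‖ = l * ‖s‖ := by rw [norm_mul, norm_lam hl]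
  have f1 : R * l ≤ ‖lam l * s‖ := by rw [g0]; nlinarith [n0.1]
  have f1' : R * l < ‖lam l * s‖ := by rw [g0]; nlinarith [n0.1]
  have f2 : ‖lam l * (s + 1) - lam l * s‖ ≤ l := by
    have : lam l * (s + 1) - lam l * s = lam l := by ring
    rw [this, norm_lam hl]
  have f3 : ‖lam l * (s - 1) - lam l * s‖ ≤ l := by
    have : lam l * (s - 1) - lam l * s = -lam l := by ring
    rw [this, norm_neg, norm_lam hl]
  have far1 := far_chord hS hl h1.2 d0 d1 f2 hR hRκ f1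
  have far3 := far_chord hS hl h1.2 d0 d3 f3 hR hRκ f1
  have gd := hG.good l (lam l * s) hl h1.2 d0 (by rw [lam_sub]; exact d1) f1'
    (by rw [g0]; nlinarith [n0.2])
  rw [lam_sub] at gd
  refine ⟨y1, ?_, d0, d1, d3, far1.1, far3.1, far1.2.2.1, x_near hS hl h1.2 d1,
    x_near hS hl h1.2 d3, gd.1, gd.2.1⟩
  have hc := chord_conv hS hl h1.2 (t := lam l * s) d0 (by rw [lam_sub]; exact d1)
    (by rw [lam_sub, lam_sub]; exact d2)
    (by rw [lam_sub]; exact fun u hu => (far1.1 u hu).1) (by rw [lam_sub]; exact gd.1)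
    (by rw [lam_sub]; exact gd.2.1)
  rw [lam_sub, lam_sub] at hc
  rw [← hc, ms, y1, y2, e2]

/-- holomorphy of the extended slope -/
lemma ms_diff (hS : Side κ κ' (-1) β C cc CC l₀ q j M x)
    (hlim : Tendsto (fun τ => τ * (j * Complex.exp (q τ))) (𝓝[Sg κ] 0) (𝓝 1))
    (hP : Pos κ q j σ M E Z Zc) (hC : C₀ ≠ 0)
    (hE : Tendsto (fun τ => E τ / τ) (𝓝[Sg κ] 0) (𝓝 C₀)) {R : ℝ} {Y : ℝ → ℂ → ℂ}
    (hR : 8 ≤ R) (hY : YF x R Y) :
    ∀ᶠ l in 𝓝[>] (0 : ℝ), DifferentiableOn ℂ (ms q j M Y l) (St (1 / 8) R) ∧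
      DifferentiableOn ℂ (fun s => Y l (s + 1)) (St (1 / 8) R) ∧
      ∀ s ∈ St (1 / 8) R, Y l (s + 1) ∈ Sg κ := by
  filter_upwards [(ms_limit hS hlim hP hC hE hR hY).2, hY.diff] with l h1 h2
  have hd : ∀ k : ℝ, 1 ≤ k → k ≤ 2 → ∀ s ∈ St (1 / 8) R,
      DifferentiableAt ℂ (fun s : ℂ => Y l (s + k)) s := by
    intro k hk1 hk2 s hs
    have h3 := h2.differentiableAt ((DI_open R).mem_nhds (St_DI hR hs hk1 hk2))
    have h4 : DifferentiableAt ℂ (fun s : ℂ => s + (k : ℂ)) s := by fun_prop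
    exact DifferentiableAt.comp s (g := Y l) h3 h4
  refine ⟨fun s hs => ?_, fun s hs => ?_, fun s hs => (h1 s hs).1⟩
  · have h3 := hd 1 le_rfl one_le_two s hs
    have h4 := hd 2 one_le_two le_rfl s hs
    simp only [Complex.ofReal_one, Complex.ofReal_ofNat] at h3 h4
    obtain ⟨-, a2, a3, a4⟩ := h1 s hs
    have := slope_diff hS.endq.diff hS.slope (k := -j) h3 h4 (fun u hu => (a2 u hu).1)
      (by rw [neg_neg]; exact a3)
    exact this.differentiableWithinAt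
  · have h3 := hd 1 le_rfl one_le_two s hs
    simp only [Complex.ofReal_one] at h3
    exact h3.differentiableWithinAt

end Crest.Agent.R102.MelI963
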