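import Mathlib
import Crest.Agent.R102.MelI4d_963

/-!
# Row 102, part (C), [T5]/MEL, **MEL-I**, (I4) part e (helper963)

Fourth roots, the model on the strip, the top of the strip.
-/

set_option autoImplicit false

open Set Filter Topology Metric
open scoped ComplexConjugate

noncomputable section

namespace Crest.Agent.R102.MelI963

open Crest.Agent.R102.T5R Crest.Agent.R102.Mel Crest.Agent.R102.ExtF39

/-! ### fourth roots -/

lemma quarter_re (z : ℂ) : 0 ≤ (z ^ (1 / 4 : ℂ)).re := by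
  by_cases hz : z = 0
  · subst hz
    rw [Complex.zero_cpow (by norm_num)]
    simp
  rw [Complex.cpow_def_of_ne_zero hz, Complex.exp_re]
  have e : (Complex.log z * (1 / 4 : ℂ)).im = Complex.arg z / 4 := by
    have : Complex.log z * (1 / 4 : ℂ) = Complex.log z * ((1 / 4 : ℝ) : ℂ) := by norm_num
    rw [this, Complex.im_mul_ofReal, Complex.log_im]
    ring
  have hp := Real.pi_pos
  refine mul_nonneg (Real.exp_pos _).le (Real.cos_nonneg_of_neg_pi_div_two_le_of_le ?_ ?_)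
  · have h := Complex.neg_pi_lt_arg z
    rw [e]; linarith
  · have h := Complex.arg_le_pi z
    rw [e]; linarith

lemma quarter_sq (z : ℂ) : (z ^ (1 / 4 : ℂ)) ^ 2 = z ^ (1 / 2 : ℂ) := by
  rw [← Complex.cpow_nat_mul]
  congr 1
  norm_num

lemma quarter_near (z : ℂ) : ‖z ^ (1 / 4 : ℂ) - 1‖ ≤ ‖z - 1‖ := by
  set r := z ^ (1 / 4 : ℂ) with hr
  have h1 : z - 1 = (r - 1) * ((1 + r) * (1 + r ^ 2)) := by
    have : z = r ^ 4 := (quarter_pow z).symm
    rw [this]; ring
  have h2 : 1 ≤ ‖1 + r‖ := by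
    refine le_trans ?_ (Complex.re_le_norm _)
    rw [Complex.add_re, Complex.one_re]
    linarith [quarter_re z]
  have h3 : 1 ≤ ‖1 + r ^ 2‖ := by
    refine le_trans ?_ (Complex.re_le_norm _)
    rw [Complex.add_re, Complex.one_re, hr, quarter_sq]
    linarith [half_re z]
  rw [h1, norm_mul, norm_mul]
  have h4 : 1 ≤ ‖1 + r‖ * ‖1 + r ^ 2‖ := by nlinarith
  nlinarith [norm_nonneg (r - 1)]

lemma root4 {a b : ℂ} (h : a ^ 4 = b ^ 4) (hb : ‖a - b‖ < ‖b‖) : a = b := by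
  by_contra hne
  have hb0 : b ≠ 0 := by
    rintro rfl
    simp at hb
    linarith [norm_nonneg a]
  set z := a / b with hz
  have hz4 : (z - 1) * ((z + 1) * (z ^ 2 + 1)) = 0 := by
    have : z ^ 4 = 1 := by rw [hz, div_pow, h, div_self (pow_ne_zero _ hb0)]
    linear_combination this
  have hz1 : ‖z - 1‖ < 1 := by
    have e : z - 1 = (a - b) / b := by rw [hz]; field_simp
    rw [e, norm_div, div_lt_one (norm_pos_iff.2 hb0)]
    exact hb
  have hre : 0 < z.re := by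
    have := (Complex.abs_re_le_norm (z - 1)).trans_lt hz1
    rw [Complex.sub_re, Complex.one_re] at this
    linarith [(abs_lt.1 this).1]
  have hz0 : z - 1 ≠ 0 := by
    intro h0
    apply hne
    have : a / b = 1 := by rw [← hz]; linear_combination h0
    rwa [div_eq_one_iff_eq hb0] at this
  have h5 := (mul_eq_zero.1 hz4).resolve_left hz0
  rcases mul_eq_zero.1 h5 with h6 | h6
  · have h7 : z = -1 := by linear_combination h6
    rw [h7] at hre
    simp at hre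
    linarith
  · have h7 : (z ^ 2).re = -1 := by
      have : z ^ 2 = -1 := by linear_combination h6
      rw [this]; simp
    have h8 : (z ^ 2).im = 0 := by
      have : z ^ 2 = -1 := by linear_combination h6
      rw [this]; simp
    rw [sq, Complex.mul_im] at h8
    rw [sq, Complex.mul_re] at h7
    have h9 : z.im = 0 := by
      have : z.re * z.im = 0 := by linarith
      exact (mul_eq_zero.1 this).resolve_left hre.ne'
    rw [h9] at h7
    nlinarith

/-- perturbation inside the sector about the positive real axis -/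
lemma ovR_pert {k : ℝ} (hk : 0 < k) (hk1 : k < 1) {v r : ℂ} (hv : 0 < v.re)
    (hi : |v.im| ≤ k / 2 * ‖v‖) (hr : ‖r - 1‖ ≤ k / 10) (h1 : ‖v‖ ≤ 1 / 2) :
    v * r ∈ OvR k ∧ ‖v * r‖ ≤ 11 / 10 * ‖v‖ := by
  have hn : 0 < ‖v‖ := norm_pos_iff.2 (by rintro rfl; simp at hv)
  have e : v * r = v + v * (r - 1) := by ring
  have h2 : ‖v * (r - 1)‖ ≤ k / 10 * ‖v‖ := by
    rw [norm_mul, mul_comm]
    exact mul_le_mul_of_nonneg_right hr hn.le
  have h3 : ‖v‖ ≤ v.re + |v.im| := by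
    have := Complex.norm_le_abs_re_add_abs_im v
    rwa [abs_of_pos hv] at this
  have h4 := (Complex.abs_re_le_norm (v * (r - 1))).trans h2
  have h5 := (Complex.abs_im_le_norm (v * (r - 1))).trans h2
  have h6 : ‖v * r‖ ≤ ‖v‖ + k / 10 * ‖v‖ := by
    rw [e]; exact (norm_add_le _ _).trans (by linarith)
  have h7 : ‖v‖ - k / 10 * ‖v‖ ≤ ‖v * r‖ := by
    have := norm_sub_norm_le v (-(v * (r - 1)))
    rw [sub_neg_eq_add, norm_neg, ← e] at this
    linarith
  have hkv : k * ‖v‖ < ‖v‖ := by nlinarith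
  have hkv0 : 0 < k * ‖v‖ := by positivity
  have hre : 0 < (v * r).re := by
    rw [e, Complex.add_re]
    linarith [(abs_le.1 h4).1]
  refine ⟨⟨?_, ?_, ?_, hre⟩, by linarith⟩
  · intro h
    rw [h] at hre
    simp at hre
  · linarith
  · have h8 : |(v * r).im| ≤ |v.im| + k / 10 * ‖v‖ := by
      rw [e, Complex.add_im]
      exact (abs_add_le _ _).trans (by linarith)
    nlinarith

/-! ### the model on the strip -/

/-- `√(1/4 - s²)` -/
def Y1 (s : ℂ) : ℂ := (1 / 4 - s ^ 2) ^ (1 / 2 : ℂ)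

lemma Y1_sq (s : ℂ) : Y1 s ^ 2 = 1 / 4 - s ^ 2 := half_sq _

lemma sre (s : ℂ) : (1 / 4 - s ^ 2).re = 1 / 4 - s.re ^ 2 + s.im ^ 2 := by
  rw [Complex.sub_re, sq, Complex.mul_re]
  norm_num
  ring

lemma sim (s : ℂ) : (1 / 4 - s ^ 2).im = -(2 * s.re * s.im) := by
  rw [Complex.sub_im, sq, Complex.mul_im]
  norm_num
  ring

lemma Y1_slit {s : ℂ} (h : |s.re| < 1 / 8) : (1 / 4 - s ^ 2) ∈ Complex.slitPlane := by
  left
  rw [sre]
  have := abs_lt.1 h
  nlinarith [sq_nonneg s.im]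

lemma Y1_pos {s : ℂ} (h : |s.re| < 1 / 8) : 0 < (Y1 s).re := by
  have h1 : 0 ≤ (Y1 s).re := half_re _
  rcases h1.eq_or_lt with h2 | h2
  · exfalso
    have h3 : (Y1 s ^ 2).re = (1 / 4 - s ^ 2).re := by rw [Y1_sq]
    rw [sre, sq, Complex.mul_re, ← h2] at h3
    have := abs_lt.1 h
    nlinarith [sq_nonneg s.im, sq_nonneg (Y1 s).im]
  · exact h2

/-- the model label is near the positive real axis -/
lemma Y1_im {s : ℂ} {k : ℝ} (hk : 0 < k) (hk1 : k < 1) (h : |s.re| < k / 8) :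
    |(Y1 s).im| ≤ k / 2 * ‖Y1 s‖ := by
  have h8 : |s.re| < 1 / 8 := by linarith
  have hp := Y1_pos h8
  have h1 : (Y1 s ^ 2).re = (1 / 4 - s ^ 2).re := by rw [Y1_sq]
  have h2 : (Y1 s ^ 2).im = (1 / 4 - s ^ 2).im := by rw [Y1_sq]
  rw [sre, sq, Complex.mul_re] at h1
  rw [sim, sq, Complex.mul_im] at h2
  set a := (Y1 s).re
  set b := (Y1 s).im
  have hab := abs_lt.1 h8
  have h3 : s.re ^ 2 ≤ 1 / 64 := by nlinarith
  have h4 : |a * b| = |s.re| * |s.im| := by
    have : a * b = -(s.re * s.im) := by linarith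
    rw [this, abs_neg, abs_mul]
  rw [abs_mul, abs_of_pos hp] at h4
  have h5 : 2 * |s.im| / 5 ≤ a ^ 2 := by
    have : 15 / 64 + s.im ^ 2 ≤ a ^ 2 - b ^ 2 := by nlinarith
    have h6 : s.im ^ 2 = |s.im| ^ 2 := (sq_abs _).symm
    nlinarith [sq_nonneg b, sq_nonneg (|s.im| - 1 / 5)]
  have h6 : |b| ≤ k / 2 * a := by
    by_contra hcon
    push Not at hcon
    have h7 : k / 2 * a ^ 2 < a * |b| := by nlinarith
    have h8 : |s.re| * |s.im| ≤ k / 8 * |s.im| :=
      mul_le_mul_of_nonneg_right h.le (abs_nonneg _)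
    nlinarith [abs_nonneg s.im]
  have h7 : a ≤ ‖Y1 s‖ := Complex.re_le_norm _
  nlinarith

lemma Y1_norm {s : ℂ} {R : ℝ} (hR : 8 ≤ R) (h : s ∈ St (1 / 8) R) : ‖Y1 s‖ ≤ 4 * R ∧
    1 / 4 ≤ ‖Y1 s‖ := by
  have h0 : ‖Y1 s‖ ^ 2 = ‖1 / 4 - s ^ 2‖ := by rw [← norm_pow, Y1_sq]
  have h1 : ‖s‖ ≤ 1 / 8 + 2 * R := by
    have := Complex.norm_le_abs_re_add_abs_im s
    linarith [h.1, h.2]
  have h2 : ‖1 / 4 - s ^ 2‖ ≤ 1 / 4 + ‖s‖ ^ 2 := by
    refine (norm_sub_le _ _).trans ?_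
    rw [norm_pow]
    norm_num
  constructor
  · by_contra hcon
    push Not at hcon
    nlinarith [norm_nonneg s, norm_nonneg (Y1 s)]
  · have h3 : 15 / 64 ≤ ‖1 / 4 - s ^ 2‖ := by
      refine le_trans ?_ (Complex.re_le_norm _)
      rw [sre]
      have := abs_lt.1 h.1
      nlinarith [sq_nonneg s.im]
    by_contra hcon
    push Not at hcon
    nlinarith [norm_nonneg (Y1 s)]

lemma Y1_diff {R : ℝ} : DifferentiableOn ℂ Y1 (St (1 / 8) R) := by
  intro s hs
  have h1 : DifferentiableAt ℂ (fun s : ℂ => 1 / 4 - s ^ 2) s := by fun_prop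
  have h2 : DifferentiableAt ℂ (fun s : ℂ => (1 / 4 - s ^ 2) ^ (1 / 2 : ℂ)) s :=
    h1.cpow (differentiableAt_const _) (Y1_slit hs.1)
  exact h2.differentiableWithinAt

/-- comparison with the time, top (`ς = 1`) and bottom (`ς = -1`) -/
lemma Y1_time {s : ℂ} {R l : ℝ} (hR : 8 ≤ R) (hl : 0 < l) (h8 : |s.re| < 1 / 8) :
    (R < s.im → ‖(l : ℂ) * Y1 s - lam l * s‖ ≤ l / 32) ∧
    (s.im < -R → ‖(l : ℂ) * Y1 s + lam l * s‖ ≤ l / 32) := by
  have e : ((l : ℂ) * Y1 s - lam l * s) * ((l : ℂ) * Y1 s + lam l * s) = (l : ℂ) ^ 2 / 4 := by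
    have h1 := Y1_sq s
    rw [lam]
    linear_combination (l : ℂ) ^ 2 * h1 - (l : ℂ) ^ 2 * s ^ 2 * Complex.I_sq
  have en : ‖(l : ℂ) * Y1 s - lam l * s‖ * ‖(l : ℂ) * Y1 s + lam l * s‖ = l ^ 2 / 4 := by
    rw [← norm_mul, e, norm_div, norm_pow, Complex.norm_real, Real.norm_eq_abs, abs_of_pos hl]
    norm_num
  have hp := Y1_pos h8
  constructor
  · intro h
    have h1 : l * 8 ≤ ‖(l : ℂ) * Y1 s + lam l * s‖ := by
      refine le_trans ?_ (Complex.re_le_norm _)
      rw [Complex.add_re, lam_re, Complex.re_ofReal_mul]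
      nlinarith
    by_contra hcon
    push Not at hcon
    nlinarith [norm_nonneg ((l : ℂ) * Y1 s + lam l * s)]
  · intro h
    have h1 : l * 8 ≤ ‖(l : ℂ) * Y1 s - lam l * s‖ := by
      refine le_trans ?_ (Complex.re_le_norm _)
      rw [Complex.sub_re, lam_re, Complex.re_ofReal_mul]
      nlinarith
    by_contra hcon
    push Not at hcon
    nlinarith [norm_nonneg ((l : ℂ) * Y1 s - lam l * s)]

end Crest.Agent.R102.MelI963
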