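import Mathlib
import Crest.Agent.R102.MelI4e_963

/-!
# Row 102, part (C), [T5]/MEL, **MEL-I**, (I4) part f (helper963)

The top of the strip.
-/

set_option autoImplicit false

open Set Filter Topology Metric
open scoped ComplexConjugate

noncomputable section

namespace Crest.Agent.R102.MelI963

open Crest.Agent.R102.T5R Crest.Agent.R102.Mel Crest.Agent.R102.ExtF39

variable {κ κ' β C cc CC l₀ : ℝ} {qA : ℂ → ℂ} {jA : ℂ} {MA EA ZA ZcA : ℂ → ℂ}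
  {xA : ℝ → ℂ → ℂ} {qB : ℂ → ℂ} {jB : ℂ} {MB EB ZB ZcB : ℂ → ℂ} {xB : ℝ → ℂ → ℂ}
  {C₀ : ℂ} {δ : ℝ} {G : ℂ → ℂ}

/-- the facts of `ms_eq_mc` at one point -/
structure PtF (κ κ' cc : ℝ) (q : ℂ → ℂ) (j : ℂ) (M : ℂ → ℂ) (x : ℝ → ℂ → ℂ)
    (Y : ℝ → ℂ → ℂ) (l : ℝ) (s : ℂ) : Prop where
  y1 : Y l (s + 1) = x l (lam l * (s + 1))
  m : ms q j M Y l s = mc q j M x l (lam l * s)
  d0 : lam l * s ∈ Dl κ' cc l
  d1 : lam l * (s + 1) ∈ Dl κ' cc l
  d3 : lam l * (s - 1) ∈ Dl κ' cc l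
  a1 : Adm κ 2 (x l (lam l * s)) (x l (lam l * (s + 1)))
  a3 : Adm κ 2 (x l (lam l * s)) (x l (lam l * (s - 1)))
  n0 : ‖x l (lam l * s) - lam l * s‖ ≤ l / 8
  n1 : ‖x l (lam l * (s + 1)) - lam l * (s + 1)‖ ≤ l / 8
  n3 : ‖x l (lam l * (s - 1)) - lam l * (s - 1)‖ ≤ l / 8
  p : Pj q j (x l (lam l * s)) (x l (lam l * (s + 1))) ≠ 0
  pm : Pj q (-j) (x l (lam l * s)) (x l (lam l * (s + 1))) ≠ 0

lemma exists_PtF {q : ℂ → ℂ} {j : ℂ} {M : ℂ → ℂ} {x : ℝ → ℂ → ℂ} {c₀ : ℂ}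
    (hS : Side κ κ' (-1) β C cc CC l₀ q j M x) {R ρ η : ℝ} {Y : ℝ → ℂ → ℂ}
    (hG : FG κ' cc l₀ q j M x c₀ R ρ η) (hR : 8 ≤ R) (hcR : 8 ≤ cc * R) (hκR : 8 ≤ κ' * R)
    (hRκ : 4 ≤ (κ - κ') * R) (hY : YF x R Y) (hρ : 0 < ρ) :
    ∀ᶠ l in 𝓝[>] (0 : ℝ), 0 < l ∧ l < l₀ ∧ l * (100 * R) < 1 ∧ ∀ s ∈ St (1 / 8) R, R < |s.im| →
      PtF κ κ' cc q j M x Y l s := by
  filter_upwards [ms_eq_mc hS hG hR hcR hκR hRκ hY hρ] with l ⟨h1, h2, h3, h4⟩
  refine ⟨h1, h2, h3, fun s hs hsR => ?_⟩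
  obtain ⟨a, b, c, d, e, f, g, h, i, k, m, n⟩ := h4 s hs hsR
  exact ⟨a, b, c, d, e, f, g, h, i, k, m, n⟩

/-- membership in the overlap near the positive real axis -/
lemma mem_OvR {R l : ℝ} (hR : 8 ≤ R) (hκ : 0 < κ) (hκ1 : κ < 1) (hκR : 8 ≤ κ * R) (hl : 0 < l)
    (hlR : l * (100 * R) < 1) {s z : ℂ} (h1 : |s.re| ≤ 9 / 8) (h2 : R ≤ s.im) (h3 : s.im ≤ 2 * R)
    (hz : ‖z - lam l * s‖ ≤ l / 8) : z ∈ OvR κ ∧ 7 * l ≤ ‖z‖ ∧ ‖z‖ ≤ l * (4 * R) := by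
  have hre := (Complex.abs_re_le_norm (z - lam l * s)).trans hz
  have him := (Complex.abs_im_le_norm (z - lam l * s)).trans hz
  rw [Complex.sub_re, lam_re] at hre
  rw [Complex.sub_im, lam_im] at him
  have a1 := (abs_le.1 hre).1
  have a2 : l * R ≤ l * s.im := mul_le_mul_of_nonneg_left h2 hl.le
  have a3 : l * R - l / 8 ≤ z.re := by linarith
  have a4 : l * 8 ≤ l * R := mul_le_mul_of_nonneg_left hR hl.le
  have a5 : 7 * l ≤ ‖z‖ := by linarith [Complex.re_le_norm z]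
  have a6 : ‖z‖ ≤ l * (4 * R) := by
    have b1 : ‖z‖ ≤ ‖z - lam l * s‖ + ‖lam l * s‖ := by
      simpa using norm_add_le (z - lam l * s) (lam l * s)
    have b2 : ‖lam l * s‖ = l * ‖s‖ := by rw [norm_mul, norm_lam hl]
    have b3 := Complex.norm_le_abs_re_add_abs_im s
    have b4 : |s.im| = s.im := abs_of_nonneg (by linarith)
    have b5 : ‖s‖ ≤ 9 / 8 + 2 * R := by linarith
    nlinarith
  have a7 : |z.im| ≤ 5 / 4 * l := by
    have b1 := abs_le.1 him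
    have b2 := abs_le.1 h1
    rw [abs_le]
    constructor <;> nlinarith
  refine ⟨⟨norm_pos_iff.1 (by linarith), by nlinarith, ?_, by linarith⟩, a5, a6⟩
  have b1 : κ * z.re ≤ κ * ‖z‖ := mul_le_mul_of_nonneg_left (Complex.re_le_norm z) hκ.le
  have b2 : κ * (l * R - l / 8) ≤ κ * z.re := mul_le_mul_of_nonneg_left a3 hκ.le
  have b3 : l * 8 ≤ l * (κ * R) := mul_le_mul_of_nonneg_left hκR hl.le
  have b4 : κ * l ≤ l := by nlinarith
  nlinarith

/-- **the top of the strip** -/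
lemma top_strip (hPF : PosF)
    (hD : DatI κ κ' β C cc CC l₀ qA jA MA EA ZA ZcA xA qB jB MB EB ZB ZcB xB C₀ δ G)
    {R l : ℝ} {YA YB : ℝ → ℂ → ℂ} (hR : 8 ≤ R) (hκR : 8 ≤ κ' * R) (hl : 0 < l) (hl0 : l < l₀)
    (hlR : l * (100 * R) < 1) {s : ℂ} (hs : s ∈ St (1 / 8) R) (hsR : R < s.im)
    (hA : PtF κ κ' cc qA jA MA xA YA l s) (hB : PtF κ κ' cc qB jB MB xB YB l (-s)) :
    mc qA jA MA xA l (lam l * s) * mc qB jB MB xB l (lam l * (-s)) =
        MA (xA l (lam l * s)) ^ 2 ∧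
      ZA (xA l (lam l * s)) - ZB (xB l (lam l * (-s + 1))) =
        mc qB jB MB xB l (lam l * (-s)) *
          (ZcA (xA l (lam l * s)) - ZcB (xB l (lam l * (-s + 1)))) ∧
      xA l (lam l * s) ∈ OvR κ ∧ 7 * l ≤ ‖xA l (lam l * s)‖ ∧
      ‖xA l (lam l * s)‖ ≤ l * (4 * R) := by
  have hκ0 : 0 < κ := hD.sA.endq.κ_pos
  have hκ1 : κ < 1 := hD.sA.endq.κ_lt
  have hκκ := hD.sA.κ'_lt
  have hκR' : 8 ≤ κ * R := by nlinarith
  have hre : |s.re| < 1 / 8 := hs.1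
  have him : |s.im| < 2 * R := hs.2
  have him' : s.im ≤ 2 * R := (le_abs_self _).trans him.le
  set y := xA l (lam l * s) with hy
  set y' := xA l (lam l * (s - 1)) with hy'
  have hx0 : xB l (lam l * (-s)) = -y := by
    have h := hD.mt.X l hl hl0 (lam l * s) hA.d0
      (by rw [← mul_neg]; exact hB.d0) (by rw [lam_re]; nlinarith)
    rw [← mul_neg] at h
    exact h
  have e1 : lam l * (-s + 1) = -(lam l * (s - 1)) := by ring
  have hx1 : xB l (lam l * (-s + 1)) = -y' := by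
    have h := hD.mt.X l hl hl0 (lam l * (s - 1)) hA.d3
      (by rw [← e1]; exact hB.d1) (by rw [lam_re]; simp; nlinarith)
    rw [← e1] at h
    exact h
  have hyO := mem_OvR hR hκ0 hκ1 hκR' hl hlR (by linarith) hsR.le him' hA.n0
  have hseg : ∀ u ∈ Icc (0 : ℝ) 1, y + u * (y' - y) ∈ OvR κ := by
    intro u hu
    have h1 : ‖y + u * (y' - y) - lam l * (s - u)‖ ≤ l / 8 := by
      have e : y + u * (y' - y) - lam l * (s - u) =
          (1 - u) * (y - lam l * s) + u * (y' - lam l * (s - 1)) := by ring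
      rw [e]
      refine (norm_add_le _ _).trans ?_
      rw [norm_mul, norm_mul]
      have e2 : ‖(1 - u : ℂ)‖ = 1 - u := by
        have : (1 - u : ℂ) = ((1 - u : ℝ) : ℂ) := by push_cast; ring
        rw [this, Complex.norm_real, Real.norm_eq_abs, abs_of_nonneg (by linarith [hu.2])]
      have e3 : ‖(u : ℂ)‖ = u := by
        rw [Complex.norm_real, Real.norm_eq_abs, abs_of_nonneg hu.1]
      rw [e2, e3]
      have b1 : (1 - u) * ‖y - lam l * s‖ ≤ (1 - u) * (l / 8) :=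
        mul_le_mul_of_nonneg_left hA.n0 (by linarith [hu.2])
      have b2 : u * ‖y' - lam l * (s - 1)‖ ≤ u * (l / 8) :=
        mul_le_mul_of_nonneg_left hA.n3 hu.1
      linarith
    refine (mem_OvR hR hκ0 hκ1 hκR' hl hlR ?_ ?_ ?_ h1).1
    · rw [Complex.sub_re, Complex.ofReal_re]
      have := abs_lt.1 hre
      rw [abs_le]
      constructor <;> linarith [hu.1, hu.2]
    · simpa using hsR.le
    · simpa using him'
  have hj : -jB = jA := by rw [hD.mt.j, neg_neg]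
  -- the slope on side `B`
  have hmB : mc qB jB MB xB l (lam l * (-s)) = MA y * Rj qA jA y y' := by
    rw [mc, lam_sub, hx0, hx1, hD.mt.M y hyO.1]
    rw [rRot.2 κ qA qB jB y y' hD.sA.endq.diff hD.sB.endq.diff hD.mt.q hseg, hj]
  have hmA : mc qA jA MA xA l (lam l * s) = MA y * Rj qA jA y (xA l (lam l * (s + 1))) := by
    rw [mc, lam_sub]
  have hlaw := rlaw_j hD.sA hl hl0 (t := lam l * s) (by rw [lam_add]; exact hA.d3) hA.d0
    (by rw [lam_sub]; exact hA.d1)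
  rw [lam_add, lam_sub] at hlaw
  refine ⟨?_, ?_, hyO.1, hyO.2.1, hyO.2.2⟩
  · rw [hmA, hmB]
    linear_combination MA y ^ 2 * hlaw
  · have hsl := slope_pos hPF hD.sB.endq.diff hD.sB.slope hD.pB
      (a := xB l (lam l * (-s))) (b := xB l (lam l * (-s + 1)))
      (fun u hu => (hB.a1 u hu).1) hB.pm
    have h1 := (hD.mp y hyO.1).2
    have h2 : mc qB jB MB xB l (lam l * (-s)) =
        MB (xB l (lam l * (-s))) * Rj qB jB (xB l (lam l * (-s))) (xB l (lam l * (-s + 1))) := by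
      rw [mc, lam_sub]
    rw [← h2] at hsl
    rw [hx0, h1.1, h1.2] at hsl
    rw [hx0] at h2
    linear_combination -hsl

end Crest.Agent.R102.MelI963
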