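import Mathlib
import Crest.Agent.R102.MelI4f_963

/-!
# Row 102, part (C), [T5]/MEL, **MEL-I**, (I4) part g (helper963)

The incidence relation on the strip.
-/

set_option autoImplicit false

open Set Filter Topology Metric
open scoped ComplexConjugate

noncomputable section

namespace Crest.Agent.R102.MelI963

open Crest.Agent.R102.T5R Crest.Agent.R102.Mel Crest.Agent.R102.ExtF39

variable {κ κ' β C cc CC l₀ : ℝ} {qA : ℂ → ℂ} {jA : ℂ} {MA EA ZA ZcA : ℂ → ℂ}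
  {xA : ℝ → ℂ → ℂ} {qB : ℂ → ℂ} {jB : ℂ} {MB EB ZB ZcB : ℂ → ℂ} {xB : ℝ → ℂ → ℂ}
  {C₀ : ℂ} {δ : ℝ} {G : ℂ → ℂ}

lemma St_convex (a R : ℝ) : Convex ℝ (St a R) := by
  have h1 : Convex ℝ {s : ℂ | -a < s.re} := convex_halfSpace_re_gt _
  have h2 : Convex ℝ {s : ℂ | s.re < a} := convex_halfSpace_re_lt _
  have h3 : Convex ℝ {s : ℂ | -(2 * R) < s.im} := convex_halfSpace_im_gt _
  have h4 : Convex ℝ {s : ℂ | s.im < 2 * R} := convex_halfSpace_im_lt _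
  have : St a R = ({s : ℂ | -a < s.re} ∩ {s : ℂ | s.re < a}) ∩
      ({s : ℂ | -(2 * R) < s.im} ∩ {s : ℂ | s.im < 2 * R}) := by
    ext s
    constructor
    · rintro ⟨h1, h2⟩
      exact ⟨abs_lt.1 h1, abs_lt.1 h2⟩
    · rintro ⟨h1, h2⟩
      exact ⟨abs_lt.2 h1, abs_lt.2 h2⟩
  rw [this]
  exact (h1.inter h2).inter (h3.inter h4)

/-- the ratio to the model -/
def Pq (C₀ : ℂ) (qA : ℂ → ℂ) (jA : ℂ) (MA : ℂ → ℂ) (YA : ℝ → ℂ → ℂ) (qB : ℂ → ℂ) (jB : ℂ)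
    (MB : ℂ → ℂ) (YB : ℝ → ℂ → ℂ) (l : ℝ) (s : ℂ) : ℂ :=
  ms qA jA MA YA l s * ms qB jB MB YB l (-s) / (C₀ * (l * Y1 s)) ^ 4

lemma Pq_limit
    (hD : DatI κ κ' β C cc CC l₀ qA jA MA EA ZA ZcA xA qB jB MB EB ZB ZcB xB C₀ δ G)
    {R : ℝ} {YA YB : ℝ → ℂ → ℂ} (hR : 8 ≤ R) (hYA : YF xA R YA) (hYB : YF xB R YB) {η : ℝ}
    (hη : 0 < η) :
    ∀ᶠ l in 𝓝[>] (0 : ℝ), ∀ s ∈ St (1 / 8) R,
      ‖Pq C₀ qA jA MA YA qB jB MB YB l s - 1‖ ≤ η := by
  have hCB : -C₀ ≠ 0 := neg_ne_zero.2 hD.C_ne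
  have h1 := (ms_limit hD.sA hD.limA hD.pA hD.C_ne hD.EA_lim hR hYA).1
  have h2 := (ms_limit hD.sB hD.limB hD.pB hCB hD.EB_lim hR hYB).1
  have h3 : Tendsto (fun p : ℝ × ℂ => (p.1, -p.2)) (𝓝[>] (0 : ℝ) ×ˢ 𝓟 (St (1 / 8) R))
      (𝓝[>] (0 : ℝ) ×ˢ 𝓟 (St (1 / 8) R)) := by
    refine Tendsto.prodMk tendsto_fst ?_
    have h4 : Tendsto (fun s : ℂ => -s) (𝓟 (St (1 / 8) R)) (𝓟 (St (1 / 8) R)) :=
      tendsto_principal_principal.2 fun s hs => St_neg hs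
    exact h4.comp tendsto_snd
  have h5 := h1.mul (h2.comp h3)
  rw [mul_one] at h5
  have h6 := h5.eventually (Metric.closedBall_mem_nhds (1 : ℂ) hη)
  rw [eventually_prod_principal_iff] at h6
  filter_upwards [h6, self_mem_nhdsWithin] with l h7 hl s hs
  have hl : 0 < l := hl
  have h8 : dist (ms qA jA MA YA l s / (C₀ * lam l * (s + 1 / 2)) ^ 2 *
      (ms qB jB MB YB l (-s) / (-C₀ * lam l * (-s + 1 / 2)) ^ 2)) 1 ≤ η := h7 s hs
  rw [dist_eq_norm] at h8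
  have hI4 : Complex.I ^ 4 = 1 := Complex.I_pow_four
  have e1 : (C₀ * (l * Y1 s)) ^ 4 = (C₀ * lam l * (s + 1 / 2)) ^ 2 *
      (-C₀ * lam l * (-s + 1 / 2)) ^ 2 := by
    have e2 : (C₀ * (l * Y1 s)) ^ 4 = C₀ ^ 4 * (l : ℂ) ^ 4 * (Y1 s ^ 2) ^ 2 := by ring
    rw [e2, Y1_sq, lam]
    linear_combination (-(C₀ ^ 4 * (l : ℂ) ^ 4 * (1 / 4 - s ^ 2) ^ 2)) * hI4
  have e3 : Pq C₀ qA jA MA YA qB jB MB YB l s =
      ms qA jA MA YA l s / (C₀ * lam l * (s + 1 / 2)) ^ 2 *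
      (ms qB jB MB YB l (-s) / (-C₀ * lam l * (-s + 1 / 2)) ^ 2) := by
    rw [Pq, e1, mul_div_mul_comm]
  rw [e3]
  exact h8

lemma E_near (hD : DatI κ κ' β C cc CC l₀ qA jA MA EA ZA ZcA xA qB jB MB EB ZB ZcB xB C₀ δ G) :
    ∃ r > 0, ∀ τ ∈ Sg κ, ‖τ‖ < r → ‖EA τ / C₀ - τ‖ ≤ ‖τ‖ / 10 := by
  have hC : 0 < ‖C₀‖ := norm_pos_iff.2 hD.C_ne
  have h1 := hD.EA_lim.eventually (Metric.closedBall_mem_nhds C₀ (show 0 < ‖C₀‖ / 10 by positivity))
  rw [eventually_nhdsWithin_iff, Metric.eventually_nhds_iff] at h1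
  obtain ⟨r, hr, H⟩ := h1
  refine ⟨r, hr, fun τ hτ hn => ?_⟩
  have h2 : dist (EA τ / τ) C₀ ≤ ‖C₀‖ / 10 := H (by rwa [dist_zero_right]) hτ
  rw [dist_eq_norm] at h2
  have hτ0 : τ ≠ 0 := hτ.1
  have hτn : 0 < ‖τ‖ := norm_pos_iff.2 hτ0
  have hC0 := hD.C_ne
  have e : EA τ / C₀ - τ = (EA τ / τ - C₀) * (τ / C₀) := by field_simp
  rw [e, norm_mul, norm_div]
  calc ‖EA τ / τ - C₀‖ * (‖τ‖ / ‖C₀‖) ≤ ‖C₀‖ / 10 * (‖τ‖ / ‖C₀‖) :=
        mul_le_mul_of_nonneg_right h2 (by positivity)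
    _ = ‖τ‖ / 10 := by field_simp

lemma OvR_sub_Sg {κ : ℝ} {τ : ℂ} (h : τ ∈ OvR κ) : τ ∈ Sg κ :=
  ⟨h.1, h.2.1, (le_abs_self _).trans_lt h.2.2.1⟩

/-- **the incidence relation on the strip** -/
theorem strip_rel (hPF : PosF)
    (hD : DatI κ κ' β C cc CC l₀ qA jA MA EA ZA ZcA xA qB jB MB EB ZB ZcB xB C₀ δ G)
    {R ρA ηA ρB ηB : ℝ} {YA YB : ℝ → ℂ → ℂ} (hR : 8 ≤ R) (hcR : 8 ≤ cc * R) (hκR : 8 ≤ κ' * R)
    (hRκ : 4 ≤ (κ - κ') * R)
    (hGA : FG κ' cc l₀ qA jA MA xA C₀ R ρA ηA) (hGB : FG κ' cc l₀ qB jB MB xB (-C₀) R ρB ηB)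
    (hρA : 0 < ρA) (hρB : 0 < ρB) (hYA : YF xA R YA) (hYB : YF xB R YB) :
    ∀ᶠ l in 𝓝[>] (0 : ℝ), ∀ s ∈ St (κ' / 8) R,
      ‖Pq C₀ qA jA MA YA qB jB MB YB l s - 1‖ ≤ κ' / 10 ∧
      ZA (G (l * Y1 s * (Pq C₀ qA jA MA YA qB jB MB YB l s) ^ (1 / 4 : ℂ))) -
          ZB (YB l (-s + 1)) =
        ms qB jB MB YB l (-s) *
          (ZcA (G (l * Y1 s * (Pq C₀ qA jA MA YA qB jB MB YB l s) ^ (1 / 4 : ℂ))) -
            ZcB (YB l (-s + 1))) := by
  have hκ0 : 0 < κ := hD.sA.endq.κ_pos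
  have hκ1 : κ < 1 := hD.sA.endq.κ_lt
  have hκκ := hD.sA.κ'_lt
  have hκ' := hD.sA.κ'_pos
  have hκ'1 : κ' < 1 := by linarith
  have hδ := hD.inv.δ_pos
  obtain ⟨r, hr, hE⟩ := E_near hD
  have ev : ∀ b : ℝ, 0 < b → ∀ᶠ l in 𝓝[>] (0 : ℝ), 0 < l ∧ l < b := fun b hb =>
    Ioo_mem_nhdsGT hb
  have hCB : -C₀ ≠ 0 := neg_ne_zero.2 hD.C_ne
  have hsub : St (κ' / 8) R ⊆ St (1 / 8) R := fun s hs => ⟨by linarith [hs.1], hs.2⟩
  filter_upwards [Pq_limit hD hR hYA hYB (show 0 < κ' / 10 by positivity),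
    exists_PtF hD.sA hGA hR hcR hκR hRκ hYA hρA, exists_PtF hD.sB hGB hR hcR hκR hRκ hYB hρB,
    ms_diff hD.sA hD.limA hD.pA hD.C_ne hD.EA_lim hR hYA,
    ms_diff hD.sB hD.limB hD.pB hCB hD.EB_lim hR hYB,
    ev (min (δ / (8 * R)) (r / (4 * R))) (lt_min (by positivity) (by positivity))] with
    l hP ⟨hl, hl0, hlR, hA⟩ ⟨_, _, _, hB⟩ ⟨mA1, mA2, mA3⟩ ⟨mB1, mB2, mB3⟩ hls
  have hlδ : l * (8 * R) < δ := by
    have := hls.2.trans_le (min_le_left _ _)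
    rwa [lt_div_iff₀ (by positivity)] at this
  have hlr : l * (4 * R) < r := by
    have := hls.2.trans_le (min_le_right _ _)
    rwa [lt_div_iff₀ (by positivity)] at this
  set P : ℂ → ℂ := fun s => Pq C₀ qA jA MA YA qB jB MB YB l s with hPdef
  set u : ℂ → ℂ := fun s => l * Y1 s * (P s) ^ (1 / 4 : ℂ) with hu
  have hP' : ∀ s ∈ St (κ' / 8) R, ‖P s - 1‖ ≤ κ' / 10 := fun s hs => hP s (hsub hs)
  -- the vertex
  have hmem : ∀ s ∈ St (κ' / 8) R, u s ∈ OvR κ' ∧ ‖u s‖ < δ := by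
    intro s hs
    have hY := Y1_norm hR (hsub hs)
    have hn : ‖(l : ℂ) * Y1 s‖ = l * ‖Y1 s‖ := by
      rw [norm_mul, Complex.norm_real, Real.norm_eq_abs, abs_of_pos hl]
    have hre : ((l : ℂ) * Y1 s).re = l * (Y1 s).re := Complex.re_ofReal_mul _ _
    have him : ((l : ℂ) * Y1 s).im = l * (Y1 s).im := Complex.im_ofReal_mul _ _
    have h8 : |s.re| < 1 / 8 := (hsub hs).1
    have a1 : l * ‖Y1 s‖ ≤ l * (4 * R) := mul_le_mul_of_nonneg_left hY.1 hl.le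
    have h1 := ovR_pert (k := κ') (v := l * Y1 s) (r := (P s) ^ (1 / 4 : ℂ)) hκ' hκ'1
      (by rw [hre]; exact mul_pos hl (Y1_pos h8))
      (by
        rw [him, hn, abs_mul, abs_of_pos hl]
        have := Y1_im hκ' hκ'1 hs.1
        nlinarith)
      ((quarter_near _).trans (hP' s hs)) (by rw [hn]; nlinarith)
    refine ⟨h1.1, h1.2.trans_lt ?_⟩
    rw [hn]
    nlinarith
  -- differentiability
  have hPd : DifferentiableOn ℂ P (St (κ' / 8) R) := by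
    have h1 : DifferentiableOn ℂ (fun s => ms qB jB MB YB l (-s)) (St (κ' / 8) R) :=
      mB1.comp (f := fun s : ℂ => -s) (by fun_prop) (fun s hs => St_neg (hsub hs))
    have h2 : DifferentiableOn ℂ (fun s => (C₀ * (l * Y1 s)) ^ 4) (St (κ' / 8) R) :=
      (((Y1_diff.mono hsub).const_mul (l : ℂ)).const_mul C₀).pow 4
    refine ((mA1.mono hsub).mul h1).div h2 fun s hs => ?_
    refine pow_ne_zero _ (mul_ne_zero hD.C_ne (mul_ne_zero ?_ ?_))
    · exact_mod_cast hl.ne'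
    · exact norm_pos_iff.1 (by linarith [(Y1_norm hR (hsub hs)).2])
  have hud : DifferentiableOn ℂ u (St (κ' / 8) R) := by
    intro s hs
    have h1 := hPd s hs
    have h2 : P s ∈ Complex.slitPlane := by
      left
      have h3 := (Complex.abs_re_le_norm (P s - 1)).trans (hP' s hs)
      rw [Complex.sub_re, Complex.one_re] at h3
      linarith [(abs_le.1 h3).1]
    have h3 := h1.cpow (differentiableWithinAt_const (1 / 4 : ℂ)) h2
    exact (((Y1_diff.mono hsub) s hs).const_mul (l : ℂ)).mul h3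
  have hGd : DifferentiableOn ℂ (fun s => G (u s)) (St (κ' / 8) R) :=
    hD.inv.diff.comp hud fun s hs => hmem s hs
  have hGm : ∀ s ∈ St (κ' / 8) R, G (u s) ∈ Sg κ := fun s hs =>
    OvR_sub_Sg (hD.inv.mem _ (hmem s hs).1 (hmem s hs).2)
  have hneg : MapsTo (fun s : ℂ => -s) (St (κ' / 8) R) (St (1 / 8) R) :=
    fun s hs => St_neg (hsub hs)
  have hYBd : DifferentiableOn ℂ (fun s => YB l (-s + 1)) (St (κ' / 8) R) :=
    mB2.comp (f := fun s : ℂ => -s) (by fun_prop) hneg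
  have hmBd : DifferentiableOn ℂ (fun s => ms qB jB MB YB l (-s)) (St (κ' / 8) R) :=
    mB1.comp (f := fun s : ℂ => -s) (by fun_prop) hneg
  set f : ℂ → ℂ := fun s => ZA (G (u s)) - ZB (YB l (-s + 1)) -
    ms qB jB MB YB l (-s) * (ZcA (G (u s)) - ZcB (YB l (-s + 1))) with hf
  have hfd : DifferentiableOn ℂ f (St (κ' / 8) R) := by
    have h1 : DifferentiableOn ℂ (fun s => ZA (G (u s))) (St (κ' / 8) R) :=
      hD.pA.Z_diff.comp hGd hGm
    have h2 : DifferentiableOn ℂ (fun s => ZcA (G (u s))) (St (κ' / 8) R) :=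
      hD.pA.Zc_diff.comp hGd hGm
    have h3 : DifferentiableOn ℂ (fun s => ZB (YB l (-s + 1))) (St (κ' / 8) R) :=
      hD.pB.Z_diff.comp hYBd fun s hs => mB3 _ (hneg hs)
    have h4 : DifferentiableOn ℂ (fun s => ZcB (YB l (-s + 1))) (St (κ' / 8) R) :=
      hD.pB.Zc_diff.comp hYBd fun s hs => mB3 _ (hneg hs)
    exact (h1.sub h3).sub (hmBd.mul (h2.sub h4))
  -- the top
  have htop : ∀ s ∈ St (κ' / 8) R, R < s.im → f s = 0 := by
    intro s hs hsR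
    have habs : R < |s.im| := hsR.trans_le (le_abs_self _)
    have hpA := hA s (hsub hs) habs
    have hpB := hB (-s) (St_neg (hsub hs)) (by rwa [Complex.neg_im, abs_neg])
    obtain ⟨t1, t2, t3, t4, t5⟩ := top_strip hPF hD hR hκR hl hl0 hlR (hsub hs) hsR hpA hpB
    set y := xA l (lam l * s) with hy
    have hE1 := hE y (OvR_sub_Sg t3) (t5.trans_lt hlr)
    have h8 : |s.re| < 1 / 8 := (hsub hs).1
    have hYt := (Y1_time hR hl h8).1 hsR
    set v : ℂ := (l : ℂ) * Y1 s with hv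
    have hYn := Y1_norm hR (hsub hs)
    have hv0 : v ≠ 0 := mul_ne_zero (by exact_mod_cast hl.ne')
      (norm_pos_iff.1 (by linarith [hYn.2]))
    -- fourth powers
    have h4 : (u s) ^ 4 = (EA y / C₀) ^ 4 := by
      have e1 : (u s) ^ 4 = v ^ 4 * P s := by
        simp only [hu]
        rw [mul_pow, quarter_pow]
      have e2 : P s = MA y ^ 2 / (C₀ * v) ^ 4 := by
        simp only [hPdef, Pq]
        rw [hpA.m, hpB.m, t1]
      have hC0 := hD.C_ne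
      rw [e1, e2, ← hD.pA.E_sq y (OvR_sub_Sg t3)]
      field_simp
    have hr1 : ‖u s - v‖ ≤ ‖v‖ / 10 := by
      have e1 : u s - v = v * ((P s) ^ (1 / 4 : ℂ) - 1) := by simp only [hu]; ring
      rw [e1, norm_mul]
      have := (quarter_near (P s)).trans (hP' s hs)
      nlinarith [norm_nonneg v]
    have hyt : ‖y - lam l * s‖ ≤ l / 8 := hpA.n0
    have htn : 8 * l ≤ ‖lam l * s‖ := by
      rw [norm_mul, norm_lam hl]
      have := (Complex.im_le_norm s)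
      nlinarith
    have hvn : ‖v‖ ≤ ‖lam l * s‖ + l / 32 := by
      have : ‖v‖ ≤ ‖v - lam l * s‖ + ‖lam l * s‖ := by
        simpa using norm_add_le (v - lam l * s) (lam l * s)
      linarith
    have hyn : ‖y‖ ≤ ‖lam l * s‖ + l / 8 := by
      have : ‖y‖ ≤ ‖y - lam l * s‖ + ‖lam l * s‖ := by
        simpa using norm_add_le (y - lam l * s) (lam l * s)
      linarith
    have hyn' : ‖lam l * s‖ - l / 8 ≤ ‖y‖ := by
      have : ‖lam l * s‖ ≤ ‖y‖ + ‖y - lam l * s‖ := by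
        have := norm_sub_le y (y - lam l * s)
        simpa using this
      linarith
    have hclose : ‖u s - EA y / C₀‖ < ‖EA y / C₀‖ := by
      have b1 : ‖u s - EA y / C₀‖ ≤ ‖u s - v‖ + ‖v - lam l * s‖ + ‖y - lam l * s‖ +
          ‖EA y / C₀ - y‖ := by
        have e : u s - EA y / C₀ = (u s - v) + (v - lam l * s) - (y - lam l * s) -
            (EA y / C₀ - y) := by ring
        rw [e]
        refine (norm_sub_le _ _).trans (add_le_add_left ?_ _)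
        refine (norm_sub_le _ _).trans (add_le_add_left ?_ _)
        exact norm_add_le _ _
      have b2 : ‖y‖ ≤ ‖EA y / C₀‖ + ‖EA y / C₀ - y‖ := by
        have := norm_sub_le (EA y / C₀) (EA y / C₀ - y)
        simpa using this
      linarith
    have heq : u s = EA y / C₀ := root4 h4 hclose
    have hGu : G (u s) = y := by
      rw [heq]
      refine hD.inv.uniq y t3 ?_ ?_ ?_
      · nlinarith
      · rw [← heq]; exact (hmem s hs).1
      · rw [← heq]; exact (hmem s hs).2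
    simp only [hf]
    rw [hGu, hpB.y1, hpB.m, ← t2]
    ring
  -- identity theorem
  have hfan : AnalyticOnNhd ℂ f (St (κ' / 8) R) := hfd.analyticOnNhd (St_open _ _)
  have hz0 : (((3 / 2 * R : ℝ) : ℂ) * Complex.I) ∈ St (κ' / 8) R := by
    refine ⟨?_, ?_⟩
    · simp; positivity
    · rw [Complex.im_ofReal_mul, Complex.I_im, mul_one, abs_of_pos (by positivity)]
      linarith
  have hEq : EqOn f 0 (St (κ' / 8) R) := by
    refine hfan.eqOn_zero_of_preconnected_of_eventuallyEq_zero (St_convex _ _).isPreconnected hz0 ?_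
    have o1 : IsOpen {s : ℂ | R < s.im} := isOpen_lt continuous_const Complex.continuous_im
    filter_upwards [(St_open (κ' / 8) R).mem_nhds hz0, o1.mem_nhds (show
      R < (((3 / 2 * R : ℝ) : ℂ) * Complex.I).im by
        rw [Complex.im_ofReal_mul, Complex.I_im, mul_one]; linarith)] with s h1 h2
    exact htop s h1 h2
  intro s hs
  refine ⟨hP' s hs, ?_⟩
  have h1 : f s = 0 := hEq hs
  simp only [hf] at h1
  exact sub_eq_zero.1 h1

end Crest.Agent.R102.MelI963
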