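import Mathlib
import Crest.Agent.R102.MelI4g_963

/-!
# Row 102, part (C), [T5]/MEL, **MEL-I**, (I4) (helper963)

The incidence relation on the trapezoids: `trapL : ExtI → PosF → TrapL`.
-/

set_option autoImplicit false

open Set Filter Topology Metric
open scoped ComplexConjugate

noncomputable section

namespace Crest.Agent.R102.MelI963

open Crest.Agent.R102.T5R Crest.Agent.R102.Mel Crest.Agent.R102.ExtF39

variable {κ κ' β C cc CC l₀ : ℝ} {qA : ℂ → ℂ} {jA : ℂ} {MA EA ZA ZcA : ℂ → ℂ}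
  {xA : ℝ → ℂ → ℂ} {qB : ℂ → ℂ} {jB : ℂ} {MB EB ZB ZcB : ℂ → ℂ} {xB : ℝ → ℂ → ℂ}
  {C₀ : ℂ} {δ : ℝ} {G : ℂ → ℂ}

/-- the trapezoid -/
def Tz (k ρ r : ℝ) : Set ℂ := {t | -ρ < t.re ∧ t.re < -r ∧ |t.im| < k * |t.re|}

lemma Tz_eq {k ρ r : ℝ} (hr : 0 ≤ r) : Tz k ρ r =
    ({t : ℂ | -ρ < t.re} ∩ {t : ℂ | t.re < -r}) ∩
      ({t : ℂ | t.im + k * t.re < 0} ∩ {t : ℂ | -t.im + k * t.re < 0}) := by
  ext t
  constructor
  · rintro ⟨h1, h2, h3⟩
    have h4 : |t.re| = -t.re := abs_of_neg (by linarith)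
    rw [h4, abs_lt] at h3
    exact ⟨⟨h1, h2⟩, by show t.im + k * t.re < 0; linarith [h3.2],
      by show -t.im + k * t.re < 0; linarith [h3.1]⟩
  · rintro ⟨⟨h1, h2⟩, h3, h3'⟩
    have h2' : t.re < -r := h2
    have h4 : |t.re| = -t.re := abs_of_neg (by linarith)
    refine ⟨h1, h2, ?_⟩
    have a1 : t.im + k * t.re < 0 := h3
    have a2 : -t.im + k * t.re < 0 := h3'
    rw [h4, abs_lt]
    constructor <;> linarith

lemma Tz_convex {k ρ r : ℝ} (hr : 0 ≤ r) : Convex ℝ (Tz k ρ r) := by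
  rw [Tz_eq hr]
  have h1 : Convex ℝ {t : ℂ | -ρ < t.re} := convex_halfSpace_re_gt _
  have h2 : Convex ℝ {t : ℂ | t.re < -r} := convex_halfSpace_re_lt _
  have h3 : Convex ℝ {t : ℂ | t.im + k * t.re < 0} := by
    refine convex_halfSpace_lt (f := fun t : ℂ => t.im + k * t.re) ⟨fun x y => ?_, fun c x => ?_⟩ 0
    · simp only [Complex.add_im, Complex.add_re]; ring
    · simp only [Complex.real_smul, Complex.im_ofReal_mul, Complex.re_ofReal_mul, smul_eq_mul]; ring
  have h4 : Convex ℝ {t : ℂ | -t.im + k * t.re < 0} := by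
    refine convex_halfSpace_lt (f := fun t : ℂ => -t.im + k * t.re) ⟨fun x y => ?_, fun c x => ?_⟩ 0
    · simp only [Complex.add_im, Complex.add_re]; ring
    · simp only [Complex.real_smul, Complex.im_ofReal_mul, Complex.re_ofReal_mul, smul_eq_mul]; ring
  exact (h1.inter h2).inter (h3.inter h4)

lemma Tz_open {k ρ r : ℝ} (hr : 0 ≤ r) : IsOpen (Tz k ρ r) := by
  rw [Tz_eq hr]
  have h1 : IsOpen {t : ℂ | -ρ < t.re} := isOpen_lt continuous_const Complex.continuous_re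
  have h2 : IsOpen {t : ℂ | t.re < -r} := isOpen_lt Complex.continuous_re continuous_const
  have h3 : IsOpen {t : ℂ | t.im + k * t.re < 0} :=
    isOpen_lt (Complex.continuous_im.add (continuous_const.mul Complex.continuous_re))
      continuous_const
  have h4 : IsOpen {t : ℂ | -t.im + k * t.re < 0} :=
    isOpen_lt (Complex.continuous_im.neg.add (continuous_const.mul Complex.continuous_re))
      continuous_const
  exact (h1.inter h2).inter (h3.inter h4)

lemma Dl_of {l : ℝ} (hκ' : 0 < κ') (hcc : 0 < cc) (hl : 0 < l) {t : ℂ}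
    (h1 : |t.im| ≤ κ' / 10 * ‖t‖) (h2 : 8 * l ≤ ‖t‖) (h3 : 8 * l ≤ cc * ‖t‖)
    (h4 : ‖t‖ ≤ 1 / 12) : t ∈ Dl κ' cc l ∧ t - Complex.I * l ∈ Dl κ' cc l := by
  have hn : 0 < ‖t‖ := by linarith
  have hI : ‖Complex.I * (l : ℂ)‖ = l := by
    rw [norm_mul, Complex.norm_I, one_mul, Complex.norm_real, Real.norm_eq_abs, abs_of_pos hl]
  have a1 : ‖t‖ - l ≤ ‖t - Complex.I * l‖ := by
    have := norm_sub_norm_le t (Complex.I * l)
    rwa [hI] at this
  have a2 : ‖t - Complex.I * l‖ ≤ ‖t‖ + l := by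
    have := norm_sub_le t (Complex.I * l)
    rwa [hI] at this
  have a3 : (t - Complex.I * l).im = t.im - l := by simp
  have a4 := le_abs_self t.im
  refine ⟨⟨norm_pos_iff.1 hn, by linarith, by nlinarith, by nlinarith⟩,
    ⟨norm_pos_iff.1 (by linarith), by linarith, ?_, ?_⟩⟩
  · rw [a3]
    have : κ' * (‖t‖ - l) ≤ κ' * ‖t - Complex.I * l‖ := mul_le_mul_of_nonneg_left a1 hκ'.le
    nlinarith
  · have : cc * (‖t‖ - l) ≤ cc * ‖t - Complex.I * l‖ := mul_le_mul_of_nonneg_left a1 hcc.le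
    have : cc * l ≤ cc * ‖t‖ / 8 := by nlinarith
    nlinarith

/-- holomorphy of the true slope -/
lemma mc_diffAt {q : ℂ → ℂ} {j : ℂ} {M : ℂ → ℂ} {x : ℝ → ℂ → ℂ} {c₀ : ℂ}
    (hS : Side κ κ' (-1) β C cc CC l₀ q j M x) {R ρ η : ℝ}
    (hG : FG κ' cc l₀ q j M x c₀ R ρ η) (hR : 8 ≤ R) (hRκ : 4 ≤ (κ - κ') * R) {l : ℝ} {t : ℂ}
    (hl : 0 < l) (hl0 : l < l₀) (h0 : t ∈ Dl κ' cc l) (h1 : t - Complex.I * l ∈ Dl κ' cc l)
    (h2 : R * l < ‖t‖) (h3 : ‖t‖ < ρ) :
    DifferentiableAt ℂ (mc q j M x l) t ∧ DifferentiableAt ℂ (fun t => x l (t - Complex.I * l)) t ∧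
      x l (t - Complex.I * l) ∈ Sg κ := by
  have hI : ‖t - Complex.I * l - t‖ ≤ l := by
    have : t - Complex.I * l - t = -(Complex.I * l) := by ring
    rw [this, norm_neg, norm_mul, Complex.norm_I, one_mul, Complex.norm_real, Real.norm_eq_abs,
      abs_of_pos hl]
  have far := far_chord hS hl hl0 h0 h1 hI hR hRκ h2.le
  have g := hG.good l t hl hl0 h0 h1 h2 h3
  have d1 : DifferentiableAt ℂ (x l) t :=
    (hS.cone.diff l hl hl0).differentiableAt ((isOpen_Dl κ' cc l).mem_nhds h0)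
  have d2 : DifferentiableAt ℂ (fun t => x l (t - Complex.I * l)) t := by
    have h4 : DifferentiableAt ℂ (x l) (t - Complex.I * l) :=
      (hS.cone.diff l hl hl0).differentiableAt ((isOpen_Dl κ' cc l).mem_nhds h1)
    have h5 : DifferentiableAt ℂ (fun t : ℂ => t - Complex.I * l) t := by fun_prop
    exact DifferentiableAt.comp (g := x l) (f := fun t : ℂ => t - Complex.I * l) t h4 h5
  refine ⟨?_, d2, ?_⟩
  · exact slope_diff hS.endq.diff hS.slope (k := j) d1 d2 (fun u hu => (far.1 u hu).1) g.2.1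
  · have := (far.1 1 ⟨zero_le_one, le_rfl⟩).1
    simpa using this

/-- comparison of the two fourth roots -/
lemma root_cmp {c v t a b P P' : ℂ} {l : ℝ} (hl : 0 < l) (hC : c ≠ 0) (hv0 : v ≠ 0) (ht0 : t ≠ 0)
    (hP' : P' = a * b / (c * v) ^ 4) (hP : P = a * b / (c * t) ^ 4) (h1 : ‖P' - 1‖ ≤ 1 / 10)
    (h2 : ‖P - 1‖ ≤ 1 / 10) (hvt : ‖v + t‖ ≤ l / 32) (htl : 8 * l ≤ ‖t‖) :
    v * P' ^ (1 / 4 : ℂ) = -t * P ^ (1 / 4 : ℂ) := by
  have h4 : (v * P' ^ (1 / 4 : ℂ)) ^ 4 = (-t * P ^ (1 / 4 : ℂ)) ^ 4 := by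
    rw [mul_pow, mul_pow, quarter_pow, quarter_pow, hP', hP]
    field_simp
  have hr1 : ‖v * P' ^ (1 / 4 : ℂ) - v‖ ≤ ‖v‖ / 10 := by
    have e1 : v * P' ^ (1 / 4 : ℂ) - v = v * (P' ^ (1 / 4 : ℂ) - 1) := by ring
    rw [e1, norm_mul]
    have := (quarter_near P').trans h1
    nlinarith [norm_nonneg v]
  have hr2 : ‖-t * P ^ (1 / 4 : ℂ) + t‖ ≤ ‖t‖ / 10 := by
    have e1 : -t * P ^ (1 / 4 : ℂ) + t = -(t * (P ^ (1 / 4 : ℂ) - 1)) := by ring
    rw [e1, norm_neg, norm_mul]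
    have := (quarter_near P).trans h2
    nlinarith [norm_nonneg t]
  have hvn : ‖v‖ ≤ ‖t‖ + l / 32 := by
    have : ‖v‖ ≤ ‖v + t‖ + ‖t‖ := by
      have := norm_sub_le (v + t) t
      simpa using this
    linarith
  refine root4 h4 ?_
  set A := v * P' ^ (1 / 4 : ℂ)
  set B := -t * P ^ (1 / 4 : ℂ)
  have b1 : ‖A - B‖ ≤ ‖A - v‖ + ‖v + t‖ + ‖B + t‖ := by
    have e : A - B = (A - v) + (v + t) - (B + t) := by ring
    rw [e]
    refine (norm_sub_le _ _).trans (add_le_add_left ?_ _)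
    exact norm_add_le _ _
  have b2 : ‖t‖ ≤ ‖B‖ + ‖B + t‖ := by
    have := norm_sub_le (B + t) B
    simp only [add_sub_cancel_left] at this
    linarith
  linarith

set_option maxHeartbeats 1000000 in
/-- **the incidence relation on the trapezoid** -/
theorem trap_rel (hPF : PosF)
    (hD : DatI κ κ' β C cc CC l₀ qA jA MA EA ZA ZcA xA qB jB MB EB ZB ZcB xB C₀ δ G)
    {R ρA ρB : ℝ} {YA YB : ℝ → ℂ → ℂ} (hR : 8 ≤ R) (hcR : 8 ≤ cc * R) (hκR : 8 ≤ κ' * R)
    (hRκ : 4 ≤ (κ - κ') * R)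
    (hGA : FG κ' cc l₀ qA jA MA xA C₀ R ρA (κ' / 40))
    (hGB : FG κ' cc l₀ qB jB MB xB (-C₀) R ρB (κ' / 40))
    (hρA : 0 < ρA) (hρB : 0 < ρB) (hYA : YF xA R YA) (hYB : YF xB R YB) :
    ∃ ρ l₂ : ℝ, Trap κ' ρ R l₂ qA jA MA ZA ZcA xA qB jB MB ZB ZcB xB C₀ δ G := by
  have hκ0 : 0 < κ := hD.sA.endq.κ_pos
  have hκ1 : κ < 1 := hD.sA.endq.κ_lt
  have hκκ := hD.sA.κ'_lt
  have hκ' := hD.sA.κ'_pos
  have hκ'1 : κ' < 1 := by linarith
  have hδ := hD.inv.δ_pos
  have hcc := hD.sA.cone.c_pos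
  have hC0 := hD.C_ne
  set ρ : ℝ := min (1 / 16) (min (ρA / 2) (min (ρB / 2) (δ / 4))) with hρdef
  have r1 : ρ ≤ 1 / 16 := min_le_left _ _
  have r2 : ρ ≤ ρA / 2 := (min_le_right _ _).trans (min_le_left _ _)
  have r3 : ρ ≤ ρB / 2 := (min_le_right _ _).trans ((min_le_right _ _).trans (min_le_left _ _))
  have r4 : ρ ≤ δ / 4 := (min_le_right _ _).trans ((min_le_right _ _).trans (min_le_right _ _))
  have hρ : 0 < ρ := lt_min (by norm_num) (lt_min (by positivity) (lt_min (by positivity)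
    (by positivity)))
  have ev : ∀ b : ℝ, 0 < b → ∀ᶠ l in 𝓝[>] (0 : ℝ), 0 < l ∧ l < b := fun b hb =>
    Ioo_mem_nhdsGT hb
  have hsub : St (κ' / 8) R ⊆ St (1 / 8) R := fun s hs => ⟨by linarith [hs.1], hs.2⟩
  have main : ∀ᶠ l in 𝓝[>] (0 : ℝ), ∀ t ∈ Tz (κ' / 10) ρ (R * l),
      ‖mc qA jA MA xA l t * mc qB jB MB xB l (-t) / (C₀ * t) ^ 4 - 1‖ ≤ κ' / 10 ∧
      ZA (yv C₀ G t (mc qA jA MA xA l t) (mc qB jB MB xB l (-t))) -
          ZB (xB l (-t - Complex.I * l)) =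
        mc qB jB MB xB l (-t) *
        (ZcA (yv C₀ G t (mc qA jA MA xA l t) (mc qB jB MB xB l (-t))) -
          ZcB (xB l (-t - Complex.I * l))) := by
    filter_upwards [strip_rel hPF hD hR hcR hκR hRκ hGA hGB hρA hρB hYA hYB,
      exists_PtF hD.sA hGA hR hcR hκR hRκ hYA hρA, exists_PtF hD.sB hGB hR hcR hκR hRκ hYB hρB,
      ev (ρ / (2 * R)) (by positivity)] with
      l hstrip ⟨hl, hl0, hlR, hA⟩ ⟨_, _, _, hB⟩ hls
    have hlρ : l * (2 * R) < ρ := by
      have := hls.2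
      rwa [lt_div_iff₀ (by positivity)] at this
    have hRl : 0 ≤ R * l := by positivity
    -- geometry
    have geo : ∀ t ∈ Tz (κ' / 10) ρ (R * l), 0 < (-t).re ∧ R * l < ‖t‖ ∧ ‖t‖ ≤ 11 / 10 * ρ ∧
        |t.im| ≤ κ' / 10 * ‖t‖ := by
      rintro t ⟨h1, h2, h3⟩
      have h4 : |t.re| = -t.re := abs_of_neg (by linarith)
      have h5 : |t.re| ≤ ‖t‖ := Complex.abs_re_le_norm t
      have h6 := Complex.norm_le_abs_re_add_abs_im t
      refine ⟨by rw [Complex.neg_re]; linarith, by linarith, ?_, ?_⟩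
      · have : κ' / 10 * |t.re| ≤ 1 / 10 * |t.re| :=
          mul_le_mul_of_nonneg_right (by linarith) (abs_nonneg _)
        linarith
      · have : κ' / 10 * |t.re| ≤ κ' / 10 * ‖t‖ := mul_le_mul_of_nonneg_left h5 (by positivity)
        linarith
    have h8l : 8 * l ≤ R * l := mul_le_mul_of_nonneg_right hR hl.le
    have h8c : ∀ {t : ℂ}, R * l < ‖t‖ → 8 * l ≤ cc * ‖t‖ := by
      intro t ht
      have h1 : cc * (R * l) ≤ cc * ‖t‖ := mul_le_mul_of_nonneg_left ht.le hcc.le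
      have h2 : 8 * l ≤ cc * R * l := mul_le_mul_of_nonneg_right hcR hl.le
      nlinarith
    have hDl : ∀ t ∈ Tz (κ' / 10) ρ (R * l), (t ∈ Dl κ' cc l ∧ t - Complex.I * l ∈ Dl κ' cc l) ∧
        (-t ∈ Dl κ' cc l ∧ -t - Complex.I * l ∈ Dl κ' cc l) := by
      intro t ht
      obtain ⟨g1, g2, g3, g4⟩ := geo t ht
      refine ⟨Dl_of hκ' hcc hl g4 (by linarith) (h8c g2) (by linarith),
        Dl_of hκ' hcc hl ?_ ?_ ?_ ?_⟩
      · rw [Complex.neg_im, abs_neg, norm_neg]; exact g4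
      · rw [norm_neg]; linarith
      · rw [norm_neg]; exact h8c g2
      · rw [norm_neg]; linarith
    -- the near bound
    have hnear : ∀ t ∈ Tz (κ' / 10) ρ (R * l),
        ‖mc qA jA MA xA l t * mc qB jB MB xB l (-t) / (C₀ * t) ^ 4 - 1‖ ≤ κ' / 10 := by
      intro t ht
      obtain ⟨g1, g2, g3, g4⟩ := geo t ht
      obtain ⟨⟨d1, d2⟩, d3, d4⟩ := hDl t ht
      have b1 := (hGA.good l t hl hl0 d1 d2 g2 (by linarith)).2.2
      have b2 := (hGB.good l (-t) hl hl0 d3 d4 (by rwa [norm_neg]) (by rw [norm_neg]; linarith)).2.2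
      set a := mc qA jA MA xA l t / (C₀ * t) ^ 2 - 1 with ha
      set b := mc qB jB MB xB l (-t) / (-C₀ * -t) ^ 2 - 1 with hb
      have e : mc qA jA MA xA l t * mc qB jB MB xB l (-t) / (C₀ * t) ^ 4 - 1 = a + b + a * b := by
        have e1 : mc qA jA MA xA l t * mc qB jB MB xB l (-t) / (C₀ * t) ^ 4 =
            (a + 1) * (b + 1) := by
          rw [ha, hb, sub_add_cancel, sub_add_cancel, ← mul_div_mul_comm]
          congr 1
          ring
        rw [e1]; ring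
      rw [e]
      refine (norm_add_le _ _).trans ?_
      rw [norm_mul]
      have := norm_add_le a b
      have : ‖a‖ * ‖b‖ ≤ κ' / 40 * (κ' / 40) := mul_le_mul b1 b2 (norm_nonneg _) (by positivity)
      nlinarith
    set P : ℂ → ℂ := fun t => mc qA jA MA xA l t * mc qB jB MB xB l (-t) / (C₀ * t) ^ 4 with hPdef
    set u : ℂ → ℂ := fun t => -t * (P t) ^ (1 / 4 : ℂ) with hu
    have hmem : ∀ t ∈ Tz (κ' / 10) ρ (R * l), u t ∈ OvR κ' ∧ ‖u t‖ < δ := by
      intro t ht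
      obtain ⟨g1, g2, g3, g4⟩ := geo t ht
      have h1 := ovR_pert (k := κ') (v := -t) (r := (P t) ^ (1 / 4 : ℂ)) hκ' hκ'1 g1
        (by rw [Complex.neg_im, abs_neg, norm_neg]; nlinarith [norm_nonneg t])
        ((quarter_near _).trans (hnear t ht)) (by rw [norm_neg]; linarith)
      refine ⟨h1.1, h1.2.trans_lt ?_⟩
      rw [norm_neg]
      linarith
    have hmd : ∀ t ∈ Tz (κ' / 10) ρ (R * l), DifferentiableAt ℂ (mc qA jA MA xA l) t ∧
        DifferentiableAt ℂ (fun t => mc qB jB MB xB l (-t)) t ∧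
        DifferentiableAt ℂ (fun t => xB l (-t - Complex.I * l)) t ∧
        xB l (-t - Complex.I * l) ∈ Sg κ := by
      intro t ht
      obtain ⟨g1, g2, g3, g4⟩ := geo t ht
      obtain ⟨⟨d1, d2⟩, d3, d4⟩ := hDl t ht
      have b1 := mc_diffAt hD.sA hGA hR hRκ hl hl0 d1 d2 g2 (by linarith)
      have b2 := mc_diffAt hD.sB hGB hR hRκ hl hl0 d3 d4 (by rwa [norm_neg])
        (by rw [norm_neg]; linarith)
      have hn : DifferentiableAt ℂ (fun t : ℂ => -t) t := by fun_prop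
      refine ⟨b1.1, ?_, ?_, b2.2.2⟩
      · exact DifferentiableAt.comp (g := mc qB jB MB xB l) (f := fun t : ℂ => -t) t b2.1 hn
      · exact DifferentiableAt.comp (g := fun t => xB l (t - Complex.I * l))
          (f := fun t : ℂ => -t) t b2.2.1 hn
    have ht0 : ∀ t ∈ Tz (κ' / 10) ρ (R * l), t ≠ 0 := by
      intro t ht h
      have := (geo t ht).1
      rw [h] at this
      simp at this
    have hPd : ∀ t ∈ Tz (κ' / 10) ρ (R * l), DifferentiableAt ℂ P t := by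
      intro t ht
      have h1 : DifferentiableAt ℂ (fun t : ℂ => (C₀ * t) ^ 4) t := by fun_prop
      exact dAt_div ((hmd t ht).1.mul (hmd t ht).2.1) h1
        (pow_ne_zero _ (mul_ne_zero hC0 (ht0 t ht)))
    have hud : DifferentiableOn ℂ u (Tz (κ' / 10) ρ (R * l)) := by
      intro t ht
      have h2 : P t ∈ Complex.slitPlane := by
        left
        have h3 := (Complex.abs_re_le_norm (P t - 1)).trans (hnear t ht)
        rw [Complex.sub_re, Complex.one_re] at h3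
        linarith [(abs_le.1 h3).1]
      have h3 := (hPd t ht).cpow (differentiableAt_const (1 / 4 : ℂ)) h2
      have h4 : DifferentiableAt ℂ (fun t : ℂ => -t) t := by fun_prop
      exact (h4.mul h3).differentiableWithinAt
    have hGd : DifferentiableOn ℂ (fun t => G (u t)) (Tz (κ' / 10) ρ (R * l)) :=
      hD.inv.diff.comp hud fun t ht => hmem t ht
    have hGm : ∀ t ∈ Tz (κ' / 10) ρ (R * l), G (u t) ∈ Sg κ := fun t ht =>
      OvR_sub_Sg (hD.inv.mem _ (hmem t ht).1 (hmem t ht).2)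
    set f : ℂ → ℂ := fun t => ZA (G (u t)) - ZB (xB l (-t - Complex.I * l)) -
      mc qB jB MB xB l (-t) * (ZcA (G (u t)) - ZcB (xB l (-t - Complex.I * l))) with hf
    have hfd : DifferentiableOn ℂ f (Tz (κ' / 10) ρ (R * l)) := by
      have h1 : DifferentiableOn ℂ (fun t => ZA (G (u t))) (Tz (κ' / 10) ρ (R * l)) :=
        hD.pA.Z_diff.comp hGd hGm
      have h2 : DifferentiableOn ℂ (fun t => ZcA (G (u t))) (Tz (κ' / 10) ρ (R * l)) :=
        hD.pA.Zc_diff.comp hGd hGm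
      have h0 : DifferentiableOn ℂ (fun t => xB l (-t - Complex.I * l))
          (Tz (κ' / 10) ρ (R * l)) := fun t ht => (hmd t ht).2.2.1.differentiableWithinAt
      have h3 : DifferentiableOn ℂ (fun t => ZB (xB l (-t - Complex.I * l)))
          (Tz (κ' / 10) ρ (R * l)) := hD.pB.Z_diff.comp h0 fun t ht => (hmd t ht).2.2.2
      have h4 : DifferentiableOn ℂ (fun t => ZcB (xB l (-t - Complex.I * l)))
          (Tz (κ' / 10) ρ (R * l)) := hD.pB.Zc_diff.comp h0 fun t ht => (hmd t ht).2.2.2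
      have h5 : DifferentiableOn ℂ (fun t => mc qB jB MB xB l (-t)) (Tz (κ' / 10) ρ (R * l)) :=
        fun t ht => (hmd t ht).2.1.differentiableWithinAt
      exact (h1.sub h3).sub (h5.mul (h2.sub h4))
    -- the overlap with the strip
    have hov : ∀ t ∈ Tz (κ' / 10) ρ (R * l), |t.im| < κ' / 8 * l → -(2 * R * l) < t.re →
        f t = 0 := by
      intro t ht h1 h2
      obtain ⟨g1, g2, g3, g4⟩ := geo t ht
      obtain ⟨h3, h4, h5⟩ := ht
      set s : ℂ := t / lam l with hs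
      have hts : lam l * s = t := by rw [hs]; field_simp [lam_ne hl]
      have hre : t.re = l * s.im := by rw [← hts, lam_re]
      have him : t.im = -(l * s.re) := by rw [← hts, lam_im]
      have hsSt : s ∈ St (κ' / 8) R := by
        constructor
        · have : |t.im| = l * |s.re| := by rw [him, abs_neg, abs_mul, abs_of_pos hl]
          rw [this] at h1
          have : l * |s.re| < l * (κ' / 8) := by linarith
          exact lt_of_mul_lt_mul_left this hl.le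
        · rw [abs_lt]
          constructor
          · have : l * (-(2 * R)) < l * s.im := by linarith
            exact lt_of_mul_lt_mul_left this hl.le
          · have : l * s.im < l * 0 := by linarith
            have := lt_of_mul_lt_mul_left this hl.le
            linarith
      have hsR : s.im < -R := by
        have : l * s.im < l * (-R) := by linarith
        exact lt_of_mul_lt_mul_left this hl.le
      have habs : R < |s.im| := by rw [abs_of_neg (by linarith)]; linarith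
      have hpA := hA s (hsub hsSt) habs
      have hpB := hB (-s) (St_neg (hsub hsSt)) (by rwa [Complex.neg_im, abs_neg])
      obtain ⟨k1, k2⟩ := hstrip s hsSt
      have e1 : lam l * (-s) = -t := by rw [mul_neg, hts]
      have e2 : lam l * (-s + 1) = -t - Complex.I * l := by rw [← lam_sub, e1]
      have m1 : ms qA jA MA YA l s = mc qA jA MA xA l t := by rw [hpA.m, hts]
      have m2 : ms qB jB MB YB l (-s) = mc qB jB MB xB l (-t) := by rw [hpB.m, e1]
      have m3 : YB l (-s + 1) = xB l (-t - Complex.I * l) := by rw [hpB.y1, e2]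
      have h8 : |s.re| < 1 / 8 := (hsub hsSt).1
      set v : ℂ := (l : ℂ) * Y1 s with hv
      have hYt := (Y1_time hR hl h8).2 hsR
      rw [hts] at hYt
      have hYn := Y1_norm hR (hsub hsSt)
      have hv0 : v ≠ 0 := mul_ne_zero (by exact_mod_cast hl.ne')
        (norm_pos_iff.1 (by linarith [hYn.2]))
      have ht0' : t ≠ 0 := norm_pos_iff.1 (by linarith)
      set P' := Pq C₀ qA jA MA YA qB jB MB YB l s with hP'
      have heq : v * P' ^ (1 / 4 : ℂ) = u t :=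
        root_cmp hl hC0 hv0 ht0' (by rw [hP', Pq, m1, m2]) rfl (k1.trans (by linarith))
          ((hnear t ⟨h3, by linarith, h5⟩).trans (by linarith)) hYt (by linarith)
      rw [m2, m3, heq] at k2
      simp only [hf]
      rw [k2]
      ring
    -- identity theorem
    have hfan : AnalyticOnNhd ℂ f (Tz (κ' / 10) ρ (R * l)) := hfd.analyticOnNhd (Tz_open hRl)
    have hz0 : ((-(3 / 2 * R * l) : ℝ) : ℂ) ∈ Tz (κ' / 10) ρ (R * l) ∧
        |((-(3 / 2 * R * l) : ℝ) : ℂ).im| < κ' / 8 * l ∧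
        -(2 * R * l) < ((-(3 / 2 * R * l) : ℝ) : ℂ).re := by
      have hRl' : 0 < R * l := by positivity
      refine ⟨⟨?_, ?_, ?_⟩, ?_, ?_⟩
      · rw [Complex.ofReal_re]; linarith
      · rw [Complex.ofReal_re]; linarith
      · rw [Complex.ofReal_im, Complex.ofReal_re, abs_zero, abs_neg]
        have : 0 < |3 / 2 * R * l| := abs_pos.2 (by positivity)
        positivity
      · rw [Complex.ofReal_im, abs_zero]; positivity
      · rw [Complex.ofReal_re]; linarith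
    have hEq : EqOn f 0 (Tz (κ' / 10) ρ (R * l)) := by
      refine hfan.eqOn_zero_of_preconnected_of_eventuallyEq_zero
        (Tz_convex hRl).isPreconnected hz0.1 ?_
      have o1 : IsOpen {t : ℂ | |t.im| < κ' / 8 * l} :=
        isOpen_lt (continuous_abs.comp Complex.continuous_im) continuous_const
      have o2 : IsOpen {t : ℂ | -(2 * R * l) < t.re} :=
        isOpen_lt continuous_const Complex.continuous_re
      filter_upwards [(Tz_open hRl).mem_nhds hz0.1, o1.mem_nhds hz0.2.1,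
        o2.mem_nhds hz0.2.2] with t h1 h2 h3
      exact hov t h1 h2 h3
    intro t ht
    refine ⟨hnear t ht, ?_⟩
    have h1 : f t = 0 := hEq ht
    simp only [hf] at h1
    exact sub_eq_zero.1 h1
  obtain ⟨l₂, hl₂, hsub2⟩ := (mem_nhdsGT_iff_exists_Ioo_subset).1 main
  refine ⟨ρ, l₂, hρ, by linarith, hl₂, ?_, ?_⟩
  · intro l h1 h2 t h3 h4 h5
    exact (hsub2 ⟨h1, h2⟩ t ⟨h3, by linarith, h5⟩).1
  · intro l h1 h2 t h3 h4 h5
    exact (hsub2 ⟨h1, h2⟩ t ⟨h3, by linarith, h5⟩).2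

/-- **(I4)** -/
theorem trapL (hE : ExtI) (hPF : PosF) : TrapL := by
  intro κ κ' β C cc CC l₀ qA jA MA EA ZA ZcA xA qB jB MB EB ZB ZcB xB C₀ δ G hD
  have hκκ := hD.sA.κ'_lt
  have hκ' := hD.sA.κ'_pos
  have hcc := hD.sA.cone.c_pos
  have hCB : -C₀ ≠ 0 := neg_ne_zero.2 hD.C_ne
  obtain ⟨Ra, a1, a2, a3, Ya⟩ := exists_YF hE hD.sA hD.limA
  obtain ⟨Rb, b1, b2, b3, Yb⟩ := exists_YF hE hD.sB hD.limB
  obtain ⟨Rc, ρA, c1, c2, hGA⟩ := exists_FG hD.sA hD.limA hD.pA hD.C_ne hD.EA_lim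
    (show 0 < κ' / 40 by positivity)
  obtain ⟨Rd, ρB, d1, d2, hGB⟩ := exists_FG hD.sB hD.limB hD.pB hCB hD.EB_lim
    (show 0 < κ' / 40 by positivity)
  set R : ℝ := max Ra (max Rb (max Rc (max Rd (4 / (κ - κ'))))) with hR
  have r1 : Ra ≤ R := le_max_left _ _
  have r2 : Rb ≤ R := (le_max_left _ _).trans (le_max_right _ _)
  have r3 : Rc ≤ R := (le_max_left _ _).trans ((le_max_right _ _).trans (le_max_right _ _))
  have r4 : Rd ≤ R := (le_max_left _ _).trans ((le_max_right _ _).trans ((le_max_right _ _).trans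
    (le_max_right _ _)))
  have r5 : 4 / (κ - κ') ≤ R := (le_max_right _ _).trans ((le_max_right _ _).trans
    ((le_max_right _ _).trans (le_max_right _ _)))
  obtain ⟨YA, hYA⟩ := Ya R r1
  obtain ⟨YB, hYB⟩ := Yb R r2
  have hRκ : 4 ≤ (κ - κ') * R := by
    rw [div_le_iff₀ (by linarith)] at r5
    linarith
  obtain ⟨ρ, l₂, h⟩ := trap_rel hPF hD (a1.trans r1)
    (a2.trans (mul_le_mul_of_nonneg_left r1 hcc.le))
    (a3.trans (mul_le_mul_of_nonneg_left r1 hκ'.le)) hRκ (hGA.mono r3 le_rfl)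
    (hGB.mono r4 le_rfl) c2 d2 hYA hYB
  exact ⟨ρ, R, l₂, h⟩

end Crest.Agent.R102.MelI963
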