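import Mathlib

/-!
# Row 102, part (C), [T5] MEL, (ML-N) (helper963)

Isotropic coordinates: a line is `a = m b + k`, the mirror `C` is `a = G b`, reflection
`m m' = G'(b)^2`.  If the lines `l_B (t, w)` reflected in `C` are the lines `l_A (t + w, w)`, both
families even in `w`, then `l_B (t, 0)` is tangent to `C` (`tangent_of_even`); hence the curve
enveloped by `l_B (·, 0)` is `C` (`same_curve`).
-/

set_option autoImplicit false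

open Set Filter Topology Metric

noncomputable section

namespace Crest.Agent.R102.MelN963

/-- if `G b₁ - G b₂ = m (b₁ - b₂)` with `b₁, b₂` near `b₀` and `m` near `m₀ ≠ G' b₀` then `b₁ = b₂` -/
lemma inj_of_strict {G : ℂ → ℂ} {b₀ m₀ : ℂ} (hG : AnalyticAt ℂ G b₀) (hm : m₀ ≠ deriv G b₀) :
    ∀ᶠ x in 𝓝 ((b₀, b₀, m₀) : ℂ × ℂ × ℂ), G x.1 - G x.2.1 = x.2.2 * (x.1 - x.2.1) →
      x.1 = x.2.1 := by
  have hs := hG.hasStrictDerivAt
  set c : ℝ := ‖deriv G b₀ - m₀‖ with hc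
  have hc0 : 0 < c := norm_pos_iff.2 (sub_ne_zero.2 (Ne.symm hm))
  have h1 : ∀ᶠ x in 𝓝 ((b₀, b₀) : ℂ × ℂ),
      ‖G x.1 - G x.2 - (x.1 - x.2) * deriv G b₀‖ ≤ c / 3 * ‖x.1 - x.2‖ := by
    have := (hasStrictDerivAt_iff_hasStrictFDerivAt.1 hs).isLittleO.def (c := c / 3) (by positivity)
    filter_upwards [this] with x hx
    simpa using hx
  have h2 : Tendsto (fun x : ℂ × ℂ × ℂ => (x.1, x.2.1)) (𝓝 (b₀, b₀, m₀)) (𝓝 (b₀, b₀)) := by
    have : Continuous (fun x : ℂ × ℂ × ℂ => (x.1, x.2.1)) := by fun_prop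
    exact this.tendsto (b₀, b₀, m₀)
  have h3 : ∀ᶠ x in 𝓝 ((b₀, b₀, m₀) : ℂ × ℂ × ℂ), ‖x.2.2 - m₀‖ < c / 3 := by
    have : Continuous (fun x : ℂ × ℂ × ℂ => ‖x.2.2 - m₀‖) := by fun_prop
    have h := this.tendsto (b₀, b₀, m₀)
    simp only [sub_self, norm_zero] at h
    exact h.eventually (gt_mem_nhds (by positivity))
  filter_upwards [h2.eventually h1, h3] with x a1 a2 heq
  by_contra hne
  have hp : 0 < ‖x.1 - x.2.1‖ := norm_pos_iff.2 (sub_ne_zero.2 hne)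
  rw [heq] at a1
  have e1 : x.2.2 * (x.1 - x.2.1) - (x.1 - x.2.1) * deriv G b₀ =
      (x.1 - x.2.1) * ((x.2.2 - m₀) - (deriv G b₀ - m₀)) := by ring
  rw [e1, norm_mul] at a1
  have e2 : c - c / 3 ≤ ‖(x.2.2 - m₀) - (deriv G b₀ - m₀)‖ := by
    have h4 := norm_sub_norm_le (deriv G b₀ - m₀) (x.2.2 - m₀)
    have h5 : ‖(deriv G b₀ - m₀) - (x.2.2 - m₀)‖ = ‖(x.2.2 - m₀) - (deriv G b₀ - m₀)‖ :=
      norm_sub_rev _ _
    rw [h5] at h4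
    linarith
  have e3 : ‖x.1 - x.2.1‖ * (c - c / 3) ≤ c / 3 * ‖x.1 - x.2.1‖ :=
    (mul_le_mul_of_nonneg_left e2 hp.le).trans a1
  nlinarith

/-- **(ML-N)** -/
theorem tangent_of_even {G : ℂ → ℂ} {mA mB kB b : ℂ × ℂ → ℂ} {t₀ : ℂ}
    (hmA : AnalyticAt ℂ mA (t₀, 0)) (hmB : ContinuousAt mB (t₀, 0))
    (hb : ContinuousAt b (t₀, 0)) (hG : AnalyticAt ℂ G (b (t₀, 0)))
    (eA : ∀ᶠ p in 𝓝 ((t₀, 0) : ℂ × ℂ), mA (p.1, -p.2) = mA p)
    (eB : ∀ᶠ p in 𝓝 ((t₀, 0) : ℂ × ℂ), mB (p.1, -p.2) = mB p ∧ kB (p.1, -p.2) = kB p)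
    (on : ∀ᶠ p in 𝓝 ((t₀, 0) : ℂ × ℂ), mB p * b p + kB p = G (b p))
    (law : ∀ᶠ p in 𝓝 ((t₀, 0) : ℂ × ℂ), mA (p.1 + p.2, p.2) * mB p = deriv G (b p) ^ 2)
    (h0 : mB (t₀, 0) ≠ 0) (hne : deriv (fun t => mA (t, 0)) t₀ ≠ 0) :
    mB (t₀, 0) = deriv G (b (t₀, 0)) := by
  by_contra hcon
  have hinj := inj_of_strict hG hcon
  have hnegc : Continuous (fun p : ℂ × ℂ => (p.1, -p.2)) := by fun_prop
  have hneg : Tendsto (fun p : ℂ × ℂ => (p.1, -p.2)) (𝓝 (t₀, 0)) (𝓝 (t₀, 0)) := by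
    simpa using hnegc.tendsto (t₀, 0)
  -- `b` is even
  have hbe : ∀ᶠ p in 𝓝 ((t₀, 0) : ℂ × ℂ), b p = b (p.1, -p.2) := by
    have h1 : Tendsto (fun p : ℂ × ℂ => (b p, b (p.1, -p.2), mB p)) (𝓝 (t₀, 0))
        (𝓝 (b (t₀, 0), b (t₀, 0), mB (t₀, 0))) :=
      hb.tendsto.prodMk_nhds ((hb.tendsto.comp hneg).prodMk_nhds hmB.tendsto)
    filter_upwards [h1.eventually hinj, on, hneg.eventually on, eB] with p a1 a2 a3 a4
    apply a1
    rw [a4.1, a4.2] at a3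
    rw [← a2, ← a3]
    ring
  -- `mA (t + w, w)` is even in `w`
  have hme : ∀ᶠ p in 𝓝 ((t₀, 0) : ℂ × ℂ), mA (p.1 + p.2, p.2) = mA (p.1 - p.2, p.2) := by
    have hsh : Tendsto (fun p : ℂ × ℂ => (p.1 - p.2, p.2)) (𝓝 (t₀, 0)) (𝓝 (t₀, 0)) := by
      have : Continuous (fun p : ℂ × ℂ => (p.1 - p.2, p.2)) := by fun_prop
      simpa using this.tendsto (t₀, 0)
    have hBne : ∀ᶠ p in 𝓝 ((t₀, 0) : ℂ × ℂ), mB p ≠ 0 := hmB.eventually_ne h0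
    filter_upwards [hbe, law, hneg.eventually law, eB, hsh.eventually eA, hBne] with
      p a1 a2 a3 a4 a5 a6
    rw [← a1, ← a2, a4.1] at a3
    have a7 := mul_right_cancel₀ a6 a3
    rw [← sub_eq_add_neg, a5] at a7
    exact a7.symm
  -- derivative at `w = 0`
  apply hne
  have hd := hmA.differentiableAt.hasFDerivAt
  have hmap1 : HasDerivAt (fun w : ℂ => ((t₀ + w, w) : ℂ × ℂ)) (1, 1) 0 := by
    have h1 : HasDerivAt (fun w : ℂ => t₀ + w) 1 0 := (hasDerivAt_id (0 : ℂ)).const_add t₀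
    exact h1.prodMk (hasDerivAt_id (0 : ℂ))
  have hmap2 : HasDerivAt (fun w : ℂ => ((t₀ - w, w) : ℂ × ℂ)) (-1, 1) 0 := by
    have h1 : HasDerivAt (fun w : ℂ => t₀ - w) (-1) 0 := (hasDerivAt_id (0 : ℂ)).const_sub t₀
    exact h1.prodMk (hasDerivAt_id (0 : ℂ))
  have hmap3 : HasDerivAt (fun t : ℂ => ((t, 0) : ℂ × ℂ)) (1, 0) t₀ :=
    (hasDerivAt_id t₀).prodMk (hasDerivAt_const t₀ (0 : ℂ))
  have hd1 : HasFDerivAt mA (fderiv ℂ mA (t₀, 0)) ((fun w : ℂ => ((t₀ + w, w) : ℂ × ℂ)) 0) := by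
    simpa using hd
  have hd2 : HasFDerivAt mA (fderiv ℂ mA (t₀, 0)) ((fun w : ℂ => ((t₀ - w, w) : ℂ × ℂ)) 0) := by
    simpa using hd
  have e1 : HasDerivAt (fun w : ℂ => mA (t₀ + w, w)) (fderiv ℂ mA (t₀, 0) (1, 1)) 0 :=
    HasFDerivAt.comp_hasDerivAt (f := fun w : ℂ => ((t₀ + w, w) : ℂ × ℂ)) (0 : ℂ) hd1 hmap1
  have e2 : HasDerivAt (fun w : ℂ => mA (t₀ - w, w)) (fderiv ℂ mA (t₀, 0) (-1, 1)) 0 :=
    HasFDerivAt.comp_hasDerivAt (f := fun w : ℂ => ((t₀ - w, w) : ℂ × ℂ)) (0 : ℂ) hd2 hmap2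
  have e3 : HasDerivAt (fun t : ℂ => mA (t, 0)) (fderiv ℂ mA (t₀, 0) (1, 0)) t₀ :=
    hd.comp_hasDerivAt t₀ hmap3
  have hev : (fun w : ℂ => mA (t₀ + w, w)) =ᶠ[𝓝 0] fun w => mA (t₀ - w, w) := by
    have hc : Tendsto (fun w : ℂ => ((t₀, w) : ℂ × ℂ)) (𝓝 0) (𝓝 (t₀, 0)) := by
      have : Continuous (fun w : ℂ => ((t₀, w) : ℂ × ℂ)) := by fun_prop
      exact this.tendsto 0
    exact hc.eventually hme
  have e4 := e1.unique (e2.congr_of_eventuallyEq hev)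
  rw [e3.deriv]
  have e5 : ((1, 1) : ℂ × ℂ) - (-1, 1) = (2 : ℂ) • (1, 0) := by ext <;> norm_num
  have e6 : fderiv ℂ mA (t₀, 0) ((2 : ℂ) • ((1, 0) : ℂ × ℂ)) = 0 := by
    rw [← e5, map_sub, e4, sub_self]
  rw [map_smul, smul_eq_mul] at e6
  exact (mul_eq_zero.1 e6).resolve_left two_ne_zero

/-- the envelope: `C` is the curve enveloped by `l_B (·, 0)` -/
theorem same_curve {G gB : ℂ → ℂ} {mA mB kB b : ℂ × ℂ → ℂ} {β : ℂ → ℂ} {t₀ : ℂ}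
    (hmA : AnalyticAt ℂ mA (t₀, 0)) (hmB : AnalyticAt ℂ mB (t₀, 0)) (hkB : AnalyticAt ℂ kB (t₀, 0))
    (hb : AnalyticAt ℂ b (t₀, 0)) (hG : AnalyticAt ℂ G (b (t₀, 0)))
    (hβ : AnalyticAt ℂ β t₀) (hgB : AnalyticAt ℂ gB (β t₀))
    (eA : ∀ᶠ p in 𝓝 ((t₀, 0) : ℂ × ℂ), mA (p.1, -p.2) = mA p)
    (eB : ∀ᶠ p in 𝓝 ((t₀, 0) : ℂ × ℂ), mB (p.1, -p.2) = mB p ∧ kB (p.1, -p.2) = kB p)
    (on : ∀ᶠ p in 𝓝 ((t₀, 0) : ℂ × ℂ), mB p * b p + kB p = G (b p))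
    (law : ∀ᶠ p in 𝓝 ((t₀, 0) : ℂ × ℂ), mA (p.1 + p.2, p.2) * mB p = deriv G (b p) ^ 2)
    (h0 : mB (t₀, 0) ≠ 0) (hne : deriv (fun t => mA (t, 0)) t₀ ≠ 0)
    (hneB : deriv (fun t => mB (t, 0)) t₀ ≠ 0)
    (tan : ∀ᶠ t in 𝓝 t₀, mB (t, 0) = deriv gB (β t) ∧ mB (t, 0) * β t + kB (t, 0) = gB (β t)) :
    ∀ᶠ t in 𝓝 t₀, b (t, 0) = β t ∧ gB (β t) = G (β t) ∧ mB (t, 0) = deriv G (β t) := by
  have hc : Tendsto (fun t : ℂ => ((t, 0) : ℂ × ℂ)) (𝓝 t₀) (𝓝 (t₀, 0)) := by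
    have : Continuous (fun t : ℂ => ((t, 0) : ℂ × ℂ)) := by fun_prop
    exact this.tendsto t₀
  -- tangency for all `t` near `t₀`
  have hmA' : AnalyticAt ℂ (fun t : ℂ => mA (t, 0)) t₀ := by
    have h1 : AnalyticAt ℂ (fun t : ℂ => ((t, 0) : ℂ × ℂ)) t₀ := by fun_prop
    exact AnalyticAt.fun_comp (f := fun t : ℂ => ((t, 0) : ℂ × ℂ)) hmA h1
  have hmB' : AnalyticAt ℂ (fun t : ℂ => mB (t, 0)) t₀ := by
    have h1 : AnalyticAt ℂ (fun t : ℂ => ((t, 0) : ℂ × ℂ)) t₀ := by fun_prop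
    exact AnalyticAt.fun_comp (f := fun t : ℂ => ((t, 0) : ℂ × ℂ)) hmB h1
  have hkB' : AnalyticAt ℂ (fun t : ℂ => kB (t, 0)) t₀ := by
    have h1 : AnalyticAt ℂ (fun t : ℂ => ((t, 0) : ℂ × ℂ)) t₀ := by fun_prop
    exact AnalyticAt.fun_comp (f := fun t : ℂ => ((t, 0) : ℂ × ℂ)) hkB h1
  have hb' : AnalyticAt ℂ (fun t : ℂ => b (t, 0)) t₀ := by
    have h1 : AnalyticAt ℂ (fun t : ℂ => ((t, 0) : ℂ × ℂ)) t₀ := by fun_prop
    exact AnalyticAt.fun_comp (f := fun t : ℂ => ((t, 0) : ℂ × ℂ)) hb h1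
  have hT : ∀ᶠ t in 𝓝 t₀, mB (t, 0) = deriv G (b (t, 0)) := by
    filter_upwards [hc.eventually hmA.eventually_analyticAt,
      hc.eventually hmB.eventually_analyticAt, hc.eventually hb.eventually_analyticAt,
      hc.eventually (hb.continuousAt.eventually hG.eventually_analyticAt),
      hc.eventually eA.eventually_nhds, hc.eventually eB.eventually_nhds,
      hc.eventually on.eventually_nhds, hc.eventually law.eventually_nhds,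
      hmB'.continuousAt.eventually_ne h0, hmA'.deriv.continuousAt.eventually_ne hne]
      with t a1 a2 a3 a4 a5 a6 a7 a8 a9 a10
    exact tangent_of_even a1 a2.continuousAt a3.continuousAt a4 a5 a6 a7 a8 a9 a10
  -- derivative of `kB` in two ways
  have hneB' : ∀ᶠ t in 𝓝 t₀, deriv (fun t => mB (t, 0)) t ≠ 0 :=
    hmB'.deriv.continuousAt.eventually_ne hneB
  have hGan : ∀ᶠ t in 𝓝 t₀, AnalyticAt ℂ G (b (t, 0)) :=
    hb'.continuousAt.eventually hG.eventually_analyticAt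
  have hgan : ∀ᶠ t in 𝓝 t₀, AnalyticAt ℂ gB (β t) :=
    hβ.continuousAt.eventually hgB.eventually_analyticAt
  filter_upwards [hT, hT.eventually_nhds, (hc.eventually on).eventually_nhds, tan,
    tan.eventually_nhds, hneB', hGan, hgan, hmB'.eventually_analyticAt,
    hkB'.eventually_analyticAt, hb'.eventually_analyticAt, hβ.eventually_analyticAt] with
    t a1 a2 a3 a4 a5 a6 a7 a8 a9 a10 a11 a12
  have d1 := a9.differentiableAt.hasDerivAt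
  have d2 := a10.differentiableAt.hasDerivAt
  have d3 := a11.differentiableAt.hasDerivAt
  have d4 := a12.differentiableAt.hasDerivAt
  have d5 : HasDerivAt (fun t => G (b (t, 0))) (deriv G (b (t, 0)) * deriv (fun t => b (t, 0)) t) t :=
    a7.differentiableAt.hasDerivAt.comp t d3
  have d6 : HasDerivAt (fun t => gB (β t)) (deriv gB (β t) * deriv β t) t :=
    a8.differentiableAt.hasDerivAt.comp t d4
  have f1 := ((d1.mul d3).add d2).unique (d5.congr_of_eventuallyEq (by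
    filter_upwards [a3] with x hx using hx))
  have f2 := ((d1.mul d4).add d2).unique (d6.congr_of_eventuallyEq (by
    filter_upwards [a5] with x hx using hx.2))
  have f3 : deriv (fun t => mB (t, 0)) t * (b (t, 0) - β t) = 0 := by
    rw [← a1] at f1
    rw [← a4.1] at f2
    linear_combination f1 - f2
  have f4 : b (t, 0) = β t := by
    have := (mul_eq_zero.1 f3).resolve_left a6
    exact sub_eq_zero.1 this
  have f5 : mB (t, 0) * b (t, 0) + kB (t, 0) = G (b (t, 0)) := a3.self_of_nhds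
  refine ⟨f4, ?_, ?_⟩
  · rw [← a4.2, ← f4, f5]
  · rw [a1, f4]

end Crest.Agent.R102.MelN963
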