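import Mathlib
import Crest.Agent.R102.MelIDefs_963
import Crest.Agent.R102.MelI2_519
import Crest.Agent.R102.MelN_963

/-!
# Row 102, T5-MEL-I, (I5) `JointL` (helper519)

At a point `t₀` of the narrow sector about the negative real axis: the incidence relation of `Trap`
holds jointly near `(t₀, 0)` (identity theorem in `w`), and `MelN963.same_curve` gives the relations
at `w = 0`.
-/

set_option autoImplicit false

open Complex Metric Set Filter Topology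

namespace Crest.Agent.R102.MelI519

open Crest.Agent.R102.T5R Crest.Agent.R102.Mel Crest.Agent.R102.MelI963

lemma Pj_diag (q : ℂ → ℂ) (j x : ℂ) : Pj q j x x = 1 := by
  unfold Pj
  simp

lemma Rj_diag (q : ℂ → ℂ) (j x : ℂ) : Rj q j x x = 1 := by
  unfold Rj
  rw [Pj_diag, Pj_diag, div_one]

lemma pj_an {κ : ℝ} {q : ℂ → ℂ} (hq : DifferentiableOn ℂ q (Sg κ)) (j : ℂ) {x0 : ℂ}
    (hx0 : x0 ∈ Sg κ) : AnalyticAt ℂ (fun p : ℂ × ℂ => Pj q j p.1 p.2) (x0, x0) := by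
  refine pAn κ q j x0 x0 hq (L4346.isOpen_Sg κ) fun u _ => ?_
  rw [sub_self, mul_zero, add_zero]
  exact hx0

lemma rj_an {κ : ℝ} {q : ℂ → ℂ} (hq : DifferentiableOn ℂ q (Sg κ)) (j : ℂ) {x0 : ℂ}
    (hx0 : x0 ∈ Sg κ) : AnalyticAt ℂ (fun p : ℂ × ℂ => Rj q j p.1 p.2) (x0, x0) := by
  have h1 := pj_an hq j hx0
  have h2 := pj_an hq (-j) hx0
  exact h1.div h2 (by simp [Pj_diag])

/-- near the diagonal -/
lemma near_diag {κ : ℝ} {q : ℂ → ℂ} (hq : DifferentiableOn ℂ q (Sg κ)) (j : ℂ) {x0 : ℂ}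
    (hx0 : x0 ∈ Sg κ) : ∀ᶠ p in 𝓝 ((x0, x0) : ℂ × ℂ),
      (∀ u ∈ Icc (0 : ℝ) 1, p.1 + (u : ℂ) * (p.2 - p.1) ∈ Sg κ) ∧ Pj q j p.1 p.2 ≠ 0 ∧
        Pj q (-j) p.1 p.2 ≠ 0 := by
  have h1 : ∀ᶠ p in 𝓝 ((x0, x0) : ℂ × ℂ), Pj q j p.1 p.2 ≠ 0 :=
    (pj_an hq j hx0).continuousAt.eventually_ne (by simp [Pj_diag])
  have h2 : ∀ᶠ p in 𝓝 ((x0, x0) : ℂ × ℂ), Pj q (-j) p.1 p.2 ≠ 0 :=
    (pj_an hq (-j) hx0).continuousAt.eventually_ne (by simp [Pj_diag])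
  obtain ⟨r, hr, hb⟩ := Metric.isOpen_iff.1 (L4346.isOpen_Sg κ) x0 hx0
  have h3 : ball x0 r ×ˢ ball x0 r ∈ 𝓝 ((x0, x0) : ℂ × ℂ) :=
    prod_mem_nhds (ball_mem_nhds x0 hr) (ball_mem_nhds x0 hr)
  filter_upwards [h1, h2, h3] with p a1 a2 a3
  refine ⟨fun u hu => hb ?_, a1, a2⟩
  have h4 := (convex_ball x0 r).add_smul_sub_mem a3.1 a3.2 hu
  simpa using h4

/-- slope of the chord with midpoint time `p.1` -/
noncomputable def mu (q : ℂ → ℂ) (j : ℂ) (M : ℂ → ℂ) (X : ℂ × ℂ → ℂ) (p : ℂ × ℂ) : ℂ :=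
  M (X (p.1 - p.2 / 2, p.2)) * Rj q j (X (p.1 - p.2 / 2, p.2)) (X (p.1 + p.2 / 2, p.2))

/-- offset of the chord -/
noncomputable def ku (q : ℂ → ℂ) (j : ℂ) (M Z Zc : ℂ → ℂ) (X : ℂ × ℂ → ℂ) (p : ℂ × ℂ) : ℂ :=
  Z (X (p.1 + p.2 / 2, p.2)) - mu q j M X p * Zc (X (p.1 + p.2 / 2, p.2))

/-- both ends of a chord are on the line with slope `M x * Rj x y` -/
lemma chord_eq {κ : ℝ} {q : ℂ → ℂ} {j σ : ℂ} {M E Z Zc : ℂ → ℂ}
    (hq : DifferentiableOn ℂ q (Sg κ)) (hM : Slope κ q j M) (hP : Pos κ q j σ M E Z Zc) {x y : ℂ}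
    (hseg : ∀ u ∈ Icc (0 : ℝ) 1, x + (u : ℂ) * (y - x) ∈ Sg κ) (hne : Pj q (-j) x y ≠ 0) :
    Z y - Z x = M x * Rj q j x y * (Zc y - Zc x) := by
  obtain ⟨h4, h5⟩ := posF κ q j σ M E Z Zc x y hq hM hP hseg
  have hx : x ∈ Sg κ := by
    have := hseg 0 ⟨le_rfl, zero_le_one⟩
    simpa using this
  have hE : E x ≠ 0 := (E_slope hM hP).ne x hx
  rw [h4, h5]
  unfold Rj
  rw [← hP.E_sq x hx]
  field_simp

section Fam

variable {κ : ℝ} {q : ℂ → ℂ} {j : ℂ} {M : ℂ → ℂ} {X : ℂ × ℂ → ℂ} {t₀ : ℂ}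

lemma shift_an (hX : AnalyticAt ℂ X (t₀, 0)) (c : ℂ) :
    AnalyticAt ℂ (fun p : ℂ × ℂ => X (p.1 + c * p.2, p.2)) (t₀, 0) := by
  have h1 : AnalyticAt ℂ (fun p : ℂ × ℂ => ((p.1 + c * p.2, p.2) : ℂ × ℂ)) (t₀, 0) :=
    (analyticAt_fst.add (analyticAt_const.mul analyticAt_snd)).prod analyticAt_snd
  exact AnalyticAt.comp_of_eq (f := fun p : ℂ × ℂ => ((p.1 + c * p.2, p.2) : ℂ × ℂ)) hX h1
    (by simp)

lemma minus_an (hX : AnalyticAt ℂ X (t₀, 0)) :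
    AnalyticAt ℂ (fun p : ℂ × ℂ => X (p.1 - p.2 / 2, p.2)) (t₀, 0) := by
  have := shift_an hX (-1 / 2)
  refine this.congr (Eventually.of_forall fun p => ?_)
  simp only
  congr 2
  ring

lemma plus_an (hX : AnalyticAt ℂ X (t₀, 0)) :
    AnalyticAt ℂ (fun p : ℂ × ℂ => X (p.1 + p.2 / 2, p.2)) (t₀, 0) := by
  have := shift_an hX (1 / 2)
  refine this.congr (Eventually.of_forall fun p => ?_)
  simp only
  congr 2
  ring

lemma mu_an (hq : DifferentiableOn ℂ q (Sg κ)) (hM : DifferentiableOn ℂ M (Sg κ))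
    (hX : AnalyticAt ℂ X (t₀, 0)) (hX0 : X (t₀, 0) = t₀) (ht : t₀ ∈ Sg κ) :
    AnalyticAt ℂ (mu q j M X) (t₀, 0) := by
  have h1 := minus_an hX
  have h2 := plus_an hX
  have hMa : AnalyticAt ℂ M t₀ := hM.analyticAt ((L4346.isOpen_Sg κ).mem_nhds ht)
  have h3 : AnalyticAt ℂ (fun p : ℂ × ℂ => M (X (p.1 - p.2 / 2, p.2))) (t₀, 0) :=
    AnalyticAt.comp_of_eq (g := M) (f := fun p : ℂ × ℂ => X (p.1 - p.2 / 2, p.2)) hMa h1
      (by simp [hX0])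
  have h4 : AnalyticAt ℂ (fun p : ℂ × ℂ =>
      Rj q j (X (p.1 - p.2 / 2, p.2)) (X (p.1 + p.2 / 2, p.2))) (t₀, 0) :=
    AnalyticAt.comp_of_eq (g := fun p : ℂ × ℂ => Rj q j p.1 p.2)
      (f := fun p : ℂ × ℂ => (X (p.1 - p.2 / 2, p.2), X (p.1 + p.2 / 2, p.2)))
      (rj_an hq j ht) (h1.prod h2) (by simp [hX0])
  exact h3.mul h4

lemma mu_zero {t : ℂ} (h : X (t, 0) = t) : mu q j M X (t, 0) = M t := by
  unfold mu
  simp [h, Rj_diag]

/-- eventually near `(t₀, 0)` the chord is near the diagonal -/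
lemma chord_near (hX : AnalyticAt ℂ X (t₀, 0)) (hX0 : X (t₀, 0) = t₀) {P : ℂ × ℂ → Prop}
    (hP : ∀ᶠ x in 𝓝 ((t₀, t₀) : ℂ × ℂ), P x) :
    ∀ᶠ p in 𝓝 ((t₀, 0) : ℂ × ℂ), P (X (p.1 - p.2 / 2, p.2), X (p.1 + p.2 / 2, p.2)) := by
  have h1 := ((minus_an hX).continuousAt.prodMk (plus_an hX).continuousAt)
  have h2 : Tendsto (fun p : ℂ × ℂ => (X (p.1 - p.2 / 2, p.2), X (p.1 + p.2 / 2, p.2)))
      (𝓝 (t₀, 0)) (𝓝 (t₀, t₀)) := by
    have := h1.tendsto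
    simpa [hX0] using this
  exact h2.eventually hP

lemma neg_tendsto (t₀ : ℂ) :
    Tendsto (fun p : ℂ × ℂ => (p.1, -p.2)) (𝓝 (t₀, 0)) (𝓝 (t₀, 0)) := by
  have : Continuous (fun p : ℂ × ℂ => (p.1, -p.2)) := by fun_prop
  simpa using this.tendsto (t₀, 0)

lemma even_shift (he : ∀ᶠ p in 𝓝 ((t₀, 0) : ℂ × ℂ), X (p.1, -p.2) = X p) (c : ℂ) :
    ∀ᶠ p in 𝓝 ((t₀, 0) : ℂ × ℂ), X (p.1 + c * p.2, -p.2) = X (p.1 + c * p.2, p.2) := by
  have : Continuous (fun p : ℂ × ℂ => ((p.1 + c * p.2, p.2) : ℂ × ℂ)) := by fun_prop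
  have h1 : Tendsto (fun p : ℂ × ℂ => ((p.1 + c * p.2, p.2) : ℂ × ℂ)) (𝓝 (t₀, 0))
      (𝓝 (t₀, 0)) := by
    simpa using this.tendsto (t₀, 0)
  exact h1.eventually he

lemma even_pm (he : ∀ᶠ p in 𝓝 ((t₀, 0) : ℂ × ℂ), X (p.1, -p.2) = X p) :
    ∀ᶠ p in 𝓝 ((t₀, 0) : ℂ × ℂ), X (p.1 - (-p.2) / 2, -p.2) = X (p.1 + p.2 / 2, p.2) ∧
      X (p.1 + (-p.2) / 2, -p.2) = X (p.1 - p.2 / 2, p.2) := by
  filter_upwards [even_shift he (1 / 2), even_shift he (-1 / 2)] with p h1 h2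
  constructor
  · rw [show p.1 - (-p.2) / 2 = p.1 + 1 / 2 * p.2 by ring, h1]; congr 2; ring
  · rw [show p.1 + (-p.2) / 2 = p.1 + -1 / 2 * p.2 by ring, h2]; congr 2; ring

/-- the slope is even -/
lemma mu_even (hq : DifferentiableOn ℂ q (Sg κ)) (hM : Slope κ q j M)
    (hX : AnalyticAt ℂ X (t₀, 0)) (hX0 : X (t₀, 0) = t₀) (ht : t₀ ∈ Sg κ)
    (he : ∀ᶠ p in 𝓝 ((t₀, 0) : ℂ × ℂ), X (p.1, -p.2) = X p) :
    ∀ᶠ p in 𝓝 ((t₀, 0) : ℂ × ℂ), mu q j M X (p.1, -p.2) = mu q j M X p := by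
  filter_upwards [even_pm he, chord_near hX hX0 (near_diag hq j ht)] with p h1 h2
  have h3 := rSym κ q j M _ _ hq hM h2.1 h2.2.1 h2.2.2
  unfold mu
  simp only at h3 ⊢
  rw [h1.1, h1.2]
  exact h3.symm

/-- the offset is even -/
lemma ku_even {σ : ℂ} {E Z Zc : ℂ → ℂ} (hq : DifferentiableOn ℂ q (Sg κ)) (hM : Slope κ q j M)
    (hP : Pos κ q j σ M E Z Zc) (hX : AnalyticAt ℂ X (t₀, 0)) (hX0 : X (t₀, 0) = t₀)
    (ht : t₀ ∈ Sg κ) (he : ∀ᶠ p in 𝓝 ((t₀, 0) : ℂ × ℂ), X (p.1, -p.2) = X p) :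
    ∀ᶠ p in 𝓝 ((t₀, 0) : ℂ × ℂ), ku q j M Z Zc X (p.1, -p.2) = ku q j M Z Zc X p := by
  filter_upwards [even_pm he, chord_near hX hX0 (near_diag hq j ht),
    mu_even hq hM hX hX0 ht he] with p h1 h2 h3
  have h6 := chord_eq hq hM hP h2.1 h2.2.2
  unfold ku
  rw [h3, h1.2]
  unfold mu
  linear_combination -h6

end Fam

/-- the slope of a curve as a function of `Zc` -/
lemma curve_fun {Z Zc : ℂ → ℂ} {y₀ : ℂ} (hZ : AnalyticAt ℂ Z y₀) (hZc : AnalyticAt ℂ Zc y₀)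
    (h0 : deriv Zc y₀ ≠ 0) : ∃ G : ℂ → ℂ, AnalyticAt ℂ G (Zc y₀) ∧
      ∀ᶠ y in 𝓝 y₀, G (Zc y) = Z y ∧ deriv G (Zc y) * deriv Zc y = deriv Z y := by
  set r := hZc.hasStrictDerivAt.localInverse _ _ _ h0 with hr
  have hra : AnalyticAt ℂ r (Zc y₀) := hZc.analyticAt_localInverse h0
  have hl : ∀ᶠ y in 𝓝 y₀, r (Zc y) = y := hZc.hasStrictDerivAt.eventually_left_inverse h0
  have hr0 : r (Zc y₀) = y₀ := hl.self_of_nhds
  have hG : AnalyticAt ℂ (fun b => Z (r b)) (Zc y₀) :=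
    AnalyticAt.comp_of_eq (g := Z) (f := r) hZ hra hr0
  refine ⟨fun b => Z (r b), hG, ?_⟩
  have h1 : ∀ᶠ y in 𝓝 y₀, AnalyticAt ℂ (fun b => Z (r b)) (Zc y) :=
    hZc.continuousAt.eventually hG.eventually_analyticAt
  filter_upwards [hl, hl.eventually_nhds, h1, hZc.eventually_analyticAt,
    hZ.eventually_analyticAt] with y a1 a2 a3 a4 a5
  refine ⟨by simp only [a1], ?_⟩
  have e1 : HasDerivAt (fun y => Z (r (Zc y))) (deriv (fun b => Z (r b)) (Zc y) * deriv Zc y) y :=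
    a3.differentiableAt.hasDerivAt.comp y a4.differentiableAt.hasDerivAt
  have e2 : (fun y => Z (r (Zc y))) =ᶠ[𝓝 y] Z := by
    filter_upwards [a2] with y' hy'
    rw [hy']
  have e3 := e2.deriv_eq
  rw [e1.deriv] at e3
  exact e3

/-- identity theorem in `w` -/
lemma slice_zero {F : ℂ × ℂ → ℂ} {t₀ : ℂ} (hF : AnalyticAt ℂ F (t₀, 0))
    (h : ∃ e > 0, ∀ t ∈ ball t₀ e, ∀ l : ℝ, 0 < l → l < e → F (t, -I * l) = 0) :
    ∀ᶠ p in 𝓝 ((t₀, 0) : ℂ × ℂ), F p = 0 := by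
  obtain ⟨e, he, h⟩ := h
  obtain ⟨r, hr, hb⟩ := Metric.eventually_nhds_iff_ball.1 hF.eventually_analyticAt
  have hm : (0 : ℝ) < min e r := lt_min he hr
  have hball : ball t₀ (min e r) ×ˢ ball (0 : ℂ) (min e r) ∈ 𝓝 ((t₀, 0) : ℂ × ℂ) :=
    prod_mem_nhds (ball_mem_nhds _ hm) (ball_mem_nhds _ hm)
  filter_upwards [hball] with p hp
  obtain ⟨t, w⟩ := p
  have ht : t ∈ ball t₀ (min e r) := hp.1
  have hw : w ∈ ball (0 : ℂ) (min e r) := hp.2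
  have han : AnalyticOnNhd ℂ (fun w => F (t, w)) (ball (0 : ℂ) (min e r)) := by
    intro w' hw'
    have h1 : ((t, w') : ℂ × ℂ) ∈ ball ((t₀, 0) : ℂ × ℂ) r := by
      rw [← ball_prod_same]
      exact ⟨ball_subset_ball (min_le_right _ _) ht, ball_subset_ball (min_le_right _ _) hw'⟩
    exact AnalyticAt.comp_of_eq (g := F) (f := fun w : ℂ => ((t, w) : ℂ × ℂ)) (hb _ h1)
      (analyticAt_const.prod analyticAt_id) rfl
  have hfreq : ∃ᶠ w in 𝓝[≠] (0 : ℂ), F (t, w) = 0 := by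
    have hl : Tendsto (fun l : ℝ => -I * (l : ℂ)) (𝓝[>] 0) (𝓝[≠] 0) := by
      refine tendsto_nhdsWithin_iff.2 ⟨?_, ?_⟩
      · have : Tendsto (fun l : ℝ => -I * (l : ℂ)) (𝓝 0) (𝓝 (-I * ((0 : ℝ) : ℂ))) := by
          apply Continuous.tendsto
          fun_prop
        rw [ofReal_zero, mul_zero] at this
        exact this.mono_left nhdsWithin_le_nhds
      · filter_upwards [self_mem_nhdsWithin] with l hl
        have : (l : ℂ) ≠ 0 := by exact_mod_cast (ne_of_gt hl : l ≠ 0)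
        exact mul_ne_zero (neg_ne_zero.2 I_ne_zero) this
    refine hl.frequently (Eventually.frequently ?_)
    filter_upwards [Ioo_mem_nhdsGT he] with l hl
    exact h t (ball_subset_ball (min_le_left _ _) ht) l hl.1 hl.2
  exact han.eqOn_zero_of_preconnected_of_frequently_eq_zero
    (convex_ball _ _).isPreconnected (mem_ball_self hm) hfreq hw

lemma root4 {P : ℂ} (hP : ‖P - 1‖ ≤ 1 / 10) :
    (P ^ (1 / 4 : ℂ)) ^ 4 = P ∧ ‖P ^ (1 / 4 : ℂ) - 1‖ ≤ ‖P - 1‖ ∧ P ∈ slitPlane := by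
  have hre : 9 / 10 ≤ P.re := by
    have h1 := (Complex.abs_re_le_norm (P - 1)).trans hP
    rw [Complex.sub_re, Complex.one_re, abs_le] at h1
    linarith [h1.1]
  have hP0 : P ≠ 0 := by
    rintro rfl
    simp at hre
    linarith
  have hsl : P ∈ slitPlane := Or.inl (by linarith)
  have h4 : (P ^ (1 / 4 : ℂ)) ^ 4 = P := by
    have := Complex.cpow_nat_inv_pow P (n := 4) (by norm_num)
    rwa [show (((4 : ℕ) : ℂ))⁻¹ = 1 / 4 by norm_num] at this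
  have harg : |P.arg| < Real.pi / 2 := Complex.abs_arg_lt_pi_div_two_iff.2 (Or.inl (by linarith))
  have hk : ∀ k : ℝ, 0 < k → k ≤ 1 → 0 < (exp (Complex.log P * k)).re := by
    intro k hk0 hk1
    rw [Complex.exp_re]
    refine mul_pos (Real.exp_pos _) (Real.cos_pos_of_mem_Ioo ?_)
    have e1 : (Complex.log P * k).im = P.arg * k := by
      rw [Complex.mul_im]
      simp [Complex.log_im]
    rw [e1]
    have e2 : |P.arg * k| < Real.pi / 2 := by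
      rw [abs_mul, abs_of_pos hk0]
      calc |P.arg| * k ≤ |P.arg| * 1 := by gcongr
        _ < Real.pi / 2 := by rw [mul_one]; exact harg
    exact abs_lt.1 e2
  set r := P ^ (1 / 4 : ℂ) with hr
  have hr1 : 0 < r.re := by
    have := hk (1 / 4) (by norm_num) (by norm_num)
    rw [hr, Complex.cpow_def_of_ne_zero hP0]
    push_cast at this
    exact this
  have hr2 : 0 < (r ^ 2).re := by
    have := hk (1 / 2) (by norm_num) (by norm_num)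
    rw [hr, Complex.cpow_def_of_ne_zero hP0, ← Complex.exp_nat_mul]
    have e : ((2 : ℕ) : ℂ) * (Complex.log P * (1 / 4)) = Complex.log P * ((1 / 2 : ℝ) : ℂ) := by
      push_cast; ring
    rw [e]
    exact this
  refine ⟨h4, ?_, hsl⟩
  have h5 : (r - 1) * ((r + 1) * (r ^ 2 + 1)) = P - 1 := by rw [← h4]; ring
  have h6 : 1 ≤ ‖r + 1‖ := by
    have := Complex.re_le_norm (r + 1)
    rw [Complex.add_re, Complex.one_re] at this
    linarith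
  have h7 : 1 ≤ ‖r ^ 2 + 1‖ := by
    have := Complex.re_le_norm (r ^ 2 + 1)
    rw [Complex.add_re, Complex.one_re] at this
    linarith
  rw [← h5, norm_mul, norm_mul]
  have h8 : 1 ≤ ‖r + 1‖ * ‖r ^ 2 + 1‖ := one_le_mul_of_one_le_of_one_le h6 h7
  exact le_mul_of_one_le_right (norm_nonneg _) h8

lemma isOpen_OvR (κ : ℝ) : IsOpen (OvR κ) := by
  unfold OvR
  have h1 : IsOpen {τ : ℂ | τ ≠ 0} := isOpen_ne
  have h2 : IsOpen {τ : ℂ | ‖τ‖ < 1} := isOpen_lt continuous_norm continuous_const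
  have h3 : IsOpen {τ : ℂ | |τ.im| < κ * ‖τ‖} :=
    isOpen_lt (continuous_abs.comp Complex.continuous_im) (continuous_const.mul continuous_norm)
  have h4 : IsOpen {τ : ℂ | 0 < τ.re} := isOpen_lt continuous_const Complex.continuous_re
  exact h1.inter (h2.inter (h3.inter h4))

lemma OvR_Sg {κ κ' : ℝ} (h : κ' ≤ κ) {τ : ℂ} (hτ : τ ∈ OvR κ') : τ ∈ Sg κ := by
  refine ⟨hτ.1, hτ.2.1, ?_⟩
  calc τ.im ≤ |τ.im| := le_abs_self _
    _ < κ' * ‖τ‖ := hτ.2.2.1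
    _ ≤ κ * ‖τ‖ := by gcongr

lemma OvL_Sg {κ κ' : ℝ} (h : κ' ≤ κ) {τ : ℂ} (hτ : τ ∈ OvL κ') : τ ∈ Sg κ := by
  refine ⟨hτ.1, hτ.2.1, ?_⟩
  calc τ.im ≤ |τ.im| := le_abs_self _
    _ < κ' * ‖τ‖ := hτ.2.2.1
    _ ≤ κ * ‖τ‖ := by gcongr

/-- the narrow sector is in `OvR κ'`, also after a small rotation -/
lemma narrow {κ' ρ : ℝ} (hκ' : 0 < κ') (hκ1 : κ' < 1) {τ r : ℂ} (h0 : 0 < τ.re) (h1 : τ.re < ρ)
    (h2 : |τ.im| < κ' / 10 * τ.re) (hr : ‖r - 1‖ ≤ κ' / 10) (hρ : ρ < 1 / 8) :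
    τ * r ∈ OvR κ' ∧ ‖τ * r‖ < 5 / 4 * ρ ∧ ‖τ‖ < 11 / 10 * ρ := by
  have hn : ‖τ‖ ≤ 11 / 10 * τ.re := by
    have e1 := Complex.norm_le_abs_re_add_abs_im τ
    rw [abs_of_pos h0] at e1
    nlinarith
  have hre : τ.re ≤ ‖τ‖ := Complex.re_le_norm τ
  have hn0 : 0 < ‖τ‖ := lt_of_lt_of_le h0 hre
  have hd : ‖τ * r - τ‖ ≤ κ' / 10 * ‖τ‖ := by
    have : τ * r - τ = τ * (r - 1) := by ring
    rw [this, norm_mul, mul_comm]
    gcongr
  have e1 : ‖τ‖ - κ' / 10 * ‖τ‖ ≤ ‖τ * r‖ := by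
    have := norm_sub_norm_le τ (τ - τ * r)
    rw [sub_sub_cancel, norm_sub_rev τ (τ * r)] at this
    linarith
  have e2 : ‖τ * r‖ ≤ ‖τ‖ + κ' / 10 * ‖τ‖ := by
    have := norm_add_le (τ * r - τ) τ
    rw [sub_add_cancel] at this
    linarith
  have e3 : |(τ * r).im - τ.im| ≤ κ' / 10 * ‖τ‖ := by
    have := (Complex.abs_im_le_norm (τ * r - τ)).trans hd
    rwa [Complex.sub_im] at this
  have e4 : |(τ * r).re - τ.re| ≤ κ' / 10 * ‖τ‖ := by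
    have := (Complex.abs_re_le_norm (τ * r - τ)).trans hd
    rwa [Complex.sub_re] at this
  have e5 : 0 < ‖τ * r‖ := by nlinarith
  refine ⟨⟨norm_pos_iff.1 e5, ?_, ?_, ?_⟩, ?_, by nlinarith⟩
  · nlinarith
  · have e6 : |(τ * r).im| ≤ |(τ * r).im - τ.im| + |τ.im| := by
      have := abs_add_le ((τ * r).im - τ.im) τ.im
      rwa [sub_add_cancel] at this
    have e7 : κ' / 10 * τ.re ≤ κ' / 10 * ‖τ‖ := by gcongr
    have e8 : |(τ * r).im| < κ' / 5 * ‖τ‖ := by linarith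
    have e9 : κ' * (‖τ‖ - κ' / 10 * ‖τ‖) ≤ κ' * ‖τ * r‖ := by gcongr
    nlinarith [mul_pos hκ' hn0]
  · have e6 := (abs_le.1 e4).1
    nlinarith [mul_pos hκ' hn0]
  · nlinarith [mul_pos hκ' hn0]

/-- the links at one point -/
lemma links {S : Set ℂ} {κ' cc l₀ : ℝ} {x : ℝ → ℂ → ℂ} {X : ℂ × ℂ → ℂ}
    (hN : Near0 S κ' cc l₀ x X) {t₀ : ℂ} (ht : t₀ ∈ S) (h8 : ‖t₀‖ < 1 / 8) :
    ∃ e > 0, ∀ t ∈ ball t₀ e, ∀ l : ℝ, 0 < l → l < e → X (t, -I * l) = x l t := by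
  obtain ⟨e, he, h⟩ := hN.link t₀ ht h8
  exact ⟨e, he, fun t ht l h0 h1 => (h t ht l h0 h1).2.2⟩

/-- all relations at one point of the narrow sector -/
lemma joint_pt {κ κ' β C cc CC l₀ : ℝ} {qA : ℂ → ℂ} {jA : ℂ} {MA EA ZA ZcA : ℂ → ℂ}
    {xA : ℝ → ℂ → ℂ} {XA : ℂ × ℂ → ℂ} {qB : ℂ → ℂ} {jB : ℂ} {MB EB ZB ZcB : ℂ → ℂ}
    {xB : ℝ → ℂ → ℂ} {XB : ℂ × ℂ → ℂ} {C₀ : ℂ} {δ : ℝ} {G : ℂ → ℂ} {ρ R₁ l₂ : ℝ}
    (D : DatI κ κ' β C cc CC l₀ qA jA MA EA ZA ZcA xA qB jB MB EB ZB ZcB xB C₀ δ G)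
    (hNA : Near0 (OvL κ') κ' cc l₀ xA XA) (hNB : Near0 (OvR κ') κ' cc l₀ xB XB)
    (hT : Trap κ' ρ R₁ l₂ qA jA MA ZA ZcA xA qB jB MB ZB ZcB xB C₀ δ G) {τ : ℂ}
    (h0 : 0 < τ.re) (h1 : τ.re < ρ / 2) (h2 : |τ.im| < κ' / 10 * τ.re) :
    ‖MA (-τ) * MB τ / (C₀ * τ) ^ 4 - 1‖ ≤ κ' / 10 ∧ MA (-τ) = MB τ ∧
      MA (MelI963.sg MA MB C₀ G τ) = MB τ ∧ ZcA (MelI963.sg MA MB C₀ G τ) = ZcB τ := by
  have hκ' := D.sA.κ'_pos
  have hκκ := D.sA.κ'_lt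
  have hκ1 := D.sA.endq.κ_lt
  have hqA := D.sA.endq.diff
  have hqB := D.sB.endq.diff
  have hMA := D.sA.slope
  have hMB := D.sB.slope
  have hδ4 := D.inv.δ_lt
  have hρδ := hT.ρ_lt
  have hopen := L4346.isOpen_Sg κ
  -- the point `t₀ = -τ`
  set t₀ : ℂ := -τ with ht₀
  have hτ : τ = -t₀ := by rw [ht₀, neg_neg]
  have hn0 := narrow (κ' := κ') (r := 1) hκ' (by linarith) h0 h1 h2
    (by rw [sub_self, norm_zero]; positivity) (by linarith)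
  rw [mul_one] at hn0
  have hτR : τ ∈ OvR κ' := hn0.1
  have hτ8 : ‖τ‖ < 1 / 8 := by linarith [hn0.2.2]
  have htL : t₀ ∈ OvL κ' := by
    refine ⟨neg_ne_zero.2 hτR.1, by rw [ht₀, norm_neg]; exact hτR.2.1, ?_, ?_⟩
    · rw [ht₀, Complex.neg_im, abs_neg, norm_neg]; exact hτR.2.2.1
    · rw [ht₀, Complex.neg_re]; linarith [hτR.2.2.2]
  have ht8 : ‖t₀‖ < 1 / 8 := by rw [ht₀, norm_neg]; exact hτ8
  have htS : t₀ ∈ Sg κ := OvL_Sg hκκ.le htL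
  have hτS : τ ∈ Sg κ := OvR_Sg hκκ.le hτR
  have ht0 : t₀ ≠ 0 := htL.1
  have hXA := hNA.an t₀ htL
  have hXA0 := hNA.zero t₀ htL
  have hXAe := hNA.even t₀ htL
  have hXB := hNB.an τ hτR
  have hXB0 := hNB.zero τ hτR
  have hXBe := hNB.even τ hτR
  obtain ⟨eA, heA, hlA⟩ := links hNA htL ht8
  obtain ⟨eB, heB, hlB⟩ := links hNB hτR hτ8
  -- the maps
  let mA : ℂ × ℂ → ℂ := mu qA jA MA XA
  let mB : ℂ × ℂ → ℂ := fun p => mu qB jB MB XB (-p.1, p.2)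
  let kB : ℂ × ℂ → ℂ := fun p => ku qB jB MB ZB ZcB XB (-p.1, p.2)
  let tt : ℂ × ℂ → ℂ := fun p => p.1 + p.2 / 2
  let P : ℂ × ℂ → ℂ := fun p => mA (p.1 + p.2, p.2) * mB p / (C₀ * tt p) ^ 4
  let u : ℂ × ℂ → ℂ := fun p => -tt p * P p ^ (1 / 4 : ℂ)
  let Y : ℂ × ℂ → ℂ := fun p => G (u p)
  have hnegan : AnalyticAt ℂ (fun p : ℂ × ℂ => ((-p.1, p.2) : ℂ × ℂ)) (t₀, 0) :=
    analyticAt_fst.neg.prod analyticAt_snd
  have hnegv : (fun p : ℂ × ℂ => ((-p.1, p.2) : ℂ × ℂ)) (t₀, 0) = (τ, 0) := by simp [ht₀]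
  have hnegt : Tendsto (fun p : ℂ × ℂ => ((-p.1, p.2) : ℂ × ℂ)) (𝓝 (t₀, 0)) (𝓝 (τ, 0)) := by
    have h := hnegan.continuousAt.tendsto
    have e : ((-((t₀, (0 : ℂ)) : ℂ × ℂ).1, ((t₀, (0 : ℂ)) : ℂ × ℂ).2) : ℂ × ℂ) = (τ, 0) := hnegv
    rw [← e]
    exact h
  have hmA : AnalyticAt ℂ mA (t₀, 0) := mu_an hqA hMA.diff hXA hXA0 htS
  have hmB : AnalyticAt ℂ mB (t₀, 0) :=
    AnalyticAt.comp_of_eq (g := mu qB jB MB XB) (f := fun p : ℂ × ℂ => ((-p.1, p.2) : ℂ × ℂ))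
      (mu_an hqB hMB.diff hXB hXB0 hτS) hnegan hnegv
  have hXBp : AnalyticAt ℂ (fun p : ℂ × ℂ => XB (p.1 + p.2 / 2, p.2)) (τ, 0) := plus_an hXB
  have hXBp' : AnalyticAt ℂ (fun p : ℂ × ℂ => XB (-p.1 + p.2 / 2, p.2)) (t₀, 0) :=
    AnalyticAt.comp_of_eq (g := fun p : ℂ × ℂ => XB (p.1 + p.2 / 2, p.2))
      (f := fun p : ℂ × ℂ => ((-p.1, p.2) : ℂ × ℂ)) hXBp hnegan hnegv
  have hXBv : XB (-t₀ + 0 / 2, 0) = τ := by simp [ht₀, hXB0]
  have hZBa : AnalyticAt ℂ ZB τ := D.pB.Z_diff.analyticAt (hopen.mem_nhds hτS)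
  have hZcBa : AnalyticAt ℂ ZcB τ := D.pB.Zc_diff.analyticAt (hopen.mem_nhds hτS)
  have hZBv : AnalyticAt ℂ (fun p : ℂ × ℂ => ZB (XB (-p.1 + p.2 / 2, p.2))) (t₀, 0) :=
    AnalyticAt.comp_of_eq (g := ZB) (f := fun p : ℂ × ℂ => XB (-p.1 + p.2 / 2, p.2))
      hZBa hXBp' hXBv
  have hZcBv : AnalyticAt ℂ (fun p : ℂ × ℂ => ZcB (XB (-p.1 + p.2 / 2, p.2))) (t₀, 0) :=
    AnalyticAt.comp_of_eq (g := ZcB) (f := fun p : ℂ × ℂ => XB (-p.1 + p.2 / 2, p.2))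
      hZcBa hXBp' hXBv
  have hkB : AnalyticAt ℂ kB (t₀, 0) := by
    have : kB = fun p : ℂ × ℂ => ZB (XB (-p.1 + p.2 / 2, p.2)) -
        mB p * ZcB (XB (-p.1 + p.2 / 2, p.2)) := rfl
    rw [this]
    exact hZBv.sub (hmB.mul hZcBv)
  have htt : AnalyticAt ℂ tt (t₀, 0) :=
    analyticAt_fst.add (analyticAt_snd.div_const)
  have htt0 : tt (t₀, 0) = t₀ := by simp [tt]
  have hshan : AnalyticAt ℂ (fun p : ℂ × ℂ => ((p.1 + p.2, p.2) : ℂ × ℂ)) (t₀, 0) :=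
    (analyticAt_fst.add analyticAt_snd).prod analyticAt_snd
  have hmAs : AnalyticAt ℂ (fun p : ℂ × ℂ => mA (p.1 + p.2, p.2)) (t₀, 0) :=
    AnalyticAt.comp_of_eq (g := mA) (f := fun p : ℂ × ℂ => ((p.1 + p.2, p.2) : ℂ × ℂ))
      hmA hshan (by simp)
  have hC0 := D.C_ne
  have hPa : AnalyticAt ℂ P (t₀, 0) := by
    refine (hmAs.mul hmB).div ((analyticAt_const.mul htt).pow 4) ?_
    rw [htt0]
    exact pow_ne_zero 4 (mul_ne_zero hC0 ht0)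
  have hmA0 : mA (t₀, 0) = MA t₀ := mu_zero hXA0
  have hmB0 : mB (t₀, 0) = MB τ := by
    have : mB (t₀, 0) = mu qB jB MB XB (-t₀, 0) := rfl
    rw [this, ← hτ]
    exact mu_zero hXB0
  have hP0 : P (t₀, 0) = MA t₀ * MB τ / (C₀ * t₀) ^ 4 := by
    simp only [P, htt0, add_zero, hmA0, hmB0]
  -- the trapezoid near `t₀`
  have hreg : ∃ e > 0, ∀ t ∈ ball t₀ e, ∀ l : ℝ, 0 < l → l < e →
      l < l₂ ∧ -ρ < (t - I * l / 2).re ∧ (t - I * l / 2).re < -R₁ * l ∧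
        |(t - I * l / 2).im| < κ' / 10 * |(t - I * l / 2).re| := by
    have hcont : Continuous (fun p : ℂ × ℝ => p.1 - I * (p.2 : ℂ) / 2) := by fun_prop
    have hv : (fun p : ℂ × ℝ => p.1 - I * (p.2 : ℂ) / 2) (t₀, 0) = t₀ := by simp
    have c1 : ∀ᶠ p in 𝓝 ((t₀, 0) : ℂ × ℝ), p.2 < l₂ :=
      (continuous_snd.tendsto (t₀, (0 : ℝ))).eventually (gt_mem_nhds hT.l₂_pos)
    have c2 : ∀ᶠ p in 𝓝 ((t₀, 0) : ℂ × ℝ), -ρ < (p.1 - I * (p.2 : ℂ) / 2).re := by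
      have : ContinuousAt (fun p : ℂ × ℝ => (p.1 - I * (p.2 : ℂ) / 2).re) (t₀, 0) :=
        (Complex.continuous_re.comp hcont).continuousAt
      refine this.eventually (lt_mem_nhds ?_)
      simp [ht₀]
      linarith
    have c3 : ∀ᶠ p in 𝓝 ((t₀, 0) : ℂ × ℝ), (p.1 - I * (p.2 : ℂ) / 2).re < -R₁ * p.2 := by
      have e1 : ContinuousAt (fun p : ℂ × ℝ => (p.1 - I * (p.2 : ℂ) / 2).re) (t₀, 0) :=
        (Complex.continuous_re.comp hcont).continuousAt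
      have e2 : ContinuousAt (fun p : ℂ × ℝ => -R₁ * p.2) (t₀, 0) := by fun_prop
      refine e1.eventually_lt e2 ?_
      simp [ht₀]
      linarith
    have c4 : ∀ᶠ p in 𝓝 ((t₀, 0) : ℂ × ℝ), |(p.1 - I * (p.2 : ℂ) / 2).im| <
        κ' / 10 * |(p.1 - I * (p.2 : ℂ) / 2).re| := by
      have e1 : ContinuousAt (fun p : ℂ × ℝ => |(p.1 - I * (p.2 : ℂ) / 2).im|) (t₀, 0) :=
        (continuous_abs.comp (Complex.continuous_im.comp hcont)).continuousAt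
      have e2 : ContinuousAt (fun p : ℂ × ℝ => κ' / 10 * |(p.1 - I * (p.2 : ℂ) / 2).re|)
          (t₀, 0) :=
        (continuous_const.mul (continuous_abs.comp
          (Complex.continuous_re.comp hcont))).continuousAt
      refine e1.eventually_lt e2 ?_
      simp [ht₀]
      rwa [abs_of_pos h0]
    obtain ⟨e, he, hb⟩ := Metric.eventually_nhds_iff_ball.1 ((c1.and c2).and (c3.and c4))
    refine ⟨e, he, fun t ht l hl0 hle => ?_⟩
    have hmem : ((t, l) : ℂ × ℝ) ∈ ball ((t₀, 0) : ℂ × ℝ) e := by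
      rw [← ball_prod_same]
      refine ⟨ht, ?_⟩
      rw [mem_ball, dist_zero_right, Real.norm_eq_abs, abs_of_pos hl0]
      exact hle
    have := hb _ hmem
    exact ⟨this.1.1, this.1.2, this.2.1, this.2.2⟩
  -- the discrete objects
  have hdisc : ∃ e > 0, ∀ t ∈ ball t₀ e, ∀ l : ℝ, 0 < l → l < e →
      mA (t + -I * l, -I * l) = mc qA jA MA xA l (t - I * l / 2) ∧
      mB (t, -I * l) = mc qB jB MB xB l (-(t - I * l / 2)) ∧
      XB (-t + -I * l / 2, -I * l) = xB l (-(t - I * l / 2) - I * l) := by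
    refine ⟨min eA eB / 4, by positivity, fun t ht l hl0 hle => ?_⟩
    have hm1 : min eA eB ≤ eA := min_le_left _ _
    have hm2 : min eA eB ≤ eB := min_le_right _ _
    have hlA' : l < eA := by linarith
    have hlB' : l < eB := by linarith
    rw [mem_ball, dist_eq_norm] at ht
    have hIl : ∀ c : ℂ, ‖c * (I * (l : ℂ))‖ = ‖c‖ * l := by
      intro c
      rw [norm_mul, norm_mul, Complex.norm_I, one_mul, Complex.norm_real, Real.norm_eq_abs,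
        abs_of_pos hl0]
    have hin : ∀ c : ℂ, ‖c‖ ≤ 2 → t + c * (I * l) ∈ ball t₀ eA ∧
        -t + c * (I * l) ∈ ball τ eB := by
      intro c hc
      constructor
      · rw [mem_ball, dist_eq_norm]
        have : t + c * (I * l) - t₀ = (t - t₀) + c * (I * l) := by ring
        rw [this]
        refine (norm_add_le _ _).trans_lt ?_
        rw [hIl]
        nlinarith
      · rw [mem_ball, dist_eq_norm]
        have : -t + c * (I * l) - τ = -(t - t₀) + c * (I * l) := by rw [hτ]; ring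
        rw [this]
        refine (norm_add_le _ _).trans_lt ?_
        rw [hIl, norm_neg]
        nlinarith
    have kA : ∀ c : ℂ, ‖c‖ ≤ 2 → XA (t + c * (I * l), -I * l) = xA l (t + c * (I * l)) :=
      fun c hc => hlA _ (hin c hc).1 l hl0 hlA'
    have kB' : ∀ c : ℂ, ‖c‖ ≤ 2 → XB (-t + c * (I * l), -I * l) = xB l (-t + c * (I * l)) :=
      fun c hc => hlB _ (hin c hc).2 l hl0 hlB'
    have n1 : ‖(-1 / 2 : ℂ)‖ ≤ 2 := by norm_num
    have n2 : ‖(-3 / 2 : ℂ)‖ ≤ 2 := by norm_num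
    have n3 : ‖(1 / 2 : ℂ)‖ ≤ 2 := by norm_num
    refine ⟨?_, ?_, ?_⟩
    · simp only [mA, mu, mc]
      have a1 : t + -I * (l : ℂ) - -I * l / 2 = t + (-1 / 2) * (I * l) := by ring
      have a2 : t + -I * (l : ℂ) + -I * l / 2 = t + (-3 / 2) * (I * l) := by ring
      have a3 : t - I * (l : ℂ) / 2 = t + (-1 / 2) * (I * l) := by ring
      have a4 : t - I * (l : ℂ) / 2 - I * l = t + (-3 / 2) * (I * l) := by ring
      rw [a4, a1, a2, a3, kA _ n1, kA _ n2]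
    · simp only [mB, mu, mc]
      have a1 : -t - -I * (l : ℂ) / 2 = -t + (1 / 2) * (I * l) := by ring
      have a2 : -t + -I * (l : ℂ) / 2 = -t + (-1 / 2) * (I * l) := by ring
      have a3 : -(t - I * (l : ℂ) / 2) = -t + (1 / 2) * (I * l) := by ring
      have a4 : -t + (1 / 2) * (I * (l : ℂ)) - I * l = -t + (-1 / 2) * (I * l) := by ring
      rw [a1, a2, a3, a4, kB' _ n3, kB' _ n1]
    · have a2 : -t + -I * (l : ℂ) / 2 = -t + (-1 / 2) * (I * l) := by ring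
      have a3 : -(t - I * (l : ℂ) / 2) - I * l = -t + (-1 / 2) * (I * l) := by ring
      rw [a2, a3, kB' _ n1]
  obtain ⟨e1, he1, hreg⟩ := hreg
  obtain ⟨e2, he2, hdisc⟩ := hdisc
  have httl : ∀ (t : ℂ) (l : ℝ), tt (t, -I * l) = t - I * l / 2 := by
    intro t l; simp only [tt]; ring
  have hPl : ∀ t ∈ ball t₀ (min e1 e2), ∀ l : ℝ, 0 < l → l < min e1 e2 →
      P (t, -I * l) = mc qA jA MA xA l (t - I * l / 2) *
        mc qB jB MB xB l (-(t - I * l / 2)) / (C₀ * (t - I * l / 2)) ^ 4 := by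
    intro t ht l h3 h4
    obtain ⟨a1, a2, a3⟩ := hdisc t (ball_subset_ball (min_le_right _ _) ht) l h3
      (h4.trans_le (min_le_right _ _))
    simp only [P]
    rw [httl, a1, a2]
  have hm12 : 0 < min e1 e2 := lt_min he1 he2
  -- the bound at `w = 0`
  have hPb : ‖P (t₀, 0) - 1‖ ≤ κ' / 10 := by
    have hl : Tendsto (fun l : ℝ => P (t₀, -I * (l : ℂ))) (𝓝[>] 0) (𝓝 (P (t₀, 0))) := by
      have e3 : Tendsto (fun l : ℝ => ((t₀, -I * (l : ℂ)) : ℂ × ℂ)) (𝓝[>] 0) (𝓝 (t₀, 0)) := by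
        have : Continuous (fun l : ℝ => ((t₀, -I * (l : ℂ)) : ℂ × ℂ)) := by fun_prop
        have h3 := this.tendsto 0
        simp only [ofReal_zero, mul_zero] at h3
        exact h3.mono_left nhdsWithin_le_nhds
      exact hPa.continuousAt.tendsto.comp e3
    refine le_of_tendsto ((hl.sub_const 1).norm) ?_
    filter_upwards [Ioo_mem_nhdsGT hm12] with l hl
    rw [hPl t₀ (mem_ball_self hm12) l hl.1 hl.2]
    obtain ⟨a1, a2, a3, a4⟩ := hreg t₀ (mem_ball_self he1) l hl.1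
      (hl.2.trans_le (min_le_left _ _))
    exact hT.near l hl.1 a1 _ a2 a3 a4
  have hPb' : ‖P (t₀, 0) - 1‖ ≤ 1 / 10 := hPb.trans (by linarith)
  obtain ⟨hr4, hr1, hPsl⟩ := root4 hPb'
  -- the point `u₀`
  have hu0 : u (t₀, 0) = τ * P (t₀, 0) ^ (1 / 4 : ℂ) := by
    simp only [u, htt0]
    rw [hτ]
  obtain ⟨huR, huδ, -⟩ := narrow (κ' := κ') hκ' (by linarith) h0 h1 h2 (hr1.trans hPb)
    (by linarith)
  rw [← hu0] at huR huδ
  have huδ' : ‖u (t₀, 0)‖ < δ := by linarith [hT.ρ_pos]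
  have hua : AnalyticAt ℂ u (t₀, 0) := by
    have h3 : AnalyticAt ℂ (fun p => P p ^ (1 / 4 : ℂ)) (t₀, 0) :=
      hPa.cpow analyticAt_const hPsl
    exact htt.neg.mul h3
  set U : Set ℂ := {v | v ∈ OvR κ' ∧ ‖v‖ < δ} with hU
  have hUo : IsOpen U := (isOpen_OvR κ').inter (isOpen_lt continuous_norm continuous_const)
  have huU : u (t₀, 0) ∈ U := ⟨huR, huδ'⟩
  have hGa : AnalyticAt ℂ G (u (t₀, 0)) := D.inv.diff.analyticAt (hUo.mem_nhds huU)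
  have hYa : AnalyticAt ℂ Y (t₀, 0) := AnalyticAt.comp (g := G) (f := u) hGa hua
  have hY0R : Y (t₀, 0) ∈ OvR κ := D.inv.mem _ huR huδ'
  have hY0 : Y (t₀, 0) ∈ Sg κ := OvR_Sg le_rfl hY0R
  have hZAa : AnalyticAt ℂ ZA (Y (t₀, 0)) := D.pA.Z_diff.analyticAt (hopen.mem_nhds hY0)
  have hZcAa : AnalyticAt ℂ ZcA (Y (t₀, 0)) := D.pA.Zc_diff.analyticAt (hopen.mem_nhds hY0)
  have hEA := E_slope hMA D.pA
  have hEB := E_slope hMB D.pB
  have hdZcA : ∀ y ∈ Sg κ, deriv ZcA y ≠ 0 := by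
    intro y hy
    rw [D.pA.Zc_der y hy, one_mul]
    exact div_ne_zero (exp_ne_zero _) (hEA.ne y hy)
  have hdZcB : ∀ y ∈ Sg κ, deriv ZcB y ≠ 0 := by
    intro y hy
    rw [D.pB.Zc_der y hy]
    exact div_ne_zero (mul_ne_zero (by norm_num) (exp_ne_zero _)) (hEB.ne y hy)
  obtain ⟨GA, hGAa, hGA⟩ := curve_fun hZAa hZcAa (hdZcA _ hY0)
  obtain ⟨GB, hGBa, hGB⟩ := curve_fun hZBa hZcBa (hdZcB _ hτS)
  -- slope of the curves
  have slA : ∀ y ∈ Sg κ, deriv ZA y = MA y * deriv ZcA y := by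
    intro y hy
    rw [D.pA.Z_der y hy, D.pA.Zc_der y hy, ← D.pA.E_sq y hy]
    have := hEA.ne y hy
    field_simp
  have slB : ∀ y ∈ Sg κ, deriv ZB y = MB y * deriv ZcB y := by
    intro y hy
    rw [D.pB.Z_der y hy, D.pB.Zc_der y hy, ← D.pB.E_sq y hy]
    have := hEB.ne y hy
    field_simp
  have hYt : Tendsto Y (𝓝 (t₀, 0)) (𝓝 (Y (t₀, 0))) := hYa.continuousAt.tendsto
  have hYev : ∀ᶠ p in 𝓝 ((t₀, 0) : ℂ × ℂ), u p ∈ U ∧ Y p ∈ Sg κ ∧ P p ≠ 0 ∧ tt p ≠ 0 ∧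
      GA (ZcA (Y p)) = ZA (Y p) ∧ deriv GA (ZcA (Y p)) = MA (Y p) := by
    filter_upwards [hua.continuousAt.eventually (hUo.mem_nhds huU),
      hYt.eventually (hopen.mem_nhds hY0), hYt.eventually hGA,
      hPa.continuousAt.eventually_ne (slitPlane_ne_zero hPsl),
      htt.continuousAt.eventually_ne (by rw [htt0]; exact ht0)] with p a1 a2 a3 a4 a5
    refine ⟨a1, a2, a4, a5, a3.1, ?_⟩
    have := a3.2
    rw [slA _ a2] at this
    exact mul_right_cancel₀ (hdZcA _ a2) this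
  -- incidence
  have hF : ∀ᶠ p in 𝓝 ((t₀, 0) : ℂ × ℂ), ZA (Y p) - ZB (XB (-p.1 + p.2 / 2, p.2)) -
      mB p * (ZcA (Y p) - ZcB (XB (-p.1 + p.2 / 2, p.2))) = 0 := by
    apply slice_zero
    · have f1 : AnalyticAt ℂ (fun p => ZA (Y p)) (t₀, 0) :=
        AnalyticAt.comp (g := ZA) (f := Y) hZAa hYa
      have f2 : AnalyticAt ℂ (fun p => ZcA (Y p)) (t₀, 0) :=
        AnalyticAt.comp (g := ZcA) (f := Y) hZcAa hYa
      exact (f1.sub hZBv).sub (hmB.mul (f2.sub hZcBv))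
    · refine ⟨min e1 e2, hm12, fun t ht l hl0 hle => ?_⟩
      obtain ⟨a1, a2, a3, a4⟩ := hreg t (ball_subset_ball (min_le_left _ _) ht) l hl0
        (hle.trans_le (min_le_left _ _))
      obtain ⟨b1, b2, b3⟩ := hdisc t (ball_subset_ball (min_le_right _ _) ht) l hl0
        (hle.trans_le (min_le_right _ _))
      have hinc := hT.inc l hl0 a1 _ a2 a3 a4
      have hYl : Y (t, -I * l) = yv C₀ G (t - I * l / 2)
          (mc qA jA MA xA l (t - I * l / 2)) (mc qB jB MB xB l (-(t - I * l / 2))) := by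
        simp only [Y, u, yv]
        rw [hPl t ht l hl0 hle, httl]
      rw [hYl, b2, b3]
      linear_combination hinc
  have hsame := MelN963.same_curve (G := GA) (gB := GB) (mA := mA) (mB := mB) (kB := kB)
    (b := fun p => ZcA (Y p)) (β := fun t => ZcB (-t)) (t₀ := t₀) hmA hmB hkB
    (AnalyticAt.comp (g := ZcA) (f := Y) hZcAa hYa) hGAa
    (AnalyticAt.comp_of_eq (g := ZcB) (f := fun t : ℂ => -t) hZcBa analyticAt_id.neg hτ.symm)
    (by rw [← hτ]; exact hGBa)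
    (mu_even hqA hMA hXA hXA0 htS hXAe)
    (by
      have f1 := hnegt.eventually (mu_even hqB hMB hXB hXB0 hτS hXBe)
      have f2 := hnegt.eventually (ku_even hqB hMB D.pB hXB hXB0 hτS hXBe)
      filter_upwards [f1, f2] with p g1 g2
      exact ⟨g1, g2⟩)
    (by
      filter_upwards [hF, hYev] with p g1 g2
      rw [g2.2.2.2.2.1]
      have : kB p = ZB (XB (-p.1 + p.2 / 2, p.2)) - mB p * ZcB (XB (-p.1 + p.2 / 2, p.2)) := rfl
      rw [this]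
      linear_combination -g1)
    (by
      filter_upwards [hYev] with p g1
      obtain ⟨g2, g3, g4, g5, g6, g7⟩ := g1
      rw [g7, ← D.pA.E_sq _ g3]
      have h5 : EA (Y p) = C₀ * u p := D.inv.eq _ g2.1 g2.2
      rw [h5]
      have h6 : (P p ^ (1 / 4 : ℂ)) ^ 4 = P p := by
        have := Complex.cpow_nat_inv_pow (P p) (n := 4) (by norm_num)
        rwa [show (((4 : ℕ) : ℂ))⁻¹ = 1 / 4 by norm_num] at this
      have h7 : ((C₀ * u p) ^ 2) ^ 2 = (C₀ * tt p) ^ 4 * (P p ^ (1 / 4 : ℂ)) ^ 4 := by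
        simp only [u]; ring
      rw [h7, h6]
      simp only [P]
      have : C₀ * tt p ≠ 0 := mul_ne_zero hC0 g5
      field_simp)
    (by rw [hmB0]; exact hMB.ne τ hτS)
    (by
      have f1 : (fun t : ℂ => mA (t, 0)) =ᶠ[𝓝 t₀] MA := by
        have : ∀ᶠ t in 𝓝 t₀, t ∈ OvL κ' := by
          have ho : IsOpen (OvL κ') := by
            unfold OvL
            have h1 : IsOpen {τ : ℂ | τ ≠ 0} := isOpen_ne
            have h2 : IsOpen {τ : ℂ | ‖τ‖ < 1} := isOpen_lt continuous_norm continuous_const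
            have h3 : IsOpen {τ : ℂ | |τ.im| < κ' * ‖τ‖} :=
              isOpen_lt (continuous_abs.comp Complex.continuous_im)
                (continuous_const.mul continuous_norm)
            have h4 : IsOpen {τ : ℂ | τ.re < 0} :=
              isOpen_lt Complex.continuous_re continuous_const
            exact h1.inter (h2.inter (h3.inter h4))
          exact ho.mem_nhds htL
        filter_upwards [this] with t g1
        exact mu_zero (hNA.zero t g1)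
      rw [f1.deriv_eq, hMA.der _ htS]
      have hj : jA ≠ 0 := by
        rcases D.sA.hj with h | h <;> rw [h]
        · exact I_ne_zero
        · exact neg_ne_zero.2 I_ne_zero
      exact mul_ne_zero (mul_ne_zero (mul_ne_zero two_ne_zero hj) (exp_ne_zero _))
        (hMA.ne _ htS))
    (by
      have f1 : (fun t : ℂ => mB (t, 0)) =ᶠ[𝓝 t₀] fun t => MB (-t) := by
        have : ∀ᶠ t in 𝓝 t₀, -t ∈ OvR κ' := by
          have hc : ContinuousAt (fun t : ℂ => -t) t₀ := continuous_neg.continuousAt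
          exact hc.eventually ((isOpen_OvR κ').mem_nhds (by
            change -t₀ ∈ OvR κ'
            rw [← hτ]; exact hτR))
        filter_upwards [this] with t g1
        have : mB (t, 0) = mu qB jB MB XB (-t, 0) := rfl
        rw [this]
        exact mu_zero (hNB.zero (-t) g1)
      rw [f1.deriv_eq]
      have f2 : HasDerivAt (fun t : ℂ => MB (-t)) (deriv MB τ * (-1)) t₀ := by
        have g1 : HasDerivAt MB (deriv MB τ) (-t₀) := by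
          rw [← hτ]
          exact (hMB.diff.differentiableAt (hopen.mem_nhds hτS)).hasDerivAt
        exact g1.comp t₀ (hasDerivAt_neg t₀)
      rw [f2.deriv, hMB.der _ hτS]
      have hj : jB ≠ 0 := by
        rcases D.sB.hj with h | h <;> rw [h]
        · exact I_ne_zero
        · exact neg_ne_zero.2 I_ne_zero
      exact mul_ne_zero (mul_ne_zero (mul_ne_zero (mul_ne_zero two_ne_zero hj)
        (exp_ne_zero _)) (hMB.ne _ hτS)) (by norm_num))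
    (by
      have hc : ContinuousAt (fun t : ℂ => -t) t₀ := continuous_neg.continuousAt
      have f1 : ∀ᶠ t in 𝓝 t₀, -t ∈ OvR κ' :=
        hc.eventually ((isOpen_OvR κ').mem_nhds (by
            change -t₀ ∈ OvR κ'
            rw [← hτ]; exact hτR))
      have f2 : ∀ᶠ t in 𝓝 t₀, GB (ZcB (-t)) = ZB (-t) ∧
          deriv GB (ZcB (-t)) * deriv ZcB (-t) = deriv ZB (-t) := by
        have : Tendsto (fun t : ℂ => -t) (𝓝 t₀) (𝓝 τ) := by
          have := hc.tendsto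
          rwa [← hτ] at this
        exact this.eventually hGB
      filter_upwards [f1, f2] with t g1 g2
      have g3 := OvR_Sg hκκ.le g1
      have g4 : mB (t, 0) = MB (-t) := mu_zero (hNB.zero (-t) g1)
      have g5 : kB (t, 0) = ZB (-t) - MB (-t) * ZcB (-t) := by
        have : kB (t, 0) = ZB (XB (-t + 0 / 2, 0)) - mB (t, 0) * ZcB (XB (-t + 0 / 2, 0)) := rfl
        rw [this, g4, zero_div, add_zero, hNB.zero (-t) g1]
      refine ⟨?_, ?_⟩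
      · rw [g4]
        have := g2.2
        rw [slB _ g3] at this
        exact (mul_right_cancel₀ (hdZcB _ g3) this).symm
      · rw [g4, g5, g2.1]; ring)
  obtain ⟨r1, r2, r3⟩ := hsame.self_of_nhds
  have hsg : MelI963.sg MA MB C₀ G τ = Y (t₀, 0) := by
    simp only [MelI963.sg, Y, u, htt0]
    rw [hP0, ← hτ]
    congr 3
    rw [hτ]
    ring
  have hMBY : MA (Y (t₀, 0)) = MB τ := by
    rw [← hmB0, r3, ← r1]
    exact (hYev.self_of_nhds.2.2.2.2.2).symm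
  refine ⟨?_, ?_, by rw [hsg]; exact hMBY, ?_⟩
  · rw [hP0] at hPb
    have : (C₀ * τ) ^ 4 = (C₀ * t₀) ^ 4 := by rw [hτ]; ring
    rw [this]
    exact hPb
  · -- `MA t₀ * MB τ = MA (Y)^2`
    have h5 : EA (Y (t₀, 0)) = C₀ * u (t₀, 0) := D.inv.eq _ huR huδ'
    have h6 : MA (Y (t₀, 0)) ^ 2 = MA t₀ * MB τ := by
      rw [← D.pA.E_sq _ hY0, h5, hu0]
      have h7 : ((C₀ * (τ * P (t₀, 0) ^ (1 / 4 : ℂ))) ^ 2) ^ 2 =
          (C₀ * t₀) ^ 4 * (P (t₀, 0) ^ (1 / 4 : ℂ)) ^ 4 := by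
        rw [hτ]; ring
      rw [h7, hr4, hP0]
      have : C₀ * t₀ ≠ 0 := mul_ne_zero hC0 ht0
      field_simp
    rw [hMBY] at h6
    have h8 := hMB.ne τ hτS
    apply mul_right_cancel₀ h8
    rw [← h6]; ring
  · rw [hsg, r1, ← hτ]

/-- **(I5)** -/
theorem jointL : JointL := by
  intro κ κ' β C cc CC l₀ qA jA MA EA ZA ZcA xA XA qB jB MB EB ZB ZcB xB XB C₀ δ G ρ R₁ l₂ D hNA
    hNB hT
  refine ⟨ρ / 2, by linarith [hT.ρ_pos], by linarith [hT.ρ_lt, hT.ρ_pos], ?_, ?_, ?_, ?_⟩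
  · intro τ h0 h1 h2
    exact (joint_pt D hNA hNB hT h0 h1 h2).1
  · intro τ h0 h1 h2
    exact (joint_pt D hNA hNB hT h0 h1 h2).2.1
  · intro τ h0 h1 h2
    exact (joint_pt D hNA hNB hT h0 h1 h2).2.2.1
  · intro τ h0 h1 h2
    exact (joint_pt D hNA hNB hT h0 h1 h2).2.2.2

end Crest.Agent.R102.MelI519
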