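import Mathlib
import Crest.Agent.R102.MelIDefs_963

/-!
# Row 102, part (C), [T5]/MEL-I: (I6) `FinL` (helper217)

From the relations at `w = 0` on a narrow sector to the conclusion of `MelI`.
-/

set_option autoImplicit false

open Set Filter Topology Metric
open scoped ComplexConjugate

noncomputable section

namespace Crest.Agent.R102.MelI6217

open Crest.Agent.R102.T5R Crest.Agent.R102.Mel Crest.Agent.R102.MelI963

/-- the narrow sector -/
def Sn (κ' ρ : ℝ) : Set ℂ := {τ | 0 < τ.re ∧ τ.re < ρ ∧ |τ.im| < κ' / 10 * τ.re}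

lemma isOpen_Sn (κ' ρ : ℝ) : IsOpen (Sn κ' ρ) := by
  have h1 : IsOpen {τ : ℂ | 0 < τ.re} := isOpen_lt continuous_const Complex.continuous_re
  have h2 : IsOpen {τ : ℂ | τ.re < ρ} := isOpen_lt Complex.continuous_re continuous_const
  have h3 : IsOpen {τ : ℂ | |τ.im| < κ' / 10 * τ.re} :=
    isOpen_lt (continuous_abs.comp Complex.continuous_im) (continuous_const.mul Complex.continuous_re)
  have : Sn κ' ρ = {τ : ℂ | 0 < τ.re} ∩ {τ : ℂ | τ.re < ρ} ∩ {τ : ℂ | |τ.im| < κ' / 10 * τ.re} := by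
    ext τ
    simp only [Sn, mem_setOf_eq, mem_inter_iff]
    tauto
  rw [this]
  exact (h1.inter h2).inter h3

lemma convex_Sn (κ' ρ : ℝ) : Convex ℝ (Sn κ' ρ) := by
  intro x hx y hy a b ha hb hab
  obtain ⟨h1, h2, h3⟩ := hx
  obtain ⟨h4, h5, h6⟩ := hy
  rw [abs_lt] at h3 h6
  have hre : (a • x + b • y).re = a * x.re + b * y.re := by simp
  have him : (a • x + b • y).im = a * x.im + b * y.im := by simp
  refine ⟨?_, ?_, ?_⟩
  · rw [hre]
    rcases ha.eq_or_lt with rfl | ha'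
    · have : b = 1 := by linarith
      subst this
      simpa using h4
    · have := mul_pos ha' h1
      have := mul_nonneg hb h4.le
      linarith
  · rw [hre]
    rcases ha.eq_or_lt with rfl | ha'
    · have : b = 1 := by linarith
      subst this
      simpa using h5
    · have e1 := mul_lt_mul_of_pos_left h2 ha'
      have e2 := mul_le_mul_of_nonneg_left h5.le hb
      have : a * ρ + b * ρ = ρ := by rw [← add_mul, hab, one_mul]
      linarith
  · rw [hre, him, abs_lt]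
    rcases ha.eq_or_lt with rfl | ha'
    · have : b = 1 := by linarith
      subst this
      constructor
      · simpa using h6.1
      · simpa using h6.2
    · have e1 := mul_lt_mul_of_pos_left h3.1 ha'
      have e2 := mul_le_mul_of_nonneg_left h6.1.le hb
      have e3 := mul_lt_mul_of_pos_left h3.2 ha'
      have e4 := mul_le_mul_of_nonneg_left h6.2.le hb
      constructor <;> nlinarith

/-- `OvR` in linear form -/
lemma OvR_eq {κ : ℝ} (hκ : 0 < κ) (hκ1 : κ < 1) :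
    OvR κ = {τ : ℂ | ‖τ‖ < 1 ∧ 0 < τ.re ∧ √(1 - κ ^ 2) * |τ.im| < κ * τ.re} := by
  have hc : 0 < 1 - κ ^ 2 := by nlinarith
  have hs : √(1 - κ ^ 2) ^ 2 = 1 - κ ^ 2 := Real.sq_sqrt hc.le
  have hs0 : 0 < √(1 - κ ^ 2) := Real.sqrt_pos.2 hc
  ext τ
  have hn : ‖τ‖ ^ 2 = τ.re ^ 2 + τ.im ^ 2 := by
    rw [← Complex.normSq_eq_norm_sq, Complex.normSq_apply]; ring
  simp only [OvR, mem_setOf_eq]
  constructor
  · rintro ⟨h0, h1, h2, h3⟩
    refine ⟨h1, h3, ?_⟩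
    have h4 : |τ.im| ^ 2 < (κ * ‖τ‖) ^ 2 := pow_lt_pow_left₀ h2 (abs_nonneg _) (by norm_num)
    rw [mul_pow, hn, sq_abs] at h4
    apply lt_of_pow_lt_pow_left₀ 2 (by positivity)
    rw [mul_pow, mul_pow, hs, sq_abs]
    nlinarith
  · rintro ⟨h1, h3, h4⟩
    have h0 : τ ≠ 0 := by
      rintro rfl
      simp at h3
    refine ⟨h0, h1, ?_, h3⟩
    have h5 : (√(1 - κ ^ 2) * |τ.im|) ^ 2 < (κ * τ.re) ^ 2 :=
      pow_lt_pow_left₀ h4 (by positivity) (by norm_num)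
    rw [mul_pow, mul_pow, hs, sq_abs] at h5
    apply lt_of_pow_lt_pow_left₀ 2 (by positivity)
    rw [mul_pow, hn, sq_abs]
    nlinarith

lemma convex_OvR {κ : ℝ} (hκ : 0 < κ) (hκ1 : κ < 1) : Convex ℝ (OvR κ) := by
  rw [OvR_eq hκ hκ1]
  have hs0 : 0 ≤ √(1 - κ ^ 2) := Real.sqrt_nonneg _
  set c := √(1 - κ ^ 2) with hc
  have e : {τ : ℂ | ‖τ‖ < 1 ∧ 0 < τ.re ∧ c * |τ.im| < κ * τ.re} =
      ball (0 : ℂ) 1 ∩ {τ : ℂ | 0 < τ.re ∧ c * |τ.im| < κ * τ.re} := by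
    ext τ
    simp [mem_ball_zero_iff]
  rw [e]
  refine (convex_ball _ _).inter ?_
  intro x hx y hy a b ha hb hab
  obtain ⟨h1, h2⟩ := hx
  obtain ⟨h4, h5⟩ := hy
  have hre : (a • x + b • y).re = a * x.re + b * y.re := by simp
  have him : (a • x + b • y).im = a * x.im + b * y.im := by simp
  have habs : |a * x.im + b * y.im| ≤ a * |x.im| + b * |y.im| := by
    refine (abs_add_le _ _).trans ?_
    rw [abs_mul, abs_mul, abs_of_nonneg ha, abs_of_nonneg hb]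
  have k1 := mul_le_mul_of_nonneg_left habs hs0
  refine ⟨?_, ?_⟩
  · show 0 < (a • x + b • y).re
    rw [hre]
    rcases ha.eq_or_lt with rfl | ha'
    · have : b = 1 := by linarith
      subst this
      simpa using h4
    · have := mul_pos ha' h1
      have := mul_nonneg hb h4.le
      linarith
  · show c * |(a • x + b • y).im| < κ * (a • x + b • y).re
    rw [hre, him]
    rcases ha.eq_or_lt with rfl | ha'
    · have : b = 1 := by linarith
      subst this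
      simpa using h5
    · have e1 := mul_lt_mul_of_pos_left h2 ha'
      have e2 := mul_le_mul_of_nonneg_left h5.le hb
      nlinarith

lemma isOpen_OvR (κ : ℝ) : IsOpen (OvR κ) := by
  have h0 : IsOpen {τ : ℂ | τ ≠ 0} := isOpen_ne
  have h1 : IsOpen {τ : ℂ | ‖τ‖ < 1} := isOpen_lt continuous_norm continuous_const
  have h2 : IsOpen {τ : ℂ | |τ.im| < κ * ‖τ‖} :=
    isOpen_lt (continuous_abs.comp Complex.continuous_im) (continuous_const.mul continuous_norm)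
  have h3 : IsOpen {τ : ℂ | 0 < τ.re} := isOpen_lt continuous_const Complex.continuous_re
  have : OvR κ = {τ : ℂ | τ ≠ 0} ∩ {τ : ℂ | ‖τ‖ < 1} ∩ {τ : ℂ | |τ.im| < κ * ‖τ‖} ∩
      {τ : ℂ | 0 < τ.re} := by
    ext τ
    simp only [OvR, mem_setOf_eq, mem_inter_iff]
    tauto
  rw [this]
  exact ((h0.inter h1).inter h2).inter h3

lemma isOpen_Sg (κ : ℝ) : IsOpen (Sg κ) := by
  have h0 : IsOpen {τ : ℂ | τ ≠ 0} := isOpen_ne
  have h1 : IsOpen {τ : ℂ | ‖τ‖ < 1} := isOpen_lt continuous_norm continuous_const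
  have h2 : IsOpen {τ : ℂ | τ.im < κ * ‖τ‖} :=
    isOpen_lt Complex.continuous_im (continuous_const.mul continuous_norm)
  have : Sg κ = {τ : ℂ | τ ≠ 0} ∩ {τ : ℂ | ‖τ‖ < 1} ∩ {τ : ℂ | τ.im < κ * ‖τ‖} := by
    ext τ
    simp only [Sg, mem_setOf_eq, mem_inter_iff]
    tauto
  rw [this]
  exact (h0.inter h1).inter h2

lemma OvR_sub_Sg {κ' κ : ℝ} (h : κ' ≤ κ) {τ : ℂ} (hτ : τ ∈ OvR κ') : τ ∈ Sg κ := by
  obtain ⟨h0, h1, h2, h3⟩ := hτ
  refine ⟨h0, h1, ?_⟩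
  have := le_abs_self τ.im
  have := mul_le_mul_of_nonneg_right h (norm_nonneg τ)
  linarith

lemma neg_OvR_sub_Sg {κ' κ : ℝ} (h : κ' ≤ κ) {τ : ℂ} (hτ : τ ∈ OvR κ') : -τ ∈ Sg κ := by
  obtain ⟨h0, h1, h2, h3⟩ := hτ
  refine ⟨neg_ne_zero.2 h0, by simpa using h1, ?_⟩
  have := neg_abs_le τ.im
  have := mul_le_mul_of_nonneg_right h (norm_nonneg τ)
  simp only [Complex.neg_im, norm_neg]
  linarith

/-- the principal fourth root near `1` -/
lemma root_near {m : ℂ} (h : ‖m - 1‖ ≤ 1 / 10) :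
    ‖m ^ (1 / 4 : ℂ) - 1‖ ≤ ‖m - 1‖ ∧ (m ^ (1 / 4 : ℂ)) ^ 4 = m := by
  have hre : 9 / 10 ≤ m.re := by
    have := Complex.abs_re_le_norm (m - 1)
    rw [Complex.sub_re, Complex.one_re, abs_le] at this
    linarith [this.1]
  have hm0 : m ≠ 0 := by
    rintro rfl
    simp at hre
    linarith
  have harg : |m.arg| < Real.pi / 2 := by
    rw [Complex.abs_arg_lt_pi_div_two_iff]
    left
    linarith
  have h4 : (m ^ (1 / 4 : ℂ)) ^ 4 = m := by
    rw [← Complex.cpow_nat_mul]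
    norm_num
  refine ⟨?_, h4⟩
  set r := m ^ (1 / 4 : ℂ) with hr
  have hr2 : r ^ 2 = Complex.exp (Complex.log m * (1 / 2)) := by
    rw [hr, Complex.cpow_def_of_ne_zero hm0, ← Complex.exp_nat_mul]
    congr 1
    push_cast
    ring
  have hre1 : 0 ≤ r.re := by
    rw [hr, Complex.cpow_def_of_ne_zero hm0, Complex.exp_re]
    have : (Complex.log m * (1 / 4)).im = m.arg / 4 := by
      rw [Complex.mul_im, Complex.log_im]
      norm_num
      ring
    rw [this]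
    apply mul_nonneg (Real.exp_pos _).le
    apply Real.cos_nonneg_of_neg_pi_div_two_le_of_le
    · rw [abs_lt] at harg; linarith [Real.pi_pos, harg.1]
    · rw [abs_lt] at harg; linarith [Real.pi_pos, harg.2]
  have hre2 : 0 ≤ (r ^ 2).re := by
    rw [hr2, Complex.exp_re]
    have : (Complex.log m * (1 / 2)).im = m.arg / 2 := by
      rw [Complex.mul_im, Complex.log_im]
      norm_num
      ring
    rw [this]
    apply mul_nonneg (Real.exp_pos _).le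
    apply Real.cos_nonneg_of_neg_pi_div_two_le_of_le
    · rw [abs_lt] at harg; linarith [Real.pi_pos, harg.1]
    · rw [abs_lt] at harg; linarith [Real.pi_pos, harg.2]
  have hf : (r - 1) * ((r + 1) * (r ^ 2 + 1)) = m - 1 := by
    rw [← h4]; ring
  have n1 : 1 ≤ ‖r + 1‖ := by
    have := Complex.re_le_norm (r + 1)
    rw [Complex.add_re, Complex.one_re] at this
    linarith
  have n2 : 1 ≤ ‖r ^ 2 + 1‖ := by
    have := Complex.re_le_norm (r ^ 2 + 1)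
    rw [Complex.add_re, Complex.one_re] at this
    linarith
  rw [← hf, norm_mul, norm_mul]
  have h12 : 1 ≤ ‖r + 1‖ * ‖r ^ 2 + 1‖ := by nlinarith
  nlinarith [norm_nonneg (r - 1)]

/-- `u = τ r` is in the wide sector -/
lemma mul_mem {κ' ρ δ : ℝ} (hκ : 0 < κ') (hκ1 : κ' < 1) (hρ : ρ < δ / 2) (hδ : δ < 1 / 4)
    {τ r : ℂ} (hτ : τ ∈ Sn κ' ρ) (hr : ‖r - 1‖ ≤ κ' / 10) :
    τ * r ∈ OvR κ' ∧ ‖τ * r‖ < δ ∧ ‖τ * r‖ ≤ 11 / 10 * ‖τ‖ := by
  obtain ⟨h1, h2, h3⟩ := hτ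
  have hτ0 : τ ≠ 0 := by rintro rfl; simp at h1
  have hτn : 0 < ‖τ‖ := norm_pos_iff.2 hτ0
  have hre : τ.re ≤ ‖τ‖ := Complex.re_le_norm τ
  have hn : ‖τ‖ ≤ τ.re + |τ.im| := by
    have := Complex.norm_le_abs_re_add_abs_im τ
    rwa [abs_of_pos h1] at this
  have hr1 : ‖r‖ ≤ 1 + κ' / 10 := by
    calc ‖r‖ = ‖(r - 1) + 1‖ := by ring_nf
      _ ≤ ‖r - 1‖ + ‖(1 : ℂ)‖ := norm_add_le _ _
      _ ≤ _ := by rw [norm_one]; linarith
  have hr2 : 1 - κ' / 10 ≤ ‖r‖ := by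
    have : ‖(1 : ℂ)‖ ≤ ‖r‖ + ‖r - 1‖ := by
      calc ‖(1 : ℂ)‖ = ‖r - (r - 1)‖ := by ring_nf
        _ ≤ _ := norm_sub_le _ _
    rw [norm_one] at this
    linarith
  have hri : |r.im| ≤ κ' / 10 := by
    have := Complex.abs_im_le_norm (r - 1)
    rw [Complex.sub_im, Complex.one_im, sub_zero] at this
    linarith
  have hrr : |r.re - 1| ≤ κ' / 10 := by
    have := Complex.abs_re_le_norm (r - 1)
    rw [Complex.sub_re, Complex.one_re] at this
    linarith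
  have hrr' := abs_le.1 hrr
  have hu : ‖τ * r‖ = ‖τ‖ * ‖r‖ := norm_mul _ _
  have hn2 : ‖τ‖ ≤ 11 / 10 * τ.re := by nlinarith
  have hle : ‖τ * r‖ ≤ 11 / 10 * ‖τ‖ := by
    rw [hu]; nlinarith
  have hlt : ‖τ * r‖ < δ := by nlinarith
  refine ⟨⟨?_, by linarith, ?_, ?_⟩, hlt, hle⟩
  · apply mul_ne_zero hτ0
    intro h0
    rw [h0, norm_zero] at hr2
    linarith
  · rw [Complex.mul_im, hu]
    have a1 : |τ.re * r.im + τ.im * r.re| ≤ τ.re * |r.im| + |τ.im| * |r.re| := by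
      refine (abs_add_le _ _).trans ?_
      rw [abs_mul, abs_mul, abs_of_pos h1]
    have a2 : |r.re| ≤ ‖r‖ := Complex.abs_re_le_norm r
    have a3 : τ.re * |r.im| ≤ ‖τ‖ * (κ' / 10) :=
      mul_le_mul hre hri (abs_nonneg _) hτn.le
    have a4 : |τ.im| * |r.re| ≤ (κ' / 10 * ‖τ‖) * ‖r‖ := by
      apply mul_le_mul _ a2 (abs_nonneg _) (by positivity)
      nlinarith
    have a5 : 9 / 10 ≤ ‖r‖ := by linarith
    have a6 : ‖τ‖ * (κ' / 10) ≤ (κ' / 9) * (‖τ‖ * ‖r‖) := by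
      have : 0 ≤ κ' * ‖τ‖ := by positivity
      nlinarith
    have a7 : 0 < κ' * (‖τ‖ * ‖r‖) := by positivity
    nlinarith
  · rw [Complex.mul_re]
    have a1 : τ.im * r.im ≤ |τ.im| * |r.im| := by
      rw [← abs_mul]; exact le_abs_self _
    have a2 : |τ.im| * |r.im| ≤ (κ' / 10 * τ.re) * (κ' / 10) :=
      mul_le_mul h3.le hri (abs_nonneg _) (by positivity)
    have a3 : τ.re * (9 / 10) ≤ τ.re * r.re := by
      apply mul_le_mul_of_nonneg_left _ h1.le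
      linarith
    have a4 : κ' / 10 * τ.re * (κ' / 10) ≤ τ.re * (1 / 100) := by
      have : κ' ^ 2 ≤ 1 := by nlinarith
      nlinarith
    linarith

/-- **(I6)** -/
theorem finL : FinL := by
  intro κ κ' β C cc CC l₀ qA jA MA EA ZA ZcA xA qB jB MB EB ZB ZcB xB C₀ δ G ρ hD hJ
  have hκ'0 : 0 < κ' := hD.sA.κ'_pos
  have hκ'κ : κ' < κ := hD.sA.κ'_lt
  have hκ1 : κ < 1 := hD.sA.endq.κ_lt
  have hκ'1 : κ' < 1 := hκ'κ.trans hκ1
  have hρ := hJ.ρ_pos
  have hρδ := hJ.ρ_lt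
  have hδ := hD.inv.δ_lt
  have hj0 : jA ≠ 0 := by
    rcases hD.sA.hj with h | h <;> rw [h] <;> simp
  have hjB : jB = -jA := hD.mt.j
  set S := Sn κ' ρ with hS
  have hSo : IsOpen S := isOpen_Sn κ' ρ
  have hSc : IsPreconnected S := (convex_Sn κ' ρ).isPreconnected
  -- `S ⊆ OvR κ'`
  have hSO : ∀ τ ∈ S, τ ∈ OvR κ' := by
    intro τ hτ
    have := (mul_mem hκ'0 hκ'1 hρδ hδ (r := 1) hτ (by simp; positivity)).1
    simpa using this
  have hSg : ∀ τ ∈ S, τ ∈ Sg κ := fun τ hτ => OvR_sub_Sg hκ'κ.le (hSO τ hτ)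
  have hSgn : ∀ τ ∈ S, -τ ∈ Sg κ := fun τ hτ => neg_OvR_sub_Sg hκ'κ.le (hSO τ hτ)
  have hτ0 : ∀ τ ∈ S, τ ≠ 0 := fun τ hτ => (hSO τ hτ).1
  -- the function `u`
  set m : ℂ → ℂ := fun τ => MA (-τ) * MB τ / (C₀ * τ) ^ 4 with hm
  set u : ℂ → ℂ := fun τ => τ * (m τ) ^ (1 / 4 : ℂ) with hu
  have hmn : ∀ τ ∈ S, ‖m τ - 1‖ ≤ κ' / 10 := fun τ hτ => hJ.near τ hτ.1 hτ.2.1 hτ.2.2
  have hmn' : ∀ τ ∈ S, ‖m τ - 1‖ ≤ 1 / 10 := fun τ hτ => (hmn τ hτ).trans (by linarith)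
  have hum : ∀ τ ∈ S, u τ ∈ OvR κ' ∧ ‖u τ‖ < δ ∧ ‖u τ‖ ≤ 11 / 10 * ‖τ‖ := fun τ hτ =>
    mul_mem hκ'0 hκ'1 hρδ hδ hτ (((root_near (hmn' τ hτ)).1).trans (hmn τ hτ))
  have hsg : ∀ τ, sg MA MB C₀ G τ = G (u τ) := fun τ => rfl
  set s : ℂ → ℂ := fun τ => G (u τ) with hs
  -- differentiability
  have hMAd : ∀ τ ∈ Sg κ, DifferentiableAt ℂ MA τ := fun τ hτ =>
    (hD.sA.slope.diff τ hτ).differentiableAt ((isOpen_Sg κ).mem_nhds hτ)
  have hMBd : ∀ τ ∈ Sg κ, DifferentiableAt ℂ MB τ := fun τ hτ =>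
    (hD.sB.slope.diff τ hτ).differentiableAt ((isOpen_Sg κ).mem_nhds hτ)
  have hqAd : ∀ τ ∈ Sg κ, DifferentiableAt ℂ qA τ := fun τ hτ =>
    (hD.sA.endq.diff τ hτ).differentiableAt ((isOpen_Sg κ).mem_nhds hτ)
  have hqBd : ∀ τ ∈ Sg κ, DifferentiableAt ℂ qB τ := fun τ hτ =>
    (hD.sB.endq.diff τ hτ).differentiableAt ((isOpen_Sg κ).mem_nhds hτ)
  have hmd : ∀ τ ∈ S, DifferentiableAt ℂ m τ := by
    intro τ hτ
    have e1 : DifferentiableAt ℂ (fun τ => MA (-τ)) τ :=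
      (hMAd (-τ) (hSgn τ hτ)).comp τ differentiableAt_id.neg
    have e2 := hMBd τ (hSg τ hτ)
    refine (e1.mul e2).div ((differentiableAt_id.const_mul C₀).pow 4) ?_
    exact pow_ne_zero _ (mul_ne_zero hD.C_ne (hτ0 τ hτ))
  have hud : ∀ τ ∈ S, DifferentiableAt ℂ u τ := by
    intro τ hτ
    refine differentiableAt_id.mul ((hmd τ hτ).cpow_const ?_)
    left
    have := Complex.abs_re_le_norm (m τ - 1)
    rw [Complex.sub_re, Complex.one_re, abs_le] at this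
    linarith [this.1, hmn' τ hτ]
  have hGo : IsOpen {v : ℂ | v ∈ OvR κ' ∧ ‖v‖ < δ} :=
    (isOpen_OvR κ').inter (isOpen_lt continuous_norm continuous_const)
  have hsd : ∀ τ ∈ S, DifferentiableAt ℂ s τ := by
    intro τ hτ
    have hu1 := hum τ hτ
    have hG := (hD.inv.diff (u τ) ⟨hu1.1, hu1.2.1⟩).differentiableAt
      (hGo.mem_nhds ⟨hu1.1, hu1.2.1⟩)
    exact hG.comp τ (hud τ hτ)
  have hsdo : DifferentiableOn ℂ s S := fun τ hτ => (hsd τ hτ).differentiableWithinAt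
  have hsm : ∀ τ ∈ S, s τ ∈ Sg κ := fun τ hτ =>
    OvR_sub_Sg le_rfl (hD.inv.mem (u τ) (hum τ hτ).1 (hum τ hτ).2.1)
  have hsn : ∀ τ ∈ S, ‖s τ - τ‖ ≤ 1 / 4 * ‖τ‖ := by
    intro τ hτ
    have h1 := hD.inv.near (u τ) (hum τ hτ).1 (hum τ hτ).2.1
    have h2 : ‖u τ - τ‖ ≤ 1 / 10 * ‖τ‖ := by
      have : u τ - τ = τ * ((m τ) ^ (1 / 4 : ℂ) - 1) := by rw [hu]; ring
      rw [this, norm_mul]
      have := ((root_near (hmn' τ hτ)).1).trans (hmn' τ hτ)
      nlinarith [norm_nonneg τ]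
    have h3 := (hum τ hτ).2.2
    calc ‖s τ - τ‖ = ‖(s τ - u τ) + (u τ - τ)‖ := by ring_nf
      _ ≤ ‖s τ - u τ‖ + ‖u τ - τ‖ := norm_add_le _ _
      _ ≤ ‖u τ‖ / 10 + 1 / 10 * ‖τ‖ := add_le_add h1 h2
      _ ≤ 1 / 4 * ‖τ‖ := by linarith [norm_nonneg τ]
  -- differentiate `MA (s τ) = MB τ`
  have hMs : ∀ τ ∈ S, MA (s τ) = MB τ := fun τ hτ => hJ.Ms τ hτ.1 hτ.2.1 hτ.2.2
  have hAB : ∀ τ ∈ S, MA (-τ) = MB τ := fun τ hτ => hJ.AB τ hτ.1 hτ.2.1 hτ.2.2
  have hZs : ∀ τ ∈ S, ZcA (s τ) = ZcB τ := fun τ hτ => hJ.Zs τ hτ.1 hτ.2.1 hτ.2.2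
  have d1 : ∀ τ ∈ S, Complex.exp (qA (s τ)) * deriv s τ = -Complex.exp (qB τ) := by
    intro τ hτ
    have e1 : HasDerivAt (fun τ => MA (s τ)) (deriv MA (s τ) * deriv s τ) τ :=
      (hMAd (s τ) (hsm τ hτ)).hasDerivAt.comp τ (hsd τ hτ).hasDerivAt
    have e2 : HasDerivAt MB (deriv MB τ) τ := (hMBd τ (hSg τ hτ)).hasDerivAt
    have e3 : (fun τ => MA (s τ)) =ᶠ[𝓝 τ] MB := by
      filter_upwards [hSo.mem_nhds hτ] with z hz using hMs z hz
    have e4 := e1.unique (e2.congr_of_eventuallyEq e3)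
    rw [hD.sA.slope.der (s τ) (hsm τ hτ), hD.sB.slope.der τ (hSg τ hτ), hMs τ hτ, hjB] at e4
    have hne := hD.sB.slope.ne τ (hSg τ hτ)
    have e5 : 2 * jA * MB τ * (Complex.exp (qA (s τ)) * deriv s τ) =
        2 * jA * MB τ * (-Complex.exp (qB τ)) := by
      linear_combination e4
    exact mul_left_cancel₀ (mul_ne_zero (mul_ne_zero two_ne_zero hj0) hne) e5
  have hEA0 : ∀ τ ∈ Sg κ, EA τ ≠ 0 := by
    intro τ hτ h0
    have := hD.pA.E_sq τ hτ
    rw [h0] at this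
    exact hD.sA.slope.ne τ hτ (by rw [← this]; ring)
  have hEB0 : ∀ τ ∈ Sg κ, EB τ ≠ 0 := by
    intro τ hτ h0
    have := hD.pB.E_sq τ hτ
    rw [h0] at this
    exact hD.sB.slope.ne τ hτ (by rw [← this]; ring)
  have d2 : ∀ τ ∈ S, Complex.exp (-2 * qA (s τ)) / EA (s τ) * deriv s τ =
      -Complex.exp (-2 * qB τ) / EB τ := by
    intro τ hτ
    have hA : DifferentiableAt ℂ ZcA (s τ) :=
      (hD.pA.Zc_diff (s τ) (hsm τ hτ)).differentiableAt ((isOpen_Sg κ).mem_nhds (hsm τ hτ))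
    have hB : DifferentiableAt ℂ ZcB τ :=
      (hD.pB.Zc_diff τ (hSg τ hτ)).differentiableAt ((isOpen_Sg κ).mem_nhds (hSg τ hτ))
    have e1 : HasDerivAt (fun τ => ZcA (s τ)) (deriv ZcA (s τ) * deriv s τ) τ :=
      hA.hasDerivAt.comp τ (hsd τ hτ).hasDerivAt
    have e3 : (fun τ => ZcA (s τ)) =ᶠ[𝓝 τ] ZcB := by
      filter_upwards [hSo.mem_nhds hτ] with z hz using hZs z hz
    have e4 := e1.unique (hB.hasDerivAt.congr_of_eventuallyEq e3)
    rw [hD.pA.Zc_der (s τ) (hsm τ hτ), hD.pB.Zc_der τ (hSg τ hτ)] at e4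
    simpa using e4
  have d6 : ∀ τ ∈ S, deriv s τ ^ 6 = 1 := by
    intro τ hτ
    have h1 := d1 τ hτ
    have h2 := d2 τ hτ
    have hEs := hEA0 (s τ) (hsm τ hτ)
    have hEt := hEB0 τ (hSg τ hτ)
    have hsq : EA (s τ) ^ 2 = EB τ ^ 2 := by
      rw [hD.pA.E_sq _ (hsm τ hτ), hD.pB.E_sq τ (hSg τ hτ), hMs τ hτ]
    have a1 : Complex.exp (-2 * qA (s τ)) = (Complex.exp (qA (s τ)) ^ 2)⁻¹ := by
      rw [← Complex.exp_nat_mul, ← Complex.exp_neg]
      congr 1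
      push_cast
      ring
    have a2 : Complex.exp (-2 * qB τ) = (Complex.exp (qB τ) ^ 2)⁻¹ := by
      rw [← Complex.exp_nat_mul, ← Complex.exp_neg]
      congr 1
      push_cast
      ring
    have hX : Complex.exp (qA (s τ)) ≠ 0 := Complex.exp_ne_zero _
    have hY : Complex.exp (qB τ) ≠ 0 := Complex.exp_ne_zero _
    rw [a1, a2] at h2
    set X := Complex.exp (qA (s τ))
    set Y := Complex.exp (qB τ)
    set P := EA (s τ)
    set Q := EB τ
    set D := deriv s τ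
    have hYD : Y = -(X * D) := by rw [h1]; ring
    have hD0 : D ≠ 0 := by
      intro h0
      apply hY
      rw [hYD, h0]
      ring
    -- `D Q Y² = - X² P`
    have h3 : D * Q * Y ^ 2 = -(X ^ 2 * P) := by
      field_simp at h2
      linear_combination h2
    have h4 : D ^ 2 * Q ^ 2 * Y ^ 4 = X ^ 4 * P ^ 2 := by
      have : (D * Q * Y ^ 2) ^ 2 = (X ^ 2 * P) ^ 2 := by rw [h3]; ring
      linear_combination this
    rw [hsq, hYD] at h4
    have h5 : (Q ^ 2 * X ^ 4) * D ^ 6 = (Q ^ 2 * X ^ 4) * 1 := by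
      linear_combination h4
    exact mul_left_cancel₀ (mul_ne_zero (pow_ne_zero _ hEt) (pow_ne_zero _ hX)) h5
  -- `s'` is constant
  have hds : DifferentiableOn ℂ (deriv s) S := hsdo.deriv hSo
  have hdds : ∀ τ ∈ S, deriv (deriv s) τ = 0 := by
    intro τ hτ
    have hd : HasDerivAt (deriv s) (deriv (deriv s) τ) τ :=
      ((hds τ hτ).differentiableAt (hSo.mem_nhds hτ)).hasDerivAt
    have e1 : HasDerivAt (fun τ => deriv s τ ^ 6) (((6 : ℕ) : ℂ) * deriv s τ ^ (6 - 1) * deriv (deriv s) τ) τ :=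
      hd.pow 6
    have e2 : (fun τ => deriv s τ ^ 6) =ᶠ[𝓝 τ] (fun _ => (1 : ℂ)) := by
      filter_upwards [hSo.mem_nhds hτ] with z hz using d6 z hz
    have e3 := e1.unique ((hasDerivAt_const τ (1 : ℂ)).congr_of_eventuallyEq e2)
    have hne : deriv s τ ≠ 0 := by
      intro h0
      have := d6 τ hτ
      rw [h0] at this
      norm_num at this
    have h6 : ((6 : ℕ) : ℂ) * deriv s τ ^ (6 - 1) ≠ 0 :=
      mul_ne_zero (by norm_num) (pow_ne_zero _ hne)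
    exact (mul_eq_zero.1 e3).resolve_left h6
  set τ₀ : ℂ := ((ρ / 2 : ℝ) : ℂ) with hτ₀
  have hreal : ∀ x : ℝ, 0 < x → x < ρ → (x : ℂ) ∈ S := by
    intro x hx hxρ
    refine ⟨by simpa using hx, by simpa using hxρ, ?_⟩
    simp only [Complex.ofReal_im, abs_zero, Complex.ofReal_re]
    positivity
  have hτ₀S : τ₀ ∈ S := hreal _ (by linarith) (by linarith)
  have hconst : ∀ τ ∈ S, deriv s τ = deriv s τ₀ := by
    intro τ hτ
    exact hSo.is_const_of_deriv_eq_zero hSc hds hdds hτ hτ₀S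
  set ζ := deriv s τ₀ with hζ
  have haff : ∀ τ ∈ S, s τ - ζ * τ = s τ₀ - ζ * τ₀ := by
    intro τ hτ
    have hF : DifferentiableOn ℂ (fun τ => s τ - ζ * τ) S :=
      hsdo.sub (differentiableOn_id.const_mul ζ)
    have hF' : ∀ τ ∈ S, deriv (fun τ => s τ - ζ * τ) τ = 0 := by
      intro z hz
      have e := (hsd z hz).hasDerivAt.sub ((hasDerivAt_id z).const_mul ζ)
      have e' : HasDerivAt (fun τ => s τ - ζ * τ) (deriv s z - ζ * 1) z := e
      rw [e'.deriv, hconst z hz]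
      ring
    exact hSo.is_const_of_deriv_eq_zero hSc hF hF' hτ hτ₀S
  -- the constant is zero
  have hc0 : s τ₀ - ζ * τ₀ = 0 := by
    by_contra hne
    have hpos : 0 < ‖s τ₀ - ζ * τ₀‖ := norm_pos_iff.2 hne
    set c := ‖s τ₀ - ζ * τ₀‖ with hc
    set x : ℝ := min (ρ / 2) (c / (2 * (2 + ‖ζ‖))) with hx
    have hx0 : 0 < x := by
      apply lt_min (by linarith)
      have := norm_nonneg ζ
      positivity
    have hxS := hreal x hx0 (lt_of_le_of_lt (min_le_left _ _) (by linarith))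
    have e1 := haff (x : ℂ) hxS
    have e2 := hsn (x : ℂ) hxS
    have e3 : c ≤ (2 + ‖ζ‖) * x := by
      rw [hc, ← e1]
      have hxn : ‖(x : ℂ)‖ = x := by rw [Complex.norm_real, Real.norm_of_nonneg hx0.le]
      calc ‖s x - ζ * x‖ = ‖(s x - x) + (x - ζ * x)‖ := by ring_nf
        _ ≤ ‖s x - x‖ + ‖(x : ℂ) - ζ * x‖ := norm_add_le _ _
        _ ≤ 1 / 4 * ‖(x : ℂ)‖ + (‖(x : ℂ)‖ + ‖ζ * x‖) := add_le_add e2 (norm_sub_le _ _)
        _ ≤ (2 + ‖ζ‖) * x := by rw [norm_mul, hxn]; linarith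
    have e4 : x ≤ c / (2 * (2 + ‖ζ‖)) := min_le_right _ _
    have h2 : 0 < 2 + ‖ζ‖ := by have := norm_nonneg ζ; linarith
    rw [le_div_iff₀ (by positivity)] at e4
    nlinarith
  have hlin : ∀ τ ∈ S, s τ = ζ * τ := by
    intro τ hτ
    have := haff τ hτ
    rw [hc0] at this
    exact sub_eq_zero.1 this
  -- `ζ = 1`
  have hζn : ‖ζ - 1‖ ≤ 1 / 4 := by
    have e2 := hsn τ₀ hτ₀S
    rw [hlin τ₀ hτ₀S] at e2
    have e3 : ζ * τ₀ - τ₀ = (ζ - 1) * τ₀ := by ring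
    rw [e3, norm_mul] at e2
    exact le_of_mul_le_mul_right e2 (norm_pos_iff.2 (hτ0 τ₀ hτ₀S))
  have hζ6 : ζ ^ 6 = 1 := d6 τ₀ hτ₀S
  have hζ1 : ζ = 1 := by
    have hf : (ζ - 1) * (ζ ^ 5 + ζ ^ 4 + ζ ^ 3 + ζ ^ 2 + ζ + 1) = 0 := by
      linear_combination hζ6
    rcases mul_eq_zero.1 hf with h | h
    · exact sub_eq_zero.1 h
    · exfalso
      -- `ζ³ = -1` or `ζ² + ζ + 1 = 0`
      have hg : (ζ ^ 3 + 1) * (ζ ^ 2 + ζ + 1) = 0 := by linear_combination h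
      have hre : 3 / 4 ≤ ζ.re := by
        have := Complex.abs_re_le_norm (ζ - 1)
        rw [Complex.sub_re, Complex.one_re, abs_le] at this
        linarith [this.1]
      have him : |ζ.im| ≤ 1 / 4 := by
        have := Complex.abs_im_le_norm (ζ - 1)
        rw [Complex.sub_im, Complex.one_im, sub_zero] at this
        linarith
      have him2 : ζ.im ^ 2 ≤ 1 / 16 := by
        have := abs_le.1 him
        nlinarith [this.1, this.2]
      rcases mul_eq_zero.1 hg with h' | h'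
      · have hg' : (ζ + 1) * (ζ ^ 2 - ζ + 1) = 0 := by linear_combination h'
        rcases mul_eq_zero.1 hg' with h'' | h''
        · have := congrArg Complex.re h''
          simp at this
          linarith
        · -- re (ζ² - ζ + 1) = re² - im² - re + 1 > 0
          have := congrArg Complex.re h''
          simp [pow_two] at this
          nlinarith
      · have := congrArg Complex.re h'
        simp [pow_two] at this
        nlinarith
  -- the two relations on `S`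
  have r1 : ∀ τ ∈ S, Complex.exp (qB τ) = -Complex.exp (qA τ) := by
    intro τ hτ
    have h1 := d1 τ hτ
    rw [hconst τ hτ, hlin τ hτ, hζ1] at h1
    rw [one_mul, mul_one] at h1
    rw [h1]
    ring
  have r2 : ∀ τ ∈ S, Complex.exp (qA (-τ)) = Complex.exp (qB τ) := by
    intro τ hτ
    have hng : HasDerivAt (fun τ : ℂ => -τ) (-1) τ := (hasDerivAt_id τ).neg
    have e1 : HasDerivAt (fun τ => MA (-τ)) (deriv MA (-τ) * (-1)) τ :=
      (hMAd (-τ) (hSgn τ hτ)).hasDerivAt.comp τ hng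
    have e2 : HasDerivAt MB (deriv MB τ) τ := (hMBd τ (hSg τ hτ)).hasDerivAt
    have e3 : (fun τ => MA (-τ)) =ᶠ[𝓝 τ] MB := by
      filter_upwards [hSo.mem_nhds hτ] with z hz using hAB z hz
    have e4 := e1.unique (e2.congr_of_eventuallyEq e3)
    rw [hD.sA.slope.der (-τ) (hSgn τ hτ), hD.sB.slope.der τ (hSg τ hτ), hAB τ hτ, hjB] at e4
    have hne := hD.sB.slope.ne τ (hSg τ hτ)
    have e5 : 2 * jA * MB τ * Complex.exp (qA (-τ)) = 2 * jA * MB τ * Complex.exp (qB τ) := by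
      linear_combination -e4
    exact mul_left_cancel₀ (mul_ne_zero (mul_ne_zero two_ne_zero hj0) hne) e5
  -- identity theorem
  have hOo := isOpen_OvR κ'
  have hOc : IsPreconnected (OvR κ') := (convex_OvR hκ'0 hκ'1).isPreconnected
  have f1 : DifferentiableOn ℂ (fun τ => Complex.exp (qB τ)) (OvR κ') := fun τ hτ =>
    ((hqBd τ (OvR_sub_Sg hκ'κ.le hτ)).cexp).differentiableWithinAt
  have f2 : DifferentiableOn ℂ (fun τ => -Complex.exp (qA τ)) (OvR κ') := fun τ hτ =>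
    ((hqAd τ (OvR_sub_Sg hκ'κ.le hτ)).cexp.neg).differentiableWithinAt
  have f3 : DifferentiableOn ℂ (fun τ => Complex.exp (qA (-τ))) (OvR κ') := fun τ hτ => by
    have : DifferentiableAt ℂ (fun τ => qA (-τ)) τ :=
      (hqAd (-τ) (neg_OvR_sub_Sg hκ'κ.le hτ)).comp τ differentiableAt_id.neg
    exact this.cexp.differentiableWithinAt
  have g1 := (f1.analyticOnNhd hOo).eqOn_of_preconnected_of_eventuallyEq (f2.analyticOnNhd hOo) hOc
    (hSO τ₀ hτ₀S) (by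
      filter_upwards [hSo.mem_nhds hτ₀S] with z hz using r1 z hz)
  have g2 := (f3.analyticOnNhd hOo).eqOn_of_preconnected_of_eventuallyEq (f1.analyticOnNhd hOo) hOc
    (hSO τ₀ hτ₀S) (by
      filter_upwards [hSo.mem_nhds hτ₀S] with z hz using r2 z hz)
  exact ⟨1, one_pos, fun τ hτ _ => ⟨g1 hτ, g2 hτ⟩⟩

end Crest.Agent.R102.MelI6217
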