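import Mathlib
import Crest.Agent.R102.MelI4_963
import Crest.Agent.R102.ExtI_289
import Crest.Agent.R102.MelI1_231
import Crest.Agent.R102.MelI2_519
import Crest.Agent.R102.MelI5_519
import Crest.Agent.R102.MelI6_217

/-!
# Row 102, part (C), [T5]/MEL, **MEL-I**: assembly (helper963)
-/

set_option autoImplicit false

open Set Filter Topology Metric
open scoped ComplexConjugate

noncomputable section

namespace Crest.Agent.R102.MelI963

open Crest.Agent.R102.T5R Crest.Agent.R102.Mel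

/-- the constants of the two sides are opposite -/
lemma C_opp {κ : ℝ} (hκ : 0 < κ) {EA EB : ℂ → ℂ} {a b : ℂ}
    (h : ∀ τ ∈ OvR κ, EB (-τ) = EA τ)
    (hA : Tendsto (fun τ => EA τ / τ) (𝓝[Sg κ] 0) (𝓝 a))
    (hB : Tendsto (fun τ => EB τ / τ) (𝓝[Sg κ] 0) (𝓝 b)) : b = -a := by
  have h1 : Tendsto (fun t : ℝ => (t : ℂ)) (𝓝[>] 0) (𝓝 0) := by
    have : Tendsto (fun t : ℝ => (t : ℂ)) (𝓝 0) (𝓝 ((0 : ℝ) : ℂ)) :=
      Complex.continuous_ofReal.tendsto 0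
    rw [Complex.ofReal_zero] at this
    exact this.mono_left nhdsWithin_le_nhds
  have hev : ∀ᶠ t in 𝓝[>] (0 : ℝ), 0 < t ∧ t < 1 := Ioo_mem_nhdsGT one_pos
  have h2 : Tendsto (fun t : ℝ => (t : ℂ)) (𝓝[>] 0) (𝓝[Sg κ] 0) := by
    rw [tendsto_nhdsWithin_iff]
    refine ⟨h1, hev.mono fun t ht => ⟨by exact_mod_cast ht.1.ne', ?_, ?_⟩⟩
    · rw [Complex.norm_real, Real.norm_eq_abs, abs_of_pos ht.1]; exact ht.2
    · rw [Complex.norm_real, Real.norm_eq_abs, abs_of_pos ht.1, Complex.ofReal_im]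
      exact mul_pos hκ ht.1
  have h3 : Tendsto (fun t : ℝ => -(t : ℂ)) (𝓝[>] 0) (𝓝[Sg κ] 0) := by
    rw [tendsto_nhdsWithin_iff]
    refine ⟨by simpa using h1.neg, hev.mono fun t ht => ⟨?_, ?_, ?_⟩⟩
    · exact neg_ne_zero.2 (by exact_mod_cast ht.1.ne')
    · rw [norm_neg, Complex.norm_real, Real.norm_eq_abs, abs_of_pos ht.1]; exact ht.2
    · rw [norm_neg, Complex.norm_real, Real.norm_eq_abs, abs_of_pos ht.1, Complex.neg_im,
        Complex.ofReal_im, neg_zero]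
      exact mul_pos hκ ht.1
  have h4 := hA.comp h2
  have h5 := hB.comp h3
  refine tendsto_nhds_unique h5 ((h4.neg).congr' ?_)
  filter_upwards [hev] with t ht
  have hO : (t : ℂ) ∈ OvR κ := by
    refine ⟨by exact_mod_cast ht.1.ne', ?_, ?_, ?_⟩
    · rw [Complex.norm_real, Real.norm_eq_abs, abs_of_pos ht.1]; exact ht.2
    · rw [Complex.norm_real, Real.norm_eq_abs, abs_of_pos ht.1, Complex.ofReal_im, abs_zero]
      exact mul_pos hκ ht.1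
    · rw [Complex.ofReal_re]; exact ht.1
  simp only [Function.comp]
  rw [h _ hO, div_neg]

/-- **MEL-I** from (I3) -/
theorem melI_of (h3 : EInv) : MelI := by
  intro κ κ' β C cc CC l₀ qA jA MA EA ZA ZcA xA XA qB jB MB EB ZB ZcB xB XB sA sB mt nA nB
    limA limB pA pB mp
  have hκ0 : 0 < κ := sA.endq.κ_pos
  obtain ⟨a, ha0, ha1, ha2⟩ := eLim κ β C qA jA 1 MA EA ZA ZcA sA.hj sA.endq limA sA.slope pA
  obtain ⟨b, hb0, hb1, hb2⟩ := eLim κ β C qB jB (-1) MB EB ZB ZcB sB.hj sB.endq limB sB.slope pB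
  have hab : b = -a := C_opp hκ0 (fun τ hτ => (mp τ hτ).1) ha1 hb1
  rw [hab] at hb1
  obtain ⟨δ, G, hG⟩ := h3 κ κ' EA a sA.κ'_pos sA.κ'_lt sA.endq.κ_lt pA.E_diff ha0 ha1 ha2
  have hD : DatI κ κ' β C cc CC l₀ qA jA MA EA ZA ZcA xA qB jB MB EB ZB ZcB xB a δ G :=
    ⟨sA, sB, mt, limA, limB, pA, pB, mp, ha0, ha1, hb1, hG⟩
  obtain ⟨ρ, R₁, l₂, hT⟩ := trapL (ExtI289.extI_of rLimI pAn) MelI519.posF κ κ' β C cc CC l₀ qA jA
    MA EA ZA ZcA xA qB jB MB EB ZB ZcB xB a δ G hD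
  obtain ⟨ρ', hJ⟩ := MelI519.jointL κ κ' β C cc CC l₀ qA jA MA EA ZA ZcA xA XA qB jB MB EB ZB ZcB
    xB XB a δ G ρ R₁ l₂ hD nA nB hT
  exact MelI6217.finL κ κ' β C cc CC l₀ qA jA MA EA ZA ZcA xA qB jB MB EB ZB ZcB xB a δ G ρ' hD hJ

end Crest.Agent.R102.MelI963
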