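import Crest.Agent.R102.T5DefsN_160
import Crest.Agent.R102.SpineDefs_478

/-!
# Row 102, [T5]: glue `T5S` from T5-RED and MEL (helper160)

* `EndS`: the end data at a top line point on the sheet below (slit disc), scaled;
* `P1`: `PuisB` => end data with the possible exponents;
* `P2`: C1 => the family near the end (`FamN`);
* `MelS`: the three cases with vanishing leading coefficient of `K` (helper490);
* `t5S_of`.
-/

set_option autoImplicit false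

open Set Filter Topology Metric
open scoped ComplexConjugate

noncomputable section

namespace Crest.Agent.R102.T5R

open Crest.Agent.R102.Spine Crest.Agent.R102.C0 Crest.Agent.R102.C1

/-- the slit disc (slit upwards) at `s` -/
def VS (s : ℂ) (ε : ℝ) : Set ℂ := {z | ‖z - s‖ < ε ∧ Complex.I * (z - s) ∈ Complex.slitPlane}

/-- end data at the boundary point `s` of `Str h0`: `(Θ, Hh)` is the continuation of `(θ, H)` to the
slit disc `VS s ε`, `q(τ) = log (ε Θ'(s + ε τ))`, `q' = c/τ + O(‖τ‖^(β-1))`. -/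
structure EndS (h0 : ℝ) (θ H : ℂ → ℂ) (s : ℂ) (ε : ℝ) (Θ Hh q : ℂ → ℂ) (c β C : ℝ) : Prop where
  ε_pos : 0 < ε
  ε_lt : ε < h0
  Θ_diff : DifferentiableOn ℂ Θ (VS s ε)
  H_diff : DifferentiableOn ℂ Hh (VS s ε)
  Θ_eq : ∀ z ∈ VS s ε, |z.im| < h0 → Θ z = θ z
  H_eq : ∀ z ∈ VS s ε, |z.im| < h0 → Hh z = H z
  q_diff : DifferentiableOn ℂ q (VS 0 1)
  q_exp : ∀ τ ∈ VS 0 1, Complex.exp (q τ) = ε * deriv Θ (s + ε * τ)
  β_pos : 0 < β
  asym : ∀ τ ∈ VS 0 1, ‖deriv q τ - c / τ‖ ≤ C * ‖τ‖ ^ (β - 1)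

/-- isotropic leading behaviour `τ exp q → ± i m` -/
def IsoLead (q : ℂ → ℂ) (m : ℝ) : Prop :=
  ∃ j : ℂ, (j = 1 ∨ j = -1) ∧
    Tendsto (fun τ => τ * Complex.exp (q τ)) (𝓝[VS 0 1] 0) (𝓝 (j * Complex.I * m))

/-- **P1** -/
def P1 : Prop :=
  ∀ (q₀ : C(ℂ, ℂ)) (η ρ r B : ℝ) (b φ p : ℂ × ℂ → ℂ) (m₀ : ℂ → ℂ) (θ H : ℂ → ℂ) (h0 : ℝ) (s : ℂ),
    DataS q₀ η ρ r B b φ p m₀ θ H h0 → s.im = h0 → PuisB h0 θ H s →
    ∃ (ε : ℝ) (Θ Hh q : ℂ → ℂ) (c β C : ℝ), EndS h0 θ H s ε Θ Hh q c β C ∧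
      ((-1 < c ∧ c ≠ 1 / 2 ∧ c ≠ 2) ∨ (c = -1 ∧ ∃ m : ℝ, 0 < m ∧ m ≠ 3 ∧ IsoLead q m))

/-- rescaling of `q` -/
def scq (l : ℝ) (q : ℂ → ℂ) (τ : ℂ) : ℂ := q (l * τ) + Real.log l

/-- **P2** (the family near the end, after shrinking the disc) -/
def P2 : Prop :=
  ∀ (q₀ : C(ℂ, ℂ)) (η ρ r B : ℝ) (b φ p : ℂ × ℂ → ℂ) (m₀ : ℂ → ℂ) (θ H : ℂ → ℂ) (h0 : ℝ) (s : ℂ)
    (ε : ℝ) (Θ Hh q : ℂ → ℂ) (c β C : ℝ),
    DataS q₀ η ρ r B b φ p m₀ θ H h0 → s.im = h0 → EndS h0 θ H s ε Θ Hh q c β C →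
    ∃ (l κ' : ℝ) (r' B' : ℝ → ℝ) (X : ℂ × ℂ → ℂ), 0 < l ∧ l ≤ 1 ∧ 0 < κ' ∧ κ' < 1 ∧
      FamN κ' (PsiQ (scq l q)) r' B' X

/-- **MEL** -/
def MelS : Prop :=
  ∀ (q₀ : C(ℂ, ℂ)) (η ρ r B : ℝ) (b φ p : ℂ × ℂ → ℂ) (m₀ : ℂ → ℂ) (θ H : ℂ → ℂ) (h0 : ℝ) (s : ℂ)
    (ε : ℝ) (Θ Hh q : ℂ → ℂ) (c β C : ℝ),
    DataS q₀ η ρ r B b φ p m₀ θ H h0 → (∀ s' : ℂ, s'.im = h0 → PuisB h0 θ H s') → s.im = h0 →
    EndS h0 θ H s ε Θ Hh q c β C → (c = 0 ∨ c = 1 ∨ (c = -1 ∧ IsoLead q 1)) →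
    RegB h0 θ H s ∨ NiceB h0 θ s

theorem Sg_sub_VS {κ : ℝ} (hκ : κ < 1) : Sg κ ⊆ VS 0 1 := by
  intro τ hτ
  obtain ⟨h0, h1, h2⟩ := hτ
  refine ⟨by simpa using h1, ?_⟩
  rw [Complex.mem_slitPlane_iff]
  simp only [sub_zero, Complex.mul_re, Complex.I_re, zero_mul, Complex.I_im, one_mul, zero_sub,
    Complex.mul_im, zero_add]
  by_contra hcon
  push Not at hcon
  obtain ⟨h3, h4⟩ := hcon
  have him : 0 ≤ τ.im := by linarith
  have hn : ‖τ‖ = τ.im := by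
    have e : τ = (τ.im : ℂ) * Complex.I := by
      apply Complex.ext
      · simp only [Complex.mul_re, Complex.ofReal_re, Complex.I_re, mul_zero, Complex.ofReal_im,
          Complex.I_im, mul_one, sub_self]
        simpa using h4
      · simp
    rw [e, norm_mul, Complex.norm_I, mul_one, Complex.norm_real, Real.norm_of_nonneg him]
    simp
  have hpos : 0 < ‖τ‖ := norm_pos_iff.2 h0
  rw [hn] at h2 hpos
  nlinarith

theorem EndS.endQ {h0 : ℝ} {θ H : ℂ → ℂ} {s : ℂ} {ε : ℝ} {Θ Hh q : ℂ → ℂ} {c β C : ℝ}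
    (h : EndS h0 θ H s ε Θ Hh q c β C) {κ : ℝ} (hκ : 0 < κ) (hκ1 : κ < 1) : EndQ κ c β C q :=
  ⟨hκ, hκ1, h.β_pos, h.q_diff.mono (Sg_sub_VS hκ1), fun τ hτ => h.asym τ (Sg_sub_VS hκ1 hτ)⟩

theorem VS_scale {l : ℝ} (hl : 0 < l) (hl1 : l ≤ 1) {τ : ℂ} (hτ : τ ∈ VS 0 1) :
    (l : ℂ) * τ ∈ VS 0 1 := by
  obtain ⟨h1, h2⟩ := hτ
  rw [sub_zero] at h1 h2
  refine ⟨?_, ?_⟩
  · rw [sub_zero, norm_mul, Complex.norm_real, Real.norm_of_nonneg hl.le]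
    nlinarith [norm_nonneg τ]
  · rw [sub_zero, Complex.mem_slitPlane_iff]
    rw [Complex.mem_slitPlane_iff] at h2
    have e : Complex.I * ((l : ℂ) * τ) = (l : ℂ) * (Complex.I * τ) := by ring
    rw [e, Complex.re_ofReal_mul, Complex.im_ofReal_mul]
    rcases h2 with h | h
    · exact Or.inl (mul_pos hl h)
    · exact Or.inr (mul_ne_zero hl.ne' h)

theorem EndS.scale {h0 : ℝ} {θ H : ℂ → ℂ} {s : ℂ} {ε : ℝ} {Θ Hh q : ℂ → ℂ} {c β C : ℝ}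
    (h : EndS h0 θ H s ε Θ Hh q c β C) {l : ℝ} (hl : 0 < l) (hl1 : l ≤ 1) :
    EndS h0 θ H s (l * ε) Θ Hh (scq l q) c β (C * l ^ β) := by
  have hsub : VS s (l * ε) ⊆ VS s ε := by
    intro z hz
    refine ⟨hz.1.trans_le ?_, hz.2⟩
    nlinarith [h.ε_pos]
  have hlc : (l : ℂ) ≠ 0 := by exact_mod_cast hl.ne'
  refine ⟨mul_pos hl h.ε_pos, ?_, h.Θ_diff.mono hsub, h.H_diff.mono hsub,
    fun z hz => h.Θ_eq z (hsub hz), fun z hz => h.H_eq z (hsub hz), ?_, ?_, h.β_pos, ?_⟩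
  · nlinarith [h.ε_pos, h.ε_lt]
  · refine (h.q_diff.comp (by fun_prop) ?_).add_const _
    intro τ hτ
    exact VS_scale hl hl1 hτ
  · intro τ hτ
    have := h.q_exp _ (VS_scale hl hl1 hτ)
    unfold scq
    rw [Complex.exp_add, this, ← Complex.ofReal_exp, Real.exp_log hl]
    push_cast
    have e : s + ε * ((l : ℂ) * τ) = s + (l : ℂ) * ε * τ := by ring
    rw [e]; ring
  · intro τ hτ
    have hne : τ ≠ 0 := by
      rintro rfl
      have := hτ.2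
      simp [Complex.mem_slitPlane_iff] at this
    have hd : DifferentiableAt ℂ q (l * τ) := by
      refine h.q_diff.differentiableAt (IsOpen.mem_nhds ?_ (VS_scale hl hl1 hτ))
      have : VS 0 1 = {z : ℂ | ‖z - 0‖ < 1} ∩ (fun z => Complex.I * (z - 0)) ⁻¹' Complex.slitPlane := by
        ext z; simp [VS]
      rw [this]
      refine IsOpen.inter (isOpen_lt (by fun_prop) continuous_const)
        (Complex.isOpen_slitPlane.preimage (by fun_prop))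
    have e1 : deriv (scq l q) τ = l * deriv q (l * τ) := by
      unfold scq
      rw [deriv_add_const]
      have := deriv_comp_mul_left (l : ℂ) q τ
      simpa [smul_eq_mul] using this
    rw [e1]
    have e2 : (l : ℂ) * deriv q (l * τ) - c / τ = l * (deriv q (l * τ) - c / (l * τ)) := by
      field_simp
    rw [e2, norm_mul, Complex.norm_real, Real.norm_of_nonneg hl.le]
    have h3 := h.asym _ (VS_scale hl hl1 hτ)
    rw [norm_mul, Complex.norm_real, Real.norm_of_nonneg hl.le] at h3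
    calc l * ‖deriv q (l * τ) - c / (l * τ)‖ ≤ l * (C * (l * ‖τ‖) ^ (β - 1)) := by gcongr
      _ = C * l ^ β * ‖τ‖ ^ (β - 1) := by
        rw [Real.mul_rpow hl.le (norm_nonneg _)]
        have : l ^ β = l * l ^ (β - 1) := by
          rw [← Real.rpow_one_add' hl.le (by simpa using h.β_pos.ne')]
          congr 1; ring
        rw [this]; ring

theorem IsoLead.scale {q : ℂ → ℂ} {m : ℝ} (h : IsoLead q m) {l : ℝ} (hl : 0 < l) (hl1 : l ≤ 1) :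
    IsoLead (scq l q) m := by
  obtain ⟨j, hj, ht⟩ := h
  refine ⟨j, hj, ?_⟩
  have h1 : Tendsto (fun τ : ℂ => (l : ℂ) * τ) (𝓝[VS 0 1] 0) (𝓝[VS 0 1] 0) := by
    refine tendsto_nhdsWithin_iff.2 ⟨?_, ?_⟩
    · have : Tendsto (fun τ : ℂ => (l : ℂ) * τ) (𝓝 0) (𝓝 (l * 0)) :=
        (continuous_const.mul continuous_id).tendsto 0
      rw [mul_zero] at this
      exact this.mono_left nhdsWithin_le_nhds
    · filter_upwards [self_mem_nhdsWithin] with τ hτ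
      exact VS_scale hl hl1 hτ
  have h2 := ht.comp h1
  refine h2.congr (fun τ => ?_)
  simp only [Function.comp_apply, scq]
  rw [Complex.exp_add, ← Complex.ofReal_exp, Real.exp_log hl]
  ring

/-- **T5S** -/
theorem t5S_of (h1 : P1) (h2 : P2) (hF : T5FN) (hI : T5IN) (hM : MelS) : T5S := by
  intro q₀ η ρ r B b φ p m₀ θ H h0 hD hP s hs
  obtain ⟨ε, Θ, Hh, q, c, β, C, hE, hc⟩ := h1 q₀ η ρ r B b φ p m₀ θ H h0 s hD hs (hP s hs)
  obtain ⟨l, κ', r', B', X, hl, hl1, hκ', hκ1, hX⟩ :=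
    h2 q₀ η ρ r B b φ p m₀ θ H h0 s ε Θ Hh q c β C hD hs hE
  have hE' := hE.scale hl hl1
  have hQ : EndQ ((1 + κ') / 2) c β (C * l ^ β) (scq l q) := hE'.endQ (by linarith) (by linarith)
  refine hM q₀ η ρ r B b φ p m₀ θ H h0 s (l * ε) Θ Hh (scq l q) c β _ hD hP hs hE' ?_
  rcases hc with ⟨hc1, hc2, hc3⟩ | ⟨hc1, m, hm, hm3, hlead⟩
  · rcases hF _ κ' c β _ (scq l q) r' B' X hκ' (by linarith) hQ hX hc1 hc2 hc3 with h | h
    · exact Or.inl h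
    · exact Or.inr (Or.inl h)
  · subst hc1
    obtain ⟨j, hj, hl0⟩ := hlead.scale hl hl1
    have hl' : Tendsto (fun τ => τ * Complex.exp (scq l q τ)) (𝓝[Sg ((1 + κ') / 2)] 0)
        (𝓝 (j * Complex.I * m)) := hl0.mono_left (nhdsWithin_mono _ (Sg_sub_VS (by linarith)))
    have hm1 := hI _ κ' β _ m j (scq l q) r' B' X hκ' (by linarith) hQ hX hm hm3 hj hl'
    right; right
    refine ⟨rfl, j, hj, ?_⟩
    rw [hm1] at hl0
    exact hl0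

end Crest.Agent.R102.T5R
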