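import Mathlib
import Crest.Agent.R102.EndZ_416
import Crest.Agent.R102.T5End_160
import Crest.Agent.R102.C1G_821

/-!
Row 102, part (C), T5: **P1** (literal of `T5End_160`): a Puiseux end of the top line gives the end
data on the slit disc, with the possible exponents.
-/

set_option autoImplicit false

namespace Crest.Agent.R102.End416

open Set Filter Topology Metric
open Crest.Agent.R102.Pain416 (HD bl bl_basis HD_mem HD_mono isOpen_HD convex_HD path_mem)
open Crest.Agent.R102.T5R (VS IsoLead)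

noncomputable section

lemma log_ball {e : ℂ → ℂ} {r : ℝ} (hr : 0 < r) (he : ∀ σ ∈ ball (0 : ℂ) r, AnalyticAt ℂ e σ)
    (h0 : ∀ σ ∈ ball (0 : ℂ) r, e σ ≠ 0) :
    ∃ L : ℂ → ℂ, (∀ σ ∈ ball (0 : ℂ) r, HasDerivAt L (deriv e σ / e σ) σ) ∧
      ∀ σ ∈ ball (0 : ℂ) r, Complex.exp (L σ) = e σ := by
  have h1 : DifferentiableOn ℂ (fun z => deriv e z / e z) (ball 0 r) := fun z hz =>
    ((he z hz).deriv.differentiableAt.div (he z hz).differentiableAt (h0 z hz)).differentiableWithinAt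
  obtain ⟨g, hg0, hg⟩ := h1.isExactOn_ball.with_val_at 0 (Complex.log (e 0))
  have ha : (0 : ℂ) ∈ ball (0 : ℂ) r := mem_ball_self hr
  refine ⟨g, hg, ?_⟩
  have hd : ∀ z ∈ ball (0 : ℂ) r, HasDerivAt (fun z => e z * Complex.exp (-g z)) 0 z := by
    intro z hz
    have h2 := ((he z hz).differentiableAt.hasDerivAt).mul ((hg z hz).neg.cexp)
    have h3 : e z * (deriv e z / e z) = deriv e z := mul_div_cancel₀ _ (h0 z hz)
    have h4 : deriv e z * Complex.exp (-g z) +
        e z * (Complex.exp (-g z) * -(deriv e z / e z)) = 0 := by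
      linear_combination (-Complex.exp (-g z)) * h3
    exact h2.congr_deriv h4
  intro z hz
  have hconst : e z * Complex.exp (-g z) = e 0 * Complex.exp (-g 0) := by
    exact (convex_ball (0 : ℂ) r).is_const_of_fderivWithin_eq_zero (𝕜 := ℂ)
      (f := fun z => e z * Complex.exp (-g z))
      (fun z hz => (hd z hz).differentiableAt.differentiableWithinAt) (fun z hz => by
        rw [fderivWithin_of_isOpen isOpen_ball hz]
        have := (hd z hz).hasFDerivAt.fderiv
        rw [this]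
        ext; simp) hz ha
  rw [hg0, Complex.exp_neg, Complex.exp_neg, Complex.exp_log (h0 0 ha),
    mul_inv_cancel₀ (h0 0 ha)] at hconst
  have h4 := Complex.exp_ne_zero (g z)
  field_simp at hconst
  exact hconst.symm

variable {θ H : ℂ → ℂ} {s : ℂ} {n : ℕ} {r : ℝ} {a k : ℤ} {e g f : ℂ → ℂ}

lemma isOpen_VS (s : ℂ) (ε : ℝ) : IsOpen (VS s ε) := by
  have h1 : IsOpen {z : ℂ | ‖z - s‖ < ε} := isOpen_lt (by fun_prop) continuous_const
  have h2 : IsOpen {z : ℂ | Complex.I * (z - s) ∈ Complex.slitPlane} :=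
    Complex.isOpen_slitPlane.preimage (by fun_prop)
  exact h1.inter h2

lemma sgS_ne (hn : 0 < n) {z : ℂ} (h : Complex.I * (z - s) ∈ Complex.slitPlane) :
    sg n s z ≠ 0 := by
  intro h0
  have := sg_pow (s := s) hn z
  rw [h0, zero_pow hn.ne'] at this
  exact Complex.slitPlane_ne_zero h this.symm

lemma sgS_deriv (hn : 0 < n) {z : ℂ} (h : Complex.I * (z - s) ∈ Complex.slitPlane) :
    HasDerivAt (sg n s) (Complex.I / (n * sg n s z ^ (n - 1))) z := by
  have h1 : HasDerivAt (fun z : ℂ => Complex.I * (z - s)) Complex.I z := by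
    simpa using ((hasDerivAt_id z).sub_const s).const_mul Complex.I
  have h2 := h1.cpow_const (c := 1 / (n : ℂ)) h
  have hne := Complex.slitPlane_ne_zero h
  have hnC : (n : ℂ) ≠ 0 := by exact_mod_cast hn.ne'
  have hs := sgS_ne hn h
  refine h2.congr_deriv ?_
  rw [Complex.cpow_sub _ _ hne, Complex.cpow_one]
  have h3 : (Complex.I * (z - s)) ^ (1 / (n : ℂ)) = sg n s z := rfl
  rw [h3, ← sg_pow (s := s) hn z]
  obtain ⟨m, rfl⟩ : ∃ m, n = m + 1 := ⟨n - 1, by omega⟩
  simp only [Nat.add_sub_cancel]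
  rw [pow_succ]
  field_simp

/-- `σ^a = exp ((a/n) log (i (z - s)))` -/
lemma sg_zpow (a : ℤ) {z : ℂ} (h : Complex.I * (z - s) ∈ Complex.slitPlane) :
    sg n s z ^ a = Complex.exp ((a / n : ℂ) * Complex.log (Complex.I * (z - s))) := by
  unfold sg
  rw [Complex.cpow_def_of_ne_zero (Complex.slitPlane_ne_zero h), ← Complex.exp_int_mul]
  congr 1
  ring

namespace EndS

lemma mem_of_VS (D : EndS θ H s n r a k e g f) {z : ℂ} (h : z ∈ VS s (r ^ n)) :
    sg n s z ∈ ball (0 : ℂ) r ∧ sg n s z ≠ 0 := by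
  refine ⟨?_, sgS_ne D.n_pos h.2⟩
  rw [mem_ball_zero_iff]
  exact sg_lt D.n_pos D.r_pos h.1

/-- continuation of `θ` to the slit disc -/
theorem cont (D : EndS θ H s n r a k e g f) (hθ : DifferentiableOn ℂ θ (HD s (r ^ n))) :
    ∃ Θ : ℂ → ℂ, (∀ z ∈ VS s (r ^ n), HasDerivAt Θ (Es k g (sg n s z)) z) ∧
      (∀ z ∈ VS s (r ^ n), Complex.exp (Complex.I * Θ z) = Es a e (sg n s z)) ∧
      ∀ z ∈ HD s (r ^ n), Θ z = θ z := by
  obtain ⟨L, hL, hLe⟩ := log_ball D.r_pos D.e_an D.e_ne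
  have hn := D.n_pos
  have hnC : (n : ℂ) ≠ 0 := by exact_mod_cast hn.ne'
  set Θ0 : ℂ → ℂ := fun z => -Complex.I * ((a / n : ℂ) * Complex.log (Complex.I * (z - s)) +
    L (sg n s z)) with hΘ0
  have hexp : ∀ z ∈ VS s (r ^ n), Complex.exp (Complex.I * Θ0 z) = Es a e (sg n s z) := by
    intro z hz
    have h1 : Complex.I * Θ0 z = (a / n : ℂ) * Complex.log (Complex.I * (z - s)) +
        L (sg n s z) := by
      simp only [hΘ0]
      linear_combination (-((a / n : ℂ) * Complex.log (Complex.I * (z - s)) + L (sg n s z))) *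
        Complex.I_sq
    rw [h1, Complex.exp_add, hLe _ (D.mem_of_VS hz).1, Es, sg_zpow a hz.2]
  have hdiff : ∀ z ∈ VS s (r ^ n), DifferentiableAt ℂ Θ0 z := by
    intro z hz
    have h1 : HasDerivAt (fun z : ℂ => Complex.I * (z - s)) Complex.I z := by
      simpa using ((hasDerivAt_id z).sub_const s).const_mul Complex.I
    have h2 := (h1.clog hz.2).differentiableAt
    have h3 := ((hL _ (D.mem_of_VS hz).1).comp z (sgS_deriv hn hz.2)).differentiableAt
    exact ((h2.const_mul _).add h3).const_mul _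
  have hder : ∀ z ∈ VS s (r ^ n), HasDerivAt Θ0 (Es k g (sg n s z)) z := by
    intro z hz
    have h1 := (hdiff z hz).hasDerivAt
    have h2 := (h1.const_mul Complex.I).cexp
    have h3 : (fun z => Complex.exp (Complex.I * Θ0 z)) =ᶠ[𝓝 z] fun z => Es a e (sg n s z) := by
      filter_upwards [(isOpen_VS s (r ^ n)).mem_nhds hz] with z' hz' using hexp z' hz'
    obtain ⟨hm1, hm2⟩ := D.mem_of_VS hz
    have h4 := ((D.Es_anE hm1 hm2).differentiableAt.hasDerivAt).comp z (sgS_deriv hn hz.2)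
    have h5 := h2.unique (h4.congr_of_eventuallyEq h3)
    rw [hexp z hz, D.dE _ hm1 hm2] at h5
    have h6 := D.E_ne hm1 hm2
    have h7 : sg n s z ^ (n - 1) ≠ 0 := pow_ne_zero _ hm2
    have hI := Complex.I_ne_zero
    have h8 : deriv Θ0 z = Es k g (sg n s z) := by
      field_simp at h5
      exact h5
    rw [← h8]
    exact h1
  have hsub : ∀ z ∈ HD s (r ^ n), z ∈ VS s (r ^ n) := by
    intro z hz
    refine ⟨?_, slit_of hz.2⟩
    have := hz.1
    rwa [mem_ball, dist_eq_norm] at this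
  -- the constant
  have hrn : 0 < r ^ n := pow_pos D.r_pos n
  have hz1 : s + (r ^ n / 2 : ℝ) * (-Complex.I) ∈ HD s (r ^ n) :=
    path_mem (by simp) (by simp) (by linarith) (by linarith)
  set z1 := s + (r ^ n / 2 : ℝ) * (-Complex.I) with hz1d
  have hconst : ∀ z ∈ HD s (r ^ n), θ z - Θ0 z = θ z1 - Θ0 z1 := by
    intro z hz
    have hd : ∀ z ∈ HD s (r ^ n), HasDerivAt (fun z => θ z - Θ0 z) 0 z := by
      intro z hz
      have h1 := ((hθ z hz).differentiableAt ((isOpen_HD _ _).mem_nhds hz)).hasDerivAt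
      rw [D.y_eq z hz] at h1
      have h2 := h1.sub (hder z (hsub z hz))
      rw [sub_self] at h2
      exact h2
    exact (convex_HD s (r ^ n)).is_const_of_fderivWithin_eq_zero (𝕜 := ℂ)
      (f := fun z => θ z - Θ0 z)
      (fun z hz => (hd z hz).differentiableAt.differentiableWithinAt) (fun z hz => by
        rw [fderivWithin_of_isOpen (isOpen_HD _ _) hz]
        have := (hd z hz).hasFDerivAt.fderiv
        rw [this]
        ext; simp) hz hz1
  have hc : Complex.exp (Complex.I * (θ z1 - Θ0 z1)) = 1 := by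
    rw [mul_sub, Complex.exp_sub, D.E_eq z1 hz1, hexp z1 (hsub z1 hz1)]
    obtain ⟨hm1, hm2⟩ := D.mem_of_VS (hsub z1 hz1)
    exact div_self (D.E_ne hm1 hm2)
  refine ⟨fun z => Θ0 z + (θ z1 - Θ0 z1), fun z hz => (hder z hz).add_const _, fun z hz => ?_,
    fun z hz => ?_⟩
  · rw [mul_add, Complex.exp_add, hc, mul_one, hexp z hz]
  · rw [← hconst z hz]
    ring

/-- the logarithm `q` -/
theorem logq (D : EndS θ H s n r a k e g f) {ε : ℝ} (hε : 0 < ε) (hεr : ε < r ^ n) :
    ∃ (q : ℂ → ℂ) (C : ℝ), DifferentiableOn ℂ q (VS 0 1) ∧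
      (∀ τ ∈ VS 0 1, Complex.exp (q τ) = ε * Es k g (sg n s (s + ε * τ))) ∧
      ∀ τ ∈ VS 0 1, ‖deriv q τ - (((k / n : ℝ)) : ℂ) / τ‖ ≤ C * ‖τ‖ ^ ((n : ℝ)⁻¹ - 1) := by
  obtain ⟨L, hL, hLe⟩ := log_ball D.r_pos D.g_an D.g_ne
  have hn := D.n_pos
  have hnC : (n : ℂ) ≠ 0 := by exact_mod_cast hn.ne'
  have hnR : (0 : ℝ) < n := by exact_mod_cast hn
  have hεC : (ε : ℂ) ≠ 0 := by exact_mod_cast hε.ne'
  -- points
  have hmem : ∀ τ ∈ VS 0 1, s + ε * τ ∈ VS s (r ^ n) := by
    intro τ hτ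
    obtain ⟨h1, h2⟩ := hτ
    refine ⟨?_, ?_⟩
    · rw [add_sub_cancel_left, norm_mul, Complex.norm_real, Real.norm_of_nonneg hε.le]
      rw [sub_zero] at h1
      nlinarith [norm_nonneg τ]
    · rw [add_sub_cancel_left]
      rw [sub_zero] at h2
      have h3 : Complex.I * (ε * τ) = ε * (Complex.I * τ) := by ring
      rw [h3, Complex.mem_slitPlane_iff] at *
      rcases h2 with h2 | h2
      · left
        rw [Complex.re_ofReal_mul]
        positivity
      · right
        rw [Complex.im_ofReal_mul]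
        exact mul_ne_zero hε.ne' h2
  -- the radius in `σ`
  set r' : ℝ := ε ^ ((n : ℝ)⁻¹) with hr'
  have hr'n : r' ^ n = ε := Real.rpow_inv_natCast_pow hε.le hn.ne'
  have hr'p : 0 < r' := Real.rpow_pos_of_pos hε _
  have hr'r : r' < r := lt_of_pow_lt_pow_left₀ n D.r_pos.le (by rw [hr'n]; exact hεr)
  obtain ⟨M, hM⟩ := (isCompact_closedBall (0 : ℂ) r').exists_bound_of_continuousOn
    (f := fun σ => deriv g σ / g σ) (fun σ hσ => by
      have hσ' : σ ∈ ball (0 : ℂ) r := closedBall_subset_ball hr'r hσ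
      exact ((D.g_an σ hσ').deriv.continuousAt.div (D.g_an σ hσ').continuousAt
        (D.g_ne σ hσ')).continuousWithinAt)
  have hM0 : 0 ≤ M := (norm_nonneg _).trans (hM 0 (mem_closedBall_self hr'p.le))
  have hder : ∀ τ ∈ VS 0 1, HasDerivAt (fun τ : ℂ => (Real.log ε : ℂ) +
      (k / n : ℂ) * Complex.log (Complex.I * ((s + ε * τ) - s)) + L (sg n s (s + ε * τ)))
      ((k / n : ℂ) / τ + deriv g (sg n s (s + ε * τ)) / g (sg n s (s + ε * τ)) *
        (Complex.I / (n * sg n s (s + ε * τ) ^ (n - 1)) * ε)) τ := by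
    intro τ hτ
    have hm := hmem τ hτ
    have h0 : HasDerivAt (fun τ : ℂ => s + ε * τ) (ε : ℂ) τ := by
      simpa using ((hasDerivAt_id τ).const_mul (ε : ℂ)).const_add s
    have h1 : HasDerivAt (fun τ : ℂ => Complex.I * ((s + ε * τ) - s)) (Complex.I * ε) τ :=
      (h0.sub_const s).const_mul Complex.I
    have h2 := (h1.clog hm.2).const_mul (k / n : ℂ)
    have h3 := (hL _ (D.mem_of_VS hm).1).comp τ ((sgS_deriv hn hm.2).comp τ h0)
    have h4 := (h2.const_add (Real.log ε : ℂ)).add h3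
    refine h4.congr_deriv ?_
    have hτ0 : τ ≠ 0 := by
      rintro rfl
      have := hτ.2
      simp at this
    have hI := Complex.I_ne_zero
    congr 1
    rw [add_sub_cancel_left]
    field_simp
  refine ⟨fun τ => (Real.log ε : ℂ) +
    (k / n : ℂ) * Complex.log (Complex.I * ((s + ε * τ) - s)) + L (sg n s (s + ε * τ)),
    M / n * r', fun τ hτ => (hder τ hτ).differentiableAt.differentiableWithinAt, ?_, ?_⟩
  · intro τ hτ
    have hm := hmem τ hτ
    rw [Complex.exp_add, Complex.exp_add, hLe _ (D.mem_of_VS hm).1, ← Complex.ofReal_exp,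
      Real.exp_log hε, Es, sg_zpow k hm.2]
    ring
  · intro τ hτ
    have hm := hmem τ hτ
    have hτ0 : τ ≠ 0 := by
      rintro rfl
      have := hτ.2
      simp at this
    have hτn : 0 < ‖τ‖ := norm_pos_iff.2 hτ0
    have hτ1 : ‖τ‖ < 1 := by simpa using hτ.1
    rw [(hder τ hτ).deriv]
    have h1 : (((k / n : ℝ)) : ℂ) = (k / n : ℂ) := by push_cast; rfl
    rw [h1, add_sub_cancel_left, norm_mul, norm_mul, norm_div Complex.I, norm_mul, norm_pow,
      Complex.norm_I, Complex.norm_natCast, Complex.norm_real, Real.norm_of_nonneg hε.le]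
    set σ := sg n s (s + ε * τ) with hσ
    have hσn : ‖σ‖ ^ n = ε * ‖τ‖ := by
      rw [hσ, sg_norm hn, add_sub_cancel_left, norm_mul, Complex.norm_real,
        Real.norm_of_nonneg hε.le]
    have hσ0 : 0 < ‖σ‖ := norm_pos_iff.2 (D.mem_of_VS hm).2
    have hσr : ‖σ‖ ≤ r' := by
      refine le_of_pow_le_pow_left₀ hn.ne' hr'p.le ?_
      rw [hσn, hr'n]
      nlinarith
    have hMσ := hM σ (by rwa [mem_closedBall_zero_iff])
    have hσe : ‖σ‖ = r' * ‖τ‖ ^ ((n : ℝ)⁻¹) := by
      rw [hr', ← Real.mul_rpow hε.le hτn.le, ← hσn, Real.pow_rpow_inv_natCast hσ0.le hn.ne']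
    have h2 : 1 / (n * ‖σ‖ ^ (n - 1)) * ε = ‖σ‖ / (n * ‖τ‖) := by
      have h3 : ‖σ‖ ^ n = ‖σ‖ ^ (n - 1) * ‖σ‖ := by
        obtain ⟨m, hm'⟩ : ∃ m, n = m + 1 := ⟨n - 1, by omega⟩
        rw [hm', Nat.add_sub_cancel, pow_succ]
      rw [h3] at hσn
      have h4 : 0 < ‖σ‖ ^ (n - 1) := pow_pos hσ0 _
      field_simp
      linear_combination (-1) * hσn
    rw [h2]
    have h5 : ‖τ‖ ^ ((n : ℝ)⁻¹ - 1) = ‖τ‖ ^ ((n : ℝ)⁻¹) / ‖τ‖ := by
      rw [Real.rpow_sub hτn, Real.rpow_one]
    rw [h5, hσe]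
    calc ‖deriv g σ / g σ‖ * (r' * ‖τ‖ ^ ((n : ℝ)⁻¹) / (n * ‖τ‖))
        ≤ M * (r' * ‖τ‖ ^ ((n : ℝ)⁻¹) / (n * ‖τ‖)) := by
          refine mul_le_mul_of_nonneg_right hMσ ?_
          positivity
      _ = M / n * r' * (‖τ‖ ^ ((n : ℝ)⁻¹) / ‖τ‖) := by
          field_simp

end EndS

open Crest.Agent.R102.T5 Crest.Agent.R102.G576 Crest.Agent.R102.A929 Crest.Agent.R102.B821
open Crest.Agent.R102.C0 Crest.Agent.R102.C1 Crest.Agent.R102.Spine

/-- the `σ`-chart of a Puiseux point of the top line -/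
theorem endS_of_puisB {q₀ : C(ℂ, ℂ)} {η : ℝ} {θ H : ℂ → ℂ} {h0 : ℝ} {s : ℂ} (hD : Datum q₀ η)
    (hle : η ≤ h0) (hV : VExt q₀ η (Str h0) θ H) (hs : s.im = h0) (hP : PuisB h0 θ H s) :
    ∃ (n : ℕ) (r : ℝ) (a k : ℤ) (e g f : ℂ → ℂ), r ^ n ≤ h0 ∧ EndS θ H s n r a k e g f ∧
      DifferentiableOn ℂ θ (HD s (r ^ n)) ∧ DifferentiableOn ℂ H (HD s (r ^ n)) := by
  have hh0 : 0 < h0 := lt_of_lt_of_le hD.η_pos hle
  obtain ⟨n, hn, E, F, hE, hF, hEF⟩ := hP
  have hLZ := (zeroY q₀ η (Str h0) θ H hD hV).1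
  have hsub : ∀ z ∈ HD s h0, z ∈ Str h0 := by
    intro z hz
    have h1 := hz.1
    have h2 : z.im < s.im := hz.2
    rw [mem_ball, dist_eq_norm] at h1
    have h3 := (Complex.abs_im_le_norm (z - s)).trans_lt h1
    rw [Complex.sub_im, abs_lt] at h3
    change |z.im| < h0
    rw [abs_lt]
    constructor
    · linarith [h3.1]
    · linarith
  have hHDm : HD s h0 ∈ bl s := HD_mem hh0
  obtain ⟨r, a, k, e, g, f, hr, D⟩ := exists_endS (s := s) (n := n) (θ := θ) (H := H)
    (by filter_upwards [hHDm] with z hz using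
          hV.θ_diff.differentiableAt (hV.open'.mem_nhds (hsub z hz)))
    (by filter_upwards [hHDm] with z hz using hLZ z (hsub z hz)) hn hE hF
    (by
      have h1 : ∀ᶠ z in bl s, |z.im| < h0 → _ := nhdsWithin_le_nhds hEF
      filter_upwards [h1, hHDm] with z h2 h3 using h2 (hsub z h3)) hh0
  exact ⟨n, r, a, k, e, g, f, hr, D,
    hV.θ_diff.mono fun z hz => hsub z (HD_mono hr hz),
    hV.H_diff.mono fun z hz => hsub z (HD_mono hr hz)⟩

/-- **P1** -/
theorem p1 : Crest.Agent.R102.T5R.P1 := by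
  intro q₀ η ρ r₀ B b φ p m₀ θ H h0 s hD hs hP
  obtain ⟨n, r, a, k, e, g, f, hr, D, hθ, hH⟩ := endS_of_puisB hD.fam.dat hD.le hD.ext hs hP
  have hn := D.n_pos
  have hnR : (0 : ℝ) < n := by exact_mod_cast hn
  have hrp := D.r_pos
  set ε : ℝ := (r / 2) ^ n with hε
  have hεp : 0 < ε := by positivity
  have hεr : ε < r ^ n := pow_lt_pow_left₀ (by linarith) (by positivity) hn.ne'
  have hVS : VS s ε ⊆ VS s (r ^ n) := fun z hz => ⟨hz.1.trans hεr, hz.2⟩
  obtain ⟨Θ, hΘ1, hΘ2, hΘ3⟩ := D.cont hθ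
  obtain ⟨q, C, hq1, hq2, hq3⟩ := D.logq hεp hεr
  have hHD : ∀ z ∈ VS s ε, |z.im| < h0 → z ∈ HD s (r ^ n) := by
    intro z hz h1
    refine ⟨?_, ?_⟩
    · rw [mem_ball, dist_eq_norm]
      exact (hVS hz).1
    · change z.im < s.im
      rw [hs]
      exact (abs_lt.1 h1).2
  have hmem : ∀ τ ∈ VS 0 1, s + ε * τ ∈ VS s ε := by
    intro τ hτ
    obtain ⟨h1, h2⟩ := hτ
    refine ⟨?_, ?_⟩
    · rw [add_sub_cancel_left, norm_mul, Complex.norm_real, Real.norm_of_nonneg hεp.le]
      rw [sub_zero] at h1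
      nlinarith [norm_nonneg τ]
    · rw [add_sub_cancel_left]
      rw [sub_zero] at h2
      have h3 : Complex.I * (ε * τ) = ε * (Complex.I * τ) := by ring
      rw [h3, Complex.mem_slitPlane_iff] at *
      rcases h2 with h2 | h2
      · left
        rw [Complex.re_ofReal_mul]
        positivity
      · right
        rw [Complex.im_ofReal_mul]
        exact mul_ne_zero hεp.ne' h2
  refine ⟨ε, Θ, fun z => f (sg n s z), q, (k / n : ℝ), (n : ℝ)⁻¹, C, ⟨hεp, hεr.trans_le hr,
    fun z hz => (hΘ1 z (hVS hz)).differentiableAt.differentiableWithinAt, ?_, ?_, ?_, hq1, ?_,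
    by positivity, hq3⟩, ?_⟩
  · intro z hz
    obtain ⟨h1, h2⟩ := D.mem_of_VS (hVS hz)
    exact ((D.f_an _ h1 h2).differentiableAt.comp z
      (sgS_deriv hn hz.2).differentiableAt).differentiableWithinAt
  · exact fun z hz h1 => hΘ3 z (hHD z hz h1)
  · exact fun z hz h1 => (D.H_eq z (hHD z hz h1)).symm
  · intro τ hτ
    rw [hq2 τ hτ, (hΘ1 _ (hVS (hmem τ hτ))).deriv]
  · by_cases ha : a = 0
    · left
      have h1 := D.flat ha
      have h2 := D.flat1 ha
      have h3 := D.flat2 ha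
      refine ⟨?_, ?_, ?_⟩
      · rw [lt_div_iff₀ hnR]
        have : -(n : ℝ) < k := by exact_mod_cast h1
        linarith
      · intro h4
        apply h2
        have : (2 * k : ℝ) = n := by
          field_simp at h4
          linarith
        exact_mod_cast this
      · intro h4
        apply h3
        rw [div_eq_iff hnR.ne'] at h4
        exact_mod_cast h4
    · right
      obtain ⟨h1, h2⟩ := D.iso ha
      obtain ⟨h3, h4⟩ := D.iso3 ha
      have haR : (a : ℝ) ≠ 0 := by exact_mod_cast ha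
      refine ⟨?_, |(a : ℝ)| / n, by positivity, ?_, ?_⟩
      · rw [h1]
        push_cast
        field_simp
      · intro h5
        rw [div_eq_iff hnR.ne'] at h5
        rcases abs_eq_abs.1 (show |(a : ℝ)| = |(3 * n : ℝ)| by
          rw [h5, abs_of_pos (by positivity)]) with h6 | h6
        · exact h3 (by exact_mod_cast h6)
        · exact h4 (by exact_mod_cast h6)
      · have hlim : Tendsto (fun τ => τ * Complex.exp (q τ)) (𝓝[VS 0 1] 0)
            (𝓝 (-Complex.I * g 0)) := by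
          have hsg : Tendsto (fun τ : ℂ => sg n s (s + ε * τ)) (𝓝[VS 0 1] 0) (𝓝 0) := by
            rw [Metric.tendsto_nhds]
            intro δ hδ
            have h5 : ball (0 : ℂ) (δ ^ n / ε) ∈ 𝓝[VS 0 1] (0 : ℂ) :=
              mem_nhdsWithin_of_mem_nhds (ball_mem_nhds 0 (by positivity))
            filter_upwards [h5] with τ h6
            rw [dist_zero_right]
            refine sg_lt hn hδ ?_
            rw [add_sub_cancel_left, norm_mul, Complex.norm_real, Real.norm_of_nonneg hεp.le]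
            rw [mem_ball_zero_iff, lt_div_iff₀ hεp] at h6
            linarith
          have hg : Tendsto (fun τ : ℂ => -Complex.I * g (sg n s (s + ε * τ))) (𝓝[VS 0 1] 0)
              (𝓝 (-Complex.I * g 0)) :=
            ((D.g_an 0 D.zero_mem).continuousAt.tendsto.comp hsg).const_mul _
          refine hg.congr' ?_
          filter_upwards [self_mem_nhdsWithin] with τ hτ
          rw [hq2 τ hτ, Es, h1, zpow_neg, zpow_natCast, sg_pow hn, add_sub_cancel_left]
          have hτ0 : τ ≠ 0 := by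
            rintro rfl
            have := hτ.2
            simp at this
          have hεC : (ε : ℂ) ≠ 0 := by exact_mod_cast hεp.ne'
          have hI := Complex.I_ne_zero
          field_simp
          linear_combination (-(g (sg n s (s + ε * τ)))) * Complex.I_sq
        have hnC : (n : ℂ) ≠ 0 := by exact_mod_cast hn.ne'
        rcases lt_or_gt_of_ne ha with h5 | h5
        · refine ⟨1, Or.inl rfl, ?_⟩
          have h6 : (1 : ℂ) * Complex.I * ((|(a : ℝ)| / n : ℝ) : ℂ) = -Complex.I * g 0 := by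
            have h7 : (a : ℝ) < 0 := by exact_mod_cast h5
            rw [h2, abs_of_neg h7]
            push_cast
            ring
          rw [h6]
          exact hlim
        · refine ⟨-1, Or.inr rfl, ?_⟩
          have h6 : (-1 : ℂ) * Complex.I * ((|(a : ℝ)| / n : ℝ) : ℂ) = -Complex.I * g 0 := by
            have h7 : (0 : ℝ) < (a : ℝ) := by exact_mod_cast h5
            rw [h2, abs_of_pos h7]
            push_cast
            ring
          rw [h6]
          exact hlim

end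

end Crest.Agent.R102.End416
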