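import Mathlib
import Crest.Agent.R102.P1_416
import Crest.Agent.R102.MelDefs_490

/-!
Row 102, part (C), T5-MEL: curve half of MEL-DATA.  The sheets of the `σ`-chart.

A sheet is given by `ω = ± 1`, `ζ^n = ω`: `σ = ζ (ω i (z - s))^(1/n)` on
`VW s ω ε = {‖z - s‖ < ε, ω i (z - s) ∉ (-∞, 0]}`; scaled variable `z = s + ω ε τ`, `τ ∈ VS 0 1`.
Side `A`: `ζ = ω = 1`; side `B`: `ζ = e^{iπ/n}`, `ω = -1`.
-/

set_option autoImplicit false

namespace Crest.Agent.R102.End416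

open Set Filter Topology Metric
open Crest.Agent.R102.Pain416 (HD bl bl_basis HD_mem HD_mono isOpen_HD convex_HD path_mem)
open Crest.Agent.R102.T5R (VS IsoLead Sg EndQ Sg_sub_VS)
open Crest.Agent.R102.Mel (Slope Pos OvR)

noncomputable section

/-- a sheet -/
structure Sht (n : ℕ) (ζ ω : ℂ) : Prop where
  hω : ω = 1 ∨ ω = -1
  hζ : ζ ^ n = ω

/-- the chart of a sheet -/
def sgw (n : ℕ) (s ζ ω z : ℂ) : ℂ := ζ * (ω * (Complex.I * (z - s))) ^ (1 / (n : ℂ))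

/-- slit disc of a sheet -/
def VW (s ω : ℂ) (ε : ℝ) : Set ℂ := {z | ‖z - s‖ < ε ∧ ω * (Complex.I * (z - s)) ∈ Complex.slitPlane}

/-- scaled chart of a sheet -/
def st (n : ℕ) (s ζ ω : ℂ) (ε : ℝ) (τ : ℂ) : ℂ := sgw n s ζ ω (s + ω * (ε * τ))

variable {θ H : ℂ → ℂ} {s : ℂ} {n : ℕ} {r : ℝ} {a k : ℤ} {e g f : ℂ → ℂ} {ζ ω : ℂ}

namespace Sht

lemma sq (S : Sht n ζ ω) : ω * ω = 1 := by
  rcases S.hω with h | h <;> rw [h] <;> norm_num

lemma norm_ω (S : Sht n ζ ω) : ‖ω‖ = 1 := by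
  rcases S.hω with h | h <;> rw [h] <;> simp

lemma ω_ne (S : Sht n ζ ω) : ω ≠ 0 := by
  intro h
  have := S.norm_ω
  rw [h] at this
  simp at this

lemma ζ_ne (S : Sht n ζ ω) (hn : 0 < n) : ζ ≠ 0 := by
  intro h
  have := S.hζ
  rw [h, zero_pow hn.ne'] at this
  exact S.ω_ne this.symm

end Sht

lemma isOpen_VW (s ω : ℂ) (ε : ℝ) : IsOpen (VW s ω ε) := by
  have h1 : IsOpen {z : ℂ | ‖z - s‖ < ε} := isOpen_lt (by fun_prop) continuous_const
  have h2 : IsOpen {z : ℂ | ω * (Complex.I * (z - s)) ∈ Complex.slitPlane} :=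
    Complex.isOpen_slitPlane.preimage (by fun_prop)
  exact h1.inter h2

lemma sgw_pow (S : Sht n ζ ω) (hn : 0 < n) (z : ℂ) : sgw n s ζ ω z ^ n = Complex.I * (z - s) := by
  unfold sgw
  rw [mul_pow, one_div, Complex.cpow_nat_inv_pow _ hn.ne', S.hζ, ← mul_assoc, S.sq, one_mul]

lemma sgw_ne (S : Sht n ζ ω) (hn : 0 < n) {z : ℂ}
    (h : ω * (Complex.I * (z - s)) ∈ Complex.slitPlane) : sgw n s ζ ω z ≠ 0 := by
  intro h0
  have := sgw_pow (s := s) S hn z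
  rw [h0, zero_pow hn.ne'] at this
  refine Complex.slitPlane_ne_zero h ?_
  rw [← this, mul_zero]

lemma sgw_norm (S : Sht n ζ ω) (hn : 0 < n) (z : ℂ) : ‖sgw n s ζ ω z‖ ^ n = ‖z - s‖ := by
  rw [← norm_pow, sgw_pow S hn, norm_mul, Complex.norm_I, one_mul]

lemma sgw_lt (S : Sht n ζ ω) (hn : 0 < n) {r : ℝ} (hr : 0 < r) {z : ℂ} (h : ‖z - s‖ < r ^ n) :
    ‖sgw n s ζ ω z‖ < r := by
  refine lt_of_pow_lt_pow_left₀ n hr.le ?_
  rw [sgw_norm S hn]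
  exact h

lemma sgw_deriv (S : Sht n ζ ω) (hn : 0 < n) {z : ℂ}
    (h : ω * (Complex.I * (z - s)) ∈ Complex.slitPlane) :
    HasDerivAt (sgw n s ζ ω) (Complex.I / (n * sgw n s ζ ω z ^ (n - 1))) z := by
  have h1 : HasDerivAt (fun z : ℂ => ω * (Complex.I * (z - s))) (ω * Complex.I) z := by
    simpa using (((hasDerivAt_id z).sub_const s).const_mul Complex.I).const_mul ω
  have h2 := (h1.cpow_const (c := 1 / (n : ℂ)) h).const_mul ζ
  have hne := Complex.slitPlane_ne_zero h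
  have hnC : (n : ℂ) ≠ 0 := by exact_mod_cast hn.ne'
  have hs := sgw_ne S hn h
  refine h2.congr_deriv ?_
  rw [Complex.cpow_sub _ _ hne, Complex.cpow_one]
  set u := (ω * (Complex.I * (z - s))) ^ (1 / (n : ℂ)) with hu
  have hun : u ^ n = ω * (Complex.I * (z - s)) := by
    rw [hu, one_div, Complex.cpow_nat_inv_pow _ hn.ne']
  have hσ : sgw n s ζ ω z = ζ * u := rfl
  have hσn := sgw_pow (s := s) S hn z
  rw [hσ] at hs hσn ⊢
  have hI := Complex.I_ne_zero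
  have hzs : z - s ≠ 0 := by
    intro h0
    rw [h0] at hne
    simp at hne
  have hω := S.ω_ne
  obtain ⟨m, rfl⟩ : ∃ m, n = m + 1 := ⟨n - 1, by omega⟩
  simp only [Nat.add_sub_cancel]
  have h5 : (ζ * u) ^ m * (ζ * u) = Complex.I * (z - s) := by rw [← pow_succ, hσn]
  have h6 : (ζ * u) ^ m ≠ 0 := pow_ne_zero _ hs
  have hζ0 : ζ ≠ 0 := left_ne_zero_of_mul hs
  have hu0 : u ≠ 0 := right_ne_zero_of_mul hs
  rw [← h5]
  field_simp

namespace EndS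

lemma mem_of_VW (D : EndS θ H s n r a k e g f) (S : Sht n ζ ω) {z : ℂ} (h : z ∈ VW s ω (r ^ n)) :
    sgw n s ζ ω z ∈ ball (0 : ℂ) r ∧ sgw n s ζ ω z ≠ 0 := by
  refine ⟨?_, sgw_ne S D.n_pos h.2⟩
  rw [mem_ball_zero_iff]
  exact sgw_lt S D.n_pos D.r_pos h.1

/-- continuation of `θ` to a sheet; `T ⊆ HD` convex open, where the sheet is the principal one -/
theorem contW (D : EndS θ H s n r a k e g f) (S : Sht n ζ ω)
    (hθ : DifferentiableOn ℂ θ (HD s (r ^ n))) {T : Set ℂ} (hTo : IsOpen T) (hTc : Convex ℝ T)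
    (hT1 : T ⊆ HD s (r ^ n)) (hT2 : T ⊆ VW s ω (r ^ n)) (hT3 : ∀ z ∈ T, sgw n s ζ ω z = sg n s z)
    (hTn : T.Nonempty) :
    ∃ Θ : ℂ → ℂ, (∀ z ∈ VW s ω (r ^ n), HasDerivAt Θ (Es k g (sgw n s ζ ω z)) z) ∧
      (∀ z ∈ VW s ω (r ^ n), Complex.exp (Complex.I * Θ z) = Es a e (sgw n s ζ ω z)) ∧
      ∀ z ∈ T, Θ z = θ z := by
  obtain ⟨L, hL, hLe⟩ := log_ball D.r_pos D.e_an D.e_ne
  have hn := D.n_pos
  have hnC : (n : ℂ) ≠ 0 := by exact_mod_cast hn.ne'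
  have hζa : ζ ^ a ≠ 0 := zpow_ne_zero _ (S.ζ_ne hn)
  set Θ0 : ℂ → ℂ := fun z => -Complex.I * (Complex.log (ζ ^ a) +
    (a / n : ℂ) * Complex.log (ω * (Complex.I * (z - s))) + L (sgw n s ζ ω z)) with hΘ0
  have hexp : ∀ z ∈ VW s ω (r ^ n), Complex.exp (Complex.I * Θ0 z) = Es a e (sgw n s ζ ω z) := by
    intro z hz
    have h1 : Complex.I * Θ0 z = Complex.log (ζ ^ a) +
        (a / n : ℂ) * Complex.log (ω * (Complex.I * (z - s))) + L (sgw n s ζ ω z) := by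
      simp only [hΘ0]
      linear_combination (-(Complex.log (ζ ^ a) +
        (a / n : ℂ) * Complex.log (ω * (Complex.I * (z - s))) + L (sgw n s ζ ω z))) *
        Complex.I_sq
    rw [h1, Complex.exp_add, Complex.exp_add, hLe _ (D.mem_of_VW S hz).1, Complex.exp_log hζa, Es]
    congr 1
    unfold sgw
    rw [mul_zpow, Complex.cpow_def_of_ne_zero (Complex.slitPlane_ne_zero hz.2),
      ← Complex.exp_int_mul]
    congr 2
    ring
  have hdiff : ∀ z ∈ VW s ω (r ^ n), DifferentiableAt ℂ Θ0 z := by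
    intro z hz
    have h1 : HasDerivAt (fun z : ℂ => ω * (Complex.I * (z - s))) (ω * Complex.I) z := by
      simpa using (((hasDerivAt_id z).sub_const s).const_mul Complex.I).const_mul ω
    have h2 := (h1.clog hz.2).differentiableAt
    have h3 := ((hL _ (D.mem_of_VW S hz).1).comp z (sgw_deriv S hn hz.2)).differentiableAt
    exact (((h2.const_mul _).const_add _).add h3).const_mul _
  have hder : ∀ z ∈ VW s ω (r ^ n), HasDerivAt Θ0 (Es k g (sgw n s ζ ω z)) z := by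
    intro z hz
    have h1 := (hdiff z hz).hasDerivAt
    have h2 := (h1.const_mul Complex.I).cexp
    have h3 : (fun z => Complex.exp (Complex.I * Θ0 z)) =ᶠ[𝓝 z] fun z => Es a e (sgw n s ζ ω z) := by
      filter_upwards [(isOpen_VW s ω (r ^ n)).mem_nhds hz] with z' hz' using hexp z' hz'
    obtain ⟨hm1, hm2⟩ := D.mem_of_VW S hz
    have h4 := ((D.Es_anE hm1 hm2).differentiableAt.hasDerivAt).comp z (sgw_deriv S hn hz.2)
    have h5 := h2.unique (h4.congr_of_eventuallyEq h3)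
    rw [hexp z hz, D.dE _ hm1 hm2] at h5
    have h6 := D.E_ne hm1 hm2
    have h7 : sgw n s ζ ω z ^ (n - 1) ≠ 0 := pow_ne_zero _ hm2
    have hI := Complex.I_ne_zero
    have h8 : deriv Θ0 z = Es k g (sgw n s ζ ω z) := by
      field_simp at h5
      exact h5
    rw [← h8]
    exact h1
  -- the constant
  obtain ⟨z1, hz1⟩ := hTn
  have hconst : ∀ z ∈ T, θ z - Θ0 z = θ z1 - Θ0 z1 := by
    intro z hz
    have hd : ∀ z ∈ T, HasDerivAt (fun z => θ z - Θ0 z) 0 z := by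
      intro z hz
      have h1 := ((hθ z (hT1 hz)).differentiableAt ((isOpen_HD _ _).mem_nhds (hT1 hz))).hasDerivAt
      rw [D.y_eq z (hT1 hz), ← hT3 z hz] at h1
      have h2 := h1.sub (hder z (hT2 hz))
      rw [sub_self] at h2
      exact h2
    exact hTc.is_const_of_fderivWithin_eq_zero (𝕜 := ℂ)
      (f := fun z => θ z - Θ0 z)
      (fun z hz => (hd z hz).differentiableAt.differentiableWithinAt) (fun z hz => by
        rw [fderivWithin_of_isOpen hTo hz]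
        have := (hd z hz).hasFDerivAt.fderiv
        rw [this]
        ext; simp) hz hz1
  have hc : Complex.exp (Complex.I * (θ z1 - Θ0 z1)) = 1 := by
    rw [mul_sub, Complex.exp_sub, D.E_eq z1 (hT1 hz1), hexp z1 (hT2 hz1), hT3 z1 hz1]
    obtain ⟨hm1, hm2⟩ := D.mem_of_VW S (hT2 hz1)
    rw [hT3 z1 hz1] at hm1 hm2
    exact div_self (D.E_ne hm1 hm2)
  refine ⟨fun z => Θ0 z + (θ z1 - Θ0 z1), fun z hz => (hder z hz).add_const _, fun z hz => ?_,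
    fun z hz => ?_⟩
  · rw [mul_add, Complex.exp_add, hc, mul_one, hexp z hz]
  · rw [← hconst z hz]
    ring

end EndS

/-! ### scaled variable -/

lemma st_mem (S : Sht n ζ ω) {ε δ : ℝ} (hε : 0 < ε) (hεδ : ε ≤ δ) {τ : ℂ} (hτ : τ ∈ VS 0 1) :
    s + ω * (ε * τ) ∈ VW s ω δ := by
  obtain ⟨h1, h2⟩ := hτ
  rw [sub_zero] at h1 h2
  refine ⟨?_, ?_⟩
  · rw [add_sub_cancel_left, norm_mul, norm_mul, S.norm_ω, one_mul, Complex.norm_real,
      Real.norm_of_nonneg hε.le]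
    nlinarith [norm_nonneg τ]
  · rw [add_sub_cancel_left]
    have h3 : ω * (Complex.I * (ω * (ε * τ))) = ε * (Complex.I * τ) := by
      linear_combination (Complex.I * ε * τ) * S.sq
    rw [h3, Complex.mem_slitPlane_iff] at *
    rcases h2 with h2 | h2
    · left
      rw [Complex.re_ofReal_mul]
      positivity
    · right
      rw [Complex.im_ofReal_mul]
      exact mul_ne_zero hε.ne' h2

lemma st_pow (S : Sht n ζ ω) (hn : 0 < n) {ε : ℝ} (τ : ℂ) :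
    st n s ζ ω ε τ ^ n = ω * (Complex.I * (ε * τ)) := by
  unfold st
  rw [sgw_pow S hn, add_sub_cancel_left]
  ring

lemma st_norm (S : Sht n ζ ω) (hn : 0 < n) {ε : ℝ} (hε : 0 < ε) (τ : ℂ) :
    ‖st n s ζ ω ε τ‖ ^ n = ε * ‖τ‖ := by
  rw [← norm_pow, st_pow S hn, norm_mul, norm_mul, norm_mul, S.norm_ω, Complex.norm_I,
    Complex.norm_real, Real.norm_of_nonneg hε.le, one_mul, one_mul]

lemma ne_of_VS {τ : ℂ} (hτ : τ ∈ VS 0 1) : τ ≠ 0 := by
  rintro rfl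
  have := hτ.2
  simp at this

lemma st_ne (S : Sht n ζ ω) (hn : 0 < n) {ε : ℝ} (hε : 0 < ε) {τ : ℂ} (hτ : τ ∈ VS 0 1) :
    st n s ζ ω ε τ ≠ 0 := by
  unfold st
  exact sgw_ne S hn (st_mem (s := s) S hε le_rfl hτ).2

lemma st_deriv (S : Sht n ζ ω) (hn : 0 < n) {ε : ℝ} (hε : 0 < ε) {τ : ℂ} (hτ : τ ∈ VS 0 1) :
    HasDerivAt (st n s ζ ω ε) (Complex.I / (n * st n s ζ ω ε τ ^ (n - 1)) * (ω * ε)) τ := by
  have h0 : HasDerivAt (fun τ : ℂ => s + ω * (ε * τ)) (ω * ε) τ := by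
    simpa using (((hasDerivAt_id τ).const_mul (ε : ℂ)).const_mul ω).const_add s
  exact (sgw_deriv S hn (st_mem (s := s) S hε le_rfl hτ).2).comp τ h0

lemma st_tendsto (S : Sht n ζ ω) (hn : 0 < n) {ε : ℝ} (hε : 0 < ε) :
    Tendsto (st n s ζ ω ε) (𝓝[VS 0 1] 0) (𝓝[≠] 0) := by
  refine tendsto_nhdsWithin_iff.2 ⟨?_, ?_⟩
  · rw [Metric.tendsto_nhds]
    intro δ hδ
    have h5 : ball (0 : ℂ) (δ ^ n / ε) ∈ 𝓝[VS 0 1] (0 : ℂ) :=
      mem_nhdsWithin_of_mem_nhds (ball_mem_nhds 0 (by positivity))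
    filter_upwards [h5] with τ h6
    rw [dist_zero_right]
    refine lt_of_pow_lt_pow_left₀ n hδ.le ?_
    rw [st_norm S hn hε]
    rw [mem_ball_zero_iff, lt_div_iff₀ hε] at h6
    linarith
  · filter_upwards [self_mem_nhdsWithin] with τ hτ using st_ne S hn hε hτ

namespace EndS

lemma st_ball (D : EndS θ H s n r a k e g f) (S : Sht n ζ ω) {ε : ℝ} (hε : 0 < ε)
    (hεr : ε < r ^ n) {τ : ℂ} (hτ : τ ∈ VS 0 1) : st n s ζ ω ε τ ∈ ball (0 : ℂ) r :=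
  (D.mem_of_VW S (st_mem (s := s) S hε hεr.le hτ)).1

/-- the logarithm `q` on a sheet -/
theorem logW (D : EndS θ H s n r a k e g f) (S : Sht n ζ ω) {ε : ℝ} (hε : 0 < ε)
    (hεr : ε < r ^ n) :
    ∃ (q : ℂ → ℂ) (C : ℝ), DifferentiableOn ℂ q (VS 0 1) ∧
      (∀ τ ∈ VS 0 1, Complex.exp (q τ) = ε * Es k g (st n s ζ ω ε τ)) ∧
      ∀ τ ∈ VS 0 1, ‖deriv q τ - (((k / n : ℝ)) : ℂ) / τ‖ ≤ C * ‖τ‖ ^ ((n : ℝ)⁻¹ - 1) := by
  obtain ⟨L, hL, hLe⟩ := log_ball D.r_pos D.g_an D.g_ne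
  have hn := D.n_pos
  have hnC : (n : ℂ) ≠ 0 := by exact_mod_cast hn.ne'
  have hnR : (0 : ℝ) < n := by exact_mod_cast hn
  have hεC : (ε : ℂ) ≠ 0 := by exact_mod_cast hε.ne'
  have hζk : ζ ^ k ≠ 0 := zpow_ne_zero _ (S.ζ_ne hn)
  -- the radius in `σ`
  set r' : ℝ := ε ^ ((n : ℝ)⁻¹) with hr'
  have hr'n : r' ^ n = ε := Real.rpow_inv_natCast_pow hε.le hn.ne'
  have hr'p : 0 < r' := Real.rpow_pos_of_pos hε _
  have hr'r : r' < r := lt_of_pow_lt_pow_left₀ n D.r_pos.le (by rw [hr'n]; exact hεr)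
  obtain ⟨M, hM⟩ := (isCompact_closedBall (0 : ℂ) r').exists_bound_of_continuousOn
    (f := fun σ => deriv g σ / g σ) (fun σ hσ => by
      have hσ' : σ ∈ ball (0 : ℂ) r := closedBall_subset_ball hr'r hσ
      exact ((D.g_an σ hσ').deriv.continuousAt.div (D.g_an σ hσ').continuousAt
        (D.g_ne σ hσ')).continuousWithinAt)
  have hM0 : 0 ≤ M := (norm_nonneg _).trans (hM 0 (mem_closedBall_self hr'p.le))
  have hder : ∀ τ ∈ VS 0 1, HasDerivAt (fun τ : ℂ => (Real.log ε : ℂ) + (Complex.log (ζ ^ k) +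
      (k / n : ℂ) * Complex.log (ω * (Complex.I * ((s + ω * (ε * τ)) - s)))) +
        L (st n s ζ ω ε τ))
      ((k / n : ℂ) / τ + deriv g (st n s ζ ω ε τ) / g (st n s ζ ω ε τ) *
        (Complex.I / (n * st n s ζ ω ε τ ^ (n - 1)) * (ω * ε))) τ := by
    intro τ hτ
    have hm := st_mem (s := s) S hε hεr.le hτ
    have h0 : HasDerivAt (fun τ : ℂ => s + ω * (ε * τ)) (ω * ε) τ := by
      simpa using (((hasDerivAt_id τ).const_mul (ε : ℂ)).const_mul ω).const_add s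
    have h1 : HasDerivAt (fun τ : ℂ => ω * (Complex.I * ((s + ω * (ε * τ)) - s)))
        (ω * (Complex.I * (ω * ε))) τ := ((h0.sub_const s).const_mul Complex.I).const_mul ω
    have h2 := ((h1.clog hm.2).const_mul (k / n : ℂ)).const_add (Complex.log (ζ ^ k))
    have h3 := (hL _ (D.mem_of_VW S hm).1).comp τ (st_deriv S hn hε hτ)
    have h4 := (h2.const_add (Real.log ε : ℂ)).add h3
    refine h4.congr_deriv ?_
    have hτ0 := ne_of_VS hτ
    have hI := Complex.I_ne_zero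
    have hω := S.ω_ne
    congr 1
    rw [add_sub_cancel_left]
    field_simp
  refine ⟨fun τ => (Real.log ε : ℂ) + (Complex.log (ζ ^ k) +
      (k / n : ℂ) * Complex.log (ω * (Complex.I * ((s + ω * (ε * τ)) - s)))) +
        L (st n s ζ ω ε τ),
    M / n * r', fun τ hτ => (hder τ hτ).differentiableAt.differentiableWithinAt, ?_, ?_⟩
  · intro τ hτ
    have hm := st_mem (s := s) S hε hεr.le hτ
    rw [Complex.exp_add, Complex.exp_add, Complex.exp_add, hLe _ (D.st_ball S hε hεr hτ),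
      ← Complex.ofReal_exp, Real.exp_log hε, Complex.exp_log hζk, Es]
    have h1 : st n s ζ ω ε τ ^ k = ζ ^ k * Complex.exp ((k / n : ℂ) *
        Complex.log (ω * (Complex.I * ((s + ω * (ε * τ)) - s)))) := by
      unfold st sgw
      rw [mul_zpow, Complex.cpow_def_of_ne_zero (Complex.slitPlane_ne_zero hm.2),
        ← Complex.exp_int_mul]
      congr 2
      ring
    rw [h1]
    ring
  · intro τ hτ
    have hτ0 : τ ≠ 0 := ne_of_VS hτ
    have hτn : 0 < ‖τ‖ := norm_pos_iff.2 hτ0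
    have hτ1 : ‖τ‖ < 1 := by simpa using hτ.1
    rw [(hder τ hτ).deriv]
    have h1 : (((k / n : ℝ)) : ℂ) = (k / n : ℂ) := by push_cast; rfl
    rw [h1, add_sub_cancel_left, norm_mul, norm_mul, norm_div Complex.I, norm_mul, norm_pow,
      norm_mul ω, S.norm_ω, one_mul,
      Complex.norm_I, Complex.norm_natCast, Complex.norm_real, Real.norm_of_nonneg hε.le]
    have hσn := st_norm (s := s) S hn hε τ
    have hσ0 : 0 < ‖st n s ζ ω ε τ‖ := norm_pos_iff.2 (st_ne S hn hε hτ)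
    set σ := st n s ζ ω ε τ with hσ
    have hσr : ‖σ‖ ≤ r' := by
      refine le_of_pow_le_pow_left₀ hn.ne' hr'p.le ?_
      rw [hσn, hr'n]
      nlinarith
    have hMσ := hM σ (by rwa [mem_closedBall_zero_iff])
    have hσe : ‖σ‖ = r' * ‖τ‖ ^ ((n : ℝ)⁻¹) := by
      rw [hr', ← Real.mul_rpow hε.le hτn.le, ← hσn, Real.pow_rpow_inv_natCast hσ0.le hn.ne']
    have h2 : 1 / (n * ‖σ‖ ^ (n - 1)) * ε = ‖σ‖ / (n * ‖τ‖) := by
      have h3 : ‖σ‖ ^ n = ‖σ‖ ^ (n - 1) * ‖σ‖ := by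
        obtain ⟨m, hm'⟩ : ∃ m, n = m + 1 := ⟨n - 1, by omega⟩
        rw [hm', Nat.add_sub_cancel, pow_succ]
      rw [h3] at hσn
      have h4 : 0 < ‖σ‖ ^ (n - 1) := pow_pos hσ0 _
      field_simp
      linear_combination (-1) * hσn
    rw [h2]
    have h5 : ‖τ‖ ^ ((n : ℝ)⁻¹ - 1) = ‖τ‖ ^ ((n : ℝ)⁻¹) / ‖τ‖ := by
      rw [Real.rpow_sub hτn, Real.rpow_one]
    rw [h5, hσe]
    calc ‖deriv g σ / g σ‖ * (r' * ‖τ‖ ^ ((n : ℝ)⁻¹) / (n * ‖τ‖))
        ≤ M * (r' * ‖τ‖ ^ ((n : ℝ)⁻¹) / (n * ‖τ‖)) := by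
          refine mul_le_mul_of_nonneg_right hMσ ?_
          positivity
      _ = M / n * r' * (‖τ‖ ^ ((n : ℝ)⁻¹) / ‖τ‖) := by
          field_simp

/-- derivative of `e^{iθ}` on a sheet, scaled variable -/
lemma stE (D : EndS θ H s n r a k e g f) (S : Sht n ζ ω) {ε : ℝ} (hε : 0 < ε)
    (hεr : ε < r ^ n) {q : ℂ → ℂ} {τ : ℂ} (hτ : τ ∈ VS 0 1)
    (hq : Complex.exp (q τ) = ε * Es k g (st n s ζ ω ε τ)) :
    HasDerivAt (fun τ => Es a e (st n s ζ ω ε τ))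
      (ω * Complex.I * Complex.exp (q τ) * Es a e (st n s ζ ω ε τ)) τ := by
  have hn := D.n_pos
  have h1 := D.st_ball S hε hεr hτ
  have h2 := st_ne (s := s) S hn hε hτ
  have h3 := ((D.Es_anE h1 h2).differentiableAt.hasDerivAt).comp τ (st_deriv S hn hε hτ)
  refine h3.congr_deriv ?_
  rw [D.dE _ h1 h2, hq]
  have hnC : (n : ℂ) ≠ 0 := by exact_mod_cast hn.ne'
  have h4 : st n s ζ ω ε τ ^ (n - 1) ≠ 0 := pow_ne_zero _ h2
  field_simp

lemma stZp (D : EndS θ H s n r a k e g f) (S : Sht n ζ ω) {ε : ℝ} (hε : 0 < ε)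
    (hεr : ε < r ^ n) {q : ℂ → ℂ} {τ : ℂ} (hτ : τ ∈ VS 0 1)
    (hq : Complex.exp (q τ) = ε * Es k g (st n s ζ ω ε τ)) :
    HasDerivAt (fun τ => Zp n a k e g f (st n s ζ ω ε τ))
      (ω * ε ^ 3 * Complex.exp (-2 * q τ) * Es a e (st n s ζ ω ε τ)) τ := by
  have hn := D.n_pos
  have h1 := D.st_ball S hε hεr hτ
  have h2 := st_ne (s := s) S hn hε hτ
  have h3 := (D.dZp h1 h2).comp τ (st_deriv S hn hε hτ)
  refine h3.congr_deriv ?_
  have hnC : (n : ℂ) ≠ 0 := by exact_mod_cast hn.ne'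
  have h4 : st n s ζ ω ε τ ^ (n - 1) ≠ 0 := pow_ne_zero _ h2
  have h5 := D.Y_ne h1 h2
  have h6 := D.E_ne h1 h2
  have hεC : (ε : ℂ) ≠ 0 := by exact_mod_cast hε.ne'
  have h7 : Complex.exp (-2 * q τ) = ((ε * Es k g (st n s ζ ω ε τ)) ^ 2)⁻¹ := by
    rw [← hq, ← Complex.exp_nat_mul, ← Complex.exp_neg]
    congr 1
    push_cast
    ring
  rw [h7]
  field_simp
  linear_combination (-ω) * Complex.I_sq

lemma stZm (D : EndS θ H s n r a k e g f) (S : Sht n ζ ω) {ε : ℝ} (hε : 0 < ε)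
    (hεr : ε < r ^ n) {q : ℂ → ℂ} {τ : ℂ} (hτ : τ ∈ VS 0 1)
    (hq : Complex.exp (q τ) = ε * Es k g (st n s ζ ω ε τ)) :
    HasDerivAt (fun τ => Zm n a k e g f (st n s ζ ω ε τ))
      (ω * ε ^ 3 * Complex.exp (-2 * q τ) / Es a e (st n s ζ ω ε τ)) τ := by
  have hn := D.n_pos
  have h1 := D.st_ball S hε hεr hτ
  have h2 := st_ne (s := s) S hn hε hτ
  have h3 := (D.dZm h1 h2).comp τ (st_deriv S hn hε hτ)
  refine h3.congr_deriv ?_
  have hnC : (n : ℂ) ≠ 0 := by exact_mod_cast hn.ne'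
  have h4 : st n s ζ ω ε τ ^ (n - 1) ≠ 0 := pow_ne_zero _ h2
  have h5 := D.Y_ne h1 h2
  have h6 := D.E_ne h1 h2
  have hεC : (ε : ℂ) ≠ 0 := by exact_mod_cast hε.ne'
  have h7 : Complex.exp (-2 * q τ) = ((ε * Es k g (st n s ζ ω ε τ)) ^ 2)⁻¹ := by
    rw [← hq, ← Complex.exp_nat_mul, ← Complex.exp_neg]
    congr 1
    push_cast
    ring
  rw [h7]
  field_simp
  linear_combination (-ω) * Complex.I_sq

lemma endQ (D : EndS θ H s n r a k e g f) {q : ℂ → ℂ} {C κ : ℝ} (hκ : 0 < κ) (hκ1 : κ < 1)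
    (hq1 : DifferentiableOn ℂ q (VS 0 1))
    (hq3 : ∀ τ ∈ VS 0 1, ‖deriv q τ - (((k / n : ℝ)) : ℂ) / τ‖ ≤ C * ‖τ‖ ^ ((n : ℝ)⁻¹ - 1)) :
    EndQ κ (k / n : ℝ) (n : ℝ)⁻¹ C q := by
  have hnR : (0 : ℝ) < n := by exact_mod_cast D.n_pos
  exact ⟨hκ, hκ1, by positivity, hq1.mono (Sg_sub_VS hκ1), fun τ hτ => hq3 τ (Sg_sub_VS hκ1 hτ)⟩

/-- `EndQ` for any logarithm -/
lemma endQ_of (D : EndS θ H s n r a k e g f) (S : Sht n ζ ω) {ε : ℝ} (hε : 0 < ε)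
    (hεr : ε < r ^ n) {q : ℂ → ℂ} {κ : ℝ} (hκ : 0 < κ) (hκ1 : κ < 1)
    (hqd : DifferentiableOn ℂ q (Sg κ))
    (hq : ∀ τ ∈ Sg κ, Complex.exp (q τ) = ε * Es k g (st n s ζ ω ε τ)) :
    ∃ C : ℝ, EndQ κ (k / n : ℝ) (n : ℝ)⁻¹ C q := by
  obtain ⟨q1, C, h1, h2, h3⟩ := D.logW S hε hεr
  have hop : IsOpen (Sg κ) := by
    have h4 : IsOpen {τ : ℂ | τ ≠ 0} := isOpen_ne
    have h5 : IsOpen {τ : ℂ | ‖τ‖ < 1} := isOpen_lt continuous_norm continuous_const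
    have h6 : IsOpen {τ : ℂ | τ.im < κ * ‖τ‖} :=
      isOpen_lt Complex.continuous_im (continuous_const.mul continuous_norm)
    exact h4.inter (h5.inter h6)
  have hE := D.endQ hκ hκ1 h1 h3
  refine ⟨C, hκ, hκ1, hE.β_pos, hqd, fun τ hτ => ?_⟩
  have h4 : (fun τ => Complex.exp (q τ)) =ᶠ[𝓝 τ] fun τ => Complex.exp (q1 τ) := by
    filter_upwards [hop.mem_nhds hτ] with τ' hτ'
    rw [hq τ' hτ', h2 τ' (Sg_sub_VS hκ1 hτ')]
  have h5 := ((hqd.differentiableAt (hop.mem_nhds hτ)).hasDerivAt.cexp)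
  have h6 := ((hE.diff.differentiableAt (hop.mem_nhds hτ)).hasDerivAt.cexp)
  have h7 := h5.unique (h6.congr_of_eventuallyEq h4)
  rw [h4.eq_of_nhds] at h7
  have h8 := mul_left_cancel₀ (Complex.exp_ne_zero _) h7
  rw [h8]
  exact hE.asym τ hτ

/-- `Slope`, `j = ω I` -/
lemma slopeP (D : EndS θ H s n r a k e g f) (S : Sht n ζ ω) {ε : ℝ} (hε : 0 < ε)
    (hεr : ε < r ^ n) {q : ℂ → ℂ} {κ : ℝ} (hκ1 : κ < 1)
    (hq : ∀ τ ∈ Sg κ, Complex.exp (q τ) = ε * Es k g (st n s ζ ω ε τ)) :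
    Slope κ q (ω * Complex.I) (fun τ => Es a e (st n s ζ ω ε τ) ^ 2) := by
  have hd : ∀ τ ∈ Sg κ, HasDerivAt (fun τ => Es a e (st n s ζ ω ε τ) ^ 2)
      (2 * (ω * Complex.I) * Complex.exp (q τ) * Es a e (st n s ζ ω ε τ) ^ 2) τ := by
    intro τ hτ
    refine ((D.stE S hε hεr (Sg_sub_VS hκ1 hτ) (hq τ hτ)).pow 2).congr_deriv ?_
    push_cast
    ring
  refine ⟨fun τ hτ => (hd τ hτ).differentiableAt.differentiableWithinAt, fun τ hτ => ?_,
    fun τ hτ => (hd τ hτ).deriv⟩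
  have hv := Sg_sub_VS hκ1 hτ
  exact pow_ne_zero _ (D.E_ne (D.st_ball S hε hεr hv) (st_ne S D.n_pos hε hv))

/-- `Slope`, `j = - ω I` -/
lemma slopeM (D : EndS θ H s n r a k e g f) (S : Sht n ζ ω) {ε : ℝ} (hε : 0 < ε)
    (hεr : ε < r ^ n) {q : ℂ → ℂ} {κ : ℝ} (hκ1 : κ < 1)
    (hq : ∀ τ ∈ Sg κ, Complex.exp (q τ) = ε * Es k g (st n s ζ ω ε τ)) :
    Slope κ q (-(ω * Complex.I)) (fun τ => (Es a e (st n s ζ ω ε τ))⁻¹ ^ 2) := by
  have hd : ∀ τ ∈ Sg κ, HasDerivAt (fun τ => (Es a e (st n s ζ ω ε τ))⁻¹ ^ 2)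
      (2 * (-(ω * Complex.I)) * Complex.exp (q τ) * (Es a e (st n s ζ ω ε τ))⁻¹ ^ 2) τ := by
    intro τ hτ
    have hv := Sg_sub_VS hκ1 hτ
    have hne := D.E_ne (D.st_ball S hε hεr hv) (st_ne S D.n_pos hε hv)
    refine (((D.stE S hε hεr hv (hq τ hτ)).fun_inv hne).pow 2).congr_deriv ?_
    push_cast
    field_simp
  refine ⟨fun τ hτ => (hd τ hτ).differentiableAt.differentiableWithinAt, fun τ hτ => ?_,
    fun τ hτ => (hd τ hτ).deriv⟩
  have hv := Sg_sub_VS hκ1 hτ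
  exact pow_ne_zero _ (inv_ne_zero (D.E_ne (D.st_ball S hε hεr hv) (st_ne S D.n_pos hε hv)))

end EndS

/-- a meromorphic function with bounded derivative has a limit -/
lemma mero_lim {P u : ℂ → ℂ} (hP : MeromorphicAt P 0) (hu : ContinuousAt u 0)
    (h : ∀ᶠ σ in 𝓝[≠] (0 : ℂ), deriv P σ = u σ) : ∃ c, Tendsto P (𝓝[≠] 0) (𝓝 c) := by
  have hut : Tendsto u (𝓝[≠] 0) (𝓝 (u 0)) := hu.tendsto.mono_left nhdsWithin_le_nhds
  have hid : Tendsto (fun σ : ℂ => σ) (𝓝[≠] 0) (𝓝 0) := tendsto_id.mono_left nhdsWithin_le_nhds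
  have hne : ∀ᶠ σ in 𝓝[≠] (0 : ℂ), σ ≠ 0 := self_mem_nhdsWithin
  rcases hP.eventually_eq_zero_or_eventually_ne_zero with h1 | h1
  · exact ⟨0, tendsto_const_nhds.congr' (h1.mono fun _ h => h.symm)⟩
  · obtain ⟨N, v, van, v0, hv⟩ := factor hP h1.frequently
    have hvt : Tendsto v (𝓝[≠] 0) (𝓝 (v 0)) :=
      van.continuousAt.tendsto.mono_left nhdsWithin_le_nhds
    rcases lt_or_ge N 0 with hN | hN
    · exfalso
      have h3 : ∀ᶠ σ in 𝓝[≠] (0 : ℂ), P =ᶠ[𝓝 σ] Es N v := by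
        have := (eventually_eventually_nhdsWithin (s := {(0 : ℂ)}ᶜ)).2 hv
        filter_upwards [this, hne] with σ h4 h5
        rwa [IsOpen.nhdsWithin_eq isOpen_compl_singleton (by simpa using h5)] at h4
      obtain ⟨m, hm⟩ : ∃ m : ℕ, N = -((m : ℤ) + 1) := ⟨(-N - 1).toNat, by omega⟩
      have h5 : Tendsto (fun σ : ℂ => σ ^ (m + 2) * u σ) (𝓝[≠] 0) (𝓝 (0 * u 0)) := by
        refine Tendsto.mul ?_ hut
        have := hid.pow (m + 2)
        simpa using this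
      have hbr : Tendsto (fun σ => (N : ℂ) * v σ + σ * deriv v σ) (𝓝[≠] 0) (𝓝 (N * v 0)) := by
        have h5 : ContinuousAt (fun σ => (N : ℂ) * v σ + σ * deriv v σ) 0 :=
          ((analyticAt_const.mul van).add (analyticAt_id.mul van.deriv)).continuousAt
        have h6 := h5.tendsto.mono_left (nhdsWithin_le_nhds (s := {(0 : ℂ)}ᶜ))
        simpa using h6
      have h6 : Tendsto (fun σ : ℂ => σ ^ (m + 2) * u σ) (𝓝[≠] 0) (𝓝 (N * v 0)) := by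
        refine hbr.congr' ?_
        filter_upwards [h3, h, hne,
          eventually_nhdsWithin_of_eventually_nhds van.eventually_analyticAt] with σ h5 h6 h7 h8
        have h9 : HasDerivAt (Es N v) (N * σ ^ (N - 1) * v σ + σ ^ N * deriv v σ) σ :=
          (hasDerivAt_zpow N σ (Or.inl h7)).mul h8.differentiableAt.hasDerivAt
        rw [← h6, h5.deriv_eq, h9.deriv, zpow_sub_one₀ h7]
        have h10 : σ ^ (m + 2) = (σ ^ N)⁻¹ * σ := by
          rw [hm, zpow_neg, inv_inv, ← zpow_natCast, ← zpow_add_one₀ h7]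
          congr 1
        have h11 := zpow_ne_zero N h7
        rw [h10]
        field_simp
      have h7 := tendsto_nhds_unique h5 h6
      rw [zero_mul] at h7
      have hNC : (N : ℂ) ≠ 0 := by exact_mod_cast hN.ne
      exact mul_ne_zero hNC v0 h7.symm
    · obtain ⟨m, hm⟩ := Int.eq_ofNat_of_zero_le hN
      refine ⟨0 ^ m * v 0, ?_⟩
      refine ((hid.pow m).mul hvt).congr' ?_
      filter_upwards [hv] with σ h6
      rw [h6, Es, hm, zpow_natCast]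

namespace EndS

/-- for `m = 1` the end is a point of the complex plane -/
lemma lims (D : EndS θ H s n r a k e g f) (ha : a = n ∨ a = -n) :
    ∃ zp zm : ℂ, Tendsto (Zp n a k e g f) (𝓝[≠] 0) (𝓝 zp) ∧
      Tendsto (Zm n a k e g f) (𝓝[≠] 0) (𝓝 zm) := by
  have hn := D.n_pos
  have ha0 : a ≠ 0 := by rcases ha with h | h <;> rw [h] <;> omega
  have hk := (D.iso ha0).1
  have he0 := D.e_ne 0 D.zero_mem
  have hg0 := D.g_ne 0 D.zero_mem
  have hec := (D.e_an 0 D.zero_mem).continuousAt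
  have hgc := (D.g_an 0 D.zero_mem).continuousAt
  obtain ⟨N, hN⟩ : ∃ N : ℕ, (N : ℤ) = 3 * n - 1 + a := ⟨(3 * (n : ℤ) - 1 + a).toNat, by
    rcases ha with h | h <;> rw [h] <;> omega⟩
  obtain ⟨M, hM⟩ : ∃ M : ℕ, (M : ℤ) = 3 * n - 1 - a := ⟨(3 * (n : ℤ) - 1 - a).toNat, by
    rcases ha with h | h <;> rw [h] <;> omega⟩
  obtain ⟨zp, hzp⟩ := mero_lim (u := fun σ => -Complex.I * n * σ ^ N * e σ / g σ ^ 2) D.Zp_mer
    (((continuousAt_const.mul (continuousAt_id.pow N)).mul hec).div (hgc.pow 2)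
      (pow_ne_zero _ hg0)) (by
      filter_upwards [D.ev] with σ hσ
      have hE := D.e_ne σ hσ.1
      have hG := D.g_ne σ hσ.1
      rw [(D.dZp hσ.1 hσ.2).deriv]
      simp only [Es]
      rw [mul_pow, ← zpow_natCast (σ ^ k) 2, ← zpow_mul, D.pow_zpow hσ.2, ← zpow_natCast σ N, hN]
      have h2 : σ ^ (3 * (n : ℤ) - 1 + a) * σ ^ (k * ((2 : ℕ) : ℤ)) =
          σ ^ ((n : ℤ) - 1) * σ ^ a := by
        rw [← zpow_add₀ hσ.2, ← zpow_add₀ hσ.2]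
        congr 1
        rw [hk]
        push_cast
        ring
      have h4 : σ ^ (k * ((2 : ℕ) : ℤ)) ≠ 0 := zpow_ne_zero _ hσ.2
      rw [div_eq_div_iff (mul_ne_zero h4 (pow_ne_zero _ hG)) (pow_ne_zero _ hG)]
      linear_combination (Complex.I * n * e σ * g σ ^ 2) * h2)
  obtain ⟨zm, hzm⟩ := mero_lim (u := fun σ => -Complex.I * n * σ ^ M * (e σ)⁻¹ / g σ ^ 2) D.Zm_mer
    (((continuousAt_const.mul (continuousAt_id.pow M)).mul (hec.inv₀ he0)).div (hgc.pow 2)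
      (pow_ne_zero _ hg0)) (by
      filter_upwards [D.ev] with σ hσ
      have hE := D.e_ne σ hσ.1
      have hG := D.g_ne σ hσ.1
      rw [(D.dZm hσ.1 hσ.2).deriv]
      simp only [Es]
      rw [mul_pow, ← zpow_natCast (σ ^ k) 2, ← zpow_mul, D.pow_zpow hσ.2, ← zpow_natCast σ M, hM,
        mul_inv, ← zpow_neg]
      have h2 : σ ^ (3 * (n : ℤ) - 1 - a) * σ ^ (k * ((2 : ℕ) : ℤ)) =
          σ ^ ((n : ℤ) - 1) * σ ^ (-a) := by
        rw [← zpow_add₀ hσ.2, ← zpow_add₀ hσ.2]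
        congr 1
        rw [hk]
        push_cast
        ring
      have h4 : σ ^ (k * ((2 : ℕ) : ℤ)) ≠ 0 := zpow_ne_zero _ hσ.2
      rw [div_eq_div_iff (mul_ne_zero h4 (pow_ne_zero _ hG)) (pow_ne_zero _ hG)]
      linear_combination (Complex.I * n * (e σ)⁻¹ * g σ ^ 2) * h2)
  exact ⟨zp, zm, hzp, hzm⟩

/-- `Pos`, `j = ω I` -/
lemma posP (D : EndS θ H s n r a k e g f) (S : Sht n ζ ω) {ε : ℝ} (hε : 0 < ε)
    (hεr : ε < r ^ n) {q : ℂ → ℂ} {κ : ℝ} (hκ1 : κ < 1)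
    (hq : ∀ τ ∈ Sg κ, Complex.exp (q τ) = ε * Es k g (st n s ζ ω ε τ)) {zp zm : ℂ}
    (hzp : Tendsto (Zp n a k e g f) (𝓝[≠] 0) (𝓝 zp))
    (hzm : Tendsto (Zm n a k e g f) (𝓝[≠] 0) (𝓝 zm)) :
    Pos κ q (ω * Complex.I) ω (fun τ => Es a e (st n s ζ ω ε τ) ^ 2)
      (fun τ => Es a e (st n s ζ ω ε τ))
      (fun τ => ((ε : ℂ) ^ 3)⁻¹ * (Zp n a k e g f (st n s ζ ω ε τ) - zp))
      (fun τ => ((ε : ℂ) ^ 3)⁻¹ * (Zm n a k e g f (st n s ζ ω ε τ) - zm)) := by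
  have hεC : (ε : ℂ) ≠ 0 := by exact_mod_cast hε.ne'
  have hst : Tendsto (st n s ζ ω ε) (𝓝[Sg κ] 0) (𝓝[≠] 0) :=
    (st_tendsto S D.n_pos hε).mono_left (nhdsWithin_mono _ (Sg_sub_VS hκ1))
  have hd1 : ∀ τ ∈ Sg κ, HasDerivAt
      (fun τ => ((ε : ℂ) ^ 3)⁻¹ * (Zp n a k e g f (st n s ζ ω ε τ) - zp))
      (ω * Complex.exp (-2 * q τ) * Es a e (st n s ζ ω ε τ)) τ := by
    intro τ hτ
    refine (((D.stZp S hε hεr (Sg_sub_VS hκ1 hτ) (hq τ hτ)).sub_const zp).const_mul _).congr_deriv ?_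
    field_simp
  have hd2 : ∀ τ ∈ Sg κ, HasDerivAt
      (fun τ => ((ε : ℂ) ^ 3)⁻¹ * (Zm n a k e g f (st n s ζ ω ε τ) - zm))
      (ω * Complex.exp (-2 * q τ) / Es a e (st n s ζ ω ε τ)) τ := by
    intro τ hτ
    refine (((D.stZm S hε hεr (Sg_sub_VS hκ1 hτ) (hq τ hτ)).sub_const zm).const_mul _).congr_deriv ?_
    field_simp
  refine ⟨S.hω, fun τ hτ =>
    (D.stE S hε hεr (Sg_sub_VS hκ1 hτ) (hq τ hτ)).differentiableAt.differentiableWithinAt,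
    fun τ _ => rfl, fun τ hτ => (hd1 τ hτ).differentiableAt.differentiableWithinAt,
    fun τ hτ => (hd2 τ hτ).differentiableAt.differentiableWithinAt, fun τ hτ => (hd1 τ hτ).deriv,
    fun τ hτ => (hd2 τ hτ).deriv, ?_, ?_⟩
  · have := ((hzp.comp hst).sub_const zp).const_mul ((ε : ℂ) ^ 3)⁻¹
    rw [sub_self, mul_zero] at this
    exact this
  · have := ((hzm.comp hst).sub_const zm).const_mul ((ε : ℂ) ^ 3)⁻¹
    rw [sub_self, mul_zero] at this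
    exact this

/-- `Pos`, `j = - ω I` -/
lemma posM (D : EndS θ H s n r a k e g f) (S : Sht n ζ ω) {ε : ℝ} (hε : 0 < ε)
    (hεr : ε < r ^ n) {q : ℂ → ℂ} {κ : ℝ} (hκ1 : κ < 1)
    (hq : ∀ τ ∈ Sg κ, Complex.exp (q τ) = ε * Es k g (st n s ζ ω ε τ)) {zp zm : ℂ}
    (hzp : Tendsto (Zp n a k e g f) (𝓝[≠] 0) (𝓝 zp))
    (hzm : Tendsto (Zm n a k e g f) (𝓝[≠] 0) (𝓝 zm)) :
    Pos κ q (-(ω * Complex.I)) ω (fun τ => (Es a e (st n s ζ ω ε τ))⁻¹ ^ 2)
      (fun τ => (Es a e (st n s ζ ω ε τ))⁻¹)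
      (fun τ => ((ε : ℂ) ^ 3)⁻¹ * (Zm n a k e g f (st n s ζ ω ε τ) - zm))
      (fun τ => ((ε : ℂ) ^ 3)⁻¹ * (Zp n a k e g f (st n s ζ ω ε τ) - zp)) := by
  have hP := D.posP S hε hεr hκ1 hq hzp hzm
  refine ⟨S.hω, fun τ hτ => ?_, fun τ _ => rfl, hP.Zc_diff, hP.Z_diff, fun τ hτ => ?_,
    fun τ hτ => ?_, hP.Zc_lim, hP.Z_lim⟩
  · have hv := Sg_sub_VS hκ1 hτ
    have hne := D.E_ne (D.st_ball S hε hεr hv) (st_ne S D.n_pos hε hv)
    exact ((D.stE S hε hεr hv (hq τ hτ)).fun_inv hne).differentiableAt.differentiableWithinAt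
  · rw [hP.Zc_der τ hτ, div_eq_mul_inv]
  · rw [hP.Z_der τ hτ, div_inv_eq_mul]

/-- limit of `τ y` at an isotropic end -/
lemma ylim (D : EndS θ H s n r a k e g f) (S : Sht n ζ ω) {ε : ℝ} (hε : 0 < ε)
    (ha : a ≠ 0) {q : ℂ → ℂ} {κ : ℝ} (hκ1 : κ < 1)
    (hq : ∀ τ ∈ Sg κ, Complex.exp (q τ) = ε * Es k g (st n s ζ ω ε τ)) :
    Tendsto (fun τ => τ * Complex.exp (q τ)) (𝓝[Sg κ] 0) (𝓝 (-(ω * Complex.I) * (a / n))) := by
  have hn := D.n_pos
  obtain ⟨hk, hg0⟩ := D.iso ha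
  have hg : Tendsto (fun τ : ℂ => -(ω * Complex.I) * g (st n s ζ ω ε τ)) (𝓝[Sg κ] 0)
      (𝓝 (-(ω * Complex.I) * g 0)) :=
    (D.g_lim.comp ((st_tendsto S hn hε).mono_left (nhdsWithin_mono _ (Sg_sub_VS hκ1)))).const_mul _
  rw [hg0] at hg
  refine hg.congr' ?_
  filter_upwards [self_mem_nhdsWithin] with τ hτ
  rw [hq τ hτ, Es, hk, zpow_neg, zpow_natCast, st_pow S hn]
  have hτ0 : τ ≠ 0 := hτ.1
  have hεC : (ε : ℂ) ≠ 0 := by exact_mod_cast hε.ne'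
  have hI := Complex.I_ne_zero
  have hω := S.ω_ne
  field_simp
  linear_combination (-(g (st n s ζ ω ε τ) * ω ^ 2)) * Complex.I_sq +
    g (st n s ζ ω ε τ) * S.sq

end EndS

/-! ### sides `A` and `B` -/

/-- `e^{iπ/n}` -/
def zB (n : ℕ) : ℂ := Complex.exp (Real.pi * Complex.I / n)

lemma shtA (n : ℕ) : Sht n 1 1 := ⟨Or.inl rfl, one_pow n⟩

lemma shtB (hn : 0 < n) : Sht n (zB n) (-1) := by
  refine ⟨Or.inr rfl, ?_⟩
  unfold zB
  have hnC : (n : ℂ) ≠ 0 := by exact_mod_cast hn.ne'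
  rw [← Complex.exp_nat_mul, mul_div_cancel₀ _ hnC, Complex.exp_pi_mul_I]

/-- to the right of `s` the sheet `B` is the principal one -/
lemma sgwB_eq {z : ℂ} (hz : s.re < z.re) : sgw n s (zB n) (-1) z = sgw n s 1 1 z := by
  have him : 0 < (Complex.I * (z - s)).im := by simp; linarith
  set w := Complex.I * (z - s) with hw
  have hw0 : w ≠ 0 := by
    rintro h
    rw [h] at him
    simp at him
  unfold sgw zB
  rw [← hw, one_mul, one_mul, neg_one_mul, Complex.cpow_def_of_ne_zero (neg_ne_zero.2 hw0),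
    Complex.cpow_def_of_ne_zero hw0, ← Complex.exp_add]
  congr 1
  have h1 : Complex.log (-w) = Complex.log w - Real.pi * Complex.I := by
    unfold Complex.log
    rw [norm_neg, Complex.arg_neg_eq_arg_sub_pi_of_im_pos him]
    push_cast
    ring
  rw [h1]
  ring

lemma stB_eq {ε : ℝ} (hε : 0 < ε) {τ : ℂ} (hτ : 0 < τ.re) :
    st n s (zB n) (-1) ε (-τ) = st n s 1 1 ε τ := by
  unfold st
  have h1 : s + -1 * (ε * -τ) = s + 1 * (ε * τ) := by ring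
  rw [h1]
  apply sgwB_eq
  simp
  positivity

lemma sgwA_eq (z : ℂ) : sgw n s 1 1 z = sg n s z := by
  unfold sgw sg
  rw [one_mul, one_mul]

namespace EndS

/-- the continuation of `θ` on sheet `A` -/
theorem contA (D : EndS θ H s n r a k e g f) (hθ : DifferentiableOn ℂ θ (HD s (r ^ n))) :
    ∃ Θ : ℂ → ℂ, (∀ z ∈ VW s 1 (r ^ n), HasDerivAt Θ (Es k g (sgw n s 1 1 z)) z) ∧
      (∀ z ∈ VW s 1 (r ^ n), Complex.exp (Complex.I * Θ z) = Es a e (sgw n s 1 1 z)) ∧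
      ∀ z ∈ HD s (r ^ n), Θ z = θ z := by
  have hrn : 0 < r ^ n := pow_pos D.r_pos n
  refine D.contW (shtA n) hθ (isOpen_HD _ _) (convex_HD _ _) subset_rfl ?_
    (fun z _ => sgwA_eq z) ⟨s + (r ^ n / 2 : ℝ) * (-Complex.I),
      path_mem (by simp) (by simp) (by linarith) (by linarith)⟩
  intro z hz
  refine ⟨by simpa [dist_eq_norm] using hz.1, ?_⟩
  rw [one_mul]
  exact slit_of hz.2

/-- the continuation of `θ` on sheet `B` -/
theorem contB (D : EndS θ H s n r a k e g f) (hθ : DifferentiableOn ℂ θ (HD s (r ^ n))) :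
    ∃ Θ : ℂ → ℂ, (∀ z ∈ VW s (-1) (r ^ n), HasDerivAt Θ (Es k g (sgw n s (zB n) (-1) z)) z) ∧
      (∀ z ∈ VW s (-1) (r ^ n),
        Complex.exp (Complex.I * Θ z) = Es a e (sgw n s (zB n) (-1) z)) ∧
      ∀ z ∈ HD s (r ^ n), s.re < z.re → Θ z = θ z := by
  have hrn : 0 < r ^ n := pow_pos D.r_pos n
  have hcv : Convex ℝ {z : ℂ | s.re < z.re} := convex_halfSpace_re_gt s.re
  have hT2 : HD s (r ^ n) ∩ {z | s.re < z.re} ⊆ VW s (-1) (r ^ n) := by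
    intro z hz
    have hz2 : s.re < z.re := hz.2
    refine ⟨by simpa [dist_eq_norm] using hz.1.1, ?_⟩
    rw [Complex.mem_slitPlane_iff]
    right
    have h3 : (-1 * (Complex.I * (z - s))).im = -(z.re - s.re) := by simp
    rw [h3]
    have : 0 < z.re - s.re := by linarith
    exact (neg_neg_of_pos this).ne
  have hT3 : ∀ z ∈ HD s (r ^ n) ∩ {z | s.re < z.re}, sgw n s (zB n) (-1) z = sg n s z := by
    intro z hz
    rw [sgwB_eq hz.2, sgwA_eq]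
  have hTn : (HD s (r ^ n) ∩ {z | s.re < z.re}).Nonempty := by
    have h2 : (1 : ℂ) - Complex.I ≠ 0 := by
      intro h
      have := congrArg Complex.re h
      simp at this
    refine ⟨s + (r ^ n / 2 : ℝ) * ((1 - Complex.I) / (‖(1 : ℂ) - Complex.I‖ : ℂ)), path_mem ?_ ?_
      (by linarith) (by linarith), ?_⟩
    · rw [norm_div, Complex.norm_real, norm_norm, div_self (norm_ne_zero_iff.2 h2)]
    · have h3 : ((1 - Complex.I) / (‖(1 : ℂ) - Complex.I‖ : ℂ)).im = -1 / ‖(1 : ℂ) - Complex.I‖ := by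
        rw [Complex.div_ofReal_im]
        simp
      rw [h3]
      exact div_neg_of_neg_of_pos (by norm_num) (norm_pos_iff.2 h2)
    · have h3 : ((1 - Complex.I) / (‖(1 : ℂ) - Complex.I‖ : ℂ)).re = 1 / ‖(1 : ℂ) - Complex.I‖ := by
        rw [Complex.div_ofReal_re]
        simp
      change s.re < (s + (r ^ n / 2 : ℝ) * ((1 - Complex.I) / (‖(1 : ℂ) - Complex.I‖ : ℂ))).re
      rw [Complex.add_re, Complex.re_ofReal_mul, h3]
      have h4 : 0 < 1 / ‖(1 : ℂ) - Complex.I‖ := div_pos one_pos (norm_pos_iff.2 h2)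
      have h5 : 0 < r ^ n / 2 := by linarith
      have := mul_pos h5 h4
      linarith
  obtain ⟨Θ, h1, h2, h3⟩ := D.contW (shtB D.n_pos) hθ
    (T := HD s (r ^ n) ∩ {z | s.re < z.re})
    ((isOpen_HD _ _).inter (isOpen_lt continuous_const Complex.continuous_re))
    ((convex_HD _ _).inter hcv) inter_subset_left hT2 hT3 hTn
  exact ⟨Θ, h1, h2, fun z hz hz' => h3 z ⟨hz, hz'⟩⟩

end EndS

end

end Crest.Agent.R102.End416
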