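import Mathlib
import Crest.Agent.R102.MelC_416
import Crest.Agent.R102.MelData_490

/-!
Row 102, part (C), T5-MEL: **curve half of MEL-DATA** in the notation of `MelData_490`.
-/

set_option autoImplicit false

namespace Crest.Agent.R102.End416

open Set Filter Topology Metric
open Crest.Agent.R102.Pain416 (HD bl bl_basis HD_mem HD_mono isOpen_HD convex_HD path_mem)
open Crest.Agent.R102.T5R (VS IsoLead Sg EndQ Sg_sub_VS)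
open Crest.Agent.R102.Mel (Slope Pos OvR sgB)

noncomputable section

variable {θ H : ℂ → ℂ} {s : ℂ} {n : ℕ} {r : ℝ} {a k : ℤ} {e g f : ℂ → ℂ}

lemma sgB_eq (z : ℂ) : sgB n s z = sgw n s (zB n) (-1) z := by
  unfold sgB sgw zB
  congr 2
  ring

lemma stA_sg (ε : ℝ) (τ : ℂ) : st n s 1 1 ε τ = sg n s (s + 1 * ε * τ) := by
  unfold st
  rw [sgwA_eq]
  congr 1
  ring

lemma stB_sgB (ε : ℝ) (τ : ℂ) : st n s (zB n) (-1) ε τ = sgB n s (s + (-1) * ε * τ) := by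
  unfold st
  rw [sgB_eq]
  congr 1
  ring

lemma endQ_mono {κ c β C C' : ℝ} {q : ℂ → ℂ} (h : EndQ κ c β C q) (hC : C ≤ C') :
    EndQ κ c β C' q :=
  ⟨h.κ_pos, h.κ_lt, h.β_pos, h.diff, fun τ hτ => (h.asym τ hτ).trans
    (mul_le_mul_of_nonneg_right hC (Real.rpow_nonneg (norm_nonneg _) _))⟩

lemma neg_mem_of_OvR {κ : ℝ} {τ : ℂ} (h : τ ∈ OvR κ) : -τ ∈ Sg κ ∧ τ ∈ Sg κ := by
  obtain ⟨h1, h2, h3, h4⟩ := h
  rw [abs_lt] at h3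
  refine ⟨⟨neg_ne_zero.2 h1, by rwa [norm_neg], ?_⟩, h1, h2, h3.2⟩
  rw [Complex.neg_im, norm_neg]
  linarith [h3.1]

namespace EndS

/-- **curve half, common part**: the two logarithms -/
theorem curveQ (D : EndS θ H s n r a k e g f) {ε κ : ℝ} (hε : 0 < ε) (hεr : ε < r ^ n)
    (hκ : 0 < κ) (hκ1 : κ < 1) :
    ∃ (C : ℝ) (qA qB : ℂ → ℂ),
      EndQ κ (k / n : ℝ) (n : ℝ)⁻¹ C qA ∧ EndQ κ (k / n : ℝ) (n : ℝ)⁻¹ C qB ∧
      (∀ τ ∈ VS 0 1, Complex.exp (qA τ) = ε * Es k g (st n s 1 1 ε τ)) ∧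
      (∀ τ ∈ VS 0 1, Complex.exp (qB τ) = ε * Es k g (st n s (zB n) (-1) ε τ)) ∧
      (∀ τ ∈ Sg κ, Complex.exp (qA τ) = ε * Es k g (sg n s (s + 1 * ε * τ))) ∧
      (∀ τ ∈ Sg κ, Complex.exp (qB τ) = ε * Es k g (sgB n s (s + (-1) * ε * τ))) ∧
      (∀ τ ∈ OvR κ, Complex.exp (qB (-τ)) = Complex.exp (qA τ)) := by
  obtain ⟨qA, CA, hA1, hA2, hA3⟩ := D.logW (shtA n) hε hεr
  obtain ⟨qB, CB, hB1, hB2, hB3⟩ := D.logW (shtB D.n_pos) hε hεr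
  refine ⟨max CA CB, qA, qB, endQ_mono (D.endQ hκ hκ1 hA1 hA3) (le_max_left _ _),
    endQ_mono (D.endQ hκ hκ1 hB1 hB3) (le_max_right _ _), hA2, hB2, ?_, ?_, ?_⟩
  · intro τ hτ
    rw [hA2 τ (Sg_sub_VS hκ1 hτ), stA_sg]
  · intro τ hτ
    rw [hB2 τ (Sg_sub_VS hκ1 hτ), stB_sgB]
  · intro τ hτ
    obtain ⟨h1, h2⟩ := neg_mem_of_OvR hτ
    rw [hB2 _ (Sg_sub_VS hκ1 h1), hA2 _ (Sg_sub_VS hκ1 h2), stB_eq hε hτ.2.2.2]

/-- **curve half of MEL-DATA**, any end (`j = I`), any logarithms `qA`, `qB` -/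
theorem flat_of (D : EndS θ H s n r a k e g f) {ε κ : ℝ} (hε : 0 < ε) (hεr : ε < r ^ n)
    (hκ : 0 < κ) (hκ1 : κ < 1) {qA qB : ℂ → ℂ}
    (hAd : DifferentiableOn ℂ qA (Sg κ)) (hBd : DifferentiableOn ℂ qB (Sg κ))
    (hA : ∀ τ ∈ Sg κ, Complex.exp (qA τ) = ε * Es k g (sg n s (s + 1 * ε * τ)))
    (hB : ∀ τ ∈ Sg κ, Complex.exp (qB τ) = ε * Es k g (sgB n s (s + (-1) * ε * τ))) :
    (∃ C : ℝ, EndQ κ (k / n : ℝ) (n : ℝ)⁻¹ C qA ∧ EndQ κ (k / n : ℝ) (n : ℝ)⁻¹ C qB) ∧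
      (∀ τ ∈ OvR κ, Complex.exp (qB (-τ)) = Complex.exp (qA τ)) ∧
      Slope κ qA Complex.I (fun τ => Es a e (sg n s (s + 1 * ε * τ)) ^ 2) ∧
      Slope κ qB (-Complex.I) (fun τ => Es a e (sgB n s (s + (-1) * ε * τ)) ^ 2) ∧
      (∀ τ ∈ OvR κ, Es a e (sgB n s (s + (-1) * ε * (-τ))) ^ 2 =
        Es a e (sg n s (s + 1 * ε * τ)) ^ 2) := by
  have hA' : ∀ τ ∈ Sg κ, Complex.exp (qA τ) = ε * Es k g (st n s 1 1 ε τ) := fun τ hτ => by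
    rw [hA τ hτ, stA_sg]
  have hB' : ∀ τ ∈ Sg κ, Complex.exp (qB τ) = ε * Es k g (st n s (zB n) (-1) ε τ) := fun τ hτ => by
    rw [hB τ hτ, stB_sgB]
  obtain ⟨CA, h1⟩ := D.endQ_of (shtA n) hε hεr hκ hκ1 hAd hA'
  obtain ⟨CB, h2⟩ := D.endQ_of (shtB D.n_pos) hε hεr hκ hκ1 hBd hB'
  refine ⟨⟨max CA CB, endQ_mono h1 (le_max_left _ _), endQ_mono h2 (le_max_right _ _)⟩,
    ?_, ?_, ?_, ?_⟩
  · intro τ hτ
    obtain ⟨h3, h4⟩ := neg_mem_of_OvR hτ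
    rw [hB' _ h3, hA' _ h4, stB_eq hε hτ.2.2.2]
  · have := D.slopeP (shtA n) hε hεr hκ1 hA'
    rw [one_mul] at this
    simp only [stA_sg] at this
    exact this
  · have := D.slopeP (shtB D.n_pos) hε hεr hκ1 hB'
    rw [neg_one_mul] at this
    simp only [stB_sgB] at this
    exact this
  · intro τ hτ
    rw [← stB_sgB, ← stA_sg, stB_eq hε hτ.2.2.2]

/-- **curve half of MEL-DATA**, any end (`j = I`) -/
theorem curve_flat (D : EndS θ H s n r a k e g f) {ε κ : ℝ} (hε : 0 < ε) (hεr : ε < r ^ n)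
    (hκ : 0 < κ) (hκ1 : κ < 1) :
    ∃ (C : ℝ) (qA qB MA MB : ℂ → ℂ),
      EndQ κ (k / n : ℝ) (n : ℝ)⁻¹ C qA ∧ EndQ κ (k / n : ℝ) (n : ℝ)⁻¹ C qB ∧
      (∀ τ ∈ Sg κ, Complex.exp (qA τ) = ε * Es k g (sg n s (s + 1 * ε * τ))) ∧
      (∀ τ ∈ Sg κ, Complex.exp (qB τ) = ε * Es k g (sgB n s (s + (-1) * ε * τ))) ∧
      (∀ τ ∈ OvR κ, Complex.exp (qB (-τ)) = Complex.exp (qA τ)) ∧
      Slope κ qA Complex.I MA ∧ Slope κ qB (-Complex.I) MB ∧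
      (∀ τ, MA τ = Es a e (sg n s (s + 1 * ε * τ)) ^ 2) ∧
      (∀ τ, MB τ = Es a e (sgB n s (s + (-1) * ε * τ)) ^ 2) ∧
      (∀ τ ∈ OvR κ, MB (-τ) = MA τ) := by
  obtain ⟨C, qA, qB, h1, h2, h3, h4, h5, h6, h7⟩ := D.curveQ hε hεr hκ hκ1
  obtain ⟨h8, h9, h10, h11, h12⟩ := D.flat_of hε hεr hκ hκ1 h1.diff h2.diff h5 h6
  exact ⟨C, qA, qB, _, _, h1, h2, h5, h6, h7, h10, h11, fun _ => rfl, fun _ => rfl, h12⟩

/-- **curve half of MEL-DATA**, isotropic end with `m = 1`, any logarithms `qA`, `qB` -/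
theorem iso_of (D : EndS θ H s n r a k e g f) (ha : a = n ∨ a = -n) {ε κ : ℝ} (hε : 0 < ε)
    (hεr : ε < r ^ n) (hκ : 0 < κ) (hκ1 : κ < 1) {qA qB : ℂ → ℂ}
    (hAd : DifferentiableOn ℂ qA (Sg κ)) (hBd : DifferentiableOn ℂ qB (Sg κ))
    (hA : ∀ τ ∈ Sg κ, Complex.exp (qA τ) = ε * Es k g (sg n s (s + 1 * ε * τ)))
    (hB : ∀ τ ∈ Sg κ, Complex.exp (qB τ) = ε * Es k g (sgB n s (s + (-1) * ε * τ))) :
    (∃ C : ℝ, EndQ κ (-1) (n : ℝ)⁻¹ C qA ∧ EndQ κ (-1) (n : ℝ)⁻¹ C qB) ∧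
      (∀ τ ∈ OvR κ, Complex.exp (qB (-τ)) = Complex.exp (qA τ)) ∧
      ∃ (j : ℂ) (MA MB EA ZA ZcA EB ZB ZcB : ℂ → ℂ),
      (j = Complex.I ∨ j = -Complex.I) ∧
      Slope κ qA j MA ∧ Slope κ qB (-j) MB ∧ (∀ τ ∈ OvR κ, MB (-τ) = MA τ) ∧
      Tendsto (fun τ => τ * (j * Complex.exp (qA τ))) (𝓝[Sg κ] 0) (𝓝 1) ∧
      Tendsto (fun τ => τ * (-j * Complex.exp (qB τ))) (𝓝[Sg κ] 0) (𝓝 1) ∧
      Pos κ qA j 1 MA EA ZA ZcA ∧ Pos κ qB (-j) (-1) MB EB ZB ZcB ∧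
      (∀ τ ∈ OvR κ, EB (-τ) = EA τ ∧ ZB (-τ) = ZA τ ∧ ZcB (-τ) = ZcA τ) := by
  have hn := D.n_pos
  have hnC : (n : ℂ) ≠ 0 := by exact_mod_cast hn.ne'
  have hnR : (n : ℝ) ≠ 0 := by exact_mod_cast hn.ne'
  have ha0 : a ≠ 0 := by rcases ha with h | h <;> rw [h] <;> omega
  obtain ⟨⟨C, h1, h2⟩, h7, _⟩ := D.flat_of hε hεr hκ hκ1 hAd hBd hA hB
  have h3 : ∀ τ ∈ Sg κ, Complex.exp (qA τ) = ε * Es k g (st n s 1 1 ε τ) := fun τ hτ => by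
    rw [hA τ hτ, stA_sg]
  have h4 : ∀ τ ∈ Sg κ, Complex.exp (qB τ) = ε * Es k g (st n s (zB n) (-1) ε τ) := fun τ hτ => by
    rw [hB τ hτ, stB_sgB]
  obtain ⟨zp, zm, hzp, hzm⟩ := D.lims ha
  have hk : (k / n : ℝ) = -1 := by
    rw [(D.iso ha0).1]
    push_cast
    field_simp
  rw [hk] at h1 h2
  have hyA := D.ylim (shtA n) hε ha0 hκ1 h3
  have hyB := D.ylim (shtB hn) hε ha0 hκ1 h4
  refine ⟨⟨C, h1, h2⟩, h7, ?_⟩
  rcases ha with ha | ha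
  · refine ⟨Complex.I, fun τ => Es a e (st n s 1 1 ε τ) ^ 2,
      fun τ => Es a e (st n s (zB n) (-1) ε τ) ^ 2, _, _, _, _, _, _,
      Or.inl rfl, ?_, ?_, ?_, ?_, ?_,
      (one_mul Complex.I) ▸ D.posP (shtA n) hε hεr hκ1 h3 hzp hzm,
      (neg_one_mul Complex.I) ▸ D.posP (shtB hn) hε hεr hκ1 h4 hzp hzm, ?_⟩
    · have := D.slopeP (shtA n) hε hεr hκ1 h3
      rwa [one_mul] at this
    · have := D.slopeP (shtB hn) hε hεr hκ1 h4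
      rwa [neg_one_mul] at this
    · intro τ hτ
      simp only
      rw [stB_eq hε hτ.2.2.2]
    · have := hyA.const_mul Complex.I
      have h8 : Complex.I * (-(1 * Complex.I) * (a / n : ℂ)) = 1 := by
        rw [ha]
        push_cast
        field_simp
        linear_combination (-1 : ℂ) * Complex.I_sq
      rw [h8] at this
      refine this.congr fun τ => ?_
      ring
    · have := hyB.const_mul (-Complex.I)
      have h8 : -Complex.I * (-(-1 * Complex.I) * (a / n : ℂ)) = 1 := by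
        rw [ha]
        push_cast
        field_simp
        linear_combination (-1 : ℂ) * Complex.I_sq
      rw [h8] at this
      refine this.congr fun τ => ?_
      ring
    · intro τ hτ
      rw [stB_eq hε hτ.2.2.2]
      exact ⟨rfl, rfl, rfl⟩
  · refine ⟨-Complex.I, fun τ => (Es a e (st n s 1 1 ε τ))⁻¹ ^ 2,
      fun τ => (Es a e (st n s (zB n) (-1) ε τ))⁻¹ ^ 2, _, _, _, _, _, _,
      Or.inr rfl, ?_, ?_, ?_, ?_, ?_,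
      (one_mul Complex.I) ▸ D.posM (shtA n) hε hεr hκ1 h3 hzp hzm,
      (neg_one_mul Complex.I) ▸ D.posM (shtB hn) hε hεr hκ1 h4 hzp hzm, ?_⟩
    · have := D.slopeM (shtA n) hε hεr hκ1 h3
      rwa [one_mul] at this
    · have := D.slopeM (shtB hn) hε hεr hκ1 h4
      rwa [neg_one_mul] at this
    · intro τ hτ
      simp only
      rw [stB_eq hε hτ.2.2.2]
    · have := hyA.const_mul (-Complex.I)
      have h8 : -Complex.I * (-(1 * Complex.I) * (a / n : ℂ)) = 1 := by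
        rw [ha]
        push_cast
        field_simp
        linear_combination (-1 : ℂ) * Complex.I_sq
      rw [h8] at this
      refine this.congr fun τ => ?_
      ring
    · have := hyB.const_mul (-(-Complex.I))
      have h8 : -(-Complex.I) * (-(-1 * Complex.I) * (a / n : ℂ)) = 1 := by
        rw [ha]
        push_cast
        field_simp
        linear_combination (-1 : ℂ) * Complex.I_sq
      rw [h8] at this
      refine this.congr fun τ => ?_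
      ring
    · intro τ hτ
      rw [stB_eq hε hτ.2.2.2]
      exact ⟨rfl, rfl, rfl⟩

/-- **curve half of MEL-DATA**, isotropic end with `m = 1` -/
theorem curve_iso (D : EndS θ H s n r a k e g f) (ha : a = n ∨ a = -n) {ε κ : ℝ} (hε : 0 < ε)
    (hεr : ε < r ^ n) (hκ : 0 < κ) (hκ1 : κ < 1) :
    ∃ (j : ℂ) (C : ℝ) (qA qB MA MB EA ZA ZcA EB ZB ZcB : ℂ → ℂ),
      (j = Complex.I ∨ j = -Complex.I) ∧
      EndQ κ (-1) (n : ℝ)⁻¹ C qA ∧ EndQ κ (-1) (n : ℝ)⁻¹ C qB ∧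
      (∀ τ ∈ Sg κ, Complex.exp (qA τ) = ε * Es k g (sg n s (s + 1 * ε * τ))) ∧
      (∀ τ ∈ Sg κ, Complex.exp (qB τ) = ε * Es k g (sgB n s (s + (-1) * ε * τ))) ∧
      (∀ τ ∈ OvR κ, Complex.exp (qB (-τ)) = Complex.exp (qA τ)) ∧
      Slope κ qA j MA ∧ Slope κ qB (-j) MB ∧ (∀ τ ∈ OvR κ, MB (-τ) = MA τ) ∧
      Tendsto (fun τ => τ * (j * Complex.exp (qA τ))) (𝓝[Sg κ] 0) (𝓝 1) ∧
      Tendsto (fun τ => τ * (-j * Complex.exp (qB τ))) (𝓝[Sg κ] 0) (𝓝 1) ∧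
      Pos κ qA j 1 MA EA ZA ZcA ∧ Pos κ qB (-j) (-1) MB EB ZB ZcB ∧
      (∀ τ ∈ OvR κ, EB (-τ) = EA τ ∧ ZB (-τ) = ZA τ ∧ ZcB (-τ) = ZcA τ) := by
  obtain ⟨C0, qA, qB, h1, h2, h3, h4, h5, h6, h7⟩ := D.curveQ hε hεr hκ hκ1
  obtain ⟨⟨C, h8, h9⟩, h10, j, MA, MB, EA, ZA, ZcA, EB, ZB, ZcB, hj, h11, h12, h13, h14, h15, h16,
    h17, h18⟩ := D.iso_of ha hε hεr hκ hκ1 h1.diff h2.diff h5 h6
  exact ⟨j, C, qA, qB, MA, MB, EA, ZA, ZcA, EB, ZB, ZcB, hj, h8, h9, h5, h6, h10, h11, h12, h13,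
    h14, h15, h16, h17, h18⟩

end EndS

end

end Crest.Agent.R102.End416
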