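import Mathlib
import Crest.Agent.R102.MelCurve_416
import Crest.Agent.R102.C1F_821

/-!
Row 102, part (C), T5-MEL: the sheets of a Puiseux end satisfy the curve relation (`LZ`).
-/

set_option autoImplicit false

namespace Crest.Agent.R102.End416

open Set Filter Topology Metric
open Crest.Agent.R102.Pain416 (HD bl bl_basis HD_mem HD_mono isOpen_HD convex_HD path_mem)
open Crest.Agent.R102.T5R (VS IsoLead Sg EndQ Sg_sub_VS)
open Crest.Agent.R102.Mel (Slope Pos OvR sgB SgZ Sheet)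
open Crest.Agent.R102.C1 (LZ)

noncomputable section

variable {θ H : ℂ → ℂ} {s : ℂ} {n : ℕ} {r : ℝ} {a k : ℤ} {e g f : ℂ → ℂ} {ζ ω : ℂ}

namespace EndS

/-- the sheet over the slit disc satisfies the curve relation, `θ' ≠ 0` -/
theorem sheet_LZ (D : EndS θ H s n r a k e g f) (S : Sht n ζ ω) {Θ : ℂ → ℂ}
    (hΘ : ∀ z ∈ VW s ω (r ^ n), HasDerivAt Θ (Es k g (sgw n s ζ ω z)) z) :
    LZ (VW s ω (r ^ n)) Θ (fun z => f (sgw n s ζ ω z)) ∧
      ∀ z ∈ VW s ω (r ^ n), deriv Θ z ≠ 0 := by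
  have hn := D.n_pos
  have hop := isOpen_VW s ω (r ^ n)
  have hf : ∀ z ∈ VW s ω (r ^ n), HasDerivAt (fun z => f (sgw n s ζ ω z))
      (Hd n f (sgw n s ζ ω z)) z := by
    intro z hz
    obtain ⟨h1, h2⟩ := D.mem_of_VW S hz
    exact ((D.f_an _ h1 h2).differentiableAt.hasDerivAt).comp z (sgw_deriv S hn hz.2)
  have h1 : ∀ z ∈ VW s ω (r ^ n), deriv (deriv Θ) z =
      deriv (Es k g) (sgw n s ζ ω z) * Dz n (sgw n s ζ ω z) := by
    intro z hz
    obtain ⟨h1, h2⟩ := D.mem_of_VW S hz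
    have h3 : deriv Θ =ᶠ[𝓝 z] fun z => Es k g (sgw n s ζ ω z) := by
      filter_upwards [hop.mem_nhds hz] with z' hz' using (hΘ z' hz').deriv
    rw [h3.deriv_eq]
    exact (((D.Es_anY h1 h2).differentiableAt.hasDerivAt).comp z (sgw_deriv S hn hz.2)).deriv
  have h2 : ∀ z ∈ VW s ω (r ^ n), deriv (deriv (fun z => f (sgw n s ζ ω z))) z =
      deriv (Hd n f) (sgw n s ζ ω z) * Dz n (sgw n s ζ ω z) := by
    intro z hz
    obtain ⟨h1, h2⟩ := D.mem_of_VW S hz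
    have h3 : deriv (fun z => f (sgw n s ζ ω z)) =ᶠ[𝓝 z] fun z => Hd n f (sgw n s ζ ω z) := by
      filter_upwards [hop.mem_nhds hz] with z' hz' using (hf z' hz').deriv
    rw [h3.deriv_eq]
    exact (((D.Hd_an h1 h2).differentiableAt.hasDerivAt).comp z (sgw_deriv S hn hz.2)).deriv
  refine ⟨⟨hop, fun z hz => (hΘ z hz).differentiableAt.differentiableWithinAt,
    fun z hz => (hf z hz).differentiableAt.differentiableWithinAt, fun z hz => ?_⟩, fun z hz => ?_⟩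
  · obtain ⟨h3, h4⟩ := D.mem_of_VW S hz
    rw [h1 z hz, h2 z hz, (hΘ z hz).deriv, (hf z hz).deriv]
    exact D.lz _ h3 h4
  · obtain ⟨h3, h4⟩ := D.mem_of_VW S hz
    rw [(hΘ z hz).deriv]
    exact D.Y_ne h3 h4

/-- the slit sectors are inside the slit discs -/
lemma SgZ_sub {ε κ : ℝ} (hω : ω = 1 ∨ ω = -1) (hκ1 : κ < 1) {δ : ℝ} (hεδ : ε ≤ δ) :
    SgZ s ω ε κ ⊆ VW s ω δ := by
  intro z hz
  obtain ⟨h1, h2, h3⟩ := hz
  refine ⟨h2.trans_le hεδ, ?_⟩
  have hzs : 0 < ‖z - s‖ := norm_pos_iff.2 (sub_ne_zero.2 h1)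
  have hω2 : (z - s) / ω = ω * (z - s) := by
    rcases hω with h | h <;> rw [h]
    · simp
    · rw [div_neg, div_one, neg_one_mul]
  rw [hω2] at h3
  have hnorm : ‖ω * (z - s)‖ = ‖z - s‖ := by
    rcases hω with h | h <;> rw [h, norm_mul] <;> simp
  set w := ω * (z - s) with hw
  have h4 : ω * (Complex.I * (z - s)) = Complex.I * w := by rw [hw]; ring
  rw [h4, Complex.mem_slitPlane_iff]
  simp only [Complex.mul_re, Complex.I_re, zero_mul, Complex.I_im, one_mul, zero_sub,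
    Complex.mul_im, zero_add]
  by_contra hcon
  push Not at hcon
  obtain ⟨h5, h6⟩ := hcon
  have him : 0 ≤ w.im := by linarith
  have hn : ‖w‖ = w.im := by
    have e : w = (w.im : ℂ) * Complex.I := by
      apply Complex.ext
      · simp only [Complex.mul_re, Complex.ofReal_re, Complex.I_re, mul_zero, Complex.ofReal_im,
          Complex.I_im, mul_one, sub_self]
        simpa using h6
      · simp
    rw [e, norm_mul, Complex.norm_I, mul_one, Complex.norm_real, Real.norm_of_nonneg him]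
    simp
  rw [← hnorm, hn] at h3 hzs
  nlinarith

/-- sheet `A` over the slit sector -/
theorem sheetA (D : EndS θ H s n r a k e g f) (hθ : DifferentiableOn ℂ θ (HD s (r ^ n)))
    {ε κ : ℝ} (hεr : ε ≤ r ^ n) (hκ1 : κ < 1) :
    ∃ Θ Hh : ℂ → ℂ, LZ (VW s 1 (r ^ n)) Θ Hh ∧ (∀ z ∈ VW s 1 (r ^ n), deriv Θ z ≠ 0) ∧
      Sheet (sg n s) (SgZ s 1 ε κ) a k e g f Θ Hh ∧
      (∀ z ∈ VW s 1 (r ^ n), z.im < s.im → Θ z = θ z ∧ Hh z = H z) ∧
      SgZ s 1 ε κ ⊆ VW s 1 (r ^ n) := by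
  obtain ⟨Θ, h1, h2, h3⟩ := D.contA hθ
  obtain ⟨h4, h5⟩ := D.sheet_LZ (shtA n) h1
  have hsub : SgZ s 1 ε κ ⊆ VW s 1 (r ^ n) := SgZ_sub (Or.inl rfl) hκ1 hεr
  refine ⟨Θ, fun z => f (sgw n s 1 1 z), h4, h5, ⟨?_, ?_, ?_⟩, ?_, hsub⟩
  · intro z hz
    rw [h2 z (hsub hz), sgwA_eq]
  · intro z hz
    have := h1 z (hsub hz)
    rwa [sgwA_eq] at this
  · intro z hz
    rw [sgwA_eq]
  · intro z hz him
    have hz' : z ∈ HD s (r ^ n) := ⟨by simpa [dist_eq_norm] using hz.1, him⟩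
    refine ⟨h3 z hz', ?_⟩
    change f (sgw n s 1 1 z) = H z
    rw [sgwA_eq]
    exact (D.H_eq z hz').symm

/-- sheet `B` over the slit sector -/
theorem sheetB (D : EndS θ H s n r a k e g f) (hθ : DifferentiableOn ℂ θ (HD s (r ^ n)))
    {ε κ : ℝ} (hεr : ε ≤ r ^ n) (hκ1 : κ < 1) :
    ∃ Θ Hh : ℂ → ℂ, LZ (VW s (-1) (r ^ n)) Θ Hh ∧ (∀ z ∈ VW s (-1) (r ^ n), deriv Θ z ≠ 0) ∧
      Sheet (sgB n s) (SgZ s (-1) ε κ) a k e g f Θ Hh ∧
      (∀ z ∈ HD s (r ^ n), s.re < z.re → Θ z = θ z ∧ Hh z = H z) ∧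
      SgZ s (-1) ε κ ⊆ VW s (-1) (r ^ n) := by
  obtain ⟨Θ, h1, h2, h3⟩ := D.contB hθ
  obtain ⟨h4, h5⟩ := D.sheet_LZ (shtB D.n_pos) h1
  have hsub : SgZ s (-1) ε κ ⊆ VW s (-1) (r ^ n) := SgZ_sub (Or.inr rfl) hκ1 hεr
  refine ⟨Θ, fun z => f (sgw n s (zB n) (-1) z), h4, h5, ⟨?_, ?_, ?_⟩, ?_, hsub⟩
  · intro z hz
    rw [h2 z (hsub hz), sgB_eq]
  · intro z hz
    have := h1 z (hsub hz)
    rwa [← sgB_eq] at this
  · intro z hz
    rw [sgB_eq]
  · intro z hz hre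
    refine ⟨h3 z hz hre, ?_⟩
    change f (sgw n s (zB n) (-1) z) = H z
    rw [sgwB_eq hre, sgwA_eq]
    exact (D.H_eq z hz).symm

/-- **both sheets**: `A` and `B` agree to the right of `s` -/
theorem sheets (D : EndS θ H s n r a k e g f) (hθ : DifferentiableOn ℂ θ (HD s (r ^ n)))
    {ε κ : ℝ} (hεr : ε ≤ r ^ n) (hκ1 : κ < 1) :
    ∃ θA HA θB HB : ℂ → ℂ, LZ (VW s 1 (r ^ n)) θA HA ∧ LZ (VW s (-1) (r ^ n)) θB HB ∧
      (∀ z ∈ VW s 1 (r ^ n), deriv θA z ≠ 0) ∧ (∀ z ∈ VW s (-1) (r ^ n), deriv θB z ≠ 0) ∧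
      Sheet (sg n s) (SgZ s 1 ε κ) a k e g f θA HA ∧
      Sheet (sgB n s) (SgZ s (-1) ε κ) a k e g f θB HB ∧
      SgZ s 1 ε κ ⊆ VW s 1 (r ^ n) ∧ SgZ s (-1) ε κ ⊆ VW s (-1) (r ^ n) ∧
      (∀ z ∈ VW s 1 (r ^ n), z.im < s.im → θA z = θ z ∧ HA z = H z) ∧
      ∀ z, ‖z - s‖ < r ^ n → s.re < z.re → θB z = θA z ∧ HB z = HA z := by
  obtain ⟨θA, h1, h2, h3⟩ := D.contA hθ
  obtain ⟨θB, h1', h2', h3'⟩ := D.contB hθ
  obtain ⟨h4, h5⟩ := D.sheet_LZ (shtA n) h1
  obtain ⟨h4', h5'⟩ := D.sheet_LZ (shtB D.n_pos) h1'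
  have hsubA : SgZ s 1 ε κ ⊆ VW s 1 (r ^ n) := SgZ_sub (Or.inl rfl) hκ1 hεr
  have hsubB : SgZ s (-1) ε κ ⊆ VW s (-1) (r ^ n) := SgZ_sub (Or.inr rfl) hκ1 hεr
  refine ⟨θA, fun z => f (sgw n s 1 1 z), θB, fun z => f (sgw n s (zB n) (-1) z), h4, h4', h5, h5',
    ⟨?_, ?_, ?_⟩, ⟨?_, ?_, ?_⟩, hsubA, hsubB, ?_, ?_⟩
  · intro z hz
    rw [h2 z (hsubA hz), sgwA_eq]
  · intro z hz
    have := h1 z (hsubA hz)
    rwa [sgwA_eq] at this
  · intro z hz
    rw [sgwA_eq]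
  · intro z hz
    rw [h2' z (hsubB hz), sgB_eq]
  · intro z hz
    have := h1' z (hsubB hz)
    rwa [← sgB_eq] at this
  · intro z hz
    rw [sgB_eq]
  · intro z hz him
    have hz' : z ∈ HD s (r ^ n) := ⟨by simpa [dist_eq_norm] using hz.1, him⟩
    refine ⟨h3 z hz', ?_⟩
    change f (sgw n s 1 1 z) = H z
    rw [sgwA_eq]
    exact (D.H_eq z hz').symm
  · -- agreement on the right half disc, by the identity of derivatives
    set T : Set ℂ := ball s (r ^ n) ∩ {z | s.re < z.re} with hT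
    have hTo : IsOpen T := isOpen_ball.inter (isOpen_lt continuous_const Complex.continuous_re)
    have hTc : Convex ℝ T := (convex_ball _ _).inter (convex_halfSpace_re_gt s.re)
    have hrn : 0 < r ^ n := pow_pos D.r_pos n
    have hTA : ∀ z ∈ T, z ∈ VW s 1 (r ^ n) := by
      intro z hz
      have hz2 : s.re < z.re := hz.2
      refine ⟨by simpa [dist_eq_norm] using hz.1, ?_⟩
      rw [Complex.mem_slitPlane_iff]
      right
      have h3 : (1 * (Complex.I * (z - s))).im = z.re - s.re := by simp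
      rw [h3]
      exact (sub_pos.2 hz2).ne'
    have hTB : ∀ z ∈ T, z ∈ VW s (-1) (r ^ n) := by
      intro z hz
      have hz2 : s.re < z.re := hz.2
      refine ⟨by simpa [dist_eq_norm] using hz.1, ?_⟩
      rw [Complex.mem_slitPlane_iff]
      right
      have h3 : (-1 * (Complex.I * (z - s))).im = -(z.re - s.re) := by simp
      rw [h3]
      exact (neg_neg_of_pos (sub_pos.2 hz2)).ne
    have hd : ∀ z ∈ T, HasDerivAt (fun z => θB z - θA z) 0 z := by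
      intro z hz
      have h6 := (h1' z (hTB z hz)).sub (h1 z (hTA z hz))
      rw [sgwB_eq hz.2, sub_self] at h6
      exact h6
    -- a point below and to the right
    have h2n : (1 : ℂ) - Complex.I ≠ 0 := by
      intro h
      have := congrArg Complex.re h
      simp at this
    set u : ℂ := (1 - Complex.I) / (‖(1 : ℂ) - Complex.I‖ : ℂ) with hu
    have hu1 : ‖u‖ = 1 := by
      rw [hu, norm_div, Complex.norm_real, norm_norm, div_self (norm_ne_zero_iff.2 h2n)]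
    have hu2 : u.im < 0 := by
      rw [hu, Complex.div_ofReal_im]
      simp only [Complex.sub_im, Complex.one_im, Complex.I_im, zero_sub]
      exact div_neg_of_neg_of_pos (by norm_num) (norm_pos_iff.2 h2n)
    have hu3 : 0 < u.re := by
      rw [hu, Complex.div_ofReal_re]
      simp only [Complex.sub_re, Complex.one_re, Complex.I_re, sub_zero]
      exact div_pos one_pos (norm_pos_iff.2 h2n)
    have hp1 : s + (r ^ n / 2 : ℝ) * u ∈ HD s (r ^ n) :=
      path_mem hu1 hu2 (by linarith) (by linarith)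
    have hp2 : s.re < (s + (r ^ n / 2 : ℝ) * u).re := by
      rw [Complex.add_re, Complex.re_ofReal_mul]
      have h5 : 0 < r ^ n / 2 := by linarith
      have := mul_pos h5 hu3
      linarith
    have hp3 : s + (r ^ n / 2 : ℝ) * u ∈ T := ⟨hp1.1, hp2⟩
    intro z hz1 hz2
    have hzT : z ∈ T := ⟨by simpa [dist_eq_norm] using hz1, hz2⟩
    have hconst := hTc.is_const_of_fderivWithin_eq_zero (𝕜 := ℂ)
      (f := fun z => θB z - θA z)
      (fun z hz => (hd z hz).differentiableAt.differentiableWithinAt) (fun z hz => by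
        rw [fderivWithin_of_isOpen hTo hz]
        have := (hd z hz).hasFDerivAt.fderiv
        rw [this]
        ext; simp) hzT hp3
    rw [h3 _ hp1, h3' _ hp1 hp2, sub_self] at hconst
    refine ⟨sub_eq_zero.1 hconst, ?_⟩
    change f (sgw n s (zB n) (-1) z) = f (sgw n s 1 1 z)
    rw [sgwB_eq hz2]

end EndS

end

end Crest.Agent.R102.End416
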