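import Crest.Agent.R102.SecA_160
import Crest.Agent.R102.MelData_490
import Crest.Agent.R102.SheetLZ_416

/-!
Row 102, MEL-SecAB (helper160): both sides of a Puiseux end.
-/

set_option autoImplicit false

open Set Filter Topology Metric
open scoped ComplexConjugate

noncomputable section

namespace Crest.Agent.R102.SecAB

open Crest.Agent.R102.T5 Crest.Agent.R102.A929 Crest.Agent.R102.B821
open Crest.Agent.R102.Spine Crest.Agent.R102.C0 Crest.Agent.R102.C1 Crest.Agent.R102.C1Sec963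
open Crest.Agent.R102.M948 Crest.Agent.R102.T5R Crest.Agent.R102.T5R.P2
open Crest.Agent.R102.Mel (SgZ SideZ Sheet sgB)
open Crest.Agent.R102.End416 (Es sg VW)
open Crest.Agent.R102.Pain416 (HD)

variable {q : C(ℂ, ℂ)} {η ρ r B : ℝ} {b φ p : ℂ × ℂ → ℂ} {m₀ : ℂ → ℂ}
  {V : Set ℂ} {θ H : ℂ → ℂ} {s : ℂ} {ε : ℝ} {Θ Hh : ℂ → ℂ} {h0 : ℝ}

/-! ### side A -/

theorem vext' (D : DataS q η ρ r B b φ p m₀ θ H h0) (hs : s.im = h0) (hε : 0 < ε) (hεl : ε < h0)
    (h1 : DifferentiableOn ℂ Θ (VS s ε)) (h2 : DifferentiableOn ℂ Hh (VS s ε))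
    (h3 : ∀ z ∈ VS s ε, |z.im| < h0 → Θ z = θ z) (h4 : ∀ z ∈ VS s ε, |z.im| < h0 → Hh z = H z) :
    VExt q η (Str h0 ∪ VS s ε) (P2.ext h0 θ Θ) (P2.ext h0 H Hh) := by
  have h00 : 0 < h0 := hε.trans hεl
  refine ⟨(isOpen_Str h0).union (isOpen_VS s ε), ?_, ?_, ?_, ?_, ?_, ?_⟩
  · refine IsPreconnected.union (s - Complex.I * ((ε / 2 : ℝ) : ℂ)) ?_ ?_
      (C1.convex_Str _).isPreconnected (VS_conn hε)
    · rw [mem_Str]
      have : (s - Complex.I * ((ε / 2 : ℝ) : ℂ)).im = h0 - ε / 2 := by simp [hs]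
      rw [this, abs_lt]
      constructor <;> linarith
    · refine ⟨?_, ?_⟩
      · have : s - Complex.I * ((ε / 2 : ℝ) : ℂ) - s = -(Complex.I * ((ε / 2 : ℝ) : ℂ)) := by ring
        rw [this, norm_neg, norm_mul, Complex.norm_I, one_mul, Complex.norm_real,
          Real.norm_of_nonneg (by positivity)]
        linarith
      · have : Complex.I * (s - Complex.I * ((ε / 2 : ℝ) : ℂ) - s) = ((ε / 2 : ℝ) : ℂ) := by
          have := Complex.I_sq
          linear_combination (-((ε / 2 : ℝ) : ℂ)) * this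
        rw [this, Complex.mem_slitPlane_iff]
        left; simp; positivity
  · intro z hz
    exact Or.inl (Str_mono D.le hz)
  · exact ext_diff D.ext.θ_diff h1 h3
  · exact ext_diff D.ext.H_diff h2 h4
  · intro z hz
    rw [ext_str (Str_mono D.le hz)]
    exact D.ext.θ_eq z hz
  · intro z hz
    rw [ext_str (Str_mono D.le hz)]
    exact D.ext.H_eq z hz

theorem exists_KKfam (D : DataS q η ρ r B b φ p m₀ θ H h0) (hs : s.im = h0) (hε : 0 < ε)
    (hεl : ε < h0) {θe He : ℂ → ℂ} (hV : VExt q η (Str h0 ∪ VS s ε) θe He) :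
    ∃ X : ℂ × ℂ → ℂ, LeafLoc (kk θe He) (KK s h0 ε) X ∧
      ∀ t ∈ KK s h0 ε, ∀ᶠ x in 𝓝 ((t, 0) : ℂ × ℂ), X (x.1, -x.2) = X x := by
  have h00 : 0 < h0 := hε.trans hεl
  obtain ⟨X₀, hX₀, hX₀b⟩ := glob D.fam hV (fun z hz => Or.inl hz) D.le
  obtain ⟨X, hX, hXX₀⟩ := grown hs hε hεl hX₀ (kloc D.fam.dat hV)
  have h0S : (0 : ℂ) ∈ Str h0 := by rw [mem_Str]; simpa using h00
  have h0ρ : (0 : ℂ) ∈ Str ρ := by rw [mem_Str]; simpa using D.fam.ρ_pos
  have hXb : ∀ᶠ p in 𝓝 ((0, 0) : ℂ × ℂ), X p = b p := by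
    filter_upwards [hXX₀ 0 h0S, hX₀b 0 h0ρ] with p hp1 hp2
    rw [hp1, hp2]
  have heven0 : ∀ᶠ p in 𝓝 ((0, 0) : ℂ × ℂ), X (p.1, -p.2) = X p := by
    have hc : Tendsto (fun p : ℂ × ℂ => (p.1, -p.2)) (𝓝 ((0, 0) : ℂ × ℂ)) (𝓝 ((0, 0) : ℂ × ℂ)) := by
      have : Continuous fun p : ℂ × ℂ => (p.1, -p.2) := by fun_prop
      have := this.tendsto ((0, 0) : ℂ × ℂ)
      simpa using this
    have hPD : PD ρ r ∈ 𝓝 ((0, 0) : ℂ × ℂ) := by
      have ho : IsOpen (PD ρ r) := by
        have : PD ρ r = {p : ℂ × ℂ | |p.1.im| < ρ} ∩ {p | ‖p.2‖ < r} := by ext p; simp [PD]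
        rw [this]
        refine IsOpen.inter (isOpen_lt ?_ continuous_const) (isOpen_lt ?_ continuous_const)
        · exact (Complex.continuous_im.comp continuous_fst).abs
        · exact continuous_snd.norm
      refine ho.mem_nhds ⟨by simpa using D.fam.ρ_pos, by simpa using D.fam.r_pos⟩
    filter_upwards [hXb, hc.eventually hXb, hPD] with p hp1 hp2 hp3
    rw [hp1, hp2]
    exact D.fam.b_even p.1 p.2 hp3
  exact ⟨X, hX, even_germ hX (KK_conn h00) (Or.inl h0S) heven0⟩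

/-! ### geometry -/

/-- the opening angle -/
def α₁ : ℝ := 1 / 100000

/-- the slope -/
def κ₁ : ℝ := Real.sin α₁

theorem α₁_pos : 0 < α₁ := by unfold α₁; norm_num

theorem α₁_pi : α₁ < Real.pi / 8 := by
  have := Real.pi_gt_three
  unfold α₁
  linarith

theorem κ₁_pos : 0 < κ₁ := Real.sin_pos_of_pos_of_lt_pi α₁_pos (by
  have := α₁_pi; have := Real.pi_pos; linarith)

theorem κ₁_le : κ₁ ≤ 1 / 100000 := Real.sin_le α₁_pos.le

/-- the initial sector, in `t`, `z = s + i t` -/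
theorem init_mem {ρ : ℝ} {t : ℂ} (ht : t ∈ Sct ρ (-(Real.pi / 2) - α₁) (-(Real.pi / 2) + α₁)) :
    t.im < 0 ∧ t.re ≤ 1 / 100000 * ‖t‖ ∧ -(1 / 100000 * ‖t‖) ≤ t.re := by
  obtain ⟨h1, h2, h3, h4⟩ := ht
  have hπ := Real.pi_pos
  have ha := α₁_pi
  have ha0 := α₁_pos
  have e1 : t.re = ‖t‖ * Real.cos (Complex.arg t) := (Complex.norm_mul_cos_arg t).symm
  have e2 : t.im = ‖t‖ * Real.sin (Complex.arg t) := (Complex.norm_mul_sin_arg t).symm
  have c1 : |Real.cos (Complex.arg t)| ≤ 1 / 100000 := by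
    have e3 : Real.cos (Complex.arg t) = Real.sin (Complex.arg t + Real.pi / 2) := by
      rw [Real.sin_add_pi_div_two]
    rw [e3]
    have h5 : |Complex.arg t + Real.pi / 2| ≤ α₁ := by
      rw [abs_le]; constructor <;> linarith
    have h6 : |Real.sin (Complex.arg t + Real.pi / 2)| ≤ |Complex.arg t + Real.pi / 2| :=
      Real.abs_sin_le_abs
    exact h6.trans h5
  have s1 : Real.sin (Complex.arg t) < 0 :=
    Real.sin_neg_of_neg_of_neg_pi_lt (by linarith) (by linarith)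
  rw [abs_le] at c1
  refine ⟨?_, ?_, ?_⟩
  · rw [e2]; exact mul_neg_of_pos_of_neg h1 s1
  · have := mul_le_mul_of_nonneg_left c1.2 h1.le
    rw [e1]; linarith
  · have := mul_le_mul_of_nonneg_left c1.1 h1.le
    rw [e1]; linarith

/-- the whole sector of side `B` -/
theorem full_mem {ρ : ℝ} {t : ℂ} (h0 : t ≠ 0) (hρ : ‖t‖ < ρ) (h : -t.re < κ₁ * ‖t‖) :
    t ∈ Sct ρ (-(Real.pi / 2) - α₁) (Real.pi / 2 + α₁) := by
  have h1 : 0 < ‖t‖ := norm_pos_iff.2 h0
  have hπ := Real.pi_pos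
  have ha := α₁_pi
  have ha0 := α₁_pos
  have e1 : t.re = ‖t‖ * Real.cos (Complex.arg t) := (Complex.norm_mul_cos_arg t).symm
  have c1 : Real.cos (Real.pi / 2 + α₁) < Real.cos |Complex.arg t| := by
    rw [Real.cos_abs, add_comm, Real.cos_add_pi_div_two]
    have h2 : -(‖t‖ * Real.cos (Complex.arg t)) < κ₁ * ‖t‖ := by rw [← e1]; exact h
    have h3 : -κ₁ < Real.cos (Complex.arg t) := by
      by_contra hc
      push Not at hc
      nlinarith
    exact h3
  have h4 : |Complex.arg t| < Real.pi / 2 + α₁ := by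
    by_contra hc
    push Not at hc
    have := Real.cos_le_cos_of_nonneg_of_le_pi (by linarith) (Complex.abs_arg_le_pi t) hc
    linarith
  rw [abs_lt] at h4
  exact ⟨h1, hρ, by linarith [h4.1], h4.2⟩

/-- the right overlap -/
theorem init_of {ρ : ℝ} {t : ℂ} (h0 : t ≠ 0) (hρ : ‖t‖ < ρ) (h : -t.re < κ₁ * ‖t‖)
    (h' : t.re < κ₁ * ‖t‖) (him : t.im < 0) :
    t ∈ Sct ρ (-(Real.pi / 2) - α₁) (-(Real.pi / 2) + α₁) := by
  have h1 : 0 < ‖t‖ := norm_pos_iff.2 h0
  have hπ := Real.pi_pos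
  have ha := α₁_pi
  have ha0 := α₁_pos
  obtain ⟨-, -, h2, h3⟩ := full_mem h0 hρ h
  refine ⟨h1, hρ, h2, ?_⟩
  have harg : Complex.arg t < 0 := Complex.arg_neg_iff.2 him
  have e1 : t.re = ‖t‖ * Real.cos (Complex.arg t) := (Complex.norm_mul_cos_arg t).symm
  have c1 : Real.cos |Complex.arg t| < Real.cos (Real.pi / 2 - α₁) := by
    rw [Real.cos_abs, Real.cos_pi_div_two_sub]
    rw [e1] at h'
    by_contra hc
    push Not at hc
    have : κ₁ ≤ Real.cos (Complex.arg t) := hc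
    nlinarith
  have h4 : Real.pi / 2 - α₁ < |Complex.arg t| := by
    by_contra hc
    push Not at hc
    have := Real.cos_le_cos_of_nonneg_of_le_pi (abs_nonneg _) (by linarith) hc
    linarith
  rw [abs_of_neg harg] at h4
  linarith

theorem VW_conn {R : ℝ} (hR : 0 < R) : IsPreconnected (VW s (-1) R) := by
  have himg : VW s (-1) R = (fun t : ℂ => s + Complex.I * t) '' Sct R (-Real.pi) Real.pi := by
    ext z
    constructor
    · rintro ⟨h1, h2⟩
      refine ⟨-(Complex.I * (z - s)), ?_, ?_⟩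
      · rw [neg_one_mul] at h2
        rw [Complex.mem_slitPlane_iff_arg] at h2
        have hz : z - s ≠ 0 := by
          intro h0
          rw [h0] at h2
          simp at h2
        have hn : ‖-(Complex.I * (z - s))‖ = ‖z - s‖ := by
          rw [norm_neg, norm_mul, Complex.norm_I, one_mul]
        refine ⟨by rw [hn]; exact norm_pos_iff.2 hz, by rw [hn]; exact h1, Complex.neg_pi_lt_arg _, ?_⟩
        exact lt_of_le_of_ne (Complex.arg_le_pi _) h2.1
      · simp only
        have := Complex.I_sq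
        linear_combination (-(z - s)) * this
    · rintro ⟨t, ⟨h1, h2, h3, h4⟩, rfl⟩
      refine ⟨?_, ?_⟩
      · simp only
        rw [add_sub_cancel_left, norm_mul, Complex.norm_I, one_mul]; exact h2
      · have e : -1 * (Complex.I * (s + Complex.I * t - s)) = t := by
          have := Complex.I_sq
          linear_combination (-t) * this
        simp only
        rw [e, Complex.mem_slitPlane_iff_arg]
        exact ⟨h4.ne, norm_pos_iff.1 h1⟩
  rw [himg]
  exact (Sct_conn le_rfl le_rfl).image _ (by fun_prop)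

theorem Sheet.mono {c : ℂ → ℂ} {V V' : Set ℂ} {a k : ℤ} {e g f : ℂ → ℂ} {θ H : ℂ → ℂ}
    (h : Sheet c V a k e g f θ H) (hV : V' ⊆ V) : Sheet c V' a k e g f θ H :=
  ⟨fun z hz => h.E z (hV hz), fun z hz => h.y z (hV hz), fun z hz => h.H z (hV hz)⟩

theorem SgZ_mono {a : ℂ} {ε ε' κ : ℝ} (h : ε' ≤ ε) : SgZ s a ε' κ ⊆ SgZ s a ε κ :=
  fun _ hz => ⟨hz.1, hz.2.1.trans_le h, hz.2.2⟩

theorem isOpen_SgZ {a : ℂ} {ε κ : ℝ} (ha : a ≠ 0) : IsOpen (SgZ s a ε κ) := by
  have : SgZ s a ε κ = {z | z ≠ s} ∩ ({z | ‖z - s‖ < ε} ∩ {z | ((z - s) / a).im < κ * ‖z - s‖}) := by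
    ext z; rfl
  rw [this]
  refine isOpen_ne.inter (IsOpen.inter (isOpen_lt (by fun_prop) continuous_const) ?_)
  refine isOpen_lt ?_ (by fun_prop)
  exact Complex.continuous_im.comp (by fun_prop)

theorem LZ.mono {V V' : Set ℂ} {θ H : ℂ → ℂ} (L : LZ V θ H) (ho : IsOpen V') (h : V' ⊆ V) :
    LZ V' θ H := ⟨ho, L.dθ.mono h, L.dH.mono h, fun z hz => L.rel z (h hz)⟩

set_option maxHeartbeats 1000000 in
theorem secAB : Mel.SecAB := by
  intro q η ρ r B b φ p m₀ θ H h0 D s n r₁ a k e g f hs hr E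
  have hRpos : 0 < r₁ ^ n := pow_pos E.r_pos n
  set R : ℝ := r₁ ^ n with hR
  have hsub : HD s R ⊆ Str h0 := by
    intro z hz
    have h1 := hz.1
    have h2 : z.im < s.im := hz.2
    rw [mem_ball, dist_eq_norm] at h1
    have h3 := (Complex.abs_im_le_norm (z - s)).trans_lt h1
    rw [Complex.sub_im, abs_lt] at h3
    rw [mem_Str, abs_lt]
    constructor
    · linarith [h3.1]
    · linarith
  have hθ : DifferentiableOn ℂ θ (HD s R) := D.ext.θ_diff.mono hsub
  have hκ1 := κ₁_le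
  have hκ0 := κ₁_pos
  obtain ⟨θA, HA, θB, HB, LA, LB, neA, neB, ShA, ShB, subA, subB, hA, hAB⟩ :=
    E.sheets hθ (ε := R / 2) (κ := κ₁) (by linarith) (by linarith)
  set ε : ℝ := R / 2 with hε
  have hεpos : 0 < ε := by positivity
  have hεl : ε < h0 := by linarith
  have hVSR : VS s ε ⊆ VW s 1 R := by
    intro z hz
    exact ⟨hz.1.trans (by linarith), by rw [one_mul]; exact hz.2⟩
  have hVSeq : ∀ z ∈ VS s ε, |z.im| < h0 → θA z = θ z ∧ HA z = H z := by
    intro z hz him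
    exact hA z (hVSR hz) (by rw [hs]; exact (abs_lt.1 him).2)
  have hV := vext' D hs hεpos hεl (LA.dθ.mono hVSR) (LA.dH.mono hVSR)
    (fun z hz h => (hVSeq z hz h).1) (fun z hz h => (hVSeq z hz h).2)
  set θe := P2.ext h0 θ θA with hθe
  set He := P2.ext h0 H HA with hHe
  have eqθ : EqOn θe θA (VS s ε) := fun z hz =>
    ext_VS (fun z hz h => (hVSeq z hz h).1) hz
  have eqH : EqOn He HA (VS s ε) := fun z hz =>
    ext_VS (fun z hz h => (hVSeq z hz h).2) hz
  obtain ⟨X, hX, hev⟩ := exists_KKfam D hs hεpos hεl hV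
  have hkA := kloc D.fam.dat hV
  -- the right half disc
  set T : Set ℂ := VS s ε ∩ {z | s.re < z.re} with hT
  have hTo : IsOpen T := (isOpen_VS s ε).inter (isOpen_lt continuous_const Complex.continuous_re)
  have eqθT : EqOn θe θB T := by
    intro z hz
    rw [eqθ hz.1, (hAB z (hz.1.1.trans (by linarith)) hz.2).1]
  have eqHT : EqOn He HB T := by
    intro z hz
    rw [eqH hz.1, (hAB z (hz.1.1.trans (by linarith)) hz.2).2]
  -- KLoc on side B
  have hkB : KLoc (VW s (-1) R) (kk θB HB) := by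
    set z₀ : ℂ := s + ((ε / 2 : ℝ) : ℂ) with hz₀
    have hz₀T : z₀ ∈ T := by
      refine ⟨⟨?_, ?_⟩, ?_⟩
      · rw [hz₀, add_sub_cancel_left, Complex.norm_real, Real.norm_of_nonneg (by positivity)]
        linarith
      · rw [hz₀, add_sub_cancel_left, Complex.mem_slitPlane_iff]
        right
        simp
        positivity
      · show s.re < z₀.re
        rw [hz₀, Complex.add_re, Complex.ofReal_re]
        linarith
    have hz₀V : z₀ ∈ VW s (-1) R := by
      refine ⟨?_, ?_⟩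
      · rw [hz₀, add_sub_cancel_left, Complex.norm_real, Real.norm_of_nonneg (by positivity)]
        linarith
      · rw [hz₀, add_sub_cancel_left, Complex.mem_slitPlane_iff]
        right
        simp
        positivity
    obtain ⟨s₁, hs₁, e₁, he₁, C₁, hC₁⟩ := hkA z₀ (Or.inr hz₀T.1)
    obtain ⟨s₂, hs₂, hsub₂⟩ := Metric.isOpen_iff.1 hTo z₀ hz₀T
    have hkm : KMap (ball z₀ (min s₁ (s₂ / 2))) (min e₁ (s₂ / 2)) C₁ (kk θB HB) := by
      have hkm1 := KMap.mono' hC₁ (ball_subset_ball (min_le_left s₁ (s₂ / 2)))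
        (min_le_left e₁ (s₂ / 2)) le_rfl
      have heq : ∀ y ∈ ball z₀ (min s₁ (s₂ / 2)), ∀ e : ℂ, ‖e‖ < min e₁ (s₂ / 2) →
          kk θB HB (y, e) = kk θe He (y, e) := by
        intro y hy e he
        have hy1 : dist y z₀ < s₂ / 2 := (mem_ball.1 hy).trans_le (min_le_right _ _)
        have he1 : ‖e‖ < s₂ / 2 := he.trans_le (min_le_right _ _)
        have hyT : y ∈ T := hsub₂ (by rw [mem_ball]; linarith)
        have hyeT : y + e ∈ T := by
          refine hsub₂ ?_
          rw [mem_ball, dist_eq_norm]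
          rw [dist_eq_norm] at hy1
          have e2 : y + e - z₀ = (y - z₀) + e := by ring
          rw [e2]
          refine (norm_add_le _ _).trans_lt (by linarith)
        have := kk_congr hTo eqθT eqHT hyT hyeT
        rw [add_sub_cancel_left] at this
        exact this.symm
      refine ⟨hkm1.diff.congr ?_, ?_⟩
      · rintro ⟨y, e⟩ ⟨hy, he⟩
        exact heq y hy e (by simpa using he)
      · intro y hy e he
        rw [heq y hy e he]
        exact hkm1.near y hy e he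
    exact kloc_of_LZ LB (VW_conn hRpos) hz₀V (by positivity) (by positivity) hkm
  -- leaf function of side B
  have hI : (Complex.I : ℂ) ≠ 0 := Complex.I_ne_zero
  have hII := Complex.I_sq
  set αl : ℝ := -(Real.pi / 2) - α₁ with hαl
  have hπ := Real.pi_pos
  have hα := α₁_pi
  have hα0 := α₁_pos
  have hinit : ∀ t ∈ Sct (ε / 4) αl (-(Real.pi / 2) + α₁), s + Complex.I * t ∈ KK s h0 ε ∧
      s + Complex.I * t ∈ T := by
    intro t ht
    obtain ⟨i1, i2, i3⟩ := init_mem ht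
    obtain ⟨j1, j2, -, -⟩ := ht
    have hn : ‖Complex.I * t‖ = ‖t‖ := by rw [norm_mul, Complex.norm_I, one_mul]
    constructor
    · have hε4 : (((ε / 4 : ℝ)) : ℂ) ≠ 0 := by
        exact_mod_cast (by positivity : (0 : ℝ) < ε / 4).ne'
      have e1 : Complex.I * t = ((ε / 4 : ℝ) : ℂ) * (Complex.I * t / ((ε / 4 : ℝ) : ℂ)) := by
        field_simp
      rw [e1]
      have hn2 : ‖Complex.I * t / ((ε / 4 : ℝ) : ℂ)‖ = ‖t‖ / (ε / 4) := by
        rw [norm_div, hn, Complex.norm_real, Real.norm_of_nonneg (by positivity)]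
      refine mem_KK hs hεpos hεl ?_ ?_ ?_
      · exact div_ne_zero (mul_ne_zero hI (norm_pos_iff.1 j1)) hε4
      · rw [hn2, div_le_one (by positivity)]
        exact j2.le
      · rw [hn2, Complex.div_ofReal_im]
        have e2 : (Complex.I * t).im = t.re := by simp
        rw [e2, ← mul_div_assoc]
        gcongr
    · refine ⟨⟨?_, ?_⟩, ?_⟩
      · rw [add_sub_cancel_left, hn]; linarith
      · rw [add_sub_cancel_left]
        have e1 : Complex.I * (Complex.I * t) = -t := by linear_combination t * hII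
        rw [e1, Complex.mem_slitPlane_iff]
        right
        rw [Complex.neg_im]
        exact (neg_pos.2 i1).ne'
      · show s.re < (s + Complex.I * t).re
        have e2 : (s + Complex.I * t).re = s.re - t.im := by simp; ring
        rw [e2]; linarith
  have hleaf0 : LeafLoc (kA s Complex.I (kk θB HB)) (Sct (ε / 4) αl (-(Real.pi / 2) + α₁))
      (xA s Complex.I X) := by
    have h1 : LeafLoc (kk θe He) (KK s h0 ε ∩ T) X := hX.mono inter_subset_left
    have h2 : LeafLoc (kk θB HB) (KK s h0 ε ∩ T) X := by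
      refine LeafLoc.congr_k h1 ?_
      intro c hc
      obtain ⟨σ, hσ, hσT⟩ := Metric.isOpen_iff.1 hTo c hc.2
      exact ⟨σ, hσ, fun x hx y hy => kk_congr hTo eqθT eqHT (hσT hx) (hσT hy)⟩
    exact (leafLoc_aff hI h2).mono fun t ht => hinit t ht
  have hkloc : KLoc (Sct (ε / 4) αl (Real.pi / 2 + 2 * α₁)) (kA s Complex.I (kk θB HB)) := by
    refine (kloc_aff hI hkB).mono ?_
    rintro t ⟨h1, h2, h3, h4⟩
    refine ⟨?_, ?_⟩
    · simp only
      rw [add_sub_cancel_left, norm_mul, Complex.norm_I, one_mul]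
      linarith
    · have e : -1 * (Complex.I * (s + Complex.I * t - s)) = t := by
        linear_combination (-t) * hII
      simp only
      rw [e, Complex.mem_slitPlane_iff_arg]
      exact ⟨(by linarith : Complex.arg t < Real.pi).ne, norm_pos_iff.1 h1⟩
  obtain ⟨ρ', hρ', hρ'le, X', hX', hX'g⟩ := sector (ρ := ε / 4) (α := αl)
    (β := -(Real.pi / 2) + α₁) (β₁ := Real.pi / 2 + α₁) (β₂ := Real.pi / 2 + 2 * α₁)
    (by positivity) (by rw [hαl]; linarith) (by rw [hαl]; linarith) (by linarith) (by linarith)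
    (by linarith) hkloc hleaf0
  -- back to `z`
  set XB : ℂ × ℂ → ℂ := xA (-s / Complex.I) Complex.I⁻¹ X' with hXB
  set KB : Set ℂ := (fun t : ℂ => -s / Complex.I + Complex.I⁻¹ * t) ⁻¹'
    (Sct ρ' αl (Real.pi / 2 + α₁)) with hKB
  have hXBl : LeafLoc (kk θB HB) KB XB := by
    have h1 := leafLoc_aff (s := -s / Complex.I) (inv_ne_zero hI) hX'
    rwa [kA_kA hI] at h1
  have hu : ∀ z : ℂ, -s / Complex.I + Complex.I⁻¹ * z = -(Complex.I * (z - s)) := by
    intro z
    rw [Complex.inv_I, div_eq_mul_inv, Complex.inv_I]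
    ring
  have hgerm : ∀ z : ℂ, -(Complex.I * (z - s)) ∈ Sct ρ' αl (-(Real.pi / 2) + α₁) →
      ∀ᶠ x in 𝓝 ((z, 0) : ℂ × ℂ), XB x = X x := by
    intro z hz
    have h1 := hX'g _ hz
    have hc : Tendsto (fun x : ℂ × ℂ => (-s / Complex.I + Complex.I⁻¹ * x.1, Complex.I⁻¹ * x.2))
        (𝓝 ((z, 0) : ℂ × ℂ)) (𝓝 ((-(Complex.I * (z - s)), 0) : ℂ × ℂ)) := by
      have hcont : Continuous (fun x : ℂ × ℂ =>
          (-s / Complex.I + Complex.I⁻¹ * x.1, Complex.I⁻¹ * x.2)) := by fun_prop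
      have h2 := hcont.tendsto ((z, 0) : ℂ × ℂ)
      simp only [mul_zero] at h2
      rw [hu] at h2
      exact h2
    filter_upwards [hc.eventually h1] with x hx
    have h3 := congrFun (xA_xA (s := s) (X := X) hI) x
    rw [← h3, hXB]
    unfold xA at hx ⊢
    simp only at hx ⊢
    rw [hx]
  have hKBconn : IsPreconnected KB := by
    have himg : KB = (fun t : ℂ => s + Complex.I * t) '' Sct ρ' αl (Real.pi / 2 + α₁) := by
      ext z
      constructor
      · intro hz
        have hz' : -s / Complex.I + Complex.I⁻¹ * z ∈ Sct ρ' αl (Real.pi / 2 + α₁) := hz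
        rw [hu] at hz'
        refine ⟨_, hz', ?_⟩
        simp only
        linear_combination (-(z - s)) * hII
      · rintro ⟨t, ht, rfl⟩
        change -s / Complex.I + Complex.I⁻¹ * (s + Complex.I * t) ∈
          Sct ρ' αl (Real.pi / 2 + α₁)
        rw [hu]
        have e : -(Complex.I * (s + Complex.I * t - s)) = t := by linear_combination (-t) * hII
        rw [e]; exact ht
    rw [himg]
    exact (Sct_conn (by rw [hαl]; linarith) (by linarith)).image _ (by fun_prop)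
  have hovl : ∀ t : ℂ, t ∈ Sct ρ' αl (-(Real.pi / 2) + α₁) → s + Complex.I * t ∈ KB := by
    intro t ht
    change -s / Complex.I + Complex.I⁻¹ * (s + Complex.I * t) ∈
      Sct ρ' αl (Real.pi / 2 + α₁)
    rw [hu]
    have e : -(Complex.I * (s + Complex.I * t - s)) = t := by linear_combination (-t) * hII
    rw [e]
    exact Sct_mono le_rfl le_rfl (by linarith) ht
  have hevB : ∀ t ∈ KB, ∀ᶠ x in 𝓝 ((t, 0) : ℂ × ℂ), XB (x.1, -x.2) = XB x := by
    -- base point
    set t₀ : ℂ := -(Complex.I * ((ρ' / 2 : ℝ) : ℂ)) with ht₀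
    have ht₀n : ‖t₀‖ = ρ' / 2 := by
      rw [ht₀, norm_neg, norm_mul, Complex.norm_I, one_mul, Complex.norm_real,
        Real.norm_of_nonneg (by positivity)]
    have ht₀re : t₀.re = 0 := by rw [ht₀]; simp
    have ht₀im : t₀.im < 0 := by rw [ht₀]; simp; positivity
    have ht₀S : t₀ ∈ Sct ρ' αl (-(Real.pi / 2) + α₁) := by
      have hpos : 0 < κ₁ * ‖t₀‖ := by rw [ht₀n]; positivity
      refine init_of ?_ (by rw [ht₀n]; linarith) (by rw [ht₀re]; linarith) (by rw [ht₀re]; linarith)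
        ht₀im
      rw [← norm_pos_iff, ht₀n]; positivity
    set z₁ : ℂ := s + Complex.I * t₀ with hz₁
    have hz₁u : -(Complex.I * (z₁ - s)) = t₀ := by
      rw [hz₁]; linear_combination (-t₀) * hII
    have hz₁K : z₁ ∈ KK s h0 ε := (hinit t₀ (Sct_mono hρ'le le_rfl le_rfl ht₀S)).1
    have hg := hgerm z₁ (by rw [hz₁u]; exact ht₀S)
    have hc : Tendsto (fun p : ℂ × ℂ => (p.1, -p.2)) (𝓝 ((z₁, 0) : ℂ × ℂ)) (𝓝 ((z₁, 0) : ℂ × ℂ)) := by
      have : Continuous fun p : ℂ × ℂ => (p.1, -p.2) := by fun_prop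
      have := this.tendsto ((z₁, 0) : ℂ × ℂ)
      simpa using this
    refine even_germ hXBl hKBconn (hovl t₀ ht₀S) ?_
    filter_upwards [hg, hc.eventually hg, hev z₁ hz₁K] with x h1 h2 h3
    rw [h1, h2, h3]
  -- membership
  have hmemA : ∀ z ∈ SgZ s 1 (ε / 4) κ₁, z ∈ KK s h0 ε ∧ z ∈ VS s ε := by
    rintro z ⟨h1, h2, h3⟩
    rw [div_one] at h3
    have hz : z - s ≠ 0 := sub_ne_zero.2 h1
    have hε4 : (((ε / 4 : ℝ)) : ℂ) ≠ 0 := by
      exact_mod_cast (by positivity : (0 : ℝ) < ε / 4).ne'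
    have e1 : z = s + ((ε / 4 : ℝ) : ℂ) * ((z - s) / ((ε / 4 : ℝ) : ℂ)) := by
      field_simp; ring
    have hn2 : ‖(z - s) / ((ε / 4 : ℝ) : ℂ)‖ = ‖z - s‖ / (ε / 4) := by
      rw [norm_div, Complex.norm_real, Real.norm_of_nonneg (by positivity)]
    constructor
    · rw [e1]
      refine mem_KK hs hεpos hεl (div_ne_zero hz hε4) ?_ ?_
      · rw [hn2, div_le_one (by positivity)]
        exact h2.le
      · rw [hn2, Complex.div_ofReal_im, ← mul_div_assoc]
        have := norm_nonneg (z - s)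
        gcongr
        nlinarith
    · refine ⟨by linarith, slit_of hz ?_⟩
      have := norm_pos_iff.2 hz
      nlinarith
  have hmemB : ∀ z ∈ SgZ s (-1) ρ' κ₁, z ∈ KB := by
    rintro z ⟨h1, h2, h3⟩
    have hz : z - s ≠ 0 := sub_ne_zero.2 h1
    change -s / Complex.I + Complex.I⁻¹ * z ∈ Sct ρ' αl (Real.pi / 2 + α₁)
    rw [hu]
    have hn : ‖-(Complex.I * (z - s))‖ = ‖z - s‖ := by
      rw [norm_neg, norm_mul, Complex.norm_I, one_mul]
    refine full_mem (neg_ne_zero.2 (mul_ne_zero hI hz)) (by rw [hn]; exact h2) ?_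
    rw [hn]
    have e : -(-(Complex.I * (z - s))).re = ((z - s) / (-1)).im := by
      rw [div_neg, div_one, Complex.neg_im]
      simp only [Complex.neg_re, Complex.mul_re, Complex.I_re, Complex.I_im, zero_mul, one_mul,
        zero_sub, neg_neg]
    rw [e]; exact h3
  set εf : ℝ := min (ε / 4) ρ' with hεf
  have hεfpos : 0 < εf := by positivity
  have hεf1 : εf ≤ ε / 4 := min_le_left _ _
  have hεf2 : εf ≤ ρ' := min_le_right _ _
  have sA : SgZ s 1 εf κ₁ ⊆ SgZ s 1 ε κ₁ := SgZ_mono (by linarith)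
  have sB : SgZ s (-1) εf κ₁ ⊆ SgZ s (-1) ε κ₁ := SgZ_mono (by linarith)
  refine ⟨εf, κ₁, θA, HA, θB, HB, X, XB, by linarith, by linarith, ?_, ?_, Sheet.mono ShA sA,
    Sheet.mono ShB sB, ?_, ?_⟩
  · refine ⟨Or.inl rfl, hεfpos, hκ0, by linarith, LZ.mono LA (isOpen_SgZ one_ne_zero)
      (sA.trans subA), fun z hz => neA z (subA (sA hz)), ?_, ?_⟩
    · have h1 : LeafLoc (kk θe He) (SgZ s 1 εf κ₁) X :=
        hX.mono fun z hz => (hmemA z (SgZ_mono hεf1 hz)).1
      refine LeafLoc.congr_k h1 ?_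
      intro c hc
      obtain ⟨σ, hσ, hσT⟩ := Metric.isOpen_iff.1 (isOpen_VS s ε) c
        (hmemA c (SgZ_mono hεf1 hc)).2
      exact ⟨σ, hσ, fun x hx y hy => kk_congr (isOpen_VS s ε) eqθ eqH (hσT hx) (hσT hy)⟩
    · intro t ht
      exact hev t (hmemA t (SgZ_mono hεf1 ht)).1
  · refine ⟨Or.inr rfl, hεfpos, hκ0, by linarith, LZ.mono LB (isOpen_SgZ (by norm_num))
      (sB.trans subB), fun z hz => neB z (subB (sB hz)), ?_, ?_⟩
    · exact hXBl.mono fun z hz => hmemB z (SgZ_mono hεf2 hz)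
    · intro t ht
      exact hevB t (hmemB t (SgZ_mono hεf2 ht))
  · intro z hz him
    exact hA z (subA (sA hz)) (by rw [hs]; exact him)
  · intro z hzA hzB hre
    have hn1 : ‖z - s‖ < R := lt_of_lt_of_le hzA.2.1 (by linarith)
    have hre' : s.re < z.re := by
      rw [Complex.sub_re] at hre; linarith
    refine ⟨(hAB z hn1 hre').1, (hAB z hn1 hre').2, ?_⟩
    refine hgerm z ?_
    have hz : z - s ≠ 0 := sub_ne_zero.2 hzA.1
    have hn : ‖-(Complex.I * (z - s))‖ = ‖z - s‖ := by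
      rw [norm_neg, norm_mul, Complex.norm_I, one_mul]
    have h3 := hzA.2.2
    have h4 := hzB.2.2
    rw [div_one] at h3
    refine init_of (neg_ne_zero.2 (mul_ne_zero hI hz)) (by rw [hn]; exact lt_of_lt_of_le hzA.2.1 hεf2)
      ?_ ?_ ?_
    · rw [hn]
      have e : -(-(Complex.I * (z - s))).re = ((z - s) / (-1)).im := by
        rw [div_neg, div_one, Complex.neg_im]
        simp only [Complex.neg_re, Complex.mul_re, Complex.I_re, Complex.I_im, zero_mul, one_mul,
          zero_sub, neg_neg]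
      rw [e]; exact h4
    · rw [hn]
      have e : (-(Complex.I * (z - s))).re = (z - s).im := by
        simp only [Complex.neg_re, Complex.mul_re, Complex.I_re, Complex.I_im, zero_mul, one_mul,
          zero_sub, neg_neg]
      rw [e]; exact h3
    · have e : (-(Complex.I * (z - s))).im = -(z - s).re := by simp
      rw [e]; linarith

end Crest.Agent.R102.SecAB
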