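import Crest.Agent.R102.T5SFin_490
import Crest.Agent.R102.SecAB_160
import Crest.Agent.R102.ConeD_231

/-!
# Row 102, [T5]: `MelI → Spine.T5S` (helper490)
-/

set_option autoImplicit false

namespace Crest.Agent.R102.Mel

/-- **T5S** modulo `MelI` (963) -/
theorem t5S_of_melI (h : MelI) : Spine.T5S := t5S_fin SecAB.secAB coneD h

end Crest.Agent.R102.Mel
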