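import Mathlib
import Crest.Agent.R102.MelI_963
import Crest.Agent.R102.MelI3_490
import Crest.Agent.R102.T5SMel_490

/-!
# Row 102, part (C), [T5]: `MelI` and `Spine.T5S` without hypotheses (helper963)
-/

set_option autoImplicit false

namespace Crest.Agent.R102.MelI963

/-- **MEL-I** -/
theorem melI : Mel.MelI := melI_of MelI3490.eInv

/-- **[T5]** -/
theorem t5S : Spine.T5S := Mel.t5S_of_melI melI

end Crest.Agent.R102.MelI963
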