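import Crest.Agent.R102.SpineG_478
import Crest.Agent.R102.RatDone_926
import Crest.Agent.R102.AMerF_88
import Crest.Agent.R102.T5S_963
import Crest.Agent.R102.T1E_314
import Crest.Agent.R102.EEnd_348
import Crest.Agent.R102.BEnd_802
import Crest.Agent.R102.EAlg_151
import Crest.Agent.R102.Pui_714
import Crest.Agent.R102.ZeroY_478
import Crest.Agent.R102.Asm_821
import Crest.Agent.R102.C0_821
import Crest.Agent.R102.Chain_559
import Crest.Agent.R102.ExitO_150
import Crest.Agent.R102.Growth_314

/-!
Row 102, the final assembly (helper802): both results of the row from the last block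
`Chain559.EdgeO` (T1-B, EDGE).
-/

set_option autoImplicit false

namespace Crest.Agent.R102.Final802

open Crest.Agent.R102 Crest.AnalysisR.Billiard

/-- part (C) for line families, from the last block -/
theorem partCL_of (hE : Chain559.EdgeO) : C0.PartCL :=
  Spine.partCL_of_blocks ZeroY478.zeroY (AMer88.aMerF RAT.ratCont) Pui714.pui MelI963.t5S
    (Chain559.T1B_of_blocks GrowthT314.growthP hE PartII150.exitO)
    (BEnd802.bEnd RAT.ratCont) T1E314.t1E (EndE348.eEnd RAT.ratCont) EAlg151.eAlg

/-- the conclusion of both results, from the last block -/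
theorem concl_of (hE : Chain559.EdgeO) {Ω : Set (ℝ × ℝ)} {γ : ℝ → ℝ × ℝ}
    {P : ℝ} (ht : IsTable Ω γ P)
    (hf : HasCausticCollar Ω γ ∨ HasInvariantPhaseFoliation Ω γ) :
    ∃ (c : ℝ × ℝ) (Q : Matrix (Fin 2) (Fin 2) ℝ), Q.PosDef ∧
      Ω = {x : ℝ × ℝ | dotProduct ![x.1 - c.1, x.2 - c.2]
        (Q.mulVec ![x.1 - c.1, x.2 - c.2]) < 1} :=
  C0.conclusion_of_partC (C0.partC_of_partCL (partCL_of hE)) ht hf

end Crest.Agent.R102.Final802
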