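import Crest.Agent.R102.FixA_929
import Crest.Agent.R102.MeanA_262
import Crest.Agent.R102.RealA_575

/-!
Row 102, part (A) (helper929): LEAF FIX, the contraction.
-/

set_option autoImplicit false

open Set Filter Topology Metric Complex MeasureTheory
open scoped Real ContDiff ComplexConjugate

noncomputable section

namespace Crest.Agent.R102.A929

/-- the defect of the reflection law along the family -/
def EV (q : C(ℂ, ℂ)) (η : ℝ) (n : ℕ) (c : Fin (n / 2) → ℂ) (z : ℂ) : ℂ :=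
  EP q (z - 1 / n + vv η n c (z - 1 / n)) (z + vv η n c z) (z + 1 / n + vv η n c (z + 1 / n))

/-- the function whose Fourier coefficients define the contraction -/
def fv (q : C(ℂ, ℂ)) (η : ℝ) (n : ℕ) (c : Fin (n / 2) → ℂ) (z : ℂ) : ℂ :=
  yy η n c z + 4 * n * EV q η n c z

/-- backward increment -/
def em (η : ℝ) (n : ℕ) (c : Fin (n / 2) → ℂ) (z : ℂ) : ℂ :=
  (z + vv η n c z) - (z - 1 / n + vv η n c (z - 1 / n))

/-- forward increment -/
def ep (η : ℝ) (n : ℕ) (c : Fin (n / 2) → ℂ) (z : ℂ) : ℂ :=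
  (z + 1 / n + vv η n c (z + 1 / n)) - (z + vv η n c z)

/-- the standing assumptions -/
structure Ctx (q : C(ℂ, ℂ)) (q1 q2 : ℂ → ℂ) (ρ C B η r : ℝ) (n : ℕ) : Prop where
  hL : LocQ ρ C
  hS : Sm q q1 q2 (St (η + 2 / n)) B
  hn : 0 < n
  η0 : 0 ≤ η
  r1 : (n : ℝ) ^ 2 * r ≤ 1 / n
  r2 : (n : ℝ) * √n * r ≤ 1 / n
  n2 : 2 / (n : ℝ) ≤ 1
  nρ : CX B * (2 / n) < ρ

section

variable {q : C(ℂ, ℂ)} {q1 q2 : ℂ → ℂ} {ρ C B η r : ℝ} {n : ℕ} {c c' : Fin (n / 2) → ℂ} {z : ℂ}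

lemma vv_sub : vv η n c' z - vv η n c z = vv η n (c' - c) z := Tg_sub

lemma yy_sub : yy η n c' z - yy η n c z = yy η n (c' - c) z := Tg_sub

lemma vv_zero : vv η n 0 z = 0 := Tg_zero

lemma yy_zero : yy η n 0 z = 0 := Tg_zero

lemma St_add (hz : z ∈ St η) (s : ℝ) : z + s ∈ St η := by
  simp only [St, mem_ofPred_eq, Complex.add_im, Complex.ofReal_im, add_zero] at hz ⊢
  exact hz

lemma St_p (hz : z ∈ St η) : z + 1 / n ∈ St η := by
  have := St_add hz (1 / n)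
  push_cast at this
  exact this

lemma St_m (hz : z ∈ St η) : z - 1 / n ∈ St η := by
  have := St_add hz (-(1 / n))
  push_cast at this
  rw [← sub_eq_add_neg] at this
  exact this

lemma St_addc {w : ℂ} {δ : ℝ} (hz : z ∈ St η) (hw : ‖w‖ ≤ δ) : z + w ∈ St (η + δ) := by
  simp only [St, mem_ofPred_eq, Complex.add_im] at hz ⊢
  exact (abs_add_le _ _).trans (add_le_add hz ((Complex.abs_im_le_norm w).trans hw))

lemma St_mono {η' : ℝ} (h : η ≤ η') : St η ⊆ St η' := fun _ hz => le_trans hz h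

lemma Ctx.vle (h : Ctx q q1 q2 ρ C B η r n) (hc : ‖c‖ ≤ r) (hz : z ∈ St η) :
    ‖vv η n c z‖ ≤ 1 / n := by
  refine (norm_vv_le hz).trans (le_trans ?_ h.r1)
  exact mul_le_mul_of_nonneg_left hc (by positivity)

lemma Ctx.dvp (h : Ctx q q1 q2 ρ C B η r n) (hc : ‖c‖ ≤ r) (hz : z ∈ St η) :
    ‖vv η n c (z + 1 / n) - vv η n c z‖ ≤ 1 / n := by
  refine (norm_dvv_le h.hn hz).trans (le_trans ?_ h.r2)
  exact mul_le_mul_of_nonneg_left hc (by positivity)

lemma Ctx.dvm (h : Ctx q q1 q2 ρ C B η r n) (hc : ‖c‖ ≤ r) (hz : z ∈ St η) :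
    ‖vv η n c (z - 1 / n) - vv η n c z‖ ≤ 1 / n := by
  refine (norm_dvv_le' h.hn hz).trans (le_trans ?_ h.r2)
  exact mul_le_mul_of_nonneg_left hc (by positivity)

lemma Ctx.mem (h : Ctx q q1 q2 ρ C B η r n) (hc : ‖c‖ ≤ r) (hz : z ∈ St η) :
    z + vv η n c z ∈ St (η + 2 / n) := by
  have hn : (0 : ℝ) < n := by exact_mod_cast h.hn
  refine St_mono ?_ (St_addc hz (h.vle hc hz))
  have : 1 / (n : ℝ) ≤ 2 / n := by gcongr; norm_num
  linarith

lemma norm_inv_nat : ‖(1 / (n : ℂ))‖ = 1 / n := by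
  rw [norm_div, norm_one, Complex.norm_natCast]

lemma Ctx.em_le (h : Ctx q q1 q2 ρ C B η r n) (hc : ‖c‖ ≤ r) (hz : z ∈ St η) :
    ‖em η n c z‖ ≤ 2 / n := by
  have e : em η n c z = 1 / n - (vv η n c (z - 1 / n) - vv η n c z) := by unfold em; ring
  rw [e]
  refine (norm_sub_le _ _).trans ?_
  rw [norm_inv_nat]
  have := h.dvm hc hz
  have e2 : 2 / (n : ℝ) = 1 / n + 1 / n := by ring
  rw [e2]
  linarith

lemma Ctx.ep_le (h : Ctx q q1 q2 ρ C B η r n) (hc : ‖c‖ ≤ r) (hz : z ∈ St η) :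
    ‖ep η n c z‖ ≤ 2 / n := by
  have e : ep η n c z = 1 / n + (vv η n c (z + 1 / n) - vv η n c z) := by unfold ep; ring
  rw [e]
  refine (norm_add_le _ _).trans ?_
  rw [norm_inv_nat]
  have := h.dvp hc hz
  have e2 : 2 / (n : ℝ) = 1 / n + 1 / n := by ring
  rw [e2]
  linarith

lemma Ctx.mem_m (h : Ctx q q1 q2 ρ C B η r n) (hc : ‖c‖ ≤ r) (hz : z ∈ St η) :
    z + vv η n c z + -em η n c z ∈ St (η + 2 / n) := by
  have e : z + vv η n c z + -em η n c z = (z - 1 / n) + vv η n c (z - 1 / n) := by unfold em; ring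
  rw [e]
  exact h.mem hc (St_m hz)

lemma Ctx.mem_p (h : Ctx q q1 q2 ρ C B η r n) (hc : ‖c‖ ≤ r) (hz : z ∈ St η) :
    z + vv η n c z + ep η n c z ∈ St (η + 2 / n) := by
  have e : z + vv η n c z + ep η n c z = (z + 1 / n) + vv η n c (z + 1 / n) := by unfold ep; ring
  rw [e]
  exact h.mem hc (St_p hz)

lemma EV_eq : EV q η n c z = Pq q (z + vv η n c z) (-em η n c z) - Pq q (z + vv η n c z) (ep η n c z) :=
  rfl

lemma Ctx.Xm (h : Ctx q q1 q2 ρ C B η r n) (hc : ‖c‖ ≤ r) (hz : z ∈ St η) :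
    ‖Xq q (z + vv η n c z) (-em η n c z)‖ < ρ := by
  have hCX := CX_ge h.hS.B_ge
  refine (h.hS.norm_Xq (h.mem hc hz) (h.mem_m hc hz) (m := 2 / n)
    (by rw [norm_neg]; exact h.em_le hc hz) h.n2).trans_lt (lt_of_le_of_lt ?_ h.nρ)
  rw [norm_neg]
  exact mul_le_mul_of_nonneg_left (h.em_le hc hz) (by linarith)

lemma Ctx.Xp (h : Ctx q q1 q2 ρ C B η r n) (hc : ‖c‖ ≤ r) (hz : z ∈ St η) :
    ‖Xq q (z + vv η n c z) (ep η n c z)‖ < ρ := by
  have hCX := CX_ge h.hS.B_ge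
  refine (h.hS.norm_Xq (h.mem hc hz) (h.mem_p hc hz) (m := 2 / n)
    (h.ep_le hc hz) h.n2).trans_lt (lt_of_le_of_lt ?_ h.nρ)
  exact mul_le_mul_of_nonneg_left (h.ep_le hc hz) (by linarith)

lemma differentiable_vv : Differentiable ℂ (vv η n c) :=
  (differentiable_Tg (α := mv n) (β := mv n) :)

lemma differentiable_yy : Differentiable ℂ (yy η n c) :=
  (differentiable_Tg (η := η) (K := n / 2) (α := fun _ => 1) (β := fun _ => 1) (c := c) :)

lemma differentiable_em : Differentiable ℂ (em η n c) := by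
  unfold em
  have h1 : Differentiable ℂ (vv η n c) := differentiable_vv
  have h2 : Differentiable ℂ (fun z : ℂ => vv η n c (z - 1 / n)) := h1.comp (by fun_prop)
  fun_prop

lemma differentiable_ep : Differentiable ℂ (ep η n c) := by
  unfold ep
  have h1 : Differentiable ℂ (vv η n c) := differentiable_vv
  have h2 : Differentiable ℂ (fun z : ℂ => vv η n c (z + 1 / n)) := h1.comp (by fun_prop)
  fun_prop

lemma Ctx.diffEV (h : Ctx q q1 q2 ρ C B η r n) (hq : Differentiable ℂ q) (hc : ‖c‖ ≤ r) :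
    DifferentiableOn ℂ (EV q η n c) (St η) := by
  intro z hz
  have h1 : DifferentiableAt ℂ (fun z => Pq q (z + vv η n c z) (-em η n c z)) z := by
    refine DifferentiableAt.comp (g := fun p : ℂ × ℂ => Pq q p.1 p.2)
      (f := fun z => (z + vv η n c z, -em η n c z)) z
      (differentiableAt_Pq h.hL hq (p := (z + vv η n c z, -em η n c z)) (h.Xm hc hz)) ?_
    exact (differentiableAt_id.add (differentiable_vv z)).prodMk (differentiable_em z).neg
  have h2 : DifferentiableAt ℂ (fun z => Pq q (z + vv η n c z) (ep η n c z)) z := by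
    refine DifferentiableAt.comp (g := fun p : ℂ × ℂ => Pq q p.1 p.2)
      (f := fun z => (z + vv η n c z, ep η n c z)) z
      (differentiableAt_Pq h.hL hq (p := (z + vv η n c z, ep η n c z)) (h.Xp hc hz)) ?_
    exact (differentiableAt_id.add (differentiable_vv z)).prodMk (differentiable_ep z)
  exact (h1.sub h2).differentiableWithinAt

lemma Ctx.difff (h : Ctx q q1 q2 ρ C B η r n) (hq : Differentiable ℂ q) (hc : ‖c‖ ≤ r) :
    DifferentiableOn ℂ (fv q η n c) (St η) :=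
  differentiable_yy.differentiableOn.add ((h.diffEV hq hc).const_mul _)

lemma vv_add_one : vv η n c (z + 1) = vv η n c z := Tg_add_one

lemma yy_add_one : yy η n c (z + 1) = yy η n c z := Tg_add_one

lemma em_add_one : em η n c (z + 1) = em η n c z := by
  unfold em
  have : z + 1 - 1 / (n : ℂ) = (z - 1 / n) + 1 := by ring
  rw [this, vv_add_one, vv_add_one]
  ring

lemma ep_add_one : ep η n c (z + 1) = ep η n c z := by
  unfold ep
  have : z + 1 + 1 / (n : ℂ) = (z + 1 / n) + 1 := by ring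
  rw [this, vv_add_one, vv_add_one]
  ring

lemma Xq_per (hq : ∀ z, q (z + 1) = q z) (x e : ℂ) : Xq q (x + 1) e = Xq q x e := by
  unfold Xq
  have h1 : dq q (x + 1) e = dq q x e := by
    refine AA.ext' (fun r => ?_)
    rw [dq_apply, dq_apply, hq]
    have : x + 1 + e * ((r : ℝ) : ℂ) = (x + e * ((r : ℝ) : ℂ)) + 1 := by ring
    rw [this, hq]
  rw [h1, hq]

lemma Pq_per (hq : ∀ z, q (z + 1) = q z) (x e : ℂ) : Pq q (x + 1) e = Pq q x e := by
  unfold Pq
  rw [Xq_per hq]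

lemma EV_per (hq : ∀ z, q (z + 1) = q z) : EV q η n c (z + 1) = EV q η n c z := by
  rw [EV_eq, EV_eq, em_add_one, ep_add_one, vv_add_one]
  have : z + 1 + vv η n c z = (z + vv η n c z) + 1 := by ring
  rw [this, Pq_per hq, Pq_per hq]

lemma fv_per (hq : ∀ z, q (z + 1) = q z) : fv q η n c (z + 1) = fv q η n c z := by
  unfold fv
  rw [EV_per hq, yy_add_one]

/-- the basic Lipschitz estimate -/
lemma Ctx.lip (h : Ctx q q1 q2 ρ C B η r n) (hr : 0 ≤ r) (hc : ‖c‖ ≤ r) (hc' : ‖c'‖ ≤ r)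
    (hz : z ∈ St η) : ‖fv q η n c' z - fv q η n c z‖ ≤
      (2 * ((n : ℝ) ^ 3 * √n * r) + 192 * CP C B * (√n / n)) * ‖c' - c‖ := by
  have hn : (0 : ℝ) < n := by exact_mod_cast h.hn
  have hnC : (n : ℂ) ≠ 0 := by exact_mod_cast h.hn.ne'
  set δ : ℝ := ‖c' - c‖ with hδ
  have hδ0 : 0 ≤ δ := norm_nonneg _
  have hw := Real.sqrt_nonneg (n : ℝ)
  have hCP : 0 ≤ CP C B := by
    have := h.hL.C_ge
    have := h.hS.B_ge
    have := CX_ge h.hS.B_ge
    unfold CP
    positivity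
  have hm1 : ‖em η n c' z - em η n c z‖ ≤ (n : ℝ) * √n * δ := by
    have e : em η n c' z - em η n c z = -(vv η n (c' - c) (z - 1 / n) - vv η n (c' - c) z) := by
      rw [← vv_sub, ← vv_sub]; unfold em; ring
    rw [e, norm_neg]
    exact norm_dvv_le' h.hn hz
  have hp1 : ‖ep η n c' z - ep η n c z‖ ≤ (n : ℝ) * √n * δ := by
    have e : ep η n c' z - ep η n c z = (vv η n (c' - c) (z + 1 / n) - vv η n (c' - c) z) := by
      rw [← vv_sub, ← vv_sub]; unfold ep; ring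
    rw [e]
    exact norm_dvv_le h.hn hz
  have hS1 : ‖(z + vv η n c' z) - (z + vv η n c z)‖ ≤ (n : ℝ) ^ 2 * δ := by
    have e : (z + vv η n c' z) - (z + vv η n c z) = vv η n (c' - c) z := by
      rw [← vv_sub]; ring
    rw [e]
    exact norm_vv_le hz
  have P1 := h.hS.PL h.hL (h.mem hc hz) (h.mem_m hc hz) (h.mem hc' hz) (h.mem_m hc' hz)
    (m := 2 / n) (by rw [norm_neg]; exact h.em_le hc hz) (by rw [norm_neg]; exact h.em_le hc' hz)
    h.n2 h.nρ
  have P2 := h.hS.PL h.hL (h.mem hc hz) (h.mem_p hc hz) (h.mem hc' hz) (h.mem_p hc' hz)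
    (m := 2 / n) (h.ep_le hc hz) (h.ep_le hc' hz) h.n2 h.nρ
  have e3 : ‖-em η n c' z - -em η n c z‖ = ‖em η n c' z - em η n c z‖ := by
    rw [← norm_neg]; congr 1; ring
  rw [e3] at P1
  have bnd : ∀ t : ℝ, t ≤ (n : ℝ) * √n * δ →
      CP C B * ((2 / (n : ℝ)) ^ 3 * t + (2 / (n : ℝ)) ^ 4 * ‖(z + vv η n c' z) - (z + vv η n c z)‖) ≤
        24 * CP C B * (√n / n ^ 2) * δ := by
    intro t ht
    have hw1 : 1 ≤ √(n : ℝ) := by
      rw [Real.one_le_sqrt]
      exact_mod_cast h.hn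
    have a1 : (2 / (n : ℝ)) ^ 3 * t ≤ 8 * (√n / n ^ 2) * δ := by
      calc (2 / (n : ℝ)) ^ 3 * t ≤ (2 / (n : ℝ)) ^ 3 * ((n : ℝ) * √n * δ) :=
            mul_le_mul_of_nonneg_left ht (by positivity)
        _ = 8 * (√n / n ^ 2) * δ := by field_simp; ring
    have a2 : (2 / (n : ℝ)) ^ 4 * ‖(z + vv η n c' z) - (z + vv η n c z)‖ ≤
        16 * (√n / n ^ 2) * δ := by
      calc (2 / (n : ℝ)) ^ 4 * ‖(z + vv η n c' z) - (z + vv η n c z)‖
          ≤ (2 / (n : ℝ)) ^ 4 * ((n : ℝ) ^ 2 * δ) := mul_le_mul_of_nonneg_left hS1 (by positivity)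
        _ = 16 * (1 / n ^ 2) * δ := by field_simp; ring
        _ ≤ 16 * (√n / n ^ 2) * δ := by gcongr
    calc CP C B * ((2 / (n : ℝ)) ^ 3 * t +
          (2 / (n : ℝ)) ^ 4 * ‖(z + vv η n c' z) - (z + vv η n c z)‖)
        ≤ CP C B * (8 * (√n / n ^ 2) * δ + 16 * (√n / n ^ 2) * δ) :=
          mul_le_mul_of_nonneg_left (add_le_add a1 a2) hCP
      _ = _ := by ring
  have B1 := P1.trans (bnd _ hm1)
  have B2 := P2.trans (bnd _ hp1)
  -- the algebraic identity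
  set s : ℂ := em η n c z + ep η n c z - 2 / n with hs
  set s' : ℂ := em η n c' z + ep η n c' z - 2 / n with hs'
  set y : ℂ := yy η n c z with hy
  set y' : ℂ := yy η n c' z with hy'
  have y_eq : ep η n c z - em η n c z = y := by
    rw [hy, ← second_diff h.hn]; unfold ep em; ring
  have y_eq' : ep η n c' z - em η n c' z = y' := by
    rw [hy', ← second_diff h.hn]; unfold ep em; ring
  set E1 := Pq q (z + vv η n c' z) (-em η n c' z) - Pq q (z + vv η n c z) (-em η n c z) -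
    ((-em η n c' z) ^ 2 - (-em η n c z) ^ 2) / 8 with hE1
  set E2 := Pq q (z + vv η n c' z) (ep η n c' z) - Pq q (z + vv η n c z) (ep η n c z) -
    ((ep η n c' z) ^ 2 - (ep η n c z) ^ 2) / 8 with hE2
  have id1 : fv q η n c' z - fv q η n c z =
      -((n : ℂ) / 2) * (s' * (y' - y) + (s' - s) * y) + 4 * n * (E1 - E2) := by
    unfold fv
    rw [EV_eq, EV_eq, ← hy, ← hy', hE1, hE2, ← y_eq, ← y_eq', hs, hs']
    field_simp
    ring
  have ns' : ‖s'‖ ≤ 2 * ((n : ℝ) * √n * r) := by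
    have e : s' = (vv η n c' (z + 1 / n) - vv η n c' z) - (vv η n c' (z - 1 / n) - vv η n c' z) := by
      rw [hs']; unfold em ep; field_simp; ring
    rw [e]
    refine (norm_sub_le _ _).trans ?_
    have b1 := norm_dvv_le (c := c') h.hn hz
    have b2 := norm_dvv_le' (c := c') h.hn hz
    have b3 : (n : ℝ) * √n * ‖c'‖ ≤ (n : ℝ) * √n * r := mul_le_mul_of_nonneg_left hc' (by positivity)
    linarith
  have nss : ‖s' - s‖ ≤ 2 * ((n : ℝ) * √n * δ) := by
    have e : s' - s = (em η n c' z - em η n c z) + (ep η n c' z - ep η n c z) := by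
      rw [hs, hs']; ring
    rw [e]
    refine (norm_add_le _ _).trans ?_
    linarith
  have nyy : ‖y' - y‖ ≤ (n : ℝ) * δ := by
    rw [hy, hy', yy_sub]
    exact norm_yy_le hz
  have ny : ‖y‖ ≤ (n : ℝ) * r := by
    refine (norm_yy_le hz).trans ?_
    exact mul_le_mul_of_nonneg_left hc hn.le
  rw [id1]
  have t1 : ‖s' * (y' - y) + (s' - s) * y‖ ≤ 4 * ((n : ℝ) ^ 2 * √n * r * δ) := by
    refine (norm_add_le _ _).trans ?_
    rw [norm_mul, norm_mul]
    have c1 := mul_le_mul ns' nyy (norm_nonneg _) (by positivity)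
    have c2 := mul_le_mul nss ny (norm_nonneg _) (by positivity)
    refine (add_le_add c1 c2).trans (le_of_eq ?_)
    ring
  have t2 : ‖E1 - E2‖ ≤ 48 * CP C B * (√n / n ^ 2) * δ := by
    refine (norm_sub_le _ _).trans ?_
    linarith
  have n1 : ‖-((n : ℂ) / 2)‖ = (n : ℝ) / 2 := by
    rw [norm_neg, norm_div, Complex.norm_natCast]; norm_num
  have n4 : ‖(4 * n : ℂ)‖ = 4 * (n : ℝ) := by
    rw [norm_mul, Complex.norm_natCast]; norm_num
  refine (norm_add_le _ _).trans ?_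
  rw [norm_mul, norm_mul, n1, n4]
  have d1 := mul_le_mul_of_nonneg_left t1 (by positivity : (0 : ℝ) ≤ (n : ℝ) / 2)
  have d2 := mul_le_mul_of_nonneg_left t2 (by positivity : (0 : ℝ) ≤ 4 * (n : ℝ))
  refine (add_le_add d1 d2).trans (le_of_eq ?_)
  field_simp
  ring


/-! ### the contraction -/

/-- the contraction -/
def Phi (q : C(ℂ, ℂ)) (η : ℝ) (n : ℕ) (c : Fin (n / 2) → ℂ) : Fin (n / 2) → ℂ := fun k =>
  (Real.exp (2 * π * η * ((k : ℕ) + 1 : ℕ)) : ℂ) *
    ∫ x in (0 : ℝ)..1, fv q η n c x * ee (-((((k : ℕ) + 1 : ℕ) : ℂ) * x))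

lemma coef_bound {g : ℂ → ℂ} {A : ℝ} (hη : 0 ≤ η) (hg : DifferentiableOn ℂ g (St η))
    (hper : ∀ z ∈ St η, g (z + 1) = g z) (hA : ∀ z ∈ St η, ‖g z‖ ≤ A) (k : ℕ) :
    ‖(Real.exp (2 * π * η * (k + 1 : ℕ)) : ℂ) *
      ∫ x in (0 : ℝ)..1, g x * ee (-(((k + 1 : ℕ) : ℂ) * x))‖ ≤ A := by
  have h := norm_coeff_le hη hg hper hA ((k + 1 : ℕ) : ℤ)
  rw [norm_mul, Complex.norm_real, Real.norm_of_nonneg (Real.exp_nonneg _)]
  have e1 : |((((k + 1 : ℕ) : ℤ)) : ℝ)| = ((k + 1 : ℕ) : ℝ) := by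
    rw [Int.cast_natCast, abs_of_nonneg (Nat.cast_nonneg _)]
  rw [e1] at h
  simp only [Int.cast_natCast] at h
  have h2 := mul_le_mul_of_nonneg_left h (Real.exp_nonneg (2 * π * η * (k + 1 : ℕ)))
  refine h2.trans (le_of_eq ?_)
  have : Real.exp (2 * π * η * (k + 1 : ℕ)) * (A * Real.exp (-(2 * π * η * (k + 1 : ℕ)))) =
      A * (Real.exp (2 * π * η * (k + 1 : ℕ)) * Real.exp (-(2 * π * η * (k + 1 : ℕ)))) := by ring
  rw [this, ← Real.exp_add, add_neg_cancel, Real.exp_zero, mul_one]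

lemma real_mem_St (hη : 0 ≤ η) (x : ℝ) : (x : ℂ) ∈ St η := by
  simp [St, hη]

lemma continuous_real_of_diffOn {g : ℂ → ℂ} (hη : 0 ≤ η) (hg : DifferentiableOn ℂ g (St η)) :
    Continuous (fun x : ℝ => g x) :=
  hg.continuousOn.comp_continuous Complex.continuous_ofReal (fun x => real_mem_St hη x)

lemma continuous_eem (k : ℕ) : Continuous (fun x : ℝ => ee (-(((k + 1 : ℕ) : ℂ) * x))) :=
  continuous_ee.comp (by fun_prop)

lemma Ctx.Phi_sub (h : Ctx q q1 q2 ρ C B η r n) (hq : Differentiable ℂ q)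
    (hqp : ∀ z, q (z + 1) = q z) (hc : ‖c‖ ≤ r) (hc' : ‖c'‖ ≤ r) {A : ℝ} (hA0 : 0 ≤ A)
    (hA : ∀ z ∈ St η, ‖fv q η n c' z - fv q η n c z‖ ≤ A) :
    ‖Phi q η n c' - Phi q η n c‖ ≤ A := by
  refine (pi_norm_le_iff_of_nonneg hA0).2 (fun k => ?_)
  have d1 := h.difff hq hc'
  have d2 := h.difff hq hc
  have h1 := coef_bound h.η0 (d1.sub d2) (fun z _ => by
    simp only [Pi.sub_apply]
    rw [fv_per hqp, fv_per hqp]) (fun z hz => by simpa using hA z hz) (k : ℕ)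
  have e1 : (Phi q η n c' - Phi q η n c) k = (Real.exp (2 * π * η * ((k : ℕ) + 1 : ℕ)) : ℂ) *
      ∫ x in (0 : ℝ)..1, (fv q η n c' - fv q η n c) x * ee (-((((k : ℕ) + 1 : ℕ) : ℂ) * x)) := by
    rw [Pi.sub_apply]
    unfold Phi
    rw [← mul_sub, ← intervalIntegral.integral_sub]
    · congr 2
      ext x
      rw [Pi.sub_apply]; ring
    · exact ((continuous_real_of_diffOn h.η0 d1).mul (continuous_eem _)).intervalIntegrable _ _
    · exact ((continuous_real_of_diffOn h.η0 d2).mul (continuous_eem _)).intervalIntegrable _ _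
  rw [e1]
  exact h1

lemma Ctx.f0 (h : Ctx q q1 q2 ρ C B η r n) (hz : z ∈ St η) :
    ‖fv q η n 0 z‖ ≤ 4 * CP0 ρ C B / n ^ 4 := by
  have hn : (0 : ℝ) < n := by exact_mod_cast h.hn
  have e0 : fv q η n 0 z = 4 * n * (Pq q z (-(1 / n)) - Pq q z (1 / n)) := by
    unfold fv EV EP
    rw [yy_zero, vv_zero, vv_zero, vv_zero]
    ring_nf
  have hz0 : z ∈ St (η + 2 / n) := St_mono (by have : 0 < 2 / (n : ℝ) := by positivity
                                               linarith) hz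
  have hzp : z + 1 / n ∈ St (η + 2 / n) := St_mono (by have : 0 < 2 / (n : ℝ) := by positivity
                                                       linarith) (St_p hz)
  have hzm : z - 1 / n ∈ St (η + 2 / n) := St_mono (by have : 0 < 2 / (n : ℝ) := by positivity
                                                       linarith) (St_m hz)
  have h1 := h.hS.P0 h.hL hz0 hzp hzm (by
    rw [norm_inv_nat]
    have := h.nρ
    have e : 2 * CX B * (1 / (n : ℝ)) = CX B * (2 / n) := by ring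
    rw [e]; exact this)
  rw [e0, norm_mul]
  have n4 : ‖(4 * n : ℂ)‖ = 4 * (n : ℝ) := by
    rw [norm_mul, Complex.norm_natCast]; norm_num
  rw [n4]
  rw [norm_inv_nat] at h1
  refine (mul_le_mul_of_nonneg_left h1 (by positivity)).trans (le_of_eq ?_)
  field_simp

lemma CP0_nonneg (hL : LocQ ρ C) (hB : 1 ≤ B) : 0 ≤ CP0 ρ C B := by
  have := hL.C_ge
  have := hL.ρ_pos
  have := CX_ge hB
  unfold CP0
  positivity

/-- the quantitative assumptions -/
structure Ctx2 (q : C(ℂ, ℂ)) (q1 q2 : ℂ → ℂ) (ρ C B η r : ℝ) (n : ℕ) : Prop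
    extends Ctx q q1 q2 ρ C B η r n where
  hr : 0 < r
  hr0 : 8 * CP0 ρ C B / n ^ 4 ≤ r
  hL2 : 2 * ((n : ℝ) ^ 3 * √n * r) + 192 * CP C B * (√n / n) ≤ 1 / 2

lemma Ctx2.lip' (h : Ctx2 q q1 q2 ρ C B η r n) (hc : ‖c‖ ≤ r) (hc' : ‖c'‖ ≤ r)
    (hz : z ∈ St η) : ‖fv q η n c' z - fv q η n c z‖ ≤ 1 / 2 * ‖c' - c‖ :=
  (h.toCtx.lip h.hr.le hc hc' hz).trans (mul_le_mul_of_nonneg_right h.hL2 (norm_nonneg _))

lemma Ctx2.norm_fv (h : Ctx2 q q1 q2 ρ C B η r n) (hc : ‖c‖ ≤ r) (hz : z ∈ St η) :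
    ‖fv q η n c z‖ ≤ r := by
  have h1 := h.lip' (c := 0) (c' := c) (by rw [norm_zero]; exact h.hr.le) hc hz
  rw [sub_zero] at h1
  have h2 := h.toCtx.f0 hz
  have h3 : 4 * CP0 ρ C B / (n : ℝ) ^ 4 ≤ r / 2 := by
    have := h.hr0
    have e : 8 * CP0 ρ C B / (n : ℝ) ^ 4 = 2 * (4 * CP0 ρ C B / (n : ℝ) ^ 4) := by ring
    rw [e] at this
    linarith
  have h4 : fv q η n c z = (fv q η n c z - fv q η n 0 z) + fv q η n 0 z := by ring
  rw [h4]
  refine (norm_add_le _ _).trans ?_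
  linarith

lemma Ctx2.norm_Phi (h : Ctx2 q q1 q2 ρ C B η r n) (hq : Differentiable ℂ q)
    (hqp : ∀ z, q (z + 1) = q z) (hc : ‖c‖ ≤ r) : ‖Phi q η n c‖ ≤ r :=
  (pi_norm_le_iff_of_nonneg h.hr.le).2 (fun k =>
    coef_bound h.η0 (h.toCtx.difff hq hc) (fun _ _ => fv_per hqp) (fun _ hz => h.norm_fv hc hz) k)

theorem Ctx2.exists_fixed (h : Ctx2 q q1 q2 ρ C B η r n) (hq : Differentiable ℂ q)
    (hqp : ∀ z, q (z + 1) = q z) : ∃ c : Fin (n / 2) → ℂ, ‖c‖ ≤ r ∧ Phi q η n c = c := by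
  have hmaps : MapsTo (Phi q η n) (closedBall 0 r) (closedBall 0 r) := by
    intro c hc
    rw [mem_closedBall_zero_iff] at hc ⊢
    exact h.norm_Phi hq hqp hc
  have hcon : ContractingWith (1 / 2 : NNReal) (hmaps.restrict (Phi q η n) (closedBall 0 r)
      (closedBall 0 r)) := by
    refine ⟨by norm_num, LipschitzWith.of_dist_le_mul (fun c c' => ?_)⟩
    have hc := mem_closedBall_zero_iff.1 c.2
    have hc' := mem_closedBall_zero_iff.1 c'.2
    rw [Subtype.dist_eq, Subtype.dist_eq, MapsTo.val_restrict_apply, MapsTo.val_restrict_apply,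
      dist_eq_norm, dist_eq_norm]
    have := h.toCtx.Phi_sub hq hqp hc' hc (A := 1 / 2 * ‖(c : Fin (n / 2) → ℂ) - c'‖)
      (by positivity) (fun z hz => h.lip' hc' hc hz)
    refine this.trans (le_of_eq ?_)
    simp
  obtain ⟨c, hc, hfix, -⟩ := hcon.exists_fixedPoint' isClosed_closedBall.isComplete hmaps
    (x := 0) (mem_closedBall_self h.hr.le) (edist_ne_top _ _)
  exact ⟨c, mem_closedBall_zero_iff.1 hc, hfix⟩

end

end Crest.Agent.R102.A929
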