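import Crest.Agent.R102.TrigA_929

/-!
Row 102, part (A) (helper929): the displacement `v` and its second difference `y`, bounds.
-/

set_option autoImplicit false

open Set Filter Topology Metric Complex MeasureTheory
open scoped Real ContDiff ComplexConjugate

noncomputable section

namespace Crest.Agent.R102.A929

/-- the multiplier of `v` -/
def mv (n k : ℕ) : ℂ := ((-(1 / (4 * Real.sin (π * k / n) ^ 2)) : ℝ) : ℂ)

/-- the displacement -/
def vv (η : ℝ) (n : ℕ) (c : Fin (n / 2) → ℂ) (z : ℂ) : ℂ := Tg η (n / 2) (mv n) (mv n) c z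

/-- the second difference of the displacement -/
def yy (η : ℝ) (n : ℕ) (c : Fin (n / 2) → ℂ) (z : ℂ) : ℂ :=
  Tg η (n / 2) (fun _ => 1) (fun _ => 1) c z

section

variable {n k : ℕ} {η : ℝ} {c c' : Fin (n / 2) → ℂ} {z : ℂ}

lemma sin_lb (hk : 1 ≤ k) (hkn : k ≤ n / 2) : 2 * (k : ℝ) / n ≤ Real.sin (π * k / n) := by
  have hn : 0 < n := by omega
  have hn' : (0 : ℝ) < n := by exact_mod_cast hn
  have h2 : (2 : ℝ) * k ≤ n := by exact_mod_cast (by omega : 2 * k ≤ n)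
  have h := Real.mul_le_sin (x := π * k / n) (by positivity) (by
    rw [div_le_div_iff₀ hn' two_pos]
    nlinarith [Real.pi_pos])
  refine le_trans (le_of_eq ?_) h
  field_simp

lemma sin_pos' (hk : 1 ≤ k) (hkn : k ≤ n / 2) : 0 < Real.sin (π * k / n) := by
  have hn : 0 < n := by omega
  have hn' : (0 : ℝ) < n := by exact_mod_cast hn
  have hk' : (0 : ℝ) < k := by exact_mod_cast hk
  exact lt_of_lt_of_le (by positivity) (sin_lb hk hkn)

lemma norm_mv_le (hk : 1 ≤ k) (hkn : k ≤ n / 2) : ‖mv n k‖ ≤ (n : ℝ) ^ 2 / (16 * (k : ℝ) ^ 2) := by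
  have h1 := sin_lb hk hkn
  have h2 := sin_pos' hk hkn
  have hn : 0 < n := by omega
  have hn' : (0 : ℝ) < n := by exact_mod_cast hn
  have hk' : (0 : ℝ) < k := by exact_mod_cast hk
  unfold mv
  rw [Complex.norm_real, norm_neg, Real.norm_of_nonneg (by positivity)]
  have h3 : (2 * (k : ℝ) / n) ^ 2 ≤ Real.sin (π * k / n) ^ 2 :=
    pow_le_pow_left₀ (by positivity) h1 2
  calc 1 / (4 * Real.sin (π * k / n) ^ 2) ≤ 1 / (4 * (2 * (k : ℝ) / n) ^ 2) :=
        one_div_le_one_div_of_le (by positivity) (by linarith)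
    _ = (n : ℝ) ^ 2 / (16 * (k : ℝ) ^ 2) := by field_simp; ring

lemma ee_sub_one (x : ℝ) : ee x - 1 = ee (x / 2) * (2 * I * Real.sin (π * x)) := by
  have h1 : ee (x : ℂ) = ee (x / 2) * ee (x / 2) := by rw [← ee_add]; ring_nf
  have h2 : ee ((x : ℂ) / 2) * ee (-((x : ℂ) / 2)) = 1 := by rw [← ee_add, add_neg_cancel, ee_zero]
  have h3 : ee ((x : ℂ) / 2) - ee (-((x : ℂ) / 2)) = 2 * I * Real.sin (π * x) := by
    rw [Complex.ofReal_sin, Complex.sin]
    unfold ee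
    have e1 : 2 * (π : ℂ) * I * ((x : ℂ) / 2) = ((π * x : ℝ) : ℂ) * I := by push_cast; ring
    have e2 : 2 * (π : ℂ) * I * (-((x : ℂ) / 2)) = -((π * x : ℝ) : ℂ) * I := by push_cast; ring
    rw [e1, e2]
    have : I ^ 2 = -1 := Complex.I_sq
    linear_combination (-(Complex.exp (-((π * x : ℝ) : ℂ) * I) - Complex.exp (((π * x : ℝ) : ℂ) * I))) * this
  rw [← h3, mul_sub, ← h1, h2]

lemma norm_ee_sub_one (x : ℝ) : ‖ee x - 1‖ = 2 * |Real.sin (π * x)| := by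
  rw [ee_sub_one, norm_mul, norm_ee]
  have : ((x : ℂ) / 2).im = 0 := by simp
  rw [this, norm_mul, Complex.norm_real, Real.norm_eq_abs]
  simp

lemma norm_mv_mul (hk : 1 ≤ k) (hkn : k ≤ n / 2) (s : ℝ) (hs : |s| = 1) :
    ‖mv n k * ee (((k : ℝ) / n * s : ℝ)) - mv n k‖ ≤ (n : ℝ) / (4 * k) := by
  have h1 := sin_lb hk hkn
  have h2 := sin_pos' hk hkn
  have hn : 0 < n := by omega
  have hn' : (0 : ℝ) < n := by exact_mod_cast hn
  have hk' : (0 : ℝ) < k := by exact_mod_cast hk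
  have e1 : mv n k * ee (((k : ℝ) / n * s : ℝ)) - mv n k =
      mv n k * (ee (((k : ℝ) / n * s : ℝ)) - 1) := by ring
  rw [e1, norm_mul, norm_ee_sub_one]
  have e2 : |Real.sin (π * ((k : ℝ) / n * s))| = Real.sin (π * k / n) := by
    have hs' : s = 1 ∨ s = -1 := by
      rcases abs_cases s with h | h
      · left; linarith
      · right; linarith
    rcases hs' with rfl | rfl
    · rw [mul_one, ← mul_div_assoc, abs_of_pos h2]
    · rw [mul_neg_one, mul_neg, Real.sin_neg, abs_neg, ← mul_div_assoc, abs_of_pos h2]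
  rw [e2]
  unfold mv
  rw [Complex.norm_real, norm_neg, Real.norm_of_nonneg (by positivity)]
  calc 1 / (4 * Real.sin (π * k / n) ^ 2) * (2 * Real.sin (π * k / n))
      = 1 / (2 * Real.sin (π * k / n)) := by field_simp; norm_num
    _ ≤ 1 / (2 * (2 * (k : ℝ) / n)) := one_div_le_one_div_of_le (by positivity) (by linarith)
    _ = (n : ℝ) / (4 * k) := by field_simp; norm_num

lemma norm_vv_le (h : z ∈ St η) : ‖vv η n c z‖ ≤ (n : ℝ) ^ 2 * ‖c‖ := by
  refine (norm_Tg_le h).trans (mul_le_mul_of_nonneg_right ?_ (norm_nonneg _))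
  have h1 : ∀ k ∈ Finset.range (n / 2), ‖mv n (k + 1)‖ + ‖mv n (k + 1)‖ ≤
      (n : ℝ) ^ 2 / 8 * (1 / ((k : ℝ) + 1) ^ 2) := by
    intro k hk
    have hk' := Finset.mem_range.1 hk
    have := norm_mv_le (n := n) (k := k + 1) (by omega) (by omega)
    push_cast at this
    calc ‖mv n (k + 1)‖ + ‖mv n (k + 1)‖ ≤ (n : ℝ) ^ 2 / (16 * ((k : ℝ) + 1) ^ 2) +
        (n : ℝ) ^ 2 / (16 * ((k : ℝ) + 1) ^ 2) := add_le_add this this
      _ = _ := by field_simp; ring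
  refine (Finset.sum_le_sum h1).trans ?_
  rw [← Finset.mul_sum]
  have h2 := sum_inv_sq_le (n / 2)
  have h3 : (0 : ℝ) ≤ (n : ℝ) ^ 2 / 8 := by positivity
  nlinarith

lemma norm_yy_le (h : z ∈ St η) : ‖yy η n c z‖ ≤ (n : ℝ) * ‖c‖ := by
  refine (norm_Tg_le h).trans (mul_le_mul_of_nonneg_right ?_ (norm_nonneg _))
  simp only [norm_one, Finset.sum_const, Finset.card_range, nsmul_eq_mul]
  have : 2 * (n / 2) ≤ n := by omega
  have h2 : (2 : ℝ) * ((n / 2 : ℕ) : ℝ) ≤ n := by exact_mod_cast this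
  linarith

lemma sqrt_half_le (n : ℕ) : √((n / 2 : ℕ) : ℝ) ≤ √n := by
  refine Real.sqrt_le_sqrt ?_
  exact_mod_cast Nat.div_le_self n 2

lemma norm_dvv_le_aux (hn : 0 < n) (h : z ∈ St η) (s : ℝ) (hs : |s| = 1) :
    ‖vv η n c (z + s / n) - vv η n c z‖ ≤ (n : ℝ) * √n * ‖c‖ := by
  have hn' : (0 : ℝ) < n := by exact_mod_cast hn
  unfold vv
  rw [Tg_shift, Tg_sub_mult]
  refine (norm_Tg_le h).trans (mul_le_mul_of_nonneg_right ?_ (norm_nonneg _))
  have h1 : ∀ k ∈ Finset.range (n / 2),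
      ‖mv n (k + 1) * ee (((k + 1 : ℕ) : ℂ) * (s / n)) - mv n (k + 1)‖ +
      ‖mv n (k + 1) * ee (-(((k + 1 : ℕ) : ℂ) * (s / n))) - mv n (k + 1)‖ ≤
      (n : ℝ) / 2 * (1 / ((k : ℝ) + 1)) := by
    intro k hk
    have hk' := Finset.mem_range.1 hk
    have a1 := norm_mv_mul (n := n) (k := k + 1) (by omega) (by omega) s hs
    have a2 := norm_mv_mul (n := n) (k := k + 1) (by omega) (by omega) (-s) (by rwa [abs_neg])
    have e1 : ((((k + 1 : ℕ) : ℝ) / n * s : ℝ) : ℂ) = ((k + 1 : ℕ) : ℂ) * (s / n) := by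
      push_cast; ring
    have e2 : ((((k + 1 : ℕ) : ℝ) / n * (-s) : ℝ) : ℂ) = -(((k + 1 : ℕ) : ℂ) * (s / n)) := by
      push_cast; ring
    rw [e1] at a1
    rw [e2] at a2
    refine (add_le_add a1 a2).trans (le_of_eq ?_)
    push_cast
    field_simp
    norm_num
  refine (Finset.sum_le_sum h1).trans ?_
  rw [← Finset.mul_sum]
  have h2 := sum_inv_le_sqrt (n / 2)
  have h3 := sqrt_half_le n
  nlinarith [Real.sqrt_nonneg (n : ℝ)]

lemma norm_dvv_le (hn : 0 < n) (h : z ∈ St η) :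
    ‖vv η n c (z + 1 / n) - vv η n c z‖ ≤ (n : ℝ) * √n * ‖c‖ := by
  have := norm_dvv_le_aux (c := c) hn h 1 (by norm_num)
  simpa using this

lemma norm_dvv_le' (hn : 0 < n) (h : z ∈ St η) :
    ‖vv η n c (z - 1 / n) - vv η n c z‖ ≤ (n : ℝ) * √n * ‖c‖ := by
  have := norm_dvv_le_aux (c := c) hn h (-1) (by norm_num)
  have e : z - 1 / (n : ℂ) = z + ((-1 : ℝ) : ℂ) / n := by push_cast; ring
  rw [e]
  exact this

lemma norm_deriv_vv_le (h : z ∈ St η) :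
    ‖deriv (vv η n c) z‖ ≤ 2 * ((n : ℝ) ^ 2 * √n) * ‖c‖ := by
  have e : vv η n c = Tg η (n / 2) (mv n) (mv n) c := rfl
  rw [e, deriv_Tg]
  refine (norm_Tg_le h).trans (mul_le_mul_of_nonneg_right ?_ (norm_nonneg _))
  have h1 : ∀ k ∈ Finset.range (n / 2),
      ‖mv n (k + 1) * (2 * π * I * ((k + 1 : ℕ) : ℂ))‖ +
      ‖mv n (k + 1) * (-(2 * π * I * ((k + 1 : ℕ) : ℂ)))‖ ≤
      (n : ℝ) ^ 2 * (1 / ((k : ℝ) + 1)) := by
    intro k hk
    have hk' := Finset.mem_range.1 hk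
    have a1 := norm_mv_le (n := n) (k := k + 1) (by omega) (by omega)
    rw [norm_mul (mv n (k + 1)), norm_mul (mv n (k + 1)), norm_neg]
    have e1 : ‖(2 * π * I * ((k + 1 : ℕ) : ℂ))‖ = 2 * π * ((k : ℝ) + 1) := by
      rw [norm_mul, norm_mul, norm_mul, Complex.norm_I, Complex.norm_natCast, Complex.norm_real,
        Real.norm_of_nonneg Real.pi_pos.le]
      push_cast
      norm_num
    rw [e1]
    have hk0 : (0 : ℝ) < (k : ℝ) + 1 := by positivity
    push_cast at a1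
    have a2 : ‖mv n (k + 1)‖ * (2 * π * ((k : ℝ) + 1)) ≤
        (n : ℝ) ^ 2 / (16 * ((k : ℝ) + 1) ^ 2) * (2 * π * ((k : ℝ) + 1)) :=
      mul_le_mul_of_nonneg_right a1 (by have := Real.pi_pos; positivity)
    have e2 : (n : ℝ) ^ 2 / (16 * ((k : ℝ) + 1) ^ 2) * (2 * π * ((k : ℝ) + 1)) =
        (π / 8) * ((n : ℝ) ^ 2 * (1 / ((k : ℝ) + 1))) := by
      field_simp
      ring
    rw [e2] at a2
    have h4 : π / 8 ≤ 1 / 2 := by have := Real.pi_le_four; linarith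
    have h5 : 0 ≤ (n : ℝ) ^ 2 * (1 / ((k : ℝ) + 1)) := by positivity
    nlinarith
  refine (Finset.sum_le_sum h1).trans ?_
  rw [← Finset.mul_sum]
  have h2 := sum_inv_le_sqrt (n / 2)
  have h3 := sqrt_half_le n
  have h4 : (0 : ℝ) ≤ (n : ℝ) ^ 2 := by positivity
  nlinarith [Real.sqrt_nonneg (n : ℝ)]

/-- the second difference of `v` is `y` -/
lemma second_diff (hn : 0 < n) : vv η n c (z + 1 / n) - 2 * vv η n c z + vv η n c (z - 1 / n) =
    yy η n c z := by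
  have hn' : (n : ℂ) ≠ 0 := by exact_mod_cast hn.ne'
  unfold vv yy
  have e0 : z - 1 / (n : ℂ) = z + (-(1 / (n : ℂ))) := by ring
  rw [e0, Tg_shift, Tg_shift]
  unfold Tg
  rw [Finset.mul_sum, ← Finset.sum_sub_distrib, ← Finset.sum_add_distrib]
  refine Finset.sum_congr rfl (fun k _ => ?_)
  have hk2 := k.2
  have hs := sin_pos' (n := n) (k := (k : ℕ) + 1) (by omega) (by omega)
  set s : ℝ := Real.sin (π * ((k : ℕ) + 1 : ℕ) / n) with hsdef
  set u : ℂ := ee ((((k : ℕ) + 1 : ℕ) : ℂ) * (1 / n)) with hu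
  have hu' : ee (-((((k : ℕ) + 1 : ℕ) : ℂ) * (1 / n))) = u⁻¹ := ee_neg _
  have hun : ee ((((k : ℕ) + 1 : ℕ) : ℂ) * -(1 / n)) = u⁻¹ := by rw [mul_neg]; exact hu'
  have hunn : ee (-((((k : ℕ) + 1 : ℕ) : ℂ) * -(1 / n))) = u := by rw [mul_neg, neg_neg]
  have hu0 : u ≠ 0 := ee_ne_zero _
  have key : mv n ((k : ℕ) + 1) * (u - 2 + u⁻¹) = 1 := by
    have h1 := ee_sub_one (((k : ℕ) + 1 : ℕ) / n : ℝ)
    have e1 : (((((k : ℕ) + 1 : ℕ) : ℝ) / n : ℝ) : ℂ) = (((k : ℕ) + 1 : ℕ) : ℂ) * (1 / n) := by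
      push_cast; ring
    rw [e1, ← hu] at h1
    have e2 : Real.sin (π * ((((k : ℕ) + 1 : ℕ) : ℝ) / n)) = s := by
      rw [hsdef, mul_div_assoc]
    rw [e2] at h1
    set p : ℂ := ee ((((k : ℕ) + 1 : ℕ) : ℂ) * (1 / n) / 2) with hp
    have hpp : p * p = u := by rw [hp, hu, ← ee_add]; ring_nf
    have h3 : u - 2 + u⁻¹ = (u - 1) ^ 2 * u⁻¹ := by field_simp; ring
    have h4 : (u - 1) ^ 2 * u⁻¹ = -4 * (s : ℂ) ^ 2 := by
      rw [h1, ← hpp]
      have hp0 : p ≠ 0 := ee_ne_zero _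
      have : I ^ 2 = -1 := Complex.I_sq
      field_simp
      linear_combination (4 * (s : ℂ) ^ 2) * this
    rw [h3, h4]
    unfold mv
    rw [← hsdef]
    have hs' : (s : ℂ) ≠ 0 := by exact_mod_cast hs.ne'
    push_cast
    field_simp
  simp only [hu', hun, hunn, ← hu]
  have k1 := key
  set m := mv n ((k : ℕ) + 1)
  have k2 : m * u - 2 * m + m * u⁻¹ = 1 := by linear_combination k1
  linear_combination ((Real.exp (-(2 * π * η * ((k : ℕ) + 1 : ℕ))) : ℂ) * (c k * ee ((((k : ℕ) + 1 : ℕ) : ℂ) * z) + (starRingEnd ℂ) (c k) * ee (-((((k : ℕ) + 1 : ℕ) : ℂ) * z)))) * k2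

end

end Crest.Agent.R102.A929
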