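import Mathlib

/-!
# Row 102, part (C), item [d]: the FLAT end (`Y = X^n`, `n > 1`, `n ≠ 2`) is not embeddable
(helper348), part 1: the function `Lam`.

`N = 1/(n-1) > 0`, `Lam N y = N log y - log (1 - 1/y)` (near `(1,∞)` this is
`(N+1) log y - log (y-1)`), critical point `y = nf N = 1 + 1/N`.
-/

open Complex Set Filter Topology

noncomputable section

namespace Crest.Agent.R102.Flat348

/-- the upper half plane -/
def UH : Set ℂ := {z | 0 < z.im}

/-- the lower half plane -/
def LH : Set ℂ := {z | z.im < 0}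

/-- `n = 1 + 1/N` -/
def nf (N : ℝ) : ℝ := 1 + 1 / N

/-- `Λ(y) = N log y - log (1 - 1/y)` -/
def Lam (N : ℝ) (y : ℂ) : ℂ := (N : ℂ) * Complex.log y - Complex.log (1 - 1 / y)

/-- the domain of `Lam`: the complement of `(-∞, 1]` -/
def Dm : Set ℂ := {y | 1 < y.re ∨ y.im ≠ 0}

lemma isOpen_UH : IsOpen UH := isOpen_lt continuous_const Complex.continuous_im

lemma isOpen_LH : IsOpen LH := isOpen_lt Complex.continuous_im continuous_const

lemma isOpen_Dm : IsOpen Dm := by
  have : Dm = {y : ℂ | 1 < y.re} ∪ {y : ℂ | y.im ≠ 0} := by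
    ext y; simp [Dm]
  rw [this]
  exact (isOpen_lt continuous_const Complex.continuous_re).union
    (isOpen_ne_fun Complex.continuous_im continuous_const)

lemma UH_sub : UH ⊆ Dm := fun _ hz => Or.inr (ne_of_gt hz)

lemma LH_sub : LH ⊆ Dm := fun _ hz => Or.inr (ne_of_lt hz)

lemma convex_UH : Convex ℝ UH := by
  have : UH = {s : ℂ | 0 < Complex.imCLM s} := rfl
  rw [this]
  exact convex_halfSpace_gt (f := Complex.imCLM) (Complex.imCLM.isLinear) 0

lemma star_UH {y : ℂ} (hy : y ∈ LH) : (starRingEnd ℂ) y ∈ UH := by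
  have h : y.im < 0 := hy
  show 0 < ((starRingEnd ℂ) y).im
  rw [Complex.conj_im]; linarith

lemma star_LH {y : ℂ} (hy : y ∈ UH) : (starRingEnd ℂ) y ∈ LH := by
  have h : 0 < y.im := hy
  show ((starRingEnd ℂ) y).im < 0
  rw [Complex.conj_im]; linarith

lemma ne_zero_of_Dm {y : ℂ} (hy : y ∈ Dm) : y ≠ 0 := by
  rintro rfl
  rcases hy with h | h
  · simp at h; linarith
  · simp at h

lemma sub_one_ne {y : ℂ} (hy : y ∈ Dm) : y - 1 ≠ 0 := by
  intro h
  have h1 : y = 1 := by linear_combination h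
  subst h1
  rcases hy with h | h
  · simp at h
  · simp at h

lemma slit_of_Dm {y : ℂ} (hy : y ∈ Dm) : y ∈ slitPlane := by
  rw [Complex.mem_slitPlane_iff]
  rcases hy with h | h
  · left; linarith
  · right; exact h

lemma inv_im' (y : ℂ) : (1 / y).im = -y.im / normSq y := by
  rw [one_div, Complex.inv_im]

lemma one_sub_im (y : ℂ) : (1 - 1 / y).im = y.im / normSq y := by
  rw [Complex.sub_im, Complex.one_im, inv_im']; ring

lemma one_sub_slit {y : ℂ} (hy : y ∈ Dm) : 1 - 1 / y ∈ slitPlane := by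
  have h0 := ne_zero_of_Dm hy
  have hpos : 0 < normSq y := Complex.normSq_pos.2 h0
  rw [Complex.mem_slitPlane_iff]
  by_cases him : y.im = 0
  · left
    have hre : 1 < y.re := by
      rcases hy with h | h
      · exact h
      · exact absurd him h
    have hy' : y = (y.re : ℂ) := by apply Complex.ext <;> simp [him]
    rw [hy']
    have : (1 : ℂ) - 1 / (y.re : ℂ) = ((1 - 1 / y.re : ℝ) : ℂ) := by push_cast; ring
    rw [this, Complex.ofReal_re]
    have h2 : 1 / y.re < 1 := by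
      rw [div_lt_one (by linarith)]; exact hre
    linarith
  · right
    rw [one_sub_im]
    exact div_ne_zero him hpos.ne'

/-- derivative of `Lam` -/
def dLam (N : ℝ) (y : ℂ) : ℂ := 1 / y * (N - 1 / (y - 1))

lemma Lam_strict (N : ℝ) {y : ℂ} (hy : y ∈ Dm) : HasStrictDerivAt (Lam N) (dLam N y) y := by
  have h0 := ne_zero_of_Dm hy
  have h1 := sub_one_ne hy
  have hl : HasStrictDerivAt Complex.log y⁻¹ y := Complex.hasStrictDerivAt_log (slit_of_Dm hy)
  have hi : HasStrictDerivAt (fun y : ℂ => 1 - 1 / y) (1 / y ^ 2) y := by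
    have := (hasStrictDerivAt_inv h0).const_sub (1 : ℂ)
    refine (this.congr_deriv ?_).congr_of_eventuallyEq ?_
    · field_simp
    · filter_upwards with x; rw [one_div]
  have hl2 : HasStrictDerivAt (fun y : ℂ => Complex.log (1 - 1 / y)) ((1 / y ^ 2) / (1 - 1 / y)) y :=
    hi.clog (one_sub_slit hy)
  have := (hl.const_mul (N : ℂ)).sub hl2
  refine this.congr_deriv ?_
  have h2 : (1 : ℂ) - 1 / y ≠ 0 := by
    intro h
    apply h1
    have e0 : y - 1 = y * (1 - 1 / y) := by field_simp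
    rw [e0, h, mul_zero]
  unfold dLam
  have e : (1 : ℂ) / y ^ 2 / (1 - 1 / y) = 1 / (y * (y - 1)) := by
    field_simp
  rw [e]
  field_simp

lemma Lam_deriv (N : ℝ) {y : ℂ} (hy : y ∈ Dm) : HasDerivAt (Lam N) (dLam N y) y :=
  (Lam_strict N hy).hasDerivAt

lemma Lam_cont (N : ℝ) {y : ℂ} (hy : y ∈ Dm) : ContinuousAt (Lam N) y :=
  (Lam_deriv N hy).continuousAt

lemma dLam_ne {N : ℝ} {y : ℂ} (hy : y.im ≠ 0) : dLam N y ≠ 0 := by
  have hD : y ∈ Dm := Or.inr hy
  have h0 := ne_zero_of_Dm hD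
  have h1 := sub_one_ne hD
  unfold dLam
  intro h
  rcases mul_eq_zero.1 h with h | h
  · exact h0 (by simpa using h)
  · have h3 : (N : ℂ) * (y - 1) = 1 := by
      field_simp at h
      linear_combination h
    have h4 := congrArg Complex.im h3
    simp at h4
    rcases h4 with h4 | h4
    · rw [h4] at h3; simp at h3
    · exact hy h4

lemma dLam_real {N c : ℝ} : dLam N (c : ℂ) = ((1 / c * (N - 1 / (c - 1)) : ℝ) : ℂ) := by
  unfold dLam; push_cast; ring

lemma dLam_pos {N c : ℝ} (hN : 0 < N) (hc : nf N < c) : 0 < 1 / c * (N - 1 / (c - 1)) := by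
  have h1 : 1 / N < c - 1 := by unfold nf at hc; linarith
  have h2 : 0 < c - 1 := lt_trans (by positivity) h1
  have h3 : 1 / (c - 1) < N := by
    rw [div_lt_iff₀ h2]
    rw [div_lt_iff₀ hN] at h1
    linarith [mul_comm N (c - 1)]
  have h4 : 0 < c := by linarith
  have : 0 < 1 / c := by positivity
  exact mul_pos this (by linarith)

lemma dLam_neg {N c : ℝ} (hN : 0 < N) (h1c : 1 < c) (hc : c < nf N) :
    1 / c * (N - 1 / (c - 1)) < 0 := by
  have h1 : c - 1 < 1 / N := by unfold nf at hc; linarith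
  have h2 : 0 < c - 1 := by linarith
  have h3 : N < 1 / (c - 1) := by
    rw [lt_div_iff₀ h2]
    rw [lt_div_iff₀ hN] at h1
    linarith [mul_comm N (c - 1)]
  have h4 : 0 < c := by linarith
  have : 0 < 1 / c := by positivity
  exact mul_neg_of_pos_of_neg this (by linarith)

/-- conjugation -/
lemma Lam_conj (N : ℝ) {y : ℂ} (hy : y ∈ Dm) :
    Lam N ((starRingEnd ℂ) y) = (starRingEnd ℂ) (Lam N y) := by
  unfold Lam
  have h1 : Complex.log ((starRingEnd ℂ) y) = (starRingEnd ℂ) (Complex.log y) :=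
    Complex.log_conj y (Complex.slitPlane_arg_ne_pi (slit_of_Dm hy))
  have h2 : Complex.log ((starRingEnd ℂ) (1 - 1 / y)) = (starRingEnd ℂ) (Complex.log (1 - 1 / y)) :=
    Complex.log_conj _ (Complex.slitPlane_arg_ne_pi (one_sub_slit hy))
  have h3 : (starRingEnd ℂ) (1 - 1 / y) = 1 - 1 / (starRingEnd ℂ) y := by
    simp
  rw [h1, ← h3, h2]
  simp

/-- imaginary part -/
lemma Lam_im (N : ℝ) (y : ℂ) : (Lam N y).im = N * y.arg - (1 - 1 / y).arg := by
  unfold Lam
  rw [Complex.sub_im, Complex.im_ofReal_mul, Complex.log_im, Complex.log_im]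

/-- real part -/
lemma Lam_re (N : ℝ) (y : ℂ) :
    (Lam N y).re = N * Real.log ‖y‖ - Real.log ‖1 - 1 / y‖ := by
  unfold Lam
  rw [Complex.sub_re, Complex.re_ofReal_mul, Complex.log_re, Complex.log_re]

lemma arg_pos {z : ℂ} (hz : 0 < z.im) : 0 < z.arg ∧ z.arg < Real.pi := by
  constructor
  · have h1 : 0 ≤ z.arg := Complex.arg_nonneg_iff.2 hz.le
    rcases h1.lt_or_eq with h | h
    · exact h
    · exfalso
      have := Complex.arg_eq_zero_iff.1 h.symm
      linarith [this.2]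
  · have h1 : z.arg ≤ Real.pi := Complex.arg_le_pi z
    rcases h1.lt_or_eq with h | h
    · exact h
    · exfalso
      have := Complex.arg_eq_pi_iff.1 h
      linarith [this.2]

lemma arg_neg' {z : ℂ} (hz : z.im < 0) : -Real.pi < z.arg ∧ z.arg < 0 :=
  ⟨Complex.neg_pi_lt_arg z, Complex.arg_neg_iff.2 hz⟩

lemma im_UH {N : ℝ} (hN : 0 < N) {y : ℂ} (hy : y ∈ UH) :
    -Real.pi < (Lam N y).im ∧ (Lam N y).im < N * Real.pi := by
  have h0 : 0 < normSq y := Complex.normSq_pos.2 (ne_zero_of_Dm (UH_sub hy))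
  have hy' : 0 < y.im := hy
  have h1 := arg_pos hy'
  have h2 : 0 < (1 - 1 / y).im := by rw [one_sub_im]; positivity
  have h3 := arg_pos h2
  rw [Lam_im]
  have h4 : 0 < N * y.arg := mul_pos hN h1.1
  have h5 : N * y.arg < N * Real.pi := mul_lt_mul_of_pos_left h1.2 hN
  constructor <;> linarith [h3.1, h3.2]

lemma im_LH {N : ℝ} (hN : 0 < N) {y : ℂ} (hy : y ∈ LH) :
    -(N * Real.pi) < (Lam N y).im ∧ (Lam N y).im < Real.pi := by
  have h1 := im_UH hN (star_UH hy)
  rw [Lam_conj N (LH_sub hy), Complex.conj_im] at h1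
  constructor <;> linarith [h1.1, h1.2]

/-- lower bound of the real part -/
lemma norm_le_of_re {N : ℝ} (hN : 0 < N) {y : ℂ} {C : ℝ} (hC : (Lam N y).re ≤ C) :
    ‖y‖ ≤ max 1 (Real.exp ((C + Real.log 2) / N)) := by
  by_cases h : ‖y‖ ≤ 1
  · exact le_max_of_le_left h
  · push Not at h
    apply le_max_of_le_right
    have hpos : 0 < ‖y‖ := by linarith
    rw [Lam_re] at hC
    have h1 : ‖(1 : ℂ) - 1 / y‖ ≤ 2 := by
      calc ‖(1 : ℂ) - 1 / y‖ ≤ ‖(1 : ℂ)‖ + ‖1 / y‖ := norm_sub_le _ _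
        _ ≤ 1 + 1 := by
          rw [norm_one, norm_div, norm_one]
          have : 1 / ‖y‖ ≤ 1 := by
            rw [div_le_one hpos]; exact h.le
          linarith
        _ = 2 := by norm_num
    have h2 : Real.log ‖(1 : ℂ) - 1 / y‖ ≤ Real.log 2 := by
      rcases (norm_nonneg ((1 : ℂ) - 1 / y)).lt_or_eq with h3 | h3
      · exact Real.log_le_log h3 h1
      · rw [← h3, Real.log_zero]
        exact Real.log_nonneg (by norm_num)
    have h3 : Real.log ‖y‖ ≤ (C + Real.log 2) / N := by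
      rw [le_div_iff₀ hN]
      linarith [mul_comm N (Real.log ‖y‖)]
    calc ‖y‖ = Real.exp (Real.log ‖y‖) := (Real.exp_log hpos).symm
      _ ≤ _ := Real.exp_le_exp.2 h3

/-! ### injectivity -/

/-- a function with `Im f' < 0` on a convex set is injective -/
lemma injOn_of_im_neg {U : Set ℂ} (hU : Convex ℝ U) {f f' : ℂ → ℂ}
    (hf : ∀ z ∈ U, HasDerivAt f (f' z) z) (him : ∀ z ∈ U, (f' z).im < 0) : InjOn f U := by
  intro z hz w hw h
  by_contra hne
  have hd : w - z ≠ 0 := sub_ne_zero.2 (Ne.symm hne)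
  set p : ℝ → ℂ := fun t => z + (t : ℂ) * (w - z) with hp
  have hpU : ∀ t ∈ Icc (0 : ℝ) 1, p t ∈ U := by
    intro t ht
    have := hU hz hw (sub_nonneg.2 ht.2) ht.1 (by ring)
    convert this using 1
    simp only [hp, real_smul]
    push_cast
    ring
  have hpd : ∀ t : ℝ, HasDerivAt p (w - z) t := by
    intro t
    have h1 : HasDerivAt (fun t : ℝ => (t : ℂ)) 1 t := Complex.ofRealCLM.hasDerivAt
    have h2 := (h1.mul_const (w - z)).const_add z
    simpa [hp] using h2
  set φ : ℝ → ℝ := fun t => (f (p t) / (w - z)).im with hφ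
  have hφd : ∀ t ∈ Icc (0 : ℝ) 1, HasDerivAt φ ((f' (p t)).im) t := by
    intro t ht
    have h1 : HasDerivAt (fun t => f (p t)) (f' (p t) * (w - z)) t :=
      (hf _ (hpU t ht)).comp t (hpd t)
    have h2 := h1.div_const (w - z)
    have e : f' (p t) * (w - z) / (w - z) = f' (p t) := by field_simp
    rw [e] at h2
    exact (Complex.imCLM.hasFDerivAt.comp_hasDerivAt t h2)
  obtain ⟨c, hc, hc'⟩ := exists_hasDerivAt_eq_slope φ (fun t => (f' (p t)).im) (zero_lt_one' ℝ)
    (fun t ht => (hφd t ht).continuousAt.continuousWithinAt)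
    (fun t ht => hφd t ⟨ht.1.le, ht.2.le⟩)
  have h4 := him _ (hpU c ⟨hc.1.le, hc.2.le⟩)
  have h5 : φ 1 = φ 0 := by
    simp only [hφ, hp]
    simp [h]
  rw [h5] at hc'
  simp at hc'
  linarith

lemma inj_UH' {N : ℝ} (hN : 0 < N) :
    InjOn (fun u : ℂ => (N : ℂ) * Complex.log u + Complex.log (1 - u)) UH := by
  refine injOn_of_im_neg convex_UH (f' := fun u => N * u⁻¹ + (-1) / (1 - u)) ?_ ?_
  · intro u hu
    have hu' : 0 < u.im := hu
    have h1 : u ∈ slitPlane := by rw [Complex.mem_slitPlane_iff]; right; exact hu'.ne'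
    have h2 : 1 - u ∈ slitPlane := by
      rw [Complex.mem_slitPlane_iff]; right; simp; exact hu'.ne'
    have h3 : HasDerivAt (fun u : ℂ => 1 - u) (-1) u := by
      simpa using (hasDerivAt_id u).const_sub (1 : ℂ)
    exact ((Complex.hasDerivAt_log h1).const_mul (N : ℂ)).add (h3.clog h2)
  · intro u hu
    have hu' : 0 < u.im := hu
    have h0 : 0 < normSq u := Complex.normSq_pos.2 (by rintro rfl; simp at hu')
    have h1 : 0 < normSq (1 - u) := Complex.normSq_pos.2 (by
      intro h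
      have := congrArg Complex.im h
      simp at this
      linarith)
    have e1 : ((N : ℂ) * u⁻¹).im = -(N * (u.im / normSq u)) := by
      rw [Complex.im_ofReal_mul, Complex.inv_im]; ring
    have e2 : ((-1 : ℂ) / (1 - u)).im = -(u.im / normSq (1 - u)) := by
      rw [neg_div, Complex.neg_im, one_div, Complex.inv_im]
      simp
    rw [Complex.add_im, e1, e2]
    have : 0 < N * (u.im / normSq u) := by positivity
    have : 0 < u.im / normSq (1 - u) := by positivity
    linarith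

/-- `Lam` is injective on the lower half plane -/
lemma inj_LH {N : ℝ} (hN : 0 < N) : InjOn (Lam N) LH := by
  have key : ∀ y ∈ LH, Lam N y = -((N : ℂ) * Complex.log (1 / y) + Complex.log (1 - 1 / y)) := by
    intro y hy
    have : Complex.log (1 / y) = -Complex.log y := by
      rw [one_div]
      exact Complex.log_inv _ (Complex.slitPlane_arg_ne_pi (slit_of_Dm (LH_sub hy)))
    rw [this]; unfold Lam; ring
  intro y hy z hz h
  rw [key y hy, key z hz, neg_inj] at h
  have hU : ∀ y ∈ LH, 1 / y ∈ UH := by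
    intro y hy
    have hy' : y.im < 0 := hy
    have h0 : 0 < normSq y := Complex.normSq_pos.2 (ne_zero_of_Dm (LH_sub hy))
    show 0 < (1 / y).im
    rw [inv_im']
    have : 0 < -y.im := by linarith
    positivity
  have h1 := inj_UH' hN (hU y hy) (hU z hz) h
  rw [one_div, one_div] at h1
  exact inv_injective h1

lemma inj_UH {N : ℝ} (hN : 0 < N) : InjOn (Lam N) UH := by
  intro y hy z hz h
  have h1 : Lam N ((starRingEnd ℂ) y) = Lam N ((starRingEnd ℂ) z) := by
    rw [Lam_conj N (UH_sub hy), Lam_conj N (UH_sub hz), h]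
  have h2 := inj_LH hN (star_LH hy) (star_LH hz) h1
  exact (starRingEnd ℂ).injective h2

/-- no real value `Lam c`, `c > 1`, is taken on the lower half plane -/
lemma no_real_LH {N : ℝ} (hN : 0 < N) {y : ℂ} (hy : y ∈ LH) {c : ℝ} (hc : 1 < c) :
    Lam N y ≠ Lam N (c : ℂ) := by
  intro h
  have hyim : y.im < 0 := hy
  have hcD : (c : ℂ) ∈ Dm := Or.inl (by simpa using hc)
  set δ : ℝ := -y.im / 2 with hδ
  have hδ0 : 0 < δ := by rw [hδ]; linarith
  have hV : Metric.ball y δ ∈ 𝓝 y := Metric.ball_mem_nhds y hδ0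
  have hVL : ∀ v ∈ Metric.ball y δ, v.im < -δ := by
    intro v hv
    rw [Metric.mem_ball, dist_eq_norm] at hv
    have h1 := (abs_lt.1 (lt_of_le_of_lt (Complex.abs_im_le_norm (v - y)) hv)).2
    rw [Complex.sub_im] at h1
    have : y.im = -2 * δ := by rw [hδ]; ring
    linarith
  have himg : Lam N '' Metric.ball y δ ∈ 𝓝 (Lam N y) := by
    rw [← (Lam_strict N (LH_sub hy)).map_nhds_eq (dLam_ne hyim.ne)]
    exact image_mem_map hV
  rw [h] at himg
  have ht : Tendsto (Lam N) (𝓝[LH] (c : ℂ)) (𝓝 (Lam N c)) :=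
    (Lam_cont N hcD).tendsto.mono_left nhdsWithin_le_nhds
  have hne : (𝓝[LH] (c : ℂ)).NeBot := by
    rw [← mem_closure_iff_nhdsWithin_neBot]
    have : closure LH = {s : ℂ | s.im ≤ 0} := by
      have := Complex.closure_preimage_im (Iio 0)
      rw [closure_Iio] at this
      exact this
    rw [this]; simp
  have hW : {z : ℂ | -δ < z.im} ∈ 𝓝[LH] (c : ℂ) := by
    apply mem_nhdsWithin_of_mem_nhds
    apply (isOpen_lt continuous_const Complex.continuous_im).mem_nhds
    simp [hδ0]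
  obtain ⟨z, ⟨⟨v, hv, hvz⟩, hzW⟩, hzL⟩ :=
    ((ht.eventually_mem himg).and hW |>.and self_mem_nhdsWithin).exists
  have h1 := hVL v hv
  have hvL : v ∈ LH := by show v.im < 0; linarith
  have h2 := inj_LH hN hvL hzL hvz
  rw [h2] at h1
  have : -δ < z.im := hzW
  linarith

lemma no_real_UH {N : ℝ} (hN : 0 < N) {y : ℂ} (hy : y ∈ UH) {c : ℝ} (hc : 1 < c) :
    Lam N y ≠ Lam N (c : ℂ) := by
  intro h
  apply no_real_LH hN (star_LH hy) hc
  have hcD : (c : ℂ) ∈ Dm := Or.inl (by simpa using hc)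
  have h1 := Lam_conj N hcD
  rw [Complex.conj_ofReal] at h1
  rw [Lam_conj N (UH_sub hy), h, ← h1]

/-! ### signs near real points -/

/-- sign lemma -/
lemma im_pos_near {f : ℂ → ℂ} {c d : ℝ} (hf : HasStrictDerivAt f (d : ℂ) (c : ℂ)) (hd : 0 < d)
    (hr : ∀ᶠ x : ℝ in 𝓝 c, (f x).im = 0) :
    ∀ᶠ z in 𝓝 (c : ℂ), (0 < z.im → 0 < (f z).im) ∧ (z.im < 0 → (f z).im < 0) := by
  have h1 := (hf.isLittleO.bound (c := d / 2) (by positivity))
  have h2 : Tendsto (fun z : ℂ => (z, ((z.re : ℝ) : ℂ))) (𝓝 (c : ℂ)) (𝓝 ((c : ℂ), (c : ℂ))) := by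
    have : ContinuousAt (fun z : ℂ => (z, ((z.re : ℝ) : ℂ))) (c : ℂ) := by fun_prop
    simpa using this.tendsto
  have h3 : Tendsto (fun z : ℂ => z.re) (𝓝 (c : ℂ)) (𝓝 c) := by
    have : ContinuousAt (fun z : ℂ => z.re) (c : ℂ) := by fun_prop
    simpa using this.tendsto
  filter_upwards [h2.eventually h1, h3.eventually hr] with z hz1 hz2
  have e1 : z - (z.re : ℂ) = (z.im : ℂ) * I := by apply Complex.ext <;> simp
  rw [e1] at hz1
  have e2 : ‖(z.im : ℂ) * I‖ = |z.im| := by simp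
  rw [e2] at hz1
  have h4 := (Complex.abs_im_le_norm _).trans hz1
  have e3 : (f z - f (z.re : ℂ) - (ContinuousLinearMap.toSpanSingleton ℂ (d : ℂ)) ((z.im : ℂ) * I)).im
      = (f z).im - d * z.im := by
    simp [hz2]
    ring
  rw [e3] at h4
  have h5 := abs_le.1 h4
  constructor
  · intro hp
    rw [abs_of_pos hp] at h5
    nlinarith [h5.1, mul_pos hd hp]
  · intro hp
    rw [abs_of_neg hp] at h5
    nlinarith [h5.2, mul_pos hd (neg_pos.2 hp)]

lemma Lam_real_im {N c : ℝ} (hc : 1 < c) : (Lam N (c : ℂ)).im = 0 := by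
  have hcD : (c : ℂ) ∈ Dm := Or.inl (by simpa using hc)
  have h1 := Lam_conj N hcD
  rw [Complex.conj_ofReal] at h1
  have := congrArg Complex.im h1
  rw [Complex.conj_im] at this
  linarith

lemma sign_right {N c : ℝ} (hN : 0 < N) (hc : nf N < c) :
    ∀ᶠ z in 𝓝 (c : ℂ), (0 < z.im → 0 < (Lam N z).im) ∧ (z.im < 0 → (Lam N z).im < 0) := by
  have h1 : 1 < c := by
    have : 0 < 1 / N := by positivity
    unfold nf at hc; linarith
  have hcD : (c : ℂ) ∈ Dm := Or.inl (by simpa using h1)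
  have h := Lam_strict N hcD
  rw [dLam_real] at h
  exact im_pos_near h (dLam_pos hN hc) ((lt_mem_nhds h1).mono fun x hx => Lam_real_im hx)

lemma sign_left {N c : ℝ} (hN : 0 < N) (h1c : 1 < c) (hc : c < nf N) :
    ∀ᶠ z in 𝓝 (c : ℂ), (0 < z.im → (Lam N z).im < 0) ∧ (z.im < 0 → 0 < (Lam N z).im) := by
  have hcD : (c : ℂ) ∈ Dm := Or.inl (by simpa using h1c)
  have h := (Lam_strict N hcD).neg
  rw [dLam_real, ← Complex.ofReal_neg] at h
  have h2 := im_pos_near h (by linarith [dLam_neg hN h1c hc])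
    ((lt_mem_nhds h1c).mono fun x hx => by simp [Lam_real_im hx])
  filter_upwards [h2] with z hz
  simp only [Pi.neg_apply, Complex.neg_im] at hz
  exact ⟨fun h => by linarith [hz.1 h], fun h => by linarith [hz.2 h]⟩

end Crest.Agent.R102.Flat348
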