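import Crest.Agent.R102.PickExt_348

/-!
# Row 102, part (C), item [d]: from a germ at `0` to `GInf` (helper348)
-/

open Complex Set Filter Topology

noncomputable section

namespace Crest.Agent.R102.PickExt348

/-- the germ `F`, odd, real, `F'(0) = g > 0`, gives the facts at infinity for `G(s) = F(1/s)` -/
theorem ginf_of_germ {D : Set ℂ} {Φ F : ℂ → ℂ} {g : ℝ}
    (hD : ∃ ε > 0, ∀ a : ℂ, ‖a‖ < ε → a.im < 0 → a ∈ D)
    (an : AnalyticAt ℂ F 0) (odd : ∀ᶠ t in 𝓝 (0 : ℂ), F (-t) = -F t)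
    (real : ∀ᶠ t in 𝓝 (0 : ℂ), F ((starRingEnd ℂ) t) = (starRingEnd ℂ) (F t))
    (hg : 0 < g) (hd : deriv F 0 = (g : ℂ))
    (eq : ∀ᶠ t in 𝓝 (0 : ℂ), F t ∈ D → F (t / (1 + t)) ∈ D → Φ (F t) = Ps Φ (F (t / (1 + t)))) :
    ∃ ρ : ℝ, 1 ≤ ρ ∧ GInf D Φ ρ (fun s => F (1 / s)) ∧
      (∀ x : ℝ, ρ < x → 0 < (F (1 / (x : ℂ))).re ∧ (F (1 / (x : ℂ))).im = 0) ∧
      ∃ η > 0, ∀ a : ℝ, 0 < a → a < η → ∃ x : ℝ, ρ < x ∧ F (1 / (x : ℂ)) = (a : ℂ) := by
  obtain ⟨ε, hε, hDε⟩ := hD
  have hF0 : F 0 = 0 := by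
    have h := odd.self_of_nhds
    rw [neg_zero] at h
    have h2 : (2 : ℂ) * F 0 = 0 := by linear_combination h
    simpa using h2
  have hanE : ∀ᶠ t in 𝓝 (0 : ℂ), AnalyticAt ℂ F t := an.eventually_analyticAt
  have hdan : AnalyticAt ℂ (deriv F) 0 := an.deriv
  have h1 : ∀ᶠ t in 𝓝 (0 : ℂ), ‖deriv F t - g‖ < g / 2 := by
    have hc : ContinuousAt (fun t => ‖deriv F t - g‖) 0 :=
      (hdan.continuousAt.sub continuousAt_const).norm
    have h0 : ‖deriv F 0 - g‖ < g / 2 := by
      rw [hd]; simp; positivity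
    exact hc.tendsto.eventually_lt_const h0
  have h2 : ∀ᶠ t in 𝓝 (0 : ℂ), ‖F t‖ < ε := by
    have hc : ContinuousAt (fun t => ‖F t‖) 0 := an.continuousAt.norm
    have h0 : ‖F 0‖ < ε := by
      rw [hF0]; simpa using hε
    exact hc.tendsto.eventually_lt_const h0
  obtain ⟨r0, hr0, hball⟩ := Metric.eventually_nhds_iff_ball.1
    (hanE.and (odd.and (real.and (eq.and (h1.and h2)))))
  set r : ℝ := min r0 1 with hr
  have hrpos : 0 < r := lt_min hr0 one_pos
  have hr1 : r ≤ 1 := min_le_right _ _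
  have hrr0 : r ≤ r0 := min_le_left _ _
  have hsub : ∀ t : ℂ, ‖t‖ < r → t ∈ Metric.ball (0 : ℂ) r0 := by
    intro t ht
    rw [mem_ball_zero_iff]
    exact lt_of_lt_of_le ht hrr0
  have An : ∀ t : ℂ, ‖t‖ < r → AnalyticAt ℂ F t := fun t ht => (hball t (hsub t ht)).1
  have Od : ∀ t : ℂ, ‖t‖ < r → F (-t) = -F t := fun t ht => (hball t (hsub t ht)).2.1
  have Re : ∀ t : ℂ, ‖t‖ < r → F ((starRingEnd ℂ) t) = (starRingEnd ℂ) (F t) :=
    fun t ht => (hball t (hsub t ht)).2.2.1
  have Eq := fun (t : ℂ) (ht : ‖t‖ < r) => (hball t (hsub t ht)).2.2.2.1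
  have B1 : ∀ t : ℂ, ‖t‖ < r → ‖deriv F t - g‖ < g / 2 :=
    fun t ht => (hball t (hsub t ht)).2.2.2.2.1
  have B2 : ∀ t : ℂ, ‖t‖ < r → ‖F t‖ < ε :=
    fun t ht => (hball t (hsub t ht)).2.2.2.2.2
  -- Lipschitz estimate
  have Lip : ∀ t t' : ℂ, ‖t‖ < r → ‖t'‖ < r →
      ‖(F t' - g * t') - (F t - g * t)‖ ≤ g / 2 * ‖t' - t‖ := by
    intro t t' ht ht'
    refine Convex.norm_image_sub_le_of_norm_deriv_le (𝕜 := ℂ) (f := fun t => F t - g * t)
      (s := Metric.ball (0 : ℂ) r) ?_ ?_ (convex_ball _ _) (by simpa using ht) (by simpa using ht')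
    · intro x hx
      rw [mem_ball_zero_iff] at hx
      exact (An x hx).differentiableAt.sub ((differentiableAt_const _).mul differentiableAt_id)
    · intro x hx
      rw [mem_ball_zero_iff] at hx
      have hdx : HasDerivAt (fun t => F t - g * t) (deriv F x - g * 1) x :=
        (An x hx).differentiableAt.hasDerivAt.sub ((hasDerivAt_id x).const_mul (g : ℂ))
      rw [hdx.deriv, mul_one]
      exact (B1 x hx).le
  -- real values
  have hreal : ∀ x : ℝ, |x| < r → (F (x : ℂ)).im = 0 := by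
    intro x hx
    have h := Re (x : ℂ) (by rw [Complex.norm_real]; exact hx)
    rw [Complex.conj_ofReal] at h
    have := congrArg Complex.im h
    rw [Complex.conj_im] at this
    linarith
  -- imaginary values
  have himag : ∀ y : ℝ, |y| < r → (F ((y : ℂ) * I)).re = 0 := by
    intro y hy
    have hn : ‖(y : ℂ) * I‖ < r := by simpa using hy
    have h := Re ((y : ℂ) * I) hn
    have e : (starRingEnd ℂ) ((y : ℂ) * I) = -((y : ℂ) * I) := by simp
    rw [e, Od _ hn] at h
    have := congrArg Complex.re h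
    rw [Complex.conj_re, Complex.neg_re] at this
    linarith
  -- sign of the imaginary part
  have hIm : ∀ t : ℂ, ‖t‖ < r → t.im < 0 → (F t).im < 0 := by
    intro t ht him
    have hre : ‖((t.re : ℝ) : ℂ)‖ < r := by
      rw [Complex.norm_real]
      exact lt_of_le_of_lt (Complex.abs_re_le_norm t) ht
    have hFre := hreal t.re (by rwa [Complex.norm_real] at hre)
    have hL := Lip (t.re : ℂ) t hre ht
    have hdiff : t - (t.re : ℂ) = (t.im : ℂ) * I := by
      apply Complex.ext <;> simp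
    have hn : ‖t - (t.re : ℂ)‖ = -t.im := by
      rw [hdiff, norm_mul, Complex.norm_I, mul_one, Complex.norm_real, Real.norm_eq_abs,
        abs_of_neg him]
    rw [hn] at hL
    have him2 := (Complex.abs_im_le_norm ((F t - g * t) - (F (t.re : ℂ) - g * (t.re : ℂ)))).trans hL
    have him3 : ((F t - g * t) - (F (t.re : ℂ) - g * (t.re : ℂ))).im = (F t).im - g * t.im := by
      simp [hFre]
    rw [him3] at him2
    have := (abs_le.1 him2).2
    nlinarith [mul_pos hg (neg_pos.2 him)]
  have hRe : ∀ t : ℂ, ‖t‖ < r → 0 < t.re → 0 < (F t).re := by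
    intro t ht hre
    have him : |t.im| < r := lt_of_le_of_lt (Complex.abs_im_le_norm t) ht
    have hFim := himag t.im him
    have hL := Lip ((t.im : ℂ) * I) t (by simpa using him) ht
    have hdiff : t - (t.im : ℂ) * I = (t.re : ℂ) := by
      apply Complex.ext <;> simp
    have hn : ‖t - (t.im : ℂ) * I‖ = t.re := by
      rw [hdiff, Complex.norm_real, Real.norm_eq_abs, abs_of_pos hre]
    rw [hn] at hL
    have h2 := (Complex.abs_re_le_norm
      ((F t - g * t) - (F ((t.im : ℂ) * I) - g * ((t.im : ℂ) * I)))).trans hL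
    have h3 : ((F t - g * t) - (F ((t.im : ℂ) * I) - g * ((t.im : ℂ) * I))).re
        = (F t).re - g * t.re := by
      simp [hFim]
    rw [h3] at h2
    have := (abs_le.1 h2).1
    nlinarith [mul_pos hg hre]
  -- inverse
  have inv_lt : ∀ s : ℂ, 1 / r < ‖s‖ → ‖1 / s‖ < r ∧ s ≠ 0 := by
    intro s hs
    have hpos : 0 < ‖s‖ := lt_trans (by positivity) hs
    refine ⟨?_, norm_pos_iff.1 hpos⟩
    rw [norm_div, norm_one, div_lt_iff₀ hpos]
    rw [div_lt_iff₀ hrpos] at hs
    linarith [mul_comm r ‖s‖]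
  have hρ1 : 1 ≤ 1 / r := by
    rw [le_div_iff₀ hrpos]; linarith
  have him_inv : ∀ s : ℂ, s ≠ 0 → 0 < s.im → (1 / s).im < 0 := by
    intro s hs0 him
    rw [one_div, Complex.inv_im]
    have : 0 < Complex.normSq s := Complex.normSq_pos.2 hs0
    rw [neg_div]
    have : 0 < s.im / Complex.normSq s := by positivity
    linarith
  have hre_inv : ∀ s : ℂ, s ≠ 0 → 0 < s.re → 0 < (1 / s).re := by
    intro s hs0 hre
    rw [one_div, Complex.inv_re]
    have : 0 < Complex.normSq s := Complex.normSq_pos.2 hs0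
    positivity
  have hmaps : ∀ s : ℂ, 1 / r < ‖s‖ → 0 < s.im → F (1 / s) ∈ D := by
    intro s hs him
    obtain ⟨hs1, hs0⟩ := inv_lt s hs
    exact hDε _ (B2 _ hs1) (hIm _ hs1 (him_inv s hs0 him))
  refine ⟨1 / r, hρ1, ?_, ?_, ?_⟩
  · refine
      { hρ := by linarith
        an := ?_
        sy := ?_
        maps := hmaps
        inj := ?_
        eq := ?_
        rpos := ?_ }
    · intro s hs
      obtain ⟨hs1, hs0⟩ := inv_lt s hs
      have hi : DifferentiableAt ℂ (fun s : ℂ => 1 / s) s := by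
        simp only [one_div]
        exact differentiableAt_inv hs0
      exact (DifferentiableAt.comp (g := F) s (An _ hs1).differentiableAt hi).differentiableWithinAt
    · intro s hs
      obtain ⟨hs1, hs0⟩ := inv_lt s hs
      have e : (1 : ℂ) / rf s = -(starRingEnd ℂ) (1 / s) := by
        unfold rf
        rw [map_div₀, map_one]
        field_simp
      show F (1 / rf s) = rf (F (1 / s))
      rw [e, Od _ (by rw [Complex.norm_conj]; exact hs1), Re _ hs1]
      rfl
    · intro s hs s' hs' h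
      obtain ⟨hs1, hs0⟩ := inv_lt s hs
      obtain ⟨hs1', hs0'⟩ := inv_lt s' hs'
      have h' : F (1 / s) = F (1 / s') := h
      have hL := Lip (1 / s) (1 / s') hs1 hs1'
      have he : (F (1 / s') - g * (1 / s')) - (F (1 / s) - g * (1 / s)) =
          (-g : ℂ) * (1 / s' - 1 / s) := by
        rw [h']; ring
      rw [he, norm_mul, norm_neg, Complex.norm_real, Real.norm_eq_abs, abs_of_pos hg] at hL
      have h0 : ‖(1 : ℂ) / s' - 1 / s‖ ≤ 0 := by nlinarith [norm_nonneg ((1 : ℂ) / s' - 1 / s)]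
      have h00 := norm_le_zero_iff.1 h0
      have h5 : (1 : ℂ) / s' = 1 / s := by linear_combination h00
      rw [one_div, one_div] at h5
      exact (inv_injective h5).symm
    · intro s hs hs' him
      obtain ⟨hs1, hs0⟩ := inv_lt s hs
      obtain ⟨hs1', hs0'⟩ := inv_lt (s + 1) hs'
      have h := Eq _ hs1
      have e : (1 : ℂ) / s / (1 + 1 / s) = 1 / (s + 1) := by
        field_simp
      rw [e] at h
      exact h (hmaps s hs him) (hmaps (s + 1) hs' (by simpa using him))
    · intro s hs hre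
      obtain ⟨hs1, hs0⟩ := inv_lt s hs
      exact hRe _ hs1 (hre_inv s hs0 hre)
  · intro x hx
    have hx0 : 0 < x := lt_trans (by positivity) hx
    have hxn : 1 / r < ‖(x : ℂ)‖ := by
      rw [Complex.norm_real, Real.norm_eq_abs, abs_of_pos hx0]; exact hx
    obtain ⟨hs1, hs0⟩ := inv_lt _ hxn
    refine ⟨hRe _ hs1 (hre_inv _ hs0 (by simpa using hx0)), ?_⟩
    have e : (1 : ℂ) / (x : ℂ) = ((1 / x : ℝ) : ℂ) := by push_cast; ring
    rw [e]
    apply hreal
    rw [e, Complex.norm_real] at hs1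
    exact hs1
  · -- surjectivity onto small positive reals
    set t0 : ℝ := r / 2 with ht0
    have ht0pos : 0 < t0 := by positivity
    have ht0r : t0 < r := by rw [ht0]; linarith
    have hcont : ContinuousOn (fun t : ℝ => (F (t : ℂ)).re) (Icc 0 t0) := by
      intro t ht
      have hn : ‖(t : ℂ)‖ < r := by
        rw [Complex.norm_real, Real.norm_eq_abs, abs_of_nonneg ht.1]; linarith [ht.2]
      have h1 : ContinuousAt (fun t : ℝ => F (t : ℂ)) t :=
        ContinuousAt.comp (g := F) (f := fun t : ℝ => (t : ℂ)) (An _ hn).continuousAt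
          Complex.continuous_ofReal.continuousAt
      exact (Complex.continuous_re.continuousAt.comp h1).continuousWithinAt
    have hη : 0 < (F (t0 : ℂ)).re := hRe _ (by
      rw [Complex.norm_real, Real.norm_eq_abs, abs_of_pos ht0pos]; exact ht0r) (by simpa using ht0pos)
    refine ⟨(F (t0 : ℂ)).re, hη, fun a ha ha' => ?_⟩
    have h0 : (F ((0 : ℝ) : ℂ)).re = 0 := by simp [hF0]
    have hiv := intermediate_value_Icc ht0pos.le hcont
    obtain ⟨t, ht, hta⟩ := hiv ⟨by simp only [h0]; exact ha.le, ha'.le⟩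
    have hta' : (F (t : ℂ)).re = a := hta
    have htpos : 0 < t := by
      rcases ht.1.lt_or_eq with h | h
      · exact h
      · exfalso
        rw [← h, h0] at hta'
        linarith
    refine ⟨1 / t, ?_, ?_⟩
    · rw [div_lt_div_iff₀ hrpos htpos]
      linarith [ht.2]
    · have e : (1 : ℂ) / ((1 / t : ℝ) : ℂ) = (t : ℂ) := by
        push_cast; field_simp
      rw [e]
      apply Complex.ext
      · rw [hta', Complex.ofReal_re]
      · rw [Complex.ofReal_im]
        exact hreal t (by rw [abs_of_pos htpos]; linarith [ht.2])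

end Crest.Agent.R102.PickExt348
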