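import Crest.Agent.R102.Flat1_348
import Crest.Agent.R102.PickGerm_348

/-!
# Row 102, part (C), item [d]: the FLAT end is not embeddable (helper348), part 2
-/

open Complex Set Filter Topology

noncomputable section

namespace Crest.Agent.R102.Flat348

open Crest.Agent.R102.PickExt348

variable {N : ℝ}

/-- `Φ(a) = Λ(n + a)` -/
def Ph (N : ℝ) (a : ℂ) : ℂ := Lam N ((nf N : ℂ) + a)

lemma nf_gt (hN : 0 < N) : 1 < nf N := by
  unfold nf
  have : 0 < 1 / N := by positivity
  linarith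

lemma Ps_Ph {a : ℂ} (ha : (nf N : ℂ) - a ∈ Dm) : Ps (Ph N) a = Lam N ((nf N : ℂ) - a) := by
  have e : (nf N : ℂ) + rf a = (starRingEnd ℂ) ((nf N : ℂ) - a) := by
    unfold rf
    rw [map_sub, Complex.conj_ofReal]; ring
  show (starRingEnd ℂ) (Lam N ((nf N : ℂ) + rf a)) = _
  rw [e, Lam_conj N ha, Complex.conj_conj]

lemma add_LH {x : ℝ} {a : ℂ} (ha : a ∈ LH) : (x : ℂ) + a ∈ LH := by
  have : a.im < 0 := ha
  show ((x : ℂ) + a).im < 0
  simpa using this

lemma sub_UH {x : ℝ} {a : ℂ} (ha : a ∈ LH) : (x : ℂ) - a ∈ UH := by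
  have : a.im < 0 := ha
  show 0 < ((x : ℂ) - a).im
  simpa using this

lemma sys (hN : 0 < N) : Sys LH (Ph N) (fun a => dLam N ((nf N : ℂ) + a)) := by
  refine
    { op := isOpen_LH
      sy := ?_
      dr := ?_
      nz := ?_
      inj := ?_
      prop := ?_ }
  · intro a ha
    show (rf a).im < 0
    rw [rf_im]; exact ha
  · intro a ha
    have h1 := Lam_strict N (LH_sub (add_LH (x := nf N) ha))
    have h2 : HasStrictDerivAt (fun a : ℂ => (nf N : ℂ) + a) 1 a :=
      (hasStrictDerivAt_id a).const_add (nf N : ℂ)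
    have h3 := h1.comp a h2
    rw [mul_one] at h3
    exact h3
  · intro a ha
    exact dLam_ne (ne_of_lt (add_LH (x := nf N) ha))
  · intro a ha b hb h
    have := inj_LH hN (add_LH (x := nf N) ha) (add_LH (x := nf N) hb) h
    exact add_left_cancel this
  · intro a' ha' a ha hlim
    have hU := sub_UH (x := nf N) ha'
    rw [Ps_Ph (UH_sub hU)] at hlim ⊢
    set w := Lam N ((nf N : ℂ) - a') with hw
    -- boundedness
    have hre : Tendsto (fun j => (Ph N (a j)).re) atTop (𝓝 w.re) :=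
      (Complex.continuous_re.tendsto w).comp hlim
    have hev : ∀ᶠ j in atTop, (Ph N (a j)).re ≤ w.re + 1 :=
      (hre.eventually_lt_const (by linarith : w.re < w.re + 1)).mono fun j hj => hj.le
    set R : ℝ := max 1 (Real.exp ((w.re + 1 + Real.log 2) / N)) + nf N with hR
    have hbd : ∀ᶠ j in atTop, a j ∈ Metric.closedBall (0 : ℂ) R := by
      filter_upwards [hev] with j hj
      have h1 := norm_le_of_re hN hj
      rw [mem_closedBall_zero_iff]
      have h2 : ‖a j‖ ≤ ‖(nf N : ℂ) + a j‖ + ‖(nf N : ℂ)‖ := by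
        have := norm_sub_le ((nf N : ℂ) + a j) (nf N : ℂ)
        simpa using this
      rw [Complex.norm_real, Real.norm_eq_abs, abs_of_pos (by linarith [nf_gt hN])] at h2
      rw [hR]; linarith
    obtain ⟨b, hb, φ, hφ, hφl⟩ := (isCompact_closedBall (0 : ℂ) R).tendsto_subseq'
      (x := a) hbd.frequently
    have hbre : 0 ≤ b.re := by
      refine ge_of_tendsto' ((Complex.continuous_re.tendsto b).comp hφl) fun j => ?_
      exact (ha (φ j)).2.le
    have hbim : b.im ≤ 0 := by
      refine le_of_tendsto' ((Complex.continuous_im.tendsto b).comp hφl) fun j => ?_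
      have : (a (φ j)).im < 0 := (ha (φ j)).1
      exact this.le
    have hbD : (nf N : ℂ) + b ∈ Dm := by
      left
      simp only [Complex.add_re, Complex.ofReal_re]
      linarith [nf_gt hN]
    have hc : Tendsto (fun j => Ph N (a (φ j))) atTop (𝓝 (Ph N b)) := by
      have h1 : ContinuousAt (Ph N) b := by
        refine ContinuousAt.comp (g := Lam N) (f := fun a : ℂ => (nf N : ℂ) + a)
          (Lam_cont N hbD) (by fun_prop)
      exact h1.tendsto.comp hφl
    have hwb : Ph N b = w := tendsto_nhds_unique hc (hlim.comp hφ.tendsto_atTop)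
    rcases hbim.lt_or_eq with h | h
    · exact ⟨b, h, hwb⟩
    · exfalso
      have hbr : b = (b.re : ℂ) := by apply Complex.ext <;> simp [h]
      have h2 : Ph N b = Lam N ((nf N + b.re : ℝ) : ℂ) := by
        unfold Ph
        conv_lhs => rw [hbr]
        push_cast; rfl
      rw [h2] at hwb
      exact no_real_UH hN hU (by linarith [nf_gt hN] : 1 < nf N + b.re) hwb.symm

/-! ### the real function -/

/-- real values of `Λ` -/
def el (N x : ℝ) : ℝ := (Lam N (x : ℂ)).re

lemma Lam_el {x : ℝ} (hx : 1 < x) : Lam N (x : ℂ) = (el N x : ℂ) := by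
  apply Complex.ext
  · rw [Complex.ofReal_re]; rfl
  · rw [Complex.ofReal_im]; exact Lam_real_im hx

lemma el_deriv {x : ℝ} (hx : 1 < x) : HasDerivAt (el N) (1 / x * (N - 1 / (x - 1))) x := by
  have hD : (x : ℂ) ∈ Dm := Or.inl (by simpa using hx)
  have h := (Lam_deriv N hD).real_of_complex
  rw [dLam_real, Complex.ofReal_re] at h
  exact h

lemma el_contOn : ContinuousOn (el N) (Ioi 1) := fun x hx =>
  (el_deriv hx).continuousAt.continuousWithinAt

lemma el_mono (hN : 0 < N) : StrictMonoOn (el N) (Ici (nf N)) := by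
  have h1 := nf_gt hN
  apply strictMonoOn_of_deriv_pos (convex_Ici _)
  · exact el_contOn.mono fun _ hx => lt_of_lt_of_le h1 hx
  · intro x hx
    rw [interior_Ici] at hx
    rw [(el_deriv (lt_trans h1 hx)).deriv]
    exact dLam_pos hN hx

lemma el_anti (hN : 0 < N) : StrictAntiOn (el N) (Ioc 1 (nf N)) := by
  apply strictAntiOn_of_deriv_neg (convex_Ioc _ _)
  · exact el_contOn.mono fun x hx => hx.1
  · intro x hx
    rw [interior_Ioc] at hx
    rw [(el_deriv hx.1).deriv]
    exact dLam_neg hN hx.1 hx.2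

/-- `ℓ(n+a) < ℓ(n-a)` -/
lemma el_lt (hN : 0 < N) {a : ℝ} (ha : 0 < a) (ha' : a < nf N - 1) :
    el N (nf N + a) < el N (nf N - a) := by
  have h1 := nf_gt hN
  have hD : ∀ x ∈ Ico (0 : ℝ) (nf N - 1), HasDerivAt (fun x => el N (nf N + x) - el N (nf N - x))
      (1 / (nf N + x) * (N - 1 / (nf N + x - 1)) + 1 / (nf N - x) * (N - 1 / (nf N - x - 1))) x := by
    intro x hx
    have e1 : HasDerivAt (fun x => nf N + x) 1 x := (hasDerivAt_id x).const_add _
    have e2 : HasDerivAt (fun x => nf N - x) (-1) x := (hasDerivAt_id x).const_sub _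
    have h2 := (el_deriv (N := N) (by linarith [hx.1] : 1 < nf N + x)).comp x e1
    have h3 := (el_deriv (N := N) (by linarith [hx.2] : 1 < nf N - x)).comp x e2
    refine (h2.sub h3).congr_deriv ?_
    ring
  have hanti : StrictAntiOn (fun x => el N (nf N + x) - el N (nf N - x)) (Ico 0 (nf N - 1)) := by
    apply strictAntiOn_of_deriv_neg (convex_Ico _ _)
    · intro x hx
      exact (hD x hx).continuousAt.continuousWithinAt
    · intro x hx
      rw [interior_Ico] at hx
      rw [(hD x ⟨hx.1.le, hx.2⟩).deriv]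
      have hx0 : 0 < x := hx.1
      have hx1 : x < nf N - 1 := hx.2
      have p1 : 0 < nf N - x - 1 := by linarith
      have p2 : 0 < nf N - x := by linarith
      have p3 : 0 < nf N + x - 1 := by linarith
      have p4 : 0 < nf N + x := by linarith
      have en : 1 = N * (nf N - 1) := by unfold nf; field_simp; ring
      have e1 : 1 / (nf N + x) * (N - 1 / (nf N + x - 1)) = N * x / ((nf N + x) * (nf N + x - 1)) := by
        field_simp
        linear_combination -en
      have e2 : 1 / (nf N - x) * (N - 1 / (nf N - x - 1)) =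
          -(N * x / ((nf N - x) * (nf N - x - 1))) := by
        field_simp
        linear_combination -en
      rw [e1, e2]
      have h5 : N * x / ((nf N + x) * (nf N + x - 1)) < N * x / ((nf N - x) * (nf N - x - 1)) := by
        apply div_lt_div_of_pos_left (by positivity) (by positivity)
        nlinarith
      linarith
  have := hanti ⟨le_refl 0, by linarith⟩ ⟨ha.le, ha'⟩ ha
  simp at this
  linarith

/-- `ℓ → ∞` at `1+` -/
lemma el_big (hN : 0 < N) (C : ℝ) : ∃ x : ℝ, 1 < x ∧ x < nf N ∧ C < el N x := by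
  have h1 := nf_gt hN
  have hform : ∀ x : ℝ, 1 < x → el N x = N * Real.log x - Real.log (1 - 1 / x) := by
    intro x hx
    have hx0 : 0 < x := by linarith
    unfold el
    rw [Lam_re]
    have e : (1 : ℂ) - 1 / (x : ℂ) = ((1 - 1 / x : ℝ) : ℂ) := by push_cast; ring
    have hp : 0 < 1 - 1 / x := by
      have : 1 / x < 1 := by rw [div_lt_one hx0]; exact hx
      linarith
    rw [e, Complex.norm_real, Complex.norm_real, Real.norm_eq_abs, Real.norm_eq_abs,
      abs_of_pos hx0, abs_of_pos hp]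
  -- `x = 1/(1-e)` with small `e`
  set e : ℝ := min (Real.exp (-(|C| + 1))) (1 - 1 / nf N) / 2 with he
  have hnn : 0 < 1 - 1 / nf N := by
    have : 1 / nf N < 1 := by rw [div_lt_one (by linarith)]; exact h1
    linarith
  have he0 : 0 < e := by
    have : 0 < min (Real.exp (-(|C| + 1))) (1 - 1 / nf N) := lt_min (Real.exp_pos _) hnn
    positivity
  have he1 : e < Real.exp (-(|C| + 1)) := by
    have := min_le_left (Real.exp (-(|C| + 1))) (1 - 1 / nf N)
    have : 0 < Real.exp (-(|C| + 1)) := Real.exp_pos _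
    rw [he]; linarith
  have he2 : e < 1 - 1 / nf N := by
    have := min_le_right (Real.exp (-(|C| + 1))) (1 - 1 / nf N)
    rw [he]; linarith
  have hnf0 : 0 < 1 / nf N := by positivity
  have he3 : 0 < 1 - e := by linarith
  refine ⟨1 / (1 - e), ?_, ?_, ?_⟩
  · rw [lt_div_iff₀ he3]; linarith
  · rw [div_lt_iff₀ he3]
    have : nf N * (1 / nf N) = 1 := by field_simp
    nlinarith
  · have hx1 : 1 < 1 / (1 - e) := by rw [lt_div_iff₀ he3]; linarith
    rw [hform _ hx1]
    have e1 : 1 - 1 / (1 / (1 - e)) = e := by field_simp; ring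
    rw [e1]
    have h2 : 0 < N * Real.log (1 / (1 - e)) := mul_pos hN (Real.log_pos hx1)
    have h3 : Real.log e < -(|C| + 1) := by
      rw [Real.log_lt_iff_lt_exp he0]; exact he1
    have := le_abs_self C
    linarith

/-- the real map `T` -/
lemma exists_T (hN : 0 < N) {a : ℝ} (ha : 0 < a) :
    ∃ b : ℝ, 0 < b ∧ b < nf N - 1 ∧ b < a ∧ el N (nf N - b) = el N (nf N + a) := by
  have h1 := nf_gt hN
  obtain ⟨x, hx1, hx2, hx3⟩ := el_big hN (el N (nf N + a))
  have hn : el N (nf N) < el N (nf N + a) :=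
    el_mono hN (mem_Ici.2 le_rfl) (mem_Ici.2 (by linarith)) (by linarith)
  have hcont : ContinuousOn (el N) (Icc x (nf N)) :=
    el_contOn.mono fun y hy => lt_of_lt_of_le hx1 hy.1
  obtain ⟨y, hy, hyv⟩ := intermediate_value_Icc' hx2.le hcont ⟨hn.le, hx3.le⟩
  have hyn : y < nf N := by
    rcases hy.2.lt_or_eq with h | h
    · exact h
    · exfalso; rw [h] at hyv; linarith
  have hy1 : 1 < y := lt_of_lt_of_le hx1 hy.1
  refine ⟨nf N - y, by linarith, by linarith, ?_, by rw [sub_sub_cancel]; exact hyv⟩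
  rcases lt_or_ge a (nf N - 1) with h | h
  · have h2 := el_lt hN ha h
    by_contra hcon
    push Not at hcon
    have h3 : y ≤ nf N - a := by linarith
    rcases h3.lt_or_eq with h4 | h4
    · have := el_anti hN ⟨hy1, hyn.le⟩ ⟨by linarith, by linarith⟩ h4
      linarith
    · rw [h4] at hyv; linarith
  · linarith

/-- iterates of `T` reach every interval `(0, η)` -/
lemma orbit (hN : 0 < N) {P : ℝ → Prop} {η : ℝ} (hη : 0 < η) (h0 : ∀ a, 0 < a → a < η → P a)
    (hs : ∀ a b : ℝ, 0 < a → 0 < b → b < nf N - 1 → el N (nf N - b) = el N (nf N + a) → P b → P a)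
    {a : ℝ} (ha : 0 < a) : P a := by
  classical
  have h1 := nf_gt hN
  choose! T hT1 hT2 hT3 hT4 using fun a : ℝ => exists_T hN (a := a)
  by_contra hPa
  have hpos : ∀ k : ℕ, 0 < T^[k] a := by
    intro k
    induction k with
    | zero => exact ha
    | succ k ih => rw [Function.iterate_succ_apply']; exact hT1 _ ih
  have hnP : ∀ k : ℕ, ¬ P (T^[k] a) := by
    intro k
    induction k with
    | zero => exact hPa
    | succ k ih =>
      rw [Function.iterate_succ_apply']
      intro h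
      exact ih (hs _ _ (hpos k) (hT1 _ (hpos k)) (hT2 _ (hpos k)) (hT4 _ (hpos k)) h)
  have hge : ∀ k : ℕ, η ≤ T^[k] a := by
    intro k
    by_contra h
    push Not at h
    exact hnP k (h0 _ (hpos k) h)
  have hanti : Antitone (fun k => T^[k] a) := by
    apply antitone_nat_of_succ_le
    intro k
    rw [Function.iterate_succ_apply']
    exact (hT3 _ (hpos k)).le
  have hbdd : BddBelow (range fun k => T^[k] a) := ⟨η, by rintro _ ⟨k, rfl⟩; exact hge k⟩
  have hlim := tendsto_atTop_ciInf hanti hbdd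
  set L := ⨅ k, T^[k] a with hL
  have hLη : η ≤ L := le_ciInf hge
  have hL0 : 0 < L := lt_of_lt_of_le hη hLη
  have hL1 : L < nf N - 1 := by
    have h2 : L ≤ T^[1] a := ciInf_le hbdd 1
    have h3 : T^[1] a < nf N - 1 := hT2 a ha
    linarith
  have hlim' : Tendsto (fun k => T^[k + 1] a) atTop (𝓝 L) :=
    (tendsto_add_atTop_iff_nat (f := fun k => T^[k] a) 1).2 hlim
  have c1 : Tendsto (fun k => el N (nf N - T^[k + 1] a)) atTop (𝓝 (el N (nf N - L))) := by
    have : ContinuousAt (fun x : ℝ => el N (nf N - x)) L := by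
      refine ContinuousAt.comp (g := el N) (f := fun x : ℝ => nf N - x) ?_ (by fun_prop)
      exact (el_deriv (by linarith)).continuousAt
    exact this.tendsto.comp hlim'
  have c2 : Tendsto (fun k => el N (nf N + T^[k] a)) atTop (𝓝 (el N (nf N + L))) := by
    have : ContinuousAt (fun x : ℝ => el N (nf N + x)) L := by
      refine ContinuousAt.comp (g := el N) (f := fun x : ℝ => nf N + x) ?_ (by fun_prop)
      exact (el_deriv (by linarith)).continuousAt
    exact this.tendsto.comp hlim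
  have c3 : Tendsto (fun k => el N (nf N - T^[k + 1] a)) atTop (𝓝 (el N (nf N + L))) := by
    refine c2.congr fun k => ?_
    rw [Function.iterate_succ_apply']
    exact (hT4 _ (hpos k)).symm
  have := tendsto_nhds_unique c1 c3
  have := el_lt hN hL0 hL1
  linarith

/-! ### boundary values -/

/-- transition of real boundary values -/
lemma bdy_step (hN : 0 < N) {g : ℂ → ℂ} (hgD : ∀ s ∈ HP 0, g s ∈ LH)
    (hfe : ∀ s ∈ HP 0, Ph N (g s) = Ps (Ph N) (g (s + 1))) {a b x : ℝ} (ha : 0 < a) (hb : 0 < b)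
    (hb1 : b < nf N - 1) (hel : el N (nf N - b) = el N (nf N + a))
    (hlim : Tendsto g (𝓝[HP 0] (x : ℂ)) (𝓝 (b : ℂ))) :
    Tendsto g (𝓝[HP 0] ((x - 1 : ℝ) : ℂ)) (𝓝 (a : ℂ)) := by
  have h1 := nf_gt hN
  have hc1 : 1 < nf N + a := by linarith
  have hc2 : 1 < nf N - b := by linarith
  have hcD : ((nf N + a : ℝ) : ℂ) ∈ Dm := Or.inl (by simpa using hc1)
  have hcD2 : ((nf N - b : ℝ) : ℂ) ∈ Dm := Or.inl (by simpa using hc2)
  -- `g (s + 1) → b`
  have hsh : Tendsto (fun s : ℂ => s + 1) (𝓝[HP 0] ((x - 1 : ℝ) : ℂ)) (𝓝[HP 0] (x : ℂ)) := by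
    apply tendsto_nhdsWithin_of_tendsto_nhds_of_eventually_within
    · have : ContinuousAt (fun s : ℂ => s + 1) ((x - 1 : ℝ) : ℂ) := by fun_prop
      have h2 := this.tendsto
      have e : ((x - 1 : ℝ) : ℂ) + 1 = (x : ℂ) := by push_cast; ring
      rw [e] at h2
      exact h2.mono_left nhdsWithin_le_nhds
    · filter_upwards [self_mem_nhdsWithin] with s hs
      show 0 < (s + 1).im
      have : 0 < s.im := hs
      simpa using this
  have hl1 : Tendsto (fun s : ℂ => (nf N : ℂ) - g (s + 1)) (𝓝[HP 0] ((x - 1 : ℝ) : ℂ))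
      (𝓝 ((nf N - b : ℝ) : ℂ)) := by
    have h2 := (hlim.comp hsh).const_sub (nf N : ℂ)
    have e : ((nf N - b : ℝ) : ℂ) = (nf N : ℂ) - (b : ℂ) := by push_cast; ring
    rw [e]
    exact h2
  have hw : Tendsto (fun s : ℂ => Lam N ((nf N : ℂ) - g (s + 1))) (𝓝[HP 0] ((x - 1 : ℝ) : ℂ))
      (𝓝 (Lam N ((nf N + a : ℝ) : ℂ))) := by
    have := (Lam_cont N hcD2).tendsto.comp hl1
    rw [Lam_el hc2, hel, ← Lam_el hc1] at this
    exact this
  have hwim : ∀ᶠ s in 𝓝[HP 0] ((x - 1 : ℝ) : ℂ), (Lam N ((nf N : ℂ) - g (s + 1))).im < 0 := by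
    filter_upwards [hl1.eventually (sign_left hN hc2 (by linarith)), self_mem_nhdsWithin]
      with s h2 hs
    apply h2.1
    have hs1 : s + 1 ∈ HP 0 := by
      show 0 < (s + 1).im
      have : 0 < s.im := hs
      simpa using this
    exact sub_UH (hgD _ hs1)
  -- local inverse at `n + a`
  intro V hV
  rw [Filter.mem_map]
  have hshift : Tendsto (fun y : ℂ => y - (nf N : ℂ)) (𝓝 ((nf N + a : ℝ) : ℂ)) (𝓝 (a : ℂ)) := by
    have : ContinuousAt (fun y : ℂ => y - (nf N : ℂ)) ((nf N + a : ℝ) : ℂ) := by fun_prop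
    have h2 := this.tendsto
    have e : ((nf N + a : ℝ) : ℂ) - (nf N : ℂ) = (a : ℂ) := by push_cast; ring
    rw [e] at h2
    exact h2
  have hre1 : ∀ᶠ y : ℂ in 𝓝 ((nf N + a : ℝ) : ℂ), 1 < y.re := by
    have : ContinuousAt (fun y : ℂ => y.re) ((nf N + a : ℝ) : ℂ) := by fun_prop
    exact this.eventually (lt_mem_nhds (by simpa using hc1))
  have hW : {y : ℂ | y - (nf N : ℂ) ∈ V ∧ ((0 < y.im → 0 < (Lam N y).im) ∧
      (y.im < 0 → (Lam N y).im < 0)) ∧ 1 < y.re} ∈ 𝓝 ((nf N + a : ℝ) : ℂ) :=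
    (hshift.eventually_mem hV).and ((sign_right hN (by linarith : nf N < nf N + a)).and hre1)
  have hdne : dLam N ((nf N + a : ℝ) : ℂ) ≠ 0 := by
    rw [dLam_real]
    exact_mod_cast (dLam_pos hN (by linarith : nf N < nf N + a)).ne'
  have himg : Lam N '' {y : ℂ | y - (nf N : ℂ) ∈ V ∧ ((0 < y.im → 0 < (Lam N y).im) ∧
      (y.im < 0 → (Lam N y).im < 0)) ∧ 1 < y.re} ∈ 𝓝 (Lam N ((nf N + a : ℝ) : ℂ)) := by
    rw [← (Lam_strict N hcD).map_nhds_eq hdne]
    exact image_mem_map hW
  filter_upwards [hw.eventually_mem himg, hwim, self_mem_nhdsWithin] with s hs1 hs2 hs3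
  obtain ⟨y, ⟨hyV, ⟨hy1, hy2⟩, hyre⟩, hyw⟩ := hs1
  rw [← hyw] at hs2
  have hyim : y.im < 0 := by
    rcases lt_trichotomy y.im 0 with h | h | h
    · exact h
    · exfalso
      have e : y = (y.re : ℂ) := by apply Complex.ext <;> simp [h]
      rw [e, Lam_real_im hyre] at hs2
      linarith
    · exfalso; linarith [hy1 h]
  have hs' : s + 1 ∈ HP 0 := by
    show 0 < (s + 1).im
    have : 0 < s.im := hs3
    simpa using this
  have h5 := hfe s hs3
  rw [Ps_Ph (UH_sub (sub_UH (hgD _ hs'))), ← hyw] at h5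
  have h6 := inj_LH hN (add_LH (x := nf N) (hgD s hs3)) hyim h5
  show g s ∈ V
  have h7 : g s = y - (nf N : ℂ) := by rw [← h6]; ring
  rw [h7]; exact hyV

lemma neBot_HP0 (x : ℝ) : (𝓝[HP 0] (x : ℂ)).NeBot := by
  rw [← mem_closure_iff_nhdsWithin_neBot]
  have : closure (HP 0) = {s : ℂ | 0 ≤ s.im} := by
    have := Complex.closure_preimage_im (Ioi 0)
    rw [closure_Ioi] at this
    exact this
  rw [this]; simp

/-- limit of `Im Λ` at negative reals, from below -/
lemma im_lim_neg {e : ℝ} (he : e < 0) {l : Filter ℂ} {y : ℂ → ℂ} (hy : ∀ᶠ s in l, (y s).im < 0)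
    (hl : Tendsto y l (𝓝 (e : ℂ))) :
    Tendsto (fun s => (Lam N (y s)).im) l (𝓝 (-(N * Real.pi))) := by
  have h1 : Tendsto (fun s => (y s).arg) l (𝓝 (-Real.pi)) := by
    have := Complex.tendsto_arg_nhdsWithin_im_neg_of_re_neg_of_im_zero (z := (e : ℂ))
      (by simpa using he) (by simp)
    exact this.comp (tendsto_nhdsWithin_iff.2 ⟨hl, hy⟩)
  have hne : (e : ℂ) ≠ 0 := by exact_mod_cast he.ne
  have h2 : Tendsto (fun s => (1 - 1 / y s).arg) l (𝓝 0) := by
    have hc : ContinuousAt (fun y : ℂ => (1 - 1 / y).arg) (e : ℂ) := by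
      refine ContinuousAt.comp (g := Complex.arg) (f := fun y : ℂ => 1 - 1 / y) ?_ ?_
      · apply Complex.continuousAt_arg
        rw [Complex.mem_slitPlane_iff]
        left
        have e1 : (1 : ℂ) - 1 / (e : ℂ) = ((1 - 1 / e : ℝ) : ℂ) := by push_cast; ring
        rw [e1, Complex.ofReal_re]
        have : 1 / e < 0 := one_div_neg.2 he
        linarith
      · exact continuousAt_const.sub (continuousAt_const.div continuousAt_id hne)
    have h3 := hc.tendsto.comp hl
    have e1 : (1 : ℂ) - 1 / (e : ℂ) = ((1 - 1 / e : ℝ) : ℂ) := by push_cast; ring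
    have hp : 0 ≤ 1 - 1 / e := by
      have : 1 / e < 0 := one_div_neg.2 he
      linarith
    rw [e1, Complex.arg_ofReal_of_nonneg hp] at h3
    exact h3
  have h3 := (h1.const_mul N).sub h2
  refine (h3.congr fun s => ?_).trans_eq ?_
  · rw [Lam_im]
  · ring_nf

/-- limit of `Im Λ` at points of `(0,1)`, from below -/
lemma im_lim_mid {e : ℝ} (he : 0 < e) (he1 : e < 1) {l : Filter ℂ} {y : ℂ → ℂ}
    (hy : ∀ᶠ s in l, (y s).im < 0) (hl : Tendsto y l (𝓝 (e : ℂ))) :
    Tendsto (fun s => (Lam N (y s)).im) l (𝓝 Real.pi) := by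
  have hne : (e : ℂ) ≠ 0 := by exact_mod_cast he.ne'
  have h1 : Tendsto (fun s => (y s).arg) l (𝓝 0) := by
    have hc : ContinuousAt Complex.arg (e : ℂ) := by
      apply Complex.continuousAt_arg
      rw [Complex.mem_slitPlane_iff]
      left; simpa using he
    have h3 := hc.tendsto.comp hl
    rw [Complex.arg_ofReal_of_nonneg he.le] at h3
    exact h3
  have h2 : Tendsto (fun s => (1 - 1 / y s).arg) l (𝓝 (-Real.pi)) := by
    have e1 : (1 : ℂ) - 1 / (e : ℂ) = ((1 - 1 / e : ℝ) : ℂ) := by push_cast; ring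
    have hneg : 1 - 1 / e < 0 := by
      have : 1 < 1 / e := by rw [lt_div_iff₀ he]; linarith
      linarith
    have h0 := Complex.tendsto_arg_nhdsWithin_im_neg_of_re_neg_of_im_zero
      (z := ((1 - 1 / e : ℝ) : ℂ)) (by simpa using hneg) (by simp)
    refine h0.comp (tendsto_nhdsWithin_iff.2 ⟨?_, ?_⟩)
    · have hc : ContinuousAt (fun y : ℂ => 1 - 1 / y) (e : ℂ) :=
        continuousAt_const.sub (continuousAt_const.div continuousAt_id hne)
      have := hc.tendsto.comp hl
      rw [e1] at this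
      exact this
    · filter_upwards [hy] with s hs
      show (1 - 1 / y s).im < 0
      rw [one_sub_im]
      have h0 : 0 < normSq (y s) := Complex.normSq_pos.2 (by
        intro h; rw [h] at hs; simp at hs)
      exact div_neg_of_neg_of_pos hs h0
  have h3 := (h1.const_mul N).sub h2
  refine (h3.congr fun s => ?_).trans_eq ?_
  · rw [Lam_im]
  · ring_nf

/-- **FLAT**: the flat end `Y = X^n`, `n = 1 + 1/N > 1`, `n ≠ 2`, is not embeddable. -/
theorem flat {N : ℝ} (hN : 0 < N) (hN1 : N ≠ 1) {F : ℂ → ℂ} {κ : ℝ}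
    (an : AnalyticAt ℂ F 0) (odd : ∀ᶠ t in 𝓝 (0 : ℂ), F (-t) = -F t)
    (real : ∀ᶠ t in 𝓝 (0 : ℂ), F ((starRingEnd ℂ) t) = (starRingEnd ℂ) (F t))
    (hκ : 0 < κ) (hd : deriv F 0 = (κ : ℂ))
    (eq : ∀ᶠ t in 𝓝 (0 : ℂ), Lam N ((nf N : ℂ) + F t) = Lam N ((nf N : ℂ) - F (t / (1 + t)))) :
    False := by
  have h1 := nf_gt hN
  have eq' : ∀ᶠ t in 𝓝 (0 : ℂ), F t ∈ LH → F (t / (1 + t)) ∈ LH →
      Ph N (F t) = Ps (Ph N) (F (t / (1 + t))) := by
    filter_upwards [eq] with t ht _ h3
    rw [Ps_Ph (UH_sub (sub_UH h3))]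
    exact ht
  obtain ⟨ρ, hρ, hG, hGr, η, hη, hsurj⟩ :=
    ginf_of_germ (D := LH) (Φ := Ph N) ⟨1, one_pos, fun a _ h => h⟩ an odd real hκ hd eq'
  set G : ℂ → ℂ := fun s => F (1 / s) with hGdef
  have S := sys hN
  obtain ⟨g, hgd, hgD, hfe, hext, hsym, hinj, hpos⟩ := ext S hG
  -- every positive real is a boundary value
  have hbv : ∀ a : ℝ, 0 < a → ∃ x : ℝ, Tendsto g (𝓝[HP 0] (x : ℂ)) (𝓝 (a : ℂ)) := by
    intro a ha
    refine orbit hN (P := fun a => ∃ x : ℝ, Tendsto g (𝓝[HP 0] (x : ℂ)) (𝓝 (a : ℂ))) hη ?_ ?_ ha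
    · intro a ha haη
      obtain ⟨x, hx, hxa⟩ := hsurj a ha haη
      refine ⟨x, ?_⟩
      have hx0 : 0 < x := by linarith
      have hxn : ρ < ‖(x : ℂ)‖ := by
        rw [Complex.norm_real, Real.norm_eq_abs, abs_of_pos hx0]; exact hx
      have hopen : IsOpen {s : ℂ | ρ < ‖s‖} := isOpen_lt continuous_const continuous_norm
      have hc : ContinuousAt G (x : ℂ) := (hG.an.differentiableAt (hopen.mem_nhds hxn)).continuousAt
      have h2 : Tendsto G (𝓝[HP 0] (x : ℂ)) (𝓝 (a : ℂ)) := by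
        have := hc.tendsto.mono_left (nhdsWithin_le_nhds (s := HP 0))
        have e : G (x : ℂ) = (a : ℂ) := hxa
        rw [e] at this
        exact this
      refine h2.congr' ?_
      filter_upwards [self_mem_nhdsWithin, nhdsWithin_le_nhds (hopen.mem_nhds hxn)] with s hs1 hs2
      exact (hext s hs1 hs2).symm
    · rintro a b ha hb hb1 hel ⟨x, hx⟩
      exact ⟨x - 1, bdy_step hN hgD hfe ha hb hb1 hel hx⟩
  -- negative values by symmetry
  have hbv' : ∀ a : ℝ, 0 < a → ∃ x : ℝ, Tendsto (fun s => (nf N : ℂ) + g s) (𝓝[HP 0] (x : ℂ))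
      (𝓝 ((nf N - a : ℝ) : ℂ)) := by
    intro a ha
    obtain ⟨x, hx⟩ := hbv a ha
    refine ⟨-x, ?_⟩
    have h2 : Tendsto rf (𝓝[HP 0] ((-x : ℝ) : ℂ)) (𝓝[HP 0] (x : ℂ)) := by
      apply tendsto_nhdsWithin_of_tendsto_nhds_of_eventually_within
      · have := (continuous_rf.tendsto ((-x : ℝ) : ℂ))
        have e : rf ((-x : ℝ) : ℂ) = (x : ℂ) := by
          unfold rf; rw [Complex.conj_ofReal]; push_cast; ring
        rw [e] at this
        exact this.mono_left nhdsWithin_le_nhds
      · filter_upwards [self_mem_nhdsWithin] with s hs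
        show 0 < (rf s).im
        rw [rf_im]; exact hs
    have h3 : Tendsto (fun s => rf (g (rf s))) (𝓝[HP 0] ((-x : ℝ) : ℂ)) (𝓝 (rf (a : ℂ))) :=
      (continuous_rf.tendsto _).comp (hx.comp h2)
    have h4 : Tendsto g (𝓝[HP 0] ((-x : ℝ) : ℂ)) (𝓝 (rf (a : ℂ))) := by
      refine h3.congr' ?_
      filter_upwards [self_mem_nhdsWithin] with s hs
      rw [hsym s hs, rf_rf]
    have h5 := h4.const_add (nf N : ℂ)
    have e : (nf N : ℂ) + rf (a : ℂ) = ((nf N - a : ℝ) : ℂ) := by
      unfold rf; rw [Complex.conj_ofReal]; push_cast; ring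
    rw [e] at h5
    exact h5
  have hlow : ∀ x : ℝ, ∀ᶠ s in 𝓝[HP 0] (x : ℂ), ((nf N : ℂ) + g s).im < 0 := by
    intro x
    filter_upwards [self_mem_nhdsWithin] with s hs
    exact add_LH (hgD s hs)
  -- bounds of `Im Λ`
  have hbd : ∀ s ∈ HP 0, -Real.pi < (Lam N ((nf N : ℂ) + g s)).im ∧
      (Lam N ((nf N : ℂ) + g s)).im < N * Real.pi := by
    intro s hs
    have hs1 : s + 1 ∈ HP 0 := by
      show 0 < (s + 1).im
      have : 0 < s.im := hs
      simpa using this
    have h2 := hfe s hs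
    rw [Ps_Ph (UH_sub (sub_UH (hgD _ hs1)))] at h2
    have h3 : Lam N ((nf N : ℂ) + g s) = Lam N ((nf N : ℂ) - g (s + 1)) := h2
    rw [h3]
    exact im_UH hN (sub_UH (hgD _ hs1))
  rcases lt_or_gt_of_ne hN1 with hlt | hgt
  · -- `N < 1`: value `1/2`
    obtain ⟨x, hx⟩ := hbv' (nf N - 1 / 2) (by linarith)
    have e : nf N - (nf N - 1 / 2) = 1 / 2 := by ring
    rw [e] at hx
    have := neBot_HP0 x
    have h2 := im_lim_mid (N := N) (e := 1 / 2) (by norm_num) (by norm_num) (hlow x) hx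
    have h3 : Real.pi ≤ N * Real.pi := by
      refine le_of_tendsto h2 ?_
      filter_upwards [self_mem_nhdsWithin] with s hs
      exact (hbd s hs).2.le
    have := Real.pi_pos
    nlinarith
  · -- `N > 1`: value `-1`
    obtain ⟨x, hx⟩ := hbv' (nf N + 1) (by linarith)
    have e : nf N - (nf N + 1) = -1 := by ring
    rw [e] at hx
    have := neBot_HP0 x
    have h2 := im_lim_neg (N := N) (e := -1) (by norm_num) (hlow x) hx
    have h3 : -Real.pi ≤ -(N * Real.pi) := by
      refine ge_of_tendsto h2 ?_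
      filter_upwards [self_mem_nhdsWithin] with s hs
      exact (hbd s hs).1.le
    have := Real.pi_pos
    nlinarith

end Crest.Agent.R102.Flat348
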