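import Crest.Agent.R102.Flat2_348

/-!
# Row 102, part (C), item [d] / T5: the FLAT end, literal form (helper348)

`LLf n y = n/(n-1) log y - log (y-1)` (principal logarithms, the same function as `Iso297.LL`),
and the exponential form `QF n y = exp (n/(n-1) log y) / (y-1)`.
-/

set_option autoImplicit false

open Complex Set Filter Topology

noncomputable section

namespace Crest.Agent.R102.Flat348

/-- `L(y) = n/(n-1) log y - log (y-1)` -/
def LLf (n : ℝ) (y : ℂ) : ℂ := ((n / (n - 1) : ℝ) : ℂ) * Complex.log y - Complex.log (y - 1)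

/-- `Q(y) = y^(n/(n-1)) / (y-1)` near `y = n` -/
def QF (n : ℝ) (y : ℂ) : ℂ := Complex.exp (((n / (n - 1) : ℝ) : ℂ) * Complex.log y) / (y - 1)

/-- the germ at a flat end -/
structure GermF (n : ℝ) (F : ℂ → ℂ) : Prop where
  hn : 1 < n
  hn2 : n ≠ 2
  an : AnalyticAt ℂ F 0
  odd : ∀ᶠ t in 𝓝 (0 : ℂ), F (-t) = -F t
  real : ∀ᶠ t in 𝓝 (0 : ℂ), F ((starRingEnd ℂ) t) = (starRingEnd ℂ) (F t)
  der : ∃ g : ℝ, 0 < g ∧ deriv F 0 = (g : ℂ)
  eq : ∀ᶠ t in 𝓝 (0 : ℂ), LLf n ((n : ℂ) + F t) = LLf n ((n : ℂ) - F (t / (1 + t)))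

/-- the same with `Q` instead of `L` -/
structure GermFQ (n : ℝ) (F : ℂ → ℂ) : Prop where
  hn : 1 < n
  hn2 : n ≠ 2
  an : AnalyticAt ℂ F 0
  odd : ∀ᶠ t in 𝓝 (0 : ℂ), F (-t) = -F t
  real : ∀ᶠ t in 𝓝 (0 : ℂ), F ((starRingEnd ℂ) t) = (starRingEnd ℂ) (F t)
  der : ∃ g : ℝ, 0 < g ∧ deriv F 0 = (g : ℂ)
  eq : ∀ᶠ t in 𝓝 (0 : ℂ), QF n ((n : ℂ) + F t) = QF n ((n : ℂ) - F (t / (1 + t)))

/-- `Lam` and `LLf` agree for `Re y > 1` -/
lemma LLf_eq {n : ℝ} (hn : 1 < n) {y : ℂ} (hy : 1 < y.re) : LLf n y = Lam (1 / (n - 1)) y := by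
  have h0 : y ≠ 0 := by rintro rfl; simp at hy; linarith
  have h1 : y - 1 ≠ 0 := by
    intro h
    have h2 : y = 1 := by linear_combination h
    rw [h2] at hy; simp at hy
  have a1 : |y.arg| < Real.pi / 2 := by
    rw [Complex.abs_arg_lt_pi_div_two_iff]; left; linarith
  have a2 : |(y - 1).arg| < Real.pi / 2 := by
    rw [Complex.abs_arg_lt_pi_div_two_iff]; left; simp; linarith
  have a1' := abs_lt.1 a1
  have a2' := abs_lt.1 a2
  have e : (1 : ℂ) - 1 / y = (y - 1) / y := by field_simp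
  have hlog : Complex.log (1 - 1 / y) = Complex.log (y - 1) - Complex.log y := by
    have harg : Complex.arg y ≠ Real.pi := by
      intro h; rw [h] at a1'; linarith [a1'.2, Real.pi_pos]
    rw [e, div_eq_mul_inv]
    have hi : Complex.log (y⁻¹) = -Complex.log y := Complex.log_inv _ harg
    have hia : (y⁻¹).arg = -y.arg := by
      have := congrArg Complex.im hi
      rw [Complex.log_im, Complex.neg_im, Complex.log_im] at this
      exact this
    rw [Complex.log_mul h1 (inv_ne_zero h0), hi]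
    · ring
    · rw [hia]
      constructor <;> linarith [a1'.1, a1'.2, a2'.1, a2'.2]
  unfold LLf Lam
  rw [hlog]
  have hn1 : (n : ℂ) - 1 ≠ 0 := by
    intro h
    have h2 : (n : ℂ) = 1 := by linear_combination h
    have : n = 1 := by exact_mod_cast h2
    linarith
  push_cast
  field_simp
  ring

lemma nf_eq {n : ℝ} (hn : 1 < n) : nf (1 / (n - 1)) = n := by
  unfold nf
  have : n - 1 ≠ 0 := by linarith
  field_simp
  ring

lemma ev_re {n : ℝ} (hn : 1 < n) {F : ℂ → ℂ} (an : AnalyticAt ℂ F 0)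
    (odd : ∀ᶠ t in 𝓝 (0 : ℂ), F (-t) = -F t) :
    ∀ᶠ t in 𝓝 (0 : ℂ), 1 < ((n : ℂ) + F t).re ∧ 1 < ((n : ℂ) - F (t / (1 + t))).re ∧
      ‖F t‖ < (n - 1) / 2 ∧ ‖F (t / (1 + t))‖ < (n - 1) / 2 := by
  have hF0 : F 0 = 0 := by
    have h := odd.self_of_nhds
    rw [neg_zero] at h
    have h2 : (2 : ℂ) * F 0 = 0 := by linear_combination h
    simpa using h2
  have h1 : ∀ᶠ t in 𝓝 (0 : ℂ), ‖F t‖ < (n - 1) / 2 := by
    have hc : ContinuousAt (fun t => ‖F t‖) 0 := an.continuousAt.norm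
    have h0 : ‖F 0‖ < (n - 1) / 2 := by
      rw [hF0, norm_zero]; linarith
    exact hc.tendsto.eventually_lt_const h0
  have h2 : Tendsto (fun t : ℂ => t / (1 + t)) (𝓝 0) (𝓝 0) := by
    have : ContinuousAt (fun t : ℂ => t / (1 + t)) 0 := by
      refine continuousAt_id.div (continuousAt_const.add continuousAt_id) ?_
      simp
    simpa [ContinuousAt] using this
  filter_upwards [h1, h2.eventually h1] with t ht ht2
  have q1 := abs_le.1 ((Complex.abs_re_le_norm (F t)).trans ht.le)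
  have q2 := abs_le.1 ((Complex.abs_re_le_norm (F (t / (1 + t)))).trans ht2.le)
  refine ⟨?_, ?_, ht, ht2⟩
  · simp only [Complex.add_re, Complex.ofReal_re]; linarith [q1.1]
  · simp only [Complex.sub_re, Complex.ofReal_re]; linarith [q2.2]

/-- **FLAT**, literal form with `L` -/
theorem not_germF {n : ℝ} {F : ℂ → ℂ} : ¬ GermF n F := by
  intro h
  obtain ⟨g, hg, hd⟩ := h.der
  have hn := h.hn
  have hpos : 0 < 1 / (n - 1) := by
    have : 0 < n - 1 := by linarith
    positivity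
  have hne : 1 / (n - 1) ≠ 1 := by
    intro h1
    have h2 : n - 1 ≠ 0 := by linarith
    field_simp at h1
    exact h.hn2 (by linarith)
  refine flat hpos hne h.an h.odd h.real hg hd ?_
  rw [nf_eq hn]
  filter_upwards [h.eq, ev_re hn h.an h.odd] with t ht hr
  rw [← LLf_eq hn hr.1, ← LLf_eq hn hr.2.1]
  exact ht

/-- **FLAT**, literal form with `Q` -/
theorem not_germFQ {n : ℝ} {F : ℂ → ℂ} : ¬ GermFQ n F := by
  intro h
  have hn := h.hn
  refine not_germF (n := n) (F := F) ⟨h.hn, h.hn2, h.an, h.odd, h.real, h.der, ?_⟩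
  have hF0 : F 0 = 0 := by
    have h1 := h.odd.self_of_nhds
    rw [neg_zero] at h1
    have h2 : (2 : ℂ) * F 0 = 0 := by linear_combination h1
    simpa using h2
  -- the difference of the logarithms is continuous and vanishes at `0`
  have hD : (n : ℂ) ∈ slitPlane := by
    rw [Complex.mem_slitPlane_iff]; left; simp; linarith
  have hD1 : (n : ℂ) - 1 ∈ slitPlane := by
    rw [Complex.mem_slitPlane_iff]; left; simp; linarith
  have hc : ContinuousAt (LLf n) (n : ℂ) := by
    unfold LLf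
    refine ContinuousAt.sub (continuousAt_const.mul (continuousAt_clog hD)) ?_
    exact ContinuousAt.clog (continuousAt_id.sub continuousAt_const) hD1
  have h2 : Tendsto (fun t : ℂ => t / (1 + t)) (𝓝 0) (𝓝 0) := by
    have : ContinuousAt (fun t : ℂ => t / (1 + t)) 0 := by
      refine continuousAt_id.div (continuousAt_const.add continuousAt_id) ?_
      simp
    simpa [ContinuousAt] using this
  have c1 : Tendsto (fun t => LLf n ((n : ℂ) + F t)) (𝓝 0) (𝓝 (LLf n n)) := by
    have : Tendsto (fun t => (n : ℂ) + F t) (𝓝 0) (𝓝 (n : ℂ)) := by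
      have := (h.an.continuousAt.tendsto).const_add (n : ℂ)
      rwa [hF0, add_zero] at this
    exact hc.tendsto.comp this
  have c2 : Tendsto (fun t => LLf n ((n : ℂ) - F (t / (1 + t)))) (𝓝 0) (𝓝 (LLf n n)) := by
    have h3 : Tendsto (fun t => F (t / (1 + t))) (𝓝 0) (𝓝 0) := by
      have := (h.an.continuousAt.tendsto).comp h2
      rwa [hF0] at this
    have : Tendsto (fun t => (n : ℂ) - F (t / (1 + t))) (𝓝 0) (𝓝 (n : ℂ)) := by
      have := h3.const_sub (n : ℂ)
      rwa [sub_zero] at this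
    exact hc.tendsto.comp this
  have c3 : Tendsto (fun t => LLf n ((n : ℂ) + F t) - LLf n ((n : ℂ) - F (t / (1 + t)))) (𝓝 0)
      (𝓝 0) := by
    have := c1.sub c2
    rwa [sub_self] at this
  have hsmall : ∀ᶠ t in 𝓝 (0 : ℂ),
      ‖LLf n ((n : ℂ) + F t) - LLf n ((n : ℂ) - F (t / (1 + t)))‖ < 1 := by
    have := c3.norm
    rw [norm_zero] at this
    exact this.eventually_lt_const one_pos
  filter_upwards [h.eq, ev_re hn h.an h.odd, hsmall] with t ht hr hs
  have hQ : ∀ y : ℂ, 1 < y.re → QF n y = Complex.exp (LLf n y) := by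
    intro y hy
    have h1 : y - 1 ≠ 0 := by
      intro h
      have h2 : y = 1 := by linear_combination h
      rw [h2] at hy; simp at hy
    unfold QF LLf
    rw [Complex.exp_sub, Complex.exp_log h1]
  rw [hQ _ hr.1, hQ _ hr.2.1, Complex.exp_eq_exp_iff_exists_int] at ht
  obtain ⟨k, hk⟩ := ht
  have e1 : LLf n ((n : ℂ) + F t) - LLf n ((n : ℂ) - F (t / (1 + t))) =
      (k : ℂ) * (2 * Real.pi * I) := by rw [hk]; ring
  rw [e1] at hs
  have e2 : ‖(k : ℂ) * (2 * Real.pi * I)‖ = |(k : ℝ)| * (2 * Real.pi) := by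
    rw [norm_mul, norm_mul, norm_mul, Complex.norm_I, Complex.norm_real, Complex.norm_two,
      Real.norm_eq_abs, abs_of_pos Real.pi_pos, mul_one]
    congr 1
    have : (k : ℂ) = ((k : ℝ) : ℂ) := by push_cast; rfl
    rw [this, Complex.norm_real, Real.norm_eq_abs]
  rw [e2] at hs
  have hk0 : k = 0 := by
    by_contra hk0
    have h1 : (1 : ℝ) ≤ |(k : ℝ)| := by
      have := Int.one_le_abs hk0
      exact_mod_cast this
    have := Real.pi_gt_three
    nlinarith
  rw [hk0] at hk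
  rw [hk]; simp

end Crest.Agent.R102.Flat348
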