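import Crest.Agent.R102.AB_196
import Crest.Agent.R102.EdgeC3_300
import Crest.Agent.R102.EdgeDefs_255

/-!
Row 102, T1-B, EDGE-FLAT (helper196): a world with bounded lines is slow.
-/

set_option autoImplicit false

open Set Filter Topology Metric Complex

noncomputable section

namespace Crest.Agent.R102.Flat196

open Crest.Agent.R102.Edge255 Crest.Agent.R102.EdgeLim196 Crest.Agent.R102.AB196
open Crest.Agent.R266.SCV

theorem Wg_eq (a : ℝ) : Wg a = Lo a := rfl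

theorem z0_mem {a : ℝ} (ha : 0 ≤ a) : z0 ∈ Lo a := by
  refine ⟨?_, ?_⟩
  · show (0 : ℝ) < (I / 4 : ℂ).im
    norm_num
  · show ((-I : ℂ)).im < a * (I / 4 : ℂ).im
    have : (I / 4 : ℂ).im = 1 / 4 := by norm_num
    rw [this]
    simp only [neg_im, I_im]
    linarith

theorem ball_mem {a : ℝ} (ha : 0 ≤ a) : closedBall z0 (1 / 10) ⊆ Lo a := by
  intro q hq
  have hq' := mem_closedBall.1 hq
  rw [Prod.dist_eq, max_le_iff] at hq'
  have h1 : |q.1.im - (-1)| ≤ 1 / 10 := by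
    have e := abs_im_le_norm (q.1 - z0.1)
    rw [← dist_eq_norm] at e
    have e2 : (q.1 - z0.1).im = q.1.im - (-1) := by simp [z0]
    rw [e2] at e
    exact e.trans hq'.1
  have h2 : |q.2.im - 1 / 4| ≤ 1 / 10 := by
    have e := abs_im_le_norm (q.2 - z0.2)
    rw [← dist_eq_norm] at e
    have e2 : (q.2 - z0.2).im = q.2.im - 1 / 4 := by
      have : (I / 4 : ℂ).im = 1 / 4 := by norm_num
      simp [z0, this]
    rw [e2] at e
    exact e.trans hq'.2
  rw [abs_le] at h1 h2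
  refine ⟨by linarith, ?_⟩
  have : 0 ≤ a * q.2.im := mul_nonneg ha (by linarith)
  linarith

/-- integers bounded along an ultrafilter are eventually constant -/
theorem int_const {ι : Type*} (u : Ultrafilter ι) {N : ι → ℤ} {M : ℝ}
    (hN : ∀ᶠ n in (u : Filter ι), |(N n : ℝ)| ≤ M) : ∃ N0 : ℤ, ∀ᶠ n in (u : Filter ι), N n = N0 := by
  have hfin : (Icc (-⌈M⌉) ⌈M⌉ : Set ℤ).Finite := finite_Icc _ _
  have hmem : (Icc (-⌈M⌉) ⌈M⌉ : Set ℤ) ∈ (u.map N : Filter ℤ) := by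
    rw [Ultrafilter.mem_coe, Ultrafilter.mem_map]
    filter_upwards [hN] with n hn
    rw [abs_le] at hn
    have h1 : (N n : ℝ) ≤ ⌈M⌉ := hn.2.trans (Int.le_ceil M)
    have h2 : -(⌈M⌉ : ℝ) ≤ N n := by
      have := Int.le_ceil M
      linarith [hn.1]
    exact ⟨by exact_mod_cast h2, by exact_mod_cast h1⟩
  obtain ⟨N0, -, h0⟩ := Ultrafilter.eq_pure_of_finite_mem hfin hmem
  refine ⟨N0, ?_⟩
  have : ({N0} : Set ℤ) ∈ u.map N := by rw [h0]; exact mem_singleton N0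
  rw [Ultrafilter.mem_map] at this
  filter_upwards [this] with n hn
  exact hn

/-- literal of 300's `world_births` -/
def Births : Prop :=
  ∀ (h a g : ℝ) (ψ H : ℂ → ℂ) (A0 : ℂ) (φ p B : ℕ → ℂ × ℂ → ℂ), World h a g ψ H A0 φ p B →
    ∀ q0 ∈ Fc a, ∀ r > 0, closedBall q0 r ⊆ Lo (a + g) → ∀ x1 ∈ Lo a ∩ ball q0 r,
      ∀ᶠ n in atTop, ¬ ∃ G : ℂ × ℂ → ℂ, DifferentiableOn ℂ G (ball q0 r) ∧
        (∀ x ∈ ball q0 r, |(G x).im| < h) ∧ G =ᶠ[𝓝 x1] B n

/-- literal of 300's `caseC_world` -/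
def CaseC : Prop :=
  ∀ (h a g : ℝ) (ψ H : ℂ → ℂ) (A0 : ℂ) (φ p B : ℕ → ℂ × ℂ → ℂ), World h a g ψ H A0 φ p B →
    ∀ u : Ultrafilter ℕ, (u : Filter ℕ) ≤ atTop → ∀ φl pl Bl : ℂ × ℂ → ℂ,
    DifferentiableOn ℂ φl (Wg (a + g)) → DifferentiableOn ℂ pl (Wg (a + g)) →
    DifferentiableOn ℂ Bl (Wg a) → TendstoLocallyUniformlyOn φ φl u (Wg (a + g)) →
    TendstoLocallyUniformlyOn p pl u (Wg (a + g)) → TendstoLocallyUniformlyOn B Bl u (Wg a) →
    (∀ x ∈ Wg a, |(Bl x).im| < h) → NrmAll (a + g) ψ φ B →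
    (∀ x ∈ Wg a, cexp (2 * I * (ψ (Bl x) - φl x)) = 1) →
    (∀ x ∈ Wg a, ∀ y ∈ Wg a, Bl x = Bl y) ∧ ∀ x ∈ Wg (a + g), ∀ y ∈ Wg (a + g), φl x = φl y

theorem rel_of {h : ℝ} {ψ H : ℂ → ℂ} (hC : Curve h ψ H) : F300.Rel (Sp h) ψ H (-1) := by
  intro z hz
  exact hC.rel z hz

theorem flat_lim (hbir : Births) (hcase : CaseC) {h a g κ : ℝ} {ψ H : ℂ → ℂ} {A0 : ℂ}
    {φ p B : ℕ → ℂ × ℂ → ℂ} (hκ : 0 < κ) (W : World h a g ψ H A0 φ p B) (hI : IntrW h κ ψ B)
    (hre : ∀ n, 0 ≤ (B n z0).re ∧ (B n z0).re ≤ 1)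
    (hbd : ∀ K ⊆ Wg (a + g), IsCompact K → ∃ C : ℝ, ∀ᶠ n in atTop, ∀ q ∈ K,
      ‖φ n q‖ ≤ C ∧ ‖p n q‖ ≤ C)
    (hN : NrmAll (a + g) ψ φ B) (u : Ultrafilter ℕ) (hu : (u : Filter ℕ) ≤ atTop) :
    ∃ b c d : ℂ, |b.im| < h ∧ deriv ψ b ≠ 0 ∧ cexp (2 * I * (c - ψ b)) = 1 ∧
      TendstoLocallyUniformlyOn φ (fun _ => c) u (Wg (a + g)) ∧
      TendstoLocallyUniformlyOn p (fun _ => d) u (Wg (a + g)) ∧
      TendstoLocallyUniformlyOn B (fun _ => b) u (Wg a) := by
  have hg := W.g_pos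
  have ha := W.a_nonneg
  have hne : (u : Filter ℕ).NeBot := u.neBot
  have hOm : IsOpen (Lo (a + g)) := isOpen_Lo _
  have hOc : IsPreconnected (Lo (a + g)) := (convex_Lo _).isPreconnected
  have hLO : Lo a ⊆ Lo (a + g) := EdgeC300.Lo_sub hg
  have hFO : Fc a ⊆ Lo (a + g) := EdgeC300.Fc_sub hg
  -- local form of the line hypotheses
  have hloc : ∀ q ∈ Lo (a + g), ∃ r > 0, ball q r ⊆ Lo (a + g) ∧ ∃ C : ℝ, ∀ᶠ n in (u : Filter ℕ),
      DifferentiableOn ℂ (φ n) (ball q r) ∧ DifferentiableOn ℂ (p n) (ball q r) ∧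
      ∀ x ∈ ball q r, ‖φ n x‖ ≤ C ∧ ‖p n x‖ ≤ C := by
    intro q hq
    obtain ⟨r, hr, hrO⟩ := Metric.nhds_basis_closedBall.mem_iff.1 (hOm.mem_nhds hq)
    obtain ⟨C, hC⟩ := hbd (closedBall q r) hrO (isCompact_closedBall q r)
    refine ⟨r, hr, ball_subset_closedBall.trans hrO, C, ?_⟩
    filter_upwards [hu (W.regL (closedBall q r) hrO (isCompact_closedBall q r)), hu hC] with n hn hn2
    obtain ⟨U, hU, hKU, h1, h2⟩ := hn
    exact ⟨h1.mono (ball_subset_closedBall.trans hKU), h2.mono (ball_subset_closedBall.trans hKU),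
      fun x hx => hn2 x (ball_subset_closedBall hx)⟩
  have hBd : ∀ q ∈ Lo a, ∃ r > 0, ball q r ⊆ Lo a ∧ ∀ᶠ n in (u : Filter ℕ),
      DifferentiableOn ℂ (B n) (ball q r) ∧
      ∀ x ∈ ball q r, |(B n x).im| < h ∧ F300.Inc ψ H (φ n x) (p n x) (B n x) := by
    intro q hq
    obtain ⟨r, hr, hrO⟩ := Metric.nhds_basis_closedBall.mem_iff.1 ((isOpen_Lo a).mem_nhds hq)
    refine ⟨r, hr, ball_subset_closedBall.trans hrO, ?_⟩
    filter_upwards [hu (W.regX (closedBall q r) hrO (isCompact_closedBall q r))] with n hn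
    obtain ⟨U, hU, hKU, h1, h2⟩ := hn
    exact ⟨h1.mono (ball_subset_closedBall.trans hKU), fun x hx =>
      ⟨(h2 x (hKU (ball_subset_closedBall hx))).1, (h2 x (hKU (ball_subset_closedBall hx))).2.1⟩⟩
  -- limits of the line
  obtain ⟨φl, hφld, hφlt⟩ := End613.montel_ev u hOm (f := φ) (fun x hx => by
    obtain ⟨r, hr, hrO, C, hC⟩ := hloc x hx
    exact ⟨r, hr, C, hrO, hC.mono fun n hn => ⟨hn.1, fun w hw => (hn.2.2 w hw).1⟩⟩)
  obtain ⟨pl, hpld, hplt⟩ := End613.montel_ev u hOm (f := p) (fun x hx => by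
    obtain ⟨r, hr, hrO, C, hC⟩ := hloc x hx
    exact ⟨r, hr, C, hrO, hC.mono fun n hn => ⟨hn.2.1, fun w hw => (hn.2.2 w hw).2⟩⟩)
  -- (b)
  obtain ⟨m, k, β, N, hmd, hkd, hβd, hm0, hmt, hkt, hβt, hβh, -, hmβ⟩ :=
    ab_pure u hOm hOc hLO hFO (τ := I) (Or.inl rfl) W.curve.ψ_diff W.curve.H_diff
    (c := -1) (by norm_num) (rel_of W.curve) (k0 := 1)
    (fun b hb => by rw [W.curve.ψ_per b hb]; push_cast; ring) W.curve.H_per (Bn := B) (φn := φ)
    (pn := p) hBd
    (fun q hq => by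
      obtain ⟨r, hr, hrO, C, hC⟩ := hloc q hq
      refine ⟨r, hr, hrO, Real.exp (2 * C) + C * Real.exp C, hC.mono fun n hn =>
        ⟨hn.1, hn.2.1, fun x hx => ?_⟩⟩
      obtain ⟨h1, h2⟩ := hn.2.2 x hx
      have hC0 : 0 ≤ C := (norm_nonneg _).trans h1
      have e1 : ‖cexp (2 * I * φ n x)‖ ≤ Real.exp (2 * C) := by
        rw [Complex.norm_exp]
        apply Real.exp_le_exp.2
        have := Complex.re_le_norm (2 * I * φ n x)
        have e : ‖2 * I * φ n x‖ = 2 * ‖φ n x‖ := by simp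
        linarith
      have e2 : ‖cexp (I * φ n x)‖ ≤ Real.exp C := by
        rw [Complex.norm_exp]
        apply Real.exp_le_exp.2
        have := Complex.re_le_norm (I * φ n x)
        have e : ‖I * φ n x‖ = ‖φ n x‖ := by simp
        linarith
      have e3 : ‖p n x * cexp (I * φ n x)‖ ≤ C * Real.exp C := by
        rw [norm_mul]
        gcongr
      have e4 : 0 ≤ C * Real.exp C := by positivity
      have e5 := Real.exp_pos (2 * C)
      exact ⟨by linarith, by linarith⟩)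
    (x0 := z0) (z0_mem ha) (h' := h - κ) (by linarith)
    (Eventually.of_forall fun n => (hI n).1)
    (fun q0 hq0 r hr hrO x1 hx1 => hu (hbir h a g ψ H A0 φ p B W q0 hq0 r hr hrO x1 hx1))
  -- the integers are eventually constant
  have hz0 := z0_mem ha
  have ht0 : Tendsto (fun n => B n z0 - N n) u (𝓝 (β z0)) := hβt.tendsto_at hz0
  have hNb : ∀ᶠ n in (u : Filter ℕ), |(N n : ℝ)| ≤ |(β z0).re| + 2 := by
    have h1 : ∀ᶠ n in (u : Filter ℕ), dist (B n z0 - N n) (β z0) < 1 :=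
      ht0.eventually (ball_mem_nhds _ one_pos)
    filter_upwards [h1] with n hn
    rw [dist_eq_norm] at hn
    have h2 := (abs_re_le_norm (B n z0 - N n - β z0)).trans hn.le
    have h3 := hre n
    have e : (B n z0 - N n - β z0).re = (B n z0).re - N n - (β z0).re := by simp
    rw [e, abs_le] at h2
    have h4 := abs_le.1 (le_refl |(β z0).re|)
    rw [abs_le]
    constructor <;> linarith [h3.1, h3.2, h2.1, h2.2, h4.1, h4.2]
  obtain ⟨N0, hN0⟩ := int_const u hNb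
  set Bl : ℂ × ℂ → ℂ := fun x => β x + N0 with hBl
  have hBld : DifferentiableOn ℂ Bl (Lo a) := hβd.add_const _
  have hBlt : TendstoLocallyUniformlyOn B Bl u (Lo a) := by
    rw [Metric.tendstoLocallyUniformlyOn_iff] at hβt ⊢
    intro ε hε x hx
    obtain ⟨t, ht, h1⟩ := hβt ε hε x hx
    refine ⟨t, ht, ?_⟩
    filter_upwards [h1, hN0] with n hn hn0 y hy
    have := hn y hy
    rw [dist_eq_norm] at this ⊢
    have e : Bl y - B n y = β y - (B n y - N n) := by rw [hBl, hn0]; ring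
    rw [e]; exact this
  have hBlh : ∀ x ∈ Lo a, |(Bl x).im| < h := by
    intro x hx
    have : (Bl x).im = (β x).im := by simp [hBl]
    rw [this]; exact hβh x hx
  -- R_0 = 1
  have hψint : ∀ j : ℤ, ∀ b ∈ Sp h, cexp (2 * I * ψ (b + j)) = cexp (2 * I * ψ b) := by
    intro j
    have hstep : ∀ b ∈ Sp h, cexp (2 * I * ψ (b + 1)) = cexp (2 * I * ψ b) := by
      intro b hb
      rw [W.curve.ψ_per b hb]
      have : 2 * I * (ψ b + 2 * Real.pi) = 2 * I * ψ b + ((2 : ℤ) : ℂ) * (2 * Real.pi * I) := by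
        push_cast; ring
      rw [this]
      exact (Complex.exp_periodic.int_mul 2) _
    have hS : ∀ (j : ℤ) (b : ℂ), b ∈ Sp h → b + j ∈ Sp h := by
      intro j b hb
      have : (b + j : ℂ).im = b.im := by simp
      show |(b + j : ℂ).im| < h
      rw [this]; exact hb
    induction j using Int.induction_on with
    | zero => intro b _; simp
    | succ i ih =>
      intro b hb
      have e : b + (((i : ℤ) + 1 : ℤ) : ℂ) = (b + (i : ℤ)) + 1 := by push_cast; ring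
      rw [e, hstep _ (hS i b hb), ih b hb]
    | pred i ih =>
      intro b hb
      have e : b + ((-(i : ℤ) : ℤ) : ℂ) = (b + ((-(i : ℤ) - 1 : ℤ) : ℂ)) + 1 := by push_cast; ring
      rw [← ih b hb, e, hstep _ (hS _ b hb)]
  have hml : ∀ x ∈ Lo (a + g), m x = cexp (2 * I * φl x) := by
    intro x hx
    have h1 : Tendsto (fun n => cexp (2 * I * φ n x)) u (𝓝 (m x)) := hmt.tendsto_at hx
    have h2 : Tendsto (fun n => φ n x) u (𝓝 (φl x)) := hφlt.tendsto_at hx
    have h3 : Tendsto (fun n => cexp (2 * I * φ n x)) u (𝓝 (cexp (2 * I * φl x))) :=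
      ((continuous_exp.comp (continuous_const.mul continuous_id)).tendsto (φl x)).comp h2
    exact tendsto_nhds_unique h1 h3
  have hR : ∀ x ∈ Wg a, cexp (2 * I * (ψ (Bl x) - φl x)) = 1 := by
    intro x hx
    have h1 := hmβ x hx
    rw [hml x (hLO hx)] at h1
    have h2 := hψint N0 (β x) (hβh x hx)
    rw [mul_sub, Complex.exp_sub, hBl, h2, ← h1, div_self (Complex.exp_ne_zero _)]
  -- (c)
  obtain ⟨hc1, hc2⟩ := hcase h a g ψ H A0 φ p B W u hu φl pl Bl hφld hpld hBld hφlt hplt hBlt hBlh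
    hN hR
  set b := Bl z0 with hb
  set c := φl z0 with hc
  have hbh : |b.im| < h := hBlh z0 hz0
  have hφc : TendstoLocallyUniformlyOn φ (fun _ => c) u (Wg (a + g)) :=
    hφlt.congr_right fun x hx => hc2 x hx z0 (hLO hz0)
  have hBc : TendstoLocallyUniformlyOn B (fun _ => b) u (Wg a) :=
    hBlt.congr_right fun x hx => hc1 x hx z0 hz0
  have hψd : ContinuousOn (deriv ψ) (Sp h) := (W.curve.ψ_diff.deriv (isOpen_Sp h)).continuousOn
  -- nondegeneracy
  have hdb : deriv ψ b ≠ 0 := by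
    intro h0
    have h1 : ∀ᶠ z in 𝓝 b, ‖deriv ψ z‖ < κ := by
      have := (hψd.continuousAt ((isOpen_Sp h).mem_nhds hbh)).norm
      have h2 : ‖deriv ψ b‖ < κ := by rw [h0, norm_zero]; exact hκ
      exact this.eventually (gt_mem_nhds h2)
    obtain ⟨δ, hδ, h2⟩ := Metric.eventually_nhds_iff.1 h1
    have h3 : TendstoUniformlyOn B (fun _ => b) u (closedBall z0 (1 / 10)) :=
      (tendstoLocallyUniformlyOn_iff_forall_isCompact (isOpen_Lo a)).1 hBc _ (ball_mem ha)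
        (isCompact_closedBall _ _)
    have h4 := (Metric.tendstoUniformlyOn_iff.1 h3 δ hδ).exists
    obtain ⟨n, hn⟩ := h4
    obtain ⟨-, q, hq, hq2⟩ := hI n
    have h5 := h2 (by rw [dist_comm]; exact hn q hq)
    linarith
  -- p is constant
  have hpc : ∀ x ∈ Lo (a + g), pl x = pl z0 := by
    have hinc : ∀ x ∈ Lo a, F300.Inc ψ H c (pl x) b := by
      intro x hx
      have h1 : Tendsto (fun n => φ n x) u (𝓝 c) := hφc.tendsto_at (hLO hx)
      have h2 : Tendsto (fun n => p n x) u (𝓝 (pl x)) := hplt.tendsto_at (hLO hx)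
      have h3 : Tendsto (fun n => B n x) u (𝓝 b) := hBc.tendsto_at hx
      have hbn := (isOpen_Sp h).mem_nhds hbh
      have c1 : Tendsto (fun n => deriv ψ (B n x)) u (𝓝 (deriv ψ b)) :=
        (hψd.continuousAt hbn).tendsto.comp h3
      have c2 : Tendsto (fun n => H (B n x)) u (𝓝 (H b)) :=
        (W.curve.H_diff.continuousOn.continuousAt hbn).tendsto.comp h3
      have c3 : Tendsto (fun n => deriv H (B n x)) u (𝓝 (deriv H b)) :=
        ((W.curve.H_diff.deriv (isOpen_Sp h)).continuousOn.continuousAt hbn).tendsto.comp h3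
      have c4 : Tendsto (fun n => ψ (B n x)) u (𝓝 (ψ b)) :=
        (W.curve.ψ_diff.continuousOn.continuousAt hbn).tendsto.comp h3
      have c5 : Tendsto (fun n => Complex.cos (φ n x - ψ (B n x))) u
          (𝓝 (Complex.cos (c - ψ b))) := (Complex.continuous_cos.tendsto _).comp (h1.sub c4)
      have c6 : Tendsto (fun n => Complex.sin (φ n x - ψ (B n x))) u
          (𝓝 (Complex.sin (c - ψ b))) := (Complex.continuous_sin.tendsto _).comp (h1.sub c4)
      obtain ⟨r, hr, -, hev⟩ := hBd x hx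
      have h6 := (c1.mul h2)
      have h7 := ((c1.mul c2).mul c5).add (c3.mul c6)
      have h8 : (fun n => deriv ψ (B n x) * p n x) =ᶠ[u] fun n =>
          deriv ψ (B n x) * H (B n x) * Complex.cos (φ n x - ψ (B n x)) +
          deriv H (B n x) * Complex.sin (φ n x - ψ (B n x)) := by
        filter_upwards [hev] with n hn
        have := (hn.2 x (mem_ball_self hr)).2
        unfold F300.Inc at this
        exact this
      exact tendsto_nhds_unique h6 (h7.congr' h8.symm)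
    have hpa : ∀ x ∈ Lo a, pl x = pl z0 := by
      intro x hx
      have h1 := hinc x hx
      have h2 := hinc z0 hz0
      unfold F300.Inc at h1 h2
      exact mul_left_cancel₀ hdb (h1.trans h2.symm)
    have hev : pl =ᶠ[𝓝 z0] fun _ => pl z0 := by
      filter_upwards [(isOpen_Lo a).mem_nhds hz0] with x hx using hpa x hx
    have := (analyticOnNhd_of_differentiableOn hOm hpld).eqOn_of_preconnected_of_eventuallyEq
      analyticOnNhd_const hOc (hLO hz0) hev
    exact fun x hx => this hx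
  refine ⟨b, c, pl z0, hbh, hdb, ?_, hφc, hplt.congr_right hpc, hBc⟩
  have h1 := hR z0 hz0
  have h2 : cexp (2 * I * (c - ψ b)) = (cexp (2 * I * (ψ b - c)))⁻¹ := by
    rw [← Complex.exp_neg]; congr 1; ring
  rw [h2]
  show (cexp (2 * I * (ψ (Bl z0) - φl z0)))⁻¹ = 1
  rw [h1, inv_one]

theorem flatP_of (hbir : Births) (hcase : CaseC) : FlatP := by
  intro h a g κ ψ H A0 φ p B hκ W hI hre hbd hN ε hε K hK hKc K' hK' hKc'
  by_contra hcon
  have hcon' : ∃ᶠ n in atTop, ¬ SlowAt ε K K' ψ (φ n) (p n) (B n) := not_eventually.1 hcon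
  have hne : (atTop ⊓ 𝓟 {n : ℕ | ¬ SlowAt ε K K' ψ (φ n) (p n) (B n)} : Filter ℕ).NeBot :=
    frequently_mem_iff_neBot.1 hcon'
  set u : Ultrafilter ℕ :=
    Ultrafilter.of (atTop ⊓ 𝓟 {n : ℕ | ¬ SlowAt ε K K' ψ (φ n) (p n) (B n)})
  have hu : (u : Filter ℕ) ≤ atTop ⊓ 𝓟 {n : ℕ | ¬ SlowAt ε K K' ψ (φ n) (p n) (B n)} :=
    Ultrafilter.of_le _
  have hu1 : (u : Filter ℕ) ≤ atTop := hu.trans inf_le_left
  have hu2 : ∀ᶠ n in (u : Filter ℕ), ¬ SlowAt ε K K' ψ (φ n) (p n) (B n) :=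
    (hu.trans inf_le_right) (mem_principal_self _)
  obtain ⟨b, c, d, hbh, hdb, hcb, hφt, hpt, hBt⟩ :=
    flat_lim hbir hcase hκ W hI hre hbd hN u hu1
  have ha := W.a_nonneg
  have hz0 := z0_mem ha
  have hz0' : z0 ∈ Wg (a + g) := EdgeC300.Lo_sub W.g_pos hz0
  have hFc : ContinuousAt (fun q : ℂ × ℂ => cexp (2 * I * (q.1 - ψ q.2))) (c, b) := by
    have h1 : ContinuousAt ψ b :=
      W.curve.ψ_diff.continuousOn.continuousAt ((isOpen_Sp h).mem_nhds hbh)
    have h2 : ContinuousAt (fun q : ℂ × ℂ => ψ q.2) (c, b) :=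
      ContinuousAt.comp (f := Prod.snd) (g := ψ) (x := ((c, b) : ℂ × ℂ)) h1 continuousAt_snd
    exact ((continuousAt_fst.sub h2).const_mul _).cexp
  have hF1 : ∀ᶠ q in 𝓝 ((c, b) : ℂ × ℂ), dist (cexp (2 * I * (q.1 - ψ q.2))) 1 < ε := by
    have := hFc.eventually (ball_mem_nhds _ hε)
    simp only [hcb] at this
    exact this
  obtain ⟨δ, hδ, hF2⟩ := Metric.eventually_nhds_iff.1 hF1
  have k1 : TendstoUniformlyOn φ (fun _ => c) u K :=
    (tendstoLocallyUniformlyOn_iff_forall_isCompact (isOpen_Lo (a + g))).1 hφt K hK hKc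
  have k2 : TendstoUniformlyOn B (fun _ => b) u K' :=
    (tendstoLocallyUniformlyOn_iff_forall_isCompact (isOpen_Lo a)).1 hBt K' hK' hKc'
  have k4 : TendstoUniformlyOn p (fun _ => d) u K :=
    (tendstoLocallyUniformlyOn_iff_forall_isCompact (isOpen_Lo (a + g))).1 hpt K hK hKc
  have k3 : Tendsto (fun n => B n z0) u (𝓝 b) := hBt.tendsto_at hz0
  have k5 : Tendsto (fun n => p n z0) u (𝓝 d) := hpt.tendsto_at hz0'
  have e1 := Metric.tendstoUniformlyOn_iff.1 k1 δ hδ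
  have e2 := Metric.tendstoUniformlyOn_iff.1 k2 (ε / 2) (by positivity)
  have e4 := Metric.tendstoUniformlyOn_iff.1 k4 (ε / 2) (by positivity)
  have e3 : ∀ᶠ n in (u : Filter ℕ), dist (B n z0) b < min δ (ε / 2) :=
    k3.eventually (ball_mem_nhds _ (by positivity))
  have e5 : ∀ᶠ n in (u : Filter ℕ), dist (p n z0) d < ε / 2 :=
    k5.eventually (ball_mem_nhds _ (by positivity))
  have : (u : Filter ℕ).NeBot := u.neBot
  obtain ⟨n, hn1, hn2, hn3, hn4, hn5, hn6⟩ :=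
    (e1.and (e2.and (e3.and (hu2.and (e4.and e5))))).exists
  apply hn4
  refine ⟨fun q hq => ⟨?_, ?_⟩, fun q hq => ?_⟩
  · have h1 := hn1 q hq
    have h2 : dist ((φ n q, B n z0) : ℂ × ℂ) (c, b) < δ := by
      rw [Prod.dist_eq]
      exact max_lt (by rw [dist_comm]; exact h1) (hn3.trans_le (min_le_left _ _))
    have h3 := hF2 h2
    rw [dist_eq_norm] at h3
    exact h3.le
  · have h1 := hn5 q hq
    have h2 := hn6
    rw [← dist_eq_norm]
    calc dist (p n q) (p n z0) ≤ dist (p n q) d + dist d (p n z0) := dist_triangle _ _ _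
      _ ≤ ε / 2 + ε / 2 := by
        rw [dist_comm] at h1
        rw [dist_comm] at h2
        gcongr
      _ = ε := by ring
  · have h1 := hn2 q hq
    have h2 := hn3.trans_le (min_le_right _ _)
    rw [← dist_eq_norm]
    calc dist (B n q) (B n z0) ≤ dist (B n q) b + dist b (B n z0) := dist_triangle _ _ _
      _ ≤ ε / 2 + ε / 2 := by
        rw [dist_comm] at h1
        rw [dist_comm] at h2
        gcongr
      _ = ε := by ring

end Crest.Agent.R102.Flat196
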