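import Mathlib
import Crest.Agent.R102.F7_389
import Crest.Agent.R102.RatGlueA_798
import Crest.Agent.R102.RATDefs_926

/-!
# Row 102, [H3]/RAT, leaf R3 (FOC), helper554

On the chain of `F7389.Chain`, for `0 < j ≤ N`, the pencil of lines `0` through the vertex `b j` is not
focused: with `q = D₁ (b j) / D₂ (b j)` one has `jac q (b j) ≠ 0`.

Proof: `q = c + ω u`, `u = N₁ / N₂`, `u (c, 0) = 1 / (2 j + 1)`, `b j = c + ω β j`, `β j (c, 0) = 2 j + 1`.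
-/

set_option autoImplicit false
set_option linter.unusedSectionVars false

open Set Filter Topology Metric TopologicalSpace

noncomputable section

namespace Crest.Agent.R102.Foc554

open Crest.Agent.R102.Glue798 Crest.Agent.R102.H3

/-- partial derivative in the direction `v` -/
def pd (F : ℂ × ℂ → ℂ) (v : ℂ × ℂ) : ℂ × ℂ → ℂ := fun p => fderiv ℂ F p v

/-- Jacobian of two functions -/
def jf (F G : ℂ × ℂ → ℂ) : ℂ × ℂ → ℂ :=
  fun p => pd F (1, 0) p * pd G (0, 1) p - pd F (0, 1) p * pd G (1, 0) p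

theorem an_pd {U : Set (ℂ × ℂ)} {F : ℂ × ℂ → ℂ} (h : AnalyticOnNhd ℂ F U) (v : ℂ × ℂ) :
    AnalyticOnNhd ℂ (pd F v) U := fun x hx =>
  ((ContinuousLinearMap.apply ℂ ℂ v).analyticAt _).comp (h x hx).fderiv

theorem an_jf {U : Set (ℂ × ℂ)} {F G : ℂ × ℂ → ℂ} (hF : AnalyticOnNhd ℂ F U)
    (hG : AnalyticOnNhd ℂ G U) : AnalyticOnNhd ℂ (jf F G) U :=
  ((an_pd hF _).mul (an_pd hG _)).sub ((an_pd hF _).mul (an_pd hG _))

section chain

variable {g : ℂ → ℂ} {c₀ : ℂ} {N : ℕ} {ρ : ℝ} {β m k q q' : ℕ → ℂ × ℂ → ℂ}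

/-- the polydisc -/
def UU (c₀ : ℂ) (ρ : ℝ) : Set (ℂ × ℂ) := ball c₀ ρ ×ˢ ball 0 ρ

theorem isOpen_UU : IsOpen (UU c₀ ρ) := isOpen_ball.prod isOpen_ball

theorem isPreconnected_UU : IsPreconnected (UU c₀ ρ) :=
  ((convex_ball c₀ ρ).prod (convex_ball 0 ρ)).isPreconnected

theorem neg_mem {p : ℂ × ℂ} (hp : p ∈ UU c₀ ρ) : ((p.1, -p.2) : ℂ × ℂ) ∈ UU c₀ ρ := by
  refine ⟨hp.1, ?_⟩
  have := hp.2
  simpa [mem_ball_zero_iff] using this

/-- vertex `j` -/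
def bf (β : ℕ → ℂ × ℂ → ℂ) (j : ℕ) : ℂ × ℂ → ℂ := fun p => p.1 + p.2 * β j p

/-- `q₋` -/
def qm (q : ℕ → ℂ × ℂ → ℂ) : ℂ × ℂ → ℂ := fun p => q 0 (p.1, -p.2)

theorem an_bf (h : F7389.Chain g c₀ N ρ β m k q q') {j : ℕ} (hj : j ≤ N) :
    AnalyticOnNhd ℂ (bf β j) (UU c₀ ρ) := fun x hx =>
  analyticAt_fst.add (analyticAt_snd.mul (h.an_β j hj x hx))

theorem an_qm (h : F7389.Chain g c₀ N ρ β m k q q') : AnalyticOnNhd ℂ (qm q) (UU c₀ ρ) := by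
  intro x hx
  have h1 : AnalyticAt ℂ (fun p : ℂ × ℂ => ((p.1, -p.2) : ℂ × ℂ)) x :=
    analyticAt_fst.prod analyticAt_snd.neg
  exact (h.an_q 0 (Nat.zero_le _) _ (neg_mem hx)).comp_of_eq h1 rfl

/-- differentiated incidence, line `0` and vertex `0` -/
theorem dinc (h : F7389.Chain g c₀ N ρ β m k q q') {p : ℂ × ℂ} (hp : p ∈ UU c₀ ρ) (v : ℂ × ℂ) :
    p.2 * q 0 p * (v.1 + v.2) = pd (m 0) v p * (p.1 + p.2) + pd (k 0) v p := by
  have e0 : β 0 p = 1 := by rw [h.β_zero]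
  have hg : HasDerivAt g (deriv g (p.1 + p.2)) (p.1 + p.2) := by
    have := (h.an_g 0 (Nat.zero_le _) p hp).differentiableAt.hasDerivAt
    rwa [e0, mul_one] at this
  have hs : HasFDerivAt (fun p : ℂ × ℂ => p.1 + p.2)
      (ContinuousLinearMap.fst ℂ ℂ ℂ + ContinuousLinearMap.snd ℂ ℂ ℂ) p :=
    hasFDerivAt_fst.add hasFDerivAt_snd
  have h1 := hg.comp_hasFDerivAt p hs
  have hm := (h.an_m 0 (Nat.zero_le _) p hp).differentiableAt.hasFDerivAt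
  have hk := (h.an_k 0 (Nat.zero_le _) p hp).differentiableAt.hasFDerivAt
  have h2 := (hm.mul hs).add hk
  have h3 : g ∘ (fun p : ℂ × ℂ => p.1 + p.2) =ᶠ[𝓝 p]
      ((m 0 * fun p : ℂ × ℂ => p.1 + p.2) + k 0) := by
    filter_upwards [isOpen_UU.mem_nhds hp] with x hx
    have := h.inc 0 (Nat.zero_le _) x hx
    rw [h.β_zero] at this
    simpa using this
  have h4 := h1.unique (h2.congr_of_eventuallyEq h3)
  have h5 := congrArg (fun L : ℂ × ℂ →L[ℂ] ℂ => L v) h4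
  simp at h5
  have h6 := h.q_eq 0 (Nat.zero_le _) p hp
  rw [e0, mul_one] at h6
  simp only [pd]
  linear_combination h5 - (v.1 + v.2) * h6

/-- differentiated incidence, line `0` and the point `c - ω` -/
theorem dchord (h : F7389.Chain g c₀ N ρ β m k q q') {p : ℂ × ℂ} (hp : p ∈ UU c₀ ρ) (v : ℂ × ℂ) :
    -(p.2 * qm q p) * (v.1 - v.2) = pd (m 0) v p * (p.1 - p.2) + pd (k 0) v p := by
  have hg : HasDerivAt g (deriv g (p.1 - p.2)) (p.1 - p.2) :=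
    (h.an_g' p hp).differentiableAt.hasDerivAt
  have hs : HasFDerivAt (fun p : ℂ × ℂ => p.1 - p.2)
      (ContinuousLinearMap.fst ℂ ℂ ℂ - ContinuousLinearMap.snd ℂ ℂ ℂ) p :=
    hasFDerivAt_fst.sub hasFDerivAt_snd
  have h1 := hg.comp_hasFDerivAt p hs
  have hm := (h.an_m 0 (Nat.zero_le _) p hp).differentiableAt.hasFDerivAt
  have hk := (h.an_k 0 (Nat.zero_le _) p hp).differentiableAt.hasFDerivAt
  have h2 := (hm.mul hs).add hk
  have h3 : g ∘ (fun p : ℂ × ℂ => p.1 - p.2) =ᶠ[𝓝 p]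
      ((m 0 * fun p : ℂ × ℂ => p.1 - p.2) + k 0) := by
    filter_upwards [isOpen_UU.mem_nhds hp] with x hx
    exact h.chord x hx
  have h4 := h1.unique (h2.congr_of_eventuallyEq h3)
  have h5 := congrArg (fun L : ℂ × ℂ →L[ℂ] ℂ => L v) h4
  simp at h5
  have h6 := h.q_eq 0 (Nat.zero_le _) _ (neg_mem hp)
  rw [h.β_zero, h.even_m p hp] at h6
  have h7 : deriv g (p.1 - p.2) - m 0 p = -p.2 * qm q p := by
    rw [qm, ← h6]
    simp [sub_eq_add_neg]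
  simp only [pd]
  linear_combination h5 - (v.1 - v.2) * h7

/-- numerators -/
def N₁ (β q : ℕ → ℂ × ℂ → ℂ) (j : ℕ) : ℂ × ℂ → ℂ := fun p =>
  pd (bf β j) (1, 0) p * (qm q p + q 0 p) + pd (bf β j) (0, 1) p * (qm q p - q 0 p)

/-- denominators -/
def N₂ (β q : ℕ → ℂ × ℂ → ℂ) (j : ℕ) : ℂ × ℂ → ℂ := fun p =>
  pd (bf β j) (1, 0) p * (qm q p - q 0 p) + pd (bf β j) (0, 1) p * (qm q p + q 0 p)

/-- `P = c N₂ + ω N₁` -/
def PP (β q : ℕ → ℂ × ℂ → ℂ) (j : ℕ) : ℂ × ℂ → ℂ := fun p =>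
  p.1 * N₂ β q j p + p.2 * N₁ β q j p

theorem an_N₁ (h : F7389.Chain g c₀ N ρ β m k q q') {j : ℕ} (hj : j ≤ N) :
    AnalyticOnNhd ℂ (N₁ β q j) (UU c₀ ρ) :=
  ((an_pd (an_bf h hj) _).mul ((an_qm h).add (h.an_q 0 (Nat.zero_le _)))).add
    ((an_pd (an_bf h hj) _).mul ((an_qm h).sub (h.an_q 0 (Nat.zero_le _))))

theorem an_N₂ (h : F7389.Chain g c₀ N ρ β m k q q') {j : ℕ} (hj : j ≤ N) :
    AnalyticOnNhd ℂ (N₂ β q j) (UU c₀ ρ) :=
  ((an_pd (an_bf h hj) _).mul ((an_qm h).sub (h.an_q 0 (Nat.zero_le _)))).add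
    ((an_pd (an_bf h hj) _).mul ((an_qm h).add (h.an_q 0 (Nat.zero_le _))))

theorem an_PP (h : F7389.Chain g c₀ N ρ β m k q q') {j : ℕ} (hj : j ≤ N) :
    AnalyticOnNhd ℂ (PP β q j) (UU c₀ ρ) := fun x hx =>
  (analyticAt_fst.mul (an_N₂ h hj x hx)).add (analyticAt_snd.mul (an_N₁ h hj x hx))

/-- `2 ω jac(b, k) = ω P` -/
theorem jb_k (h : F7389.Chain g c₀ N ρ β m k q q') {p : ℂ × ℂ} (hp : p ∈ UU c₀ ρ) (j : ℕ) :
    2 * p.2 * jf (bf β j) (k 0) p = p.2 * PP β q j p := by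
  have e1 := dinc h hp (1, 0)
  have e2 := dinc h hp (0, 1)
  have e3 := dchord h hp (1, 0)
  have e4 := dchord h hp (0, 1)
  simp only [add_zero, mul_one, zero_add, sub_zero, zero_sub] at e1 e2 e3 e4
  simp only [jf, PP, N₁, N₂]
  generalize pd (bf β j) (1, 0) p = bc
  generalize pd (bf β j) (0, 1) p = bw
  generalize pd (m 0) (1, 0) p = mc at *
  generalize pd (m 0) (0, 1) p = mw at *
  generalize pd (k 0) (1, 0) p = kc at *
  generalize pd (k 0) (0, 1) p = kw at *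
  linear_combination bc * ((p.1 - p.2) * e2 - (p.1 + p.2) * e4) -
    bw * ((p.1 - p.2) * e1 - (p.1 + p.2) * e3)

/-- `2 ω jac(m, b) = ω N₂` -/
theorem jm_b (h : F7389.Chain g c₀ N ρ β m k q q') {p : ℂ × ℂ} (hp : p ∈ UU c₀ ρ) (j : ℕ) :
    2 * p.2 * jf (m 0) (bf β j) p = p.2 * N₂ β q j p := by
  have e1 := dinc h hp (1, 0)
  have e2 := dinc h hp (0, 1)
  have e3 := dchord h hp (1, 0)
  have e4 := dchord h hp (0, 1)
  simp only [add_zero, mul_one, zero_add, sub_zero, zero_sub] at e1 e2 e3 e4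
  simp only [jf, N₂]
  generalize pd (bf β j) (1, 0) p = bc
  generalize pd (bf β j) (0, 1) p = bw
  generalize pd (m 0) (1, 0) p = mc at *
  generalize pd (m 0) (0, 1) p = mw at *
  generalize pd (k 0) (1, 0) p = kc at *
  generalize pd (k 0) (0, 1) p = kw at *
  linear_combination bw * (e3 - e1) - bc * (e4 - e2)

theorem ctr_mem (h : F7389.Chain g c₀ N ρ β m k q q') : ((c₀, 0) : ℂ × ℂ) ∈ UU c₀ ρ :=
  ⟨mem_ball_self h.ρ_pos, mem_ball_self h.ρ_pos⟩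

theorem pd_bf (h : F7389.Chain g c₀ N ρ β m k q q') {j : ℕ} (hj : j ≤ N) (v : ℂ × ℂ) :
    pd (bf β j) v (c₀, 0) = v.1 + v.2 * (2 * j + 1) := by
  have hβ := (h.an_β j hj _ (ctr_mem h)).differentiableAt.hasFDerivAt
  have h1 : HasFDerivAt (bf β j) (ContinuousLinearMap.fst ℂ ℂ ℂ +
      (((c₀, 0) : ℂ × ℂ).2 • fderiv ℂ (β j) (c₀, 0) +
        β j (c₀, 0) • ContinuousLinearMap.snd ℂ ℂ ℂ)) (c₀, 0) :=
    hasFDerivAt_fst.add (hasFDerivAt_snd.mul hβ)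
  rw [pd, h1.fderiv, h.β_c j hj c₀ (mem_ball_self h.ρ_pos)]
  simp
  ring

theorem qm_ctr : qm q (c₀, 0) = q 0 (c₀, 0) := by simp [qm]

theorem N₁_ctr (h : F7389.Chain g c₀ N ρ β m k q q') {j : ℕ} (hj : j ≤ N) :
    N₁ β q j (c₀, 0) = 2 * q 0 (c₀, 0) := by
  rw [N₁, pd_bf h hj, pd_bf h hj, qm_ctr]
  simp
  ring

theorem N₂_ctr (h : F7389.Chain g c₀ N ρ β m k q q') {j : ℕ} (hj : j ≤ N) :
    N₂ β q j (c₀, 0) = 2 * q 0 (c₀, 0) * (2 * j + 1) := by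
  rw [N₂, pd_bf h hj, pd_bf h hj, qm_ctr]
  simp
  ring

theorem pd_PP (h : F7389.Chain g c₀ N ρ β m k q q') {j : ℕ} (hj : j ≤ N) (v : ℂ × ℂ) :
    pd (PP β q j) v (c₀, 0) = v.1 * N₂ β q j (c₀, 0) + c₀ * pd (N₂ β q j) v (c₀, 0) +
      v.2 * N₁ β q j (c₀, 0) := by
  have h1 := (an_N₁ h hj _ (ctr_mem h)).differentiableAt.hasFDerivAt
  have h2 := (an_N₂ h hj _ (ctr_mem h)).differentiableAt.hasFDerivAt
  have h3 : HasFDerivAt (PP β q j) ((((c₀, 0) : ℂ × ℂ).1 • fderiv ℂ (N₂ β q j) (c₀, 0) +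
      N₂ β q j (c₀, 0) • ContinuousLinearMap.fst ℂ ℂ ℂ) +
      (((c₀, 0) : ℂ × ℂ).2 • fderiv ℂ (N₁ β q j) (c₀, 0) +
        N₁ β q j (c₀, 0) • ContinuousLinearMap.snd ℂ ℂ ℂ)) (c₀, 0) :=
    (hasFDerivAt_fst.mul h2).add (hasFDerivAt_snd.mul h1)
  rw [pd, h3.fderiv]
  simp [pd]
  ring

/-- `R = N₂ jac(P, b) - P jac(N₂, b)` -/
def RR (β q : ℕ → ℂ × ℂ → ℂ) (j : ℕ) : ℂ × ℂ → ℂ := fun p =>
  N₂ β q j p * jf (PP β q j) (bf β j) p - PP β q j p * jf (N₂ β q j) (bf β j) p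

theorem an_RR (h : F7389.Chain g c₀ N ρ β m k q q') {j : ℕ} (hj : j ≤ N) :
    AnalyticOnNhd ℂ (RR β q j) (UU c₀ ρ) :=
  ((an_N₂ h hj).mul (an_jf (an_PP h hj) (an_bf h hj))).sub
    ((an_PP h hj).mul (an_jf (an_N₂ h hj) (an_bf h hj)))

theorem RR_ctr (h : F7389.Chain g c₀ N ρ β m k q q') {j : ℕ} (hj : j ≤ N) :
    RR β q j (c₀, 0) = 16 * q 0 (c₀, 0) ^ 2 * (2 * j + 1) * (j * (j + 1)) := by
  simp only [RR, jf]
  rw [pd_PP h hj, pd_PP h hj, pd_bf h hj, pd_bf h hj]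
  have h2 : PP β q j (c₀, 0) = c₀ * N₂ β q j (c₀, 0) := by simp [PP]
  rw [h2, N₁_ctr h hj, N₂_ctr h hj]
  simp only
  ring

theorem RR_ne (h : F7389.Chain g c₀ N ρ β m k q q') {j : ℕ} (hj : j ≤ N) (h0 : 0 < j) :
    RR β q j (c₀, 0) ≠ 0 := by
  rw [RR_ctr h hj]
  have h1 : q 0 (c₀, 0) ≠ 0 := h.q_ne 0 (Nat.zero_le _) _ (ctr_mem h)
  have h2 : (2 * (j : ℂ) + 1) ≠ 0 := by
    have : ((2 * j + 1 : ℕ) : ℂ) ≠ 0 := Nat.cast_ne_zero.mpr (by omega)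
    push_cast at this
    exact this
  have h3 : (j : ℂ) * (j + 1) ≠ 0 := by
    have : ((j * (j + 1) : ℕ) : ℂ) ≠ 0 := Nat.cast_ne_zero.mpr (by positivity)
    push_cast at this
    exact this
  exact mul_ne_zero (mul_ne_zero (mul_ne_zero (by norm_num) (pow_ne_zero 2 h1)) h2) h3

theorem N₂_ne (h : F7389.Chain g c₀ N ρ β m k q q') {j : ℕ} (hj : j ≤ N) :
    N₂ β q j (c₀, 0) ≠ 0 := by
  rw [N₂_ctr h hj]
  have h1 : q 0 (c₀, 0) ≠ 0 := h.q_ne 0 (Nat.zero_le _) _ (ctr_mem h)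
  have h2 : (2 * (j : ℂ) + 1) ≠ 0 := by
    have : ((2 * j + 1 : ℕ) : ℂ) ≠ 0 := Nat.cast_ne_zero.mpr (by omega)
    push_cast at this
    exact this
  exact mul_ne_zero (mul_ne_zero (by norm_num) h1) h2

end chain

/-! ### the field of fractions -/

section frac

theorem pdH_toH' {W : Opens (ℂ × ℂ)} {F : ℂ × ℂ → ℂ} (h : AnalyticOnNhd ℂ F W) (v : ℂ × ℂ) :
    pdH W v (toH W F) = toH W (pd F v) := pdH_toH v h

/-- the Jacobian on `Hol W` -/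
abbrev jH {W : Opens (ℂ × ℂ)} (f h : Hol W) : Hol W := Glue798.jcb (pdH W (1, 0)) (pdH W (0, 1)) f h

theorem jH_apply {W : Opens (ℂ × ℂ)} {F G : ℂ × ℂ → ℂ} (hF : AnalyticOnNhd ℂ F W)
    (hG : AnalyticOnNhd ℂ G W) (x : W) : (jH (toH W F) (toH W G) : W → ℂ) x = jf F G x := by
  rw [jH, Glue798.jcb, pdH_toH' hF, pdH_toH' hF, pdH_toH' hG, pdH_toH' hG]
  simp only [Subalgebra.coe_sub, Subalgebra.coe_mul, Pi.sub_apply, Pi.mul_apply]
  rw [toH_apply (an_pd hF _), toH_apply (an_pd hF _), toH_apply (an_pd hG _),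
    toH_apply (an_pd hG _)]
  rfl

variable {g : ℂ → ℂ} {c₀ : ℂ} {N : ℕ} {ρ : ℝ} {β m k q q' : ℕ → ℂ × ℂ → ℂ}

/-- **(FOC)**: `W ⊆ ball c₀ ρ ×ˢ ball 0 ρ` nonempty, `D₁ = ∂/∂m₀`, `D₂ = ∂/∂k₀` (Cramer's rule) on a
field `M` containing `Hol W`. -/
theorem foc (h : F7389.Chain g c₀ N ρ β m k q q') {W : Opens (ℂ × ℂ)} [hne : Nonempty W]
    (hWU : (W : Set (ℂ × ℂ)) ⊆ ball c₀ ρ ×ˢ ball 0 ρ) {M : Type*} [Field M] [Algebra ℂ M]
    (a : Hol W →+* M) (ha : Function.Injective a) (D₁ D₂ : Derivation ℂ M M)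
    (hJ : a (jH (toH W (m 0)) (toH W (k 0))) ≠ 0)
    (h1 : ∀ f : Hol W, a (jH (toH W (m 0)) (toH W (k 0))) * D₁ (a f) = a (jH f (toH W (k 0))))
    (h2 : ∀ f : Hol W, a (jH (toH W (m 0)) (toH W (k 0))) * D₂ (a f) = a (jH (toH W (m 0)) f))
    {j : ℕ} (hj : j ≤ N) (h0 : 0 < j) (Q : M)
    (hQ : Q * D₂ (a (toH W (fun p => p.1 + p.2 * β j p))) =
      D₁ (a (toH W (fun p => p.1 + p.2 * β j p)))) :
    RAT.jac D₁ D₂ Q (a (toH W (fun p => p.1 + p.2 * β j p))) ≠ 0 := by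
  have hUU : (W : Set (ℂ × ℂ)) ⊆ UU c₀ ρ := hWU
  have cm := ctr_mem h
  have am : AnalyticOnNhd ℂ (m 0) W := (h.an_m 0 (Nat.zero_le _)).mono hWU
  have ak : AnalyticOnNhd ℂ (k 0) W := (h.an_k 0 (Nat.zero_le _)).mono hWU
  have ab : AnalyticOnNhd ℂ (bf β j) W := (an_bf h hj).mono hUU
  have aN : AnalyticOnNhd ℂ (N₂ β q j) W := (an_N₂ h hj).mono hUU
  have aP : AnalyticOnNhd ℂ (PP β q j) W := (an_PP h hj).mono hUU
  have aR : AnalyticOnNhd ℂ (RR β q j) W := (an_RR h hj).mono hUU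
  have aw : AnalyticOnNhd ℂ (fun p : ℂ × ℂ => p.2) (W : Set (ℂ × ℂ)) := fun x _ => analyticAt_snd
  -- nonzero elements
  have nR : toH W (RR β q j) ≠ 0 :=
    toH_ne_zero isPreconnected_UU hUU (an_RR h hj) cm (RR_ne h hj h0)
  have nN : toH W (N₂ β q j) ≠ 0 :=
    toH_ne_zero isPreconnected_UU hUU (an_N₂ h hj) cm (N₂_ne h hj)
  have nw : toH W (fun p : ℂ × ℂ => p.2) ≠ 0 := by
    have hx : ((c₀, ((ρ / 2 : ℝ) : ℂ)) : ℂ × ℂ) ∈ UU c₀ ρ := by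
      refine ⟨mem_ball_self h.ρ_pos, ?_⟩
      have := h.ρ_pos
      rw [mem_ball_zero_iff, Complex.norm_real, Real.norm_of_nonneg (by positivity)]
      linarith
    refine toH_ne_zero isPreconnected_UU hUU (F := fun p : ℂ × ℂ => p.2)
      (fun x _ => analyticAt_snd) hx ?_
    have := h.ρ_pos
    simp only
    rw [Complex.ofReal_ne_zero]
    positivity
  set μ := toH W (m 0) with hμ
  set κ := toH W (k 0) with hκ
  set b := toH W (bf β j) with hb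
  set P := toH W (PP β q j) with hP
  set R := toH W (N₂ β q j) with hR
  set w := toH W (fun p : ℂ × ℂ => p.2) with hw
  have e1 : 2 * w * jH b κ = w * P := by
    ext x
    simp only [Subalgebra.coe_mul, Pi.mul_apply]
    rw [jH_apply ab ak, toH_apply aw, toH_apply aP]
    exact jb_k h (hUU x.2) j
  have e2 : 2 * w * jH μ b = w * R := by
    ext x
    simp only [Subalgebra.coe_mul, Pi.mul_apply]
    rw [jH_apply am ab, toH_apply aw, toH_apply aN]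
    exact jm_b h (hUU x.2) j
  have e3 : R * jH P b - P * jH R b = toH W (RR β q j) := by
    ext x
    simp only [Subalgebra.coe_mul, Pi.mul_apply, Subalgebra.coe_sub, Pi.sub_apply]
    rw [jH_apply aP ab, jH_apply aN ab, toH_apply aN, toH_apply aP, toH_apply aR]
    rfl
  have inj0 : ∀ f : Hol W, f ≠ 0 → a f ≠ 0 := fun f hf h0 => hf (ha (by rw [h0, map_zero]))
  set J := a (jH μ κ) with hJd
  have d1 : 2 * (J * D₁ (a b)) = a P := by
    have := congrArg a e1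
    rw [map_mul, map_mul, map_mul, ← h1 b, map_ofNat] at this
    apply mul_left_cancel₀ (inj0 w nw)
    linear_combination this
  have d2 : 2 * (J * D₂ (a b)) = a R := by
    have := congrArg a e2
    rw [map_mul, map_mul, map_mul, ← h2 b, map_ofNat] at this
    apply mul_left_cancel₀ (inj0 w nw)
    linear_combination this
  -- `J jac(f, b) = jac_(c,ω)(f, b)`
  have plu : ∀ f : Hol W, jH f κ * jH μ b - jH μ f * jH b κ = jH μ κ * jH f b := by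
    intro f
    simp only [jH, Glue798.jcb]
    ring
  have dj : ∀ f : Hol W, J * RAT.jac D₁ D₂ (a f) (a b) = a (jH f b) := by
    intro f
    apply mul_left_cancel₀ hJ
    have := congrArg a (plu f)
    rw [map_sub, map_mul, map_mul, map_mul, ← h1 f, ← h2 f, ← h1 b, ← h2 b] at this
    rw [RAT.jac]
    linear_combination this
  have hq : Q * a R = a P := by
    change Q * D₂ (a b) = D₁ (a b) at hQ
    rw [← d1, ← d2]
    linear_combination 2 * J * hQ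
  have hq1 : Q * D₁ (a R) + a R * D₁ Q = D₁ (a P) := by
    rw [← hq, Derivation.leibniz, smul_eq_mul, smul_eq_mul]
  have hq2 : Q * D₂ (a R) + a R * D₂ Q = D₂ (a P) := by
    rw [← hq, Derivation.leibniz, smul_eq_mul, smul_eq_mul]
  intro hc
  change RAT.jac D₁ D₂ Q (a b) = 0 at hc
  have f1 := dj P
  have f2 := dj R
  have f3 := congrArg a e3
  rw [map_sub, map_mul, map_mul, ← f1, ← f2] at f3
  apply inj0 _ nR
  rw [← f3]
  rw [RAT.jac] at hc ⊢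
  rw [RAT.jac, ← hq1, ← hq2, ← hq]
  linear_combination J * a R * a R * hc

/-- **(FOC)** on the field of fractions, in the literal form of `RAT.Foc`. -/
theorem foc_fr (h : F7389.Chain g c₀ N ρ β m k q q') {W : Opens (ℂ × ℂ)} [hne : Nonempty W]
    [IsDomain (Hol W)] (hWU : (W : Set (ℂ × ℂ)) ⊆ ball c₀ ρ ×ˢ ball 0 ρ)
    (hu : IsUnit (jH (toH W (m 0)) (toH W (k 0)))) {n : ℕ} (hn : n ≤ N + 1)
    {b : ℕ → FractionRing (Hol W)}
    (hb : ∀ j < n, b j = algebraMap (Hol W) (FractionRing (Hol W))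
      (toH W (fun p => p.1 + p.2 * β j p))) :
    RAT.Foc (frD (dM (pdH W (1, 0)) (pdH W (0, 1)) (toH W (m 0)) (toH W (k 0))))
      (frD (dK (pdH W (1, 0)) (pdH W (0, 1)) (toH W (m 0)) (toH W (k 0)))) n b := by
  intro j h0 hj Q hQ
  have hinj := IsFractionRing.injective (Hol W) (FractionRing (Hol W))
  rw [hb j hj] at hQ ⊢
  have hi := inv_jcb hu
  refine foc h hWU (algebraMap (Hol W) (FractionRing (Hol W))) hinj _ _
    ?_ (fun f => ?_) (fun f => ?_) (by omega) h0 Q hQ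
  · intro h1
    exact hu.ne_zero (hinj (by rw [h1, map_zero]))
  · rw [frD_algebraMap, ← map_mul, dM_apply]
    congr 1
    rw [jH, jH, Glue798.jcb] at *
    rw [Glue798.jcb]
    linear_combination (pdH W (0, 1) (toH W (k 0)) * pdH W (1, 0) f -
      pdH W (1, 0) (toH W (k 0)) * pdH W (0, 1) f) * hi
  · rw [frD_algebraMap, ← map_mul, dK_apply]
    congr 1
    rw [jH, jH, Glue798.jcb] at *
    rw [Glue798.jcb]
    linear_combination (pdH W (1, 0) (toH W (m 0)) * pdH W (0, 1) f -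
      pdH W (0, 1) (toH W (m 0)) * pdH W (1, 0) f) * hi

end frac

end Crest.Agent.R102.Foc554
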