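import Crest.Agent.R102.Fol1_160

/-!
Row 102, leaf T3c (i): the Baire argument: the leaves without wandering intervals are dense.
The area lemma is a hypothesis here (`AreaL`).
-/

set_option autoImplicit false

namespace Crest.Agent.R102.S0

open Set Function Filter Topology

/-- `T` is the next-point map on pairs. -/
structure IsNext (P : ℝ) (q1 q2 : ℝ → ℝ → ℝ) (T : ℝ × ℝ → ℝ × ℝ) : Prop where
  fst : ∀ z ∈ Pairs P, (T z).1 = z.2
  mem : ∀ z ∈ Pairs P, T z ∈ Pairs P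
  refl : ∀ z ∈ Pairs P, q2 z.1 z.2 = q1 z.2 (T z).2

/-- The area lemma (no wandering open sets with bounded orbit), as a property of `T`. -/
def AreaL (P : ℝ) (T : ℝ × ℝ → ℝ × ℝ) : Prop :=
  ∀ C W : Set (ℝ × ℝ), IsCompact C → C ⊆ Pairs P → IsOpen W → W.Nonempty → W ⊆ Pairs P →
    (∀ k : ℕ, ∀ z ∈ W, ∃ m : ℤ, T^[k] z + ((m : ℝ) * P, (m : ℝ) * P) ∈ C) →
    (∀ k : ℕ, 1 ≤ k → ∀ z ∈ W, ∀ w ∈ W, ∀ m : ℤ,
      T^[k] z + ((m : ℝ) * P, (m : ℝ) * P) ≠ w) →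
    (∀ z ∈ W, ∀ w ∈ W, ∀ m : ℤ, z + ((m : ℝ) * P, (m : ℝ) * P) = w → z = w) → False

theorem TwistData.strictAntiOn_q1 {P : ℝ} {q1 q2 h : ℝ → ℝ → ℝ} (hT : TwistData P q1 q2 h)
    (s : ℝ) : StrictAntiOn (q1 s) (Ioo s (s + P)) := by
  apply strictAntiOn_of_deriv_neg (convex_Ioo _ _)
  · intro t ht
    exact (hT.der1 s t ht.1 ht.2).continuousAt.continuousWithinAt
  · intro t ht
    rw [interior_Ioo] at ht
    rw [(hT.der1 s t ht.1 ht.2).deriv]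
    have := hT.hpos s t ht.1 ht.2
    linarith

theorem TwistData.strictMonoOn_q2 {P : ℝ} {q1 q2 h : ℝ → ℝ → ℝ} (hT : TwistData P q1 q2 h)
    (s' : ℝ) : StrictMonoOn (fun s => q2 s s') (Ioo (s' - P) s') := by
  apply strictMonoOn_of_deriv_pos (convex_Ioo _ _)
  · intro t ht
    exact (hT.der2 t s' ht.2 (by linarith [ht.1])).continuousAt.continuousWithinAt
  · intro t ht
    rw [interior_Ioo] at ht
    rw [(hT.der2 t s' ht.2 (by linarith [ht.1])).deriv]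
    exact hT.hpos t s' ht.2 (by linarith [ht.1])

theorem map_add_int_of_per {f : ℝ → ℝ} {c : ℝ} (hf : ∀ x, f (x + 1) = f x + c) (m : ℤ) (x : ℝ) :
    f (x + m) = f x + m * c := by
  induction m using Int.induction_on with
  | zero => simp
  | succ i ih =>
    have := hf (x + i)
    push_cast at ih ⊢
    rw [← add_assoc, this, ih]; ring
  | pred i ih =>
    have := hf (x + (-(i:ℝ) - 1))
    push_cast at ih ⊢
    have h2 : x + (-(i:ℝ) - 1) + 1 = x + -(i:ℝ) := by ring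
    rw [h2, ih] at this
    linarith

variable {P : ℝ} {q1 q2 h : ℝ → ℝ → ℝ} {S g : ℝ → ℝ → ℝ}

/-- the parametrisation of the foliation by pairs -/
def Psi (S g : ℝ → ℝ → ℝ) (z : ℝ × ℝ) : ℝ × ℝ := (S z.1 z.2, S z.1 (g z.1 z.2))

theorem FolData.psi_mem (hF : FolData P q1 q2 S g) {b : ℝ} (hb : b ∈ Ioo (0:ℝ) 1) (x : ℝ) :
    Psi S g (b, x) ∈ Pairs P := ⟨hF.lo b hb x, hF.hi b hb x⟩

theorem FolData.psi_add (hF : FolData P q1 q2 S g) {b : ℝ} (hb : b ∈ Ioo (0:ℝ) 1) (x : ℝ)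
    (m : ℤ) : Psi S g (b, x + m) = Psi S g (b, x) + ((m : ℝ) * P, (m : ℝ) * P) := by
  have h1 := map_add_int_of_per (hF.perS b hb) m x
  have h2 := map_add_int_of_per (c := 1) (hF.perg b hb) m x
  have h3 := map_add_int_of_per (hF.perS b hb) m (g b x)
  simp only [Psi]
  rw [h1, h2, mul_one, h3]
  rfl

theorem FolData.psi_cont (hF : FolData P q1 q2 S g) :
    ContinuousOn (Psi S g) (Ioo 0 1 ×ˢ univ) := by
  refine hF.contS.prodMk ?_
  have : ContinuousOn (fun z : ℝ × ℝ => (z.1, g z.1 z.2)) (Ioo (0:ℝ) 1 ×ˢ univ) :=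
    continuousOn_fst.prodMk hF.contg
  exact hF.contS.comp this (fun z hz => ⟨hz.1, mem_univ _⟩)

theorem FolData.T_psi (hT : TwistData P q1 q2 h) (hF : FolData P q1 q2 S g)
    {T : ℝ × ℝ → ℝ × ℝ} (hN : IsNext P q1 q2 T) {b : ℝ} (hb : b ∈ Ioo (0:ℝ) 1) (x : ℝ) :
    T (Psi S g (b, x)) = Psi S g (b, g b x) := by
  have hm := hF.psi_mem hb x
  have h1 := hN.fst _ hm
  have h2 := hN.mem _ hm
  have h3 := hN.refl _ hm
  have h4 := hF.refl b hb x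
  simp only [Psi] at h1 h2 h3 ⊢
  rw [h4] at h3
  have h5 : S b (g b (g b x)) = (T (S b x, S b (g b x))).2 := by
    apply (hT.strictAntiOn_q1 (S b (g b x))).injOn _ _ h3
    · exact ⟨hF.lo b hb _, hF.hi b hb _⟩
    · have := h2
      rw [Pairs, mem_ofPred_eq, h1] at this
      exact this
  exact Prod.ext h1 h5.symm

theorem FolData.T_iter_psi (hT : TwistData P q1 q2 h) (hF : FolData P q1 q2 S g)
    {T : ℝ × ℝ → ℝ × ℝ} (hN : IsNext P q1 q2 T) {b : ℝ} (hb : b ∈ Ioo (0:ℝ) 1) (k : ℕ) :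
    ∀ x, T^[k] (Psi S g (b, x)) = Psi S g (b, (g b)^[k] x) := by
  induction k with
  | zero => intro x; rfl
  | succ k ih =>
    intro x
    rw [Function.iterate_succ_apply, Function.iterate_succ_apply, hF.T_psi hT hN hb, ih]

theorem FolData.cont_iter (hF : FolData P q1 q2 S g) (k : ℕ) (x : ℝ) :
    ContinuousOn (fun b => (g b)^[k] x) (Ioo 0 1) := by
  induction k with
  | zero => exact continuousOn_const
  | succ k ih =>
    have h1 : ContinuousOn (fun b => (b, (g b)^[k] x)) (Ioo (0:ℝ) 1) := continuousOn_id.prodMk ih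
    have h2 := hF.contg.comp h1 (fun b hb => ⟨hb, mem_univ _⟩)
    refine h2.congr ?_
    intro b _
    simp only [Function.iterate_succ_apply']
    rfl

theorem Wand.inj {g : ℝ → ℝ} {a c : ℝ} (hW : Wand g a c) {x y : ℝ} (hx : x ∈ Ioo a c)
    (hy : y ∈ Ioo a c) (m : ℤ) (hm : x + m = y) : m = 0 := by
  -- an interval containing `[t, t + 1)` is not wandering
  have key : ∀ t, t ∈ Ioo a c → t + 1 ∈ Ioo a c → False := by
    intro t ht ht1
    refine hW.2 1 le_rfl (-⌊g t - t⌋) t ht (t + Int.fract (g t - t)) ⟨?_, ?_⟩ ?_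
    · linarith [ht.1, Int.fract_nonneg (g t - t)]
    · linarith [ht1.2, Int.fract_lt_one (g t - t)]
    · rw [Function.iterate_one, Int.fract]
      push_cast; ring
  rcases lt_trichotomy m 0 with hm0 | hm0 | hm0
  · exfalso
    have : (m : ℝ) ≤ -1 := by exact_mod_cast (by omega : m ≤ -1)
    exact key y hy ⟨by linarith [hy.1], by linarith [hx.2]⟩
  · exact hm0
  · exfalso
    have : (1 : ℝ) ≤ m := by exact_mod_cast (by omega : 1 ≤ m)
    exact key x hx ⟨by linarith [hx.1], by linarith [hy.2]⟩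

/-- a fixed interval cannot be wandering for an open set of leaves. -/
theorem exists_not_wand_of_area (hT : TwistData P q1 q2 h) (hF : FolData P q1 q2 S g)
    {T : ℝ × ℝ → ℝ × ℝ} (hN : IsNext P q1 q2 T) (hA : AreaL P T) {u v a c : ℝ} (hu : 0 ≤ u)
    (huv : u < v) (hv : v ≤ 1) : ∃ b ∈ Ioo u v, ¬ Wand (g b) a c := by
  by_contra hcon
  push Not at hcon
  obtain ⟨u', hu'⟩ := exists_between huv
  obtain ⟨v', hv'⟩ := exists_between hu'.2
  have hsub : Icc u' v' ⊆ Ioo (0:ℝ) 1 := fun b hb =>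
    ⟨by linarith [hb.1, hu'.1], by linarith [hb.2, hv'.2]⟩
  have hsub2 : Icc u' v' ⊆ Ioo u v := fun b hb =>
    ⟨by linarith [hb.1, hu'.1], by linarith [hb.2, hv'.2]⟩
  have hIo : Ioo u' v' ⊆ Icc u' v' := Ioo_subset_Icc_self
  have hac : a < c := (hcon u' ⟨hu'.1, hu'.2⟩).1
  have hin : ∀ z ∈ Ioo u' v' ×ˢ Ioo a c, z.1 ∈ Ioo (0:ℝ) 1 := fun z hz => hsub (hIo hz.1)
  refine hA (Psi S g '' (Icc u' v' ×ˢ Icc 0 1)) (Psi S g '' (Ioo u' v' ×ˢ Ioo a c)) ?_ ?_ ?_ ?_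
    ?_ ?_ ?_ ?_
  · apply (isCompact_Icc.prod isCompact_Icc).image_of_continuousOn
    exact hF.psi_cont.mono (fun z hz => ⟨hsub hz.1, mem_univ _⟩)
  · rintro _ ⟨z, hz, rfl⟩
    exact hF.psi_mem (hsub hz.1) z.2
  · exact hF.isOpen _ (isOpen_Ioo.prod isOpen_Ioo) (fun z hz => ⟨hin z hz, mem_univ _⟩)
  · exact ((nonempty_Ioo.2 hv'.1).prod (nonempty_Ioo.2 hac)).image _
  · rintro _ ⟨z, hz, rfl⟩
    exact hF.psi_mem (hin z hz) z.2
  · rintro k _ ⟨⟨b, t⟩, hz, rfl⟩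
    have hb : b ∈ Ioo (0:ℝ) 1 := hin _ hz
    refine ⟨-⌊(g b)^[k] t⌋, ?_⟩
    rw [hF.T_iter_psi hT hN hb, ← hF.psi_add hb]
    refine ⟨(b, (g b)^[k] t + ((-⌊(g b)^[k] t⌋ : ℤ) : ℝ)), ⟨hIo hz.1, ?_⟩, rfl⟩
    push_cast
    have h1 := Int.fract_nonneg ((g b)^[k] t)
    have h2 := Int.fract_lt_one ((g b)^[k] t)
    rw [Int.fract] at h1 h2
    exact ⟨by linarith, by linarith⟩
  · rintro k hk _ ⟨⟨b, t⟩, hz, rfl⟩ _ ⟨⟨b', t'⟩, hz', rfl⟩ m heq
    have hb : b ∈ Ioo (0:ℝ) 1 := hin _ hz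
    have hb' : b' ∈ Ioo (0:ℝ) 1 := hin _ hz'
    rw [hF.T_iter_psi hT hN hb, ← hF.psi_add hb] at heq
    simp only [Psi, Prod.mk.injEq] at heq
    obtain ⟨h1, h2⟩ := hF.inj b hb b' hb' _ _ heq.1 heq.2
    exact (hcon b (hsub2 (hIo hz.1))).2 k hk m t hz.2 t' hz'.2 h2
  · rintro _ ⟨⟨b, t⟩, hz, rfl⟩ _ ⟨⟨b', t'⟩, hz', rfl⟩ m heq
    have hb : b ∈ Ioo (0:ℝ) 1 := hin _ hz
    have hb' : b' ∈ Ioo (0:ℝ) 1 := hin _ hz'
    have heq' := heq
    rw [← hF.psi_add hb] at heq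
    simp only [Psi, Prod.mk.injEq] at heq
    obtain ⟨h1, h2⟩ := hF.inj b hb b' hb' _ _ heq.1 heq.2
    have hm := (hcon b (hsub2 (hIo hz.1))).inj hz.2 hz'.2 m h2
    subst hm
    rw [← heq']
    ext <;> simp

theorem isOpen_not_wand (hF : FolData P q1 q2 S g) {a c : ℝ} (hac : a < c) :
    IsOpen {b | b ∈ Ioo (0:ℝ) 1 ∧ ¬ Wand (g b) a c} := by
  rw [isOpen_iff_mem_nhds]
  rintro b0 ⟨hb0, hw⟩
  unfold Wand at hw
  push Not at hw
  obtain ⟨k, hk, m, x, hx, y, hy, hxy⟩ := hw hac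
  have hc : ContinuousOn (fun b => (g b)^[k] x + (m : ℝ)) (Ioo 0 1) :=
    (hF.cont_iter k x).add continuousOn_const
  have hca : ContinuousAt (fun b => (g b)^[k] x + (m : ℝ)) b0 :=
    hc.continuousAt (Ioo_mem_nhds hb0.1 hb0.2)
  have h1 : ∀ᶠ b in 𝓝 b0, (g b)^[k] x + (m : ℝ) ∈ Ioo a c :=
    hca.eventually_mem (by rw [hxy]; exact Ioo_mem_nhds hy.1 hy.2)
  filter_upwards [h1, Ioo_mem_nhds hb0.1 hb0.2] with b hb1 hb2
  exact ⟨hb2, fun hW => hW.2 k hk m x hx _ hb1 rfl⟩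

/-- **Good leaves are dense** (with the area lemma as hypothesis). -/
theorem exists_good_leaf_of_area (hT : TwistData P q1 q2 h) (hF : FolData P q1 q2 S g)
    {T : ℝ × ℝ → ℝ × ℝ} (hN : IsNext P q1 q2 T) (hA : AreaL P T) {u v : ℝ} (hu : 0 ≤ u)
    (huv : u < v) (hv : v ≤ 1) : ∃ b ∈ Ioo u v, ∀ a c, ¬ Wand (g b) a c := by
  -- the countable family
  let ι := {r : ℚ × ℚ // r.1 < r.2}
  let U : ι → Set ℝ := fun r =>
    {b | b ∈ Ioo (0:ℝ) 1 ∧ ¬ Wand (g b) (r.1.1 : ℝ) (r.1.2 : ℝ)} ∪ (Icc (0:ℝ) 1)ᶜ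
  have hUo : ∀ r, IsOpen (U r) := by
    intro r
    exact (isOpen_not_wand hF (by exact_mod_cast r.2)).union isClosed_Icc.isOpen_compl
  have hUd : ∀ r, Dense (U r) := by
    intro r
    apply dense_of_exists_between
    intro x y hxy
    by_cases hx0 : x < 0
    · obtain ⟨z, hz1, hz2⟩ := exists_between (lt_min hx0 hxy)
      refine ⟨z, Or.inr ?_, hz1, hz2.trans_le (min_le_right _ _)⟩
      intro hz
      exact absurd hz.1 (not_le.2 (hz2.trans_le (min_le_left _ _)))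
    · by_cases hy1 : 1 < y
      · obtain ⟨z, hz1, hz2⟩ := exists_between (max_lt hy1 hxy)
        refine ⟨z, Or.inr ?_, (le_max_right _ _).trans_lt hz1, hz2⟩
        intro hz
        exact absurd hz.2 (not_le.2 ((le_max_left _ _).trans_lt hz1))
      · push Not at hx0 hy1
        obtain ⟨b, hb, hW⟩ := exists_not_wand_of_area (a := (r.1.1 : ℝ)) (c := (r.1.2 : ℝ))
          hT hF hN hA hx0 hxy hy1
        exact ⟨b, Or.inl ⟨⟨hx0.trans_lt hb.1, hb.2.trans_le hy1⟩, hW⟩, hb.1, hb.2⟩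
  have hD : Dense (⋂ r, U r) := dense_iInter_of_isOpen hUo hUd
  obtain ⟨b, hb, hb1, hb2⟩ := hD.exists_between huv
  refine ⟨b, ⟨hb1, hb2⟩, ?_⟩
  intro a c hW
  obtain ⟨a', ha1, ha2⟩ := exists_rat_btwn hW.1
  obtain ⟨c', hc1, hc2⟩ := exists_rat_btwn ha2
  have hr : a' < c' := by exact_mod_cast hc1
  have := mem_iInter.1 hb ⟨(a', c'), hr⟩
  rcases this with ⟨_, hn⟩ | hn
  · apply hn
    refine ⟨hc1, ?_⟩
    intro k hk m x hx y hy
    exact hW.2 k hk m x ⟨ha1.trans hx.1, hx.2.trans hc2⟩ y ⟨ha1.trans hy.1, hy.2.trans hc2⟩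
  · exact hn ⟨by linarith, by linarith⟩

end Crest.Agent.R102.S0
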