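import Mathlib.Dynamics.Circle.RotationNumber.TranslationNumber
import Mathlib.Topology.Instances.AddCircle.DenseSubgroup
import Mathlib.Topology.Baire.Lemmas
import Mathlib.Topology.Baire.CompleteMetrizable
import Mathlib.Topology.Order.Monotone
import Crest.Agent.R102.GeoDefs_821

/-!
Row 102, leaf T3c (i) + (ii): the circle lemma (no wandering intervals ⇒ conjugate to a rotation)
and the Baire argument (good leaves are dense).
-/

set_option autoImplicit false

namespace Crest.Agent.R102.S0

open Set Function Filter Topology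

/-- `(a,b)` is a wandering interval of the circle map with lift `g`. -/
def Wand (g : ℝ → ℝ) (a b : ℝ) : Prop :=
  a < b ∧ ∀ k : ℕ, 1 ≤ k → ∀ m : ℤ, ∀ x ∈ Set.Ioo a b, ∀ y ∈ Set.Ioo a b, g^[k] x + m ≠ y

theorem conj_irrational (f : CircleDeg1Lift) (hc : Continuous f) (hm : StrictMono f)
    (hir : Irrational f.translationNumber) (hw : ∀ a b, ¬ Wand f a b) :
    ∃ h : ℝ → ℝ, Continuous h ∧ StrictMono h ∧ (∀ x, h (x + 1) = h x + 1) ∧
      ∀ x, h (f x) = h x + f.translationNumber := by
  set ρ := f.translationNumber with hρ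
  have hbij : Bijective f := ⟨hm.injective, CircleDeg1Lift.continuous_iff_surjective f |>.1 hc⟩
  obtain ⟨F, hF⟩ := CircleDeg1Lift.semiconj_of_bijective_of_translationNumber_eq
    (f₁ := f) (f₂ := (CircleDeg1Lift.translate (Multiplicative.ofAdd ρ) : CircleDeg1Liftˣ))
    hbij (CircleDeg1Lift.isUnit_iff_bijective.1 (Units.isUnit _))
    (by rw [CircleDeg1Lift.translationNumber_translate])
  have hFf : ∀ x, F (f x) = F x + ρ := by
    intro x
    have := hF x
    rw [CircleDeg1Lift.translate_apply] at this
    rw [this, add_comm]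
  have hF1 : ∀ x, F (x + 1) = F x + 1 := F.map_add_one
  -- dense range
  have hdense : DenseRange F := by
    have key : ∀ z ∈ AddSubgroup.closure ({ρ, 1} : Set ℝ), ∀ r ∈ range F,
        r + z ∈ range F ∧ r - z ∈ range F := by
      intro z hz
      induction hz using AddSubgroup.closure_induction with
      | mem z hz =>
        rintro r ⟨x, rfl⟩
        rcases hz with rfl | hz
        · obtain ⟨y, rfl⟩ := hbij.2 x
          refine ⟨⟨f (f y), by rw [hFf (f y)]⟩, ⟨y, by rw [hFf y]; ring⟩⟩
        · rw [mem_singleton_iff] at hz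
          subst hz
          refine ⟨⟨x + 1, hF1 x⟩, ⟨x - 1, ?_⟩⟩
          have := hF1 (x - 1)
          rw [sub_add_cancel] at this
          rw [this]; ring
      | zero => intro r hr; simpa using hr
      | add a b _ _ iha ihb =>
        intro r hr
        refine ⟨?_, ?_⟩
        · have := (ihb _ (iha r hr).1).1
          rwa [add_assoc] at this
        · have := (ihb _ (iha r hr).2).2
          rwa [sub_sub] at this
      | neg a _ iha =>
        intro r hr
        refine ⟨?_, ?_⟩
        · rw [← sub_eq_add_neg]; exact (iha r hr).2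
        · rw [sub_neg_eq_add]; exact (iha r hr).1
    have hD : Dense (AddSubgroup.closure ({ρ, 1} : Set ℝ) : Set ℝ) := by
      rw [dense_addSubgroupClosure_pair_iff]
      simpa using hir
    apply dense_of_exists_between
    intro a b hab
    obtain ⟨z, hz, hz1, hz2⟩ := hD.exists_between (sub_lt_sub_right hab (F 0))
    refine ⟨F 0 + z, (key z hz _ ⟨0, rfl⟩).1, by linarith, by linarith⟩
  have hFc : Continuous F := F.monotone.continuous_of_denseRange hdense
  have hFs : StrictMono F := by
    refine F.monotone.strictMono_of_injective ?_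
    by_contra hni
    have : ∃ x y, x < y ∧ F x = F y := by
      simp only [Injective, not_forall] at hni
      obtain ⟨x, y, hxy, hne⟩ := hni
      rcases lt_or_gt_of_ne hne with h | h
      · exact ⟨x, y, h, hxy⟩
      · exact ⟨y, x, h, hxy.symm⟩
    obtain ⟨a, b, hab, hFab⟩ := this
    have hconst : ∀ u ∈ Ioo a b, F u = F a := fun u hu =>
      le_antisymm (hFab ▸ F.monotone hu.2.le) (F.monotone hu.1.le)
    apply hw a b
    refine ⟨hab, ?_⟩
    intro k hk m x hx y hy hxy
    have h1 : ∀ k : ℕ, ∀ x, F (f^[k] x) = F x + k * ρ := by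
      intro k
      induction k with
      | zero => intro x; simp
      | succ k ih =>
        intro x
        rw [Function.iterate_succ_apply, ih, hFf]
        push_cast; ring
    have h2 : F (f^[k] x + m) = F a + k * ρ + m := by
      rw [F.map_add_int, h1, hconst x hx]
    rw [hxy, hconst y hy] at h2
    have h3 : (k : ℝ) * ρ = ((-m : ℤ) : ℝ) := by push_cast; linarith
    have hk0 : (k : ℝ) ≠ 0 := by exact_mod_cast (by omega : k ≠ 0)
    apply hir
    refine ⟨((-m : ℤ) : ℚ) / (k : ℚ), ?_⟩
    push_cast
    push_cast at h3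
    field_simp
    linarith
  exact ⟨F, hFc, hFs, hF1, hFf⟩

theorem pow_eq_of_rational (f : CircleDeg1Lift) (hc : Continuous f) (hm : StrictMono f)
    {j : ℤ} {n : ℕ} (hn : 0 < n) (hcop : j.natAbs.Coprime n)
    (hτ : f.translationNumber = (j : ℝ) / n) (hw : ∀ a b, ¬ Wand f a b) :
    ∀ x, f^[n] x = x + j := by
  by_contra hne
  push Not at hne
  obtain ⟨x, hx⟩ := hne
  set G : ℝ → ℝ := fun y => f^[n] y - j with hG
  have hGc : Continuous G := (hc.iterate n).sub continuous_const
  have hGm : StrictMono G := fun a b hab => sub_lt_sub_right (hm.iterate n hab) _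
  have hG1 : ∀ y (m : ℤ), G (y + m) = G y + m := by
    intro y m
    simp only [hG]
    have := (f ^ n).map_add_int y m
    rw [CircleDeg1Lift.coe_pow] at this
    rw [this]; ring
  have hxG : G x ≠ x := by
    intro h
    apply hx
    simp only [hG] at h
    linarith
  obtain ⟨z, hz⟩ := (f.translationNumber_eq_rat_iff hc hn).1 hτ
  rw [CircleDeg1Lift.coe_pow] at hz
  have hzG : G z = z := by simp only [hG]; linarith
  set Z : Set ℝ := {y | G y = y} with hZ
  have hZc : IsClosed Z := isClosed_eq hGc continuous_id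
  have hZm : ∀ m : ℤ, z + m ∈ Z := by
    intro m
    show G (z + m) = z + m
    rw [hG1, hzG]
  -- the fixed points adjacent to x
  have hne1 : (Z ∩ Iic x).Nonempty := by
    refine ⟨z + (⌊x - z⌋ : ℤ), hZm _, ?_⟩
    have := Int.floor_le (x - z)
    show z + (⌊x - z⌋ : ℝ) ≤ x
    linarith
  have hne2 : (Z ∩ Ici x).Nonempty := by
    refine ⟨z + (⌈x - z⌉ : ℤ), hZm _, ?_⟩
    have := Int.le_ceil (x - z)
    show x ≤ z + (⌈x - z⌉ : ℝ)
    linarith
  have hbd1 : BddAbove (Z ∩ Iic x) := ⟨x, fun y hy => hy.2⟩
  have hbd2 : BddBelow (Z ∩ Ici x) := ⟨x, fun y hy => hy.2⟩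
  set c := sSup (Z ∩ Iic x) with hcdef
  set d := sInf (Z ∩ Ici x) with hddef
  have hcZ : c ∈ Z ∩ Iic x := (hZc.inter isClosed_Iic).csSup_mem hne1 hbd1
  have hdZ : d ∈ Z ∩ Ici x := (hZc.inter isClosed_Ici).csInf_mem hne2 hbd2
  have hcG : G c = c := hcZ.1
  have hdG : G d = d := hdZ.1
  have hcx : c < x := lt_of_le_of_ne hcZ.2 (by rintro h; apply hxG; rw [← h]; exact hcG)
  have hxd : x < d := lt_of_le_of_ne hdZ.2 (by rintro h; apply hxG; rw [h]; exact hdG)
  have hgap : ∀ y ∈ Z, y < d → y ≤ c := by
    intro y hy hyd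
    by_contra hyc
    push Not at hyc
    rcases le_total y x with h | h
    · exact absurd (le_csSup hbd1 ⟨hy, h⟩) (not_le.2 hyc)
    · exact absurd (csInf_le hbd2 ⟨hy, h⟩) (not_le.2 hyd)
  have hgap' : ∀ y ∈ Z, c < y → d ≤ y := by
    intro y hy hyc
    by_contra hyd
    push Not at hyd
    exact absurd (hgap y hy hyd) (not_le.2 hyc)
  -- iterates of `G`
  have hGl : ∀ l : ℕ, ∀ y, G^[l] y = f^[l * n] y - l * j := by
    intro l
    induction l with
    | zero => intro y; simp
    | succ l ih =>
      intro y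
      rw [Function.iterate_succ_apply', ih]
      have h1 := hG1 (f^[l * n] y) (-(l * j))
      push_cast at h1
      rw [← sub_eq_add_neg] at h1
      rw [h1]
      simp only [hG]
      rw [← Function.iterate_add_apply]
      have : n + l * n = (l + 1) * n := by ring
      rw [this]
      push_cast
      ring
  -- returning points
  have hret : ∀ u v, c < u → u < d → c < v → v < d → ∀ k : ℕ, 1 ≤ k → ∀ m : ℤ,
      f^[k] u + m = v → ∃ l : ℕ, 1 ≤ l ∧ v = G^[l] u := by
    intro u v hcu hud hcv hvd k hk m huv
    have hcomm : ∀ y, G y = y → G (f^[k] y + m) = f^[k] y + m := by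
      intro y hy
      rw [hG1]
      congr 1
      simp only [hG] at hy ⊢
      rw [← Function.iterate_add_apply, add_comm n k, Function.iterate_add_apply]
      have h2 : f^[n] y = y + j := by linarith
      rw [h2]
      have := (f ^ k).map_add_int y j
      rw [CircleDeg1Lift.coe_pow] at this
      rw [this]; ring
    have hAm : StrictMono (f^[k]) := hm.iterate k
    have h1 : f^[k] c + m ≤ c := by
      apply hgap _ (hcomm c hcG)
      have := hAm hcu
      linarith
    have h2 : d ≤ f^[k] d + m := by
      apply hgap' _ (hcomm d hdG)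
      have := hAm hud
      linarith
    have h3 : (f ^ k).translationNumber ≤ ((-m : ℤ) : ℝ) := by
      apply CircleDeg1Lift.translationNumber_le_of_le_add_int (x := c)
      rw [CircleDeg1Lift.coe_pow]
      push_cast
      linarith
    have h4 : ((-m : ℤ) : ℝ) ≤ (f ^ k).translationNumber := by
      apply CircleDeg1Lift.le_translationNumber_of_add_int_le (x := d)
      rw [CircleDeg1Lift.coe_pow]
      push_cast
      linarith
    have h5 : (k : ℝ) * ((j : ℝ) / n) = -m := by
      have := le_antisymm h3 h4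
      rw [CircleDeg1Lift.translationNumber_pow, hτ] at this
      push_cast at this
      exact this
    have hn0 : (n : ℝ) ≠ 0 := by exact_mod_cast hn.ne'
    have h6 : (k : ℤ) * j = -m * n := by
      have : (k : ℝ) * j = -m * n := by
        field_simp at h5
        linarith
      exact_mod_cast this
    have h7 : n ∣ k := by
      have h8 : (n : ℤ) ∣ k * j := ⟨-m, by rw [h6]; ring⟩
      have h9 : n ∣ k * j.natAbs := by
        have := Int.natAbs_dvd_natAbs.2 h8
        simpa [Int.natAbs_mul] using this
      exact (Nat.Coprime.symm hcop).dvd_of_dvd_mul_right h9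
    obtain ⟨l, rfl⟩ := h7
    have hl : 1 ≤ l := by
      rcases Nat.eq_zero_or_pos l with h | h
      · subst h; simp at hk
      · exact h
    refine ⟨l, hl, ?_⟩
    have h10 : (l : ℝ) * j = -m := by
      have : ((n * l : ℕ) : ℝ) * j = -m * n := by exact_mod_cast h6
      push_cast at this
      have h11 : (n : ℝ) * (l * j + m) = 0 := by linarith
      rcases mul_eq_zero.1 h11 with h | h
      · exact absurd h hn0
      · linarith
    rw [hGl, ← huv, mul_comm n l]
    linarith
  rcases lt_or_gt_of_ne hxG with hlt | hgt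
  · -- `G x < x`
    apply hw (G x) x
    refine ⟨hlt, ?_⟩
    intro k hk m u hu v hv huv
    have hcGx : c < G x := by rw [← hcG]; exact hGm hcx
    obtain ⟨l, hl, hvl⟩ := hret u v (hcGx.trans hu.1) (hu.2.trans hxd) (hcGx.trans hv.1)
      (hv.2.trans hxd) k hk m huv
    have h1 : G^[l] u < G^[l] x := (hGm.iterate l) hu.2
    have h2 : G^[l] x ≤ G^[1] x := (hGm.monotone.antitone_iterate_of_map_le hlt.le) hl
    rw [Function.iterate_one] at h2
    have := hv.1
    linarith
  · apply hw x (G x)
    refine ⟨hgt, ?_⟩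
    intro k hk m u hu v hv huv
    have hGxd : G x < d := by rw [← hdG]; exact hGm hxd
    obtain ⟨l, hl, hvl⟩ := hret u v (hcx.trans hu.1) (hu.2.trans hGxd) (hcx.trans hv.1)
      (hv.2.trans hGxd) k hk m huv
    have h1 : G^[l] x < G^[l] u := (hGm.iterate l) hu.1
    have h2 : G^[1] x ≤ G^[l] x := (hGm.monotone.monotone_iterate_of_le_map hgt.le) hl
    rw [Function.iterate_one] at h2
    have := hv.2
    linarith

theorem conj_rational (f : CircleDeg1Lift) (hc : Continuous f) (hm : StrictMono f)
    {j : ℤ} {n : ℕ} (hn : 0 < n) (hf : ∀ x, f^[n] x = x + j) :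
    ∃ h : ℝ → ℝ, Continuous h ∧ StrictMono h ∧ (∀ x, h (x + 1) = h x + 1) ∧
      ∀ x, h (f x) = h x + (j : ℝ) / n := by
  have hn0 : (n : ℝ) ≠ 0 := by exact_mod_cast hn.ne'
  have hn1 : (0 : ℝ) < n := by exact_mod_cast hn
  refine ⟨fun x => (∑ i ∈ Finset.range n, f^[i] x) / n, ?_, ?_, ?_, ?_⟩
  · exact (continuous_finsetSum _ fun i _ => hc.iterate i).div_const _
  · intro a b hab
    show (∑ i ∈ Finset.range n, f^[i] a) / n < (∑ i ∈ Finset.range n, f^[i] b) / n
    apply div_lt_div_of_pos_right _ hn1
    apply Finset.sum_lt_sum_of_nonempty (by simpa using hn.ne')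
    intro i _
    exact hm.iterate i hab
  · intro x
    show (∑ i ∈ Finset.range n, f^[i] (x + 1)) / n = (∑ i ∈ Finset.range n, f^[i] x) / n + 1
    have : ∀ i ∈ Finset.range n, f^[i] (x + 1) = f^[i] x + 1 := by
      intro i _
      have := (f ^ i).map_add_one x
      rwa [CircleDeg1Lift.coe_pow] at this
    rw [Finset.sum_congr rfl this, Finset.sum_add_distrib]
    simp
    field_simp
  · intro x
    show (∑ i ∈ Finset.range n, f^[i] (f x)) / n = (∑ i ∈ Finset.range n, f^[i] x) / n + j / n
    have h1 : ∑ i ∈ Finset.range n, f^[i] (f x) = ∑ i ∈ Finset.range n, f^[i + 1] x := rfl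
    have h2 : ∑ i ∈ Finset.range n, f^[i + 1] x + x = ∑ i ∈ Finset.range n, f^[i] x + f^[n] x := by
      have h3 := Finset.sum_range_succ' (fun i => f^[i] x) n
      have h4 := Finset.sum_range_succ (fun i => f^[i] x) n
      simp only [Function.iterate_zero, id] at h3
      linarith
    rw [hf] at h2
    rw [← add_div]
    congr 1
    linarith

/-- **Circle lemma**: a lift of a circle homeomorphism without wandering intervals is conjugate
to a translation. -/
theorem exists_conj_of_not_wand {g : ℝ → ℝ} (hc : Continuous g) (hm : StrictMono g)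
    (h1 : ∀ x, g (x + 1) = g x + 1) (hw : ∀ a b, ¬ Wand g a b) :
    ∃ (h : ℝ → ℝ) (ρ : ℝ), Continuous h ∧ StrictMono h ∧ (∀ x, h (x + 1) = h x + 1) ∧
      ∀ x, h (g x) = h x + ρ := by
  let f : CircleDeg1Lift := ⟨⟨g, hm.monotone⟩, h1⟩
  have hfg : (f : ℝ → ℝ) = g := rfl
  by_cases hir : Irrational f.translationNumber
  · obtain ⟨h, ha, hb, hc', hd⟩ := conj_irrational f hc hm hir hw
    exact ⟨h, _, ha, hb, hc', hd⟩
  · unfold Irrational at hir
    push Not at hir
    obtain ⟨q, hq⟩ := hir
    have hτ : f.translationNumber = (q.num : ℝ) / q.den := by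
      rw [← hq]
      exact Rat.cast_def q
    have := pow_eq_of_rational f hc hm q.pos q.reduced hτ hw
    obtain ⟨h, ha, hb, hc', hd⟩ := conj_rational f hc hm q.pos this
    exact ⟨h, _, ha, hb, hc', hd⟩

end Crest.Agent.R102.S0
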