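import Crest.Agent.R102.LagC_821

/-!
Row 102, part (B) (helper821): tools for the formal start (B6).
-/

set_option autoImplicit false

open Set Filter Topology Metric Complex MeasureTheory
open scoped Real ContDiff ComplexConjugate

noncomputable section

namespace Crest.Agent.R102.B821

open Crest.Agent.R266.SCV

variable {ρ₀ ε₀ k ρ r d A : ℝ} {L Ψ U f g : ℂ × ℂ → ℂ} {M : ℕ}

section Tools

lemma mem_Dom_add_int (n : ℤ) {t w : ℂ} : (t + n, w) ∈ Dom k ρ r ↔ (t, w) ∈ Dom k ρ r := by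
  simp [mem_Dom]

lemma IsH.per_nat (hf : IsH k ρ r f) {t w : ℂ} (hp : (t, w) ∈ Dom k ρ r) (n : ℕ) :
    f (t + n, w) = f (t, w) := by
  induction n with
  | zero => simp
  | succ n ih =>
    have h1 : (t + n, w) ∈ Dom k ρ r := by
      have := (mem_Dom_add_int (k := k) (ρ := ρ) (r := r) (n : ℤ) (t := t) (w := w)).2 hp
      simpa using this
    have h2 := hf.per _ _ h1
    rw [← ih, ← h2]
    congr 2
    push_cast
    ring

lemma IsH.per_int (hf : IsH k ρ r f) {t w : ℂ} (hp : (t, w) ∈ Dom k ρ r) (n : ℤ) :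
    f (t + n, w) = f (t, w) := by
  obtain ⟨m, rfl | rfl⟩ := n.eq_nat_or_neg
  · have := hf.per_nat hp m
    simpa using this
  · have h1 : (t + ((-(m : ℤ) : ℤ) : ℂ), w) ∈ Dom k ρ r := (mem_Dom_add_int _).2 hp
    have h2 := hf.per_nat h1 m
    rw [← h2]
    congr 2
    push_cast
    ring

/-- functions in `H_k` are bounded on smaller domains -/
lemma IsH.exists_bdd (hf : IsH k ρ r f) {ρ' r' : ℝ} (hρ : ρ' < ρ) (hr : r' < r) :
    ∃ A, 0 ≤ A ∧ Bdd k ρ' r' 0 A f := by
  set S : Set (ℂ × ℂ) := {p | p.1.re ∈ Icc (0 : ℝ) 1 ∧ |p.1.im| + k * |p.2.im| ≤ ρ' ∧ ‖p.2‖ ≤ r' ∧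
    |p.1.im| ≤ ρ' + |k| * |r'|} with hS
  have hclosed : IsClosed S := by
    have h1 : IsClosed {p : ℂ × ℂ | p.1.re ∈ Icc (0 : ℝ) 1} :=
      isClosed_Icc.preimage (by fun_prop)
    have h2 : IsClosed {p : ℂ × ℂ | |p.1.im| + k * |p.2.im| ≤ ρ'} :=
      isClosed_le (by fun_prop) continuous_const
    have h3 : IsClosed {p : ℂ × ℂ | ‖p.2‖ ≤ r'} := isClosed_le (by fun_prop) continuous_const
    have h4 : IsClosed {p : ℂ × ℂ | |p.1.im| ≤ ρ' + |k| * |r'|} :=
      isClosed_le (by fun_prop) continuous_const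
    exact h1.inter (h2.inter (h3.inter h4))
  have hbdd : Bornology.IsBounded S := by
    refine (isBounded_closedBall (x := ((0 : ℂ), (0 : ℂ)))
      (r := 1 + (|ρ'| + |k| * |r'|) + |r'|)).subset ?_
    rintro ⟨t, w⟩ ⟨h1, h2, h3, h4⟩
    simp only at h1 h2 h3 h4
    rw [mem_closedBall, Prod.dist_eq]
    simp only [dist_zero_right]
    have i1 : ‖t‖ ≤ |t.re| + |t.im| := Complex.norm_le_abs_re_add_abs_im t
    have i2 : |t.re| ≤ 1 := abs_le.2 ⟨by linarith [h1.1], h1.2⟩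
    have i3 := le_abs_self ρ'
    have i4 := le_abs_self r'
    have i5 : 0 ≤ |k| * |r'| := by positivity
    have i6 := abs_nonneg ρ'
    have i7 := abs_nonneg r'
    refine max_le ?_ ?_
    · linarith
    · linarith
  have hcomp : IsCompact S := Metric.isCompact_of_isClosed_isBounded hclosed hbdd
  have hsub : S ⊆ Dom k ρ r := fun p hp => ⟨by have := hp.2.1; linarith, by have := hp.2.2.1; linarith⟩
  obtain ⟨A, hA⟩ := hcomp.exists_bound_of_continuousOn (hf.continuousOn.mono hsub)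
  refine ⟨max A 0, le_max_right _ _, ?_⟩
  rintro ⟨t, w⟩ hp
  have hp0 : (t, w) ∈ Dom k ρ r := Dom_mono le_rfl hρ.le hr.le hp
  have h1 := hf.per_int hp0 (-⌊t.re⌋)
  rw [← h1, pow_zero, mul_one]
  refine (hA _ ?_).trans (le_max_left _ _)
  have hp1 := hp.1
  have hp2 : ‖w‖ < r' := hp.2
  simp only at hp1
  have e1 : (t + ((-⌊t.re⌋ : ℤ) : ℂ)).re = t.re - ⌊t.re⌋ := by
    simp only [Int.cast_neg, Complex.add_re, Complex.neg_re, Complex.intCast_re]
    ring
  have e2 : (t + ((-⌊t.re⌋ : ℤ) : ℂ)).im = t.im := by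
    simp only [Int.cast_neg, Complex.add_im, Complex.neg_im, Complex.intCast_im]
    ring
  refine ⟨?_, ?_, ?_, ?_⟩
  · simp only
    rw [e1]
    exact ⟨by have := Int.floor_le t.re; linarith, by have := Int.lt_floor_add_one t.re; linarith⟩
  · simp only
    rw [e2]
    exact hp1.le
  · exact hp2.le
  · simp only
    rw [e2]
    have j1 : |w.im| ≤ r' := (Complex.abs_im_le_norm w).trans hp2.le
    have j2 : -(|k| * |r'|) ≤ k * |w.im| := by
      have j3 : |(k * |w.im|)| ≤ |k| * |r'| := by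
        rw [abs_mul, abs_abs]
        exact mul_le_mul_of_nonneg_left (j1.trans (le_abs_self _)) (abs_nonneg _)
      exact (abs_le.1 j3).1
    linarith

/-- vanishing at `w = 0` gains one power of `w` -/
lemma IsH.gain_one (hk : 0 ≤ k) (hf : IsH k ρ r f) (h0 : ∀ t : ℂ, (t, 0) ∈ Dom k ρ r → f (t, 0) = 0)
    {ρ' r' : ℝ} (hρ : ρ' < ρ) (hr : r' < r) : ∃ A, 0 ≤ A ∧ Bdd k ρ' r' 1 A f := by
  obtain ⟨g, hg, hfg⟩ := hf.exists_div_w hk h0
  obtain ⟨A, hA, hb⟩ := hg.exists_bdd hρ hr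
  refine ⟨A, hA, ?_⟩
  rintro ⟨t, w⟩ hp
  rw [hfg t w (Dom_mono le_rfl hρ.le hr.le hp), norm_mul, pow_one, mul_comm]
  have := hb _ hp
  rw [pow_zero, mul_one] at this
  exact mul_le_mul_of_nonneg_right this (norm_nonneg _)

lemma IsPar.of_pow_w (hk : 0 ≤ k) {s : ℂ} (hg : IsH k ρ r g) (l : ℕ)
    (h : IsPar k ρ r s (fun p => p.2 ^ (2 * l) * g p)) : IsPar k ρ r s g := by
  have h1 := (hg.rf.sub ((IsH.const s).mul hg)).eq_zero_of_ne hk (fun t w hp hw => by
    have h2 := h _ hp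
    unfold rf at h2
    simp only at h2
    have e : (-w) ^ (2 * l) = w ^ (2 * l) := by rw [pow_mul, neg_sq, ← pow_mul]
    rw [e] at h2
    have h3 : w ^ (2 * l) * (g (t, -w)) = w ^ (2 * l) * (s * g (t, w)) := by linear_combination h2
    have h4 := mul_left_cancel₀ (pow_ne_zero _ hw) h3
    unfold rf
    simp only
    rw [h4, sub_self])
  intro p hp
  exact sub_eq_zero.1 (h1 p hp)

lemma IsRe.of_pow_w (hk : 0 ≤ k) (hg : IsH k ρ r g) (l : ℕ)
    (h : IsRe k ρ r (fun p => p.2 ^ l * g p)) : IsRe k ρ r g := by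
  have h1 := (hg.cj.sub hg).eq_zero_of_ne hk (fun t w hp hw => by
    have h2 := h _ hp
    unfold cj at h2
    simp only [map_mul, map_pow, Complex.conj_conj] at h2
    have h3 := mul_left_cancel₀ (pow_ne_zero _ hw) h2
    unfold cj
    rw [h3, sub_self])
  intro p hp
  exact sub_eq_zero.1 (h1 p hp)

/-- an odd function of even order has one order more -/
lemma IsH.gain_par (hk : 0 ≤ k) (hf : IsH k ρ r f) (hpar : IsPar k ρ r (-1) f) (l : ℕ)
    (hb : Bdd k ρ r (2 * l) A f) {ρ' r' : ℝ} (hρ : ρ' < ρ) (hr : r' < r) :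
    ∃ A', 0 ≤ A' ∧ Bdd k ρ' r' (2 * l + 1) A' f := by
  obtain ⟨g, hg, -, hfg⟩ := hf.exists_div_pow hk (2 * l) hb
  have hgpar : IsPar k ρ r (-1) g := by
    refine IsPar.of_pow_w hk hg l (hpar.congr (fun p hp => (hfg p.1 p.2 hp).symm))
  have h0 : ∀ t : ℂ, (t, 0) ∈ Dom k ρ r → g (t, 0) = 0 := by
    intro t ht
    have h1 := hgpar _ ht
    have h3 : B821.rf g (t, 0) = g (t, 0) := by unfold B821.rf; simp
    rw [h3] at h1
    have h2 : 2 * g (t, 0) = 0 := by linear_combination h1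
    exact (mul_eq_zero.1 h2).resolve_left two_ne_zero
  obtain ⟨A', hA', hb'⟩ := hg.gain_one hk h0 hρ hr
  refine ⟨A', hA', ?_⟩
  rintro ⟨t, w⟩ hp
  rw [hfg t w (Dom_mono le_rfl hρ.le hr.le hp), norm_mul, norm_pow, pow_succ]
  have := hb' _ hp
  rw [pow_one] at this
  calc ‖w‖ ^ (2 * l) * ‖g (t, w)‖ ≤ ‖w‖ ^ (2 * l) * (A' * ‖w‖) :=
        mul_le_mul_of_nonneg_left this (by positivity)
    _ = _ := by ring

/-- `del f / w` and its value at `w = 0` -/
lemma IsH.exists_del_div (hk : 0 ≤ k) (hf : IsH k ρ r f) :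
    ∃ g, IsH (k + 1 / 2) ρ r g ∧ (∀ t w : ℂ, (t, w) ∈ Dom (k + 1 / 2) ρ r → B821.del f (t, w) = w * g (t, w)) ∧
      ∀ t : ℂ, (t, 0) ∈ Dom (k + 1 / 2) ρ r → g (t, 0) = B821.q1 f (t, 0) := by
  obtain ⟨g, hg, hfg⟩ := hf.del.exists_div_w (by linarith) (fun t _ => by rw [del_apply]; simp)
  refine ⟨g, hg, hfg, fun t ht => ?_⟩
  have h1 := q2_del hf ht
  have h2 : B821.del (B821.q2 f) (t, 0) = 0 := by rw [del_apply]; simp
  have h3 : B821.tr (1 / 2) (B821.q1 f) (t, 0) = B821.q1 f (t, 0) := by unfold B821.tr; simp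
  have h4 : B821.tr (-(1 / 2)) (B821.q1 f) (t, 0) = B821.q1 f (t, 0) := by unfold B821.tr; simp
  rw [h2, h3, h4] at h1
  have h5 := hasDerivAt_snd (hf.del.differentiableAt ht)
  have h6 := (hasDerivAt_id (0 : ℂ)).mul (hasDerivAt_snd (hg.differentiableAt ht))
  have h7 : (fun s => B821.del f (t, s)) =ᶠ[𝓝 0] (fun s => id s * g (t, s)) := by
    have hcont : Continuous (fun s : ℂ => (t, s)) := by fun_prop
    filter_upwards [hcont.continuousAt.preimage_mem_nhds
      ((isOpen_Dom (k + 1 / 2) ρ r).mem_nhds ht)] with s hs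
    exact hfg t s hs
  have h8 := (h5.congr_of_eventuallyEq h7.symm).unique h6
  rw [h8] at h1
  simp only [id_eq, one_mul, zero_mul, add_zero] at h1
  rw [h1]
  ring

end Tools

section Primitive

/-- periodic solution of `V'' = p` -/
theorem exists_second_primitive {p : ℂ × ℂ → ℂ} (hp : IsH 0 ρ r p) (hpw : ∀ t w, p (t, w) = p (t, 0))
    (hre : IsRe 0 ρ r p) (hmean : fc p 0 0 = 0) (hr : 0 < r) {ρ' r' : ℝ} (hρ' : 0 < ρ')
    (hρ : ρ' < ρ) (hrr : r' < r) (hr' : 0 < r') :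
    ∃ V : ℂ × ℂ → ℂ, IsH 0 ρ' r' V ∧ (∀ t w, V (t, w) = V (t, 0)) ∧ IsRe 0 ρ' r' V ∧
      ∀ t w : ℂ, (t, w) ∈ Dom 0 ρ' r' → q1 (q1 V) (t, w) = p (t, w) := by
  -- intermediate radii
  set ρa : ℝ := (ρ + ρ') / 2 with hρa
  set ra : ℝ := (r + r') / 2 with hra
  set ρb : ℝ := (ρa + ρ') / 2 with hρb
  have i1 : ρ' < ρb := by rw [hρb, hρa]; linarith
  have i2 : ρb < ρa := by rw [hρb, hρa]; linarith
  have i3 : ρa < ρ := by rw [hρa]; linarith
  have i4 : r' < ra := by rw [hra]; linarith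
  have i5 : ra < r := by rw [hra]; linarith
  obtain ⟨A, hA, hb⟩ := hp.exists_bdd i3 i5
  have hpa : IsH 0 ρa ra p := hp.mono le_rfl i3.le i5.le
  set a : ℤ → ℂ → ℂ := fun n _ => if n = 0 then 0 else fc p n 0 / (2 * π * I * n) ^ 2 with ha
  set δ : ℝ := ρa - ρb with hδ
  have hδ0 : 0 < δ := by rw [hδ]; linarith
  set u : ℤ → ℝ := fun n => A * Real.exp (-(2 * π * δ * |(n : ℝ)|)) with hu
  have hu0 : ∀ n, 0 ≤ u n := fun n => by rw [hu]; positivity
  have hus : Summable u := (summable_exp_abs (by positivity)).mul_left A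
  have had : ∀ n, DifferentiableOn ℂ (a n) (ball 0 ra) := fun n => differentiableOn_const _
  have hab : ∀ n, ∀ w : ℂ, ‖w‖ < ra → ‖a n w‖ ≤ u n * ‖w‖ ^ 0 *
      Real.exp (-(2 * π * |(n : ℝ)| * (ρb - 0 * |w.im|))) := by
    intro n w _
    rw [pow_zero, mul_one, zero_mul, sub_zero]
    by_cases hn : n = 0
    · simp only [ha, hn, if_true, norm_zero]
      have := hu0 0
      positivity
    · simp only [ha, hn, if_false]
      have h1 : ‖fc p n 0‖ ≤ A * Real.exp (-(2 * π * |(n : ℝ)| * ρa)) := by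
        have := norm_fc_le hpa hb n (w := 0) (by simp; linarith) (by simp; linarith)
        simpa using this
      have hn1 : 1 ≤ |(n : ℝ)| := by
        have : 1 ≤ |n| := Int.one_le_abs hn
        exact_mod_cast this
      have hnn : ‖(2 * π * I * n : ℂ)‖ = 2 * π * |(n : ℝ)| := by
        rw [norm_mul, norm_mul, norm_mul, Complex.norm_I, Complex.norm_ofNat, Complex.norm_real,
          Real.norm_eq_abs, abs_of_pos Real.pi_pos, Complex.norm_intCast, mul_one]
      have hπ := Real.pi_gt_three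
      have h2 : 1 ≤ (2 * π * |(n : ℝ)|) ^ 2 := by
        have : 1 ≤ 2 * π * |(n : ℝ)| := by nlinarith
        exact one_le_pow₀ this
      rw [norm_div, norm_pow, hnn]
      have h3 : ‖fc p n 0‖ / (2 * π * |(n : ℝ)|) ^ 2 ≤ ‖fc p n 0‖ :=
        div_le_self (norm_nonneg _) h2
      refine (h3.trans h1).trans (le_of_eq ?_)
      simp only [hu]
      rw [mul_assoc A, ← Real.exp_add]
      congr 2
      rw [hδ]
      ring
  set V : ℂ × ℂ → ℂ := syn a with hV
  have hVH : IsH 0 ρb ra V := isH_syn had hab hu0 hus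
  have hVw : ∀ t w, V (t, w) = V (t, 0) := fun t w => rfl
  have hVfc : ∀ n, ∀ w : ℂ, ‖w‖ < ra → fc V n w = a n w := fun n w hw =>
    fc_syn hab hu0 hus n hw (by rw [zero_mul]; linarith)
  have hpfc : ∀ (n : ℤ) (w : ℂ), fc p n w = fc p n 0 := fun n w => by
    unfold fc
    simp only [hpw _ w]
  refine ⟨V, hVH.mono le_rfl i1.le i4.le, hVw, ?_, ?_⟩
  · -- reality
    have hF : IsH 0 ρb ra (fun q => cj V q - V q) := hVH.cj.sub hVH
    obtain ⟨A', -, hA'⟩ := hF.exists_bdd i1 i4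
    rintro ⟨t, w⟩ hq
    have hw : ‖w‖ < ra := by have := hq.2; simp only at this; linarith
    have h1 := eq_zero_of_fc (hF.mono le_rfl i1.le i4.le) hA' hq (fun n => by
      rw [fc_sub hVH.cj hVH n hw (by rw [zero_mul]; linarith), fc_cj, hVfc _ _ (by
        rw [Complex.norm_conj]; exact hw), hVfc _ _ hw]
      by_cases hn : n = 0
      · simp [ha, hn]
      · simp only [ha, neg_eq_zero, hn, if_false]
        have h2 : fc p n 0 = conj (fc p (-n) 0) := by
          have h3 : fc (cj p) n 0 = fc p n 0 :=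
            fc_congr (fun x => hre _ (real_mem_Dom.2 ⟨by simp; linarith, by simp; exact hr⟩)) n
          rw [← h3, fc_cj]
          simp
        rw [map_div₀, ← h2]
        have e : conj ((2 * π * I * ((-n : ℤ) : ℂ)) ^ 2) = (2 * π * I * n) ^ 2 := by
          simp only [map_pow, map_mul, Complex.conj_I, Complex.conj_ofReal, Int.cast_neg, map_neg,
            Complex.conj_ofNat, map_intCast]
          ring
        rw [e, sub_self])
    exact sub_eq_zero.1 h1
  · intro t w hq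
    have hVq := hVH.q1.q1
    have hpb : IsH 0 ρb ra p := hp.mono le_rfl (by linarith) i5.le
    have hF : IsH 0 ρb ra (fun q => q1 (q1 V) q - p q) := hVq.sub hpb
    obtain ⟨A', -, hA'⟩ := hF.exists_bdd i1 i4
    have hw : ‖w‖ < ra := by have := hq.2; simp only at this; linarith
    have h1 := eq_zero_of_fc (hF.mono le_rfl i1.le i4.le) hA' hq (fun n => by
      have hk0 : 0 * |w.im| < ρb := by rw [zero_mul]; linarith
      rw [fc_sub hVq hpb n hw hk0, fc_q1 hVH.q1 n hw hk0, fc_q1 hVH n hw hk0, hVfc n w hw, hpfc n w]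
      by_cases hn : n = 0
      · simp [ha, hn, hmean]
      · simp only [ha, hn, if_false]
        have hnC : (n : ℂ) ≠ 0 := by exact_mod_cast hn
        have hπ : (π : ℂ) ≠ 0 := pi_ne
        have hI := Complex.I_ne_zero
        field_simp
        ring)
    exact sub_eq_zero.1 h1

end Primitive

end Crest.Agent.R102.B821
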