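import Crest.Agent.R102.FreeAn_781
import Crest.Agent.R102.RatGlueA_798
import Crest.Agent.R102.RATDefs_926

/-!
# Row 102, [H3], (RAT): joint freeness in the field of fractions (helper781)
-/

set_option autoImplicit false

noncomputable section

namespace Crest.Agent.R102.Free781

open Set Filter Topology TopologicalSpace Metric Crest.Agent.R102.H3 Crest.Agent.R102.RAT
open Crest.Agent.R102.F7389

theorem free_mono {M : Type*} [Field M] [Algebra ℂ M] {N N' : ℕ} (hN : N ≤ N') {b : ℕ → M}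
    {x : ℕ → ℕ → M} {E k : ℕ → M} (h : Free N' b x E k) : Free N b x E k := by
  let φ : Fin 2 ⊕ (Fin N × ℕ) → Fin 2 ⊕ (Fin N' × ℕ) :=
    Sum.map id (fun i : Fin N × ℕ => ((⟨i.1, i.1.2.trans_le hN⟩ : Fin N'), i.2))
  have h1 : Function.Injective φ := by
    refine Function.Injective.sumMap Function.injective_id ?_
    rintro ⟨i, r⟩ ⟨j, s⟩ hij
    simp only [Prod.mk.injEq, Fin.mk.injEq] at hij
    exact Prod.ext (Fin.ext hij.1) hij.2
  have e : Sum.elim (![E 0 ^ 2, k 0] : Fin 2 → M)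
      (fun i : Fin N × ℕ => if i.2 = 0 then b i.1 else x i.1 i.2) =
      (Sum.elim (![E 0 ^ 2, k 0] : Fin 2 → M)
        (fun i : Fin N' × ℕ => if i.2 = 0 then b i.1 else x i.1 i.2)) ∘ φ := by
    funext o
    rcases o with o | ⟨i, r⟩ <;> rfl
  unfold Free at h ⊢
  rw [e]
  exact h.comp φ h1

variable {g : ℂ → ℂ} {c₀ : ℂ} {N : ℕ} {ρ : ℝ} {β m k q q' : ℕ → ℂ × ℂ → ℂ}

/-- **FreeGlue**: for a differentially transcendental mirror the line and the jets at the vertices
are algebraically independent in every field containing `Hol W` -/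
theorem free_glue (h : Chain g c₀ N ρ β m k q q') (hinf : DiffTr g c₀) {W : Opens (ℂ × ℂ)}
    (hWU : W ≤ WO c₀ ρ) (hne : Nonempty W) {M : Type*} [Field M] [Algebra ℂ M]
    [Algebra (Hol W) M] [IsScalarTower ℂ (Hol W) M]
    (hinj : Function.Injective (algebraMap (Hol W) M)) {b : ℕ → M} {x : ℕ → ℕ → M} {E k' : ℕ → M}
    (hE : E 0 ^ 2 = algebraMap (Hol W) M (Glue798.toH W (m 0)))
    (hk : k' 0 = algebraMap (Hol W) M (Glue798.toH W (k 0)))
    (hb : ∀ j ≤ N, b j = algebraMap (Hol W) M (Glue798.toH W (fun p => p.1 + p.2 * β j p)))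
    (hx : ∀ j ≤ N, ∀ r, 0 < r → x j r = algebraMap (Hol W) M
      (Glue798.toH W (fun p => iteratedDeriv r g (p.1 + p.2 * β j p)))) :
    Free (N + 1) b x E k' := by
  rw [Free, algebraicIndependent_iff]
  intro P hP
  let v : Fin 2 ⊕ (Fin (N + 1) × ℕ) → Hol W := Sum.elim
    ![Glue798.toH W (m 0), Glue798.toH W (k 0)]
    (fun i => if i.2 = 0 then Glue798.toH W (fun p => p.1 + p.2 * β i.1 p)
      else Glue798.toH W (fun p => iteratedDeriv i.2 g (p.1 + p.2 * β i.1 p)))
  have hv : (Sum.elim (![E 0 ^ 2, k' 0] : Fin 2 → M)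
      (fun i : Fin (N + 1) × ℕ => if i.2 = 0 then b i.1 else x i.1 i.2)) =
      algebraMap (Hol W) M ∘ v := by
    funext o
    rcases o with o | ⟨i, r⟩
    · fin_cases o
      · exact hE
      · exact hk
    · simp only [Sum.elim_inr, Function.comp_apply, v]
      split_ifs with hr
      · exact hb i (Nat.lt_succ_iff.1 i.2)
      · exact hx i (Nat.lt_succ_iff.1 i.2) r (Nat.pos_of_ne_zero hr)
  rw [hv, MvPolynomial.aeval_algebraMap_apply, map_eq_zero_iff _ hinj] at hP
  refine free_fun h hinf P (W : Set (ℂ × ℂ)) W.isOpen ?_ hWU ?_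
  · obtain ⟨p⟩ := hne
    exact ⟨p, p.2⟩
  · intro p hp
    have h1 := congrArg (evH (⟨p, hp⟩ : W)) hP
    rw [map_zero, MvPolynomial.comp_aeval_apply] at h1
    rw [← h1]
    change _ = MvPolynomial.eval _ P
    congr 2
    funext o
    rcases o with o | ⟨i, r⟩
    · fin_cases o
      · exact (Glue798.toH_apply ((h.an_m 0 (Nat.zero_le _)).mono hWU) ⟨p, hp⟩).symm
      · exact (Glue798.toH_apply ((h.an_k 0 (Nat.zero_le _)).mono hWU) ⟨p, hp⟩).symm
    · have hi : (i : ℕ) ≤ N := Nat.lt_succ_iff.1 i.2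
      simp only [Sum.elim_inr, v]
      split_ifs with hr
      · refine (Glue798.toH_apply (F := fun p => p.1 + p.2 * β i p) ?_ ⟨p, hp⟩).symm
        intro p hp
        exact analyticAt_fst.add (analyticAt_snd.mul (h.an_β i hi p (hWU hp)))
      · refine (Glue798.toH_apply (F := fun p => iteratedDeriv r g (p.1 + p.2 * β i p)) ?_
          ⟨p, hp⟩).symm
        intro p hp
        exact an_iter_lab h (i + 1) (by omega) r p (hWU hp)

end Crest.Agent.R102.Free781
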