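import Crest.Agent.R102.FreeGlue_781
import Crest.Agent.R102.RatGlueB_798
import Crest.Agent.R102.Disp_781

/-!
# Row 102, [H3], (RAT): `Free` and `Disp` for the formal chain `Glue798.fchain` (helper781)
-/

set_option autoImplicit false

noncomputable section

namespace Crest.Agent.R102.Free781

open Set Filter Topology TopologicalSpace Metric Crest.Agent.R102.H3 Crest.Agent.R102.RAT
open Crest.Agent.R102.Glue798

variable {W : Opens (ℂ × ℂ)} {M : Type} [Field M] [Algebra ℂ M] [Algebra (Hol W) M]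
  [IsScalarTower ℂ (Hol W) M] [IsFractionRing (Hol W) M]
variable {g : ℂ → ℂ} {c₀ : ℂ} {N : ℕ} {ρ : ℝ} {β m k q q' e : ℕ → ℂ × ℂ → ℂ}

/-- the formal chain of a differentially transcendental mirror is free -/
theorem free_fchain [Nonempty W] (hC : SChain g c₀ N ρ β m k q q' e) (hinf : DiffTr g c₀)
    (hW : (W : Set (ℂ × ℂ)) ⊆ ball c₀ ρ ×ˢ ball (0 : ℂ) ρ) :
    RAT.Free (N + 1) (fun j => sM W M (fun p => p.1 + p.2 * β j p))
      (fun j r => sM W M (fun p => iteratedDeriv r g (p.1 + p.2 * β j p)))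
      (fun j => sM W M (e j)) (fun j => sM W M (k j)) := by
  refine free_glue (M := M) hC.toChain hinf (W := W) hW inferInstance
    (IsFractionRing.injective (Hol W) M) ?_ rfl (fun j _ => rfl) (fun j _ r _ => rfl)
  have ae : AnalyticOnNhd ℂ (e 0) W := (hC.an_e 0 (Nat.zero_le _)).mono hW
  have am : AnalyticOnNhd ℂ (m 0) W := (hC.an_m 0 (Nat.zero_le _)).mono hW
  change sM W M (e 0) ^ 2 = sM W M (m 0)
  rw [sq, ← sM_mul ae ae]
  refine sM_congr (an_mul ae ae) am fun p hp => ?_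
  rw [← sq]
  exact hC.e_sq 0 (Nat.zero_le _) p (hW hp)

/-- all displacements -/
theorem disp_fchain [Nonempty W] (hC : SChain g c₀ N ρ β m k q q' e) (hinf : DiffTr g c₀)
    (hW : (W : Set (ℂ × ℂ)) ⊆ ball c₀ ρ ×ˢ ball (0 : ℂ) ρ) {D₁ D₂ : Derivation ℂ M M}
    (hD : Rat7217.Dual (toH W (m 0)) (toH W (k 0)) D₁ D₂) :
    RAT.Disp N (fun j => sM W M (fun p => p.1 + p.2 * β j p))
      (fun j r => sM W M (fun p => iteratedDeriv r g (p.1 + p.2 * β j p)))
      (fun j => sM W M (e j)) (fun j => sM W M (k j)) :=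
  RAT.disp M D₁ D₂ N _ _ _ _ (fchain hC hW hD)
    (free_mono (Nat.le_succ N) (free_fchain hC hinf hW))

end Crest.Agent.R102.Free781
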