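import Crest.Agent.R102.DefsA_929

/-!
Row 102, part (A) (helper929): analyticity of the reflection functional `Qf` near `0`, its first
derivative at `0`, and the resulting local estimates.
-/

set_option autoImplicit false

open Set Filter Topology Metric Complex MeasureTheory
open scoped Real ContDiff

noncomputable section

namespace Crest.Agent.R102.A929

lemma analyticAt_expA (a : AA) : AnalyticAt ℂ (NormedSpace.exp : AA → AA) a :=
  NormedSpace.exp_analytic a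

lemma expA_zero : (NormedSpace.exp (0 : AA) : AA) = 1 := NormedSpace.exp_zero

lemma cosA_zero : cosA 0 = 1 := by
  refine AA.ext' (fun r => ?_)
  rw [cosA_apply]
  simp

lemma analyticAt_cosA (a : AA) : AnalyticAt ℂ cosA a := by
  unfold cosA
  have h1 : AnalyticAt ℂ (fun a : AA => (NormedSpace.exp (I • a) : AA)) a :=
    (analyticAt_expA (I • a)).fun_comp (analyticAt_id.const_smul (c := I))
  have h2 : AnalyticAt ℂ (fun a : AA => (NormedSpace.exp (-(I • a)) : AA)) a :=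
    AnalyticAt.fun_comp (g := (NormedSpace.exp : AA → AA)) (f := fun a : AA => -(I • a))
      (analyticAt_expA (-(I • a))) (analyticAt_id.const_smul (c := I)).neg
  exact (h1.add h2).const_smul (c := (1 / 2 : ℂ))

lemma analyticAt_Ef (d : AA) : AnalyticAt ℂ Ef d :=
  (J.analyticAt _).fun_comp (analyticAt_expA d)

lemma analyticAt_arg (X : AA × ℂ) :
    AnalyticAt ℂ (fun X : AA × ℂ => cosA (X.2 • Ef X.1)) X := by
  refine (analyticAt_cosA _).fun_comp ?_
  exact analyticAt_snd.smul ((analyticAt_Ef X.1).fun_comp analyticAt_fst)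

lemma analyticAt_exp2 (X : AA × ℂ) :
    AnalyticAt ℂ (fun X : AA × ℂ => (NormedSpace.exp ((-2 : ℂ) • X.1) : AA)) X :=
  (analyticAt_expA _).fun_comp (analyticAt_fst.const_smul (c := (-2 : ℂ)))

lemma analyticAt_exp1 (X : AA × ℂ) :
    AnalyticAt ℂ (fun X : AA × ℂ => (NormedSpace.exp X.1 : AA)) X :=
  (analyticAt_expA _).fun_comp analyticAt_fst

lemma analyticAt_Ic (X : AA × ℂ) : AnalyticAt ℂ Ic X :=
  (Lam.analyticAt _).fun_comp ((analyticAt_exp2 X).mul (analyticAt_arg X))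

lemma analyticAt_Is (X : AA × ℂ) : AnalyticAt ℂ Is X :=
  (Lam.analyticAt _).fun_comp ((analyticAt_exp2 X).mul
    ((J.analyticAt _).fun_comp ((analyticAt_exp1 X).mul (analyticAt_arg X))))

lemma J_one : J (1 : AA) = iot := by
  refine AA.ext' (fun r => ?_)
  rw [J_apply]
  have : ∀ a : ℝ, ext (1 : AA) a = 1 := fun a => rfl
  simp [this]

lemma Lam_one : Lam (1 : AA) = 1 := by
  rw [Lam_apply]
  have : ∀ a : ℝ, ext (1 : AA) a = 1 := fun a => rfl
  simp [this]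

lemma Lam_iot : Lam iot = 1 / 2 := by
  rw [Lam_apply]
  have : ∫ a in (0 : ℝ)..1, ext iot a = ∫ a in (0 : ℝ)..1, ((a : ℝ) : ℂ) := by
    refine intervalIntegral.integral_congr (fun a ha => ?_)
    rw [uIcc_of_le zero_le_one] at ha
    exact ext_iot ha
  rw [this, intervalIntegral.integral_ofReal, integral_id]
  norm_num

lemma Ef_zero : Ef 0 = iot := by
  unfold Ef
  rw [expA_zero, J_one]

lemma Ic_zero : Ic 0 = 1 := by
  unfold Ic
  simp [cosA_zero, expA_zero, Lam_one]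

lemma Is_zero : Is 0 = 1 / 2 := by
  unfold Is
  simp only [Prod.fst_zero, smul_zero, Prod.snd_zero, zero_smul, cosA_zero, expA_zero, mul_one,
    one_mul, J_one, Lam_iot]

lemma bf_zero : bf 0 = 1 / 2 := by
  unfold bf
  rw [Is_zero, Ic_zero, div_one]

lemma analyticAt_bf : AnalyticAt ℂ bf 0 :=
  (analyticAt_Is 0).div (analyticAt_Ic 0) (by rw [Ic_zero]; exact one_ne_zero)

lemma sq_zero : sq 0 = 1 := by simp [sq]

lemma analyticAt_sq : AnalyticAt ℂ sq 0 := by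
  unfold sq
  refine AnalyticAt.cexp' ?_
  refine AnalyticAt.div ?_ analyticAt_const two_ne_zero
  refine AnalyticAt.clog (analyticAt_const.add analyticAt_id) ?_
  simp [Complex.mem_slitPlane_iff]

lemma phi_zero : phi 0 = 1 / 2 := by
  unfold phi
  rw [sq_zero]; norm_num

lemma analyticAt_phi : AnalyticAt ℂ phi 0 := by
  unfold phi
  refine analyticAt_const.div (analyticAt_sq.mul (analyticAt_const.add analyticAt_sq)) ?_
  rw [sq_zero]; norm_num

lemma analyticAt_Qf : AnalyticAt ℂ Qf 0 := by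
  unfold Qf
  refine (analyticAt_bf.pow 2).mul ?_
  have h : AnalyticAt ℂ phi ((fun X : AA × ℂ => X.2 ^ 2 * bf X ^ 2) 0) := by
    simpa using analyticAt_phi
  exact AnalyticAt.fun_comp (g := phi) (f := fun X : AA × ℂ => X.2 ^ 2 * bf X ^ 2) h
    ((analyticAt_snd.pow 2).mul (analyticAt_bf.pow 2))

lemma Qf_zero : Qf 0 = 1 / 8 := by
  unfold Qf
  simp only [Prod.snd_zero, bf_zero]
  norm_num [phi_zero]

/-! ### the first derivative at `0` -/

lemma hasFDerivAt_expA_zero : HasFDerivAt (NormedSpace.exp : AA → AA)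
    (ContinuousLinearMap.id ℂ AA) 0 := by
  have h := hasFDerivAt_exp_zero (𝕂 := ℂ) (𝔸 := AA)
  exact h

lemma hasFDerivAt_cosA_zero : HasFDerivAt cosA (0 : AA →L[ℂ] AA) 0 := by
  have h1 : HasFDerivAt (fun a : AA => (NormedSpace.exp (I • a) : AA))
      (I • ContinuousLinearMap.id ℂ AA) 0 := by
    have h := HasFDerivAt.comp (g := (NormedSpace.exp : AA → AA)) (f := fun a : AA => I • a)
      (0 : AA) (by rw [smul_zero]; exact hasFDerivAt_expA_zero) ((hasFDerivAt_id (0 : AA)).const_smul I)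
    exact h
  have h2 : HasFDerivAt (fun a : AA => (NormedSpace.exp (-(I • a)) : AA))
      (-(I • ContinuousLinearMap.id ℂ AA)) 0 := by
    have h := HasFDerivAt.comp (g := (NormedSpace.exp : AA → AA)) (f := fun a : AA => -(I • a))
      (0 : AA) (by rw [smul_zero, neg_zero]; exact hasFDerivAt_expA_zero)
      ((hasFDerivAt_id (0 : AA)).const_smul I).neg
    exact h
  have h3 := (h1.add h2).const_smul (1 / 2 : ℂ)
  have h4 : (1 / 2 : ℂ) • (I • ContinuousLinearMap.id ℂ AA + -(I • ContinuousLinearMap.id ℂ AA)) =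
      0 := by rw [add_neg_cancel, smul_zero]
  rw [h4] at h3
  exact h3

lemma hasFDerivAt_arg_zero :
    HasFDerivAt (fun X : AA × ℂ => cosA (X.2 • Ef X.1)) (0 : AA × ℂ →L[ℂ] AA) 0 := by
  have hd : DifferentiableAt ℂ (fun X : AA × ℂ => X.2 • Ef X.1) 0 :=
    (analyticAt_snd.smul ((analyticAt_Ef (0 : AA × ℂ).1).fun_comp analyticAt_fst)).differentiableAt
  have h := HasFDerivAt.comp (g := cosA) (f := fun X : AA × ℂ => X.2 • Ef X.1) (0 : AA × ℂ)
    (g' := 0) (by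
      simp only [Prod.snd_zero, zero_smul]
      exact hasFDerivAt_cosA_zero) hd.hasFDerivAt
  rwa [ContinuousLinearMap.zero_comp] at h

lemma hasFDerivAt_exp2_zero :
    HasFDerivAt (fun X : AA × ℂ => (NormedSpace.exp ((-2 : ℂ) • X.1) : AA))
      ((-2 : ℂ) • ContinuousLinearMap.fst ℂ AA ℂ) 0 := by
  have h := HasFDerivAt.comp (g := (NormedSpace.exp : AA → AA))
    (f := fun X : AA × ℂ => (-2 : ℂ) • X.1) (0 : AA × ℂ)
    (by simp only [Prod.fst_zero, smul_zero]; exact hasFDerivAt_expA_zero)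
    ((hasFDerivAt_fst (𝕜 := ℂ) (p := (0 : AA × ℂ))).const_smul (-2 : ℂ))
  exact h

lemma hasFDerivAt_exp1_zero :
    HasFDerivAt (fun X : AA × ℂ => (NormedSpace.exp X.1 : AA))
      (ContinuousLinearMap.fst ℂ AA ℂ) 0 := by
  have h := HasFDerivAt.comp (g := (NormedSpace.exp : AA → AA))
    (f := fun X : AA × ℂ => X.1) (0 : AA × ℂ)
    (by simp only [Prod.fst_zero]; exact hasFDerivAt_expA_zero)
    (hasFDerivAt_fst (𝕜 := ℂ) (p := (0 : AA × ℂ)))
  exact h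

lemma arg_zero : cosA ((0 : AA × ℂ).2 • Ef (0 : AA × ℂ).1) = 1 := by
  rw [Prod.snd_zero, zero_smul, cosA_zero]

lemma exp2_zero : (NormedSpace.exp ((-2 : ℂ) • (0 : AA × ℂ).1) : AA) = 1 := by
  rw [Prod.fst_zero, smul_zero, expA_zero]

lemma exp1_zero : (NormedSpace.exp ((0 : AA × ℂ).1) : AA) = 1 := by
  rw [Prod.fst_zero, expA_zero]

lemma hasFDerivAt_Ic_zero :
    HasFDerivAt Ic ((-2 : ℂ) • Lam.comp (ContinuousLinearMap.fst ℂ AA ℂ)) 0 := by
  have h1 := hasFDerivAt_exp2_zero.mul hasFDerivAt_arg_zero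
  rw [arg_zero, exp2_zero, one_smul, one_smul, zero_add] at h1
  have h2 := HasFDerivAt.comp (g := Lam) (0 : AA × ℂ) Lam.hasFDerivAt h1
  refine HasFDerivAt.congr_fderiv h2 ?_
  refine ContinuousLinearMap.ext (fun X => ?_)
  change Lam ((-2 : ℂ) • X.1) = (-2 : ℂ) • Lam X.1
  rw [map_smul]

/-- `∫_0^1 ∫_0^r f = ∫ (1 - r) f` -/
lemma Lam_J (f : AA) : Lam (J f) = Lam f - Lam (iot * f) := by
  have hF : ∀ r : ℝ, HasDerivAt (fun r : ℝ => ∫ a in (0 : ℝ)..r, ext f a) (ext f r) r := fun r =>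
    intervalIntegral.integral_hasDerivAt_right ((continuous_ext f).intervalIntegrable _ _)
      ((continuous_ext f).stronglyMeasurableAtFilter _ _) (continuous_ext f).continuousAt
  have hid : ∀ r : ℝ, HasDerivAt (fun r : ℝ => (r : ℂ)) 1 r := fun r =>
    Complex.ofRealCLM.hasDerivAt
  have h := intervalIntegral.integral_mul_deriv_eq_deriv_mul (a := (0 : ℝ)) (b := 1)
    (u := fun r : ℝ => (r : ℂ)) (u' := fun _ => 1) (v := fun r : ℝ => ∫ a in (0 : ℝ)..r, ext f a)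
    (v' := ext f) (fun r _ => hid r) (fun r _ => hF r) (by
      exact (continuous_const).intervalIntegrable _ _) ((continuous_ext f).intervalIntegrable _ _)
  have e1 : Lam (iot * f) = ∫ r in (0 : ℝ)..1, (r : ℂ) * ext f r := by
    rw [Lam_apply]
    refine intervalIntegral.integral_congr (fun a ha => ?_)
    rw [uIcc_of_le zero_le_one] at ha
    simp only [ext_mul, ext_iot ha]
  have e2 : Lam (J f) = ∫ r in (0 : ℝ)..1, ∫ a in (0 : ℝ)..r, ext f a := by
    rw [Lam_apply]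
    refine intervalIntegral.integral_congr (fun a ha => ?_)
    rw [uIcc_of_le zero_le_one] at ha
    change Set.IccExtend zero_le_one (J f) a = _
    rw [Set.IccExtend_of_mem _ _ ha]
    rfl
  rw [e1, h, e2, Lam_apply f]
  simp

lemma Lf_eq (d : AA) : Lf d = 2 * Lam d - 3 * Lam (iot * d) := by
  rw [Lf_apply, sub_mul, map_sub, smul_mul_assoc, one_mul, map_smul, smul_mul_assoc, map_smul,
    smul_eq_mul, smul_eq_mul]

lemma hasFDerivAt_Is_zero :
    HasFDerivAt Is ((-2 : ℂ) • Lam.comp ((ContinuousLinearMap.mul ℂ AA iot).comp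
      (ContinuousLinearMap.fst ℂ AA ℂ)) + (Lam.comp J).comp (ContinuousLinearMap.fst ℂ AA ℂ)) 0 := by
  have h1 := hasFDerivAt_exp1_zero.mul hasFDerivAt_arg_zero
  rw [arg_zero, exp1_zero, one_smul, one_smul, zero_add] at h1
  have h2 := HasFDerivAt.comp (g := J) (0 : AA × ℂ) J.hasFDerivAt h1
  have h3 := hasFDerivAt_exp2_zero.mul h2
  have e1 : (J ∘ ((fun X : AA × ℂ => (NormedSpace.exp X.1 : AA)) *
      fun X : AA × ℂ => cosA (X.2 • Ef X.1))) (0 : AA × ℂ) = iot := by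
    change J ((NormedSpace.exp ((0 : AA × ℂ).1) : AA) * cosA ((0 : AA × ℂ).2 • Ef (0 : AA × ℂ).1)) = _
    rw [arg_zero, exp1_zero, one_mul, J_one]
  rw [exp2_zero, e1, one_smul] at h3
  have h4 := HasFDerivAt.comp (g := Lam) (0 : AA × ℂ) Lam.hasFDerivAt h3
  refine HasFDerivAt.congr_fderiv h4 ?_
  refine ContinuousLinearMap.ext (fun X => ?_)
  change Lam (J X.1 + iot • ((-2 : ℂ) • X.1)) = (-2 : ℂ) • Lam (iot * X.1) + Lam (J X.1)
  rw [map_add, smul_comm, map_smul, smul_eq_mul iot, add_comm]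

lemma hasFDerivAt_bf_zero : HasFDerivAt bf (Lf.comp (ContinuousLinearMap.fst ℂ AA ℂ)) 0 := by
  have hi : HasDerivAt (fun y : ℂ => y⁻¹) (-(1 ^ 2)⁻¹) (Ic 0) := by
    rw [Ic_zero]; exact hasDerivAt_inv one_ne_zero
  have h1 := HasDerivAt.comp_hasFDerivAt (0 : AA × ℂ) hi hasFDerivAt_Ic_zero
  have h := hasFDerivAt_Is_zero.mul h1
  refine HasFDerivAt.congr_fderiv (HasFDerivAt.congr_of_eventuallyEq h ?_) ?_
  · exact Filter.Eventually.of_forall (fun X => by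
      change bf X = Is X * (Ic X)⁻¹
      rw [bf, div_eq_mul_inv])
  · refine ContinuousLinearMap.ext (fun X => ?_)
    change Is 0 * ((-(1 ^ 2)⁻¹ : ℂ) * ((-2 : ℂ) * Lam X.1)) +
      (Ic 0)⁻¹ * ((-2 : ℂ) * Lam (iot * X.1) + Lam (J X.1)) = Lf X.1
    rw [Ic_zero, Is_zero, Lf_eq, Lam_J]
    ring

lemma hasFDerivAt_Qf_zero :
    HasFDerivAt Qf ((1 / 2 : ℂ) • Lf.comp (ContinuousLinearMap.fst ℂ AA ℂ)) 0 := by
  -- the argument of `phi` has zero derivative
  have hb2 := (hasFDerivAt_bf_zero.mul hasFDerivAt_bf_zero)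
  have hs2 : HasFDerivAt (fun X : AA × ℂ => X.2 * X.2)
      ((0 : AA × ℂ).2 • ContinuousLinearMap.snd ℂ AA ℂ + (0 : AA × ℂ).2 •
        ContinuousLinearMap.snd ℂ AA ℂ) 0 :=
    (hasFDerivAt_snd (𝕜 := ℂ) (p := (0 : AA × ℂ))).mul (hasFDerivAt_snd (𝕜 := ℂ) (p := (0 : AA × ℂ)))
  have h3 := hs2.mul hb2
  have hphi : HasDerivAt phi (deriv phi 0) ((fun X : AA × ℂ => (X.2 * X.2) * (bf X * bf X)) 0) := by
    have : (fun X : AA × ℂ => (X.2 * X.2) * (bf X * bf X)) 0 = 0 := by simp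
    rw [this]
    exact analyticAt_phi.differentiableAt.hasDerivAt
  have h4 := HasDerivAt.comp_hasFDerivAt (0 : AA × ℂ) hphi h3
  have h5 := hb2.mul h4
  refine HasFDerivAt.congr_fderiv (HasFDerivAt.congr_of_eventuallyEq h5 ?_) ?_
  · exact Filter.Eventually.of_forall (fun X => by
      change Qf X = (bf X * bf X) * phi ((X.2 * X.2) * (bf X * bf X))
      rw [Qf]
      ring_nf)
  · refine ContinuousLinearMap.ext (fun X => ?_)
    have e0 : phi (((0 : AA × ℂ).2 * (0 : AA × ℂ).2) * (bf 0 * bf 0)) = 1 / 2 := by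
      simp [phi_zero]
    change (bf 0 * bf 0) * (deriv phi 0 * (((0 : AA × ℂ).2 * (0 : AA × ℂ).2) *
        (bf 0 * Lf X.1 + bf 0 * Lf X.1) + (bf 0 * bf 0) *
        ((0 : AA × ℂ).2 * X.2 + (0 : AA × ℂ).2 * X.2))) +
      phi (((0 : AA × ℂ).2 * (0 : AA × ℂ).2) * (bf 0 * bf 0)) *
        (bf 0 * Lf X.1 + bf 0 * Lf X.1) = (1 / 2 : ℂ) * Lf X.1
    rw [e0, bf_zero]
    simp
    ring

/-- the derivative of `Qf` at `0` -/
def DQ0 : AA × ℂ →L[ℂ] ℂ := (1 / 2 : ℂ) • Lf.comp (ContinuousLinearMap.fst ℂ AA ℂ)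

@[simp] lemma DQ0_apply (X : AA × ℂ) : DQ0 X = 1 / 2 * Lf X.1 := rfl

/-- local properties of the functional `Qf` on the ball of radius `ρ` -/
structure LocQ (ρ C : ℝ) : Prop where
  ρ_pos : 0 < ρ
  ρ_le : ρ ≤ 1
  C_ge : 1 ≤ C
  an : ∀ X : AA × ℂ, ‖X‖ < ρ → AnalyticAt ℂ Qf X
  bd : ∀ X : AA × ℂ, ‖X‖ < ρ → ‖Qf X‖ ≤ C
  lip : ∀ X X' : AA × ℂ, ‖X‖ < ρ → ‖X'‖ < ρ → ‖fderiv ℂ Qf X' - fderiv ℂ Qf X‖ ≤ C * ‖X' - X‖
  d0 : ∀ X : AA × ℂ, ‖X‖ < ρ → ‖fderiv ℂ Qf X - DQ0‖ ≤ C * ‖X‖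
  c11 : ∀ (m : ℝ) (X X' : AA × ℂ), m < ρ → ‖X‖ ≤ m → ‖X'‖ ≤ m →
    ‖Qf X' - Qf X - 1 / 2 * Lf (X'.1 - X.1)‖ ≤ C * m * ‖X' - X‖
  c2 : ∀ X X' : AA × ℂ, ‖X‖ < ρ → ‖X'‖ < ρ →
    ‖Qf X' - Qf X - fderiv ℂ Qf X (X' - X)‖ ≤ C * ‖X' - X‖ ^ 2
  ic : ∀ X : AA × ℂ, ‖X‖ < ρ → ‖Ic X - 1‖ ≤ 1 / 2

theorem exists_locQ : ∃ ρ C : ℝ, LocQ ρ C := by
  have h1 : ∀ᶠ X in 𝓝 (0 : AA × ℂ), AnalyticAt ℂ Qf X := analyticAt_Qf.eventually_analyticAt
  have h2 : ContDiffAt ℂ 1 (fderiv ℂ Qf) 0 :=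
    (analyticAt_Qf.contDiffAt (n := 2)).fderiv_right (by norm_num)
  obtain ⟨K, t, ht, hK⟩ := h2.exists_lipschitzOnWith
  have h3 : ∀ᶠ X in 𝓝 (0 : AA × ℂ), ‖Qf X‖ ≤ 1 := by
    have hc : ContinuousAt (fun X => ‖Qf X‖) (0 : AA × ℂ) :=
      analyticAt_Qf.continuousAt.norm
    have : ‖Qf 0‖ < 1 := by rw [Qf_zero]; norm_num
    filter_upwards [hc.eventually (gt_mem_nhds this)] with X hX
    exact le_of_lt hX
  have h4 : ∀ᶠ X in 𝓝 (0 : AA × ℂ), ‖Ic X - 1‖ < 1 / 2 := by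
    have hc : ContinuousAt (fun X => ‖Ic X - 1‖) (0 : AA × ℂ) :=
      ((analyticAt_Ic 0).continuousAt.sub continuousAt_const).norm
    have : ‖Ic 0 - 1‖ < 1 / 2 := by rw [Ic_zero]; norm_num
    exact hc.eventually (gt_mem_nhds this)
  have h5 : ∀ᶠ X in 𝓝 (0 : AA × ℂ), X ∈ t := ht
  obtain ⟨ρ, hρ, hball⟩ := Metric.eventually_nhds_iff_ball.1 (h1.and (h3.and (h5.and h4)))
  have hf0 : fderiv ℂ Qf 0 = DQ0 := hasFDerivAt_Qf_zero.fderiv
  have hmem : ∀ X : AA × ℂ, ‖X‖ < min ρ 1 → X ∈ ball (0 : AA × ℂ) ρ := fun X hX =>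
    mem_ball_zero_iff.2 (hX.trans_le (min_le_left _ _))
  have hC : (K : ℝ) ≤ (K : ℝ) + 1 := by linarith
  have hK0 : (0 : ℝ) ≤ K := K.2
  have hlip : ∀ X X' : AA × ℂ, ‖X‖ < min ρ 1 → ‖X'‖ < min ρ 1 →
      ‖fderiv ℂ Qf X' - fderiv ℂ Qf X‖ ≤ (K + 1) * ‖X' - X‖ := by
    intro X X' hX hX'
    have h := hK.norm_sub_le (hball X' (hmem X' hX')).2.2.1 (hball X (hmem X hX)).2.2.1
    exact h.trans (mul_le_mul_of_nonneg_right hC (norm_nonneg _))
  have hρ1 : 0 < min ρ 1 := lt_min hρ one_pos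
  have hd0 : ∀ X : AA × ℂ, ‖X‖ < min ρ 1 → ‖fderiv ℂ Qf X - DQ0‖ ≤ (K + 1) * ‖X‖ := by
    intro X hX
    have h := hlip 0 X (by simpa using hρ1) hX
    rwa [hf0, sub_zero] at h
  have hcx : ∀ X X' : AA × ℂ, ‖X‖ < min ρ 1 → ‖X'‖ < min ρ 1 → ∀ Y ∈ segment ℝ X X',
      ‖Y‖ < min ρ 1 := by
    intro X X' hX hX' Y hY
    have := (convex_ball (0 : AA × ℂ) (min ρ 1)).segment_subset (mem_ball_zero_iff.2 hX)
      (mem_ball_zero_iff.2 hX') hY
    exact mem_ball_zero_iff.1 this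
  refine ⟨min ρ 1, K + 1, hρ1, min_le_right _ _, by linarith, fun X hX => (hball X (hmem X hX)).1,
    fun X hX => ((hball X (hmem X hX)).2.1).trans (by linarith), hlip, hd0, ?_, ?_,
    fun X hX => ((hball X (hmem X hX)).2.2.2).le⟩
  · intro m X X' hm hX hX'
    have h := Convex.norm_image_sub_le_of_norm_fderiv_le' (𝕜 := ℂ) (f := Qf) (φ := DQ0)
      (C := (K + 1) * m) (s := closedBall (0 : AA × ℂ) m) (x := X) (y := X')
      (fun Y hY => ((hball Y (hmem Y ((mem_closedBall_zero_iff.1 hY).trans_lt hm))).1).differentiableAt)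
      (fun Y hY => by
        have hY' := mem_closedBall_zero_iff.1 hY
        exact (hd0 Y (hY'.trans_lt hm)).trans (mul_le_mul_of_nonneg_left hY' (by linarith)))
      (convex_closedBall _ _) (mem_closedBall_zero_iff.2 hX) (mem_closedBall_zero_iff.2 hX')
    exact h
  · intro X X' hX hX'
    have h := Convex.norm_image_sub_le_of_norm_fderiv_le' (𝕜 := ℂ) (f := Qf) (φ := fderiv ℂ Qf X)
      (C := (K + 1) * ‖X' - X‖) (s := segment ℝ X X') (x := X) (y := X')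
      (fun Y hY => ((hball Y (hmem Y (hcx X X' hX hX' Y hY))).1).differentiableAt)
      (fun Y hY => by
        have h1 := hlip X Y hX (hcx X X' hX hX' Y hY)
        refine h1.trans (mul_le_mul_of_nonneg_left ?_ (by linarith))
        obtain ⟨a, b, ha, hb, hab, rfl⟩ := hY
        have e : a • X + b • X' - X = b • (X' - X) := by
          have : a = 1 - b := by linarith
          rw [this, sub_smul, one_smul, smul_sub]
          abel
        rw [e, norm_smul, Real.norm_of_nonneg hb]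
        exact mul_le_of_le_one_left (norm_nonneg _) (by linarith))
      (convex_segment _ _) (left_mem_segment _ _ _) (right_mem_segment _ _ _)
    refine h.trans (le_of_eq ?_)
    ring

/-! ### values of `Lf` -/

lemma Lf_one : Lf 1 = 1 / 2 := by
  rw [Lf_eq, mul_one, Lam_one, Lam_iot]
  norm_num

lemma Lf_iot : Lf iot = 0 := by
  have h := Lam_J iot
  have h2 : Lam (iot * iot) = 1 / 3 := by
    rw [Lam_apply]
    have : ∫ a in (0 : ℝ)..1, ext (iot * iot) a = ∫ a in (0 : ℝ)..1, ((a ^ 2 : ℝ) : ℂ) := by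
      refine intervalIntegral.integral_congr (fun a ha => ?_)
      rw [uIcc_of_le zero_le_one] at ha
      simp only [ext_mul, ext_iot ha]
      push_cast
      ring
    rw [this, intervalIntegral.integral_ofReal, integral_pow]
    norm_num
  rw [Lf_eq, Lam_iot, h2]
  norm_num

lemma norm_Lf_le (d : AA) : ‖Lf d‖ ≤ 5 * ‖d‖ := by
  rw [Lf_eq]
  have h1 := norm_Lam_apply_le d
  have h2 := norm_Lam_apply_le (iot * d)
  have h3 : ‖iot * d‖ ≤ ‖d‖ := by
    refine (norm_mul_le _ _).trans ?_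
    have := mul_le_mul_of_nonneg_right norm_iot_le (norm_nonneg d)
    linarith
  calc ‖2 * Lam d - 3 * Lam (iot * d)‖ ≤ ‖2 * Lam d‖ + ‖3 * Lam (iot * d)‖ := norm_sub_le _ _
    _ = 2 * ‖Lam d‖ + 3 * ‖Lam (iot * d)‖ := by rw [norm_mul, norm_mul]; norm_num
    _ ≤ 5 * ‖d‖ := by linarith

end Crest.Agent.R102.A929
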