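import Mathlib

/-!
# Row 102, T1-E, good column (516 #26350), step (2): windows (helper203)

`M` concave on `[τ0, ∞)`, `M → ∞`. There are arbitrarily large centres `τ` with slope `S ≥ 1/(4τ²)`
such that the slope of `M` is `S (1 + O(1/√τ))` on `[τ - √τ/2, τ + √τ/2]` and all earlier slopes
are at most `16 S (τ/t)²` (records of `k² (M(k+1) - M(k))`).
-/

set_option autoImplicit false

open Set Filter Topology

namespace Crest.Agent.R102.GC203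

/-- slopes of a concave function decrease -/
theorem slope_le {τ0 : ℝ} {M : ℝ → ℝ} (hc : ConcaveOn ℝ (Ici τ0) M) {a b c d : ℝ}
    (ha : τ0 ≤ a) (hab : a < b) (hbc : b ≤ c) (hcd : c < d) :
    (M d - M c) / (d - c) ≤ (M b - M a) / (b - a) := by
  rcases eq_or_lt_of_le hbc with h | h
  · subst h
    exact hc.slope_anti_adjacent (show τ0 ≤ a from ha) (show τ0 ≤ d by linarith) hab hcd
  · have h1 := hc.slope_anti_adjacent (show τ0 ≤ b by linarith) (show τ0 ≤ d by linarith) h hcd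
    have h2 := hc.slope_anti_adjacent (show τ0 ≤ a from ha) (show τ0 ≤ c by linarith) hab h
    exact h1.trans h2

/-- a concave function tending to infinity is increasing -/
theorem slope_pos {τ0 : ℝ} {M : ℝ → ℝ} (hc : ConcaveOn ℝ (Ici τ0) M)
    (hM : Tendsto M atTop atTop) {a b : ℝ} (ha : τ0 ≤ a) (hab : a < b) : M a < M b := by
  by_contra hcon
  push Not at hcon
  obtain ⟨d, hd1, hd2⟩ := ((hM.eventually_gt_atTop (M b)).and (eventually_gt_atTop b)).exists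
  have h := slope_le hc ha hab le_rfl hd2
  have h1 : 0 < (M d - M b) / (d - b) := div_pos (by linarith) (by linarith)
  have h2 : (M b - M a) / (b - a) ≤ 0 := div_nonpos_of_nonpos_of_nonneg (by linarith) (by linarith)
  linarith

/-- records of `k² D k` -/
theorem records {D : ℕ → ℝ} {k0 : ℕ} (hD : ∀ k, k0 ≤ k → 0 < D k)
    (hdiv : ¬ BddAbove (Set.range fun n : ℕ => ∑ k ∈ Finset.range n, D (k0 + k))) (T : ℕ) :
    ∃ N, T ≤ N ∧ k0 ≤ N ∧ 1 ≤ (N : ℝ) ^ 2 * D N ∧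
      ∀ j, k0 ≤ j → j ≤ N → (j : ℝ) ^ 2 * D j ≤ (N : ℝ) ^ 2 * D N := by
  classical
  -- unboundedness of k² D k
  have hunb : ∀ B : ℝ, ∃ k, k0 + 1 ≤ k ∧ B < (k : ℝ) ^ 2 * D k := by
    intro B
    by_contra hcon
    push Not at hcon
    apply hdiv
    have hs : Summable fun n : ℕ => (1 : ℝ) / (n : ℝ) ^ 2 :=
      Real.summable_one_div_nat_pow.2 (by norm_num)
    have hs2 : Summable fun n : ℕ => |B| * ((1 : ℝ) / ((n + (k0 + 1) : ℕ) : ℝ) ^ 2) := by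
      have := ((summable_nat_add_iff (k0 + 1)).2 hs).mul_left |B|
      simpa using this
    refine ⟨D k0 + ∑' n : ℕ, |B| * ((1 : ℝ) / ((n + (k0 + 1) : ℕ) : ℝ) ^ 2), ?_⟩
    rintro _ ⟨n, rfl⟩
    simp only
    have hterm : ∀ n : ℕ, D (k0 + (n + 1)) ≤ |B| * ((1 : ℝ) / ((n + (k0 + 1) : ℕ) : ℝ) ^ 2) := by
      intro n
      have h1 := hcon (k0 + (n + 1)) (by omega)
      have h2 : (0 : ℝ) < ((n + (k0 + 1) : ℕ) : ℝ) ^ 2 := by
        have : (0 : ℝ) < ((n + (k0 + 1) : ℕ) : ℝ) := by exact_mod_cast (by omega : 0 < n + (k0 + 1))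
        positivity
      have h3 : ((k0 + (n + 1) : ℕ) : ℝ) = ((n + (k0 + 1) : ℕ) : ℝ) := by
        congr 1
        omega
      rw [h3] at h1
      rw [mul_one_div, le_div_iff₀ h2]
      calc D (k0 + (n + 1)) * ((n + (k0 + 1) : ℕ) : ℝ) ^ 2
          = ((n + (k0 + 1) : ℕ) : ℝ) ^ 2 * D (k0 + (n + 1)) := mul_comm _ _
        _ ≤ B := h1
        _ ≤ |B| := le_abs_self B
    have hnn : ∀ n : ℕ, 0 ≤ |B| * ((1 : ℝ) / ((n + (k0 + 1) : ℕ) : ℝ) ^ 2) := by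
      intro n; positivity
    rcases n with _ | n
    · simp only [Finset.range_zero, Finset.sum_empty]
      have := hD k0 le_rfl
      have h5 : 0 ≤ ∑' n : ℕ, |B| * ((1 : ℝ) / ((n + (k0 + 1) : ℕ) : ℝ) ^ 2) := tsum_nonneg hnn
      linarith
    · rw [Finset.sum_range_succ']
      have h6 : ∑ k ∈ Finset.range n, D (k0 + (k + 1)) ≤
          ∑' n : ℕ, |B| * ((1 : ℝ) / ((n + (k0 + 1) : ℕ) : ℝ) ^ 2) := by
        refine (Finset.sum_le_sum fun k _ => hterm k).trans ?_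
        exact hs2.sum_le_tsum _ (fun i _ => hnn i)
      simp only [add_zero]
      linarith
  -- choose K
  set B : ℝ := 1 + ∑ j ∈ Finset.range (T + 1), (j : ℝ) ^ 2 * |D j| with hB
  obtain ⟨K, hK0, hK⟩ := hunb B
  have hBT : ∀ j ≤ T, (j : ℝ) ^ 2 * D j ≤ B := by
    intro j hj
    have h1 : (j : ℝ) ^ 2 * |D j| ≤ ∑ j ∈ Finset.range (T + 1), (j : ℝ) ^ 2 * |D j| :=
      Finset.single_le_sum (f := fun j : ℕ => (j : ℝ) ^ 2 * |D j|) (fun i _ => by positivity)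
        (Finset.mem_range.2 (by omega))
    have h2 : (j : ℝ) ^ 2 * D j ≤ (j : ℝ) ^ 2 * |D j| :=
      mul_le_mul_of_nonneg_left (le_abs_self _) (by positivity)
    rw [hB]; linarith
  have hB1 : 1 ≤ B := by
    rw [hB]
    have : 0 ≤ ∑ j ∈ Finset.range (T + 1), (j : ℝ) ^ 2 * |D j| :=
      Finset.sum_nonneg fun i _ => by positivity
    linarith
  obtain ⟨N, hN, hmax⟩ := Finset.exists_max_image (Finset.Icc k0 K) (fun j : ℕ => (j : ℝ) ^ 2 * D j)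
    ⟨K, Finset.mem_Icc.2 ⟨by omega, le_rfl⟩⟩
  have hNK := Finset.mem_Icc.1 hN
  have hNB : B < (N : ℝ) ^ 2 * D N :=
    lt_of_lt_of_le hK (hmax K (Finset.mem_Icc.2 ⟨by omega, le_rfl⟩))
  refine ⟨N, ?_, hNK.1, by linarith, ?_⟩
  · by_contra hlt
    push Not at hlt
    have := hBT N (by omega)
    linarith
  · intro j hj1 hj2
    exact hmax j (Finset.mem_Icc.2 ⟨hj1, by omega⟩)

/-- the window estimates, middle part -/
theorem win_mid {τ0 : ℝ} {M : ℝ → ℝ} (hc : ConcaveOn ℝ (Ici τ0) M) {k0 N : ℕ}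
    (hk0 : τ0 ≤ (k0 : ℝ)) {n q τ r S : ℝ} (hn : n = (N : ℝ)) (hS : S = M (n + 1) - M n)
    (hS0 : 0 < S)
    (hrec : ∀ j : ℕ, k0 ≤ j → j ≤ N → 0 < j → M ((j : ℝ) + 1) - M j ≤ S * (n / j) ^ 2)
    (hqq : q * q = n) (hq64 : 64 ≤ q) (hτ : τ = n - q) (hr32 : 32 ≤ r) (hrq : r ≤ q)
    (hk : (k0 : ℝ) + 3 + q / 2 ≤ τ) {x : ℝ} (hx : 0 < x) (hx1 : x ≤ r / 2) :
    S * x ≤ M (τ + x) - M τ ∧ M (τ + x) - M τ ≤ (1 + 64 / r) * S * x ∧
      S * x ≤ M τ - M (τ - x) ∧ M τ - M (τ - x) ≤ (1 + 64 / r) * S * x := by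
  have hk00 : (0 : ℝ) ≤ k0 := Nat.cast_nonneg _
  have hxq : x ≤ q / 2 := by linarith
  have hτx : τ0 ≤ τ - x := by linarith
  have hSD : S = (M (n + 1) - M n) / ((n + 1) - n) := by
    rw [hS, add_sub_cancel_left, div_one]
  have hA : S ≤ (M (τ + x) - M τ) / (τ + x - τ) := by
    rw [hSD]
    exact slope_le hc (by linarith) (by linarith) (by rw [hτ]; linarith) (by linarith)
  have hB : (M (τ + x) - M τ) / (τ + x - τ) ≤ (M τ - M (τ - x)) / (τ - (τ - x)) :=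
    slope_le hc hτx (by linarith) le_rfl (by linarith)
  have hjex : ∃ j : ℕ, k0 ≤ j ∧ 0 < j ∧ (j : ℝ) + 1 ≤ τ - x ∧ τ - x - 2 ≤ j := by
    have h3 : (k0 : ℝ) + 3 ≤ τ - x := by linarith
    have h4 : 0 ≤ τ - x := by linarith
    have h5 : k0 + 3 ≤ ⌊τ - x⌋₊ := Nat.le_floor (by push_cast; linarith)
    have h6 : ((⌊τ - x⌋₊ - 1 : ℕ) : ℝ) = (⌊τ - x⌋₊ : ℝ) - 1 := by
      rw [Nat.cast_sub (by omega)]; simp
    have h7 := Nat.floor_le h4
    have h8 := Nat.lt_floor_add_one (τ - x)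
    refine ⟨⌊τ - x⌋₊ - 1, by omega, by omega, ?_, ?_⟩
    · rw [h6]; linarith
    · rw [h6]; linarith
  obtain ⟨j, hj1, hj2, hj3, hj4⟩ := hjex
  have hj5 : j ≤ N := by
    have : (j : ℝ) ≤ (N : ℝ) := by rw [← hn]; linarith
    exact Nat.cast_le.1 this
  have hC : (M τ - M (τ - x)) / (τ - (τ - x)) ≤ M ((j : ℝ) + 1) - M j := by
    have h1 : M ((j : ℝ) + 1) - M j = (M ((j : ℝ) + 1) - M j) / ((j : ℝ) + 1 - j) := by
      rw [add_sub_cancel_left, div_one]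
    rw [h1]
    have h2 : τ0 ≤ (j : ℝ) := hk0.trans (Nat.cast_le.2 hj1)
    exact slope_le hc h2 (by linarith) hj3 (by linarith)
  have hj0 : (0 : ℝ) < j := Nat.cast_pos.2 hj2
  have hD2 : M ((j : ℝ) + 1) - M j ≤ S * (1 + 64 / r) := by
    refine (hrec j hj1 hj5 hj2).trans ?_
    refine mul_le_mul_of_nonneg_left ?_ hS0.le
    have hq0 : 0 < q := by linarith
    have h1 : n - 2 * q ≤ j := by linarith
    have h2 : n / j ≤ 1 + 8 / q := by
      rw [div_le_iff₀ hj0]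
      have h3 : (1 + 8 / q) * (n - 2 * q) ≤ (1 + 8 / q) * j :=
        mul_le_mul_of_nonneg_left h1 (by positivity)
      refine le_trans ?_ h3
      have h4 : (1 + 8 / q) * (n - 2 * q) = n - 2 * q + 8 * q - 16 := by
        rw [← hqq]; field_simp; ring
      rw [h4]; linarith
    have h5 : 8 / q ≤ 8 / r := div_le_div_of_nonneg_left (by norm_num) (by linarith) hrq
    have h6 : 0 ≤ n / j := by
      have : 0 ≤ n := by rw [hn]; exact Nat.cast_nonneg _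
      positivity
    have h7 : (n / j) ^ 2 ≤ (1 + 8 / r) ^ 2 :=
      pow_le_pow_left₀ h6 (h2.trans (by linarith)) 2
    refine h7.trans ?_
    have h8 : 8 / r ≤ 1 := by rw [div_le_one (by linarith)]; linarith
    have h9 : 0 ≤ 8 / r := by positivity
    have h10 : 64 / r = 8 * (8 / r) := by ring
    rw [h10]
    generalize 8 / r = y at h8 h9
    nlinarith
  have e1 : τ + x - τ = x := by ring
  have e2 : τ - (τ - x) = x := by ring
  rw [e1] at hA hB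
  rw [e2] at hB hC
  have hC' := hC.trans hD2
  refine ⟨?_, ?_, ?_, ?_⟩
  · rwa [le_div_iff₀ hx] at hA
  · have h := hB.trans hC'
    rw [div_le_iff₀ hx] at h
    linarith
  · have h := hA.trans hB
    rwa [le_div_iff₀ hx] at h
  · rw [div_le_iff₀ hx] at hC'
    linarith

/-- the window estimates, earlier slopes -/
theorem win_early {τ0 : ℝ} {M : ℝ → ℝ} (hc : ConcaveOn ℝ (Ici τ0) M) {k0 N : ℕ}
    (hk0 : τ0 ≤ (k0 : ℝ)) {n τ S : ℝ} (hn : n = (N : ℝ))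
    (hS0 : 0 < S)
    (hrec : ∀ j : ℕ, k0 ≤ j → j ≤ N → 0 < j → M ((j : ℝ) + 1) - M j ≤ S * (n / j) ^ 2)
    (hτn : τ ≤ n) (hnτ : n ≤ 2 * τ) {t : ℝ} (ht1 : (k0 : ℝ) + 6 ≤ t) (ht2 : t ≤ τ) :
    M t - M (t - 1) ≤ 16 * S * (τ / t) ^ 2 := by
  have hk00 : (0 : ℝ) ≤ k0 := Nat.cast_nonneg _
  have ht0 : 0 < t := by linarith
  have h4 : 0 ≤ t := ht0.le
  have h5 : k0 + 6 ≤ ⌊t⌋₊ := Nat.le_floor (by push_cast; linarith)
  obtain ⟨j, hj⟩ : ∃ j : ℕ, ⌊t⌋₊ = j + 2 := ⟨⌊t⌋₊ - 2, by omega⟩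
  have h7 := Nat.floor_le h4
  have h8 := Nat.lt_floor_add_one t
  rw [hj] at h7 h8 h5
  push_cast at h7 h8
  have hj0 : 0 < j := by omega
  have hj0' : (0 : ℝ) < j := Nat.cast_pos.2 hj0
  have hj5 : j ≤ N := by
    have : (j : ℝ) ≤ (N : ℝ) := by rw [← hn]; linarith
    exact Nat.cast_le.1 this
  have hkj : k0 ≤ j := by omega
  have h9 : (M t - M (t - 1)) / (t - (t - 1)) ≤ M ((j : ℝ) + 1) - M j := by
    have h1 : M ((j : ℝ) + 1) - M j = (M ((j : ℝ) + 1) - M j) / ((j : ℝ) + 1 - j) := by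
      rw [add_sub_cancel_left, div_one]
    rw [h1]
    have h2 : τ0 ≤ (j : ℝ) := hk0.trans (Nat.cast_le.2 hkj)
    exact slope_le hc h2 (by linarith) (by linarith) (by linarith)
  have e1 : t - (t - 1) = 1 := by ring
  rw [e1, div_one] at h9
  refine h9.trans ((hrec j hkj hj5 hj0).trans ?_)
  have h10 : n / j ≤ 4 * (τ / t) := by
    rw [div_le_iff₀ hj0']
    have h12 : t / 2 ≤ j := by linarith
    have hτ0 : 0 < τ := by linarith
    have h13 : 4 * (τ / t) * (t / 2) ≤ 4 * (τ / t) * j :=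
      mul_le_mul_of_nonneg_left h12 (by positivity)
    refine le_trans ?_ h13
    have h14 : 4 * (τ / t) * (t / 2) = 2 * τ := by field_simp; ring
    rw [h14]; exact hnτ
  have h15 : 0 ≤ n / j := by
    have : 0 ≤ n := by rw [hn]; exact Nat.cast_nonneg _
    positivity
  have h16 : (n / j) ^ 2 ≤ (4 * (τ / t)) ^ 2 := pow_le_pow_left₀ h15 h10 2
  calc S * (n / j) ^ 2 ≤ S * (4 * (τ / t)) ^ 2 := mul_le_mul_of_nonneg_left h16 hS0.le
    _ = 16 * S * (τ / t) ^ 2 := by ring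

/-- windows -/
theorem windows {τ0 : ℝ} {M : ℝ → ℝ} (hc : ConcaveOn ℝ (Ici τ0) M)
    (hM : Tendsto M atTop atTop) :
    ∃ τ1, τ0 < τ1 ∧ 0 < τ1 ∧ ∀ T, ∃ τ, T ≤ τ ∧ τ1 ≤ τ ∧ ∃ S, 0 < S ∧ 1 / (4 * τ ^ 2) ≤ S ∧
      (∀ x, 0 ≤ x → x ≤ √τ / 2 →
        S * x ≤ M (τ + x) - M τ ∧ M (τ + x) - M τ ≤ (1 + 64 / √τ) * S * x ∧
        S * x ≤ M τ - M (τ - x) ∧ M τ - M (τ - x) ≤ (1 + 64 / √τ) * S * x) ∧
      (∀ t, τ1 ≤ t → t ≤ τ → M t - M (t - 1) ≤ 16 * S * (τ / t) ^ 2) := by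
  classical
  obtain ⟨k0, hk0⟩ := exists_nat_ge (max τ0 0)
  have hk0' : τ0 ≤ (k0 : ℝ) := (le_max_left _ _).trans hk0
  have hDpos : ∀ k : ℕ, k0 ≤ k → 0 < M ((k : ℝ) + 1) - M k := by
    intro k hk
    have h1 : τ0 ≤ (k : ℝ) := hk0'.trans (Nat.cast_le.2 hk)
    have := slope_pos hc hM h1 (show (k : ℝ) < k + 1 by linarith)
    linarith
  have hsum : ∀ n : ℕ, ∑ k ∈ Finset.range n, (M (((k0 + k : ℕ) : ℝ) + 1) - M ((k0 + k : ℕ) : ℝ)) =
      M ((k0 + n : ℕ) : ℝ) - M k0 := by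
    intro n
    induction n with
    | zero => simp
    | succ n ih =>
      rw [Finset.sum_range_succ, ih]
      push_cast
      rw [add_assoc (k0 : ℝ) n 1]
      ring
  have hdiv : ¬ BddAbove (Set.range fun n : ℕ => ∑ k ∈ Finset.range n,
      (fun k : ℕ => M ((k : ℝ) + 1) - M k) (k0 + k)) := by
    rintro ⟨B, hB⟩
    have h1 : Tendsto (fun n : ℕ => M ((k0 + n : ℕ) : ℝ)) atTop atTop := by
      refine hM.comp ?_
      refine tendsto_natCast_atTop_atTop.comp ?_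
      exact tendsto_add_atTop_nat k0 |>.congr fun n => by simp [add_comm]
    obtain ⟨n, hn⟩ := (h1.eventually_gt_atTop (B + M k0)).exists
    have h2 := hB ⟨n, rfl⟩
    simp only at h2
    rw [hsum] at h2
    linarith
  have hk00 : (0 : ℝ) ≤ k0 := Nat.cast_nonneg _
  refine ⟨k0 + 6, by linarith, by linarith, ?_⟩
  intro T
  obtain ⟨T', hT'⟩ := exists_nat_ge (2 * |T| + 2 * ((k0 : ℝ) + 6) + 4096)
  obtain ⟨N, hTN, hkN, hN1, hrec⟩ := records hDpos hdiv T'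
  have hNT : 2 * |T| + 2 * ((k0 : ℝ) + 6) + 4096 ≤ (N : ℝ) := hT'.trans (Nat.cast_le.2 hTN)
  have hT0 : 0 ≤ |T| := abs_nonneg T
  have hT1 : T ≤ |T| := le_abs_self T
  obtain ⟨n, hn⟩ : ∃ n : ℝ, n = (N : ℝ) := ⟨_, rfl⟩
  obtain ⟨q, hq⟩ : ∃ q : ℝ, q = √n := ⟨_, rfl⟩
  obtain ⟨τ, hτ⟩ : ∃ τ : ℝ, τ = n - q := ⟨_, rfl⟩
  obtain ⟨S, hS⟩ : ∃ S : ℝ, S = M (n + 1) - M n := ⟨_, rfl⟩
  obtain ⟨r, hr⟩ : ∃ r : ℝ, r = √τ := ⟨_, rfl⟩
  rw [← hn] at hNT
  have hn0 : 4096 ≤ n := by linarith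
  have hqq : q * q = n := by rw [hq]; exact Real.mul_self_sqrt (by linarith)
  have hq64 : 64 ≤ q := by
    rw [hq]
    apply Real.le_sqrt_of_sq_le
    linarith
  have hqn : 64 * q ≤ n := by rw [← hqq]; exact mul_le_mul_of_nonneg_right hq64 (by linarith)
  have hτ0 : 0 < τ := by linarith
  have hS0 : 0 < S := by rw [hS, hn]; exact hDpos N hkN
  have hr32 : 32 ≤ r := by
    rw [hr]
    apply Real.le_sqrt_of_sq_le
    linarith
  have hrq : r ≤ q := by rw [hr, hq]; exact Real.sqrt_le_sqrt (by linarith)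
  have hrec' : ∀ j : ℕ, k0 ≤ j → j ≤ N → 0 < j → M ((j : ℝ) + 1) - M j ≤ S * (n / j) ^ 2 := by
    intro j h1 h2 h3
    have h4 := hrec j h1 h2
    have h5 : (0 : ℝ) < j := Nat.cast_pos.2 h3
    rw [div_pow, mul_div_assoc', le_div_iff₀ (by positivity)]
    have h6 : (M ((j : ℝ) + 1) - M j) * (j : ℝ) ^ 2 = (j : ℝ) ^ 2 * (M ((j : ℝ) + 1) - M j) :=
      mul_comm _ _
    have h7 : S * n ^ 2 = (N : ℝ) ^ 2 * (M ((N : ℝ) + 1) - M N) := by rw [hS, hn]; ring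
    rw [h6, h7]
    exact h4
  refine ⟨τ, by linarith, by linarith, S, hS0, ?_, ?_, ?_⟩
  · rw [div_le_iff₀ (by positivity)]
    have h1 : n ≤ 2 * τ := by linarith
    have h2 : 1 ≤ n ^ 2 * S := by rw [hS, hn]; exact hN1
    have h3 : n ^ 2 ≤ (2 * τ) ^ 2 := pow_le_pow_left₀ (by linarith) h1 2
    have h4 : n ^ 2 * S ≤ (2 * τ) ^ 2 * S := mul_le_mul_of_nonneg_right h3 hS0.le
    linarith
  · intro x hx0 hx1
    rw [← hr] at hx1 ⊢
    rcases eq_or_lt_of_le hx0 with h0 | hx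
    · rw [← h0]; simp
    · exact win_mid hc hk0' hn hS hS0 hrec' hqq hq64 hτ hr32 hrq (by linarith) hx hx1
  · intro t ht1 ht2
    exact win_early hc hk0' hn hS0 hrec' (by linarith) (by linarith) ht1 ht2

end Crest.Agent.R102.GC203
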