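import Crest.Agent.R102.H3Defs_337

/-!
# Row 102, [H3], leaf GF: the field of meromorphic germs (helper348)

General form: `E` a complex normed space, `p : E`.  `GR p` is the ring of germs at `p` of functions
analytic at `p`, `GK p` its field of fractions, `dK v : Derivation ℂ (GK p) (GK p)` the extension of
the derivative in the direction `v`.
-/

set_option autoImplicit false

open Set Filter Topology

noncomputable section

namespace Crest.Agent.R102.GF348

variable {E : Type} [NormedAddCommGroup E] [NormedSpace ℂ E]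

/-- the ring of germs of analytic functions -/
def GR (p : E) : Subring (Germ (𝓝 p) ℂ) where
  carrier := {a | ∃ f : E → ℂ, AnalyticAt ℂ f p ∧ (f : Germ (𝓝 p) ℂ) = a}
  mul_mem' := by
    rintro _ _ ⟨f, hf, rfl⟩ ⟨g, hg, rfl⟩
    exact ⟨f * g, hf.mul hg, rfl⟩
  one_mem' := ⟨fun _ => 1, analyticAt_const, rfl⟩
  add_mem' := by
    rintro _ _ ⟨f, hf, rfl⟩ ⟨g, hg, rfl⟩
    exact ⟨f + g, hf.add hg, rfl⟩
  zero_mem' := ⟨fun _ => 0, analyticAt_const, rfl⟩
  neg_mem' := by
    rintro _ ⟨f, hf, rfl⟩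
    exact ⟨-f, hf.neg, rfl⟩

variable {p : E}

/-- the germ of an analytic function -/
def gm (f : E → ℂ) (hf : AnalyticAt ℂ f p) : GR p := ⟨(f : Germ (𝓝 p) ℂ), f, hf, rfl⟩

/-- a representative -/
def rp (a : GR p) : E → ℂ := a.2.choose

lemma rp_an (a : GR p) : AnalyticAt ℂ (rp a) p := a.2.choose_spec.1

lemma rp_eq (a : GR p) : (rp a : Germ (𝓝 p) ℂ) = a.1 := a.2.choose_spec.2

lemma gm_rp (a : GR p) : gm (rp a) (rp_an a) = a := Subtype.ext (rp_eq a)

lemma gm_eq {f g : E → ℂ} {hf : AnalyticAt ℂ f p} {hg : AnalyticAt ℂ g p} :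
    gm f hf = gm g hg ↔ f =ᶠ[𝓝 p] g := by
  unfold gm
  rw [Subtype.mk.injEq, Germ.coe_eq]

lemma rp_gm {f : E → ℂ} (hf : AnalyticAt ℂ f p) : rp (gm f hf) =ᶠ[𝓝 p] f := by
  rw [← gm_eq (hf := rp_an _) (hg := hf), gm_rp]

lemma gm_add {f g : E → ℂ} (hf : AnalyticAt ℂ f p) (hg : AnalyticAt ℂ g p) :
    gm f hf + gm g hg = gm (fun x => f x + g x) (hf.add hg) := rfl

lemma gm_mul {f g : E → ℂ} (hf : AnalyticAt ℂ f p) (hg : AnalyticAt ℂ g p) :
    gm f hf * gm g hg = gm (fun x => f x * g x) (hf.mul hg) := rfl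

lemma gm_zero : (0 : GR p) = gm (fun _ => 0) analyticAt_const := rfl

lemma gm_one : (1 : GR p) = gm (fun _ => 1) analyticAt_const := rfl

lemma gm_eq_zero {f : E → ℂ} (hf : AnalyticAt ℂ f p) : gm f hf = 0 ↔ ∀ᶠ x in 𝓝 p, f x = 0 := by
  rw [gm_zero, gm_eq]; rfl

/-- constants -/
def cst (p : E) : ℂ →+* GR p where
  toFun c := gm (fun _ => c) analyticAt_const
  map_one' := rfl
  map_mul' _ _ := rfl
  map_zero' := rfl
  map_add' _ _ := rfl

instance : Algebra ℂ (GR p) := (cst p).toAlgebra

lemma algebraMap_GR (c : ℂ) : algebraMap ℂ (GR p) c = gm (fun _ => c) analyticAt_const := rfl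

instance : Nontrivial (GR p) := by
  refine ⟨⟨0, 1, fun h => ?_⟩⟩
  rw [gm_one, gm_zero, gm_eq] at h
  have h1 : (0 : ℂ) = 1 := h.self_of_nhds
  exact zero_ne_one h1

/-- the germ ring is a domain -/
lemma mul_zero_imp {f g : E → ℂ} (hf : AnalyticAt ℂ f p) (hg : AnalyticAt ℂ g p)
    (h : ∀ᶠ x in 𝓝 p, f x * g x = 0) : (∀ᶠ x in 𝓝 p, f x = 0) ∨ ∀ᶠ x in 𝓝 p, g x = 0 := by
  by_cases hf0 : ∀ᶠ x in 𝓝 p, f x = 0
  · exact Or.inl hf0
  right
  obtain ⟨r, hr, hball⟩ := Metric.eventually_nhds_iff_ball.1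
    (hf.eventually_analyticAt.and (hg.eventually_analyticAt.and h))
  -- a point in the ball where `f ≠ 0`
  have hex : ∃ q ∈ Metric.ball p r, f q ≠ 0 := by
    by_contra hcon
    push Not at hcon
    exact hf0 (Filter.mem_of_superset (Metric.ball_mem_nhds p hr) hcon)
  obtain ⟨q, hq, hfq⟩ := hex
  have hgan : AnalyticOnNhd ℂ g (Metric.ball p r) := fun x hx => (hball x hx).2.1
  have hev : ∀ᶠ x in 𝓝 q, g x = 0 := by
    have h1 : ∀ᶠ x in 𝓝 q, f x ≠ 0 := (hball q hq).1.continuousAt.eventually_ne hfq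
    filter_upwards [h1, Metric.isOpen_ball.mem_nhds hq] with x hx1 hx2
    rcases mul_eq_zero.1 (hball x hx2).2.2 with h2 | h2
    · exact absurd h2 hx1
    · exact h2
  have hz : EqOn g 0 (Metric.ball p r) :=
    hgan.eqOn_zero_of_preconnected_of_eventuallyEq_zero
      (convex_ball p r).isPreconnected hq hev
  exact Filter.mem_of_superset (Metric.ball_mem_nhds p hr) hz

instance : NoZeroDivisors (GR p) where
  eq_zero_or_eq_zero_of_mul_eq_zero := by
    intro a b hab
    rw [← gm_rp a, ← gm_rp b, gm_mul, gm_eq_zero] at hab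
    rcases mul_zero_imp (rp_an a) (rp_an b) hab with h | h
    · left; rw [← gm_rp a, gm_eq_zero]; exact h
    · right; rw [← gm_rp b, gm_eq_zero]; exact h

instance : IsDomain (GR p) := NoZeroDivisors.to_isDomain _

/-- the field of meromorphic germs -/
abbrev GK (p : E) := FractionRing (GR p)

/-! ### derivations -/

lemma fd_an {f : E → ℂ} (hf : AnalyticAt ℂ f p) (v : E) :
    AnalyticAt ℂ (fun x => fderiv ℂ f x v) p := by
  have h1 := hf.fderiv
  exact ((ContinuousLinearMap.apply ℂ ℂ v).analyticAt _).comp h1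

/-- derivative of a germ in the direction `v` -/
def dG (v : E) (a : GR p) : GR p := gm (fun x => fderiv ℂ (rp a) x v) (fd_an (rp_an a) v)

lemma dG_gm (v : E) {f : E → ℂ} (hf : AnalyticAt ℂ f p) :
    dG v (gm f hf) = gm (fun x => fderiv ℂ f x v) (fd_an hf v) := by
  unfold dG
  rw [gm_eq]
  filter_upwards [(rp_gm hf).fderiv (𝕜 := ℂ)] with x hx
  rw [hx]

lemma dG_add (v : E) (a b : GR p) : dG v (a + b) = dG v a + dG v b := by
  rw [← gm_rp a, ← gm_rp b, gm_add, dG_gm, dG_gm, dG_gm, gm_add, gm_eq]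
  filter_upwards [(rp_an a).eventually_analyticAt, (rp_an b).eventually_analyticAt] with x h1 h2
  have := (h1.differentiableAt.hasFDerivAt.add h2.differentiableAt.hasFDerivAt).fderiv
  have e : (fun x => rp a x + rp b x) = rp a + rp b := rfl
  rw [e, this]; rfl

lemma dG_mul (v : E) (a b : GR p) : dG v (a * b) = a * dG v b + b * dG v a := by
  rw [← gm_rp a, ← gm_rp b, gm_mul, dG_gm, dG_gm, dG_gm, gm_mul, gm_mul, gm_add, gm_eq]
  filter_upwards [(rp_an a).eventually_analyticAt, (rp_an b).eventually_analyticAt] with x h1 h2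
  have := (h1.differentiableAt.hasFDerivAt.mul h2.differentiableAt.hasFDerivAt).fderiv
  have e : (fun x => rp a x * rp b x) = rp a * rp b := rfl
  rw [e, this]
  simp

lemma dG_cst (v : E) (c : ℂ) : dG v (algebraMap ℂ (GR p) c) = 0 := by
  rw [algebraMap_GR, dG_gm, gm_eq_zero]
  filter_upwards with x
  simp

lemma dG_zero (v : E) : dG v (0 : GR p) = 0 := by
  have := dG_cst (p := p) v 0
  rwa [map_zero] at this

lemma dG_one (v : E) : dG v (1 : GR p) = 0 := by
  have := dG_cst (p := p) v 1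
  rwa [map_one] at this

/-- the ring hom into the dual numbers -/
def toDual (v : E) : GR p →+* TrivSqZeroExt (GK p) (GK p) where
  toFun a := ((algebraMap (GR p) (GK p) a, algebraMap (GR p) (GK p) (dG v a)) :
    (GK p) × (GK p))
  map_one' := by
    apply TrivSqZeroExt.ext
    · exact map_one _
    · show algebraMap (GR p) (GK p) (dG v 1) = 0
      rw [dG_one, map_zero]
  map_zero' := by
    apply TrivSqZeroExt.ext
    · exact map_zero _
    · show algebraMap (GR p) (GK p) (dG v 0) = 0
      rw [dG_zero, map_zero]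
  map_add' a b := by
    apply TrivSqZeroExt.ext
    · exact map_add _ _ _
    · show algebraMap (GR p) (GK p) (dG v (a + b)) =
        algebraMap (GR p) (GK p) (dG v a) + algebraMap (GR p) (GK p) (dG v b)
      rw [dG_add, map_add]
  map_mul' a b := by
    apply TrivSqZeroExt.ext
    · exact map_mul _ _ _
    · rw [TrivSqZeroExt.snd_mul]
      show algebraMap (GR p) (GK p) (dG v (a * b)) =
        algebraMap (GR p) (GK p) a • algebraMap (GR p) (GK p) (dG v b) +
          MulOpposite.op (algebraMap (GR p) (GK p) b) • algebraMap (GR p) (GK p) (dG v a)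
      rw [dG_mul, map_add, map_mul, map_mul, smul_eq_mul, op_smul_eq_mul]
      ring

lemma toDual_fst (v : E) (a : GR p) : (toDual v a).fst = algebraMap (GR p) (GK p) a := rfl

lemma toDual_snd (v : E) (a : GR p) : (toDual v a).snd = algebraMap (GR p) (GK p) (dG v a) := rfl

lemma toDual_unit (v : E) (y : nonZeroDivisors (GR p)) : IsUnit (toDual v (y : GR p)) := by
  rw [TrivSqZeroExt.isUnit_iff_isUnit_fst, toDual_fst]
  exact IsLocalization.map_units (GK p) y

/-- extension to the fraction field -/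
def lf (v : E) : GK p →+* TrivSqZeroExt (GK p) (GK p) :=
  IsLocalization.lift (M := nonZeroDivisors (GR p)) (toDual_unit v)

lemma lf_algebraMap (v : E) (a : GR p) :
    lf v (algebraMap (GR p) (GK p) a) = toDual v a :=
  IsLocalization.lift_eq _ _

lemma lf_fst (v : E) (z : GK p) : (lf v z).fst = z := by
  have h : ((TrivSqZeroExt.fstHom ℂ (GK p) (GK p)).toRingHom).comp (lf v) = RingHom.id (GK p) := by
    apply IsLocalization.ringHom_ext (nonZeroDivisors (GR p))
    ext a
    show (lf v (algebraMap (GR p) (GK p) a)).fst = algebraMap (GR p) (GK p) a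
    rw [lf_algebraMap, toDual_fst]
  exact RingHom.congr_fun h z

lemma lf_snd_mul (v : E) (z w : GK p) :
    (lf v (z * w)).snd = z * (lf v w).snd + w * (lf v z).snd := by
  rw [map_mul, TrivSqZeroExt.snd_mul, lf_fst, lf_fst, smul_eq_mul, op_smul_eq_mul]
  ring

lemma algebraMap_GK (c : ℂ) :
    algebraMap ℂ (GK p) c = algebraMap (GR p) (GK p) (algebraMap ℂ (GR p) c) :=
  IsScalarTower.algebraMap_apply ℂ (GR p) (GK p) c

lemma lf_snd_cst (v : E) (c : ℂ) : (lf v (algebraMap ℂ (GK p) c)).snd = 0 := by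
  rw [algebraMap_GK, lf_algebraMap, toDual_snd, dG_cst, map_zero]

/-- the derivation of the field of meromorphic germs in the direction `v` -/
def dK (v : E) : Derivation ℂ (GK p) (GK p) :=
  Derivation.mk'
    { toFun := fun z => (lf v z).snd
      map_add' := fun z w => by rw [map_add, TrivSqZeroExt.snd_add]
      map_smul' := fun c z => by
        rw [Algebra.smul_def, lf_snd_mul, lf_snd_cst, RingHom.id_apply, Algebra.smul_def]
        ring }
    (fun z w => by
      show (lf v (z * w)).snd = z • (lf v w).snd + w • (lf v z).snd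
      rw [lf_snd_mul, smul_eq_mul, smul_eq_mul])

lemma dK_algebraMap (v : E) (a : GR p) :
    dK v (algebraMap (GR p) (GK p) a) = algebraMap (GR p) (GK p) (dG v a) := by
  show (lf v _).snd = _
  rw [lf_algebraMap, toDual_snd]

/-- a derivation which kills the germ ring is zero -/
lemma der_zero {D : Derivation ℂ (GK p) (GK p)} (h : ∀ a : GR p, D (algebraMap (GR p) (GK p) a) = 0)
    (z : GK p) : D z = 0 := by
  obtain ⟨a, b, hb, rfl⟩ := IsFractionRing.div_surjective (GR p) z
  have hb0 : algebraMap (GR p) (GK p) b ≠ 0 := by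
    intro h0
    have := (IsFractionRing.injective (GR p) (GK p)) (h0.trans (map_zero _).symm)
    exact nonZeroDivisors.ne_zero hb this
  have e : algebraMap (GR p) (GK p) a / algebraMap (GR p) (GK p) b * algebraMap (GR p) (GK p) b =
      algebraMap (GR p) (GK p) a := div_mul_cancel₀ _ hb0
  have h1 := congrArg D e
  rw [Derivation.leibniz, h a, h b, smul_zero, zero_add, smul_eq_mul] at h1
  exact (mul_eq_zero.1 h1).resolve_left hb0

lemma fd_comm {f : E → ℂ} (hf : AnalyticAt ℂ f p) (v w : E) :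
    (fun x => fderiv ℂ (fun y => fderiv ℂ f y v) x w) =ᶠ[𝓝 p]
      fun x => fderiv ℂ (fun y => fderiv ℂ f y w) x v := by
  filter_upwards [hf.eventually_analyticAt] with x hx
  have hd : DifferentiableAt ℂ (fderiv ℂ f) x := hx.fderiv.differentiableAt
  have key : ∀ v w : E, fderiv ℂ (fun y => fderiv ℂ f y v) x w = fderiv ℂ (fderiv ℂ f) x w v := by
    intro v w
    have h1 : HasFDerivAt (fun y => fderiv ℂ f y v)
        ((ContinuousLinearMap.apply ℂ ℂ v).comp (fderiv ℂ (fderiv ℂ f) x)) x :=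
      (ContinuousLinearMap.apply ℂ ℂ v).hasFDerivAt.comp x hd.hasFDerivAt
    rw [h1.fderiv]; rfl
  rw [key, key]
  have hs : IsSymmSndFDerivAt ℂ f x := hx.contDiffAt.isSymmSndFDerivAt (n := ⊤) (by simp)
  exact hs.eq w v

lemma dG_comm (v w : E) (a : GR p) : dG v (dG w a) = dG w (dG v a) := by
  rw [← gm_rp a, dG_gm, dG_gm, dG_gm, dG_gm, gm_eq]
  exact fd_comm (rp_an a) w v

/-- the derivations commute -/
lemma dK_comm (v w : E) (z : GK p) : dK v (dK w z) = dK w (dK v z) := by
  have h : (⁅(dK v : Derivation ℂ (GK p) (GK p)), (dK w : Derivation ℂ (GK p) (GK p))⁆ :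
      Derivation ℂ (GK p) (GK p)) z = 0 := by
    apply der_zero
    intro a
    rw [Derivation.commutator_apply, dK_algebraMap, dK_algebraMap, dK_algebraMap, dK_algebraMap,
      dG_comm, sub_self]
  rw [Derivation.commutator_apply] at h
  exact sub_eq_zero.1 h

/-- the embedding of analytic functions (total function, `0` if not analytic at `p`) -/
def io (p : E) (f : E → ℂ) : GK p := by
  classical
  exact if h : AnalyticAt ℂ f p then algebraMap (GR p) (GK p) (gm f h) else 0

lemma io_eq {f : E → ℂ} (h : AnalyticAt ℂ f p) : io p f = algebraMap (GR p) (GK p) (gm f h) := by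
  unfold io
  rw [dif_pos h]

lemma io_add {f g : E → ℂ} (hf : AnalyticAt ℂ f p) (hg : AnalyticAt ℂ g p) :
    io p (fun x => f x + g x) = io p f + io p g := by
  rw [io_eq hf, io_eq hg, io_eq (show AnalyticAt ℂ (fun x => f x + g x) p from hf.add hg),
    ← map_add, gm_add]

lemma io_mul {f g : E → ℂ} (hf : AnalyticAt ℂ f p) (hg : AnalyticAt ℂ g p) :
    io p (fun x => f x * g x) = io p f * io p g := by
  rw [io_eq hf, io_eq hg, io_eq (show AnalyticAt ℂ (fun x => f x * g x) p from hf.mul hg),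
    ← map_mul, gm_mul]

lemma io_const (c : ℂ) : io p (fun _ => c) = algebraMap ℂ (GK p) c := by
  rw [io_eq analyticAt_const, algebraMap_GK]; rfl

lemma io_zero_iff {f : E → ℂ} (hf : AnalyticAt ℂ f p) : io p f = 0 ↔ ∀ᶠ x in 𝓝 p, f x = 0 := by
  rw [io_eq hf, ← gm_eq_zero hf]
  constructor
  · intro h
    exact (IsFractionRing.injective (GR p) (GK p)) (h.trans (map_zero _).symm)
  · intro h; rw [h, map_zero]

lemma dK_io (v : E) {f : E → ℂ} (hf : AnalyticAt ℂ f p) :
    dK v (io p f) = io p (fun x => fderiv ℂ f x v) := by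
  rw [io_eq hf, dK_algebraMap, dG_gm, io_eq (fd_an hf v)]

lemma io_frac (z : GK p) : ∃ f h : E → ℂ, AnalyticAt ℂ f p ∧ AnalyticAt ℂ h p ∧ io p h ≠ 0 ∧
    z = io p f / io p h := by
  obtain ⟨a, b, hb, rfl⟩ := IsFractionRing.div_surjective (GR p) z
  refine ⟨rp a, rp b, rp_an a, rp_an b, ?_, ?_⟩
  · rw [io_eq (rp_an b), gm_rp]
    intro h0
    have := (IsFractionRing.injective (GR p) (GK p)) (h0.trans (map_zero _).symm)
    exact nonZeroDivisors.ne_zero hb this
  · rw [io_eq (rp_an a), io_eq (rp_an b), gm_rp, gm_rp]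

/-- **GF** -/
theorem leafGF : H3.LeafGF := by
  intro p
  refine ⟨GK p, inferInstance, inferInstance, ⟨?_⟩⟩
  exact
    { ι := io p
      D := ![dK (1, 0), dK (0, 1)]
      add := fun f h hf hh => io_add hf hh
      mul := fun f h hf hh => io_mul hf hh
      const := fun c => io_const c
      zero_iff := fun f hf => io_zero_iff hf
      d1 := fun f hf => dK_io (1, 0) hf
      d2 := fun f hf => dK_io (0, 1) hf
      frac := fun z => io_frac z
      comm := fun z => dK_comm (1, 0) (0, 1) z }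

end Crest.Agent.R102.GF348
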