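import Crest.Agent.R102.T1EColJ_314
import Crest.Agent.R102.GrowthDefs_314

/-!
Row 102, block GROWTH (helper314): the good column (`COLK`) over a window of order `k` of a concave
height `M ≤ h0`; the complementary case gives the growth bound.
-/

set_option autoImplicit false

open Set Filter Topology Metric

noncomputable section

namespace Crest.Agent.R102.GrowColJ314

open Crest.Agent.R102.Growth Crest.Agent.R102.T5

lemma ev_exp (k : ℕ) : ∀ᶠ τ : ℝ in atTop, 2 * Real.exp (-(τ / 2)) ≤ 1 / (2 * τ ^ k) := by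
  have h := Real.tendsto_pow_mul_exp_neg_atTop_nhds_zero k
  have h' : Tendsto (fun τ : ℝ => (τ / 2) ^ k * Real.exp (-(τ / 2))) atTop (𝓝 0) :=
    h.comp (tendsto_id.atTop_div_const (by norm_num))
  have hc : (0 : ℝ) < 1 / (4 * 2 ^ k) := by positivity
  filter_upwards [h'.eventually (gt_mem_nhds hc), eventually_gt_atTop (0 : ℝ)] with τ ht h0
  rw [le_div_iff₀ (by positivity)]
  have e : (τ / 2) ^ k = τ ^ k / 2 ^ k := div_pow _ _ _
  rw [e] at ht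
  have h2 : (0 : ℝ) < 2 ^ k := by positivity
  have h3 : τ ^ k / 2 ^ k * Real.exp (-(τ / 2)) = τ ^ k * Real.exp (-(τ / 2)) / 2 ^ k := by ring
  rw [h3, div_lt_iff₀ h2] at ht
  have h4 : 1 / (4 * 2 ^ k) * 2 ^ k = (1 : ℝ) / 4 := by field_simp
  rw [h4] at ht
  nlinarith

/-- **the good column over a window of order `k`** -/
theorem col_jointK (hCOL : COLK) {k : ℕ} (hk : 2 ≤ k) {h0 : ℝ} (hh0 : 0 < h0) {M : ℝ → ℝ}
    {y G : ℂ → ℂ} (hy : DifferentiableOn ℂ y (Str h0)) (hG : DifferentiableOn ℂ G (Str h0))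
    (hyG : ∀ z ∈ Str h0, deriv (deriv y) z = G z * y z)
    (hper : ∀ z ∈ Str h0, y (z + 1) = y z)
    (hreal : ∀ x : ℝ, (y x).im = 0 ∧ 0 < (y x).re) {C1 T1 τ0 : ℝ} (hC1 : 0 < C1)
    (hconc : ConcaveOn ℝ (Ici τ0) M) (hτ0 : 0 < τ0) (hM0 : 0 ≤ M τ0)
    (hMle : ∀ τ' : ℝ, τ0 ≤ τ' → M τ' ≤ h0)
    (hAP : ∀ τ' : ℝ, T1 ≤ τ' → ∀ z : ℂ, |z.im| ≤ M τ' - 2 * Real.exp (-τ') →
      ‖y z‖ ≤ C1 * √τ' * Real.exp τ') {C' κ : ℝ} (hC' : 1 ≤ C') (hκ : 0 < κ) :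
    ∃ T : ℝ, ∀ τ ≥ T, ∀ S : ℝ, 1 / τ ^ k ≤ S →
      (∀ β : ℝ, |β| ≤ ((C' + 1) * Real.log τ) ^ 3 → |M (τ + β) - M τ - S * β| ≤ 1 / 10 * S) →
      M τ + C' * Real.log τ * S < h0 ∧
      ∃ x : ℝ, ∀ z ∈ closedBall ((x : ℂ) + M τ * Complex.I) (C' * Real.log τ * S),
        ‖y z‖ ≤ κ * Real.exp τ ∧ ‖G z‖ ≤ κ ^ 2 * Real.exp (2 * τ) := by
  obtain ⟨L0, hL0⟩ := hCOL k h0 y G hk hh0 hy hG hyG hper hreal C' (4 * C1) κ hC' (by linarith) hκ
  have hlog : ∀ᶠ τ : ℝ in atTop, 1 ≤ Real.log τ := Real.tendsto_log_atTop.eventually_ge_atTop 1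
  obtain ⟨T, hT⟩ := eventually_atTop.1 ((T1EColJ314.ev_num hC' T1 τ0 L0).and
    ((ev_exp k).and (hlog.and (eventually_ge_atTop (2 * τ0)))))
  refine ⟨T, fun τ hτ S hS hlin => ?_⟩
  obtain ⟨⟨a1, a2, -, a4, a5, a6, a7, a8⟩, a3, a9, a10⟩ := hT τ hτ
  have hτ1 : (0 : ℝ) < τ := by linarith
  have hS0 : 0 < S := lt_of_lt_of_le (by positivity) hS
  have hlow : S * τ / 2 ≤ M τ := T1EColJ314.low_of_win hconc hM0 hτ0 a6 hS0
    (hlin 1 (by rw [abs_one]; linarith))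
  set A : ℝ := (C' * Real.log τ) ^ 3 with hA
  have hCl : 1 ≤ C' * Real.log τ := by nlinarith
  have hAC : C' * Real.log τ ≤ A := by
    rw [hA]
    nlinarith [sq_nonneg (C' * Real.log τ - 1)]
  have hβ1 : |A + 1| ≤ ((C' + 1) * Real.log τ) ^ 3 := by
    rw [abs_of_nonneg (by linarith)]
    exact a1
  have htop := (abs_le.1 (hlin (A + 1) hβ1)).1
  have hMtop := hMle (τ + (A + 1)) (by linarith)
  have hmA : M τ + S * A < h0 := by nlinarith
  refine ⟨by nlinarith, ?_⟩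
  refine hL0 τ a7 (M τ) S hS hlow hmA fun β hβ z hz => ?_
  have hβ' : |β + 1| ≤ ((C' + 1) * Real.log τ) ^ 3 := by
    refine (abs_add_le β 1).trans ?_
    rw [abs_one]
    linarith
  have h1 := (abs_le.1 (hlin (β + 1) hβ')).1
  have hβl := (abs_le.1 hβ).1
  have hβu := (abs_le.1 hβ).2
  have hτ' : τ / 2 ≤ τ + (β + 1) := by linarith
  have hτ'2 : τ + (β + 1) ≤ 2 * τ := by linarith
  have he : 2 * Real.exp (-(τ + (β + 1))) ≤ S / 2 := by
    have e1 : Real.exp (-(τ + (β + 1))) ≤ Real.exp (-(τ / 2)) := Real.exp_le_exp.2 (by linarith)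
    have e2 : 1 / (2 * τ ^ k) = 1 / τ ^ k / 2 := by
      field_simp
    rw [e2] at a3
    linarith
  have h2 := hAP (τ + (β + 1)) (by linarith) z (by linarith)
  refine h2.trans ?_
  have e3 : √(τ + (β + 1)) ≤ √2 * √τ := by
    rw [← Real.sqrt_mul (by norm_num)]
    exact Real.sqrt_le_sqrt hτ'2
  have e4 : Real.exp (τ + (β + 1)) = Real.exp 1 * Real.exp (τ + β) := by
    rw [← Real.exp_add]
    ring_nf
  have e5 : √2 * Real.exp 1 ≤ 4 := by
    have k1 : √2 ≤ 1.415 := by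
      rw [Real.sqrt_le_left (by norm_num)]
      norm_num
    have k2 := Real.exp_one_lt_d9
    have k3 := Real.exp_pos 1
    have k4 : √2 * Real.exp 1 ≤ 1.415 * 2.7182818286 := by
      gcongr
    refine k4.trans ?_
    norm_num
  calc C1 * √(τ + (β + 1)) * Real.exp (τ + (β + 1))
      ≤ C1 * (√2 * √τ) * (Real.exp 1 * Real.exp (τ + β)) := by
        rw [e4]
        gcongr
    _ = C1 * (√2 * Real.exp 1) * √τ * Real.exp (τ + β) := by ring
    _ ≤ C1 * 4 * √τ * Real.exp (τ + β) := by gcongr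
    _ = 4 * C1 * √τ * Real.exp (τ + β) := by ring

set_option maxHeartbeats 1000000 in
/-- **growth from the speed of the heights** -/
theorem growth_of {h0 : ℝ} (hh0 : 0 < h0) {M : ℝ → ℝ} {y G : ℂ → ℂ} {C1 T1 C2 : ℝ} {k : ℕ}
    (hC1 : 0 < C1) (hC2 : 0 < C2) (hT1 : 1 ≤ T1)
    (hM : ∀ τ : ℝ, T1 ≤ τ → h0 - M τ ≤ C2 * (τ ^ (k + 1))⁻¹)
    (hAP : ∀ τ : ℝ, T1 ≤ τ → ∀ z : ℂ, |z.im| ≤ M τ - 2 * Real.exp (-τ) →
      ‖y z‖ ≤ C1 * √τ * Real.exp τ ∧ ‖G z‖ ≤ C1 ^ 2 * τ * Real.exp (2 * τ)) :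
    ∃ C : ℝ, 0 < C ∧ ∀ d : ℝ, 0 < d → d < h0 → ∀ z : ℂ, |z.im| ≤ h0 - d →
      Real.log (1 + ‖y z‖ + ‖G z‖) ≤ C * d ^ (-(1 / ((k : ℝ) + 1))) := by
  obtain ⟨T2, hT2⟩ := eventually_atTop.1 (ev_exp (k + 1))
  set T : ℝ := max T1 T2 with hT
  have hT1' : T1 ≤ T := le_max_left _ _
  have hT0 : 1 ≤ T := hT1.trans hT1'
  have hk : (0 : ℝ) < (k : ℝ) + 1 := by positivity
  set e : ℝ := 1 / ((k : ℝ) + 1) with he
  have he0 : 0 < e := by positivity
  -- the constant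
  set P : ℝ := (C2 + 1) ^ e with hP
  have hP1 : 1 ≤ P := Real.one_le_rpow (by linarith) he0.le
  set Q : ℝ := Real.log (1 + C1 + C1 ^ 2) + 4 with hQ
  have hQ0 : 4 ≤ Q := by
    have : 0 ≤ Real.log (1 + C1 + C1 ^ 2) := Real.log_nonneg (by nlinarith [sq_nonneg C1])
    linarith
  refine ⟨Q * (P + T * (h0 ^ e + 1)), by positivity, fun d hd hdh z hz => ?_⟩
  have hde : 0 < d ^ (-e) := Real.rpow_pos_of_pos hd _
  set τ : ℝ := P * d ^ (-e) + T with hτ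
  have hPd : 0 < P * d ^ (-e) := by positivity
  have hτT : T ≤ τ := by linarith
  have hτ1 : 1 ≤ τ := hT0.trans hτT
  have hpow : (C2 + 1) / d ≤ τ ^ (k + 1) := by
    have h1 : (P * d ^ (-e)) ^ (k + 1) ≤ τ ^ (k + 1) := by
      gcongr
      linarith
    refine le_trans (le_of_eq ?_) h1
    rw [mul_pow, hP, ← Real.rpow_natCast, ← Real.rpow_mul (by linarith), ← Real.rpow_natCast,
      ← Real.rpow_mul hd.le]
    have e1 : e * ((k + 1 : ℕ) : ℝ) = 1 := by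
      rw [he]
      push_cast
      field_simp
    have e2 : -e * ((k + 1 : ℕ) : ℝ) = -1 := by rw [neg_mul, e1]
    rw [e1, e2, Real.rpow_one, Real.rpow_neg_one, div_eq_mul_inv]
  have hτk : 0 < τ ^ (k + 1) := by positivity
  have h3 : (C2 + 1) * (τ ^ (k + 1))⁻¹ ≤ d := by
    rw [div_le_iff₀ hd] at hpow
    rw [← div_eq_mul_inv, div_le_iff₀ hτk]
    linarith
  have h4 := hM τ (hT1'.trans hτT)
  have h5 : 2 * Real.exp (-τ) ≤ (τ ^ (k + 1))⁻¹ := by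
    have h6 := hT2 τ ((le_max_right _ _).trans hτT)
    have h7 : Real.exp (-τ) ≤ Real.exp (-(τ / 2)) := Real.exp_le_exp.2 (by linarith)
    have h8 : 1 / (2 * τ ^ (k + 1)) = (τ ^ (k + 1))⁻¹ / 2 := by
      field_simp
    rw [h8] at h6
    have h9 : 0 < (τ ^ (k + 1))⁻¹ := by positivity
    linarith
  have h10 : |z.im| ≤ M τ - 2 * Real.exp (-τ) := by nlinarith
  obtain ⟨b1, b2⟩ := hAP τ (hT1'.trans hτT) z h10
  have hτ0 : 0 < τ := by linarith
  have hs : √τ ≤ τ := by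
    rw [Real.sqrt_le_left (by linarith)]
    nlinarith
  have hte : τ ≤ Real.exp τ := by
    have := Real.add_one_le_exp τ
    linarith
  have b3 : ‖y z‖ ≤ C1 * Real.exp (3 * τ) := by
    refine b1.trans ?_
    have : √τ * Real.exp τ ≤ Real.exp (3 * τ) := by
      have e1 : Real.exp (3 * τ) = Real.exp τ * Real.exp τ * Real.exp τ := by
        rw [← Real.exp_add, ← Real.exp_add]; ring_nf
      rw [e1]
      have e2 : 1 ≤ Real.exp τ := Real.one_le_exp (by linarith)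
      have e3 : √τ ≤ Real.exp τ := hs.trans hte
      have e4 : √τ * Real.exp τ ≤ Real.exp τ * Real.exp τ := by gcongr
      have e5 : 0 ≤ Real.exp τ * Real.exp τ := by positivity
      nlinarith
    rw [mul_assoc]
    gcongr
  have b4 : ‖G z‖ ≤ C1 ^ 2 * Real.exp (3 * τ) := by
    refine b2.trans ?_
    have : τ * Real.exp (2 * τ) ≤ Real.exp (3 * τ) := by
      have e1 : Real.exp (3 * τ) = Real.exp τ * Real.exp (2 * τ) := by
        rw [← Real.exp_add]; ring_nf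
      rw [e1]
      gcongr
    rw [mul_assoc]
    gcongr
  have b5 : 1 + ‖y z‖ + ‖G z‖ ≤ (1 + C1 + C1 ^ 2) * Real.exp (3 * τ) := by
    have : 1 ≤ Real.exp (3 * τ) := Real.one_le_exp (by linarith)
    nlinarith
  have b6 : Real.log (1 + ‖y z‖ + ‖G z‖) ≤ Real.log (1 + C1 + C1 ^ 2) + 3 * τ := by
    have h11 : 0 < 1 + ‖y z‖ + ‖G z‖ := by positivity
    refine (Real.log_le_log h11 b5).trans ?_
    rw [Real.log_mul (by positivity) (Real.exp_pos _).ne', Real.log_exp]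
  have b7 : Real.log (1 + ‖y z‖ + ‖G z‖) ≤ Q * τ := by
    have : 0 ≤ Real.log (1 + C1 + C1 ^ 2) := Real.log_nonneg (by nlinarith [sq_nonneg C1])
    rw [hQ]
    nlinarith
  refine b7.trans ?_
  rw [mul_assoc]
  refine mul_le_mul_of_nonneg_left ?_ (by linarith)
  -- `T ≤ T (h0^e + 1) d^(-e)`
  have h12 : 1 ≤ (h0 ^ e + 1) * d ^ (-e) := by
    have h13 : d ^ e ≤ h0 ^ e := Real.rpow_le_rpow hd.le hdh.le he0.le
    rw [Real.rpow_neg hd.le, ← div_eq_mul_inv, le_div_iff₀ (Real.rpow_pos_of_pos hd _)]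
    linarith
  have : T ≤ T * (h0 ^ e + 1) * d ^ (-e) := by nlinarith
  rw [hτ, add_mul]
  linarith

end Crest.Agent.R102.GrowColJ314
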