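import Crest.Agent.R102.T1ETop_314
import Crest.Agent.R102.GrowthDefs_314

/-!
Row 102, block GROWTH (helper314): the official line set of Case B: `LV`, periodicity, parity,
`(s, 0)` is singular for `Im s = h0`, `{Im t < c} × {‖w‖ < δ(c)}` is regular for `c < h0`;
`Spine.GoodW` from a top line carrying a regular and a singular point.
-/

set_option autoImplicit false

open Set Filter Topology Metric
open scoped ComplexConjugate

noncomputable section

namespace Crest.Agent.R102.GrowTop314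

open Crest.Agent.R102.T5 Crest.Agent.R102.C0 Crest.Agent.R102.C1 Crest.Agent.R102.K669
open Crest.Agent.R102.Sh982 Crest.Agent.R102.Out559 Crest.Agent.R102.Spine
open Crest.Agent.R102.T1ETop314 (Om mem_SL)

variable {q : C(ℂ, ℂ)} {η ρ r B h0 : ℝ} {b φ p : ℂ × ℂ → ℂ} {m₀ θ H : ℂ → ℂ}

lemma lvS (D : DataS q η ρ r B b φ p m₀ θ H h0) : LV (ρ / 2) (ball 0 r) (Om φ p ρ r) :=
  (dat_of D).lvL'

lemma lowS (D : DataS q η ρ r B b φ p m₀ θ H h0) {t w : ℂ} (ht : t.im < ρ / 2) (hw : ‖w‖ < r) :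
    (t, w) ∈ Om φ p ρ r := by
  have := D.fam.ρ_pos
  exact Out559.slab_OmL D.fam (by linarith) (by linarith) le_rfl ht hw

lemma perS (D : DataS q η ρ r B b φ p m₀ θ H h0) : T1EJ712.Per (Om φ p ρ r) 1 := by
  intro t w n h
  have := D.fam.ρ_pos
  have h1 := (Out559.OmL_add_int D.fam (y1 := -(ρ / 2)) (y0 := ρ / 2) (r' := r) (t := t) (w := w)
    (by linarith) (by linarith) le_rfl n).2 h
  simpa using h1

lemma norm_ltS (D : DataS q η ρ r B b φ p m₀ θ H h0) {t w : ℂ} (h : (t, w) ∈ Om φ p ρ r) :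
    ‖w‖ < r := by
  have := (lvS D).sub _ h
  simpa using this

lemma evenS (D : DataS q η ρ r B b φ p m₀ θ H h0) {t w : ℂ} (h : (t, w) ∈ Om φ p ρ r) :
    (t, -w) ∈ Om φ p ρ r := by
  have hρ := D.fam.ρ_pos
  have hw := norm_ltS D h
  rcases lt_or_ge t.im (ρ / 2) with h1 | h1
  · exact lowS D h1 (by rwa [norm_neg])
  have h2 : (t, w) ∈ SL φ p ρ r := (mem_SL (by linarith)).2 h
  have h3 := ((dat_of D).per_SL (σ := 1) (Or.inl rfl) (κ := -1) (Or.inr rfl) h2).1
  simp only [Complex.ofReal_one, neg_one_mul] at h3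
  have h4 : (t + 1, -w) ∈ Om φ p ρ r := (Sh982.SL_iff.1 h3).1
  have h5 := perS D (t + 1) (-w) (-1) h4
  simpa using h5

/-- `{Im t < c} × {‖w‖ < δ}` is in the line set for `c < h0` -/
theorem hextS (D : DataS q η ρ r B b φ p m₀ θ H h0) {c : ℝ} (hc0 : c < h0) :
    ∃ δ > 0, ∀ w : ℂ, ‖w‖ < δ → ∀ t : ℂ, t.im < c → (t, w) ∈ Om φ p ρ r := by
  have hρ := D.fam.ρ_pos
  have hρη := D.fam.ρ_lt
  have hle := D.le
  set m : ℝ := max c ρ with hm
  have hm1 : c ≤ m := le_max_left _ _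
  have hm2 : ρ ≤ m := le_max_right _ _
  have hm3 : m < h0 := max_lt hc0 (by linarith)
  set h' : ℝ := (m + h0) / 2 with hh'
  have hmh : m < h' := by rw [hh']; linarith
  obtain ⟨r', B', b', φ', p', hr0, hrr, F, hag, -, -⟩ := extS q η ρ r B b φ p m₀ D.fam θ H
    (Str h0) h0 h' D.ext subset_rfl (by linarith) (by rw [hh']; linarith)
  refine ⟨r', hr0, fun w hw t ht => ?_⟩
  rcases lt_or_ge t.im (ρ / 2) with h1 | h1
  · exact lowS D h1 (hw.trans_le hrr)
  set ε : ℝ := min (r' - ‖w‖) (h' - m) with hε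
  have hε0 : 0 < ε := lt_min (by linarith) (by linarith)
  have e1 : ε ≤ r' - ‖w‖ := min_le_left _ _
  have e2 : ε ≤ h' - m := min_le_right _ _
  have hn : ∀ z : ℂ, ‖z - w‖ < ε → ‖z‖ < r' := by
    intro z hz
    have := norm_add_le (z - w) w
    rw [sub_add_cancel] at this
    linarith
  have hsub : K669.Tube (-(ρ / 2)) (t, w) ε ⊆ Str h' ×ˢ ball 0 r' := by
    rintro ⟨t', w'⟩ ⟨a1, a2, a3, a4⟩
    simp only at a1 a2 a3 a4
    refine ⟨?_, ?_⟩
    · change |t'.im| < h'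
      exact abs_lt.2 ⟨by linarith, by linarith⟩
    · rw [mem_ball_zero_iff]
      exact hn _ a4
  refine ⟨ε, hε0, ?_, fun x => (φ' x, p' x), (F.φ_diff.mono hsub).prodMk (F.p_diff.mono hsub),
    fun _ _ => mem_univ _, ?_⟩
  · intro z hz
    rw [mem_ball, dist_eq_norm] at hz
    rw [mem_ball_zero_iff]
    exact (hn z hz).trans_le hrr
  · rintro ⟨t', w'⟩ ⟨a1, a2, a3, a4⟩ h2
    simp only at a1 a2 a3 a4 h2
    have h3 : (t', w') ∈ PD ρ r' := ⟨abs_lt.2 ⟨by simp only; linarith, by simp only; linarith⟩,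
      hn _ a4⟩
    obtain ⟨-, h4, h5⟩ := hag t' w' h3
    simp only [h4, h5]

/-- the label set of Case B -/
abbrev OmB (b : ℂ × ℂ → ℂ) (ρ r h0 : ℝ) : Set (ℂ × ℂ) :=
  Out559.OmX b (Str h0) (-(ρ / 2)) (ρ / 2) r

/-- **`GoodW` from a top line with a regular and a singular point** -/
theorem goodWS (D : DataS q η ρ r B b φ p m₀ θ H h0) {u U : ℝ} (hu : 0 < u) (hur : u < r)
    (hirr : Irrational u)
    (hrule : ∀ t : ℂ, 0 ≤ t.im → (t - u / 2, (u : ℂ)) ∈ Om φ p ρ r →
      (t + u / 2, (u : ℂ)) ∈ Om φ p ρ r → (t, (u : ℂ)) ∈ OmB b ρ r h0)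
    (hlow : ∀ t : ℂ, t.im < U → (t, (u : ℂ)) ∈ Om φ p ρ r)
    (hs : ∃ s : ℂ, s.im = U ∧ (s, (u : ℂ)) ∉ Om φ p ρ r)
    (hg : ∃ s : ℂ, s.im = U ∧ (s, (u : ℂ)) ∈ Om φ p ρ r) : GoodW ρ r b φ p (Str h0) u := by
  have hρ := D.fam.ρ_pos
  have hun : ‖(u : ℂ)‖ < r := by rwa [Complex.norm_real, Real.norm_of_nonneg hu.le]
  have hL : ∀ s : ℂ, Spine.RegL ρ r φ p s u ↔ (s, (u : ℂ)) ∈ Om φ p ρ r := fun s =>
    regL_iff D.fam.φ_diff D.fam.p_diff hρ (by linarith) (by linarith) (by linarith)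
      (by linarith) le_rfl hun
  have hX : ∀ s : ℂ, Spine.RegAt ρ r b (Str h0) s u ↔ (s, (u : ℂ)) ∈ OmB b ρ r h0 := fun s =>
    regAt_iff D.fam.b_diff (fun _ hx => Out559.b_mem_Str D.fam D.le _ hx) hρ (by linarith)
      (by linarith) (by linarith) (by linarith) le_rfl hun
  have hU : 0 < U := by
    obtain ⟨s, hs1, hs2⟩ := hs
    by_contra hcon
    push Not at hcon
    exact hs2 (lowS D (by linarith) hun)
  refine ⟨hirr, hu, hur, U, hU, fun s h0 h1 => ⟨(hL s).2 (hlow s h1), (hX s).2 ?_⟩, ?_, ?_⟩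
  · refine hrule s h0 (hlow _ ?_) (hlow _ ?_)
    · have : (s - u / 2).im = s.im := by simp
      rw [this]
      exact h1
    · have : (s + u / 2).im = s.im := by simp
      rw [this]
      exact h1
  · obtain ⟨s, hs1, hs2⟩ := hs
    exact ⟨s, hs1, fun h => hs2 ((hL s).1 h)⟩
  · obtain ⟨s, hs1, hs2⟩ := hg
    exact ⟨s, hs1, (hL s).2 hs2⟩

/-- **the top line at `w = 0`**: `(s, 0)` is singular if `(θ, H)` is singular at `s` -/
theorem top_zero (D : DataS q η ρ r B b φ p m₀ θ H h0) {s : ℂ} (hs : s.im = h0)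
    (hnb : ¬ RegB h0 θ H s) : (s, (0 : ℂ)) ∉ Om φ p ρ r := by
  have hρ := D.fam.ρ_pos
  have hρη := D.fam.ρ_lt
  have hle := D.le
  have hr := D.fam.r_pos
  rintro ⟨ε, hε, hεW, G, hG, -, hGF⟩
  set c : ℝ := min ε (ρ / 4) with hc
  have hc0 : 0 < c := lt_min hε (by positivity)
  have hc1 : c ≤ ε := min_le_left _ _
  have hc2 : c ≤ ρ / 4 := min_le_right _ _
  -- slices
  have hslice : DifferentiableOn ℂ (fun z : ℂ => G (z, (0 : ℂ)))
      {z : ℂ | |z.re - s.re| < ε ∧ -(ρ / 2) < z.im ∧ z.im < s.im + ε} := by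
    refine hG.comp (by fun_prop) ?_
    rintro z ⟨h1, h2, h3⟩
    exact ⟨h1, h2, h3, by simpa using hε⟩
  set A : Set ℂ := {z : ℂ | |z.re - s.re| < ε ∧ -(ρ / 2) < z.im ∧ z.im < h0} with hA
  have hAo : IsOpen A := by
    have c1 : Continuous fun z : ℂ => |z.re - s.re| := by fun_prop
    exact (isOpen_lt c1 continuous_const).inter
      ((isOpen_lt continuous_const Complex.continuous_im).inter
        (isOpen_lt Complex.continuous_im continuous_const))
  have hAc : Convex ℝ A := by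
    have e1 : {z : ℂ | |z.re - s.re| < ε} = {z : ℂ | s.re - ε < z.re} ∩ {z : ℂ | z.re < s.re + ε} := by
      ext z
      constructor
      · intro h
        have := abs_lt.1 (show |z.re - s.re| < ε from h)
        exact ⟨by show s.re - ε < z.re; linarith, by show z.re < s.re + ε; linarith⟩
      · rintro ⟨h1, h2⟩
        have h1' : s.re - ε < z.re := h1
        have h2' : z.re < s.re + ε := h2
        show |z.re - s.re| < ε
        exact abs_lt.2 ⟨by linarith, by linarith⟩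
    have e2 : Convex ℝ {z : ℂ | |z.re - s.re| < ε} := by
      rw [e1]
      exact ((convex_Ioi (s.re - ε)).linear_preimage Complex.reLm).inter
        ((convex_Iio (s.re + ε)).linear_preimage Complex.reLm)
    exact e2.inter (((convex_Ioi (-(ρ / 2))).linear_preimage Complex.imLm).inter
      ((convex_Iio h0).linear_preimage Complex.imLm))
  have hAstr : A ⊆ Str h0 := by
    rintro z ⟨-, h2, h3⟩
    exact abs_lt.2 ⟨by linarith, h3⟩
  -- the base point
  set z0 : ℂ := (s.re : ℂ) with hz0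
  have hz0A : z0 ∈ A := by
    refine ⟨by simpa [hz0] using hε, by simp [hz0]; linarith, by simp [hz0]; linarith⟩
  have hPD : ∀ z : ℂ, |z.im| < ρ / 2 → ((z, (0 : ℂ)) : ℂ × ℂ) ∈ PD ρ r := fun z hz =>
    ⟨by simp only; linarith, by simpa using hr⟩
  have hbase : ∀ z : ℂ, |z.im| < ρ / 2 → |z.re - s.re| < ε → G (z, 0) = (θ z, H z) := by
    intro z hz hzr
    have hz' := abs_lt.1 hz
    have h1 := hGF (z, 0) ⟨hzr, hz'.1, by simp only; linarith, by simpa using hε⟩
      (by simp only; linarith)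
    rw [h1]
    have hzη : z ∈ Str η := by show |z.im| < η; linarith
    have h2 : φ (z, 0) = Tc q z := D.fam.φ_zero z (by linarith)
    have h3 : b (z, 0) = z := by
      have := D.fam.b_near (z, 0) (hPD z hz)
      simp only [norm_zero, ne_eq, OfNat.ofNat_ne_zero, not_false_eq_true, zero_pow, mul_zero] at this
      exact sub_eq_zero.1 (norm_le_zero_iff.1 this)
    have hp : p (z, 0) = Hc q z := by
      have h4 := (dat_of D).base_sum (s := 1) (Or.inl rfl) (t := z) (w := 0) (hPD z hz)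
        (by simpa using hPD z hz) (by simpa using hPD z hz)
      simp only [mul_zero, zero_div, sub_zero, add_zero] at h4
      rw [h3, h2, D.ext.θ_eq z hzη, D.ext.H_eq z hzη, sub_self, Complex.cos_zero, mul_one] at h4
      have h5 : (2 : ℂ) * p (z, 0) = 2 * Hc q z := by
        linear_combination h4
      exact mul_left_cancel₀ two_ne_zero h5
    show (φ (z, 0), p (z, 0)) = (θ z, H z)
    rw [h2, hp, D.ext.θ_eq z hzη, D.ext.H_eq z hzη]
  have hev : (fun z : ℂ => G (z, (0 : ℂ))) =ᶠ[𝓝 z0] fun z => (θ z, H z) := by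
    have k1 : ∀ᶠ z : ℂ in 𝓝 z0, |z.im| < ρ / 2 := by
      have c1 : Continuous fun z : ℂ => |z.im| := by fun_prop
      refine (c1.tendsto z0).eventually (Iio_mem_nhds ?_)
      simp [hz0, hρ]
    filter_upwards [k1, hAo.mem_nhds hz0A] with z h1 h2
    exact hbase z h1 h2.1
  have hA1 : AnalyticOnNhd ℂ (fun z : ℂ => G (z, (0 : ℂ))) A :=
    (hslice.mono fun z hz => ⟨hz.1, hz.2.1, by have := hz.2.2; linarith⟩).analyticOnNhd hAo
  have hA2 : AnalyticOnNhd ℂ (fun z : ℂ => ((θ z, H z) : ℂ × ℂ)) A :=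
    ((D.ext.θ_diff.mono hAstr).prodMk (D.ext.H_diff.mono hAstr)).analyticOnNhd hAo
  have heq := hA1.eqOn_of_preconnected_of_eventuallyEq hA2 hAc.isPreconnected hz0A hev
  have hball : ball s c ⊆ {z : ℂ | |z.re - s.re| < ε ∧ -(ρ / 2) < z.im ∧ z.im < s.im + ε} := by
    intro z hz
    rw [mem_ball, dist_eq_norm] at hz
    have h1 := Complex.abs_re_le_norm (z - s)
    have h2 := Complex.abs_im_le_norm (z - s)
    rw [Complex.sub_re] at h1
    rw [Complex.sub_im] at h2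
    have h3 := abs_lt.1 (h2.trans_lt hz)
    exact ⟨by linarith, by linarith, by linarith⟩
  refine hnb ⟨c, hc0, fun z => (G (z, 0)).1, fun z => (G (z, 0)).2, (hslice.mono hball).fst,
    (hslice.mono hball).snd, fun z hz hzi => ?_⟩
  have h1 := hball hz
  have h2 : z ∈ A := ⟨h1.1, h1.2.1, (abs_lt.1 hzi).2⟩
  have h3 : G (z, 0) = (θ z, H z) := heq h2
  exact ⟨congrArg Prod.fst h3, congrArg Prod.snd h3⟩

/-- no full slab is regular, and the height is at most `h0` -/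
theorem finS (D : DataS q η ρ r B b φ p m₀ θ H h0) (hnb : ∀ s : ℂ, s.im = h0 → ¬ RegB h0 θ H s)
    {r' : ℝ} (hr' : 0 < r') : T1EJ712.Fin' (Om φ p ρ r) r' :=
  ⟨0, h0 * Complex.I, by simpa using hr'.le, top_zero D (by simp) (hnb _ (by simp))⟩

theorem MM_le (D : DataS q η ρ r B b φ p m₀ θ H h0) (hnb : ∀ s : ℂ, s.im = h0 → ¬ RegB h0 θ H s)
    {τ : ℝ} (hτ : Real.exp (-τ) < r) : T1EJ712.MM (Om φ p ρ r) τ ≤ h0 := by
  by_contra hcon
  push Not at hcon
  refine top_zero D (s := h0 * Complex.I) (by simp) (hnb _ (by simp)) ?_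
  refine T1EJ712.mem_of_lt_mm (T1EJ712.LS.of_LV (lvS D)) hτ (by simpa using (Real.exp_pos _).le) ?_
  have : (h0 * Complex.I : ℂ).im = h0 := by simp
  rw [this]
  exact hcon

theorem MM_tendstoS (D : DataS q η ρ r B b φ p m₀ θ H h0)
    (hnb : ∀ s : ℂ, s.im = h0 → ¬ RegB h0 θ H s) :
    Tendsto (T1EJ712.MM (Om φ p ρ r)) atTop (𝓝 h0) := by
  rw [tendsto_order]
  have hr := D.fam.r_pos
  have hev : ∀ᶠ τ : ℝ in atTop, Real.exp (-τ) < r :=
    (Real.tendsto_exp_neg_atTop_nhds_zero).eventually (gt_mem_nhds hr)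
  constructor
  · intro c hc
    obtain ⟨δ, hδ, h1⟩ := hextS D (c := (c + h0) / 2) (by linarith)
    filter_upwards [(Real.tendsto_exp_neg_atTop_nhds_zero).eventually (gt_mem_nhds hδ)] with τ hτ
    refine lt_of_lt_of_le (show c < (c + h0) / 2 by linarith) ?_
    exact T1EJ712.le_mm (finS D hnb (Real.exp_pos _)) fun w hw t ht => h1 w (hw.trans_lt hτ) t ht
  · intro c hc
    filter_upwards [hev] with τ hτ
    exact (MM_le D hnb hτ).trans_lt hc

end Crest.Agent.R102.GrowTop314
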