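import Crest.Agent.R102.H3Defs_337

/-!
Row 102, [H3], leaf **COLL** (helper251): assembly of the three blocks DEFORM, FLIP, SPEC.
-/

set_option autoImplicit false

noncomputable section

open Filter Topology Set Metric

namespace Crest.Agent.R102.H3

namespace COLL251

/-- evaluation of an `MvPolynomial` along analytic functions -/
lemma an_eval {E ι : Type} [NormedAddCommGroup E] [NormedSpace ℂ E] {F : E → ι → ℂ} {z : E}
    (h : ∀ i, AnalyticAt ℂ (fun x => F x i) z) (P : MvPolynomial ι ℂ) :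
    AnalyticAt ℂ (fun x => MvPolynomial.eval (F x) P) z := by
  have := AnalyticAt.aeval_mvPolynomial (A := ℂ) (B := ℂ) (f := F) h P
  simpa [MvPolynomial.coe_aeval_eq_eval] using this

lemma eval_opt {ι : Type} (a : ℂ) (s : ι → ℂ) (E : MvPolynomial (Option ι) ℂ) :
    MvPolynomial.eval (fun o => o.elim a s) E =
      Polynomial.eval₂ (MvPolynomial.eval s) a (MvPolynomial.optionEquivLeft ℂ ι E) := by
  induction E using MvPolynomial.induction_on with
  | C c => simp
  | add p q hp hq => simp [hp, hq, Polynomial.eval₂_add]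
  | mul_X p i hp =>
    cases i <;> simp [hp, Polynomial.eval₂_mul]

lemma eval_opt' {ι : Type} (a : ℂ) (s : ι → ℂ) (P : Polynomial (MvPolynomial ι ℂ)) :
    MvPolynomial.eval (fun o => o.elim a s) ((MvPolynomial.optionEquivLeft ℂ ι).symm P) =
      Polynomial.eval₂ (MvPolynomial.eval s) a P := by
  rw [eval_opt]; simp

lemma eval_some {ι : Type} (a : ℂ) (s : ι → ℂ) (c : MvPolynomial ι ℂ) :
    MvPolynomial.eval (fun o => o.elim a s) (MvPolynomial.rename some c) =
      MvPolynomial.eval s c := by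
  rw [MvPolynomial.eval_rename]; rfl

/-- joint analyticity of the iterated partial derivatives -/
lemma an_iter {G : ℂ × ℂ → ℂ} {A B : Set ℂ} (hA : IsOpen A) (hB : IsOpen B)
    (hG : AnalyticOnNhd ℂ G (A ×ˢ B)) (i : ℕ) :
    AnalyticOnNhd ℂ (fun y : ℂ × ℂ => iteratedDeriv i (fun z => G (z, y.2)) y.1) (A ×ˢ B) := by
  induction i with
  | zero => simpa using hG
  | succ n ih =>
    have h1 : AnalyticOnNhd ℂ (fun y : ℂ × ℂ => fderiv ℂ
        (fun y : ℂ × ℂ => iteratedDeriv n (fun z => G (z, y.2)) y.1) y (1, 0)) (A ×ˢ B) := by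
      intro y hy
      exact ((ContinuousLinearMap.apply ℂ ℂ ((1 : ℂ), (0 : ℂ))).analyticAt _).comp
        (AnalyticAt.fderiv (ih y hy))
    refine h1.congr (hA.prod hB) ?_
    intro y hy
    show fderiv ℂ (fun y : ℂ × ℂ => iteratedDeriv n (fun z => G (z, y.2)) y.1) y (1, 0) =
      iteratedDeriv (n + 1) (fun z => G (z, y.2)) y.1
    rw [iteratedDeriv_succ]
    have h2 := (ih y hy).differentiableAt.hasFDerivAt
    have h3 : HasDerivAt (fun z : ℂ => ((z, y.2) : ℂ × ℂ)) (1, 0) y.1 :=
      (hasDerivAt_id y.1).prodMk (hasDerivAt_const y.1 y.2)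
    have h4 : HasDerivAt (fun z : ℂ => iteratedDeriv n (fun z => G (z, y.2)) z)
        (fderiv ℂ (fun y : ℂ × ℂ => iteratedDeriv n (fun z => G (z, y.2)) y.1) y (1, 0)) y.1 :=
      HasFDerivAt.comp_hasDerivAt_of_eq (f := fun z : ℂ => ((z, y.2) : ℂ × ℂ)) y.1 h2 h3 rfl
    exact h4.deriv.symm

/-- the jets as a function of the vertices and of `(line, ε)` -/
def jj (G : ℕ → ℂ × ℂ → ℂ) (N r : ℕ) (v : Fin N → ℂ) (x : C3) : Idx N r → ℂ
  | Sum.inl i => if i = 0 then x.1.1 else x.1.2
  | Sum.inr (j, none) => v j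
  | Sum.inr (j, some i) => iteratedDeriv i (fun z => G j (z, x.2)) (v j)

lemma jvG_eq (G : ℕ → ℂ × ℂ → ℂ) (N r : ℕ) (b : ℕ → C3 → ℂ) (x : C3) :
    jvG G N r b x = jj G N r (fun j => b j x) x := by
  funext i
  rcases i with i | ⟨j, _ | i⟩ <;> rfl

lemma an_jj {G : ℕ → ℂ × ℂ → ℂ} {N r : ℕ} {x₀ : ℂ} {ρ ε₀ : ℝ}
    (hG : ∀ j < N, AnalyticOnNhd ℂ (G j) (ball x₀ ρ ×ˢ ball 0 ε₀))
    {y : (Fin N → ℂ) × C3} (h1 : ∀ j, y.1 j ∈ ball x₀ ρ) (h2 : y.2.2 ∈ ball (0 : ℂ) ε₀)
    (i : Idx N r) : AnalyticAt ℂ (fun y : (Fin N → ℂ) × C3 => jj G N r y.1 y.2 i) y := by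
  rcases i with i | ⟨j, _ | i⟩
  · show AnalyticAt ℂ (fun y : (Fin N → ℂ) × C3 => if i = 0 then y.2.1.1 else y.2.1.2) y
    by_cases hi : i = 0
    · simp only [hi, if_true]
      exact analyticAt_fst.comp (analyticAt_fst.comp analyticAt_snd)
    · simp only [hi, if_false]
      exact analyticAt_snd.comp (analyticAt_fst.comp analyticAt_snd)
  · show AnalyticAt ℂ (fun y : (Fin N → ℂ) × C3 => y.1 j) y
    have : AnalyticAt ℂ (fun v : Fin N → ℂ => v j) y.1 :=
      (ContinuousLinearMap.proj (R := ℂ) (φ := fun _ : Fin N => ℂ) j).analyticAt _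
    exact this.comp analyticAt_fst
  · show AnalyticAt ℂ (fun y : (Fin N → ℂ) × C3 =>
      iteratedDeriv i (fun z => G j (z, y.2.2)) (y.1 j)) y
    have h3 := an_iter isOpen_ball isOpen_ball (hG j j.2) i (y.1 j, y.2.2) ⟨h1 j, h2⟩
    have h4 : AnalyticAt ℂ (fun y : (Fin N → ℂ) × C3 => (y.1 j, y.2.2)) y := by
      have h5 : AnalyticAt ℂ (fun y : (Fin N → ℂ) × C3 => y.1 j) y := by
        have : AnalyticAt ℂ (fun v : Fin N → ℂ => v j) y.1 :=
          (ContinuousLinearMap.proj (R := ℂ) (φ := fun _ : Fin N => ℂ) j).analyticAt _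
        exact this.comp analyticAt_fst
      exact h5.prod (analyticAt_snd.comp analyticAt_snd)
    exact AnalyticAt.fun_comp (f := fun y : (Fin N → ℂ) × C3 => (y.1 j, y.2.2)) h3 h4

lemma an_jv {g : ℂ → ℂ} {N r : ℕ} {b : ℕ → C2 → ℂ} {l : C2} (hb : ∀ j < N, AnalyticAt ℂ (b j) l)
    (hg : ∀ j < N, AnalyticAt ℂ g (b j l)) (i : Idx N r) :
    AnalyticAt ℂ (fun l => jv g N r b l i) l := by
  rcases i with i | ⟨j, _ | i⟩
  · show AnalyticAt ℂ (fun l : C2 => if i = 0 then l.1 else l.2) l
    by_cases hi : i = 0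
    · simp only [hi, if_true]; exact analyticAt_fst
    · simp only [hi, if_false]; exact analyticAt_snd
  · exact hb j j.2
  · show AnalyticAt ℂ (fun l : C2 => iteratedDeriv i g (b j l)) l
    have h3 : AnalyticAt ℂ (iteratedDeriv i g) (b j l) := by
      have h4 := (hg j j.2).iterated_deriv i
      rwa [← iteratedDeriv_eq_iterate] at h4
    exact AnalyticAt.fun_comp (f := b j) h3 (hb j j.2)

/-- `AlgAt` over the coordinates propagates over a connected open set on which `u` is analytic -/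
lemma algAt_move {u : C2 → ℂ} {D : Set C2} (hD : IsPreconnected D)
    (hu : AnalyticOnNhd ℂ u D) {p p' : C2} (hp : p ∈ D) (hp' : p' ∈ D)
    (h : AlgAt p' L0 u) (hDn : D ∈ 𝓝 p) (hDn' : D ∈ 𝓝 p') : AlgAt p L0 u := by
  obtain ⟨P, h1, n, h2⟩ := h
  have hL : ∀ l : C2, ∀ i, AnalyticAt ℂ (fun x => L0 i x) l := by
    intro l i
    fin_cases i
    · exact analyticAt_fst
    · exact analyticAt_snd
  refine ⟨P, ?_, n, ?_⟩
  · have ha : AnalyticOnNhd ℂ
        (fun x => Polynomial.eval₂ (MvPolynomial.eval (fun i => L0 i x)) (u x) P) D := by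
      intro l hl
      have := an_eval (F := fun x o => (o : Option (Fin 2)).elim (u x) (fun i => L0 i x)) (z := l)
        (by
          intro o
          cases o with
          | none => exact hu l hl
          | some i => exact hL l i) ((MvPolynomial.optionEquivLeft ℂ (Fin 2)).symm P)
      simpa only [eval_opt'] using this
    have := ha.eqOn_zero_of_preconnected_of_eventuallyEq_zero hD hp' h1
    filter_upwards [hDn] with l hl using this hl
  · intro h3
    apply h2
    have ha : AnalyticOnNhd ℂ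
        (fun x => MvPolynomial.eval (fun i => L0 i x) (P.coeff n)) D := by
      intro l hl
      exact an_eval (F := fun x i => L0 i x) (hL l) _
    have := ha.eqOn_zero_of_preconnected_of_eventuallyEq_zero hD hp h3
    filter_upwards [hDn'] with l hl using this hl

end COLL251

open COLL251 in
/-- **COLL**: the collapse theorem from the three blocks. -/
theorem coll (h1 : BlockDEFORM) (h2 : BlockFLIP) (h3 : BlockSPEC) : BlockCOLL := by
  intro N r g gh u x₀ Num Den Numh Denh hP hNF hNFh hng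
  obtain ⟨ρD, hρD, hD⟩ := h1 N r g gh u x₀ Num Den Numh Denh hP hNF hNFh hng
  obtain ⟨ρg, hρg, hg⟩ : ∃ ρ > 0, AnalyticOnNhd ℂ g (ball x₀ ρ) := by
    obtain ⟨ρ, h, h'⟩ := Metric.eventually_nhds_iff_ball.1 hP.g_an.eventually_analyticAt
    exact ⟨ρ, h, h'⟩
  set ρ := min ρD ρg with hρ
  have hρ0 : 0 < ρ := lt_min hρD hρg
  obtain ⟨r₁, hr₁, hF⟩ := h2 N g x₀ hP.g_an hP.g1 hP.g2 ρ hρ0
  set tl0 := tl g x₀ with htl
  obtain ⟨ρu, hρu, hu⟩ : ∃ ρ > 0, ∀ l ∈ ball tl0 ρ, (AnalyticAt ℂ u l ∧ AnalyticAt ℂ gh (u l) ∧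
      gh (u l) = l.1 * u l + l.2) ∧ dist (u tl0) x₀ / 2 < dist (u l) x₀ := by
    have e1 : ∀ᶠ l in 𝓝 tl0, AnalyticAt ℂ u l := hP.u_an.eventually_analyticAt
    have e2 : ∀ᶠ l in 𝓝 tl0, AnalyticAt ℂ gh (u l) :=
      hP.u_an.continuousAt.eventually hP.gh_an.eventually_analyticAt
    have e3 := hP.inc
    have e4 : ∀ᶠ l in 𝓝 tl0, dist (u tl0) x₀ / 2 < dist (u l) x₀ := by
      have hc : ContinuousAt (fun l => dist (u l) x₀) tl0 :=
        hP.u_an.continuousAt.dist continuousAt_const
      have : dist (u tl0) x₀ / 2 < dist (u tl0) x₀ := by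
        have := dist_pos.2 hP.far
        linarith
      exact hc.eventually (lt_mem_nhds this)
    obtain ⟨ρ, h, h'⟩ := Metric.eventually_nhds_iff_ball.1 (((e1.and (e2.and e3))).and e4)
    exact ⟨ρ, h, h'⟩
  have hfar : 0 < dist (u tl0) x₀ / 2 := by
    have := dist_pos.2 hP.far
    linarith
  set r' := min (min ρ r₁) (min ρu (dist (u tl0) x₀ / 2)) with hr'
  have hr'0 : 0 < r' := lt_min (lt_min hρ0 hr₁) (lt_min hρu hfar)
  have hr'ρ : r' ≤ ρ := (min_le_left _ _).trans (min_le_left _ _)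
  have hr'1 : r' ≤ r₁ := (min_le_left _ _).trans (min_le_right _ _)
  have hr'u : r' ≤ ρu := (min_le_right _ _).trans (min_le_left _ _)
  have hr'f : r' ≤ dist (u tl0) x₀ / 2 := (min_le_right _ _).trans (min_le_right _ _)
  have hρρD : ρ ≤ ρD := min_le_left _ _
  have hρρg : ρ ≤ ρg := min_le_right _ _
  refine ⟨r', hr'0, ?_⟩
  intro p hp b hb hbb ht hdep halg
  rcases Nat.eq_zero_or_pos N with hN | hN
  · -- no mirror: the jets are just the coordinates
    subst hN
    obtain ⟨P, e1, n, e2⟩ := halg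
    let e : Idx 0 r → Fin 2 := Sum.elim id (fun q => q.1.elim0)
    have he : ∀ l, (fun i => L0 (e i) l) = fun i => jv g 0 r b l i := by
      intro l
      funext i
      rcases i with i | ⟨j, _⟩
      · fin_cases i <;> rfl
      · exact j.elim0
    have hev : ∀ (l : C2) (c : MvPolynomial (Idx 0 r) ℂ),
        MvPolynomial.eval (fun i => L0 i l) (MvPolynomial.rename e c) =
          MvPolynomial.eval (fun i => jv g 0 r b l i) c := by
      intro l c
      rw [MvPolynomial.eval_rename, ← he l]; rfl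
    refine ⟨P.map (MvPolynomial.rename e).toRingHom, ?_, n, ?_⟩
    · filter_upwards [e1] with l hl
      rw [Polynomial.eval₂_map]
      have : ((MvPolynomial.eval fun i => L0 i l).comp (MvPolynomial.rename e).toRingHom) =
          MvPolynomial.eval (fun i => jv g 0 r b l i) := by
        ext c
        · simp
        · exact (hev l _)
      rw [this]; exact hl
    · intro h4
      apply e2
      filter_upwards [h4] with l hl
      rw [Polynomial.coeff_map] at hl
      rw [← hev l]; exact hl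
  · obtain ⟨P, e1, n, e2⟩ := halg
    -- a small ball around `p`
    have w1 : ∀ᶠ l in 𝓝 p, ∀ j < N, AnalyticAt ℂ (b j) l ∧ b j l ∈ ball x₀ r' := by
      have := (Filter.eventually_all_finite (Set.finite_Iio N) (l := 𝓝 p)
        (p := fun j l => AnalyticAt ℂ (b j) l ∧ b j l ∈ ball x₀ r')).2 (by
          intro j hj
          exact (hb.1 j hj).eventually_analyticAt.and
            ((hb.1 j hj).continuousAt.eventually (isOpen_ball.mem_nhds (hbb j hj))))
      exact this
    have w2 : ∀ᶠ l in 𝓝 p, g (b 0 l) = l.1 * b 0 l + l.2 := by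
      filter_upwards [hb.2] with l hl using hl 0 hN
    have hb0c : ContinuousAt (b 0) p := (hb.1 0 hN).continuousAt
    have hga : AnalyticAt ℂ g (b 0 p) := hg _ (ball_subset_ball (hr'ρ.trans hρρg) (hbb 0 hN))
    have hgd : ContinuousAt (fun l => deriv g (b 0 l)) p :=
      ContinuousAt.comp (f := b 0) (g := deriv g) hga.deriv.continuousAt hb0c
    have ht0 := ht 0 hN
    have w3 : ∀ᶠ l in 𝓝 p, deriv g (b 0 l) ≠ l.1 := by
      have := (hgd.sub continuousAt_fst).eventually_ne (sub_ne_zero.2 ht0.1)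
      filter_upwards [this] with l hl using sub_ne_zero.1 hl
    have w4 : ∀ᶠ l in 𝓝 p, deriv g (b 0 l) ≠ 0 := hgd.eventually_ne ht0.2.1
    have w5 : ∀ᶠ l : C2 in 𝓝 p, l.1 ≠ 0 := continuousAt_fst.eventually_ne ht0.2.2
    have w6 : ∀ᶠ l in 𝓝 p, l ∈ ball tl0 r' := isOpen_ball.mem_nhds hp
    obtain ⟨δ, hδ, hW⟩ := Metric.eventually_nhds_iff_ball.1
      (w1.and (w2.and (w3.and (w4.and (w5.and (w6.and e1))))))
    obtain ⟨p', hp', ε₀, hε₀, G, U, B, hG, hG0, hsep, hU, hU0, hchB, hB0, hrel⟩ :=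
      hD p (ball_subset_ball (hr'ρ.trans hρρD) hp) b hb
        (fun j hj => ball_subset_ball (hr'ρ.trans hρρD) (hbb j hj)) ht hdep (ball p δ)
        (ball_mem_nhds p hδ)
    have hp'n : ball p δ ∈ 𝓝 p' := isOpen_ball.mem_nhds hp'
    have k1 := (hW p' hp').1
    have k2 : ∀ᶠ l in 𝓝 p', g (b 0 l) = l.1 * b 0 l + l.2 := by
      filter_upwards [hp'n] with l hl using (hW l hl).2.1
    have k3 := (hW p' hp').2.2.1
    have k4 := (hW p' hp').2.2.2.1
    have k5 := (hW p' hp').2.2.2.2.1
    have k6 := (hW p' hp').2.2.2.2.2.1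
    have k7 : ∀ᶠ l in 𝓝 p', Polynomial.eval₂ (MvPolynomial.eval fun i => jv g N r b l i) (u l) P
        = 0 := by
      filter_upwards [hp'n] with l hl using (hW l hl).2.2.2.2.2.2
    -- `b` and the jets are analytic on the small ball
    have hjv : ∀ l ∈ ball p δ, ∀ i, AnalyticAt ℂ (fun l => jv g N r b l i) l := by
      intro l hl i
      exact an_jv (fun j hj => ((hW l hl).1 j hj).1)
        (fun j hj => hg _ (ball_subset_ball (hr'ρ.trans hρρg) ((hW l hl).1 j hj).2)) i
    -- the coefficient does not vanish near `p'`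
    have k8 : ¬ ∀ᶠ l in 𝓝 p', MvPolynomial.eval (fun i => jv g N r b l i) (P.coeff n) = 0 := by
      intro h4
      apply e2
      have ha : AnalyticOnNhd ℂ
          (fun l => MvPolynomial.eval (fun i => jv g N r b l i) (P.coeff n)) (ball p δ) := by
        intro l hl
        exact an_eval (F := fun l i => jv g N r b l i) (hjv l hl) _
      have := ha.eqOn_zero_of_preconnected_of_eventuallyEq_zero
        (convex_ball p δ).isPreconnected hp' h4
      filter_upwards [ball_mem_nhds p hδ] with l hl using this hl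
    -- the mirrors
    have hGρ : ∀ j < N, AnalyticOnNhd ℂ (G j) (ball x₀ ρ ×ˢ ball 0 ε₀) := fun j hj =>
      (hG j hj).mono (prod_mono (ball_subset_ball hρρD) le_rfl)
    have hG0ρ : ∀ j < N, ∀ x ∈ ball x₀ ρ, G j (x, 0) = g x := fun j hj x hx =>
      hG0 j hj x (ball_subset_ball hρρD hx)
    have hUρ : AnalyticOnNhd ℂ U (ball tl0 ρ ×ˢ ball 0 ε₀) :=
      hU.mono (prod_mono (ball_subset_ball hρρD) le_rfl)
    have hp'ρ : p' ∈ ball tl0 ρ := ball_subset_ball hr'ρ k6
    have hb0ρ : b 0 p' ∈ ball x₀ ρ := ball_subset_ball hr'ρ (k1 0 hN).2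
    have h0ε : (0 : ℂ) ∈ ball (0 : ℂ) ε₀ := mem_ball_self hε₀
    have hup := hu p' (ball_subset_ball hr'u k6)
    have hU0' : ∀ᶠ l in 𝓝 p', U (l, 0) = u l := by
      filter_upwards [isOpen_ball.mem_nhds (ball_subset_ball hρρD hp'ρ)] with l hl using hU0 l hl
    have hinc : ∀ᶠ l in 𝓝 p', gh (u l) = l.1 * u l + l.2 := by
      filter_upwards [isOpen_ball.mem_nhds (ball_subset_ball hr'u k6)] with l hl
        using (hu l hl).1.2.2
    have hne : u p' ≠ b 0 p' := by
      intro h4
      have h5 := hup.2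
      rw [h4] at h5
      have h6 : dist (b 0 p') x₀ < r' := (k1 0 hN).2
      linarith
    -- the collapsed chain
    obtain ⟨B', hchB', hB'0, hfin⟩ := h3 N r g gh x₀ ρ ε₀ G p' (b 0) u U hρ0 hε₀ hGρ hG0ρ
      (hg.mono (ball_subset_ball hρρg)) (k1 0 hN).1 hb0ρ k2 k3 k4 k5
      (hUρ (p', 0) ⟨hp'ρ, h0ε⟩) hU0' hup.1.1 hup.1.2.1 hinc hne
    -- the chains start near `x₀`
    have hBs : ∀ j < N, B j (p', 0) ∈ ball x₀ r₁ := by
      intro j hj
      rw [(hB0 j hj).self_of_nhds]
      exact ball_subset_ball hr'1 (k1 j hj).2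
    have hB's : ∀ j < N, B' j (p', 0) ∈ ball x₀ r₁ := by
      intro j hj
      rw [(hB'0 j hj).self_of_nhds]
      exact ball_subset_ball hr'1 (k1 0 hN).2
    -- FLIP for polynomial relations
    have hflip : ∀ (E : MvPolynomial (Option (Idx N r)) ℂ) (c c' : ℕ → C3 → ℂ),
        Chain G N c p' → Chain G N c' p' → (∀ j < N, c j (p', 0) ∈ ball x₀ r₁) →
        (∀ j < N, c' j (p', 0) ∈ ball x₀ r₁) →
        (∀ᶠ x in 𝓝 ((p', 0) : C3),
          MvPolynomial.eval (fun o => o.elim (U x) (jvG G N r c x)) E = 0) →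
        ∀ᶠ x in 𝓝 ((p', 0) : C3),
          MvPolynomial.eval (fun o => o.elim (U x) (jvG G N r c' x)) E = 0 := by
      intro E c c' hc hc' hs hs' hz
      have hfan : AnalyticOnNhd ℂ (fun y : (Fin N → ℂ) × C3 =>
          MvPolynomial.eval (fun o => o.elim (U y.2) (jj G N r y.1 y.2)) E)
          (ball (fun _ => x₀) ρ ×ˢ (ball (tl g x₀) ρ ×ˢ ball 0 ε₀)) := by
        intro y hy
        refine an_eval (F := fun (y : (Fin N → ℂ) × C3) (o : Option (Idx N r)) =>
          o.elim (U y.2) (jj G N r y.1 y.2)) (z := y) ?_ E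
        intro o
        cases o with
        | none =>
          exact AnalyticAt.fun_comp (f := fun y : (Fin N → ℂ) × C3 => y.2)
            (hUρ y.2 hy.2) analyticAt_snd
        | some i =>
          refine an_jj hGρ (fun j => ?_) hy.2.2 i
          have h5 : dist (y.1) (fun _ => x₀) < ρ := hy.1
          exact (dist_le_pi_dist _ _ j).trans_lt h5
      have := hF ε₀ hε₀ G hGρ hG0ρ hsep _ hfan p' (ball_subset_ball hr'1 k6) c c' hc hc' hs hs'
        (by
          filter_upwards [hz] with x hx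
          rw [jvG_eq] at hx; exact hx)
      filter_upwards [this] with x hx
      rw [jvG_eq]; exact hx
    -- the relation along the collapsed chain
    have r1 : ∀ᶠ x in 𝓝 ((p', 0) : C3), MvPolynomial.eval (fun o => o.elim (U x) (jvG G N r B x))
        ((MvPolynomial.optionEquivLeft ℂ (Idx N r)).symm P) = 0 := by
      apply hrel
      filter_upwards [k7] with l hl
      rw [eval_opt']; exact hl
    have r2 := hflip _ B B' hchB hchB' hBs hB's r1
    have r3 : AlgAt p' L0 u := by
      refine hfin P ?_ ⟨n, ?_⟩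
      · filter_upwards [r2] with x hx
        rw [eval_opt'] at hx; exact hx
      · intro h4
        apply k8
        have h5 : ∀ᶠ x in 𝓝 ((p', 0) : C3), MvPolynomial.eval
            (fun o => o.elim (U x) (jvG G N r B' x)) (MvPolynomial.rename some (P.coeff n)) = 0 := by
          filter_upwards [h4] with x hx
          rw [eval_some]; exact hx
        have h6 := hflip _ B' B hchB' hchB hB's hBs h5
        have h7 : Tendsto (fun l : C2 => ((l, 0) : C3)) (𝓝 p') (𝓝 (p', 0)) :=
          (continuous_id.prodMk continuous_const).tendsto p'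
        have h8 : ∀ᶠ l in 𝓝 p', ∀ j < N, B j (l, 0) = b j l :=
          (Filter.eventually_all_finite (Set.finite_Iio N) (l := 𝓝 p')
            (p := fun j l => B j (l, 0) = b j l)).2 hB0
        filter_upwards [h7.eventually h6, h8, hp'n] with l hl hl8 hlδ
        rw [eval_some] at hl
        have h9 : jvG G N r B (l, 0) = jv g N r b l := by
          funext i
          rcases i with i | ⟨j, _ | i⟩
          · rfl
          · exact hl8 j j.2
          · show iteratedDeriv i (fun z => G j (z, 0)) (B j (l, 0)) = iteratedDeriv i g (b j l)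
            rw [hl8 j j.2]
            apply Filter.EventuallyEq.iteratedDeriv_eq
            filter_upwards [isOpen_ball.mem_nhds
              (ball_subset_ball (hr'ρ.trans hρρD) ((hW l hlδ).1 j j.2).2)] with z hz
              using hG0 j j.2 z hz
        rw [h9] at hl
        exact hl
    exact algAt_move (D := ball tl0 r') (convex_ball _ _).isPreconnected
      (fun l hl => (hu l (ball_subset_ball hr'u hl)).1.1) hp k6 r3
      (isOpen_ball.mem_nhds hp) (isOpen_ball.mem_nhds k6)

end Crest.Agent.R102.H3
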