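import Mathlib

/-!
Row 102, [H3]: **one closed T-chain makes the boundary curve algebraic** (926, collapse argument).
Literal block Props (architect 337).

Conventions (isotropic coordinates `a = x + i y`, `b = x - i y`).
* a line is `{a = m b + k}`, written `l = (m, k) : ℂ × ℂ`;
* a mirror is a graph `a = g b`; it is tangent to the line at `b` iff `m = g' b`;
* reflection of `l` at the point `(g b, b)`: `m' = (g' b)^2 / m`, `k' = g b - m' b`.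
-/

set_option autoImplicit false

noncomputable section

open Filter Topology Set Metric

namespace Crest.Agent.R102.H3

/-- the plane of lines `(m, k)`, or the plane of the action-angle variables `(t, w)` -/
abbrev C2 := ℂ × ℂ
/-- `(line, ε)` -/
abbrev C3 := C2 × ℂ

/-! ### derivatives, algebraic dependence -/

def d1 (f : C2 → ℂ) (x : C2) : ℂ := fderiv ℂ f x (1, 0)
def d2 (f : C2 → ℂ) (x : C2) : ℂ := fderiv ℂ f x (0, 1)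
/-- Poisson bracket (Jacobian determinant) -/
def br (f h : C2 → ℂ) (x : C2) : ℂ := d1 f x * d2 h x - d2 f x * d1 h x

/-- the functions `f`, `h` are functionally dependent near `p` -/
def Dep (p : C2) (f h : C2 → ℂ) : Prop := ∀ᶠ x in 𝓝 p, br f h x = 0

/-- `f` is algebraic over the functions `s i` near `p` -/
def AlgAt {ι : Type} (p : C2) (s : ι → C2 → ℂ) (f : C2 → ℂ) : Prop :=
  ∃ P : Polynomial (MvPolynomial ι ℂ),
    (∀ᶠ x in 𝓝 p, Polynomial.eval₂ (MvPolynomial.eval (fun i => s i x)) (f x) P = 0) ∧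
    ∃ n, ¬ ∀ᶠ x in 𝓝 p, MvPolynomial.eval (fun i => s i x) (P.coeff n) = 0

/-- the two coordinate functions of the plane of lines -/
def L0 : Fin 2 → C2 → ℂ := ![Prod.fst, Prod.snd]

/-- the germ of `g` at `x₀` is algebraic -/
def AlgGerm (g : ℂ → ℂ) (x₀ : ℂ) : Prop :=
  ∃ P : MvPolynomial (Fin 2) ℂ, P ≠ 0 ∧ ∀ᶠ x in 𝓝 x₀, MvPolynomial.eval ![x, g x] P = 0

/-- `(x, g x, g' x, …, g^(r) x)` -/
def jet (g : ℂ → ℂ) (r : ℕ) (x : ℂ) : Fin (r + 2) → ℂ :=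
  Fin.cons x (fun i : Fin (r + 1) => iteratedDeriv i g x)

/-- the germ of `g` at `x₀` satisfies an algebraic differential equation -/
def AlgODE (g : ℂ → ℂ) (x₀ : ℂ) : Prop :=
  ∃ (r : ℕ) (P : MvPolynomial (Fin (r + 2)) ℂ), P ≠ 0 ∧
    ∀ᶠ x in 𝓝 x₀, MvPolynomial.eval (jet g r x) P = 0

/-- `g^(r+1) = Num / Den` (rational function of `x, g, …, g^(r)`), regular at `x₀` -/
def NF (g : ℂ → ℂ) (x₀ : ℂ) (r : ℕ) (Num Den : MvPolynomial (Fin (r + 2)) ℂ) : Prop :=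
  MvPolynomial.eval (jet g r x₀) Den ≠ 0 ∧
    ∀ᶠ x in 𝓝 x₀, iteratedDeriv (r + 1) g x * MvPolynomial.eval (jet g r x) Den =
      MvPolynomial.eval (jet g r x) Num

/-- index set of the jets of a chain: `m, k`; `b_j`; `g_j^(i)(b_j)`, `i ≤ r` -/
abbrev Idx (N r : ℕ) := Fin 2 ⊕ (Fin N × Option (Fin (r + 1)))

/-! ### chains in the plane of lines -/

/-- reflection of the line `l` at the point `(x, b)` of a mirror with slope `s` -/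
def rfl2 (x s b : ℂ) (l : C2) : C2 := (s ^ 2 / l.1, x - s ^ 2 / l.1 * b)

/-- the lines `l_0, l_1, …` of the chain with mirrors `G j (·, ε)` and vertices `b j` -/
def ln (G : ℕ → ℂ × ℂ → ℂ) (b : ℕ → ℂ) (l : C2) (ε : ℂ) : ℕ → C2
  | 0 => l
  | j + 1 => rfl2 (G j (b j, ε)) (deriv (fun x => G j (x, ε)) (b j)) (b j) (ln G b l ε j)

/-- `b` is an analytic chain near `(p, 0)` for the mirrors `G j (·, ε)` -/
def Chain (G : ℕ → ℂ × ℂ → ℂ) (N : ℕ) (b : ℕ → C3 → ℂ) (p : C2) : Prop :=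
  (∀ j < N, AnalyticAt ℂ (b j) (p, 0)) ∧
  ∀ᶠ x in 𝓝 ((p, 0) : C3), ∀ j < N,
    G j (b j x, x.2) = (ln G (fun i => b i x) x.1 x.2 j).1 * b j x +
      (ln G (fun i => b i x) x.1 x.2 j).2

/-- the lines of the chain, all mirrors equal to `g` -/
def ln0 (g : ℂ → ℂ) (b : ℕ → ℂ) (l : C2) : ℕ → C2
  | 0 => l
  | j + 1 => rfl2 (g (b j)) (deriv g (b j)) (b j) (ln0 g b l j)

/-- `b` is an analytic chain near `p`, all mirrors equal to `g` -/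
def Chain0 (g : ℂ → ℂ) (N : ℕ) (b : ℕ → C2 → ℂ) (p : C2) : Prop :=
  (∀ j < N, AnalyticAt ℂ (b j) p) ∧
  ∀ᶠ l in 𝓝 p, ∀ j < N,
    g (b j l) = (ln0 g (fun i => b i l) l j).1 * b j l + (ln0 g (fun i => b i l) l j).2

/-- all vertices are transversal at `p` -/
def Transv (g : ℂ → ℂ) (N : ℕ) (b : ℕ → C2 → ℂ) (p : C2) : Prop :=
  ∀ j < N, deriv g (b j p) ≠ (ln0 g (fun i => b i p) p j).1 ∧ deriv g (b j p) ≠ 0 ∧ p.1 ≠ 0

/-- the jets of a chain (with parameter `ε`) -/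
def jvG (G : ℕ → ℂ × ℂ → ℂ) (N r : ℕ) (b : ℕ → C3 → ℂ) (x : C3) : Idx N r → ℂ
  | Sum.inl i => if i = 0 then x.1.1 else x.1.2
  | Sum.inr (j, none) => b j x
  | Sum.inr (j, some i) => iteratedDeriv i (fun z => G j (z, x.2)) (b j x)

/-- the jets of a chain, all mirrors equal to `g` -/
def jv (g : ℂ → ℂ) (N r : ℕ) (b : ℕ → C2 → ℂ) (l : C2) : Idx N r → ℂ
  | Sum.inl i => if i = 0 then l.1 else l.2
  | Sum.inr (j, none) => b j l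
  | Sum.inr (j, some i) => iteratedDeriv i g (b j l)

/-- the tangent line of the mirror `g` at `x₀` -/
def tl (g : ℂ → ℂ) (x₀ : ℂ) : C2 := (deriv g x₀, g x₀ - deriv g x₀ * x₀)

/-- the germ `g` at `x₀` and the far germ `gh` met by the lines near the tangent line at `x₀` -/
structure Pair (g gh : ℂ → ℂ) (u : C2 → ℂ) (x₀ : ℂ) : Prop where
  g_an : AnalyticAt ℂ g x₀
  g1 : deriv g x₀ ≠ 0
  g2 : deriv (deriv g) x₀ ≠ 0
  u_an : AnalyticAt ℂ u (tl g x₀)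
  far : u (tl g x₀) ≠ x₀
  gh_an : AnalyticAt ℂ gh (u (tl g x₀))
  inc : ∀ᶠ l in 𝓝 (tl g x₀), gh (u l) = l.1 * u l + l.2

/-! ### I.3 DEFORM -/

/-- **Block DEFORM** (ODE flow, vector fields, choice of a derivation). -/
def BlockDEFORM : Prop :=
  ∀ (N r : ℕ) (g gh : ℂ → ℂ) (u : C2 → ℂ) (x₀ : ℂ) (Num Den Numh Denh : MvPolynomial (Fin (r + 2)) ℂ),
    Pair g gh u x₀ → NF g x₀ r Num Den → NF gh (u (tl g x₀)) r Numh Denh → ¬ AlgGerm g x₀ →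
    ∃ r₀ > 0, ∀ p ∈ ball (tl g x₀) r₀, ∀ b : ℕ → C2 → ℂ, Chain0 g N b p →
      (∀ j < N, b j p ∈ ball x₀ r₀) → Transv g N b p →
      (∀ i < N, ∀ j < N, i ≠ j → ¬ Dep p (b i) (b j)) →
      ∀ W ∈ 𝓝 p, ∃ p' ∈ W, ∃ ε₀ > 0, ∃ (G : ℕ → ℂ × ℂ → ℂ) (U : C3 → ℂ) (B : ℕ → C3 → ℂ),
        (∀ j < N, AnalyticOnNhd ℂ (G j) (ball x₀ r₀ ×ˢ ball 0 ε₀)) ∧
        (∀ j < N, ∀ x ∈ ball x₀ r₀, G j (x, 0) = g x) ∧
        (∀ i < N, ∀ j < N, i ≠ j →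
          ¬ ∀ᶠ x in 𝓝 x₀, deriv (fun ε => G i (x, ε)) 0 = deriv (fun ε => G j (x, ε)) 0) ∧
        AnalyticOnNhd ℂ U (ball (tl g x₀) r₀ ×ˢ ball 0 ε₀) ∧
        (∀ l ∈ ball (tl g x₀) r₀, U (l, 0) = u l) ∧
        Chain G N B p' ∧ (∀ j < N, ∀ᶠ l in 𝓝 p', B j (l, 0) = b j l) ∧
        ∀ E : MvPolynomial (Option (Idx N r)) ℂ,
          (∀ᶠ l in 𝓝 p', MvPolynomial.eval (fun o => o.elim (u l) (jv g N r b l)) E = 0) →
          ∀ᶠ x in 𝓝 ((p', 0) : C3),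
            MvPolynomial.eval (fun o => o.elim (U x) (jvG G N r B x)) E = 0

/-! ### I.4 FLIP -/

/-- **Block FLIP**: all chains near the tangent line are conjugate when the mirrors are separated. -/
def BlockFLIP : Prop :=
  ∀ (N : ℕ) (g : ℂ → ℂ) (x₀ : ℂ), AnalyticAt ℂ g x₀ → deriv g x₀ ≠ 0 → deriv (deriv g) x₀ ≠ 0 →
    ∀ r₀ > 0, ∃ r₁ > 0, ∀ ε₀ > 0, ∀ G : ℕ → ℂ × ℂ → ℂ,
      (∀ j < N, AnalyticOnNhd ℂ (G j) (ball x₀ r₀ ×ˢ ball 0 ε₀)) →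
      (∀ j < N, ∀ x ∈ ball x₀ r₀, G j (x, 0) = g x) →
      (∀ i < N, ∀ j < N, i ≠ j →
          ¬ ∀ᶠ x in 𝓝 x₀, deriv (fun ε => G i (x, ε)) 0 = deriv (fun ε => G j (x, ε)) 0) →
      ∀ f : (Fin N → ℂ) × C3 → ℂ,
        AnalyticOnNhd ℂ f (ball (fun _ => x₀) r₀ ×ˢ (ball (tl g x₀) r₀ ×ˢ ball 0 ε₀)) →
        ∀ p ∈ ball (tl g x₀) r₁, ∀ b b' : ℕ → C3 → ℂ, Chain G N b p → Chain G N b' p →
          (∀ j < N, b j (p, 0) ∈ ball x₀ r₁) → (∀ j < N, b' j (p, 0) ∈ ball x₀ r₁) →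
          (∀ᶠ x in 𝓝 ((p, 0) : C3), f (fun j => b j x, x) = 0) →
          ∀ᶠ x in 𝓝 ((p, 0) : C3), f (fun j => b' j x, x) = 0

/-! ### I.5 SPEC -/

/-- **Block SPEC**: the collapsed chain exists, and a nontrivial algebraic relation of `U` along it
makes `u = U(·, 0)` algebraic over `ℂ(m, k)`. -/
def BlockSPEC : Prop :=
  ∀ (N r : ℕ) (g gh : ℂ → ℂ) (x₀ : ℂ) (r₀ ε₀ : ℝ) (G : ℕ → ℂ × ℂ → ℂ) (p : C2) (b₀ u : C2 → ℂ)
    (U : C3 → ℂ), 0 < r₀ → 0 < ε₀ →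
    (∀ j < N, AnalyticOnNhd ℂ (G j) (ball x₀ r₀ ×ˢ ball 0 ε₀)) →
    (∀ j < N, ∀ x ∈ ball x₀ r₀, G j (x, 0) = g x) → AnalyticOnNhd ℂ g (ball x₀ r₀) →
    AnalyticAt ℂ b₀ p → b₀ p ∈ ball x₀ r₀ → (∀ᶠ l in 𝓝 p, g (b₀ l) = l.1 * b₀ l + l.2) →
    deriv g (b₀ p) ≠ p.1 → deriv g (b₀ p) ≠ 0 → p.1 ≠ 0 →
    AnalyticAt ℂ U (p, 0) → (∀ᶠ l in 𝓝 p, U (l, 0) = u l) → AnalyticAt ℂ u p →
    AnalyticAt ℂ gh (u p) → (∀ᶠ l in 𝓝 p, gh (u l) = l.1 * u l + l.2) → u p ≠ b₀ p →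
    ∃ B : ℕ → C3 → ℂ, Chain G N B p ∧ (∀ j < N, ∀ᶠ l in 𝓝 p, B j (l, 0) = b₀ l) ∧
      ∀ P : Polynomial (MvPolynomial (Idx N r) ℂ),
        (∀ᶠ x in 𝓝 ((p, 0) : C3),
          Polynomial.eval₂ (MvPolynomial.eval (jvG G N r B x)) (U x) P = 0) →
        (∃ n, ¬ ∀ᶠ x in 𝓝 ((p, 0) : C3), MvPolynomial.eval (jvG G N r B x) (P.coeff n) = 0) →
        AlgAt p L0 u

/-! ### COLL: the collapse theorem (assembly of the three blocks) -/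

/-- **the collapse theorem** -/
def BlockCOLL : Prop :=
  ∀ (N r : ℕ) (g gh : ℂ → ℂ) (u : C2 → ℂ) (x₀ : ℂ) (Num Den Numh Denh : MvPolynomial (Fin (r + 2)) ℂ),
    Pair g gh u x₀ → NF g x₀ r Num Den → NF gh (u (tl g x₀)) r Numh Denh → ¬ AlgGerm g x₀ →
    ∃ r₀ > 0, ∀ p ∈ ball (tl g x₀) r₀, ∀ b : ℕ → C2 → ℂ, Chain0 g N b p →
      (∀ j < N, b j p ∈ ball x₀ r₀) → Transv g N b p →
      (∀ i < N, ∀ j < N, i ≠ j → ¬ Dep p (b i) (b j)) →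
      AlgAt p (fun i l => jv g N r b l i) u → AlgAt p L0 u

/-! ### I.0 pure algebra: derivations -/

/-- **DER**: in characteristic zero a transcendental element has a derivation not killing it. -/
def LeafDER : Prop :=
  ∀ (k K : Type) [Field k] [Field K] [Algebra k K] [CharZero k] (x : K), Transcendental k x →
    ∃ D : Derivation k K K, D x = 1

/-- **KOL** (Kolchin by brackets). `G R = {m, k, b_v, y_{v,i} : i ≤ R}`. -/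
def LeafKOL : Prop :=
  ∀ (Ω V : Type) [Field Ω] [Algebra ℂ Ω] [Fintype V] (D : Fin 2 → Derivation ℂ Ω Ω) (m k : Ω)
    (b : V → Ω) (y : V → ℕ → Ω) (u : Ω) (v : ℕ → Ω) (R₁ : ℕ),
    (∀ a, D a m ∈ Set.range (algebraMap ℂ Ω)) → (∀ a, D a k ∈ Set.range (algebraMap ℂ Ω)) →
    (∀ a x i, D a (y x i) = y x (i + 1) * D a (b x)) →
    (∀ a x, D a (b x) ∈ IntermediateField.adjoin ℂ
      ({m, k} ∪ Set.range b ∪ {z | ∃ x, ∃ i ≤ R₁, z = y x i})) →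
    IsAlgebraic (IntermediateField.adjoin ℂ
      ({m, k} ∪ Set.range b ∪ {z | ∃ x, ∃ i ≤ R₁, z = y x i})) u →
    IsAlgebraic (IntermediateField.adjoin ℂ
      ({m, k} ∪ Set.range b ∪ {z | ∃ x, ∃ i ≤ R₁, z = y x i})) (v 0) →
    (∀ a i, D a (v i) = v (i + 1) * D a u) → (D 0 u ≠ 0 ∨ D 1 u ≠ 0) →
    (∀ x, D 1 u * D 0 (b x) - D 0 u * D 1 (b x) ≠ 0) →
    ∃ r : ℕ, ¬ AlgebraicIndependent ℂ (Fin.cons u (fun i : Fin (r + 1) => v i) : Fin (r + 2) → Ω)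

/-! ### I.0 the field of meromorphic germs -/

/-- an abstract field of meromorphic germs at `p` with its two partial derivatives -/
structure GField (p : C2) (K : Type) [Field K] [Algebra ℂ K] where
  ι : (C2 → ℂ) → K
  D : Fin 2 → Derivation ℂ K K
  add : ∀ f h, AnalyticAt ℂ f p → AnalyticAt ℂ h p → ι (fun x => f x + h x) = ι f + ι h
  mul : ∀ f h, AnalyticAt ℂ f p → AnalyticAt ℂ h p → ι (fun x => f x * h x) = ι f * ι h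
  const : ∀ c : ℂ, ι (fun _ => c) = algebraMap ℂ K c
  zero_iff : ∀ f, AnalyticAt ℂ f p → (ι f = 0 ↔ ∀ᶠ x in 𝓝 p, f x = 0)
  d1 : ∀ f, AnalyticAt ℂ f p → D 0 (ι f) = ι (H3.d1 f)
  d2 : ∀ f, AnalyticAt ℂ f p → D 1 (ι f) = ι (H3.d2 f)
  frac : ∀ z : K, ∃ f h, AnalyticAt ℂ f p ∧ AnalyticAt ℂ h p ∧ ι h ≠ 0 ∧ z = ι f / ι h
  comm : ∀ z : K, D 0 (D 1 z) = D 1 (D 0 z)

/-- **GF**: the field of meromorphic germs exists. -/
def LeafGF : Prop := ∀ p : C2, ∃ (K : Type) (_ : Field K) (_ : Algebra ℂ K), Nonempty (GField p K)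

/-! ### I.0 holomorphic ODE with parameters, and the deformation lemma -/

/-- **ODE**: local holomorphic flow, jointly analytic in time and initial value. -/
def LeafODE : Prop :=
  ∀ (n : ℕ) (V : (Fin n → ℂ) → (Fin n → ℂ)) (y₀ : Fin n → ℂ), AnalyticAt ℂ V y₀ →
    ∃ δ > 0, ∃ Φ : ℂ × (Fin n → ℂ) → (Fin n → ℂ),
      AnalyticOnNhd ℂ Φ (ball (0, y₀) δ) ∧ (∀ y ∈ ball y₀ δ, Φ (0, y) = y) ∧
      ∀ x ∈ ball ((0 : ℂ), y₀) δ, AnalyticAt ℂ V (Φ x) ∧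
        HasDerivAt (fun s => Φ (s, x.2)) (V (Φ x)) x.1

/-- **DEF**: deformation of a two-dimensional orbit inside its Zariski closure. -/
def LeafDEF : Prop :=
  ∀ (n : ℕ) (p : C2) (Y : C2 → (Fin n → ℂ)) (V1 V2 R : Fin n → MvPolynomial (Fin n) ℂ),
    AnalyticAt ℂ Y p →
    (∀ᶠ x in 𝓝 p, ∀ i, d1 (fun x => Y x i) x = MvPolynomial.eval (Y x) (V1 i) ∧
      d2 (fun x => Y x i) x = MvPolynomial.eval (Y x) (V2 i)) →
    (∀ E : MvPolynomial (Fin n) ℂ, (∀ᶠ x in 𝓝 p, MvPolynomial.eval (Y x) E = 0) →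
      ∀ᶠ x in 𝓝 p, MvPolynomial.eval (Y x) (MvPolynomial.mkDerivation ℂ R E) = 0) →
    ∃ Z : C3 → (Fin n → ℂ), AnalyticAt ℂ Z (p, 0) ∧ (∀ᶠ x in 𝓝 p, Z (x, 0) = Y x) ∧
      (∀ᶠ x in 𝓝 ((p, 0) : C3), ∀ i,
        fderiv ℂ (fun x => Z x i) x ((1, 0), 0) = MvPolynomial.eval (Z x) (V1 i) ∧
        fderiv ℂ (fun x => Z x i) x ((0, 1), 0) = MvPolynomial.eval (Z x) (V2 i)) ∧
      (∀ i, fderiv ℂ (fun x => Z x i) (p, 0) (0, 1) = MvPolynomial.eval (Y p) (R i)) ∧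
      (∀ E : MvPolynomial (Fin n) ℂ, (∀ᶠ x in 𝓝 p, MvPolynomial.eval (Y x) E = 0) →
        ∀ᶠ x in 𝓝 ((p, 0) : C3), MvPolynomial.eval (Z x) E = 0)

/-- **GEXT**: the mirrors of the deformed chain are analytic on a fixed disc. -/
def LeafGEXT : Prop :=
  ∀ (r : ℕ) (g : ℂ → ℂ) (x₀ : ℂ) (Num Den : MvPolynomial (Fin (r + 2)) ℂ),
    AnalyticAt ℂ g x₀ → NF g x₀ r Num Den →
    ∃ r₀ > 0, AnalyticOnNhd ℂ g (ball x₀ r₀) ∧
      ∀ (p : C2) (b : C3 → ℂ) (y : Fin (r + 1) → C3 → ℂ),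
      AnalyticAt ℂ b (p, 0) → (∀ i, AnalyticAt ℂ (y i) (p, 0)) → b (p, 0) ∈ ball x₀ r₀ →
      (∀ᶠ l in 𝓝 p, ∀ i : Fin (r + 1), y i (l, 0) = iteratedDeriv i g (b (l, 0))) →
      (∀ v ∈ ({((1, 0), 0), ((0, 1), 0)} : Set C3), ∀ᶠ x in 𝓝 ((p, 0) : C3),
        (∀ i : Fin r, fderiv ℂ (y i.castSucc) x v = y i.succ x * fderiv ℂ b x v) ∧
        fderiv ℂ (y (Fin.last r)) x v * MvPolynomial.eval (Fin.cons (b x) (fun i => y i x)) Den =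
          MvPolynomial.eval (Fin.cons (b x) (fun i => y i x)) Num * fderiv ℂ b x v) →
      (fderiv ℂ b (p, 0) ((1, 0), 0) ≠ 0 ∨ fderiv ℂ b (p, 0) ((0, 1), 0) ≠ 0) →
      ∃ ε₀ > 0, ∃ G : ℂ × ℂ → ℂ, AnalyticOnNhd ℂ G (ball x₀ r₀ ×ˢ ball 0 ε₀) ∧
        (∀ x ∈ ball x₀ r₀, G (x, 0) = g x) ∧
        ∀ᶠ x in 𝓝 ((p, 0) : C3), ∀ i : Fin (r + 1),
          y i x = iteratedDeriv i (fun z => G (z, x.2)) (b x)

end Crest.Agent.R102.H3
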