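import Mathlib
import Crest.Agent.R102.H3Defs_337

/-!
Row 102, [H3], second part: the `(t, w)` side.

* `Fam g M K β t₀ ρ` : the main family near a tangency point: `l(t, w) = (M, K)(t, w)`,
  `β(t, w)` = isotropic coordinate `b` of the vertex with label `(t, w)`, which lies on the lines
  `l(t ± w/2, w)`.
* `bj β j (t, w) = β(t + (j + 1/2) w, w)` = vertices of the main chain starting at `l(t, w)`,
  `lj M j (t, w) = M(t + j w, w)` = its lines.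
* `Closed` : a second chain `c_0, …, c_{n-1}` from `l(t, w)` to `l(t + N w, w)`, `n ≤ N`.
-/

set_option autoImplicit false

noncomputable section

open Filter Topology Set Metric

namespace Crest.Agent.R102.H3

/-- the main family near the tangency point `t₀` -/
structure Fam (g : ℂ → ℂ) (M K β : C2 → ℂ) (t₀ : ℂ) (ρ : ℝ) : Prop where
  ρ_pos : 0 < ρ
  M_an : AnalyticOnNhd ℂ M (ball (t₀, 0) ρ)
  K_an : AnalyticOnNhd ℂ K (ball (t₀, 0) ρ)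
  β_an : AnalyticOnNhd ℂ β (ball (t₀, 0) ρ)
  g_an : ∀ x ∈ ball (t₀, (0 : ℂ)) ρ, AnalyticAt ℂ g (β x)
  M_ne : ∀ x ∈ ball (t₀, (0 : ℂ)) ρ, M x ≠ 0
  g1 : ∀ x ∈ ball (t₀, (0 : ℂ)) ρ, deriv g (β x) ≠ 0
  g2 : ∀ x ∈ ball (t₀, (0 : ℂ)) ρ, deriv (deriv g) (β x) ≠ 0
  β_t : ∀ x ∈ ball (t₀, (0 : ℂ)) ρ, d1 β x ≠ 0
  M_even : ∀ t w : ℂ, (t, w) ∈ ball (t₀, (0 : ℂ)) ρ → M (t, -w) = M (t, w)
  K_even : ∀ t w : ℂ, (t, w) ∈ ball (t₀, (0 : ℂ)) ρ → K (t, -w) = K (t, w)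
  β_even : ∀ t w : ℂ, (t, w) ∈ ball (t₀, (0 : ℂ)) ρ → β (t, -w) = β (t, w)
  inc : ∀ t w : ℂ, (t, w) ∈ ball (t₀, (0 : ℂ)) ρ → (t + w / 2, w) ∈ ball (t₀, (0 : ℂ)) ρ →
    g (β (t + w / 2, w)) = M (t, w) * β (t + w / 2, w) + K (t, w)
  inc' : ∀ t w : ℂ, (t, w) ∈ ball (t₀, (0 : ℂ)) ρ → (t - w / 2, w) ∈ ball (t₀, (0 : ℂ)) ρ →
    g (β (t - w / 2, w)) = M (t, w) * β (t - w / 2, w) + K (t, w)
  refl : ∀ t w : ℂ, (t, w) ∈ ball (t₀, (0 : ℂ)) ρ → (t - w / 2, w) ∈ ball (t₀, (0 : ℂ)) ρ →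
    (t + w / 2, w) ∈ ball (t₀, (0 : ℂ)) ρ →
    M (t - w / 2, w) * M (t + w / 2, w) = deriv g (β (t, w)) ^ 2
  tang : ∀ t : ℂ, t ∈ ball t₀ ρ → M (t, 0) = deriv g (β (t, 0))
  jac : ∃ a : C2 → ℂ, AnalyticOnNhd ℂ a (ball (t₀, 0) ρ) ∧
    ∀ x ∈ ball (t₀, (0 : ℂ)) ρ, a x ≠ 0 ∧ br M K x = x.2 * a x

/-- vertices of the main chain starting at `l(t, w)` -/
def bj (β : C2 → ℂ) (j : ℤ) (x : C2) : ℂ := β (x.1 + ((j : ℂ) + 1 / 2) * x.2, x.2)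
/-- lines of the main chain starting at `l(t, w)` -/
def lj (M : C2 → ℂ) (j : ℤ) (x : C2) : ℂ := M (x.1 + (j : ℂ) * x.2, x.2)

/-- the domain where the main chain of length `N` (and one step backwards) is defined -/
def Dom (t₀ : ℂ) (ρ : ℝ) (N : ℕ) : Set C2 := {x | ‖x.1 - t₀‖ + (N + 1) * ‖x.2‖ < ρ}

/-- the jets of the main chain as functions of `(t, w)` -/
def jvt (g : ℂ → ℂ) (M K β : C2 → ℂ) (N r : ℕ) : Idx N r → C2 → ℂ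
  | Sum.inl i => if i = 0 then M else K
  | Sum.inr (j, none) => bj β j
  | Sum.inr (j, some i) => fun x => iteratedDeriv i g (bj β j x)

/-- a second chain from `l(t, w)` to `l(t + N w, w)`, near `p` -/
structure Closed (M K β : C2 → ℂ) (t₀ : ℂ) (ρ : ℝ) (N n : ℕ) (p : C2)
    (c mc kc : ℕ → C2 → ℂ) : Prop where
  n_pos : 0 < n
  n_le : n ≤ N
  p_mem : p ∈ Dom t₀ ρ N
  p2 : p.2 ≠ 0
  c_an : ∀ i < n, AnalyticAt ℂ (c i) p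
  m_an : ∀ i ≤ n, AnalyticAt ℂ (mc i) p
  k_an : ∀ i ≤ n, AnalyticAt ℂ (kc i) p
  m_start : ∀ᶠ x in 𝓝 p, mc 0 x = M x
  k_start : ∀ᶠ x in 𝓝 p, kc 0 x = K x
  m_end : ∀ᶠ x in 𝓝 p, mc n x = lj M N x
  k_end : ∀ᶠ x in 𝓝 p, kc n x = lj K N x
  inc : ∀ i < n, ∀ᶠ x in 𝓝 p, mc i x * c i x + kc i x = mc (i + 1) x * c i x + kc (i + 1) x
  curve : ∀ i < n, Dep p (c i) (fun x => mc i x * c i x + kc i x)
  refl : ∀ i < n, ∀ᶠ x in 𝓝 p,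
    mc i x * mc (i + 1) x * d1 (c i) x ^ 2 = d1 (fun x => mc i x * c i x + kc i x) x ^ 2 ∧
    mc i x * mc (i + 1) x * d2 (c i) x ^ 2 = d2 (fun x => mc i x * c i x + kc i x) x ^ 2
  ne : ∀ i < n, ∀ j < n, i ≠ j → ¬ Dep p (c i) (c j)
  nc : ∀ i < n, ¬ ∀ᶠ x in 𝓝 p, d1 (c i) x = 0 ∧ d2 (c i) x = 0
  m_ne : ∀ i ≤ n, ¬ ∀ᶠ x in 𝓝 p, mc i x = 0
  nt : ∀ i < n, ¬ ∀ᶠ x in 𝓝 p, mc i x = mc (i + 1) x
  far : ¬ ∀ᶠ x in 𝓝 p, c 0 x = bj β 0 x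
  far' : ¬ ∀ᶠ x in 𝓝 p, c 0 x = bj β (-1) x

/-! ### I.1 DFIN -/

/-- **PAIR**: a function `u` which is constant on pencils of lines and is not one of the two near
intersection points is functionally independent of every main vertex. -/
def LeafPAIR : Prop :=
  ∀ (g : ℂ → ℂ) (M K β : C2 → ℂ) (t₀ : ℂ) (ρ : ℝ) (N : ℕ) (p : C2) (u : C2 → ℂ),
    Fam g M K β t₀ ρ → p ∈ Dom t₀ ρ N → p.2 ≠ 0 → AnalyticAt ℂ u p →
    Dep p u (fun x => M x * u x + K x) → (¬ ∀ᶠ x in 𝓝 p, d1 u x = 0 ∧ d2 u x = 0) →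
    (¬ ∀ᶠ x in 𝓝 p, u x = bj β 0 x) → (¬ ∀ᶠ x in 𝓝 p, u x = bj β (-1) x) →
    ∀ j < N, ¬ Dep p u (bj β j)

/-- **MD**: the vertices of the main chain are pairwise functionally independent. -/
def LeafMD : Prop :=
  ∀ (g : ℂ → ℂ) (M K β : C2 → ℂ) (t₀ : ℂ) (ρ : ℝ) (N : ℕ) (p : C2),
    Fam g M K β t₀ ρ → p ∈ Dom t₀ ρ N → p.2 ≠ 0 →
    ∀ i < N, ∀ j < N, i ≠ j → ¬ Dep p (bj β i) (bj β j)

/-- **Block DFIN**: a closed chain forces an algebraic differential equation. -/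
def BlockDFIN : Prop :=
  ∀ (g : ℂ → ℂ) (M K β : C2 → ℂ) (t₀ : ℂ) (ρ : ℝ) (N n : ℕ) (p : C2) (c mc kc : ℕ → C2 → ℂ),
    Fam g M K β t₀ ρ → Closed M K β t₀ ρ N n p c mc kc → AlgODE g (β (t₀, 0))

/-! ### I.2 REG -/

/-- one step of analytic continuation inside `S` -/
def CStep (S : Set C2) (a b : C2 × (C2 → ℂ)) : Prop :=
  ∃ (c : C2) (r : ℝ) (F : C2 → ℂ), ball c r ⊆ S ∧ AnalyticOnNhd ℂ F (ball c r) ∧ a.1 ∈ ball c r ∧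
    b.1 ∈ ball c r ∧ (∀ᶠ x in 𝓝 a.1, F x = a.2 x) ∧ ∀ᶠ x in 𝓝 b.1, F x = b.2 x

/-- analytic continuation inside `S` -/
def Cont (S : Set C2) (a b : C2 × (C2 → ℂ)) : Prop := Relation.ReflTransGen (CStep S) a b

/-- **Block REG**: the far vertex of an algebroid chain is regular at `w = 0` for generic `t₁`. -/
def BlockREG : Prop :=
  ∀ (g : ℂ → ℂ) (M K β : C2 → ℂ) (t₀ : ℂ) (ρ : ℝ) (N r : ℕ) (p : C2) (u : C2 → ℂ),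
    Fam g M K β t₀ ρ → p ∈ Dom t₀ ρ N → p.2 ≠ 0 → AnalyticAt ℂ u p →
    Dep p u (fun x => M x * u x + K x) → (¬ ∀ᶠ x in 𝓝 p, d1 u x = 0 ∧ d2 u x = 0) →
    (¬ ∀ᶠ x in 𝓝 p, u x = bj β 0 x) → (¬ ∀ᶠ x in 𝓝 p, u x = bj β (-1) x) →
    AlgAt p (jvt g M K β N r) u →
    ∃ (t₁ : ℂ) (r₁ : ℝ) (U : C2 → ℂ) (q : C2), 0 < r₁ ∧ ball (t₁, 0) r₁ ⊆ Dom t₀ ρ N ∧
      AnalyticOnNhd ℂ U (ball (t₁, 0) r₁) ∧
      (∀ x ∈ ball (t₁, (0 : ℂ)) r₁, U (x.1, -x.2) = U x) ∧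
      (∀ t ∈ ball t₁ r₁, U (t, 0) ≠ β (t, 0)) ∧ (∀ t ∈ ball t₁ r₁, d1 U (t, 0) ≠ 0) ∧
      q ∈ ball (t₁, (0 : ℂ)) r₁ ∧ q.2 ≠ 0 ∧ Cont (Dom t₀ ρ N) (p, u) (q, U)

/-! ### algebra on the `(t, w)` side and charts -/

/-- **NF**: an algebraic ODE can be solved for the highest derivative, for every large order. -/
def LeafNF : Prop :=
  ∀ (g : ℂ → ℂ) (x₀ : ℂ), AnalyticAt ℂ g x₀ → AlgODE g x₀ →
    ∃ r₀ : ℕ, ∀ r ≥ r₀, ∃ Num Den : MvPolynomial (Fin (r + 2)) ℂ,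
      (¬ ∀ᶠ x in 𝓝 x₀, MvPolynomial.eval (jet g r x) Den = 0) ∧
      ∀ᶠ x in 𝓝 x₀, iteratedDeriv (r + 1) g x * MvPolynomial.eval (jet g r x) Den =
        MvPolynomial.eval (jet g r x) Num

/-- **UODE**: if `g` satisfies an algebraic ODE and `u` is algebraic over the jets of the chain,
then the germ `gh` (with `gh(u) = m u + k`) satisfies an algebraic ODE. -/
def BlockUODE : Prop :=
  ∀ (N r : ℕ) (g gh : ℂ → ℂ) (u : C2 → ℂ) (p : C2) (b : ℕ → C2 → ℂ),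
    Chain0 g N b p → Transv g N b p → (∀ j < N, AnalyticAt ℂ g (b j p)) →
    (∀ j < N, AlgODE g (b j p)) → AnalyticAt ℂ u p → AnalyticAt ℂ gh (u p) →
    (∀ᶠ l in 𝓝 p, gh (u l) = l.1 * u l + l.2) → AlgAt p (fun i l => jv g N r b l i) u →
    AlgODE gh (u p)

/-- **CHART**: `(M, K)` is a local chart for `w ≠ 0`, and even functions are functions of `l`. -/
def BlockCHART : Prop :=
  ∀ (g : ℂ → ℂ) (M K β : C2 → ℂ) (t₀ : ℂ) (ρ : ℝ), Fam g M K β t₀ ρ →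
    tl g (β (t₀, 0)) = (M (t₀, 0), K (t₀, 0)) ∧
    (∀ U : C2 → ℂ, AnalyticAt ℂ U (t₀, 0) → (∀ᶠ x in 𝓝 ((t₀, 0) : C2), U (x.1, -x.2) = U x) →
      ∃ u : C2 → ℂ, AnalyticAt ℂ u (M (t₀, 0), K (t₀, 0)) ∧
        ∀ᶠ x in 𝓝 ((t₀, 0) : C2), U x = u (M x, K x)) ∧
    (∀ q ∈ ball (t₀, (0 : ℂ)) ρ, q.2 ≠ 0 → ∃ ψ : C2 → C2, AnalyticAt ℂ ψ (M q, K q) ∧
      ψ (M q, K q) = q ∧ (∀ᶠ l in 𝓝 ((M q, K q) : C2), (M (ψ l), K (ψ l)) = l) ∧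
      ∀ᶠ x in 𝓝 q, ψ (M x, K x) = x)

/-- **Block CORE** (Part I complete): the first vertex of the second chain is algebraic over
`ℂ(m, k)`. -/
def BlockCORE : Prop :=
  ∀ (g : ℂ → ℂ) (M K β : C2 → ℂ) (t₀ : ℂ) (ρ : ℝ) (N n r : ℕ) (p : C2) (c mc kc : ℕ → C2 → ℂ),
    Fam g M K β t₀ ρ → Closed M K β t₀ ρ N n p c mc kc → AlgAt p (jvt g M K β N r) (c 0) →
    ¬ AlgGerm g (β (t₀, 0)) → AlgAt p ![M, K] (c 0)

/-! ### II. rigidity -/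

/-- there is no nontrivial relation `Σ n_j(X_j) (1/e_j - 1/e_{j+1}) = C` between the vertices of the
main chain (`e_j² = m_j`) -/
def NoRel (M β : C2 → ℂ) (t₀ : ℂ) (ρ : ℝ) (N : ℕ) : Prop :=
  ∀ t₁ ∈ ball t₀ ρ, ∀ e : C2 → ℂ, AnalyticAt ℂ e (t₁, 0) →
    (∀ᶠ x in 𝓝 ((t₁, 0) : C2), e x ^ 2 = M x) →
    ∀ (n : ℕ → ℂ → ℂ) (C : ℂ), (∀ j < N, AnalyticAt ℂ (n j) (β (t₁, 0))) →
    (∀ᶠ x in 𝓝 ((t₁, 0) : C2), ∑ j ∈ Finset.range N,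
      n j (bj β j x) * (1 / lj e j x - 1 / lj e (j + 1) x) = C) →
    ∀ j < N, ∀ᶠ z in 𝓝 (β (t₁, 0)), n j z = 0

/-- the coordinates `m, k` and the jets of the map `A = (A 0, A 1)` -/
def jlA (A : Fin 2 → C2 → ℂ) (R : ℕ) : Fin 2 ⊕ (Fin 2 × Fin (R + 1) × Fin (R + 1)) → C2 → ℂ
  | Sum.inl i => L0 i
  | Sum.inr (c, a, b) => (d1^[a]) ((d2^[b]) (A c))

/-- **Block RIGID**: without relation, the vertices of the main chain are algebraic over the jets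
of the map `A = T^N` (in the chart `ψ = (M, K)⁻¹` near a point with `w ≠ 0`). -/
def BlockRIGID : Prop :=
  ∀ (g : ℂ → ℂ) (M K β : C2 → ℂ) (t₀ : ℂ) (ρ : ℝ) (N : ℕ) (p : C2) (ψ : C2 → C2),
    Fam g M K β t₀ ρ → NoRel M β t₀ ρ N → p ∈ Dom t₀ ρ N → p.2 ≠ 0 →
    AnalyticAt ℂ ψ (M p, K p) → ψ (M p, K p) = p →
    (∀ᶠ l in 𝓝 ((M p, K p) : C2), (M (ψ l), K (ψ l)) = l) →
    ∀ i < N, ∃ R, AlgAt (M p, K p) (jlA ![fun l => lj M N (ψ l), fun l => lj K N (ψ l)] R)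
      (fun l => bj β i (ψ l))

/-- **JETA**: the jets of the composed map are rational functions of the jets of the chain. -/
def LeafJETA : Prop :=
  ∀ (N : ℕ) (g : ℂ → ℂ) (p : C2) (b : ℕ → C2 → ℂ), Chain0 g N b p → Transv g N b p →
    (∀ j < N, AnalyticAt ℂ g (b j p)) → ∀ (R : ℕ) (f : C2 → ℂ), AnalyticAt ℂ f p →
    AlgAt p (jlA ![fun l => (ln0 g (fun i => b i l) l N).1, fun l => (ln0 g (fun i => b i l) l N).2] R) f →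
    ∃ r, AlgAt p (fun i l => jv g N r b l i) f

end Crest.Agent.R102.H3
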