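import Mathlib
import Crest.Agent.R102.H3Defs2_337
import Crest.Agent.R266.Osgood
import Crest.Agent.R266.AnaChart

/-!
Row 102, [H3], leaf H3-CHART (helper348).

* `even_desc` : an analytic germ at `(t₀, 0)`, even in `w`, is an analytic function of `(t, w²)`.
* `exists_inv` : analytic local inverse of `(f, h)` at a point where `br f h ≠ 0`.
* `blockCHART : H3.BlockCHART`.
-/

set_option autoImplicit false

noncomputable section

open Filter Topology Set Metric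

namespace Crest.Agent.R102.Chart348

open H3

/-- a square root -/
def rt (s : ℂ) : ℂ := s ^ (((2 : ℕ) : ℂ)⁻¹)

lemma rt_sq (s : ℂ) : rt s ^ 2 = s := Complex.cpow_nat_inv_pow s two_ne_zero

lemma rt_zero : rt 0 = 0 := by
  have h := rt_sq 0
  exact pow_eq_zero_iff two_ne_zero |>.1 h

lemma norm_rt (s : ℂ) : ‖rt s‖ ^ 2 = ‖s‖ := by rw [← norm_pow, rt_sq]

lemma norm_rt_lt {s : ℂ} {δ : ℝ} (hδ : 0 < δ) (h : ‖s‖ < δ ^ 2) : ‖rt s‖ < δ := by
  rw [← norm_rt] at h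
  exact lt_of_pow_lt_pow_left₀ 2 hδ.le h

lemma continuousAt_rt_zero : ContinuousAt rt 0 := by
  rw [Metric.continuousAt_iff]
  intro ε hε
  refine ⟨ε ^ 2, by positivity, fun s hs => ?_⟩
  rw [rt_zero, dist_zero_right]
  rw [dist_zero_right] at hs
  exact norm_rt_lt hε hs

/-- local analytic branch of the square root with prescribed value -/
lemma exists_branch {s₀ r₀ : ℂ} (h : r₀ ^ 2 = s₀) (hs : s₀ ≠ 0) :
    ∃ r : ℂ → ℂ, AnalyticAt ℂ r s₀ ∧ r s₀ = r₀ ∧ ∀ s, r s ^ 2 = s := by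
  refine ⟨fun s => r₀ * rt (s / s₀), ?_, ?_, fun s => ?_⟩
  · refine analyticAt_const.mul ?_
    have h1 : AnalyticAt ℂ rt (s₀ / s₀) := by
      rw [div_self hs]
      exact analyticAt_id.cpow analyticAt_const (by simp)
    exact h1.comp (f := fun s => s / s₀) (analyticAt_id.div_const)
  · simp only [div_self hs, rt, Complex.one_cpow, mul_one]
  · rw [mul_pow, rt_sq, h]
    field_simp

/-- **evenness**: an analytic germ which is even in `w` is an analytic function of `(t, w²)`. -/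
theorem even_desc {f : C2 → ℂ} {t₀ : ℂ} (hf : AnalyticAt ℂ f (t₀, 0))
    (he : ∀ᶠ x in 𝓝 ((t₀, 0) : C2), f (x.1, -x.2) = f x) :
    ∃ F : C2 → ℂ, AnalyticAt ℂ F (t₀, 0) ∧ ∀ᶠ x in 𝓝 ((t₀, 0) : C2), f x = F (x.1, x.2 ^ 2) := by
  obtain ⟨δ, hδ, hball⟩ := Metric.eventually_nhds_iff_ball.1 (hf.eventually_analyticAt.and he)
  have hmem : ∀ t w : ℂ, ‖t - t₀‖ < δ → ‖w‖ < δ → ((t, w) : C2) ∈ ball ((t₀, 0) : C2) δ := by
    intro t w h1 h2
    rw [mem_ball, Prod.dist_eq, dist_eq_norm, dist_eq_norm, sub_zero]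
    exact max_lt h1 h2
  have key : ∀ t s r : ℂ, ‖t - t₀‖ < δ → ‖s‖ < δ ^ 2 → r ^ 2 = s → f (t, rt s) = f (t, r) := by
    intro t s r ht hs hr
    have h1 : rt s = r ∨ rt s = -r := by
      have := rt_sq s
      rw [← hr] at this ⊢
      exact sq_eq_sq_iff_eq_or_eq_neg.1 this
    rcases h1 with h1 | h1
    · rw [h1]
    · rw [h1]
      have hr' : ‖r‖ < δ := by
        have : ‖rt s‖ < δ := norm_rt_lt hδ hs
        rwa [h1, norm_neg] at this
      exact (hball (t, r) (hmem t r ht hr')).2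
  set U : Set C2 := {x | ‖x.1 - t₀‖ < δ ∧ ‖x.2‖ < δ ^ 2} with hU
  have hUo : IsOpen U := by
    have c1 : Continuous (fun x : C2 => ‖x.1 - t₀‖) := by fun_prop
    have c2 : Continuous (fun x : C2 => ‖x.2‖) := by fun_prop
    exact (isOpen_lt c1 continuous_const).inter (isOpen_lt c2 continuous_const)
  set F : C2 → ℂ := fun x => f (x.1, rt x.2) with hF
  -- the local form of `F` at a point with `x.2 ≠ 0`
  have hloc : ∀ x ∈ U, x.2 ≠ 0 → AnalyticAt ℂ F x := by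
    rintro ⟨t, s⟩ ⟨ht, hs⟩ hne
    obtain ⟨r, hra, hr0, hr2⟩ := exists_branch (rt_sq s) hne
    have h1 : AnalyticAt ℂ (fun x : C2 => f (x.1, r x.2)) (t, s) := by
      have h2 : AnalyticAt ℂ f (t, r s) := by
        rw [hr0]
        exact (hball _ (hmem t (rt s) ht (norm_rt_lt hδ hs))).1
      have h3 : AnalyticAt ℂ (fun x : C2 => (x.1, r x.2)) (t, s) :=
        analyticAt_fst.prod (AnalyticAt.comp (g := r) (f := fun x : C2 => x.2) hra analyticAt_snd)
      exact AnalyticAt.comp (g := f) (f := fun x : C2 => (x.1, r x.2)) h2 h3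
    refine h1.congr ?_
    filter_upwards [hUo.mem_nhds (show ((t, s) : C2) ∈ U from ⟨ht, hs⟩)] with x hx
    exact (key x.1 x.2 (r x.2) hx.1 hx.2 (hr2 x.2)).symm
  have hcont : ContinuousOn F U := by
    rintro ⟨t, s⟩ ⟨ht, hs⟩
    by_cases h0 : s = 0
    · subst h0
      refine ContinuousAt.continuousWithinAt ?_
      have h2 : ContinuousAt f (t, rt 0) :=
        (hball _ (hmem t (rt 0) ht (norm_rt_lt hδ hs))).1.continuousAt
      have h3 : ContinuousAt (fun x : C2 => (x.1, rt x.2)) (t, 0) :=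
        continuousAt_fst.prodMk
          (ContinuousAt.comp (g := rt) (f := fun x : C2 => x.2) continuousAt_rt_zero continuousAt_snd)
      exact ContinuousAt.comp (g := f) (f := fun x : C2 => (x.1, rt x.2)) h2 h3
    · exact (hloc (t, s) ⟨ht, hs⟩ h0).continuousAt.continuousWithinAt
  have hFan : AnalyticOnNhd ℂ F U := by
    refine R266.SCV.analyticOnNhd_of_separately hUo hcont ?_ ?_
    · rintro ⟨t, s⟩ ⟨ht, hs⟩
      have h2 : AnalyticAt ℂ f (t, rt s) :=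
        (hball _ (hmem t (rt s) ht (norm_rt_lt hδ hs))).1
      exact DifferentiableAt.comp (g := f) (f := fun x : ℂ => (x, rt s)) t h2.differentiableAt
        (by fun_prop)
    · rintro ⟨t, s⟩ ⟨ht, hs⟩
      by_cases h0 : s = 0
      · subst h0
        have hB : ball (0 : ℂ) (δ ^ 2) ∈ 𝓝 (0 : ℂ) := ball_mem_nhds _ (by positivity)
        have h3 : DifferentiableOn ℂ (fun y => F (t, y)) (ball (0 : ℂ) (δ ^ 2)) := by
          rw [← Complex.differentiableOn_compl_singleton_and_continuousAt_iff hB]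
          refine ⟨?_, ?_⟩
          · intro y hy
            have hyU : ((t, y) : C2) ∈ U := ⟨ht, by simpa using hy.1⟩
            have h4 := (hloc (t, y) hyU hy.2).differentiableAt
            exact (DifferentiableAt.comp (g := F) (f := fun y : ℂ => (t, y)) y h4
              (by fun_prop)).differentiableWithinAt
          · have h5 : ContinuousAt F (t, 0) := hcont.continuousAt (hUo.mem_nhds ⟨ht, hs⟩)
            exact ContinuousAt.comp (g := F) (f := fun y : ℂ => (t, y)) h5 (by fun_prop)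
        exact h3.differentiableAt hB
      · have h4 := (hloc (t, s) ⟨ht, hs⟩ h0).differentiableAt
        exact DifferentiableAt.comp (g := F) (f := fun y : ℂ => (t, y)) s h4 (by fun_prop)
  refine ⟨F, hFan _ ⟨by simpa using hδ, by simp; positivity⟩, ?_⟩
  filter_upwards [ball_mem_nhds ((t₀, 0) : C2) hδ] with x hx
  rw [mem_ball, Prod.dist_eq, max_lt_iff, dist_eq_norm, dist_eq_norm, sub_zero] at hx
  refine (key x.1 (x.2 ^ 2) x.2 hx.1 ?_ rfl).symm
  rw [norm_pow]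
  exact pow_lt_pow_left₀ hx.2 (norm_nonneg _) two_ne_zero

/-! ### local inverses -/

lemma fderiv_pair {f h : C2 → ℂ} {q : C2} (hf : AnalyticAt ℂ f q) (hh : AnalyticAt ℂ h q) (v : C2) :
    fderiv ℂ (fun x => (f x, h x)) q v = (v.1 * d1 f q + v.2 * d2 f q, v.1 * d1 h q + v.2 * d2 h q) := by
  have hv : v = v.1 • ((1, 0) : C2) + v.2 • ((0, 1) : C2) := by
    ext <;> simp
  have hlin : ∀ L : C2 →L[ℂ] ℂ, L v = v.1 * L (1, 0) + v.2 * L (0, 1) := by
    intro L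
    conv_lhs => rw [hv]
    rw [map_add, map_smul, map_smul, smul_eq_mul, smul_eq_mul]
  rw [(hf.differentiableAt.hasFDerivAt.prodMk hh.differentiableAt.hasFDerivAt).fderiv]
  show (fderiv ℂ f q v, fderiv ℂ h q v) = _
  rw [hlin (fderiv ℂ f q), hlin (fderiv ℂ h q)]
  rfl

/-- analytic local inverse of `(f, h)` at a point with nonzero Jacobian -/
theorem exists_inv {f h : C2 → ℂ} {q : C2} (hf : AnalyticAt ℂ f q) (hh : AnalyticAt ℂ h q)
    (hbr : br f h q ≠ 0) :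
    ∃ ψ : C2 → C2, AnalyticAt ℂ ψ (f q, h q) ∧ ψ (f q, h q) = q ∧
      (∀ᶠ l in 𝓝 ((f q, h q) : C2), (f (ψ l), h (ψ l)) = l) ∧
      ∀ᶠ x in 𝓝 q, ψ (f x, h x) = x := by
  have hfh : AnalyticAt ℂ (fun x => (f x, h x)) q := hf.prod hh
  set L := fderiv ℂ (fun x => (f x, h x)) q with hL
  have hinj : Function.Injective L := by
    rw [injective_iff_map_eq_zero]
    intro v hv
    rw [hL, fderiv_pair hf hh] at hv
    have h1 : v.1 * d1 f q + v.2 * d2 f q = 0 := congrArg Prod.fst hv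
    have h2 : v.1 * d1 h q + v.2 * d2 h q = 0 := congrArg Prod.snd hv
    have hb : d1 f q * d2 h q - d2 f q * d1 h q ≠ 0 := hbr
    have e1 : v.1 * (d1 f q * d2 h q - d2 f q * d1 h q) = 0 := by
      linear_combination d2 h q * h1 - d2 f q * h2
    have e2 : v.2 * (d1 f q * d2 h q - d2 f q * d1 h q) = 0 := by
      linear_combination d1 f q * h2 - d1 h q * h1
    ext
    · exact (mul_eq_zero.1 e1).resolve_right hb
    · exact (mul_eq_zero.1 e2).resolve_right hb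
  set e' : C2 ≃L[ℂ] C2 :=
    (LinearEquiv.ofInjectiveEndo (L : C2 →ₗ[ℂ] C2) hinj).toContinuousLinearEquiv with he'
  have he'L : (e' : C2 →L[ℂ] C2) = L := by
    ext <;> rfl
  have hfd : HasFDerivAt (fun x => (f x, h x)) (e' : C2 →L[ℂ] C2) q := by
    rw [he'L]; exact hfh.differentiableAt.hasFDerivAt
  obtain ⟨e, hq, -, hef, -, hes, -⟩ := R266.exists_chart hfh hfd (N := univ) univ_mem
  have hqt : e q ∈ e.target := e.map_source hq
  have heq : e q = (f q, h q) := hef q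
  refine ⟨e.symm, ?_, ?_, ?_, ?_⟩
  · rw [← heq]; exact hes _ hqt
  · rw [← heq]; exact e.left_inv hq
  · rw [← heq]
    filter_upwards [e.open_target.mem_nhds hqt] with l hl
    have := e.right_inv hl
    rwa [hef] at this
  · filter_upwards [e.open_source.mem_nhds hq] with x hx
    have := e.left_inv hx
    rwa [hef] at this

/-! ### derivatives of `F (t, w²)` -/

lemma d1_sq {F : C2 → ℂ} {x : C2} (hF : AnalyticAt ℂ F (x.1, x.2 ^ 2)) :
    d1 (fun y => F (y.1, y.2 ^ 2)) x = d1 F (x.1, x.2 ^ 2) ∧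
    d2 (fun y => F (y.1, y.2 ^ 2)) x = 2 * x.2 * d2 F (x.1, x.2 ^ 2) := by
  have h1 : HasFDerivAt (fun y : C2 => (y.1, y.2 ^ 2))
      ((ContinuousLinearMap.fst ℂ ℂ ℂ).prod ((2 * x.2) • (ContinuousLinearMap.snd ℂ ℂ ℂ))) x := by
    refine (hasFDerivAt_fst (p := x)).prodMk ?_
    have := (hasFDerivAt_snd (𝕜 := ℂ) (E := ℂ) (F := ℂ) (p := x)).pow 2
    simpa using this
  have h2 := HasFDerivAt.comp (g := F) x hF.differentiableAt.hasFDerivAt h1
  have h3 : fderiv ℂ (fun y => F (y.1, y.2 ^ 2)) x = _ := h2.fderiv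
  constructor
  · unfold d1
    rw [h3]
    simp
  · unfold d2
    rw [h3]
    have : ((0 : ℂ), 2 * x.2) = (2 * x.2) • ((0 : ℂ), (1 : ℂ)) := by simp
    simp only [ContinuousLinearMap.comp_apply, ContinuousLinearMap.prod_apply,
      ContinuousLinearMap.coe_fst', _root_.smul_apply, ContinuousLinearMap.coe_snd',
      smul_eq_mul, mul_one]
    rw [this, map_smul, smul_eq_mul]

lemma tendsto_sq (t₀ : ℂ) : Tendsto (fun x : C2 => ((x.1, x.2 ^ 2) : C2)) (𝓝 (t₀, 0)) (𝓝 (t₀, 0)) := by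
  have : Continuous (fun x : C2 => ((x.1, x.2 ^ 2) : C2)) := by fun_prop
  simpa using this.tendsto ((t₀, 0) : C2)

lemma br_sq {F H : C2 → ℂ} {t₀ : ℂ} (hF : AnalyticAt ℂ F (t₀, 0)) (hH : AnalyticAt ℂ H (t₀, 0)) :
    ∀ᶠ x in 𝓝 ((t₀, 0) : C2), br (fun y => F (y.1, y.2 ^ 2)) (fun y => H (y.1, y.2 ^ 2)) x =
      2 * x.2 * br F H (x.1, x.2 ^ 2) := by
  filter_upwards [(tendsto_sq t₀).eventually hF.eventually_analyticAt,
    (tendsto_sq t₀).eventually hH.eventually_analyticAt] with x h1 h2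
  unfold br
  rw [(d1_sq h1).1, (d1_sq h1).2, (d1_sq h2).1, (d1_sq h2).2]
  ring

lemma d1_congr {f h : C2 → ℂ} {x : C2} (hfh : f =ᶠ[𝓝 x] h) : d1 f x = d1 h x := by
  unfold d1; rw [hfh.fderiv_eq]

lemma d2_congr {f h : C2 → ℂ} {x : C2} (hfh : f =ᶠ[𝓝 x] h) : d2 f x = d2 h x := by
  unfold d2; rw [hfh.fderiv_eq]

lemma br_congr {f f' h h' : C2 → ℂ} {x : C2} (hf : f =ᶠ[𝓝 x] f') (hh : h =ᶠ[𝓝 x] h') :
    br f h x = br f' h' x := by
  unfold br; rw [d1_congr hf, d1_congr hh, d2_congr hf, d2_congr hh]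

lemma analyticAt_d1 {f : C2 → ℂ} {x : C2} (hf : AnalyticAt ℂ f x) : AnalyticAt ℂ (d1 f) x :=
  (ContinuousLinearMap.apply ℂ ℂ ((1, 0) : C2)).analyticAt _ |>.comp hf.fderiv

lemma analyticAt_d2 {f : C2 → ℂ} {x : C2} (hf : AnalyticAt ℂ f x) : AnalyticAt ℂ (d2 f) x :=
  (ContinuousLinearMap.apply ℂ ℂ ((0, 1) : C2)).analyticAt _ |>.comp hf.fderiv

lemma analyticAt_br {f h : C2 → ℂ} {x : C2} (hf : AnalyticAt ℂ f x) (hh : AnalyticAt ℂ h x) :
    AnalyticAt ℂ (br f h) x :=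
  ((analyticAt_d1 hf).mul (analyticAt_d2 hh)).sub ((analyticAt_d2 hf).mul (analyticAt_d1 hh))

/-- `(M, K)` as an analytic chart in the variables `(t, w²)` -/
theorem chart_sq {M K : C2 → ℂ} {t₀ : ℂ} (hM : AnalyticAt ℂ M (t₀, 0)) (hK : AnalyticAt ℂ K (t₀, 0))
    (hMe : ∀ᶠ x in 𝓝 ((t₀, 0) : C2), M (x.1, -x.2) = M x)
    (hKe : ∀ᶠ x in 𝓝 ((t₀, 0) : C2), K (x.1, -x.2) = K x) {a : C2 → ℂ}
    (ha : ContinuousAt a (t₀, 0)) (ha0 : a (t₀, 0) ≠ 0)
    (hj : ∀ᶠ x in 𝓝 ((t₀, 0) : C2), br M K x = x.2 * a x) :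
    ∃ Θ : C2 → C2, AnalyticAt ℂ Θ (M (t₀, 0), K (t₀, 0)) ∧ Θ (M (t₀, 0), K (t₀, 0)) = (t₀, 0) ∧
      ∀ᶠ x in 𝓝 ((t₀, 0) : C2), Θ (M x, K x) = (x.1, x.2 ^ 2) := by
  obtain ⟨M1, hM1, hM1e⟩ := even_desc hM hMe
  obtain ⟨K1, hK1, hK1e⟩ := even_desc hK hKe
  have h0 : ∀ᶠ x in 𝓝 ((t₀, 0) : C2), x.2 * (2 * br M1 K1 (x.1, x.2 ^ 2) - a x) = 0 := by
    filter_upwards [hM1e.eventually_nhds, hK1e.eventually_nhds, hj, br_sq hM1 hK1] with x h1 h2 h3 h4
    rw [br_congr (h1 : M =ᶠ[𝓝 x] _) (h2 : K =ᶠ[𝓝 x] _), h4] at h3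
    linear_combination h3
  have hbr : br M1 K1 (t₀, 0) ≠ 0 := by
    have hc : ContinuousAt (fun x : C2 => 2 * br M1 K1 (x.1, x.2 ^ 2) - a x) (t₀, 0) := by
      refine ContinuousAt.sub (continuousAt_const.mul ?_) ha
      have h1 : ContinuousAt (br M1 K1) (t₀, (0 : ℂ) ^ 2) := by
        simpa using (analyticAt_br hM1 hK1).continuousAt
      exact ContinuousAt.comp (g := br M1 K1) (f := fun x : C2 => ((x.1, x.2 ^ 2) : C2)) h1
        (by fun_prop)
    have h5 : 2 * br M1 K1 (t₀, (0 : ℂ) ^ 2) - a (t₀, 0) = 0 := by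
      by_contra hne
      have h6 := hc.eventually_ne hne
      have h7 : ∀ᶠ x in 𝓝 ((t₀, 0) : C2), x.2 = 0 := by
        filter_upwards [h6, h0] with x h8 h9
        exact (mul_eq_zero.1 h9).resolve_right h8
      have h8 : ∀ᶠ w : ℂ in 𝓝 (0 : ℂ), w = 0 := by
        have hc2 : Tendsto (fun w : ℂ => ((t₀, w) : C2)) (𝓝 0) (𝓝 (t₀, 0)) := by
          have : Continuous (fun w : ℂ => ((t₀, w) : C2)) := by fun_prop
          simpa using this.tendsto (0 : ℂ)
        exact hc2.eventually h7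
      have h9 : ∀ᶠ w : ℂ in 𝓝[≠] (0 : ℂ), False := by
        filter_upwards [h8.filter_mono nhdsWithin_le_nhds, self_mem_nhdsWithin] with w h1 h2
        exact h2 h1
      exact (inferInstance : (𝓝[≠] (0 : ℂ)).NeBot).ne (eventually_false_iff_eq_bot.1 h9)
    intro hz
    apply ha0
    have h6 : br M1 K1 (t₀, (0 : ℂ) ^ 2) = 0 := by simpa using hz
    rw [h6] at h5
    linear_combination -h5
  obtain ⟨ψ, hψa, hψ0, -, hψ⟩ := exists_inv hM1 hK1 hbr
  have e1 : M1 (t₀, 0) = M (t₀, 0) := by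
    have := hM1e.self_of_nhds
    simpa using this.symm
  have e2 : K1 (t₀, 0) = K (t₀, 0) := by
    have := hK1e.self_of_nhds
    simpa using this.symm
  rw [e1, e2] at hψa hψ0
  refine ⟨ψ, hψa, hψ0, ?_⟩
  filter_upwards [hM1e, hK1e, (tendsto_sq t₀).eventually hψ] with x h1 h2 h3
  rw [h1, h2]
  exact h3

theorem blockCHART : BlockCHART := by
  intro g M K β t₀ ρ hF
  have hmem : ((t₀, 0) : C2) ∈ ball ((t₀, 0) : C2) ρ := mem_ball_self hF.ρ_pos
  have hnh : ball ((t₀, 0) : C2) ρ ∈ 𝓝 ((t₀, 0) : C2) := ball_mem_nhds _ hF.ρ_pos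
  have htang : M (t₀, 0) = deriv g (β (t₀, 0)) := hF.tang t₀ (mem_ball_self hF.ρ_pos)
  have hinc : g (β (t₀, 0)) = M (t₀, 0) * β (t₀, 0) + K (t₀, 0) := by
    have := hF.inc t₀ 0 hmem (by simpa using hF.ρ_pos)
    simpa using this
  obtain ⟨a, haan, ha⟩ := hF.jac
  have hMe : ∀ᶠ x in 𝓝 ((t₀, 0) : C2), M (x.1, -x.2) = M x := by
    filter_upwards [hnh] with x hx using hF.M_even x.1 x.2 hx
  have hKe : ∀ᶠ x in 𝓝 ((t₀, 0) : C2), K (x.1, -x.2) = K x := by
    filter_upwards [hnh] with x hx using hF.K_even x.1 x.2 hx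
  have hj : ∀ᶠ x in 𝓝 ((t₀, 0) : C2), br M K x = x.2 * a x := by
    filter_upwards [hnh] with x hx using (ha x hx).2
  obtain ⟨Θ, hΘa, hΘ0, hΘ⟩ := chart_sq (hF.M_an _ hmem) (hF.K_an _ hmem) hMe hKe
    (haan _ hmem).continuousAt (ha _ hmem).1 hj
  refine ⟨?_, ?_, ?_⟩
  · unfold tl
    rw [← htang]
    refine Prod.ext rfl ?_
    show g (β (t₀, 0)) - M (t₀, 0) * β (t₀, 0) = K (t₀, 0)
    rw [hinc]; ring
  · intro U hU hUe
    obtain ⟨U1, hU1, hU1e⟩ := even_desc hU hUe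
    refine ⟨fun l => U1 (Θ l), ?_, ?_⟩
    · have h1 : AnalyticAt ℂ U1 (Θ (M (t₀, 0), K (t₀, 0))) := by rw [hΘ0]; exact hU1
      exact AnalyticAt.comp (g := U1) (f := Θ) h1 hΘa
    · filter_upwards [hU1e, hΘ] with x h1 h2
      rw [h1, h2]
  · intro q hq hq2
    refine exists_inv (hF.M_an q hq) (hF.K_an q hq) ?_
    rw [(ha q hq).2]
    exact mul_ne_zero hq2 (ha q hq).1

end Crest.Agent.R102.Chart348
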