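import Mathlib
import Crest.Agent.R102.H3Defs_337

/-!
Row 102, [H3], leaf DEF (helper289): deformation of a two-dimensional orbit inside its Zariski
closure, from the local holomorphic flow.
-/

set_option autoImplicit false

noncomputable section

open Filter Topology Set Metric

namespace Crest.Agent.R102.H3

namespace DEF289

/-- uniqueness lemma: an analytic `u` with `u z₀ = 0`, `‖u'‖ ≤ K ‖u‖` near `z₀` vanishes near `z₀` -/
theorem uq {E : Type*} [NormedAddCommGroup E] [NormedSpace ℂ E] [CompleteSpace E] {u : ℂ → E}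
    {z₀ : ℂ}
    (hu : AnalyticAt ℂ u z₀) (h0 : u z₀ = 0) {K : ℝ}
    (hK : ∀ᶠ b in 𝓝 z₀, ‖deriv u b‖ ≤ K * ‖u b‖) : ∀ᶠ b in 𝓝 z₀, u b = 0 := by
  by_contra h
  obtain ⟨n, g, hg, hg0, hug⟩ := (hu.exists_eventuallyEq_pow_smul_nonzero_iff).2 h
  have hn : n ≠ 0 := by
    rintro rfl
    have h1 := hug.self_of_nhds
    simp only [pow_zero, one_smul] at h1
    exact hg0 (h1 ▸ h0)
  obtain ⟨k, rfl⟩ := Nat.exists_eq_succ_of_ne_zero hn
  have hd : deriv u =ᶠ[𝓝 z₀] deriv (fun z => (z - z₀) ^ (k + 1) • g z) :=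
    Filter.EventuallyEq.deriv hug
  have hga : ∀ᶠ z in 𝓝 z₀, DifferentiableAt ℂ g z :=
    hg.eventually_analyticAt.mono (fun z hz => hz.differentiableAt)
  have hder : ∀ᶠ z in 𝓝 z₀, deriv (fun z => (z - z₀) ^ (k + 1) • g z) z =
      (z - z₀) ^ k • (((k : ℂ) + 1) • g z + (z - z₀) • deriv g z) := by
    filter_upwards [hga] with z hz
    have h1 : HasDerivAt (fun z : ℂ => (z - z₀) ^ (k + 1)) (((k : ℂ) + 1) * (z - z₀) ^ k) z := by
      have := ((hasDerivAt_id z).sub_const z₀).fun_pow (k + 1)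
      simpa using this
    rw [(h1.fun_smul hz.hasDerivAt).deriv, smul_add, smul_smul, smul_smul, ← pow_succ, add_comm]
    congr 2
    ring
  have key : ∀ᶠ z in 𝓝[≠] z₀,
      ‖((k : ℂ) + 1) • g z + (z - z₀) • deriv g z‖ ≤ K * (‖z - z₀‖ * ‖g z‖) := by
    have h1 : ∀ᶠ z in 𝓝[≠] z₀, z ≠ z₀ := self_mem_nhdsWithin
    filter_upwards [h1, hd.filter_mono nhdsWithin_le_nhds, hder.filter_mono nhdsWithin_le_nhds,
      hK.filter_mono nhdsWithin_le_nhds, hug.filter_mono nhdsWithin_le_nhds] with z hz a1 a2 a3 a4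
    rw [a1, a2, a4, norm_smul, norm_smul, norm_pow, norm_pow, pow_succ] at a3
    have hpos : 0 < ‖z - z₀‖ ^ k := pow_pos (norm_pos_iff.2 (sub_ne_zero.2 hz)) k
    have : ‖z - z₀‖ ^ k * ‖((k : ℂ) + 1) • g z + (z - z₀) • deriv g z‖ ≤
        ‖z - z₀‖ ^ k * (K * (‖z - z₀‖ * ‖g z‖)) := by
      calc _ ≤ _ := a3
        _ = _ := by ring
    exact le_of_mul_le_mul_left this hpos
  have c1 : ContinuousAt (fun z => ‖((k : ℂ) + 1) • g z + (z - z₀) • deriv g z‖) z₀ := by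
    have : ContinuousAt (deriv g) z₀ := hg.deriv.continuousAt
    have h2 : ContinuousAt g z₀ := hg.continuousAt
    fun_prop
  have c2 : ContinuousAt (fun z => K * (‖z - z₀‖ * ‖g z‖)) z₀ := by
    have h2 : ContinuousAt g z₀ := hg.continuousAt
    fun_prop
  have hfin := le_of_tendsto_of_tendsto (c1.tendsto.mono_left nhdsWithin_le_nhds)
    (c2.tendsto.mono_left nhdsWithin_le_nhds) key
  simp only [sub_self, zero_smul, add_zero, norm_zero, zero_mul, mul_zero] at hfin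
  have h3 : ((k : ℂ) + 1) • g z₀ = 0 := norm_le_zero_iff.1 hfin
  rcases smul_eq_zero.1 h3 with h4 | h4
  · exact (Nat.cast_add_one_ne_zero k) h4
  · exact hg0 h4

theorem uq_ball {E : Type*} [NormedAddCommGroup E] [NormedSpace ℂ E] [CompleteSpace E] {u : ℂ → E}
    {z₀ : ℂ} {r : ℝ} (hr : 0 < r)
    (hu : AnalyticOnNhd ℂ u (ball z₀ r)) (h0 : u z₀ = 0) {K : ℝ}
    (hK : ∀ᶠ b in 𝓝 z₀, ‖deriv u b‖ ≤ K * ‖u b‖) : ∀ b ∈ ball z₀ r, u b = 0 := by
  have h1 := uq (hu z₀ (mem_ball_self hr)) h0 hK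
  exact hu.eqOn_zero_of_preconnected_of_eventuallyEq_zero (convex_ball z₀ r).isPreconnected
    (mem_ball_self hr) h1

variable {n : ℕ}

theorem mkD_sum (V : Fin n → MvPolynomial (Fin n) ℂ) (E : MvPolynomial (Fin n) ℂ) :
    MvPolynomial.mkDerivation ℂ V E = ∑ j, MvPolynomial.pderiv j E * V j := by
  induction E using MvPolynomial.induction_on with
  | C a => simp
  | add p q hp hq => simp [hp, hq, add_mul, Finset.sum_add_distrib]
  | mul_X p i hp =>
    simp only [Derivation.leibniz, hp, MvPolynomial.mkDerivation_X, smul_eq_mul,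
      MvPolynomial.pderiv_X, add_mul, Finset.sum_add_distrib, Finset.mul_sum]
    congr 1
    · rw [Finset.sum_eq_single i]
      · simp
      · intro j _ hj
        simp [hj.symm]
      · simp
    · refine Finset.sum_congr rfl fun j _ => by ring

theorem fderiv_eval {F : Type*} [NormedAddCommGroup F] [NormedSpace ℂ F] (Z : F → (Fin n → ℂ))
    (x v : F) (hZ : ∀ j, DifferentiableAt ℂ (fun x => Z x j) x) (E : MvPolynomial (Fin n) ℂ) :
    DifferentiableAt ℂ (fun x => MvPolynomial.eval (Z x) E) x ∧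
    fderiv ℂ (fun x => MvPolynomial.eval (Z x) E) x v =
      ∑ j, MvPolynomial.eval (Z x) (MvPolynomial.pderiv j E) * fderiv ℂ (fun x => Z x j) x v := by
  induction E using MvPolynomial.induction_on with
  | C a => simp
  | add p q hp hq =>
    simp only [map_add]
    refine ⟨hp.1.add hq.1, ?_⟩
    rw [fderiv_fun_add hp.1 hq.1]
    simp [hp.2, hq.2, add_mul, Finset.sum_add_distrib]
  | mul_X p i hp =>
    simp only [map_mul, MvPolynomial.eval_X, Derivation.leibniz, smul_eq_mul, map_add,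
      MvPolynomial.pderiv_X]
    refine ⟨hp.1.mul (hZ i), ?_⟩
    rw [fderiv_fun_mul hp.1 (hZ i)]
    simp only [add_apply, smul_apply, smul_eq_mul, hp.2,
      add_mul, Finset.sum_add_distrib, Finset.mul_sum]
    congr 1
    · rw [Finset.sum_eq_single i]
      · simp
      · intro j _ hj
        simp [hj.symm]
      · simp
    · refine Finset.sum_congr rfl fun j _ => by ring

theorem fderiv_eval' {F : Type*} [NormedAddCommGroup F] [NormedSpace ℂ F] (Z : F → (Fin n → ℂ))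
    (x v : F) (hZ : ∀ j, DifferentiableAt ℂ (fun x => Z x j) x) (V : Fin n → MvPolynomial (Fin n) ℂ)
    (hV : ∀ j, fderiv ℂ (fun x => Z x j) x v = MvPolynomial.eval (Z x) (V j))
    (E : MvPolynomial (Fin n) ℂ) :
    fderiv ℂ (fun x => MvPolynomial.eval (Z x) E) x v =
      MvPolynomial.eval (Z x) (MvPolynomial.mkDerivation ℂ V E) := by
  rw [(fderiv_eval Z x v hZ E).2, mkD_sum, map_sum]
  simp [hV]

theorem analyticAt_eval {F : Type*} [NormedAddCommGroup F] [NormedSpace ℂ F] (Z : F → (Fin n → ℂ))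
    (x : F) (hZ : AnalyticAt ℂ Z x) (E : MvPolynomial (Fin n) ℂ) :
    AnalyticAt ℂ (fun x => MvPolynomial.eval (Z x) E) x := by
  have h1 : ∀ i, AnalyticAt ℂ (fun x => Z x i) x := fun i => analyticAt_pi_iff.1 hZ i
  induction E using MvPolynomial.induction_on with
  | C a => simpa using analyticAt_const
  | add p q hp hq => simp only [map_add]; exact hp.fun_add hq
  | mul_X p i hp => simp only [map_mul, MvPolynomial.eval_X]; exact hp.fun_mul (h1 i)

/-- the polynomial vector field -/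
def vf (V : Fin n → MvPolynomial (Fin n) ℂ) (y : Fin n → ℂ) : Fin n → ℂ :=
  fun i => MvPolynomial.eval y (V i)

theorem analyticAt_vf (V : Fin n → MvPolynomial (Fin n) ℂ) (y : Fin n → ℂ) :
    AnalyticAt ℂ (vf V) y := by
  refine analyticAt_pi_iff.2 fun i => ?_
  exact analyticAt_eval (fun y : Fin n → ℂ => y) y analyticAt_id (V i)

/-- a solution of a linear system `u' = M u`, `u z₀ = 0`, vanishes -/
theorem lin_uq {ι : Type*} [Fintype ι] (u : ℂ → (ι → ℂ)) (M : ι → ι → ℂ → ℂ) {z₀ : ℂ} {r : ℝ}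
    (hr : 0 < r) (hM : ∀ i j, ContinuousAt (M i j) z₀) (hu : AnalyticOnNhd ℂ u (ball z₀ r))
    (h0 : u z₀ = 0) (hd : ∀ s ∈ ball z₀ r, ∀ i, deriv (fun s => u s i) s = ∑ j, M i j s * u s j) :
    ∀ s ∈ ball z₀ r, u s = 0 := by
  have hud : ∀ s ∈ ball z₀ r, ∀ i, deriv u s i = ∑ j, M i j s * u s j := by
    intro s hs i
    have h2 := (hu s hs).differentiableAt.hasDerivAt
    rw [← hd s hs i]
    exact (((hasDerivAt_pi.1 h2) i).deriv).symm
  refine uq_ball (K := ∑ i, ∑ j, (‖M i j z₀‖ + 1)) hr hu h0 ?_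
  have hb : ∀ i j, ∀ᶠ b in 𝓝 z₀, ‖M i j b‖ ≤ ‖M i j z₀‖ + 1 := by
    intro i j
    have h1 : ContinuousAt (fun b => ‖M i j b‖) z₀ := (hM i j).norm
    exact (h1.eventually_lt continuousAt_const (by simp)).mono fun b hb => hb.le
  have hb' : ∀ᶠ b in 𝓝 z₀, ∀ i j, ‖M i j b‖ ≤ ‖M i j z₀‖ + 1 :=
    Filter.eventually_all.2 fun i => Filter.eventually_all.2 fun j => hb i j
  filter_upwards [hb', ball_mem_nhds z₀ hr] with b h1 h2
  rw [pi_norm_le_iff_of_nonneg (by positivity)]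
  intro i
  rw [hud b h2 i]
  calc ‖∑ j, M i j b * u b j‖
      ≤ ∑ j, ‖M i j b * u b j‖ := norm_sum_le _ _
    _ ≤ ∑ j, (‖M i j z₀‖ + 1) * ‖u b‖ := by
        refine Finset.sum_le_sum fun j _ => ?_
        rw [norm_mul]
        exact mul_le_mul (h1 i j) (norm_le_pi_norm (u b) j) (norm_nonneg _) (by positivity)
    _ = (∑ j, (‖M i j z₀‖ + 1)) * ‖u b‖ := by rw [Finset.sum_mul]
    _ ≤ _ := by
        refine mul_le_mul_of_nonneg_right ?_ (norm_nonneg _)
        exact Finset.single_le_sum (f := fun i => ∑ j, (‖M i j z₀‖ + 1))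
          (fun i _ => by positivity) (Finset.mem_univ i)

/-- a flow line of a vector field preserving an ideal stays in the variety of the ideal -/
theorem flow_var (I : Ideal (MvPolynomial (Fin n) ℂ)) (V : Fin n → MvPolynomial (Fin n) ℂ)
    (hI : ∀ E ∈ I, MvPolynomial.mkDerivation ℂ V E ∈ I) (c : ℂ → (Fin n → ℂ)) {z₀ : ℂ} {r : ℝ}
    (hr : 0 < r) (hc : AnalyticOnNhd ℂ c (ball z₀ r))
    (hd : ∀ s ∈ ball z₀ r, HasDerivAt c (vf V (c s)) s)
    (h0 : ∀ E ∈ I, MvPolynomial.eval (c z₀) E = 0) :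
    ∀ s ∈ ball z₀ r, ∀ E ∈ I, MvPolynomial.eval (c s) E = 0 := by
  obtain ⟨S, hS⟩ : I.FG := IsNoetherian.noetherian I
  have hSI : ∀ E : S, (E : MvPolynomial (Fin n) ℂ) ∈ I := fun E => hS ▸ Submodule.subset_span E.2
  have hA : ∀ E : S, ∃ a : S → MvPolynomial (Fin n) ℂ,
      MvPolynomial.mkDerivation ℂ V (E : MvPolynomial (Fin n) ℂ) = ∑ j : S, a j * j := by
    intro E
    have h1 := hI _ (hSI E)
    rw [← hS] at h1
    obtain ⟨a, -, ha⟩ := Submodule.mem_span_finset.1 h1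
    refine ⟨fun j => a j, ?_⟩
    rw [← ha, ← Finset.sum_coe_sort]
    simp
  choose a ha using hA
  let u : ℂ → (S → ℂ) := fun s E => MvPolynomial.eval (c s) (E : MvPolynomial (Fin n) ℂ)
  have hu : AnalyticOnNhd ℂ u (ball z₀ r) := fun s hs =>
    analyticAt_pi_iff.2 fun E => analyticAt_eval c s (hc s hs) _
  have hz := lin_uq u (fun E j s => MvPolynomial.eval (c s) (a E j)) hr
    (fun E j => (analyticAt_eval c z₀ (hc z₀ (mem_ball_self hr)) (a E j)).continuousAt) hu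
    (by funext E; exact h0 _ (hSI E)) (by
      intro s hs E
      have h3 : deriv (fun s => u s E) s =
          fderiv ℂ (fun s => MvPolynomial.eval (c s) (E : MvPolynomial (Fin n) ℂ)) s 1 := by
        rw [fderiv_apply_one_eq_deriv]
      have hcj : ∀ j, HasDerivAt (fun x => c x j) (vf V (c s) j) s :=
        fun j => (hasDerivAt_pi.1 (hd s hs)) j
      rw [h3, fderiv_eval' c s 1 (fun j => (hcj j).differentiableAt) V
        (fun j => by rw [fderiv_apply_one_eq_deriv, (hcj j).deriv]; rfl), ha E, map_sum]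
      simp [u])
  intro s hs E hE
  have h1 : I ≤ RingHom.ker (MvPolynomial.eval (c s)) := by
    rw [← hS, Ideal.span_le]
    intro E hE
    exact congrFun (hz s hs) ⟨E, hE⟩
  exact h1 hE

/-- symmetry of second derivatives, for directional derivatives -/
theorem fderiv_comm {F : Type*} [NormedAddCommGroup F] [NormedSpace ℂ F] (f : F → ℂ) (x v w : F)
    (hf : AnalyticAt ℂ f x) :
    fderiv ℂ (fun x => fderiv ℂ f x v) x w = fderiv ℂ (fun x => fderiv ℂ f x w) x v := by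
  have h1 : DifferentiableAt ℂ (fderiv ℂ f) x := hf.fderiv.differentiableAt
  have h2 : IsSymmSndFDerivAt ℂ f x := hf.contDiffAt.isSymmSndFDerivAt_of_omega
  have e1 : ∀ v w : F, fderiv ℂ (fun x => fderiv ℂ f x v) x w = fderiv ℂ (fderiv ℂ f) x w v := by
    intro v w
    have h3 : HasFDerivAt (fun x => fderiv ℂ f x v)
        ((ContinuousLinearMap.apply ℂ ℂ v).comp (fderiv ℂ (fderiv ℂ f) x)) x :=
      (ContinuousLinearMap.apply ℂ ℂ v).hasFDerivAt.comp x h1.hasFDerivAt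
    rw [h3.fderiv]
    rfl
  rw [e1, e1]
  exact h2 w v

/-- Lipschitz form of the uniqueness lemma: two solutions of `y' = V y` agree -/
theorem ode_uq (V : Fin n → MvPolynomial (Fin n) ℂ) (c₁ c₂ : ℂ → (Fin n → ℂ)) {z₀ : ℂ} {r : ℝ}
    (hr : 0 < r) (h₁ : AnalyticOnNhd ℂ c₁ (ball z₀ r)) (h₂ : AnalyticOnNhd ℂ c₂ (ball z₀ r))
    (hd₁ : ∀ s ∈ ball z₀ r, HasDerivAt c₁ (vf V (c₁ s)) s)
    (hd₂ : ∀ s ∈ ball z₀ r, HasDerivAt c₂ (vf V (c₂ s)) s) (h0 : c₁ z₀ = c₂ z₀) :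
    ∀ s ∈ ball z₀ r, c₁ s = c₂ s := by
  have hz := mem_ball_self (x := z₀) hr
  obtain ⟨K, s, hs, hK⟩ := ((analyticAt_vf V (c₁ z₀)).contDiffAt (n := 1)).exists_lipschitzOnWith
  have hu : AnalyticOnNhd ℂ (fun s => c₁ s - c₂ s) (ball z₀ r) := fun s hs =>
    (h₁ s hs).fun_sub (h₂ s hs)
  have h1 : ∀ᶠ b in 𝓝 z₀, c₁ b ∈ s := (h₁ z₀ hz).continuousAt.eventually_mem hs
  have h2 : ∀ᶠ b in 𝓝 z₀, c₂ b ∈ s := (h₂ z₀ hz).continuousAt.eventually_mem (h0 ▸ hs)
  have h3 := uq_ball (K := K) hr hu (by simp [h0]) (by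
    filter_upwards [h1, h2, ball_mem_nhds z₀ hr] with b a1 a2 a3
    rw [((hd₁ b a3).fun_sub (hd₂ b a3)).deriv]
    exact hK.norm_sub_le a1 a2)
  intro s hs
  exact sub_eq_zero.1 (h3 s hs)

theorem line1 {E : Type*} [NormedAddCommGroup E] [NormedSpace ℂ E] (f : C3 → E) (x : C3)
    (hf : DifferentiableAt ℂ f x) :
    HasDerivAt (fun t => f ((t, x.1.2), x.2)) (fderiv ℂ f x ((1, 0), 0)) x.1.1 := by
  have h1 : HasDerivAt (fun t : ℂ => (((t, x.1.2), x.2) : C3)) ((1, 0), 0) x.1.1 :=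
    ((hasDerivAt_id x.1.1).prodMk (hasDerivAt_const _ _)).prodMk (hasDerivAt_const _ _)
  exact HasFDerivAt.comp_hasDerivAt x.1.1 (f := fun t : ℂ => (((t, x.1.2), x.2) : C3))
    hf.hasFDerivAt h1

theorem line2 {E : Type*} [NormedAddCommGroup E] [NormedSpace ℂ E] (f : C3 → E) (x : C3)
    (hf : DifferentiableAt ℂ f x) :
    HasDerivAt (fun t => f ((x.1.1, t), x.2)) (fderiv ℂ f x ((0, 1), 0)) x.1.2 := by
  have h1 : HasDerivAt (fun t : ℂ => (((x.1.1, t), x.2) : C3)) ((0, 1), 0) x.1.2 :=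
    ((hasDerivAt_const _ _).prodMk (hasDerivAt_id x.1.2)).prodMk (hasDerivAt_const _ _)
  exact HasFDerivAt.comp_hasDerivAt x.1.2 (f := fun t : ℂ => (((x.1.1, t), x.2) : C3))
    hf.hasFDerivAt h1

theorem line3 {E : Type*} [NormedAddCommGroup E] [NormedSpace ℂ E] (f : C3 → E) (x : C3)
    (hf : DifferentiableAt ℂ f x) :
    HasDerivAt (fun t => f (x.1, t)) (fderiv ℂ f x (0, 1)) x.2 := by
  have h1 : HasDerivAt (fun t : ℂ => ((x.1, t) : C3)) (0, 1) x.2 :=
    (hasDerivAt_const _ _).prodMk (hasDerivAt_id x.2)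
  exact HasFDerivAt.comp_hasDerivAt x.2 (f := fun t : ℂ => ((x.1, t) : C3))
    hf.hasFDerivAt h1

theorem line1' {E : Type*} [NormedAddCommGroup E] [NormedSpace ℂ E] (f : C2 → E) (x : C2)
    (hf : DifferentiableAt ℂ f x) :
    HasDerivAt (fun t => f (t, x.2)) (fderiv ℂ f x (1, 0)) x.1 := by
  have h1 : HasDerivAt (fun t : ℂ => ((t, x.2) : C2)) (1, 0) x.1 :=
    (hasDerivAt_id x.1).prodMk (hasDerivAt_const _ _)
  exact HasFDerivAt.comp_hasDerivAt x.1 (f := fun t : ℂ => ((t, x.2) : C2))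
    hf.hasFDerivAt h1

theorem line2' {E : Type*} [NormedAddCommGroup E] [NormedSpace ℂ E] (f : C2 → E) (x : C2)
    (hf : DifferentiableAt ℂ f x) :
    HasDerivAt (fun t => f (x.1, t)) (fderiv ℂ f x (0, 1)) x.2 := by
  have h1 : HasDerivAt (fun t : ℂ => ((x.1, t) : C2)) (0, 1) x.2 :=
    (hasDerivAt_const _ _).prodMk (hasDerivAt_id x.2)
  exact HasFDerivAt.comp_hasDerivAt x.2 (f := fun t : ℂ => ((x.1, t) : C2))
    hf.hasFDerivAt h1

end DEF289

open DEF289 in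
/-- **leaf DEF** -/
theorem leafDEF (h : LeafODE) : LeafDEF := by
  intro n p Y V1 V2 R hY hV hR
  obtain ⟨δ0, hδ0, Φ0, hΦ0, hI0, hD0⟩ := h n (vf R) (Y p) (analyticAt_vf R _)
  obtain ⟨δ1, hδ1, Φ1, hΦ1, hI1, hD1⟩ := h n (vf V1) (Y p) (analyticAt_vf V1 _)
  obtain ⟨δ2, hδ2, Φ2, hΦ2, hI2, hD2⟩ := h n (vf V2) (Y p) (analyticAt_vf V2 _)
  have b0 : Φ0 (0, Y p) = Y p := hI0 _ (mem_ball_self hδ0)
  have b1 : Φ1 (0, Y p) = Y p := hI1 _ (mem_ball_self hδ1)
  have b2 : Φ2 (0, Y p) = Y p := hI2 _ (mem_ball_self hδ2)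
  let A0 : C3 → ℂ × (Fin n → ℂ) := fun x => (x.2, Y p)
  let A1 : C3 → ℂ × (Fin n → ℂ) := fun x => (x.1.1 - p.1, Φ0 (A0 x))
  let A2 : C3 → ℂ × (Fin n → ℂ) := fun x => (x.1.2 - p.2, Φ1 (A1 x))
  let Z : C3 → Fin n → ℂ := fun x => Φ2 (A2 x)
  have a0 : A0 (p, 0) = (0, Y p) := rfl
  have a1 : A1 (p, 0) = (0, Y p) := by simp [A1, a0, b0]
  have a2 : A2 (p, 0) = (0, Y p) := by simp [A2, a1, b1]
  have aZ : Z (p, 0) = Y p := by simp [Z, a2, b2]
  have an0 : ∀ x, AnalyticAt ℂ A0 x := fun x => analyticAt_snd.prod analyticAt_const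
  have an1 : ∀ x, A0 x ∈ ball ((0 : ℂ), Y p) δ0 → AnalyticAt ℂ A1 x := fun x hx =>
    ((analyticAt_fst.fun_comp analyticAt_fst).fun_sub analyticAt_const).prod
      ((hΦ0 _ hx).fun_comp (an0 x))
  have an2 : ∀ x, A0 x ∈ ball ((0 : ℂ), Y p) δ0 → A1 x ∈ ball ((0 : ℂ), Y p) δ1 →
      AnalyticAt ℂ A2 x := fun x hx hx' =>
    ((analyticAt_snd.fun_comp analyticAt_fst).fun_sub analyticAt_const).prod
      ((hΦ1 _ hx').fun_comp (an1 x hx))
  have e0 : ∀ᶠ x in 𝓝 ((p, 0) : C3), A0 x ∈ ball ((0 : ℂ), Y p) δ0 :=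
    (an0 (p, 0)).continuousAt.eventually_mem (a0 ▸ ball_mem_nhds _ hδ0)
  have m0 : A0 (p, 0) ∈ ball ((0 : ℂ), Y p) δ0 := a0 ▸ mem_ball_self hδ0
  have m1 : A1 (p, 0) ∈ ball ((0 : ℂ), Y p) δ1 := a1 ▸ mem_ball_self hδ1
  have e1 : ∀ᶠ x in 𝓝 ((p, 0) : C3), A1 x ∈ ball ((0 : ℂ), Y p) δ1 :=
    (an1 (p, 0) m0).continuousAt.eventually_mem (by rw [a1]; exact ball_mem_nhds _ hδ1)
  have e2 : ∀ᶠ x in 𝓝 ((p, 0) : C3), A2 x ∈ ball ((0 : ℂ), Y p) δ2 :=
    (an2 (p, 0) m0 m1).continuousAt.eventually_mem (by rw [a2]; exact ball_mem_nhds _ hδ2)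
  have e3 : ∀ᶠ x in 𝓝 ((p, 0) : C3), AnalyticAt ℂ Y x.1 ∧
      ∀ i, d1 (fun x => Y x i) x.1 = MvPolynomial.eval (Y x.1) (V1 i) ∧
      d2 (fun x => Y x i) x.1 = MvPolynomial.eval (Y x.1) (V2 i) :=
    (continuousAt_fst (p := ((p, 0) : C3))).tendsto.eventually (hY.eventually_analyticAt.and hV)
  obtain ⟨r, hr, hball⟩ := Metric.eventually_nhds_iff_ball.1 (e0.and (e1.and (e2.and e3)))
  have mem3 : ∀ x : C3, x ∈ ball ((p, 0) : C3) r ↔
      x.1.1 ∈ ball p.1 r ∧ x.1.2 ∈ ball p.2 r ∧ x.2 ∈ ball (0 : ℂ) r := by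
    intro x
    simp [mem_ball, Prod.dist_eq, and_assoc]
  have hc1 : p.1 ∈ ball p.1 r := mem_ball_self hr
  have hc2 : p.2 ∈ ball p.2 r := mem_ball_self hr
  have hc0 : (0 : ℂ) ∈ ball (0 : ℂ) r := mem_ball_self hr
  have anZ : ∀ x ∈ ball ((p, 0) : C3) r, AnalyticAt ℂ Z x := fun x hx =>
    (hΦ2 _ (hball x hx).2.2.1).fun_comp (an2 x (hball x hx).1 (hball x hx).2.1)
  have anZi : ∀ x ∈ ball ((p, 0) : C3) r, ∀ i, AnalyticAt ℂ (fun x => Z x i) x :=
    fun x hx i => analyticAt_pi_iff.1 (anZ x hx) i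
  -- the ideal
  let I : Ideal (MvPolynomial (Fin n) ℂ) :=
    { carrier := {E | ∀ᶠ x in 𝓝 p, MvPolynomial.eval (Y x) E = 0}
      add_mem' := by
        intro a b ha hb
        filter_upwards [ha, hb] with x h1 h2
        simp [h1, h2]
      zero_mem' := by simp
      smul_mem' := by
        intro c a ha
        filter_upwards [ha] with x h1
        simp [h1] }
  have key : ∀ (V : Fin n → MvPolynomial (Fin n) ℂ) (v : C2),
      (∀ᶠ x in 𝓝 p, ∀ i, fderiv ℂ (fun x => Y x i) x v = MvPolynomial.eval (Y x) (V i)) →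
      ∀ E ∈ I, MvPolynomial.mkDerivation ℂ V E ∈ I := by
    intro V v hVv E hE
    have hE' : ∀ᶠ x in 𝓝 p, MvPolynomial.eval (Y x) E = 0 := hE
    show ∀ᶠ x in 𝓝 p, MvPolynomial.eval (Y x) (MvPolynomial.mkDerivation ℂ V E) = 0
    filter_upwards [hE'.eventually_nhds, hVv, hY.eventually_analyticAt] with x h1 h2 h3
    rw [← fderiv_eval' Y x v (fun j => (analyticAt_pi_iff.1 h3 j).differentiableAt) V h2 E]
    have h4 : (fun x => MvPolynomial.eval (Y x) E) =ᶠ[𝓝 x] fun _ => 0 := h1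
    rw [h4.fderiv_eq]
    simp
  have hI1' : ∀ E ∈ I, MvPolynomial.mkDerivation ℂ V1 E ∈ I :=
    key V1 (1, 0) (hV.mono fun x hx i => (hx i).1)
  have hI2' : ∀ E ∈ I, MvPolynomial.mkDerivation ℂ V2 E ∈ I :=
    key V2 (0, 1) (hV.mono fun x hx i => (hx i).2)
  have hI0' : ∀ E ∈ I, MvPolynomial.mkDerivation ℂ R E ∈ I := hR
  have hC : ∀ i, MvPolynomial.mkDerivation ℂ V1 (V2 i) - MvPolynomial.mkDerivation ℂ V2 (V1 i) ∈
      I := by
    intro i
    show ∀ᶠ x in 𝓝 p, MvPolynomial.eval (Y x) (MvPolynomial.mkDerivation ℂ V1 (V2 i) -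
      MvPolynomial.mkDerivation ℂ V2 (V1 i)) = 0
    filter_upwards [hV.eventually_nhds, hV, hY.eventually_analyticAt] with x h1 h2 h3
    have hd := fun j => (analyticAt_pi_iff.1 h3 j)
    rw [map_sub, ← fderiv_eval' Y x (1, 0) (fun j => (hd j).differentiableAt) V1
      (fun j => (h2 j).1), ← fderiv_eval' Y x (0, 1) (fun j => (hd j).differentiableAt) V2
      (fun j => (h2 j).2)]
    have e1 : (fun x => MvPolynomial.eval (Y x) (V2 i)) =ᶠ[𝓝 x]
        fun x => fderiv ℂ (fun x => Y x i) x (0, 1) := h1.mono fun y hy => ((hy i).2).symm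
    have e2 : (fun x => MvPolynomial.eval (Y x) (V1 i)) =ᶠ[𝓝 x]
        fun x => fderiv ℂ (fun x => Y x i) x (1, 0) := h1.mono fun y hy => ((hy i).1).symm
    rw [e1.fderiv_eq, e2.fderiv_eq, fderiv_comm (fun x => Y x i) x (0, 1) (1, 0) (hd i), sub_self]
  -- the three flow lines
  have v0 : ∀ e ∈ ball (0 : ℂ) r, ∀ E ∈ I, MvPolynomial.eval (Φ0 (e, Y p)) E = 0 := by
    have hm : ∀ s ∈ ball (0 : ℂ) r, ((s, Y p) : ℂ × (Fin n → ℂ)) ∈ ball ((0 : ℂ), Y p) δ0 :=
      fun s hs => (hball (p, s) ((mem3 _).2 ⟨hc1, hc2, hs⟩)).1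
    refine flow_var I R hI0' (fun s => Φ0 (s, Y p)) hr (fun s hs => ?_) (fun s hs => ?_) ?_
    · exact (hΦ0 _ (hm s hs)).fun_comp (f := fun s : ℂ => (s, Y p)) (analyticAt_id.prod analyticAt_const)
    · exact (hD0 (s, Y p) (hm s hs)).2
    · intro E hE
      rw [b0]
      exact (show ∀ᶠ x in 𝓝 p, MvPolynomial.eval (Y x) E = 0 from hE).self_of_nhds
  have v1 : ∀ a ∈ ball p.1 r, ∀ e ∈ ball (0 : ℂ) r, ∀ E ∈ I,
      MvPolynomial.eval (Φ1 (a - p.1, Φ0 (e, Y p))) E = 0 := by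
    intro a ha e he
    have hm : ∀ s ∈ ball p.1 r, ((s - p.1, Φ0 (e, Y p)) : ℂ × (Fin n → ℂ)) ∈
        ball ((0 : ℂ), Y p) δ1 :=
      fun s hs => (hball ((s, p.2), e) ((mem3 _).2 ⟨hs, hc2, he⟩)).2.1
    refine flow_var I V1 hI1' (fun s => Φ1 (s - p.1, Φ0 (e, Y p))) hr (fun s hs => ?_)
      (fun s hs => ?_) ?_ a ha
    · exact (hΦ1 _ (hm s hs)).fun_comp (f := fun s : ℂ => (s - p.1, Φ0 (e, Y p))) (by fun_prop)
    · exact HasDerivAt.comp_sub_const s p.1 (hD1 (s - p.1, Φ0 (e, Y p)) (hm s hs)).2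
    · intro E hE
      have h1 := hm p.1 hc1
      rw [sub_self] at h1 ⊢
      rw [hI1 _ (by simpa [mem_ball, Prod.dist_eq, hδ1] using h1)]
      exact v0 e he E hE
  have v2 : ∀ x ∈ ball ((p, 0) : C3) r, ∀ E ∈ I, MvPolynomial.eval (Z x) E = 0 := by
    intro x hx
    obtain ⟨h1, h2, h3⟩ := (mem3 x).1 hx
    have hm : ∀ s ∈ ball p.2 r, A2 ((x.1.1, s), x.2) ∈ ball ((0 : ℂ), Y p) δ2 :=
      fun s hs => (hball ((x.1.1, s), x.2) ((mem3 _).2 ⟨h1, hs, h3⟩)).2.2.1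
    refine flow_var I V2 hI2' (fun s => Z ((x.1.1, s), x.2)) hr (fun s hs => ?_)
      (fun s hs => ?_) ?_ x.1.2 h2
    · exact (hΦ2 _ (hm s hs)).fun_comp (f := fun s : ℂ => A2 ((x.1.1, s), x.2))
        (show AnalyticAt ℂ (fun s : ℂ => (s - p.2, Φ1 (x.1.1 - p.1, Φ0 (x.2, Y p)))) s by fun_prop)
    · exact HasDerivAt.comp_sub_const s p.2 (hD2 _ (hm s hs)).2
    · intro E hE
      have h4 := hm p.2 hc2
      simp only [A2, sub_self] at h4
      simp only [Z, A2, sub_self]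
      rw [hI2 _ (by simpa [mem_ball, Prod.dist_eq, hδ2] using h4)]
      exact v1 x.1.1 h1 x.2 h3 E hE
  -- ∂₂ Z = V2(Z)
  have D2 : ∀ x ∈ ball ((p, 0) : C3) r, ∀ i,
      fderiv ℂ (fun x => Z x i) x ((0, 1), 0) = MvPolynomial.eval (Z x) (V2 i) := by
    intro x hx i
    have h1 := line2 (fun x => Z x i) x (anZi x hx i).differentiableAt
    have h2 := HasDerivAt.comp_sub_const x.1.2 p.2 (hD2 _ (hball x hx).2.2.1).2
    exact h1.unique ((hasDerivAt_pi.1 h2) i)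
  -- ∂₁ Z = V1(Z) at l₂ = p₂
  have Zp : ∀ a ∈ ball p.1 r, ∀ e ∈ ball (0 : ℂ) r,
      Z ((a, p.2), e) = Φ1 (a - p.1, Φ0 (e, Y p)) := by
    intro a ha e he
    have h4 := (hball ((a, p.2), e) ((mem3 _).2 ⟨ha, hc2, he⟩)).2.2.1
    simp only [A2, A1, A0, sub_self] at h4
    simp only [Z, A2, A1, A0, sub_self]
    exact hI2 _ (by simpa [mem_ball, Prod.dist_eq, hδ2] using h4)
  have D1p : ∀ a ∈ ball p.1 r, ∀ e ∈ ball (0 : ℂ) r, ∀ i,
      fderiv ℂ (fun x => Z x i) ((a, p.2), e) ((1, 0), 0) =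
        MvPolynomial.eval (Z ((a, p.2), e)) (V1 i) := by
    intro a ha e he i
    have hx : ((a, p.2), e) ∈ ball ((p, 0) : C3) r := (mem3 _).2 ⟨ha, hc2, he⟩
    have h1 := line1 (fun x => Z x i) ((a, p.2), e) (anZi _ hx i).differentiableAt
    have h2 := HasDerivAt.comp_sub_const a p.1 (hD1 _ (hball _ hx).2.1).2
    have h3 := (hasDerivAt_pi.1 h2) i
    have h4 : (fun t => Z ((t, p.2), e) i) =ᶠ[𝓝 a]
        fun t => Φ1 (t - p.1, (A1 ((a, p.2), e)).2) i := by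
      filter_upwards [isOpen_ball.mem_nhds ha] with t ht
      rw [Zp t ht e he]
    have h5 := h1.unique (h3.congr_of_eventuallyEq h4)
    rw [h5, Zp a ha e he]
    rfl
  -- ∂₁ Z = V1(Z)
  have D1 : ∀ x ∈ ball ((p, 0) : C3) r, ∀ i,
      fderiv ℂ (fun x => Z x i) x ((1, 0), 0) = MvPolynomial.eval (Z x) (V1 i) := by
    intro x hx
    obtain ⟨h1, h2, h3⟩ := (mem3 x).1 hx
    let U : Fin n → C3 → ℂ := fun i x =>
      fderiv ℂ (fun x => Z x i) x ((1, 0), 0) - MvPolynomial.eval (Z x) (V1 i)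
    have anU : ∀ i, ∀ x ∈ ball ((p, 0) : C3) r, AnalyticAt ℂ (U i) x := by
      intro i x hx
      refine AnalyticAt.fun_sub ?_ (analyticAt_eval Z x (anZ x hx) (V1 i))
      exact ((ContinuousLinearMap.apply ℂ ℂ (((1, 0), 0) : C3)).analyticAt _).fun_comp
        (anZi x hx i).fderiv
    have dU : ∀ i, ∀ x ∈ ball ((p, 0) : C3) r, fderiv ℂ (U i) x ((0, 1), 0) =
        ∑ j, MvPolynomial.eval (Z x) (MvPolynomial.pderiv j (V2 i)) * U j x := by
      intro i x hx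
      have hZd : ∀ j, DifferentiableAt ℂ (fun x => Z x j) x :=
        fun j => (anZi x hx j).differentiableAt
      have g1 : DifferentiableAt ℂ (fun x => fderiv ℂ (fun x => Z x i) x ((1, 0), 0)) x :=
        (((ContinuousLinearMap.apply ℂ ℂ (((1, 0), 0) : C3)).analyticAt _).fun_comp
          (anZi x hx i).fderiv).differentiableAt
      have g2 := (fderiv_eval Z x ((0, 1), 0) hZd (V1 i)).1
      have g3 : fderiv ℂ (U i) x ((0, 1), 0) =
          fderiv ℂ (fun x => fderiv ℂ (fun x => Z x i) x ((1, 0), 0)) x ((0, 1), 0) -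
          fderiv ℂ (fun x => MvPolynomial.eval (Z x) (V1 i)) x ((0, 1), 0) := by
        have : fderiv ℂ (U i) x = _ := fderiv_fun_sub g1 g2
        rw [this]
        rfl
      have g4 : (fun x => fderiv ℂ (fun x => Z x i) x ((0, 1), 0)) =ᶠ[𝓝 x]
          fun x => MvPolynomial.eval (Z x) (V2 i) := by
        filter_upwards [isOpen_ball.mem_nhds hx] with y hy
        exact D2 y hy i
      have g5 := v2 x hx _ (hC i)
      rw [map_sub, mkD_sum, mkD_sum, map_sum, map_sum] at g5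
      rw [g3, fderiv_comm _ x _ _ (anZi x hx i), g4.fderiv_eq,
        (fderiv_eval Z x ((1, 0), 0) hZd (V2 i)).2, (fderiv_eval Z x ((0, 1), 0) hZd (V1 i)).2]
      simp only [U, D2 x hx, mul_sub, Finset.sum_sub_distrib]
      simp only [map_mul] at g5
      linear_combination g5
    have hz := lin_uq (fun t i => U i ((x.1.1, t), x.2))
      (fun i j t => MvPolynomial.eval (Z ((x.1.1, t), x.2)) (MvPolynomial.pderiv j (V2 i))) hr
      (fun i j => by
        have hx0 : ((x.1.1, p.2), x.2) ∈ ball ((p, 0) : C3) r := (mem3 _).2 ⟨h1, hc2, h3⟩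
        have := (analyticAt_eval Z _ (anZ _ hx0) (MvPolynomial.pderiv j (V2 i))).fun_comp
          (f := fun t : ℂ => (((x.1.1, t), x.2) : C3)) (x := p.2) (by fun_prop)
        exact this.continuousAt)
      (fun t ht => analyticAt_pi_iff.2 fun i =>
        (anU i ((x.1.1, t), x.2) ((mem3 _).2 ⟨h1, ht, h3⟩)).fun_comp
          (f := fun t : ℂ => (((x.1.1, t), x.2) : C3)) (x := t) (by fun_prop))
      (by
        funext i
        exact sub_eq_zero.2 (D1p x.1.1 h1 x.2 h3 i))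
      (by
        intro t ht i
        have hx0 : ((x.1.1, t), x.2) ∈ ball ((p, 0) : C3) r := (mem3 _).2 ⟨h1, ht, h3⟩
        rw [(line2 (U i) ((x.1.1, t), x.2) (anU i _ hx0).differentiableAt).deriv]
        exact dU i _ hx0)
    intro i
    exact sub_eq_zero.1 (congrFun (hz x.1.2 h2) i)
  -- Z(l, 0) = Y(l)
  have Z0 : ∀ l : C2, l.1 ∈ ball p.1 r → l.2 ∈ ball p.2 r → Z (l, 0) = Y l := by
    have stepA : ∀ a ∈ ball p.1 r, Z ((a, p.2), 0) = Y (a, p.2) := by
      have hx : ∀ a ∈ ball p.1 r, ((a, p.2), (0 : ℂ)) ∈ ball ((p, 0) : C3) r :=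
        fun a ha => (mem3 _).2 ⟨ha, hc2, hc0⟩
      refine ode_uq V1 (fun t => Z ((t, p.2), 0)) (fun t => Y (t, p.2)) hr (fun a ha => ?_)
        (fun a ha => ?_) (fun a ha => ?_) (fun a ha => ?_) ?_
      · exact (anZ _ (hx a ha)).fun_comp (f := fun t : ℂ => (((t, p.2), 0) : C3)) (x := a)
          (by fun_prop)
      · exact (hball _ (hx a ha)).2.2.2.1.fun_comp (f := fun t : ℂ => ((t, p.2) : C2)) (x := a)
          (by fun_prop)
      · refine hasDerivAt_pi.2 fun i => ?_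
        have := line1 (fun x => Z x i) _ (anZi _ (hx a ha) i).differentiableAt
        rw [D1 _ (hx a ha) i] at this
        exact this
      · refine hasDerivAt_pi.2 fun i => ?_
        have h5 := (hball _ (hx a ha)).2.2.2
        have := line1' (fun x => Y x i) (a, p.2)
          (analyticAt_pi_iff.1 h5.1 i).differentiableAt
        rw [show fderiv ℂ (fun x => Y x i) (a, p.2) (1, 0) = _ from (h5.2 i).1] at this
        exact this
      · exact aZ
    intro l h1 h2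
    have hx : ∀ b ∈ ball p.2 r, ((l.1, b), (0 : ℂ)) ∈ ball ((p, 0) : C3) r :=
      fun b hb => (mem3 _).2 ⟨h1, hb, hc0⟩
    refine ode_uq V2 (fun t => Z ((l.1, t), 0)) (fun t => Y (l.1, t)) hr (fun a ha => ?_)
      (fun a ha => ?_) (fun a ha => ?_) (fun a ha => ?_) ?_ l.2 h2
    · exact (anZ _ (hx a ha)).fun_comp (f := fun t : ℂ => (((l.1, t), 0) : C3)) (x := a)
        (by fun_prop)
    · exact (hball _ (hx a ha)).2.2.2.1.fun_comp (f := fun t : ℂ => ((l.1, t) : C2)) (x := a)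
        (by fun_prop)
    · refine hasDerivAt_pi.2 fun i => ?_
      have := line2 (fun x => Z x i) _ (anZi _ (hx a ha) i).differentiableAt
      rw [D2 _ (hx a ha) i] at this
      exact this
    · refine hasDerivAt_pi.2 fun i => ?_
      have h5 := (hball _ (hx a ha)).2.2.2
      have := line2' (fun x => Y x i) (l.1, a)
        (analyticAt_pi_iff.1 h5.1 i).differentiableAt
      rw [show fderiv ℂ (fun x => Y x i) (l.1, a) (0, 1) = _ from (h5.2 i).2] at this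
      exact this
    · exact stepA l.1 h1
  refine ⟨Z, anZ _ (mem_ball_self hr), ?_, ?_, ?_, ?_⟩
  · have h1 : ∀ᶠ x in 𝓝 p, x.1 ∈ ball p.1 r :=
      continuousAt_fst.eventually_mem (ball_mem_nhds _ hr)
    have h2 : ∀ᶠ x in 𝓝 p, x.2 ∈ ball p.2 r :=
      continuousAt_snd.eventually_mem (ball_mem_nhds _ hr)
    filter_upwards [h1, h2] with l h3 h4
    exact Z0 l h3 h4
  · filter_upwards [ball_mem_nhds ((p, 0) : C3) hr] with x hx i
    exact ⟨D1 x hx i, D2 x hx i⟩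
  · intro i
    have hx : ((p, 0) : C3) ∈ ball ((p, 0) : C3) r := mem_ball_self hr
    have h1 := line3 (fun x => Z x i) (p, 0) (anZi _ hx i).differentiableAt
    have h2 := (hasDerivAt_pi.1 (hD0 (0, Y p) m0).2) i
    have h4 : (fun t => Z (p, t) i) =ᶠ[𝓝 0] fun t => Φ0 (t, Y p) i := by
      filter_upwards [ball_mem_nhds (0 : ℂ) hr] with t ht
      have h5 := (hball ((p.1, p.2), t) ((mem3 _).2 ⟨hc1, hc2, ht⟩)).2.1
      have h6 := Zp p.1 hc1 t ht
      simp only [A1, A0, sub_self] at h5 h6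
      rw [show ((p, t) : C3) = ((p.1, p.2), t) from rfl, h6,
        hI1 _ (by simpa [mem_ball, Prod.dist_eq, hδ1] using h5)]
    have h5 := h1.unique (h2.congr_of_eventuallyEq h4)
    rw [h5]
    show MvPolynomial.eval (Φ0 (0, Y p)) (R i) = _
    rw [b0]
  · intro E hE
    filter_upwards [ball_mem_nhds ((p, 0) : C3) hr] with x hx
    exact v2 x hx E hE

end Crest.Agent.R102.H3
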