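import Crest.Agent.R102.H3Defs2_337

/-!
# Row 102, [H3], Block DFIN (helper297)

A closed chain forces an algebraic differential equation for the mirror.
-/

set_option autoImplicit false

noncomputable section

open Filter Topology Set Metric

namespace Crest.Agent.R102.H3.DFIN297

/-! ### calculus in `C2` -/

theorem an_d1 {f : C2 → ℂ} {p : C2} (hf : AnalyticAt ℂ f p) : AnalyticAt ℂ (d1 f) p :=
  (ContinuousLinearMap.apply ℂ ℂ ((1, 0) : C2)).analyticAt _ |>.comp hf.fderiv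

theorem an_d2 {f : C2 → ℂ} {p : C2} (hf : AnalyticAt ℂ f p) : AnalyticAt ℂ (d2 f) p :=
  (ContinuousLinearMap.apply ℂ ℂ ((0, 1) : C2)).analyticAt _ |>.comp hf.fderiv

theorem an_iter {φ : ℂ → ℂ} {z : ℂ} (h : AnalyticAt ℂ φ z) (r : ℕ) :
    AnalyticAt ℂ (iteratedDeriv r φ) z := by
  rw [iteratedDeriv_eq_iterate]
  exact h.iterated_deriv r

theorem fderiv_comp' {φ : ℂ → ℂ} {b : C2 → ℂ} {x : C2} (hφ : AnalyticAt ℂ φ (b x))
    (hb : AnalyticAt ℂ b x) (v : C2) :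
    fderiv ℂ (fun x => φ (b x)) x v = deriv φ (b x) * fderiv ℂ b x v := by
  have h1 := hφ.differentiableAt.hasDerivAt.comp_hasFDerivAt x hb.differentiableAt.hasFDerivAt
  have h2 : fderiv ℂ (fun x => φ (b x)) x = deriv φ (b x) • fderiv ℂ b x := h1.fderiv
  rw [h2]
  rfl

/-! ### calculus in the germ field -/

section field

variable {p : C2} {Ω : Type} [Field Ω] [Algebra ℂ Ω] (G : GField p Ω)

theorem ι_congr {f h : C2 → ℂ} (hf : AnalyticAt ℂ f p) (hh : AnalyticAt ℂ h p)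
    (e : ∀ᶠ x in 𝓝 p, f x = h x) : G.ι f = G.ι h := by
  have h2 : AnalyticAt ℂ (fun x => f x - h x) p := hf.sub hh
  calc G.ι f = G.ι (fun x => h x + (f x - h x)) := by congr 1; funext x; ring
    _ = G.ι h + G.ι (fun x => f x - h x) := G.add _ _ hh h2
    _ = G.ι h := by
      rw [(G.zero_iff _ h2).2 (e.mono fun x hx => by rw [hx, sub_self]), add_zero]

theorem ι_sub {f h : C2 → ℂ} (hf : AnalyticAt ℂ f p) (hh : AnalyticAt ℂ h p) :
    G.ι (fun x => f x - h x) = G.ι f - G.ι h := by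
  have h2 : AnalyticAt ℂ (fun x => f x - h x) p := hf.sub hh
  have h3 : G.ι f = G.ι h + G.ι (fun x => f x - h x) := by
    rw [← G.add _ _ hh h2]; congr 1; funext x; ring
  rw [h3]; ring

theorem ι_inj {f h : C2 → ℂ} (hf : AnalyticAt ℂ f p) (hh : AnalyticAt ℂ h p)
    (e : G.ι f = G.ι h) : ∀ᶠ x in 𝓝 p, f x = h x := by
  have h1 := ι_sub G hf hh
  rw [e, sub_self, G.zero_iff _ (hf.fun_sub hh)] at h1
  exact h1.mono fun x hx => sub_eq_zero.1 hx

theorem ι_ne {f h : C2 → ℂ} (hf : AnalyticAt ℂ f p) (hh : AnalyticAt ℂ h p)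
    (e : ¬ ∀ᶠ x in 𝓝 p, f x = h x) : G.ι f ≠ G.ι h := fun h0 => e (ι_inj G hf hh h0)

theorem ι_ne_zero {f : C2 → ℂ} (hf : AnalyticAt ℂ f p) (e : ¬ ∀ᶠ x in 𝓝 p, f x = 0) :
    G.ι f ≠ 0 := fun h0 => e ((G.zero_iff f hf).1 h0)

theorem ι_chain {φ : ℂ → ℂ} {b : C2 → ℂ} (hφ : AnalyticAt ℂ φ (b p)) (hb : AnalyticAt ℂ b p)
    (a : Fin 2) :
    G.D a (G.ι (fun x => φ (b x))) = G.ι (fun x => deriv φ (b x)) * G.D a (G.ι b) := by
  have hc : AnalyticAt ℂ (fun x => φ (b x)) p := hφ.fun_comp hb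
  have hd : AnalyticAt ℂ (fun x => deriv φ (b x)) p := hφ.deriv.fun_comp hb
  have ev : ∀ᶠ x in 𝓝 p, AnalyticAt ℂ b x ∧ AnalyticAt ℂ φ (b x) :=
    hb.eventually_analyticAt.and (hb.continuousAt.eventually hφ.eventually_analyticAt)
  fin_cases a
  · show G.D 0 _ = _ * G.D 0 _
    rw [G.d1 _ hc, G.d1 _ hb, ← G.mul _ _ hd (an_d1 hb)]
    refine ι_congr G (an_d1 hc) (hd.mul (an_d1 hb)) ?_
    filter_upwards [ev] with x hx
    exact fderiv_comp' hx.2 hx.1 _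
  · show G.D 1 _ = _ * G.D 1 _
    rw [G.d2 _ hc, G.d2 _ hb, ← G.mul _ _ hd (an_d2 hb)]
    refine ι_congr G (an_d2 hc) (hd.mul (an_d2 hb)) ?_
    filter_upwards [ev] with x hx
    exact fderiv_comp' hx.2 hx.1 _

theorem ι_eval {σ : Type} {s : σ → C2 → ℂ} (hs : ∀ i, AnalyticAt ℂ (s i) p)
    (P : MvPolynomial σ ℂ) :
    AnalyticAt ℂ (fun x => MvPolynomial.eval (fun i => s i x) P) p ∧
      G.ι (fun x => MvPolynomial.eval (fun i => s i x) P) =
        MvPolynomial.aeval (fun i => G.ι (s i)) P := by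
  induction P using MvPolynomial.induction_on with
  | C c =>
    simp only [MvPolynomial.eval_C, MvPolynomial.aeval_C]
    exact ⟨analyticAt_const, G.const c⟩
  | add P Q hP hQ =>
    simp only [map_add]
    refine ⟨hP.1.add hQ.1, ?_⟩
    rw [G.add _ _ hP.1 hQ.1, hP.2, hQ.2]
  | mul_X P i hP =>
    simp only [map_mul, MvPolynomial.eval_X, MvPolynomial.aeval_X]
    refine ⟨hP.1.mul (hs i), ?_⟩
    rw [G.mul _ _ hP.1 (hs i), hP.2]

/-- Jacobian in the germ field -/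
def W (F H : Ω) : Ω := G.D 0 F * G.D 1 H - G.D 1 F * G.D 0 H

theorem an_br {f h : C2 → ℂ} (hf : AnalyticAt ℂ f p) (hh : AnalyticAt ℂ h p) :
    AnalyticAt ℂ (br f h) p :=
  ((an_d1 hf).mul (an_d2 hh)).sub ((an_d2 hf).mul (an_d1 hh))

theorem ι_br {f h : C2 → ℂ} (hf : AnalyticAt ℂ f p) (hh : AnalyticAt ℂ h p) :
    G.ι (br f h) = W G (G.ι f) (G.ι h) := by
  have h1 := ι_sub G ((an_d1 hf).fun_mul (an_d2 hh)) ((an_d2 hf).fun_mul (an_d1 hh))
  rw [G.mul _ _ (an_d1 hf) (an_d2 hh), G.mul _ _ (an_d2 hf) (an_d1 hh), ← G.d1 f hf, ← G.d2 f hf,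
    ← G.d1 h hh, ← G.d2 h hh] at h1
  exact h1

theorem dep_iff {f h : C2 → ℂ} (hf : AnalyticAt ℂ f p) (hh : AnalyticAt ℂ h p) :
    Dep p f h ↔ W G (G.ι f) (G.ι h) = 0 := by
  rw [← ι_br G hf hh, G.zero_iff _ (an_br hf hh)]
  rfl

end field

/-! ### algebra of derivations -/

section alg

variable {Ω : Type} [Field Ω] [Algebra ℂ Ω]

theorem jets (δ : Fin 2 → Derivation ℂ Ω Ω) (comm : ∀ z, δ 0 (δ 1 z) = δ 1 (δ 0 z)) {b f : Ω}
    (hb : δ 0 b ≠ 0 ∨ δ 1 b ≠ 0) (hf : δ 0 b * δ 1 f = δ 1 b * δ 0 f) :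
    ∃ y : ℕ → Ω, y 0 = f ∧ ∀ r a, δ a (y r) = y (r + 1) * δ a b := by
  have key : ∀ f : Ω, δ 0 b * δ 1 f = δ 1 b * δ 0 f →
      ∃ f' : Ω, (∀ a, δ a f = f' * δ a b) ∧ δ 0 b * δ 1 f' = δ 1 b * δ 0 f' := by
    intro f hf
    obtain ⟨f', h0, h1⟩ : ∃ f' : Ω, δ 0 f = f' * δ 0 b ∧ δ 1 f = f' * δ 1 b := by
      rcases hb with hb | hb
      · refine ⟨δ 0 f / δ 0 b, by field_simp, ?_⟩
        field_simp
        linear_combination hf
      · refine ⟨δ 1 f / δ 1 b, ?_, by field_simp⟩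
        field_simp
        linear_combination -hf
    refine ⟨f', ?_, ?_⟩
    · intro a
      fin_cases a
      · exact h0
      · exact h1
    · have c1 := comm f
      rw [h1, h0, Derivation.leibniz, Derivation.leibniz, comm b] at c1
      simp only [smul_eq_mul] at c1
      linear_combination -c1
  choose! N hN1 hN2 using key
  refine ⟨fun r => N^[r] f, rfl, ?_⟩
  have hrel : ∀ r, δ 0 b * δ 1 (N^[r] f) = δ 1 b * δ 0 (N^[r] f) := by
    intro r
    induction r with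
    | zero => exact hf
    | succ r ih => rw [Function.iterate_succ_apply']; exact hN2 _ ih
  intro r a
  show δ a (N^[r] f) = N^[r + 1] f * δ a b
  rw [Function.iterate_succ_apply']
  exact hN1 _ (hrel r) a

/-- a line with its first derivatives lies in the field `K` -/
structure LineIn (K : IntermediateField ℂ Ω) (D : Fin 2 → Derivation ℂ Ω Ω) (m k : Ω) : Prop where
  mm : m ∈ K
  kk : k ∈ K
  dm : ∀ a, D a m ∈ K
  dk : ∀ a, D a k ∈ K

theorem step {K : IntermediateField ℂ Ω} {D : Fin 2 → Derivation ℂ Ω Ω} {m k m' k' b y0 y1 y2 : Ω}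
    (h : LineIn K D m k) (hb : b ∈ K) (h0 : y0 ∈ K) (h1 : y1 ∈ K) (h2 : y2 ∈ K)
    (d0 : ∀ a, D a y0 = y1 * D a b) (d1 : ∀ a, D a y1 = y2 * D a b) (e0 : y0 = m * b + k)
    (e1 : y0 = m' * b + k') (hm : m ≠ 0) (em : m * m' = y1 ^ 2) (hne : m ≠ m') :
    (∀ a, D a b ∈ K) ∧ LineIn K D m' k' := by
  have hy : y1 - m ≠ 0 := by
    intro h0
    have h3 : y1 = m := sub_eq_zero.1 h0
    rw [h3] at em
    apply hne
    have : m * (m' - m) = 0 := by linear_combination em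
    rcases mul_eq_zero.1 this with h4 | h4
    · exact absurd h4 hm
    · exact (sub_eq_zero.1 h4).symm
  have hdb : ∀ a, D a b = (b * D a m + D a k) / (y1 - m) := by
    intro a
    have h3 := d0 a
    rw [e0, map_add, Derivation.leibniz] at h3
    simp only [smul_eq_mul] at h3
    rw [eq_div_iff hy]
    linear_combination -h3
  have hdbK : ∀ a, D a b ∈ K := fun a => by
    rw [hdb a]
    exact K.div_mem (K.add_mem (K.mul_mem hb (h.dm a)) (h.dk a)) (K.sub_mem h1 h.mm)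
  have hm' : m' = y1 ^ 2 / m := by rw [← em]; field_simp
  have hm'K : m' ∈ K := by rw [hm']; exact K.div_mem (pow_mem h1 2) h.mm
  have hk' : k' = y0 - m' * b := by rw [e1]; ring
  have hdm' : ∀ a, D a m' = (2 * y1 * y2 * D a b - m' * D a m) / m := by
    intro a
    have h3 := congrArg (D a) em
    rw [Derivation.leibniz, pow_two, Derivation.leibniz, d1 a] at h3
    simp only [smul_eq_mul] at h3
    rw [eq_div_iff hm]
    linear_combination h3
  have two : (2 : Ω) ∈ K := by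
    have := K.add_mem K.one_mem K.one_mem
    rwa [one_add_one_eq_two] at this
  have hdm'K : ∀ a, D a m' ∈ K := fun a => by
    rw [hdm' a]
    exact K.div_mem (K.sub_mem (K.mul_mem (K.mul_mem (K.mul_mem two h1) h2) (hdbK a))
      (K.mul_mem hm'K (h.dm a))) h.mm
  refine ⟨hdbK, hm'K, ?_, hdm'K, ?_⟩
  · rw [hk']; exact K.sub_mem h0 (K.mul_mem hm'K hb)
  · intro a
    rw [hk', map_sub, Derivation.leibniz, d0 a]
    simp only [smul_eq_mul]
    exact K.sub_mem (K.mul_mem h1 (hdbK a)) (K.add_mem (K.mul_mem hm'K (hdbK a))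
      (K.mul_mem hb (hdm'K a)))

end alg

/-! ### the main chain -/

section main

variable {g : ℂ → ℂ} {M K β : C2 → ℂ} {t₀ : ℂ} {ρ : ℝ} {N : ℕ}

theorem mem_b {x : C2} : x ∈ ball ((t₀, 0) : C2) ρ ↔ ‖x.1 - t₀‖ < ρ ∧ ‖x.2‖ < ρ := by
  rw [mem_ball, Prod.dist_eq, max_lt_iff, dist_eq_norm, dist_eq_norm, sub_zero]

theorem shift_mem {x : C2} (hx : x ∈ Dom t₀ ρ N) {s : ℂ} (hs : ‖s‖ ≤ N + 1) :
    (x.1 + s * x.2, x.2) ∈ ball ((t₀, 0) : C2) ρ := by
  have hx' : ‖x.1 - t₀‖ + (N + 1) * ‖x.2‖ < ρ := hx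
  have h0 : (0 : ℝ) ≤ N := Nat.cast_nonneg N
  have h1 := norm_nonneg x.2
  have h2 := norm_nonneg (x.1 - t₀)
  rw [mem_b]
  constructor
  · show ‖x.1 + s * x.2 - t₀‖ < ρ
    calc ‖x.1 + s * x.2 - t₀‖ = ‖(x.1 - t₀) + s * x.2‖ := by congr 1; ring
      _ ≤ ‖x.1 - t₀‖ + ‖s‖ * ‖x.2‖ := by
        refine le_trans (norm_add_le _ _) ?_
        rw [norm_mul]
      _ ≤ ‖x.1 - t₀‖ + (N + 1) * ‖x.2‖ := by gcongr
      _ < ρ := hx'
  · show ‖x.2‖ < ρ
    nlinarith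

theorem norm_j {j : ℕ} (h : j ≤ N) : ‖((j : ℤ) : ℂ)‖ ≤ N + 1 := by
  rw [Int.cast_natCast, Complex.norm_natCast]
  have : (j : ℝ) ≤ N := by exact_mod_cast h
  linarith

theorem norm_j2 {j : ℕ} (h : j < N) : ‖((j : ℤ) : ℂ) + 1 / 2‖ ≤ N + 1 := by
  refine le_trans (norm_add_le _ _) ?_
  rw [Int.cast_natCast, Complex.norm_natCast]
  have : (j : ℝ) + 1 ≤ N := by exact_mod_cast h
  have h2 : ‖(1 / 2 : ℂ)‖ = 1 / 2 := by norm_num
  rw [h2]
  linarith

theorem isOpen_Dom : IsOpen (Dom t₀ ρ N) := by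
  unfold Dom
  exact isOpen_lt (by fun_prop) continuous_const

theorem convex_Dom : Convex ℝ (Dom t₀ ρ N) := by
  intro x hx y hy a b ha hb hab
  have hx' : ‖x.1 - t₀‖ + (N + 1) * ‖x.2‖ < ρ := hx
  have hy' : ‖y.1 - t₀‖ + (N + 1) * ‖y.2‖ < ρ := hy
  have h0 : (0 : ℝ) ≤ N := Nat.cast_nonneg N
  show ‖(a • x + b • y).1 - t₀‖ + (N + 1) * ‖(a • x + b • y).2‖ < ρ
  have e1 : (a • x + b • y).1 - t₀ = a • (x.1 - t₀) + b • (y.1 - t₀) := by
    have : (a + b) • t₀ = t₀ := by rw [hab, one_smul]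
    simp only [Prod.fst_add, Prod.smul_fst, smul_sub]
    rw [add_smul] at this
    linear_combination this
  have e2 : (a • x + b • y).2 = a • x.2 + b • y.2 := rfl
  rw [e1, e2]
  have n1 : ‖a • (x.1 - t₀) + b • (y.1 - t₀)‖ ≤ a * ‖x.1 - t₀‖ + b * ‖y.1 - t₀‖ := by
    refine le_trans (norm_add_le _ _) ?_
    rw [norm_smul, norm_smul, Real.norm_of_nonneg ha, Real.norm_of_nonneg hb]
  have n2 : ‖a • x.2 + b • y.2‖ ≤ a * ‖x.2‖ + b * ‖y.2‖ := by
    refine le_trans (norm_add_le _ _) ?_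
    rw [norm_smul, norm_smul, Real.norm_of_nonneg ha, Real.norm_of_nonneg hb]
  have n3 : (N + 1) * ‖a • x.2 + b • y.2‖ ≤ (N + 1) * (a * ‖x.2‖ + b * ‖y.2‖) := by gcongr
  rcases ha.lt_or_eq with ha' | ha'
  · have n4 := mul_lt_mul_of_pos_left hx' ha'
    have n5 := mul_le_mul_of_nonneg_left hy'.le hb
    calc _ ≤ _ := add_le_add n1 n3
      _ = a * (‖x.1 - t₀‖ + (N + 1) * ‖x.2‖) + b * (‖y.1 - t₀‖ + (N + 1) * ‖y.2‖) := by ring
      _ < a * ρ + b * ρ := by linarith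
      _ = ρ := by rw [← add_mul, hab, one_mul]
  · have hb1 : b = 1 := by rw [← ha'] at hab; linarith
    rw [← ha', hb1] at n1 n3 ⊢
    calc _ ≤ _ := add_le_add n1 n3
      _ < ρ := by linarith

theorem an_shear {f : C2 → ℂ} {s : ℂ} {x : C2} (h : AnalyticAt ℂ f (x.1 + s * x.2, x.2)) :
    AnalyticAt ℂ (fun x : C2 => f (x.1 + s * x.2, x.2)) x := by
  have h2 : AnalyticAt ℂ (fun x : C2 => ((x.1 + s * x.2, x.2) : C2)) x :=
    (analyticAt_fst.add (analyticAt_const.mul analyticAt_snd)).prod analyticAt_snd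
  exact AnalyticAt.comp (g := f) (f := fun x : C2 => ((x.1 + s * x.2, x.2) : C2)) h h2

theorem an_lj {M : C2 → ℂ} (hM : AnalyticOnNhd ℂ M (ball ((t₀, 0) : C2) ρ)) {j : ℕ} (hj : j ≤ N)
    {x : C2} (hx : x ∈ Dom t₀ ρ N) : AnalyticAt ℂ (lj M j) x :=
  an_shear (hM _ (shift_mem hx (norm_j hj)))

theorem an_bj {β : C2 → ℂ} (hM : AnalyticOnNhd ℂ β (ball ((t₀, 0) : C2) ρ)) {j : ℕ} (hj : j < N)
    {x : C2} (hx : x ∈ Dom t₀ ρ N) : AnalyticAt ℂ (bj β j) x :=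
  an_shear (hM _ (shift_mem hx (norm_j2 hj)))

theorem main_inc (hF : Fam g M K β t₀ ρ) {j : ℕ} (hj : j < N) {x : C2} (hx : x ∈ Dom t₀ ρ N) :
    g (bj β j x) = lj M j x * bj β j x + lj K j x ∧
    g (bj β j x) = lj M (j + 1 : ℕ) x * bj β j x + lj K (j + 1 : ℕ) x ∧
    lj M j x * lj M (j + 1 : ℕ) x = deriv g (bj β j x) ^ 2 := by
  have m0 := shift_mem hx (norm_j hj.le)
  have m1 := shift_mem hx (norm_j (show j + 1 ≤ N from hj))
  have m2 := shift_mem hx (norm_j2 hj)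
  have e1 : x.1 + ((j : ℤ) : ℂ) * x.2 + x.2 / 2 = x.1 + (((j : ℤ) : ℂ) + 1 / 2) * x.2 := by ring
  have e2 : x.1 + (((j + 1 : ℕ) : ℤ) : ℂ) * x.2 - x.2 / 2 =
      x.1 + (((j : ℤ) : ℂ) + 1 / 2) * x.2 := by push_cast; ring
  have e3 : x.1 + (((j : ℤ) : ℂ) + 1 / 2) * x.2 - x.2 / 2 = x.1 + ((j : ℤ) : ℂ) * x.2 := by ring
  have e4 : x.1 + (((j : ℤ) : ℂ) + 1 / 2) * x.2 + x.2 / 2 =
      x.1 + (((j + 1 : ℕ) : ℤ) : ℂ) * x.2 := by push_cast; ring
  refine ⟨?_, ?_, ?_⟩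
  · have := hF.inc _ _ m0 (by rw [e1]; exact m2)
    rw [e1] at this
    exact this
  · have := hF.inc' _ _ m1 (by rw [e2]; exact m2)
    rw [e2] at this
    exact this
  · have := hF.refl _ _ m2 (by rw [e3]; exact m0) (by rw [e4]; exact m1)
    rw [e3, e4] at this
    exact this

theorem t0_mem (hρ : 0 < ρ) : ((t₀, 0) : C2) ∈ Dom t₀ ρ N := by
  show ‖t₀ - t₀‖ + (N + 1) * ‖(0 : ℂ)‖ < ρ
  simpa using hρ

/-- derivative along the ray `w ↦ (t₀ + s w, w)` -/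
theorem ray_deriv {M : C2 → ℂ} (hM : AnalyticAt ℂ M (t₀, 0)) (s : ℂ) :
    HasDerivAt (fun w : ℂ => M (t₀ + s * w, w)) (s * d1 M (t₀, 0) + d2 M (t₀, 0)) 0 := by
  have h1 : HasDerivAt (fun w : ℂ => ((t₀ + s * w, w) : C2)) (s, 1) 0 := by
    have a1 : HasDerivAt (fun w : ℂ => t₀ + s * w) s 0 := by
      simpa using ((hasDerivAt_id (0 : ℂ)).const_mul s).const_add t₀
    exact a1.prodMk (hasDerivAt_id 0)
  have h2 : HasFDerivAt M (fderiv ℂ M (t₀, 0)) ((fun w : ℂ => ((t₀ + s * w, w) : C2)) 0) := by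
    simpa using hM.differentiableAt.hasFDerivAt
  have h3 : HasDerivAt (M ∘ fun w : ℂ => ((t₀ + s * w, w) : C2)) (fderiv ℂ M (t₀, 0) (s, 1)) 0 :=
    HasFDerivAt.comp_hasDerivAt (f := fun w : ℂ => ((t₀ + s * w, w) : C2)) (0 : ℂ) h2 h1
  refine h3.congr_deriv ?_
  have : ((s, 1) : C2) = s • ((1, 0) : C2) + ((0, 1) : C2) := by simp
  rw [this, map_add, map_smul]
  rfl

theorem d1M_ne (hF : Fam g M K β t₀ ρ) : d1 M (t₀, 0) ≠ 0 := by
  have h0 : ((t₀, 0) : C2) ∈ ball ((t₀, 0) : C2) ρ := mem_ball_self hF.ρ_pos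
  have a1 : HasDerivAt (fun t : ℂ => ((t, 0) : C2)) (1, 0) t₀ :=
    (hasDerivAt_id t₀).prodMk (hasDerivAt_const t₀ 0)
  have h1 : HasDerivAt (fun t : ℂ => M (t, 0)) (d1 M (t₀, 0)) t₀ :=
    (hF.M_an _ h0).differentiableAt.hasFDerivAt.comp_hasDerivAt t₀ a1
  have h2 : HasDerivAt (fun t : ℂ => β (t, 0)) (d1 β (t₀, 0)) t₀ :=
    (hF.β_an _ h0).differentiableAt.hasFDerivAt.comp_hasDerivAt t₀ a1
  have h3 : HasDerivAt (fun t : ℂ => deriv g (β (t, 0)))
      (deriv (deriv g) (β (t₀, 0)) * d1 β (t₀, 0)) t₀ :=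
    HasDerivAt.comp t₀ (h := fun t : ℂ => β (t, 0)) (h₂ := deriv g)
      (hF.g_an _ h0).deriv.differentiableAt.hasDerivAt h2
  have h4 : HasDerivAt (fun t : ℂ => M (t, 0)) (deriv (deriv g) (β (t₀, 0)) * d1 β (t₀, 0)) t₀ := by
    refine h3.congr_of_eventuallyEq ?_
    filter_upwards [ball_mem_nhds t₀ hF.ρ_pos] with t ht
    exact hF.tang t ht
  rw [h1.unique h4]
  exact mul_ne_zero (hF.g2 _ h0) (hF.β_t _ h0)

theorem main_nt (hF : Fam g M K β t₀ ρ) {p : C2} (hp : p ∈ Dom t₀ ρ N) {j : ℕ} (hj : j < N) :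
    ¬ ∀ᶠ x in 𝓝 p, lj M j x = lj M (j + 1 : ℕ) x := by
  intro hev
  have han : AnalyticOnNhd ℂ (fun x => lj M (j + 1 : ℕ) x - lj M j x) (Dom t₀ ρ N) := fun x hx =>
    (an_lj hF.M_an hj hx).sub (an_lj hF.M_an hj.le hx)
  have hz : EqOn (fun x => lj M (j + 1 : ℕ) x - lj M j x) 0 (Dom t₀ ρ N) := by
    refine han.eqOn_zero_of_preconnected_of_eventuallyEq_zero convex_Dom.isPreconnected hp ?_
    filter_upwards [hev] with x hx
    show lj M (j + 1 : ℕ) x - lj M j x = 0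
    rw [hx, sub_self]
  have hM0 := hF.M_an _ (mem_ball_self hF.ρ_pos)
  have r1 := ray_deriv hM0 (((j + 1 : ℕ) : ℤ) : ℂ)
  have r2 := ray_deriv hM0 ((j : ℤ) : ℂ)
  have r3 : HasDerivAt (fun w : ℂ => M (t₀ + (((j + 1 : ℕ) : ℤ) : ℂ) * w, w))
      (((j : ℤ) : ℂ) * d1 M (t₀, 0) + d2 M (t₀, 0)) 0 := by
    refine r2.congr_of_eventuallyEq ?_
    have hc : ContinuousAt (fun w : ℂ => ((t₀, w) : C2)) 0 := by fun_prop
    have hD : ∀ᶠ w : ℂ in 𝓝 0, ((t₀, w) : C2) ∈ Dom t₀ ρ N :=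
      hc.eventually_mem (isOpen_Dom.mem_nhds (t0_mem hF.ρ_pos))
    filter_upwards [hD] with w hw
    exact sub_eq_zero.1 (hz hw)
  have h4 := r1.unique r3
  apply d1M_ne hF
  push_cast at h4
  linear_combination h4

theorem d1_bj {β : C2 → ℂ} (hβ : AnalyticOnNhd ℂ β (ball ((t₀, 0) : C2) ρ)) {j : ℕ} (hj : j < N)
    {x : C2} (hx : x ∈ Dom t₀ ρ N) :
    d1 (bj β j) x = d1 β (x.1 + (((j : ℤ) : ℂ) + 1 / 2) * x.2, x.2) := by
  have h1 := (hβ _ (shift_mem hx (norm_j2 hj))).differentiableAt.hasFDerivAt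
  set s := (((j : ℤ) : ℂ) + 1 / 2) with hs
  have h2 : HasFDerivAt (fun x : C2 => ((x.1 + s * x.2, x.2) : C2))
      ((ContinuousLinearMap.fst ℂ ℂ ℂ + s • ContinuousLinearMap.snd ℂ ℂ ℂ).prod
        (ContinuousLinearMap.snd ℂ ℂ ℂ)) x := by
    refine HasFDerivAt.prodMk ?_ hasFDerivAt_snd
    exact hasFDerivAt_fst.add (hasFDerivAt_snd.const_mul s)
  have h3 := h1.comp x h2
  unfold d1
  have h4 : fderiv ℂ (bj β j) x = _ := h3.fderiv
  rw [h4]
  simp

end main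

/-! ### selection of a vertex -/

section sel

variable {p : C2} {Ω : Type} [Field Ω] [Algebra ℂ Ω] (G : GField p Ω)

theorem W_trans {C F H : Ω} (hC : G.D 0 C ≠ 0 ∨ G.D 1 C ≠ 0) (h1 : W G C F = 0)
    (h2 : W G C H = 0) : W G F H = 0 := by
  unfold W at *
  rcases hC with hC | hC
  · refine (mul_eq_zero.1 (?_ : G.D 0 C * (G.D 0 F * G.D 1 H - G.D 1 F * G.D 0 H) = 0)).resolve_left
      hC
    linear_combination G.D 0 F * h2 - G.D 0 H * h1
  · refine (mul_eq_zero.1 (?_ : G.D 1 C * (G.D 0 F * G.D 1 H - G.D 1 F * G.D 0 H) = 0)).resolve_left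
      hC
    linear_combination G.D 1 F * h2 - G.D 1 H * h1

theorem exists_vertex {N n : ℕ} (hn : 0 < n) (hnN : n ≤ N) {B C : ℕ → Ω}
    (hMD : ∀ i < N, ∀ j < N, i ≠ j → W G (B i) (B j) ≠ 0)
    (hP : ∀ j < N, W G (C 0) (B j) ≠ 0)
    (hC : ∀ i < n, G.D 0 (C i) ≠ 0 ∨ G.D 1 (C i) ≠ 0) :
    ∃ j < N, ∀ i < n, W G (C i) (B j) ≠ 0 := by
  by_contra hcon
  push Not at hcon
  choose! φ h1 h2 using hcon
  have hinj : Set.InjOn φ (Finset.range N : Set ℕ) := by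
    intro i hi j hj hij
    rw [Finset.coe_range, mem_Iio] at hi hj
    by_contra hne
    refine hMD i hi j hj hne (W_trans G (hC _ (h1 i hi)) (h2 i hi) ?_)
    rw [hij]
    exact h2 j hj
  have hmap : ∀ j ∈ Finset.range N, φ j ∈ (Finset.range n).erase 0 := by
    intro j hj
    rw [Finset.mem_range] at hj
    rw [Finset.mem_erase, Finset.mem_range]
    refine ⟨?_, h1 j hj⟩
    intro h0
    have := h2 j hj
    rw [h0] at this
    exact hP j hj this
  have hcard := Finset.card_le_card_of_injOn φ hmap hinj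
  rw [Finset.card_range, Finset.card_erase_of_mem (Finset.mem_range.2 hn), Finset.card_range]
    at hcard
  omega

end sel

/-! ### the end: from a relation along a vertex to an algebraic differential equation -/

theorem an_jet {g : ℂ → ℂ} {z : ℂ} (hg : AnalyticAt ℂ g z) (r : ℕ) (i : Fin (r + 2)) :
    AnalyticAt ℂ (fun z => jet g r z i) z := by
  refine Fin.cases ?_ (fun i => ?_) i
  · exact analyticAt_id
  · exact an_iter hg i

theorem an_evjet {g : ℂ → ℂ} {z : ℂ} (hg : AnalyticAt ℂ g z) (r : ℕ)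
    (P : MvPolynomial (Fin (r + 2)) ℂ) :
    AnalyticAt ℂ (fun z => MvPolynomial.eval (jet g r z) P) z := by
  induction P using MvPolynomial.induction_on with
  | C c => simp only [MvPolynomial.eval_C]; exact analyticAt_const
  | add P Q hP hQ => simp only [map_add]; exact hP.add hQ
  | mul_X P i hP =>
    simp only [map_mul, MvPolynomial.eval_X]
    exact hP.mul (an_jet hg r i)

theorem algODE_of {g : ℂ → ℂ} {M K β : C2 → ℂ} {t₀ : ℂ} {ρ : ℝ} {N : ℕ} {p : C2}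
    (hF : Fam g M K β t₀ ρ) (hp : p ∈ Dom t₀ ρ N) {j : ℕ} (hj : j < N) {r : ℕ}
    {P : MvPolynomial (Fin (r + 2)) ℂ} (hP : P ≠ 0)
    (h : ∀ᶠ x in 𝓝 p, MvPolynomial.eval (jet g r (bj β j x)) P = 0) :
    AlgODE g (β (t₀, 0)) := by
  refine ⟨r, P, hP, ?_⟩
  set s := (((j : ℤ) : ℂ) + 1 / 2) with hs
  have hq := shift_mem hp (norm_j2 hj)
  rw [← hs] at hq
  set q : C2 := (p.1 + s * p.2, p.2) with hqd
  have han : AnalyticOnNhd ℂ (fun x => MvPolynomial.eval (jet g r (β x)) P)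
      (ball ((t₀, 0) : C2) ρ) := fun x hx =>
    (an_evjet (hF.g_an x hx) r P).fun_comp (hF.β_an x hx)
  have hev : ∀ᶠ y in 𝓝 q, MvPolynomial.eval (jet g r (β y)) P = 0 := by
    have hc : ContinuousAt (fun y : C2 => ((y.1 - s * y.2, y.2) : C2)) q := by fun_prop
    have hq' : (fun y : C2 => ((y.1 - s * y.2, y.2) : C2)) q = p := by
      show ((p.1 + s * p.2 - s * p.2, p.2) : C2) = p
      rw [add_sub_cancel_right]
    have h' := h
    rw [← hq'] at h'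
    filter_upwards [hc.eventually h'] with y hy
    have e : bj β j (y.1 - s * y.2, y.2) = β y := by
      show β (y.1 - s * y.2 + s * y.2, y.2) = β y
      rw [sub_add_cancel]
    rwa [e] at hy
  have hz := han.eqOn_zero_of_preconnected_of_eventuallyEq_zero
    (convex_ball ((t₀, 0) : C2) ρ).isPreconnected hq hev
  have h0 : ((t₀, 0) : C2) ∈ ball ((t₀, 0) : C2) ρ := mem_ball_self hF.ρ_pos
  have a0 : AnalyticAt ℂ (fun t : ℂ => ((t, 0) : C2)) t₀ := analyticAt_id.prod analyticAt_const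
  have a1 : AnalyticAt ℂ (fun t : ℂ => β (t, 0)) t₀ :=
    AnalyticAt.comp (g := β) (f := fun t : ℂ => ((t, 0) : C2)) (hF.β_an _ h0) a0
  have h2 : HasDerivAt (fun t : ℂ => β (t, 0)) (d1 β (t₀, 0)) t₀ :=
    (hF.β_an _ h0).differentiableAt.hasFDerivAt.comp_hasDerivAt t₀
      ((hasDerivAt_id t₀).prodMk (hasDerivAt_const t₀ 0))
  have h3 : HasStrictDerivAt (fun t : ℂ => β (t, 0)) (d1 β (t₀, 0)) t₀ := by
    have := a1.hasStrictDerivAt
    rwa [h2.deriv] at this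
  have h4 := h3.map_nhds_eq (hF.β_t _ h0)
  rw [← h4, eventually_map]
  filter_upwards [ball_mem_nhds t₀ hF.ρ_pos] with t ht
  exact hz (show ((t, 0) : C2) ∈ ball ((t₀, 0) : C2) ρ by
    rw [mem_b]; exact ⟨by rwa [mem_ball, dist_eq_norm] at ht, by simpa using hF.ρ_pos⟩)

/-! ### the theorem -/

theorem lj_zero (M : C2 → ℂ) : lj M ((0 : ℕ) : ℤ) = M := by
  funext x
  simp [lj]

theorem blockDFIN (hG : LeafGF) (hK : LeafKOL) (hP : LeafPAIR) (hM : LeafMD) : BlockDFIN := by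
  intro g M K β t₀ ρ N n p c mc kc hF hC
  obtain ⟨Ω, _, _, ⟨G⟩⟩ := hG p
  have hp := hC.p_mem
  have hev : ∀ᶠ x in 𝓝 p, x ∈ Dom t₀ ρ N := isOpen_Dom.mem_nhds hp
  -- the main chain
  set m : ℕ → Ω := fun j => G.ι (lj M j) with hm
  set k : ℕ → Ω := fun j => G.ι (lj K j) with hk
  set B : ℕ → Ω := fun j => G.ι (bj β j) with hB
  set Y : ℕ → ℕ → Ω := fun j r => G.ι (fun x => iteratedDeriv r g (bj β j x)) with hY
  have aM : ∀ j ≤ N, AnalyticAt ℂ (lj M j) p := fun j hj => an_lj hF.M_an hj hp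
  have aK : ∀ j ≤ N, AnalyticAt ℂ (lj K j) p := fun j hj => an_lj hF.K_an hj hp
  have aB : ∀ j < N, AnalyticAt ℂ (bj β j) p := fun j hj => an_bj hF.β_an hj hp
  have ag : ∀ j < N, AnalyticAt ℂ g (bj β j p) := fun j hj => hF.g_an _ (shift_mem hp (norm_j2 hj))
  have aY : ∀ j < N, ∀ r, AnalyticAt ℂ (fun x => iteratedDeriv r g (bj β j x)) p := fun j hj r =>
    (an_iter (ag j hj) r).fun_comp (aB j hj)
  have c1 : ∀ j < N, Y j 0 = m j * B j + k j := by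
    intro j hj
    rw [hm, hB, hk, hY]
    simp only
    rw [← G.mul _ _ (aM j hj.le) (aB j hj), ← G.add _ _ ((aM j hj.le).fun_mul (aB j hj)) (aK j hj.le)]
    refine ι_congr G (aY j hj 0) (((aM j hj.le).fun_mul (aB j hj)).fun_add (aK j hj.le)) ?_
    filter_upwards [hev] with x hx
    rw [iteratedDeriv_zero]
    exact (main_inc hF hj hx).1
  have c2 : ∀ j < N, Y j 0 = m (j + 1) * B j + k (j + 1) := by
    intro j hj
    rw [hm, hB, hk, hY]
    simp only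
    rw [← G.mul _ _ (aM (j + 1) hj) (aB j hj),
      ← G.add _ _ ((aM (j + 1) hj).fun_mul (aB j hj)) (aK (j + 1) hj)]
    refine ι_congr G (aY j hj 0) (((aM (j + 1) hj).fun_mul (aB j hj)).fun_add (aK (j + 1) hj)) ?_
    filter_upwards [hev] with x hx
    rw [iteratedDeriv_zero]
    exact (main_inc hF hj hx).2.1
  have c3 : ∀ j < N, m j * m (j + 1) = Y j 1 ^ 2 := by
    intro j hj
    rw [pow_two, hm, hY]
    simp only
    rw [← G.mul _ _ (aM j hj.le) (aM (j + 1) hj), ← G.mul _ _ (aY j hj 1) (aY j hj 1)]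
    refine ι_congr G ((aM j hj.le).fun_mul (aM (j + 1) hj)) ((aY j hj 1).fun_mul (aY j hj 1)) ?_
    filter_upwards [hev] with x hx
    rw [iteratedDeriv_one, (main_inc hF hj hx).2.2, pow_two]
  have c4 : ∀ j < N, m j ≠ m (j + 1) := fun j hj =>
    ι_ne G (aM j hj.le) (aM (j + 1) hj) (main_nt hF hp hj)
  have c5 : ∀ j ≤ N, m j ≠ 0 := fun j hj =>
    ι_ne_zero G (aM j hj) fun h0 => hF.M_ne _ (shift_mem hp (norm_j hj)) h0.self_of_nhds
  have c6 : ∀ j < N, ∀ r a, G.D a (Y j r) = Y j (r + 1) * G.D a (B j) := by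
    intro j hj r a
    have := ι_chain G (φ := iteratedDeriv r g) (an_iter (ag j hj) r) (aB j hj) a
    rw [← iteratedDeriv_succ] at this
    exact this
  have c7 : ∀ j < N, G.D 0 (B j) ≠ 0 := by
    intro j hj
    rw [hB]
    simp only
    rw [G.d1 _ (aB j hj)]
    refine ι_ne_zero G (an_d1 (aB j hj)) fun h0 => ?_
    have h1 := h0.self_of_nhds
    rw [d1_bj hF.β_an hj hp] at h1
    exact hF.β_t _ (shift_mem hp (norm_j2 hj)) h1
  have m0 : m 0 = G.ι M := by rw [hm]; simp only; rw [lj_zero]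
  have k0 : k 0 = G.ι K := by rw [hk]; simp only; rw [lj_zero]
  have aM0 : AnalyticAt ℂ M p := by have := aM 0 (Nat.zero_le _); rwa [lj_zero] at this
  have aK0 : AnalyticAt ℂ K p := by have := aK 0 (Nat.zero_le _); rwa [lj_zero] at this
  have hpb : p ∈ ball ((t₀, 0) : C2) ρ := by
    have := shift_mem hp (s := 0) (by rw [norm_zero]; positivity)
    rwa [zero_mul, add_zero] at this
  set J : Ω := W G (m 0) (k 0) with hJ
  have hJ0 : J ≠ 0 := by
    rw [hJ, m0, k0, ← ι_br G aM0 aK0]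
    refine ι_ne_zero G (an_br aM0 aK0) fun h0 => ?_
    obtain ⟨a, -, ha⟩ := hF.jac
    have h1 := h0.self_of_nhds
    rw [(ha p hpb).2] at h1
    exact mul_ne_zero hC.p2 (ha p hpb).1 h1
  have c8 : ∀ i < N, ∀ j < N, i ≠ j → W G (B i) (B j) ≠ 0 := by
    intro i hi j hj hij h0
    exact hM g M K β t₀ ρ N p hF hp hC.p2 i hi j hj hij ((dep_iff G (aB i hi) (aB j hj)).2 h0)
  -- the second chain
  set mC : ℕ → Ω := fun i => G.ι (mc i) with hmC
  set kC : ℕ → Ω := fun i => G.ι (kc i) with hkC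
  set C : ℕ → Ω := fun i => G.ι (c i) with hCd
  have aZ : ∀ i < n, AnalyticAt ℂ (fun x => mc i x * c i x + kc i x) p := fun i hi =>
    ((hC.m_an i hi.le).fun_mul (hC.c_an i hi)).fun_add (hC.k_an i hi.le)
  have e1 : ∀ i < n, G.ι (fun x => mc i x * c i x + kc i x) = mC i * C i + kC i := by
    intro i hi
    rw [G.add _ _ ((hC.m_an i hi.le).fun_mul (hC.c_an i hi)) (hC.k_an i hi.le),
      G.mul _ _ (hC.m_an i hi.le) (hC.c_an i hi)]
  have e2 : ∀ i < n, mC i * C i + kC i = mC (i + 1) * C i + kC (i + 1) := by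
    intro i hi
    rw [← e1 i hi]
    have h1 := ι_congr G (aZ i hi)
      (((hC.m_an (i + 1) hi).fun_mul (hC.c_an i hi)).fun_add (hC.k_an (i + 1) hi)) (hC.inc i hi)
    rw [h1, G.add _ _ ((hC.m_an (i + 1) hi).fun_mul (hC.c_an i hi)) (hC.k_an (i + 1) hi),
      G.mul _ _ (hC.m_an (i + 1) hi) (hC.c_an i hi)]
  have e3 : ∀ i < n, G.D 0 (C i) ≠ 0 ∨ G.D 1 (C i) ≠ 0 := by
    intro i hi
    by_contra hcon
    push Not at hcon
    obtain ⟨h1, h2⟩ := hcon
    rw [hCd] at h1 h2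
    simp only at h1 h2
    rw [G.d1 _ (hC.c_an i hi), G.zero_iff _ (an_d1 (hC.c_an i hi))] at h1
    rw [G.d2 _ (hC.c_an i hi), G.zero_iff _ (an_d2 (hC.c_an i hi))] at h2
    exact hC.nc i hi (h1.and h2)
  have e4 : ∀ i ≤ n, mC i ≠ 0 := fun i hi => ι_ne_zero G (hC.m_an i hi) (hC.m_ne i hi)
  have e5 : ∀ i < n, mC i ≠ mC (i + 1) := fun i hi =>
    ι_ne G (hC.m_an i hi.le) (hC.m_an (i + 1) hi) (hC.nt i hi)
  have e6 : ∀ i, ∃ y : ℕ → Ω, i < n → y 0 = mC i * C i + kC i ∧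
      ∀ r a, G.D a (y r) = y (r + 1) * G.D a (C i) := by
    intro i
    by_cases hi : i < n
    · have h1 := (dep_iff G (hC.c_an i hi) (aZ i hi)).1 (hC.curve i hi)
      rw [e1 i hi] at h1
      obtain ⟨y, hy0, hy⟩ := jets G.D (fun z => G.comm z) (e3 i hi) (f := mC i * C i + kC i)
        (by unfold W at h1; linear_combination h1)
      exact ⟨y, fun _ => ⟨hy0, hy⟩⟩
    · exact ⟨fun _ => 0, fun h => absurd h hi⟩
  choose Z hZ using e6
  have e7 : ∀ i < n, mC i * mC (i + 1) = Z i 1 ^ 2 := by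
    intro i hi
    obtain ⟨hz0, hz⟩ := hZ i hi
    have sq : ∀ f : C2 → ℂ, AnalyticAt ℂ f p → G.ι (fun x => f x ^ 2) = G.ι f ^ 2 := by
      intro f hf
      have : (fun x => f x ^ 2) = fun x => f x * f x := by funext x; ring
      rw [this, G.mul _ _ hf hf, pow_two]
    have amm := (hC.m_an i hi.le).fun_mul (hC.m_an (i + 1) hi)
    have hr := hC.refl i hi
    have r0 : mC i * mC (i + 1) * G.D 0 (C i) ^ 2 = G.D 0 (mC i * C i + kC i) ^ 2 := by
      have h1 := ι_congr G (amm.fun_mul ((an_d1 (hC.c_an i hi)).fun_pow 2))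
        ((an_d1 (aZ i hi)).fun_pow 2) (hr.mono fun x hx => hx.1)
      rw [G.mul _ _ amm ((an_d1 (hC.c_an i hi)).fun_pow 2),
        G.mul _ _ (hC.m_an i hi.le) (hC.m_an (i + 1) hi), sq _ (an_d1 (hC.c_an i hi)),
        sq _ (an_d1 (aZ i hi)), ← G.d1 _ (hC.c_an i hi), ← G.d1 _ (aZ i hi), e1 i hi] at h1
      exact h1
    have r1 : mC i * mC (i + 1) * G.D 1 (C i) ^ 2 = G.D 1 (mC i * C i + kC i) ^ 2 := by
      have h1 := ι_congr G (amm.fun_mul ((an_d2 (hC.c_an i hi)).fun_pow 2))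
        ((an_d2 (aZ i hi)).fun_pow 2) (hr.mono fun x hx => hx.2)
      rw [G.mul _ _ amm ((an_d2 (hC.c_an i hi)).fun_pow 2),
        G.mul _ _ (hC.m_an i hi.le) (hC.m_an (i + 1) hi), sq _ (an_d2 (hC.c_an i hi)),
        sq _ (an_d2 (aZ i hi)), ← G.d2 _ (hC.c_an i hi), ← G.d2 _ (aZ i hi), e1 i hi] at h1
      exact h1
    rw [← hz0, hz 0 0, zero_add] at r0
    rw [← hz0, hz 0 1, zero_add] at r1
    rcases e3 i hi with h | h
    · have h2 : G.D 0 (C i) ^ 2 ≠ 0 := pow_ne_zero 2 h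
      apply mul_right_cancel₀ h2
      rw [r0]; ring
    · have h2 : G.D 1 (C i) ^ 2 ≠ 0 := pow_ne_zero 2 h
      apply mul_right_cancel₀ h2
      rw [r1]; ring
  have s1 : mC 0 = m 0 := by
    rw [m0]; exact ι_congr G (hC.m_an 0 (Nat.zero_le _)) aM0 hC.m_start
  have s2 : kC 0 = k 0 := by
    rw [k0]; exact ι_congr G (hC.k_an 0 (Nat.zero_le _)) aK0 hC.k_start
  have s3 : mC n = m N := ι_congr G (hC.m_an n le_rfl) (aM N le_rfl) hC.m_end
  have s4 : kC n = k N := ι_congr G (hC.k_an n le_rfl) (aK N le_rfl) hC.k_end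
  have e8 : ∀ j < N, W G (C 0) (B j) ≠ 0 := by
    intro j hj h0
    have hdep : Dep p (c 0) (fun x => M x * c 0 x + K x) := by
      rw [dep_iff G (hC.c_an 0 hC.n_pos) ((aM0.fun_mul (hC.c_an 0 hC.n_pos)).fun_add aK0)]
      have h1 := (dep_iff G (hC.c_an 0 hC.n_pos) (aZ 0 hC.n_pos)).1 (hC.curve 0 hC.n_pos)
      rw [ι_congr G ((aM0.fun_mul (hC.c_an 0 hC.n_pos)).fun_add aK0) (aZ 0 hC.n_pos)
        (by filter_upwards [hC.m_start, hC.k_start] with x h2 h3; rw [h2, h3])]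
      exact h1
    exact hP g M K β t₀ ρ N p (c 0) hF hp hC.p2 (hC.c_an 0 hC.n_pos) hdep (hC.nc 0 hC.n_pos)
      hC.far hC.far' j hj ((dep_iff G (hC.c_an 0 hC.n_pos) (aB j hj)).2 h0)
  obtain ⟨js, hjs, hind⟩ := exists_vertex G hC.n_pos hC.n_le c8 e8 e3
  -- the derivations `∂_m`, `∂_k`
  let D : Fin 2 → Derivation ℂ Ω Ω :=
    ![J⁻¹ • (G.D 1 (k 0) • G.D 0 - G.D 0 (k 0) • G.D 1),
      J⁻¹ • (G.D 0 (m 0) • G.D 1 - G.D 1 (m 0) • G.D 0)]
  have D0 : ∀ z, D 0 z = J⁻¹ * (G.D 1 (k 0) * G.D 0 z - G.D 0 (k 0) * G.D 1 z) := fun z => rfl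
  have D1 : ∀ z, D 1 z = J⁻¹ * (G.D 0 (m 0) * G.D 1 z - G.D 1 (m 0) * G.D 0 z) := fun z => rfl
  have hJe : G.D 0 (m 0) * G.D 1 (k 0) - G.D 1 (m 0) * G.D 0 (k 0) = J := rfl
  have D0m : D 0 (m 0) = 1 := by
    rw [D0, show G.D 1 (k 0) * G.D 0 (m 0) - G.D 0 (k 0) * G.D 1 (m 0) = J by
      rw [← hJe]; ring, inv_mul_cancel₀ hJ0]
  have D0k : D 0 (k 0) = 0 := by rw [D0]; ring
  have D1m : D 1 (m 0) = 0 := by rw [D1]; ring
  have D1k : D 1 (k 0) = 1 := by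
    rw [D1, show G.D 0 (m 0) * G.D 1 (k 0) - G.D 1 (m 0) * G.D 0 (k 0) = J from hJe,
      inv_mul_cancel₀ hJ0]
  have Dlin : ∀ {y y' b : Ω}, (∀ a, G.D a y = y' * G.D a b) → ∀ a, D a y = y' * D a b := by
    intro y y' b h a
    fin_cases a
    · show D 0 y = y' * D 0 b
      rw [D0, D0, h 0, h 1]; ring
    · show D 1 y = y' * D 1 b
      rw [D1, D1, h 0, h 1]; ring
  have DW : ∀ u b : Ω, D 1 u * D 0 b - D 0 u * D 1 b = -(J⁻¹ * W G u b) := by
    intro u b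
    rw [D0, D0, D1, D1]
    unfold W
    have : J⁻¹ * (G.D 0 (m 0) * G.D 1 (k 0) - G.D 1 (m 0) * G.D 0 (k 0)) = 1 := by
      rw [hJe]; exact inv_mul_cancel₀ hJ0
    linear_combination (-(G.D 0 u * G.D 1 b - G.D 1 u * G.D 0 b)) * J⁻¹ * this
  -- the field
  let V : Type := {i : Fin N // i.1 ≠ js} ⊕ Fin n
  let bV : V → Ω := Sum.elim (fun i => B i.1.1) (fun i => C i.1)
  let yV : V → ℕ → Ω := Sum.elim (fun i r => Y i.1.1 r) (fun i r => Z i.1 r)
  set S : Set Ω := {m 0, k 0} ∪ Set.range bV ∪ {z | ∃ x, ∃ i ≤ 2, z = yV x i} with hS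
  set KK : IntermediateField ℂ Ω := IntermediateField.adjoin ℂ S with hKK
  have hsub : ∀ z ∈ S, z ∈ KK := fun z hz => IntermediateField.subset_adjoin ℂ S hz
  have memB : ∀ j < N, j ≠ js → B j ∈ KK := fun j hj hne =>
    hsub _ (Or.inl (Or.inr ⟨Sum.inl ⟨⟨j, hj⟩, hne⟩, rfl⟩))
  have memY : ∀ j < N, j ≠ js → ∀ r ≤ 2, Y j r ∈ KK := fun j hj hne r hr =>
    hsub _ (Or.inr ⟨Sum.inl ⟨⟨j, hj⟩, hne⟩, r, hr, rfl⟩)
  have memC : ∀ i < n, C i ∈ KK := fun i hi => hsub _ (Or.inl (Or.inr ⟨Sum.inr ⟨i, hi⟩, rfl⟩))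
  have memZ : ∀ i < n, ∀ r ≤ 2, Z i r ∈ KK := fun i hi r hr =>
    hsub _ (Or.inr ⟨Sum.inr ⟨i, hi⟩, r, hr, rfl⟩)
  have l0 : LineIn KK D (m 0) (k 0) := by
    refine ⟨hsub _ (Or.inl (Or.inl (Or.inl rfl))), hsub _ (Or.inl (Or.inl (Or.inr rfl))), ?_, ?_⟩
    · intro a
      fin_cases a
      · show D 0 (m 0) ∈ KK
        rw [D0m]; exact KK.one_mem
      · show D 1 (m 0) ∈ KK
        rw [D1m]; exact KK.zero_mem
    · intro a
      fin_cases a
      · show D 0 (k 0) ∈ KK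
        rw [D0k]; exact KK.zero_mem
      · show D 1 (k 0) ∈ KK
        rw [D1k]; exact KK.one_mem
  have fstep : ∀ j < N, j ≠ js → LineIn KK D (m j) (k j) →
      (∀ a, D a (B j) ∈ KK) ∧ LineIn KK D (m (j + 1)) (k (j + 1)) := fun j hj hne hL =>
    step hL (memB j hj hne) (memY j hj hne 0 (by norm_num)) (memY j hj hne 1 (by norm_num))
      (memY j hj hne 2 le_rfl) (Dlin (c6 j hj 0)) (Dlin (c6 j hj 1)) (c1 j hj) (c2 j hj)
      (c5 j hj.le) (c3 j hj) (c4 j hj)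
  have bstep : ∀ j < N, j ≠ js → LineIn KK D (m (j + 1)) (k (j + 1)) →
      (∀ a, D a (B j) ∈ KK) ∧ LineIn KK D (m j) (k j) := fun j hj hne hL =>
    step hL (memB j hj hne) (memY j hj hne 0 (by norm_num)) (memY j hj hne 1 (by norm_num))
      (memY j hj hne 2 le_rfl) (Dlin (c6 j hj 0)) (Dlin (c6 j hj 1)) (c2 j hj) (c1 j hj)
      (c5 (j + 1) hj) (by rw [mul_comm]; exact c3 j hj) (c4 j hj).symm
  have cstep : ∀ i < n, LineIn KK D (mC i) (kC i) →
      (∀ a, D a (C i) ∈ KK) ∧ LineIn KK D (mC (i + 1)) (kC (i + 1)) := fun i hi hL =>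
    step hL (memC i hi) (memZ i hi 0 (by norm_num)) (memZ i hi 1 (by norm_num))
      (memZ i hi 2 le_rfl) (Dlin ((hZ i hi).2 0)) (Dlin ((hZ i hi).2 1)) (hZ i hi).1
      ((hZ i hi).1.trans (e2 i hi)) (e4 i hi.le) (e7 i hi) (e5 i hi)
  have fw : ∀ j ≤ js, LineIn KK D (m j) (k j) := by
    intro j
    induction j with
    | zero => exact fun _ => l0
    | succ j ih => exact fun hj => (fstep j (by omega) (by omega) (ih (by omega))).2
  have cw : ∀ i ≤ n, LineIn KK D (mC i) (kC i) := by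
    intro i
    induction i with
    | zero => intro _; rw [s1, s2]; exact l0
    | succ i ih => exact fun hi => (cstep i hi (ih (by omega))).2
  have bw : ∀ d j, j + d = N → js < j → LineIn KK D (m j) (k j) := by
    intro d
    induction d with
    | zero =>
      intro j hj _
      rw [add_zero] at hj
      rw [hj, ← s3, ← s4]
      exact cw n le_rfl
    | succ d ih =>
      intro j hj hjs
      exact (bstep j (by omega) (by omega) (ih (j + 1) (by omega) (by omega))).2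
  have dB : ∀ j < N, j ≠ js → ∀ a, D a (B j) ∈ KK := by
    intro j hj hne
    rcases lt_or_gt_of_ne hne with h | h
    · exact (fstep j hj hne (fw j h.le)).1
    · exact (bstep j hj hne (bw (N - (j + 1)) (j + 1) (by omega) (by omega))).1
  have dC : ∀ i < n, ∀ a, D a (C i) ∈ KK := fun i hi => (cstep i hi (cw i hi.le)).1
  have la := fw js le_rfl
  have lb := bw (N - (js + 1)) (js + 1) (by omega) (by omega)
  have hBjs : B js ∈ KK := by
    have h1 : m js - m (js + 1) ≠ 0 := sub_ne_zero.2 (c4 js hjs)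
    have h2 : B js = (k (js + 1) - k js) / (m js - m (js + 1)) := by
      rw [eq_div_iff h1]
      linear_combination (c2 js hjs) - (c1 js hjs)
    rw [h2]
    exact KK.div_mem (KK.sub_mem lb.kk la.kk) (KK.sub_mem la.mm lb.mm)
  have hYjs : Y js 0 ∈ KK := by
    rw [c1 js hjs]
    exact KK.add_mem (KK.mul_mem la.mm hBjs) la.kk
  have halg : ∀ z ∈ KK, IsAlgebraic KK z := fun z hz =>
    isAlgebraic_algebraMap (⟨z, hz⟩ : KK)
  obtain ⟨r, hr⟩ := hK Ω V D (m 0) (k 0) bV yV (B js) (Y js) 2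
    (by
      intro a
      fin_cases a
      · exact ⟨1, by show _ = D 0 (m 0); rw [D0m, map_one]⟩
      · exact ⟨0, by show _ = D 1 (m 0); rw [D1m, map_zero]⟩)
    (by
      intro a
      fin_cases a
      · exact ⟨0, by show _ = D 0 (k 0); rw [D0k, map_zero]⟩
      · exact ⟨1, by show _ = D 1 (k 0); rw [D1k, map_one]⟩)
    (by
      rintro a (x | x) i
      · exact Dlin (c6 x.1.1 x.1.2 i) a
      · exact Dlin ((hZ x.1 x.2).2 i) a)
    (by
      rintro a (x | x)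
      · exact dB x.1.1 x.1.2 x.2 a
      · exact dC x.1 x.2 a)
    (halg _ hBjs) (halg _ hYjs) (fun a i => Dlin (c6 js hjs i) a)
    (by
      by_contra hcon
      push Not at hcon
      obtain ⟨h1, h2⟩ := hcon
      rw [D0] at h1
      rw [D1] at h2
      have hJi : J⁻¹ ≠ 0 := inv_ne_zero hJ0
      have h3 := (mul_eq_zero.1 h1).resolve_left hJi
      have h4 := (mul_eq_zero.1 h2).resolve_left hJi
      apply mul_ne_zero hJ0 (c7 js hjs)
      rw [← hJe]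
      linear_combination G.D 0 (m 0) * h3 + G.D 0 (k 0) * h4)
    (by
      rintro (x | x)
      · show D 1 (B js) * D 0 (B x.1.1) - D 0 (B js) * D 1 (B x.1.1) ≠ 0
        rw [DW]
        exact neg_ne_zero.2 (mul_ne_zero (inv_ne_zero hJ0)
          (c8 js hjs x.1.1 x.1.2 (fun h => x.2 h.symm)))
      · show D 1 (B js) * D 0 (C x.1) - D 0 (B js) * D 1 (C x.1) ≠ 0
        rw [DW]
        refine neg_ne_zero.2 (mul_ne_zero (inv_ne_zero hJ0) fun h0 => hind x.1 x.2 ?_)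
        unfold W at h0 ⊢
        linear_combination -h0)
  -- the relation
  rw [algebraicIndependent_iff] at hr
  push Not at hr
  obtain ⟨P, hP0, hPne⟩ := hr
  refine algODE_of hF hp hjs hPne ?_
  have hs : ∀ i, AnalyticAt ℂ (fun x => jet g r (bj β js x) i) p := fun i =>
    (an_jet (ag js hjs) r i).fun_comp (aB js hjs)
  obtain ⟨q1, q2⟩ := ι_eval G hs P
  have hfun : (fun i => G.ι (fun x => jet g r (bj β js x) i)) =
      (Fin.cons (B js) (fun i : Fin (r + 1) => Y js i) : Fin (r + 2) → Ω) := by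
    funext i
    refine Fin.cases ?_ (fun i => ?_) i
    · rfl
    · rfl
  rw [hfun, hP0] at q2
  exact (G.zero_iff _ q1).1 q2

end Crest.Agent.R102.H3.DFIN297
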