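import Mathlib
import Crest.Agent.R102.H3Defs_337

/-!
Row 102, [H3]: dictionary between germs of analytic functions and the field of germs `GField`.
-/

set_option autoImplicit false

noncomputable section

open Filter Topology Set Metric

namespace Crest.Agent.R102.H3D426

open Crest.Agent.R102.H3

/-! ### analyticity of the operators `d1`, `d2` -/

theorem d1_an {f : C2 → ℂ} {p : C2} (hf : AnalyticAt ℂ f p) : AnalyticAt ℂ (d1 f) p := by
  have h := hf.fderiv
  exact (ContinuousLinearMap.apply ℂ ℂ ((1 : ℂ), (0 : ℂ))).analyticAt _ |>.comp h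

theorem d2_an {f : C2 → ℂ} {p : C2} (hf : AnalyticAt ℂ f p) : AnalyticAt ℂ (d2 f) p := by
  have h := hf.fderiv
  exact (ContinuousLinearMap.apply ℂ ℂ ((0 : ℂ), (1 : ℂ))).analyticAt _ |>.comp h

theorem d1_iter_an {f : C2 → ℂ} {p : C2} (hf : AnalyticAt ℂ f p) (n : ℕ) :
    AnalyticAt ℂ (d1^[n] f) p := by
  induction n with
  | zero => simpa using hf
  | succ n ih => rw [Function.iterate_succ_apply']; exact d1_an ih

theorem d2_iter_an {f : C2 → ℂ} {p : C2} (hf : AnalyticAt ℂ f p) (n : ℕ) :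
    AnalyticAt ℂ (d2^[n] f) p := by
  induction n with
  | zero => simpa using hf
  | succ n ih => rw [Function.iterate_succ_apply']; exact d2_an ih

/-- the two directions -/
def dir (a : Fin 2) : C2 := if a = 0 then (1, 0) else (0, 1)

/-- derivative in the direction number `a` -/
def dd (a : Fin 2) (f : C2 → ℂ) (x : C2) : ℂ := fderiv ℂ f x (dir a)

theorem dd_zero : dd 0 = H3.d1 := by
  funext f x; simp [dd, dir, H3.d1]

theorem dd_one : dd 1 = H3.d2 := by
  funext f x; simp [dd, dir, H3.d2]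

theorem dd_an {f : C2 → ℂ} {p : C2} (a : Fin 2) (hf : AnalyticAt ℂ f p) :
    AnalyticAt ℂ (dd a f) p :=
  (ContinuousLinearMap.apply ℂ ℂ (dir a)).analyticAt _ |>.comp hf.fderiv

section G

variable {p : C2} {K : Type} [Field K] [Algebra ℂ K] (G : GField p K)

include G

theorem iota_zero : G.ι (fun _ => 0) = 0 := by
  rw [G.const 0, map_zero]

theorem iota_one : G.ι (fun _ => 1) = 1 := by
  rw [G.const 1, map_one]

theorem iota_cmul (c : ℂ) {f : C2 → ℂ} (hf : AnalyticAt ℂ f p) :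
    G.ι (fun x => c * f x) = algebraMap ℂ K c * G.ι f := by
  rw [G.mul (fun _ => c) f analyticAt_const hf, G.const]

theorem iota_neg {f : C2 → ℂ} (hf : AnalyticAt ℂ f p) : G.ι (fun x => -f x) = -G.ι f := by
  have h := iota_cmul G (-1) hf
  simpa using h

theorem iota_sub {f h : C2 → ℂ} (hf : AnalyticAt ℂ f p) (hh : AnalyticAt ℂ h p) :
    G.ι (fun x => f x - h x) = G.ι f - G.ι h := by
  have h1 := G.add f (fun x => -h x) hf hh.neg
  rw [iota_neg G hh] at h1
  simpa [sub_eq_add_neg] using h1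

theorem iota_congr {f h : C2 → ℂ} (hf : AnalyticAt ℂ f p) (e : ∀ᶠ x in 𝓝 p, f x = h x) :
    G.ι f = G.ι h := by
  have hh : AnalyticAt ℂ h p := hf.congr e
  have h0 : G.ι (fun x => f x - h x) = 0 :=
    (G.zero_iff _ (hf.fun_sub hh)).2 (e.mono fun x hx => by rw [hx, sub_self])
  rw [iota_sub G hf hh] at h0
  exact sub_eq_zero.1 h0

theorem iota_inj {f h : C2 → ℂ} (hf : AnalyticAt ℂ f p) (hh : AnalyticAt ℂ h p) :
    G.ι f = G.ι h ↔ ∀ᶠ x in 𝓝 p, f x = h x := by
  refine ⟨fun e => ?_, iota_congr G hf⟩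
  have h0 : G.ι (fun x => f x - h x) = 0 := by rw [iota_sub G hf hh, e, sub_self]
  exact ((G.zero_iff _ (hf.sub hh)).1 h0).mono fun x hx => sub_eq_zero.1 hx

theorem iota_ne_zero {f : C2 → ℂ} (hf : AnalyticAt ℂ f p) (h0 : f p ≠ 0) : G.ι f ≠ 0 := by
  intro h
  exact h0 ((G.zero_iff _ hf).1 h).self_of_nhds

theorem iota_pow {f : C2 → ℂ} (hf : AnalyticAt ℂ f p) (n : ℕ) :
    G.ι (fun x => f x ^ n) = G.ι f ^ n := by
  induction n with
  | zero => simpa using iota_one G
  | succ n ih =>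
    have h := G.mul (fun x => f x ^ n) f (hf.pow n) hf
    simp only [pow_succ]
    rw [h, ih]

theorem iota_inv {f : C2 → ℂ} (hf : AnalyticAt ℂ f p) (h0 : f p ≠ 0) :
    G.ι (fun x => (f x)⁻¹) = (G.ι f)⁻¹ := by
  have h1 := G.mul (fun x => (f x)⁻¹) f (hf.inv h0) hf
  have h2 : G.ι (fun x => (f x)⁻¹ * f x) = 1 := by
    rw [← iota_one G]
    refine iota_congr G ((hf.inv h0).mul hf) ?_
    filter_upwards [hf.continuousAt.eventually_ne h0] with x hx
    exact inv_mul_cancel₀ hx
  rw [h2] at h1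
  exact eq_inv_of_mul_eq_one_left h1.symm

theorem iota_div {f h : C2 → ℂ} (hf : AnalyticAt ℂ f p) (hh : AnalyticAt ℂ h p) (h0 : h p ≠ 0) :
    G.ι (fun x => f x / h x) = G.ι f / G.ι h := by
  simp only [div_eq_mul_inv]
  rw [G.mul f (fun x => (h x)⁻¹) hf (hh.inv h0), iota_inv G hh h0]

theorem iota_sum {α : Type} (s : Finset α) (f : α → C2 → ℂ) (hf : ∀ i ∈ s, AnalyticAt ℂ (f i) p) :
    G.ι (fun x => ∑ i ∈ s, f i x) = ∑ i ∈ s, G.ι (f i) := by
  classical
  induction s using Finset.induction_on with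
  | empty => simpa using iota_zero G
  | insert a s ha ih =>
    have h1 : ∀ i ∈ s, AnalyticAt ℂ (f i) p := fun i hi => hf i (Finset.mem_insert_of_mem hi)
    have h2 : AnalyticAt ℂ (f a) p := hf a (Finset.mem_insert_self a s)
    have h3 : AnalyticAt ℂ (fun x => ∑ i ∈ s, f i x) p := by
      have := Finset.analyticAt_fun_sum (𝕜 := ℂ) s h1
      simpa using this
    simp only [Finset.sum_insert ha]
    rw [G.add _ _ h2 h3, ih h1]

/-! ### polynomial expressions -/

omit G in
theorem mv_an {σ : Type} {s : σ → C2 → ℂ} (hs : ∀ i, AnalyticAt ℂ (s i) p)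
    (P : MvPolynomial σ ℂ) : AnalyticAt ℂ (fun x => MvPolynomial.eval (fun i => s i x) P) p := by
  induction P using MvPolynomial.induction_on with
  | C a => simpa using (analyticAt_const : AnalyticAt ℂ (fun _ : C2 => a) p)
  | add P Q h1 h2 => simpa using h1.fun_add h2
  | mul_X P i h => simpa using h.fun_mul (hs i)

theorem iota_mv {σ : Type} {s : σ → C2 → ℂ} (hs : ∀ i, AnalyticAt ℂ (s i) p)
    (P : MvPolynomial σ ℂ) :
    G.ι (fun x => MvPolynomial.eval (fun i => s i x) P) =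
      MvPolynomial.aeval (fun i => G.ι (s i)) P := by
  induction P using MvPolynomial.induction_on with
  | C a =>
    simp only [MvPolynomial.eval_C, MvPolynomial.aeval_C]
    exact G.const a
  | add P Q h1 h2 =>
    simp only [map_add]
    rw [G.add _ _ (mv_an hs P) (mv_an hs Q), h1, h2]
  | mul_X P i h =>
    simp only [map_mul, MvPolynomial.eval_X, MvPolynomial.aeval_X]
    rw [G.mul _ _ (mv_an hs P) (hs i), h]

omit G in
theorem pol_an {σ : Type} {s : σ → C2 → ℂ} (hs : ∀ i, AnalyticAt ℂ (s i) p) {f : C2 → ℂ}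
    (hf : AnalyticAt ℂ f p) (P : Polynomial (MvPolynomial σ ℂ)) :
    AnalyticAt ℂ (fun x => Polynomial.eval₂ (MvPolynomial.eval (fun i => s i x)) (f x) P) p := by
  simp only [Polynomial.eval₂_eq_sum_range]
  have := Finset.analyticAt_fun_sum (𝕜 := ℂ) (c := p) (Finset.range (P.natDegree + 1))
    (f := fun i x => MvPolynomial.eval (fun i => s i x) (P.coeff i) * f x ^ i)
    (fun i _ => (mv_an hs (P.coeff i)).mul (hf.pow i))
  simpa using this

theorem iota_pol {σ : Type} {s : σ → C2 → ℂ} (hs : ∀ i, AnalyticAt ℂ (s i) p) {f : C2 → ℂ}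
    (hf : AnalyticAt ℂ f p) (P : Polynomial (MvPolynomial σ ℂ)) :
    G.ι (fun x => Polynomial.eval₂ (MvPolynomial.eval (fun i => s i x)) (f x) P) =
      Polynomial.eval₂ (MvPolynomial.aeval (fun i => G.ι (s i))).toRingHom (G.ι f) P := by
  simp only [Polynomial.eval₂_eq_sum_range]
  rw [iota_sum G (Finset.range (P.natDegree + 1))
    (fun i x => MvPolynomial.eval (fun i => s i x) (P.coeff i) * f x ^ i)
    (fun i _ => (mv_an hs (P.coeff i)).mul (hf.pow i))]
  refine Finset.sum_congr rfl fun i _ => ?_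
  rw [G.mul _ (fun x => f x ^ i) (mv_an hs (P.coeff i)) (hf.fun_pow i), iota_mv G hs, iota_pow G hf]
  rfl

/-- **dictionary**, ring form -/
theorem algAt_iff_ring {σ : Type} {s : σ → C2 → ℂ} (hs : ∀ i, AnalyticAt ℂ (s i) p) {f : C2 → ℂ}
    (hf : AnalyticAt ℂ f p) :
    AlgAt p s f ↔ IsAlgebraic (Algebra.adjoin ℂ (Set.range fun i => G.ι (s i))) (G.ι f) := by
  set φ : MvPolynomial σ ℂ →ₐ[ℂ] K := MvPolynomial.aeval (fun i => G.ι (s i)) with hφ
  have hr : φ.range = Algebra.adjoin ℂ (Set.range fun i => G.ι (s i)) :=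
    (Algebra.adjoin_range_eq_range_aeval ℂ _).symm
  rw [← hr]
  have key : ∀ P : Polynomial (MvPolynomial σ ℂ),
      Polynomial.aeval (G.ι f) (P.map (φ.rangeRestrict : MvPolynomial σ ℂ →+* φ.range)) =
        Polynomial.eval₂ φ.toRingHom (G.ι f) P := by
    intro P
    rw [Polynomial.aeval_def, Polynomial.eval₂_map]
    rfl
  have hz : ∀ Q : MvPolynomial σ ℂ, φ Q = 0 ↔
      ∀ᶠ x in 𝓝 p, MvPolynomial.eval (fun i => s i x) Q = 0 := by
    intro Q
    rw [← G.zero_iff _ (mv_an hs Q), iota_mv G hs]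
  constructor
  · rintro ⟨P, hP, n, hn⟩
    refine ⟨P.map (φ.rangeRestrict : MvPolynomial σ ℂ →+* φ.range), fun h0 => hn ?_, ?_⟩
    · have h1 : (P.map (φ.rangeRestrict : MvPolynomial σ ℂ →+* φ.range)).coeff n = 0 := by
        rw [h0]; simp
      rw [Polynomial.coeff_map] at h1
      refine (hz _).1 ?_
      have h2 := congrArg (fun z : φ.range => (z : K)) h1
      simpa using h2
    · rw [key, ← iota_pol G hs hf P]
      exact (G.zero_iff _ (pol_an hs hf P)).2 hP
  · rintro ⟨Q, hQ0, hQ⟩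
    obtain ⟨P, hP⟩ := Polynomial.map_surjective (φ.rangeRestrict : MvPolynomial σ ℂ →+* φ.range)
      φ.rangeRestrict_surjective Q
    refine ⟨P, ?_, ?_⟩
    · refine (G.zero_iff _ (pol_an hs hf P)).1 ?_
      rw [iota_pol G hs hf P, ← hφ, ← key P, hP, hQ]
    · by_contra hcon
      push Not at hcon
      apply hQ0
      rw [← hP]
      ext n
      rw [Polynomial.coeff_map]
      have h1 := (hz _).2 (hcon n)
      simpa using h1

omit G in
/-- algebraic over the ring = algebraic over the field -/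
theorem isAlgebraic_adjoin_iff {S : Set K} {z : K} :
    IsAlgebraic (Algebra.adjoin ℂ S) z ↔ IsAlgebraic (IntermediateField.adjoin ℂ S) z := by
  open scoped IntermediateField.algebraAdjoinAdjoin in
  exact IsFractionRing.isAlgebraic_iff (Algebra.adjoin ℂ S) (IntermediateField.adjoin ℂ S) K

/-- **dictionary**: `AlgAt` means algebraic over the field generated by the germs -/
theorem algAt_iff {σ : Type} {s : σ → C2 → ℂ} (hs : ∀ i, AnalyticAt ℂ (s i) p) {f : C2 → ℂ}
    (hf : AnalyticAt ℂ f p) :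
    AlgAt p s f ↔
      IsAlgebraic (IntermediateField.adjoin ℂ (Set.range fun i => G.ι (s i))) (G.ι f) := by
  rw [algAt_iff_ring G hs hf, isAlgebraic_adjoin_iff]

omit G in
/-- algebraic over a smaller intermediate field -/
theorem isAlgebraic_mono {A B : IntermediateField ℂ K} (h : A ≤ B) {z : K}
    (hz : IsAlgebraic A z) : IsAlgebraic B z :=
  IsAlgebraic.tower_top_of_subalgebra_le (A := A.toSubalgebra) (B := B.toSubalgebra) h hz

/-! ### derivations -/

theorem D_iota (a : Fin 2) {f : C2 → ℂ} (hf : AnalyticAt ℂ f p) :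
    G.D a (G.ι f) = G.ι (dd a f) := by
  fin_cases a
  · change G.D 0 (G.ι f) = G.ι (dd 0 f)
    rw [G.d1 f hf, dd_zero]
  · change G.D 1 (G.ι f) = G.ι (dd 1 f)
    rw [G.d2 f hf, dd_one]

/-- chain rule -/
theorem D_comp (a : Fin 2) {g : ℂ → ℂ} {b : C2 → ℂ} (hb : AnalyticAt ℂ b p)
    (hg : AnalyticAt ℂ g (b p)) :
    G.D a (G.ι (fun x => g (b x))) = G.ι (fun x => deriv g (b x)) * G.D a (G.ι b) := by
  have hc : AnalyticAt ℂ (fun x => g (b x)) p := hg.comp hb
  have hd : AnalyticAt ℂ (fun x => deriv g (b x)) p := hg.deriv.comp hb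
  rw [D_iota G a hc, D_iota G a hb, ← G.mul _ _ hd (dd_an a hb)]
  refine iota_congr G (dd_an a hc) ?_
  have h1 : ∀ᶠ x in 𝓝 p, AnalyticAt ℂ g (b x) :=
    hb.continuousAt.eventually hg.eventually_analyticAt
  filter_upwards [hb.eventually_analyticAt, h1] with x hx1 hx2
  simp only [dd]
  have h2 : HasFDerivAt (fun x => g (b x)) (deriv g (b x) • fderiv ℂ b x) x :=
    HasDerivAt.comp_hasFDerivAt x hx2.differentiableAt.hasDerivAt
      hx1.differentiableAt.hasFDerivAt
  rw [h2.fderiv]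
  rfl

theorem D_comp_iter (a : Fin 2) {g : ℂ → ℂ} {b : C2 → ℂ} (hb : AnalyticAt ℂ b p)
    (hg : AnalyticAt ℂ g (b p)) (i : ℕ) :
    G.D a (G.ι (fun x => iteratedDeriv i g (b x))) =
      G.ι (fun x => iteratedDeriv (i + 1) g (b x)) * G.D a (G.ι b) := by
  have h := D_comp G a (g := iteratedDeriv i g) hb (by
    rw [iteratedDeriv_eq_iterate]
    exact hg.iterated_deriv i)
  rw [h]
  simp only [iteratedDeriv_succ]

omit G in
/-- stability of a field under a derivation -/
theorem der_adjoin (D : Derivation ℂ K K) {S : Set K} {F : IntermediateField ℂ K}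
    (h1 : S ⊆ F) (h2 : ∀ s ∈ S, D s ∈ F) {x : K} (hx : x ∈ IntermediateField.adjoin ℂ S) :
    D x ∈ F := by
  have hle : IntermediateField.adjoin ℂ S ≤ F := IntermediateField.adjoin_le_iff.2 h1
  induction hx using IntermediateField.adjoin_induction with
  | mem x hx => exact h2 x hx
  | algebraMap x => rw [D.map_algebraMap]; exact zero_mem F
  | add x y hx hy h3 h4 => rw [map_add]; exact add_mem h3 h4
  | inv x hx h3 =>
    rw [Derivation.leibniz_inv]
    have h5 : x ∈ F := hle hx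
    simp only [smul_eq_mul]
    exact mul_mem (neg_mem (pow_mem (inv_mem h5) 2)) h3
  | mul x y hx hy h3 h4 =>
    rw [D.leibniz]
    simp only [smul_eq_mul]
    exact add_mem (mul_mem (hle hx) h4) (mul_mem (hle hy) h3)

end G

end Crest.Agent.R102.H3D426
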