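import Crest.Agent.R102.H3Defs_337

/-!
Row 102, [H3], leaf GEXT: the mirrors of the deformed chain are analytic on a fixed disc.
-/

set_option autoImplicit false

noncomputable section

open Filter Topology Set Metric
open scoped NNReal

namespace Crest.Agent.R102.H3.GEXT324

/-- uniqueness for `u' = c(t) V(u)` on the real segment `[0,1]` -/
theorem seg {E : Type*} [NormedAddCommGroup E] [NormedSpace ℂ E] {V : E → E} {N : Set E} {K : ℝ≥0}
    (hV : LipschitzOnWith K V N) {f g : ℝ → E} {c : ℝ → ℂ} {C : ℝ≥0}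
    (hf : ∀ t ∈ Icc (0 : ℝ) 1, HasDerivAt f (c t • V (f t)) t ∧ f t ∈ N)
    (hg : ∀ t ∈ Icc (0 : ℝ) 1, HasDerivAt g (c t • V (g t)) t ∧ g t ∈ N)
    (hc : ∀ t ∈ Icc (0 : ℝ) 1, ‖c t‖ ≤ C) (h0 : f 0 = g 0) : f 1 = g 1 := by
  have key := ODE_solution_unique_of_mem_Icc_right (v := fun t y => c t • V y) (s := fun _ => N)
    (K := C * K) (f := f) (g := g) (a := 0) (b := 1) ?_ ?_ ?_ ?_ ?_ ?_ ?_ h0
  · exact key ⟨zero_le_one, le_rfl⟩
  · intro t ht
    have ht' : t ∈ Icc (0 : ℝ) 1 := ⟨ht.1, ht.2.le⟩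
    refine LipschitzOnWith.of_dist_le_mul fun x hx y hy => ?_
    rw [dist_eq_norm, ← smul_sub, norm_smul, ← dist_eq_norm, NNReal.coe_mul, mul_assoc]
    exact mul_le_mul (hc t ht') (hV.dist_le_mul x hx y hy) dist_nonneg C.2
  · exact fun t ht => (hf t ht).1.continuousAt.continuousWithinAt
  · exact fun t ht => (hf t ⟨ht.1, ht.2.le⟩).1.hasDerivWithinAt
  · exact fun t ht => (hf t ⟨ht.1, ht.2.le⟩).2
  · exact fun t ht => (hg t ht).1.continuousAt.continuousWithinAt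
  · exact fun t ht => (hg t ⟨ht.1, ht.2.le⟩).1.hasDerivWithinAt
  · exact fun t ht => (hg t ⟨ht.1, ht.2.le⟩).2

variable {r : ℕ}

/-- the vector field `(1, y_1, …, y_r, Num / Den)` -/
def VF (Num Den : MvPolynomial (Fin (r + 2)) ℂ) (s : Fin (r + 2) → ℂ) (j : Fin (r + 2)) : ℂ :=
  if (j : ℕ) = 0 then 1 else
    if h : (j : ℕ) + 1 < r + 2 then s ⟨j + 1, h⟩ else
      MvPolynomial.eval s Num / MvPolynomial.eval s Den

theorem VF_zero (Num Den : MvPolynomial (Fin (r + 2)) ℂ) (s : Fin (r + 2) → ℂ) :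
    VF Num Den s 0 = 1 := by simp [VF]

theorem VF_mid (Num Den : MvPolynomial (Fin (r + 2)) ℂ) (s : Fin (r + 2) → ℂ) (i : Fin r) :
    VF Num Den s i.castSucc.succ = s i.succ.succ := by
  have h1 : ((i.castSucc.succ : Fin (r + 2)) : ℕ) = i + 1 := by simp
  rw [VF, if_neg (by omega), dif_pos (by omega)]
  congr 1

theorem VF_last (Num Den : MvPolynomial (Fin (r + 2)) ℂ) (s : Fin (r + 2) → ℂ) :
    VF Num Den s (Fin.last r).succ = MvPolynomial.eval s Num / MvPolynomial.eval s Den := by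
  have h1 : (((Fin.last r).succ : Fin (r + 2)) : ℕ) = r + 1 := by simp
  rw [VF, if_neg (by omega), dif_neg (by omega)]

theorem analyticAt_VF (Num Den : MvPolynomial (Fin (r + 2)) ℂ) (s : Fin (r + 2) → ℂ)
    (h : MvPolynomial.eval s Den ≠ 0) : AnalyticAt ℂ (VF Num Den) s := by
  rw [analyticAt_pi_iff]
  intro j
  unfold VF
  split_ifs with h0 h1
  · exact analyticAt_const
  · exact (ContinuousLinearMap.proj (R := ℂ) (φ := fun _ : Fin (r + 2) => ℂ)
      (⟨j + 1, h1⟩ : Fin (r + 2))).analyticAt s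
  · exact (AnalyticOnNhd.eval_mvPolynomial Num s (mem_univ _)).div
      (AnalyticOnNhd.eval_mvPolynomial Den s (mem_univ _)) h

theorem analyticAt_iteratedDeriv {g : ℂ → ℂ} {x : ℂ} (h : AnalyticAt ℂ g x) (n : ℕ) :
    AnalyticAt ℂ (iteratedDeriv n g) x := by
  rw [iteratedDeriv_eq_iterate]; exact h.iterated_deriv n

theorem jet_zero (g : ℂ → ℂ) : (fun z => jet g r z 0) = fun z => z := by
  funext z; simp [jet]

theorem jet_succ (g : ℂ → ℂ) (i : Fin (r + 1)) :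
    (fun z => jet g r z i.succ) = iteratedDeriv i g := by
  funext z; simp [jet]

theorem analyticAt_jet {g : ℂ → ℂ} {x : ℂ} (h : AnalyticAt ℂ g x) :
    AnalyticAt ℂ (jet g r) x := by
  rw [analyticAt_pi_iff]
  intro j
  refine Fin.cases ?_ (fun i => ?_) j
  · rw [jet_zero]; exact analyticAt_id
  · rw [jet_succ]; exact analyticAt_iteratedDeriv h i

theorem hasDerivAt_jet {g : ℂ → ℂ} {x : ℂ} (h : AnalyticAt ℂ g x)
    {Num Den : MvPolynomial (Fin (r + 2)) ℂ} (hD : MvPolynomial.eval (jet g r x) Den ≠ 0)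
    (he : iteratedDeriv (r + 1) g x * MvPolynomial.eval (jet g r x) Den =
      MvPolynomial.eval (jet g r x) Num) : HasDerivAt (jet g r) (VF Num Den (jet g r x)) x := by
  rw [hasDerivAt_pi]
  intro j
  refine Fin.cases ?_ (fun i => ?_) j
  · rw [VF_zero, jet_zero]
    exact hasDerivAt_id' x
  · have hd : HasDerivAt (iteratedDeriv i g) (iteratedDeriv (i + 1) g x) x := by
      rw [iteratedDeriv_succ]
      exact (analyticAt_iteratedDeriv h i).differentiableAt.hasDerivAt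
    rw [jet_succ]
    have hv : VF Num Den (jet g r x) i.succ = iteratedDeriv (i + 1) g x := by
      refine Fin.lastCases (motive := fun i => VF Num Den (jet g r x) i.succ =
        iteratedDeriv (i + 1) g x) ?_ (fun k => ?_) i
      · rw [VF_last, ← he, Fin.val_last, mul_div_assoc, div_self hD, mul_one]
      · rw [VF_mid]
        simp [jet]
    rw [hv]; exact hd

/-- `S = (b, y_0, …, y_r)` -/
def St (b : C3 → ℂ) (y : Fin (r + 1) → C3 → ℂ) (x : C3) : Fin (r + 2) → ℂ :=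
  Fin.cons (b x) (fun i => y i x)

theorem St_zero (b : C3 → ℂ) (y : Fin (r + 1) → C3 → ℂ) : (fun x => St b y x 0) = b := by
  funext z; simp [St]

theorem St_succ (b : C3 → ℂ) (y : Fin (r + 1) → C3 → ℂ) (i : Fin (r + 1)) :
    (fun x => St b y x i.succ) = y i := by
  funext z; simp [St]

theorem analyticAt_St {b : C3 → ℂ} {y : Fin (r + 1) → C3 → ℂ} {x : C3} (hb : AnalyticAt ℂ b x)
    (hy : ∀ i, AnalyticAt ℂ (y i) x) : AnalyticAt ℂ (St b y) x := by
  rw [analyticAt_pi_iff]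
  intro j
  refine Fin.cases ?_ (fun i => ?_) j
  · rw [St_zero]; exact hb
  · rw [St_succ]; exact hy i

/-- the equation of `S` along the directions `(h, 0)` -/
theorem fderiv_St {b : C3 → ℂ} {y : Fin (r + 1) → C3 → ℂ} {x : C3} (hb : AnalyticAt ℂ b x)
    (hy : ∀ i, AnalyticAt ℂ (y i) x) {Num Den : MvPolynomial (Fin (r + 2)) ℂ}
    (hD : MvPolynomial.eval (St b y x) Den ≠ 0)
    (h : ∀ v ∈ ({((1, 0), 0), ((0, 1), 0)} : Set C3),
        (∀ i : Fin r, fderiv ℂ (y i.castSucc) x v = y i.succ x * fderiv ℂ b x v) ∧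
        fderiv ℂ (y (Fin.last r)) x v * MvPolynomial.eval (Fin.cons (b x) (fun i => y i x)) Den =
          MvPolynomial.eval (Fin.cons (b x) (fun i => y i x)) Num * fderiv ℂ b x v) (k : C2) :
    fderiv ℂ (St b y) x (k, 0) = fderiv ℂ b x (k, 0) • VF Num Den (St b y x) := by
  have hS : DifferentiableAt ℂ (St b y) x := (analyticAt_St hb hy).differentiableAt
  -- one direction
  have key : ∀ v ∈ ({((1, 0), 0), ((0, 1), 0)} : Set C3),
      fderiv ℂ (St b y) x v = fderiv ℂ b x v • VF Num Den (St b y x) := by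
    intro v hv
    obtain ⟨h1, h2⟩ := h v hv
    funext j
    have hj : fderiv ℂ (St b y) x v j = fderiv ℂ (fun z => St b y z j) x v := by
      rw [fderiv_apply hS j]; rfl
    rw [hj]
    refine Fin.cases ?_ (fun i => ?_) j
    · rw [St_zero, Pi.smul_apply, VF_zero, smul_eq_mul, mul_one]
    · rw [St_succ, Pi.smul_apply, smul_eq_mul]
      refine Fin.lastCases (motive := fun i => fderiv ℂ (y i) x v =
        fderiv ℂ b x v * VF Num Den (St b y x) i.succ) ?_ (fun k => ?_) i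
      · rw [VF_last, ← mul_div_assoc, eq_div_iff hD, mul_comm (fderiv ℂ b x v)]
        exact h2
      · rw [VF_mid, h1 k, mul_comm]
        simp [St]
  have hk : ((k, 0) : C3) = k.1 • ((1, 0), 0) + k.2 • ((0, 1), 0) := by
    ext <;> simp
  rw [hk, map_add, map_smul, map_smul, map_add, map_smul, map_smul,
    key _ (by simp), key _ (by simp), smul_smul, smul_smul, ← add_smul]
  rfl

section flow

variable {Num Den : MvPolynomial (Fin (r + 2)) ℂ} {y₀ : Fin (r + 2) → ℂ} {δ : ℝ}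
  {Φ : ℂ × (Fin (r + 2) → ℂ) → (Fin (r + 2) → ℂ)}

theorem mem_flow {s : ℂ} {Y : Fin (r + 2) → ℂ} (hs : ‖s‖ < δ) (hY : Y ∈ ball y₀ δ) :
    (s, Y) ∈ ball ((0 : ℂ), y₀) δ := by
  rw [mem_ball, Prod.dist_eq, max_lt_iff]
  exact ⟨by simpa using hs, hY⟩

/-- the flow through the jet of a solution is the jet of the solution -/
theorem flow_jet (hΦan : AnalyticOnNhd ℂ Φ (ball (0, y₀) δ))
    (hΦ0 : ∀ y ∈ ball y₀ δ, Φ (0, y) = y)
    (hΦ : ∀ x ∈ ball ((0 : ℂ), y₀) δ, AnalyticAt ℂ (VF Num Den) (Φ x) ∧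
        HasDerivAt (fun s => Φ (s, x.2)) (VF Num Den (Φ x)) x.1)
    {g : ℂ → ℂ} {x₀ : ℂ} {r₀ : ℝ} (h2 : 2 * r₀ ≤ δ)
    (hb : ∀ x ∈ ball x₀ r₀, AnalyticAt ℂ g x ∧ MvPolynomial.eval (jet g r x) Den ≠ 0 ∧
      (iteratedDeriv (r + 1) g x * MvPolynomial.eval (jet g r x) Den =
        MvPolynomial.eval (jet g r x) Num) ∧ jet g r x ∈ ball y₀ δ)
    {β : ℂ} (hβ : β ∈ ball x₀ r₀) :
    ∀ x ∈ ball x₀ r₀, Φ (x - β, jet g r β) = jet g r x := by
  have hsm : ∀ z ∈ ball x₀ r₀, ‖z - β‖ < δ := by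
    intro z hz
    have h1 := mem_ball.1 hz
    have h3 := mem_ball'.1 hβ
    have := dist_triangle z x₀ β
    rw [← dist_eq_norm]; linarith
  have hYβ := (hb β hβ).2.2.2
  have han1 : AnalyticOnNhd ℂ (fun z => Φ (z - β, jet g r β)) (ball x₀ r₀) := by
    intro z hz
    have h1 : AnalyticAt ℂ (fun w : ℂ => (w - β, jet g r β)) z :=
      (analyticAt_id.sub analyticAt_const).prod analyticAt_const
    exact (hΦan _ (mem_flow (hsm z hz) hYβ)).fun_comp (f := fun w : ℂ => (w - β, jet g r β)) h1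
  have han2 : AnalyticOnNhd ℂ (jet g r) (ball x₀ r₀) := fun z hz => analyticAt_jet (hb z hz).1
  have hVβ : AnalyticAt ℂ (VF Num Den) (jet g r β) := analyticAt_VF Num Den _ (hb β hβ).2.1
  obtain ⟨K, N, hN, hLip⟩ :=
    (hVβ.contDiffAt (n := 1)).exists_lipschitzOnWith
  have hc1 : ContinuousAt (fun z => Φ (z - β, jet g r β)) β := (han1 β hβ).continuousAt
  have hc2 : ContinuousAt (jet g r) β := (han2 β hβ).continuousAt
  have hv1 : Φ (β - β, jet g r β) = jet g r β := by rw [sub_self, hΦ0 _ hYβ]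
  have ev : ∀ᶠ z in 𝓝 β, Φ (z - β, jet g r β) ∈ N ∧ jet g r z ∈ N ∧ z ∈ ball x₀ r₀ := by
    refine (hc1.eventually_mem (by rw [hv1]; exact hN)).and
      ((hc2.eventually_mem hN).and (isOpen_ball.mem_nhds hβ))
  obtain ⟨ρ, hρ, hev⟩ := Metric.eventually_nhds_iff_ball.1 ev
  have heq : (fun z => Φ (z - β, jet g r β)) =ᶠ[𝓝 β] jet g r := by
    filter_upwards [ball_mem_nhds β hρ] with z hz
    have hseg : ∀ t ∈ Icc (0 : ℝ) 1, β + (t : ℂ) * (z - β) ∈ ball β ρ := by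
      intro t ht
      rw [mem_ball, dist_eq_norm] at hz ⊢
      rw [add_sub_cancel_left, norm_mul, Complex.norm_real, Real.norm_of_nonneg ht.1]
      exact lt_of_le_of_lt (mul_le_of_le_one_left (norm_nonneg _) ht.2) hz
    have hγ : ∀ t : ℝ, HasDerivAt (fun t : ℝ => β + (t : ℂ) * (z - β)) (z - β) t := by
      intro t
      simpa using ((Complex.ofRealCLM.hasDerivAt (x := t)).mul_const (z - β)).const_add β
    have := seg hLip (f := fun t : ℝ => Φ ((β + (t : ℂ) * (z - β)) - β, jet g r β))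
      (g := fun t : ℝ => jet g r (β + (t : ℂ) * (z - β))) (c := fun _ => z - β)
      (C := ‖z - β‖₊) ?_ ?_ (fun _ _ => le_rfl) ?_
    · simpa using this
    · intro t ht
      have hm := hev _ (hseg t ht)
      refine ⟨?_, hm.1⟩
      have h5 := (hΦ _ (mem_flow (hsm _ hm.2.2) hYβ)).2
      have h6 : HasDerivAt (fun w => Φ (w - β, jet g r β))
          (VF Num Den (Φ ((β + (t : ℂ) * (z - β)) - β, jet g r β))) (β + (t : ℂ) * (z - β)) :=
        HasDerivAt.comp_sub_const (β + (t : ℂ) * (z - β)) β h5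
      exact HasDerivAt.scomp t h6 (hγ t)
    · intro t ht
      have hm := hev _ (hseg t ht)
      refine ⟨?_, hm.2.1⟩
      have h7 := hb _ hm.2.2
      exact HasDerivAt.scomp t (hasDerivAt_jet h7.1 h7.2.1 h7.2.2.1) (hγ t)
    · simp only [Complex.ofReal_zero, zero_mul, add_zero]
      exact hv1
  exact han1.eqOn_of_preconnected_of_eventuallyEq han2 (convex_ball x₀ r₀).isPreconnected hβ heq

/-- the state is the flow of the state over `p` -/
theorem flow_state (hΦan : AnalyticOnNhd ℂ Φ (ball (0, y₀) δ)) (hδ : 0 < δ)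
    (hΦ0 : ∀ y ∈ ball y₀ δ, Φ (0, y) = y)
    (hΦ : ∀ x ∈ ball ((0 : ℂ), y₀) δ, AnalyticAt ℂ (VF Num Den) (Φ x) ∧
        HasDerivAt (fun s => Φ (s, x.2)) (VF Num Den (Φ x)) x.1)
    {p : C2} {b : C3 → ℂ} {y : Fin (r + 1) → C3 → ℂ} (hb : AnalyticAt ℂ b (p, 0))
    (hy : ∀ i, AnalyticAt ℂ (y i) (p, 0)) (hD : MvPolynomial.eval (St b y (p, 0)) Den ≠ 0)
    (hS0 : St b y (p, 0) ∈ ball y₀ δ)
    (hder : ∀ v ∈ ({((1, 0), 0), ((0, 1), 0)} : Set C3), ∀ᶠ x in 𝓝 ((p, 0) : C3),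
        (∀ i : Fin r, fderiv ℂ (y i.castSucc) x v = y i.succ x * fderiv ℂ b x v) ∧
        fderiv ℂ (y (Fin.last r)) x v * MvPolynomial.eval (Fin.cons (b x) (fun i => y i x)) Den =
          MvPolynomial.eval (Fin.cons (b x) (fun i => y i x)) Num * fderiv ℂ b x v) :
    ∀ᶠ x in 𝓝 ((p, 0) : C3), St b y x = Φ (b x - b (p, x.2), St b y (p, x.2)) := by
  have hSan : AnalyticAt ℂ (St b y) (p, 0) := analyticAt_St hb hy
  have hπ : AnalyticAt ℂ (fun x : C3 => ((p, x.2) : C3)) (p, 0) :=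
    analyticAt_const.prod analyticAt_snd
  have hbπ : AnalyticAt ℂ (fun x : C3 => b (p, x.2)) (p, 0) := hb.fun_comp (f := fun x : C3 => ((p, x.2) : C3)) hπ
  have hSπ : AnalyticAt ℂ (fun x : C3 => St b y (p, x.2)) (p, 0) := hSan.fun_comp (f := fun x : C3 => ((p, x.2) : C3)) hπ
  have hA : AnalyticAt ℂ (fun x : C3 => (b x - b (p, x.2), St b y (p, x.2))) (p, 0) :=
    (hb.sub hbπ).prod hSπ
  have hA0 : (b (p, 0) - b (p, (0 : ℂ)), St b y (p, (0 : ℂ))) ∈ ball ((0 : ℂ), y₀) δ :=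
    mem_flow (by simpa using hδ) hS0
  have hW : AnalyticAt ℂ (fun x : C3 => Φ (b x - b (p, x.2), St b y (p, x.2))) (p, 0) :=
    (hΦan _ hA0).fun_comp (f := fun x : C3 => (b x - b (p, x.2), St b y (p, x.2))) hA
  have hV : AnalyticAt ℂ (VF Num Den) (St b y (p, 0)) := analyticAt_VF Num Den _ hD
  obtain ⟨K, N, hN, hLip⟩ := (hV.contDiffAt (n := 1)).exists_lipschitzOnWith
  have hW0 : Φ (b (p, 0) - b (p, (0 : ℂ)), St b y (p, (0 : ℂ))) = St b y (p, 0) := by
    rw [sub_self, hΦ0 _ hS0]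
  have hDc : ∀ᶠ x in 𝓝 ((p, 0) : C3), MvPolynomial.eval (St b y x) Den ≠ 0 := by
    have : ContinuousAt (fun x => MvPolynomial.eval (St b y x) Den) ((p, 0) : C3) :=
      ((AnalyticOnNhd.eval_mvPolynomial Den _ (mem_univ _)).fun_comp hSan).continuousAt
    exact this.eventually_ne hD
  have hfb : ∀ᶠ x in 𝓝 ((p, 0) : C3), ‖fderiv ℂ b x‖ < ‖fderiv ℂ b (p, 0)‖ + 1 := by
    have : ContinuousAt (fun x => ‖fderiv ℂ b x‖) ((p, 0) : C3) := hb.fderiv.continuousAt.norm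
    exact this.eventually_lt continuousAt_const (by simp)
  have ev : ∀ᶠ x in 𝓝 ((p, 0) : C3), AnalyticAt ℂ b x ∧ (∀ i, AnalyticAt ℂ (y i) x) ∧
      MvPolynomial.eval (St b y x) Den ≠ 0 ∧
      (∀ v ∈ ({((1, 0), 0), ((0, 1), 0)} : Set C3),
        (∀ i : Fin r, fderiv ℂ (y i.castSucc) x v = y i.succ x * fderiv ℂ b x v) ∧
        fderiv ℂ (y (Fin.last r)) x v * MvPolynomial.eval (Fin.cons (b x) (fun i => y i x)) Den =
          MvPolynomial.eval (Fin.cons (b x) (fun i => y i x)) Num * fderiv ℂ b x v) ∧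
      St b y x ∈ N ∧ Φ (b x - b (p, x.2), St b y (p, x.2)) ∈ N ∧
      (b x - b (p, x.2), St b y (p, x.2)) ∈ ball ((0 : ℂ), y₀) δ ∧
      ‖fderiv ℂ b x‖ < ‖fderiv ℂ b (p, 0)‖ + 1 := by
    refine hb.eventually_analyticAt.and ((eventually_all.2 fun i => (hy i).eventually_analyticAt).and
      (hDc.and (Eventually.and ?_ ((hSan.continuousAt.eventually_mem hN).and
        ((hW.continuousAt.eventually_mem (by simpa only [hW0] using hN)).and
          ((hA.continuousAt.eventually_mem (isOpen_ball.mem_nhds hA0)).and hfb))))))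
    have h1 := hder _ (mem_insert _ _)
    have h2 := hder ((0, 1), 0) (by simp)
    filter_upwards [h1, h2] with x hx1 hx2
    intro v hv
    rcases hv with rfl | hv
    · exact hx1
    · rw [mem_singleton_iff] at hv; subst hv; exact hx2
  obtain ⟨ρ, hρ, hev⟩ := Metric.eventually_nhds_iff_ball.1 ev
  filter_upwards [ball_mem_nhds ((p, 0) : C3) hρ] with x hx
  obtain ⟨l, ε⟩ := x
  have hx' : dist l p < ρ ∧ dist ε 0 < ρ := by
    rw [mem_ball, Prod.dist_eq, max_lt_iff] at hx; exact hx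
  have hseg : ∀ t ∈ Icc (0 : ℝ) 1, ((p + t • (l - p), ε) : C3) ∈ ball ((p, 0) : C3) ρ := by
    intro t ht
    rw [mem_ball, Prod.dist_eq, max_lt_iff]
    refine ⟨?_, hx'.2⟩
    rw [dist_eq_norm, add_sub_cancel_left, norm_smul, Real.norm_of_nonneg ht.1]
    rw [dist_eq_norm] at hx'
    exact lt_of_le_of_lt (mul_le_of_le_one_left (norm_nonneg _) ht.2) hx'.1
  have hγ : ∀ t : ℝ, HasDerivAt (fun t : ℝ => ((p + t • (l - p), ε) : C3)) (l - p, 0) t := by
    intro t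
    have h1 : HasDerivAt (fun t : ℝ => p + t • (l - p)) (l - p) t := by
      simpa using ((hasDerivAt_id t).smul_const (l - p)).const_add p
    exact h1.prodMk (hasDerivAt_const t ε)
  have hbγ : ∀ t ∈ Icc (0 : ℝ) 1, HasDerivAt (fun t : ℝ => b (p + t • (l - p), ε))
      (fderiv ℂ b (p + t • (l - p), ε) (l - p, 0)) t := by
    intro t ht
    have := ((hev _ (hseg t ht)).1.differentiableAt.hasFDerivAt.restrictScalars ℝ).comp_hasDerivAt
      t (hγ t)
    exact this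
  have hγ1 : ((p + (1 : ℝ) • (l - p), ε) : C3) = (l, ε) := by simp
  have hγ0 : ((p + (0 : ℝ) • (l - p), ε) : C3) = (p, ε) := by simp
  have := seg hLip (f := fun t : ℝ => St b y (p + t • (l - p), ε))
    (g := fun t : ℝ => Φ (b (p + t • (l - p), ε) - b (p, ε), St b y (p, ε)))
    (c := fun t : ℝ => fderiv ℂ b (p + t • (l - p), ε) (l - p, 0))
    (C := Real.toNNReal ((‖fderiv ℂ b (p, 0)‖ + 1) * ‖((l - p, 0) : C3)‖)) ?_ ?_ ?_ ?_
  · simp only [hγ1] at this
    exact this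
  · intro t ht
    have hm := hev _ (hseg t ht)
    refine ⟨?_, hm.2.2.2.2.1⟩
    have h8 := ((analyticAt_St hm.1 hm.2.1).differentiableAt.hasFDerivAt.restrictScalars
      ℝ).comp_hasDerivAt t (hγ t)
    have h9 := fderiv_St hm.1 hm.2.1 hm.2.2.1 hm.2.2.2.1 (l - p)
    rw [← h9]
    exact h8
  · intro t ht
    have hm := hev _ (hseg t ht)
    refine ⟨?_, hm.2.2.2.2.2.1⟩
    have h5 := (hΦ _ hm.2.2.2.2.2.2.1).2
    have h6 : HasDerivAt (fun t : ℝ => b (p + t • (l - p), ε) - b (p, ε))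
        (fderiv ℂ b (p + t • (l - p), ε) (l - p, 0)) t := (hbγ t ht).sub_const _
    exact HasDerivAt.scomp t h5 h6
  · intro t ht
    have hm := hev _ (hseg t ht)
    rw [Real.coe_toNNReal _ (by positivity)]
    exact (ContinuousLinearMap.le_opNorm _ _).trans
      (mul_le_mul_of_nonneg_right hm.2.2.2.2.2.2.2.le (norm_nonneg _))
  · have h10 : ((p, ε) : C3) ∈ ball ((p, 0) : C3) ρ := by
      have := hseg 0 ⟨le_rfl, zero_le_one⟩
      rwa [hγ0] at this
    have h11 := (hev _ h10).2.2.2.2.2.2.1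
    have h12 : St b y (p, ε) ∈ ball y₀ δ := by
      rw [mem_ball, Prod.dist_eq, max_lt_iff] at h11
      exact h11.2
    simp only [hγ0, sub_self, hΦ0 _ h12]

end flow

end Crest.Agent.R102.H3.GEXT324

namespace Crest.Agent.R102.H3

open GEXT324

theorem leafGEXT (hODE : LeafODE) : LeafGEXT := by
  intro r g x₀ Num Den hg hNF
  obtain ⟨hD0, hE⟩ := hNF
  have hVan : AnalyticAt ℂ (VF Num Den) (jet g r x₀) := analyticAt_VF Num Den _ hD0
  obtain ⟨δ, hδ, Φ, hΦan, hΦ0, hΦ⟩ := hODE (r + 2) (VF Num Den) (jet g r x₀) hVan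
  have hcont : ContinuousAt (jet g r) x₀ := (analyticAt_jet hg).continuousAt
  have ev : ∀ᶠ x in 𝓝 x₀, AnalyticAt ℂ g x ∧ MvPolynomial.eval (jet g r x) Den ≠ 0 ∧
      (iteratedDeriv (r + 1) g x * MvPolynomial.eval (jet g r x) Den =
        MvPolynomial.eval (jet g r x) Num) ∧ jet g r x ∈ ball (jet g r x₀) δ := by
    refine hg.eventually_analyticAt.and (Eventually.and ?_ (hE.and
      (hcont.eventually_mem (ball_mem_nhds _ hδ))))
    have : ContinuousAt (fun x => MvPolynomial.eval (jet g r x) Den) x₀ :=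
      ((AnalyticOnNhd.eval_mvPolynomial Den _ (mem_univ _)).fun_comp (analyticAt_jet hg)).continuousAt
    exact this.eventually_ne hD0
  obtain ⟨ρ, hρ, hball⟩ := Metric.eventually_nhds_iff_ball.1 ev
  set r₀ : ℝ := min ρ (δ / 2) with hr₀
  have hr₀pos : 0 < r₀ := lt_min hρ (by positivity)
  have h2 : 2 * r₀ ≤ δ := by have := min_le_right ρ (δ / 2); linarith
  have hb0 : ∀ x ∈ ball x₀ r₀, AnalyticAt ℂ g x ∧ MvPolynomial.eval (jet g r x) Den ≠ 0 ∧
      (iteratedDeriv (r + 1) g x * MvPolynomial.eval (jet g r x) Den =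
        MvPolynomial.eval (jet g r x) Num) ∧ jet g r x ∈ ball (jet g r x₀) δ :=
    fun x hx => hball x (ball_subset_ball (min_le_left _ _) hx)
  refine ⟨r₀, hr₀pos, fun x hx => (hb0 x hx).1, ?_⟩
  intro p b y hb hy hβ hjet hder _
  have hS0 : St b y (p, 0) = jet g r (b (p, 0)) := by
    have := hjet.self_of_nhds
    simp only [St, jet, this]
  have hSan : AnalyticAt ℂ (St b y) (p, 0) := analyticAt_St hb hy
  have hD : MvPolynomial.eval (St b y (p, 0)) Den ≠ 0 := by rw [hS0]; exact (hb0 _ hβ).2.1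
  have hS0' : St b y (p, 0) ∈ ball (jet g r x₀) δ := by rw [hS0]; exact (hb0 _ hβ).2.2.2
  have hstate := flow_state hΦan hδ hΦ0 hΦ hb hy hD hS0' hder
  -- the radius in `ε`
  have hι : ContinuousAt (fun ε : ℂ => ((p, ε) : C3)) 0 := by fun_prop
  have evε : ∀ᶠ ε in 𝓝 (0 : ℂ), AnalyticAt ℂ b (p, ε) ∧ AnalyticAt ℂ (St b y) (p, ε) ∧
      b (p, ε) ∈ ball x₀ r₀ ∧ St b y (p, ε) ∈ ball (jet g r x₀) δ := by
    have h1 : ∀ᶠ x in 𝓝 ((p, 0) : C3), AnalyticAt ℂ b x ∧ AnalyticAt ℂ (St b y) x ∧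
        b x ∈ ball x₀ r₀ ∧ St b y x ∈ ball (jet g r x₀) δ :=
      hb.eventually_analyticAt.and (hSan.eventually_analyticAt.and
        ((hb.continuousAt.eventually_mem (isOpen_ball.mem_nhds hβ)).and
          (hSan.continuousAt.eventually_mem (isOpen_ball.mem_nhds hS0'))))
    exact hι.eventually h1
  obtain ⟨ε₀, hε₀, hε⟩ := Metric.eventually_nhds_iff_ball.1 evε
  have hsm : ∀ z ∈ ball x₀ r₀, ∀ w ∈ ball x₀ r₀, ‖z - w‖ < δ := by
    intro z hz w hw
    have h1 := mem_ball.1 hz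
    have h3 := mem_ball'.1 hw
    have := dist_triangle z x₀ w
    rw [← dist_eq_norm]; linarith
  let G : ℂ × ℂ → ℂ := fun q => Φ (q.1 - b (p, q.2), St b y (p, q.2)) (Fin.succ 0)
  -- the iterated derivatives of `G (·, ε)`
  have hit : ∀ ε ∈ ball (0 : ℂ) ε₀, ∀ (i : ℕ) (hi : i + 1 < r + 2), ∀ z ∈ ball x₀ r₀,
      iteratedDeriv i (fun z => G (z, ε)) z =
        Φ (z - b (p, ε), St b y (p, ε)) ⟨i + 1, hi⟩ := by
    intro ε hεm i
    induction i with
    | zero => intro hi z hz; simp [G]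
    | succ i ih =>
      intro hi z hz
      rw [iteratedDeriv_succ]
      have h1 : iteratedDeriv i (fun z => G (z, ε)) =ᶠ[𝓝 z]
          fun z => Φ (z - b (p, ε), St b y (p, ε)) ⟨i + 1, by omega⟩ := by
        filter_upwards [isOpen_ball.mem_nhds hz] with w hw
        exact ih (by omega) w hw
      rw [h1.deriv_eq]
      have hm := hε ε hεm
      have h5 := (hΦ _ (mem_flow (hsm z hz _ hm.2.2.1) hm.2.2.2)).2
      have h6 : HasDerivAt (fun w => Φ (w - b (p, ε), St b y (p, ε)))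
          (VF Num Den (Φ (z - b (p, ε), St b y (p, ε)))) z :=
        HasDerivAt.comp_sub_const z (b (p, ε)) h5
      rw [hasDerivAt_pi] at h6
      rw [(h6 ⟨i + 1, by omega⟩).deriv]
      simp only [VF]
      rw [if_neg (by simp), dif_pos (by simpa using hi)]
  refine ⟨ε₀, hε₀, G, ?_, ?_, ?_⟩
  · rintro ⟨z, ε⟩ ⟨hz, hεm⟩
    have hm := hε ε hεm
    have hin : AnalyticAt ℂ (fun q : ℂ × ℂ => ((p, q.2) : C3)) (z, ε) :=
      analyticAt_const.prod analyticAt_snd
    have h1 : AnalyticAt ℂ (fun q : ℂ × ℂ => b (p, q.2)) (z, ε) :=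
      AnalyticAt.fun_comp (g := b) (f := fun q : ℂ × ℂ => ((p, q.2) : C3)) hm.1 hin
    have h3 : AnalyticAt ℂ (fun q : ℂ × ℂ => St b y (p, q.2)) (z, ε) :=
      AnalyticAt.fun_comp (g := St b y) (f := fun q : ℂ × ℂ => ((p, q.2) : C3)) hm.2.1 hin
    have h4 : AnalyticAt ℂ (fun q : ℂ × ℂ => (q.1 - b (p, q.2), St b y (p, q.2))) (z, ε) :=
      (analyticAt_fst.sub h1).prod h3
    have h5 : AnalyticAt ℂ Φ (z - b (p, ε), St b y (p, ε)) :=
      hΦan _ (mem_flow (hsm z hz _ hm.2.2.1) hm.2.2.2)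
    have h6 : AnalyticAt ℂ (fun q : ℂ × ℂ => Φ (q.1 - b (p, q.2), St b y (p, q.2))) (z, ε) :=
      AnalyticAt.fun_comp (g := Φ) (f := fun q : ℂ × ℂ => (q.1 - b (p, q.2), St b y (p, q.2))) h5 h4
    exact (analyticAt_pi_iff.1 h6) (Fin.succ 0)
  · intro x hx
    have h7 := flow_jet hΦan hΦ0 hΦ h2 hb0 hβ x hx
    show Φ (x - b (p, 0), St b y (p, 0)) (Fin.succ 0) = g x
    rw [hS0, h7]
    simp [jet]
  · have h8 : ∀ᶠ x in 𝓝 ((p, 0) : C3), b x ∈ ball x₀ r₀ :=
      hb.continuousAt.eventually_mem (isOpen_ball.mem_nhds hβ)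
    have h9 : ∀ᶠ x in 𝓝 ((p, 0) : C3), x.2 ∈ ball (0 : ℂ) ε₀ := by
      have : ContinuousAt (fun x : C3 => x.2) (p, 0) := continuousAt_snd
      exact this.eventually_mem (ball_mem_nhds _ hε₀)
    filter_upwards [hstate, h8, h9] with x hx1 hx2 hx3
    intro i
    rw [hit x.2 hx3 i (by omega) (b x) hx2, ← hx1]
    have : (⟨(i : ℕ) + 1, by omega⟩ : Fin (r + 2)) = i.succ := by ext; simp
    rw [this]
    simp [St]

end Crest.Agent.R102.H3
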