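import Mathlib
import Crest.Agent.R102.H3Defs2_337
import Crest.Agent.R102.H3Dict_426

/-!
Row 102, [H3]: leaf JETA. The jets of the composed map are rational functions of the jets of the
chain.
-/

set_option autoImplicit false

noncomputable section

open Filter Topology Set Metric

namespace Crest.Agent.R102.H3J426

open Crest.Agent.R102.H3 Crest.Agent.R102.H3D426

/-- slopes of the lines of the chain -/
def mj (g : ℂ → ℂ) (b : ℕ → C2 → ℂ) (j : ℕ) (l : C2) : ℂ := (ln0 g (fun i => b i l) l j).1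
/-- intercepts of the lines of the chain -/
def kj (g : ℂ → ℂ) (b : ℕ → C2 → ℂ) (j : ℕ) (l : C2) : ℂ := (ln0 g (fun i => b i l) l j).2

theorem mj_zero (g : ℂ → ℂ) (b : ℕ → C2 → ℂ) : mj g b 0 = Prod.fst := rfl
theorem kj_zero (g : ℂ → ℂ) (b : ℕ → C2 → ℂ) : kj g b 0 = Prod.snd := rfl
theorem mj_succ (g : ℂ → ℂ) (b : ℕ → C2 → ℂ) (j : ℕ) :
    mj g b (j + 1) = fun l => deriv g (b j l) ^ 2 / mj g b j l := rfl
theorem kj_succ (g : ℂ → ℂ) (b : ℕ → C2 → ℂ) (j : ℕ) :
    kj g b (j + 1) = fun l => g (b j l) - mj g b (j + 1) l * b j l := rfl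

section

variable {N : ℕ} {g : ℂ → ℂ} {p : C2} {b : ℕ → C2 → ℂ}

/-- analyticity of the lines -/
theorem mk_an (hc : Chain0 g N b p) (ht : Transv g N b p) (hg : ∀ j < N, AnalyticAt ℂ g (b j p)) :
    ∀ j ≤ N, AnalyticAt ℂ (mj g b j) p ∧ AnalyticAt ℂ (kj g b j) p ∧ (0 < N → mj g b j p ≠ 0) := by
  intro j
  induction j with
  | zero =>
    intro _
    refine ⟨?_, ?_, ?_⟩
    · rw [mj_zero]; exact analyticAt_fst
    · rw [kj_zero]; exact analyticAt_snd
    · intro hN; rw [mj_zero]; exact (ht 0 hN).2.2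
  | succ j ih =>
    intro hj
    have hjN : j < N := hj
    obtain ⟨h1, h2, h3⟩ := ih hjN.le
    have h3' := h3 (by omega)
    have hb := hc.1 j hjN
    have hgj := hg j hjN
    have hd : AnalyticAt ℂ (fun l => deriv g (b j l)) p := hgj.deriv.comp hb
    have hgc : AnalyticAt ℂ (fun l => g (b j l)) p := hgj.comp hb
    have hm : AnalyticAt ℂ (mj g b (j + 1)) p := by
      rw [mj_succ]; exact (hd.fun_pow 2).fun_div h1 h3'
    refine ⟨hm, ?_, ?_⟩
    · rw [kj_succ]; exact hgc.fun_sub (hm.fun_mul hb)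
    · intro _
      rw [mj_succ]
      exact div_ne_zero (pow_ne_zero 2 (ht j hjN).2.1) h3'

/-- the generators are analytic -/
theorem jv_an (hc : Chain0 g N b p) (hg : ∀ j < N, AnalyticAt ℂ g (b j p)) (r : ℕ) :
    ∀ i : Idx N r, AnalyticAt ℂ (fun l => jv g N r b l i) p := by
  rintro (i | ⟨j, _ | i⟩)
  · by_cases hi : i = 0
    · simp only [jv, hi, if_true]; exact analyticAt_fst
    · simp only [jv, hi, if_false]; exact analyticAt_snd
  · simp only [jv]; exact hc.1 j j.2
  · simp only [jv]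
    have h1 : AnalyticAt ℂ (iteratedDeriv i g) (b j p) := by
      rw [iteratedDeriv_eq_iterate]; exact (hg j j.2).iterated_deriv i
    exact h1.comp (hc.1 j j.2)

variable {K : Type} [Field K] [Algebra ℂ K]

/-- the field of rational functions of the jets of order `r` -/
def FF (G : GField p K) (g : ℂ → ℂ) (N r : ℕ) (b : ℕ → C2 → ℂ) : IntermediateField ℂ K :=
  IntermediateField.adjoin ℂ (Set.range fun i : Idx N r => G.ι (fun l => jv g N r b l i))

variable (G : GField p K)

theorem gen_mem (r : ℕ) (i : Idx N r) : G.ι (fun l => jv g N r b l i) ∈ FF G g N r b :=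
  IntermediateField.subset_adjoin _ _ ⟨i, rfl⟩

theorem fst_mem (r : ℕ) : G.ι Prod.fst ∈ FF G g N r b := by
  have := gen_mem (g := g) (N := N) (b := b) G r (Sum.inl 0)
  simpa [jv] using this

theorem snd_mem (r : ℕ) : G.ι Prod.snd ∈ FF G g N r b := by
  have := gen_mem (g := g) (N := N) (b := b) G r (Sum.inl 1)
  simpa [jv] using this

theorem b_mem (r : ℕ) {j : ℕ} (hj : j < N) : G.ι (b j) ∈ FF G g N r b := by
  have := gen_mem (g := g) (N := N) (b := b) G r (Sum.inr (⟨j, hj⟩, none))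
  simpa [jv] using this

theorem gi_mem (r : ℕ) {j : ℕ} (hj : j < N) {i : ℕ} (hi : i ≤ r) :
    G.ι (fun l => iteratedDeriv i g (b j l)) ∈ FF G g N r b := by
  have := gen_mem (g := g) (N := N) (b := b) G r (Sum.inr (⟨j, hj⟩, some ⟨i, by omega⟩))
  simpa [jv] using this

theorem g0_mem (r : ℕ) {j : ℕ} (hj : j < N) : G.ι (fun l => g (b j l)) ∈ FF G g N r b := by
  have := gi_mem (g := g) (N := N) (b := b) G r hj (Nat.zero_le r)
  simpa using this

theorem g1_mem {r : ℕ} (hr : 1 ≤ r) {j : ℕ} (hj : j < N) :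
    G.ι (fun l => deriv g (b j l)) ∈ FF G g N r b := by
  have := gi_mem (g := g) (N := N) (b := b) G r hj hr
  simpa [iteratedDeriv_one] using this

theorem g2_mem {r : ℕ} (hr : 2 ≤ r) {j : ℕ} (hj : j < N) :
    G.ι (fun l => deriv (deriv g) (b j l)) ∈ FF G g N r b := by
  have := gi_mem (g := g) (N := N) (b := b) G r hj hr
  have e : iteratedDeriv 2 g = deriv (deriv g) := by
    rw [iteratedDeriv_succ, iteratedDeriv_one]
  simpa [e] using this

theorem FF_mono {r s : ℕ} (h : r ≤ s) : FF G g N r b ≤ FF G g N s b := by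
  refine IntermediateField.adjoin_le_iff.2 ?_
  rintro _ ⟨(i | ⟨j, _ | i⟩), rfl⟩
  · exact gen_mem (g := g) (N := N) (b := b) G s (Sum.inl i)
  · exact b_mem (g := g) (N := N) (b := b) G s j.2
  · exact gi_mem (g := g) (N := N) (b := b) G s j.2 (i := i) (by omega)

theorem mk_mem (hc : Chain0 g N b p) (ht : Transv g N b p)
    (hg : ∀ j < N, AnalyticAt ℂ g (b j p)) {r : ℕ} (hr : 1 ≤ r) :
    ∀ j ≤ N, G.ι (mj g b j) ∈ FF G g N r b ∧ G.ι (kj g b j) ∈ FF G g N r b := by
  intro j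
  induction j with
  | zero => intro _; rw [mj_zero, kj_zero]; exact ⟨fst_mem G r, snd_mem G r⟩
  | succ j ih =>
    intro hj
    have hjN : j < N := hj
    obtain ⟨h1, h2, h3⟩ := mk_an hc ht hg j hjN.le
    have h3' := h3 (by omega)
    obtain ⟨h1s, h2s, h3s⟩ := mk_an hc ht hg (j + 1) hj
    have hb := hc.1 j hjN
    have hgj := hg j hjN
    have hd : AnalyticAt ℂ (fun l => deriv g (b j l)) p := hgj.deriv.comp hb
    have hgc : AnalyticAt ℂ (fun l => g (b j l)) p := hgj.comp hb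
    have em : G.ι (mj g b (j + 1)) = G.ι (fun l => deriv g (b j l)) ^ 2 / G.ι (mj g b j) := by
      rw [mj_succ, iota_div G (hd.fun_pow 2) h1 h3', iota_pow G hd]
    have ek : G.ι (kj g b (j + 1)) = G.ι (fun l => g (b j l)) - G.ι (mj g b (j + 1)) * G.ι (b j) := by
      rw [kj_succ, iota_sub G hgc (h1s.fun_mul hb), G.mul _ _ h1s hb]
    have m1 : G.ι (mj g b (j + 1)) ∈ FF G g N r b := by
      rw [em]; exact div_mem (pow_mem (g1_mem G hr hjN) 2) (ih hjN.le).1
    refine ⟨m1, ?_⟩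
    rw [ek]
    exact sub_mem (g0_mem G r hjN) (mul_mem m1 (b_mem G r hjN))

theorem Db_mem (hc : Chain0 g N b p) (ht : Transv g N b p)
    (hg : ∀ j < N, AnalyticAt ℂ g (b j p)) {r : ℕ} (hr : 1 ≤ r) (a : Fin 2) {j : ℕ} (hjN : j < N)
    (h1 : G.D a (G.ι (mj g b j)) ∈ FF G g N r b) (h2 : G.D a (G.ι (kj g b j)) ∈ FF G g N r b) :
    G.D a (G.ι (b j)) ∈ FF G g N r b := by
  obtain ⟨a1, a2, a3⟩ := mk_an hc ht hg j hjN.le
  obtain ⟨m1, m2⟩ := mk_mem G hc ht hg hr j hjN.le
  have hb := hc.1 j hjN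
  have hgj := hg j hjN
  have hd : AnalyticAt ℂ (fun l => deriv g (b j l)) p := hgj.deriv.comp hb
  have hgc : AnalyticAt ℂ (fun l => g (b j l)) p := hgj.comp hb
  have e1 : G.ι (fun l => g (b j l)) = G.ι (mj g b j) * G.ι (b j) + G.ι (kj g b j) := by
    rw [← G.mul _ _ a1 hb, ← G.add _ _ (a1.fun_mul hb) a2]
    exact iota_congr G hgc (hc.2.mono fun l hl => hl j hjN)
  have e2 := congrArg (G.D a) e1
  rw [D_comp G a hb hgj, map_add, Derivation.leibniz] at e2
  simp only [smul_eq_mul] at e2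
  have hne : G.ι (fun l => deriv g (b j l)) - G.ι (mj g b j) ≠ 0 := by
    rw [← iota_sub G hd a1]
    exact iota_ne_zero G (hd.fun_sub a1) (sub_ne_zero.2 (ht j hjN).1)
  have e3 : G.D a (G.ι (b j)) = (G.ι (b j) * G.D a (G.ι (mj g b j)) + G.D a (G.ι (kj g b j))) /
      (G.ι (fun l => deriv g (b j l)) - G.ι (mj g b j)) := by
    rw [eq_div_iff hne]
    linear_combination e2
  rw [e3]
  exact div_mem (add_mem (mul_mem (b_mem G r hjN) h1) h2) (sub_mem (g1_mem G hr hjN) m1)

theorem Dmk_mem (hc : Chain0 g N b p) (ht : Transv g N b p)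
    (hg : ∀ j < N, AnalyticAt ℂ g (b j p)) {r : ℕ} (hr : 2 ≤ r) (a : Fin 2) :
    ∀ j ≤ N, G.D a (G.ι (mj g b j)) ∈ FF G g N r b ∧ G.D a (G.ι (kj g b j)) ∈ FF G g N r b := by
  have hr1 : 1 ≤ r := by omega
  intro j
  induction j with
  | zero =>
    intro _
    rw [mj_zero, kj_zero]
    have key : ∀ v w : ℂ, G.ι (fun _ : C2 => v) ∈ FF G g N r b := by
      intro v w
      rw [G.const v]; exact (FF G g N r b).algebraMap_mem v
    constructor
    · rw [D_iota G a analyticAt_fst]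
      have e : dd a Prod.fst = fun _ => (dir a).1 := by
        funext x
        have : HasFDerivAt (Prod.fst : C2 → ℂ) (ContinuousLinearMap.fst ℂ ℂ ℂ) x := hasFDerivAt_fst
        simp [dd, this.fderiv]
      rw [e]; exact key _ 0
    · rw [D_iota G a analyticAt_snd]
      have e : dd a Prod.snd = fun _ => (dir a).2 := by
        funext x
        have : HasFDerivAt (Prod.snd : C2 → ℂ) (ContinuousLinearMap.snd ℂ ℂ ℂ) x := hasFDerivAt_snd
        simp [dd, this.fderiv]
      rw [e]; exact key _ 0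
  | succ j ih =>
    intro hj
    have hjN : j < N := hj
    obtain ⟨i1, i2⟩ := ih hjN.le
    obtain ⟨h1, h2, h3⟩ := mk_an hc ht hg j hjN.le
    have h3' := h3 (by omega)
    obtain ⟨h1s, h2s, h3s⟩ := mk_an hc ht hg (j + 1) hj
    obtain ⟨m1, m2⟩ := mk_mem G hc ht hg hr1 j hjN.le
    obtain ⟨m1s, m2s⟩ := mk_mem G hc ht hg hr1 (j + 1) hj
    have hb := hc.1 j hjN
    have hgj := hg j hjN
    have hd : AnalyticAt ℂ (fun l => deriv g (b j l)) p := hgj.deriv.comp hb
    have hgc : AnalyticAt ℂ (fun l => g (b j l)) p := hgj.comp hb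
    have hDb := Db_mem G hc ht hg hr1 a hjN i1 i2
    have em : G.ι (mj g b (j + 1)) * G.ι (mj g b j) = G.ι (fun l => deriv g (b j l)) ^ 2 := by
      rw [mj_succ, iota_div G (hd.fun_pow 2) h1 h3', iota_pow G hd,
        div_mul_cancel₀ _ (iota_ne_zero G h1 h3')]
    have ek : G.ι (kj g b (j + 1)) = G.ι (fun l => g (b j l)) - G.ι (mj g b (j + 1)) * G.ι (b j) := by
      rw [kj_succ, iota_sub G hgc (h1s.fun_mul hb), G.mul _ _ h1s hb]
    have hDg1 : G.D a (G.ι (fun l => deriv g (b j l))) ∈ FF G g N r b := by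
      rw [D_comp G a hb hgj.deriv]
      exact mul_mem (g2_mem G hr hjN) hDb
    have hDm : G.D a (G.ι (mj g b (j + 1))) ∈ FF G g N r b := by
      have e2 := congrArg (G.D a) em
      rw [Derivation.leibniz, Derivation.leibniz_pow] at e2
      simp only [smul_eq_mul, nsmul_eq_mul] at e2
      have hne := iota_ne_zero G h1 h3'
      have e3 : G.D a (G.ι (mj g b (j + 1))) =
          ((2 : ℕ) * (G.ι (fun l => deriv g (b j l)) ^ (2 - 1) *
            G.D a (G.ι (fun l => deriv g (b j l)))) -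
            G.ι (mj g b (j + 1)) * G.D a (G.ι (mj g b j))) / G.ι (mj g b j) := by
        rw [eq_div_iff hne]
        linear_combination e2
      rw [e3]
      exact div_mem (sub_mem (mul_mem (natCast_mem _ 2) (mul_mem (pow_mem (g1_mem G hr1 hjN) _) hDg1))
        (mul_mem m1s i1)) m1
    refine ⟨hDm, ?_⟩
    rw [ek, map_sub, D_comp G a hb hgj, Derivation.leibniz]
    simp only [smul_eq_mul]
    exact sub_mem (mul_mem (g1_mem G hr1 hjN) hDb)
      (add_mem (mul_mem m1s hDb) (mul_mem (b_mem G r hjN) hDm))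

theorem D_mem (hc : Chain0 g N b p) (ht : Transv g N b p)
    (hg : ∀ j < N, AnalyticAt ℂ g (b j p)) {r : ℕ} (hr : 1 ≤ r) (a : Fin 2) {x : K}
    (hx : x ∈ FF G g N r b) : G.D a x ∈ FF G g N (r + 1) b := by
  have hr2 : 2 ≤ r + 1 := by omega
  refine der_adjoin (G.D a) (S := Set.range fun i : Idx N r => G.ι (fun l => jv g N r b l i)) ?_ ?_ hx
  · intro z hz
    exact FF_mono G (Nat.le_succ r) (IntermediateField.subset_adjoin _ _ hz)
  · rintro _ ⟨(i | ⟨j, _ | i⟩), rfl⟩
    · have h := Dmk_mem G hc ht hg hr2 a 0 (Nat.zero_le N)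
      rw [mj_zero, kj_zero] at h
      by_cases hi : i = 0
      · simpa [jv, hi] using h.1
      · simpa [jv, hi] using h.2
    · have h := Dmk_mem G hc ht hg hr2 a j j.2.le
      have := Db_mem G hc ht hg (by omega : 1 ≤ r + 1) a j.2 h.1 h.2
      simpa [jv] using this
    · have h := Dmk_mem G hc ht hg hr2 a j j.2.le
      have h5 := Db_mem G hc ht hg (by omega : 1 ≤ r + 1) a j.2 h.1 h.2
      have h6 := D_comp_iter G a (hc.1 j j.2) (hg j j.2) i
      have h7 : G.D a (G.ι (fun l => iteratedDeriv i g (b j l))) ∈ FF G g N (r + 1) b := by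
        rw [h6]
        exact mul_mem (gi_mem G (r + 1) j.2 (by omega)) h5
      simpa [jv] using h7

theorem D_iter_mem (hc : Chain0 g N b p) (ht : Transv g N b p)
    (hg : ∀ j < N, AnalyticAt ℂ g (b j p)) {r : ℕ} (hr : 1 ≤ r) (a : Fin 2) (n : ℕ) {x : K}
    (hx : x ∈ FF G g N r b) : (G.D a)^[n] x ∈ FF G g N (r + n) b := by
  induction n with
  | zero => simpa using hx
  | succ n ih =>
    rw [Function.iterate_succ_apply']
    have := D_mem G hc ht hg (by omega : 1 ≤ r + n) a ih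
    exact this

theorem iota_d1_iter {f : C2 → ℂ} (hf : AnalyticAt ℂ f p) (n : ℕ) :
    G.ι (d1^[n] f) = (G.D 0)^[n] (G.ι f) := by
  induction n with
  | zero => rfl
  | succ n ih =>
    rw [Function.iterate_succ_apply', Function.iterate_succ_apply', ← ih,
      G.d1 _ (d1_iter_an hf n)]

theorem iota_d2_iter {f : C2 → ℂ} (hf : AnalyticAt ℂ f p) (n : ℕ) :
    G.ι (d2^[n] f) = (G.D 1)^[n] (G.ι f) := by
  induction n with
  | zero => rfl
  | succ n ih =>
    rw [Function.iterate_succ_apply', Function.iterate_succ_apply', ← ih,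
      G.d2 _ (d2_iter_an hf n)]

end

/-- **JETA** -/
theorem leafJETA (hG : LeafGF) : LeafJETA := by
  intro N g p b hc ht hg R f hf hA
  obtain ⟨K, iF, iA, ⟨G⟩⟩ := hG p
  let _ := iF
  let _ := iA
  have hmk := mk_an hc ht hg N le_rfl
  set A : Fin 2 → C2 → ℂ := ![fun l => (ln0 g (fun i => b i l) l N).1,
    fun l => (ln0 g (fun i => b i l) l N).2] with hAdef
  have hAan : ∀ c, AnalyticAt ℂ (A c) p := by
    intro c
    fin_cases c
    · exact hmk.1
    · exact hmk.2.1
  have hAmem : ∀ c, G.ι (A c) ∈ FF G g N 1 b := by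
    intro c
    have h := mk_mem G hc ht hg (le_refl 1) N le_rfl
    fin_cases c
    · exact h.1
    · exact h.2
  have hJan : ∀ i, AnalyticAt ℂ (jlA A R i) p := by
    rintro (i | ⟨c, u, v⟩)
    · fin_cases i
      · exact analyticAt_fst
      · exact analyticAt_snd
    · exact d1_iter_an (d2_iter_an (hAan c) v) u
  have hJmem : ∀ i, G.ι (jlA A R i) ∈ FF G g N (1 + 2 * R) b := by
    rintro (i | ⟨c, u, v⟩)
    · fin_cases i
      · exact fst_mem G _
      · exact snd_mem G _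
    · have e : G.ι (jlA A R (Sum.inr (c, u, v))) = (G.D 0)^[u] ((G.D 1)^[v] (G.ι (A c))) := by
        have := iota_d1_iter G (d2_iter_an (hAan c) v) u
        rw [iota_d2_iter G (hAan c) v] at this
        exact this
      rw [e]
      have h1 := D_iter_mem G hc ht hg (le_refl 1) 1 (v : ℕ) (hAmem c)
      have h2 := D_iter_mem G hc ht hg (by omega : 1 ≤ 1 + (v : ℕ)) 0 (u : ℕ) h1
      refine FF_mono G ?_ h2
      have := u.2
      have := v.2
      omega
  refine ⟨1 + 2 * R, ?_⟩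
  rw [algAt_iff G (jv_an hc hg _) hf]
  rw [algAt_iff G hJan hf] at hA
  refine isAlgebraic_mono ?_ hA
  refine IntermediateField.adjoin_le_iff.2 ?_
  rintro _ ⟨i, rfl⟩
  exact hJmem i

end Crest.Agent.R102.H3J426
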