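import Mathlib
import Crest.Agent.R102.H3Defs2_337

/-!
Row 102, [H3], leaf **MD**: the vertices of the main chain are pairwise functionally independent.
`br (b_i) (b_j) (t, 0) = (j - i) * (β_t (t, 0))^2 ≠ 0`, and the identity theorem on the convex
domain `Dom`.
-/

set_option autoImplicit false

noncomputable section

open Filter Topology Set Metric

namespace Crest.Agent.R102.H3MD801

open Crest.Agent.R102.H3

/-- the shear `(t, w) ↦ (t + c w, w)` -/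
def A (c : ℂ) : C2 →L[ℂ] C2 :=
  (ContinuousLinearMap.fst ℂ ℂ ℂ + c • ContinuousLinearMap.snd ℂ ℂ ℂ).prod
    (ContinuousLinearMap.snd ℂ ℂ ℂ)

lemma A_apply (c : ℂ) (x : C2) : A c x = (x.1 + c * x.2, x.2) := by
  simp [A]

lemma bj_eq (β : C2 → ℂ) (j : ℤ) : bj β j = β ∘ (A ((j : ℂ) + 1 / 2)) := by
  funext x
  simp [bj, A_apply]

lemma lj_eq (M : C2 → ℂ) (j : ℤ) : lj M j = M ∘ (A (j : ℂ)) := by
  funext x
  simp [lj, A_apply]

lemma A_mem {t₀ : ℂ} {ρ : ℝ} {N : ℕ} {x : C2} (hx : x ∈ Dom t₀ ρ N) {c : ℂ} (hc : ‖c‖ ≤ N + 1) :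
    A c x ∈ ball (t₀, (0 : ℂ)) ρ := by
  have hx' : ‖x.1 - t₀‖ + (N + 1) * ‖x.2‖ < ρ := hx
  have h0 : 0 ≤ ‖x.1 - t₀‖ := norm_nonneg _
  have h2 : 0 ≤ ‖x.2‖ := norm_nonneg _
  have hN : (0 : ℝ) ≤ N := Nat.cast_nonneg N
  rw [A_apply, mem_ball, dist_eq_norm]
  have e1 : ((x.1 + c * x.2, x.2) : C2) - (t₀, 0) = ((x.1 - t₀) + c * x.2, x.2) := by
    ext <;> simp
    ring
  rw [e1, Prod.norm_def]
  apply max_lt
  · calc ‖(x.1 - t₀) + c * x.2‖ ≤ ‖x.1 - t₀‖ + ‖c * x.2‖ := norm_add_le _ _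
      _ = ‖x.1 - t₀‖ + ‖c‖ * ‖x.2‖ := by rw [norm_mul]
      _ ≤ ‖x.1 - t₀‖ + (N + 1) * ‖x.2‖ := by gcongr
      _ < ρ := hx'
  · simp only
    nlinarith [mul_nonneg hN h2]

lemma norm_half_le {N j : ℕ} (hj : j < N) : ‖(((j : ℤ) : ℂ) + 1 / 2 : ℂ)‖ ≤ N + 1 := by
  have h1 : ‖(((j : ℤ) : ℂ) + 1 / 2 : ℂ)‖ ≤ ‖(((j : ℤ) : ℂ) : ℂ)‖ + ‖(1 / 2 : ℂ)‖ := norm_add_le _ _
  have h2 : ‖(((j : ℤ) : ℂ) : ℂ)‖ = j := by simp
  have h3 : ‖(1 / 2 : ℂ)‖ = 1 / 2 := by norm_num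
  have h4 : (j : ℝ) ≤ N := by exact_mod_cast hj.le
  rw [h2, h3] at h1
  linarith

lemma isOpen_Dom (t₀ : ℂ) (ρ : ℝ) (N : ℕ) : IsOpen (Dom t₀ ρ N) := by
  apply isOpen_lt
  · fun_prop
  · fun_prop

lemma convex_Dom (t₀ : ℂ) (ρ : ℝ) (N : ℕ) : Convex ℝ (Dom t₀ ρ N) := by
  intro x hx y hy a b ha hb hab
  have hx' : ‖x.1 - t₀‖ + (N + 1) * ‖x.2‖ < ρ := hx
  have hy' : ‖y.1 - t₀‖ + (N + 1) * ‖y.2‖ < ρ := hy
  show ‖(a • x + b • y).1 - t₀‖ + (N + 1) * ‖(a • x + b • y).2‖ < ρ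
  have hN : (0 : ℝ) ≤ (N : ℝ) + 1 := by positivity
  have e1 : (a • x + b • y).1 - t₀ = a • (x.1 - t₀) + b • (y.1 - t₀) := by
    have : t₀ = (a + b) • t₀ := by rw [hab, one_smul]
    simp only [Prod.fst_add, Prod.smul_fst, smul_sub]
    nth_rewrite 1 [this]
    rw [add_smul]
    abel
  have e2 : (a • x + b • y).2 = a • x.2 + b • y.2 := by simp
  have n1 : ‖(a • x + b • y).1 - t₀‖ ≤ a * ‖x.1 - t₀‖ + b * ‖y.1 - t₀‖ := by
    rw [e1]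
    refine (norm_add_le _ _).trans ?_
    rw [norm_smul, norm_smul, Real.norm_of_nonneg ha, Real.norm_of_nonneg hb]
  have n2 : ‖(a • x + b • y).2‖ ≤ a * ‖x.2‖ + b * ‖y.2‖ := by
    rw [e2]
    refine (norm_add_le _ _).trans ?_
    rw [norm_smul, norm_smul, Real.norm_of_nonneg ha, Real.norm_of_nonneg hb]
  have n3 := mul_le_mul_of_nonneg_left n2 hN
  have key : a * (‖x.1 - t₀‖ + (N + 1) * ‖x.2‖) + b * (‖y.1 - t₀‖ + (N + 1) * ‖y.2‖) < ρ := by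
    rcases ha.eq_or_lt with h | h
    · subst h
      have : b = 1 := by linarith
      subst this
      simpa using hy'
    · have h5 := mul_lt_mul_of_pos_left hx' h
      have h6 := mul_le_mul_of_nonneg_left hy'.le hb
      have h7 : a * ρ + b * ρ = ρ := by rw [← add_mul, hab, one_mul]
      linarith
  nlinarith [n1, n3, key]

lemma base_mem {t₀ : ℂ} {ρ : ℝ} (hρ : 0 < ρ) (N : ℕ) : ((t₀, 0) : C2) ∈ Dom t₀ ρ N := by
  show ‖t₀ - t₀‖ + (N + 1) * ‖(0 : ℂ)‖ < ρ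
  simpa using hρ

lemma isPreconnected_Dom (t₀ : ℂ) (ρ : ℝ) (N : ℕ) : IsPreconnected (Dom t₀ ρ N) :=
  (convex_Dom t₀ ρ N).isPreconnected

/-- derivative of a sheared function -/
lemma fderiv_shear {β : C2 → ℂ} {c : ℂ} {x : C2} (hβ : AnalyticAt ℂ β (A c x)) (v : C2) :
    fderiv ℂ (β ∘ (A c)) x v = fderiv ℂ β (A c x) (A c v) := by
  rw [fderiv_comp x hβ.differentiableAt (A c).differentiableAt, ContinuousLinearMap.fderiv]
  rfl

lemma d1_shear {β : C2 → ℂ} {c : ℂ} {x : C2} (hβ : AnalyticAt ℂ β (A c x)) :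
    d1 (β ∘ (A c)) x = d1 β (A c x) := by
  unfold d1
  rw [fderiv_shear hβ, A_apply c (1, 0)]
  simp

lemma d2_shear {β : C2 → ℂ} {c : ℂ} {x : C2} (hβ : AnalyticAt ℂ β (A c x)) :
    d2 (β ∘ (A c)) x = c * d1 β (A c x) + d2 β (A c x) := by
  unfold d1 d2
  rw [fderiv_shear hβ, A_apply c (0, 1)]
  have e : ((0 + c * 1, 1) : C2) = c • (1, 0) + (0, 1) := by
    ext <;> simp
  simp only [e, map_add, map_smul, smul_eq_mul]

/-- analyticity of the directional derivatives -/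
lemma analyticOnNhd_fderiv_apply {f : C2 → ℂ} {s : Set C2} (hf : AnalyticOnNhd ℂ f s) (v : C2) :
    AnalyticOnNhd ℂ (fun x => fderiv ℂ f x v) s := by
  intro x hx
  have h := hf.fderiv x hx
  exact ((ContinuousLinearMap.apply ℂ ℂ v).analyticAt _).comp h

lemma analyticOnNhd_br {f h : C2 → ℂ} {s : Set C2} (hf : AnalyticOnNhd ℂ f s)
    (hh : AnalyticOnNhd ℂ h s) : AnalyticOnNhd ℂ (br f h) s := by
  unfold br d1 d2
  exact ((analyticOnNhd_fderiv_apply hf _).mul (analyticOnNhd_fderiv_apply hh _)).sub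
    ((analyticOnNhd_fderiv_apply hf _).mul (analyticOnNhd_fderiv_apply hh _))

/-- the vertices of the main chain are analytic on `Dom` -/
lemma analyticOnNhd_shear {β : C2 → ℂ} {t₀ : ℂ} {ρ : ℝ} {N : ℕ}
    (hβ : AnalyticOnNhd ℂ β (ball (t₀, 0) ρ)) {c : ℂ} (hc : ‖c‖ ≤ N + 1) :
    AnalyticOnNhd ℂ (β ∘ (A c)) (Dom t₀ ρ N) := by
  intro x hx
  exact (hβ _ (A_mem hx hc)).comp ((A c).analyticAt x)

lemma A_base (c t : ℂ) : A c (t, 0) = (t, 0) := by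
  rw [A_apply]; simp

/-- **H3-MD** -/
theorem leafMD : LeafMD := by
  intro g M K β t₀ ρ N p hF hp _hp2 i hi j hj hij hD
  have hβ := hF.β_an
  have hρ := hF.ρ_pos
  rw [bj_eq, bj_eq] at hD
  have ai : AnalyticOnNhd ℂ (β ∘ (A (((i : ℤ) : ℂ) + 1 / 2))) (Dom t₀ ρ N) :=
    analyticOnNhd_shear hβ (norm_half_le hi)
  have aj : AnalyticOnNhd ℂ (β ∘ (A (((j : ℤ) : ℂ) + 1 / 2))) (Dom t₀ ρ N) :=
    analyticOnNhd_shear hβ (norm_half_le hj)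
  have hb := analyticOnNhd_br ai aj
  have h0 : EqOn (br (β ∘ (A (((i : ℤ) : ℂ) + 1 / 2))) (β ∘ (A (((j : ℤ) : ℂ) + 1 / 2)))) 0
      (Dom t₀ ρ N) := by
    apply hb.eqOn_zero_of_preconnected_of_eventuallyEq_zero (isPreconnected_Dom t₀ ρ N) hp
    exact hD
  have h1 := h0 (base_mem hρ N)
  have hat : AnalyticAt ℂ β (t₀, 0) := hβ _ (mem_ball_self hρ)
  have hai : AnalyticAt ℂ β (A (((i : ℤ) : ℂ) + 1 / 2) (t₀, 0)) := by rw [A_base]; exact hat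
  have haj : AnalyticAt ℂ β (A (((j : ℤ) : ℂ) + 1 / 2) (t₀, 0)) := by rw [A_base]; exact hat
  simp only [br, Pi.zero_apply] at h1
  rw [d1_shear hai, d1_shear haj, d2_shear hai, d2_shear haj, A_base, A_base] at h1
  have hne : d1 β (t₀, 0) ≠ 0 := hF.β_t _ (mem_ball_self hρ)
  have h2 : ((j : ℂ) - (i : ℂ)) * (d1 β (t₀, 0)) ^ 2 = 0 := by
    push_cast at h1
    linear_combination h1
  rcases mul_eq_zero.mp h2 with h | h
  · apply hij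
    have : (j : ℂ) = (i : ℂ) := sub_eq_zero.mp h
    exact_mod_cast this.symm
  · exact hne (pow_eq_zero_iff (two_ne_zero) |>.mp h)

end Crest.Agent.R102.H3MD801
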