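import Mathlib
import Crest.Agent.R102.H3Defs_337
import Crest.Agent.R102.H3Defs2_337

/-!
Row 102, [H3], leaf **NF**: an algebraic ODE can be solved for the highest derivative, for every
large order.  `theorem leafNF : H3.LeafNF`.
-/

set_option autoImplicit false

noncomputable section

open Filter Topology Set Metric

namespace Crest.Agent.R102.H3NF572

open Crest.Agent.R102.H3

/-- total degree drops under a partial derivative -/
theorem tdlt {σ : Type} (i : σ) (P : MvPolynomial σ ℂ) (h : MvPolynomial.pderiv i P ≠ 0) :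
    (MvPolynomial.pderiv i P).totalDegree < P.totalDegree := by
  classical
  have hne : (MvPolynomial.pderiv i P).support.Nonempty := by
    rwa [Finset.nonempty_iff_ne_empty, Ne, MvPolynomial.support_eq_empty]
  obtain ⟨m, hm, hmd⟩ := Finset.exists_mem_eq_sup _ hne
    (fun s : σ →₀ ℕ => s.sum fun _ e => e)
  have h1 : MvPolynomial.coeff (m + Finsupp.single i 1) P ≠ 0 := by
    intro h0
    have := MvPolynomial.mem_support_iff.1 hm
    rw [MvPolynomial.coeff_pderiv, h0, zero_mul] at this
    exact this rfl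
  have h2 := MvPolynomial.le_totalDegree (MvPolynomial.mem_support_iff.2 h1)
  have h3 : (m + Finsupp.single i 1).sum (fun _ e => e) = m.sum (fun _ e => e) + 1 := by
    rw [Finsupp.sum_add_index' (fun _ => rfl) (fun _ _ _ => rfl)]
    simp
  have h4 : (MvPolynomial.pderiv i P).totalDegree = m.sum (fun _ e => e) := hmd
  omega

/-- a polynomial with vanishing partial derivative does not involve the variable -/
theorem notMem_vars {σ : Type} (i : σ) (P : MvPolynomial σ ℂ) (h : MvPolynomial.pderiv i P = 0) :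
    i ∉ P.vars := by
  classical
  intro hi
  obtain ⟨d, hd, hid⟩ := (MvPolynomial.mem_vars_iff_mem_support i).1 hi
  have h1 : 1 ≤ d i := Nat.one_le_iff_ne_zero.2 (Finsupp.mem_support_iff.1 hid)
  have h2 : d - Finsupp.single i 1 + Finsupp.single i 1 = d := by
    ext j
    by_cases hj : j = i
    · subst hj; simp; omega
    · simp [Ne.symm hj]
  have h3 := MvPolynomial.coeff_pderiv (i := i) P (d - Finsupp.single i 1)
  rw [h, h2, MvPolynomial.coeff_zero] at h3
  have h4 := MvPolynomial.mem_support_iff.1 hd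
  have h5 : (((d - Finsupp.single i 1 : σ →₀ ℕ) i : ℕ) : ℂ) + 1 ≠ 0 := Nat.cast_add_one_ne_zero _
  exact (mul_ne_zero h4 h5) h3.symm

theorem jet_castSucc (g : ℂ → ℂ) (r : ℕ) (x : ℂ) :
    (fun i : Fin (r + 2) => jet g (r + 1) x i.castSucc) = jet g r x := by
  funext i
  refine Fin.cases ?_ (fun j => ?_) i
  · simp [jet]
  · rw [← Fin.succ_castSucc]
    simp [jet]

theorem jet_last (g : ℂ → ℂ) (r : ℕ) (x : ℂ) :
    jet g r x (Fin.last (r + 1)) = iteratedDeriv r g x := by
  rw [← Fin.succ_last]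
  simp [jet]

theorem eval_rename_castSucc (g : ℂ → ℂ) (r : ℕ) (x : ℂ) (P : MvPolynomial (Fin (r + 2)) ℂ) :
    MvPolynomial.eval (jet g (r + 1) x) (MvPolynomial.rename Fin.castSucc P) =
      MvPolynomial.eval (jet g r x) P := by
  rw [MvPolynomial.eval_rename]
  have h : jet g (r + 1) x ∘ Fin.castSucc = jet g r x := jet_castSucc g r x
  rw [h]

theorem hasDerivAt_iter (g : ℂ → ℂ) (n : ℕ) (x : ℂ) (hx : AnalyticAt ℂ g x) :
    HasDerivAt (iteratedDeriv n g) (iteratedDeriv (n + 1) g x) x := by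
  rw [iteratedDeriv_succ]
  refine DifferentiableAt.hasDerivAt ?_
  rw [iteratedDeriv_eq_iterate]
  exact (hx.iterated_deriv n).differentiableAt

/-- derivative of a jet coordinate -/
theorem jet_deriv (g : ℂ → ℂ) (r : ℕ) (j : Fin (r + 2)) :
    ∃ Q : MvPolynomial (Fin (r + 2)) ℂ, ∀ x, AnalyticAt ℂ g x →
      HasDerivAt (fun z => jet g r z j)
        (MvPolynomial.eval (jet g r x) Q + iteratedDeriv (r + 1) g x *
          MvPolynomial.eval (jet g r x) (MvPolynomial.pderiv (Fin.last (r + 1))
            (MvPolynomial.X j))) x := by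
  classical
  refine Fin.cases ?_ (fun i => ?_) j
  · refine ⟨1, fun x _ => ?_⟩
    have h : (0 : Fin (r + 2)) ≠ Fin.last (r + 1) := by
      intro h; have := congrArg Fin.val h; simp at this
    rw [MvPolynomial.pderiv_X_of_ne h]
    simpa [jet] using hasDerivAt_id' x
  · by_cases hi : (i : ℕ) < r
    · refine ⟨MvPolynomial.X ⟨(i : ℕ) + 2, by omega⟩, fun x hx => ?_⟩
      have h : (Fin.succ i : Fin (r + 2)) ≠ Fin.last (r + 1) := by
        intro h; have := congrArg Fin.val h; simp at this; omega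
      rw [MvPolynomial.pderiv_X_of_ne h]
      have e : (⟨(i : ℕ) + 2, by omega⟩ : Fin (r + 2)) = Fin.succ ⟨(i : ℕ) + 1, by omega⟩ := rfl
      have e2 : MvPolynomial.eval (jet g r x) (MvPolynomial.X (⟨(i : ℕ) + 2, by omega⟩ : Fin (r + 2)))
          = iteratedDeriv ((i : ℕ) + 1) g x := by
        rw [MvPolynomial.eval_X, e]; rfl
      rw [e2]
      simpa [jet] using hasDerivAt_iter g i x hx
    · have hir : i = Fin.last r := by
        apply Fin.ext
        have := i.2
        simp
        omega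
      subst hir
      refine ⟨0, fun x hx => ?_⟩
      rw [Fin.succ_last, MvPolynomial.pderiv_X_self]
      simp only [jet_last]
      simpa using hasDerivAt_iter g r x hx

/-- derivative of a polynomial in the jets -/
theorem poly_deriv (g : ℂ → ℂ) (r : ℕ) (P : MvPolynomial (Fin (r + 2)) ℂ) :
    ∃ Q : MvPolynomial (Fin (r + 2)) ℂ, ∀ x, AnalyticAt ℂ g x →
      HasDerivAt (fun z => MvPolynomial.eval (jet g r z) P)
        (MvPolynomial.eval (jet g r x) Q + iteratedDeriv (r + 1) g x *
          MvPolynomial.eval (jet g r x) (MvPolynomial.pderiv (Fin.last (r + 1)) P)) x := by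
  induction P using MvPolynomial.induction_on with
  | C a =>
    refine ⟨0, fun x _ => ?_⟩
    simpa using hasDerivAt_const x a
  | add p q hp hq =>
    obtain ⟨P', hP⟩ := hp
    obtain ⟨Q', hQ⟩ := hq
    refine ⟨P' + Q', fun x hx => ?_⟩
    have h := (hP x hx).add (hQ x hx)
    have e : (fun z => MvPolynomial.eval (jet g r z) (p + q)) =
        (fun z => MvPolynomial.eval (jet g r z) p) + fun z => MvPolynomial.eval (jet g r z) q := by
      funext z; simp
    rw [e]
    refine h.congr_deriv ?_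
    simp only [map_add]
    ring
  | mul_X p j hp =>
    obtain ⟨P', hP⟩ := hp
    obtain ⟨J, hJ⟩ := jet_deriv g r j
    refine ⟨P' * MvPolynomial.X j + p * J, fun x hx => ?_⟩
    have h := (hP x hx).mul (hJ x hx)
    have e : (fun z => MvPolynomial.eval (jet g r z) (p * MvPolynomial.X j)) =
        (fun z => MvPolynomial.eval (jet g r z) p) * fun z => jet g r z j := by
      funext z; simp
    rw [e]
    refine h.congr_deriv ?_
    simp only [map_add, map_mul, MvPolynomial.eval_X, MvPolynomial.pderiv_mul]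
    ring

/-- existence of a normal form of some order -/
def Goal (g : ℂ → ℂ) (x₀ : ℂ) : Prop :=
  ∃ (s : ℕ) (Num Den : MvPolynomial (Fin (s + 2)) ℂ),
    (¬ ∀ᶠ x in 𝓝 x₀, MvPolynomial.eval (jet g s x) Den = 0) ∧
    ∀ᶠ x in 𝓝 x₀, iteratedDeriv (s + 1) g x * MvPolynomial.eval (jet g s x) Den =
      MvPolynomial.eval (jet g s x) Num

theorem inner (g : ℂ → ℂ) (x₀ : ℂ) (hg : AnalyticAt ℂ g x₀) (r : ℕ)
    (hred : ∀ P' : MvPolynomial (Fin (r + 1)) ℂ, P' ≠ 0 →
      (∀ᶠ x in 𝓝 x₀, MvPolynomial.eval (fun i => jet g r x i.castSucc) P' = 0) → Goal g x₀) :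
    ∀ (d : ℕ) (P : MvPolynomial (Fin (r + 2)) ℂ), P.totalDegree = d → P ≠ 0 →
      (∀ᶠ x in 𝓝 x₀, MvPolynomial.eval (jet g r x) P = 0) → Goal g x₀ := by
  intro d
  induction d using Nat.strong_induction_on with
  | _ d ihd =>
    intro P hPd hP0 hPx
    by_cases hp : MvPolynomial.pderiv (Fin.last (r + 1)) P = 0
    · -- `P` does not involve the last variable
      have hv := notMem_vars _ P hp
      obtain ⟨P', hP'⟩ := MvPolynomial.exists_rename_eq_of_vars_subset_range P
        (Fin.castSucc : Fin (r + 1) → Fin (r + 2)) (Fin.castSucc_injective _) (by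
          intro k hk
          have hk' : k ≠ Fin.last (r + 1) := by
            rintro rfl; exact hv (by simpa using hk)
          exact ⟨k.castPred hk', Fin.castSucc_castPred k hk'⟩)
      refine hred P' ?_ ?_
      · rintro rfl
        exact hP0 (by rw [← hP', map_zero])
      · filter_upwards [hPx] with x hx
        rw [← hP', MvPolynomial.eval_rename] at hx
        exact hx
    · by_cases hz : ∀ᶠ x in 𝓝 x₀, MvPolynomial.eval (jet g r x)
          (MvPolynomial.pderiv (Fin.last (r + 1)) P) = 0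
      · exact ihd _ (hPd ▸ tdlt _ P hp) _ rfl hp hz
      · obtain ⟨Q, hQ⟩ := poly_deriv g r P
        refine ⟨r, -Q, MvPolynomial.pderiv (Fin.last (r + 1)) P, hz, ?_⟩
        filter_upwards [hPx.eventually_nhds, hg.eventually_analyticAt] with x hx hgx
        have h1 : (fun z => MvPolynomial.eval (jet g r z) P) =ᶠ[𝓝 x] fun _ => (0 : ℂ) := hx
        have h2 := ((hasDerivAt_const x (0 : ℂ)).congr_of_eventuallyEq h1).unique (hQ x hgx)
        rw [map_neg]
        linear_combination -h2

/-- the first normal form -/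
theorem first (g : ℂ → ℂ) (x₀ : ℂ) (hg : AnalyticAt ℂ g x₀) :
    ∀ (r : ℕ) (P : MvPolynomial (Fin (r + 2)) ℂ), P ≠ 0 →
      (∀ᶠ x in 𝓝 x₀, MvPolynomial.eval (jet g r x) P = 0) → Goal g x₀ := by
  intro r
  induction r with
  | zero =>
    intro P hP0 hPx
    refine inner g x₀ hg 0 ?_ _ P rfl hP0 hPx
    intro P' hP' hx
    exfalso
    refine hP' (MvPolynomial.funext_set
      (fun _ => {x | MvPolynomial.eval (fun i : Fin (0 + 1) => jet g 0 x i.castSucc) P' = 0})
      (fun _ => infinite_of_mem_nhds x₀ hx) fun y hy => ?_)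
    have h0 := hy 0 (Set.mem_univ _)
    have e : (fun i : Fin (0 + 1) => jet g 0 (y 0) i.castSucc) = y := by
      funext i
      have : i = 0 := by
        apply Fin.ext
        have := i.2
        simp
      subst this
      rfl
    simp only [Set.mem_ofPred_eq, e] at h0
    rw [h0, map_zero]
  | succ r ihr =>
    intro P hP0 hPx
    refine inner g x₀ hg (r + 1) ?_ _ P rfl hP0 hPx
    intro P' hP' hx
    refine ihr P' hP' (hx.mono fun x hx => ?_)
    rwa [jet_castSucc] at hx

/-- one more derivative -/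
theorem step (g : ℂ → ℂ) (x₀ : ℂ) (hg : AnalyticAt ℂ g x₀) (r : ℕ)
    (h : ∃ Num Den : MvPolynomial (Fin (r + 2)) ℂ,
      (¬ ∀ᶠ x in 𝓝 x₀, MvPolynomial.eval (jet g r x) Den = 0) ∧
      ∀ᶠ x in 𝓝 x₀, iteratedDeriv (r + 1) g x * MvPolynomial.eval (jet g r x) Den =
        MvPolynomial.eval (jet g r x) Num) :
    ∃ Num Den : MvPolynomial (Fin (r + 1 + 2)) ℂ,
      (¬ ∀ᶠ x in 𝓝 x₀, MvPolynomial.eval (jet g (r + 1) x) Den = 0) ∧
      ∀ᶠ x in 𝓝 x₀, iteratedDeriv (r + 1 + 1) g x * MvPolynomial.eval (jet g (r + 1) x) Den =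
        MvPolynomial.eval (jet g (r + 1) x) Num := by
  obtain ⟨Num, Den, hD, hN⟩ := h
  obtain ⟨QD, hQD⟩ := poly_deriv g r Den
  obtain ⟨QN, hQN⟩ := poly_deriv g r Num
  let ρ := MvPolynomial.rename (R := ℂ) (Fin.castSucc : Fin (r + 2) → Fin (r + 1 + 2))
  let Y : MvPolynomial (Fin (r + 1 + 2)) ℂ := MvPolynomial.X (Fin.last (r + 1 + 1))
  let pd := fun P : MvPolynomial (Fin (r + 2)) ℂ => MvPolynomial.pderiv (Fin.last (r + 1)) P
  refine ⟨ρ QN + Y * ρ (pd Num) - Y * (ρ QD + Y * ρ (pd Den)), ρ Den, ?_, ?_⟩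
  · intro h
    refine hD (h.mono fun x hx => ?_)
    rwa [eval_rename_castSucc] at hx
  · filter_upwards [hN.eventually_nhds, hg.eventually_analyticAt] with x hx hgx
    have h1 := (hasDerivAt_iter g (r + 1) x hgx).mul (hQD x hgx)
    have h2 := hQN x hgx
    have h3 : (iteratedDeriv (r + 1) g * fun z => MvPolynomial.eval (jet g r z) Den) =ᶠ[𝓝 x]
        fun z => MvPolynomial.eval (jet g r z) Num := hx
    have h4 := (h1.congr_of_eventuallyEq h3.symm).unique h2
    simp only [map_add, map_sub, map_mul]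
    have hY : MvPolynomial.eval (jet g (r + 1) x) Y = iteratedDeriv (r + 1) g x := by
      simp only [Y, MvPolynomial.eval_X, jet_last]
    rw [hY]
    simp only [ρ, pd, eval_rename_castSucc]
    linear_combination h4

theorem leafNF : LeafNF := by
  intro g x₀ hg ⟨r, P, hP, hPx⟩
  obtain ⟨s, Num, Den, h1, h2⟩ := first g x₀ hg r P hP hPx
  refine ⟨s, fun r hr => ?_⟩
  induction r, hr using Nat.le_induction with
  | base => exact ⟨Num, Den, h1, h2⟩
  | succ n _ ih => exact step g x₀ hg n ih

end Crest.Agent.R102.H3NF572
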