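import Crest.Agent.R266.SCV
import Crest.Agent.R102.H3Defs_337

/-!
Row 102, [H3], leaf ODE (helper469): local holomorphic flow of an analytic vector field, jointly
analytic in the (complex) time and the initial value.
-/

set_option autoImplicit false
set_option linter.unusedSectionVars false

noncomputable section

open Filter Topology Set Metric MeasureTheory
open scoped Real

namespace Crest.Agent.R102.H3

namespace ODE469

variable {E : Type} [NormedAddCommGroup E] [NormedSpace ℂ E]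

/-- Picard iterates -/
def pic (V : E → E) : ℕ → ℂ × E → E
  | 0 => fun x => x.2
  | k + 1 => fun x => x.2 + ∫ τ in (0 : ℝ)..1, x.1 • V (pic V k ((τ : ℂ) * x.1, x.2))

/-- the scaled point stays in the ball -/
lemma scale_mem {y₀ : E} {δ : ℝ} {x : ℂ × E} (hx : x ∈ ball ((0 : ℂ), y₀) δ) {τ : ℝ}
    (hτ : τ ∈ uIcc (0 : ℝ) 1) : (((τ : ℂ) * x.1, x.2) : ℂ × E) ∈ ball ((0 : ℂ), y₀) δ := by
  rw [uIcc_of_le zero_le_one] at hτ
  rw [mem_ball, Prod.dist_eq, max_lt_iff] at hx ⊢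
  refine ⟨?_, hx.2⟩
  have h1 := hx.1
  simp only [dist_zero_right] at h1 ⊢
  rw [norm_mul, Complex.norm_real, Real.norm_eq_abs, abs_of_nonneg hτ.1]
  calc τ * ‖x.1‖ ≤ 1 * ‖x.1‖ := by
        exact mul_le_mul_of_nonneg_right hτ.2 (norm_nonneg _)
    _ < δ := by simpa using h1

lemma fst_lt {y₀ : E} {δ : ℝ} {x : ℂ × E} (hx : x ∈ ball ((0 : ℂ), y₀) δ) : ‖x.1‖ < δ := by
  rw [mem_ball, Prod.dist_eq, max_lt_iff] at hx
  simpa using hx.1

lemma snd_lt {y₀ : E} {δ : ℝ} {x : ℂ × E} (hx : x ∈ ball ((0 : ℂ), y₀) δ) : ‖x.2 - y₀‖ < δ := by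
  rw [mem_ball, Prod.dist_eq, max_lt_iff] at hx
  simpa [dist_eq_norm] using hx.2

variable [FiniteDimensional ℂ E]

/-- derivative of the ray integral of a holomorphic function -/
lemma hasDerivAt_ray [CompleteSpace E] {g : ℂ → E} {δ : ℝ} (hg : DifferentiableOn ℂ g (ball 0 δ))
    {s : ℂ} (hs : s ∈ ball (0 : ℂ) δ) :
    HasDerivAt (fun s : ℂ => ∫ τ in (0 : ℝ)..1, s • g ((τ : ℂ) * s)) (g s) s := by
  obtain ⟨G, hG⟩ := hg.isExactOn_ball
  have key : ∀ z ∈ ball (0 : ℂ) δ, (∫ τ in (0 : ℝ)..1, z • g ((τ : ℂ) * z)) = G z - G 0 := by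
    intro z hz
    have hmem : ∀ τ ∈ uIcc (0 : ℝ) 1, (τ : ℂ) * z ∈ ball (0 : ℂ) δ := by
      intro τ hτ
      rw [uIcc_of_le zero_le_one] at hτ
      rw [mem_ball_zero_iff] at hz ⊢
      rw [norm_mul, Complex.norm_real, Real.norm_eq_abs, abs_of_nonneg hτ.1]
      calc τ * ‖z‖ ≤ 1 * ‖z‖ := mul_le_mul_of_nonneg_right hτ.2 (norm_nonneg _)
        _ < δ := by simpa using hz
    have hd : ∀ τ ∈ uIcc (0 : ℝ) 1,
        HasDerivAt (fun τ : ℝ => G ((τ : ℂ) * z)) (z • g ((τ : ℂ) * z)) τ := by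
      intro τ hτ
      have h1 : HasDerivAt (fun τ : ℝ => (τ : ℂ) * z) z τ := by
        simpa using (Complex.ofRealCLM.hasDerivAt (x := τ)).mul_const z
      exact (hG _ (hmem τ hτ)).scomp τ h1
    have hcont : ContinuousOn (fun τ : ℝ => z • g ((τ : ℂ) * z)) (uIcc 0 1) := by
      refine continuousOn_const.smul (hg.continuousOn.comp (by fun_prop) hmem)
    have := intervalIntegral.integral_eq_sub_of_hasDerivAt hd hcont.intervalIntegrable
    rw [this]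
    simp
  have h2 : HasDerivAt (fun z => G z - G 0) (g s) s := (hG s hs).sub_const _
  refine h2.congr_of_eventuallyEq ?_
  filter_upwards [isOpen_ball.mem_nhds hs] with z hz using key z hz


/-- hypotheses on the data of the Picard iteration -/
structure Data (V : E → E) (y₀ : E) (R M L δ : ℝ) : Prop where
  Rpos : 0 < R
  Mnn : 0 ≤ M
  Lnn : 0 ≤ L
  δpos : 0 < δ
  an : AnalyticOnNhd ℂ V (ball y₀ R)
  bd : ∀ y ∈ ball y₀ R, ‖V y‖ ≤ M
  lip : ∀ y ∈ ball y₀ R, ∀ z ∈ ball y₀ R, ‖V y - V z‖ ≤ L * ‖y - z‖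
  small : δ + δ * M < R
  contr : δ * L ≤ 1 / 2

variable {V : E → E} {y₀ : E} {R M L δ : ℝ}

lemma pic_step [CompleteSpace E] (h : Data V y₀ R M L δ) {f : ℂ × E → E}
    (hf : AnalyticOnNhd ℂ f (ball ((0 : ℂ), y₀) δ))
    (hb : ∀ x ∈ ball ((0 : ℂ), y₀) δ, ‖f x - y₀‖ ≤ δ + δ * M) :
    AnalyticOnNhd ℂ (fun x : ℂ × E => x.2 + ∫ τ in (0 : ℝ)..1, x.1 • V (f ((τ : ℂ) * x.1, x.2)))
      (ball ((0 : ℂ), y₀) δ) ∧
    ∀ x ∈ ball ((0 : ℂ), y₀) δ,
      ‖(x.2 + ∫ τ in (0 : ℝ)..1, x.1 • V (f ((τ : ℂ) * x.1, x.2))) - y₀‖ ≤ δ + δ * M := by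
  have hmem : ∀ x ∈ ball ((0 : ℂ), y₀) δ, f x ∈ ball y₀ R := fun x hx => by
    rw [mem_ball, dist_eq_norm]
    exact (hb x hx).trans_lt h.small
  constructor
  · refine AnalyticOnNhd.add analyticOnNhd_snd ?_
    refine R266.SCV.analyticOnNhd_intervalIntegral
      (f := fun p : (ℂ × E) × ℝ => p.1.1 • V (f ((p.2 : ℂ) * p.1.1, p.1.2))) isOpen_ball ?_ ?_
    · refine ContinuousOn.smul (by fun_prop) ?_
      refine h.an.continuousOn.comp (hf.continuousOn.comp (by fun_prop) ?_) ?_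
      · intro p hp
        exact scale_mem hp.1 hp.2
      · intro p hp
        exact hmem _ (scale_mem hp.1 hp.2)
    · intro τ hτ
      change DifferentiableOn ℂ (fun x : ℂ × E => x.1 • V (f ((τ : ℂ) * x.1, x.2))) _
      refine DifferentiableOn.smul (by fun_prop) ?_
      refine h.an.differentiableOn.comp (hf.differentiableOn.comp (by fun_prop) ?_) ?_
      · intro x hx
        exact scale_mem hx hτ
      · intro x hx
        exact hmem _ (scale_mem hx hτ)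
  · intro x hx
    have h1 : ‖∫ τ in (0 : ℝ)..1, x.1 • V (f ((τ : ℂ) * x.1, x.2))‖ ≤ δ * M * |(1 : ℝ) - 0| := by
      refine intervalIntegral.norm_integral_le_of_norm_le_const (fun τ hτ => ?_)
      rw [norm_smul]
      exact mul_le_mul (fst_lt hx).le (h.bd _ (hmem _ (scale_mem hx (uIoc_subset_uIcc hτ))))
        (norm_nonneg _) h.δpos.le
    have h2 := snd_lt hx
    calc ‖(x.2 + ∫ τ in (0 : ℝ)..1, x.1 • V (f ((τ : ℂ) * x.1, x.2))) - y₀‖
        = ‖(x.2 - y₀) + ∫ τ in (0 : ℝ)..1, x.1 • V (f ((τ : ℂ) * x.1, x.2))‖ := by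
          congr 1; abel
      _ ≤ ‖x.2 - y₀‖ + ‖∫ τ in (0 : ℝ)..1, x.1 • V (f ((τ : ℂ) * x.1, x.2))‖ := norm_add_le _ _
      _ ≤ δ + δ * M := by
          have : |(1 : ℝ) - 0| = 1 := by norm_num
          rw [this, mul_one] at h1
          linarith

lemma pic_all [CompleteSpace E] (h : Data V y₀ R M L δ) (k : ℕ) :
    AnalyticOnNhd ℂ (pic V k) (ball ((0 : ℂ), y₀) δ) ∧
    ∀ x ∈ ball ((0 : ℂ), y₀) δ, ‖pic V k x - y₀‖ ≤ δ + δ * M := by
  induction k with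
  | zero =>
    refine ⟨analyticOnNhd_snd, fun x hx => ?_⟩
    have := snd_lt hx
    have h2 : 0 ≤ δ * M := mul_nonneg h.δpos.le h.Mnn
    change ‖x.2 - y₀‖ ≤ _
    linarith
  | succ k ih => exact pic_step h ih.1 ih.2

lemma mem_R {f : ℂ × E → E} (h : Data V y₀ R M L δ)
    (hb : ∀ x ∈ ball ((0 : ℂ), y₀) δ, ‖f x - y₀‖ ≤ δ + δ * M) {x : ℂ × E}
    (hx : x ∈ ball ((0 : ℂ), y₀) δ) : f x ∈ ball y₀ R := by
  rw [mem_ball, dist_eq_norm]
  exact (hb x hx).trans_lt h.small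

/-- the Picard map is a contraction -/
lemma pic_contr [CompleteSpace E] (h : Data V y₀ R M L δ) {f g : ℂ × E → E}
    (hf : AnalyticOnNhd ℂ f (ball ((0 : ℂ), y₀) δ))
    (hfb : ∀ x ∈ ball ((0 : ℂ), y₀) δ, ‖f x - y₀‖ ≤ δ + δ * M)
    (hg : AnalyticOnNhd ℂ g (ball ((0 : ℂ), y₀) δ))
    (hgb : ∀ x ∈ ball ((0 : ℂ), y₀) δ, ‖g x - y₀‖ ≤ δ + δ * M) {c : ℝ}
    (hc : ∀ x ∈ ball ((0 : ℂ), y₀) δ, ‖f x - g x‖ ≤ c) {x : ℂ × E}
    (hx : x ∈ ball ((0 : ℂ), y₀) δ) :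
    ‖(x.2 + ∫ τ in (0 : ℝ)..1, x.1 • V (f ((τ : ℂ) * x.1, x.2))) -
      (x.2 + ∫ τ in (0 : ℝ)..1, x.1 • V (g ((τ : ℂ) * x.1, x.2)))‖ ≤ c / 2 := by
  have hint : ∀ {f : ℂ × E → E}, AnalyticOnNhd ℂ f (ball ((0 : ℂ), y₀) δ) →
      (∀ x ∈ ball ((0 : ℂ), y₀) δ, ‖f x - y₀‖ ≤ δ + δ * M) →
      IntervalIntegrable (fun τ : ℝ => x.1 • V (f ((τ : ℂ) * x.1, x.2))) volume 0 1 := by
    intro f hf hb
    refine ContinuousOn.intervalIntegrable ?_
    refine continuousOn_const.smul ?_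
    refine h.an.continuousOn.comp (hf.continuousOn.comp (by fun_prop) ?_) ?_
    · intro p hp
      exact scale_mem hx hp
    · intro p hp
      exact mem_R h hb (scale_mem hx hp)
  have e : (x.2 + ∫ τ in (0 : ℝ)..1, x.1 • V (f ((τ : ℂ) * x.1, x.2))) -
      (x.2 + ∫ τ in (0 : ℝ)..1, x.1 • V (g ((τ : ℂ) * x.1, x.2))) =
      ∫ τ in (0 : ℝ)..1, (x.1 • V (f ((τ : ℂ) * x.1, x.2)) -
        x.1 • V (g ((τ : ℂ) * x.1, x.2))) := by
    rw [intervalIntegral.integral_sub (hint hf hfb) (hint hg hgb)]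
    abel
  rw [e]
  have hc0 : 0 ≤ c := (norm_nonneg _).trans (hc x hx)
  have h1 : ‖∫ τ in (0 : ℝ)..1, (x.1 • V (f ((τ : ℂ) * x.1, x.2)) -
        x.1 • V (g ((τ : ℂ) * x.1, x.2)))‖ ≤ (δ * (L * c)) * |(1 : ℝ) - 0| := by
    refine intervalIntegral.norm_integral_le_of_norm_le_const (fun τ hτ => ?_)
    have hm := scale_mem hx (uIoc_subset_uIcc hτ)
    rw [← smul_sub, norm_smul]
    refine mul_le_mul (fst_lt hx).le ?_ (norm_nonneg _) h.δpos.le
    exact (h.lip _ (mem_R h hfb hm) _ (mem_R h hgb hm)).trans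
      (mul_le_mul_of_nonneg_left (hc _ hm) h.Lnn)
  have h2 : |(1 : ℝ) - 0| = 1 := by norm_num
  rw [h2, mul_one] at h1
  refine h1.trans ?_
  have := mul_le_mul_of_nonneg_right h.contr hc0
  nlinarith

lemma pic_diff [CompleteSpace E] (h : Data V y₀ R M L δ) (k : ℕ) :
    ∀ x ∈ ball ((0 : ℂ), y₀) δ, ‖pic V (k + 1) x - pic V k x‖ ≤ (2 * R) / 2 ^ k := by
  induction k with
  | zero =>
    intro x hx
    have h1 := (pic_all h 1).2 x hx
    have h2 := (pic_all h 0).2 x hx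
    have h3 := h.small
    calc ‖pic V (0 + 1) x - pic V 0 x‖ = ‖(pic V 1 x - y₀) - (pic V 0 x - y₀)‖ := by
          congr 1; simp
      _ ≤ ‖pic V 1 x - y₀‖ + ‖pic V 0 x - y₀‖ := norm_sub_le _ _
      _ ≤ (2 * R) / 2 ^ 0 := by simp only [pow_zero, div_one]; linarith
  | succ k ih =>
    intro x hx
    have := pic_contr h (pic_all h (k + 1)).1 (pic_all h (k + 1)).2 (pic_all h k).1
      (pic_all h k).2 ih hx
    calc ‖pic V (k + 1 + 1) x - pic V (k + 1) x‖ ≤ (2 * R) / 2 ^ k / 2 := this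
      _ = (2 * R) / 2 ^ (k + 1) := by rw [pow_succ]; field_simp

/-- the flow -/
theorem exists_flow [CompleteSpace E] (h : Data V y₀ R M L δ) :
    ∃ Φ : ℂ × E → E, AnalyticOnNhd ℂ Φ (ball ((0 : ℂ), y₀) δ) ∧
      (∀ x ∈ ball ((0 : ℂ), y₀) δ, Φ x ∈ ball y₀ R) ∧
      ∀ x ∈ ball ((0 : ℂ), y₀) δ,
        Φ x = x.2 + ∫ τ in (0 : ℝ)..1, x.1 • V (Φ ((τ : ℂ) * x.1, x.2)) := by
  have hdist : ∀ x ∈ ball ((0 : ℂ), y₀) δ, ∀ k,
      dist (pic V k x) (pic V (k + 1) x) ≤ (2 * R) * 2 / 2 / 2 ^ k := by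
    intro x hx k
    rw [dist_comm, dist_eq_norm]
    have := pic_diff h k x hx
    calc _ ≤ (2 * R) / 2 ^ k := this
      _ = _ := by ring
  have hlim : ∀ x ∈ ball ((0 : ℂ), y₀) δ, ∃ a, Tendsto (fun k => pic V k x) atTop (𝓝 a) :=
    fun x hx => cauchySeq_tendsto_of_complete (cauchySeq_of_le_geometric_two (hdist x hx))
  classical
  choose! Φ hΦ using hlim
  have hest : ∀ x ∈ ball ((0 : ℂ), y₀) δ, ∀ k, ‖pic V k x - Φ x‖ ≤ (4 * R) / 2 ^ k := by
    intro x hx k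
    have := dist_le_of_le_geometric_two_of_tendsto (hdist x hx) (hΦ x hx) k
    rw [dist_eq_norm] at this
    calc _ ≤ _ := this
      _ = _ := by ring
  have htend : Tendsto (fun k : ℕ => (4 * R) / 2 ^ k) atTop (𝓝 0) := by
    have := (tendsto_pow_atTop_nhds_zero_of_lt_one (r := (1 / 2 : ℝ)) (by norm_num)
      (by norm_num)).const_mul (4 * R)
    simpa [div_eq_mul_inv] using this
  have hunif : TendstoUniformlyOn (pic V) Φ atTop (ball ((0 : ℂ), y₀) δ) := by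
    rw [Metric.tendstoUniformlyOn_iff]
    intro ε hε
    filter_upwards [htend.eventually (gt_mem_nhds hε)] with k hk x hx
    rw [dist_comm, dist_eq_norm]
    exact (hest x hx k).trans_lt hk
  have hΦa : AnalyticOnNhd ℂ Φ (ball ((0 : ℂ), y₀) δ) :=
    R266.SCV.analyticOnNhd_of_tendstoLocallyUniformlyOn isOpen_ball
      hunif.tendstoLocallyUniformlyOn (Eventually.of_forall fun k =>
        (pic_all h k).1.differentiableOn)
  have hΦb : ∀ x ∈ ball ((0 : ℂ), y₀) δ, ‖Φ x - y₀‖ ≤ δ + δ * M := by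
    intro x hx
    exact le_of_tendsto ((hΦ x hx).sub_const y₀).norm
      (Eventually.of_forall fun k => (pic_all h k).2 x hx)
  refine ⟨Φ, hΦa, fun x hx => mem_R h hΦb hx, fun x hx => ?_⟩
  have h1 : Tendsto (fun k => pic V (k + 1) x) atTop (𝓝 (Φ x)) :=
    (hΦ x hx).comp (tendsto_add_atTop_nat 1)
  have h2 : Tendsto (fun k => pic V (k + 1) x) atTop
      (𝓝 (x.2 + ∫ τ in (0 : ℝ)..1, x.1 • V (Φ ((τ : ℂ) * x.1, x.2)))) := by
    rw [tendsto_iff_norm_sub_tendsto_zero]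
    have h3 : Tendsto (fun k : ℕ => (4 * R) / 2 ^ k / 2) atTop (𝓝 0) := by
      simpa using htend.div_const 2
    refine squeeze_zero (fun _ => norm_nonneg _) (fun k => ?_) h3
    exact pic_contr h (pic_all h k).1 (pic_all h k).2 hΦa hΦb (fun y hy => hest y hy k) hx
  exact tendsto_nhds_unique h1 h2

/-- an analytic vector field has data -/
lemma exists_data {V : E → E} {y₀ : E} (hV : AnalyticAt ℂ V y₀) :
    ∃ R M L δ : ℝ, Data V y₀ R M L δ := by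
  obtain ⟨K, t, ht, hlip⟩ := (hV.contDiffAt (n := 1)).exists_lipschitzOnWith
  obtain ⟨R₀, hR₀, hR₀t⟩ := Metric.mem_nhds_iff.1
    (inter_mem ht hV.eventually_analyticAt)
  have hlip' : ∀ y ∈ ball y₀ R₀, ∀ z ∈ ball y₀ R₀, ‖V y - V z‖ ≤ K * ‖y - z‖ := by
    intro y hy z hz
    have := hlip.dist_le_mul y (hR₀t hy).1 z (hR₀t hz).1
    simpa [dist_eq_norm] using this
  set M : ℝ := ‖V y₀‖ + K * R₀ with hM
  have hK : (0 : ℝ) ≤ K := K.2
  have hMn : 0 ≤ M := by positivity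
  have hbd : ∀ y ∈ ball y₀ R₀, ‖V y‖ ≤ M := by
    intro y hy
    have h1 := hlip' y hy y₀ (mem_ball_self hR₀)
    have h2 : ‖y - y₀‖ ≤ R₀ := by
      rw [mem_ball, dist_eq_norm] at hy
      exact hy.le
    have h3 : ‖V y‖ ≤ ‖V y₀‖ + ‖V y - V y₀‖ := by
      calc ‖V y‖ = ‖V y₀ + (V y - V y₀)‖ := by congr 1; abel
        _ ≤ _ := norm_add_le _ _
    have h4 : (K : ℝ) * ‖y - y₀‖ ≤ K * R₀ := mul_le_mul_of_nonneg_left h2 hK
    linarith
  set δ : ℝ := min (R₀ / (2 * (1 + M))) (1 / (2 * (K + 1))) with hδ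
  have hδpos : 0 < δ := lt_min (by positivity) (by positivity)
  refine ⟨R₀, M, K, δ, hR₀, hMn, hK, hδpos, fun y hy => (hR₀t hy).2, hbd, hlip', ?_, ?_⟩
  · have h1 : δ ≤ R₀ / (2 * (1 + M)) := min_le_left _ _
    have h2 : δ * (1 + M) ≤ R₀ / 2 := by
      calc δ * (1 + M) ≤ R₀ / (2 * (1 + M)) * (1 + M) :=
            mul_le_mul_of_nonneg_right h1 (by positivity)
        _ = R₀ / 2 := by field_simp
    nlinarith
  · have h1 : δ ≤ 1 / (2 * (K + 1)) := min_le_right _ _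
    calc δ * K ≤ 1 / (2 * ((K : ℝ) + 1)) * K := mul_le_mul_of_nonneg_right h1 hK
      _ ≤ 1 / (2 * ((K : ℝ) + 1)) * (K + 1) := by
          refine mul_le_mul_of_nonneg_left (by linarith) (by positivity)
      _ = 1 / 2 := by field_simp

end ODE469

/-- **leaf ODE** -/
theorem leafODE : LeafODE := by
  intro n V y₀ hV
  obtain ⟨R, M, L, δ, h⟩ := ODE469.exists_data hV
  obtain ⟨Φ, hΦa, hΦR, hΦe⟩ := ODE469.exists_flow h
  refine ⟨δ, h.δpos, Φ, hΦa, fun y hy => ?_, fun x hx => ⟨h.an _ (hΦR x hx), ?_⟩⟩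
  · have hm : (((0 : ℂ), y) : ℂ × (Fin n → ℂ)) ∈ ball ((0 : ℂ), y₀) δ := by
      rw [mem_ball, Prod.dist_eq, max_lt_iff]
      exact ⟨by simpa using h.δpos, hy⟩
    rw [hΦe _ hm]
    simp
  · have hs : x.1 ∈ ball (0 : ℂ) δ := by
      rw [mem_ball_zero_iff]; exact ODE469.fst_lt hx
    have hy := ODE469.snd_lt hx
    have hmem : ∀ s ∈ ball (0 : ℂ) δ, ((s, x.2) : ℂ × (Fin n → ℂ)) ∈ ball ((0 : ℂ), y₀) δ := by
      intro s hs
      rw [mem_ball, Prod.dist_eq, max_lt_iff]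
      exact ⟨hs, by simpa [dist_eq_norm] using hy⟩
    have hg : DifferentiableOn ℂ (fun s : ℂ => V (Φ (s, x.2))) (ball 0 δ) :=
      h.an.differentiableOn.comp (hΦa.differentiableOn.comp (by fun_prop) hmem)
        (fun s hs => hΦR _ (hmem s hs))
    have h1 := (ODE469.hasDerivAt_ray hg hs).const_add x.2
    refine h1.congr_of_eventuallyEq ?_
    filter_upwards [isOpen_ball.mem_nhds hs] with s hs' using hΦe _ (hmem s hs')

end Crest.Agent.R102.H3
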