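import Mathlib

/-!
Row 102, [H3] (helper703): pure algebra of derivations and algebraic closures.
`E S` = algebraic closure of `ℂ(S)` inside the field `K`.
-/

set_option autoImplicit false

noncomputable section

open Polynomial Cardinal Algebra

namespace Crest.Agent.R102.H3UAlg703

variable {K : Type} [Field K] [Algebra ℂ K]

/-- `ℂ(S)` -/
abbrev FF (S : Set K) : IntermediateField ℂ K := IntermediateField.adjoin ℂ S

/-- the elements of `K` algebraic over `ℂ(S)` -/
def E (S : Set K) : IntermediateField (FF S) K := algebraicClosure (FF S) K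

theorem mem_E {S : Set K} {z : K} : z ∈ E S ↔ IsAlgebraic (FF S) z := mem_algebraicClosure_iff

theorem subset_E {S : Set K} {z : K} (h : z ∈ S) : z ∈ E S := by
  have h1 : z ∈ FF S := IntermediateField.subset_adjoin _ _ h
  exact (E S).algebraMap_mem ⟨z, h1⟩

theorem FF_le_E {S : Set K} {z : K} (h : z ∈ FF S) : z ∈ E S := (E S).algebraMap_mem ⟨z, h⟩

theorem const_mem {S : Set K} (c : ℂ) : algebraMap ℂ K c ∈ E S :=
  FF_le_E ((FF S).algebraMap_mem c)

/-- transitivity -/
theorem trans {S T : Set K} (h : ∀ s ∈ S, s ∈ E T) : ∀ z ∈ E S, z ∈ E T := by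
  intro z hz
  have h1 : FF S ≤ (E T).restrictScalars ℂ := by
    rw [IntermediateField.adjoin_le_iff]
    intro s hs
    exact h s hs
  rw [mem_E] at hz ⊢
  obtain ⟨p, hp0, hp⟩ := hz
  have h2 : IsAlgebraic (E T) z := by
    let i : FF S →+* E T :=
      { toFun := fun x => ⟨(x : K), h1 x.2⟩
        map_one' := rfl
        map_mul' := fun _ _ => rfl
        map_zero' := rfl
        map_add' := fun _ _ => rfl }
    refine ⟨p.map i, ?_, ?_⟩
    · rw [Ne, Polynomial.map_eq_zero_iff i.injective]; exact hp0
    · rw [Polynomial.aeval_def, Polynomial.eval₂_map]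
      rw [Polynomial.aeval_def] at hp
      exact hp
  have : Algebra.IsAlgebraic (FF T) (E T) := algebraicClosure.isAlgebraic (FF T) K
  exact h2.restrictScalars (FF T)

theorem mono {S T : Set K} (h : S ⊆ T) {z : K} (hz : z ∈ E S) : z ∈ E T :=
  trans (fun s hs => subset_E (h hs)) z hz

/-- derivative of a polynomial expression -/
theorem deriv_aeval (D : Derivation ℂ K K) {S : Set K} (hF : ∀ a ∈ FF S, D a ∈ E S) {z : K}
    (hz : z ∈ E S) (p : (FF S)[X]) :
    ∃ c ∈ E S, D (aeval z p) = c + aeval z (derivative p) * D z := by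
  induction p using Polynomial.induction_on' with
  | add p q hp hq =>
    obtain ⟨c, hc, h1⟩ := hp
    obtain ⟨d, hd, h2⟩ := hq
    refine ⟨c + d, add_mem hc hd, ?_⟩
    rw [map_add, map_add, map_add, map_add, h1, h2]
    ring
  | monomial n a =>
    refine ⟨D (a : K) * z ^ n, mul_mem (hF a a.2) (pow_mem hz n), ?_⟩
    rw [aeval_monomial, derivative_monomial, aeval_monomial, Derivation.leibniz,
      Derivation.leibniz_pow]
    simp only [smul_eq_mul, map_mul, map_natCast, nsmul_eq_mul]
    change (a : K) * _ + _ * D (a : K) = _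
    change _ = _ + (a : K) * _ * _ * _
    ring

/-- **stability**: if `D s ∈ E` for the generators, then `D E ⊆ E` -/
theorem alg_stable (D : Derivation ℂ K K) {S : Set K} (hS : ∀ s ∈ S, D s ∈ E S) :
    ∀ z ∈ E S, D z ∈ E S := by
  have hF : ∀ a ∈ FF S, D a ∈ E S := by
    intro a ha
    induction ha using IntermediateField.adjoin_induction with
    | mem x hx => exact hS x hx
    | algebraMap x => rw [Derivation.map_algebraMap]; exact zero_mem _
    | add x y _ _ hx hy => rw [map_add]; exact add_mem hx hy
    | inv x hx h =>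
      rw [Derivation.leibniz_inv]
      simp only [smul_eq_mul]
      exact mul_mem (neg_mem (pow_mem (inv_mem (FF_le_E hx)) 2)) h
    | mul x y hx' hy' hx hy =>
      rw [Derivation.leibniz]
      simp only [smul_eq_mul]
      exact add_mem (mul_mem (FF_le_E hx') hy) (mul_mem (FF_le_E hy') hx)
  intro z hz
  have hint : IsIntegral (FF S) z := (mem_E.1 hz).isIntegral
  obtain ⟨c, hc, h1⟩ := deriv_aeval D hF hz (minpoly (FF S) z)
  rw [minpoly.aeval, map_zero] at h1
  have : CharZero K := charZero_of_injective_algebraMap (algebraMap ℂ K).injective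
  have : CharZero (FF S) := charZero_of_injective_algebraMap (algebraMap ℂ (FF S)).injective
  have hsep : (minpoly (FF S) z).Separable := (minpoly.irreducible hint).separable
  have hne : aeval z (derivative (minpoly (FF S) z)) ≠ 0 :=
    hsep.aeval_derivative_ne_zero (minpoly.aeval _ _)
  have hmem : aeval z (derivative (minpoly (FF S) z)) ∈ E S := by
    rw [Polynomial.aeval_eq_sum_range]
    refine sum_mem fun i _ => ?_
    rw [Algebra.smul_def]
    exact mul_mem ((E S).algebraMap_mem _) (pow_mem hz i)
  have h2 : D z = -c / aeval z (derivative (minpoly (FF S) z)) := by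
    rw [eq_div_iff hne]
    linear_combination -h1
  rw [h2]
  exact div_mem (neg_mem hc) hmem

/-! ### transcendence degree -/

open scoped IntermediateField.algebraAdjoinAdjoin in
theorem trdeg_le (S : Set K) : Algebra.trdeg ℂ (E S) ≤ #S := by
  have e1 : Algebra.trdeg ℂ (Algebra.adjoin ℂ S) ≤ #S := by
    have hs : Algebra.adjoin ℂ S = (MvPolynomial.aeval ((↑) : S → K)).range :=
      Algebra.adjoin_eq_range ℂ S
    let f : MvPolynomial S ℂ →ₐ[ℂ] Algebra.adjoin ℂ S :=
      MvPolynomial.aeval (fun s : S => (⟨s, Algebra.subset_adjoin s.2⟩ : Algebra.adjoin ℂ S))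
    have hf : Function.Surjective f := by
      intro y
      have hy : (y : K) ∈ (MvPolynomial.aeval ((↑) : S → K) : MvPolynomial S ℂ →ₐ[ℂ] K).range := by
        rw [← hs]; exact y.2
      obtain ⟨q, hq⟩ := hy
      refine ⟨q, Subtype.ext ?_⟩
      rw [← hq]
      have : ((Algebra.adjoin ℂ S).val.comp f) = MvPolynomial.aeval ((↑) : S → K) := by
        ext i
        simp [f]
      exact DFunLike.congr_fun this q
    refine (trdeg_le_of_surjective f hf).trans ?_
    rw [MvPolynomial.trdeg_of_isDomain]
    simp
  have e2 : Algebra.trdeg ℂ (FF S) = Algebra.trdeg ℂ (Algebra.adjoin ℂ S) := by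
    have h := trdeg_add_eq ℂ (Algebra.adjoin ℂ S) (A := FF S)
    have h0 : Algebra.trdeg (Algebra.adjoin ℂ S) (FF S) = 0 := trdeg_eq_zero
    rw [← h, h0, add_zero]
  have e3 : Algebra.trdeg ℂ (E S) = Algebra.trdeg ℂ (FF S) := by
    have : Algebra.IsAlgebraic (FF S) (E S) := algebraicClosure.isAlgebraic (FF S) K
    have h := trdeg_add_eq ℂ (FF S) (A := E S)
    have h0 : Algebra.trdeg (FF S) (E S) = 0 := trdeg_eq_zero
    rw [← h, h0, add_zero]
  rw [e3, e2]
  exact e1

/-- more than `#S` elements of `E S` are algebraically dependent -/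
theorem not_algInd {S : Set K} (hS : S.Finite) {ι : Type} [Fintype ι] (x : ι → K)
    (hx : ∀ i, x i ∈ E S) (hc : S.ncard < Fintype.card ι) : ¬ AlgebraicIndependent ℂ x := by
  intro h
  let x' : ι → E S := fun i => ⟨x i, hx i⟩
  have h' : AlgebraicIndependent ℂ x' := by
    have hi : Function.Injective ((E S).val.restrictScalars ℂ) := Subtype.val_injective
    exact (AlgHom.algebraicIndependent_iff _ hi).1 h
  have h1 := h'.cardinalMk_le_trdeg.trans (trdeg_le S)
  have h2 : #S = (S.ncard : Cardinal) := by
    rw [Set.cast_ncard hS]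
  rw [h2, Cardinal.mk_fintype] at h1
  have h3 : Fintype.card ι ≤ S.ncard := by exact_mod_cast h1
  omega

/-- derivations kill the algebraic elements -/
theorem deriv_alg (D : Derivation ℂ K K) {z : K} (hz : IsAlgebraic ℂ z) : D z = 0 := by
  have hint : IsIntegral ℂ z := hz.isIntegral
  have hsep : (minpoly ℂ z).Separable := (minpoly.irreducible hint).separable
  have hne : aeval z (derivative (minpoly ℂ z)) ≠ 0 :=
    hsep.aeval_derivative_ne_zero (minpoly.aeval _ _)
  have h : ∀ p : ℂ[X], D (aeval z p) = aeval z (derivative p) * D z := by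
    intro p
    induction p using Polynomial.induction_on' with
    | add p q hp hq => rw [map_add, map_add, map_add, map_add, hp, hq]; ring
    | monomial n a =>
      rw [aeval_monomial, derivative_monomial, aeval_monomial, Derivation.leibniz,
        Derivation.leibniz_pow, Derivation.map_algebraMap]
      simp only [smul_eq_mul, map_mul, map_natCast, nsmul_eq_mul]
      ring
  have h1 := h (minpoly ℂ z)
  rw [minpoly.aeval, map_zero] at h1
  exact (mul_eq_zero.1 h1.symm).resolve_left hne

/-- first dependence -/
theorem exists_first (z : ℕ → K) {n : ℕ} (hn : ¬ AlgebraicIndependent ℂ (fun i : Fin n => z i)) :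
    ∃ s, s < n ∧ z s ∈ E (z '' {i | i < s}) := by
  classical
  induction n with
  | zero =>
    exfalso
    apply hn
    rw [algebraicIndependent_empty_type_iff]
    exact (algebraMap ℂ K).injective
  | succ n ih =>
    by_cases h : AlgebraicIndependent ℂ (fun i : Fin n => z i)
    · refine ⟨n, n.lt_succ_self, ?_⟩
      rw [mem_E]
      by_contra hna
      apply hn
      have h1 : Transcendental (Algebra.adjoin ℂ (Set.range fun i : Fin n => z i)) (z n) := by
        intro ha
        apply hna
        have hr : (Set.range fun i : Fin n => z i) = z '' {i | i < n} := by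
          ext y
          constructor
          · rintro ⟨i, rfl⟩
            exact ⟨i, i.2, rfl⟩
          · rintro ⟨i, hi, rfl⟩
            exact ⟨⟨i, hi⟩, rfl⟩
        have hr' : ∀ {y : K}, y ∈ FF (Set.range fun i : Fin n => z i) →
            y ∈ FF (z '' {i | i < n}) := by
          intro y hy
          rw [← hr]
          exact hy
        obtain ⟨p, hp0, hp⟩ := ha
        let i : Algebra.adjoin ℂ (Set.range fun i : Fin n => z i) →+* FF (z '' {i | i < n}) :=
          { toFun := fun x => ⟨(x : K), hr' (IntermediateField.algebra_adjoin_le_adjoin ℂ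
                (Set.range fun i : Fin n => z i) x.2)⟩
            map_one' := rfl
            map_mul' := fun _ _ => rfl
            map_zero' := rfl
            map_add' := fun _ _ => rfl }
        have hi : Function.Injective i := by
          intro a b hab
          apply Subtype.ext
          exact congrArg (fun t : FF (z '' {i | i < n}) => (t : K)) hab
        refine ⟨p.map i, ?_, ?_⟩
        · rw [Ne, Polynomial.map_eq_zero_iff hi]; exact hp0
        · rw [Polynomial.aeval_def, Polynomial.eval₂_map]
          rw [Polynomial.aeval_def] at hp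
          exact hp
      have h2 := (h.option_iff_transcendental (z n)).2 h1
      refine (algebraicIndependent_equiv' (finSuccEquivLast (n := n)) ?_).2 h2
      funext i
      refine Fin.lastCases ?_ (fun j => ?_) i
      · simp
      · simp
    · obtain ⟨s, hs, h1⟩ := ih h
      exact ⟨s, by omega, h1⟩

/-- finite transcendence degree from one relation -/
theorem fin_of_dep (D : Derivation ℂ K K) (z : ℕ → K)
    (hz : ∀ i, D (z (i + 1)) = z (i + 2) * D (z 0)) (h0 : D (z 0) ≠ 0) {n : ℕ}
    (hn : ¬ AlgebraicIndependent ℂ (fun i : Fin n => z i)) :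
    ∃ s, ∀ i, z i ∈ E (z '' {i | i < s}) := by
  obtain ⟨s, _, hs⟩ := exists_first z hn
  refine ⟨s, ?_⟩
  have hs0 : s ≠ 0 := by
    rintro rfl
    apply h0
    apply deriv_alg
    have h1 : z '' {i | i < 0} = ∅ := by simp
    rw [h1, mem_E] at hs
    have : Algebra.IsAlgebraic ℂ (FF (∅ : Set K)) := by
      rw [FF, IntermediateField.adjoin_empty]
      infer_instance
    exact hs.restrictScalars ℂ
  let d : Derivation ℂ K K := (D (z 0))⁻¹ • D
  have d0 : d (z 0) = 1 := by
    show (D (z 0))⁻¹ • D (z 0) = 1
    rw [smul_eq_mul, inv_mul_cancel₀ h0]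
  have d1 : ∀ i, d (z (i + 1)) = z (i + 2) := by
    intro i
    show (D (z 0))⁻¹ • D (z (i + 1)) = _
    rw [hz, smul_eq_mul]
    field_simp
  have hle : ∀ i ≤ s, z i ∈ E (z '' {i | i < s}) := by
    intro i hi
    rcases hi.lt_or_eq with h | h
    · exact subset_E ⟨i, h, rfl⟩
    · rw [h]; exact hs
  have hst := alg_stable d (S := z '' {i | i < s}) (by
    rintro _ ⟨i, hi, rfl⟩
    rcases i with _ | i
    · rw [d0]; exact one_mem _
    · rw [d1]
      exact hle _ (by
        have : i + 1 < s := hi
        omega))
  intro i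
  induction i with
  | zero => exact hle 0 (by omega)
  | succ i ih =>
    rcases i with _ | i
    · exact hle 1 (by omega)
    · rw [← d1]
      exact hst _ ih

end Crest.Agent.R102.H3UAlg703
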