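import Crest.Agent.R102.H3Defs2_337
import Crest.Agent.R102.H3UAlg_703

/-!
Row 102, [H3], block **UODE** (helper703).
-/

set_option autoImplicit false

noncomputable section

open Filter Topology Set Metric

namespace Crest.Agent.R102.H3UODE703

open H3UAlg703

/-! ### algebraic core -/

section core

variable {K : Type} [Field K] [Algebra ℂ K]

theorem core (D : Fin 2 → Derivation ℂ K K) (N : ℕ) (m k b : ℕ → K) (y : ℕ → ℕ → K)
    (u : K) (v : ℕ → K)
    (hm0 : ∀ a, D a (m 0) ∈ Set.range (algebraMap ℂ K))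
    (hk0 : ∀ a, D a (k 0) ∈ Set.range (algebraMap ℂ K))
    (hy : ∀ a, ∀ j < N, ∀ i, D a (y j i) = y j (i + 1) * D a (b j))
    (hinc : ∀ j < N, y j 0 = m j * b j + k j)
    (hm : ∀ j < N, m (j + 1) = y j 1 ^ 2 / m j)
    (hk : ∀ j < N, k (j + 1) = y j 0 - m (j + 1) * b j)
    (hne : ∀ j < N, y j 1 ≠ m j)
    (hfin : ∀ j < N, ∃ S : Set K, S.Finite ∧ S ⊆ {b j} ∪ Set.range (y j) ∧
      b j ∈ E S ∧ ∀ i, y j i ∈ E S)
    (hu : ∃ T : Set K, T ⊆ {m 0, k 0} ∪ {z | ∃ j < N, z = b j ∨ ∃ i, z = y j i} ∧ u ∈ E T)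
    (hv0 : v 0 = m 0 * u + k 0) (hv : ∀ a i, D a (v i) = v (i + 1) * D a u)
    (hDu : ∃ a, D a u ≠ 0) :
    ∃ r : ℕ, ¬ AlgebraicIndependent ℂ (Fin.cons u (fun i : Fin (r + 1) => v i) : Fin (r + 2) → K) := by
  classical
  choose! S hSf hSs hSb hSy using hfin
  let G : Set K := {m 0, k 0} ∪ ⋃ j ∈ Finset.range N, S j
  have hGf : G.Finite := by
    refine Set.Finite.union (Set.toFinite _) ?_
    refine Set.Finite.biUnion (Finset.finite_toSet _) fun j hj => ?_
    exact hSf j (by simpa using hj)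
  have hSG : ∀ j < N, S j ⊆ G := by
    intro j hj z hz
    refine Or.inr ?_
    simp only [Set.mem_iUnion]
    exact ⟨j, by simpa using hj, hz⟩
  have hbE : ∀ j < N, b j ∈ E G := fun j hj => mono (hSG j hj) (hSb j hj)
  have hyE : ∀ j < N, ∀ i, y j i ∈ E G := fun j hj i => mono (hSG j hj) (hSy j hj i)
  have hm0E : m 0 ∈ E G := subset_E (Or.inl (Or.inl rfl))
  have hk0E : k 0 ∈ E G := subset_E (Or.inl (Or.inr rfl))
  -- the lines
  have hl : ∀ j ≤ N, m j ∈ E G ∧ k j ∈ E G ∧ ∀ a, D a (m j) ∈ E G ∧ D a (k j) ∈ E G := by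
    intro j
    induction j with
    | zero =>
      intro _
      refine ⟨hm0E, hk0E, fun a => ⟨?_, ?_⟩⟩
      · obtain ⟨c, hc⟩ := hm0 a
        rw [← hc]; exact const_mem c
      · obtain ⟨c, hc⟩ := hk0 a
        rw [← hc]; exact const_mem c
    | succ j ih =>
      intro hj
      obtain ⟨h1, h2, h3⟩ := ih (by omega)
      have hj' : j < N := by omega
      have hm' : m (j + 1) ∈ E G := by
        rw [hm j hj']
        exact div_mem (pow_mem (hyE j hj' 1) 2) h1
      have hDb : ∀ a, D a (b j) ∈ E G := by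
        intro a
        have e1 := congrArg (D a) (hinc j hj')
        rw [hy a j hj', map_add, Derivation.leibniz] at e1
        simp only [smul_eq_mul] at e1
        have hne' : y j 1 - m j ≠ 0 := sub_ne_zero.2 (hne j hj')
        have e2 : D a (b j) = (b j * D a (m j) + D a (k j)) / (y j 1 - m j) := by
          rw [eq_div_iff hne']
          rw [zero_add] at e1
          linear_combination e1
        rw [e2]
        exact div_mem (add_mem (mul_mem (hbE j hj') (h3 a).1) (h3 a).2)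
          (sub_mem (hyE j hj' 1) h1)
      have hDm : ∀ a, D a (m (j + 1)) ∈ E G := by
        intro a
        rw [hm j hj', div_eq_mul_inv, Derivation.leibniz, Derivation.leibniz_inv,
          Derivation.leibniz_pow, hy a j hj']
        simp only [smul_eq_mul, nsmul_eq_mul]
        refine add_mem (mul_mem (pow_mem (hyE j hj' 1) 2) (mul_mem (neg_mem
          (pow_mem (inv_mem h1) 2)) (h3 a).1)) (mul_mem (inv_mem h1) ?_)
        refine mul_mem (natCast_mem _ _) (mul_mem (pow_mem (hyE j hj' 1) _) ?_)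
        exact mul_mem (hyE j hj' 2) (hDb a)
      refine ⟨hm', ?_, fun a => ⟨hDm a, ?_⟩⟩
      · rw [hk j hj']
        exact sub_mem (hyE j hj' 0) (mul_mem hm' (hbE j hj'))
      · rw [hk j hj', map_sub, Derivation.leibniz, hy a j hj']
        simp only [smul_eq_mul]
        refine sub_mem (mul_mem (hyE j hj' _) (hDb a)) (add_mem (mul_mem hm' (hDb a))
          (mul_mem (hbE j hj') (hDm a)))
  have hDb : ∀ a, ∀ j < N, D a (b j) ∈ E G := by
    intro a j hj'
    obtain ⟨h1, h2, h3⟩ := hl j hj'.le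
    have e1 := congrArg (D a) (hinc j hj')
    rw [hy a j hj', map_add, Derivation.leibniz] at e1
    simp only [smul_eq_mul] at e1
    have hne' : y j 1 - m j ≠ 0 := sub_ne_zero.2 (hne j hj')
    have e2 : D a (b j) = (b j * D a (m j) + D a (k j)) / (y j 1 - m j) := by
      rw [eq_div_iff hne']
      rw [zero_add] at e1
      linear_combination e1
    rw [e2]
    exact div_mem (add_mem (mul_mem (hbE j hj') (h3 a).1) (h3 a).2)
      (sub_mem (hyE j hj' 1) h1)
  -- stability
  have hst : ∀ a, ∀ z ∈ E G, D a z ∈ E G := by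
    intro a
    refine alg_stable (D a) ?_
    rintro s (hs | hs)
    · rcases hs with rfl | hs
      · exact ((hl 0 (Nat.zero_le _)).2.2 a).1
      · rw [Set.mem_singleton_iff] at hs
        rw [hs]
        exact ((hl 0 (Nat.zero_le _)).2.2 a).2
    · simp only [Set.mem_iUnion] at hs
      obtain ⟨j, hj, hs⟩ := hs
      have hj' : j < N := by simpa using hj
      rcases hSs j hj' hs with h | ⟨i, rfl⟩
      · rw [Set.mem_singleton_iff] at h
        rw [h]; exact hDb a j hj'
      · rw [hy a j hj']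
        exact mul_mem (hyE j hj' _) (hDb a j hj')
  have huE : u ∈ E G := by
    obtain ⟨T, hT, huT⟩ := hu
    refine trans (fun s hs => ?_) u huT
    rcases hT hs with h | ⟨j, hj, h⟩
    · exact subset_E (Or.inl h)
    · rcases h with rfl | ⟨i, rfl⟩
      · exact hbE j hj
      · exact hyE j hj i
  obtain ⟨a, ha⟩ := hDu
  have hvE : ∀ i, v i ∈ E G := by
    intro i
    induction i with
    | zero => rw [hv0]; exact add_mem (mul_mem hm0E huE) hk0E
    | succ i ih =>
      have e1 : v (i + 1) = D a (v i) / D a u := by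
        rw [hv a i, mul_div_assoc, div_self ha, mul_one]
      rw [e1]
      exact div_mem (hst a _ ih) (hst a _ huE)
  refine ⟨G.ncard, not_algInd hGf _ ?_ ?_⟩
  · intro i
    refine Fin.cases ?_ (fun j => ?_) i
    · simpa using huE
    · simpa using hvE j
  · rw [Fintype.card_fin]; omega

end core

/-! ### germs -/

open H3

section germs

variable {p : C2} {K : Type} [Field K] [Algebra ℂ K]

theorem iter_an {g : ℂ → ℂ} {x : ℂ} (hg : AnalyticAt ℂ g x) (i : ℕ) :
    AnalyticAt ℂ (iteratedDeriv i g) x := by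
  induction i with
  | zero => simpa using hg
  | succ i ih => rw [iteratedDeriv_succ]; exact ih.deriv

theorem an_add {f h : C2 → ℂ} (hf : AnalyticAt ℂ f p) (hh : AnalyticAt ℂ h p) :
    AnalyticAt ℂ (fun x => f x + h x) p := hf.add hh

theorem an_mul {f h : C2 → ℂ} (hf : AnalyticAt ℂ f p) (hh : AnalyticAt ℂ h p) :
    AnalyticAt ℂ (fun x => f x * h x) p := hf.mul hh

theorem an_div {f h : C2 → ℂ} (hf : AnalyticAt ℂ f p) (hh : AnalyticAt ℂ h p) (h0 : h p ≠ 0) :
    AnalyticAt ℂ (fun x => f x / h x) p := hf.div hh h0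

theorem an_jet {g : ℂ → ℂ} {x : ℂ} (hg : AnalyticAt ℂ g x) (r : ℕ) (i : Fin (r + 2)) :
    AnalyticAt ℂ (fun x => jet g r x i) x := by
  refine Fin.cases ?_ (fun j => ?_) i
  · have : AnalyticAt ℂ (fun x : ℂ => x) x := analyticAt_id
    simpa [jet] using this
  · simpa [jet] using iter_an hg j

theorem an_eval_jet {g : ℂ → ℂ} {x : ℂ} (hg : AnalyticAt ℂ g x) (r : ℕ)
    (P : MvPolynomial (Fin (r + 2)) ℂ) :
    AnalyticAt ℂ (fun x => MvPolynomial.eval (jet g r x) P) x := by
  induction P using MvPolynomial.induction_on with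
  | C a => simp only [MvPolynomial.eval_C]; exact analyticAt_const
  | add P Q hP hQ => simp only [map_add]; exact hP.add hQ
  | mul_X P i hP => simp only [map_mul, MvPolynomial.eval_X]; exact hP.mul (an_jet hg r i)

/-- directional derivative -/
def dv (v : C2) (f : C2 → ℂ) (x : C2) : ℂ := fderiv ℂ f x v

theorem dv_analytic {f : C2 → ℂ} (hf : AnalyticAt ℂ f p) (v : C2) : AnalyticAt ℂ (dv v f) p :=
  ((ContinuousLinearMap.apply ℂ ℂ v).analyticAt _).comp hf.fderiv

/-- the direction of the derivation number `a` -/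
def dir (a : Fin 2) : C2 := if a = 0 then (1, 0) else (0, 1)

theorem D_eq (Γ : GField p K) (a : Fin 2) {f : C2 → ℂ} (hf : AnalyticAt ℂ f p) :
    Γ.D a (Γ.ι f) = Γ.ι (dv (dir a) f) := by
  fin_cases a
  · exact Γ.d1 f hf
  · exact Γ.d2 f hf

theorem ι_congr (Γ : GField p K) {f h : C2 → ℂ} (hf : AnalyticAt ℂ f p) (hh : AnalyticAt ℂ h p)
    (e : f =ᶠ[𝓝 p] h) : Γ.ι f = Γ.ι h := by
  have h1 : AnalyticAt ℂ (fun x => (-1 : ℂ) * h x) p := analyticAt_const.mul hh
  have h2 : Γ.ι (fun x => f x + (-1 : ℂ) * h x) = Γ.ι f - Γ.ι h := by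
    rw [Γ.add f _ hf h1, Γ.mul (fun _ => -1) h analyticAt_const hh, Γ.const]
    simp
    ring
  have h3 : Γ.ι (fun x => f x + (-1 : ℂ) * h x) = 0 := by
    refine (Γ.zero_iff (fun x => f x + (-1 : ℂ) * h x) (hf.add h1)).2 ?_
    filter_upwards [e] with x hx
    rw [hx]; ring
  rw [h2] at h3
  exact sub_eq_zero.1 h3

theorem ι_div (Γ : GField p K) {f h : C2 → ℂ} (hf : AnalyticAt ℂ f p) (hh : AnalyticAt ℂ h p)
    (h0 : h p ≠ 0) : Γ.ι (fun x => f x / h x) = Γ.ι f / Γ.ι h := by
  have h1 : Γ.ι h ≠ 0 := by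
    intro h2
    rw [Γ.zero_iff h hh] at h2
    exact h0 h2.self_of_nhds
  rw [eq_div_iff h1]
  have h2 : AnalyticAt ℂ (fun x => f x / h x) p := hf.div hh h0
  rw [← Γ.mul _ _ h2 hh]
  refine ι_congr Γ (h2.mul hh) hf ?_
  filter_upwards [hh.continuousAt.eventually_ne h0] with x hx
  field_simp

theorem eval_analytic {σ : Type} (s : σ → C2 → ℂ) (hs : ∀ i, AnalyticAt ℂ (s i) p)
    (P : MvPolynomial σ ℂ) : AnalyticAt ℂ (fun x => MvPolynomial.eval (fun i => s i x) P) p := by
  induction P using MvPolynomial.induction_on with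
  | C a => simp only [MvPolynomial.eval_C]; exact analyticAt_const
  | add P Q hP hQ => simp only [map_add]; exact hP.add hQ
  | mul_X P i hP => simp only [map_mul, MvPolynomial.eval_X]; exact hP.mul (hs i)

theorem io_eval (Γ : GField p K) {σ : Type} (s : σ → C2 → ℂ) (hs : ∀ i, AnalyticAt ℂ (s i) p)
    (P : MvPolynomial σ ℂ) :
    Γ.ι (fun x => MvPolynomial.eval (fun i => s i x) P) =
      MvPolynomial.aeval (fun i => Γ.ι (s i)) P := by
  induction P using MvPolynomial.induction_on with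
  | C a => simp [Γ.const]
  | add P Q hP hQ =>
    simp only [map_add]
    rw [Γ.add _ _ (eval_analytic s hs P) (eval_analytic s hs Q), hP, hQ]
  | mul_X P i hP =>
    simp only [map_mul, MvPolynomial.eval_X, MvPolynomial.aeval_X]
    rw [Γ.mul _ _ (eval_analytic s hs P) (hs i), hP]

theorem eval₂_analytic {σ : Type} (s : σ → C2 → ℂ) (hs : ∀ i, AnalyticAt ℂ (s i) p)
    {f : C2 → ℂ} (hf : AnalyticAt ℂ f p) (P : Polynomial (MvPolynomial σ ℂ)) :
    AnalyticAt ℂ (fun x => Polynomial.eval₂ (MvPolynomial.eval (fun i => s i x)) (f x) P) p := by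
  induction P using Polynomial.induction_on' with
  | add P Q hP hQ => simp only [Polynomial.eval₂_add]; exact hP.add hQ
  | monomial n a =>
    simp only [Polynomial.eval₂_monomial]
    exact (eval_analytic s hs a).mul (hf.pow n)

theorem io_eval₂ (Γ : GField p K) {σ : Type} (s : σ → C2 → ℂ) (hs : ∀ i, AnalyticAt ℂ (s i) p)
    {f : C2 → ℂ} (hf : AnalyticAt ℂ f p) (P : Polynomial (MvPolynomial σ ℂ)) :
    Γ.ι (fun x => Polynomial.eval₂ (MvPolynomial.eval (fun i => s i x)) (f x) P) =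
      Polynomial.eval₂ (MvPolynomial.aeval (fun i => Γ.ι (s i)) : MvPolynomial σ ℂ →ₐ[ℂ] K)
        (Γ.ι f) P := by
  have hpow : ∀ n : ℕ, Γ.ι (fun x => f x ^ n) = Γ.ι f ^ n := by
    intro n
    induction n with
    | zero => simp [Γ.const]
    | succ n ih =>
      simp only [pow_succ]
      rw [Γ.mul (fun x => f x ^ n) f (hf.pow n) hf, ih]
  induction P using Polynomial.induction_on' with
  | add P Q hP hQ =>
    simp only [Polynomial.eval₂_add]
    rw [Γ.add _ _ (eval₂_analytic s hs hf P) (eval₂_analytic s hs hf Q), hP, hQ]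
  | monomial n a =>
    simp only [Polynomial.eval₂_monomial]
    rw [Γ.mul _ (fun x => f x ^ n) (eval_analytic s hs a) (hf.pow n), io_eval Γ s hs, hpow]
    rfl

/-- **AlgAt ⟹ algebraic in the field of germs** -/
theorem alg_of_AlgAt (Γ : GField p K) {σ : Type} (s : σ → C2 → ℂ)
    (hs : ∀ i, AnalyticAt ℂ (s i) p) {f : C2 → ℂ} (hf : AnalyticAt ℂ f p) (h : AlgAt p s f) :
    Γ.ι f ∈ E (Set.range fun i => Γ.ι (s i)) := by
  obtain ⟨P, hP, n, hn⟩ := h
  rw [mem_E]
  set F := FF (Set.range fun i => Γ.ι (s i)) with hF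
  let j : MvPolynomial σ ℂ →ₐ[ℂ] F :=
    MvPolynomial.aeval (fun i => (⟨Γ.ι (s i), IntermediateField.subset_adjoin _ _ ⟨i, rfl⟩⟩ : F))
  have hj : ∀ q : MvPolynomial σ ℂ, ((j q : F) : K) =
      MvPolynomial.aeval (fun i => Γ.ι (s i)) q := by
    intro q
    have : (F.val.comp j) = MvPolynomial.aeval (fun i => Γ.ι (s i)) := by
      ext i
      simp [j]
    exact DFunLike.congr_fun this q
  refine ⟨P.map (j : MvPolynomial σ ℂ →+* F), ?_, ?_⟩
  · intro h0
    have h1 : j (P.coeff n) = 0 := by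
      have := congrArg (fun q => Polynomial.coeff q n) h0
      simpa using this
    have h2 : MvPolynomial.aeval (fun i => Γ.ι (s i)) (P.coeff n) = 0 := by
      rw [← hj, h1]; rfl
    rw [← io_eval Γ s hs, Γ.zero_iff _ (eval_analytic s hs _)] at h2
    exact hn h2
  · rw [Polynomial.aeval_def, Polynomial.eval₂_map]
    have h1 := io_eval₂ Γ s hs hf P
    rw [(Γ.zero_iff _ (eval₂_analytic s hs hf P)).2 hP] at h1
    rw [h1]
    congr 1
    ext q
    · simp
    · rename_i q
      exact hj (MvPolynomial.X q)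

/-- chain rule for the derivations -/
theorem D_comp (Γ : GField p K) (a : Fin 2) {g : ℂ → ℂ} {b : C2 → ℂ} (hb : AnalyticAt ℂ b p)
    (hg : AnalyticAt ℂ g (b p)) :
    Γ.D a (Γ.ι (fun l => g (b l))) = Γ.ι (fun l => deriv g (b l)) * Γ.D a (Γ.ι b) := by
  have h1 : AnalyticAt ℂ (fun l => g (b l)) p := hg.comp hb
  have h2 : AnalyticAt ℂ (fun l => deriv g (b l)) p := hg.deriv.comp hb
  rw [D_eq Γ a h1, D_eq Γ a hb, ← Γ.mul _ _ h2 (dv_analytic hb _)]
  refine ι_congr Γ (dv_analytic h1 _) (h2.mul (dv_analytic hb _)) ?_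
  have e1 : ∀ᶠ l in 𝓝 p, AnalyticAt ℂ g (b l) :=
    hb.continuousAt.eventually hg.eventually_analyticAt
  filter_upwards [e1, hb.eventually_analyticAt] with l hl hbl
  have h3 : HasFDerivAt (fun l => g (b l)) ((deriv g (b l)) • fderiv ℂ b l) l :=
    hl.differentiableAt.hasDerivAt.comp_hasFDerivAt l hbl.differentiableAt.hasFDerivAt
  show fderiv ℂ (fun l => g (b l)) l (dir a) = deriv g (b l) * fderiv ℂ b l (dir a)
  rw [h3.fderiv]
  rfl

/-- a germ with vanishing derivatives is constant -/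
theorem const_of_D (Γ : GField p K) {f : C2 → ℂ} (hf : AnalyticAt ℂ f p)
    (h : ∀ a, Γ.D a (Γ.ι f) = 0) : ∀ᶠ l in 𝓝 p, f l = f p := by
  have h0 := h 0
  have h1 := h 1
  rw [D_eq Γ _ hf, Γ.zero_iff _ (dv_analytic hf _)] at h0 h1
  have h2 : ∀ᶠ l in 𝓝 p, AnalyticAt ℂ f l ∧ fderiv ℂ f l = 0 := by
    filter_upwards [h0, h1, hf.eventually_analyticAt] with l a0 a1 a2
    refine ⟨a2, ?_⟩
    ext v
    have e0 : fderiv ℂ f l ((1 : ℂ), (0 : ℂ)) = 0 := a0
    have e1 : fderiv ℂ f l ((0 : ℂ), (1 : ℂ)) = 0 := a1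
    · simpa using e0
    · have e1 : fderiv ℂ f l ((0 : ℂ), (1 : ℂ)) = 0 := a1
      simpa using e1
  obtain ⟨r, hr, hb⟩ := Metric.eventually_nhds_iff_ball.1 h2
  filter_upwards [Metric.ball_mem_nhds p hr] with l hl
  exact (isOpen_ball).is_const_of_fderiv_eq_zero (convex_ball p r).isPreconnected
    (fun x hx => (hb x hx).1.differentiableAt.differentiableWithinAt)
    (fun x hx => (hb x hx).2) hl (mem_ball_self hr)

/-- jets of `g` along an analytic vertex: finite transcendence degree -/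
theorem fin_jets (Γ : GField p K) {g : ℂ → ℂ} {b : C2 → ℂ} (hb : AnalyticAt ℂ b p)
    (hg : AnalyticAt ℂ g (b p)) (hode : AlgODE g (b p)) :
    ∃ S : Set K, S.Finite ∧
      S ⊆ {Γ.ι b} ∪ Set.range (fun i : ℕ => Γ.ι (fun l => iteratedDeriv i g (b l))) ∧
      Γ.ι b ∈ E S ∧ ∀ i : ℕ, Γ.ι (fun l => iteratedDeriv i g (b l)) ∈ E S := by
  have hgi : ∀ i : ℕ, AnalyticAt ℂ (iteratedDeriv i g) (b p) := fun i => iter_an hg i
  have hy : ∀ a, ∀ i : ℕ, Γ.D a (Γ.ι (fun l => iteratedDeriv i g (b l))) =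
      Γ.ι (fun l => iteratedDeriv (i + 1) g (b l)) * Γ.D a (Γ.ι b) := by
    intro a i
    have := D_comp Γ a hb (hgi i)
    rw [this]
    simp only [iteratedDeriv_succ]
  by_cases h : ∃ a, Γ.D a (Γ.ι b) ≠ 0
  · obtain ⟨a, ha⟩ := h
    obtain ⟨r, P, hP0, hP⟩ := hode
    let z : ℕ → K := fun i => Nat.casesOn i (Γ.ι b) (fun i => Γ.ι (fun l => iteratedDeriv i g (b l)))
    have hdep : ¬ AlgebraicIndependent ℂ (fun i : Fin (r + 2) => z i) := by
      intro hind
      rw [algebraicIndependent_iff] at hind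
      apply hP0
      apply hind P
      let s : Fin (r + 2) → C2 → ℂ := fun i l => jet g r (b l) i
      have hs : ∀ i, AnalyticAt ℂ (s i) p := by
        intro i
        refine Fin.cases ?_ (fun j => ?_) i
        · simpa [s, jet] using hb
        · have : AnalyticAt ℂ (fun l => iteratedDeriv j g (b l)) p := (hgi j).comp hb
          simpa [s, jet] using this
      have h1 := io_eval Γ s hs P
      have h2 : (fun i => Γ.ι (s i)) = (fun i : Fin (r + 2) => z i) := by
        funext i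
        refine Fin.cases ?_ (fun j => ?_) i
        · simp [s, jet, z]
        · simp [s, jet, z]
      rw [h2] at h1
      rw [← h1, Γ.zero_iff _ (eval_analytic s hs P)]
      exact hb.continuousAt.eventually hP
    obtain ⟨s, hs⟩ := fin_of_dep (Γ.D a) z (fun i => by
      show Γ.D a (Γ.ι (fun l => iteratedDeriv i g (b l))) =
        Γ.ι (fun l => iteratedDeriv (i + 1) g (b l)) * Γ.D a (Γ.ι b)
      exact hy a i) ha hdep
    refine ⟨z '' {i | i < s}, (Set.finite_lt_nat s).image z, ?_, hs 0, fun i => hs (i + 1)⟩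
    rintro _ ⟨i, _, rfl⟩
    rcases i with _ | i
    · exact Or.inl rfl
    · exact Or.inr ⟨i, rfl⟩
  · push Not at h
    have hc := const_of_D Γ hb h
    refine ⟨∅, Set.finite_empty, Set.empty_subset _, ?_, fun i => ?_⟩
    · have : Γ.ι b = Γ.ι (fun _ => b p) := ι_congr Γ hb analyticAt_const hc
      rw [this, Γ.const]
      exact const_mem _
    · have : Γ.ι (fun l => iteratedDeriv i g (b l)) = Γ.ι (fun _ => iteratedDeriv i g (b p)) := by
        refine ι_congr Γ ((hgi i).comp hb) analyticAt_const ?_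
        filter_upwards [hc] with l hl
        simp only [hl]
      rw [this, Γ.const]
      exact const_mem _

/-- the lines of an analytic transversal chain are analytic -/
theorem ln0_analytic {N : ℕ} {g : ℂ → ℂ} {b : ℕ → C2 → ℂ} (hC : Chain0 g N b p)
    (hT : Transv g N b p) (hg : ∀ j < N, AnalyticAt ℂ g (b j p)) :
    ∀ j ≤ N, AnalyticAt ℂ (fun l => (ln0 g (fun i => b i l) l j).1) p ∧
      AnalyticAt ℂ (fun l => (ln0 g (fun i => b i l) l j).2) p ∧
      (j < N → (ln0 g (fun i => b i p) p j).1 ≠ 0) := by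
  intro j
  induction j with
  | zero =>
    intro _
    refine ⟨analyticAt_fst, analyticAt_snd, fun h => ?_⟩
    exact (hT 0 h).2.2
  | succ j ih =>
    intro hj
    have hj' : j < N := by omega
    obtain ⟨h1, h2, h3⟩ := ih hj'.le
    have hbj := hC.1 j hj'
    have hgb : AnalyticAt ℂ (fun l => g (b j l)) p := (hg j hj').comp hbj
    have hdg : AnalyticAt ℂ (fun l => deriv g (b j l)) p := (hg j hj').deriv.comp hbj
    have e1 : AnalyticAt ℂ (fun l => deriv g (b j l) ^ 2 / (ln0 g (fun i => b i l) l j).1) p :=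
      (hdg.pow 2).div h1 (h3 hj')
    refine ⟨e1, ?_, fun _ => ?_⟩
    · exact hgb.sub (e1.mul hbj)
    · show deriv g (b j p) ^ 2 / (ln0 g (fun i => b i p) p j).1 ≠ 0
      exact div_ne_zero (pow_ne_zero 2 (hT j hj').2.1) (h3 hj')

end germs

/-- **UODE** -/
theorem blockUODE (hG : LeafGF) : BlockUODE := by
  intro N r g gh u p b hC hT hg hode hu hgh hinc halg
  obtain ⟨K, iF, iA, ⟨Γ⟩⟩ := hG p
  have hln := ln0_analytic hC hT hg
  let mj : ℕ → C2 → ℂ := fun j l => (ln0 g (fun i => b i l) l j).1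
  let kj : ℕ → C2 → ℂ := fun j l => (ln0 g (fun i => b i l) l j).2
  have hgi : ∀ j < N, ∀ i : ℕ, AnalyticAt ℂ (iteratedDeriv i g) (b j p) :=
    fun j hj i => iter_an (hg j hj) i
  have hgb : ∀ j < N, ∀ i : ℕ, AnalyticAt ℂ (fun l => iteratedDeriv i g (b j l)) p :=
    fun j hj i => (hgi j hj i).comp (hC.1 j hj)
  have hghi : ∀ i : ℕ, AnalyticAt ℂ (iteratedDeriv i gh) (u p) := fun i => iter_an hgh i
  have hghu : ∀ i : ℕ, AnalyticAt ℂ (fun l => iteratedDeriv i gh (u l)) p :=
    fun i => (hghi i).comp hu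
  -- constants
  have hfst : ∀ a, Γ.D a (Γ.ι (fun l : C2 => l.1)) = algebraMap ℂ K (dir a).1 := by
    intro a
    rw [D_eq Γ a analyticAt_fst, ← Γ.const]
    refine ι_congr Γ (dv_analytic analyticAt_fst _) analyticAt_const ?_
    refine Eventually.of_forall fun l => ?_
    show fderiv ℂ (fun l : C2 => l.1) l (dir a) = _
    rw [(hasFDerivAt_fst (𝕜 := ℂ) (p := l)).fderiv]
    rfl
  have hsnd : ∀ a, Γ.D a (Γ.ι (fun l : C2 => l.2)) = algebraMap ℂ K (dir a).2 := by
    intro a
    rw [D_eq Γ a analyticAt_snd, ← Γ.const]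
    refine ι_congr Γ (dv_analytic analyticAt_snd _) analyticAt_const ?_
    refine Eventually.of_forall fun l => ?_
    show fderiv ℂ (fun l : C2 => l.2) l (dir a) = _
    rw [(hasFDerivAt_snd (𝕜 := ℂ) (p := l)).fderiv]
    rfl
  -- derivations of the jets
  have hv : ∀ a (i : ℕ), Γ.D a (Γ.ι (fun l => iteratedDeriv i gh (u l))) =
      Γ.ι (fun l => iteratedDeriv (i + 1) gh (u l)) * Γ.D a (Γ.ι u) := by
    intro a i
    rw [D_comp Γ a hu (hghi i)]
    simp only [iteratedDeriv_succ]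
  have hv0 : Γ.ι (fun l => iteratedDeriv 0 gh (u l)) =
      Γ.ι (fun l : C2 => l.1) * Γ.ι u + Γ.ι (fun l : C2 => l.2) := by
    rw [← Γ.mul _ _ analyticAt_fst hu, ← Γ.add _ _ (an_mul analyticAt_fst hu) analyticAt_snd]
    refine ι_congr Γ (hghu 0) (an_add (an_mul analyticAt_fst hu) analyticAt_snd) ?_
    filter_upwards [hinc] with l hl
    simpa using hl
  have hDu : ∃ a, Γ.D a (Γ.ι u) ≠ 0 := by
    by_contra hcon
    push Not at hcon
    have h1 := hv 1 0
    rw [hv0, map_add, Derivation.leibniz, hcon 1, hfst 1, hsnd 1] at h1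
    simp [dir] at h1
  have key := core Γ.D N (fun j => Γ.ι (mj j)) (fun j => Γ.ι (kj j)) (fun j => Γ.ι (b j))
    (fun j i => Γ.ι (fun l => iteratedDeriv i g (b j l))) (Γ.ι u)
    (fun i => Γ.ι (fun l => iteratedDeriv i gh (u l)))
    (fun a => ⟨_, (hfst a).symm⟩) (fun a => ⟨_, (hsnd a).symm⟩)
    (fun a j hj i => by
      rw [D_comp Γ a (hC.1 j hj) (hgi j hj i)]
      simp only [iteratedDeriv_succ])
    (fun j hj => by
      show Γ.ι _ = Γ.ι (mj j) * Γ.ι (b j) + Γ.ι (kj j)
      have a1 := (hln j hj.le).1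
      have a2 := (hln j hj.le).2.1
      have a3 := hC.1 j hj
      rw [← Γ.mul (mj j) _ a1 a3, ← Γ.add _ (kj j) (an_mul a1 a3) a2]
      refine ι_congr Γ (hgb j hj 0) (an_add (an_mul a1 a3) a2) ?_
      filter_upwards [hC.2] with l hl
      have := hl j hj
      simpa using this)
    (fun j hj => by
      show Γ.ι (mj (j + 1)) = Γ.ι _ ^ 2 / Γ.ι (mj j)
      have a1 := (hln j hj.le).1
      have a0 := (hln j hj.le).2.2 hj
      have a4 := hgb j hj 1
      rw [pow_two, ← Γ.mul _ _ a4 a4, ← ι_div (h := mj j) Γ (an_mul a4 a4) a1 a0]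
      refine ι_congr Γ (hln (j + 1) hj).1 (an_div (an_mul a4 a4) a1 a0) ?_
      refine Eventually.of_forall fun l => ?_
      show deriv g (b j l) ^ 2 / mj j l = _
      simp only [iteratedDeriv_one, pow_two]
      try rfl)
    (fun j hj => by
      show Γ.ι (kj (j + 1)) = Γ.ι _ - Γ.ι (mj (j + 1)) * Γ.ι (b j)
      have a1 := (hln (j + 1) hj).1
      have a2 := (hln (j + 1) hj).2.1
      have a3 := hC.1 j hj
      have a4 := hgb j hj 0
      rw [eq_sub_iff_add_eq, ← Γ.mul (mj (j + 1)) _ a1 a3, ← Γ.add (kj (j + 1)) _ a2 (an_mul a1 a3)]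
      refine ι_congr Γ (an_add a2 (an_mul a1 a3)) a4 ?_
      refine Eventually.of_forall fun l => ?_
      show (g (b j l) - deriv g (b j l) ^ 2 / mj j l * b j l) +
        deriv g (b j l) ^ 2 / mj j l * b j l = iteratedDeriv 0 g (b j l)
      rw [iteratedDeriv_zero]; ring)
    (fun j hj => by
      intro heq
      have a1 := (hln j hj.le).1
      have a4 := hgb j hj 1
      have h1 : Γ.ι (fun l => iteratedDeriv 1 g (b j l)) = Γ.ι (mj j) := heq
      have a5 : AnalyticAt ℂ (fun l => (-1 : ℂ) * mj j l) p := analyticAt_const.mul a1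
      have h2 : Γ.ι (fun l => iteratedDeriv 1 g (b j l) + (-1 : ℂ) * mj j l) = 0 := by
        rw [Γ.add _ _ a4 a5, Γ.mul (fun _ => -1) (mj j) analyticAt_const a1, Γ.const, h1]
        simp
      rw [Γ.zero_iff _ (an_add a4 a5)] at h2
      have h3 := h2.self_of_nhds
      simp only [iteratedDeriv_one] at h3
      apply (hT j hj).1
      linear_combination h3)
    (fun j hj => fin_jets Γ (hC.1 j hj) (hg j hj) (hode j hj))
    (by
      let s : Idx N r → C2 → ℂ := fun i l => jv g N r b l i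
      have hs : ∀ i, AnalyticAt ℂ (s i) p := by
        rintro (i | ⟨j, _ | i⟩)
        · by_cases hi : i = 0
          · simpa [s, jv, hi] using analyticAt_fst
          · simpa [s, jv, hi] using analyticAt_snd
        · exact hC.1 j j.2
        · exact hgb j j.2 i
      refine ⟨Set.range fun i => Γ.ι (s i), ?_, alg_of_AlgAt Γ s hs hu halg⟩
      rintro _ ⟨(i | ⟨j, _ | i⟩), rfl⟩
      · left
        by_cases hi : i = 0
        · left
          simp [s, jv, hi, mj, ln0]
        · right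
          simp [s, jv, hi, kj, ln0]
      · right
        exact ⟨j, j.2, Or.inl rfl⟩
      · right
        exact ⟨j, j.2, Or.inr ⟨i, rfl⟩⟩)
    hv0 hv hDu
  obtain ⟨R, hR⟩ := key
  rw [algebraicIndependent_iff] at hR
  push Not at hR
  obtain ⟨P, hP, hP0⟩ := hR
  refine ⟨R, P, hP0, ?_⟩
  -- the relation holds along `u`
  let s : Fin (R + 2) → C2 → ℂ := fun i l => jet gh R (u l) i
  have hs : ∀ i, AnalyticAt ℂ (s i) p := by
    intro i
    refine Fin.cases ?_ (fun j => ?_) i
    · simpa [s, jet] using hu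
    · have := hghu j
      simpa [s, jet] using this
  have h1 := io_eval Γ s hs P
  have h2 : (fun i => Γ.ι (s i)) = (Fin.cons (Γ.ι u) (fun i : Fin (R + 1) =>
      Γ.ι (fun l => iteratedDeriv i gh (u l))) : Fin (R + 2) → K) := by
    funext i
    refine Fin.cases ?_ (fun j => ?_) i
    · simp [s, jet]
    · simp [s, jet]
  rw [h2, hP, Γ.zero_iff _ (eval_analytic s hs P)] at h1
  have hQ : AnalyticAt ℂ (fun x => MvPolynomial.eval (jet gh R x) P) (u p) := an_eval_jet hgh R P
  rcases hQ.eventually_eq_zero_or_eventually_ne_zero with h | h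
  · exact h
  · exfalso
    have hcon : ∀ᶠ l in 𝓝 p, u l = u p := by
      have h' := eventually_nhdsWithin_iff.1 h
      filter_upwards [hu.continuousAt.eventually h', h1] with l a1 a2
      by_contra hne
      exact a1 hne a2
    obtain ⟨a, ha⟩ := hDu
    apply ha
    have : Γ.ι u = Γ.ι (fun _ => u p) := ι_congr Γ hu analyticAt_const hcon
    rw [this, Γ.const, Derivation.map_algebraMap]

end Crest.Agent.R102.H3UODE703
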