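import Crest.Agent.R102.H4Defs_490

/-!
# Row 102, [H4], leaf 1c (helper406): signs and limits of `L` near real points
-/

open Complex Set Filter Topology

noncomputable section

namespace Crest.Agent.R102.H4

theorem L_im (N : ℝ) (z : ℂ) : (L N z).im = N * arg z + arg (1 - z) := by
  unfold L
  rw [add_im, im_ofReal_mul, log_im, log_im]

theorem L_re (N : ℝ) (z : ℂ) : (L N z).re = N * Real.log ‖z‖ + Real.log ‖1 - z‖ := by
  unfold L
  rw [add_re, re_ofReal_mul, log_re, log_re]

theorem arg_lb {z : ℂ} (h : 0 < z.im) : z.im / ‖z‖ ≤ arg z := by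
  rw [← Complex.sin_arg]
  exact Real.sin_le (arg_nonneg_iff.2 h.le)

theorem arg_ub {z : ℂ} (h : 0 < z.im) (h' : 0 < z.re) : arg z ≤ z.im / z.re := by
  rw [← Complex.tan_arg]
  refine Real.le_tan (arg_nonneg_iff.2 h.le) ?_
  have := abs_arg_lt_pi_div_two_iff.2 (Or.inl h')
  exact (abs_lt.1 this).2

theorem arg_eq_neg {w : ℂ} (h : w.im < 0) : arg w = -arg ((starRingEnd ℂ) w) := by
  have h1 : arg w < 0 := arg_neg_iff.2 h
  rw [arg_conj, if_neg (by linarith [Real.pi_pos]), neg_neg]

theorem arg_neg_ub {w : ℂ} (h : w.im < 0) : arg w ≤ w.im / ‖w‖ := by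
  rw [arg_eq_neg h]
  have h1 := arg_lb (z := (starRingEnd ℂ) w) (by simpa using h)
  rw [conj_im, norm_conj, neg_div] at h1
  linarith

theorem arg_neg_lb {w : ℂ} (h : w.im < 0) (h' : 0 < w.re) : w.im / w.re ≤ arg w := by
  rw [arg_eq_neg h]
  have h1 := arg_ub (z := (starRingEnd ℂ) w) (by simpa using h) (by simpa using h')
  rw [conj_im, conj_re, neg_div] at h1
  linarith

/-- lower bound of `Im L` -/
theorem im_lb {N : ℝ} (hN : 0 < N) {z : ℂ} (h : z ∈ UH) (h' : z.re < 1) :
    z.im * (N / ‖z‖ - 1 / (1 - z.re)) ≤ (L N z).im := by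
  have h0 : 0 < z.im := h
  rw [L_im]
  have h1 := mul_le_mul_of_nonneg_left (arg_lb h0) hN.le
  have h2 := arg_neg_lb (w := 1 - z) (by simpa using h0) (by simpa using h')
  simp only [sub_im, one_im, zero_sub, sub_re, one_re] at h2
  have e : z.im * (N / ‖z‖ - 1 / (1 - z.re)) = N * (z.im / ‖z‖) + -z.im / (1 - z.re) := by ring
  rw [e]
  linarith

/-- upper bound of `Im L` -/
theorem im_ub {N : ℝ} (hN : 0 < N) {z : ℂ} (h : z ∈ UH) (h' : 0 < z.re) :
    (L N z).im ≤ z.im * (N / z.re - 1 / ‖1 - z‖) := by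
  have h0 : 0 < z.im := h
  rw [L_im]
  have h1 := mul_le_mul_of_nonneg_left (arg_ub h0 h') hN.le
  have h2 := arg_neg_ub (w := 1 - z) (by simpa using h0)
  simp only [sub_im, one_im, zero_sub] at h2
  have e : z.im * (N / z.re - 1 / ‖1 - z‖) = N * (z.im / z.re) + -z.im / ‖1 - z‖ := by ring
  rw [e]
  linarith

theorem nn_pos {N : ℝ} (hN : 1 < N) : 0 < nn N := div_pos (by linarith) (by linarith)

theorem nn_lt_one {N : ℝ} (hN : 1 < N) : nn N < 1 := by
  unfold nn
  rw [div_lt_one (by linarith)]
  linarith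

theorem mem_UH_of {x : ℂ} : ∀ᶠ z in 𝓝[UH] x, z ∈ UH := self_mem_nhdsWithin

theorem ev_within {x : ℂ} {p : ℂ → Prop} (h : ∀ᶠ z in 𝓝 x, p z) : ∀ᶠ z in 𝓝[UH] x, p z :=
  nhdsWithin_le_nhds h

theorem ofReal_mem_slit {x : ℝ} (h : 0 < x) : (x : ℂ) ∈ slitPlane := ofReal_mem_slitPlane.2 h

theorem L_ofReal {N x : ℝ} (h0 : 0 < x) (h1 : x < 1) : L N (x : ℂ) = (ell N x : ℂ) := by
  have h2 : (1 - (x : ℂ)) = ((1 - x : ℝ) : ℂ) := by push_cast; rfl
  have h3 : (0 : ℝ) ≤ 1 - x := by linarith
  unfold L ell
  rw [h2, ← ofReal_log h3, ← ofReal_log h0.le, ofReal_add, ofReal_mul]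

theorem leaf1c : Leaf1c := by
  intro N hN
  have hN0 : 0 < N := by linarith
  refine ⟨?_, ?_, ?_, ?_, ?_, ?_, ?_, ?_, ?_, ?_⟩
  · -- conjugation
    intro z hz
    have h0 : 0 < z.im := hz
    unfold L
    have e1 : log ((starRingEnd ℂ) z) = (starRingEnd ℂ) (log z) := by
      refine log_conj z fun h => ?_
      have := (arg_eq_pi_iff.1 h).2
      linarith
    have e2 : log (1 - (starRingEnd ℂ) z) = (starRingEnd ℂ) (log (1 - z)) := by
      have : 1 - (starRingEnd ℂ) z = (starRingEnd ℂ) (1 - z) := by simp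
      rw [this]
      refine log_conj _ fun h => ?_
      have := (arg_eq_pi_iff.1 h).2
      simp at this
      linarith
    rw [e1, e2, map_add, map_mul, conj_ofReal]
  · -- s0
    have h1 : ∀ᶠ z : ℂ in 𝓝 (0 : ℂ), ‖z‖ < 1 / 2 := by
      have : ContinuousAt (fun z : ℂ => ‖z‖) 0 := continuous_norm.continuousAt
      exact this.eventually_lt continuousAt_const (by simp)
    filter_upwards [mem_UH_of, ev_within h1] with z hz h2
    have h0 : 0 < z.im := hz
    have hz0 : 0 < ‖z‖ := norm_pos_iff.2 fun h => by rw [h] at h0; simp at h0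
    have h3 : z.re < 1 / 2 := (re_le_norm z).trans_lt h2
    refine lt_of_lt_of_le (mul_pos h0 ?_) (im_lb hN0 hz (by linarith))
    have a1 : 2 < N / ‖z‖ := by
      rw [lt_div_iff₀ hz0]
      nlinarith
    have a2 : 1 / (1 - z.re) < 2 := by
      rw [div_lt_iff₀ (by linarith)]
      linarith
    linarith
  · -- s0'
    have h1 : Tendsto (fun z : ℂ => Real.log ‖z‖) (𝓝[UH] (0 : ℂ)) atBot := by
      refine Real.tendsto_log_nhdsGT_zero.comp ?_
      refine tendsto_nhdsWithin_iff.2 ⟨?_, ?_⟩
      · have : Tendsto (fun z : ℂ => ‖z‖) (𝓝 0) (𝓝 0) := by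
          simpa using (continuous_norm (E := ℂ)).tendsto 0
        exact this.mono_left nhdsWithin_le_nhds
      · filter_upwards [mem_UH_of] with z hz
        have h0 : 0 < z.im := hz
        exact norm_pos_iff.2 fun h => by rw [h] at h0; simp at h0
    have h2 : Tendsto (fun z : ℂ => Real.log ‖1 - z‖) (𝓝[UH] (0 : ℂ)) (𝓝 0) := by
      have : ContinuousAt (fun z : ℂ => Real.log ‖1 - z‖) 0 := by
        refine ContinuousAt.log ?_ (by simp)
        fun_prop
      have h3 := this.tendsto
      simp only [sub_zero, norm_one, Real.log_one] at h3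
      exact h3.mono_left nhdsWithin_le_nhds
    have h3 := (h1.const_mul_atBot hN0).atBot_add h2
    refine h3.congr fun z => ?_
    rw [L_re]
  · -- s1
    intro x hx hx'
    have hx1 : x < 1 := hx'.trans (nn_lt_one hN)
    have h0 : 0 < N / x - 1 / (1 - x) := by
      unfold nn at hx'
      rw [lt_div_iff₀ (by linarith)] at hx'
      rw [sub_pos, div_lt_div_iff₀ (by linarith) hx]
      nlinarith
    have h1 : ContinuousAt (fun z : ℂ => N / ‖z‖ - 1 / (1 - z.re)) (x : ℂ) := by
      refine ContinuousAt.sub ?_ ?_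
      · refine continuousAt_const.div continuous_norm.continuousAt ?_
        simpa using hx.ne'
      · refine continuousAt_const.div (by fun_prop) ?_
        simp only [ofReal_re]
        linarith
    have h2 : ∀ᶠ z : ℂ in 𝓝 (x : ℂ), 0 < N / ‖z‖ - 1 / (1 - z.re) := by
      refine continuousAt_const.eventually_lt h1 ?_
      simpa [abs_of_pos hx] using h0
    have h3 : ∀ᶠ z : ℂ in 𝓝 (x : ℂ), z.re < 1 :=
      continuous_re.continuousAt.eventually_lt continuousAt_const (by simpa using hx1)
    filter_upwards [mem_UH_of, ev_within h2, ev_within h3] with z hz h4 h5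
    exact lt_of_lt_of_le (mul_pos hz h4) (im_lb hN0 hz h5)
  · -- s2
    intro x hx hx1
    have hx0 : 0 < x := (nn_pos hN).trans hx
    have h0 : N / x - 1 / (1 - x) < 0 := by
      unfold nn at hx
      rw [div_lt_iff₀ (by linarith)] at hx
      rw [sub_neg, div_lt_div_iff₀ hx0 (by linarith)]
      nlinarith
    have h1 : ContinuousAt (fun z : ℂ => N / z.re - 1 / ‖1 - z‖) (x : ℂ) := by
      refine ContinuousAt.sub ?_ ?_
      · refine continuousAt_const.div continuous_re.continuousAt ?_
        simpa using hx0.ne'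
      · refine continuousAt_const.div (by fun_prop) ?_
        rw [norm_ne_zero_iff]
        intro h
        have := congrArg Complex.re h
        simp at this
        linarith
    have hn : ‖(1 : ℂ) - (x : ℂ)‖ = 1 - x := by
      have : (1 : ℂ) - (x : ℂ) = ((1 - x : ℝ) : ℂ) := by push_cast; rfl
      rw [this, norm_real, Real.norm_eq_abs, abs_of_pos (by linarith)]
    have h2 : ∀ᶠ z : ℂ in 𝓝 (x : ℂ), N / z.re - 1 / ‖1 - z‖ < 0 := by
      refine h1.eventually_lt continuousAt_const ?_
      rw [hn]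
      simpa using h0
    have h3 : ∀ᶠ z : ℂ in 𝓝 (x : ℂ), 0 < z.re :=
      continuousAt_const.eventually_lt continuous_re.continuousAt (by simpa using hx0)
    filter_upwards [mem_UH_of, ev_within h2, ev_within h3] with z hz h4 h5
    exact lt_of_le_of_lt (im_ub hN0 hz h5) (mul_neg_of_pos_of_neg hz h4)
  · -- s3
    have h1 : ∀ᶠ z : ℂ in 𝓝 (1 : ℂ), ‖1 - z‖ < 1 / (2 * N) := by
      have : ContinuousAt (fun z : ℂ => ‖1 - z‖) 1 := by fun_prop
      exact this.eventually_lt continuousAt_const (by simp; positivity)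
    have h2 : ∀ᶠ z : ℂ in 𝓝 (1 : ℂ), 1 / 2 < z.re :=
      continuousAt_const.eventually_lt continuous_re.continuousAt (by norm_num)
    filter_upwards [mem_UH_of, ev_within h1, ev_within h2] with z hz h3 h4
    have h0 : 0 < z.im := hz
    have hz0 : 0 < ‖1 - z‖ := norm_pos_iff.2 fun h => by
      have := congrArg Complex.im h
      simp at this
      linarith
    refine lt_of_le_of_lt (im_ub hN0 hz (by linarith)) (mul_neg_of_pos_of_neg h0 ?_)
    have a1 : N / z.re < 2 * N := by
      rw [div_lt_iff₀ (by linarith)]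
      nlinarith
    have a2 : 2 * N < 1 / ‖1 - z‖ := by
      rw [lt_div_iff₀ hz0]
      rw [lt_div_iff₀ (by positivity)] at h3
      linarith
    linarith
  · -- s3'
    have h1 : Tendsto (fun z : ℂ => Real.log ‖1 - z‖) (𝓝[UH] (1 : ℂ)) atBot := by
      refine Real.tendsto_log_nhdsGT_zero.comp ?_
      refine tendsto_nhdsWithin_iff.2 ⟨?_, ?_⟩
      · have : Tendsto (fun z : ℂ => ‖1 - z‖) (𝓝 1) (𝓝 0) := by
          have h : Continuous fun z : ℂ => ‖1 - z‖ := by fun_prop
          have h' := h.tendsto 1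
          simp only [sub_self, norm_zero] at h'
          exact h'
        exact this.mono_left nhdsWithin_le_nhds
      · filter_upwards [mem_UH_of] with z hz
        have h0 : 0 < z.im := hz
        exact norm_pos_iff.2 fun h => by
          have := congrArg Complex.im h
          simp at this
          linarith
    have h2 : Tendsto (fun z : ℂ => N * Real.log ‖z‖) (𝓝[UH] (1 : ℂ)) (𝓝 0) := by
      have : ContinuousAt (fun z : ℂ => N * Real.log ‖z‖) 1 := by
        refine continuousAt_const.mul (ContinuousAt.log ?_ (by simp))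
        fun_prop
      have h3 := this.tendsto
      simp only [norm_one, Real.log_one, mul_zero] at h3
      exact h3.mono_left nhdsWithin_le_nhds
    have h3 := h2.add_atBot h1
    refine h3.congr fun z => ?_
    rw [L_re]
  · -- v1
    intro x hx hx1
    rw [← L_ofReal hx hx1]
    have : ContinuousAt (L N) (x : ℂ) := by
      unfold L
      refine (continuousAt_const.mul (continuousAt_clog (ofReal_mem_slit hx))).add ?_
      refine ContinuousAt.clog (by fun_prop) ?_
      have : (1 : ℂ) - (x : ℂ) = ((1 - x : ℝ) : ℂ) := by push_cast; rfl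
      rw [this]
      exact ofReal_mem_slit (by linarith)
    exact this.tendsto.mono_left nhdsWithin_le_nhds
  · -- v2
    intro x hx
    have h1 : Tendsto (fun z : ℂ => (N : ℂ) * log z) (𝓝[UH] (x : ℂ)) (𝓝 ((N : ℂ) * log x)) :=
      (continuousAt_const.mul (continuousAt_clog (ofReal_mem_slit (by linarith)))).tendsto.mono_left
        nhdsWithin_le_nhds
    have h2 : Tendsto (fun z : ℂ => 1 - z) (𝓝[UH] (x : ℂ)) (𝓝[{z : ℂ | z.im < 0}] (1 - x)) := by
      refine tendsto_nhdsWithin_iff.2 ⟨?_, ?_⟩
      · exact (continuous_const.sub continuous_id : Continuous fun z : ℂ => 1 - z).continuousAt.mono_left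
          nhdsWithin_le_nhds
      · filter_upwards [mem_UH_of] with z hz
        have h0 : 0 < z.im := hz
        simpa using h0
    have h3 := (tendsto_log_nhdsWithin_im_neg_of_re_neg_of_im_zero (z := 1 - (x : ℂ))
      (by simp; linarith) (by simp)).comp h2
    have h4 := h1.add h3
    have e : (N : ℂ) * log x + ((Real.log ‖(1 : ℂ) - x‖ : ℝ) - Real.pi * I) =
        (ell N x : ℂ) - Real.pi * I := by
      unfold ell
      have h5 : (1 : ℂ) - (x : ℂ) = ((1 - x : ℝ) : ℂ) := by push_cast; rfl
      have h6 : (0 : ℝ) ≤ x := by linarith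
      rw [h5, norm_real, Real.norm_eq_abs, Real.log_abs, ← ofReal_log h6, ofReal_add, ofReal_mul]
      ring
    rw [← e]
    exact h4
  · -- v3
    intro x hx
    have h1 : Tendsto (fun z : ℂ => log (1 - z)) (𝓝[UH] (x : ℂ)) (𝓝 (log (1 - x))) := by
      have : ContinuousAt (fun z : ℂ => log (1 - z)) (x : ℂ) := by
        refine ContinuousAt.clog (by fun_prop) ?_
        have : (1 : ℂ) - (x : ℂ) = ((1 - x : ℝ) : ℂ) := by push_cast; rfl
        rw [this]
        exact ofReal_mem_slit (by linarith)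
      exact this.tendsto.mono_left nhdsWithin_le_nhds
    have h2 : Tendsto log (𝓝[UH] (x : ℂ)) (𝓝 (log x)) := by
      have h3 := continuousWithinAt_log_of_re_neg_of_im_zero (z := (x : ℂ)) (by simpa using hx)
        (by simp)
      refine h3.mono ?_
      intro z hz
      have h0 : 0 < z.im := hz
      exact h0.le
    have h4 := (h2.const_mul (N : ℂ)).add h1
    have e : (N : ℂ) * log x + log (1 - x) = (ell N x : ℂ) + N * Real.pi * I := by
      unfold ell
      have e1 : (1 : ℂ) - (x : ℂ) = ((1 - x : ℝ) : ℂ) := by push_cast; rfl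
      have e2 : log (x : ℂ) = (Real.log x : ℂ) + Real.pi * I := by
        apply Complex.ext
        · rw [log_re, norm_real, Real.norm_eq_abs, Real.log_abs]
          simp
        · rw [log_im, arg_ofReal_of_neg hx]
          simp
      have h6 : (0 : ℝ) ≤ 1 - x := by linarith
      rw [e1, ← ofReal_log h6, e2, ofReal_add, ofReal_mul]
      ring
    rw [← e]
    exact h4

end Crest.Agent.R102.H4
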