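import Crest.Agent.R102.H4L1b_203
import Crest.Agent.R102.H4L1c_406

/-!
# Row 102, [H4], leaf H4-1a (helper963): `L` is univalent on `UH`, onto the slit strip.
-/

open Complex Set Filter Topology

noncomputable section

namespace Crest.Agent.R102.H4L1a963

open Crest.Agent.R102.H4

variable {N : ℝ}

lemma isOpen_UH : IsOpen UH := isOpen_lt continuous_const Complex.continuous_im

lemma convex_UH : Convex ℝ UH := convex_halfSpace_im_gt 0

lemma mem_slit {z : ℂ} (hz : z ∈ UH) : z ∈ slitPlane := by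
  have h : 0 < z.im := hz
  rw [Complex.mem_slitPlane_iff]; right; exact h.ne'

lemma mem_slit' {z : ℂ} (hz : z ∈ UH) : 1 - z ∈ slitPlane := by
  have h : 0 < z.im := hz
  rw [Complex.mem_slitPlane_iff]; right
  simp only [Complex.sub_im, Complex.one_im, zero_sub, ne_eq, neg_eq_zero]; exact h.ne'

lemma ne_zero' {z : ℂ} (hz : z ∈ UH) : z ≠ 0 := Complex.slitPlane_ne_zero (mem_slit hz)

lemma ne_one' {z : ℂ} (hz : z ∈ UH) : 1 - z ≠ 0 := Complex.slitPlane_ne_zero (mem_slit' hz)

lemma hasDerivAt_L {z : ℂ} (hz : z ∈ UH) :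
    HasDerivAt (L N) ((N : ℂ) * z⁻¹ + -1 / (1 - z)) z := by
  have a := (Complex.hasStrictDerivAt_log (mem_slit hz)).const_mul (N : ℂ)
  have b := ((hasStrictDerivAt_id z).const_sub (1 : ℂ)).clog (mem_slit' hz)
  exact (a.add b).hasDerivAt

lemma im_deriv_neg (hN : 1 < N) {z : ℂ} (hz : z ∈ UH) :
    ((N : ℂ) * z⁻¹ + -1 / (1 - z)).im < 0 := by
  have h : 0 < z.im := hz
  have h1 : 0 < Complex.normSq z := Complex.normSq_pos.mpr (ne_zero' hz)
  have h2 : 0 < Complex.normSq (1 - z) := Complex.normSq_pos.mpr (ne_one' hz)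
  have e1 : ((N : ℂ) * z⁻¹).im = -(N * (z.im / Complex.normSq z)) := by
    rw [Complex.im_ofReal_mul, Complex.inv_im]; ring
  have e2 : (-1 / (1 - z)).im = -(z.im / Complex.normSq (1 - z)) := by
    rw [neg_div, Complex.neg_im, one_div, Complex.inv_im]
    simp only [Complex.sub_im, Complex.one_im, zero_sub, neg_neg]
  rw [Complex.add_im, e1, e2]
  have p1 : 0 < z.im / Complex.normSq z := div_pos h h1
  have p2 : 0 < z.im / Complex.normSq (1 - z) := div_pos h h2
  have : 0 < N * (z.im / Complex.normSq z) := mul_pos (by linarith) p1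
  linarith

lemma injOn (hN : 1 < N) : InjOn (L N) UH := by
  intro a ha b hb hab
  by_contra hne
  have hd : b - a ≠ 0 := sub_ne_zero.mpr (Ne.symm hne)
  have hseg : ∀ t ∈ Icc (0 : ℝ) 1, a + (t : ℂ) * (b - a) ∈ UH := by
    intro t ht
    have := convex_UH.add_smul_sub_mem ha hb ht
    simpa [Complex.real_smul] using this
  have hder : ∀ t ∈ Icc (0 : ℝ) 1,
      HasDerivAt (fun t : ℝ => ((L N (a + (t : ℂ) * (b - a))) / (b - a)).im)
        ((N : ℂ) * (a + (t : ℂ) * (b - a))⁻¹ + -1 / (1 - (a + (t : ℂ) * (b - a)))).im t := by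
    intro t ht
    have hγ : HasDerivAt (fun t : ℝ => a + (t : ℂ) * (b - a)) (b - a) t := by
      have := ((Complex.ofRealCLM.hasDerivAt (x := t)).mul_const (b - a)).const_add a
      simpa using this
    have h1 := (hasDerivAt_L (N := N) (hseg t ht)).scomp t hγ
    have h2 := h1.div_const (b - a)
    have h3 := Complex.imCLM.hasFDerivAt.comp_hasDerivAt t h2
    refine (h3.congr_deriv ?_)
    rw [Complex.imCLM_apply, smul_eq_mul, mul_div_cancel_left₀ _ hd]
  have hcont : ContinuousOn (fun t : ℝ => ((L N (a + (t : ℂ) * (b - a))) / (b - a)).im)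
      (Icc 0 1) := fun t ht => (hder t ht).continuousAt.continuousWithinAt
  have hend : (fun t : ℝ => ((L N (a + (t : ℂ) * (b - a))) / (b - a)).im) 0
      = (fun t : ℝ => ((L N (a + (t : ℂ) * (b - a))) / (b - a)).im) 1 := by
    simp only [Complex.ofReal_zero, zero_mul, add_zero, Complex.ofReal_one, one_mul,
      add_sub_cancel]
    rw [hab]
  obtain ⟨c, hc, hc0⟩ := exists_hasDerivAt_eq_zero one_pos hcont hend
    (fun t ht => hder t (Ioo_subset_Icc_self ht))
  have := im_deriv_neg hN (hseg c (Ioo_subset_Icc_self hc))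
  linarith

lemma arg_bounds {z : ℂ} (hz : z ∈ UH) :
    0 < arg z ∧ arg z < Real.pi ∧ -Real.pi < arg (1 - z) ∧ arg (1 - z) < 0 := by
  have h : 0 < z.im := hz
  refine ⟨?_, ?_, neg_pi_lt_arg _, ?_⟩
  · refine lt_of_le_of_ne (Complex.arg_nonneg_iff.mpr h.le) ?_
    intro h0
    have := (Complex.arg_eq_zero_iff.mp h0.symm).2
    exact h.ne' this
  · exact Complex.arg_lt_pi_iff.mpr (Or.inr h.ne')
  · rw [Complex.arg_neg_iff]
    simp only [Complex.sub_im, Complex.one_im, zero_sub]
    linarith

/-- strict concavity of `sin` -/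
lemma sin_conc {S t : ℝ} (hS0 : 0 < S) (hS1 : S < Real.pi) (ht0 : 0 < t) (ht1 : t < 1) :
    t * Real.sin S < Real.sin (t * S) := by
  have h := strictConcaveOn_sin_Icc.2
    (⟨le_refl _, Real.pi_pos.le⟩ : (0 : ℝ) ∈ Icc 0 Real.pi)
    (⟨hS0.le, hS1.le⟩ : S ∈ Icc 0 Real.pi) hS0.ne (show (0 : ℝ) < 1 - t by linarith) ht0
    (by ring)
  simpa using h

lemma slit (hN : 1 < N) {z : ℂ} (hz : z ∈ UH) (h0 : (L N z).im = 0) :
    nn N < ‖z‖ ∧ 1 - nn N < ‖1 - z‖ := by
  have h : 0 < z.im := hz
  obtain ⟨ha0, ha1, hb0, hb1⟩ := arg_bounds hz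
  rw [L_im] at h0
  set α := arg z with hα
  set β := -arg (1 - z) with hβ
  have hβα : β = N * α := by rw [hβ]; linarith
  have e1 : ‖z‖ * Real.cos α = z.re := Complex.norm_mul_cos_arg z
  have e2 : ‖z‖ * Real.sin α = z.im := Complex.norm_mul_sin_arg z
  have e3 : ‖1 - z‖ * Real.cos β = 1 - z.re := by
    rw [hβ, Real.cos_neg, Complex.norm_mul_cos_arg]; simp
  have e4 : ‖1 - z‖ * Real.sin β = z.im := by
    rw [hβ, Real.sin_neg, mul_neg, Complex.norm_mul_sin_arg]; simp
  have hβ0 : 0 < β := by rw [hβ]; linarith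
  have hβ1 : β < Real.pi := by rw [hβ]; linarith
  have hsα : 0 < Real.sin α := Real.sin_pos_of_pos_of_lt_pi ha0 ha1
  have hsβ : 0 < Real.sin β := Real.sin_pos_of_pos_of_lt_pi hβ0 hβ1
  have hz0 : 0 < ‖z‖ := norm_pos_iff.mpr (ne_zero' hz)
  have hz1 : 0 < ‖1 - z‖ := norm_pos_iff.mpr (ne_one' hz)
  have k1 : ‖z‖ * Real.sin (α + β) = Real.sin β := by
    rw [Real.sin_add]
    linear_combination Real.cos β * e2 - Real.cos β * e4 + Real.sin β * e1 + Real.sin β * e3
  have k2 : ‖1 - z‖ * Real.sin (α + β) = Real.sin α := by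
    rw [Real.sin_add]
    linear_combination Real.sin α * e3 + Real.cos α * e4 - Real.cos α * e2 + Real.sin α * e1
  have hs : 0 < Real.sin (α + β) := by
    by_contra hcon
    rw [not_lt] at hcon
    nlinarith
  have hsum : α + β < Real.pi := by
    by_contra hcon
    rw [not_lt] at hcon
    have : Real.sin (α + β) ≤ 0 := by
      have h1 : Real.sin (α + β) = -Real.sin (α + β - Real.pi) := by
        rw [Real.sin_sub_pi]; ring
      rw [h1]
      have := Real.sin_nonneg_of_nonneg_of_le_pi (x := α + β - Real.pi) (by linarith)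
        (by linarith)
      linarith
    linarith
  have hN1 : 0 < N + 1 := by linarith
  have hSe : α + β = (N + 1) * α := by rw [hβα]; ring
  have c1 := sin_conc (S := α + β) (t := N / (N + 1)) (by linarith) hsum
    (div_pos (by linarith) hN1) (by rw [div_lt_one hN1]; linarith)
  have c2 := sin_conc (S := α + β) (t := 1 / (N + 1)) (by linarith) hsum
    (div_pos one_pos hN1) (by rw [div_lt_one hN1]; linarith)
  have t1 : N / (N + 1) * (α + β) = β := by
    rw [hSe, hβα]; field_simp
  have t2 : 1 / (N + 1) * (α + β) = α := by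
    rw [hSe]; field_simp
  rw [t1, ← k1] at c1
  rw [t2, ← k2] at c2
  have hn : 1 - nn N = 1 / (N + 1) := by
    unfold nn; field_simp; ring
  refine ⟨lt_of_mul_lt_mul_right c1 hs.le, ?_⟩
  rw [hn]
  exact lt_of_mul_lt_mul_right c2 hs.le

lemma maps (hN : 1 < N) {z : ℂ} (hz : z ∈ UH) : L N z ∈ SS N := by
  obtain ⟨ha0, ha1, hb0, hb1⟩ := arg_bounds hz
  have hNp : 0 < N := by linarith
  refine ⟨?_, ?_, ?_⟩
  · rw [L_im]
    have := mul_pos hNp ha0
    linarith
  · rw [L_im]
    have := mul_lt_mul_of_pos_left ha1 hNp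
    linarith
  · intro h0
    obtain ⟨h1, h2⟩ := slit hN hz h0
    have hn0 := H4L1b203.nn_pos hN
    have hn1 := H4L1b203.nn_lt_one hN
    rw [L_re]
    unfold ell
    have l1 : Real.log (nn N) < Real.log ‖z‖ := Real.log_lt_log hn0 h1
    have l2 : Real.log (1 - nn N) < Real.log ‖1 - z‖ := Real.log_lt_log (by linarith) h2
    have := mul_lt_mul_of_pos_left l1 hNp
    linarith

lemma starSS (hN : 1 < N) : StarConvex ℝ ((ell N (nn N) + 1 : ℝ) : ℂ) (SS N) := by
  intro w hw a b ha hb hab
  obtain ⟨h1, h2, h3⟩ := hw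
  have hpi := Real.pi_pos
  have hNpi : 0 < N * Real.pi := by positivity
  have him : (a • ((ell N (nn N) + 1 : ℝ) : ℂ) + b • w).im = b * w.im := by
    simp [Complex.real_smul]
  have hre : (a • ((ell N (nn N) + 1 : ℝ) : ℂ) + b • w).re
      = a * (ell N (nn N) + 1) + b * w.re := by
    simp [Complex.real_smul]
    ring
  have hb1 : b ≤ 1 := by linarith
  refine ⟨?_, ?_, ?_⟩
  · rw [him]
    rcases hb.lt_or_eq with hb' | hb'
    · nlinarith
    · rw [← hb']; linarith
  · rw [him]
    rcases hb.lt_or_eq with hb' | hb'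
    · nlinarith
    · rw [← hb']; linarith
  · rw [him, hre]
    intro h
    rcases mul_eq_zero.mp h with h | h
    · rw [h] at hab ⊢
      have : a = 1 := by linarith
      rw [this]; linarith
    · have h4 := h3 h
      rcases hb.lt_or_eq with hb' | hb'
      · have e : a * ell N (nn N) + b * ell N (nn N) = ell N (nn N) := by
          rw [← add_mul, hab, one_mul]
        have e2 := mul_lt_mul_of_pos_left h4 hb'
        linarith
      · rw [← hb'] at hab ⊢
        have : a = 1 := by linarith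
        rw [this]; linarith

lemma center_mem (hN : 1 < N) : ((ell N (nn N) + 1 : ℝ) : ℂ) ∈ SS N := by
  have hpi := Real.pi_pos
  have hNpi : 0 < N * Real.pi := by positivity
  refine ⟨?_, ?_, ?_⟩
  · rw [Complex.ofReal_im]; linarith
  · rw [Complex.ofReal_im]; exact hNpi
  · intro _; rw [Complex.ofReal_re]; linarith

lemma preSS (hN : 1 < N) : IsPreconnected (SS N) :=
  ((starSS hN).isPathConnected (center_mem hN)).isConnected.isPreconnected

lemma openImage (hN : 1 < N) : IsOpen (L N '' UH) := by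
  have han : AnalyticOnNhd ℂ (L N) UH := by
    apply DifferentiableOn.analyticOnNhd _ isOpen_UH
    intro z hz
    exact (hasDerivAt_L hz).differentiableAt.differentiableWithinAt
  rcases han.is_constant_or_isOpen convex_UH.isPreconnected with ⟨w, hw⟩ | h
  · exfalso
    have h1 : I ∈ UH := by show 0 < I.im; simp
    have h2 : 2 * I ∈ UH := by show 0 < (2 * I).im; simp
    have := injOn hN h1 h2 ((hw _ h1).trans (hw _ h2).symm)
    have h3 := congrArg Complex.im this
    simp at h3
  · exact h UH subset_rfl isOpen_UH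

lemma ell_le (hN : 1 < N) {x : ℝ} (h0 : 0 < x) (h1 : x < 1) : ell N x ≤ ell N (nn N) := by
  have hn0 := H4L1b203.nn_pos hN
  have hn1 := H4L1b203.nn_lt_one hN
  rcases le_or_gt x (nn N) with h | h
  · exact (H4L1b203.ell_mono_left hN).monotoneOn ⟨h0, h⟩ ⟨hn0, le_refl _⟩ h
  · exact (H4L1b203.ell_anti_mid hN).antitoneOn ⟨le_refl _, hn1⟩ ⟨h.le, h1⟩ h.le

lemma surj (hN : 1 < N) {w : ℂ} (hw : w ∈ SS N) : ∃ z ∈ UH, L N z = w := by
  have hS : BdyS N := leaf1c N hN
  have key : SS N ⊆ L N '' UH := by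
    refine (preSS hN).subset_of_closure_inter_subset (openImage hN) ?_ ?_
    · have h1 : I ∈ UH := by show 0 < I.im; simp
      exact ⟨L N I, maps hN h1, ⟨I, h1, rfl⟩⟩
    · rintro w ⟨hwc, hwS⟩
      obtain ⟨u, hu, hle⟩ := mem_closure_iff_ultrafilter.mp hwc
      classical
      let z : ℂ → ℂ := fun i => if h : i ∈ L N '' UH then h.choose else 0
      have hz1 : ∀ᶠ i in (u : Filter ℂ), z i ∈ UH := by
        filter_upwards [hu] with i hi
        have := hi.choose_spec.1
        simp only [z, dif_pos hi]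
        exact this
      have hz2 : ∀ᶠ i in (u : Filter ℂ), L N (z i) = i := by
        filter_upwards [hu] with i hi
        have := hi.choose_spec.2
        simp only [z, dif_pos hi]
        exact this
      have hL : Tendsto (fun i => L N (z i)) u (𝓝 w) := by
        have h1 : Tendsto (fun i : ℂ => i) u (𝓝 w) := hle
        exact h1.congr' (hz2.mono fun i hi => hi.symm)
      have hK : IsCompact (Metric.closedBall (0 : ℂ) (max 2 (Real.exp (w.re + 1))) ∩
          {p : ℂ | 0 ≤ p.im}) :=
        (isCompact_closedBall _ _).inter_right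
          (isClosed_le continuous_const Complex.continuous_im)
      have hmem : ∀ᶠ i in (u : Filter ℂ), z i ∈
          (Metric.closedBall (0 : ℂ) (max 2 (Real.exp (w.re + 1))) ∩ {p : ℂ | 0 ≤ p.im}) := by
        filter_upwards [hz1, H4L1b203.re_bdd hL] with i h1 h2
        refine ⟨?_, show (0 : ℝ) ≤ (z i).im from le_of_lt h1⟩
        rw [Metric.mem_closedBall, dist_zero_right]
        exact H4L1b203.norm_le_of_re_le hN h2
      obtain ⟨p, hp, hp'⟩ := hK.ultrafilter_le_nhds (u.map z) (by
        rw [Filter.le_principal_iff]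
        exact hmem)
      have ht : Tendsto z u (𝓝 p) := hp'
      rcases H4L1b203.classify hS hz1 hp.2 ht with ⟨hp', h⟩ | ⟨-, h, -⟩ | ⟨-, h, -⟩ |
        ⟨x, -, hx0, hx1, h, -⟩ | ⟨x, -, -, h⟩ | ⟨x, -, -, h⟩
      · exact ⟨p, hp', tendsto_nhds_unique h hL⟩
      · exact (H4L1b203.no_bot hL h).elim
      · exact (H4L1b203.no_bot hL h).elim
      · exfalso
        have he := tendsto_nhds_unique h hL
        have h2 := hwS.2.2
        rw [← he, Complex.ofReal_im, Complex.ofReal_re] at h2
        have h3 := h2 rfl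
        linarith [ell_le hN hx0 hx1]
      · exfalso
        have := congrArg Complex.im (tendsto_nhds_unique h hL)
        simp only [Complex.sub_im, Complex.ofReal_im, Complex.mul_im, Complex.ofReal_re,
          Complex.I_im, Complex.I_re, mul_zero, mul_one, add_zero, zero_sub] at this
        linarith [hwS.1]
      · exfalso
        have := congrArg Complex.im (tendsto_nhds_unique h hL)
        simp only [Complex.add_im, Complex.ofReal_im, Complex.mul_im, Complex.mul_re,
          Complex.ofReal_re, Complex.I_im, Complex.I_re, mul_zero, mul_one, zero_mul, add_zero,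
          zero_add, sub_zero] at this
        linarith [hwS.2.1]
  obtain ⟨z, hz, he⟩ := key hw
  exact ⟨z, hz, he⟩

theorem leaf1a : Leaf1a := fun N hN => ⟨injOn hN, fun _ hz => maps hN hz, fun _ hw => surj hN hw⟩

end Crest.Agent.R102.H4L1a963
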