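import Crest.Agent.R102.H4Defs_490

/-!
# Row 102, [H4], leaf H4-1b (helper203): boundary behaviour of the inverse of `L` on `UH`.
-/

open Complex Set Filter Topology

noncomputable section

namespace Crest.Agent.R102.H4L1b203

open Crest.Agent.R102.H4

variable {N : ℝ}

lemma nn_pos (hN : 1 < N) : 0 < nn N := by
  unfold nn; have : (0 : ℝ) < N := by linarith
  positivity

lemma nn_lt_one (hN : 1 < N) : nn N < 1 := by
  unfold nn; rw [div_lt_one (by linarith)]; linarith

lemma ell_hasDerivAt (N : ℝ) {x : ℝ} (h0 : x ≠ 0) (h1 : x ≠ 1) :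
    HasDerivAt (ell N) (N / x - 1 / (1 - x)) x := by
  have h1' : (1 : ℝ) - x ≠ 0 := sub_ne_zero.mpr (Ne.symm h1)
  have a := (Real.hasDerivAt_log h0).const_mul N
  have b := ((hasDerivAt_const x (1 : ℝ)).sub (hasDerivAt_id x)).log h1'
  have := a.add b
  refine (this.congr_deriv ?_)
  simp only [Pi.sub_apply, id]
  ring

lemma ell_continuousOn (N : ℝ) {s : Set ℝ} (h : ∀ x ∈ s, x ≠ 0 ∧ x ≠ 1) :
    ContinuousOn (ell N) s := fun x hx =>
  (ell_hasDerivAt N (h x hx).1 (h x hx).2).continuousAt.continuousWithinAt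

lemma ell_mono_left (hN : 1 < N) : StrictMonoOn (ell N) (Ioc 0 (nn N)) := by
  have hn := nn_lt_one hN
  refine strictMonoOn_of_deriv_pos (convex_Ioc _ _) (ell_continuousOn N ?_) ?_
  · intro x hx
    exact ⟨hx.1.ne', (lt_of_le_of_lt hx.2 hn).ne⟩
  · intro x hx
    rw [interior_Ioc] at hx
    have hx1 : x < 1 := hx.2.trans hn
    rw [(ell_hasDerivAt N hx.1.ne' hx1.ne).deriv]
    have hx2 : x < N / (N + 1) := hx.2
    rw [lt_div_iff₀ (by linarith)] at hx2
    rw [sub_pos, div_lt_div_iff₀ (by linarith) hx.1]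
    nlinarith [hx.1]

lemma ell_anti_mid (hN : 1 < N) : StrictAntiOn (ell N) (Ico (nn N) 1) := by
  have hn := nn_pos hN
  refine strictAntiOn_of_deriv_neg (convex_Ico _ _) (ell_continuousOn N ?_) ?_
  · intro x hx
    exact ⟨(lt_of_lt_of_le hn hx.1).ne', hx.2.ne⟩
  · intro x hx
    rw [interior_Ico] at hx
    have hx0 : 0 < x := hn.trans hx.1
    rw [(ell_hasDerivAt N hx0.ne' hx.2.ne).deriv]
    have hx2 : N / (N + 1) < x := hx.1
    rw [div_lt_iff₀ (by linarith)] at hx2
    rw [sub_neg, div_lt_div_iff₀ hx0 (by linarith [hx.2])]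
    nlinarith [hx.2]

lemma ell_mono_right (hN : 1 < N) : StrictMonoOn (ell N) (Ioi 1) := by
  refine strictMonoOn_of_deriv_pos (convex_Ioi _) (ell_continuousOn N ?_) ?_
  · intro x hx
    have : (1 : ℝ) < x := hx
    exact ⟨by linarith, by linarith⟩
  · intro x hx
    rw [interior_Ioi] at hx
    have hx1 : (1 : ℝ) < x := hx
    rw [(ell_hasDerivAt N (by linarith) (by linarith)).deriv]
    have h1 : 0 < N / x := by apply div_pos <;> linarith
    have h2 : 1 / (1 - x) < 0 := div_neg_of_pos_of_neg one_pos (by linarith)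
    linarith

lemma ell_surj_right (hN : 1 < N) (y : ℝ) : ∃ r : ℝ, 1 < r ∧ ell N r = y := by
  set d := min 1 (Real.exp (y - N * Real.log 2)) with hd
  set R := max 2 (Real.exp y) with hR
  have hd0 : 0 < d := lt_min one_pos (Real.exp_pos _)
  have hd1 : d ≤ 1 := min_le_left _ _
  have hR2 : 2 ≤ R := le_max_left _ _
  have hRy : Real.exp y ≤ R := le_max_right _ _
  have hlo : ell N (1 + d) ≤ y := by
    unfold ell
    have e1 : Real.log (1 + d) ≤ Real.log 2 :=
      Real.log_le_log (by linarith) (by linarith)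
    have e2 : Real.log (1 - (1 + d)) ≤ y - N * Real.log 2 := by
      have : (1 : ℝ) - (1 + d) = -d := by ring
      rw [this, Real.log_neg_eq_log]
      rw [Real.log_le_iff_le_exp hd0]
      exact min_le_right _ _
    nlinarith
  have hhi : y ≤ ell N R := by
    unfold ell
    have e1 : y ≤ Real.log R := by
      rw [Real.le_log_iff_exp_le (by linarith)]; exact hRy
    have e2 : 0 ≤ Real.log (1 - R) := by
      have : (1 : ℝ) - R = -(R - 1) := by ring
      rw [this, Real.log_neg_eq_log]
      exact Real.log_nonneg (by linarith)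
    have e3 : 0 ≤ Real.log R := Real.log_nonneg (by linarith)
    nlinarith
  have hc : ContinuousOn (ell N) (Icc (1 + d) R) := ell_continuousOn N (by
    intro x hx
    have := hx.1
    exact ⟨by linarith, by linarith⟩)
  obtain ⟨r, hr, hr'⟩ := intermediate_value_Icc (by linarith) hc ⟨hlo, hhi⟩
  exact ⟨r, by linarith [hr.1], hr'⟩

lemma L_re (N : ℝ) (z : ℂ) :
    (L N z).re = N * Real.log ‖z‖ + Real.log ‖1 - z‖ := by
  simp [L, Complex.log_re]

lemma norm_le_of_re_le (hN : 1 < N) {z : ℂ} {C : ℝ} (h : (L N z).re ≤ C) :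
    ‖z‖ ≤ max 2 (Real.exp C) := by
  by_contra hcon
  rw [not_le, max_lt_iff] at hcon
  obtain ⟨h2, hC⟩ := hcon
  rw [L_re] at h
  have e1 : C < Real.log ‖z‖ := by
    rw [Real.lt_log_iff_exp_lt (by linarith)]; exact hC
  have e2 : 0 ≤ Real.log ‖1 - z‖ := by
    apply Real.log_nonneg
    have := norm_sub_norm_le z 1
    rw [norm_one, norm_sub_rev] at this
    linarith
  have e3 : 0 ≤ Real.log ‖z‖ := Real.log_nonneg (by linarith)
  nlinarith

/-- compactness form -/
lemma master (hN : 1 < N) {l : Filter ℂ} {z : ℂ → ℂ} {q : ℂ} {C : ℝ}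
    (hz : ∀ᶠ i in l, z i ∈ UH) (hC : ∀ᶠ i in l, (L N (z i)).re ≤ C)
    (huniq : ∀ (u : Ultrafilter ℂ), (u : Filter ℂ) ≤ l → ∀ p : ℂ, 0 ≤ p.im →
      Tendsto z u (𝓝 p) → p = q) : Tendsto z l (𝓝 q) := by
  have hK : IsCompact (Metric.closedBall (0 : ℂ) (max 2 (Real.exp C)) ∩ {p : ℂ | 0 ≤ p.im}) :=
    (isCompact_closedBall _ _).inter_right (isClosed_le continuous_const Complex.continuous_im)
  refine hK.tendsto_nhds_of_unique_mapClusterPt ?_ ?_
  · filter_upwards [hz, hC] with i h1 h2
    refine ⟨?_, show (0 : ℝ) ≤ (z i).im from le_of_lt h1⟩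
    rw [Metric.mem_closedBall, dist_zero_right]
    exact norm_le_of_re_le hN h2
  · intro p hp hcl
    obtain ⟨u, hu, hu'⟩ := mapClusterPt_iff_ultrafilter.mp hcl
    exact huniq u hu p hp.2 hu'

lemma L_continuousAt {p : ℂ} (hp : p ∈ UH) : ContinuousAt (L N) p := by
  have him : 0 < p.im := hp
  have h1 : p ∈ slitPlane := by
    rw [Complex.mem_slitPlane_iff]; right; exact him.ne'
  have h2 : 1 - p ∈ slitPlane := by
    rw [Complex.mem_slitPlane_iff]; right
    simp only [Complex.sub_im, Complex.one_im, zero_sub, ne_eq, neg_eq_zero]; exact him.ne'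
  unfold L
  exact (continuousAt_const.mul (continuousAt_clog h1)).add
    ((continuousAt_const.sub continuousAt_id).clog h2)

lemma classify (hS : BdyS N) {u : Ultrafilter ℂ} {z : ℂ → ℂ}
    (hz : ∀ᶠ i in (u : Filter ℂ), z i ∈ UH) {p : ℂ} (hp : 0 ≤ p.im)
    (ht : Tendsto z u (𝓝 p)) :
    (p ∈ UH ∧ Tendsto (fun i => L N (z i)) u (𝓝 (L N p))) ∨
    (p = 0 ∧ Tendsto (fun i => (L N (z i)).re) u atBot ∧
      ∀ᶠ i in (u : Filter ℂ), 0 < (L N (z i)).im) ∨
    (p = 1 ∧ Tendsto (fun i => (L N (z i)).re) u atBot ∧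
      ∀ᶠ i in (u : Filter ℂ), (L N (z i)).im < 0) ∨
    (∃ x : ℝ, p = x ∧ 0 < x ∧ x < 1 ∧
      Tendsto (fun i => L N (z i)) u (𝓝 (ell N x : ℂ)) ∧
      (x < nn N → ∀ᶠ i in (u : Filter ℂ), 0 < (L N (z i)).im) ∧
      (nn N < x → ∀ᶠ i in (u : Filter ℂ), (L N (z i)).im < 0)) ∨
    (∃ x : ℝ, p = x ∧ 1 < x ∧
      Tendsto (fun i => L N (z i)) u (𝓝 ((ell N x : ℂ) - Real.pi * I))) ∨
    (∃ x : ℝ, p = x ∧ x < 0 ∧
      Tendsto (fun i => L N (z i)) u (𝓝 ((ell N x : ℂ) + N * Real.pi * I))) := by
  rcases hp.lt_or_eq with hpos | hzero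
  · left
    exact ⟨hpos, (L_continuousAt hpos).tendsto.comp ht⟩
  right
  have hpx : p = ((p.re : ℝ) : ℂ) := by
    apply Complex.ext <;> simp [← hzero]
  have ht' : Tendsto z u (𝓝[UH] p) := tendsto_nhdsWithin_iff.mpr ⟨ht, hz⟩
  set x := p.re with hx
  rw [hpx] at ht'
  rcases lt_trichotomy x 0 with h | h | h
  · right; right; right; right
    exact ⟨x, hpx, h, (hS.v3 x h).comp ht'⟩
  · left
    rw [h, Complex.ofReal_zero] at ht'
    exact ⟨by rw [hpx, h, Complex.ofReal_zero], hS.s0'.comp ht', ht'.eventually hS.s0⟩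
  · rcases lt_trichotomy x 1 with h1 | h1 | h1
    · right; right; left
      refine ⟨x, hpx, h, h1, (hS.v1 x h h1).comp ht', ?_, ?_⟩
      · intro h2; exact ht'.eventually (hS.s1 x h h2)
      · intro h2; exact ht'.eventually (hS.s2 x h2 h1)
    · right; left
      rw [h1, Complex.ofReal_one] at ht'
      exact ⟨by rw [hpx, h1, Complex.ofReal_one], hS.s3'.comp ht', ht'.eventually hS.s3⟩
    · right; right; right; left
      exact ⟨x, hpx, h1, (hS.v2 x h1).comp ht'⟩

lemma re_tendsto {l : Filter ℂ} {f : ℂ → ℂ} {w : ℂ} (h : Tendsto f l (𝓝 w)) :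
    Tendsto (fun i => (f i).re) l (𝓝 w.re) := (Complex.continuous_re.tendsto w).comp h

lemma re_bdd {l : Filter ℂ} {f : ℂ → ℂ} {w : ℂ} (h : Tendsto f l (𝓝 w)) :
    ∀ᶠ i in l, (f i).re ≤ w.re + 1 := by
  have := (re_tendsto h).eventually (gt_mem_nhds (show w.re < w.re + 1 by linarith))
  filter_upwards [this] with i hi
  exact le_of_lt hi

lemma no_bot {u : Ultrafilter ℂ} {f : ℂ → ℂ} {w : ℂ} (h : Tendsto f u (𝓝 w))
    (hb : Tendsto (fun i => (f i).re) u atBot) : False :=
  not_tendsto_nhds_of_tendsto_atBot hb _ (re_tendsto h)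

theorem bdyB (h1a : Leaf1a) (h1c : Leaf1c) {N : ℝ} (hN : 1 < N) : BdyB N := by
  obtain ⟨hinj, hmaps, -⟩ := h1a N hN
  have hS := h1c N hN
  have hn0 := nn_pos hN
  have hn1 := nn_lt_one hN
  have hpi := Real.pi_pos
  have hNpi : 0 < N * Real.pi := by positivity
  refine ⟨?_, ?_, ?_, ?_, ?_, ?_⟩
  · -- b1
    intro l z z0 hz hz0 hL
    have him : 0 < z0.im := hz0
    have h1 : z0 ∈ slitPlane := by
      rw [Complex.mem_slitPlane_iff]; right; exact him.ne'
    have h2 : 1 - z0 ∈ slitPlane := by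
      rw [Complex.mem_slitPlane_iff]; right
      simp only [Complex.sub_im, Complex.one_im, zero_sub, ne_eq, neg_eq_zero]; exact him.ne'
    have hd : HasStrictDerivAt (L N) ((N : ℂ) * z0⁻¹ + -1 / (1 - z0)) z0 := by
      have a := (Complex.hasStrictDerivAt_log h1).const_mul (N : ℂ)
      have b := ((hasStrictDerivAt_id z0).const_sub (1 : ℂ)).clog h2
      exact a.add b
    have hne : (N : ℂ) * z0⁻¹ + -1 / (1 - z0) ≠ 0 := by
      intro h0
      have hz00 : z0 ≠ 0 := by
        intro h; rw [h] at him; simp at him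
      have hz01 : 1 - z0 ≠ 0 := by
        intro h
        have : z0 = 1 := by linear_combination -h
        rw [this] at him; simp at him
      have h3 : (N : ℂ) * (1 - z0) - z0 = 0 := by
        field_simp at h0
        linear_combination h0
      have h4 := congrArg Complex.im h3
      simp only [Complex.sub_im, Complex.mul_im, Complex.ofReal_re, Complex.ofReal_im,
        Complex.one_im, Complex.sub_re, Complex.zero_im, zero_sub, zero_mul, add_zero] at h4
      nlinarith
    have hmap := hd.map_nhds_eq hne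
    intro s hs
    have hopen : IsOpen UH := isOpen_lt continuous_const Complex.continuous_im
    have hs' : s ∩ UH ∈ 𝓝 z0 := inter_mem hs (hopen.mem_nhds hz0)
    have himg : (L N) '' (s ∩ UH) ∈ 𝓝 (L N z0) := by
      rw [← hmap]; exact image_mem_map hs'
    have hev : ∀ᶠ i in l, L N (z i) ∈ (L N) '' (s ∩ UH) := hL himg
    have : ∀ᶠ i in l, z i ∈ s := by
      filter_upwards [hev, hz] with i hi hzi
      obtain ⟨z', hz', he⟩ := hi
      have := hinj hz'.2 hzi he
      rw [← this]; exact hz'.1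
    exact this
  · -- b2
    intro l z w hl hz hw hL
    obtain ⟨r, hr1, hr2⟩ := ell_surj_right hN w.re
    refine ⟨r, hr1, hr2, ?_⟩
    refine master hN hz (re_bdd hL) ?_
    intro u hu p hp ht
    have hz' : ∀ᶠ i in (u : Filter ℂ), z i ∈ UH := hz.filter_mono hu
    have hL' : Tendsto (fun i => L N (z i)) u (𝓝 w) := hL.mono_left hu
    rcases classify hS hz' hp ht with ⟨hp', h⟩ | ⟨-, h, -⟩ | ⟨-, h, -⟩ | ⟨x, -, -, -, h, -⟩ |
      ⟨x, hpx, hx, h⟩ | ⟨x, -, -, h⟩
    · exfalso
      have := tendsto_nhds_unique h hL'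
      have h2 := (hmaps p hp').1
      rw [this, hw] at h2
      exact lt_irrefl _ h2
    · exact (no_bot hL' h).elim
    · exact (no_bot hL' h).elim
    · exfalso
      have := congrArg Complex.im (tendsto_nhds_unique h hL')
      rw [hw] at this
      simp only [Complex.ofReal_im] at this
      linarith
    · have := congrArg Complex.re (tendsto_nhds_unique h hL')
      simp only [Complex.sub_re, Complex.ofReal_re, Complex.mul_re, Complex.I_re, mul_zero,
        Complex.ofReal_im, Complex.I_im, mul_one, sub_self, sub_zero] at this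
      have hxr : x = r := (ell_mono_right hN).injOn hx hr1 (by rw [this, hr2])
      rw [hpx, hxr]
    · exfalso
      have := congrArg Complex.im (tendsto_nhds_unique h hL')
      rw [hw] at this
      simp only [Complex.add_im, Complex.ofReal_im, Complex.mul_im, Complex.mul_re,
        Complex.ofReal_re, Complex.I_im, Complex.I_re, mul_zero, mul_one, zero_mul, add_zero,
        zero_add, sub_zero] at this
      linarith
  · -- b3
    intro l z r hz hr0 hr1 him hL
    refine master hN hz (re_bdd hL) ?_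
    intro u hu p hp ht
    have hz' : ∀ᶠ i in (u : Filter ℂ), z i ∈ UH := hz.filter_mono hu
    have him' : ∀ᶠ i in (u : Filter ℂ), (L N (z i)).im < 0 := him.filter_mono hu
    have hL' : Tendsto (fun i => L N (z i)) u (𝓝 (ell N r : ℂ)) := hL.mono_left hu
    have hlt : ell N r < ell N (nn N) :=
      ell_anti_mid hN ⟨le_refl _, hn1⟩ ⟨hr0.le, hr1⟩ hr0
    rcases classify hS hz' hp ht with ⟨hp', h⟩ | ⟨-, h, -⟩ | ⟨-, h, -⟩ |
      ⟨x, hpx, hx0, hx1, h, hs1, -⟩ | ⟨x, -, -, h⟩ | ⟨x, -, -, h⟩
    · exfalso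
      have he := tendsto_nhds_unique h hL'
      have h2 := (hmaps p hp').2.2
      rw [he, Complex.ofReal_im, Complex.ofReal_re] at h2
      exact absurd (h2 rfl) (not_lt.mpr hlt.le)
    · exact (no_bot hL' h).elim
    · exact (no_bot hL' h).elim
    · have he : ell N x = ell N r := by
        have := tendsto_nhds_unique h hL'
        exact_mod_cast this
      rcases lt_trichotomy x (nn N) with hx | hx | hx
      · exfalso
        obtain ⟨i, hi1, hi2⟩ := ((hs1 hx).and him').exists
        linarith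
      · exfalso
        rw [hx] at he
        linarith
      · have : x = r := (ell_anti_mid hN).injOn ⟨hx.le, hx1⟩ ⟨hr0.le, hr1⟩ he
        rw [hpx, this]
    · exfalso
      have := congrArg Complex.im (tendsto_nhds_unique h hL')
      simp only [Complex.sub_im, Complex.ofReal_im, Complex.mul_im, Complex.ofReal_re,
        Complex.I_im, Complex.I_re, mul_zero, mul_one, add_zero, zero_sub] at this
      linarith
    · exfalso
      have := congrArg Complex.im (tendsto_nhds_unique h hL')
      simp only [Complex.add_im, Complex.ofReal_im, Complex.mul_im, Complex.mul_re,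
        Complex.ofReal_re, Complex.I_im, Complex.I_re, mul_zero, mul_one, zero_mul, add_zero,
        zero_add, sub_zero] at this
      linarith
  · -- b4
    intro l z r hz hr0 hr1 him hL
    refine master hN hz (re_bdd hL) ?_
    intro u hu p hp ht
    have hz' : ∀ᶠ i in (u : Filter ℂ), z i ∈ UH := hz.filter_mono hu
    have him' : ∀ᶠ i in (u : Filter ℂ), 0 < (L N (z i)).im := him.filter_mono hu
    have hL' : Tendsto (fun i => L N (z i)) u (𝓝 (ell N r : ℂ)) := hL.mono_left hu
    have hlt : ell N r < ell N (nn N) :=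
      ell_mono_left hN ⟨hr0, hr1.le⟩ ⟨hn0, le_refl _⟩ hr1
    rcases classify hS hz' hp ht with ⟨hp', h⟩ | ⟨-, h, -⟩ | ⟨-, h, -⟩ |
      ⟨x, hpx, hx0, hx1, h, -, hs2⟩ | ⟨x, -, -, h⟩ | ⟨x, -, -, h⟩
    · exfalso
      have he := tendsto_nhds_unique h hL'
      have h2 := (hmaps p hp').2.2
      rw [he, Complex.ofReal_im, Complex.ofReal_re] at h2
      exact absurd (h2 rfl) (not_lt.mpr hlt.le)
    · exact (no_bot hL' h).elim
    · exact (no_bot hL' h).elim
    · have he : ell N x = ell N r := by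
        have := tendsto_nhds_unique h hL'
        exact_mod_cast this
      rcases lt_trichotomy x (nn N) with hx | hx | hx
      · have : x = r := (ell_mono_left hN).injOn ⟨hx0, hx.le⟩ ⟨hr0, hr1.le⟩ he
        rw [hpx, this]
      · exfalso
        rw [hx] at he
        linarith
      · exfalso
        obtain ⟨i, hi1, hi2⟩ := ((hs2 hx).and him').exists
        linarith
    · exfalso
      have := congrArg Complex.im (tendsto_nhds_unique h hL')
      simp only [Complex.sub_im, Complex.ofReal_im, Complex.mul_im, Complex.ofReal_re,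
        Complex.I_im, Complex.I_re, mul_zero, mul_one, add_zero, zero_sub] at this
      linarith
    · exfalso
      have := congrArg Complex.im (tendsto_nhds_unique h hL')
      simp only [Complex.add_im, Complex.ofReal_im, Complex.mul_im, Complex.mul_re,
        Complex.ofReal_re, Complex.I_im, Complex.I_re, mul_zero, mul_one, zero_mul, add_zero,
        zero_add, sub_zero] at this
      linarith
  · -- b5
    intro l z hz him hre
    refine master hN hz (hre.eventually (eventually_le_atBot 0)) ?_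
    intro u hu p hp ht
    have hz' : ∀ᶠ i in (u : Filter ℂ), z i ∈ UH := hz.filter_mono hu
    have him' : ∀ᶠ i in (u : Filter ℂ), 0 < (L N (z i)).im := him.filter_mono hu
    have hre' : Tendsto (fun i => (L N (z i)).re) u atBot := hre.mono_left hu
    rcases classify hS hz' hp ht with ⟨-, h⟩ | ⟨h, -, -⟩ | ⟨-, -, h⟩ |
      ⟨x, -, -, -, h, -⟩ | ⟨x, -, -, h⟩ | ⟨x, -, -, h⟩
    · exact (no_bot h hre').elim
    · exact h
    · exfalso
      obtain ⟨i, hi1, hi2⟩ := (h.and him').exists
      linarith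
    · exact (no_bot h hre').elim
    · exact (no_bot h hre').elim
    · exact (no_bot h hre').elim
  · -- b6
    intro l z hz him hre
    refine master hN hz (hre.eventually (eventually_le_atBot 0)) ?_
    intro u hu p hp ht
    have hz' : ∀ᶠ i in (u : Filter ℂ), z i ∈ UH := hz.filter_mono hu
    have him' : ∀ᶠ i in (u : Filter ℂ), (L N (z i)).im < 0 := him.filter_mono hu
    have hre' : Tendsto (fun i => (L N (z i)).re) u atBot := hre.mono_left hu
    rcases classify hS hz' hp ht with ⟨-, h⟩ | ⟨-, -, h⟩ | ⟨h, -, -⟩ |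
      ⟨x, -, -, -, h, -⟩ | ⟨x, -, -, h⟩ | ⟨x, -, -, h⟩
    · exact (no_bot h hre').elim
    · exfalso
      obtain ⟨i, hi1, hi2⟩ := (h.and him').exists
      linarith
    · exact h
    · exact (no_bot h hre').elim
    · exact (no_bot h hre').elim
    · exact (no_bot h hre').elim

/-- **H4-1b**. -/
theorem leaf1b (h1a : Leaf1a) (h1c : Leaf1c) : Leaf1b := fun _ hN => bdyB h1a h1c hN

end Crest.Agent.R102.H4L1b203
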