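import Crest.Agent.R102.H4T_490

/-!
# [H4], Leaf2: analytic continuation of `b = n + G` to the upper half plane (helper490)
-/

open Complex Set Filter Topology

noncomputable section

namespace Crest.Agent.R102.H4

variable {N ρ : ℝ} {G : ℂ → ℂ}

/-- the half plane `Im > Y` -/
def HP (Y : ℝ) : Set ℂ := {s | Y < s.im}

lemma isOpen_HP (Y : ℝ) : IsOpen (HP Y) := isOpen_lt continuous_const Complex.continuous_im

structure CY (N ρ : ℝ) (G : ℂ → ℂ) (Y : ℝ) (b : ℂ → ℂ) : Prop where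
  an : DifferentiableOn ℂ b (HP Y)
  maps : ∀ s ∈ HP Y, b s ∈ UH
  ext : ∀ s ∈ HP Y, ρ < ‖s‖ → b s = (nn N : ℂ) + G s
  eq : ∀ s ∈ HP Y, L N (b s) = L N (2 * (nn N : ℂ) - b (s + 1))

lemma add_nat_mem {Y : ℝ} {s : ℂ} (hs : s ∈ HP Y) (k : ℕ) : s + k ∈ HP Y := by
  simp only [HP, mem_ofPred_eq] at *; simpa using hs

lemma exists_large (ρ : ℝ) (s : ℂ) : ∃ k0 : ℕ, ∀ k : ℕ, k0 ≤ k → ρ < ‖s + k‖ := by
  obtain ⟨k0, hk⟩ := exists_nat_gt (ρ - s.re)
  refine ⟨k0, fun k hk' => ?_⟩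
  have h1 : (s + k).re ≤ ‖s + k‖ := Complex.re_le_norm _
  have h2 : (k0 : ℝ) ≤ k := by exact_mod_cast hk'
  simp at h1
  linarith

lemma CY.unique (h0 : Set.InjOn (L N) UH) {Y Y' : ℝ} {b b' : ℂ → ℂ} (hb : CY N ρ G Y b)
    (hb' : CY N ρ G Y' b') {s : ℂ} (hs : s ∈ HP Y) (hs' : s ∈ HP Y') : b s = b' s := by
  have key : ∀ k : ℕ, b (s + k) = b' (s + k) → b s = b' s := by
    intro k
    induction k with
    | zero => simp
    | succ k ih =>
      intro h
      apply ih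
      apply h0 (hb.maps _ (add_nat_mem hs k)) (hb'.maps _ (add_nat_mem hs' k))
      rw [hb.eq _ (add_nat_mem hs k), hb'.eq _ (add_nat_mem hs' k)]
      have e : s + (k : ℂ) + 1 = s + ((k + 1 : ℕ) : ℂ) := by push_cast; ring
      rw [e, h]
  obtain ⟨k0, hk⟩ := exists_large ρ s
  apply key k0
  rw [hb.ext _ (add_nat_mem hs k0) (hk k0 le_rfl), hb'.ext _ (add_nat_mem hs' k0) (hk k0 le_rfl)]

lemma CY.base (hG : GF N ρ G) : CY N ρ G ρ (fun s => (nn N : ℂ) + G s) := by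
  have hn : ∀ s ∈ HP ρ, ρ < ‖s‖ := fun s hs =>
    lt_of_lt_of_le hs ((le_abs_self _).trans (Complex.abs_im_le_norm s))
  have hpos : ∀ s ∈ HP ρ, 0 < s.im := fun s hs => lt_trans (by linarith [hG.hρ]) hs
  refine ⟨?_, ?_, ?_, ?_⟩
  · exact (hG.an.mono hn).const_add _
  · intro s hs
    have := hG.pos s (hn s hs) (hpos s hs)
    simpa [UH] using this
  · intro s _ _; rfl
  · intro s hs
    have hs1 : s + 1 ∈ HP ρ := by simpa using add_nat_mem hs 1
    have := hG.eq s (hn s hs) (hn _ hs1)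
    rw [this]; congr 1; ring

lemma CY.mono {Y Y' : ℝ} {b : ℂ → ℂ} (hb : CY N ρ G Y b) (h : Y ≤ Y') : CY N ρ G Y' b := by
  have hsub : HP Y' ⊆ HP Y := fun s hs => lt_of_le_of_lt h hs
  exact ⟨hb.an.mono hsub, fun s hs => hb.maps s (hsub hs), fun s hs => hb.ext s (hsub hs),
    fun s hs => hb.eq s (hsub hs)⟩

lemma CY.union (h0 : Set.InjOn (L N) UH) {Y0 : ℝ} (h : ∀ Y, Y0 < Y → ∃ b, CY N ρ G Y b) :
    ∃ b, CY N ρ G Y0 b := by
  classical
  choose! B hB using h
  have hmid : ∀ s ∈ HP Y0, Y0 < (Y0 + s.im) / 2 ∧ s ∈ HP ((Y0 + s.im) / 2) := by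
    intro s hs
    have : Y0 < s.im := hs
    refine ⟨by linarith, ?_⟩
    show (Y0 + s.im) / 2 < s.im
    linarith
  refine ⟨fun s => B ((Y0 + s.im) / 2) s, ?_, ?_, ?_, ?_⟩
  · intro s hs
    obtain ⟨h1, h2⟩ := hmid s hs
    have hd : DifferentiableAt ℂ (B ((Y0 + s.im) / 2)) s :=
      (hB _ h1).an.differentiableAt ((isOpen_HP _).mem_nhds h2)
    refine DifferentiableAt.differentiableWithinAt ?_
    refine hd.congr_of_eventuallyEq ?_
    filter_upwards [(isOpen_HP ((Y0 + s.im) / 2)).mem_nhds h2] with s' hs'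
    have hs'' : s' ∈ HP Y0 := lt_trans h1 hs'
    obtain ⟨h3, h4⟩ := hmid s' hs''
    exact CY.unique h0 (hB _ h3) (hB _ h1) h4 hs'
  · intro s hs
    obtain ⟨h1, h2⟩ := hmid s hs
    exact (hB _ h1).maps s h2
  · intro s hs hr
    obtain ⟨h1, h2⟩ := hmid s hs
    exact (hB _ h1).ext s h2 hr
  · intro s hs
    obtain ⟨h1, h2⟩ := hmid s hs
    have := (hB _ h1).eq s h2
    simpa using this

/-! ### Extension below the line `Im s = Y0` -/

/-- iterated chain from the right -/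
def Bf (N : ℝ) (G : ℂ → ℂ) (k : ℕ) : ℕ → ℂ → ℂ
  | 0, s => (nn N : ℂ) + G (s + k)
  | i + 1, s => KK N (L N (2 * (nn N : ℂ) - Bf N G k i s))

lemma Bf_eq (h0 : Set.InjOn (L N) UH) (h1 : ∀ z ∈ UH, L N z ∈ SS N)
    (h2 : ∀ w ∈ SS N, ∃ z ∈ UH, L N z = w) {Y0 : ℝ} {b : ℂ → ℂ} (hb : CY N ρ G Y0 b)
    {k : ℕ} {s : ℂ} (hs : s ∈ HP Y0) (hk : ρ < ‖s + k‖) :
    ∀ i j : ℕ, i + j = k → Bf N G k i s = b (s + j) := by
  intro i
  induction i with
  | zero =>
    intro j hj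
    have : j = k := by omega
    subst this
    show (nn N : ℂ) + G (s + j) = _
    rw [hb.ext _ (add_nat_mem hs j) hk]
  | succ i ih =>
    intro j hj
    have h := ih (j + 1) (by omega)
    show KK N (L N (2 * (nn N : ℂ) - Bf N G k i s)) = _
    rw [h]
    have e : s + ((j + 1 : ℕ) : ℂ) = s + j + 1 := by push_cast; ring
    rw [e, ← hb.eq _ (add_nat_mem hs j)]
    exact KK_eq h0 h1 h2 (hb.maps _ (add_nat_mem hs j))

lemma neBot_HP {Y0 : ℝ} {s0 : ℂ} (h : s0.im = Y0) : (𝓝[HP Y0] s0).NeBot := by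
  rw [← mem_closure_iff_nhdsWithin_neBot]
  have : closure (HP Y0) = {s : ℂ | Y0 ≤ s.im} := by
    have := Complex.closure_preimage_im (Ioi Y0)
    rw [closure_Ioi] at this
    exact this
  rw [this]; exact h.ge

/-- every point of the line is good -/
lemma good_line (hG : GF N ρ G) (h0 : Set.InjOn (L N) UH) (h1 : ∀ z ∈ UH, L N z ∈ SS N)
    (h2 : ∀ w ∈ SS N, ∃ z ∈ UH, L N z = w) (B : BdyB N) (S : BdyS N)
    {Y0 : ℝ} (hY : 0 < Y0) {b : ℂ → ℂ} (hb : CY N ρ G Y0 b) {k : ℕ} {s0 : ℂ} (hs0 : s0.im = Y0)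
    (hk : ρ < ‖s0 + k‖) :
    ∀ i : ℕ, i ≤ k → Bf N G k i s0 ∈ UH ∧ (∀ᶠ s in 𝓝 s0, DifferentiableAt ℂ (Bf N G k i) s) ∧
      (i < k → L N (2 * (nn N : ℂ) - Bf N G k i s0) ∈ SS N) := by
  have hN := hG.hN
  have := neBot_HP hs0
  have hopen : IsOpen {s : ℂ | ρ < ‖s‖} := isOpen_lt continuous_const continuous_norm
  have hkev : ∀ᶠ s : ℂ in 𝓝 s0, ρ < ‖s + (k : ℂ)‖ := by
    have : ContinuousAt (fun s : ℂ => ‖s + (k : ℂ)‖) s0 := by fun_prop
    exact this.eventually (lt_mem_nhds hk)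
  have hin : ∀ᶠ s in 𝓝[HP Y0] s0, s ∈ HP Y0 := self_mem_nhdsWithin
  -- the dichotomy at step i
  have key : ∀ i : ℕ, i < k → Bf N G k i s0 ∈ UH → ContinuousAt (Bf N G k i) s0 →
      L N (2 * (nn N : ℂ) - Bf N G k i s0) ∈ SS N := by
    intro i hi hm hc
    obtain ⟨j, hj⟩ : ∃ j, i + (j + 1) = k := ⟨k - i - 1, by omega⟩
    have hl : Tendsto (fun s => b (s + ((j + 1 : ℕ) : ℂ))) (𝓝[HP Y0] s0)
        (𝓝 (Bf N G k i s0)) := by
      refine Tendsto.congr' ?_ (hc.tendsto.mono_left nhdsWithin_le_nhds)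
      filter_upwards [hin, hkev.filter_mono nhdsWithin_le_nhds] with s hs hs'
      exact Bf_eq h0 h1 h2 hb hs hs' i (j + 1) hj
    -- chain to the left
    set f : ℕ → ℂ → ℂ := fun q s => b (s + (j : ℂ) - q) with hf
    have hmemq : ∀ q : ℕ, ∀ s ∈ HP Y0, s + (j : ℂ) - q ∈ HP Y0 := by
      intro q s hs
      simp only [HP, mem_ofPred_eq] at *; simpa using hs
    have hfq : ∀ q, ∀ᶠ s in 𝓝[HP Y0] s0, f q s ∈ UH := fun q =>
      hin.mono fun s hs => hb.maps _ (hmemq q s hs)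
    have heq : ∀ q, ∀ᶠ s in 𝓝[HP Y0] s0,
        L N (f (q + 1) s) = L N (2 * (nn N : ℂ) - f q s) := fun q =>
      hin.mono fun s hs => by
        simp only [hf]
        rw [hb.eq _ (hmemq (q + 1) s hs)]
        congr 3; push_cast; ring
    have he0 : ∀ᶠ s in 𝓝[HP Y0] s0,
        L N (f 0 s) = L N (2 * (nn N : ℂ) - b (s + ((j + 1 : ℕ) : ℂ))) := hin.mono fun s hs => by
        simp only [hf]
        rw [hb.eq _ (hmemq 0 s hs)]
        congr 3; push_cast; ring
    have hv : ∀ᶠ s in 𝓝[HP Y0] s0, b (s + ((j + 1 : ℕ) : ℂ)) ∈ UH :=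
      hin.mono fun s hs => hb.maps _ (add_nat_mem hs _)
    rcases T1 hN h1 h2 B S (hfq 0) he0 hm hl with ⟨z0, hz0, hz1, _⟩ | ⟨_, r, hr, _, hrt⟩
    · rw [← hz1]; exact h1 _ hz0
    · exfalso
      obtain ⟨q, hq⟩ := exists_nat_gt (ρ + (s0 + (j : ℂ)).re)
      obtain ⟨r', _, _, hr'⟩ := chain_real hN h1 B S hfq heq
        (lt_trans (nn_lt_one490 hN) hr) hrt q
      -- the point is far to the left
      set p : ℂ := s0 + (j : ℂ) - ((q + 2 : ℕ) : ℂ) with hp
      have hpn : ρ < ‖p‖ := by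
        have h3 : |p.re| ≤ ‖p‖ := Complex.abs_re_le_norm p
        have h4 : p.re = (s0 + (j : ℂ)).re - (q + 2) := by
          simp [hp]
        have h5 := neg_abs_le p.re
        linarith
      have hpim : 0 < p.im := by simp [hp, hs0, hY]
      have hcont : ContinuousAt (fun s : ℂ => (nn N : ℂ) + G (s + (j : ℂ) - ((q + 2 : ℕ) : ℂ))) s0 := by
        have hGc : ContinuousAt G p := (hG.an.differentiableAt (hopen.mem_nhds hpn)).continuousAt
        refine ContinuousAt.add continuousAt_const ?_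
        exact ContinuousAt.comp (f := fun s : ℂ => s + (j : ℂ) - ((q + 2 : ℕ) : ℂ)) hGc (by fun_prop)
      have hlim : Tendsto (f (q + 2)) (𝓝[HP Y0] s0) (𝓝 ((nn N : ℂ) + G p)) := by
        refine Tendsto.congr' ?_ (hcont.tendsto.mono_left nhdsWithin_le_nhds)
        have hev : ∀ᶠ s in 𝓝 s0, ρ < ‖s + (j : ℂ) - ((q + 2 : ℕ) : ℂ)‖ := by
          have : ContinuousAt (fun s : ℂ => ‖s + (j : ℂ) - ((q + 2 : ℕ) : ℂ)‖) s0 := by fun_prop
          exact this.eventually (lt_mem_nhds hpn)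
        filter_upwards [hin, hev.filter_mono nhdsWithin_le_nhds] with s hs hs'
        exact (hb.ext _ (hmemq (q + 2) s hs) hs').symm
      have hu := tendsto_nhds_unique hr' hlim
      have hi := congrArg Complex.im hu
      have hgp := hG.pos p hpn hpim
      simp at hi
      linarith
  intro i
  induction i with
  | zero =>
    intro _
    have hd : ∀ᶠ s in 𝓝 s0, DifferentiableAt ℂ (Bf N G k 0) s := by
      filter_upwards [hkev] with s hs
      show DifferentiableAt ℂ (fun s => (nn N : ℂ) + G (s + k)) s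
      refine DifferentiableAt.const_add _ ?_
      exact DifferentiableAt.comp s (f := fun s : ℂ => s + k)
        (hG.an.differentiableAt (hopen.mem_nhds hs)) (by fun_prop)
    have hm : Bf N G k 0 s0 ∈ UH := by
      have := hG.pos (s0 + k) hk (by simpa [hs0] using hY)
      show 0 < ((nn N : ℂ) + G (s0 + k)).im
      simpa using this
    exact ⟨hm, hd, fun hk' => key 0 hk' hm hd.self_of_nhds.continuousAt⟩
  | succ i ih =>
    intro hi
    obtain ⟨g1, g2, g3⟩ := ih (by omega)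
    have g3' := g3 (by omega)
    have hLc : ContinuousAt (fun s => L N (2 * (nn N : ℂ) - Bf N G k i s)) s0 := by
      refine ContinuousAt.comp (g := L N) (f := fun s => 2 * (nn N : ℂ) - Bf N G k i s) ?_ ?_
      · exact (L_differentiableAt (by simpa using ne_of_gt g1)).continuousAt
      · exact continuousAt_const.sub g2.self_of_nhds.continuousAt
    have hev : ∀ᶠ s in 𝓝 s0, L N (2 * (nn N : ℂ) - Bf N G k i s) ∈ SS N :=
      hLc.eventually ((isOpen_SS N).mem_nhds g3')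
    have hev2 : ∀ᶠ s in 𝓝 s0, Bf N G k i s ∈ UH :=
      g2.self_of_nhds.continuousAt.eventually (isOpen_UH.mem_nhds g1)
    have hd : ∀ᶠ s in 𝓝 s0, DifferentiableAt ℂ (Bf N G k (i + 1)) s := by
      filter_upwards [g2, hev, hev2] with s q1 q2 q3
      show DifferentiableAt ℂ (fun s => KK N (L N (2 * (nn N : ℂ) - Bf N G k i s))) s
      refine DifferentiableAt.comp s (f := fun s => L N (2 * (nn N : ℂ) - Bf N G k i s))
        (KK_hasDerivAt hN B h2 q2).differentiableAt ?_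
      exact DifferentiableAt.comp s (f := fun s => 2 * (nn N : ℂ) - Bf N G k i s)
        (L_differentiableAt (by simpa using ne_of_gt q3)) (q1.const_sub _)
    have hm : Bf N G k (i + 1) s0 ∈ UH := KK_mem h2 g3'
    exact ⟨hm, hd, fun hk' => key (i + 1) hk' hm hd.self_of_nhds.continuousAt⟩

lemma convex_HP (Y : ℝ) : Convex ℝ (HP Y) := by
  have : HP Y = {s : ℂ | Y < Complex.imCLM s} := rfl
  rw [this]
  exact convex_halfSpace_gt (f := Complex.imCLM) (Complex.imCLM.isLinear) Y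

lemma CY.extend (hG : GF N ρ G) (h0 : Set.InjOn (L N) UH) (h1 : ∀ z ∈ UH, L N z ∈ SS N)
    (h2 : ∀ w ∈ SS N, ∃ z ∈ UH, L N z = w) (B : BdyB N) (S : BdyS N)
    {Y0 : ℝ} (hY : 0 < Y0) {b : ℂ → ℂ} (hb : CY N ρ G Y0 b) :
    ∃ Y1, 0 < Y1 ∧ Y1 < Y0 ∧ ∃ b', CY N ρ G Y1 b' := by
  classical
  have hρ : 0 < ρ := by linarith [hG.hρ]
  have hopen : IsOpen {s : ℂ | ρ < ‖s‖} := isOpen_lt continuous_const continuous_norm
  obtain ⟨k, hk⟩ := exists_nat_gt (2 * ρ + 2)
  have hkn : ∀ s : ℂ, |s.re| ≤ ρ + 1 → ρ < ‖s + (k : ℂ)‖ := by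
    intro s hs
    have h3 : (s + (k : ℂ)).re ≤ ‖s + (k : ℂ)‖ := Complex.re_le_norm _
    have h4 : (s + (k : ℂ)).re = s.re + k := by simp
    have := neg_abs_le s.re
    linarith
  -- `Bf k = b` on the upper part
  have hBb : ∀ s ∈ HP Y0, ρ < ‖s + (k : ℂ)‖ → Bf N G k k s = b s := by
    intro s hs hs'
    have := Bf_eq h0 h1 h2 hb hs hs' k 0 (by omega)
    simpa using this
  have hBb' : ∀ s ∈ HP Y0, |s.re| ≤ ρ + 1 → Bf N G k k =ᶠ[𝓝 s] b := by
    intro s hs hs'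
    have hc : ContinuousAt (fun s : ℂ => ‖s + (k : ℂ)‖) s := by fun_prop
    filter_upwards [(isOpen_HP Y0).mem_nhds hs, hc.eventually (lt_mem_nhds (hkn s hs'))]
      with z hz hz'
    exact hBb z hz hz'
  set W : Set ℂ := {s | Bf N G k k s ∈ UH ∧ DifferentiableAt ℂ (Bf N G k k) s} with hW
  set K : Set ℂ := (fun x : ℝ => (x : ℂ) + Y0 * I) '' Icc (-(ρ + 1)) (ρ + 1) with hK
  have hKc : IsCompact K := by
    apply isCompact_Icc.image
    fun_prop
  have hKW : K ⊆ interior W := by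
    rintro _ ⟨x, hx, rfl⟩
    rw [mem_interior_iff_mem_nhds]
    have him : ((x : ℂ) + Y0 * I).im = Y0 := by simp
    have hre : ((x : ℂ) + Y0 * I).re = x := by simp
    obtain ⟨g1, g2, _⟩ := good_line hG h0 h1 h2 B S hY hb him
      (hkn _ (by rw [hre, abs_le]; exact hx)) k le_rfl
    have hev2 := g2.self_of_nhds.continuousAt.eventually (isOpen_UH.mem_nhds g1)
    filter_upwards [g2, hev2] with s q1 q2
    exact ⟨q2, q1⟩
  obtain ⟨δ, hδ, hthick⟩ := hKc.exists_thickening_subset_open isOpen_interior hKW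
  set Y1 : ℝ := max (Y0 / 2) (Y0 - δ) with hY1
  have hY1a : Y0 / 2 ≤ Y1 := le_max_left _ _
  have hY1b : Y0 - δ ≤ Y1 := le_max_right _ _
  have hY1c : Y1 < Y0 := max_lt (by linarith) (by linarith)
  have hY1p : 0 < Y1 := by linarith
  have hWall : ∀ s : ℂ, |s.re| ≤ ρ + 1 → Y1 < s.im → s ∈ W := by
    intro s hs hs'
    rcases lt_or_ge Y0 s.im with h | h
    · have he := hBb' s h hs
      refine ⟨?_, ?_⟩
      · show Bf N G k k s ∈ UH
        rw [he.self_of_nhds]; exact hb.maps s h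
      · exact (hb.an.differentiableAt ((isOpen_HP Y0).mem_nhds h)).congr_of_eventuallyEq he
    · apply interior_subset
      apply hthick
      rw [Metric.mem_thickening_iff]
      refine ⟨(s.re : ℂ) + Y0 * I, ⟨s.re, abs_le.mp hs, rfl⟩, ?_⟩
      have e : s - ((s.re : ℂ) + Y0 * I) = ((s.im - Y0 : ℝ) : ℂ) * I := by
        apply Complex.ext <;> simp
      rw [dist_eq_norm, e, norm_mul, Complex.norm_I, mul_one, Complex.norm_real,
        Real.norm_eq_abs, abs_of_nonpos (by linarith)]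
      linarith
  set Ω : Set ℂ := {s | |s.re| < ρ + 1} ∩ {s | Y1 < s.im} with hΩ
  have hΩo : IsOpen Ω := (isOpen_lt (by fun_prop) continuous_const).inter (isOpen_HP Y1)
  have hBan : AnalyticOnNhd ℂ (Bf N G k k) Ω := by
    apply DifferentiableOn.analyticOnNhd _ hΩo
    intro s hs
    exact (hWall s hs.1.le hs.2).2.differentiableWithinAt
  have hGan : AnalyticOnNhd ℂ (fun s => (nn N : ℂ) + G s) {s | ρ < ‖s‖} :=
    DifferentiableOn.analyticOnNhd (hG.an.const_add _) hopen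
  -- agreement
  have hagree : ∀ s : ℂ, s ∈ Ω → ρ < ‖s‖ → Bf N G k k s = (nn N : ℂ) + G s := by
    intro s hs hsn
    set U : Set ℂ := (fun t : ℝ => s + t * I) '' Icc 0 Y0 with hU
    have hUp : IsPreconnected U := by
      apply isPreconnected_Icc.image
      fun_prop
    have hz : ∀ z ∈ U, z ∈ Ω ∧ ρ < ‖z‖ := by
      rintro _ ⟨t, ht, rfl⟩
      have hsim : Y1 < s.im := hs.2
      refine ⟨⟨?_, ?_⟩, ?_⟩
      · show |(s + t * I).re| < ρ + 1
        simpa using hs.1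
      · show Y1 < (s + t * I).im
        simp; linarith [ht.1]
      · refine lt_of_lt_of_le hsn ?_
        rw [Complex.norm_def, Complex.norm_def]
        apply Real.sqrt_le_sqrt
        rw [Complex.normSq_apply, Complex.normSq_apply]
        simp
        nlinarith [ht.1]
    have hz0 : s + (Y0 : ℝ) * I ∈ U := ⟨Y0, ⟨hY.le, le_rfl⟩, rfl⟩
    have hs0 : s ∈ U := ⟨0, ⟨le_rfl, hY.le⟩, by simp⟩
    have hup : s + (Y0 : ℝ) * I ∈ HP Y0 := by
      show Y0 < (s + (Y0 : ℝ) * I).im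
      have : Y1 < s.im := hs.2
      simp; linarith
    have hre : |(s + (Y0 : ℝ) * I).re| ≤ ρ + 1 := (hz _ hz0).1.1.le
    have hee : Bf N G k k =ᶠ[𝓝 (s + (Y0 : ℝ) * I)] (fun s => (nn N : ℂ) + G s) := by
      filter_upwards [hBb' _ hup hre, (isOpen_HP Y0).mem_nhds hup,
        hopen.mem_nhds (hz _ hz0).2] with z q1 q2 q3
      rw [q1]; exact hb.ext z q2 q3
    exact AnalyticOnNhd.eqOn_of_preconnected_of_eventuallyEq
      (fun z hz' => hBan z (hz z hz').1) (fun z hz' => hGan z (hz z hz').2) hUp hz0 hee hs0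
  set b' : ℂ → ℂ := fun s => if ρ < ‖s‖ then (nn N : ℂ) + G s else Bf N G k k s with hb'
  have hb1 : ∀ s : ℂ, ρ < ‖s‖ → b' s = (nn N : ℂ) + G s := fun s hs => by simp [hb', hs]
  have hb2 : ∀ s ∈ Ω, b' s = Bf N G k k s := by
    intro s hs
    by_cases h : ρ < ‖s‖
    · rw [hb1 s h, hagree s hs h]
    · simp [hb', h]
  have hΩmem : ∀ s ∈ HP Y1, ¬ ρ < ‖s‖ → s ∈ Ω := by
    intro s hs h
    refine ⟨?_, hs⟩
    have := Complex.abs_re_le_norm s
    show |s.re| < ρ + 1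
    linarith
  have hbb : ∀ s ∈ HP Y0, b' s = b s := by
    intro s hs
    by_cases h : ρ < ‖s‖
    · rw [hb1 s h, hb.ext s hs h]
    · have hm := hΩmem s (lt_trans hY1c hs) h
      rw [hb2 s hm, (hBb' s hs hm.1.le).self_of_nhds]
  have han : DifferentiableOn ℂ b' (HP Y1) := by
    intro s hs
    apply DifferentiableAt.differentiableWithinAt
    by_cases h : ρ < ‖s‖
    · refine (hGan s h).differentiableAt.congr_of_eventuallyEq ?_
      filter_upwards [hopen.mem_nhds h] with z hz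
      exact hb1 z hz
    · have hm := hΩmem s hs h
      refine (hBan s hm).differentiableAt.congr_of_eventuallyEq ?_
      filter_upwards [hΩo.mem_nhds hm] with z hz
      exact hb2 z hz
  have hmaps : ∀ s ∈ HP Y1, b' s ∈ UH := by
    intro s hs
    by_cases h : ρ < ‖s‖
    · rw [hb1 s h]
      have := hG.pos s h (lt_trans hY1p hs)
      simpa [UH] using this
    · have hm := hΩmem s hs h
      rw [hb2 s hm]
      exact (hWall s hm.1.le hm.2).1
  refine ⟨Y1, hY1p, hY1c, b', han, hmaps, fun s _ hs' => hb1 s hs', ?_⟩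
  -- functional equation by the identity theorem
  have hL1 : AnalyticOnNhd ℂ (fun s => L N (b' s)) (HP Y1) := by
    apply DifferentiableOn.analyticOnNhd _ (isOpen_HP Y1)
    intro s hs
    apply DifferentiableAt.differentiableWithinAt
    exact DifferentiableAt.comp (g := L N) s (L_differentiableAt (ne_of_gt (hmaps s hs)))
      (han.differentiableAt ((isOpen_HP Y1).mem_nhds hs))
  have hs1 : ∀ s ∈ HP Y1, s + 1 ∈ HP Y1 := fun s hs => by simpa using add_nat_mem hs 1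
  have hL2 : AnalyticOnNhd ℂ (fun s => L N (2 * (nn N : ℂ) - b' (s + 1))) (HP Y1) := by
    apply DifferentiableOn.analyticOnNhd _ (isOpen_HP Y1)
    intro s hs
    apply DifferentiableAt.differentiableWithinAt
    refine DifferentiableAt.comp (g := L N) (f := fun s => 2 * (nn N : ℂ) - b' (s + 1)) s
      (L_differentiableAt ?_) ?_
    · have h7 : 0 < (b' (s + 1)).im := hmaps _ (hs1 s hs)
      have : (2 * (nn N : ℂ) - b' (s + 1)).im = -(b' (s + 1)).im := by simp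
      rw [this]; exact neg_ne_zero.mpr h7.ne'
    · refine DifferentiableAt.const_sub ?_ _
      exact DifferentiableAt.comp (g := b') (f := fun s : ℂ => s + 1) s
        (han.differentiableAt ((isOpen_HP Y1).mem_nhds (hs1 s hs))) (by fun_prop)
  have hp0 : (((Y0 + 1 : ℝ) : ℂ) * I) ∈ HP Y0 := by
    show Y0 < (((Y0 + 1 : ℝ) : ℂ) * I).im
    simp
  refine AnalyticOnNhd.eqOn_of_preconnected_of_eventuallyEq hL1 hL2
    (convex_HP Y1).isPreconnected (z₀ := ((Y0 + 1 : ℝ) : ℂ) * I) (lt_trans hY1c hp0) ?_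
  filter_upwards [(isOpen_HP Y0).mem_nhds hp0] with s hs
  have hs' : s + 1 ∈ HP Y0 := by simpa using add_nat_mem hs 1
  rw [hbb s hs, hbb _ hs', hb.eq s hs]

theorem leaf2 (h1a : Leaf1a) (h1b : Leaf1b) (h1c : Leaf1c) : Leaf2 := by
  intro N ρ G hG
  obtain ⟨h0, h1, h2⟩ := h1a N hG.hN
  have B := h1b N hG.hN
  have S := h1c N hG.hN
  set J : Set ℝ := {Y | 0 < Y ∧ ∃ b, CY N ρ G Y b} with hJ
  have hJne : J.Nonempty := ⟨ρ, by linarith [hG.hρ], _, CY.base hG⟩
  have hJb : BddBelow J := ⟨0, fun Y hY => hY.1.le⟩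
  have hinf0 : 0 ≤ sInf J := le_csInf hJne fun Y hY => hY.1.le
  have habove : ∀ Y, sInf J < Y → ∃ b, CY N ρ G Y b := by
    intro Y hY
    obtain ⟨Y', hY', hlt⟩ := exists_lt_of_csInf_lt hJne hY
    obtain ⟨b, hb⟩ := hY'.2
    exact ⟨b, hb.mono hlt.le⟩
  have hinf : sInf J = 0 := by
    by_contra hne
    have hpos : 0 < sInf J := lt_of_le_of_ne hinf0 (Ne.symm hne)
    obtain ⟨b, hb⟩ := CY.union h0 habove
    obtain ⟨Y1, h1p, h1l, b', hb'⟩ := CY.extend hG h0 h1 h2 B S hpos hb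
    have : sInf J ≤ Y1 := csInf_le hJb ⟨h1p, b', hb'⟩
    linarith
  rw [hinf] at habove
  obtain ⟨b, hb⟩ := CY.union h0 habove
  exact ⟨b, hb.an, hb.maps, hb.ext, hb.eq⟩

end Crest.Agent.R102.H4
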