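import Crest.Agent.R102.H4Defs_490

/-!
# Row 102, [H4], leaf 2b: injectivity, reflection symmetry and signs of the continuation `b`
-/

open Complex Set Filter Topology

noncomputable section

namespace Crest.Agent.R102.H4

namespace L2b872

lemma isOpen_UH : IsOpen UH := isOpen_lt continuous_const Complex.continuous_im

lemma convex_UH : Convex ℝ UH := by
  have : UH = Complex.imLm ⁻¹' (Set.Ioi 0) := by
    ext z; simp [UH]
  rw [this]
  exact (convex_Ioi 0).linear_preimage Complex.imLm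

lemma add_mem_UH {s : ℂ} (hs : s ∈ UH) (x : ℝ) : s + x ∈ UH := by
  simpa [UH] using hs

lemma star_mem_UH {s : ℂ} (hs : s ∈ UH) : -(starRingEnd ℂ) s ∈ UH := by
  simpa [UH] using hs

lemma nn_pos {N : ℝ} (hN : 1 < N) : 1 / 2 < nn N := by
  unfold nn
  rw [lt_div_iff₀ (by linarith)]; linarith

lemma nn_lt_one {N : ℝ} (hN : 1 < N) : nn N < 1 := by
  unfold nn
  rw [div_lt_one (by linarith)]; linarith

/-- injectivity of `L` on the lower half plane -/
lemma inj_low {N : ℝ} (hN : 1 < N) (h1a : Leaf1a) (h1c : Leaf1c) {z w : ℂ} (hz : z ∈ UH)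
    (hw : w ∈ UH) (h : L N (2 * (nn N : ℂ) - z) = L N (2 * (nn N : ℂ) - w)) : z = w := by
  have key : ∀ u : ℂ, u ∈ UH → (2 * (nn N : ℂ) - (starRingEnd ℂ) u) ∈ UH ∧
      L N (2 * (nn N : ℂ) - u) = (starRingEnd ℂ) (L N (2 * (nn N : ℂ) - (starRingEnd ℂ) u)) := by
    intro u hu
    have h1 : (2 * (nn N : ℂ) - (starRingEnd ℂ) u) ∈ UH := by
      simpa [UH] using hu
    refine ⟨h1, ?_⟩
    rw [← (h1c N hN).cj _ h1]
    congr 1
    rw [map_sub, map_mul, Complex.conj_ofReal, Complex.conj_conj, Complex.conj_ofNat]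
  obtain ⟨hz1, hz2⟩ := key z hz
  obtain ⟨hw1, hw2⟩ := key w hw
  rw [hz2, hw2] at h
  have h3 := (h1a N hN).1 hz1 hw1 ((starRingEnd ℂ).injective h)
  have h4 : (starRingEnd ℂ) z = (starRingEnd ℂ) w := by
    linear_combination -h3
  exact (starRingEnd ℂ).injective h4

lemma norm_add_nat {s : ℂ} {ρ : ℝ} {k : ℕ} (hk : ρ + ‖s‖ < k) : ρ < ‖s + (k : ℂ)‖ := by
  have h1 : ‖(k : ℂ)‖ ≤ ‖s + (k : ℂ)‖ + ‖s‖ := by
    calc ‖(k : ℂ)‖ = ‖(s + (k : ℂ)) - s‖ := by congr 1; ring
      _ ≤ _ := norm_sub_le _ _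
  rw [Complex.norm_natCast] at h1
  linarith

theorem b_inj (h1a : Leaf1a) (h1c : Leaf1c) {N ρ : ℝ} {G b : ℂ → ℂ} (hG : GF N ρ G)
    (hb : Cont N ρ G b) : Set.InjOn b UH := by
  intro s hs t ht hst
  have key : ∀ k : ℕ, b (s + k) = b (t + k) := by
    intro k
    induction k with
    | zero => simpa using hst
    | succ k ih =>
      have hs' : s + (k : ℂ) ∈ UH := by simpa using add_mem_UH hs (k : ℝ)
      have ht' : t + (k : ℂ) ∈ UH := by simpa using add_mem_UH ht (k : ℝ)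
      have e1 := hb.eq _ hs'
      have e2 := hb.eq _ ht'
      rw [ih, e2] at e1
      have hs2 : s + (k : ℂ) + 1 ∈ UH := by simpa using add_mem_UH hs' (1 : ℝ)
      have ht2 : t + (k : ℂ) + 1 ∈ UH := by simpa using add_mem_UH ht' (1 : ℝ)
      have := inj_low hG.hN h1a h1c (hb.maps _ ht2) (hb.maps _ hs2) e1
      push_cast
      rw [← add_assoc, ← add_assoc]
      exact this.symm
  obtain ⟨k, hk⟩ := exists_nat_gt (ρ + ‖s‖ + (ρ + ‖t‖))
  have hρ := hG.hρ
  have hks : ρ < ‖s + (k : ℂ)‖ := norm_add_nat (by linarith [norm_nonneg t])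
  have hkt : ρ < ‖t + (k : ℂ)‖ := norm_add_nat (by linarith [norm_nonneg s])
  have hs' : s + (k : ℂ) ∈ UH := by simpa using add_mem_UH hs (k : ℝ)
  have ht' : t + (k : ℂ) ∈ UH := by simpa using add_mem_UH ht (k : ℝ)
  have h := key k
  rw [hb.ext _ hs' hks, hb.ext _ ht' hkt] at h
  have h2 := hG.inj hks hkt (add_left_cancel h)
  exact add_right_cancel h2

theorem b_refl {N ρ : ℝ} {G b : ℂ → ℂ} (hG : GF N ρ G) (hb : Cont N ρ G b) :
    ∀ s ∈ UH, b (-(starRingEnd ℂ) s) = 2 * (nn N : ℂ) - (starRingEnd ℂ) (b s) := by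
  -- `f s = 2 n - conj (b (-conj s))`
  set f : ℂ → ℂ := fun s => 2 * (nn N : ℂ) - (starRingEnd ℂ) (b (-(starRingEnd ℂ) s)) with hf
  have hfd : DifferentiableOn ℂ f UH := by
    intro s hs
    have hd : DifferentiableAt ℂ b (-(starRingEnd ℂ) s) :=
      (hb.an _ (star_mem_UH hs)).differentiableAt (isOpen_UH.mem_nhds (star_mem_UH hs))
    have hd2 : DifferentiableAt ℂ (fun u => b (-u)) ((starRingEnd ℂ) s) := by
      have := DifferentiableAt.comp (𝕜 := ℂ) ((starRingEnd ℂ) s) (f := fun u : ℂ => -u) (g := b)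
        hd differentiableAt_id.neg
      exact this
    have hd3 : DifferentiableAt ℂ ((starRingEnd ℂ) ∘ (fun u => b (-u)) ∘ (starRingEnd ℂ)) s := by
      have := hd2.conj_conj
      simpa using this
    exact ((differentiableAt_const _).sub hd3).differentiableWithinAt
  have hba : AnalyticOnNhd ℂ b UH := hb.an.analyticOnNhd isOpen_UH
  have hfa : AnalyticOnNhd ℂ f UH := hfd.analyticOnNhd isOpen_UH
  -- a base point
  set z0 : ℂ := (ρ + 1) * I with hz0
  have hρ := hG.hρ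
  have hz0U : z0 ∈ UH := by
    simp [hz0, UH]; linarith
  have hz0n : ρ < ‖z0‖ := by
    rw [hz0, norm_mul, norm_I, mul_one]
    have : ((ρ : ℂ) + 1) = ((ρ + 1 : ℝ) : ℂ) := by push_cast; ring
    rw [this, Complex.norm_real, Real.norm_eq_abs, abs_of_pos (by linarith)]
    linarith
  have hev : f =ᶠ[𝓝 z0] b := by
    have h1 : ∀ᶠ s in 𝓝 z0, s ∈ UH := isOpen_UH.mem_nhds hz0U
    have h2 : ∀ᶠ s in 𝓝 z0, ρ < ‖s‖ := continuous_norm.continuousAt.eventually (lt_mem_nhds hz0n)
    filter_upwards [h1, h2] with s hs hn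
    have hn' : ρ < ‖-(starRingEnd ℂ) s‖ := by simpa using hn
    have hn'' : ρ < ‖(starRingEnd ℂ) s‖ := by simpa using hn
    rw [hf]
    simp only
    rw [hb.ext _ (star_mem_UH hs) hn', hb.ext _ hs hn, hG.odd _ hn'', hG.real _ hn]
    simp
    ring
  have heq := hfa.eqOn_of_preconnected_of_eventuallyEq hba convex_UH.isPreconnected hz0U hev
  intro s hs
  have h := heq hs
  simp only [hf] at h
  rw [← h, map_sub, map_mul, Complex.conj_ofReal, Complex.conj_conj, Complex.conj_ofNat,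
    sub_sub_cancel]

lemma G_real {N ρ : ℝ} {G : ℂ → ℂ} (hG : GF N ρ G) {x : ℝ} (hx : ρ < x) : (G x).im = 0 := by
  have hn : ρ < ‖(x : ℂ)‖ := by
    rw [Complex.norm_real, Real.norm_eq_abs]; exact lt_of_lt_of_le hx (le_abs_self x)
  have := hG.real _ hn
  rw [Complex.conj_ofReal] at this
  exact Complex.conj_eq_iff_im.mp this.symm

/-- limit of `b` at large real points -/
lemma b_tendsto {N ρ : ℝ} {G b : ℂ → ℂ} (hG : GF N ρ G) (hb : Cont N ρ G b) {x : ℝ}
    (hx : ρ < x) : Tendsto b (𝓝[UH] (x : ℂ)) (𝓝 ((nn N + (G x).re : ℝ) : ℂ)) := by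
  have hn : ρ < ‖(x : ℂ)‖ := by
    rw [Complex.norm_real, Real.norm_eq_abs]; exact lt_of_lt_of_le hx (le_abs_self x)
  have hopen : IsOpen {s : ℂ | ρ < ‖s‖} := isOpen_lt continuous_const continuous_norm
  have hc : ContinuousAt G x :=
    ((hG.an _ hn).differentiableAt (hopen.mem_nhds hn)).continuousAt
  have h1 : Tendsto (fun s => (nn N : ℂ) + G s) (𝓝[UH] (x : ℂ)) (𝓝 ((nn N : ℂ) + G x)) :=
    (tendsto_const_nhds.add hc.tendsto).mono_left nhdsWithin_le_nhds
  have h2 : ((nn N + (G x).re : ℝ) : ℂ) = (nn N : ℂ) + G x := by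
    have := G_real hG hx
    apply Complex.ext
    · simp
    · simp [this]
  rw [h2]
  refine h1.congr' ?_
  have h3' : ∀ᶠ s in 𝓝 (x : ℂ), ρ < ‖s‖ := hopen.mem_nhds hn
  have h3 : ∀ᶠ s in 𝓝[UH] (x : ℂ), ρ < ‖s‖ := h3'.filter_mono nhdsWithin_le_nhds
  filter_upwards [h3, self_mem_nhdsWithin] with s hs hsU
  exact (hb.ext s hsU hs).symm

instance neBot_UH (x : ℝ) : (𝓝[UH] (x : ℂ)).NeBot := by
  rw [← mem_closure_iff_nhdsWithin_neBot, mem_closure_iff_seq_limit]
  refine ⟨fun k : ℕ => (x : ℂ) + ((1 / ((k : ℝ) + 1) : ℝ) : ℂ) * I, ?_, ?_⟩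
  · intro k
    have hk : (0 : ℝ) < 1 / ((k : ℝ) + 1) := by positivity
    show 0 < ((x : ℂ) + ((1 / ((k : ℝ) + 1) : ℝ) : ℂ) * I).im
    rw [Complex.add_im, Complex.ofReal_im, Complex.im_ofReal_mul, Complex.I_im]
    linarith
  · have h : Tendsto (fun k : ℕ => (1 / ((k : ℝ) + 1) : ℝ)) atTop (𝓝 0) :=
      tendsto_one_div_add_atTop_nhds_zero_nat
    have h2 : Tendsto (fun k : ℕ => (x : ℂ) + ((1 / ((k : ℝ) + 1) : ℝ) : ℂ) * I) atTop
        (𝓝 ((x : ℂ) + ((0 : ℝ) : ℂ) * I)) :=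
      tendsto_const_nhds.add ((Complex.continuous_ofReal.continuousAt.tendsto.comp h).mul_const I)
    simpa using h2

/-- constant sign on convex (preconnected) sets -/
lemma sign_of {S : Set ℂ} (hS : IsPreconnected S) {f : ℂ → ℝ} (hf : ContinuousOn f S)
    (h0 : ∀ s ∈ S, f s ≠ 0) {s0 : ℂ} (hs0 : s0 ∈ S) (hp : 0 < f s0) : ∀ s ∈ S, 0 < f s := by
  intro s hs
  by_contra hneg
  have hlt : f s < 0 := lt_of_le_of_ne (not_lt.mp hneg) (h0 s hs)
  have := hS.intermediate_value hs hs0 hf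
  obtain ⟨u, hu, hu0⟩ := this ⟨hlt.le, hp.le⟩
  exact h0 u hu hu0

lemma convex_right (a : ℝ) : Convex ℝ (UH ∩ {s : ℂ | a < s.re}) := by
  refine convex_UH.inter ?_
  have : {s : ℂ | a < s.re} = Complex.reLm ⁻¹' (Set.Ioi a) := by
    ext z; simp
  rw [this]
  exact (convex_Ioi a).linear_preimage Complex.reLm

/-- a point far right in `UH` with given eventual property -/
lemma exists_pt {x a : ℝ} (hx : a < x) {P : ℂ → Prop} (hP : ∀ᶠ s in 𝓝[UH] (x : ℂ), P s) :
    ∃ s ∈ UH ∩ {s : ℂ | a < s.re}, P s := by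
  have h1 : ∀ᶠ s in 𝓝[UH] (x : ℂ), a < s.re := by
    have : ∀ᶠ s in 𝓝 (x : ℂ), a < s.re :=
      Complex.continuous_re.continuousAt.eventually (lt_mem_nhds (by simpa using hx))
    exact this.filter_mono nhdsWithin_le_nhds
  have h2 : ∀ᶠ s in 𝓝[UH] (x : ℂ), s ∈ UH := self_mem_nhdsWithin
  obtain ⟨s, hs⟩ := (hP.and (h1.and h2)).exists
  exact ⟨s, ⟨hs.2.2, hs.2.1⟩, hs.1⟩

lemma L_cont (N : ℝ) : ContinuousOn (L N) UH := by
  intro z hz
  have hz' : 0 < z.im := hz
  have h1 : z ∈ Complex.slitPlane := Or.inr (ne_of_gt hz')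
  have h2 : 1 - z ∈ Complex.slitPlane := by
    refine Or.inr ?_
    simp
    exact ne_of_gt hz'
  have c1 : ContinuousAt (fun z : ℂ => Complex.log z) z := continuousAt_clog h1
  have c2 : ContinuousAt (fun z : ℂ => Complex.log (1 - z)) z :=
    ContinuousAt.clog (continuousAt_const.sub continuousAt_id) h2
  exact ((continuousAt_const.mul c1).add c2).continuousWithinAt

end L2b872

open L2b872

/-- **H4-2b** -/
theorem leaf2b (h1a : Leaf1a) (h1c : Leaf1c) : Leaf2b := by
  intro N ρ G b hG hb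
  have hN := hG.hN
  have hinj := b_inj h1a h1c hG hb
  have hrefl := b_refl hG hb
  have hρ := hG.hρ
  have hbc : ContinuousOn b UH := hb.an.continuousOn
  -- real part
  have hre0 : ∀ s ∈ UH, s.re = 0 → (b s).re = nn N := by
    intro s hs h0
    have e : -(starRingEnd ℂ) s = s := by
      apply Complex.ext <;> simp [h0]
    have h := hrefl s hs
    rw [e] at h
    have h' := congrArg Complex.re h
    simp at h'
    linarith
  have hre0' : ∀ s ∈ UH, (b s).re = nn N → s.re = 0 := by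
    intro s hs h0
    have h := hrefl s hs
    have e : 2 * (nn N : ℂ) - (starRingEnd ℂ) (b s) = b s := by
      apply Complex.ext
      · simp [h0]; ring
      · simp
    rw [e] at h
    have h2 := hinj (star_mem_UH hs) hs h
    have h3 := congrArg Complex.re h2
    simp at h3
    linarith
  have hpos : ∀ s ∈ UH, 0 < s.re → (b s).re < nn N := by
    have hev : ∀ᶠ s in 𝓝[UH] ((ρ + 1 : ℝ) : ℂ), 0 < nn N - (b s).re := by
      have h1 := b_tendsto hG hb (x := ρ + 1) (by linarith)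
      have h2 : Tendsto (fun s => nn N - (b s).re) (𝓝[UH] ((ρ + 1 : ℝ) : ℂ))
          (𝓝 (nn N - (nn N + (G ((ρ + 1 : ℝ) : ℂ)).re))) := by
        have h5 := (Complex.continuous_re.continuousAt.tendsto.comp h1)
        rw [Complex.ofReal_re] at h5
        exact tendsto_const_nhds.sub h5
      refine h2.eventually (lt_mem_nhds ?_)
      have := hG.neg (ρ + 1) (by linarith)
      linarith
    obtain ⟨s0, hs0, hs0'⟩ := exists_pt (a := 0) (x := ρ + 1) (by linarith) hev
    have hmain := sign_of (convex_right 0).isPreconnected (f := fun s => nn N - (b s).re)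
      (continuousOn_const.sub (Complex.continuous_re.comp_continuousOn
        (hbc.mono inter_subset_left)))
      (by
        intro s hs h
        have : (b s).re = nn N := by linarith
        have h2 := hre0' s hs.1 this
        have h3 : (0 : ℝ) < s.re := hs.2
        linarith) hs0 hs0'
    intro s hs hs2
    have := hmain s ⟨hs, hs2⟩
    linarith
  have hnegp : ∀ s ∈ UH, s.re < 0 → nn N < (b s).re := by
    intro s hs h
    have h1 := hpos (-(starRingEnd ℂ) s) (star_mem_UH hs) (by simp; exact h)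
    rw [hrefl s hs] at h1
    simp at h1
    linarith
  -- imaginary part
  have hstar : ∀ s ∈ UH, (-1 - (starRingEnd ℂ) s) ∈ UH ∧
      L N (b (-1 - (starRingEnd ℂ) s)) = (starRingEnd ℂ) (L N (b s)) := by
    intro s hs
    have hm : (-1 - (starRingEnd ℂ) s) ∈ UH := by simpa [UH] using hs
    refine ⟨hm, ?_⟩
    rw [hb.eq _ hm]
    have e : (-1 - (starRingEnd ℂ) s) + 1 = -(starRingEnd ℂ) s := by ring
    rw [e, hrefl s hs, sub_sub_cancel]
    exact (h1c N hN).cj _ (hb.maps s hs)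
  have him0 : ∀ s ∈ UH, s.re = -(1 / 2) → (L N (b s)).im = 0 := by
    intro s hs h
    obtain ⟨_, h2⟩ := hstar s hs
    have e : (-1 - (starRingEnd ℂ) s) = s := by
      apply Complex.ext
      · simp [h]; norm_num
      · simp
    rw [e] at h2
    exact Complex.conj_eq_iff_im.mp h2.symm
  have him0' : ∀ s ∈ UH, (L N (b s)).im = 0 → s.re = -(1 / 2) := by
    intro s hs h
    obtain ⟨h1, h2⟩ := hstar s hs
    rw [Complex.conj_eq_iff_im.mpr h] at h2
    have h3 := (h1a N hN).1 (hb.maps _ h1) (hb.maps _ hs) h2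
    have h4 := hinj h1 hs h3
    have h5 := congrArg Complex.re h4
    simp at h5
    linarith
  have himp : ∀ s ∈ UH, -(1 / 2) < s.re → 0 < (L N (b s)).im := by
    have hn1 := nn_pos hN
    have hn2 := nn_lt_one hN
    have hsm := hG.small ((ρ + 1 : ℝ) : ℂ) (by
      rw [Complex.norm_real, Real.norm_eq_abs, abs_of_pos (by linarith)]; linarith)
    have habs := Complex.abs_re_le_norm (G ((ρ + 1 : ℝ) : ℂ))
    have hneg := hG.neg (ρ + 1) (by linarith)
    rw [abs_of_neg hneg] at habs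
    have hx0 : 0 < nn N + (G ((ρ + 1 : ℝ) : ℂ)).re := by linarith
    have hx1 : nn N + (G ((ρ + 1 : ℝ) : ℂ)).re < nn N := by linarith
    have hs1 := (h1c N hN).s1 _ hx0 hx1
    have htd : Tendsto b (𝓝[UH] ((ρ + 1 : ℝ) : ℂ))
        (𝓝[UH] ((nn N + (G ((ρ + 1 : ℝ) : ℂ)).re : ℝ) : ℂ)) := by
      rw [tendsto_nhdsWithin_iff]
      refine ⟨b_tendsto hG hb (by linarith), ?_⟩
      filter_upwards [self_mem_nhdsWithin] with s hs using hb.maps s hs
    have hev : ∀ᶠ s in 𝓝[UH] ((ρ + 1 : ℝ) : ℂ), 0 < (L N (b s)).im := htd.eventually hs1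
    obtain ⟨s0, hs0, hs0'⟩ := exists_pt (a := -(1 / 2)) (x := ρ + 1) (by linarith) hev
    have hmain := sign_of (convex_right (-(1 / 2))).isPreconnected
      (f := fun s => (L N (b s)).im)
      (Complex.continuous_im.comp_continuousOn
        ((L_cont N).comp (hbc.mono inter_subset_left) (fun s hs => hb.maps s hs.1)))
      (by
        intro s hs h
        have h2 := him0' s hs.1 h
        have h3 : -(1 / 2 : ℝ) < s.re := hs.2
        linarith) hs0 hs0'
    intro s hs hs2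
    exact hmain s ⟨hs, hs2⟩
  have himn : ∀ s ∈ UH, s.re < -(1 / 2) → (L N (b s)).im < 0 := by
    intro s hs h
    obtain ⟨h1, h2⟩ := hstar s hs
    have h3 := himp _ h1 (by simp; linarith)
    rw [h2] at h3
    simpa using h3
  exact ⟨hinj, hrefl, hnegp, hpos, hre0, himp, himn, him0⟩

end Crest.Agent.R102.H4
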