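import Mathlib

/-!
# Row 102, part (C), item [H4]: literal skeleton (helper490, paper: r102_doc C_H4_148)

One-dimensional statement: for `N > 1` real, `n = N/(N+1)`, `Q(y) = y^N (1-y)`, there is no germ
`G` at `s = oo`, `G(s) = F(1/s)`, `F` analytic at `0`, odd, real, `F'(0) = -g < 0`, with
`Q(n + G(s)) = Q(n - G(s+1))`.

We use `L(z) = N log z + log (1 - z)` on the upper half plane `UH`.
-/

open Complex Set Filter Topology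

noncomputable section

namespace Crest.Agent.R102.H4

/-- the upper half plane as a set of `ℂ` -/
def UH : Set ℂ := {z | 0 < z.im}

/-- `n = N/(N+1)` -/
def nn (N : ℝ) : ℝ := N / (N + 1)

/-- `L(z) = N log z + log (1 - z)` (principal logarithms) -/
def L (N : ℝ) (z : ℂ) : ℂ := (N : ℂ) * Complex.log z + Complex.log (1 - z)

/-- real version, `Real.log` is `log |.|`, so this is `log |Q(x)|` for all real `x` -/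
def ell (N x : ℝ) : ℝ := N * Real.log x + Real.log (1 - x)

/-- the slit strip `L '' UH` -/
def SS (N : ℝ) : Set ℂ :=
  {w | -Real.pi < w.im ∧ w.im < N * Real.pi ∧ (w.im = 0 → ell N (nn N) < w.re)}

/-- the input germ -/
structure Germ (N : ℝ) (F : ℂ → ℂ) : Prop where
  hN : 1 < N
  an : AnalyticAt ℂ F 0
  odd : ∀ᶠ t in 𝓝 (0 : ℂ), F (-t) = -F t
  real : ∀ᶠ t in 𝓝 (0 : ℂ), F ((starRingEnd ℂ) t) = (starRingEnd ℂ) (F t)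
  der : ∃ g : ℝ, 0 < g ∧ deriv F 0 = -(g : ℂ)
  eq : ∀ᶠ t in 𝓝 (0 : ℂ), L N ((nn N : ℂ) + F t) = L N ((nn N : ℂ) - F (t / (1 + t)))

/-- the facts on `G(s) = F(1/s)` for `|s| > ρ` which are used below -/
structure GF (N ρ : ℝ) (G : ℂ → ℂ) : Prop where
  hN : 1 < N
  hρ : 1 ≤ ρ
  an : DifferentiableOn ℂ G {s | ρ < ‖s‖}
  odd : ∀ s : ℂ, ρ < ‖s‖ → G (-s) = -G s
  real : ∀ s : ℂ, ρ < ‖s‖ → G ((starRingEnd ℂ) s) = (starRingEnd ℂ) (G s)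
  pos : ∀ s : ℂ, ρ < ‖s‖ → 0 < s.im → 0 < (G s).im
  inj : Set.InjOn G {s | ρ < ‖s‖}
  small : ∀ s : ℂ, ρ < ‖s‖ → ‖G s‖ < (1 - nn N) / 4
  lim : Tendsto G (cocompact ℂ) (𝓝 0)
  eq : ∀ s : ℂ, ρ < ‖s‖ → ρ < ‖s + 1‖ → L N ((nn N : ℂ) + G s) = L N ((nn N : ℂ) - G (s + 1))
  neg : ∀ x : ℝ, ρ < x → (G x).re < 0
  dpos : ∀ x : ℝ, ρ < x → 0 < (deriv G x).re
  dneg : ∀ x : ℝ, ρ < x → (deriv (deriv G) x).re < 0

/-- the analytic continuation of `b(s) = n + G(s)` to the upper half plane -/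
structure Cont (N ρ : ℝ) (G b : ℂ → ℂ) : Prop where
  an : DifferentiableOn ℂ b UH
  maps : ∀ s ∈ UH, b s ∈ UH
  ext : ∀ s ∈ UH, ρ < ‖s‖ → b s = (nn N : ℂ) + G s
  eq : ∀ s ∈ UH, L N (b s) = L N (2 * (nn N : ℂ) - b (s + 1))

/-- symmetry and sign facts of `b` -/
structure Sym (N : ℝ) (b : ℂ → ℂ) : Prop where
  inj : Set.InjOn b UH
  refl : ∀ s ∈ UH, b (-(starRingEnd ℂ) s) = 2 * (nn N : ℂ) - (starRingEnd ℂ) (b s)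
  re_neg : ∀ s ∈ UH, s.re < 0 → nn N < (b s).re
  re_pos : ∀ s ∈ UH, 0 < s.re → (b s).re < nn N
  re_zero : ∀ s ∈ UH, s.re = 0 → (b s).re = nn N
  im_pos : ∀ s ∈ UH, -(1 / 2) < s.re → 0 < (L N (b s)).im
  im_neg : ∀ s ∈ UH, s.re < -(1 / 2) → (L N (b s)).im < 0
  im_zero : ∀ s ∈ UH, s.re = -(1 / 2) → (L N (b s)).im = 0

/-- the data at the right end point `σ` of the cut (`b(σ+1) = 2n-1`) -/
structure End (N σ : ℝ) (b e : ℂ → ℂ) : Prop where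
  an : AnalyticAt ℂ e 0
  zero : e 0 = 0
  real : ∀ᶠ δ in 𝓝 (0 : ℂ), e ((starRingEnd ℂ) δ) = (starRingEnd ℂ) (e δ)
  d1 : ∃ e1 : ℝ, 0 < e1 ∧ deriv e 0 = (e1 : ℂ)
  d2 : ∃ e2 : ℝ, e2 < 0 ∧ deriv (deriv e) 0 = (e2 : ℂ)
  eq : ∀ᶠ δ in 𝓝[UH] (0 : ℂ), b ((σ : ℂ) + 1 + δ) = 2 * (nn N : ℂ) - 1 + e δ

/-! ## Leaves -/

/-- **H4-0**. Elementary facts near `oo`. -/
def Leaf0 : Prop := ∀ (N : ℝ) (F : ℂ → ℂ), Germ N F → ∃ ρ : ℝ, GF N ρ (fun s => F (1 / s))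

/-- **H4-1a**. `L` is univalent on `UH` (`Im L' < 0`), onto the slit strip. -/
def Leaf1a : Prop := ∀ N : ℝ, 1 < N →
  Set.InjOn (L N) UH ∧ (∀ z ∈ UH, L N z ∈ SS N) ∧ (∀ w ∈ SS N, ∃ z ∈ UH, L N z = w)

/-- **H4-1b**. Boundary behaviour of the inverse (filter form). -/
structure BdyB (N : ℝ) : Prop where
  /-- interior -/
  b1 : ∀ (l : Filter ℂ) (z : ℂ → ℂ) (z0 : ℂ), (∀ᶠ i in l, z i ∈ UH) → z0 ∈ UH →
    Tendsto (fun i => L N (z i)) l (𝓝 (L N z0)) → Tendsto z l (𝓝 z0)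
  /-- lower side of the strip: the values tend to a real number `r > 1` -/
  b2 : ∀ (l : Filter ℂ) (z : ℂ → ℂ) (w : ℂ), l.NeBot → (∀ᶠ i in l, z i ∈ UH) →
    w.im = -Real.pi → Tendsto (fun i => L N (z i)) l (𝓝 w) →
    ∃ r : ℝ, 1 < r ∧ ell N r = w.re ∧ Tendsto z l (𝓝 (r : ℂ))
  /-- slit from below: values tend to a real number in `(n,1)` -/
  b3 : ∀ (l : Filter ℂ) (z : ℂ → ℂ) (r : ℝ), (∀ᶠ i in l, z i ∈ UH) → nn N < r → r < 1 →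
    (∀ᶠ i in l, (L N (z i)).im < 0) →
    Tendsto (fun i => L N (z i)) l (𝓝 (ell N r : ℂ)) → Tendsto z l (𝓝 (r : ℂ))
  /-- slit from above: values tend to a real number in `(0,n)` -/
  b4 : ∀ (l : Filter ℂ) (z : ℂ → ℂ) (r : ℝ), (∀ᶠ i in l, z i ∈ UH) → 0 < r → r < nn N →
    (∀ᶠ i in l, 0 < (L N (z i)).im) →
    Tendsto (fun i => L N (z i)) l (𝓝 (ell N r : ℂ)) → Tendsto z l (𝓝 (r : ℂ))
  /-- `Re L → -oo`, `Im L > 0`: the values tend to `0` -/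
  b5 : ∀ (l : Filter ℂ) (z : ℂ → ℂ), (∀ᶠ i in l, z i ∈ UH) → (∀ᶠ i in l, 0 < (L N (z i)).im) →
    Tendsto (fun i => (L N (z i)).re) l atBot → Tendsto z l (𝓝 0)
  /-- `Re L → -oo`, `Im L < 0`: the values tend to `1` -/
  b6 : ∀ (l : Filter ℂ) (z : ℂ → ℂ), (∀ᶠ i in l, z i ∈ UH) → (∀ᶠ i in l, (L N (z i)).im < 0) →
    Tendsto (fun i => (L N (z i)).re) l atBot → Tendsto z l (𝓝 1)

def Leaf1b : Prop := ∀ N : ℝ, 1 < N → BdyB N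

/-- **H4-1c**. Signs of `Im L` near real boundary points, seen from `UH`
(for the lower half plane use `L (conj z) = conj (L z)`), and boundary values. -/
structure BdyS (N : ℝ) : Prop where
  /-- conjugation -/
  cj : ∀ z ∈ UH, L N ((starRingEnd ℂ) z) = (starRingEnd ℂ) (L N z)
  /-- near `0` -/
  s0 : ∀ᶠ z in 𝓝[UH] (0 : ℂ), 0 < (L N z).im
  s0' : Tendsto (fun z => (L N z).re) (𝓝[UH] (0 : ℂ)) atBot
  /-- near `x ∈ (0,n)` -/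
  s1 : ∀ x : ℝ, 0 < x → x < nn N → ∀ᶠ z in 𝓝[UH] (x : ℂ), 0 < (L N z).im
  /-- near `x ∈ (n,1)` -/
  s2 : ∀ x : ℝ, nn N < x → x < 1 → ∀ᶠ z in 𝓝[UH] (x : ℂ), (L N z).im < 0
  /-- near `1` -/
  s3 : ∀ᶠ z in 𝓝[UH] (1 : ℂ), (L N z).im < 0
  s3' : Tendsto (fun z => (L N z).re) (𝓝[UH] (1 : ℂ)) atBot
  /-- values on the real axis, limits from `UH` -/
  v1 : ∀ x : ℝ, 0 < x → x < 1 → Tendsto (L N) (𝓝[UH] (x : ℂ)) (𝓝 (ell N x : ℂ))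
  v2 : ∀ x : ℝ, 1 < x → Tendsto (L N) (𝓝[UH] (x : ℂ)) (𝓝 ((ell N x : ℂ) - Real.pi * I))
  v3 : ∀ x : ℝ, x < 0 → Tendsto (L N) (𝓝[UH] (x : ℂ)) (𝓝 ((ell N x : ℂ) + N * Real.pi * I))

def Leaf1c : Prop := ∀ N : ℝ, 1 < N → BdyS N

/-- **H4-2**. Analytic continuation to the upper half plane. -/
def Leaf2 : Prop := ∀ (N ρ : ℝ) (G : ℂ → ℂ), GF N ρ G → ∃ b : ℂ → ℂ, Cont N ρ G b

/-- **H4-2b**. Injectivity, reflection symmetry, signs. -/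
def Leaf2b : Prop := ∀ (N ρ : ℝ) (G b : ℂ → ℂ), GF N ρ G → Cont N ρ G b → Sym N b

/-- **H4-3**. The real line: right end point `σ` of the cut, concavity at `σ+1`. -/
def Leaf3 : Prop := ∀ (N ρ : ℝ) (G b : ℂ → ℂ), GF N ρ G → Cont N ρ G b →
  ∃ (σ : ℝ) (e : ℂ → ℂ), End N σ b e

/-- **H4-4a**. `b(σ+δ) → 0`, `b(σ-1+δ) → b₁`, `L(b₁) = ell(2n) + iπ`. -/
def Leaf4a : Prop := ∀ (N ρ σ : ℝ) (G b e : ℂ → ℂ), GF N ρ G → Cont N ρ G b → End N σ b e →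
  Tendsto (fun δ : ℂ => b ((σ : ℂ) + δ)) (𝓝[UH] 0) (𝓝 0) ∧
  ∃ b1 ∈ UH, L N b1 = (ell N (2 * nn N) : ℂ) + Real.pi * I ∧
    Tendsto (fun δ : ℂ => b ((σ : ℂ) - 1 + δ)) (𝓝[UH] 0) (𝓝 b1)

/-- conclusion of the chain leaf -/
structure Chain (N σ : ℝ) (M : ℕ) (b Ψ : ℂ → ℂ) : Prop where
  hM : 1 ≤ M
  hσ : 2 * σ = M
  an : AnalyticAt ℂ Ψ 0
  zero : Ψ 0 = 0
  der : deriv Ψ 0 ≠ 0
  eq : ∀ᶠ δ in 𝓝[UH] (0 : ℂ), 2 * (nn N : ℂ) - b ((σ : ℂ) - M + δ) = Ψ (b ((σ : ℂ) + δ))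

/-- **H4-4b**. The chain from the right end `σ` of the cut must close at `-σ`. -/
def Leaf4b : Prop := ∀ (N ρ σ : ℝ) (G b e : ℂ → ℂ), GF N ρ G → Cont N ρ G b → Sym N b →
  End N σ b e → ∃ (M : ℕ) (Ψ : ℂ → ℂ), Chain N σ M b Ψ

/-- **H4-5a**. Abstract non-integrality. -/
def Leaf5a : Prop := ∀ (N : ℝ) (A : ℂ → ℂ) (x : ℝ → ℂ) (c : ℝ), 0 < N → AnalyticAt ℂ A 0 → 0 < c →
  (∀ᶠ t in 𝓝[>] (0 : ℝ), x t ≠ 0) → Tendsto x (𝓝[>] 0) (𝓝 0) →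
  Tendsto (fun t => ‖A (x t)‖ / ‖x t‖ ^ N) (𝓝[>] 0) (𝓝 c) → ∃ m : ℕ, N = m

/-- **H4-5b**. Closed chain and concavity force `N` to be an integer. -/
def Leaf5b : Prop := ∀ (N ρ σ : ℝ) (G b e Ψ : ℂ → ℂ) (M : ℕ), GF N ρ G → Cont N ρ G b → Sym N b →
  End N σ b e → Chain N σ M b Ψ → ∃ m : ℕ, N = m

/-- **H4-6a**. `N ≥ 5`: `Re b₁ > n`. -/
def Leaf6a : Prop := ∀ (N : ℝ) (z : ℂ), 5 ≤ N → z ∈ UH →
  L N z = (ell N (2 * nn N) : ℂ) + Real.pi * I → nn N < z.re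

/-- **H4-6b**. `N = 3, 4`: `Re b₁ < n` and `Im L(2n - b₁) < 0`. -/
def Leaf6b : Prop := ∀ (N : ℝ) (z : ℂ), (N = 3 ∨ N = 4) → z ∈ UH →
  L N z = (ell N (2 * nn N) : ℂ) + Real.pi * I →
  z.re < nn N ∧ (L N (2 * (nn N : ℂ) - z)).im < 0

/-- **H4-6c**. `N = 2`: `Re b₂ < n`, `Im L(2n - b₂) < 0`, and `Im L(2n-b₁) > -π`. -/
def Leaf6c : Prop := ∀ (z z2 : ℂ), z ∈ UH → z2 ∈ UH →
  L 2 z = (ell 2 (2 * nn 2) : ℂ) + Real.pi * I → L 2 z2 = L 2 (2 * (nn 2 : ℂ) - z) →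
  z2.re < nn 2 ∧ (L 2 (2 * (nn 2 : ℂ) - z2)).im < 0

/-- **H4-6**. Integer `N ≥ 2` is impossible. -/
def Leaf6 : Prop := ∀ (N ρ σ : ℝ) (G b e Ψ : ℂ → ℂ) (M m : ℕ), GF N ρ G → Cont N ρ G b →
  Sym N b → End N σ b e → Chain N σ M b Ψ → N = m → False

/-- **H4** -/
def H4Stmt : Prop := ∀ (N : ℝ) (F : ℂ → ℂ), ¬ Germ N F

theorem h4_of_leaves (h0 : Leaf0) (h2 : Leaf2) (h2b : Leaf2b) (h3 : Leaf3) (h4b : Leaf4b)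
    (h5b : Leaf5b) (h6 : Leaf6) : H4Stmt := by
  intro N F hF
  obtain ⟨ρ, hG⟩ := h0 N F hF
  obtain ⟨b, hb⟩ := h2 N ρ _ hG
  have hs := h2b N ρ _ b hG hb
  obtain ⟨σ, e, he⟩ := h3 N ρ _ b hG hb
  obtain ⟨M, Ψ, hc⟩ := h4b N ρ σ _ b e hG hb hs he
  obtain ⟨m, hm⟩ := h5b N ρ σ _ b e Ψ M hG hb hs he hc
  exact h6 N ρ σ _ b e Ψ M m hG hb hs he hc hm

end Crest.Agent.R102.H4
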