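import Mathlib
import Crest.Agent.R102.H4Defs_490

/-!
# Row 102, [H4], leaf H4-3: the real line (helper377)
-/

set_option autoImplicit false

open Complex Set Filter Topology

noncomputable section

namespace Crest.Agent.R102.H4.L3

local notation "cj" => (starRingEnd ℂ)

/-! ## real-symmetric germs -/

lemma tendsto_conj0 : Tendsto (fun δ : ℂ => cj δ) (𝓝 0) (𝓝 0) := by
  have : Continuous fun δ : ℂ => cj δ := Complex.continuous_conj
  simpa using this.tendsto 0

/-- the derivative of a real-symmetric germ is real-symmetric -/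
lemma deriv_real {e : ℂ → ℂ} (hr : ∀ᶠ δ in 𝓝 (0 : ℂ), e (cj δ) = cj (e δ)) :
    ∀ᶠ δ in 𝓝 (0 : ℂ), deriv e (cj δ) = cj (deriv e δ) := by
  filter_upwards [hr.eventually_nhds] with δ hδ
  have h1 : deriv (cj ∘ e ∘ cj) (cj δ) = cj (deriv e δ) := by
    rw [deriv_conj_conj]; simp
  rw [← h1]
  have h2 : (cj ∘ e ∘ cj) =ᶠ[𝓝 (cj δ)] e := by
    have ht : Tendsto (fun z : ℂ => cj z) (𝓝 (cj δ)) (𝓝 δ) := by
      have := (Complex.continuous_conj).tendsto (cj δ)
      simpa using this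
    filter_upwards [ht.eventually hδ] with z hz
    simp only [Function.comp_apply]
    rw [← hz]; simp
  exact h2.symm.deriv_eq

lemma im_zero_of_real {e : ℂ → ℂ} (hr : ∀ᶠ δ in 𝓝 (0 : ℂ), e (cj δ) = cj (e δ)) :
    (e 0).im = 0 := by
  have := hr.self_of_nhds
  rw [map_zero] at this
  exact Complex.conj_eq_iff_im.1 this.symm

/-- a real-symmetric germ with positive derivative maps `UH` to `UH` -/
lemma maps_UH {e : ℂ → ℂ} {e1 : ℝ} (ha : AnalyticAt ℂ e 0)
    (hr : ∀ᶠ δ in 𝓝 (0 : ℂ), e (cj δ) = cj (e δ)) (h1 : 0 < e1) (hd : deriv e 0 = (e1 : ℂ)) :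
    ∀ᶠ δ in 𝓝[UH] (0 : ℂ), e δ ∈ UH := by
  have hs : HasStrictDerivAt e (e1 : ℂ) 0 := by
    rw [← hd]; exact ha.hasStrictDerivAt
  have hb := hs.isLittleO
  have hb' := hb.def (half_pos h1)
  -- points (δ, re δ)
  have ht : Tendsto (fun δ : ℂ => (δ, ((δ.re : ℝ) : ℂ))) (𝓝 0) (𝓝 ((0 : ℂ), (0 : ℂ))) := by
    have : Continuous fun δ : ℂ => (δ, ((δ.re : ℝ) : ℂ)) := by fun_prop
    simpa using this.tendsto 0
  have hre : ∀ᶠ δ in 𝓝 (0 : ℂ), (e ((δ.re : ℝ) : ℂ)).im = 0 := by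
    have ht2 : Tendsto (fun δ : ℂ => ((δ.re : ℝ) : ℂ)) (𝓝 0) (𝓝 0) := by
      have : Continuous fun δ : ℂ => ((δ.re : ℝ) : ℂ) := by fun_prop
      simpa using this.tendsto 0
    filter_upwards [ht2.eventually hr] with δ hδ
    rw [Complex.conj_ofReal] at hδ
    exact Complex.conj_eq_iff_im.1 hδ.symm
  have h2 := ht.eventually hb'
  rw [eventually_nhdsWithin_iff]
  filter_upwards [h2, hre] with δ h3 h4 h5
  simp only [UH, Set.mem_ofPred_eq] at h5 ⊢
  have h6 : δ - ((δ.re : ℝ) : ℂ) = (δ.im : ℂ) * I := by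
    apply Complex.ext <;> simp
  rw [h6] at h3
  have h7 : |((e δ - e ((δ.re : ℝ) : ℂ) - (δ.im : ℂ) * I • (e1 : ℂ)) : ℂ).im| ≤ e1 / 2 * δ.im := by
    refine (Complex.abs_im_le_norm _).trans ?_
    have : ‖(δ.im : ℂ) * I‖ = δ.im := by
      rw [norm_mul, Complex.norm_I, mul_one, Complex.norm_real, Real.norm_eq_abs, abs_of_pos h5]
    rw [this] at h3
    simpa [smul_eq_mul, mul_assoc] using h3
  have h8 : ((e δ - e ((δ.re : ℝ) : ℂ) - (δ.im : ℂ) * I • (e1 : ℂ)) : ℂ).im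
      = (e δ).im - δ.im * e1 := by
    simp [h4]
  rw [h8, abs_le] at h7
  nlinarith [h7.1]

/-! ## the function `L` near real points of `(0,1)` -/

/-- the complex derivative of `L` -/
def dL (N : ℝ) (y : ℂ) : ℂ := (N : ℂ) / y - 1 / (1 - y)

lemma hasDerivAt_L {N : ℝ} {y : ℂ} (h1 : y ∈ slitPlane) (h2 : 1 - y ∈ slitPlane) :
    HasDerivAt (L N) (dL N y) y := by
  have a1 : HasDerivAt Complex.log (y⁻¹) y := Complex.hasDerivAt_log h1
  have a2 : HasDerivAt (fun y : ℂ => Complex.log (1 - y)) ((-1) / (1 - y)) y := by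
    have : HasDerivAt (fun y : ℂ => 1 - y) (-1) y := by
      simpa using (hasDerivAt_id y).const_sub 1
    exact this.clog h2
  have := (a1.const_mul (N : ℂ)).add a2
  have e : dL N y = (N : ℂ) * y⁻¹ + -1 / (1 - y) := by
    unfold dL; ring
  rw [e]; exact this

lemma hasDerivAt_dL {N : ℝ} {y : ℂ} (h1 : y ≠ 0) (h2 : 1 - y ≠ 0) :
    HasDerivAt (dL N) (-(N : ℂ) / y ^ 2 - 1 / (1 - y) ^ 2) y := by
  have a1 : HasDerivAt (fun y : ℂ => (N : ℂ) / y) (-(N : ℂ) / y ^ 2) y := by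
    have := (hasDerivAt_inv h1).const_mul (N : ℂ)
    refine (this.congr_deriv (by ring)).congr_of_eventuallyEq
      (Eventually.of_forall fun y => by simp [div_eq_mul_inv])
  have a2 : HasDerivAt (fun y : ℂ => 1 / (1 - y)) (1 / (1 - y) ^ 2) y := by
    have h3 : HasDerivAt (fun y : ℂ => 1 - y) (-1) y := by
      simpa using (hasDerivAt_id y).const_sub 1
    have := h3.fun_inv h2
    refine (this.congr_deriv (by ring)).congr_of_eventuallyEq
      (Eventually.of_forall fun y => by simp)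
  exact a1.sub a2

lemma slit_near {z : ℝ} (h0 : 0 < z) (h1 : z < 1) :
    ∀ᶠ y in 𝓝 (z : ℂ), y ∈ slitPlane ∧ 1 - y ∈ slitPlane := by
  have a1 : (z : ℂ) ∈ slitPlane := by simp [slitPlane, h0]
  have a2 : 1 - (z : ℂ) ∈ slitPlane := by simp [slitPlane, h1]
  have b1 : ∀ᶠ y in 𝓝 (z : ℂ), y ∈ slitPlane := isOpen_slitPlane.mem_nhds a1
  have b2 : ∀ᶠ y in 𝓝 (z : ℂ), 1 - y ∈ slitPlane := by
    have : Continuous fun y : ℂ => 1 - y := by fun_prop
    exact this.tendsto (z : ℂ) (isOpen_slitPlane.mem_nhds a2)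
  exact b1.and b2

lemma analyticAt_L {N z : ℝ} (h0 : 0 < z) (h1 : z < 1) : AnalyticAt ℂ (L N) (z : ℂ) := by
  have : ∀ᶠ y in 𝓝 (z : ℂ), DifferentiableAt ℂ (L N) y :=
    (slit_near h0 h1).mono fun y hy => (hasDerivAt_L hy.1 hy.2).differentiableAt
  exact Complex.analyticAt_iff_eventually_differentiableAt.2 this

lemma L_real {N z : ℝ} (h0 : 0 < z) (h1 : z < 1) : L N (z : ℂ) = (ell N z : ℂ) := by
  have e1 : Complex.log (z : ℂ) = ((Real.log z : ℝ) : ℂ) := (Complex.ofReal_log h0.le).symm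
  have e2 : Complex.log (1 - (z : ℂ)) = ((Real.log (1 - z) : ℝ) : ℂ) := by
    have : (1 - (z : ℂ)) = ((1 - z : ℝ) : ℂ) := by push_cast; ring
    rw [this, ← Complex.ofReal_log (by linarith)]
  unfold L ell
  rw [e1, e2]; push_cast; ring

lemma L_conj {N : ℝ} {y : ℂ} (h1 : y ∈ slitPlane) (h2 : 1 - y ∈ slitPlane) :
    L N (cj y) = cj (L N y) := by
  unfold L
  have a1 : y.arg ≠ Real.pi := (Complex.mem_slitPlane_iff_arg.1 h1).1
  have a2 : (1 - y).arg ≠ Real.pi := (Complex.mem_slitPlane_iff_arg.1 h2).1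
  have e1 := Complex.log_conj y a1
  have e2 := Complex.log_conj (1 - y) a2
  have e3 : (1 : ℂ) - cj y = cj (1 - y) := by simp
  rw [e3, e1, e2]
  simp

lemma dL_real_ne {N z : ℝ} (hN : 1 < N) (h0 : 0 < z) (h1 : z < 1) (hn : z ≠ nn N) :
    N / z - 1 / (1 - z) ≠ 0 := by
  intro h
  apply hn
  have h1' : (1 - z) ≠ 0 := by linarith
  unfold nn
  field_simp at h
  field_simp
  linarith

lemma dL_ofReal {N z : ℝ} : dL N (z : ℂ) = ((N / z - 1 / (1 - z) : ℝ) : ℂ) := by
  unfold dL; push_cast; ring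

/-- local inverse of `L` near a real point -/
lemma exists_inv {N z : ℝ} (hN : 1 < N) (h0 : 0 < z) (h1 : z < 1) (hn : z ≠ nn N) :
    ∃ g : ℂ → ℂ, AnalyticAt ℂ g (ell N z : ℂ) ∧ g (ell N z : ℂ) = z ∧
      (∀ᶠ ζ in 𝓝 (ell N z : ℂ), L N (g ζ) = ζ) ∧ (∀ᶠ y in 𝓝 (z : ℂ), g (L N y) = y) := by
  have ha := analyticAt_L (N := N) h0 h1
  have hz1 : (z : ℂ) ∈ slitPlane := (slit_near h0 h1).self_of_nhds.1
  have hz2 : 1 - (z : ℂ) ∈ slitPlane := (slit_near h0 h1).self_of_nhds.2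
  have hd : deriv (L N) (z : ℂ) ≠ 0 := by
    rw [(hasDerivAt_L hz1 hz2).deriv, dL_ofReal]
    exact_mod_cast dL_real_ne hN h0 h1 hn
  refine ⟨ha.hasStrictDerivAt.localInverse _ _ _ hd, ?_, ?_, ?_, ?_⟩
  · rw [← L_real h0 h1]; exact ha.analyticAt_localInverse hd
  · rw [← L_real h0 h1]; exact HasStrictFDerivAt.localInverse_apply_image ..
  · rw [← L_real h0 h1]; exact ha.hasStrictDerivAt.eventually_right_inverse hd
  · exact ha.hasStrictDerivAt.eventually_left_inverse hd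

/-! ## real analysis of `ell` -/

lemma nn_bounds {N : ℝ} (hN : 1 < N) : 1 / 2 < nn N ∧ nn N < 1 := by
  unfold nn
  constructor
  · rw [lt_div_iff₀ (by linarith)]; linarith
  · rw [div_lt_one (by linarith)]; linarith

lemma nn_eq {N : ℝ} (hN : 1 < N) : N = (N + 1) * nn N := by
  unfold nn; field_simp

lemma hasDerivAt_ell {N y : ℝ} (h0 : 0 < y) (h1 : y < 1) :
    HasDerivAt (ell N) (N / y - 1 / (1 - y)) y := by
  have a1 : HasDerivAt Real.log (y⁻¹) y := Real.hasDerivAt_log h0.ne'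
  have a2 : HasDerivAt (fun y : ℝ => Real.log (1 - y)) ((-1) / (1 - y)) y := by
    have : HasDerivAt (fun y : ℝ => 1 - y) (-1) y := by
      simpa using (hasDerivAt_id y).const_sub 1
    exact this.log (by linarith)
  have := (a1.const_mul N).add a2
  exact this.congr_deriv (by ring)

/-- factored derivative -/
lemma phi_eq {N y : ℝ} (hN : 1 < N) (h0 : 0 < y) (h1 : y < 1) :
    N / y - 1 / (1 - y) = (N + 1) * (nn N - y) / (y * (1 - y)) := by
  have h2 : 1 - y ≠ 0 := by linarith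
  have h3 := nn_eq hN
  rw [div_sub_div _ _ h0.ne' h2]
  congr 1
  linear_combination h3

lemma ell_cont {N : ℝ} : ContinuousOn (ell N) (Ioo 0 1) := fun _ hy =>
  (hasDerivAt_ell hy.1 hy.2).continuousAt.continuousWithinAt

lemma ell_mono {N : ℝ} (hN : 1 < N) : StrictMonoOn (ell N) (Ioc 0 (nn N)) := by
  have hb := nn_bounds hN
  apply strictMonoOn_of_deriv_pos (convex_Ioc _ _)
  · exact ell_cont.mono fun y hy => ⟨hy.1, hy.2.trans_lt hb.2⟩
  · intro y hy
    rw [interior_Ioc] at hy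
    have h1 : y < 1 := hy.2.trans hb.2
    rw [(hasDerivAt_ell hy.1 h1).deriv, phi_eq hN hy.1 h1]
    have : 0 < 1 - y := by linarith
    have h2 : 0 < nn N - y := by linarith [hy.2]
    have h3 : 0 < y := hy.1
    positivity

lemma ell_anti {N : ℝ} (hN : 1 < N) : StrictAntiOn (ell N) (Ico (nn N) 1) := by
  have hb := nn_bounds hN
  apply strictAntiOn_of_deriv_neg (convex_Ico _ _)
  · exact ell_cont.mono fun y hy => ⟨by linarith [hy.1], hy.2⟩
  · intro y hy
    rw [interior_Ico] at hy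
    have h0 : 0 < y := by linarith [hy.1]
    rw [(hasDerivAt_ell h0 hy.2).deriv, phi_eq hN h0 hy.2]
    have h1 : 0 < 1 - y := by linarith [hy.2]
    have h2 : 0 < y - nn N := by linarith [hy.1]
    have h3 : (N + 1) * (nn N - y) / (y * (1 - y)) = -((N + 1) * (y - nn N) / (y * (1 - y))) := by
      ring
    rw [h3, neg_lt_zero]
    positivity

/-- `ell (n + t) < ell (n - t)` -/
lemma ell_refl {N t : ℝ} (hN : 1 < N) (h0 : 0 < t) (h1 : t < 1 - nn N) :
    ell N (nn N + t) < ell N (nn N - t) := by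
  have hb := nn_bounds hN
  have hd : ∀ u ∈ Ico (0 : ℝ) (1 - nn N), HasDerivAt (fun u => ell N (nn N - u) - ell N (nn N + u))
      (-(N / (nn N - u) - 1 / (1 - (nn N - u))) - (N / (nn N + u) - 1 / (1 - (nn N + u)))) u := by
    intro u hu
    have a1 : HasDerivAt (fun u : ℝ => nn N - u) (-1) u := by
      simpa using (hasDerivAt_id u).const_sub (nn N)
    have a2 : HasDerivAt (fun u : ℝ => nn N + u) 1 u := by
      simpa using (hasDerivAt_id u).const_add (nn N)
    have b1 := (hasDerivAt_ell (N := N) (y := nn N - u) (by linarith [hu.2]) (by linarith [hu.1]))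
    have b2 := (hasDerivAt_ell (N := N) (y := nn N + u) (by linarith [hu.1]) (by linarith [hu.2]))
    have c1 := b1.comp u a1
    have c2 := b2.comp u a2
    exact (c1.sub c2).congr_deriv (by ring)
  have hm : StrictMonoOn (fun u => ell N (nn N - u) - ell N (nn N + u)) (Ico 0 (1 - nn N)) := by
    apply strictMonoOn_of_deriv_pos (convex_Ico _ _)
    · exact fun u hu => (hd u hu).continuousAt.continuousWithinAt
    · intro u hu
      rw [interior_Ico] at hu
      rw [(hd u ⟨hu.1.le, hu.2⟩).deriv]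
      have ha0 : 0 < nn N - u := by linarith [hu.2]
      have ha1 : nn N - u < 1 := by linarith [hu.1]
      have hb0 : 0 < nn N + u := by linarith [hu.1]
      have hb1 : nn N + u < 1 := by linarith [hu.2]
      rw [phi_eq hN ha0 ha1, phi_eq hN hb0 hb1]
      have e : -((N + 1) * (nn N - (nn N - u)) / ((nn N - u) * (1 - (nn N - u)))) -
          (N + 1) * (nn N - (nn N + u)) / ((nn N + u) * (1 - (nn N + u))) =
          ((N + 1) * u) * (1 / ((nn N + u) * (1 - (nn N + u))) -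
            1 / ((nn N - u) * (1 - (nn N - u)))) := by ring
      rw [e]
      have h3 : 0 < (nn N + u) * (1 - (nn N + u)) := mul_pos hb0 (by linarith)
      have h4 : (nn N + u) * (1 - (nn N + u)) < (nn N - u) * (1 - (nn N - u)) := by
        nlinarith [hu.1, hb.1]
      have h5 := one_div_lt_one_div_of_lt h3 h4
      have h6 : 0 < (N + 1) * u := mul_pos (by linarith) hu.1
      exact mul_pos h6 (by linarith)
  have := hm (left_mem_Ico.2 (by linarith)) ⟨h0.le, h1⟩ h0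
  simp only [sub_zero, add_zero, sub_self] at this
  linarith

lemma ell_small {N : ℝ} (hN : 1 < N) (c : ℝ) : ∃ y, nn N < y ∧ y < 1 ∧ ell N y < c := by
  have hb := nn_bounds hN
  set ε := min ((1 - nn N) / 2) (Real.exp c / 2) with hε
  have h1 : 0 < ε := lt_min (by linarith) (by positivity)
  have h2 : ε ≤ (1 - nn N) / 2 := min_le_left _ _
  have h3 : ε < Real.exp c := (min_le_right _ _).trans_lt (by linarith [Real.exp_pos c])
  refine ⟨1 - ε, by linarith, by linarith, ?_⟩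
  unfold ell
  have h4 : Real.log (1 - ε) ≤ 0 := Real.log_nonpos (by linarith) (by linarith)
  have h5 : Real.log (1 - (1 - ε)) < c := by
    rw [sub_sub_cancel, Real.log_lt_iff_lt_exp h1]; exact h3
  nlinarith

/-- one step of the real recursion -/
lemma exists_step {N t : ℝ} (hN : 1 < N) (h0 : 0 < t) (h1 : t ≤ 1 - nn N) :
    ∃ t' : ℝ, 0 < t' ∧ t' < t ∧ t' < 1 - nn N ∧ ell N (nn N + t') = ell N (nn N - t) := by
  have hb := nn_bounds hN
  obtain ⟨y, hy1, hy2, hy3⟩ := ell_small hN (ell N (nn N - t))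
  have hlt : ell N (nn N - t) < ell N (nn N) :=
    ell_mono hN ⟨by linarith, by linarith⟩ ⟨by linarith, le_rfl⟩ (by linarith)
  have hc : ContinuousOn (ell N) (Icc (nn N) y) :=
    ell_cont.mono fun z hz => ⟨by linarith [hz.1], by linarith [hz.2]⟩
  obtain ⟨w, hw, hwe⟩ := intermediate_value_Ioo' hy1.le hc ⟨hy3, hlt⟩
  refine ⟨w - nn N, by linarith [hw.1], ?_, by linarith [hw.2], by rw [← hwe]; congr 1; ring⟩
  by_contra hcon
  push Not at hcon
  have h2 : t < 1 - nn N := by linarith [hw.2]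
  have h3 := ell_refl hN h0 h2
  have h4 : ell N w ≤ ell N (nn N + t) :=
    (ell_anti hN).antitoneOn ⟨by linarith, by linarith⟩ ⟨by linarith [hw.1], by linarith [hw.2]⟩
      (by linarith)
  linarith

/-- the real orbit -/
lemma exists_orbit {N : ℝ} (hN : 1 < N) : ∃ t : ℕ → ℝ, t 0 = 1 - nn N ∧ (∀ k, 0 < t k) ∧
    (∀ k, t (k + 1) < t k) ∧ (∀ k, t (k + 1) < 1 - nn N) ∧
    (∀ k, ell N (nn N + t (k + 1)) = ell N (nn N - t k)) ∧
    (∀ η : ℝ, 0 < η → ∃ k, t k < η) := by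
  have hb := nn_bounds hN
  let S := {t : ℝ // 0 < t ∧ t ≤ 1 - nn N}
  choose F hF using fun s : S => exists_step hN s.2.1 s.2.2
  let F' : S → S := fun s => ⟨F s, (hF s).1, (hF s).2.2.1.le⟩
  let s0 : S := ⟨1 - nn N, by linarith, le_rfl⟩
  let t : ℕ → ℝ := fun k => ((F'^[k] s0 : S) : ℝ)
  have hstep : ∀ k, t (k + 1) = F (F'^[k] s0) := by
    intro k
    simp only [t, Function.iterate_succ', Function.comp_apply, F']
  have hpos : ∀ k, 0 < t k := fun k => (F'^[k] s0).2.1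
  have hlt : ∀ k, t (k + 1) < t k := fun k => by rw [hstep k]; exact (hF _).2.1
  have hlt1 : ∀ k, t (k + 1) < 1 - nn N := fun k => by rw [hstep k]; exact (hF _).2.2.1
  have he : ∀ k, ell N (nn N + t (k + 1)) = ell N (nn N - t k) := fun k => by
    rw [hstep k]; exact (hF _).2.2.2
  refine ⟨t, rfl, hpos, hlt, hlt1, he, ?_⟩
  intro η hη
  by_contra hcon
  push Not at hcon
  have hanti : Antitone t := antitone_nat_of_succ_le fun k => (hlt k).le
  have hbdd : BddBelow (range t) := ⟨η, by rintro _ ⟨k, rfl⟩; exact hcon k⟩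
  have hlim := tendsto_atTop_ciInf hanti hbdd
  set τ := ⨅ k, t k with hτ
  have hτη : η ≤ τ := le_ciInf hcon
  have hτ1 : τ < 1 - nn N := (ciInf_le hbdd 1).trans_lt (hlt1 0)
  have hlim1 : Tendsto (fun k => t (k + 1)) atTop (𝓝 τ) := hlim.comp (tendsto_add_atTop_nat 1)
  have c1 : ContinuousAt (ell N) (nn N + τ) :=
    (hasDerivAt_ell (by linarith) (by linarith)).continuousAt
  have c2 : ContinuousAt (ell N) (nn N - τ) :=
    (hasDerivAt_ell (by linarith) (by linarith)).continuousAt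
  have l1 : Tendsto (fun k => ell N (nn N + t (k + 1))) atTop (𝓝 (ell N (nn N + τ))) :=
    c1.tendsto.comp (hlim1.const_add _)
  have l2 : Tendsto (fun k => ell N (nn N - t k)) atTop (𝓝 (ell N (nn N - τ))) :=
    c2.tendsto.comp (hlim.const_sub _)
  have l3 : Tendsto (fun k => ell N (nn N + t (k + 1))) atTop (𝓝 (ell N (nn N - τ))) := by
    simpa only [he] using l2
  have := tendsto_nhds_unique l1 l3
  have h2 := ell_refl hN (hη.trans_le hτη) hτ1
  linarith

/-! ## germs of `b` at real points -/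

/-- `e` is the germ of `b` at the real point `x`, with real value `v` -/
structure PG (x v : ℝ) (b e : ℂ → ℂ) : Prop where
  an : AnalyticAt ℂ e 0
  val : e 0 = (v : ℂ)
  real : ∀ᶠ δ in 𝓝 (0 : ℂ), e (cj δ) = cj (e δ)
  d1 : ∃ e1 : ℝ, 0 < e1 ∧ deriv e 0 = (e1 : ℂ)
  d2 : ∃ e2 : ℝ, e2 < 0 ∧ deriv (deriv e) 0 = (e2 : ℂ)
  eq : ∀ᶠ δ in 𝓝[UH] (0 : ℂ), b ((x : ℂ) + δ) = e δ

/-- the real computation of the second derivative -/
lemma second_neg {N z w e1 e2 f1 f2 : ℝ} (hN : 1 < N) (hz0 : 0 < z) (hz : z < nn N)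
    (hw : nn N < w) (hw1 : w < 1) (hzw : w - nn N < nn N - z) (he1 : 0 < e1) (he2 : e2 < 0)
    (hf1 : (N / z - 1 / (1 - z)) * f1 = -(N / w - 1 / (1 - w)) * e1)
    (hf2 : (-N / z ^ 2 - 1 / (1 - z) ^ 2) * f1 ^ 2 + (N / z - 1 / (1 - z)) * f2 =
      (-N / w ^ 2 - 1 / (1 - w) ^ 2) * e1 ^ 2 - (N / w - 1 / (1 - w)) * e2) :
    0 < f1 ∧ f2 < 0 := by
  have hb := nn_bounds hN
  have hn := nn_eq hN
  have hz1 : z < 1 := by linarith
  have hw0 : 0 < w := by linarith
  set A := N / z - 1 / (1 - z) with hA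
  set B := N / w - 1 / (1 - w) with hB
  have hAe : A = (N + 1) * (nn N - z) / (z * (1 - z)) := phi_eq hN hz0 hz1
  have hBe : B = (N + 1) * (nn N - w) / (w * (1 - w)) := phi_eq hN hw0 hw1
  have p1 : 0 < 1 - z := by linarith
  have p2 : 0 < 1 - w := by linarith
  have p3 : 0 < nn N - z := by linarith
  have p4 : 0 < w - nn N := by linarith
  have hA0 : 0 < A := by rw [hAe]; positivity
  have hB0 : B < 0 := by
    rw [hBe]
    have h3 : (N + 1) * (nn N - w) / (w * (1 - w)) = -((N + 1) * (w - nn N) / (w * (1 - w))) := by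
      ring
    rw [h3, neg_lt_zero]
    positivity
  have hf1' : 0 < f1 := by
    have : 0 < A * f1 := by rw [hf1]; nlinarith
    exact (pos_iff_pos_of_mul_pos this).1 hA0
  refine ⟨hf1', ?_⟩
  -- second derivatives of `ell`
  set A' := -N / z ^ 2 - 1 / (1 - z) ^ 2 with hA'
  set B' := -N / w ^ 2 - 1 / (1 - w) ^ 2 with hB'
  -- A' / A ^ 2 formula
  have key : ∀ y : ℝ, 0 < y → y < 1 → y ≠ nn N → (-N / y ^ 2 - 1 / (1 - y) ^ 2) =
      -(nn N + (N + 1) * (y - nn N) ^ 2) / ((N + 1) ^ 2 * (y - nn N) ^ 2) *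
        (N / y - 1 / (1 - y)) ^ 2 := by
    intro y h0 h1 hne
    rw [phi_eq hN h0 h1]
    have q1 : y - nn N ≠ 0 := sub_ne_zero.2 hne
    have q2 : (1 - y) ≠ 0 := by linarith
    have q3 : N + 1 ≠ 0 := by linarith
    have e1 : -(nn N + (N + 1) * (y - nn N) ^ 2) / ((N + 1) ^ 2 * (y - nn N) ^ 2) *
        ((N + 1) * (nn N - y) / (y * (1 - y))) ^ 2 =
        -(nn N + (N + 1) * (y - nn N) ^ 2) / (y ^ 2 * (1 - y) ^ 2) := by
      field_simp
      ring
    rw [e1, div_sub_div _ _ (pow_ne_zero 2 h0.ne') (pow_ne_zero 2 q2)]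
    congr 1
    linear_combination (2 * y - 1 - nn N) * hn
  have kA : A' = _ := key z hz0 hz1 hz.ne
  have kB : B' = _ := key w hw0 hw1 hw.ne'
  rw [← hA] at kA
  rw [← hB] at kB
  -- compare
  have hsq : (w - nn N) ^ 2 < (z - nn N) ^ 2 := by nlinarith
  have hw2 : 0 < (w - nn N) ^ 2 := by positivity
  have hz2 : 0 < (z - nn N) ^ 2 := by linarith
  have hr : ∀ u : ℝ, 0 < u → -(nn N + (N + 1) * u) / ((N + 1) ^ 2 * u) =
      -(nn N / (N + 1) ^ 2) * (1 / u) - 1 / (N + 1) := by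
    intro u hu
    have q3 : N + 1 ≠ 0 := by linarith
    field_simp
    ring
  rw [hr _ hz2] at kA
  rw [hr _ hw2] at kB
  have hinv := one_div_lt_one_div_of_lt hw2 hsq
  have hc : 0 < nn N / (N + 1) ^ 2 := div_pos (by linarith) (by positivity)
  have e3 : A ^ 2 * f1 ^ 2 = B ^ 2 * e1 ^ 2 := by
    have : (A * f1) ^ 2 = (-B * e1) ^ 2 := by rw [hf1]
    linear_combination this
  have e4 : A' * f1 ^ 2 = (-(nn N / (N + 1) ^ 2) * (1 / (z - nn N) ^ 2) - 1 / (N + 1)) *
      (B ^ 2 * e1 ^ 2) := by rw [kA, ← e3]; ring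
  have e5 : B' * e1 ^ 2 = (-(nn N / (N + 1) ^ 2) * (1 / (w - nn N) ^ 2) - 1 / (N + 1)) *
      (B ^ 2 * e1 ^ 2) := by rw [kB]; ring
  have hpos : 0 < B ^ 2 * e1 ^ 2 := by
    have : B ≠ 0 := hB0.ne
    positivity
  have e6 : A * f2 = -(nn N / (N + 1) ^ 2) * (1 / (w - nn N) ^ 2 - 1 / (z - nn N) ^ 2) *
      (B ^ 2 * e1 ^ 2) - B * e2 := by
    have : A * f2 = B' * e1 ^ 2 - B * e2 - A' * f1 ^ 2 := by linarith
    rw [this, e4, e5]; ring
  have e7 : A * f2 < 0 := by
    rw [e6]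
    have h1 : 0 < nn N / (N + 1) ^ 2 * (1 / (w - nn N) ^ 2 - 1 / (z - nn N) ^ 2) *
      (B ^ 2 * e1 ^ 2) := mul_pos (mul_pos hc (by linarith)) hpos
    have h2 : 0 < B * e2 := mul_pos_of_neg_of_neg hB0 he2
    have h3 : -(nn N / (N + 1) ^ 2) * (1 / (w - nn N) ^ 2 - 1 / (z - nn N) ^ 2) *
      (B ^ 2 * e1 ^ 2) = -(nn N / (N + 1) ^ 2 * (1 / (w - nn N) ^ 2 - 1 / (z - nn N) ^ 2) *
      (B ^ 2 * e1 ^ 2)) := by ring
    rw [h3]; linarith
  by_contra hcon
  push Not at hcon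
  exact absurd e7 (not_lt.2 (mul_nonneg hA0.le hcon))

/-- one step of the continuation to the left along the real line -/
lemma step {N ρ : ℝ} {G b : ℂ → ℂ} (hN : 1 < N) (hinj : InjOn (L N) UH) (hb : Cont N ρ G b)
    {x w z : ℝ} (hz0 : 0 < z) (hz : z < nn N) (hw : nn N < w) (hw1 : w < 1)
    (hzw : w - nn N < nn N - z) (hell : ell N w = ell N z) {e : ℂ → ℂ}
    (he : PG (x + 1) (2 * nn N - w) b e) : ∃ f : ℂ → ℂ, PG x z b f := by
  have hbd := nn_bounds hN
  have hz1 : z < 1 := by linarith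
  have hw0 : 0 < w := by linarith
  obtain ⟨g, hga, hgv, hgr, hgl⟩ := exists_inv hN hz0 hz1 hz.ne
  set p : ℂ → ℂ := fun δ => 2 * (nn N : ℂ) - e δ with hp
  have hp0 : p 0 = (w : ℂ) := by
    simp only [hp, he.val]; push_cast; ring
  have hpa : AnalyticAt ℂ p 0 := analyticAt_const.sub he.an
  have hpt : Tendsto p (𝓝 0) (𝓝 (w : ℂ)) := by
    have := hpa.continuousAt.tendsto
    rwa [hp0] at this
  have hLp0 : L N (p 0) = (ell N z : ℂ) := by rw [hp0, L_real hw0 hw1, hell]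
  have hLa : AnalyticAt ℂ (fun δ => L N (p δ)) 0 := by
    have : AnalyticAt ℂ (L N) (p 0) := by rw [hp0]; exact analyticAt_L hw0 hw1
    exact this.comp hpa
  have hLt : Tendsto (fun δ => L N (p δ)) (𝓝 0) (𝓝 (ell N z : ℂ)) := by
    have := hLa.continuousAt.tendsto
    rwa [hLp0] at this
  set f : ℂ → ℂ := fun δ => g (L N (p δ)) with hf
  have hfa : AnalyticAt ℂ f 0 := by
    have : AnalyticAt ℂ g (L N (p 0)) := by rw [hLp0]; exact hga
    exact AnalyticAt.comp (g := g) (f := fun δ => L N (p δ)) this hLa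
  have hf0 : f 0 = (z : ℂ) := by simp only [hf, hLp0, hgv]
  have hft : Tendsto f (𝓝 0) (𝓝 (z : ℂ)) := by
    have := hfa.continuousAt.tendsto
    rwa [hf0] at this
  have hLf : ∀ᶠ δ in 𝓝 (0 : ℂ), L N (f δ) = L N (p δ) := hLt.eventually hgr
  -- reality
  have hgreal : ∀ᶠ ζ in 𝓝 (ell N z : ℂ), g (cj ζ) = cj (g ζ) := by
    have hgt : Tendsto g (𝓝 (ell N z : ℂ)) (𝓝 (z : ℂ)) := by
      have := hga.continuousAt.tendsto
      rwa [hgv] at this
    have hct : Tendsto (fun y : ℂ => cj y) (𝓝 (z : ℂ)) (𝓝 (z : ℂ)) := by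
      have := (Complex.continuous_conj).tendsto (z : ℂ)
      simpa using this
    filter_upwards [hgr, (hct.comp hgt).eventually hgl, hgt.eventually (slit_near hz0 hz1)]
      with ζ h1 h2 h3
    simp only [Function.comp_apply] at h2
    rw [L_conj h3.1 h3.2, h1] at h2
    exact h2
  have hfreal : ∀ᶠ δ in 𝓝 (0 : ℂ), f (cj δ) = cj (f δ) := by
    filter_upwards [hLt.eventually hgreal, he.real, hpt.eventually (slit_near hw0 hw1)]
      with δ h1 h2 h3
    have h4 : p (cj δ) = cj (p δ) := by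
      simp only [hp, h2, map_sub, map_mul, Complex.conj_ofReal, map_ofNat]
    simp only [hf]
    rw [h4, L_conj h3.1 h3.2, h1]
  -- derivatives
  obtain ⟨e1, he1, he1'⟩ := he.d1
  obtain ⟨e2, he2, he2'⟩ := he.d2
  have hfd : ∀ᶠ δ in 𝓝 (0 : ℂ), DifferentiableAt ℂ f δ :=
    hfa.eventually_analyticAt.mono fun z hz => hz.differentiableAt
  have hed : ∀ᶠ δ in 𝓝 (0 : ℂ), DifferentiableAt ℂ e δ :=
    he.an.eventually_analyticAt.mono fun z hz => hz.differentiableAt
  have hder : ∀ᶠ δ in 𝓝 (0 : ℂ), dL N (f δ) * deriv f δ = -(dL N (p δ) * deriv e δ) := by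
    filter_upwards [hLf.eventually_nhds, hfd, hed, hft.eventually (slit_near hz0 hz1),
      hpt.eventually (slit_near hw0 hw1)] with δ h1 h2 h3 h4 h5
    have d1 : HasDerivAt (fun δ => L N (f δ)) (dL N (f δ) * deriv f δ) δ :=
      (hasDerivAt_L h4.1 h4.2).comp δ h2.hasDerivAt
    have d3 : HasDerivAt p (-deriv e δ) δ := h3.hasDerivAt.const_sub _
    have d2 : HasDerivAt (fun δ => L N (p δ)) (dL N (p δ) * (-deriv e δ)) δ :=
      (hasDerivAt_L h5.1 h5.2).comp δ d3
    have := (d1.congr_of_eventuallyEq (h1.mono fun _ h => h.symm)).unique d2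
    rw [this]; ring
  have hfdr := deriv_real hfreal
  obtain ⟨f1, hf1⟩ : ∃ f1 : ℝ, deriv f 0 = (f1 : ℂ) :=
    ⟨(deriv f 0).re, Complex.ext (by simp) (by simp [im_zero_of_real hfdr])⟩
  obtain ⟨f2, hf2⟩ : ∃ f2 : ℝ, deriv (deriv f) 0 = (f2 : ℂ) :=
    ⟨(deriv (deriv f) 0).re, Complex.ext (by simp)
      (by simp [im_zero_of_real (deriv_real hfdr)])⟩
  have hz1' : (z : ℂ) ≠ 0 := by exact_mod_cast hz0.ne'
  have hz2' : 1 - (z : ℂ) ≠ 0 := by
    have : (1 - z) ≠ 0 := by linarith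
    exact_mod_cast this
  have hw1' : (w : ℂ) ≠ 0 := by exact_mod_cast hw0.ne'
  have hw2' : 1 - (w : ℂ) ≠ 0 := by
    have : (1 - w) ≠ 0 := by linarith
    exact_mod_cast this
  have eq1 : (N / z - 1 / (1 - z)) * f1 = -(N / w - 1 / (1 - w)) * e1 := by
    have := hder.self_of_nhds
    rw [hf0, hp0, dL_ofReal, dL_ofReal, hf1, he1'] at this
    have h2 : (((N / z - 1 / (1 - z)) * f1 : ℝ) : ℂ) = ((-(N / w - 1 / (1 - w)) * e1 : ℝ) : ℂ) := by
      rw [Complex.ofReal_mul, this]; push_cast; ring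
    exact_mod_cast h2
  have eq2 : (-N / z ^ 2 - 1 / (1 - z) ^ 2) * f1 ^ 2 + (N / z - 1 / (1 - z)) * f2 =
      (-N / w ^ 2 - 1 / (1 - w) ^ 2) * e1 ^ 2 - (N / w - 1 / (1 - w)) * e2 := by
    have hdf : HasDerivAt f (f1 : ℂ) 0 := by
      rw [← hf1]; exact hfa.differentiableAt.hasDerivAt
    have hde : HasDerivAt e (e1 : ℂ) 0 := by
      rw [← he1']; exact he.an.differentiableAt.hasDerivAt
    have hddf : HasDerivAt (deriv f) (f2 : ℂ) 0 := by
      rw [← hf2]; exact hfa.deriv.differentiableAt.hasDerivAt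
    have hdde : HasDerivAt (deriv e) (e2 : ℂ) 0 := by
      rw [← he2']; exact he.an.deriv.differentiableAt.hasDerivAt
    have hdp : HasDerivAt p (-(e1 : ℂ)) 0 := hde.const_sub _
    have a1 : HasDerivAt (fun δ => dL N (f δ))
        ((-(N : ℂ) / (z : ℂ) ^ 2 - 1 / (1 - (z : ℂ)) ^ 2) * f1) 0 := by
      have := hasDerivAt_dL (N := N) hz1' hz2'
      rw [← hf0] at this
      have := this.comp (0 : ℂ) hdf
      rw [hf0] at this
      exact this
    have a2 : HasDerivAt (fun δ => dL N (p δ))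
        ((-(N : ℂ) / (w : ℂ) ^ 2 - 1 / (1 - (w : ℂ)) ^ 2) * (-(e1 : ℂ))) 0 := by
      have := hasDerivAt_dL (N := N) hw1' hw2'
      rw [← hp0] at this
      have := this.comp (0 : ℂ) hdp
      rw [hp0] at this
      exact this
    have b1 := a1.mul hddf
    have b2 := (a2.mul hdde).neg
    have hder' : (fun δ => dL N (f δ) * deriv f δ) =ᶠ[𝓝 0]
      (fun δ => -(dL N (p δ) * deriv e δ)) := hder
    have := (b1.congr_of_eventuallyEq hder'.symm).unique b2
    rw [hf0, hp0, dL_ofReal, dL_ofReal, hf1, he1'] at this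
    have h2 : (((-N / z ^ 2 - 1 / (1 - z) ^ 2) * f1 ^ 2 + (N / z - 1 / (1 - z)) * f2 : ℝ) : ℂ) =
        (((-N / w ^ 2 - 1 / (1 - w) ^ 2) * e1 ^ 2 - (N / w - 1 / (1 - w)) * e2 : ℝ) : ℂ) := by
      push_cast
      push_cast at this
      linear_combination this
    exact_mod_cast h2
  obtain ⟨hf1p, hf2n⟩ := second_neg hN hz0 hz hw hw1 hzw he1 he2 eq1 eq2
  have hfUH := maps_UH hfa hfreal hf1p hf1
  refine ⟨f, hfa, hf0, hfreal, ⟨f1, hf1p, hf1⟩, ⟨f2, hf2n, hf2⟩, ?_⟩
  filter_upwards [hfUH, he.eq, nhdsWithin_le_nhds hLf, self_mem_nhdsWithin] with δ h1 h2 h3 h4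
  have hs : (x : ℂ) + δ ∈ UH := by
    simp only [UH, Set.mem_ofPred_eq] at h4 ⊢
    simpa using h4
  apply hinj (hb.maps _ hs) h1
  rw [hb.eq _ hs, h3]
  have : (x : ℂ) + δ + 1 = ((x + 1 : ℝ) : ℂ) + δ := by push_cast; ring
  rw [this, h2]

/-- the germ of `b` at a real point beyond `ρ` -/
lemma base {N ρ : ℝ} {G b : ℂ → ℂ} (hG : GF N ρ G) (hb : Cont N ρ G b) {x : ℝ} (hx : ρ < x) :
    PG x (nn N + (G x).re) b (fun δ => (nn N : ℂ) + G ((x : ℂ) + δ)) := by
  have hρ := hG.hρ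
  have hx0 : 0 < x := by linarith
  have hopen : IsOpen {s : ℂ | ρ < ‖s‖} := isOpen_lt continuous_const continuous_norm
  have hxm : (x : ℂ) ∈ {s : ℂ | ρ < ‖s‖} := by
    simp only [Set.mem_ofPred_eq, Complex.norm_real, Real.norm_eq_abs, abs_of_pos hx0]; exact hx
  have hGa : ∀ s : ℂ, ρ < ‖s‖ → AnalyticAt ℂ G s := fun s hs =>
    (hG.an.analyticOnNhd hopen) s hs
  have hGx := hGa _ hxm
  have hGxr : (G x).im = 0 := by
    have := hG.real x hxm
    rw [Complex.conj_ofReal] at this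
    exact Complex.conj_eq_iff_im.1 this.symm
  have hshift : AnalyticAt ℂ (fun δ : ℂ => (x : ℂ) + δ) 0 := analyticAt_const.add analyticAt_id
  have hea : AnalyticAt ℂ (fun δ => (nn N : ℂ) + G ((x : ℂ) + δ)) 0 := by
    have : AnalyticAt ℂ G ((fun δ : ℂ => (x : ℂ) + δ) 0) := by simpa using hGx
    exact analyticAt_const.add (AnalyticAt.comp (g := G) (f := fun δ : ℂ => (x : ℂ) + δ) this hshift)
  have hst : Tendsto (fun δ : ℂ => (x : ℂ) + δ) (𝓝 0) (𝓝 (x : ℂ)) := by
    have := hshift.continuousAt.tendsto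
    simpa using this
  have hmem : ∀ᶠ δ in 𝓝 (0 : ℂ), ρ < ‖(x : ℂ) + δ‖ := hst.eventually (hopen.mem_nhds hxm)
  have hreal : ∀ᶠ δ in 𝓝 (0 : ℂ), (fun δ => (nn N : ℂ) + G ((x : ℂ) + δ)) (cj δ) =
      cj ((fun δ => (nn N : ℂ) + G ((x : ℂ) + δ)) δ) := by
    filter_upwards [hmem] with δ hδ
    have := hG.real _ hδ
    simp only [map_add, Complex.conj_ofReal] at this ⊢
    rw [this]
  have hd : ∀ᶠ δ in 𝓝 (0 : ℂ), deriv (fun δ => (nn N : ℂ) + G ((x : ℂ) + δ)) δ =
      deriv G ((x : ℂ) + δ) := by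
    filter_upwards [hmem] with δ hδ
    have h1 : HasDerivAt (fun δ : ℂ => (x : ℂ) + δ) 1 δ := by
      simpa using (hasDerivAt_id δ).const_add (x : ℂ)
    have h2 := (hGa _ hδ).differentiableAt.hasDerivAt
    have h3 := (h2.comp δ h1).const_add (nn N : ℂ)
    simpa using h3.deriv
  have hd0 : deriv (fun δ => (nn N : ℂ) + G ((x : ℂ) + δ)) 0 = deriv G (x : ℂ) := by
    simpa using hd.self_of_nhds
  have hdd0 : deriv (deriv (fun δ => (nn N : ℂ) + G ((x : ℂ) + δ))) 0 =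
      deriv (deriv G) (x : ℂ) := by
    have e1 : deriv (fun δ => (nn N : ℂ) + G ((x : ℂ) + δ)) =ᶠ[𝓝 0]
      fun δ => deriv G ((x : ℂ) + δ) := hd
    rw [e1.deriv_eq]
    have h1 : HasDerivAt (fun δ : ℂ => (x : ℂ) + δ) 1 0 := by
      simpa using (hasDerivAt_id (0 : ℂ)).const_add (x : ℂ)
    have h2 : HasDerivAt (deriv G) (deriv (deriv G) ((x : ℂ) + 0)) ((x : ℂ) + 0) := by
      simpa using hGx.deriv.differentiableAt.hasDerivAt
    have h3 := h2.comp (0 : ℂ) h1
    simpa [Function.comp_def] using h3.deriv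
  have hr1 := deriv_real (e := fun δ => (nn N : ℂ) + G ((x : ℂ) + δ)) hreal
  have hr2 := deriv_real hr1
  have i1 := im_zero_of_real hr1
  have i2 := im_zero_of_real hr2
  refine ⟨hea, ?_, hreal, ⟨(deriv G x).re, hG.dpos x hx, ?_⟩,
    ⟨(deriv (deriv G) x).re, hG.dneg x hx, ?_⟩, ?_⟩
  · apply Complex.ext <;> simp [hGxr]
  · rw [hd0] at i1 ⊢
    exact Complex.ext (by simp) (by simp [i1])
  · rw [hdd0] at i2 ⊢
    exact Complex.ext (by simp) (by simp [i2])
  · filter_upwards [nhdsWithin_le_nhds hmem, self_mem_nhdsWithin] with δ h1 h2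
    have hs : (x : ℂ) + δ ∈ UH := by
      simp only [UH, Set.mem_ofPred_eq] at h2 ⊢
      simpa using h2
    exact hb.ext _ hs h1

/-- **H4-3** -/
theorem leaf3 (h1a : Leaf1a) : Leaf3 := by
  intro N ρ G b hG hb
  have hN := hG.hN
  have hρ := hG.hρ
  have hbd := nn_bounds hN
  have hinj := (h1a N hN).1
  obtain ⟨t, ht0, htp, htl, htl1, hte, hts⟩ := exists_orbit hN
  -- a real function
  set u : ℝ → ℝ := fun x => nn N + (G x).re with hu
  have hcont : ContinuousOn u (Ioi ρ) := by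
    intro x hx
    have hx0 : 0 < x := by have : ρ < x := hx; linarith
    have hopen : IsOpen {s : ℂ | ρ < ‖s‖} := isOpen_lt continuous_const continuous_norm
    have hxm : (x : ℂ) ∈ {s : ℂ | ρ < ‖s‖} := by
      simp only [Set.mem_ofPred_eq, Complex.norm_real, Real.norm_eq_abs, abs_of_pos hx0]; exact hx
    have h1 : ContinuousAt G (x : ℂ) := (hG.an.differentiableAt (hopen.mem_nhds hxm)).continuousAt
    have h2 : ContinuousAt (fun x : ℝ => G (x : ℂ)) x :=
      ContinuousAt.comp (f := fun x : ℝ => (x : ℂ)) h1 Complex.continuous_ofReal.continuousAt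
    have h3 : ContinuousAt (fun x : ℝ => (G (x : ℂ)).re) x :=
      Complex.continuous_re.continuousAt.comp h2
    exact (continuousAt_const.add h3).continuousWithinAt
  have hlim : Tendsto u atTop (𝓝 (nn N)) := by
    have h1 : Tendsto (fun x : ℝ => (x : ℂ)) atTop (cocompact ℂ) := by
      rw [← Metric.cobounded_eq_cocompact, ← tendsto_norm_atTop_iff_cobounded]
      simp only [Complex.norm_real]
      exact tendsto_norm_atTop_atTop
    have h2 : Tendsto (fun x : ℝ => (G (x : ℂ)).re) atTop (𝓝 0) := by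
      have := (Complex.continuous_re.tendsto 0).comp (hG.lim.comp h1)
      simpa [Function.comp_def] using this
    simpa [hu] using h2.const_add (nn N)
  have hu1 : u (ρ + 1) < nn N := by
    have := hG.neg (ρ + 1) (by linarith)
    simp only [hu]; push_cast at this ⊢; linarith
  obtain ⟨K, hK⟩ := hts (nn N - u (ρ + 1)) (by linarith)
  have hlt : nn N - t K < nn N := by linarith [htp K]
  obtain ⟨x2, hx2, hx2'⟩ := ((hlim.eventually (lt_mem_nhds hlt)).and
    (eventually_ge_atTop (ρ + 1))).exists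
  obtain ⟨x, hx, hxe⟩ := intermediate_value_Icc hx2'
    (hcont.mono fun y hy => by
      have := hy.1
      simp only [Set.mem_Ioi]; linarith) ⟨by linarith, hx2.le⟩
  have hxρ : ρ < x := by linarith [hx.1]
  -- induction to the left
  have hind : ∀ j : ℕ, j ≤ K → ∃ e, PG (x - j) (nn N - t (K - j)) b e := by
    intro j
    induction j with
    | zero =>
      intro _
      have := base hG hb hxρ
      have e1 : nn N + (G x).re = nn N - t K := hxe
      rw [e1] at this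
      exact ⟨_, by simpa using this⟩
    | succ j ih =>
      intro hj
      obtain ⟨e, he⟩ := ih (by omega)
      set k := K - (j + 1) with hk
      have hk1 : K - j = k + 1 := by omega
      rw [hk1] at he
      have hx1 : x - ((j + 1 : ℕ) : ℝ) + 1 = x - j := by push_cast; ring
      have he' : PG (x - ((j + 1 : ℕ) : ℝ) + 1) (2 * nn N - (nn N + t (k + 1))) b e := by
        rw [hx1]
        have : 2 * nn N - (nn N + t (k + 1)) = nn N - t (k + 1) := by ring
        rw [this]; exact he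
      have htk : t k ≤ 1 - nn N := by
        rcases Nat.eq_zero_or_pos k with h0 | h0
        · rw [h0, ht0]
        · obtain ⟨m, hm⟩ : ∃ m, k = m + 1 := ⟨k - 1, by omega⟩
          rw [hm]; exact (htl1 m).le
      exact step hN hinj hb (by linarith [htk]) (by linarith [htp k]) (by linarith [htp (k + 1)])
        (by linarith [htl1 k]) (by linarith [htl k]) (hte k) he'
  obtain ⟨e, he⟩ := hind K le_rfl
  rw [Nat.sub_self, ht0] at he
  refine ⟨x - K - 1, fun δ => e δ - (2 * (nn N : ℂ) - 1), ?_⟩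
  have hval : e 0 = 2 * (nn N : ℂ) - 1 := by
    rw [he.val]; push_cast; ring
  have hda : ∀ δ, deriv (fun δ => e δ - (2 * (nn N : ℂ) - 1)) δ = deriv e δ := fun δ => by
    simp
  have hda' : deriv (fun δ => e δ - (2 * (nn N : ℂ) - 1)) = deriv e := funext hda
  refine ⟨he.an.sub analyticAt_const, by simp [hval], ?_, ?_, ?_, ?_⟩
  · filter_upwards [he.real] with δ hδ
    simp only [hδ, map_sub, map_mul, Complex.conj_ofReal, map_ofNat, map_one]
  · rw [hda']; exact he.d1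
  · rw [hda']; exact he.d2
  · filter_upwards [he.eq] with δ hδ
    have : ((x - K - 1 : ℝ) : ℂ) + 1 + δ = ((x - K : ℝ) : ℂ) + δ := by push_cast; ring
    rw [this, hδ]; ring

end Crest.Agent.R102.H4.L3
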