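import Crest.Agent.R102.H4Defs_490

/-!
# Row 102, [H4], leaf 4a (helper722)

`b(σ+δ) → 0` and `b(σ-1+δ) → b₁` with `L(b₁) = ell(2n) + iπ` as `δ → 0` in the upper half plane.
-/

open Complex Set Filter Topology

noncomputable section

namespace Crest.Agent.R102.H4

namespace L4a722

/-- `1/2 < n < 1` -/
theorem nn_gt {N : ℝ} (hN : 1 < N) : 1 / 2 < nn N := by
  unfold nn
  rw [lt_div_iff₀ (by linarith)]
  linarith

theorem nn_lt {N : ℝ} (hN : 1 < N) : nn N < 1 := by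
  unfold nn
  rw [div_lt_one (by linarith)]
  linarith

/-- reflection of a real number minus something -/
theorem conj_mem {a : ℝ} {z : ℂ} (hz : 0 < z.im) :
    (starRingEnd ℂ) ((a : ℂ) - z) ∈ UH := by
  simp only [UH, mem_setOf_eq, conj_im, sub_im, ofReal_im]
  linarith

/-- if `z i → 0` from `UH` then `conj (a - z i) → a` from `UH` -/
theorem tendsto_conj {l : Filter ℂ} {z : ℂ → ℂ} (a : ℝ) (hz : ∀ᶠ i in l, 0 < (z i).im)
    (h : Tendsto z l (𝓝 0)) :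
    Tendsto (fun i => (starRingEnd ℂ) ((a : ℂ) - z i)) l (𝓝[UH] (a : ℂ)) := by
  refine tendsto_nhdsWithin_iff.2 ⟨?_, ?_⟩
  · have h1 : Tendsto (fun i => (starRingEnd ℂ) ((a : ℂ) - z i)) l
        (𝓝 ((starRingEnd ℂ) ((a : ℂ) - 0))) :=
      (Complex.continuous_conj.tendsto _).comp (tendsto_const_nhds.sub h)
    simpa using h1
  · filter_upwards [hz] with i hi
    exact conj_mem hi

end L4a722

open L4a722

theorem leaf4a (h1a : Leaf1a) (h1b : Leaf1b) (h1c : Leaf1c) : Leaf4a := by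
  intro N ρ σ G b e hG hb he
  have hN := hG.hN
  have B := h1b N hN
  have S := h1c N hN
  have hpi := Real.pi_pos
  have hUH : ∀ᶠ δ : ℂ in 𝓝[UH] (0 : ℂ), δ ∈ UH := eventually_mem_nhdsWithin
  have he0 : Tendsto e (𝓝[UH] (0 : ℂ)) (𝓝 0) := by
    have := he.an.continuousAt.tendsto
    rw [he.zero] at this
    exact this.mono_left nhdsWithin_le_nhds
  have heUH : ∀ᶠ δ : ℂ in 𝓝[UH] (0 : ℂ), 0 < (e δ).im := by
    filter_upwards [hUH, he.eq] with δ hδ h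
    have h1 : b ((σ : ℂ) + 1 + δ) ∈ UH := hb.maps _ (by simpa [UH] using hδ)
    rw [h] at h1
    simpa [UH] using h1
  have hm0 : ∀ᶠ δ : ℂ in 𝓝[UH] (0 : ℂ), b ((σ : ℂ) + δ) ∈ UH := by
    filter_upwards [hUH] with δ hδ
    exact hb.maps _ (by simpa [UH] using hδ)
  have hm1 : ∀ᶠ δ : ℂ in 𝓝[UH] (0 : ℂ), b ((σ : ℂ) - 1 + δ) ∈ UH := by
    filter_upwards [hUH] with δ hδ
    exact hb.maps _ (by simpa [UH] using hδ)
  -- first part
  have hz1 := tendsto_conj (l := 𝓝[UH] (0 : ℂ)) (z := e) 1 heUH he0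
  have hL0 : ∀ᶠ δ : ℂ in 𝓝[UH] (0 : ℂ), L N (b ((σ : ℂ) + δ)) =
      (starRingEnd ℂ) (L N ((starRingEnd ℂ) (((1 : ℝ) : ℂ) - e δ))) := by
    filter_upwards [hUH, he.eq, heUH] with δ hδ h hi
    have h2 := hb.eq ((σ : ℂ) + δ) (by simpa [UH] using hδ)
    have h3 : (σ : ℂ) + δ + 1 = (σ : ℂ) + 1 + δ := by ring
    rw [h3, h] at h2
    have h4 := S.cj _ (conj_mem (a := 1) hi)
    rw [← h4, h2, Complex.conj_conj]
    congr 1
    push_cast
    ring
  have hT0 : Tendsto (fun δ : ℂ => b ((σ : ℂ) + δ)) (𝓝[UH] 0) (𝓝 0) := by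
    refine B.b5 _ _ hm0 ?_ ?_
    · have h5 := hz1.eventually S.s3
      filter_upwards [hL0, h5] with δ h h5
      rw [h, conj_im]
      linarith
    · have h6 := S.s3'.comp hz1
      refine h6.congr' ?_
      filter_upwards [hL0] with δ h
      rw [h, conj_re]
      rfl
  refine ⟨hT0, ?_⟩
  -- second part
  have h2n : 1 < 2 * nn N := by linarith [nn_gt hN]
  have hm0' : ∀ᶠ δ : ℂ in 𝓝[UH] (0 : ℂ), 0 < (b ((σ : ℂ) + δ)).im := hm0
  have hz2 := tendsto_conj (l := 𝓝[UH] (0 : ℂ)) (z := fun δ => b ((σ : ℂ) + δ)) (2 * nn N) hm0' hT0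
  have hL1 : ∀ᶠ δ : ℂ in 𝓝[UH] (0 : ℂ), L N (b ((σ : ℂ) - 1 + δ)) =
      (starRingEnd ℂ) (L N ((starRingEnd ℂ) (((2 * nn N : ℝ) : ℂ) - b ((σ : ℂ) + δ)))) := by
    filter_upwards [hUH, hm0'] with δ hδ hi
    have h2 := hb.eq ((σ : ℂ) - 1 + δ) (by simpa [UH] using hδ)
    have h3 : (σ : ℂ) - 1 + δ + 1 = (σ : ℂ) + δ := by ring
    rw [h3] at h2
    have h4 := S.cj _ (conj_mem (a := 2 * nn N) hi)
    rw [← h4, h2, Complex.conj_conj]
    congr 1
    push_cast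
    ring
  obtain ⟨b1, hb1, hLb1⟩ := (h1a N hN).2.2 ((ell N (2 * nn N) : ℂ) + Real.pi * I) (by
    refine ⟨?_, ?_, ?_⟩
    · simp; linarith
    · simp; nlinarith
    · intro h
      simp at h)
  refine ⟨b1, hb1, hLb1, ?_⟩
  refine B.b1 _ _ _ hm1 hb1 ?_
  rw [hLb1]
  have h7 := ((Complex.continuous_conj.tendsto _).comp (S.v2 _ h2n)).comp hz2
  have h8 : (starRingEnd ℂ) ((ell N (2 * nn N) : ℂ) - Real.pi * I) =
      (ell N (2 * nn N) : ℂ) + Real.pi * I := by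
    simp [map_sub, map_mul]
  rw [h8] at h7
  refine h7.congr' ?_
  filter_upwards [hL1] with δ h
  rw [h]
  rfl

end Crest.Agent.R102.H4
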