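import Crest.Agent.R102.H4Defs_490

/-!
# Row 102, [H4], leaf 4b, the analyticity contradiction (helper722)

`b(σ+δ)` behaves like `δ^{1/N}`, so it is not an analytic function of the analytic germ
`b(σ-k+δ) = n + G(σ-k+δ)`.
-/

open Complex Set Filter Topology

noncomputable section

namespace Crest.Agent.R102.H4

namespace L4bR722

instance neBot_UH0 : (𝓝[UH] (0 : ℂ)).NeBot := by
  have h : Tendsto (fun t : ℝ => (t : ℂ) * I) (𝓝[>] (0 : ℝ)) (𝓝[UH] (0 : ℂ)) := by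
    refine tendsto_nhdsWithin_iff.2 ⟨?_, ?_⟩
    · have h1 : Continuous (fun t : ℝ => (t : ℂ) * I) := by fun_prop
      have h2 := h1.tendsto 0
      simp only [ofReal_zero, zero_mul] at h2
      exact h2.mono_left nhdsWithin_le_nhds
    · filter_upwards [self_mem_nhdsWithin] with t ht
      simpa [UH] using ht
  exact h.neBot

theorem lower {f : ℂ → ℂ} {f' x0 : ℂ} (h : HasDerivAt f f' x0) (hf' : f' ≠ 0) :
    ∀ᶠ x in 𝓝 x0, ‖f'‖ / 2 * ‖x - x0‖ ≤ ‖f x - f x0‖ := by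
  have h1 := h.isLittleO.def (half_pos (norm_pos_iff.2 hf'))
  filter_upwards [h1] with x hx
  have h2 : ‖(x - x0) • f'‖ = ‖x - x0‖ * ‖f'‖ := by rw [norm_smul]
  have h3 : ‖(x - x0) • f'‖ ≤ ‖f x - f x0‖ + ‖f x - f x0 - (x - x0) • f'‖ := by
    have : (x - x0) • f' = (f x - f x0) - (f x - f x0 - (x - x0) • f') := by ring
    calc ‖(x - x0) • f'‖ = ‖(f x - f x0) - (f x - f x0 - (x - x0) • f')‖ := by rw [← this]
      _ ≤ _ := norm_sub_le _ _
  rw [h2] at h3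
  nlinarith

theorem L_re (N : ℝ) (z : ℂ) : (L N z).re = N * Real.log ‖z‖ + Real.log ‖1 - z‖ := by
  simp [L, Complex.log_re]

end L4bR722

open L4bR722

theorem growth {N ρ σ : ℝ} {G b e Ψ : ℂ → ℂ} {k : ℕ} (hG : GF N ρ G) (hb : Cont N ρ G b)
    (he : End N σ b e)
    (h0 : Tendsto (fun δ : ℂ => b ((σ : ℂ) + δ)) (𝓝[UH] 0) (𝓝 0))
    (hk : ρ < ‖(σ : ℂ) - k‖)
    (hΨ : AnalyticAt ℂ Ψ 0) (hΨ' : deriv Ψ 0 ≠ 0)
    (heq : ∀ᶠ δ in 𝓝[UH] (0 : ℂ), b ((σ : ℂ) - k + δ) = Ψ (b ((σ : ℂ) + δ))) : False := by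
  have hN := hG.hN
  have hUH : ∀ᶠ δ : ℂ in 𝓝[UH] (0 : ℂ), δ ∈ UH := eventually_mem_nhdsWithin
  have hm0 : ∀ᶠ δ : ℂ in 𝓝[UH] (0 : ℂ), 0 < (b ((σ : ℂ) + δ)).im := by
    filter_upwards [hUH] with δ hδ
    exact hb.maps _ (by simpa [UH] using hδ)
  -- the germ on the left
  have hopen : IsOpen {s : ℂ | ρ < ‖s‖} := isOpen_lt continuous_const continuous_norm
  have hGd : DifferentiableAt ℂ G ((σ : ℂ) - k) := hG.an.differentiableAt (hopen.mem_nhds hk)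
  have hshift : Tendsto (fun δ : ℂ => (σ : ℂ) - k + δ) (𝓝[UH] (0 : ℂ)) (𝓝 ((σ : ℂ) - k)) := by
    have h1 : Continuous (fun δ : ℂ => (σ : ℂ) - k + δ) := by fun_prop
    have h2 := h1.tendsto 0
    simp only [add_zero] at h2
    exact h2.mono_left nhdsWithin_le_nhds
  have hext : ∀ᶠ δ in 𝓝[UH] (0 : ℂ), Ψ (b ((σ : ℂ) + δ)) = (nn N : ℂ) + G ((σ : ℂ) - k + δ) := by
    filter_upwards [heq, hUH, hshift.eventually (hopen.mem_nhds hk)] with δ h hδ hr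
    rw [← h]
    refine hb.ext _ ?_ hr
    simpa [UH] using hδ
  have hval : Ψ 0 = (nn N : ℂ) + G ((σ : ℂ) - k) := by
    have h1 : Tendsto (fun δ => Ψ (b ((σ : ℂ) + δ))) (𝓝[UH] (0 : ℂ)) (𝓝 (Ψ 0)) :=
      hΨ.continuousAt.tendsto.comp h0
    have h2 : Tendsto (fun δ : ℂ => (nn N : ℂ) + G ((σ : ℂ) - k + δ)) (𝓝[UH] (0 : ℂ))
        (𝓝 ((nn N : ℂ) + G ((σ : ℂ) - k))) :=
      tendsto_const_nhds.add (hGd.continuousAt.tendsto.comp hshift)
    have h3 := h2.congr' (hext.mono fun δ h => h.symm)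
    exact tendsto_nhds_unique h1 h3
  -- upper bound `‖b(σ+δ)‖ ≤ C ‖δ‖`
  obtain ⟨C1, hC1⟩ := hGd.isBigO_sub.bound
  have hlow := lower hΨ.differentiableAt.hasDerivAt hΨ'
  have hPpos : 0 < ‖deriv Ψ 0‖ := norm_pos_iff.2 hΨ'
  obtain ⟨C, hCpos, hC⟩ : ∃ C : ℝ, 0 < C ∧ ∀ᶠ δ in 𝓝[UH] (0 : ℂ), ‖b ((σ : ℂ) + δ)‖ ≤ C * ‖δ‖ := by
    refine ⟨max (2 * C1 / ‖deriv Ψ 0‖) 1, lt_max_of_lt_right one_pos, ?_⟩
    filter_upwards [hext, h0.eventually hlow, hshift.eventually hC1] with δ h1 h2 h3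
    have h4 : Ψ (b ((σ : ℂ) + δ)) - Ψ 0 = G ((σ : ℂ) - k + δ) - G ((σ : ℂ) - k) := by
      rw [h1, hval]; ring
    have h5 : (σ : ℂ) - k + δ - ((σ : ℂ) - k) = δ := by ring
    rw [h4, sub_zero] at h2
    rw [h5] at h3
    have h6 : ‖deriv Ψ 0‖ / 2 * ‖b ((σ : ℂ) + δ)‖ ≤ C1 * ‖δ‖ := h2.trans h3
    have h7 : ‖b ((σ : ℂ) + δ)‖ ≤ 2 * C1 / ‖deriv Ψ 0‖ * ‖δ‖ := by
      rw [div_mul_eq_mul_div, le_div_iff₀ hPpos]
      nlinarith
    exact h7.trans (mul_le_mul_of_nonneg_right (le_max_left _ _) (norm_nonneg _))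
  -- lower bound `‖e δ‖ ≥ c ‖δ‖`
  obtain ⟨e1, he1, hde⟩ := he.d1
  have hed : HasDerivAt e (e1 : ℂ) 0 := by
    rw [← hde]; exact he.an.differentiableAt.hasDerivAt
  have hlowe := lower hed (by exact_mod_cast he1.ne')
  have hlowe' : ∀ᶠ δ in 𝓝[UH] (0 : ℂ), e1 / 2 * ‖δ‖ ≤ ‖e δ‖ := by
    filter_upwards [hlowe.filter_mono nhdsWithin_le_nhds] with δ h
    rw [he.zero, sub_zero, sub_zero] at h
    simpa [abs_of_pos he1] using h
  have he0 : Tendsto e (𝓝[UH] (0 : ℂ)) (𝓝 0) := by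
    have := he.an.continuousAt.tendsto
    rw [he.zero] at this
    exact this.mono_left nhdsWithin_le_nhds
  have hesm : ∀ᶠ δ in 𝓝[UH] (0 : ℂ), ‖e δ‖ < 1 / 2 := by
    have := he0.norm
    rw [norm_zero] at this
    exact this.eventually_lt_const (by norm_num)
  have hbsm : ∀ᶠ δ in 𝓝[UH] (0 : ℂ), ‖b ((σ : ℂ) + δ)‖ < 1 := by
    have := h0.norm
    rw [norm_zero] at this
    exact this.eventually_lt_const (by norm_num)
  -- the identity of moduli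
  have hL : ∀ᶠ δ : ℂ in 𝓝[UH] (0 : ℂ), N * Real.log ‖b ((σ : ℂ) + δ)‖ +
      Real.log ‖1 - b ((σ : ℂ) + δ)‖ = N * Real.log ‖1 - e δ‖ + Real.log ‖e δ‖ := by
    filter_upwards [hUH, he.eq] with δ hδ h
    have h2 := hb.eq ((σ : ℂ) + δ) (by simpa [UH] using hδ)
    have h3 : (σ : ℂ) + δ + 1 = (σ : ℂ) + 1 + δ := by ring
    have h4 : 2 * (nn N : ℂ) - (2 * (nn N : ℂ) - 1 + e δ) = 1 - e δ := by ring
    rw [h3, h, h4] at h2
    have h5 := congrArg Complex.re h2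
    rw [L_re, L_re] at h5
    have h6 : (1 : ℂ) - (1 - e δ) = e δ := by ring
    rwa [h6] at h5
  -- logarithm of `‖δ‖` bounded below
  have hfin : ∀ᶠ δ : ℂ in 𝓝[UH] (0 : ℂ), (-(N * Real.log 2) + Real.log (e1 / 2) -
      N * Real.log C - Real.log 2) / (N - 1) ≤ Real.log ‖δ‖ := by
    filter_upwards [hL, hC, hlowe', hesm, hbsm, hUH, hm0] with δ h1 h2 h3 h4 h5 h6 h7
    have hδ : δ ≠ 0 := by
      rintro rfl
      simp [UH] at h6
    have hδp : 0 < ‖δ‖ := norm_pos_iff.2 hδ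
    have hbp : 0 < ‖b ((σ : ℂ) + δ)‖ := by
      refine norm_pos_iff.2 ?_
      intro h
      rw [h] at h7
      simp at h7
    have a1 : Real.log ‖b ((σ : ℂ) + δ)‖ ≤ Real.log C + Real.log ‖δ‖ := by
      rw [← Real.log_mul hCpos.ne' hδp.ne']
      exact Real.log_le_log hbp h2
    have a2 : Real.log ‖1 - b ((σ : ℂ) + δ)‖ ≤ Real.log 2 := by
      refine Real.log_le_log ?_ ?_
      · have := norm_sub_norm_le (1 : ℂ) (b ((σ : ℂ) + δ))
        rw [norm_one] at this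
        linarith
      · have := norm_sub_le (1 : ℂ) (b ((σ : ℂ) + δ))
        rw [norm_one] at this
        linarith
    have a3 : -Real.log 2 ≤ Real.log ‖1 - e δ‖ := by
      rw [← Real.log_inv]
      refine Real.log_le_log (by norm_num) ?_
      have := norm_sub_norm_le (1 : ℂ) (e δ)
      rw [norm_one] at this
      norm_num
      linarith
    have a4 : Real.log (e1 / 2) + Real.log ‖δ‖ ≤ Real.log ‖e δ‖ := by
      rw [← Real.log_mul (by positivity) hδp.ne']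
      exact Real.log_le_log (by positivity) h3
    rw [div_le_iff₀ (by linarith)]
    have b1 : N * Real.log ‖b ((σ : ℂ) + δ)‖ ≤ N * (Real.log C + Real.log ‖δ‖) :=
      mul_le_mul_of_nonneg_left a1 (by linarith)
    have b2 : N * -Real.log 2 ≤ N * Real.log ‖1 - e δ‖ :=
      mul_le_mul_of_nonneg_left a3 (by linarith)
    nlinarith
  have hlog : Tendsto (fun δ : ℂ => Real.log ‖δ‖) (𝓝[UH] (0 : ℂ)) atBot := by
    have h1 : Tendsto (fun δ : ℂ => ‖δ‖) (𝓝[UH] (0 : ℂ)) (𝓝[≠] 0) := by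
      refine tendsto_nhdsWithin_iff.2 ⟨?_, ?_⟩
      · have := (continuous_norm (E := ℂ)).tendsto 0
        rw [norm_zero] at this
        exact this.mono_left nhdsWithin_le_nhds
      · filter_upwards [hUH] with δ hδ
        simp only [mem_compl_iff, mem_singleton_iff, norm_eq_zero]
        rintro rfl
        simp [UH] at hδ
    exact Real.tendsto_log_nhdsNE_zero.comp h1
  obtain ⟨δ, h1, h2⟩ := (hfin.and (hlog.eventually_lt_atBot _)).exists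
  exact absurd h1 (not_le.2 h2)

end Crest.Agent.R102.H4
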