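import Crest.Agent.R102.H4Defs_490
import Crest.Agent.R102.H4L4bR_722

/-!
# Row 102, part (C), item [H4], leaf 4b (helper297): the chain from the right end point of the
cut closes at the left end point.  Paper: r102_doc C_H4_148 (helper148 / helper490).
-/

set_option autoImplicit false

open Complex Set Filter Topology
open Crest.Agent.R102.H4

noncomputable section

namespace Crest.Agent.R102.H4L4b297

/-! ### local inverses -/

theorem loc_inv {F : ℂ → ℂ} {z : ℂ} (hF : AnalyticAt ℂ F z) (hd : deriv F z ≠ 0) :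
    ∃ J : ℂ → ℂ, AnalyticAt ℂ J (F z) ∧ J (F z) = z ∧ deriv J (F z) ≠ 0 ∧
      ∀ᶠ y in 𝓝 z, J (F y) = y := by
  refine ⟨hF.hasStrictDerivAt.localInverse _ _ _ hd, hF.analyticAt_localInverse hd,
    HasStrictFDerivAt.localInverse_apply_image .., ?_, HasStrictDerivAt.eventually_left_inverse ..⟩
  rw [(hF.hasStrictDerivAt.to_localInverse hd).hasDerivAt.deriv]
  exact inv_ne_zero hd

theorem lift {l : Filter ℂ} {f x : ℂ → ℂ} {W Ls : ℂ → ℂ} {z : ℂ} (hW : AnalyticAt ℂ W 0)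
    (hW' : deriv W 0 ≠ 0) (hLs : AnalyticAt ℂ Ls z) (hLs' : deriv Ls z ≠ 0) (hz : Ls z = W 0)
    (hf : Tendsto f l (𝓝 z)) (heq : ∀ᶠ i in l, Ls (f i) = W (x i)) :
    ∃ Ψ : ℂ → ℂ, AnalyticAt ℂ Ψ 0 ∧ Ψ 0 = z ∧ deriv Ψ 0 ≠ 0 ∧ ∀ᶠ i in l, f i = Ψ (x i) := by
  obtain ⟨J, hJ, hJz, hJ', hJl⟩ := loc_inv hLs hLs'
  rw [hz] at hJ hJz hJ'
  refine ⟨fun v => J (W v), hJ.comp hW, hJz, ?_, ?_⟩
  · have h1 : HasDerivAt (fun v => J (W v)) (deriv J (W 0) * deriv W 0) 0 :=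
      hJ.differentiableAt.hasDerivAt.comp 0 hW.differentiableAt.hasDerivAt
    rw [h1.deriv]
    exact mul_ne_zero hJ' hW'
  · filter_upwards [hf.eventually hJl, heq] with i h1 h2
    rw [← h2, h1]

/-! ### the function `L` -/

/-- the branch of `L` near real points `> 1` -/
def L1 (N : ℝ) (z : ℂ) : ℂ := (N : ℂ) * Complex.log z + Complex.log (z - 1)

theorem log_neg_UH {w : ℂ} (h : 0 < w.im) : Complex.log (-w) = Complex.log w - Real.pi * I := by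
  rw [Complex.log, Complex.log, norm_neg, arg_neg_eq_arg_sub_pi_of_im_pos h]
  push_cast
  ring

theorem log_neg_LH {w : ℂ} (h : w.im < 0) : Complex.log (-w) = Complex.log w + Real.pi * I := by
  rw [Complex.log, Complex.log, norm_neg, arg_neg_eq_arg_add_pi_of_im_neg h]
  push_cast
  ring

theorem L_eq_UH (N : ℝ) {z : ℂ} (h : 0 < z.im) : L N z = L1 N z - Real.pi * I := by
  have h1 : 1 - z = -(z - 1) := by ring
  unfold L L1
  rw [h1, log_neg_UH (by simpa using h)]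
  ring

theorem L_eq_LH (N : ℝ) {z : ℂ} (h : z.im < 0) : L N z = L1 N z + Real.pi * I := by
  have h1 : 1 - z = -(z - 1) := by ring
  unfold L L1
  rw [h1, log_neg_LH (by simpa using h)]
  ring

theorem dL_ne {N : ℝ} (hN : 1 < N) {z : ℂ} (h0 : z ≠ 0) (h1 : z ≠ 1) (hn : z ≠ (nn N : ℂ)) :
    (N : ℂ) / z - 1 / (1 - z) ≠ 0 := by
  have h2 : 1 - z ≠ 0 := sub_ne_zero.2 h1.symm
  have hN1 : (N : ℂ) + 1 ≠ 0 := by
    have : (N : ℝ) + 1 ≠ 0 := by linarith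
    exact_mod_cast this
  rw [div_sub_div _ _ h0 h2]
  refine div_ne_zero ?_ (mul_ne_zero h0 h2)
  intro h
  apply hn
  unfold nn
  push_cast
  rw [eq_div_iff hN1]
  linear_combination -h

theorem hasDerivAt_L {N : ℝ} {z : ℂ} (h1 : z ∈ slitPlane) (h2 : 1 - z ∈ slitPlane) :
    HasDerivAt (L N) ((N : ℂ) / z - 1 / (1 - z)) z := by
  have e1 := (Complex.hasDerivAt_log h1).const_mul (N : ℂ)
  have e2 : HasDerivAt (fun z : ℂ => 1 - z) (-1) z := by
    simpa using (hasDerivAt_id z).const_sub 1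
  have e3 := e2.clog h2
  exact (e1.add e3).congr_deriv (by ring)

theorem hasDerivAt_L1 {N : ℝ} {z : ℂ} (h1 : z ∈ slitPlane) (h2 : z - 1 ∈ slitPlane) :
    HasDerivAt (L1 N) ((N : ℂ) / z - 1 / (1 - z)) z := by
  have e1 := (Complex.hasDerivAt_log h1).const_mul (N : ℂ)
  have e2 : HasDerivAt (fun z : ℂ => z - 1) 1 z := by
    simpa using (hasDerivAt_id z).sub_const 1
  have e3 := e2.clog h2
  have h3 : z - 1 ≠ 0 := slitPlane_ne_zero h2
  have h4 : (1 : ℂ) / (z - 1) = - (1 / (1 - z)) := by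
    rw [← div_neg, neg_sub]
  refine (e1.add e3).congr_deriv ?_
  rw [h4]
  ring

theorem an_L {N : ℝ} {z : ℂ} (h1 : z ∈ slitPlane) (h2 : 1 - z ∈ slitPlane) :
    AnalyticAt ℂ (L N) z :=
  ((analyticAt_const).mul (analyticAt_id.clog h1)).add
    ((analyticAt_const.sub analyticAt_id).clog h2)

theorem an_L1 {N : ℝ} {z : ℂ} (h1 : z ∈ slitPlane) (h2 : z - 1 ∈ slitPlane) :
    AnalyticAt ℂ (L1 N) z :=
  ((analyticAt_const).mul (analyticAt_id.clog h1)).add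
    ((analyticAt_id.sub analyticAt_const).clog h2)

theorem mem_slit_of_im {z : ℂ} (h : z.im ≠ 0) : z ∈ slitPlane ∧ 1 - z ∈ slitPlane :=
  ⟨Or.inr h, Or.inr (by simpa using h)⟩

theorem mem_slit_real {x : ℝ} (h0 : 0 < x) (h1 : x < 1) :
    (x : ℂ) ∈ slitPlane ∧ 1 - (x : ℂ) ∈ slitPlane :=
  ⟨Or.inl (by simpa using h0), Or.inl (by simpa using h1)⟩

theorem mem_slit_real' {x : ℝ} (h1 : 1 < x) :
    (x : ℂ) ∈ slitPlane ∧ (x : ℂ) - 1 ∈ slitPlane :=
  ⟨Or.inl (by simp; linarith), Or.inl (by simpa using h1)⟩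

theorem L_real {N x : ℝ} (h0 : 0 < x) (h1 : x < 1) : L N (x : ℂ) = (ell N x : ℂ) := by
  unfold L ell
  rw [← ofReal_log h0.le, show (1 : ℂ) - x = ((1 - x : ℝ) : ℂ) by push_cast; rfl,
    ← ofReal_log (by linarith)]
  push_cast
  rfl

theorem L1_real {N x : ℝ} (h1 : 1 < x) : L1 N (x : ℂ) = (ell N x : ℂ) := by
  unfold L1 ell
  rw [← ofReal_log (by linarith), show (x : ℂ) - 1 = ((x - 1 : ℝ) : ℂ) by push_cast; rfl,
    ← ofReal_log (by linarith)]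
  rw [← Real.log_neg_eq_log (x := 1 - x), neg_sub]
  push_cast
  rfl

theorem nn_lt {N : ℝ} (hN : 1 < N) : 1 / 2 < nn N ∧ nn N < 1 := by
  unfold nn
  constructor
  · rw [div_lt_div_iff₀ (by norm_num) (by linarith)]; linarith
  · rw [div_lt_one (by linarith)]; linarith

/-- the derivative of `L` does not vanish at a point `≠ 0, 1, n` -/
theorem deriv_L_ne {N : ℝ} (hN : 1 < N) {z : ℂ} (h1 : z ∈ slitPlane) (h2 : 1 - z ∈ slitPlane)
    (hn : z ≠ (nn N : ℂ)) : deriv (L N) z ≠ 0 := by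
  rw [(hasDerivAt_L h1 h2).deriv]
  refine dL_ne hN (slitPlane_ne_zero h1) ?_ hn
  rintro rfl
  simp at h2

theorem deriv_L1_ne {N : ℝ} (hN : 1 < N) {x : ℝ} (h : 1 < x) : deriv (L1 N) (x : ℂ) ≠ 0 := by
  obtain ⟨h1, h2⟩ := mem_slit_real' h
  rw [(hasDerivAt_L1 h1 h2).deriv]
  refine dL_ne hN (slitPlane_ne_zero h1) ?_ ?_
  · intro h3
    have : x = 1 := by exact_mod_cast h3
    linarith
  · intro h3
    have : x = nn N := by exact_mod_cast h3
    have := (nn_lt hN).2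
    linarith

/-! ### the level points -/

theorem continuousOn_ell {N : ℝ} : ContinuousOn (ell N) (Ioo 0 1) := by
  unfold ell
  refine ContinuousOn.add (continuousOn_const.mul (Real.continuousOn_log.mono ?_)) ?_
  · intro x hx; exact ne_of_gt hx.1
  · refine ContinuousOn.log (continuousOn_const.sub continuousOn_id) ?_
    intro x hx
    have := hx.2
    intro h
    have h' : 1 - x = 0 := h
    linarith

theorem hasDerivAt_ell {N x : ℝ} (h0 : 0 < x) (h1 : x < 1) :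
    HasDerivAt (ell N) (N / x - 1 / (1 - x)) x := by
  have e1 := (Real.hasDerivAt_log h0.ne').const_mul N
  have e2 : HasDerivAt (fun z : ℝ => 1 - z) (-1) x := by
    simpa using (hasDerivAt_id x).const_sub 1
  have e3 := e2.log (by linarith)
  exact (e1.add e3).congr_deriv (by ring)

theorem ell_lt {N : ℝ} (hN : 1 < N) {x : ℝ} (h0 : 0 < x) (hx : x < nn N) :
    ell N x < ell N (nn N) := by
  have hn := nn_lt hN
  have hmono : StrictMonoOn (ell N) (Icc x (nn N)) := by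
    refine strictMonoOn_of_deriv_pos (convex_Icc _ _)
      (continuousOn_ell.mono fun y hy => ⟨by linarith [hy.1], by linarith [hy.2]⟩) ?_
    intro y hy
    rw [interior_Icc] at hy
    have hy0 : 0 < y := by linarith [hy.1]
    have hy1 : y < 1 := by linarith [hy.2]
    rw [(hasDerivAt_ell hy0 hy1).deriv, sub_pos, div_lt_div_iff₀ (by linarith) hy0]
    have h2 := hy.2
    unfold nn at h2
    rw [lt_div_iff₀ (by linarith)] at h2
    nlinarith
  exact hmono ⟨le_rfl, hx.le⟩ ⟨hx.le, le_rfl⟩ hx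

theorem exists_level {N : ℝ} (hN : 1 < N) {x : ℝ} (h0 : 0 < x) (hx : x < nn N) :
    ∃ r : ℝ, nn N < r ∧ r < 1 ∧ ell N r = ell N x := by
  have hn := nn_lt hN
  have hlt := ell_lt hN h0 hx
  have hlim : Tendsto (ell N) (𝓝[<] 1) atBot := by
    unfold ell
    have e1 : Tendsto (fun y : ℝ => N * Real.log y) (𝓝[<] 1) (𝓝 (N * Real.log 1)) :=
      ((Real.continuousAt_log one_ne_zero).tendsto.const_mul N).mono_left nhdsWithin_le_nhds
    refine Tendsto.add_atBot e1 ?_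
    refine Real.tendsto_log_nhdsGT_zero.comp ?_
    refine tendsto_nhdsWithin_iff.2 ⟨?_, ?_⟩
    · have : Tendsto (fun y : ℝ => 1 - y) (𝓝 1) (𝓝 (1 - 1)) := tendsto_const_nhds.sub tendsto_id
      rw [sub_self] at this
      exact this.mono_left nhdsWithin_le_nhds
    · filter_upwards [self_mem_nhdsWithin] with y hy
      simpa using hy
  obtain ⟨y, hy1, hy2, hy3⟩ := ((hlim.eventually (eventually_lt_atBot (ell N x))).and
    ((Ioo_mem_nhdsLT hn.2 : Ioo (nn N) 1 ∈ 𝓝[<] (1 : ℝ)))).exists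
  have hc : ContinuousOn (ell N) (Icc (nn N) y) :=
    continuousOn_ell.mono fun z hz => ⟨by linarith [hz.1], by linarith [hz.2]⟩
  obtain ⟨r, hr, hre⟩ := intermediate_value_Icc' hy2.le hc
    (show ell N x ∈ Icc (ell N y) (ell N (nn N)) from ⟨hy1.le, hlt.le⟩)
  refine ⟨r, lt_of_le_of_ne hr.1 ?_, by linarith [hr.2], hre⟩
  rintro rfl
  linarith

/-! ### shifted limits -/

instance neBot_UH : (𝓝[UH] (0 : ℂ)).NeBot := by
  rw [← mem_closure_iff_nhdsWithin_neBot, Metric.mem_closure_iff]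
  intro ε hε
  refine ⟨((ε / 2 : ℝ) : ℂ) * I, ?_, ?_⟩
  · show 0 < (((ε / 2 : ℝ) : ℂ) * I).im
    simp [hε]
  · rw [dist_zero_left, norm_mul, norm_I, mul_one, Complex.norm_real, Real.norm_eq_abs,
      abs_of_pos (by linarith)]
    linarith

/-- `b(c+δ) → z` as `δ → 0` in the upper half plane -/
def T (b : ℂ → ℂ) (c : ℝ) (z : ℂ) : Prop :=
  Tendsto (fun δ : ℂ => b ((c : ℂ) + δ)) (𝓝[UH] (0 : ℂ)) (𝓝 z)

theorem ev_UH : ∀ᶠ δ in 𝓝[UH] (0 : ℂ), δ ∈ UH := self_mem_nhdsWithin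

theorem sh_UH {c : ℝ} {δ : ℂ} (h : δ ∈ UH) : (c : ℂ) + δ ∈ UH := by
  have h' : 0 < δ.im := h
  show 0 < ((c : ℂ) + δ).im
  simpa using h'

/-- the reflected argument `2n - conj (b (c+δ))` -/
def rf (N : ℝ) (b : ℂ → ℂ) (c : ℝ) (δ : ℂ) : ℂ :=
  2 * (nn N : ℂ) - (starRingEnd ℂ) (b ((c : ℂ) + δ))

section

variable {N ρ σ : ℝ} {G b e : ℂ → ℂ}

theorem rf_UH (hb : Cont N ρ G b) {c : ℝ} {δ : ℂ} (h : δ ∈ UH) : rf N b c δ ∈ UH := by
  have h1 : 0 < (b ((c : ℂ) + δ)).im := hb.maps _ (sh_UH h)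
  show 0 < (rf N b c δ).im
  unfold rf
  simpa using h1

theorem conj_rf (c : ℝ) (δ : ℂ) :
    (starRingEnd ℂ) (rf N b c δ) = 2 * (nn N : ℂ) - b ((c : ℂ) + δ) := by
  unfold rf
  rw [map_sub, map_mul, conj_conj, conj_ofReal, show (starRingEnd ℂ) 2 = 2 from map_ofNat _ 2]

/-- `L(b(c-1+δ)) = conj (L (2n - conj b(c+δ)))` -/
theorem eqL (hS : BdyS N) (hb : Cont N ρ G b) {c : ℝ} {δ : ℂ} (h : δ ∈ UH) :
    L N (b (((c - 1 : ℝ) : ℂ) + δ)) = (starRingEnd ℂ) (L N (rf N b c δ)) := by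
  rw [← hS.cj _ (rf_UH hb h), conj_rf, hb.eq _ (sh_UH h)]
  congr 3
  push_cast
  ring

theorem eqL' (hb : Cont N ρ G b) {c : ℝ} {δ : ℂ} (h : δ ∈ UH) :
    L N (b (((c - 1 : ℝ) : ℂ) + δ)) = L N (2 * (nn N : ℂ) - b ((c : ℂ) + δ)) := by
  rw [hb.eq _ (sh_UH h)]
  congr 3
  push_cast
  ring

theorem rf_tendsto (hb : Cont N ρ G b) {c r : ℝ} (h : T b c (r : ℂ)) :
    Tendsto (rf N b c) (𝓝[UH] (0 : ℂ)) (𝓝[UH] ((2 * nn N - r : ℝ) : ℂ)) := by
  refine tendsto_nhdsWithin_iff.2 ⟨?_, ?_⟩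
  · have h1 : Tendsto (fun δ : ℂ => 2 * (nn N : ℂ) - (starRingEnd ℂ) (b ((c : ℂ) + δ)))
        (𝓝[UH] (0 : ℂ)) (𝓝 (2 * (nn N : ℂ) - (starRingEnd ℂ) (r : ℂ))) :=
      tendsto_const_nhds.sub ((continuous_conj.tendsto _).comp h)
    rw [conj_ofReal] at h1
    push_cast
    exact h1
  · filter_upwards [ev_UH] with δ hδ using rf_UH hb hδ

/-- sign and limit of `L(b(c-1+δ))` when `b(c+δ) → r ∈ (n,2n)` -/
theorem stepL (hN : 1 < N) (hS : BdyS N) (hb : Cont N ρ G b) {c r : ℝ} (h : T b c (r : ℂ))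
    (h1 : nn N < r) (h2 : r < 2 * nn N) :
    (∀ᶠ δ in 𝓝[UH] (0 : ℂ), (L N (b (((c - 1 : ℝ) : ℂ) + δ))).im < 0) ∧
    Tendsto (fun δ : ℂ => L N (b (((c - 1 : ℝ) : ℂ) + δ))) (𝓝[UH] (0 : ℂ))
      (𝓝 (ell N (2 * nn N - r) : ℂ)) := by
  have hn := nn_lt hN
  have ht := rf_tendsto hb h
  constructor
  · filter_upwards [ev_UH, ht.eventually (hS.s1 (2 * nn N - r) (by linarith) (by linarith))]
      with δ hδ h3
    rw [eqL hS hb hδ]
    simpa using h3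
  · have h3 := (hS.v1 (2 * nn N - r) (by linarith) (by linarith)).comp ht
    have h4 := (continuous_conj.tendsto _).comp h3
    rw [conj_ofReal] at h4
    refine h4.congr' ?_
    filter_upwards [ev_UH] with δ hδ
    exact (eqL hS hb hδ).symm

/-! ### the chain property -/

def Kp (σ : ℝ) (b : ℂ → ℂ) (k : ℕ) (z : ℂ) : Prop :=
  ∃ Ψ : ℂ → ℂ, AnalyticAt ℂ Ψ 0 ∧ Ψ 0 = z ∧ deriv Ψ 0 ≠ 0 ∧
    ∀ᶠ δ in 𝓝[UH] (0 : ℂ), b ((σ : ℂ) - k + δ) = Ψ (b ((σ : ℂ) + δ))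

theorem Kp.tendsto {k : ℕ} {z : ℂ} (hK : Kp σ b k z) (h0 : T b σ 0) :
    T b (σ - k) z := by
  obtain ⟨Ψ, hΨ, hz, -, heq⟩ := hK
  have h1 : Tendsto (fun δ : ℂ => Ψ (b ((σ : ℂ) + δ))) (𝓝[UH] (0 : ℂ)) (𝓝 z) := by
    rw [← hz]
    exact hΨ.continuousAt.tendsto.comp h0
  refine h1.congr' ?_
  filter_upwards [heq] with δ h
  rw [← h]
  push_cast
  rfl

theorem Kp.step {k : ℕ} {z z' : ℂ} (hK : Kp σ b k z) {Ls Lt : ℂ → ℂ}
    (hs : AnalyticAt ℂ Ls (2 * (nn N : ℂ) - z)) (hs' : deriv Ls (2 * (nn N : ℂ) - z) ≠ 0)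
    (ht : AnalyticAt ℂ Lt z') (ht' : deriv Lt z' ≠ 0) (hz : Lt z' = Ls (2 * (nn N : ℂ) - z))
    (hf : T b (σ - k - 1) z')
    (heq : ∀ᶠ δ in 𝓝[UH] (0 : ℂ), Lt (b (((σ - k - 1 : ℝ) : ℂ) + δ)) =
      Ls (2 * (nn N : ℂ) - b (((σ - k : ℝ) : ℂ) + δ))) :
    Kp σ b (k + 1) z' := by
  obtain ⟨Ψ, hΨ, hΨz, hΨ', hΨe⟩ := hK
  have hW : AnalyticAt ℂ (fun v => Ls (2 * (nn N : ℂ) - Ψ v)) 0 := by
    refine AnalyticAt.fun_comp ?_ (analyticAt_const.sub hΨ)
    rw [hΨz]; exact hs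
  have hWd : HasDerivAt (fun v => Ls (2 * (nn N : ℂ) - Ψ v))
      (deriv Ls (2 * (nn N : ℂ) - z) * (-(deriv Ψ 0))) 0 := by
    have e1 : HasDerivAt (fun v => 2 * (nn N : ℂ) - Ψ v) (-(deriv Ψ 0)) 0 :=
      hΨ.differentiableAt.hasDerivAt.const_sub _
    have e2 : HasDerivAt Ls (deriv Ls (2 * (nn N : ℂ) - z)) (2 * (nn N : ℂ) - Ψ 0) := by
      rw [hΨz]; exact hs.differentiableAt.hasDerivAt
    exact e2.comp (0 : ℂ) e1
  obtain ⟨Φ, hΦ, hΦz, hΦ', hΦe⟩ := lift (l := 𝓝[UH] (0 : ℂ))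
    (f := fun δ => b (((σ - k - 1 : ℝ) : ℂ) + δ)) (x := fun δ => b ((σ : ℂ) + δ)) hW
    (by rw [hWd.deriv]; exact mul_ne_zero hs' (neg_ne_zero.2 hΨ')) ht ht'
    (by rw [hz, hΨz]) hf
    (by
      filter_upwards [heq, hΨe] with δ h1 h2
      rw [h1, ← h2]
      push_cast
      rfl)
  refine ⟨Φ, hΦ, hΦz, hΦ', ?_⟩
  filter_upwards [hΦe] with δ h
  rw [← h]
  congr 1
  push_cast
  ring

theorem step_UH (hN : 1 < N) (h1a : Leaf1a) (hB : BdyB N) (hS : BdyS N) (hb : Cont N ρ G b)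
    (h0 : T b σ 0) {k : ℕ} {z : ℂ} (hK : Kp σ b k z) (hz : z ∈ UH) :
    (∃ z' ∈ UH, Kp σ b (k + 1) z') ∨ (∃ r : ℝ, 1 < r ∧ Kp σ b (k + 1) (r : ℂ)) := by
  have hzi : 0 < z.im := hz
  have hai : (2 * (nn N : ℂ) - z).im < 0 := by simpa using hzi
  obtain ⟨hs1, hs2⟩ := mem_slit_of_im hai.ne
  have han := an_L (N := N) hs1 hs2
  have hne : (2 * (nn N : ℂ) - z) ≠ (nn N : ℂ) := by
    intro h
    have := congrArg Complex.im h
    rw [ofReal_im] at this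
    linarith
  have hder := deriv_L_ne hN hs1 hs2 hne
  have hc : (starRingEnd ℂ) (2 * (nn N : ℂ) - z) ∈ UH := by
    show 0 < ((starRingEnd ℂ) (2 * (nn N : ℂ) - z)).im
    rw [conj_im]; linarith
  have hV : L N (2 * (nn N : ℂ) - z) =
      (starRingEnd ℂ) (L N ((starRingEnd ℂ) (2 * (nn N : ℂ) - z))) := by
    have := hS.cj _ hc
    rwa [conj_conj] at this
  obtain ⟨g1, g2, g3⟩ := (h1a N hN).2.1 _ hc
  have ht := hK.tendsto h0
  have hf1 : Tendsto (fun δ : ℂ => L N (b (((σ - k - 1 : ℝ) : ℂ) + δ))) (𝓝[UH] (0 : ℂ))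
      (𝓝 (L N (2 * (nn N : ℂ) - z))) := by
    have h1 : Tendsto (fun δ : ℂ => L N (2 * (nn N : ℂ) - b (((σ - k : ℝ) : ℂ) + δ)))
        (𝓝[UH] (0 : ℂ)) (𝓝 (L N (2 * (nn N : ℂ) - z))) :=
      han.continuousAt.tendsto.comp (tendsto_const_nhds.sub ht)
    refine h1.congr' ?_
    filter_upwards [ev_UH] with δ hδ
    exact (eqL' hb hδ).symm
  have hevU : ∀ᶠ δ in 𝓝[UH] (0 : ℂ), b (((σ - k - 1 : ℝ) : ℂ) + δ) ∈ UH := by
    filter_upwards [ev_UH] with δ hδ using hb.maps _ (sh_UH hδ)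
  have him : -Real.pi ≤ (L N (2 * (nn N : ℂ) - z)).im := by
    refine ge_of_tendsto ((continuous_im.tendsto _).comp hf1) ?_
    filter_upwards [hevU] with δ hδ
    exact ((h1a N hN).2.1 _ hδ).1.le
  have heq : ∀ᶠ δ in 𝓝[UH] (0 : ℂ), L N (b (((σ - k - 1 : ℝ) : ℂ) + δ)) =
      L N (2 * (nn N : ℂ) - b (((σ - k : ℝ) : ℂ) + δ)) := by
    filter_upwards [ev_UH] with δ hδ using eqL' hb hδ
  have hVi : (L N (2 * (nn N : ℂ) - z)).im =
      -(L N ((starRingEnd ℂ) (2 * (nn N : ℂ) - z))).im := by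
    conv_lhs => rw [hV]
    rw [conj_im]
  have hVr : (L N (2 * (nn N : ℂ) - z)).re =
      (L N ((starRingEnd ℂ) (2 * (nn N : ℂ) - z))).re := by
    conv_lhs => rw [hV]
    rw [conj_re]
  rcases him.lt_or_eq with him | him
  · left
    have hmem : L N (2 * (nn N : ℂ) - z) ∈ SS N := by
      refine ⟨him, ?_, ?_⟩
      · rw [hVi]
        have := Real.pi_pos
        nlinarith
      · intro h
        rw [hVr]
        rw [hVi] at h
        exact g3 (by linarith)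
    obtain ⟨z', hz', hLz'⟩ := (h1a N hN).2.2 _ hmem
    have hzi' : 0 < z'.im := hz'
    obtain ⟨ht1, ht2⟩ := mem_slit_of_im hzi'.ne'
    have hne' : z' ≠ (nn N : ℂ) := by
      intro h
      have := congrArg Complex.im h
      rw [ofReal_im] at this
      linarith
    refine ⟨z', hz', hK.step (N := N) han hder (an_L ht1 ht2) (deriv_L_ne hN ht1 ht2 hne') hLz'
      ?_ heq⟩
    exact hB.b1 _ _ z' hevU hz' (by rw [hLz']; exact hf1)
  · right
    obtain ⟨r, hr, hlr, hrt⟩ := hB.b2 _ _ (L N (2 * (nn N : ℂ) - z)) inferInstance hevU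
      him.symm hf1
    obtain ⟨ht1, ht2⟩ := mem_slit_real' hr
    have hLt : AnalyticAt ℂ (fun z => L1 N z - Real.pi * I) (r : ℂ) :=
      (an_L1 ht1 ht2).sub analyticAt_const
    have hLt' : deriv (fun z => L1 N z - Real.pi * I) (r : ℂ) ≠ 0 := by
      rw [deriv_sub_const]
      exact deriv_L1_ne hN hr
    refine ⟨r, hr, hK.step (N := N) han hder hLt hLt' ?_ hrt ?_⟩
    · simp only [L1_real hr, hlr]
      apply Complex.ext
      · simp
      · simp [← him]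
    · filter_upwards [heq, hevU] with δ h1 h2
      rw [← h1, L_eq_UH N h2]

/-- from a real value in `(n,2n)` the chain goes to a real value in `(n,1)` -/
theorem step_real (hN : 1 < N) (hB : BdyB N) (hS : BdyS N) (hb : Cont N ρ G b)
    (h0 : T b σ 0) {k : ℕ} {r : ℝ} (hK : Kp σ b k (r : ℂ)) (h1 : nn N < r)
    (h2 : r < 2 * nn N) :
    ∃ r' : ℝ, nn N < r' ∧ r' < 1 ∧ Kp σ b (k + 1) (r' : ℂ) := by
  have hn := nn_lt hN
  have hx0 : 0 < 2 * nn N - r := by linarith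
  have hx1 : 2 * nn N - r < nn N := by linarith
  obtain ⟨r', hr1, hr2, hr3⟩ := exists_level hN hx0 hx1
  obtain ⟨hs, ht⟩ := stepL hN hS hb (hK.tendsto h0) h1 h2
  have hevU : ∀ᶠ δ in 𝓝[UH] (0 : ℂ), b (((σ - k - 1 : ℝ) : ℂ) + δ) ∈ UH := by
    filter_upwards [ev_UH] with δ hδ using hb.maps _ (sh_UH hδ)
  have hT : T b (σ - k - 1) (r' : ℂ) :=
    hB.b3 _ _ r' hevU hr1 hr2 hs (by rw [hr3]; exact ht)
  obtain ⟨hs1, hs2⟩ := mem_slit_real hx0 (by linarith : 2 * nn N - r < 1)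
  obtain ⟨ht1, ht2⟩ := mem_slit_real (by linarith : 0 < r') hr2
  have hcast : 2 * (nn N : ℂ) - (r : ℂ) = ((2 * nn N - r : ℝ) : ℂ) := by push_cast; ring
  refine ⟨r', hr1, hr2, hK.step (N := N) (Ls := L N) (Lt := L N) ?_ ?_ (an_L ht1 ht2)
    (deriv_L_ne hN ht1 ht2 ?_) ?_ hT ?_⟩
  · rw [hcast]; exact an_L hs1 hs2
  · rw [hcast]
    refine deriv_L_ne hN hs1 hs2 ?_
    intro h
    have : 2 * nn N - r = nn N := by exact_mod_cast h
    linarith
  · intro h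
    have : r' = nn N := by exact_mod_cast h
    linarith
  · rw [hcast, L_real hx0 (by linarith), L_real (by linarith) hr2, hr3]
  · filter_upwards [ev_UH] with δ hδ using eqL' hb hδ

/-- a value `> 2n` is impossible -/
theorem step_big (hN : 1 < N) (h1a : Leaf1a) (hS : BdyS N) (hb : Cont N ρ G b) {c r : ℝ}
    (h : T b c (r : ℂ)) (h1 : 2 * nn N < r) : False := by
  have ht := rf_tendsto hb h
  have h3 := (hS.v3 (2 * nn N - r) (by linarith)).comp ht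
  have h4 := (continuous_im.tendsto _).comp h3
  have h5 : N * Real.pi ≤ Real.pi := by
    have h6 : (((ell N (2 * nn N - r) : ℂ) + N * Real.pi * I)).im = N * Real.pi := by
      simp
    rw [h6] at h4
    refine le_of_tendsto h4 ?_
    filter_upwards [ev_UH] with δ hδ
    have h7 := eqL hS hb (c := c) hδ
    have h8 := ((h1a N hN).2.1 _ (hb.maps _ (sh_UH (c := c - 1) hδ))).1
    rw [h7, conj_im] at h8
    simp only [Function.comp]
    linarith
  have := Real.pi_pos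
  nlinarith

/-- after the value `2n` comes the value `1` -/
theorem step_two (hB : BdyB N) (hS : BdyS N) (hb : Cont N ρ G b) {c : ℝ}
    (h : T b c ((2 * nn N : ℝ) : ℂ)) : T b (c - 1) 1 := by
  have ht := rf_tendsto hb h
  rw [sub_self, ofReal_zero] at ht
  refine hB.b6 _ _ ?_ ?_ ?_
  · filter_upwards [ev_UH] with δ hδ using hb.maps _ (sh_UH hδ)
  · filter_upwards [ev_UH, ht.eventually hS.s0] with δ hδ h3
    rw [eqL hS hb hδ]
    simpa using h3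
  · refine (hS.s0'.comp ht).congr' ?_
    filter_upwards [ev_UH] with δ hδ
    rw [eqL hS hb hδ, conj_re]
    rfl

theorem tau (hN : 1 < N) (hB : BdyB N) (hS : BdyS N) (hb : Cont N ρ G b) {c c' : ℝ}
    (h : T b c 1) (h' : T b c' ((2 * nn N - 1 : ℝ) : ℂ)) (j : ℕ) :
    ∃ t : ℝ, nn N < t ∧ t ≤ 1 ∧ T b (c - j) (t : ℂ) ∧
      T b (c' + j) ((2 * nn N - t : ℝ) : ℂ) := by
  have hn := nn_lt hN
  induction j with
  | zero =>
    refine ⟨1, hn.2, le_rfl, ?_, ?_⟩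
    · simpa using h
    · simpa using h'
  | succ j ih =>
    obtain ⟨t, ht1, ht2, hl, hr⟩ := ih
    obtain ⟨t', ht1', ht2', ht3'⟩ := exists_level hN (show 0 < 2 * nn N - t by linarith)
      (by linarith)
    refine ⟨t', ht1', ht2'.le, ?_, ?_⟩
    · obtain ⟨hs, hlim⟩ := stepL hN hS hb hl ht1 (by linarith)
      have hevU : ∀ᶠ δ in 𝓝[UH] (0 : ℂ), b (((c - j - 1 : ℝ) : ℂ) + δ) ∈ UH := by
        filter_upwards [ev_UH] with δ hδ using hb.maps _ (sh_UH hδ)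
      have := hB.b3 _ _ t' hevU ht1' ht2' hs (by rw [ht3']; exact hlim)
      have e1 : c - ((j + 1 : ℕ) : ℝ) = c - j - 1 := by push_cast; ring
      rw [e1]
      exact this
    · have e1 : c' + ((j + 1 : ℕ) : ℝ) - 1 = c' + j := by push_cast; ring
      have hrw : Tendsto (fun δ : ℂ => b (((c' + j : ℝ) : ℂ) + δ)) (𝓝[UH] (0 : ℂ))
          (𝓝[UH] ((2 * nn N - t : ℝ) : ℂ)) :=
        tendsto_nhdsWithin_iff.2 ⟨hr, by
          filter_upwards [ev_UH] with δ hδ using hb.maps _ (sh_UH hδ)⟩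
      have hconj : ∀ δ ∈ UH, L N (rf N b (c' + ((j + 1 : ℕ) : ℝ)) δ) =
          (starRingEnd ℂ) (L N (b (((c' + j : ℝ) : ℂ) + δ))) := by
        intro δ hδ
        have := eqL hS hb (c := c' + ((j + 1 : ℕ) : ℝ)) hδ
        rw [e1] at this
        rw [this, conj_conj]
      have hf : Tendsto (rf N b (c' + ((j + 1 : ℕ) : ℝ))) (𝓝[UH] (0 : ℂ)) (𝓝 (t' : ℂ)) := by
        refine hB.b3 _ _ t' ?_ ht1' ht2' ?_ ?_
        · filter_upwards [ev_UH] with δ hδ using rf_UH hb hδ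
        · filter_upwards [ev_UH, hrw.eventually (hS.s1 (2 * nn N - t) (by linarith)
            (by linarith))] with δ hδ h3
          rw [hconj δ hδ, conj_im]
          linarith
        · have h3 := (hS.v1 (2 * nn N - t) (by linarith) (by linarith)).comp hrw
          have h4 := (continuous_conj.tendsto _).comp h3
          rw [conj_ofReal] at h4
          rw [ht3']
          refine h4.congr' ?_
          filter_upwards [ev_UH] with δ hδ
          exact (hconj δ hδ).symm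
      have h5 : Tendsto (fun δ => 2 * (nn N : ℂ) -
          (starRingEnd ℂ) (rf N b (c' + ((j + 1 : ℕ) : ℝ)) δ)) (𝓝[UH] (0 : ℂ))
          (𝓝 (2 * (nn N : ℂ) - (starRingEnd ℂ) (t' : ℂ))) :=
        tendsto_const_nhds.sub ((continuous_conj.tendsto _).comp hf)
      rw [conj_ofReal] at h5
      have e2 : ((2 * nn N - t' : ℝ) : ℂ) = 2 * (nn N : ℂ) - (t' : ℂ) := by push_cast; ring
      rw [e2]
      refine h5.congr fun δ => ?_
      rw [conj_rf]
      ring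

/-- the limit at a real point of modulus `> ρ` -/
theorem T_eq (hG : GF N ρ G) (hb : Cont N ρ G b) {c : ℝ} (hc : ρ < ‖(c : ℂ)‖) {z : ℂ}
    (h : T b c z) : z = (nn N : ℂ) + G (c : ℂ) := by
  have hopen : IsOpen {s : ℂ | ρ < ‖s‖} := isOpen_lt continuous_const continuous_norm
  have hcont : ContinuousAt G (c : ℂ) :=
    (hG.an.differentiableAt (hopen.mem_nhds hc)).continuousAt
  have hsh : Tendsto (fun δ : ℂ => (c : ℂ) + δ) (𝓝[UH] (0 : ℂ)) (𝓝 (c : ℂ)) := by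
    have : Tendsto (fun δ : ℂ => (c : ℂ) + δ) (𝓝 (0 : ℂ)) (𝓝 ((c : ℂ) + 0)) :=
      tendsto_const_nhds.add tendsto_id
    rw [add_zero] at this
    exact this.mono_left nhdsWithin_le_nhds
  have h1 : Tendsto (fun δ : ℂ => (nn N : ℂ) + G ((c : ℂ) + δ)) (𝓝[UH] (0 : ℂ))
      (𝓝 ((nn N : ℂ) + G (c : ℂ))) := tendsto_const_nhds.add (hcont.tendsto.comp hsh)
  refine tendsto_nhds_unique h (h1.congr' ?_)
  filter_upwards [ev_UH, hsh.eventually (hopen.mem_nhds hc)] with δ hδ h2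
  exact (hb.ext _ (sh_UH hδ) h2).symm

theorem two_sigma (hN : 1 < N) (hG : GF N ρ G) (hB : BdyB N) (hS : BdyS N)
    (hb : Cont N ρ G b) {c c' : ℝ}
    (h : T b c 1) (h' : T b c' ((2 * nn N - 1 : ℝ) : ℂ)) : c = -c' := by
  obtain ⟨j, hj⟩ := exists_nat_gt (ρ + |c| + |c'|)
  have hρ := hG.hρ
  obtain ⟨t, -, -, h1, h2⟩ := tau hN hB hS hb h h' j
  have a1 := abs_nonneg c
  have a2 := abs_nonneg c'
  have n1 : ρ < ‖((c - j : ℝ) : ℂ)‖ := by
    rw [Complex.norm_real, Real.norm_eq_abs]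
    have := neg_abs_le (c - j)
    have := le_abs_self c
    linarith
  have n2 : ρ < ‖((c' + j : ℝ) : ℂ)‖ := by
    rw [Complex.norm_real, Real.norm_eq_abs]
    have := le_abs_self (c' + j)
    have := neg_abs_le c'
    linarith
  have e1 := T_eq hG hb n1 h1
  have e2 := T_eq hG hb n2 h2
  have e3 : G (-((c' + j : ℝ) : ℂ)) = -G ((c' + j : ℝ) : ℂ) := hG.odd _ n2
  have e4 : G ((c - j : ℝ) : ℂ) = G (-((c' + j : ℝ) : ℂ)) := by
    rw [e3]
    push_cast at e1 e2 ⊢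
    linear_combination -e1 - e2
  have e5 := hG.inj n1 (show ρ < ‖-((c' + j : ℝ) : ℂ)‖ by rw [norm_neg]; exact n2) e4
  have e6 : c - j = -(c' + j) := by exact_mod_cast e5
  linarith

/-- No chain function at a point where `n + G` is analytic. -/
def Growth : Prop := ∀ {N ρ σ : ℝ} {G b e Ψ : ℂ → ℂ} {k : ℕ}, GF N ρ G → Cont N ρ G b →
  End N σ b e → Tendsto (fun δ : ℂ => b ((σ : ℂ) + δ)) (𝓝[UH] 0) (𝓝 0) →
  ρ < ‖(σ : ℂ) - k‖ → AnalyticAt ℂ Ψ 0 → deriv Ψ 0 ≠ 0 →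
  (∀ᶠ δ in 𝓝[UH] (0 : ℂ), b ((σ : ℂ) - k + δ) = Ψ (b ((σ : ℂ) + δ))) → False

theorem exists_big (σ ρ : ℝ) (k : ℕ) : ∃ j : ℕ, k ≤ j ∧ ρ < ‖(σ : ℂ) - j‖ := by
  obtain ⟨j, hj⟩ := exists_nat_gt (ρ + |σ|)
  refine ⟨max j k, le_max_right _ _, ?_⟩
  have e1 : (σ : ℂ) - ((max j k : ℕ) : ℂ) = ((σ - ((max j k : ℕ) : ℝ) : ℝ) : ℂ) := by
    rw [ofReal_sub, ofReal_natCast]
  rw [e1, Complex.norm_real, Real.norm_eq_abs]
  have h1 := neg_abs_le (σ - ((max j k : ℕ) : ℝ))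
  have h2 := le_abs_self σ
  have h3 : (j : ℝ) ≤ ((max j k : ℕ) : ℝ) := by exact_mod_cast le_max_left _ _
  linarith

theorem start (hN : 1 < N) (hb : Cont N ρ G b) {b1 : ℂ} (hb1 : b1 ∈ UH)
    (hL : L N b1 = (ell N (2 * nn N) : ℂ) + Real.pi * I)
    (hlim : Tendsto (fun δ : ℂ => b ((σ : ℂ) - 1 + δ)) (𝓝[UH] 0) (𝓝 b1)) : Kp σ b 1 b1 := by
  have hn := nn_lt hN
  have h1 : (1 : ℝ) < 2 * nn N := by linarith
  obtain ⟨hs1, hs2⟩ := mem_slit_real' h1
  have hcast : ((2 * nn N : ℝ) : ℂ) = 2 * (nn N : ℂ) := by push_cast; rfl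
  have hi : 0 < b1.im := hb1
  obtain ⟨ht1, ht2⟩ := mem_slit_of_im hi.ne'
  have hne : b1 ≠ (nn N : ℂ) := by
    intro h
    have := congrArg Complex.im h
    rw [ofReal_im] at this
    linarith
  have hW : AnalyticAt ℂ (fun v => L1 N (2 * (nn N : ℂ) - v) + Real.pi * I) 0 := by
    refine AnalyticAt.add ?_ analyticAt_const
    refine AnalyticAt.fun_comp ?_ (analyticAt_const.sub analyticAt_id)
    rw [sub_zero, ← hcast]
    exact an_L1 hs1 hs2
  have hWd : HasDerivAt (fun v => L1 N (2 * (nn N : ℂ) - v) + Real.pi * I)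
      (deriv (L1 N) ((2 * nn N : ℝ) : ℂ) * (-1)) 0 := by
    refine HasDerivAt.add_const _ ?_
    have e1 : HasDerivAt (fun v : ℂ => 2 * (nn N : ℂ) - v) (-1) 0 := by
      simpa using (hasDerivAt_id (0 : ℂ)).const_sub (2 * (nn N : ℂ))
    have e2 : HasDerivAt (L1 N) (deriv (L1 N) ((2 * nn N : ℝ) : ℂ)) (2 * (nn N : ℂ) - 0) := by
      rw [sub_zero, ← hcast]
      exact (an_L1 hs1 hs2).differentiableAt.hasDerivAt
    exact e2.comp (0 : ℂ) e1
  obtain ⟨Φ, hΦ, hΦz, hΦ', hΦe⟩ := lift (l := 𝓝[UH] (0 : ℂ)) (Ls := L N)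
    (f := fun δ => b ((σ : ℂ) - 1 + δ)) (x := fun δ => b ((σ : ℂ) + δ)) hW
    (by rw [hWd.deriv]; exact mul_ne_zero (deriv_L1_ne hN h1) (by norm_num)) (an_L ht1 ht2)
    (deriv_L_ne hN ht1 ht2 hne)
    (by rw [hL, sub_zero, ← hcast, L1_real h1]) hlim
    (by
      filter_upwards [ev_UH] with δ hδ
      have h2 := eqL' hb (c := σ) hδ
      have h3 : ((σ - 1 : ℝ) : ℂ) = (σ : ℂ) - 1 := by push_cast; rfl
      rw [h3] at h2
      rw [h2]
      have h4 : 0 < (b ((σ : ℂ) + δ)).im := hb.maps _ (sh_UH hδ)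
      exact L_eq_LH N (by simpa using h4))
  refine ⟨Φ, hΦ, hΦz, hΦ', ?_⟩
  filter_upwards [hΦe] with δ h
  rw [← h]
  push_cast
  rfl

/-- leaf 4b from the growth lemma -/
theorem leaf4b_of (hgr : Growth) (h1a : Leaf1a) (h1b : Leaf1b) (h1c : Leaf1c) (h4a : Leaf4a) :
    Leaf4b := by
  intro N ρ σ G b e hG hb _ he
  have hN := hG.hN
  have hB := h1b N hN
  have hS := h1c N hN
  have hn := nn_lt hN
  obtain ⟨h0, b1, hb1, hL1, hlim1⟩ := h4a N ρ σ G b e hG hb he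
  have hT0 : T b σ 0 := h0
  have hK1 : Kp σ b 1 b1 := start hN hb hb1 hL1 hlim1
  -- no infinite chain
  have hno : ∀ k : ℕ, (∀ j, k ≤ j → ∃ z, Kp σ b j z) → False := by
    intro k hk
    obtain ⟨j, hj1, hj2⟩ := exists_big σ ρ k
    obtain ⟨z, Ψ, hΨ, -, hΨ', hΨe⟩ := hk j hj1
    exact hgr hG hb he h0 hj2 hΨ hΨ' hΨe
  -- first exit from the upper half plane
  have hexit : ∃ k : ℕ, 1 ≤ k ∧ ∃ r : ℝ, 1 < r ∧ Kp σ b k (r : ℂ) := by
    by_contra hcon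
    push Not at hcon
    have hall : ∀ j : ℕ, ∃ z ∈ UH, Kp σ b (j + 1) z := by
      intro j
      induction j with
      | zero => exact ⟨b1, hb1, hK1⟩
      | succ j ih =>
        obtain ⟨z, hz, hK⟩ := ih
        rcases step_UH hN h1a hB hS hb hT0 hK hz with h | ⟨r, hr, hKr⟩
        · exact h
        · exact absurd hKr (hcon (j + 1 + 1) (by omega) r hr)
    refine hno 1 fun j hj => ?_
    obtain ⟨z, -, hK⟩ := hall (j - 1)
    rw [Nat.sub_add_cancel hj] at hK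
    exact ⟨z, hK⟩
  obtain ⟨M, hM, r, hr, hKr⟩ := hexit
  have hTr : T b (σ - M) (r : ℂ) := hKr.tendsto hT0
  rcases lt_trichotomy r (2 * nn N) with hlt | heq | hgt
  · exfalso
    have hall : ∀ j : ℕ, ∃ t : ℝ, nn N < t ∧ t < 2 * nn N ∧ Kp σ b (M + j) (t : ℂ) := by
      intro j
      induction j with
      | zero => exact ⟨r, by linarith, hlt, hKr⟩
      | succ j ih =>
        obtain ⟨t, ht1, ht2, hK⟩ := ih
        obtain ⟨t', g1, g2, g3⟩ := step_real hN hB hS hb hT0 hK ht1 ht2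
        exact ⟨t', g1, by linarith, g3⟩
    refine hno M fun j hj => ?_
    obtain ⟨t, -, -, hK⟩ := hall (j - M)
    rw [Nat.add_sub_cancel' hj] at hK
    exact ⟨_, hK⟩
  · subst heq
    have h1 : T b (σ - M - 1) 1 := step_two hB hS hb hTr
    have h2 : T b (σ + 1) ((2 * nn N - 1 : ℝ) : ℂ) := by
      have h3 : Tendsto (fun δ : ℂ => 2 * (nn N : ℂ) - 1 + e δ) (𝓝[UH] (0 : ℂ))
          (𝓝 (2 * (nn N : ℂ) - 1 + e 0)) :=
        (tendsto_const_nhds.add he.an.continuousAt.tendsto).mono_left nhdsWithin_le_nhds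
      rw [he.zero, add_zero] at h3
      have h4 : ((2 * nn N - 1 : ℝ) : ℂ) = 2 * (nn N : ℂ) - 1 := by push_cast; rfl
      rw [h4]
      refine h3.congr' ?_
      filter_upwards [he.eq] with δ hδ
      rw [← hδ]
      push_cast
      rfl
    have h5 := two_sigma hN hG hB hS hb h1 h2
    obtain ⟨Ψ, hΨ, hΨz, hΨ', hΨe⟩ := hKr
    refine ⟨M, fun v => 2 * (nn N : ℂ) - Ψ v, hM, by linarith, analyticAt_const.sub hΨ, ?_, ?_, ?_⟩
    · show 2 * (nn N : ℂ) - Ψ 0 = 0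
      rw [hΨz]; push_cast; ring
    · rw [deriv_const_sub]
      exact neg_ne_zero.2 hΨ'
    · filter_upwards [hΨe] with δ hδ
      rw [hδ]
  · exact (step_big hN h1a hS hb hTr hgt).elim

end

/-- **H4-4b** (growth lemma by helper722). -/
theorem leaf4b (h1a : Leaf1a) (h1b : Leaf1b) (h1c : Leaf1c) (h4a : Leaf4a) : Leaf4b :=
  leaf4b_of (fun hG hb he h0 hk hΨ hΨ' hΨe => growth hG hb he h0 hk hΨ hΨ' hΨe) h1a h1b h1c h4a

end Crest.Agent.R102.H4L4b297
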