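import Mathlib

/-!
Row 102, block [H4], section 4 of the document `C_H4_148` (helper148): the monodromy argument.
If the germ `η` at `0` satisfies `Q (A x) = η x`, `Q (H (A x)) = η (-x)` on a small lower half disc,
`Q y = y ^ N (1 - y)` (principal branches), `A → 0`, `H` a local biholomorphism at `0`, and `N` is
not an integer, then `η'' 0 = 0`.
-/

set_option autoImplicit false

namespace Crest.Agent.R102.H4mono435

open Complex Set Filter Topology Metric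

/-- equivariance of the time reversal germ under a non-trivial rotation kills the second
derivative. -/
theorem deriv2_of_equivariant {η σ : ℂ → ℂ} (hη : AnalyticAt ℂ η 0) (h0 : η 0 = 0)
    (h1 : deriv η 0 ≠ 0) {ω : ℂ} (hω0 : ω ≠ 0) (hω : ω ≠ 1) (hσ : AnalyticAt ℂ σ 0)
    (hση : ∀ᶠ x in 𝓝 (0 : ℂ), σ (η x) = η (-x))
    (hσω : ∃ᶠ z in 𝓝[≠] (0 : ℂ), σ (ω * z) = ω * σ z) : deriv (deriv η) 0 = 0 := by
  -- first: `σ (ω z) = ω σ z` near `0`
  have hm : AnalyticAt ℂ (fun z : ℂ => σ (ω * z)) 0 := by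
    have h2 : AnalyticAt ℂ σ ((fun z : ℂ => ω * z) 0) := by simpa using hσ
    exact h2.comp (analyticAt_const.mul analyticAt_id)
  have hr : AnalyticAt ℂ (fun z : ℂ => ω * σ z) 0 := analyticAt_const.mul hσ
  have he : ∀ᶠ z in 𝓝 (0 : ℂ), σ (ω * z) = ω * σ z :=
    (hm.frequently_eq_iff_eventually_eq hr).1 hσω
  have hσd : ∀ᶠ z in 𝓝 (0 : ℂ), DifferentiableAt ℂ σ z :=
    hσ.eventually_analyticAt.mono fun z hz => hz.differentiableAt
  have hηd : ∀ᶠ z in 𝓝 (0 : ℂ), DifferentiableAt ℂ η z :=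
    hη.eventually_analyticAt.mono fun z hz => hz.differentiableAt
  have hσ2 : HasDerivAt (deriv σ) (deriv (deriv σ) 0) 0 := hσ.deriv.differentiableAt.hasDerivAt
  have hη2 : HasDerivAt (deriv η) (deriv (deriv η) 0) 0 := hη.deriv.differentiableAt.hasDerivAt
  have hlin : Tendsto (fun z : ℂ => ω * z) (𝓝 0) (𝓝 0) := by
    have : Continuous fun z : ℂ => ω * z := by fun_prop
    simpa using this.tendsto 0
  have hneg : Tendsto (fun z : ℂ => -z) (𝓝 0) (𝓝 0) := by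
    have : Continuous fun z : ℂ => -z := by fun_prop
    simpa using this.tendsto 0
  have hηt : Tendsto η (𝓝 0) (𝓝 0) := by
    simpa [h0] using hη.continuousAt.tendsto
  -- second derivative of `σ` vanishes
  have hs2 : deriv (deriv σ) 0 = 0 := by
    have e1 : ∀ᶠ z in 𝓝 (0 : ℂ), deriv σ (ω * z) * ω = ω * deriv σ z := by
      filter_upwards [he.eventually_nhds, hlin.eventually hσd, hσd] with z hz hz1 hz2
      have d1 : HasDerivAt (fun z : ℂ => σ (ω * z)) (deriv σ (ω * z) * ω) z := by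
        have := hz1.hasDerivAt
        have h3 : HasDerivAt (fun z : ℂ => ω * z) ω z := by
          simpa using (hasDerivAt_id z).const_mul ω
        exact this.comp z h3
      have d2 : HasDerivAt (fun z : ℂ => ω * σ z) (ω * deriv σ z) z := hz2.hasDerivAt.const_mul ω
      exact (d1.congr_of_eventuallyEq (hz.mono fun _ h => h.symm)).unique d2
    have e2 : ∀ᶠ z in 𝓝 (0 : ℂ), deriv σ (ω * z) = deriv σ z := by
      filter_upwards [e1] with z hz
      have : ω * (deriv σ (ω * z)) = ω * deriv σ z := by rw [← hz]; ring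
      exact mul_left_cancel₀ hω0 this
    have d1 : HasDerivAt (fun z : ℂ => deriv σ (ω * z)) (deriv (deriv σ) 0 * ω) 0 := by
      have h3 : HasDerivAt (fun z : ℂ => ω * z) ω 0 := by
        simpa using (hasDerivAt_id (0 : ℂ)).const_mul ω
      have h4 : HasDerivAt (deriv σ) (deriv (deriv σ) 0) ((fun z : ℂ => ω * z) 0) := by
        simpa using hσ2
      exact h4.comp 0 h3
    have := (d1.congr_of_eventuallyEq (e2.mono fun _ h => h.symm)).unique hσ2
    have h5 : deriv (deriv σ) 0 * (ω - 1) = 0 := by linear_combination this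
    rcases mul_eq_zero.1 h5 with h | h
    · exact h
    · exact absurd (sub_eq_zero.1 h) hω
  -- first derivative identity near zero
  have e1 : ∀ᶠ x in 𝓝 (0 : ℂ), deriv σ (η x) * deriv η x = -deriv η (-x) := by
    filter_upwards [hση.eventually_nhds, hηt.eventually hσd, hηd, hneg.eventually hηd]
      with x hx hx1 hx2 hx3
    have d1 : HasDerivAt (fun x : ℂ => σ (η x)) (deriv σ (η x) * deriv η x) x :=
      hx1.hasDerivAt.comp x hx2.hasDerivAt
    have d2 : HasDerivAt (fun x : ℂ => η (-x)) (deriv η (-x) * (-1)) x := by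
      have h3 : HasDerivAt (fun x : ℂ => -x) (-1) x := hasDerivAt_neg x
      exact hx3.hasDerivAt.comp x h3
    have := (d1.congr_of_eventuallyEq (hx.mono fun _ h => h.symm)).unique d2
    rw [this]; ring
  have hs1 : deriv σ 0 = -1 := by
    have := e1.self_of_nhds
    rw [h0, neg_zero] at this
    have h5 : deriv η 0 * (deriv σ 0 + 1) = 0 := by linear_combination this
    rcases mul_eq_zero.1 h5 with h | h
    · exact absurd h h1
    · exact eq_neg_of_add_eq_zero_left h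
  have d1 : HasDerivAt (fun x : ℂ => deriv σ (η x) * deriv η x)
      (deriv (deriv σ) 0 * deriv η 0 * deriv η 0 + deriv σ (η 0) * deriv (deriv η) 0) 0 := by
    have h4 : HasDerivAt (deriv σ) (deriv (deriv σ) 0) (η 0) := by rw [h0]; exact hσ2
    exact (h4.comp 0 hη.differentiableAt.hasDerivAt).mul hη2
  have d2 : HasDerivAt (fun x : ℂ => -deriv η (-x)) (-(deriv (deriv η) 0 * (-1))) 0 := by
    have h3 : HasDerivAt (fun x : ℂ => -x) (-1) (0 : ℂ) := hasDerivAt_neg (0 : ℂ)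
    have h4 : HasDerivAt (deriv η) (deriv (deriv η) 0) ((fun x : ℂ => -x) 0) := by
      simpa using hη2
    exact (h4.comp 0 h3).neg
  have := (d1.congr_of_eventuallyEq (e1.mono fun _ h => h.symm)).unique d2
  rw [hs2, h0, hs1] at this
  linear_combination (-1 / 2) * this

/-- **Monodromy leaf** (section 4 of `C_H4_148`). -/
theorem monodromy {N : ℝ} (hN : 0 < N) (hω : cexp (2 * Real.pi * I * N) ≠ 1) {η H A : ℂ → ℂ}
    (hη : AnalyticAt ℂ η 0) (h0 : η 0 = 0) (h1 : deriv η 0 ≠ 0)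
    (hH : AnalyticAt ℂ H 0) (hH0 : H 0 = 0) (hH1 : deriv H 0 ≠ 0)
    {r : ℝ} (hr : 0 < r)
    (hAc : ContinuousOn A (ball 0 r ∩ {x | x.im < 0}))
    (hA0 : Tendsto A (𝓝[{x | x.im < 0}] 0) (𝓝 0))
    (hAim : ∀ x ∈ ball (0 : ℂ) r, x.im < 0 → (A x).im ≠ 0)
    (hHim : ∀ x ∈ ball (0 : ℂ) r, x.im < 0 → (H (A x)).im ≠ 0)
    (hQ1 : ∀ x ∈ ball (0 : ℂ) r, x.im < 0 → cexp (N * log (A x)) * (1 - A x) = η x)
    (hQ2 : ∀ x ∈ ball (0 : ℂ) r, x.im < 0 →
      cexp (N * log (H (A x))) * (1 - H (A x)) = η (-x)) :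
    deriv (deriv η) 0 = 0 := by
  -- the quotient `h = H / z` and its logarithm
  obtain ⟨h, hh⟩ : ∃ h : ℂ → ℂ, h = dslope H 0 := ⟨_, rfl⟩
  have hha : AnalyticAt ℂ h 0 := by
    rw [hh]
    obtain ⟨p, hp⟩ := hH
    exact ⟨_, hp.has_fpower_series_dslope_fslope⟩
  have hh0 : h 0 ≠ 0 := by rw [hh, dslope_same]; exact hH1
  have hHh : ∀ z : ℂ, H z = z * h z := by
    intro z
    have := sub_smul_dslope H 0 z
    rw [hH0, sub_zero, sub_zero, smul_eq_mul] at this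
    rw [hh, this]
  obtain ⟨ℓ, hℓ⟩ : ∃ ℓ : ℂ → ℂ, ℓ = fun z => log (h z / h 0) + log (h 0) := ⟨_, rfl⟩
  have hℓa : AnalyticAt ℂ ℓ 0 := by
    rw [hℓ]
    have h2 : AnalyticAt ℂ (fun z => h z / h 0) 0 := hha.div analyticAt_const hh0
    have h3 : (fun z => h z / h 0) 0 ∈ slitPlane := by
      simp only [div_self hh0]
      exact one_mem_slitPlane
    exact (h2.clog h3).add analyticAt_const
  have hℓe : ∀ᶠ z in 𝓝 (0 : ℂ), h z ≠ 0 ∧ cexp (ℓ z) = h z := by
    filter_upwards [hha.continuousAt.eventually_ne hh0] with z hz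
    refine ⟨hz, ?_⟩
    rw [hℓ]
    simp only
    rw [Complex.exp_add, exp_log (div_ne_zero hz hh0), exp_log hh0, div_mul_cancel₀ _ hh0]
  -- the time reversal germ
  obtain ⟨τ, hτ⟩ : ∃ τ : ℂ → ℂ, τ = hη.hasStrictDerivAt.localInverse _ _ _ h1 := ⟨_, rfl⟩
  have hτa : AnalyticAt ℂ τ 0 := by
    have := hη.analyticAt_localInverse h1
    rw [h0] at this
    rw [hτ]; exact this
  have hτl : ∀ᶠ x in 𝓝 (0 : ℂ), τ (η x) = x := by
    rw [hτ]; exact HasStrictDerivAt.eventually_left_inverse ..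
  have hτ0 : τ 0 = 0 := by
    have := hτl.self_of_nhds
    rwa [h0] at this
  obtain ⟨σ, hσd⟩ : ∃ σ : ℂ → ℂ, σ = fun z => η (-(τ z)) := ⟨_, rfl⟩
  have hσ : AnalyticAt ℂ σ 0 := by
    rw [hσd]
    have h2 : AnalyticAt ℂ (fun z => -(τ z)) 0 := hτa.neg
    have h3 : AnalyticAt ℂ η ((fun z => -(τ z)) 0) := by
      simpa [hτ0] using hη
    exact AnalyticAt.comp (g := η) (f := fun z => -(τ z)) h3 h2
  have hση : ∀ᶠ x in 𝓝 (0 : ℂ), σ (η x) = η (-x) := by
    filter_upwards [hτl] with x hx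
    rw [hσd]; simp only; rw [hx]
  set ω : ℂ := cexp (2 * Real.pi * I * N) with hωd
  have hω0 : ω ≠ 0 := Complex.exp_ne_zero _
  -- radii
  obtain ⟨r1, hr1, hb1⟩ := Metric.eventually_nhds_iff_ball.1
    (hℓa.eventually_analyticAt.and (hH.eventually_analyticAt.and hℓe))
  obtain ⟨r2, hr2, hb2⟩ := Metric.eventually_nhds_iff_ball.1 hσ.eventually_analyticAt
  obtain ⟨r3, hr3, hb3⟩ := Metric.eventually_nhds_iff_ball.1 (hτl.and hση)
  -- the half plane `Re ζ < -M`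
  have hlim : Tendsto (fun t : ℝ => Real.exp (-t)) atTop (𝓝 0) :=
    Real.tendsto_exp_neg_atTop_nhds_zero
  have hlim2 : Tendsto (fun t : ℝ => Real.exp (-(N * t)) * 2) atTop (𝓝 0) := by
    have h2 : Tendsto (fun t : ℝ => N * t) atTop atTop := tendsto_id.const_mul_atTop hN
    have h3 := (Real.tendsto_exp_neg_atTop_nhds_zero.comp h2).mul_const 2
    simpa using h3
  obtain ⟨M, hM0, hM1, hM2⟩ : ∃ M : ℝ, 0 < M ∧ Real.exp (-M) < r1 ∧
      Real.exp (-(N * M)) * 2 < r2 := by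
    have := ((eventually_gt_atTop (0 : ℝ)).and ((hlim.eventually (gt_mem_nhds hr1)).and
      (hlim2.eventually (gt_mem_nhds hr2)))).exists
    exact this
  obtain ⟨HP, hHP⟩ : ∃ HP : Set ℂ, HP = {ζ : ℂ | ζ.re < -M} := ⟨_, rfl⟩
  have hexp : ∀ ζ ∈ HP, ‖cexp ζ‖ < r1 ∧ ‖cexp ζ‖ ≤ 1 := by
    intro ζ hζ
    rw [hHP] at hζ
    rw [Complex.norm_exp]
    have hζ' : ζ.re < -M := hζ
    refine ⟨lt_of_le_of_lt (Real.exp_le_exp.2 hζ'.le) hM1, ?_⟩
    exact Real.exp_le_one_iff.2 (by linarith)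
  have hz : ∀ ζ ∈ HP, ‖cexp (N * ζ) * (1 - cexp ζ)‖ < r2 := by
    intro ζ hζ
    have h2 := (hexp ζ hζ).2
    rw [hHP] at hζ
    have hζ' : ζ.re < -M := hζ
    rw [norm_mul, Complex.norm_exp]
    have h3 : ((N : ℂ) * ζ).re = N * ζ.re := by simp
    rw [h3]
    have h4 : ‖1 - cexp ζ‖ ≤ 2 := by
      calc ‖1 - cexp ζ‖ ≤ ‖(1 : ℂ)‖ + ‖cexp ζ‖ := norm_sub_le _ _
        _ ≤ 2 := by rw [norm_one]; linarith
    have h5 : Real.exp (N * ζ.re) ≤ Real.exp (-(N * M)) := by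
      apply Real.exp_le_exp.2
      nlinarith
    calc Real.exp (N * ζ.re) * ‖1 - cexp ζ‖ ≤ Real.exp (-(N * M)) * 2 :=
          mul_le_mul h5 h4 (norm_nonneg _) (Real.exp_pos _).le
      _ < r2 := hM2
  have hmem : ∀ ζ ∈ HP, cexp ζ ∈ ball (0 : ℂ) r1 := fun ζ hζ => by
    rw [mem_ball_zero_iff]; exact (hexp ζ hζ).1
  -- a base point
  have hne : (𝓝[{x : ℂ | x.im < 0}] (0 : ℂ)).NeBot := by
    rw [← mem_closure_iff_nhdsWithin_neBot]
    have : closure {z : ℂ | z.im < 0} = {z : ℂ | z.im ≤ 0} := Complex.closure_setOfPred_im_lt 0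
    rw [this]; simp
  obtain ⟨x₀, hx₀A, hx₀b, hx₀r, hx₀i⟩ : ∃ x₀ : ℂ, ‖A x₀‖ < Real.exp (-M) ∧ x₀ ∈ ball (0 : ℂ) r3 ∧
      x₀ ∈ ball (0 : ℂ) r ∧ x₀.im < 0 := by
    have e1 : ∀ᶠ x in 𝓝[{x : ℂ | x.im < 0}] (0 : ℂ), ‖A x‖ < Real.exp (-M) := by
      have h2 : Tendsto (fun x => ‖A x‖) (𝓝[{x : ℂ | x.im < 0}] (0 : ℂ)) (𝓝 0) := by
        simpa using hA0.norm
      exact h2.eventually (gt_mem_nhds (Real.exp_pos _))
    have e2 : ∀ᶠ x in 𝓝[{x : ℂ | x.im < 0}] (0 : ℂ), x ∈ ball (0 : ℂ) r3 :=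
      mem_nhdsWithin_of_mem_nhds (ball_mem_nhds _ hr3)
    have e3 : ∀ᶠ x in 𝓝[{x : ℂ | x.im < 0}] (0 : ℂ), x ∈ ball (0 : ℂ) r :=
      mem_nhdsWithin_of_mem_nhds (ball_mem_nhds _ hr)
    have e4 : ∀ᶠ x in 𝓝[{x : ℂ | x.im < 0}] (0 : ℂ), x.im < 0 := self_mem_nhdsWithin
    exact (e1.and (e2.and (e3.and e4))).exists
  have hopen : IsOpen (ball (0 : ℂ) r3 ∩ (ball (0 : ℂ) r ∩ {x : ℂ | x.im < 0})) :=
    isOpen_ball.inter (isOpen_ball.inter (isOpen_lt Complex.continuous_im continuous_const))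
  have hnear : ∀ᶠ x in 𝓝 x₀, x ∈ ball (0 : ℂ) r3 ∧ x ∈ ball (0 : ℂ) r ∧ x.im < 0 :=
    hopen.mem_nhds ⟨hx₀b, hx₀r, hx₀i⟩
  have hAcx : ContinuousAt A x₀ := hAc.continuousAt
    ((isOpen_ball.inter (isOpen_lt Complex.continuous_im continuous_const)).mem_nhds
      ⟨hx₀r, hx₀i⟩)
  have hA0ne : A x₀ ≠ 0 := by
    intro hc
    apply hAim x₀ hx₀r hx₀i
    rw [hc]; simp
  have hAslit : A x₀ ∈ slitPlane := Or.inr (hAim x₀ hx₀r hx₀i)
  have hHslit : H (A x₀) ∈ slitPlane := Or.inr (hHim x₀ hx₀r hx₀i)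
  have hA1 : A x₀ ∈ ball (0 : ℂ) r1 := by
    rw [mem_ball_zero_iff]; exact hx₀A.trans hM1
  have hlogA : ContinuousAt (fun x => log (A x)) x₀ := hAcx.clog hAslit
  have hHc : ContinuousAt (fun x => H (A x)) x₀ :=
    ContinuousAt.comp (f := A) (hb1 _ hA1).2.1.continuousAt hAcx
  have hlogH : ContinuousAt (fun x => log (H (A x))) x₀ := hHc.clog hHslit
  have hℓc : ContinuousAt (fun x => ℓ (A x)) x₀ :=
    ContinuousAt.comp (f := A) (hb1 _ hA1).1.continuousAt hAcx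
  obtain ⟨κ, hκ⟩ : ∃ κ : ℂ → ℂ, κ = fun x => log (H (A x)) - log (A x) - ℓ (A x) := ⟨_, rfl⟩
  have hκc : ContinuousAt κ x₀ := by
    rw [hκ]; exact (hlogH.sub hlogA).sub hℓc
  -- `κ` takes values in `2πiℤ`
  have hκint : ∀ᶠ x in 𝓝 x₀, ∃ k : ℤ, κ x = k * (2 * Real.pi * I) := by
    have e1 : ∀ᶠ x in 𝓝 x₀, A x ∈ ball (0 : ℂ) r1 :=
      hAcx.eventually (isOpen_ball.mem_nhds hA1)
    filter_upwards [hnear, e1, hAcx.eventually_ne hA0ne] with x hx hx1 hx2
    obtain ⟨hx3, hx4⟩ := (hb1 _ hx1).2.2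
    have hHne : H (A x) ≠ 0 := by rw [hHh]; exact mul_ne_zero hx2 hx3
    have : cexp (κ x) = 1 := by
      rw [hκ]
      simp only
      rw [Complex.exp_sub, Complex.exp_sub, exp_log hHne, exp_log hx2, hx4, hHh]
      field_simp
    rw [Complex.exp_eq_one_iff] at this
    exact this
  have hκconst : ∀ᶠ x in 𝓝 x₀, κ x = κ x₀ := by
    have e1 : ∀ᶠ x in 𝓝 x₀, dist (κ x) (κ x₀) < 1 := hκc (Metric.ball_mem_nhds _ one_pos)
    obtain ⟨k₀, hk₀⟩ := hκint.self_of_nhds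
    filter_upwards [e1, hκint] with x hx1 hx2
    obtain ⟨k, hk⟩ := hx2
    rw [dist_eq_norm, hk, hk₀, ← sub_mul, norm_mul] at hx1
    have h3 : ‖(2 * Real.pi * I : ℂ)‖ = 2 * Real.pi := by
      rw [norm_mul, norm_mul, Complex.norm_I, Complex.norm_real, Complex.norm_ofNat, mul_one,
        Real.norm_of_nonneg Real.pi_pos.le]
    have h4 : ‖((k : ℂ) - k₀)‖ = |((k - k₀ : ℤ) : ℝ)| := by
      rw [← Int.cast_sub, Complex.norm_intCast]
    rw [h3, h4] at hx1
    have h5 : |((k - k₀ : ℤ) : ℝ)| < 1 := by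
      have := Real.pi_gt_three
      by_contra hc
      push Not at hc
      nlinarith
    have h6 : |k - k₀| < 1 := by
      have : ((|k - k₀| : ℤ) : ℝ) < 1 := by rw [Int.cast_abs]; exact h5
      exact_mod_cast this
    have h7 : k = k₀ := by
      have := Int.abs_lt_one_iff.1 h6
      omega
    rw [hk, hk₀, h7]
  -- the two analytic functions
  obtain ⟨F, hF⟩ : ∃ F : ℂ → ℂ, F = fun ζ => cexp (N * κ x₀) *
    (cexp (N * (ζ + ℓ (cexp ζ))) * (1 - H (cexp ζ))) := ⟨_, rfl⟩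
  obtain ⟨G, hG⟩ : ∃ G : ℂ → ℂ, G = fun ζ => σ (cexp (N * ζ) * (1 - cexp ζ)) := ⟨_, rfl⟩
  have hFa : AnalyticOnNhd ℂ F HP := by
    intro ζ hζ
    rw [hF]
    have e1 : AnalyticAt ℂ (fun ζ : ℂ => cexp ζ) ζ := analyticAt_cexp
    have e2 : AnalyticAt ℂ (fun ζ : ℂ => ℓ (cexp ζ)) ζ :=
      AnalyticAt.comp (g := ℓ) (f := cexp) (hb1 _ (hmem ζ hζ)).1 e1
    have e3 : AnalyticAt ℂ (fun ζ : ℂ => H (cexp ζ)) ζ :=
      AnalyticAt.comp (g := H) (f := cexp) (hb1 _ (hmem ζ hζ)).2.1 e1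
    have e4 : AnalyticAt ℂ (fun ζ : ℂ => (N : ℂ) * (ζ + ℓ (cexp ζ))) ζ :=
      analyticAt_const.mul (analyticAt_id.add e2)
    exact analyticAt_const.mul (e4.cexp.mul (analyticAt_const.sub e3))
  have hGa : AnalyticOnNhd ℂ G HP := by
    intro ζ hζ
    rw [hG]
    have e1 : AnalyticAt ℂ (fun ζ : ℂ => cexp (N * ζ) * (1 - cexp ζ)) ζ := by
      have : AnalyticAt ℂ (fun ζ : ℂ => (N : ℂ) * ζ) ζ := analyticAt_const.mul analyticAt_id
      exact this.cexp.mul (analyticAt_const.sub analyticAt_cexp)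
    have e2 : AnalyticAt ℂ σ ((fun ζ : ℂ => cexp (N * ζ) * (1 - cexp ζ)) ζ) :=
      hb2 _ (by rw [mem_ball_zero_iff]; exact hz ζ hζ)
    exact AnalyticAt.comp (g := σ) (f := fun ζ : ℂ => cexp (N * ζ) * (1 - cexp ζ)) e2 e1
  have hHPc : IsPreconnected HP := by
    rw [hHP]
    exact (convex_halfSpace_re_lt (-M)).isPreconnected
  have hζ₀ : log (A x₀) ∈ HP := by
    rw [hHP]
    show (log (A x₀)).re < -M
    rw [Complex.log_re, Real.log_lt_iff_lt_exp (norm_pos_iff.2 hA0ne)]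
    exact hx₀A
  have hkey : ∀ᶠ x in 𝓝 x₀, F (log (A x)) = G (log (A x)) ∧
      (log (A x) = log (A x₀) → x = x₀) := by
    have e1 : ∀ᶠ x in 𝓝 x₀, A x ∈ ball (0 : ℂ) r1 :=
      hAcx.eventually (isOpen_ball.mem_nhds hA1)
    filter_upwards [hnear, e1, hAcx.eventually_ne hA0ne, hκconst] with x hx hx1 hx2 hx3
    obtain ⟨hxr3, hxr, hxi⟩ := hx
    have q1 := hQ1 x hxr hxi
    have q2 := hQ2 x hxr hxi
    constructor
    · rw [hF, hG]
      simp only
      rw [exp_log hx2, q1, (hb3 x hxr3).2, ← q2]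
      have h5 : log (H (A x)) = κ x₀ + (log (A x) + ℓ (A x)) := by
        rw [← hx3, hκ]; ring
      have h6 : cexp (N * (κ x₀ + (log (A x) + ℓ (A x)))) =
          cexp (N * κ x₀) * cexp (N * (log (A x) + ℓ (A x))) := by
        rw [← Complex.exp_add]; congr 1; ring
      rw [h5, h6, mul_assoc]
    · intro hl
      have h5 : A x = A x₀ := by rw [← exp_log hx2, hl, exp_log hA0ne]
      have h6 : η x = η x₀ := by
        rw [← q1, h5, hQ1 x₀ hx₀r hx₀i]
      rw [← (hb3 x hxr3).1, h6, (hb3 x₀ hx₀b).1]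
  have hfreq : ∃ᶠ ζ in 𝓝[≠] (log (A x₀)), F ζ = G ζ := by
    have ht : Tendsto (fun x => log (A x)) (𝓝[≠] x₀) (𝓝[≠] (log (A x₀))) := by
      rw [tendsto_nhdsWithin_iff]
      refine ⟨hlogA.tendsto.mono_left nhdsWithin_le_nhds, ?_⟩
      have e1 := hkey.filter_mono (nhdsWithin_le_nhds (s := {x₀}ᶜ))
      filter_upwards [e1, self_mem_nhdsWithin] with x hx hx1
      intro hc
      exact hx1 (hx.2 hc)
    refine ht.frequently ?_
    exact ((hkey.filter_mono (nhdsWithin_le_nhds (s := {x₀}ᶜ))).mono fun x hx => hx.1).frequently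
  have hEq : EqOn F G HP := hFa.eqOn_of_preconnected_of_frequently_eq hGa hHPc hζ₀ hfreq
  -- monodromy
  have hmono : ∀ ζ ∈ HP, σ (ω * (cexp (N * ζ) * (1 - cexp ζ))) =
      ω * σ (cexp (N * ζ) * (1 - cexp ζ)) := by
    intro ζ hζ
    have hζ' : ζ + 2 * Real.pi * I ∈ HP := by
      rw [hHP] at hζ ⊢
      have : (ζ + 2 * Real.pi * I).re = ζ.re := by simp
      show (ζ + 2 * Real.pi * I).re < -M
      rw [this]; exact hζ
    have a1 := hEq hζ
    have a2 := hEq hζ'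
    rw [hF, hG] at a1 a2
    simp only at a1 a2
    have p1 : cexp (ζ + 2 * Real.pi * I) = cexp ζ := by
      rw [Complex.exp_add, Complex.exp_two_pi_mul_I, mul_one]
    have p2 : cexp (N * (ζ + 2 * Real.pi * I)) = ω * cexp (N * ζ) := by
      rw [hωd, ← Complex.exp_add]; congr 1; ring
    have p3 : cexp (N * (ζ + 2 * Real.pi * I + ℓ (cexp ζ))) = ω * cexp (N * (ζ + ℓ (cexp ζ))) := by
      rw [hωd, ← Complex.exp_add]; congr 1; ring
    rw [p1, p2, p3] at a2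
    rw [← a1, ← mul_assoc ω (cexp (N * ζ)) (1 - cexp ζ), ← a2]
    ring
  refine deriv2_of_equivariant hη h0 h1 hω0 hω hσ hση ?_
  have ht : Tendsto (fun t : ℝ => cexp (N * ((-t : ℝ) : ℂ)) * (1 - cexp ((-t : ℝ) : ℂ))) atTop
      (𝓝[≠] (0 : ℂ)) := by
    rw [tendsto_nhdsWithin_iff]
    constructor
    · have h2 : Tendsto (fun t : ℝ => Real.exp (-(N * t)) * (1 - Real.exp (-t))) atTop (𝓝 0) := by
        have h3 : Tendsto (fun t : ℝ => N * t) atTop atTop := tendsto_id.const_mul_atTop hN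
        have h4 := (Real.tendsto_exp_neg_atTop_nhds_zero.comp h3).mul
          ((tendsto_const_nhds (x := (1 : ℝ))).sub hlim)
        simpa using h4
      have h3 := (Complex.continuous_ofReal.tendsto (0 : ℝ)).comp h2
      rw [Complex.ofReal_zero] at h3
      refine h3.congr fun t => ?_
      simp only [Function.comp]
      push_cast
      congr 3
      ring
    · filter_upwards [eventually_gt_atTop (0 : ℝ)] with t ht0
      have : (1 - cexp ((-t : ℝ) : ℂ)) ≠ 0 := by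
        rw [← Complex.ofReal_exp, ← Complex.ofReal_one, ← Complex.ofReal_sub,
          Complex.ofReal_ne_zero]
        have : Real.exp (-t) < 1 := by
          rw [Real.exp_lt_one_iff]; linarith
        linarith
      exact mul_ne_zero (Complex.exp_ne_zero _) this
  refine ht.frequently (Eventually.frequently ?_)
  filter_upwards [eventually_gt_atTop M] with t htM
  refine hmono _ ?_
  rw [hHP]
  show (((-t : ℝ) : ℂ)).re < -M
  rw [Complex.ofReal_re]; linarith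

end Crest.Agent.R102.H4mono435
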