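import Mathlib
import Crest.Agent.R102.H4Defs_490
import Crest.Agent.R102.H4mono_435

/-!
Row 102, block [H4], leaf H4-5b: the closed chain and concavity force `N` to be an integer.
(By the monodromy theorem of `H4mono_435`; leaf H4-5a is not needed.)
-/

set_option autoImplicit false

open Complex Set Filter Topology Metric

noncomputable section

namespace Crest.Agent.R102.H4

/-- monodromy in the upper half plane -/
theorem mono_UH {N : ℝ} (hN : 0 < N) (hω : cexp (2 * Real.pi * I * N) ≠ 1) {η H A : ℂ → ℂ}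
    (hη : AnalyticAt ℂ η 0) (h0 : η 0 = 0) (h1 : deriv η 0 ≠ 0)
    (hH : AnalyticAt ℂ H 0) (hH0 : H 0 = 0) (hH1 : deriv H 0 ≠ 0)
    {r : ℝ} (hr : 0 < r)
    (hAc : ContinuousOn A (ball 0 r ∩ UH))
    (hA0 : Tendsto A (𝓝[UH] 0) (𝓝 0))
    (hAim : ∀ x ∈ ball (0 : ℂ) r, x ∈ UH → (A x).im ≠ 0)
    (hHim : ∀ x ∈ ball (0 : ℂ) r, x ∈ UH → (H (A x)).im ≠ 0)
    (hQ1 : ∀ x ∈ ball (0 : ℂ) r, x ∈ UH → cexp (N * log (A x)) * (1 - A x) = η x)
    (hQ2 : ∀ x ∈ ball (0 : ℂ) r, x ∈ UH →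
      cexp (N * log (H (A x))) * (1 - H (A x)) = η (-x)) :
    deriv (deriv η) 0 = 0 := by
  have hnegc : Continuous fun x : ℂ => -x := continuous_neg
  have hball : ∀ x ∈ ball (0 : ℂ) r, -x ∈ ball (0 : ℂ) r := by
    intro x hx
    rw [mem_ball_zero_iff] at hx ⊢
    rwa [norm_neg]
  have hmem : ∀ x : ℂ, x.im < 0 → -x ∈ UH := by
    intro x hx
    show 0 < (-x).im
    rw [neg_im]; linarith
  have hd : ∀ f : ℂ → ℂ, deriv (fun x : ℂ => f (-x)) = fun x => -deriv f (-x) := by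
    intro f
    funext x
    exact deriv_comp_neg f x
  have hη' : AnalyticAt ℂ (fun x : ℂ => η (-x)) 0 := by
    have h3 : AnalyticAt ℂ η ((fun x : ℂ => -x) 0) := by simpa using hη
    exact AnalyticAt.comp (g := η) (f := fun x : ℂ => -x) h3 analyticAt_id.neg
  have h1' : deriv (fun x : ℂ => η (-x)) 0 ≠ 0 := by
    rw [hd]; simpa using h1
  have key := H4mono435.monodromy (A := fun x => A (-x)) hN hω hη' (by simpa using h0) h1' hH hH0
    hH1 hr ?_ ?_ ?_ ?_ ?_ ?_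
  · rw [hd] at key
    have h2 : deriv (fun x : ℂ => -deriv η (-x)) 0 = deriv (deriv η) 0 := by
      have : (fun x : ℂ => -deriv η (-x)) = -(fun x : ℂ => deriv η (-x)) := rfl
      rw [this, deriv.neg, hd]
      simp
    rw [h2] at key
    exact key
  · refine hAc.comp hnegc.continuousOn ?_
    intro x hx
    exact ⟨hball x hx.1, hmem x hx.2⟩
  · refine hA0.comp ?_
    rw [tendsto_nhdsWithin_iff]
    constructor
    · have := hnegc.tendsto (0 : ℂ)
      rw [neg_zero] at this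
      exact this.mono_left nhdsWithin_le_nhds
    · filter_upwards [self_mem_nhdsWithin] with x hx
      exact hmem x hx
  · intro x hx hxi
    exact hAim _ (hball x hx) (hmem x hxi)
  · intro x hx hxi
    exact hHim _ (hball x hx) (hmem x hxi)
  · intro x hx hxi
    exact hQ1 _ (hball x hx) (hmem x hxi)
  · intro x hx hxi
    have := hQ2 _ (hball x hx) (hmem x hxi)
    simpa using this

/-- `exp (L y) = exp (N log y) (1 - y)` -/
theorem exp_L (N : ℝ) {y : ℂ} (hy : y ≠ 1) :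
    cexp (L N y) = cexp (N * log y) * (1 - y) := by
  unfold L
  rw [Complex.exp_add, exp_log (sub_ne_zero.2 (Ne.symm hy))]

theorem ne_one_of_im {y : ℂ} (hy : y.im ≠ 0) : y ≠ 1 := by
  rintro rfl
  exact hy (by simp)

/-- the germ `g` -/
def gg (N : ℝ) (e : ℂ → ℂ) (δ : ℂ) : ℂ := cexp (N * log (1 - e δ)) * e δ

theorem leaf5b (h4a : Leaf4a) : Leaf5b := by
  intro N ρ σ G b e Ψ M hG hb hs he hc
  obtain ⟨hA0, -⟩ := h4a N ρ σ G b e hG hb he
  have hN1 : 1 < N := hG.hN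
  have hN : 0 < N := by linarith
  obtain ⟨e1, he1, hde1⟩ := he.d1
  obtain ⟨e2, he2, hde2⟩ := he.d2
  -- analyticity of `g`
  have hslit : (1 : ℂ) - e 0 ∈ slitPlane := by
    rw [he.zero, sub_zero]; exact one_mem_slitPlane
  have hlog : AnalyticAt ℂ (fun δ => log (1 - e δ)) 0 :=
    (analyticAt_const.sub he.an).clog hslit
  have hga : AnalyticAt ℂ (gg N e) 0 := ((analyticAt_const.mul hlog).cexp).mul he.an
  have hg0 : gg N e 0 = 0 := by unfold gg; rw [he.zero, mul_zero]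
  -- derivatives
  have hen : ∀ᶠ δ in 𝓝 (0 : ℂ), AnalyticAt ℂ e δ ∧ (1 : ℂ) - e δ ∈ slitPlane := by
    refine he.an.eventually_analyticAt.and ?_
    have hc1 : ContinuousAt (fun δ => (1 : ℂ) - e δ) 0 :=
      continuousAt_const.sub he.an.continuousAt
    exact hc1.eventually (isOpen_slitPlane.mem_nhds hslit)
  have hderiv : ∀ᶠ δ in 𝓝 (0 : ℂ), deriv (gg N e) δ =
      cexp (N * log (1 - e δ)) * (N * (-deriv e δ / (1 - e δ))) * e δ +
        cexp (N * log (1 - e δ)) * deriv e δ := by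
    filter_upwards [hen] with δ hδ
    have d1 : HasDerivAt e (deriv e δ) δ := hδ.1.differentiableAt.hasDerivAt
    have d2 : HasDerivAt (fun δ => (1 : ℂ) - e δ) (-deriv e δ) δ := d1.const_sub 1
    have d3 : HasDerivAt (fun δ => log (1 - e δ)) (-deriv e δ / (1 - e δ)) δ := d2.clog hδ.2
    exact (((d3.const_mul (N : ℂ)).cexp).mul d1).deriv
  have hd0 : deriv (gg N e) 0 = (e1 : ℂ) := by
    rw [hderiv.self_of_nhds, he.zero, hde1]
    simp
  have hdd : deriv (deriv (gg N e)) 0 = ((e2 - 2 * N * e1 ^ 2 : ℝ) : ℂ) := by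
    rw [Filter.EventuallyEq.deriv_eq hderiv]
    have d1 : HasDerivAt e (e1 : ℂ) 0 := by
      rw [← hde1]; exact he.an.differentiableAt.hasDerivAt
    have d1' : HasDerivAt (deriv e) (e2 : ℂ) 0 := by
      rw [← hde2]; exact he.an.deriv.differentiableAt.hasDerivAt
    have d2 : HasDerivAt (fun δ => (1 : ℂ) - e δ) (-(e1 : ℂ)) 0 := d1.const_sub 1
    have d3 : HasDerivAt (fun δ => log (1 - e δ)) (-(e1 : ℂ) / (1 - e 0)) 0 := d2.clog hslit
    have d4 := (d3.const_mul (N : ℂ)).cexp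
    have h10 : (1 : ℂ) - e 0 ≠ 0 := slitPlane_ne_zero hslit
    have d5 := (d1'.neg.div d2 h10).const_mul (N : ℂ)
    have d6 := ((d4.mul d5).mul d1).add (d4.mul d1')
    refine d6.deriv.trans ?_
    simp only [Pi.neg_apply, Pi.mul_apply, Pi.div_apply, he.zero, hde1, sub_zero, log_one,
      mul_zero, Complex.exp_zero, div_one, one_mul, mul_one]
    push_cast
    ring
  by_contra hcon
  have hω : cexp (2 * Real.pi * I * N) ≠ 1 := by
    intro h
    rw [Complex.exp_eq_one_iff] at h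
    obtain ⟨k, hk⟩ := h
    have h2 : (2 * Real.pi * I : ℂ) ≠ 0 := Complex.two_pi_I_ne_zero
    have h3 : (N : ℂ) = k := by
      have : (2 * Real.pi * I : ℂ) * N = (2 * Real.pi * I) * k := by rw [hk]; ring
      exact mul_left_cancel₀ h2 this
    have h4 : N = k := by exact_mod_cast h3
    have h5 : 0 < k := by
      have : (0 : ℝ) < k := by rw [← h4]; exact hN
      exact_mod_cast this
    apply hcon
    refine ⟨k.toNat, ?_⟩
    rw [h4]
    have : ((k.toNat : ℤ) : ℝ) = (k : ℝ) := by rw [Int.toNat_of_nonneg h5.le]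
    exact_mod_cast this.symm
  -- neighbourhoods
  have hrealg : ∀ᶠ δ in 𝓝 (0 : ℂ), gg N e ((starRingEnd ℂ) δ) = (starRingEnd ℂ) (gg N e δ) := by
    filter_upwards [he.real, hen] with δ hδ hδ2
    unfold gg
    rw [hδ]
    have : (1 : ℂ) - (starRingEnd ℂ) (e δ) = (starRingEnd ℂ) (1 - e δ) := by simp
    rw [this, log_conj _ (slitPlane_arg_ne_pi hδ2.2), map_mul, ← Complex.exp_conj]
    simp
  obtain ⟨U, hUo, h0U, hU⟩ : ∃ r : ℝ, 0 < r ∧ (∀ δ ∈ ball (0 : ℂ) r,
      gg N e ((starRingEnd ℂ) δ) = (starRingEnd ℂ) (gg N e δ)) ∧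
      (∀ δ ∈ ball (0 : ℂ) r, δ ∈ UH → b ((σ : ℂ) + 1 + δ) = 2 * (nn N : ℂ) - 1 + e δ ∧
        2 * (nn N : ℂ) - b ((σ : ℂ) - M + δ) = Ψ (b ((σ : ℂ) + δ))) := by
    obtain ⟨r1, hr1, hb1⟩ := Metric.eventually_nhds_iff_ball.1 hrealg
    have h2 := he.eq.and hc.eq
    rw [eventually_nhdsWithin_iff] at h2
    obtain ⟨r2, hr2, hb2⟩ := Metric.eventually_nhds_iff_ball.1 h2
    refine ⟨min r1 r2, lt_min hr1 hr2, fun δ hδ => hb1 δ ?_, fun δ hδ hδU => hb2 δ ?_ hδU⟩
    · exact ball_subset_ball (min_le_left _ _) hδ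
    · exact ball_subset_ball (min_le_right _ _) hδ
  have hmemσ : ∀ (x : ℝ) (δ : ℂ), δ ∈ UH → (x : ℂ) + δ ∈ UH := by
    intro x δ hδ
    show 0 < ((x : ℂ) + δ).im
    rw [add_im, ofReal_im, zero_add]; exact hδ
  have hQ : ∀ δ ∈ ball (0 : ℂ) U, δ ∈ UH →
      cexp (L N (b ((σ : ℂ) + δ))) = gg N e δ := by
    intro δ hδ hδU
    have h1 := hb.eq _ (hmemσ σ δ hδU)
    have h2 : (σ : ℂ) + δ + 1 = (σ : ℂ) + 1 + δ := by ring
    rw [h1, h2, (hU δ hδ hδU).1]
    have h3 : 2 * (nn N : ℂ) - (2 * (nn N : ℂ) - 1 + e δ) = 1 - e δ := by ring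
    have h4 : (1 : ℂ) - e δ ≠ 1 := by
      rw [← h3, ← (hU δ hδ hδU).1, ← h2]
      apply ne_one_of_im
      have h5 : (σ : ℂ) + δ + 1 ∈ UH := by
        rw [h2]
        have := hmemσ (σ + 1) δ hδU
        push_cast at this
        exact this
      have h6 : 0 < (b ((σ : ℂ) + δ + 1)).im := hb.maps _ h5
      have h7 : (2 * (nn N : ℂ) - b ((σ : ℂ) + δ + 1)).im = -(b ((σ : ℂ) + δ + 1)).im := by
        simp
      rw [h7]
      exact neg_ne_zero.2 h6.ne'
    rw [h3, exp_L N h4]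
    unfold gg
    ring
  have hreflΨ : ∀ δ ∈ ball (0 : ℂ) U, δ ∈ UH →
      Ψ (b ((σ : ℂ) + δ)) = (starRingEnd ℂ) (b ((σ : ℂ) + -(starRingEnd ℂ) δ)) := by
    intro δ hδ hδU
    have hδ' : -(starRingEnd ℂ) δ ∈ UH := by
      show 0 < (-(starRingEnd ℂ) δ).im
      rw [neg_im, conj_im, neg_neg]; exact hδU
    have h1 := hs.refl _ (hmemσ σ _ hδ')
    have h2 : -(starRingEnd ℂ) ((σ : ℂ) + -(starRingEnd ℂ) δ) = (σ : ℂ) - M + δ := by
      have h3 : (M : ℂ) = 2 * (σ : ℂ) := by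
        have := hc.hσ
        have h4 : ((M : ℝ) : ℂ) = ((2 * σ : ℝ) : ℂ) := by rw [this]
        push_cast at h4
        exact h4
      rw [h3, map_add, map_neg, conj_conj, conj_ofReal]
      ring
    rw [h2] at h1
    rw [← (hU δ hδ hδU).2, h1]
    ring
  have key := mono_UH (N := N) (η := gg N e) (H := Ψ) (A := fun δ => b ((σ : ℂ) + δ)) (r := U)
    hN hω hga hg0 (by rw [hd0]; exact_mod_cast he1.ne') hc.an hc.zero hc.der hUo ?_ hA0 ?_ ?_ ?_ ?_
  · rw [hdd] at key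
    have : e2 - 2 * N * e1 ^ 2 = 0 := by exact_mod_cast key
    nlinarith [sq_nonneg e1, mul_pos hN (pow_pos he1 2)]
  · refine ContinuousOn.mono (s := UH) ?_ inter_subset_right
    refine hb.an.continuousOn.comp (by fun_prop) ?_
    intro δ hδ
    exact hmemσ σ δ hδ
  · intro x _ hxU
    have : 0 < (b ((σ : ℂ) + x)).im := hb.maps _ (hmemσ σ x hxU)
    exact this.ne'
  · intro x hx hxU
    rw [hreflΨ x hx hxU, conj_im]
    have hδ' : -(starRingEnd ℂ) x ∈ UH := by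
      show 0 < (-(starRingEnd ℂ) x).im
      rw [neg_im, conj_im, neg_neg]; exact hxU
    have : 0 < (b ((σ : ℂ) + -(starRingEnd ℂ) x)).im := hb.maps _ (hmemσ σ _ hδ')
    exact neg_ne_zero.2 this.ne'
  · intro x hx hxU
    rw [← hQ x hx hxU, exp_L]
    apply ne_one_of_im
    have : 0 < (b ((σ : ℂ) + x)).im := hb.maps _ (hmemσ σ x hxU)
    exact this.ne'
  · intro x hx hxU
    have hδ' : -(starRingEnd ℂ) x ∈ UH := by
      show 0 < (-(starRingEnd ℂ) x).im
      rw [neg_im, conj_im, neg_neg]; exact hxU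
    have hball' : -(starRingEnd ℂ) x ∈ ball (0 : ℂ) U := by
      rw [mem_ball_zero_iff] at hx ⊢
      rwa [norm_neg, Complex.norm_conj]
    have him : 0 < (b ((σ : ℂ) + -(starRingEnd ℂ) x)).im := hb.maps _ (hmemσ σ _ hδ')
    rw [hreflΨ x hx hxU]
    have h1 := hQ _ hball' hδ'
    rw [exp_L N (ne_one_of_im him.ne')] at h1
    have harg : (b ((σ : ℂ) + -(starRingEnd ℂ) x)).arg ≠ Real.pi := by
      intro h
      rw [Complex.arg_eq_pi_iff] at h
      exact him.ne' h.2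
    have h2 : cexp (N * log ((starRingEnd ℂ) (b ((σ : ℂ) + -(starRingEnd ℂ) x)))) *
        (1 - (starRingEnd ℂ) (b ((σ : ℂ) + -(starRingEnd ℂ) x))) =
        (starRingEnd ℂ) (cexp (N * log (b ((σ : ℂ) + -(starRingEnd ℂ) x))) *
          (1 - b ((σ : ℂ) + -(starRingEnd ℂ) x))) := by
      rw [log_conj _ harg, map_mul, ← Complex.exp_conj]
      simp
    rw [h2, h1, ← h0U _ hball', map_neg, conj_conj]

end Crest.Agent.R102.H4
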