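import Crest.Agent.R102.H4Defs_490

/-! # H4-6: integer `N ≥ 2` is impossible (bookkeeping from Leaf4a, Leaf6a, 6b, 6c, Sym) -/

open Complex Set Filter Topology

namespace Crest.Agent.R102.H4L6148

open Crest.Agent.R102.H4

theorem tendsto_path : Tendsto (fun t : ℝ => (t : ℂ) * I) (𝓝[>] 0) (𝓝[UH] 0) := by
  refine tendsto_nhdsWithin_iff.2 ⟨?_, ?_⟩
  · have : Tendsto (fun t : ℝ => (t : ℂ) * I) (𝓝 0) (𝓝 (((0 : ℝ) : ℂ) * I)) :=
      (Complex.continuous_ofReal.mul continuous_const).tendsto 0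
    rw [Complex.ofReal_zero, zero_mul] at this
    exact this.mono_left nhdsWithin_le_nhds
  · filter_upwards [self_mem_nhdsWithin] with t ht
    show 0 < ((t : ℂ) * I).im
    simpa using ht

theorem lim_path {f : ℂ → ℂ} {c : ℝ} {v : ℂ}
    (h : Tendsto (fun δ : ℂ => f ((c : ℂ) + δ)) (𝓝[UH] 0) (𝓝 v)) {S : Set ℂ} (hS : IsClosed S)
    (hf : ∀ s ∈ UH, s.re = c → f s ∈ S) : v ∈ S := by
  have h1 := h.comp tendsto_path
  refine hS.mem_of_tendsto h1 ?_
  filter_upwards [self_mem_nhdsWithin] with t ht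
  have ht' : (0 : ℝ) < t := ht
  apply hf
  · show 0 < ((c : ℂ) + (t : ℂ) * I).im
    simpa using ht'
  · simp

theorem closed_re_le (a : ℝ) : IsClosed {z : ℂ | z.re ≤ a} :=
  isClosed_le Complex.continuous_re continuous_const

theorem closed_re_ge (a : ℝ) : IsClosed {z : ℂ | a ≤ z.re} :=
  isClosed_le continuous_const Complex.continuous_re

theorem closed_im_ge (a : ℝ) : IsClosed {z : ℂ | a ≤ z.im} :=
  isClosed_le continuous_const Complex.continuous_im

theorem closed_im_le (a : ℝ) : IsClosed {z : ℂ | z.im ≤ a} :=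
  isClosed_le Complex.continuous_im continuous_const

theorem contAt_L (N : ℝ) {z : ℂ} (hz : z.im ≠ 0) : ContinuousAt (L N) z := by
  have h0 : z ∈ slitPlane := Or.inr hz
  have h1 : 1 - z ∈ slitPlane := Or.inr (by simpa using hz)
  unfold L
  exact (continuousAt_const.mul (continuousAt_clog h0)).add
    ((continuousAt_const.sub continuousAt_id).clog h1)

/-- limit one step further left -/
theorem step {N ρ : ℝ} {G b : ℂ → ℂ} (hb : Cont N ρ G b) {c : ℝ} {v : ℂ} (hv : v.im ≠ 0)
    (h : Tendsto (fun δ : ℂ => b ((c : ℂ) + δ)) (𝓝[UH] 0) (𝓝 v)) :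
    Tendsto (fun δ : ℂ => L N (b (((c - 1 : ℝ) : ℂ) + δ))) (𝓝[UH] 0)
      (𝓝 (L N (2 * (nn N : ℂ) - v))) := by
  have hc : ContinuousAt (L N) (2 * (nn N : ℂ) - v) := by
    apply contAt_L
    simpa using hv
  have h1 : Tendsto (fun δ : ℂ => L N (2 * (nn N : ℂ) - b ((c : ℂ) + δ))) (𝓝[UH] 0)
      (𝓝 (L N (2 * (nn N : ℂ) - v))) :=
    hc.tendsto.comp (tendsto_const_nhds.sub h)
  refine h1.congr' ?_
  filter_upwards [self_mem_nhdsWithin] with δ hδ
  have hδ' : 0 < δ.im := hδ
  have hs : ((c - 1 : ℝ) : ℂ) + δ ∈ UH := by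
    show 0 < (((c - 1 : ℝ) : ℂ) + δ).im
    rw [Complex.add_im, Complex.ofReal_im, zero_add]
    exact hδ'
  rw [hb.eq _ hs]
  congr 3
  push_cast
  ring

theorem leaf6 (h1a : Leaf1a) (h1b : Leaf1b) (h1c : Leaf1c) (h4a : Leaf4a) (h6a : Leaf6a)
    (h6b : Leaf6b) (h6c : Leaf6c) : Leaf6 := by
  intro N ρ σ G b e Ψ M m hG hb hsym he hch hNm
  have hN : 1 < N := hG.hN
  obtain ⟨-, b1, hb1, hLb1, ht1⟩ := h4a N ρ σ G b e hG hb he
  have hb1im : 0 < b1.im := hb1
  have hσ := hch.hσ
  -- basic limits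
  have t1 : Tendsto (fun δ : ℂ => b (((σ - 1 : ℝ) : ℂ) + δ)) (𝓝[UH] 0) (𝓝 b1) := by
    refine ht1.congr fun δ => ?_
    push_cast
    rfl
  have t1L : Tendsto (fun δ : ℂ => (fun s => L N (b s)) (((σ - 1 : ℝ) : ℂ) + δ)) (𝓝[UH] 0)
      (𝓝 (L N b1)) := (contAt_L N hb1im.ne').tendsto.comp t1
  have t2L : Tendsto (fun δ : ℂ => (fun s => L N (b s)) (((σ - 2 : ℝ) : ℂ) + δ)) (𝓝[UH] 0)
      (𝓝 (L N (2 * (nn N : ℂ) - b1))) := by
    have := step hb hb1im.ne' t1
    have e2 : σ - 1 - 1 = σ - 2 := by ring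
    rw [e2] at this
    exact this
  have hLim : (L N b1).im = Real.pi := by
    rw [hLb1]
    simp
  -- `M ≠ 1`
  have hM1 : M ≠ 1 := by
    intro hM
    rw [hM] at hσ
    have hc : σ - 1 = -(1 / 2) := by
      push_cast at hσ
      linarith
    have h := lim_path (f := fun s => L N (b s)) t1L (closed_im_le 0) (fun s hs hre => by
      show (L N (b s)).im ≤ 0
      exact (hsym.im_zero s hs (by rw [hre, hc])).le)
    have h' : (L N b1).im ≤ 0 := h
    rw [hLim] at h'
    linarith [Real.pi_pos]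
  have hM2 : 2 ≤ M := by
    have := hch.hM
    omega
  have hσ1 : 1 ≤ σ := by
    have : (2 : ℝ) ≤ M := by exact_mod_cast hM2
    linarith
  -- `M = 2` forces `Re b1 = n`
  have hMeq2 : M = 2 → b1.re = nn N := by
    intro hM
    rw [hM] at hσ
    have hc : σ - 1 = 0 := by
      push_cast at hσ
      linarith
    have ha := lim_path (f := b) t1 (closed_re_le (nn N)) (fun s hs hre =>
      (hsym.re_zero s hs (by rw [hre, hc])).le)
    have hb' := lim_path (f := b) t1 (closed_re_ge (nn N)) (fun s hs hre =>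
      (hsym.re_zero s hs (by rw [hre, hc])).ge)
    exact le_antisymm ha hb'
  have hM3 : M ≠ 2 → 3 / 2 ≤ σ := by
    intro hM
    have : 3 ≤ M := by omega
    have : (3 : ℝ) ≤ M := by exact_mod_cast this
    linarith
  have hm1 : 1 < m := by
    rw [hNm] at hN
    exact_mod_cast hN
  rcases (by omega : m = 2 ∨ (m = 3 ∨ m = 4) ∨ 5 ≤ m) with h | h | h
  · -- `N = 2`
    have hN2 : N = 2 := by rw [hNm, h]; norm_num
    subst hN2
    have hnn : nn 2 = 2 / 3 := by unfold nn; norm_num
    -- `Re b1 < 0`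
    have harg1 : (Complex.arg (1 - b1)) < 0 := by
      rw [Complex.arg_neg_iff]
      simpa using hb1im
    have hre1 : b1.re < 0 := by
      by_contra hcon
      push Not at hcon
      have h2 : Complex.arg b1 ≤ Real.pi / 2 := by
        have := (Complex.abs_arg_le_pi_div_two_iff (z := b1)).2 hcon
        exact (abs_le.1 this).2
      have h3 : (L 2 b1).im = 2 * Complex.arg b1 + Complex.arg (1 - b1) := by
        simp [L, Complex.log_im]
      rw [hLim] at h3
      linarith
    have hMne2 : M ≠ 2 := by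
      intro hM
      have := hMeq2 hM
      rw [hnn] at this
      linarith
    have hσ3 := hM3 hMne2
    -- `w2 = L (2n - b1) ∈ SS 2`
    set z2 : ℂ := 2 * (nn 2 : ℂ) - b1 with hz2
    have hz2im : z2.im < 0 := by
      rw [hz2]
      simpa using hb1im
    have hz2re : 0 < z2.re := by
      rw [hz2]
      simp only [Complex.sub_re, Complex.mul_re, Complex.re_ofNat, Complex.ofReal_re,
        Complex.im_ofNat, Complex.ofReal_im, mul_zero, sub_zero]
      rw [hnn]
      linarith
    have hw2im : -Real.pi < (L 2 z2).im := by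
      have h3 : (L 2 z2).im = 2 * Complex.arg z2 + Complex.arg (1 - z2) := by
        simp [L, Complex.log_im]
      have h4 : -(Real.pi / 2) < Complex.arg z2 := by
        have := (Complex.abs_arg_lt_pi_div_two_iff (z := z2)).2 (Or.inl hz2re)
        exact (abs_lt.1 this).1
      have h5 : 0 ≤ Complex.arg (1 - z2) := by
        rw [Complex.arg_nonneg_iff]
        simpa using hz2im.le
      rw [h3]
      linarith
    have hz2c : (starRingEnd ℂ) z2 ∈ UH := by
      show 0 < ((starRingEnd ℂ) z2).im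
      rw [Complex.conj_im]
      linarith
    have hcj : L 2 z2 = (starRingEnd ℂ) (L 2 ((starRingEnd ℂ) z2)) := by
      have := (h1c 2 hN).cj _ hz2c
      rw [Complex.conj_conj] at this
      exact this
    obtain ⟨hs1, hs2, hs3⟩ := (h1a 2 hN).2.1 _ hz2c
    have hw2 : L 2 z2 ∈ SS 2 := by
      refine ⟨hw2im, ?_, ?_⟩
      · rw [hcj, Complex.conj_im]
        linarith [Real.pi_pos]
      · intro h0
        rw [hcj, Complex.conj_im, neg_eq_zero] at h0
        rw [hcj, Complex.conj_re]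
        exact hs3 h0
    obtain ⟨b2, hb2, hLb2⟩ := (h1a 2 hN).2.2 _ hw2
    have hb2im : 0 < b2.im := hb2
    obtain ⟨h7, h8⟩ := h6c b1 b2 hb1 hb2 hLb1 hLb2
    -- `b (σ - 2 + δ) → b2`
    have t2 : Tendsto (fun δ : ℂ => b (((σ - 2 : ℝ) : ℂ) + δ)) (𝓝[UH] 0) (𝓝 b2) := by
      -- transport to a filter statement
      have hev : ∀ᶠ δ in 𝓝[UH] (0 : ℂ), (fun δ : ℂ => b (((σ - 2 : ℝ) : ℂ) + δ)) δ ∈ UH := by
        filter_upwards [self_mem_nhdsWithin] with δ hδ
        apply hb.maps
        have hδ' : 0 < δ.im := hδ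
        show 0 < (((σ - 2 : ℝ) : ℂ) + δ).im
        rw [Complex.add_im, Complex.ofReal_im, zero_add]
        exact hδ'
      refine (h1b 2 hN).b1 _ _ b2 hev hb2 ?_
      rw [hLb2]
      exact t2L
    -- positions
    have hM4 : 4 ≤ M := by
      by_contra hlt
      have hM3' : M = 3 := by omega
      rw [hM3'] at hσ
      have hc : σ - 2 = -(1 / 2) := by
        push_cast at hσ
        linarith
      have hge := lim_path (f := b) t2 (closed_re_ge (nn 2)) (fun s hs hre =>
        (hsym.re_neg s hs (by rw [hre, hc]; norm_num)).le)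
      have : nn 2 ≤ b2.re := hge
      linarith
    have hM4' : M ≠ 4 := by
      intro hM
      rw [hM] at hσ
      have hc : σ - 2 = 0 := by
        push_cast at hσ
        linarith
      have hge := lim_path (f := b) t2 (closed_re_ge (nn 2)) (fun s hs hre =>
        (hsym.re_zero s hs (by rw [hre, hc])).ge)
      have : nn 2 ≤ b2.re := hge
      linarith
    have hM5 : (5 : ℝ) ≤ M := by
      have : 5 ≤ M := by omega
      exact_mod_cast this
    have t3L : Tendsto (fun δ : ℂ => (fun s => L 2 (b s)) (((σ - 2 - 1 : ℝ) : ℂ) + δ)) (𝓝[UH] 0)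
        (𝓝 (L 2 (2 * (nn 2 : ℂ) - b2))) := step hb hb2im.ne' t2
    have hge := lim_path (f := fun s => L 2 (b s)) t3L (closed_im_ge 0) (fun s hs hre => by
      show 0 ≤ (L 2 (b s)).im
      rcases lt_or_eq_of_le (by rw [hre]; linarith : -(1 / 2) ≤ s.re) with h' | h'
      · exact (hsym.im_pos s hs h').le
      · exact (hsym.im_zero s hs h'.symm).ge)
    have : 0 ≤ (L 2 (2 * (nn 2 : ℂ) - b2)).im := hge
    linarith
  · -- `N = 3, 4`
    have hN34 : N = 3 ∨ N = 4 := by
      rcases h with h | h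
      · left; rw [hNm, h]; norm_num
      · right; rw [hNm, h]; norm_num
    obtain ⟨h7, h8⟩ := h6b N b1 hN34 hb1 hLb1
    have hMne2 : M ≠ 2 := by
      intro hM
      have := hMeq2 hM
      linarith
    have hσ3 := hM3 hMne2
    have hge := lim_path (f := fun s => L N (b s)) t2L (closed_im_ge 0) (fun s hs hre => by
      show 0 ≤ (L N (b s)).im
      rcases lt_or_eq_of_le (by rw [hre]; linarith : -(1 / 2) ≤ s.re) with h' | h'
      · exact (hsym.im_pos s hs h').le
      · exact (hsym.im_zero s hs h'.symm).ge)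
    have : 0 ≤ (L N (2 * (nn N : ℂ) - b1)).im := hge
    linarith
  · -- `N ≥ 5`
    have hN5 : 5 ≤ N := by
      rw [hNm]
      exact_mod_cast h
    have h7 := h6a N b1 hN5 hb1 hLb1
    have hMne2 : M ≠ 2 := by
      intro hM
      have := hMeq2 hM
      linarith
    have hσ3 := hM3 hMne2
    have hle := lim_path (f := b) t1 (closed_re_le (nn N)) (fun s hs hre =>
      (hsym.re_pos s hs (by rw [hre]; linarith)).le)
    have : b1.re ≤ nn N := hle
    linarith

end Crest.Agent.R102.H4L6148
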