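import Mathlib
import Crest.Agent.R102.H4Defs_490

/-!
# Row 102, [H4], leaf H4-6a (helper864): for `N ≥ 5` the value `b₁` has `Re b₁ > n`.
-/

open Complex Set Filter Topology

noncomputable section

namespace Crest.Agent.R102.H4L6a864

open Crest.Agent.R102.H4

theorem L_im (N : ℝ) (z : ℂ) : (L N z).im = N * arg z + arg (1 - z) := by
  simp [L, Complex.add_im, Complex.log_im]

theorem L_re (N : ℝ) (z : ℂ) : (L N z).re = N * Real.log ‖z‖ + Real.log ‖1 - z‖ := by
  simp [L, Complex.add_re, Complex.log_re]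

/-- `cos² (3π/10) > 1/2.9`. -/
theorem cos_bound {a : ℝ} (h0 : 0 ≤ a) (h1 : a ≤ 3 * Real.pi / 10) :
    0 < Real.cos a ∧ 1 ≤ 2.9 * Real.cos a ^ 2 := by
  have hpi := Real.pi_pos
  have hc : Real.cos (3 * Real.pi / 10) ≤ Real.cos a :=
    Real.cos_le_cos_of_nonneg_of_le_pi h0 (by linarith) h1
  have he : Real.cos (3 * Real.pi / 10) = Real.sin (Real.pi / 5) := by
    rw [← Real.cos_pi_div_two_sub]; congr 1; ring
  have hs : 0 < Real.sin (Real.pi / 5) :=
    Real.sin_pos_of_pos_of_lt_pi (by linarith) (by linarith)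
  have hs2 : Real.sin (Real.pi / 5) ^ 2 = (10 - 2 * √5) / 16 := by
    have h := Real.sin_sq_add_cos_sq (Real.pi / 5)
    rw [Real.cos_pi_div_five] at h
    have h5 : √5 ^ 2 = 5 := Real.sq_sqrt (by norm_num)
    nlinarith
  have h5 : √5 < 2.24 := by
    rw [show (2.24 : ℝ) = √(2.24 ^ 2) by rw [Real.sqrt_sq (by norm_num)]]
    exact Real.sqrt_lt_sqrt (by norm_num) (by norm_num)
  rw [he] at hc
  refine ⟨lt_of_lt_of_le hs hc, ?_⟩
  have : Real.sin (Real.pi / 5) ^ 2 ≤ Real.cos a ^ 2 := by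
    apply pow_le_pow_left₀ hs.le hc
  nlinarith

theorem leaf6a : Leaf6a := by
  intro N z hN hz hL
  by_contra hcon
  push Not at hcon
  have hpi := Real.pi_pos
  have hN0 : 0 < N := by linarith
  have hN1 : 0 < N + 1 := by linarith
  have hn1 : nn N < 1 := by
    unfold nn; rw [div_lt_one hN1]; linarith
  have hn0 : 0 < nn N := by unfold nn; positivity
  have hx1 : z.re < 1 := lt_of_le_of_lt hcon hn1
  have hz0 : z ≠ 0 := by
    intro h; rw [h] at hz; simp [UH] at hz
  have hzp : 0 < ‖z‖ := norm_pos_iff.mpr hz0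
  -- imaginary part
  have him : N * arg z + arg (1 - z) = Real.pi := by
    have := congrArg Complex.im hL
    rw [L_im] at this
    simpa using this
  have hre : N * Real.log ‖z‖ + Real.log ‖1 - z‖ = ell N (2 * nn N) := by
    have := congrArg Complex.re hL
    rw [L_re] at this
    simpa using this
  have hb : |arg (1 - z)| < Real.pi / 2 := by
    rw [Complex.abs_arg_lt_pi_div_two_iff]
    left; simp; exact hx1
  rw [abs_lt] at hb
  have ha0 : 0 ≤ arg z := by
    by_contra hneg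
    push Not at hneg
    nlinarith [mul_neg_of_pos_of_neg hN0 hneg]
  have ha1 : arg z ≤ 3 * Real.pi / 10 := by
    by_contra hneg
    push Not at hneg
    have : N * (3 * Real.pi / 10) < N * arg z := mul_lt_mul_of_pos_left hneg hN0
    have h2 : 5 * (3 * Real.pi / 10) ≤ N * (3 * Real.pi / 10) :=
      mul_le_mul_of_nonneg_right hN (by positivity)
    linarith
  obtain ⟨hc, hc2⟩ := cos_bound ha0 ha1
  have hxc : ‖z‖ * Real.cos (arg z) = z.re := Complex.norm_mul_cos_arg z
  have hx0 : 0 < z.re := by rw [← hxc]; positivity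
  -- bound of `‖z‖²`
  have hz2 : ‖z‖ ^ 2 ≤ 2.9 * z.re ^ 2 := by
    rw [← hxc]
    nlinarith [sq_nonneg ‖z‖, mul_le_mul_of_nonneg_left hc2 (sq_nonneg ‖z‖)]
  have hz3 : ‖z‖ ^ 2 ≤ nn N ^ 2 * 2.9 := by
    have : z.re ^ 2 ≤ nn N ^ 2 := pow_le_pow_left₀ hx0.le hcon 2
    nlinarith
  have hw2 : ‖1 - z‖ ^ 2 ≤ 1.9 := by
    have h1 : ‖1 - z‖ ^ 2 = 1 - 2 * z.re + ‖z‖ ^ 2 := by
      rw [← Complex.normSq_eq_norm_sq, ← Complex.normSq_eq_norm_sq, Complex.normSq_apply,
        Complex.normSq_apply]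
      simp only [Complex.sub_re, Complex.one_re, Complex.sub_im, Complex.one_im]
      ring
    rw [h1]
    nlinarith [mul_pos hx0 (sub_pos.mpr hx1)]
  have hwne : (1 : ℂ) - z ≠ 0 := by
    intro h
    have := congrArg Complex.im h
    simp at this
    have hz' : 0 < z.im := hz
    linarith
  have hwp : 0 < ‖1 - z‖ := norm_pos_iff.mpr hwne
  -- logarithms
  have hA : 2 * Real.log ‖z‖ ≤ 2 * Real.log (nn N) + Real.log 2.9 := by
    have h1 : Real.log (‖z‖ ^ 2) ≤ Real.log (nn N ^ 2 * 2.9) :=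
      Real.log_le_log (by positivity) hz3
    rw [Real.log_mul (by positivity) (by norm_num), Real.log_pow, Real.log_pow] at h1
    push_cast at h1
    linarith
  have hB : 2 * Real.log ‖1 - z‖ ≤ Real.log 1.9 := by
    have h1 : Real.log (‖1 - z‖ ^ 2) ≤ Real.log 1.9 :=
      Real.log_le_log (by positivity) hw2
    rw [Real.log_pow] at h1
    push_cast at h1
    linarith
  have hn2 : 2 / 3 ≤ 2 * nn N - 1 := by
    unfold nn
    rw [show 2 * (N / (N + 1)) - 1 = (N - 1) / (N + 1) by field_simp; ring]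
    rw [div_le_div_iff₀ (by norm_num) hN1]
    linarith
  have hell : ell N (2 * nn N) = N * (Real.log 2 + Real.log (nn N)) + Real.log (2 * nn N - 1) := by
    unfold ell
    rw [Real.log_mul (by norm_num) hn0.ne', ← Real.log_neg_eq_log (2 * nn N - 1)]
    congr 2
    ring
  have hC : Real.log (2 / 3) ≤ Real.log (2 * nn N - 1) :=
    Real.log_le_log (by norm_num) hn2
  rw [hell] at hre
  have h4 : Real.log 2.9 ≤ 2 * Real.log 2 := by
    have : 2 * Real.log 2 = Real.log (2 ^ 2) := by rw [Real.log_pow]; push_cast; ring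
    rw [this]
    exact Real.log_le_log (by norm_num) (by norm_num)
  have hfin : Real.log (2.9 ^ 5 * 1.9) < Real.log (2 ^ 10 * (2 / 3) ^ 2) :=
    Real.log_lt_log (by norm_num) (by norm_num)
  rw [Real.log_mul (by norm_num) (by norm_num), Real.log_mul (by norm_num) (by norm_num),
    Real.log_pow, Real.log_pow, Real.log_pow] at hfin
  push_cast at hfin
  have h5 : 5 * (2 * Real.log 2 - Real.log 2.9) ≤ N * (2 * Real.log 2 - Real.log 2.9) :=
    mul_le_mul_of_nonneg_right hN (by linarith)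
  have hA' : N * (2 * Real.log ‖z‖) ≤ N * (2 * Real.log (nn N) + Real.log 2.9) :=
    mul_le_mul_of_nonneg_left hA hN0.le
  nlinarith

end Crest.Agent.R102.H4L6a864
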