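import Crest.Agent.R102.H4Defs_490
import Crest.Agent.R102.H4num_631

/-! # Row 102, leaf H4-6b from `H4num_631` (helper631) -/

set_option autoImplicit false

namespace Crest.Agent.R102.H4L6b631

open Complex Crest.Agent.R102.H4

theorem L_conj (N : ℝ) (z : ℂ) (hz : 0 < z.im) :
    H4num631.Lf N ((starRingEnd ℂ) z) = (starRingEnd ℂ) (L N z) := by
  unfold H4num631.Lf L
  have h1 : z.arg ≠ Real.pi := by
    intro h
    have := (Complex.arg_eq_pi_iff.mp h).2
    linarith
  have h2 : (1 - z).arg ≠ Real.pi := by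
    intro h
    have := (Complex.arg_eq_pi_iff.mp h).2
    simp at this
    linarith
  rw [map_add, map_mul, Complex.conj_ofReal, ← Complex.log_conj _ h1, ← Complex.log_conj _ h2]
  simp

theorem nn_eq (N : ℝ) : H4num631.nn N = nn N := rfl

theorem V1_eq (N : ℝ) :
    H4num631.V1 N = (starRingEnd ℂ) ((ell N (2 * nn N) : ℂ) + Real.pi * I) := by
  unfold H4num631.V1 ell
  rw [nn_eq]
  have : Real.log (1 - 2 * nn N) = Real.log (2 * nn N - 1) := by
    rw [← Real.log_neg_eq_log]; congr 1; ring
  rw [this]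
  simp
  ring

theorem leaf6b : Leaf6b := by
  intro N z hN hz h
  have hz' : 0 < z.im := hz
  have hy : ((starRingEnd ℂ) z).im < 0 := by simpa using hz'
  have hL : H4num631.Lf N ((starRingEnd ℂ) z) = H4num631.V1 N := by
    rw [L_conj N z hz', h, V1_eq]
  have main : ((starRingEnd ℂ) z).re < H4num631.nn N ∧
      0 < (H4num631.Lf N (2 * (H4num631.nn N : ℝ) - (starRingEnd ℂ) z)).im := by
    rcases hN with rfl | rfl
    · exact H4num631.three _ hy hL
    · exact H4num631.four _ hy hL
  obtain ⟨m1, m2⟩ := main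
  rw [nn_eq] at m1 m2
  refine ⟨by simpa using m1, ?_⟩
  -- `2n - conj z = conj (2n - z)`, and `2n - z` has negative imaginary part
  set w : ℂ := 2 * ((nn N : ℝ) : ℂ) - (starRingEnd ℂ) z with hw
  have hwim : 0 < w.im := by
    rw [hw]; simpa using hz'
  have e1 : 2 * ((nn N : ℝ) : ℂ) - z = (starRingEnd ℂ) w := by
    rw [hw, map_sub, map_mul, Complex.conj_conj, Complex.conj_ofReal, map_ofNat]
  have e2 : L N w = H4num631.Lf N w := rfl
  rw [e1]
  have e3 : L N ((starRingEnd ℂ) w) = (starRingEnd ℂ) (L N w) := L_conj N w hwim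
  rw [e3, e2]
  simpa using m2

end Crest.Agent.R102.H4L6b631
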