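import Crest.Agent.R102.H4L0_852
import Crest.Agent.R102.H4L1a_963
import Crest.Agent.R102.H4L1b_203
import Crest.Agent.R102.H4L1c_406
import Crest.Agent.R102.H4L2_490
import Crest.Agent.R102.H4L2b_872
import Crest.Agent.R102.H4L3_377
import Crest.Agent.R102.H4L4a_722
import Crest.Agent.R102.H4L4b_297
import Crest.Agent.R102.H4L5_435
import Crest.Agent.R102.H4L6_148
import Crest.Agent.R102.H4L6a_864
import Crest.Agent.R102.H4L6b_631
import Crest.Agent.R102.H4L6c_503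

/-!
# Row 102, part (C), item [H4]: assembly (helper490)

`h4 : H4Stmt`: for real `N > 1` there is no odd real germ `G` at `s = oo` with
`Q(n + G(s)) = Q(n - G(s+1))`, `Q(y) = y ^ N (1 - y)`, `n = N/(N+1)`.
-/

namespace Crest.Agent.R102.H4

/-- **H4** (all leaves): the one-dimensional non-embeddability theorem for `N > 1`. -/
theorem h4 : H4Stmt :=
  h4_of_leaves H4L0.leaf0
    (leaf2 H4L1a963.leaf1a (H4L1b203.leaf1b H4L1a963.leaf1a leaf1c) leaf1c)
    (leaf2b H4L1a963.leaf1a leaf1c)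
    (L3.leaf3 H4L1a963.leaf1a)
    (H4L4b297.leaf4b H4L1a963.leaf1a (H4L1b203.leaf1b H4L1a963.leaf1a leaf1c) leaf1c
      (leaf4a H4L1a963.leaf1a (H4L1b203.leaf1b H4L1a963.leaf1a leaf1c) leaf1c))
    (leaf5b (leaf4a H4L1a963.leaf1a (H4L1b203.leaf1b H4L1a963.leaf1a leaf1c) leaf1c))
    (H4L6148.leaf6 H4L1a963.leaf1a (H4L1b203.leaf1b H4L1a963.leaf1a leaf1c) leaf1c
      (leaf4a H4L1a963.leaf1a (H4L1b203.leaf1b H4L1a963.leaf1a leaf1c) leaf1c)
      H4L6a864.leaf6a H4L6b631.leaf6b H4L6c503.leaf6c)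

end Crest.Agent.R102.H4
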