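import Mathlib
import Crest.Agent.R102.H4Defs_490

/-!
# Row 102, [H4], leaf H4-0: elementary facts of `G(s) = F(1/s)` near `oo` (helper852)
-/

open Complex Set Filter Topology

noncomputable section

namespace Crest.Agent.R102.H4L0

open Crest.Agent.R102.H4

theorem leaf0 : Leaf0 := by
  intro N F hF
  obtain ⟨g, hg, hd⟩ := hF.der
  have hN := hF.hN
  have hn1 : nn N < 1 := by
    unfold nn
    rw [div_lt_one (by linarith)]
    linarith
  have hF0 : F 0 = 0 := by
    have h := hF.odd.self_of_nhds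
    rw [neg_zero] at h
    have h2 : (2 : ℂ) * F 0 = 0 := by linear_combination h
    simpa using h2
  have hanE : ∀ᶠ t in 𝓝 (0 : ℂ), AnalyticAt ℂ F t := hF.an.eventually_analyticAt
  have hdan : AnalyticAt ℂ (deriv F) 0 := hF.an.deriv
  have hddan : AnalyticAt ℂ (deriv (deriv F)) 0 := hdan.deriv
  have h1 : ∀ᶠ t in 𝓝 (0 : ℂ), ‖deriv F t + g‖ < g / 2 := by
    have hc : ContinuousAt (fun t => ‖deriv F t + g‖) 0 :=
      (hdan.continuousAt.add continuousAt_const).norm
    have h0 : ‖deriv F 0 + g‖ < g / 2 := by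
      rw [hd]; simp; positivity
    exact hc.tendsto.eventually_lt_const h0
  have h2 : ∀ᶠ t in 𝓝 (0 : ℂ), ‖F t‖ < (1 - nn N) / 4 := by
    have hc : ContinuousAt (fun t => ‖F t‖) 0 := hF.an.continuousAt.norm
    have h0 : ‖F 0‖ < (1 - nn N) / 4 := by
      rw [hF0]; simp; linarith
    exact hc.tendsto.eventually_lt_const h0
  have h3 : ∀ᶠ t in 𝓝 (0 : ℂ), (2 * deriv F t + t * deriv (deriv F) t).re < 0 := by
    have hc : ContinuousAt (fun t => (2 * deriv F t + t * deriv (deriv F) t).re) 0 :=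
      Complex.continuous_re.continuousAt.comp
        ((continuousAt_const.mul hdan.continuousAt).add
          (continuousAt_id.mul hddan.continuousAt))
    have h0 : (2 * deriv F 0 + 0 * deriv (deriv F) 0).re < 0 := by
      rw [hd]; simp; exact hg
    exact hc.tendsto.eventually_lt_const h0
  obtain ⟨r0, hr0, hball⟩ := Metric.eventually_nhds_iff_ball.1
    (hanE.and (hF.odd.and (hF.real.and (hF.eq.and (h1.and (h2.and h3))))))
  set r : ℝ := min r0 1 with hr
  have hrpos : 0 < r := lt_min hr0 one_pos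
  have hr1 : r ≤ 1 := min_le_right _ _
  have hrr0 : r ≤ r0 := min_le_left _ _
  have hsub : ∀ t : ℂ, ‖t‖ < r → t ∈ Metric.ball (0 : ℂ) r0 := by
    intro t ht
    rw [mem_ball_zero_iff]
    exact lt_of_lt_of_le ht hrr0
  have An : ∀ t : ℂ, ‖t‖ < r → AnalyticAt ℂ F t := fun t ht => (hball t (hsub t ht)).1
  have Od : ∀ t : ℂ, ‖t‖ < r → F (-t) = -F t := fun t ht => (hball t (hsub t ht)).2.1
  have Re : ∀ t : ℂ, ‖t‖ < r → F ((starRingEnd ℂ) t) = (starRingEnd ℂ) (F t) :=
    fun t ht => (hball t (hsub t ht)).2.2.1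
  have Eq : ∀ t : ℂ, ‖t‖ < r → L N ((nn N : ℂ) + F t) = L N ((nn N : ℂ) - F (t / (1 + t))) :=
    fun t ht => (hball t (hsub t ht)).2.2.2.1
  have B1 : ∀ t : ℂ, ‖t‖ < r → ‖deriv F t + g‖ < g / 2 :=
    fun t ht => (hball t (hsub t ht)).2.2.2.2.1
  have B2 : ∀ t : ℂ, ‖t‖ < r → ‖F t‖ < (1 - nn N) / 4 :=
    fun t ht => (hball t (hsub t ht)).2.2.2.2.2.1
  have B3 : ∀ t : ℂ, ‖t‖ < r → (2 * deriv F t + t * deriv (deriv F) t).re < 0 :=
    fun t ht => (hball t (hsub t ht)).2.2.2.2.2.2
  -- Lipschitz estimate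
  have Lip : ∀ t t' : ℂ, ‖t‖ < r → ‖t'‖ < r →
      ‖(F t' + g * t') - (F t + g * t)‖ ≤ g / 2 * ‖t' - t‖ := by
    intro t t' ht ht'
    refine Convex.norm_image_sub_le_of_norm_deriv_le (𝕜 := ℂ) (f := fun t => F t + g * t)
      (s := Metric.ball (0 : ℂ) r) ?_ ?_ (convex_ball _ _) (by simpa using ht) (by simpa using ht')
    · intro x hx
      rw [mem_ball_zero_iff] at hx
      exact (An x hx).differentiableAt.add ((differentiableAt_const _).mul differentiableAt_id)
    · intro x hx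
      rw [mem_ball_zero_iff] at hx
      have hdx : HasDerivAt (fun t => F t + g * t) (deriv F x + g * 1) x :=
        (An x hx).differentiableAt.hasDerivAt.add ((hasDerivAt_id x).const_mul (g : ℂ))
      rw [hdx.deriv, mul_one]
      exact (B1 x hx).le
  -- inverse
  have inv_lt : ∀ s : ℂ, 1 / r < ‖s‖ → ‖1 / s‖ < r ∧ s ≠ 0 := by
    intro s hs
    have hpos : 0 < ‖s‖ := lt_trans (by positivity) hs
    refine ⟨?_, norm_pos_iff.1 hpos⟩
    rw [norm_div, norm_one, div_lt_iff₀ hpos]
    rw [div_lt_iff₀ hrpos] at hs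
    linarith [mul_comm r ‖s‖]
  have hρ1 : 1 ≤ 1 / r := by
    rw [le_div_iff₀ hrpos]; linarith
  have hGd : ∀ s : ℂ, 1 / r < ‖s‖ →
      HasDerivAt (fun s => F (1 / s)) (deriv F (1 / s) * (-(1 / s ^ 2))) s := by
    intro s hs
    obtain ⟨hs1, hs0⟩ := inv_lt s hs
    have hi : HasDerivAt (fun s : ℂ => 1 / s) (-(1 / s ^ 2)) s := by
      have := hasDerivAt_inv hs0
      simpa [one_div] using this
    exact (An _ hs1).differentiableAt.hasDerivAt.comp s hi
  have hopen : IsOpen {s : ℂ | 1 / r < ‖s‖} := isOpen_lt continuous_const continuous_norm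
  refine ⟨1 / r, ?_⟩
  refine
    { hN := hN
      hρ := hρ1
      an := ?_
      odd := ?_
      real := ?_
      pos := ?_
      inj := ?_
      small := ?_
      lim := ?_
      eq := ?_
      neg := ?_
      dpos := ?_
      dneg := ?_ }
  · intro s hs
    exact (hGd s hs).differentiableAt.differentiableWithinAt
  · intro s hs
    obtain ⟨hs1, hs0⟩ := inv_lt s hs
    have : (1 : ℂ) / (-s) = -(1 / s) := by field_simp
    simp only [this]
    exact Od _ hs1
  · intro s hs
    obtain ⟨hs1, hs0⟩ := inv_lt s hs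
    have : (1 : ℂ) / ((starRingEnd ℂ) s) = (starRingEnd ℂ) (1 / s) := by
      rw [map_div₀, map_one]
    simp only [this]
    exact Re _ hs1
  · intro s hs him
    obtain ⟨hs1, hs0⟩ := inv_lt s hs
    set t : ℂ := 1 / s with ht
    have htim : t.im < 0 := by
      rw [ht, one_div, Complex.inv_im]
      have : 0 < Complex.normSq s := Complex.normSq_pos.2 hs0
      rw [neg_div]
      have : 0 < s.im / Complex.normSq s := by positivity
      linarith
    have hre : ‖((t.re : ℝ) : ℂ)‖ < r := by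
      rw [Complex.norm_real]
      exact lt_of_le_of_lt (Complex.abs_re_le_norm t) hs1
    have hFre : (F (t.re : ℂ)).im = 0 := by
      have h := Re _ hre
      rw [Complex.conj_ofReal] at h
      have := congrArg Complex.im h
      rw [Complex.conj_im] at this
      linarith
    have hL := Lip (t.re : ℂ) t hre hs1
    have hdiff : t - (t.re : ℂ) = (t.im : ℂ) * I := by
      apply Complex.ext <;> simp
    have hn : ‖t - (t.re : ℂ)‖ = -t.im := by
      rw [hdiff, norm_mul, Complex.norm_I, mul_one, Complex.norm_real, Real.norm_eq_abs,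
        abs_of_neg htim]
    rw [hn] at hL
    have him2 := (Complex.abs_im_le_norm ((F t + g * t) - (F (t.re : ℂ) + g * (t.re : ℂ)))).trans hL
    have him3 : ((F t + g * t) - (F (t.re : ℂ) + g * (t.re : ℂ))).im = (F t).im + g * t.im := by
      simp [hFre]
    rw [him3] at him2
    have := (abs_le.1 him2).1
    show 0 < (F t).im
    nlinarith [mul_pos hg (neg_pos.2 htim)]
  · intro s hs s' hs' h
    obtain ⟨hs1, hs0⟩ := inv_lt s hs
    obtain ⟨hs1', hs0'⟩ := inv_lt s' hs'
    have h' : F (1 / s) = F (1 / s') := h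
    have hL := Lip (1 / s) (1 / s') hs1 hs1'
    have he : (F (1 / s') + g * (1 / s')) - (F (1 / s) + g * (1 / s)) =
        (g : ℂ) * (1 / s' - 1 / s) := by
      rw [h']; ring
    rw [he, norm_mul, Complex.norm_real, Real.norm_eq_abs, abs_of_pos hg] at hL
    have h0 : ‖(1 : ℂ) / s' - 1 / s‖ ≤ 0 := by nlinarith [norm_nonneg ((1 : ℂ) / s' - 1 / s)]
    have h00 := norm_le_zero_iff.1 h0
    have h5 : (1 : ℂ) / s' = 1 / s := by linear_combination h00
    rw [one_div, one_div] at h5
    exact (inv_injective h5).symm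
  · intro s hs
    obtain ⟨hs1, hs0⟩ := inv_lt s hs
    exact B2 _ hs1
  · have hc : Tendsto F (𝓝 0) (𝓝 0) := by
      have := hF.an.continuousAt.tendsto
      rwa [hF0] at this
    have hi : Tendsto (fun s : ℂ => 1 / s) (cocompact ℂ) (𝓝 0) := by
      have := Filter.tendsto_inv₀_cobounded (α := ℂ)
      rw [← Metric.cobounded_eq_cocompact]
      simpa [one_div] using this
    exact hc.comp hi
  · intro s hs hs'
    obtain ⟨hs1, hs0⟩ := inv_lt s hs
    obtain ⟨hs1', hs0'⟩ := inv_lt (s + 1) hs'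
    have h := Eq _ hs1
    have : (1 : ℂ) / s / (1 + 1 / s) = 1 / (s + 1) := by
      field_simp
    rw [this] at h
    exact h
  · intro x hx
    have hx0 : 0 < x := lt_trans (by positivity) hx
    have hxn : 1 / r < ‖(x : ℂ)‖ := by
      rw [Complex.norm_real, Real.norm_eq_abs, abs_of_pos hx0]; exact hx
    obtain ⟨hs1, hs0⟩ := inv_lt _ hxn
    have hL := Lip 0 (1 / (x : ℂ)) (by simpa using hrpos) hs1
    rw [hF0] at hL
    have e1 : (F (1 / (x : ℂ)) + g * (1 / (x : ℂ))) - (0 + g * 0) =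
        F (1 / (x : ℂ)) + ((g * (1 / x) : ℝ) : ℂ) := by push_cast; ring
    have e2 : ‖(1 / (x : ℂ)) - 0‖ = 1 / x := by
      rw [sub_zero, norm_div, norm_one, Complex.norm_real, Real.norm_eq_abs, abs_of_pos hx0]
    rw [e1, e2] at hL
    have h4 := (Complex.abs_re_le_norm _).trans hL
    rw [Complex.add_re, Complex.ofReal_re] at h4
    have h5 := (abs_le.1 h4).2
    have h6 : 0 < g * (1 / x) := by positivity
    show (F (1 / (x : ℂ))).re < 0
    nlinarith
  · intro x hx
    have hx0 : 0 < x := lt_trans (by positivity) hx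
    have hxn : 1 / r < ‖(x : ℂ)‖ := by
      rw [Complex.norm_real, Real.norm_eq_abs, abs_of_pos hx0]; exact hx
    obtain ⟨hs1, hs0⟩ := inv_lt _ hxn
    rw [(hGd _ hxn).deriv]
    have h1 := B1 _ hs1
    have h4 := lt_of_le_of_lt (Complex.abs_re_le_norm _) h1
    rw [Complex.add_re, Complex.ofReal_re] at h4
    have h5 := (abs_lt.1 h4).2
    have e1 : deriv F (1 / (x : ℂ)) * (-(1 / (x : ℂ) ^ 2)) =
        ((-(1 / x ^ 2) : ℝ) : ℂ) * deriv F (1 / (x : ℂ)) := by push_cast; ring
    rw [e1, Complex.re_ofReal_mul]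
    have h6 : 0 < 1 / x ^ 2 := by positivity
    nlinarith
  · intro x hx
    have hx0 : 0 < x := lt_trans (by positivity) hx
    have hxn : 1 / r < ‖(x : ℂ)‖ := by
      rw [Complex.norm_real, Real.norm_eq_abs, abs_of_pos hx0]; exact hx
    obtain ⟨hs1, hs0⟩ := inv_lt _ hxn
    have hev : (deriv fun s => F (1 / s)) =ᶠ[𝓝 (x : ℂ)]
        fun s => deriv F (1 / s) * (-(1 / s ^ 2)) := by
      filter_upwards [hopen.mem_nhds hxn] with s hs
      exact (hGd s hs).deriv
    rw [hev.deriv_eq]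
    have hi : HasDerivAt (fun s : ℂ => 1 / s) (-(1 / (x : ℂ) ^ 2)) (x : ℂ) := by
      have := hasDerivAt_inv hs0
      simpa [one_div] using this
    have hF' : HasDerivAt (fun s => deriv F (1 / s))
        (deriv (deriv F) (1 / (x : ℂ)) * (-(1 / (x : ℂ) ^ 2))) (x : ℂ) :=
      HasDerivAt.comp (x : ℂ) ((An _ hs1).deriv.differentiableAt.hasDerivAt) hi
    have hi2 : HasDerivAt (fun s : ℂ => -(1 / s ^ 2)) (2 / (x : ℂ) ^ 3) (x : ℂ) := by
      have h7 : HasDerivAt (fun s : ℂ => s ^ 2) (2 * (x : ℂ)) (x : ℂ) := by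
        simpa using hasDerivAt_pow 2 (x : ℂ)
      have h8 := (h7.inv (pow_ne_zero 2 hs0)).neg
      have e9 : (fun s : ℂ => -(1 / s ^ 2)) = -(fun s : ℂ => s ^ 2)⁻¹ := by
        ext s; simp
      rw [e9]
      refine h8.congr_deriv ?_
      field_simp
    have hprod := hF'.mul hi2
    have hprod' : HasDerivAt (fun s => deriv F (1 / s) * (-(1 / s ^ 2)))
        (((1 / x ^ 3 : ℝ) : ℂ) * (2 * deriv F (1 / (x : ℂ)) +
          (1 / (x : ℂ)) * deriv (deriv F) (1 / (x : ℂ)))) (x : ℂ) := by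
      refine hprod.congr_deriv ?_
      push_cast
      field_simp
      ring
    rw [hprod'.deriv, Complex.re_ofReal_mul]
    have h6 : 0 < 1 / x ^ 3 := by positivity
    exact mul_neg_of_pos_of_neg h6 (B3 _ hs1)

end Crest.Agent.R102.H4L0
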