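import Crest.Agent.R102.H4Defs_490

/-!
# Row 102, [H4], leaf H4-6b (helper201): `N = 3, 4`.
-/

open Complex Set Filter Topology

noncomputable section

namespace Crest.Agent.R102.H4.L6b

/-- `exp (L N w) = w^N (1-w)` for natural `N`. -/
theorem exp_L (N : ℕ) {w : ℂ} (h0 : w ≠ 0) (h1 : w ≠ 1) :
    Complex.exp (L (N : ℝ) w) = w ^ N * (1 - w) := by
  have h1' : (1 : ℂ) - w ≠ 0 := sub_ne_zero.mpr (Ne.symm h1)
  unfold L
  rw [Complex.exp_add, Complex.exp_log h1']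
  congr 1
  have : (((N : ℝ) : ℂ)) = (N : ℂ) := by push_cast; rfl
  rw [this, Complex.exp_nat_mul, Complex.exp_log h0]

theorem L_im (N : ℝ) (w : ℂ) : (L N w).im = N * Complex.arg w + Complex.arg (1 - w) := by
  unfold L
  simp [Complex.log_im]

/-- the sign criterion in the lower half plane. -/
theorem neg_of (N : ℕ) {w : ℂ} (hw : w.im < 0) (h : (w ^ N * (1 - w)).im < 0) :
    (L (N : ℝ) w).im < 0 := by
  have h0 : w ≠ 0 := by rintro rfl; simp at hw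
  have h1 : w ≠ 1 := by rintro rfl; simp at hw
  by_contra hc
  push Not at hc
  have harg : Complex.arg w < 0 := Complex.arg_neg_iff.mpr hw
  have hle : (L (N : ℝ) w).im ≤ Real.pi := by
    rw [L_im]
    have := Complex.arg_le_pi (1 - w)
    have h2 : (N : ℝ) * Complex.arg w ≤ 0 :=
      mul_nonpos_of_nonneg_of_nonpos (Nat.cast_nonneg N) harg.le
    linarith
  have hs := Real.sin_nonneg_of_nonneg_of_le_pi hc hle
  have he := exp_L N h0 h1
  have : 0 ≤ (Complex.exp (L (N : ℝ) w)).im := by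
    rw [Complex.exp_im]
    exact mul_nonneg (Real.exp_pos _).le hs
  rw [he] at this
  linarith

theorem case3 (z : ℂ) (hz : z ∈ UH)
    (h : L 3 z = (ell 3 (2 * nn 3) : ℂ) + Real.pi * I) :
    z.re < nn 3 ∧ (L 3 (2 * (nn 3 : ℂ) - z)).im < 0 := by
  have hy : 0 < z.im := hz
  have h0 : z ≠ 0 := by rintro rfl; simp at hy
  have h1 : z ≠ 1 := by rintro rfl; simp at hy
  have hn : nn 3 = 3 / 4 := by unfold nn; norm_num
  have hexp : z ^ 3 * (1 - z) = -(27 / 16 : ℂ) := by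
    have e1 := exp_L 3 h0 h1
    have e2 : ((3 : ℕ) : ℝ) = 3 := by norm_num
    rw [e2, h, hn] at e1
    rw [← e1, Complex.exp_add, Complex.exp_pi_mul_I, ← Complex.ofReal_exp]
    have e3 : Real.exp (ell 3 (2 * (3 / 4))) = 27 / 16 := by
      unfold ell
      rw [Real.exp_add, Real.exp_log_eq_abs (by norm_num : (1 : ℝ) - 2 * (3 / 4) ≠ 0)]
      have : (3 : ℝ) * Real.log (2 * (3 / 4)) = ((3 : ℕ) : ℝ) * Real.log (2 * (3 / 4)) := by
        norm_num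
      rw [this, Real.exp_nat_mul, Real.exp_log (by norm_num)]
      have : |(1 : ℝ) - 2 * (3 / 4)| = 1 / 2 := by rw [abs_of_neg (by norm_num)]; norm_num
      rw [this]; norm_num
    rw [e3]; push_cast; ring
  have hfac : (z - 3 / 2) * (z ^ 3 + z ^ 2 / 2 + 3 * z / 4 + 9 / 8) = 0 := by
    linear_combination -hexp
  have hne : z - 3 / 2 ≠ 0 := by
    intro hh
    have := congrArg Complex.im hh
    simp at this
    exact absurd this hy.ne'
  have hcub := (mul_eq_zero.mp hfac).resolve_left hne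
  obtain ⟨x, y⟩ := z
  have him := congrArg Complex.im hcub
  have hre := congrArg Complex.re hcub
  simp [pow_succ, Complex.add_re, Complex.add_im, Complex.mul_re, Complex.mul_im] at him hre hy ⊢
  have hY : y * y = 3 * x * x + x + 3 / 4 := by
    apply mul_left_cancel₀ hy.ne'
    linear_combination -him
  have hX : 8 * x ^ 3 + 4 * x ^ 2 + 2 * x = 3 / 4 := by
    linear_combination (-1) * hre - (3 * x + 1 / 2) * hY
  have hx1 : 15 / 88 < x := by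
    by_contra hc
    push Not at hc
    nlinarith [sq_nonneg x, sq_nonneg (x + 1 / 4), mul_nonneg (sq_nonneg x) (sub_nonneg.mpr hc)]
  have hx2 : x < 3 / 4 := by
    by_contra hc
    push Not at hc
    nlinarith [sq_nonneg x, mul_nonneg (sq_nonneg x) (sub_nonneg.mpr hc)]
  refine ⟨by rw [hn]; exact hx2, ?_⟩
  have hw : (2 * ((nn 3 : ℝ) : ℂ) - (⟨x, y⟩ : ℂ)) = ⟨3 / 2 - x, -y⟩ := by
    rw [hn]
    apply Complex.ext
    · simp; ring
    · simp
  rw [hw]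
  have e : (((⟨3 / 2 - x, -y⟩ : ℂ)) ^ 3 * (1 - (⟨3 / 2 - x, -y⟩ : ℂ))).im =
      y * (15 / 4 - 22 * x) := by
    simp [pow_succ, Complex.mul_re, Complex.mul_im]
    linear_combination y * hX + y * (1 - 4 * (3 / 2 - x)) * hY
  have hk := neg_of 3 (w := (⟨3 / 2 - x, -y⟩ : ℂ)) (show -y < 0 by linarith)
    (by rw [e]; exact mul_neg_of_pos_of_neg hy (by linarith))
  rw [show ((3 : ℕ) : ℝ) = 3 by norm_num] at hk
  exact hk

theorem re_pos4 {z : ℂ} (hy : 0 < z.im) (h : (L 4 z).im = Real.pi) : 0 < z.re := by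
  rw [L_im] at h
  by_contra hc
  push Not at hc
  have h0 : z ≠ 0 := by rintro rfl; simp at hy
  have h1 : Real.pi / 2 ≤ Complex.arg z := by
    by_contra h2
    push Not at h2
    rcases Complex.arg_lt_pi_div_two_iff.mp h2 with h3 | h3 | h3
    · linarith
    · linarith
    · exact h0 h3
  have h2 : -(Real.pi / 2) ≤ Complex.arg (1 - z) := by
    apply Complex.neg_pi_div_two_le_arg_iff.mpr
    left
    simp
    linarith
  have := Real.pi_pos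
  linarith

theorem alg4P {x Y : ℝ}
    (hI : 4 * x ^ 3 + 9 / 5 * x ^ 2 + 48 / 25 * x + 192 / 125 = Y * (4 * x + 3 / 5))
    (hR : x ^ 4 - 6 * x ^ 2 * Y + Y ^ 2 + 3 / 5 * (x ^ 3 - 3 * x * Y) +
      24 / 25 * (x ^ 2 - Y) + 192 / 125 * x + 1536 / 625 = 0) :
    36864 / 15625 + 29952 / 3125 * x + 3648 / 125 * x ^ 2 - 504 / 25 * x ^ 3
      - 48 * x ^ 4 - 288 / 5 * x ^ 5 - 64 * x ^ 6 = 0 := by
  linear_combination (4 * x + 3 / 5) ^ 2 * hR + ((4 * x ^ 3 + 9 / 5 * x ^ 2 + 48 / 25 * x +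
      192 / 125) + Y * (4 * x + 3 / 5) - (6 * x ^ 2 + 9 / 5 * x + 24 / 25) * (4 * x + 3 / 5)) * hI

theorem alg4a {x : ℝ} (hx0 : 0 < x)
    (hP : 36864 / 15625 + 29952 / 3125 * x + 3648 / 125 * x ^ 2 - 504 / 25 * x ^ 3
      - 48 * x ^ 4 - 288 / 5 * x ^ 5 - 64 * x ^ 6 = 0) : 1 / 2 < x := by
  by_contra hc
  push Not at hc
  have hc' : 0 ≤ 1 / 2 - x := by linarith
  have p2 : 0 ≤ x / 2 - x ^ 2 := by
    have := mul_nonneg hx0.le hc'
    linarith [show x * (1 / 2 - x) = x / 2 - x ^ 2 by ring]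
  have p3 : 0 ≤ x ^ 2 / 2 - x ^ 3 := by
    have := mul_nonneg (pow_pos hx0 2).le hc'
    linarith [show x ^ 2 * (1 / 2 - x) = x ^ 2 / 2 - x ^ 3 by ring]
  have p4 : 0 ≤ x ^ 3 / 2 - x ^ 4 := by
    have := mul_nonneg (pow_pos hx0 3).le hc'
    linarith [show x ^ 3 * (1 / 2 - x) = x ^ 3 / 2 - x ^ 4 by ring]
  have p5 : 0 ≤ x ^ 4 / 2 - x ^ 5 := by
    have := mul_nonneg (pow_pos hx0 4).le hc'
    linarith [show x ^ 4 * (1 / 2 - x) = x ^ 4 / 2 - x ^ 5 by ring]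
  have p6 : 0 ≤ x ^ 5 / 2 - x ^ 6 := by
    have := mul_nonneg (pow_pos hx0 5).le hc'
    linarith [show x ^ 5 * (1 / 2 - x) = x ^ 5 / 2 - x ^ 6 by ring]
  have := pow_pos hx0 2
  linarith

theorem alg4b {x : ℝ} (hx0 : 0 < x)
    (hP : 36864 / 15625 + 29952 / 3125 * x + 3648 / 125 * x ^ 2 - 504 / 25 * x ^ 3
      - 48 * x ^ 4 - 288 / 5 * x ^ 5 - 64 * x ^ 6 = 0) : x < 7 / 10 := by
  by_contra hc
  push Not at hc
  have hc' : 0 ≤ x - 7 / 10 := by linarith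
  have p2 : 0 ≤ x ^ 2 - 7 / 10 * x := by
    have := mul_nonneg hx0.le hc'
    linarith [show x * (x - 7 / 10) = x ^ 2 - 7 / 10 * x by ring]
  have p3 : 0 ≤ x ^ 3 - 7 / 10 * x ^ 2 := by
    have := mul_nonneg (pow_pos hx0 2).le hc'
    linarith [show x ^ 2 * (x - 7 / 10) = x ^ 3 - 7 / 10 * x ^ 2 by ring]
  have p4 : 0 ≤ x ^ 4 - 7 / 10 * x ^ 3 := by
    have := mul_nonneg (pow_pos hx0 3).le hc'
    linarith [show x ^ 3 * (x - 7 / 10) = x ^ 4 - 7 / 10 * x ^ 3 by ring]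
  have p5 : 0 ≤ x ^ 5 - 7 / 10 * x ^ 4 := by
    have := mul_nonneg (pow_pos hx0 4).le hc'
    linarith [show x ^ 4 * (x - 7 / 10) = x ^ 5 - 7 / 10 * x ^ 4 by ring]
  have p6 : 0 ≤ x ^ 6 - 7 / 10 * x ^ 5 := by
    have := mul_nonneg (pow_pos hx0 5).le hc'
    linarith [show x ^ 5 * (x - 7 / 10) = x ^ 6 - 7 / 10 * x ^ 5 by ring]
  linarith

theorem alg4c {x Y : ℝ} (hx1 : 1 / 2 < x)
    (hI : 4 * x ^ 3 + 9 / 5 * x ^ 2 + 48 / 25 * x + 192 / 125 = Y * (4 * x + 3 / 5)) :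
    13 / 10 < Y := by
  by_contra hc
  push Not at hc
  have h3 : Y * (4 * x + 3 / 5) ≤ 13 / 10 * (4 * x + 3 / 5) :=
    mul_le_mul_of_nonneg_right hc (by linarith)
  have h4 : 0 ≤ (x - 1 / 2) ^ 2 * (x + 1) := mul_nonneg (sq_nonneg _) (by linarith)
  have h5 : (x - 1 / 2) ^ 2 * (x + 1) = x ^ 3 - 3 / 4 * x + 1 / 4 := by ring
  have h6 : 0 ≤ (x - 1 / 2) ^ 2 := sq_nonneg _
  have h7 : (x - 1 / 2) ^ 2 = x ^ 2 - x + 1 / 4 := by ring
  linarith

theorem alg4d {x Y : ℝ} (hx1 : 1 / 2 < x) (hx2 : x < 7 / 10)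
    (hI : 4 * x ^ 3 + 9 / 5 * x ^ 2 + 48 / 25 * x + 192 / 125 = Y * (4 * x + 3 / 5)) :
    Y < 16 / 10 := by
  by_contra hc
  push Not at hc
  have h3 : 16 / 10 * (4 * x + 3 / 5) ≤ Y * (4 * x + 3 / 5) :=
    mul_le_mul_of_nonneg_right hc (by linarith)
  have h4 : 0 < (x - 1 / 2) * (7 / 10 - x) := mul_pos (by linarith) (by linarith)
  have h5 : 0 < x * ((x - 1 / 2) * (7 / 10 - x)) := mul_pos (by linarith) h4
  have h6 : (x - 1 / 2) * (7 / 10 - x) = 6 / 5 * x - x ^ 2 - 7 / 20 := by ring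
  have h7 : x * ((x - 1 / 2) * (7 / 10 - x)) = 6 / 5 * x ^ 2 - x ^ 3 - 7 / 20 * x := by ring
  linarith

theorem alg4 {x Y : ℝ} (hx0 : 0 < x)
    (hI : 4 * x ^ 3 + 9 / 5 * x ^ 2 + 48 / 25 * x + 192 / 125 = Y * (4 * x + 3 / 5))
    (hR : x ^ 4 - 6 * x ^ 2 * Y + Y ^ 2 + 3 / 5 * (x ^ 3 - 3 * x * Y) +
      24 / 25 * (x ^ 2 - Y) + 192 / 125 * x + 1536 / 625 = 0) :
    1 / 2 < x ∧ x < 7 / 10 ∧ 13 / 10 < Y ∧ Y < 16 / 10 := by
  have hP := alg4P hI hR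
  have h1 := alg4a hx0 hP
  have h2 := alg4b hx0 hP
  exact ⟨h1, h2, alg4c h1 hI, alg4d h1 h2 hI⟩

theorem algE {u Y : ℝ} (hu1 : 9 / 10 < u) (hu2 : u < 11 / 10) (hY1 : 13 / 10 < Y)
    (hY2 : Y < 16 / 10) :
    5 * u ^ 4 - 4 * u ^ 3 + Y ^ 2 + Y * (4 * u - 10 * u ^ 2) < 0 := by
  have q1 : u ^ 2 ≤ 121 / 100 := by
    have := pow_le_pow_left₀ (by linarith : (0 : ℝ) ≤ u) hu2.le 2
    norm_num at this ⊢
    linarith
  have q2 : u ^ 3 ≤ 1331 / 1000 := by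
    have := pow_le_pow_left₀ (by linarith : (0 : ℝ) ≤ u) hu2.le 3
    norm_num at this ⊢
    linarith
  have q3 : 5 * u ^ 4 - 4 * u ^ 3 ≤ 3 / 2 * (1331 / 1000) := by
    have : u ^ 3 * (5 * u - 4) ≤ (1331 / 1000) * (3 / 2) :=
      mul_le_mul q2 (by linarith) (by linarith) (by norm_num)
    linarith [this, show u ^ 3 * (5 * u - 4) = 5 * u ^ 4 - 4 * u ^ 3 by ring]
  have q4 : Y ^ 2 ≤ 256 / 100 := by
    have := pow_le_pow_left₀ (by linarith : (0 : ℝ) ≤ Y) hY2.le 2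
    norm_num at this ⊢
    linarith
  have q5 : 9 / 2 ≤ 10 * u ^ 2 - 4 * u := by
    have : 0 ≤ (u - 9 / 10) * (u - 9 / 10) := mul_self_nonneg _
    linarith [show (u - 9 / 10) * (u - 9 / 10) = u ^ 2 - 9 / 5 * u + 81 / 100 by ring]
  have q6 : 13 / 10 * (9 / 2) ≤ Y * (10 * u ^ 2 - 4 * u) :=
    mul_le_mul hY1.le q5 (by norm_num) (by linarith)
  linarith [show Y * (4 * u - 10 * u ^ 2) = -(Y * (10 * u ^ 2 - 4 * u)) by ring]

theorem case4 (z : ℂ) (hz : z ∈ UH)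
    (h : L 4 z = (ell 4 (2 * nn 4) : ℂ) + Real.pi * I) :
    z.re < nn 4 ∧ (L 4 (2 * (nn 4 : ℂ) - z)).im < 0 := by
  have hy : 0 < z.im := hz
  have h0 : z ≠ 0 := by rintro rfl; simp at hy
  have h1 : z ≠ 1 := by rintro rfl; simp at hy
  have hn : nn 4 = 4 / 5 := by unfold nn; norm_num
  have hx0 : 0 < z.re := re_pos4 hy (by rw [h]; simp)
  have hexp : z ^ 4 * (1 - z) = -(12288 / 3125 : ℂ) := by
    have e1 := exp_L 4 h0 h1
    have e2 : ((4 : ℕ) : ℝ) = 4 := by norm_num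
    rw [e2, h, hn] at e1
    rw [← e1, Complex.exp_add, Complex.exp_pi_mul_I, ← Complex.ofReal_exp]
    have e3 : Real.exp (ell 4 (2 * (4 / 5))) = 12288 / 3125 := by
      unfold ell
      rw [Real.exp_add, Real.exp_log_eq_abs (by norm_num : (1 : ℝ) - 2 * (4 / 5) ≠ 0)]
      have : (4 : ℝ) * Real.log (2 * (4 / 5)) = ((4 : ℕ) : ℝ) * Real.log (2 * (4 / 5)) := by
        norm_num
      rw [this, Real.exp_nat_mul, Real.exp_log (by norm_num)]
      have : |(1 : ℝ) - 2 * (4 / 5)| = 3 / 5 := by rw [abs_of_neg (by norm_num)]; norm_num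
      rw [this]; norm_num
    rw [e3]; push_cast; ring
  have hfac : (z - 8 / 5) * (z ^ 4 + 3 / 5 * z ^ 3 + 24 / 25 * z ^ 2 + 192 / 125 * z +
      1536 / 625) = 0 := by
    linear_combination -hexp
  have hne : z - 8 / 5 ≠ 0 := by
    intro hh
    have := congrArg Complex.im hh
    simp at this
    exact absurd this hy.ne'
  have hcub := (mul_eq_zero.mp hfac).resolve_left hne
  obtain ⟨x, y⟩ := z
  have him := congrArg Complex.im hcub
  have hre := congrArg Complex.re hcub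
  simp [pow_succ, Complex.add_re, Complex.add_im, Complex.mul_re, Complex.mul_im]
    at him hre hy hx0 ⊢
  obtain ⟨Y, hYdef⟩ : ∃ Y : ℝ, Y = y * y := ⟨_, rfl⟩
  have hI : 4 * x ^ 3 + 9 / 5 * x ^ 2 + 48 / 25 * x + 192 / 125 = Y * (4 * x + 3 / 5) := by
    apply mul_left_cancel₀ hy.ne'
    rw [hYdef]
    linear_combination him
  have hR : x ^ 4 - 6 * x ^ 2 * Y + Y ^ 2 + 3 / 5 * (x ^ 3 - 3 * x * Y) +
      24 / 25 * (x ^ 2 - Y) + 192 / 125 * x + 1536 / 625 = 0 := by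
    rw [hYdef]
    linear_combination hre
  obtain ⟨hx1, hx2, hY1, hY2⟩ := alg4 hx0 hI hR
  refine ⟨by rw [hn]; linarith, ?_⟩
  have hw : (2 * ((nn 4 : ℝ) : ℂ) - (⟨x, y⟩ : ℂ)) = ⟨8 / 5 - x, -y⟩ := by
    rw [hn]
    apply Complex.ext
    · simp; ring
    · simp
  rw [hw]
  obtain ⟨u, hu⟩ : ∃ u : ℝ, u = 8 / 5 - x := ⟨_, rfl⟩
  rw [← hu]
  have hu1 : 9 / 10 < u := by rw [hu]; linarith
  have hu2 : u < 11 / 10 := by rw [hu]; linarith
  have e : (((⟨u, -y⟩ : ℂ)) ^ 4 * (1 - (⟨u, -y⟩ : ℂ))).im =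
      y * (5 * u ^ 4 - 4 * u ^ 3 + Y ^ 2 + Y * (4 * u - 10 * u ^ 2)) := by
    simp [pow_succ, Complex.mul_re, Complex.mul_im]
    rw [hYdef]
    ring
  have hE := algE hu1 hu2 hY1 hY2
  have hk := neg_of 4 (w := (⟨u, -y⟩ : ℂ)) (show -y < 0 by linarith)
    (by rw [e]; exact mul_neg_of_pos_of_neg hy hE)
  rw [show ((4 : ℕ) : ℝ) = 4 by norm_num] at hk
  exact hk

end Crest.Agent.R102.H4.L6b

namespace Crest.Agent.R102.H4

/-- **H4-6b**. -/
theorem leaf6b : Leaf6b := by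
  rintro N z (rfl | rfl) hz h
  · exact L6b.case3 z hz h
  · exact L6b.case4 z hz h

end Crest.Agent.R102.H4
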