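import Crest.Agent.R102.H4Defs_490

/-!
# Row 102, part (C), [H4], leaf H4-6c (helper503): the numerics for `N = 2`

`b₁ = z = (-1 + i√15)/6`, `b₂ = z2 ≈ 0.388 + 1.207 i`.
-/

open Complex Set Filter Topology

noncomputable section

namespace Crest.Agent.R102.H4L6c503

open Crest.Agent.R102.H4

/-- `exp (L 2 z) = z² (1 - z)` -/
theorem exp_L2 (z : ℂ) (h0 : z ≠ 0) (h1 : 1 - z ≠ 0) : Complex.exp (L 2 z) = z ^ 2 * (1 - z) := by
  unfold L
  rw [Complex.exp_add, Complex.exp_log h1]
  congr 1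
  have : ((2 : ℝ) : ℂ) * Complex.log z = (2 : ℕ) * Complex.log z := by push_cast; ring
  rw [this, Complex.exp_nat_mul, Complex.exp_log h0]

theorem ne_of_im {z : ℂ} (h : z.im ≠ 0) : z ≠ 0 ∧ 1 - z ≠ 0 := by
  constructor
  · rintro rfl; simp at h
  · intro h1
    have : z = 1 := by linear_combination -h1
    rw [this] at h; simp at h

/-- quartic bound -/
theorem bound_a (a b c : ℝ) (hb : 0 < b) (hc : 0 < c) (hc2 : c ^ 2 = 15)
    (h1 : a ^ 2 - b ^ 2 + a / 2 + c * b / 6 + 1 / 3 = 0)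
    (h2 : 2 * a * b + b / 2 - c * a / 6 - c / 3 = 0) :
    0.38 < a ∧ a < 0.4 ∧ 1.1 < b := by
  have h3 : b * (12 * a + 3) = c * (a + 2) := by linear_combination 6 * h2
  have hP : 24 * a ^ 4 + 24 * a ^ 3 + 18 * a ^ 2 + 6 * a - 7 = 0 := by
    have e : (a ^ 2 + a / 2 + 1 / 3) * (12 * a + 3) ^ 2 + c / 6 * (b * (12 * a + 3)) * (12 * a + 3)
        - (b * (12 * a + 3)) ^ 2 = 0 := by
      linear_combination (12 * a + 3) ^ 2 * h1
    rw [h3] at e
    have e2 : (a ^ 2 + a / 2 + 1 / 3) * (12 * a + 3) ^ 2 + c ^ 2 / 6 * (a + 2) * (12 * a + 3)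
        - c ^ 2 * (a + 2) ^ 2 = 0 := by linear_combination e
    rw [hc2] at e2
    linear_combination e2 / 6
  have ha : -1 / 4 < a := by
    by_contra hcon
    push Not at hcon
    have h4 : c * (a + 2) ≤ 0 := by
      rw [← h3]
      exact mul_nonpos_of_nonneg_of_nonpos hb.le (by linarith)
    have h5 : a + 2 ≤ 0 := by
      by_contra h6
      push Not at h6
      have := mul_pos hc h6
      linarith
    have h6 : 0 ≤ (-a) * (-a - 2) := mul_nonneg (by linarith) (by linarith)
    nlinarith [mul_nonneg h6 (sq_nonneg a), h6, sq_nonneg a]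
  have ha1 : 0.38 < a := by
    by_contra hcon
    push Not at hcon
    nlinarith [mul_nonneg (sub_nonneg.2 hcon) (by linarith : (0:ℝ) ≤ a + 1 / 4), sq_nonneg a,
      mul_nonneg (mul_nonneg (sub_nonneg.2 hcon) (by linarith : (0:ℝ) ≤ a + 1 / 4)) (sq_nonneg a),
      mul_nonneg (mul_nonneg (sub_nonneg.2 hcon) (by linarith : (0:ℝ) ≤ a + 1 / 4))
        (by linarith : (0:ℝ) ≤ a + 1 / 4)]
  have ha2 : a < 0.4 := by
    by_contra hcon
    push Not at hcon
    have hp : (0:ℝ) < a := by linarith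
    have e2 : (0.4:ℝ) ^ 2 ≤ a ^ 2 := by gcongr
    have e3 : (0.4:ℝ) ^ 3 ≤ a ^ 3 := by gcongr
    have e4 : (0.4:ℝ) ^ 4 ≤ a ^ 4 := by gcongr
    norm_num at e2 e3 e4 hcon
    linarith
  refine ⟨ha1, ha2, ?_⟩
  have hc3 : 3.87 < c := by
    by_contra hcon
    push Not at hcon
    nlinarith
  by_contra hcon
  push Not at hcon
  have e1 : b * (12 * a + 3) ≤ 1.1 * (12 * 0.4 + 3) := by
    apply mul_le_mul hcon (by linarith) (by linarith) (by norm_num)
  have e2 : 3.87 * 2.38 ≤ c * (a + 2) := by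
    apply mul_le_mul hc3.le (by linarith) (by norm_num) hc.le
  norm_num at e1 e2
  linarith

/-- **H4-6c** -/
theorem leaf6c : Leaf6c := by
  intro z z2 hz hz2 hL hL2
  have hz' : 0 < z.im := hz
  have hz2' : 0 < z2.im := hz2
  have hnn : nn 2 = 2 / 3 := by unfold nn; norm_num
  rw [hnn] at hL hL2 ⊢
  obtain ⟨hz0, hz1⟩ := ne_of_im hz'.ne'
  obtain ⟨hz20, hz21⟩ := ne_of_im hz2'.ne'
  -- the equation for `z`
  have hQ : z ^ 2 * (1 - z) = -16 / 27 := by
    rw [← exp_L2 z hz0 hz1, hL, Complex.exp_add, Complex.exp_pi_mul_I]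
    have : Complex.exp ((ell 2 (2 * (2 / 3)) : ℝ) : ℂ) = ((16 / 27 : ℝ) : ℂ) := by
      rw [← Complex.ofReal_exp]
      congr 1
      unfold ell
      rw [Real.exp_add, show (2 : ℝ) * Real.log (2 * (2 / 3)) = ((2 : ℕ) : ℝ) * Real.log (2 * (2 / 3))
        by norm_num, Real.exp_nat_mul, Real.exp_log (by norm_num),
        show Real.log (1 - 2 * (2 / 3)) = Real.log (1 / 3) by
          rw [show (1 : ℝ) - 2 * (2 / 3) = -(1 / 3) by norm_num, Real.log_neg_eq_log],
        Real.exp_log (by norm_num)]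
      norm_num
    rw [this]
    push_cast
    ring
  set c : ℝ := Real.sqrt 15 with hcdef
  have hc : 0 < c := Real.sqrt_pos.2 (by norm_num)
  have hc2 : c ^ 2 = 15 := Real.sq_sqrt (by norm_num)
  -- `z = (-1 + i c)/6`
  have hquad : z ^ 2 + z / 3 + 4 / 9 = 0 := by
    have h : (z - 4 / 3) * (z ^ 2 + z / 3 + 4 / 9) = 0 := by linear_combination -hQ
    rcases mul_eq_zero.1 h with h | h
    · exfalso
      have : z = 4 / 3 := by linear_combination h
      have h2 := congrArg Complex.im this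
      rw [show (4 / 3 : ℂ) = ((4 / 3 : ℝ) : ℂ) by push_cast; rfl, Complex.ofReal_im] at h2
      linarith
    · exact h
  have hre := congrArg Complex.re hquad
  have him := congrArg Complex.im hquad
  have r1 : (z ^ 2 + z / 3 + 4 / 9).re = z.re ^ 2 - z.im ^ 2 + z.re / 3 + 4 / 9 := by
    rw [show z ^ 2 + z / 3 + 4 / 9 = z * z + ((1 / 3 : ℝ) : ℂ) * z + ((4 / 9 : ℝ) : ℂ) by
      push_cast; ring]
    simp only [Complex.add_re, Complex.mul_re, Complex.ofReal_re, Complex.ofReal_im]
    ring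
  have r2 : (z ^ 2 + z / 3 + 4 / 9).im = 2 * z.re * z.im + z.im / 3 := by
    rw [show z ^ 2 + z / 3 + 4 / 9 = z * z + ((1 / 3 : ℝ) : ℂ) * z + ((4 / 9 : ℝ) : ℂ) by
      push_cast; ring]
    simp only [Complex.add_im, Complex.mul_im, Complex.ofReal_re, Complex.ofReal_im]
    ring
  rw [r1, Complex.zero_re] at hre
  rw [r2, Complex.zero_im] at him
  have zre : z.re = -1 / 6 := by
    have : z.im * (2 * z.re + 1 / 3) = 0 := by linear_combination him
    rcases mul_eq_zero.1 this with h | h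
    · exact absurd h hz'.ne'
    · linarith
  have zim : z.im = c / 6 := by
    rw [zre] at hre
    have h : (z.im - c / 6) * (z.im + c / 6) = 0 := by
      linear_combination -hre - hc2 / 36
    rcases mul_eq_zero.1 h with h | h
    · linarith
    · have : 0 < z.im + c / 6 := by positivity
      exact absurd h this.ne'
  -- the equation for `z2`
  set w : ℂ := 2 * ((2 / 3 : ℝ) : ℂ) - z with hw
  have wre : w.re = 3 / 2 := by
    rw [hw, Complex.sub_re, zre, show (2 : ℂ) * ((2 / 3 : ℝ) : ℂ) = ((4 / 3 : ℝ) : ℂ) by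
      push_cast; ring, Complex.ofReal_re]
    norm_num
  have wim : w.im = -(c / 6) := by
    rw [hw, Complex.sub_im, zim, show (2 : ℂ) * ((2 / 3 : ℝ) : ℂ) = ((4 / 3 : ℝ) : ℂ) by
      push_cast; ring, Complex.ofReal_im]
    ring
  have wim' : w.im < 0 := by rw [wim]; linarith
  obtain ⟨hw0, hw1⟩ := ne_of_im wim'.ne
  have hQ2 : z2 ^ 2 * (1 - z2) = w ^ 2 * (1 - w) := by
    rw [← exp_L2 z2 hz20 hz21, hL2, exp_L2 w hw0 hw1]
  have hquad2 : z2 * z2 + (w - 1) * z2 + w * w - w = 0 := by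
    have h : (z2 - w) * (z2 * z2 + (w - 1) * z2 + w * w - w) = 0 := by linear_combination -hQ2
    rcases mul_eq_zero.1 h with h | h
    · exfalso
      have : z2 = w := by linear_combination h
      have h2 := congrArg Complex.im this
      linarith
    · exact h
  have hre2 := congrArg Complex.re hquad2
  have him2 := congrArg Complex.im hquad2
  simp only [Complex.add_re, Complex.sub_re, Complex.mul_re, Complex.sub_im, Complex.one_re,
    Complex.one_im, Complex.zero_re, wre, wim] at hre2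
  simp only [Complex.add_im, Complex.sub_im, Complex.mul_im, Complex.sub_re, Complex.one_re,
    Complex.one_im, Complex.zero_im, wre, wim] at him2
  obtain ⟨ha1, ha2, hb1⟩ := bound_a z2.re z2.im c hz2' hc hc2
    (by linear_combination hre2 + hc2 / 36) (by linear_combination him2)
  have hc3 : 3.87 < c := by
    by_contra hcon
    push Not at hcon
    nlinarith
  refine ⟨by linarith, ?_⟩
  -- the sign of `Im L (4/3 - z2)`
  set u : ℂ := 2 * ((2 / 3 : ℝ) : ℂ) - z2 with hu
  have ure : u.re = 4 / 3 - z2.re := by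
    rw [hu, Complex.sub_re, show (2 : ℂ) * ((2 / 3 : ℝ) : ℂ) = ((4 / 3 : ℝ) : ℂ) by
      push_cast; ring, Complex.ofReal_re]
  have uim : u.im = -z2.im := by
    rw [hu, Complex.sub_im, show (2 : ℂ) * ((2 / 3 : ℝ) : ℂ) = ((4 / 3 : ℝ) : ℂ) by
      push_cast; ring, Complex.ofReal_im]
    ring
  have uim' : u.im < 0 := by rw [uim]; linarith
  have ure' : 0 < u.re := by rw [ure]; linarith
  obtain ⟨hu0, hu1⟩ := ne_of_im uim'.ne
  have hexp := exp_L2 u hu0 hu1
  have himL : (L 2 u).im = 2 * Complex.arg u + Complex.arg (1 - u) := by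
    unfold L
    rw [Complex.add_im, Complex.im_ofReal_mul, Complex.log_im, Complex.log_im]
  have a1 : -(Real.pi / 2) < Complex.arg u := by
    exact (Complex.neg_pi_div_two_lt_arg_iff.2 (Or.inl ure'))
  have a2 : Complex.arg u < 0 := Complex.arg_neg_iff.2 uim'
  have b1 : 0 < (1 - u).im := by rw [Complex.sub_im, Complex.one_im]; linarith
  have b2 : 0 < Complex.arg (1 - u) := by
    rcases (Complex.arg_nonneg_iff.2 b1.le).lt_or_eq with h | h
    · exact h
    · exfalso
      have := (Complex.arg_eq_zero_iff.1 h.symm).2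
      linarith
  have b3 : Complex.arg (1 - u) ≤ Real.pi := Complex.arg_le_pi _
  have him3 : (Complex.exp (L 2 u)).im < 0 := by
    rw [hexp]
    have : (u ^ 2 * (1 - u)).im = u.im * (-(3 * u.re ^ 2) + 2 * u.re + u.im ^ 2) := by
      rw [show u ^ 2 * (1 - u) = u * u * (1 - u) by ring]
      simp only [Complex.mul_im, Complex.mul_re, Complex.sub_im, Complex.sub_re, Complex.one_re,
        Complex.one_im]
      ring
    rw [this]
    apply mul_neg_of_neg_of_pos uim'
    rw [ure, uim]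
    have hcb : 3.87 * 1.1 < c * z2.im := by
      apply mul_lt_mul hc3 hb1.le (by norm_num) hc.le
    norm_num at hcb ha1 ha2
    nlinarith [mul_pos (sub_pos.2 ha1) (sub_pos.2 ha2)]
  rw [Complex.exp_im] at him3
  have hsin : Real.sin (L 2 u).im < 0 := by
    by_contra hcon
    push Not at hcon
    have := mul_nonneg (Real.exp_pos (L 2 u).re).le hcon
    linarith
  by_contra hcon
  push Not at hcon
  have : 0 ≤ Real.sin (L 2 u).im := by
    apply Real.sin_nonneg_of_nonneg_of_le_pi hcon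
    rw [himL]; linarith
  linarith

end Crest.Agent.R102.H4L6c503
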