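import Mathlib

/-! # [H4] of part (C), row 102: the local lifting lemma

`L N y = N log y + log (1 - y)` on the lower half plane, its boundary extensions `L1` (across
`(1, ∞)`), `L2` (across `(-∞, 0)`), and the lifting lemma `extend`: if `u` has values in the lower
half plane near a boundary point and `L N (u s)` converges, then `u` is an analytic function of
`L N (u s)`. -/

open Set Filter Metric Complex Topology

namespace Crest.Agent.R102.H4L148

/-- `L y = N log y + log (1 - y)` -/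
noncomputable def L (N : ℝ) (y : ℂ) : ℂ := N * Complex.log y + Complex.log (1 - y)

/-- extension of `L` from the lower half plane across `(1, ∞)` -/
noncomputable def L1 (N : ℝ) (y : ℂ) : ℂ :=
  N * Complex.log y + Complex.log (y - 1) + Real.pi * Complex.I

/-- extension of `L` from the lower half plane across `(-∞, 0)` -/
noncomputable def L2 (N : ℝ) (y : ℂ) : ℂ :=
  N * (Complex.log (-y) - Real.pi * Complex.I) + Complex.log (1 - y)

theorem log_neg_of_im_neg {x : ℂ} (hx : x.im < 0) :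
    Complex.log (-x) = Complex.log x + Real.pi * Complex.I := by
  apply Complex.ext
  · simp [Complex.log_re]
  · simp [Complex.log_im, Complex.arg_neg_eq_arg_add_pi_of_im_neg hx]

theorem L_eq_L1 (N : ℝ) {y : ℂ} (hy : y.im < 0) : L N y = L1 N y := by
  have h : Complex.log (1 - y) = Complex.log (y - 1) + Real.pi * Complex.I := by
    have := log_neg_of_im_neg (x := y - 1) (by simpa using hy)
    rw [← this]
    congr 1
    ring
  unfold L L1
  rw [h]
  ring

theorem L_eq_L2 (N : ℝ) {y : ℂ} (hy : y.im < 0) : L N y = L2 N y := by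
  unfold L L2
  rw [log_neg_of_im_neg hy]
  ring

theorem hasDerivAt_L (N : ℝ) {y : ℂ} (h0 : y ∈ slitPlane) (h1 : 1 - y ∈ slitPlane) :
    HasDerivAt (L N) (N / y - 1 / (1 - y)) y := by
  have a1 : HasDerivAt (fun y : ℂ => (N : ℂ) * Complex.log y) (N * y⁻¹) y :=
    (Complex.hasDerivAt_log h0).const_mul _
  have a2 : HasDerivAt (fun y : ℂ => Complex.log (1 - y)) (-1 / (1 - y)) y := by
    have : HasDerivAt (fun y : ℂ => 1 - y) (-1) y := by
      simpa using (hasDerivAt_id y).const_sub 1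
    exact this.clog h1
  exact (a1.add a2).congr_deriv (by ring)

theorem hasDerivAt_L1 (N : ℝ) {y : ℂ} (h0 : y ∈ slitPlane) (h1 : y - 1 ∈ slitPlane) :
    HasDerivAt (L1 N) (N / y - 1 / (1 - y)) y := by
  have a1 : HasDerivAt (fun y : ℂ => (N : ℂ) * Complex.log y) (N * y⁻¹) y :=
    (Complex.hasDerivAt_log h0).const_mul _
  have a2 : HasDerivAt (fun y : ℂ => Complex.log (y - 1)) (1 / (y - 1)) y := by
    have : HasDerivAt (fun y : ℂ => y - 1) 1 y := by
      simpa using (hasDerivAt_id y).sub_const 1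
    exact this.clog h1
  have a3 := (a1.add a2).add_const (Real.pi * Complex.I)
  have : (1 : ℂ) / (1 - y) = - (1 / (y - 1)) := by
    rw [← neg_sub y 1, div_neg]
  refine a3.congr_deriv ?_
  rw [this]
  ring

theorem hasDerivAt_L2 (N : ℝ) {y : ℂ} (h0 : -y ∈ slitPlane) (h1 : 1 - y ∈ slitPlane) :
    HasDerivAt (L2 N) (N / y - 1 / (1 - y)) y := by
  have a1 : HasDerivAt (fun y : ℂ => (N : ℂ) * (Complex.log (-y) - Real.pi * Complex.I))
      (N * (-1 / (-y))) y := by
    have : HasDerivAt (fun y : ℂ => -y) (-1) y := hasDerivAt_neg y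
    exact ((this.clog h0).sub_const _).const_mul _
  have a2 : HasDerivAt (fun y : ℂ => Complex.log (1 - y)) (-1 / (1 - y)) y := by
    have : HasDerivAt (fun y : ℂ => 1 - y) (-1) y := by
      simpa using (hasDerivAt_id y).const_sub 1
    exact this.clog h1
  refine (a1.add a2).congr_deriv ?_
  rw [neg_div_neg_eq]
  ring

theorem analyticAt_L (N : ℝ) {y : ℂ} (h0 : y ∈ slitPlane) (h1 : 1 - y ∈ slitPlane) :
    AnalyticAt ℂ (L N) y :=
  (analyticAt_const.mul (analyticAt_id.clog h0)).add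
    ((analyticAt_const.sub analyticAt_id).clog h1)

theorem analyticAt_L1 (N : ℝ) {y : ℂ} (h0 : y ∈ slitPlane) (h1 : y - 1 ∈ slitPlane) :
    AnalyticAt ℂ (L1 N) y :=
  ((analyticAt_const.mul (analyticAt_id.clog h0)).add
    ((analyticAt_id.sub analyticAt_const).clog h1)).add analyticAt_const

theorem analyticAt_L2 (N : ℝ) {y : ℂ} (h0 : -y ∈ slitPlane) (h1 : 1 - y ∈ slitPlane) :
    AnalyticAt ℂ (L2 N) y :=
  (analyticAt_const.mul ((analyticAt_id.neg.clog h0).sub analyticAt_const)).add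
    ((analyticAt_const.sub analyticAt_id).clog h1)

theorem slit_of_im_ne {y : ℂ} (h : y.im ≠ 0) : y ∈ slitPlane := Or.inr h

theorem slit_of_re_pos {y : ℂ} (h : 0 < y.re) : y ∈ slitPlane := Or.inl h

/-- the four possible positions of a boundary value -/
def Pos (N : ℝ) (y V : ℂ) : Prop :=
  (y.im < 0 ∧ L N y = V) ∨ (y.im = 0 ∧ 0 < y.re ∧ y.re < 1 ∧ L N y = V) ∨
    (y.im = 0 ∧ 1 < y.re ∧ L1 N y = V) ∨ (y.im = 0 ∧ y.re < 0 ∧ L2 N y = V)

theorem deriv_ne {N : ℝ} (hN : 0 < N) {y : ℂ} (h0 : y ≠ 0) (h1 : 1 - y ≠ 0)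
    (hn : y ≠ ((N / (N + 1) : ℝ) : ℂ)) : (N : ℂ) / y - 1 / (1 - y) ≠ 0 := by
  intro h
  apply hn
  have hN1 : (N : ℂ) + 1 ≠ 0 := by
    exact_mod_cast (by linarith : N + 1 ≠ 0)
  have : (N : ℂ) * (1 - y) - y = 0 := by
    have h2 := h
    rw [div_sub_div _ _ h0 h1, div_eq_zero_iff] at h2
    rcases h2 with h2 | h2
    · linear_combination h2
    · exact absurd h2 (mul_ne_zero h0 h1)
  push_cast
  rw [eq_div_iff hN1]
  linear_combination -this

/-- in each case there is a local analytic extension of `L` at the boundary value -/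
theorem Pos.ext {N : ℝ} (hN : 0 < N) {y V : ℂ} (h : Pos N y V)
    (hn : y ≠ ((N / (N + 1) : ℝ) : ℂ)) :
    ∃ F : ℂ → ℂ, AnalyticAt ℂ F y ∧ deriv F y ≠ 0 ∧ F y = V ∧
      ∀ z : ℂ, z.im < 0 → F z = L N z := by
  rcases h with ⟨h1, h2⟩ | ⟨h1, h2, h3, h4⟩ | ⟨h1, h2, h3⟩ | ⟨h1, h2, h3⟩
  · have a : y ∈ slitPlane := slit_of_im_ne h1.ne
    have b : 1 - y ∈ slitPlane := slit_of_im_ne (by simpa using h1.ne)
    refine ⟨L N, analyticAt_L N a b, ?_, h2, fun z _ => rfl⟩
    rw [(hasDerivAt_L N a b).deriv]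
    exact deriv_ne hN (slitPlane_ne_zero a) (slitPlane_ne_zero b) hn
  · have a : y ∈ slitPlane := slit_of_re_pos h2
    have b : 1 - y ∈ slitPlane := slit_of_re_pos (by simpa using h3)
    refine ⟨L N, analyticAt_L N a b, ?_, h4, fun z _ => rfl⟩
    rw [(hasDerivAt_L N a b).deriv]
    exact deriv_ne hN (slitPlane_ne_zero a) (slitPlane_ne_zero b) hn
  · have a : y ∈ slitPlane := slit_of_re_pos (by linarith)
    have b : y - 1 ∈ slitPlane := slit_of_re_pos (by simpa using h2)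
    have b' : 1 - y ≠ 0 := by
      intro h
      apply slitPlane_ne_zero b
      linear_combination -h
    refine ⟨L1 N, analyticAt_L1 N a b, ?_, h3, fun z hz => (L_eq_L1 N hz).symm⟩
    rw [(hasDerivAt_L1 N a b).deriv]
    exact deriv_ne hN (slitPlane_ne_zero a) b' hn
  · have a : -y ∈ slitPlane := slit_of_re_pos (by simpa using h2)
    have b : 1 - y ∈ slitPlane := slit_of_re_pos (by simp; linarith)
    refine ⟨L2 N, analyticAt_L2 N a b, ?_, h3, fun z hz => (L_eq_L2 N hz).symm⟩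
    rw [(hasDerivAt_L2 N a b).deriv]
    exact deriv_ne hN (by simpa using slitPlane_ne_zero a) (slitPlane_ne_zero b) hn

/-- **Lifting lemma.** -/
theorem lift (F : ℂ → ℂ) (y : ℂ) (hF : AnalyticAt ℂ F y) (hd : deriv F y ≠ 0) :
    ∃ ε > 0, ∃ O : Set ℂ, IsOpen O ∧ y ∈ O ∧ ∃ J : ℂ → ℂ,
      AnalyticOnNhd ℂ J (ball (F y) ε) ∧ J (F y) = y ∧ deriv J (F y) ≠ 0 ∧
      (∀ v ∈ ball (F y) ε, F (J v) = v ∧ J v ∈ O) ∧
      ∀ (X : Set ℂ) (u V : ℂ → ℂ), IsPreconnected X → ContinuousOn u X → ContinuousOn V X →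
        (∀ x ∈ X, F (u x) = V x) → (∀ x ∈ X, V x ∈ ball (F y) ε) → (∃ x ∈ X, u x ∈ O) →
        ∀ x ∈ X, u x = J (V x) := by
  have hs : HasStrictDerivAt F (deriv F y) y := hF.hasStrictDerivAt
  set J : ℂ → ℂ := hs.localInverse F (deriv F y) y hd with hJ
  have hJan : AnalyticAt ℂ J (F y) := hF.analyticAt_localInverse hd
  have hleft : ∀ᶠ x in 𝓝 y, J (F x) = x := hs.eventually_left_inverse hd
  have hright : ∀ᶠ v in 𝓝 (F y), F (J v) = v := hs.eventually_right_inverse hd
  obtain ⟨O, hO, hOo, hyO⟩ := _root_.mem_nhds_iff.1 hleft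
  have hJy : J (F y) = y := hO hyO
  have hcont : ∀ᶠ v in 𝓝 (F y), J v ∈ O := by
    apply hJan.continuousAt.eventually
    rw [hJy]
    exact hOo.mem_nhds hyO
  have hev := (hright.and hcont).and hJan.eventually_analyticAt
  obtain ⟨ε, hε, hball⟩ := Metric.eventually_nhds_iff_ball.1 hev
  have hJd : deriv J (F y) ≠ 0 := by
    have h := hs.to_localInverse hd
    rw [h.hasDerivAt.deriv]
    exact inv_ne_zero hd
  refine ⟨ε, hε, O, hOo, hyO, J, fun v hv => (hball v hv).2, hJy, hJd,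
    fun v hv => (hball v hv).1, ?_⟩
  intro X u V hX hu hV hFu hVb hex x hx
  have : PreconnectedSpace X := Subtype.preconnectedSpace hX
  set S : Set X := {x | u x = J (V x)} with hS
  have hJV : ContinuousOn (fun x => J (V x)) X := by
    have : ContinuousOn J (ball (F y) ε) := fun v hv =>
      ((hball v hv).2.continuousAt).continuousWithinAt
    exact this.comp hV hVb
  have hcl : IsClosed S :=
    isClosed_eq (continuousOn_iff_continuous_domRestrict.1 hu)
      (continuousOn_iff_continuous_domRestrict.1 hJV)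
  have hSO : S = {x : X | u x ∈ O} := by
    ext z
    constructor
    · intro hz
      have hz' : u z = J (V z) := hz
      show u z ∈ O
      rw [hz']
      exact (hball _ (hVb z z.2)).1.2
    · intro hz
      have hz' : u z ∈ O := hz
      have h1 : J (F (u z)) = u z := hO hz'
      show u z = J (V z)
      rw [← hFu z z.2, h1]
  have hop : IsOpen S := by
    rw [hSO]
    exact hOo.preimage (continuousOn_iff_continuous_domRestrict.1 hu)
  have hne : S.Nonempty := by
    obtain ⟨z, hz, hzO⟩ := hex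
    refine ⟨⟨z, hz⟩, ?_⟩
    rw [hSO]
    exact hzO
  have huniv : S = univ := IsClopen.eq_univ ⟨hcl, hop⟩ hne
  have : (⟨x, hx⟩ : X) ∈ S := by rw [huniv]; trivial
  exact this

theorem re_L {N : ℝ} (y : ℂ) : (L N y).re = N * Real.log ‖y‖ + Real.log ‖1 - y‖ := by
  simp [L, Complex.log_re]

/-- bounds for the level sets of `Re L` -/
theorem bounds {N : ℝ} (hN : 0 < N) (M : ℝ) : ∃ R δ : ℝ, 0 < δ ∧
    ∀ y : ℂ, y ≠ 0 → 1 - y ≠ 0 → |(L N y).re| ≤ M → ‖y‖ ≤ R ∧ δ ≤ ‖y‖ ∧ δ ≤ ‖1 - y‖ := by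
  set R := max 2 (Real.exp (M / N)) with hR
  have hR2 : 2 ≤ R := le_max_left _ _
  set δ1 := Real.exp (-(M + Real.log (1 + R)) / N) with hδ1
  set δ2 := Real.exp (-(M + N * Real.log R)) with hδ2
  refine ⟨R, min δ1 δ2, lt_min (Real.exp_pos _) (Real.exp_pos _), ?_⟩
  intro y hy0 hy1 hM
  have p0 : 0 < ‖y‖ := norm_pos_iff.2 hy0
  have p1 : 0 < ‖1 - y‖ := norm_pos_iff.2 hy1
  rw [re_L] at hM
  obtain ⟨hMl, hMu⟩ := abs_le.1 hM
  have hyR : ‖y‖ ≤ R := by
    by_contra hlt
    push Not at hlt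
    have h2 : 2 < ‖y‖ := lt_of_le_of_lt hR2 hlt
    have h3 : 1 ≤ ‖1 - y‖ := by
      have := norm_sub_norm_le y 1
      rw [norm_sub_rev] at this
      simp only [norm_one] at this
      linarith
    have h4 : 0 ≤ Real.log ‖1 - y‖ := Real.log_nonneg h3
    have h5 : Real.exp (M / N) < ‖y‖ := lt_of_le_of_lt (le_max_right _ _) hlt
    have h6 : M / N < Real.log ‖y‖ := (Real.lt_log_iff_exp_lt p0).2 h5
    have h7 : M < N * Real.log ‖y‖ := by
      rw [div_lt_iff₀ hN] at h6
      linarith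
    linarith
  have h1y : ‖1 - y‖ ≤ 1 + R := by
    calc ‖1 - y‖ ≤ ‖(1 : ℂ)‖ + ‖y‖ := norm_sub_le _ _
      _ ≤ 1 + R := by simp only [norm_one]; linarith
  have hl1 : Real.log ‖1 - y‖ ≤ Real.log (1 + R) := Real.log_le_log p1 h1y
  have hl2 : Real.log ‖y‖ ≤ Real.log R := Real.log_le_log p0 hyR
  refine ⟨hyR, (min_le_left _ _).trans ?_, (min_le_right _ _).trans ?_⟩
  · rw [hδ1, ← Real.le_log_iff_exp_le p0, div_le_iff₀ hN]
    linarith
  · rw [hδ2, ← Real.le_log_iff_exp_le p1]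
    have : N * Real.log ‖y‖ ≤ N * Real.log R := mul_le_mul_of_nonneg_left hl2 hN.le
    linarith

/-- **Compactness**: if `L N (u x)` converges and `u x` is in the lower half plane, then `u` has a
cluster value, in one of the four positions. -/
theorem cluster {α : Type*} {l : Filter α} [l.NeBot] {N : ℝ} (hN : 0 < N) {u : α → ℂ} {V : ℂ}
    (hu : ∀ᶠ x in l, (u x).im < 0) (hV : Tendsto (fun x => L N (u x)) l (𝓝 V)) :
    ∃ y : ℂ, MapClusterPt y l u ∧ Pos N y V := by
  obtain ⟨R, δ, hδ, hb⟩ := bounds hN (|V.re| + 1)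
  set K : Set ℂ := {y | ‖y‖ ≤ R ∧ δ ≤ ‖y‖ ∧ δ ≤ ‖1 - y‖ ∧ y.im ≤ 0} with hK
  have hKc : IsCompact K := by
    have h1 : K = closedBall 0 R ∩ {y : ℂ | δ ≤ ‖y‖ ∧ δ ≤ ‖1 - y‖ ∧ y.im ≤ 0} := by
      ext y
      simp [hK]
    rw [h1]
    refine (isCompact_closedBall _ _).inter_right ?_
    have c1 : IsClosed {y : ℂ | δ ≤ ‖y‖} := isClosed_le continuous_const continuous_norm
    have c2 : IsClosed {y : ℂ | δ ≤ ‖1 - y‖} :=
      isClosed_le continuous_const (continuous_const.sub continuous_id).norm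
    have c3 : IsClosed {y : ℂ | y.im ≤ 0} := isClosed_le Complex.continuous_im continuous_const
    exact c1.inter (c2.inter c3)
  have hre : ∀ᶠ x in l, |(L N (u x)).re| ≤ |V.re| + 1 := by
    have h1 : Tendsto (fun x => |(L N (u x)).re|) l (𝓝 |V.re|) :=
      ((Complex.continuous_re.tendsto V).comp hV).abs
    filter_upwards [h1.eventually (gt_mem_nhds (lt_add_one |V.re|))] with x hx
    exact le_of_lt hx
  have hev : ∀ᶠ x in l, u x ∈ K := by
    filter_upwards [hu, hre] with x h1 h2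
    have h0 : u x ≠ 0 := by
      intro h
      rw [h] at h1
      simp at h1
    have h0' : 1 - u x ≠ 0 := by
      intro h
      have : (1 - u x).im = 0 := by rw [h]; simp
      simp at this
      linarith
    obtain ⟨a, b, c⟩ := hb (u x) h0 h0' h2
    exact ⟨a, b, c, h1.le⟩
  obtain ⟨y, hyK, hy⟩ := hKc.exists_mapClusterPt (tendsto_principal.2 hev)
  refine ⟨y, hy, ?_⟩
  obtain ⟨U, hUl, hUy⟩ := mapClusterPt_iff_ultrafilter.1 hy
  have hUV : Tendsto (fun x => L N (u x)) U (𝓝 V) := hV.mono_left hUl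
  have hUim : ∀ᶠ x in (U : Filter α), (u x).im < 0 := hu.filter_mono hUl
  have key : ∀ F : ℂ → ℂ, ContinuousAt F y → (∀ z : ℂ, z.im < 0 → F z = L N z) → F y = V := by
    intro F hF hFL
    have h1 : Tendsto (fun x => F (u x)) U (𝓝 (F y)) := hF.tendsto.comp hUy
    have h2 : Tendsto (fun x => F (u x)) U (𝓝 V) := by
      refine hUV.congr' ?_
      filter_upwards [hUim] with x hx
      exact (hFL _ hx).symm
    exact tendsto_nhds_unique h1 h2
  have hy0 : y ≠ 0 := by
    intro h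
    have := hyK.2.1
    rw [h] at this
    simp at this
    linarith
  have hy1 : 1 - y ≠ 0 := by
    intro h
    have := hyK.2.2.1
    rw [h] at this
    simp at this
    linarith
  rcases lt_or_eq_of_le hyK.2.2.2 with him | him
  · left
    refine ⟨him, key _ ?_ fun z _ => rfl⟩
    exact (analyticAt_L N (slit_of_im_ne him.ne) (slit_of_im_ne (by simpa using him.ne))).continuousAt
  · rcases lt_trichotomy y.re 0 with h | h | h
    · right; right; right
      refine ⟨him, h, key _ ?_ fun z hz => (L_eq_L2 N hz).symm⟩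
      exact (analyticAt_L2 N (slit_of_re_pos (by simpa using h))
        (slit_of_re_pos (by simp; linarith))).continuousAt
    · exact absurd (Complex.ext (by simpa using h) (by simpa using him)) hy0
    · rcases lt_trichotomy y.re 1 with h' | h' | h'
      · right; left
        refine ⟨him, h, h', key _ ?_ fun z _ => rfl⟩
        exact (analyticAt_L N (slit_of_re_pos h)
          (slit_of_re_pos (by simpa using h'))).continuousAt
      · exact absurd (Complex.ext (by simp [h']) (by simp [him])) hy1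
      · right; right; left
        refine ⟨him, h', key _ ?_ fun z hz => (L_eq_L1 N hz).symm⟩
        exact (analyticAt_L1 N (slit_of_re_pos h)
          (slit_of_re_pos (by simpa using h'))).continuousAt

/-- half balls are preconnected and accumulate at the centre -/
theorem half_pre {x0 : ℂ} {r : ℝ} : IsPreconnected (ball x0 r ∩ {s : ℂ | s.im < x0.im}) :=
  ((convex_ball x0 r).inter (convex_halfSpace_im_lt x0.im)).isPreconnected

instance half_neBot {x0 : ℂ} : (𝓝[{s : ℂ | s.im < x0.im}] x0).NeBot := by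
  rw [← mem_closure_iff_nhdsWithin_neBot]
  rw [Metric.mem_closure_iff]
  intro ε hε
  refine ⟨x0 - (ε / 2 : ℝ) * Complex.I, ?_, ?_⟩
  · simp
    linarith
  · rw [dist_eq_norm]
    have : x0 - (x0 - (ε / 2 : ℝ) * Complex.I) = (ε / 2 : ℝ) * Complex.I := by ring
    rw [this, norm_mul, Complex.norm_I, mul_one, Complex.norm_real, Real.norm_eq_abs,
      abs_of_pos (by linarith)]
    linarith

/-- **Extension lemma** ([H4], A3 + A4).  Let `u` be continuous on the half ball below `x0`, with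
values in the lower half plane, and suppose that `L N (u s)` converges to `V` as `s → x0`.  Then
there is a boundary value `y` in one of the four positions, and if `y ≠ N/(N+1)` then `u` is an
analytic, locally biholomorphic function of `L N (u s)` near `x0`. -/
theorem extend {N : ℝ} (hN : 0 < N) {x0 : ℂ} {u : ℂ → ℂ} {r0 : ℝ} (hr0 : 0 < r0)
    (hu : ContinuousOn u (ball x0 r0 ∩ {s : ℂ | s.im < x0.im}))
    (him : ∀ s ∈ ball x0 r0 ∩ {s : ℂ | s.im < x0.im}, (u s).im < 0) {V : ℂ}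
    (hV : Tendsto (fun s => L N (u s)) (𝓝[{s : ℂ | s.im < x0.im}] x0) (𝓝 V)) :
    ∃ y : ℂ, Pos N y V ∧ (y ≠ ((N / (N + 1) : ℝ) : ℂ) →
      ∃ J : ℂ → ℂ, AnalyticAt ℂ J V ∧ J V = y ∧ deriv J V ≠ 0 ∧
        ∀ᶠ s in 𝓝[{s : ℂ | s.im < x0.im}] x0, u s = J (L N (u s))) := by
  have hev : ∀ᶠ s in 𝓝[{s : ℂ | s.im < x0.im}] x0, s ∈ ball x0 r0 ∩ {s : ℂ | s.im < x0.im} := by
    filter_upwards [mem_nhdsWithin_of_mem_nhds (ball_mem_nhds x0 hr0), self_mem_nhdsWithin]
      with s h1 h2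
    exact ⟨h1, h2⟩
  have hev2 : ∀ᶠ s in 𝓝[{s : ℂ | s.im < x0.im}] x0, (u s).im < 0 := by
    filter_upwards [hev] with s hs
    exact him s hs
  obtain ⟨y, hy, hpos⟩ := cluster hN hev2 hV
  refine ⟨y, hpos, fun hn => ?_⟩
  obtain ⟨F, hF, hFd, hFy, hFL⟩ := hpos.ext hN hn
  obtain ⟨ε, hε, O, hO, hyO, J, hJan, hJy, hJd, hJb, hlift⟩ := lift F y hF hFd
  rw [hFy] at hJan hJy hJd hJb hlift
  refine ⟨J, hJan V (mem_ball_self hε), hJy, hJd, ?_⟩
  -- shrink
  have h1 : ∀ᶠ s in 𝓝[{s : ℂ | s.im < x0.im}] x0, L N (u s) ∈ ball V ε :=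
    hV.eventually (ball_mem_nhds V hε)
  obtain ⟨r, hr, hrb⟩ := Metric.mem_nhdsWithin_iff.1 (hev.and h1)
  have hX : IsPreconnected (ball x0 r ∩ {s : ℂ | s.im < x0.im}) := half_pre
  have hsub : ball x0 r ∩ {s : ℂ | s.im < x0.im} ⊆ ball x0 r0 ∩ {s : ℂ | s.im < x0.im} :=
    fun s hs => (hrb hs).1
  have hcu : ContinuousOn u (ball x0 r ∩ {s : ℂ | s.im < x0.im}) := hu.mono hsub
  have hcL : ContinuousOn (fun s => L N (u s)) (ball x0 r ∩ {s : ℂ | s.im < x0.im}) := by
    have : ContinuousOn (L N) {z : ℂ | z.im < 0} := fun z hz =>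
      (analyticAt_L N (slit_of_im_ne (ne_of_lt hz))
        (slit_of_im_ne (by simpa using (ne_of_lt hz)))).continuousAt.continuousWithinAt
    exact this.comp hcu fun s hs => him s (hsub hs)
  have hexO : ∃ x ∈ ball x0 r ∩ {s : ℂ | s.im < x0.im}, u x ∈ O := by
    have hfr : ∃ᶠ s in 𝓝[{s : ℂ | s.im < x0.im}] x0, u s ∈ O :=
      hy.frequently (hO.mem_nhds hyO)
    have hmem : ∀ᶠ s in 𝓝[{s : ℂ | s.im < x0.im}] x0,
        s ∈ ball x0 r ∩ {s : ℂ | s.im < x0.im} := by
      filter_upwards [mem_nhdsWithin_of_mem_nhds (ball_mem_nhds x0 hr), self_mem_nhdsWithin]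
        with s h1 h2
      exact ⟨h1, h2⟩
    obtain ⟨s, hs1, hs2⟩ := (hfr.and_eventually hmem).exists
    exact ⟨s, hs2, hs1⟩
  have hfin := hlift _ u (fun s => L N (u s)) hX hcu hcL
    (fun s hs => hFL _ (him s (hsub hs))) (fun s hs => (hrb hs).2) hexO
  filter_upwards [mem_nhdsWithin_of_mem_nhds (ball_mem_nhds x0 hr), self_mem_nhdsWithin]
    with s h1 h2
  exact hfin s ⟨h1, h2⟩

end Crest.Agent.R102.H4L148
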