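import Crest.Agent.R102.H4Defs_490

/-!
# [H4]: transition lemmas along the chain `L(v') = L(2n - v)` (helper490)
-/

open Complex Set Filter Topology

noncomputable section

namespace Crest.Agent.R102.H4

variable {N : ℝ}

local notation "cj" => (starRingEnd ℂ)

lemma nn_pos490 (hN : 1 < N) : 0 < nn N := by unfold nn; positivity

lemma nn_lt_one490 (hN : 1 < N) : nn N < 1 := by
  unfold nn; rw [div_lt_one (by linarith)]; linarith

lemma half_lt_nn (hN : 1 < N) : 1 / 2 < nn N := by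
  unfold nn; rw [div_lt_div_iff₀ (by norm_num) (by linarith)]; linarith

lemma one_sub_nn (hN : 1 < N) : 1 - nn N = 1 / (N + 1) := by
  unfold nn; have : N + 1 ≠ 0 := by linarith
  field_simp; ring

lemma N_div_nn (hN : 1 < N) : N / nn N = N + 1 := by
  unfold nn; have : N + 1 ≠ 0 := by linarith
  have : N ≠ 0 := by linarith
  field_simp

lemma isOpen_UH : IsOpen UH := isOpen_lt continuous_const Complex.continuous_im

lemma isOpen_SS (N : ℝ) : IsOpen (SS N) := by
  have h : SS N = {w | -Real.pi < w.im} ∩ {w | w.im < N * Real.pi} ∩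
      ({w | w.im ≠ 0} ∪ {w : ℂ | ell N (nn N) < w.re}) := by
    ext w
    simp only [SS, mem_ofPred_eq, mem_inter_iff, mem_union]
    constructor
    · rintro ⟨h1, h2, h3⟩
      refine ⟨⟨h1, h2⟩, ?_⟩
      by_cases h : w.im = 0
      · exact Or.inr (h3 h)
      · exact Or.inl h
    · rintro ⟨⟨h1, h2⟩, h3⟩
      refine ⟨h1, h2, fun h => ?_⟩
      rcases h3 with h3 | h3
      · exact absurd h h3
      · exact h3
  rw [h]
  refine ((isOpen_lt continuous_const Complex.continuous_im).inter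
    (isOpen_lt Complex.continuous_im continuous_const)).inter
    (IsOpen.union ?_ (isOpen_lt continuous_const Complex.continuous_re))
  exact isOpen_ne_fun Complex.continuous_im continuous_const

lemma refl_mem {v : ℂ} (hv : v ∈ UH) : 2 * (nn N : ℂ) - cj v ∈ UH := by
  simp only [UH, mem_ofPred_eq] at *
  simp; exact hv

lemma L_refl (S : BdyS N) {v : ℂ} (hv : v ∈ UH) :
    L N (2 * (nn N : ℂ) - v) = cj (L N (2 * (nn N : ℂ) - cj v)) := by
  rw [← S.cj _ (refl_mem hv)]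
  congr 1
  rw [map_sub, map_mul, Complex.conj_conj, Complex.conj_ofReal, map_ofNat]

lemma L_refl_im_lt (h1 : ∀ z ∈ UH, L N z ∈ SS N) (S : BdyS N) {v : ℂ} (hv : v ∈ UH) :
    (L N (2 * (nn N : ℂ) - v)).im < Real.pi := by
  rw [L_refl S hv]
  have := (h1 _ (refl_mem (N := N) hv)).1
  simp only [conj_im]; linarith

lemma L_refl_mem (hN : 1 < N) (h1 : ∀ z ∈ UH, L N z ∈ SS N) (S : BdyS N) {v : ℂ} (hv : v ∈ UH)
    (h : -Real.pi < (L N (2 * (nn N : ℂ) - v)).im) : L N (2 * (nn N : ℂ) - v) ∈ SS N := by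
  refine ⟨h, ?_, ?_⟩
  · have := L_refl_im_lt h1 S hv
    nlinarith [Real.pi_pos]
  · rw [L_refl S hv]
    have := (h1 _ (refl_mem (N := N) hv)).2.2
    simp only [conj_im, conj_re]
    intro h0; exact this (by linarith)

lemma mem_slit_of_im {z : ℂ} (hz : z.im ≠ 0) : z ∈ slitPlane := by
  rw [Complex.mem_slitPlane_iff]; exact Or.inr hz

lemma L_differentiableAt {z : ℂ} (hz : z.im ≠ 0) : DifferentiableAt ℂ (L N) z := by
  unfold L
  refine DifferentiableAt.add ?_ ?_
  · exact (differentiableAt_const _).mul (Complex.differentiableAt_log (mem_slit_of_im hz))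
  · refine DifferentiableAt.clog (by fun_prop) (mem_slit_of_im ?_)
    simpa using hz

lemma L_hasDerivAt {z : ℂ} (hz : z.im ≠ 0) :
    HasDerivAt (L N) ((N : ℂ) * z⁻¹ + -1 / (1 - z)) z := by
  unfold L
  refine HasDerivAt.add ?_ ?_
  · exact (Complex.hasDerivAt_log (mem_slit_of_im hz)).const_mul _
  · have h1 : HasDerivAt (fun z : ℂ => 1 - z) (-1) z := by
      simpa using (hasDerivAt_id z).const_sub (1 : ℂ)
    exact h1.clog (mem_slit_of_im (by simpa using hz))

lemma L_deriv_im (hN : 1 < N) {z : ℂ} (hz : z ∈ UH) :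
    ((N : ℂ) * z⁻¹ + -1 / (1 - z)).im < 0 := by
  have hz' : 0 < z.im := hz
  have h3 : 0 < normSq z := by
    rw [normSq_pos]; rintro rfl; simp at hz'
  have h4 : 0 < normSq (1 - z) := by
    rw [normSq_pos]; intro h; have := congrArg Complex.im h; simp at this; linarith
  have h5 : ((N : ℂ) * z⁻¹).im = -(N * z.im / normSq z) := by
    rw [Complex.im_ofReal_mul, Complex.inv_im]; ring
  have h6 : (-1 / (1 - z)).im = -(z.im / normSq (1 - z)) := by
    rw [neg_div, one_div, Complex.neg_im, Complex.inv_im]; simp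
  rw [Complex.add_im, h5, h6]
  have : 0 < N * z.im / normSq z := by positivity
  have : 0 < z.im / normSq (1 - z) := by positivity
  linarith

lemma L_deriv_ne (hN : 1 < N) {z : ℂ} (hz : z ∈ UH) : (N : ℂ) * z⁻¹ + -1 / (1 - z) ≠ 0 := by
  intro h
  have := L_deriv_im hN hz
  rw [h] at this; simp at this

/-! ### The inverse of `L` -/

/-- inverse of `L : UH → SS` -/
def KK (N : ℝ) : ℂ → ℂ := Function.invFunOn (L N) UH

lemma KK_mem (h2 : ∀ w ∈ SS N, ∃ z ∈ UH, L N z = w) {w : ℂ} (hw : w ∈ SS N) : KK N w ∈ UH :=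
  Function.invFunOn_mem (h2 w hw)

lemma L_KK (h2 : ∀ w ∈ SS N, ∃ z ∈ UH, L N z = w) {w : ℂ} (hw : w ∈ SS N) : L N (KK N w) = w :=
  Function.invFunOn_eq (h2 w hw)

lemma KK_eq (h0 : Set.InjOn (L N) UH) (h1 : ∀ z ∈ UH, L N z ∈ SS N)
    (h2 : ∀ w ∈ SS N, ∃ z ∈ UH, L N z = w) {z : ℂ} (hz : z ∈ UH) : KK N (L N z) = z :=
  h0 (KK_mem h2 (h1 z hz)) hz (L_KK h2 (h1 z hz))

lemma KK_cont (B : BdyB N) (h2 : ∀ w ∈ SS N, ∃ z ∈ UH, L N z = w) {w : ℂ} (hw : w ∈ SS N) :
    ContinuousAt (KK N) w := by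
  have hev : ∀ᶠ i in 𝓝 w, i ∈ SS N := (isOpen_SS N).mem_nhds hw
  refine B.b1 (𝓝 w) (KK N) (KK N w) (hev.mono fun i hi => KK_mem h2 hi) (KK_mem h2 hw) ?_
  rw [L_KK h2 hw]
  refine Tendsto.congr' (hev.mono fun i hi => (L_KK h2 hi).symm) tendsto_id

lemma KK_hasDerivAt (hN : 1 < N) (B : BdyB N) (h2 : ∀ w ∈ SS N, ∃ z ∈ UH, L N z = w) {w : ℂ}
    (hw : w ∈ SS N) :
    HasDerivAt (KK N) ((N : ℂ) * (KK N w)⁻¹ + -1 / (1 - KK N w))⁻¹ w := by
  have hm := KK_mem h2 hw
  have hm' : (KK N w).im ≠ 0 := ne_of_gt hm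
  refine HasDerivAt.of_local_left_inverse (KK_cont B h2 hw) (L_hasDerivAt hm') (L_deriv_ne hN hm) ?_
  exact (show ∀ᶠ i in 𝓝 w, i ∈ SS N from (isOpen_SS N).mem_nhds hw).mono fun i hi => L_KK h2 hi

/-! ### real values of `ell` -/

lemma ell_lt {x : ℝ} (hN : 1 < N) (h0 : 0 < x) (h1 : x < 1) (hx : x ≠ nn N) :
    ell N x < ell N (nn N) := by
  have hn := nn_pos490 hN
  have hn1 := nn_lt_one490 hN
  have a1 : Real.log (x / nn N) < x / nn N - 1 :=
    Real.log_lt_sub_one_of_pos (by positivity) (by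
      intro h; apply hx; field_simp at h; exact h)
  have a2 : Real.log ((1 - x) / (1 - nn N)) ≤ (1 - x) / (1 - nn N) - 1 :=
    Real.log_le_sub_one_of_pos (div_pos (by linarith) (by linarith))
  rw [Real.log_div h0.ne' hn.ne'] at a1
  rw [Real.log_div (by linarith) (by linarith)] at a2
  unfold ell
  have e1 : N * (x / nn N - 1) = (N + 1) * (x - nn N) := by
    have := N_div_nn hN
    have h' : N * (x / nn N - 1) = (N / nn N) * (x - nn N) := by field_simp
    rw [h', this]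
  have e2 : (1 - x) / (1 - nn N) - 1 = -((N + 1) * (x - nn N)) := by
    rw [one_sub_nn hN]
    have h' : N + 1 ≠ 0 := by linarith
    have h3 : (1 - x) / (1 / (N + 1)) - 1 = (N + 1) * (1 - x) - 1 := by field_simp
    rw [h3]
    have h4 : (N + 1) * nn N = N := by unfold nn; field_simp
    linear_combination -h4
  nlinarith [mul_lt_mul_of_pos_left a1 (show (0 : ℝ) < N by linarith)]

lemma ell_exists {x : ℝ} (hN : 1 < N) (h0 : 0 < x) (h1 : x < nn N) :
    ∃ r : ℝ, nn N < r ∧ r < 1 ∧ ell N r = ell N x := by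
  have hn := nn_pos490 hN
  have hn1 := nn_lt_one490 hN
  have hlt := ell_lt hN h0 (h1.trans hn1) h1.ne
  -- a point close to 1
  obtain ⟨y, hy0, hy1, hy2⟩ : ∃ y : ℝ, nn N < y ∧ y < 1 ∧ ell N y < ell N x := by
    set c := min ((1 - nn N) / 2) (Real.exp (ell N x) / 2) with hc
    have hc0 : 0 < c := lt_min (by linarith) (by positivity)
    have hc1 : c ≤ (1 - nn N) / 2 := min_le_left _ _
    have hc2 : c ≤ Real.exp (ell N x) / 2 := min_le_right _ _
    refine ⟨1 - c, by linarith, by linarith, ?_⟩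
    unfold ell
    have e1 : Real.log (1 - c) ≤ 0 := Real.log_nonpos (by linarith) (by linarith)
    have e2 : Real.log (1 - (1 - c)) < ell N x := by
      rw [show 1 - (1 - c) = c by ring]
      rw [Real.log_lt_iff_lt_exp hc0]
      linarith [Real.exp_pos (ell N x)]
    have : ell N x = N * Real.log x + Real.log (1 - x) := rfl
    nlinarith
  have hcont : ContinuousOn (ell N) (Icc (nn N) y) := by
    unfold ell
    intro t ht
    have : ContinuousAt (fun x => N * Real.log x + Real.log (1 - x)) t := by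
      have h1 : t ≠ 0 := by linarith [ht.1]
      have h2 : 1 - t ≠ 0 := by linarith [ht.2]
      exact (continuousAt_const.mul (Real.continuousAt_log h1)).add
        ((continuousAt_const.sub continuousAt_id).log h2)
    exact this.continuousWithinAt
  have := intermediate_value_Icc' hy0.le hcont ⟨hy2.le, hlt.le⟩
  obtain ⟨r, hr, hr'⟩ := this
  refine ⟨r, ?_, by linarith [hr.2], hr'⟩
  rcases hr.1.lt_or_eq with h | h
  · exact h
  · rw [← h] at hr'; linarith

/-! ### Transition lemmas -/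

section trans

variable (hN : 1 < N) (h0 : Set.InjOn (L N) UH) (h1 : ∀ z ∈ UH, L N z ∈ SS N)
  (h2 : ∀ w ∈ SS N, ∃ z ∈ UH, L N z = w) (B : BdyB N) (S : BdyS N)
  {l : Filter ℂ} {v v' : ℂ → ℂ} (hv : ∀ᶠ i in l, v i ∈ UH) (hv' : ∀ᶠ i in l, v' i ∈ UH)
  (he : ∀ᶠ i in l, L N (v' i) = L N (2 * (nn N : ℂ) - v i))

set_option linter.unusedSectionVars false
include hN h1 h2 B S hv' he in
/-- from an interior value: the next value is interior, or real `> 1` -/
lemma T1 [l.NeBot] {v0 : ℂ} (hv0 : v0 ∈ UH) (ht : Tendsto v l (𝓝 v0)) :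
    (∃ z0 ∈ UH, L N z0 = L N (2 * (nn N : ℂ) - v0) ∧ Tendsto v' l (𝓝 z0)) ∨
    ((L N (2 * (nn N : ℂ) - v0)).im = -Real.pi ∧
      ∃ r : ℝ, 1 < r ∧ ell N r = (L N (2 * (nn N : ℂ) - v0)).re ∧ Tendsto v' l (𝓝 (r : ℂ))) := by
  have hc : ContinuousAt (L N) (2 * (nn N : ℂ) - v0) :=
    (L_differentiableAt (by simpa using ne_of_gt hv0)).continuousAt
  have hlim : Tendsto (fun i => L N (v' i)) l (𝓝 (L N (2 * (nn N : ℂ) - v0))) := by
    refine Tendsto.congr' (he.mono fun i hi => hi.symm) ?_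
    exact hc.tendsto.comp (tendsto_const_nhds.sub ht)
  have him : -Real.pi ≤ (L N (2 * (nn N : ℂ) - v0)).im := by
    refine ge_of_tendsto ((Complex.continuous_im.tendsto _).comp hlim) ?_
    exact hv'.mono fun i hi => (h1 _ hi).1.le
  rcases him.lt_or_eq with h | h
  · left
    obtain ⟨z0, hz0, hz0'⟩ := h2 _ (L_refl_mem hN h1 S hv0 h)
    exact ⟨z0, hz0, hz0', B.b1 l v' z0 hv' hz0 (by rw [hz0']; exact hlim)⟩
  · right
    obtain ⟨r, hr1, hr2, hr3⟩ := B.b2 l v' _ inferInstance hv' h.symm hlim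
    exact ⟨h.symm, r, hr1, hr2, hr3⟩

include hN S hv in
lemma refl_tendsto {r : ℝ} (ht : Tendsto v l (𝓝 (r : ℂ))) :
    Tendsto (fun i => 2 * (nn N : ℂ) - cj (v i)) l (𝓝[UH] ((2 * nn N - r : ℝ) : ℂ)) := by
  rw [tendsto_nhdsWithin_iff]
  refine ⟨?_, hv.mono fun i hi => refl_mem hi⟩
  have : Tendsto (fun i => 2 * (nn N : ℂ) - cj (v i)) l (𝓝 (2 * (nn N : ℂ) - cj (r : ℂ))) :=
    tendsto_const_nhds.sub ((Complex.continuous_conj.tendsto _).comp ht)
  convert this using 2
  simp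

include hN B S hv hv' he in
/-- from a real value `r ∈ (n, 2n)`: the next one is real in `(n,1)` -/
lemma T2 {r : ℝ} (hr : nn N < r) (hr' : r < 2 * nn N) (ht : Tendsto v l (𝓝 (r : ℂ))) :
    ∃ r' : ℝ, nn N < r' ∧ r' < 1 ∧ ell N r' = ell N (2 * nn N - r) ∧
      Tendsto v' l (𝓝 (r' : ℂ)) := by
  obtain ⟨r', g1, g2, g3⟩ := ell_exists (x := 2 * nn N - r) hN (by linarith) (by linarith)
  have hx1 : 2 * nn N - r < 1 := by linarith [nn_lt_one490 hN]
  have hx0 : 0 < 2 * nn N - r := by linarith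
  refine ⟨r', g1, g2, g3, ?_⟩
  have hrt := refl_tendsto (N := N) hN S hv ht
  refine B.b3 l v' r' hv' g1 g2 ?_ ?_
  · have := hrt.eventually (S.s1 _ hx0 (by linarith))
    filter_upwards [this, he, hv] with i hi hi2 hi3
    rw [hi2, L_refl S hi3]
    simp only [conj_im]; linarith
  · have h5 := (S.v1 _ hx0 hx1).comp hrt
    have h6 := (Complex.continuous_conj.tendsto _).comp h5
    refine Tendsto.congr' ?_ (by rw [g3]; simpa using h6)
    filter_upwards [he, hv] with i hi2 hi3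
    simp only [Function.comp]
    rw [hi2, L_refl S hi3]

include hN B S hv hv' he in
/-- from the value `2n` (or with the argument tending to `0`): the next value is `1` -/
lemma T3 (ht : Tendsto v l (𝓝 ((2 * nn N : ℝ) : ℂ))) : Tendsto v' l (𝓝 1) := by
  have hrt := refl_tendsto (N := N) hN S hv ht
  rw [sub_self] at hrt
  simp only [ofReal_zero] at hrt
  refine B.b6 l v' hv' ?_ ?_
  · have := hrt.eventually S.s0
    filter_upwards [this, he, hv] with i hi hi2 hi3
    rw [hi2, L_refl S hi3]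
    simp only [conj_im]; linarith
  · have h5 := S.s0'.comp hrt
    refine Tendsto.congr' ?_ h5
    filter_upwards [he, hv] with i hi2 hi3
    simp only [Function.comp]
    rw [hi2, L_refl S hi3, conj_re]

include hN h1 S hv hv' he in
/-- a real value `> 2n` is impossible -/
lemma T4 [l.NeBot] {r : ℝ} (hr : 2 * nn N < r) (ht : Tendsto v l (𝓝 (r : ℂ))) : False := by
  have hrt := refl_tendsto (N := N) hN S hv ht
  have h5 := (S.v3 _ (show 2 * nn N - r < 0 by linarith)).comp hrt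
  have h6 := (Complex.continuous_conj.tendsto _).comp h5
  have h7 := (Complex.continuous_im.tendsto _).comp h6
  have h8 : -Real.pi ≤ (cj ((ell N (2 * nn N - r) : ℂ) + N * Real.pi * I)).im := by
    refine ge_of_tendsto h7 ?_
    filter_upwards [he, hv, hv'] with i hi2 hi3 hi4
    simp only [Function.comp]
    rw [← L_refl S hi3, ← hi2]
    exact (h1 _ hi4).1.le
  have h9 : (cj ((ell N (2 * nn N - r) : ℂ) + N * Real.pi * I)).im = -(N * Real.pi) := by
    simp
  rw [h9] at h8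
  nlinarith [Real.pi_pos]

end trans

/-- a chain which starts at a real value `> n` ends up at real values in `(n,1)` -/
lemma chain_real (hN : 1 < N) (h1 : ∀ z ∈ UH, L N z ∈ SS N) (B : BdyB N) (S : BdyS N)
    {l : Filter ℂ} [l.NeBot] {f : ℕ → ℂ → ℂ} (hf : ∀ j, ∀ᶠ i in l, f j i ∈ UH)
    (he : ∀ j, ∀ᶠ i in l, L N (f (j + 1) i) = L N (2 * (nn N : ℂ) - f j i))
    {r : ℝ} (hr : nn N < r) (ht : Tendsto (f 0) l (𝓝 (r : ℂ))) (j : ℕ) :
    ∃ r' : ℝ, nn N < r' ∧ r' < 1 ∧ Tendsto (f (j + 2)) l (𝓝 (r' : ℂ)) := by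
  have hn1 := nn_lt_one490 hN
  have hn2 := half_lt_nn hN
  have h1' : ∃ r' : ℝ, nn N < r' ∧ r' ≤ 1 ∧ Tendsto (f 1) l (𝓝 (r' : ℂ)) := by
    rcases lt_trichotomy r (2 * nn N) with h | h | h
    · obtain ⟨r', a, b, _, c⟩ := T2 hN B S (hf 0) (hf 1) (he 0) hr h ht
      exact ⟨r', a, b.le, c⟩
    · refine ⟨1, hn1, le_rfl, ?_⟩
      have := T3 hN B S (hf 0) (hf 1) (he 0) (by rw [← h]; exact ht)
      simpa using this
    · exact (T4 hN h1 S (hf 0) (hf 1) (he 0) h ht).elim
  obtain ⟨r1, a1, b1, c1⟩ := h1'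
  induction j with
  | zero =>
    obtain ⟨r', a, b, _, c⟩ := T2 hN B S (hf 1) (hf 2) (he 1) a1 (by linarith) c1
    exact ⟨r', a, b, c⟩
  | succ j ih =>
    obtain ⟨r2, a2, b2, c2⟩ := ih
    obtain ⟨r', a, b, _, c⟩ := T2 hN B S (hf (j + 2)) (hf (j + 3)) (he (j + 2)) a2 (by linarith) c2
    exact ⟨r', a, b, c⟩

end Crest.Agent.R102.H4
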