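import Crest.Agent.R102.SlowE_486
import Crest.Agent.R102.EdgeDefs_255

/-! Row 102, EDGE / SLOW (helper486): from `SlowAt` to the oscillation of `φ` (branch of the
logarithm on the connected compact `KD`). -/

set_option autoImplicit false

open Set Filter Topology Metric Complex

noncomputable section

namespace Crest.Agent.R102.SlowS

open Crest.Agent.R102.S5 (ray bl Half)
open Crest.Agent.R102.TreeS174 (KD)
open Crest.Agent.R102.Edge255 (z0 SlowAt Wg)
open Crest.Agent.R102.SlowE (oe oe_le)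

/-- one point -/
theorem near_int {z : ℂ} {ε : ℝ} (hε : ε ≤ 1 / 2) (h : ‖cexp (2 * I * z) - 1‖ ≤ ε) :
    ∃ m : ℤ, ‖z - m * Real.pi‖ ≤ ε := by
  set w : ℂ := Complex.log (cexp (2 * I * z)) with hw
  have h1 : cexp w = cexp (2 * I * z) := by
    rw [hw, Complex.exp_log (Complex.exp_ne_zero _)]
  obtain ⟨n, hn⟩ := Complex.exp_eq_exp_iff_exists_int.1 h1.symm
  refine ⟨n, ?_⟩
  have h2 : z - n * Real.pi = w / (2 * I) := by
    field_simp
    linear_combination hn
  have h3 : ‖w‖ ≤ 3 / 2 * ‖cexp (2 * I * z) - 1‖ := by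
    have h4 := Complex.norm_log_one_add_half_le_self (z := cexp (2 * I * z) - 1) (h.trans hε)
    rwa [add_sub_cancel] at h4
  rw [h2, norm_div, norm_mul, Complex.norm_I, mul_one]
  have h5 : ‖(2 : ℂ)‖ = 2 := by simp
  rw [h5]
  have h6 : 0 ≤ ‖cexp (2 * I * z) - 1‖ := norm_nonneg _
  linarith

/-- **branch on a connected set** -/
theorem branch {X : Type*} [TopologicalSpace X] {K : Set X} (hK : IsPreconnected K) {f : X → ℂ}
    (hf : ContinuousOn f K) {ε : ℝ} (hε : ε ≤ 1 / 2)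
    (h : ∀ q ∈ K, ‖cexp (2 * I * f q) - 1‖ ≤ ε) :
    ∃ m : ℤ, ∀ q ∈ K, ‖f q - m * Real.pi‖ ≤ ε := by
  rcases K.eq_empty_or_nonempty with hE | ⟨q0, hq0⟩
  · exact ⟨0, fun q hq => by rw [hE] at hq; exact absurd hq (notMem_empty q)⟩
  choose! m hm using fun q hq => near_int hε (h q hq)
  refine ⟨m q0, ?_⟩
  have key : ∀ q ∈ K, ∀ q' ∈ K, ¬ m q < m q' := by
    intro q hq q' hq' hlt
    have hre : ContinuousOn (fun x => (f x).re) K :=
      Complex.continuous_re.comp_continuousOn hf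
    have hb : ∀ x ∈ K, |(f x).re - m x * Real.pi| ≤ ε := by
      intro x hx
      have h1 := Complex.abs_re_le_norm (f x - m x * Real.pi)
      have h2 : (f x - m x * Real.pi).re = (f x).re - m x * Real.pi := by simp
      rw [h2] at h1
      exact h1.trans (hm x hx)
    have hpi := Real.pi_gt_three
    have hlt' : (m q : ℝ) + 1 ≤ m q' := by exact_mod_cast hlt
    have hv : ((m q : ℝ) + 1 / 2) * Real.pi ∈ Icc (f q).re (f q').re := by
      have h1 := abs_le.1 (hb q hq)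
      have h2 := abs_le.1 (hb q' hq')
      constructor
      · nlinarith
      · nlinarith
    obtain ⟨x, hx, hxe⟩ := hK.intermediate_value hq hq' hre hv
    have h3 := abs_le.1 (hb x hx)
    simp only at hxe
    rw [hxe] at h3
    have h4 : ((m x : ℝ) ≤ m q) ∨ ((m q : ℝ) + 1 ≤ m x) := by
      rcases le_or_gt (m x) (m q) with h5 | h5
      · left; exact_mod_cast h5
      · right; exact_mod_cast h5
    rcases h4 with h4 | h4
    · nlinarith
    · nlinarith
  intro q hq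
  have h1 := key q hq q0 hq0
  have h2 := key q0 hq0 q hq
  have h3 : m q = m q0 := by omega
  rw [← h3]
  exact hm q hq

/-- the compact `KD` in the blow-up -/
def kd (A : ℝ) : Set (ℂ × ℂ) :=
  {x | |x.1.re| ≤ A ∧ ‖x.2‖ ≤ A ∧ 1 ≤ A * (-x.1.im) ∧ -x.1.im ≤ A ∧ 1 ≤ A * x.2.im}

theorem convex_kd (A : ℝ) : Convex ℝ (kd A) := by
  intro x hx y hy a b ha hb hab
  obtain ⟨x1, x2, x3, x4, x5⟩ := hx
  obtain ⟨y1, y2, y3, y4, y5⟩ := hy
  have e1 : (a • x + b • y).1.re = a * x.1.re + b * y.1.re := by simp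
  have e2 : (a • x + b • y).1.im = a * x.1.im + b * y.1.im := by simp
  have e3 : (a • x + b • y).2.im = a * x.2.im + b * y.2.im := by simp
  have hb' : b = 1 - a := by linarith
  refine ⟨?_, ?_, ?_, ?_, ?_⟩
  · rw [e1, abs_le]
    rw [abs_le] at x1 y1
    constructor <;> nlinarith
  · have : (a • x + b • y).2 = a • x.2 + b • y.2 := by simp
    rw [this]
    refine (norm_add_le _ _).trans ?_
    rw [norm_smul, norm_smul, Real.norm_of_nonneg ha, Real.norm_of_nonneg hb]
    have c1 := mul_le_mul_of_nonneg_left x2 ha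
    have c2 := mul_le_mul_of_nonneg_left y2 hb
    have c3 : a * A + b * A = A := by rw [← add_mul, hab, one_mul]
    linarith
  · rw [e2]; nlinarith
  · rw [e2]
    have c1 := mul_le_mul_of_nonneg_left x4 ha
    have c2 := mul_le_mul_of_nonneg_left y4 hb
    have c3 : a * A + b * A = A := by rw [← add_mul, hab, one_mul]
    linarith
  · rw [e3]; nlinarith

theorem isClosed_kd (A : ℝ) : IsClosed (kd A) := by
  have h1 : Continuous (fun x : ℂ × ℂ => |x.1.re|) := by fun_prop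
  have h2 : Continuous (fun x : ℂ × ℂ => ‖x.2‖) := by fun_prop
  have h3 : Continuous (fun x : ℂ × ℂ => A * (-x.1.im)) := by fun_prop
  have h4 : Continuous (fun x : ℂ × ℂ => -x.1.im) := by fun_prop
  have h5 : Continuous (fun x : ℂ × ℂ => A * x.2.im) := by fun_prop
  exact (isClosed_le h1 continuous_const).inter ((isClosed_le h2 continuous_const).inter
    ((isClosed_le continuous_const h3).inter ((isClosed_le h4 continuous_const).inter
      (isClosed_le continuous_const h5))))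

theorem isCompact_kd {A : ℝ} (hA : 8 ≤ A) : IsCompact (kd A) := by
  refine Metric.isCompact_of_isClosed_isBounded (isClosed_kd A) ?_
  refine (isBounded_closedBall (x := (0 : ℂ × ℂ)) (r := 2 * A)).subset ?_
  intro x hx
  obtain ⟨x1, x2, x3, x4, x5⟩ := hx
  rw [mem_closedBall, dist_zero_right, Prod.norm_def]
  refine max_le ?_ (by linarith)
  refine (Complex.norm_le_abs_re_add_abs_im _).trans ?_
  have h6 : 0 < -x.1.im := by
    by_contra hc
    push Not at hc
    nlinarith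
  have h7 : |x.1.im| = -x.1.im := abs_of_neg (by linarith)
  rw [h7]; linarith

theorem kd_sub_Wg {A m : ℝ} (hA : 8 ≤ A) (hm : 0 ≤ m) : kd A ⊆ Wg m := by
  intro x hx
  obtain ⟨x1, x2, x3, x4, x5⟩ := hx
  have h6 : 0 < -x.1.im := by
    by_contra hc
    push Not at hc
    nlinarith
  have h7 : 0 < x.2.im := by
    by_contra hc
    push Not at hc
    nlinarith
  refine ⟨h7, ?_⟩
  have : 0 ≤ m * x.2.im := by positivity
  linarith

theorem z0_mem_kd {A : ℝ} (hA : 8 ≤ A) : z0 ∈ kd A := by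
  have h1 : (z0).1 = -I := rfl
  have h2 : (z0).2 = I / 4 := rfl
  have h3 : (I / 4 : ℂ) = ((1 / 4 : ℝ) : ℂ) * I := by push_cast; ring
  refine ⟨?_, ?_, ?_, ?_, ?_⟩
  · rw [h1]; simp; linarith
  · rw [h2, norm_div, Complex.norm_I]; norm_num; linarith
  · rw [h1]; simp; linarith
  · rw [h1]; simp; linarith
  · rw [h2, h3]; simp; linarith

theorem bl_mem_KD {A : ℝ} {p : ℝ × ℝ} {s : ℝ} (hs : 0 < s) {x : ℂ × ℂ} :
    bl p s x ∈ KD A p.1 p.2 s ↔ x ∈ kd A := by
  have e1 : (bl p s x).1.re - p.1 = s * x.1.re := by simp [bl]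
  have e2 : (bl p s x).1.im = s * x.1.im := by simp [bl]
  have e3 : (bl p s x).2 - (p.2 : ℂ) = (s : ℂ) * x.2 := by simp [bl]
  have e4 : (bl p s x).2.im = s * x.2.im := by simp [bl]
  have e5 : ‖(s : ℂ) * x.2‖ = s * ‖x.2‖ := by
    rw [norm_mul, Complex.norm_real, Real.norm_of_nonneg hs.le]
  have e6 : |s * x.1.re| = s * |x.1.re| := by rw [abs_mul, abs_of_pos hs]
  show (_ ∧ _ ∧ _ ∧ _ ∧ _) ↔ (_ ∧ _ ∧ _ ∧ _ ∧ _)
  rw [e1, e2, e3, e4, e5, e6]
  constructor
  · rintro ⟨a1, a2, a3, a4, a5⟩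
    refine ⟨?_, ?_, ?_, ?_, ?_⟩
    · exact le_of_mul_le_mul_left (by linarith) hs
    · exact le_of_mul_le_mul_left (by linarith) hs
    · exact le_of_mul_le_mul_left (by linarith) hs
    · exact le_of_mul_le_mul_left (by linarith) hs
    · exact le_of_mul_le_mul_left (by linarith) hs
  · rintro ⟨a1, a2, a3, a4, a5⟩
    have b1 := mul_le_mul_of_nonneg_left a1 hs.le
    have b2 := mul_le_mul_of_nonneg_left a2 hs.le
    have b3 := mul_le_mul_of_nonneg_left a3 hs.le
    have b4 := mul_le_mul_of_nonneg_left a4 hs.le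
    have b5 := mul_le_mul_of_nonneg_left a5 hs.le
    refine ⟨?_, ?_, ?_, ?_, ?_⟩ <;> linarith

theorem exists_bl {p : ℝ × ℝ} {s : ℝ} (hs : 0 < s) (q : ℂ × ℂ) : ∃ x, bl p s x = q := by
  have hs' : (s : ℂ) ≠ 0 := by exact_mod_cast hs.ne'
  refine ⟨((q.1 - p.1) / s, (q.2 - p.2) / s), ?_⟩
  unfold bl
  ext1
  · simp; field_simp; ring
  · simp; field_simp; ring

/-- **the angle on a slow window** -/
theorem slow_psi {A ε : ℝ} (hε : ε ≤ 1 / 2) {K K' : Set (ℂ × ℂ)} (hK : kd A ⊆ K)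
    {ψ : ℂ → ℂ} {φ P B : ℂ × ℂ → ℂ} (hφ : ContinuousOn φ (kd A)) (h : SlowAt ε K K' ψ φ P B) :
    ∃ m : ℤ, ∀ q ∈ kd A, ‖φ q - ψ (B z0) - m * Real.pi‖ ≤ ε :=
  branch (convex_kd A).isPreconnected (f := fun q => φ q - ψ (B z0)) (hφ.sub continuousOn_const) hε
    (fun q hq => (h.1 q (hK hq)).1)

/-- **the oscillation of the angle on a slow window** -/
theorem slow_osc {A ε : ℝ} (hA : 8 ≤ A) (hε : ε ≤ 1 / 2) {K K' : Set (ℂ × ℂ)} (hK : kd A ⊆ K)
    {ψ : ℂ → ℂ} {φ P B : ℂ × ℂ → ℂ} {p : ℝ × ℝ} {s : ℝ} (hs : 0 < s)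
    (hφ : ContinuousOn φ (KD A p.1 p.2 s))
    (h : SlowAt ε K K' ψ (fun q => φ (bl p s q)) (fun q => P (bl p s q))
      (fun q => B (bl p s q))) :
    oe A φ p s ≤ 2 * ε := by
  have hbl : Continuous (bl p s) := by unfold bl; fun_prop
  have hc : ContinuousOn (fun q => φ (bl p s q)) (kd A) :=
    hφ.comp hbl.continuousOn (fun x hx => (bl_mem_KD hs).2 hx)
  obtain ⟨m, hm⟩ := slow_psi hε hK hc h
  have hm0 := hm z0 (z0_mem_kd hA)
  have hε0 : 0 ≤ ε := (norm_nonneg _).trans hm0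
  refine oe_le (by linarith) ?_
  intro q hq
  obtain ⟨x, rfl⟩ := exists_bl (p := p) hs q
  have hx := hm x ((bl_mem_KD hs).1 hq)
  have e : φ (bl p s x) - φ (ray p s) =
      (φ (bl p s x) - ψ (B (bl p s z0)) - m * Real.pi)
        - (φ (bl p s z0) - ψ (B (bl p s z0)) - m * Real.pi) := by
    have : ray p s = bl p s z0 := rfl
    rw [this]; ring
  rw [e]
  refine (norm_sub_le _ _).trans ?_
  linarith

end Crest.Agent.R102.SlowS
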