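import Crest.Agent.R102.LocGrow_115
import Crest.Agent.R102.SlowS_486

/-!
Row 102, T1-B, EDGE / SLOW (helper362): **HArc** = the arc bound of the disc, from the collapse
(`SlowAt`) at the ancestor window `(p n, r n)`.
-/

set_option autoImplicit false

open Set Filter Topology Metric Complex

noncomputable section

namespace Crest.Agent.R102.HArc362

open Crest.Agent.R102.S5 (Half bl ray)
open Crest.Agent.R102.Edge255 (Wg z0 SlowAt)
open Crest.Agent.R102.LocGrow115 (HArc)

/-- the compact window of the arc -/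
def Ka (m C ν : ℝ) : Set (ℂ × ℂ) :=
  {x | ‖x.1‖ ≤ C ∧ ‖x.2‖ ≤ C ∧ ν ≤ x.2.im ∧ x.1.im ≤ m * x.2.im - ν}

theorem convex_Ka (m C ν : ℝ) : Convex ℝ (Ka m C ν) := by
  intro x hx y hy a b ha hb hab
  obtain ⟨x1, x2, x3, x4⟩ := hx
  obtain ⟨y1, y2, y3, y4⟩ := hy
  have e2 : (a • x + b • y).1.im = a * x.1.im + b * y.1.im := by simp
  have e3 : (a • x + b • y).2.im = a * x.2.im + b * y.2.im := by simp
  have f1 : (a • x + b • y).1 = a • x.1 + b • y.1 := by simp
  have f2 : (a • x + b • y).2 = a • x.2 + b • y.2 := by simp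
  have hC : a * C + b * C = C := by rw [← add_mul, hab, one_mul]
  refine ⟨?_, ?_, ?_, ?_⟩
  · rw [f1]
    refine (norm_add_le _ _).trans ?_
    rw [norm_smul, norm_smul, Real.norm_of_nonneg ha, Real.norm_of_nonneg hb]
    have c1 := mul_le_mul_of_nonneg_left x1 ha
    have c2 := mul_le_mul_of_nonneg_left y1 hb
    linarith
  · rw [f2]
    refine (norm_add_le _ _).trans ?_
    rw [norm_smul, norm_smul, Real.norm_of_nonneg ha, Real.norm_of_nonneg hb]
    have c1 := mul_le_mul_of_nonneg_left x2 ha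
    have c2 := mul_le_mul_of_nonneg_left y2 hb
    linarith
  · rw [e3]
    have c1 := mul_le_mul_of_nonneg_left x3 ha
    have c2 := mul_le_mul_of_nonneg_left y3 hb
    have c3 : a * ν + b * ν = ν := by rw [← add_mul, hab, one_mul]
    linarith
  · rw [e2, e3]
    have c1 := mul_le_mul_of_nonneg_left x4 ha
    have c2 := mul_le_mul_of_nonneg_left y4 hb
    have c3 : a * ν + b * ν = ν := by rw [← add_mul, hab, one_mul]
    nlinarith

theorem isCompact_Ka (m C ν : ℝ) : IsCompact (Ka m C ν) := by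
  refine Metric.isCompact_of_isClosed_isBounded ?_ ?_
  · have h1 : Continuous (fun x : ℂ × ℂ => ‖x.1‖) := by fun_prop
    have h2 : Continuous (fun x : ℂ × ℂ => ‖x.2‖) := by fun_prop
    have h3 : Continuous (fun x : ℂ × ℂ => x.2.im) := by fun_prop
    have h4 : Continuous (fun x : ℂ × ℂ => x.1.im) := by fun_prop
    have h5 : Continuous (fun x : ℂ × ℂ => m * x.2.im - ν) := by fun_prop
    exact (isClosed_le h1 continuous_const).inter ((isClosed_le h2 continuous_const).inter
      ((isClosed_le continuous_const h3).inter (isClosed_le h4 h5)))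
  · refine (isBounded_closedBall (x := (0 : ℂ × ℂ)) (r := C)).subset ?_
    intro x hx
    rw [mem_closedBall, dist_zero_right, Prod.norm_def]
    exact max_le hx.1 hx.2.1

theorem Ka_sub {m C ν : ℝ} (hν : 0 < ν) : Ka m C ν ⊆ Wg m := by
  intro x hx
  obtain ⟨x1, x2, x3, x4⟩ := hx
  exact ⟨by linarith, by linarith⟩

theorem z0_mem {m C ν : ℝ} (hm : 0 ≤ m) (hC : 1 ≤ C) (hν : ν ≤ 1 / 8) : z0 ∈ Ka m C ν := by
  have h1 : (z0).1 = -I := rfl
  have h2 : (z0).2 = I / 4 := rfl
  have h3 : (I / 4 : ℂ).im = 1 / 4 := by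
    have : (I / 4 : ℂ) = ((1 / 4 : ℝ) : ℂ) * I := by push_cast; ring
    rw [this]; simp
  refine ⟨?_, ?_, ?_, ?_⟩
  · rw [h1]; simpa using hC
  · rw [h2, norm_div, Complex.norm_I]
    norm_num
    linarith
  · rw [h2, h3]; linarith
  · rw [h1, h2, h3]
    simp
    linarith

/-- the blow-up maps the compact into the half space window -/
theorem bl_mem_Half {m C ν r : ℝ} (hν : 0 < ν) (hr : 0 < r) (hC : 0 ≤ C) (e : ℝ × ℝ) {x : ℂ × ℂ}
    (hx : x ∈ Ka m C ν) : bl e r x ∈ Half e ((C + 1) * r) m := by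
  obtain ⟨x1, x2, x3, x4⟩ := hx
  have e1 : (bl e r x).1.re - e.1 = r * x.1.re := by simp [bl]
  have e2 : (bl e r x).1.im = r * x.1.im := by simp [bl]
  have e3 : (bl e r x).2 - (e.2 : ℂ) = (r : ℂ) * x.2 := by simp [bl]
  have e4 : (bl e r x).2.im = r * x.2.im := by simp [bl]
  have a1 := Complex.abs_re_le_norm x.1
  have a2 := Complex.abs_im_le_norm x.1
  have a3 := (abs_le.1 (a2.trans x1)).1
  refine ⟨?_, ?_, ?_, ?_, ?_⟩
  · rw [e1, abs_mul, abs_of_pos hr]
    have := mul_le_mul_of_nonneg_left (a1.trans x1) hr.le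
    nlinarith
  · rw [e2]; nlinarith
  · rw [e3, norm_mul, Complex.norm_real, Real.norm_of_nonneg hr.le]
    have := mul_le_mul_of_nonneg_left x2 hr.le
    nlinarith
  · rw [e4]
    exact mul_pos hr (by linarith)
  · rw [e2, e4]
    nlinarith

/-- **the arc bound**, general form: `c n` = any constants, any scales -/
theorem harc_core {m α : ℝ} {φ : ℂ × ℂ → ℂ} {p : ℕ → ℝ × ℝ} {s r om : ℕ → ℝ} {c : ℕ → ℂ} {k : ℝ}
    (hm : 0 ≤ m) (hs : ∀ n, 0 < s n) (hr : ∀ n, 0 < r n) (hom : ∀ n, 0 < om n)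
    (hlog : Tendsto (fun n => (1 + |Real.log (om n)|) * (s n / r n) ^ α) atTop (𝓝 0))
    (hdiff : ∀ C : ℝ, ∀ᶠ n in atTop, DifferentiableOn ℂ φ (Half (p n) (C * r n) m))
    (hS : ∀ K ⊆ Wg m, IsCompact K → ∀ᶠ n in atTop, ∀ q ∈ K,
      ‖cexp (2 * I * (φ (bl (p n) (r n) q) - c n)) - 1‖ ≤ 1 / 2)
    (hk : ∀ᶠ n in atTop, ‖φ (ray (p n) (r n)) - φ (ray (p n) (s n))‖ ≤ k) :
    HArc m α φ p s r om := by
  intro ν hν C hC
  have hk0 : 0 ≤ |k| := abs_nonneg k
  have hl0 : 0 ≤ Real.log (1 + |k|) := Real.log_nonneg (by linarith)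
  refine ⟨fun n => Real.log (1 + |k|) + |Real.log (om n)|, fun n => by positivity, ?_, ?_⟩
  · have h1 : Tendsto (fun n => (1 + Real.log (1 + |k|)) *
        ((1 + |Real.log (om n)|) * (s n / r n) ^ α)) atTop (𝓝 0) := by
      have := hlog.const_mul (1 + Real.log (1 + |k|))
      rwa [mul_zero] at this
    refine squeeze_zero (fun n => ?_) (fun n => ?_) h1
    · have : 0 ≤ (s n / r n) ^ α := Real.rpow_nonneg (div_nonneg (hs n).le (hr n).le) _
      positivity
    · have h2 : 0 ≤ (s n / r n) ^ α := Real.rpow_nonneg (div_nonneg (hs n).le (hr n).le) _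
      rw [← mul_assoc]
      refine mul_le_mul_of_nonneg_right ?_ h2
      have h3 : 0 ≤ |Real.log (om n)| := abs_nonneg _
      nlinarith
  · set ν' : ℝ := min ν (1 / 8) with hν'
    have hν'0 : 0 < ν' := lt_min hν (by norm_num)
    have hC0 : 0 ≤ C := by linarith
    filter_upwards [hdiff (C + 1), hS _ (Ka_sub (m := m) (C := C) hν'0) (isCompact_Ka m C ν'), hk]
      with n h1 h2 h3
    intro q g1 g2 g3 g4
    have hrn := hr n
    have hcont : ContinuousOn (fun x => φ (bl (p n) (r n) x) - c n) (Ka m C ν') := by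
      refine ContinuousOn.sub ?_ continuousOn_const
      refine h1.continuousOn.comp ?_ (fun x hx => bl_mem_Half hν'0 hrn hC0 (p n) hx)
      unfold bl
      fun_prop
    obtain ⟨j, hj⟩ := SlowS.branch (convex_Ka m C ν').isPreconnected hcont (ε := 1 / 2) le_rfl h2
    -- the point in the blow-up
    have hrc : (r n : ℂ) ≠ 0 := by exact_mod_cast hrn.ne'
    set x : ℂ × ℂ := ((q.1 - (p n).1) / r n, (q.2 - (p n).2) / r n) with hx
    have hbx : bl (p n) (r n) x = q := by
      unfold bl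
      rw [hx]
      ext1
      · simp only
        field_simp
        ring
      · simp only
        field_simp
        ring
    have im1 : x.1.im = q.1.im / r n := by
      rw [hx]
      simp only
      rw [Complex.div_ofReal_im]
      simp
    have im2 : x.2.im = q.2.im / r n := by
      rw [hx]
      simp only
      rw [Complex.div_ofReal_im]
      simp
    have hxK : x ∈ Ka m C ν' := by
      have hν1 : ν' ≤ ν := min_le_left _ _
      refine ⟨?_, ?_, ?_, ?_⟩
      · rw [hx]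
        simp only
        rw [norm_div, Complex.norm_real, Real.norm_of_nonneg hrn.le, div_le_iff₀ hrn]
        exact g1
      · rw [hx]
        simp only
        rw [norm_div, Complex.norm_real, Real.norm_of_nonneg hrn.le, div_le_iff₀ hrn]
        exact g2
      · rw [im2, le_div_iff₀ hrn]
        nlinarith
      · rw [im1, im2]
        have h5 : m * (q.2.im / r n) - ν' = (m * q.2.im - ν' * r n) / r n := by
          field_simp
        rw [h5]
        refine div_le_div_of_nonneg_right ?_ hrn.le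
        nlinarith
    have hz : z0 ∈ Ka m C ν' := z0_mem hm hC (min_le_right _ _)
    have j1 := hj x hxK
    have j2 := hj z0 hz
    rw [hbx] at j1
    have e0 : bl (p n) (r n) z0 = ray (p n) (r n) := rfl
    rw [e0] at j2
    have h6 : ‖φ q - φ (ray (p n) (r n))‖ ≤ 1 := by
      have h7 : φ q - φ (ray (p n) (r n)) =
          (φ q - c n - j * Real.pi) - (φ (ray (p n) (r n)) - c n - j * Real.pi) := by ring
      rw [h7]
      refine (norm_sub_le _ _).trans ?_
      linarith
    have h8 : ‖φ q - φ (ray (p n) (s n))‖ ≤ 1 + |k| := by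
      have h9 : φ q - φ (ray (p n) (s n)) = (φ q - φ (ray (p n) (r n))) +
          (φ (ray (p n) (r n)) - φ (ray (p n) (s n))) := by ring
      rw [h9]
      refine (norm_add_le _ _).trans ?_
      have := le_abs_self k
      linarith
    refine h8.trans ?_
    have homn := hom n
    have h10 : 1 + |k| = om n * Real.exp (Real.log (1 + |k|) + -Real.log (om n)) := by
      rw [Real.exp_add, Real.exp_log (by linarith), Real.exp_neg, Real.exp_log homn]
      field_simp
    calc 1 + |k| = om n * Real.exp (Real.log (1 + |k|) + -Real.log (om n)) := h10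
      _ ≤ om n * Real.exp (Real.log (1 + |k|) + |Real.log (om n)|) := by
        refine mul_le_mul_of_nonneg_left (Real.exp_le_exp.2 ?_) homn.le
        linarith [neg_le_abs (Real.log (om n))]

/-- the scale fact: `s / r = om ^ β` -/
theorem scale_log {α β : ℝ} {s r om : ℕ → ℝ} (hα : 0 < α) (hβ : 0 < β) (hom : ∀ n, 0 < om n)
    (hlim : Tendsto om atTop (𝓝 0)) (hsr : ∀ n, s n / r n = om n ^ β) :
    Tendsto (fun n => (1 + |Real.log (om n)|) * (s n / r n) ^ α) atTop (𝓝 0) := by
  have hαβ : 0 < β * α := by positivity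
  have hlim' : Tendsto om atTop (𝓝[>] 0) :=
    tendsto_nhdsWithin_iff.2 ⟨hlim, Eventually.of_forall fun n => hom n⟩
  have h1 : Tendsto (fun n => om n ^ (β * α)) atTop (𝓝 0) := by
    have := (Real.continuousAt_rpow_const 0 (β * α) (Or.inr hαβ.le)).tendsto.comp hlim
    simpa [Function.comp_def, Real.zero_rpow hαβ.ne'] using this
  have h2 : Tendsto (fun n => Real.log (om n) * om n ^ (β * α)) atTop (𝓝 0) :=
    (tendsto_log_mul_rpow_nhdsGT_zero hαβ).comp hlim'
  have h3 : Tendsto (fun n => om n ^ (β * α) + |Real.log (om n) * om n ^ (β * α)|) atTop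
      (𝓝 0) := by
    have := h1.add h2.abs
    simpa using this
  refine h3.congr fun n => ?_
  have h4 : (s n / r n) ^ α = om n ^ (β * α) := by
    rw [hsr n, ← Real.rpow_mul (hom n).le]
  have h5 : 0 ≤ om n ^ (β * α) := Real.rpow_nonneg (hom n).le _
  rw [h4, abs_mul, abs_of_nonneg h5]
  ring

/-- **HARC**: from the collapse at the ancestors `(p n, r n)` -/
theorem harc {a g α : ℝ} {ψ : ℂ → ℂ} {φ P B : ℂ × ℂ → ℂ} {p : ℕ → ℝ × ℝ} {s r om : ℕ → ℝ} {k : ℝ}
    (ha : 0 ≤ a) (hg : 0 < g) (hs : ∀ n, 0 < s n) (hr : ∀ n, 0 < r n) (hom : ∀ n, 0 < om n)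
    (hlog : Tendsto (fun n => (1 + |Real.log (om n)|) * (s n / r n) ^ α) atTop (𝓝 0))
    (hdiff : ∀ C : ℝ, ∀ᶠ n in atTop, DifferentiableOn ℂ φ (Half (p n) (C * r n) (a + g)))
    (hS : ∀ K ⊆ Wg (a + g), IsCompact K → ∀ᶠ n in atTop,
      SlowAt (1 / 2) K ∅ ψ (fun q => φ (bl (p n) (r n) q)) (fun q => P (bl (p n) (r n) q))
        (fun q => B (bl (p n) (r n) q)))
    (hk : ∀ᶠ n in atTop, ‖φ (ray (p n) (r n)) - φ (ray (p n) (s n))‖ ≤ k) :
    HArc (a + g) α φ p s r om := by
  refine harc_core (c := fun n => ψ (B (bl (p n) (r n) z0))) (by positivity) hs hr hom hlog hdiff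
    ?_ hk
  intro K hK hKc
  filter_upwards [hS K hK hKc] with n hn
  intro q hq
  exact (hn.1 q hq).1

/-- the same with `SlowAt` in the form of `col_seq` (all `ε`, all `K'`) -/
theorem harc' {a g α β : ℝ} {ψ : ℂ → ℂ} {φ P B : ℂ × ℂ → ℂ} {p : ℕ → ℝ × ℝ} {s r om : ℕ → ℝ}
    {k : ℝ} (ha : 0 ≤ a) (hg : 0 < g) (hα : 0 < α) (hβ : 0 < β) (hs : ∀ n, 0 < s n)
    (hr : ∀ n, 0 < r n) (hom : ∀ n, 0 < om n) (hlim : Tendsto om atTop (𝓝 0))
    (hsr : ∀ n, s n / r n = om n ^ β)
    (hdiff : ∀ C : ℝ, ∀ᶠ n in atTop, DifferentiableOn ℂ φ (Half (p n) (C * r n) (a + g)))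
    (hS : ∀ ε > 0, ∀ K ⊆ Wg (a + g), IsCompact K → ∀ K' ⊆ Wg a, IsCompact K' → ∀ᶠ n in atTop,
      SlowAt ε K K' ψ (fun q => φ (bl (p n) (r n) q)) (fun q => P (bl (p n) (r n) q))
        (fun q => B (bl (p n) (r n) q)))
    (hk : ∀ᶠ n in atTop, ‖φ (ray (p n) (r n)) - φ (ray (p n) (s n))‖ ≤ k) :
    HArc (a + g) α φ p s r om :=
  harc ha hg hs hr hom (scale_log hα hβ hom hlim hsr) hdiff
    (fun K hK hKc => hS (1 / 2) (by norm_num) K hK hKc ∅ (empty_subset _) isCompact_empty) hk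

end Crest.Agent.R102.HArc362
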