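import Crest.Agent.R102.LV_669
import Crest.Agent.R102.HtLV_712

/-!
Row 102, T1-E, leaf (HF): one Hartogs figure `t = ξ - i g₀ ((w - u)/(u/2))²`.
-/

set_option autoImplicit false
set_option linter.unusedSectionVars false
set_option linter.unusedVariables false

open Set Filter Topology Metric Complex

noncomputable section

namespace Crest.Agent.R102.HF985

open Crest.Agent.R102.K669 Crest.Agent.R102.HtLV712

/-- the family of discs -/
def gg (m0 g0 : ℝ) (u : ℝ) (w : ℂ) : ℂ :=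
  I * ((m0 - g0 : ℝ) : ℂ) - I * ((g0 * 4 / u ^ 2 : ℝ) : ℂ) * (w - u) ^ 2

theorem gg_im (m0 g0 u : ℝ) (w : ℂ) : (gg m0 g0 u w).im =
    m0 - g0 - g0 * 4 / u ^ 2 * ((w.re - u) ^ 2 - w.im ^ 2) := by
  simp only [gg, sub_im, mul_im, mul_re, I_re, I_im, ofReal_re, ofReal_im, pow_two, sub_re]
  ring

theorem gg_re (m0 g0 u : ℝ) (w : ℂ) : (gg m0 g0 u w).re =
    g0 * 4 / u ^ 2 * (2 * (w.re - u) * w.im) := by
  simp only [gg, sub_im, mul_im, mul_re, I_re, I_im, ofReal_re, ofReal_im, pow_two, sub_re]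
  ring

theorem gg_diff (m0 g0 u : ℝ) : Differentiable ℂ (gg m0 g0 u) := by
  unfold gg
  fun_prop

/-- **(HF)** -/
theorem hf {b : ℝ} {W : Set ℂ} {Om : Set (ℂ × ℂ)} (h : LV b W Om) {x0 s m0 l h1 g0 : ℝ}
    (hs : 0 < s) (hW : closedBall (0 : ℂ) (2 * s) ⊆ W)
    (hbase : ∀ w : ℂ, ‖w‖ ≤ 2 * s → ∀ t : ℂ, t.im < m0 → (t, w) ∈ Om)
    (hg0 : 0 < g0) (hl : 20 * g0 ≤ l) (hh1 : 2 * g0 ≤ h1)
    (hcol : ∀ t w : ℂ, |t.re - x0| < l → t.im < m0 + h1 → ‖w‖ ≤ 2 * s → ‖w‖ / 30 ≤ |w.im| →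
      (t, w) ∈ Om) (u : ℝ) (hu0 : u ≠ 0) (hu : |u| < 4 / 3 * s) (t : ℂ)
    (ht1 : |t.re - x0| ≤ l / 2) (ht2 : t.im < m0 + 2 / 5 * g0) : (t, (u : ℂ)) ∈ Om := by
  have hua : 0 < |u| := abs_pos.mpr hu0
  have hu2 : 0 < u ^ 2 := by positivity
  set W' : Set ℂ := ball (u : ℂ) (|u| / 2) with hW'
  have hnorm : ∀ w ∈ W', ‖w‖ ≤ 3 / 2 * |u| := by
    intro w hw
    have h1 : ‖w - u‖ < |u| / 2 := by simpa [hW', dist_eq_norm] using hw
    have h2 : ‖w‖ ≤ ‖w - u‖ + ‖(u : ℂ)‖ := by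
      calc ‖w‖ = ‖(w - u) + u‖ := by rw [sub_add_cancel]
        _ ≤ _ := norm_add_le _ _
    rw [Complex.norm_real, Real.norm_eq_abs] at h2
    linarith
  have hW's : ∀ w ∈ W', ‖w‖ ≤ 2 * s := fun w hw => (hnorm w hw).trans (by linarith)
  have hsq : ∀ w : ℂ, ‖w - u‖ ^ 2 = (w.re - u) ^ 2 + w.im ^ 2 := by
    intro w
    rw [← Complex.normSq_eq_norm_sq, Complex.normSq_apply]
    simp only [sub_re, ofReal_re, sub_im, ofReal_im, sub_zero]
    ring
  have hu4 : ∀ w ∈ W', (w.re - u) ^ 2 + w.im ^ 2 ≤ u ^ 2 / 4 := by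
    intro w hw
    have h1 : ‖w - u‖ < |u| / 2 := by simpa [hW', dist_eq_norm] using hw
    rw [← hsq]
    have h2 : ‖w - u‖ ^ 2 ≤ (|u| / 2) ^ 2 := by gcongr
    rw [div_pow, sq_abs] at h2
    linarith
  have hkey : g0 * 4 / u ^ 2 * (u ^ 2 / 4) = g0 := by field_simp
  have hk0 : 0 ≤ g0 * 4 / u ^ 2 := by positivity
  have him : ∀ w ∈ W', (gg m0 g0 u w).im ≤ m0 := by
    intro w hw
    rw [gg_im]
    have h1 : -(u ^ 2 / 4) ≤ (w.re - u) ^ 2 - w.im ^ 2 := by nlinarith [hu4 w hw, sq_nonneg (w.re - u)]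
    have h2 := mul_le_mul_of_nonneg_left h1 hk0
    linarith
  have hre : ∀ w ∈ W', |(gg m0 g0 u w).re| ≤ g0 := by
    intro w hw
    rw [gg_re, abs_mul, abs_of_nonneg hk0]
    have h1 : |2 * (w.re - u) * w.im| ≤ u ^ 2 / 4 := by
      rw [abs_le]
      constructor <;> nlinarith [hu4 w hw, sq_nonneg (w.re - u + w.im), sq_nonneg (w.re - u - w.im)]
    have h2 := mul_le_mul_of_nonneg_left h1 hk0
    linarith
  have hWW : W' ⊆ W := fun w hw => hW (by simpa using hW's w hw)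
  have hLV : LV 0 W' (shr W' (gg m0 g0 u) Om) := by
    refine h.shear isOpen_ball hWW (gg_diff m0 g0 u).differentiableOn ?_
    intro w hw t ht
    refine hbase w (hW's w hw) t ?_
    have := him w hw
    linarith
  set Om' := shr W' (gg m0 g0 u) Om with hOm'
  set c : ℝ := 29 / 20 * g0 with hc
  have hc0 : 0 < c := by positivity
  set lam : ℝ := 1 / (8 * c) with hlam
  have hlam0 : 0 < lam := by positivity
  have e8 : 1 / (8 * lam) = c := by rw [hlam]; field_simp
  have e4 : 1 / (4 * lam) = 2 * c := by rw [hlam]; field_simp; norm_num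
  have e2 : 1 / (2 * lam) = 4 * c := by rw [hlam]; field_simp; norm_num
  have hlc : lam * (2 * c) = 1 / 4 := by rw [hlam]; field_simp; norm_num
  have hbO : ∀ w ∈ W', ∀ t : ℂ, t.im < 0 → (t, w) ∈ Om' := fun w hw t ht => hLV.base w hw t ht
  have hNT := ht_NT (W := W') hLV.isOpen hlam0 hbO (fun t0 w0 Q H δ hw0 hQ hQ' hH heq hδ hev => by
    refine hLV.levi t0 w0 hw0 Q (fun _ => 0) H (by simpa using hQ) (by simpa using hQ')
      analyticAt_const hH (by simpa using heq) δ hδ ?_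
    simpa using hev) t.re isOpen_ball
  have hlsc := ht_lsc_w (Om := Om') (W := W') hLV.isOpen isOpen_ball hlam0 hbO t.re
  set ρ : ℝ := 49 / 100 * |u| with hρ
  have hρ0 : 0 < ρ := by positivity
  have hsub : closedBall (u : ℂ) ρ ⊆ W' := closedBall_subset_ball (by rw [hρ]; linarith)
  have hsph : ∀ w ∈ sphere (u : ℂ) ρ, (I * (c : ℂ)).im ≤ ht Om' t.re lam w := by
    intro w hw
    have hwW : w ∈ W' := hsub (sphere_subset_closedBall hw)
    have hval : (I * (c : ℂ)).im = c := by simp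
    rw [hval]
    refine le_csSup adm_bdd ⟨e8.ge, fun t' ht' hlt => ?_⟩
    by_cases hneg : t'.im < 0
    · exact hbO w hwW t' hneg
    push Not at hneg
    obtain ⟨hb1, hb2⟩ := ht'
    rw [e2] at hb1
    rw [e4] at hb2
    rw [P_im] at hlt
    have hq : lam * t'.im ≤ 1 / 4 := by
      have := mul_le_mul_of_nonneg_left hb2 hlam0.le
      linarith
    have h43 : t'.im < 4 / 3 * c := by
      have h0 : 0 ≤ lam * (t'.re - t.re) ^ 2 := by positivity
      nlinarith [mul_nonneg hneg (by linarith : (0:ℝ) ≤ 1 / 4 - lam * t'.im)]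
    refine ⟨hwW, ?_⟩
    have hws := hW's w hwW
    have hwn := hnorm w hwW
    simp only
    by_cases hr : ‖w‖ / 30 ≤ |w.im|
    · refine hcol _ w ?_ ?_ hws hr
      · rw [add_re]
        have a1 := hre w hwW
        have a2 : |t'.re + (gg m0 g0 u w).re - x0| ≤
            |t'.re - t.re| + |(gg m0 g0 u w).re| + |t.re - x0| := by
          have : t'.re + (gg m0 g0 u w).re - x0 =
            (t'.re - t.re) + (gg m0 g0 u w).re + (t.re - x0) := by ring
          rw [this]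
          exact (abs_add_le _ _).trans (add_le_add (abs_add_le _ _) le_rfl)
        rw [hc] at hb1
        linarith
      · rw [add_im]
        have := him w hwW
        rw [hc] at h43
        linarith
    · push Not at hr
      refine hbase w hws _ ?_
      rw [add_im, gg_im]
      have hwn' : ‖w‖ ≤ 149 / 100 * |u| := by
        have h2 : ‖w‖ ≤ ‖w - u‖ + ‖(u : ℂ)‖ := by
          calc ‖w‖ = ‖(w - u) + u‖ := by rw [sub_add_cancel]
            _ ≤ _ := norm_add_le _ _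
        rw [Complex.norm_real, Real.norm_eq_abs] at h2
        have h3 : ‖w - u‖ = ρ := by simpa [dist_eq_norm] using hw
        rw [h3, hρ] at h2
        linarith
      have h1 : |w.im| ≤ 149 / 3000 * |u| := by linarith
      have h2 : w.im ^ 2 ≤ (149 / 3000) ^ 2 * u ^ 2 := by
        rw [← sq_abs w.im, ← sq_abs u, ← mul_pow]
        gcongr
      have h3 : (w.re - u) ^ 2 + w.im ^ 2 = (49 / 100) ^ 2 * u ^ 2 := by
        rw [← hsq]
        have h3 : ‖w - u‖ = ρ := by simpa [dist_eq_norm] using hw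
        rw [h3, hρ, mul_pow, sq_abs]
      have h4 : 235 / 1000 * u ^ 2 ≤ (w.re - u) ^ 2 - w.im ^ 2 := by nlinarith
      have h5 := mul_le_mul_of_nonneg_left h4 hk0
      have h6 : g0 * 4 / u ^ 2 * (235 / 1000 * u ^ 2) = 94 / 100 * g0 := by field_simp; norm_num
      rw [hc] at h43
      linarith
  have hcen := SH712.sh1 hlsc hNT hρ0 hsub (H := fun _ => I * (c : ℂ)) diffContOnCl_const hsph
    (u : ℂ) (mem_closedBall_self hρ0.le)
  have hval : (I * (c : ℂ)).im = c := by simp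
  simp only [hval] at hcen
  have huW : (u : ℂ) ∈ W' := hsub (mem_closedBall_self hρ0.le)
  set t' : ℂ := t - I * ((m0 - g0 : ℝ) : ℂ) with ht'
  have ht're : t'.re = t.re := by simp [ht']
  have ht'im : t'.im = t.im - (m0 - g0) := by simp [ht']
  have hmem : (t', (u : ℂ)) ∈ Om' := by
    by_cases hneg : t'.im < 0
    · exact hbO _ huW t' hneg
    push Not at hneg
    refine mem_of_lt hlam0 (hbO _ huW) (s := t.re) (t := t') ⟨?_, ?_⟩ ?_
    · rw [ht're, sub_self, abs_zero]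
      positivity
    · rw [e4, ht'im, hc]
      linarith
    · rw [P_im, ht're, sub_self]
      have : 0 ≤ lam * t'.im ^ 2 := by positivity
      refine lt_of_lt_of_le ?_ hcen
      rw [hc]
      have h3 : t'.im < 7 / 5 * g0 := by rw [ht'im]; linarith
      nlinarith
  have h2 := hmem.2
  simp only at h2
  have hgu : gg m0 g0 u (u : ℂ) = I * ((m0 - g0 : ℝ) : ℂ) := by simp [gg]
  rw [hgu, ht', sub_add_cancel] at h2
  exact h2

end Crest.Agent.R102.HF985
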