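import Crest.Agent.R102.EdgeDefs_255
import Crest.Agent.R102.DiscRay_490

/-!
Row 102, T1-B, EDGE / SLOW (helper115): **N3** = the disc estimate `discRay` (490) turned into the two
hypotheses `hloc`, `hgrow` of 575's `slowWorld` (base shift `(x', u') → (x', u'')` included).
-/

set_option autoImplicit false

open Set Filter Topology Metric Complex

noncomputable section

namespace Crest.Agent.R102.LocGrow115

open Crest.Agent.R102.S5 (Half bl ray)
open Crest.Agent.R102.Edge255 (Wg z0)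

/-- parameters of a compact subset of a wedge -/
lemma params {K : Set (ℂ × ℂ)} (hK : IsCompact K) {m : ℝ} (hKm : K ⊆ Wg m) :
    ∃ A > 0, ∃ c₂ > 0, ∃ c > 0, ∀ x ∈ K, ‖x.1‖ ≤ A ∧ ‖x.2‖ ≤ A ∧ c₂ ≤ x.2.im ∧
      x.1.im ≤ (m - c) * x.2.im := by
  rcases K.eq_empty_or_nonempty with rfl | hne
  · exact ⟨1, one_pos, 1, one_pos, 1, one_pos, fun x hx => hx.elim⟩
  obtain ⟨M, hM⟩ := hK.exists_bound_of_continuousOn (f := fun x : ℂ × ℂ => x) continuousOn_id
  obtain ⟨x0, hx0, hmin⟩ := hK.exists_isMinOn hne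
    (f := fun x : ℂ × ℂ => m * x.2.im - x.1.im) (by fun_prop)
  obtain ⟨x1, hx1, hmin1⟩ := hK.exists_isMinOn hne (f := fun x : ℂ × ℂ => x.2.im) (by fun_prop)
  have hc0 : 0 < m * x0.2.im - x0.1.im := by linarith [(hKm hx0).2]
  have hc1 : 0 < x1.2.im := (hKm hx1).1
  have hA : 0 < |M| + 1 := by positivity
  refine ⟨|M| + 1, hA, x1.2.im, hc1, (m * x0.2.im - x0.1.im) / (|M| + 1), by positivity, ?_⟩
  intro x hx
  have h1 : ‖x‖ ≤ |M| + 1 := (hM x hx).trans ((le_abs_self M).trans (by linarith))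
  have h2 : ‖x.2‖ ≤ |M| + 1 := (norm_snd_le x).trans h1
  have h3 : x0.2.im * m - x0.1.im ≤ m * x.2.im - x.1.im := by
    have := hmin hx
    simp only [mem_ofPred_eq] at this
    linarith
  have h4 : x1.2.im ≤ x.2.im := hmin1 hx
  refine ⟨(norm_fst_le x).trans h1, h2, h4, ?_⟩
  have h5 : x.2.im ≤ |M| + 1 := ((le_abs_self _).trans (Complex.abs_im_le_norm x.2)).trans h2
  have h6 : (m * x0.2.im - x0.1.im) / (|M| + 1) * x.2.im ≤ m * x0.2.im - x0.1.im := by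
    rw [div_mul_eq_mul_div, div_le_iff₀ hA]
    exact mul_le_mul_of_nonneg_left h5 hc0.le
  nlinarith

/-- the standard input: side bound with growth `y ^ th` -/
def HSide (th α : ℝ) (φ : ℂ × ℂ → ℂ) (p : ℕ → ℝ × ℝ) (s r om : ℕ → ℝ) : Prop :=
  ∀ ν > 0, ∀ C ≥ 1, ∃ B ≥ 0, ∀ y ≥ 1, ∀ᶠ n in atTop, ∀ T : ℝ, y * s n ≤ T → T ≤ 2 * r n →
    ∀ x' v' s' : ℝ, |x' - (p n).1| ≤ C * T → |v' - (p n).2| ≤ C * T →
      ν * T / (1 + Real.log (T / (y * s n))) ^ 2 ≤ s' → s' ≤ C * T →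
      ‖φ (ray (x', v') s') - φ (ray (p n) (s n))‖ ≤
        om n * y ^ th * Real.exp (B * (T / (y * s n)) ^ α)

/-- the standard input: arc bound -/
def HArc (m α : ℝ) (φ : ℂ × ℂ → ℂ) (p : ℕ → ℝ × ℝ) (s r om : ℕ → ℝ) : Prop :=
  ∀ ν > 0, ∀ C ≥ 1, ∃ N : ℕ → ℝ, (∀ n, 0 ≤ N n) ∧
    Tendsto (fun n => N n * (s n / r n) ^ α) atTop (𝓝 0) ∧ ∀ᶠ n in atTop, ∀ q : ℂ × ℂ,
      ‖q.1 - (p n).1‖ ≤ C * r n → ‖q.2 - (p n).2‖ ≤ C * r n → ν * r n ≤ q.2.im →
      q.1.im ≤ m * q.2.im - ν * r n → ‖φ q - φ (ray (p n) (s n))‖ ≤ om n * Real.exp (N n)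

/-- one application of the disc at the scale `y * s n` -/
lemma core {m c A c₂ th α : ℝ} {φ : ℂ × ℂ → ℂ} {p : ℕ → ℝ × ℝ} {s r om : ℕ → ℝ}
    (hm : 0 ≤ m) (hc : 0 < c) (hA : 0 < A) (hc₂ : 0 < c₂) (hth : 0 ≤ th) (hα0 : 0 < α)
    (hα1 : α < 1) (hs : ∀ n, 0 < s n) (hr : ∀ n, 0 < r n) (hom : ∀ n, 0 < om n)
    (hsr : Tendsto (fun n => s n / r n) atTop (𝓝 0))
    (hdiff : ∀ C : ℝ, ∀ᶠ n in atTop, DifferentiableOn ℂ φ (Half (p n) (C * r n) m))
    (hside : HSide th α φ p s r om) (harc : HArc m α φ p s r om) :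
    ∃ M > 0, ∀ y ≥ 1, ∀ᶠ n in atTop, ∀ x : ℂ × ℂ, ‖x.1‖ ≤ A → ‖x.2‖ ≤ A → c₂ ≤ x.2.im →
      x.1.im ≤ (m - c) * x.2.im →
      ‖φ (bl (p n) (y * s n) x) - φ (ray (p n) (s n))‖ ≤ M * om n * y ^ th := by
  obtain ⟨ν, hν, C, hC, H⟩ := DiscRay490.discRay m c A c₂ α hm hc hA hc₂ hα0 hα1
  obtain ⟨B, hB, HS⟩ := hside ν hν C hC
  obtain ⟨N, hN0, hN, HA⟩ := harc ν hν C hC
  refine ⟨Real.exp (C * (B + 1)), Real.exp_pos _, ?_⟩
  intro y hy
  have hy0 : 0 < y := lt_of_lt_of_le one_pos hy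
  have hyth : 1 ≤ y ^ th := Real.one_le_rpow hy hth
  have hyα : 0 < y ^ α := Real.rpow_pos_of_pos hy0 _
  have e1 : ∀ᶠ n in atTop, C * (y * s n) ≤ r n := by
    have h1 : ∀ᶠ n in atTop, s n / r n < 1 / (C * y) :=
      hsr.eventually_lt_const (by positivity)
    filter_upwards [h1] with n hn
    have hrn := hr n
    rw [div_lt_div_iff₀ hrn (by positivity)] at hn
    nlinarith
  have e2 : ∀ᶠ n in atTop, N n * (s n / r n) ^ α < 1 / y ^ α :=
    hN.eventually_lt_const (by positivity)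
  filter_upwards [e1, e2, HS y hy, HA, hdiff C] with n h1 h2 h3 h4 h5
  intro x hx1 hx2 hx3 hx4
  have hsn := hs n
  have hrn := hr n
  have homn := hom n
  set D : ℝ := om n * y ^ th with hD
  have hD0 : 0 < D := by rw [hD]; positivity
  set f : ℂ × ℂ → ℂ := fun q => (φ q - φ (ray (p n) (s n))) / (D : ℂ) with hf
  have hfn : ∀ q, ‖f q‖ = ‖φ q - φ (ray (p n) (s n))‖ / D := by
    intro q
    rw [hf]
    simp only [norm_div, Complex.norm_real, Real.norm_eq_abs, abs_of_pos hD0]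
  have hfd : DifferentiableOn ℂ f (Half (p n) (C * r n) m) := by
    have e : f = fun q => ((D : ℂ))⁻¹ * (φ q - φ (ray (p n) (s n))) := by
      funext q
      rw [hf]
      simp only [div_eq_inv_mul]
    rw [e]
    exact (h5.sub_const _).const_mul _
  have key := H (p n) (y * s n) (r n) (by positivity) h1 f hfd B (N n) hB (hN0 n)
    (fun T hT1 hT2 x' v' s' g1 g2 g3 g4 => by
      rw [hfn, div_le_iff₀ hD0]
      have := h3 T hT1 hT2 x' v' s' g1 g2 g3 g4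
      rw [hD]
      linarith)
    (fun q g1 g2 g3 g4 => by
      rw [hfn, div_le_iff₀ hD0]
      have h6 := h4 q g1 g2 g3 g4
      have h7 : om n * Real.exp (N n) ≤ D * Real.exp (N n) := by
        apply mul_le_mul_of_nonneg_right _ (Real.exp_pos _).le
        rw [hD]
        nlinarith
      linarith)
    x hx1 hx2 hx3 hx4
  rw [hfn, div_le_iff₀ hD0] at key
  have h8 : N n * (y * s n / r n) ^ α ≤ 1 := by
    have h9 : (y * s n / r n) ^ α = y ^ α * (s n / r n) ^ α := by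
      rw [mul_div_assoc, Real.mul_rpow hy0.le (by positivity)]
    rw [h9]
    rw [lt_div_iff₀ hyα] at h2
    nlinarith
  have h10 : Real.exp (C * (B + N n * (y * s n / r n) ^ α)) ≤ Real.exp (C * (B + 1)) := by
    apply Real.exp_le_exp.2
    apply mul_le_mul_of_nonneg_left _ (by linarith)
    linarith
  calc ‖φ (bl (p n) (y * s n) x) - φ (ray (p n) (s n))‖
      ≤ Real.exp (C * (B + N n * (y * s n / r n) ^ α)) * D := key
    _ ≤ Real.exp (C * (B + 1)) * D := mul_le_mul_of_nonneg_right h10 hD0.le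
    _ = Real.exp (C * (B + 1)) * om n * y ^ th := by rw [hD]; ring

/-- change of centre -/
lemma bl_shift {p e : ℝ × ℝ} {s y : ℝ} (hs : 0 < s) (hy : 0 < y) (he : e.1 = p.1) (q : ℂ × ℂ) :
    bl e s q = bl p (y * s) (q.1 / (y : ℂ), (q.2 + (((e.2 - p.2) / s : ℝ) : ℂ)) / (y : ℂ)) := by
  have hy' : (y : ℂ) ≠ 0 := by exact_mod_cast hy.ne'
  have hs' : (s : ℂ) ≠ 0 := by exact_mod_cast hs.ne'
  unfold bl
  refine Prod.ext ?_ ?_
  · simp only
    rw [he]
    push_cast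
    field_simp
  · simp only
    push_cast
    field_simp
    ring

section main

variable {a g g' th α : ℝ} {φ : ℂ × ℂ → ℂ} {p e : ℕ → ℝ × ℝ} {s r om : ℕ → ℝ}

/-- local boundedness at the shifted centre, relative to the record window -/
lemma loc_rel (ha : 0 ≤ a) (hg' : 0 < g') (hgg : g' ≤ g) (hth : 0 ≤ th) (hα0 : 0 < α)
    (hα1 : α < 1) (hs : ∀ n, 0 < s n) (hr : ∀ n, 0 < r n) (hom : ∀ n, 0 < om n)
    (hsr : Tendsto (fun n => s n / r n) atTop (𝓝 0)) (he1 : ∀ n, (e n).1 = (p n).1)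
    (he2 : ∀ n, |(e n).2 - (p n).2| ≤ s n)
    (hdiff : ∀ C : ℝ, ∀ᶠ n in atTop, DifferentiableOn ℂ φ (Half (p n) (C * r n) (a + g)))
    (hside : HSide th α φ p s r om) (harc : HArc (a + g) α φ p s r om)
    {K : Set (ℂ × ℂ)} (hK : IsCompact K) (hKm : K ⊆ Wg (a + g')) :
    ∃ M > 0, ∀ᶠ n in atTop, ∀ q ∈ K, ‖φ (bl (e n) (s n) q) - φ (ray (p n) (s n))‖ ≤ M * om n := by
  obtain ⟨A, hA, c₂, hc₂, c, hc, hKp⟩ := params hK hKm
  obtain ⟨M, hM, H⟩ := core (m := a + g) (c := c) (A := A + 1) (c₂ := c₂) (by linarith) hc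
    (by linarith) hc₂ hth hα0 hα1 hs hr hom hsr hdiff hside harc
  refine ⟨M, hM, ?_⟩
  filter_upwards [H 1 le_rfl] with n hn
  intro q hq
  obtain ⟨h1, h2, h3, h4⟩ := hKp q hq
  have hsn := hs n
  have ht : |((e n).2 - (p n).2) / s n| ≤ 1 := by
    rw [abs_div, abs_of_pos hsn, div_le_one hsn]
    exact he2 n
  have hb := bl_shift (p := p n) (e := e n) (y := 1) hsn one_pos (he1 n) q
  rw [hb]
  have := hn (q.1 / ((1 : ℝ) : ℂ), (q.2 + ((((e n).2 - (p n).2) / s n : ℝ) : ℂ)) / ((1 : ℝ) : ℂ))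
    (by simpa using h1.trans (by linarith))
    (by
      simp only [Complex.ofReal_one, div_one]
      refine (norm_add_le _ _).trans ?_
      rw [Complex.norm_real, Real.norm_eq_abs]
      linarith)
    (by simpa using h3)
    (by
      simp only [Complex.ofReal_one, div_one, Complex.add_im, Complex.ofReal_im, add_zero]
      have h5 : 0 < q.2.im := lt_of_lt_of_le hc₂ h3
      nlinarith)
  rw [Real.one_rpow, mul_one] at this
  exact this

/-- **hloc** of 575's `slowWorld` -/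
theorem hloc (ha : 0 ≤ a) (hg' : 0 < g') (hgg : g' ≤ g) (hth : 0 ≤ th) (hα0 : 0 < α)
    (hα1 : α < 1) (hs : ∀ n, 0 < s n) (hr : ∀ n, 0 < r n) (hom : ∀ n, 0 < om n)
    (hsr : Tendsto (fun n => s n / r n) atTop (𝓝 0)) (he1 : ∀ n, (e n).1 = (p n).1)
    (he2 : ∀ n, |(e n).2 - (p n).2| ≤ s n)
    (hdiff : ∀ C : ℝ, ∀ᶠ n in atTop, DifferentiableOn ℂ φ (Half (p n) (C * r n) (a + g)))
    (hside : HSide th α φ p s r om) (harc : HArc (a + g) α φ p s r om) (k : ℕ → ℂ) :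
    ∀ K ⊆ Wg (a + g'), IsCompact K → ∃ M : ℝ, ∀ᶠ n in atTop, ∀ q ∈ K,
      ‖(φ (bl (e n) (s n) q) - k n) - (φ (bl (e n) (s n) z0) - k n)‖ ≤ M * om n := by
  intro K hKm hK
  have hz : ({z0} : Set (ℂ × ℂ)) ⊆ Wg (a + g') := by
    rintro x rfl
    refine ⟨by simp [z0], ?_⟩
    simp only [z0, Complex.neg_im, Complex.I_im]
    have : (I / 4 : ℂ).im = 1 / 4 := by simp
    rw [this]
    nlinarith
  obtain ⟨M, hM, H⟩ := loc_rel ha hg' hgg hth hα0 hα1 hs hr hom hsr he1 he2 hdiff hside harc hK hKm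
  obtain ⟨M', hM', H'⟩ := loc_rel ha hg' hgg hth hα0 hα1 hs hr hom hsr he1 he2 hdiff hside harc
    isCompact_singleton hz
  refine ⟨M + M', ?_⟩
  filter_upwards [H, H'] with n h1 h2
  intro q hq
  have h3 := h1 q hq
  have h4 := h2 z0 (mem_singleton _)
  have h5 : (φ (bl (e n) (s n) q) - k n) - (φ (bl (e n) (s n) z0) - k n)
      = (φ (bl (e n) (s n) q) - φ (ray (p n) (s n)))
        - (φ (bl (e n) (s n) z0) - φ (ray (p n) (s n))) := by ring
  rw [h5]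
  refine (norm_sub_le _ _).trans ?_
  linarith

/-- **hgrow** of 575's `slowWorld` -/
theorem hgrow (ha : 0 ≤ a) (hg' : 0 < g') (hgg : g' ≤ g) (hth : 0 ≤ th) (hα0 : 0 < α)
    (hα1 : α < 1) (hs : ∀ n, 0 < s n) (hr : ∀ n, 0 < r n) (hom : ∀ n, 0 < om n)
    (hsr : Tendsto (fun n => s n / r n) atTop (𝓝 0)) (he1 : ∀ n, (e n).1 = (p n).1)
    (he2 : ∀ n, |(e n).2 - (p n).2| ≤ s n)
    (hdiff : ∀ C : ℝ, ∀ᶠ n in atTop, DifferentiableOn ℂ φ (Half (p n) (C * r n) (a + g)))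
    (hside : HSide th α φ p s r om) (harc : HArc (a + g) α φ p s r om) (k : ℕ → ℂ) :
    ∃ C : ℝ, ∀ q : ℂ × ℂ, 1 ≤ q.2.im → q.1.im ≤ (a + g' / 2) * q.2.im →
      ‖q.1‖ ≤ (|a| + g') * q.2.im → ‖q.2‖ ≤ q.2.im → ∀ᶠ n in atTop,
      ‖(φ (bl (e n) (s n) q) - k n) - (φ (bl (e n) (s n) z0) - k n)‖ ≤
        C * om n * q.2.im ^ th := by
  have hz : ({z0} : Set (ℂ × ℂ)) ⊆ Wg (a + g') := by
    rintro x rfl
    refine ⟨by simp [z0], ?_⟩
    simp only [z0, Complex.neg_im, Complex.I_im]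
    have : (I / 4 : ℂ).im = 1 / 4 := by simp
    rw [this]
    nlinarith
  obtain ⟨M', hM', H'⟩ := loc_rel ha hg' hgg hth hα0 hα1 hs hr hom hsr he1 he2 hdiff hside harc
    isCompact_singleton hz
  obtain ⟨M, hM, H⟩ := core (m := a + g) (c := g' / 2) (A := |a| + g' + 2) (c₂ := 1) (by linarith)
    (by linarith) (by positivity) one_pos hth hα0 hα1 hs hr hom hsr hdiff hside harc
  refine ⟨M + M', ?_⟩
  intro q hq1 hq2 hq3 hq4
  set y : ℝ := q.2.im with hy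
  have hy0 : 0 < y := lt_of_lt_of_le one_pos hq1
  have hyth : 1 ≤ y ^ th := Real.one_le_rpow hq1 hth
  filter_upwards [H y hq1, H'] with n hn h2
  have hsn := hs n
  have homn := hom n
  have ht : |((e n).2 - (p n).2) / s n| ≤ 1 := by
    rw [abs_div, abs_of_pos hsn, div_le_one hsn]
    exact he2 n
  have hyn : ‖(y : ℂ)‖ = y := by rw [Complex.norm_real, Real.norm_eq_abs, abs_of_pos hy0]
  have h3 := hn (q.1 / (y : ℂ), (q.2 + ((((e n).2 - (p n).2) / s n : ℝ) : ℂ)) / (y : ℂ))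
    (by
      simp only
      rw [norm_div, hyn, div_le_iff₀ hy0]
      nlinarith [abs_nonneg a])
    (by
      simp only
      rw [norm_div, hyn, div_le_iff₀ hy0]
      refine (norm_add_le _ _).trans ?_
      rw [Complex.norm_real, Real.norm_eq_abs]
      nlinarith [abs_nonneg a])
    (by
      simp only
      rw [Complex.div_ofReal_im, Complex.add_im, Complex.ofReal_im, add_zero, ← hy,
        div_self hy0.ne'])
    (by
      simp only
      rw [Complex.div_ofReal_im, Complex.div_ofReal_im, Complex.add_im, Complex.ofReal_im,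
        add_zero, ← hy, div_self hy0.ne', mul_one, div_le_iff₀ hy0]
      nlinarith)
  rw [← bl_shift (p := p n) (e := e n) (y := y) hsn hy0 (he1 n) q] at h3
  have h4 := h2 z0 (mem_singleton _)
  have h5 : (φ (bl (e n) (s n) q) - k n) - (φ (bl (e n) (s n) z0) - k n)
      = (φ (bl (e n) (s n) q) - φ (ray (p n) (s n)))
        - (φ (bl (e n) (s n) z0) - φ (ray (p n) (s n))) := by ring
  rw [h5]
  refine (norm_sub_le _ _).trans ?_
  have h6 : M' * om n ≤ M' * om n * y ^ th := le_mul_of_one_le_right (by positivity) hyth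
  calc ‖φ (bl (e n) (s n) q) - φ (ray (p n) (s n))‖
        + ‖φ (bl (e n) (s n) z0) - φ (ray (p n) (s n))‖
      ≤ M * om n * y ^ th + M' * om n * y ^ th := by linarith
    _ = (M + M') * om n * y ^ th := by ring

/-- growth at the record centre (the hypothesis `hgrow` of 203's `NoRecW203.norec_end`) -/
theorem grow_rec (ha : 0 ≤ a) (hg' : 0 < g') (hgg : g' ≤ g) (hth : 0 ≤ th) (hα0 : 0 < α)
    (hα1 : α < 1) (hs : ∀ n, 0 < s n) (hr : ∀ n, 0 < r n) (hom : ∀ n, 0 < om n)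
    (hsr : Tendsto (fun n => s n / r n) atTop (𝓝 0))
    (hdiff : ∀ C : ℝ, ∀ᶠ n in atTop, DifferentiableOn ℂ φ (Half (p n) (C * r n) (a + g)))
    (hside : HSide th α φ p s r om) (harc : HArc (a + g) α φ p s r om) :
    ∀ K ⊆ Wg (a + g'), IsCompact K → ∃ M : ℝ, ∀ y : ℝ, 1 ≤ y → ∀ᶠ n in atTop, ∀ q ∈ K,
      ‖φ (bl (p n) (s n) ((y : ℂ) * q.1, (y : ℂ) * q.2)) - φ (ray (p n) (s n))‖ ≤
        M * om n * y ^ th := by
  intro K hKm hK
  obtain ⟨A, hA, c₂, hc₂, c, hc, hKp⟩ := params hK hKm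
  obtain ⟨M, hM, H⟩ := core (m := a + g) (c := c) (A := A) (c₂ := c₂) (by linarith) hc hA hc₂ hth
    hα0 hα1 hs hr hom hsr hdiff hside harc
  refine ⟨M, fun y hy => ?_⟩
  filter_upwards [H y hy] with n hn q hq
  obtain ⟨h1, h2, h3, h4⟩ := hKp q hq
  have h5 : 0 < q.2.im := lt_of_lt_of_le hc₂ h3
  have hb : bl (p n) (s n) ((y : ℂ) * q.1, (y : ℂ) * q.2) = bl (p n) (y * s n) q := by
    unfold bl
    refine Prod.ext ?_ ?_
    · simp only
      push_cast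
      ring
    · simp only
      push_cast
      ring
  rw [hb]
  exact hn q h1 h2 h3 (by nlinarith)

end main

end Crest.Agent.R102.LocGrow115
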