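import Crest.Agent.R102.TreeS_174
import Crest.Agent.R102.Chain_859

/-! Row 102, EDGE / SLOW (helper486): the oscillation `oe` of a window and the geometric inputs
`he`, `hvert`, `hlat` of 859's chain / stay, on the objects (174's compact `KD A`). -/

set_option autoImplicit false

open Set Filter Topology Metric Complex

noncomputable section

namespace Crest.Agent.R102.SlowE

open Crest.Agent.R102.S5 (ray bl Half)
open Crest.Agent.R102.TreeS174 (KD)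

set_option linter.unusedSectionVars false

variable {E : Type*} [NormedAddCommGroup E] [NormedSpace ℂ E]

/-- truncated oscillation of `φ` on the deep compact of the window `(p, s)` -/
def oe (A : ℝ) (φ : ℂ × ℂ → E) (p : ℝ × ℝ) (s : ℝ) : ℝ :=
  sSup ((fun q => min 1 ‖φ q - φ (ray p s)‖) '' KD A p.1 p.2 s)

theorem bdd (A : ℝ) (φ : ℂ × ℂ → E) (p : ℝ × ℝ) (s : ℝ) :
    BddAbove ((fun q => min 1 ‖φ q - φ (ray p s)‖) '' KD A p.1 p.2 s) := by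
  refine ⟨1, ?_⟩
  rintro _ ⟨q, _, rfl⟩
  exact min_le_left _ _

theorem oe_nonneg (A : ℝ) (φ : ℂ × ℂ → E) (p : ℝ × ℝ) (s : ℝ) : 0 ≤ oe A φ p s := by
  refine Real.sSup_nonneg ?_
  rintro _ ⟨q, _, rfl⟩
  exact le_min zero_le_one (norm_nonneg _)

theorem oe_le_one (A : ℝ) (φ : ℂ × ℂ → E) (p : ℝ × ℝ) (s : ℝ) : oe A φ p s ≤ 1 := by
  refine Real.sSup_le ?_ zero_le_one
  rintro _ ⟨q, _, rfl⟩
  exact min_le_left _ _

theorem min_le_oe {A : ℝ} {φ : ℂ × ℂ → E} {p : ℝ × ℝ} {s : ℝ} {q : ℂ × ℂ}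
    (hq : q ∈ KD A p.1 p.2 s) : min 1 ‖φ q - φ (ray p s)‖ ≤ oe A φ p s :=
  le_csSup (bdd A φ p s) ⟨q, hq, rfl⟩

theorem le_oe {A : ℝ} {φ : ℂ × ℂ → E} {p : ℝ × ℝ} {s : ℝ} (h : oe A φ p s < 1) {q : ℂ × ℂ}
    (hq : q ∈ KD A p.1 p.2 s) : ‖φ q - φ (ray p s)‖ ≤ oe A φ p s := by
  have h1 := min_le_oe (φ := φ) hq
  rcases le_total 1 ‖φ q - φ (ray p s)‖ with h2 | h2
  · rw [min_eq_left h2] at h1; linarith
  · rwa [min_eq_right h2] at h1

theorem oe_le {A : ℝ} {φ : ℂ × ℂ → E} {p : ℝ × ℝ} {s ε : ℝ} (hε : 0 ≤ ε)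
    (h : ∀ q ∈ KD A p.1 p.2 s, ‖φ q - φ (ray p s)‖ ≤ ε) : oe A φ p s ≤ ε := by
  refine Real.sSup_le ?_ hε
  rintro _ ⟨q, hq, rfl⟩
  exact (min_le_right _ _).trans (h q hq)

theorem exists_of_lt_oe {A : ℝ} {φ : ℂ × ℂ → E} {p : ℝ × ℝ} {s ε : ℝ} (hε : 0 ≤ ε)
    (h : ε < oe A φ p s) : ∃ q ∈ KD A p.1 p.2 s, ε < ‖φ q - φ (ray p s)‖ := by
  by_contra hc
  push Not at hc
  exact absurd (oe_le hε hc) (not_le.2 h)

/-- **hvert** -/
theorem hvert {A : ℝ} (hA : 8 ≤ A) {φ : ℂ × ℂ → E} {p : ℝ × ℝ} {s s' : ℝ} (hs : 0 < s)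
    (he : oe A φ p s < 1) (h1 : s / 2 ≤ s') (h2 : s' ≤ s) :
    ‖φ (ray p s) - φ (ray p s')‖ ≤ oe A φ p s := by
  rw [norm_sub_rev]
  exact le_oe he (TreeS174.ray_vert (x := p.1) (u := p.2) hA hs h1 h2)

theorem sum_le_dist (p p' : ℝ × ℝ) : |p.1 - p'.1| + |p.2 - p'.2| ≤ 2 * dist p p' := by
  rw [Prod.dist_eq, Real.dist_eq, Real.dist_eq]
  have h1 := le_max_left |p.1 - p'.1| |p.2 - p'.2|
  have h2 := le_max_right |p.1 - p'.1| |p.2 - p'.2|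
  linarith

/-- centres of the lateral neighbours, sup distance -/
theorem ray_lat' {A : ℝ} (hA : 8 ≤ A) {p p' : ℝ × ℝ} {s : ℝ} (hs : 0 < s)
    (h : dist p p' ≤ s) : ray p' s ∈ KD A p.1 p.2 s := by
  rw [Prod.dist_eq, Real.dist_eq, Real.dist_eq] at h
  have h1 : |p'.1 - p.1| ≤ s := by rw [abs_sub_comm]; exact (le_max_left _ _).trans h
  have h2 : |p'.2 - p.2| ≤ s := by rw [abs_sub_comm]; exact (le_max_right _ _).trans h
  have h3 := TreeS174.ray_2norm p'.1 p.2 p'.2 hs.le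
  refine ⟨?_, ?_, ?_, ?_, ?_⟩
  · rw [show p' = (p'.1, p'.2) from rfl, TreeS174.ray_1re]; nlinarith
  · exact h3.trans (by nlinarith)
  · rw [show p' = (p'.1, p'.2) from rfl, TreeS174.ray_1im]; nlinarith
  · rw [show p' = (p'.1, p'.2) from rfl, TreeS174.ray_1im]; nlinarith
  · rw [show p' = (p'.1, p'.2) from rfl, TreeS174.ray_2im]; nlinarith

/-- **hlat**, `Cl = 16` -/
theorem hlat {A : ℝ} (hA : 8 ≤ A) {φ : ℂ × ℂ → E} {p p' : ℝ × ℝ} {s : ℝ} (hs : 0 < s)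
    (hφ : DifferentiableOn ℂ φ (KD A p.1 p.2 s)) (he : oe A φ p s < 1) (h : dist p p' ≤ s) :
    ‖φ (ray p s) - φ (ray p' s)‖ ≤ 16 * (dist p p' / s) * oe A φ p s := by
  have h0 := oe_nonneg A φ p s
  have h1 := sum_le_dist p p'
  have hd : 0 ≤ dist p p' := dist_nonneg
  rcases le_or_gt (|p.1 - p'.1| + |p.2 - p'.2|) s with hc | hc
  · refine (TreeS174.lat (x := p.1) (u := p.2) (x' := p'.1) (u' := p'.2) hA hs hφ
      (fun _ hq => le_oe he hq) hc).trans ?_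
    have h2 : 8 * ((|p.1 - p'.1| + |p.2 - p'.2|) / s) ≤ 16 * (dist p p' / s) := by
      rw [← mul_div_assoc, ← mul_div_assoc]
      refine div_le_div_of_nonneg_right ?_ hs.le
      linarith
    exact mul_le_mul_of_nonneg_right h2 h0
  · have h3 : ‖φ (ray p s) - φ (ray p' s)‖ ≤ oe A φ p s := by
      rw [norm_sub_rev]
      exact le_oe he (ray_lat' hA hs h)
    refine h3.trans ?_
    have h4 : 1 ≤ 16 * (dist p p' / s) := by
      rw [← mul_div_assoc, le_div_iff₀ hs]; linarith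
    nlinarith

end Crest.Agent.R102.SlowE
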