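import Crest.Agent.R102.SideY_201
import Crest.Agent.R102.LocGrow_115
import Crest.Agent.R102.SlowE_486

/-!
# R102/HSide_201: `LocGrow115.HSide` at kernel records (slow label regime, N2)

* `hside_of` : the side hypothesis of the disc, for an outer scale `r` with
  `(1 + log (2 r / s))^4 (2 r / s)^(1/2) om → 0`;
* `scales`   : the outer scale `r = s * om ^ (-4/3)`.
-/

set_option autoImplicit false

open Set Filter Topology Metric

noncomputable section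

namespace Crest.Agent.R102.HSide201

open Crest.Agent.R102.Chain859 (V rho)
open Crest.Agent.R102.S5 (ray bl Half)
open Crest.Agent.R102.TreeS174 (KD)
open Crest.Agent.R102.SlowE (oe)
open Crest.Agent.R102.LocGrow115 (HSide HArc)

/-- the logarithm is dominated by small powers -/
lemma log_le_pow {z : ℝ} (hz : 1 ≤ z) : (1 + Real.log z) ^ 4 ≤ 64 ^ 4 * z ^ (1 / 16 : ℝ) := by
  have z0 : 0 < z := by linarith
  have hl : 0 ≤ Real.log z := Real.log_nonneg hz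
  have h1 : Real.log (z ^ (1 / 64 : ℝ)) ≤ z ^ (1 / 64 : ℝ) - 1 :=
    Real.log_le_sub_one_of_pos (by positivity)
  rw [Real.log_rpow z0] at h1
  have h2 : 1 + Real.log z ≤ 64 * z ^ (1 / 64 : ℝ) := by linarith
  calc (1 + Real.log z) ^ 4 ≤ (64 * z ^ (1 / 64 : ℝ)) ^ 4 := by gcongr
    _ = 64 ^ 4 * z ^ (1 / 16 : ℝ) := by
        rw [mul_pow, ← Real.rpow_natCast (z ^ (1 / 64 : ℝ)) 4, ← Real.rpow_mul z0.le]
        norm_num

/-- the smallness number at the outer scale `s * om ^ (-4/3)` -/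
lemma small_le {t : ℝ} (ht : 0 < t) (ht1 : t ≤ 1) :
    (1 + Real.log (2 * t ^ (-(4 / 3 : ℝ)))) ^ 4 * (2 * t ^ (-(4 / 3 : ℝ))) ^ (1 / 2 : ℝ) * t ≤
      64 ^ 4 * 2 * t ^ (1 / 4 : ℝ) := by
  have hX : 1 ≤ t ^ (-(4 / 3 : ℝ)) := Real.one_le_rpow_of_pos_of_le_one_of_nonpos ht ht1 (by norm_num)
  set X : ℝ := t ^ (-(4 / 3 : ℝ)) with hXd
  have hz : 1 ≤ 2 * X := by linarith
  have h1 := log_le_pow hz
  have h2 : (2 * X) ^ (1 / 16 : ℝ) * (2 * X) ^ (1 / 2 : ℝ) ≤ 2 * X ^ (9 / 16 : ℝ) := by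
    rw [← Real.rpow_add (by linarith), Real.mul_rpow (by norm_num) (by linarith)]
    have h3 : (2 : ℝ) ^ (1 / 16 + 1 / 2 : ℝ) ≤ 2 ^ (1 : ℝ) :=
      Real.rpow_le_rpow_of_exponent_le (by norm_num) (by norm_num)
    rw [Real.rpow_one] at h3
    have h4 : (1 / 16 + 1 / 2 : ℝ) = 9 / 16 := by norm_num
    rw [h4] at h3 ⊢
    gcongr
  have h5 : X ^ (9 / 16 : ℝ) * t = t ^ (1 / 4 : ℝ) := by
    rw [hXd, ← Real.rpow_mul ht.le]
    nth_rewrite 2 [← Real.rpow_one t]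
    rw [← Real.rpow_add ht]
    norm_num
  calc (1 + Real.log (2 * X)) ^ 4 * (2 * X) ^ (1 / 2 : ℝ) * t
      ≤ (64 ^ 4 * (2 * X) ^ (1 / 16 : ℝ)) * (2 * X) ^ (1 / 2 : ℝ) * t := by gcongr
    _ = 64 ^ 4 * ((2 * X) ^ (1 / 16 : ℝ) * (2 * X) ^ (1 / 2 : ℝ)) * t := by ring
    _ ≤ 64 ^ 4 * (2 * X ^ (9 / 16 : ℝ)) * t := by gcongr
    _ = 64 ^ 4 * 2 * (X ^ (9 / 16 : ℝ) * t) := by ring
    _ = _ := by rw [h5]

/-- **the outer scale** `r n = s n * om n ^ (-4/3)` -/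
theorem scales {s s1 om : ℕ → ℝ} (hs : ∀ n, 0 < s n) (hs1 : ∀ n, 0 < s1 n) (hom : ∀ n, 0 < om n)
    (hom1 : ∀ n, om n ≤ 1) (hlim : Tendsto om atTop (𝓝 0))
    (hlow : ∀ n, (s n / s1 n) ^ (1 / 2 : ℝ) ≤ om n) :
    (∀ n, 0 < s n * om n ^ (-(4 / 3 : ℝ))) ∧
    (∀ n, s n ≤ s n * om n ^ (-(4 / 3 : ℝ))) ∧
    Tendsto (fun n => s n / (s n * om n ^ (-(4 / 3 : ℝ)))) atTop (𝓝 0) ∧
    (∀ C : ℝ, ∀ᶠ n in atTop, C * (s n * om n ^ (-(4 / 3 : ℝ))) ≤ s1 n) ∧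
    Tendsto (fun n => (1 + Real.log (2 * (s n * om n ^ (-(4 / 3 : ℝ))) / s n)) ^ 4 *
      (2 * (s n * om n ^ (-(4 / 3 : ℝ))) / s n) ^ (1 / 2 : ℝ) * om n) atTop (𝓝 0) ∧
    (∀ C : ℝ, Tendsto (fun n => (C + Real.log (1 / om n)) *
      (s n / (s n * om n ^ (-(4 / 3 : ℝ)))) ^ (1 / 2 : ℝ)) atTop (𝓝 0)) := by
  have hX : ∀ n, 0 < om n ^ (-(4 / 3 : ℝ)) := fun n => Real.rpow_pos_of_pos (hom n) _
  have hX1 : ∀ n, 1 ≤ om n ^ (-(4 / 3 : ℝ)) := fun n =>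
    Real.one_le_rpow_of_pos_of_le_one_of_nonpos (hom n) (hom1 n) (by norm_num)
  have hratio : ∀ n, s n / (s n * om n ^ (-(4 / 3 : ℝ))) = om n ^ (4 / 3 : ℝ) := by
    intro n
    have h0 := (hs n).ne'
    rw [Real.rpow_neg (hom n).le]
    have := (Real.rpow_pos_of_pos (hom n) (4 / 3 : ℝ)).ne'
    field_simp
  have hratio2 : ∀ n, 2 * (s n * om n ^ (-(4 / 3 : ℝ))) / s n = 2 * om n ^ (-(4 / 3 : ℝ)) := by
    intro n
    have h0 := (hs n).ne'
    field_simp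
  have hpow : ∀ a : ℝ, 0 < a → Tendsto (fun n => om n ^ a) atTop (𝓝 0) := by
    intro a ha
    have h := hlim.rpow_const (p := a) (Or.inr ha.le)
    rwa [Real.zero_rpow ha.ne'] at h
  refine ⟨fun n => mul_pos (hs n) (hX n), fun n => ?_, ?_, ?_, ?_, ?_⟩
  · have := hs n
    have := hX1 n
    nlinarith
  · simp only [hratio]
    exact hpow _ (by norm_num)
  · intro C
    have h1 : Tendsto (fun n => max C 0 * om n ^ (2 / 3 : ℝ)) atTop (𝓝 0) := by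
      have := (hpow (2 / 3) (by norm_num)).const_mul (max C 0)
      simpa using this
    filter_upwards [h1.eventually (gt_mem_nhds (show (0 : ℝ) < 1 by norm_num))] with n hn
    have h2 : s n / s1 n ≤ om n ^ (2 : ℝ) := by
      have h3 := hlow n
      have h4 : 0 ≤ s n / s1 n := (div_pos (hs n) (hs1 n)).le
      calc s n / s1 n = ((s n / s1 n) ^ (1 / 2 : ℝ)) ^ (2 : ℝ) := by
            rw [← Real.rpow_mul h4]; norm_num
        _ ≤ om n ^ (2 : ℝ) := Real.rpow_le_rpow (by positivity) h3 (by norm_num)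
    have h5 : s n ≤ om n ^ (2 : ℝ) * s1 n := by
      rwa [div_le_iff₀ (hs1 n)] at h2
    have h6 : om n ^ (2 : ℝ) * om n ^ (-(4 / 3 : ℝ)) = om n ^ (2 / 3 : ℝ) := by
      rw [← Real.rpow_add (hom n)]; norm_num
    have h7 : s n * om n ^ (-(4 / 3 : ℝ)) ≤ om n ^ (2 / 3 : ℝ) * s1 n := by
      calc s n * om n ^ (-(4 / 3 : ℝ)) ≤ om n ^ (2 : ℝ) * s1 n * om n ^ (-(4 / 3 : ℝ)) := by
            have := (hX n).le
            gcongr
        _ = om n ^ (2 : ℝ) * om n ^ (-(4 / 3 : ℝ)) * s1 n := by ring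
        _ = _ := by rw [h6]
    have h8 : 0 ≤ s n * om n ^ (-(4 / 3 : ℝ)) := (mul_pos (hs n) (hX n)).le
    calc C * (s n * om n ^ (-(4 / 3 : ℝ))) ≤ max C 0 * (s n * om n ^ (-(4 / 3 : ℝ))) := by
          gcongr; exact le_max_left _ _
      _ ≤ max C 0 * (om n ^ (2 / 3 : ℝ) * s1 n) := by gcongr
      _ = (max C 0 * om n ^ (2 / 3 : ℝ)) * s1 n := by ring
      _ ≤ 1 * s1 n := by
          have := (hs1 n).le
          gcongr
      _ = s1 n := one_mul _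
  · simp only [hratio2]
    have h1 : Tendsto (fun n => 64 ^ 4 * 2 * om n ^ (1 / 4 : ℝ)) atTop (𝓝 0) := by
      have := (hpow (1 / 4) (by norm_num)).const_mul (64 ^ 4 * 2 : ℝ)
      simpa using this
    refine squeeze_zero (fun n => ?_) (fun n => small_le (hom n) (hom1 n)) h1
    have h2 : 0 ≤ Real.log (2 * om n ^ (-(4 / 3 : ℝ))) := Real.log_nonneg (by linarith [hX1 n])
    have := (hom n).le
    have := (hX n).le
    positivity
  · intro C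
    simp only [hratio]
    have h1 : ∀ n, (om n ^ (4 / 3 : ℝ)) ^ (1 / 2 : ℝ) = om n ^ (2 / 3 : ℝ) := by
      intro n
      rw [← Real.rpow_mul (hom n).le]; norm_num
    simp only [h1]
    have h2 : Tendsto (fun n => |C| * om n ^ (2 / 3 : ℝ) + 3 * om n ^ (1 / 3 : ℝ)) atTop (𝓝 0) := by
      have := ((hpow (2 / 3) (by norm_num)).const_mul |C|).add
        ((hpow (1 / 3) (by norm_num)).const_mul 3)
      simpa using this
    refine squeeze_zero_norm (fun n => ?_) h2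
    have h3 : 0 ≤ Real.log (1 / om n) := Real.log_nonneg (by
      rw [one_le_div (hom n)]; exact hom1 n)
    have h4 : Real.log (1 / om n) ≤ 3 * om n ^ (-(1 / 3 : ℝ)) := by
      have h5 : Real.log (om n ^ (-(1 / 3 : ℝ))) ≤ om n ^ (-(1 / 3 : ℝ)) - 1 :=
        Real.log_le_sub_one_of_pos (Real.rpow_pos_of_pos (hom n) _)
      rw [Real.log_rpow (hom n)] at h5
      rw [one_div, Real.log_inv]
      linarith
    have h6 : om n ^ (-(1 / 3 : ℝ)) * om n ^ (2 / 3 : ℝ) = om n ^ (1 / 3 : ℝ) := by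
      rw [← Real.rpow_add (hom n)]; norm_num
    have h7 : 0 ≤ om n ^ (2 / 3 : ℝ) := Real.rpow_nonneg (hom n).le _
    rw [norm_mul, Real.norm_eq_abs, Real.norm_eq_abs, abs_of_nonneg h7]
    calc |C + Real.log (1 / om n)| * om n ^ (2 / 3 : ℝ)
        ≤ (|C| + Real.log (1 / om n)) * om n ^ (2 / 3 : ℝ) := by
          gcongr
          exact (abs_add_le _ _).trans (by rw [abs_of_nonneg h3])
      _ ≤ (|C| + 3 * om n ^ (-(1 / 3 : ℝ))) * om n ^ (2 / 3 : ℝ) := by gcongr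
      _ = |C| * om n ^ (2 / 3 : ℝ) + 3 * (om n ^ (-(1 / 3 : ℝ)) * om n ^ (2 / 3 : ℝ)) := by ring
      _ = _ := by rw [h6]

section scale

variable {s s1 om r : ℕ → ℝ} (hs : ∀ n, 0 < s n) (hom : ∀ n, 0 < om n) (hom1 : ∀ n, om n ≤ 1)
  (hr : ∀ n, r n = s n * om n ^ (-(4 : ℝ) / 3)) (hlim : Tendsto om atTop (𝓝 0))
include hs hom hr

theorem r_eq : r = fun n => s n * om n ^ (-(4 / 3 : ℝ)) := by
  funext n
  rw [hr n, show (-(4 : ℝ) / 3) = -(4 / 3 : ℝ) by norm_num]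

theorem r_pos (n : ℕ) : 0 < r n := by
  rw [hr n]
  exact mul_pos (hs n) (Real.rpow_pos_of_pos (hom n) _)

include hom1 in
theorem s_le_r (n : ℕ) : s n ≤ r n := by
  have h1 := Real.one_le_rpow_of_pos_of_le_one_of_nonpos (hom n) (hom1 n)
    (show (-(4 : ℝ) / 3) ≤ 0 by norm_num)
  have := hs n
  rw [hr n]
  nlinarith

include hom1 hlim

/-- `s / r → 0` -/
theorem sr_lim : Tendsto (fun n => s n / r n) atTop (𝓝 0) := by
  rw [r_eq hs hom hr]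
  have h : ∀ n, s n / (s n * om n ^ (-(4 / 3 : ℝ))) = om n ^ (4 / 3 : ℝ) := by
    intro n
    have h0 := (hs n).ne'
    rw [Real.rpow_neg (hom n).le]
    have := (Real.rpow_pos_of_pos (hom n) (4 / 3 : ℝ)).ne'
    field_simp
  simp only [h]
  have h := hlim.rpow_const (p := (4 / 3 : ℝ)) (Or.inr (by norm_num))
  rwa [Real.zero_rpow (by norm_num)] at h

/-- `C * r ≤ s1` eventually -/
theorem rs1 (hs1 : ∀ n, 0 < s1 n) (hlow : ∀ n, (s n / s1 n) ^ (1 / 2 : ℝ) ≤ om n) :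
    ∀ C : ℝ, ∀ᶠ n in atTop, C * r n ≤ s1 n := by
  rw [r_eq hs hom hr]
  exact (scales hs hs1 hom hom1 hlim hlow).2.2.2.1

/-- the smallness number tends to `0` -/
theorem small_lim (hs1 : ∀ n, 0 < s1 n) (hlow : ∀ n, (s n / s1 n) ^ (1 / 2 : ℝ) ≤ om n) :
    Tendsto (fun n => (1 + Real.log (2 * r n / s n)) ^ 4 *
      (2 * r n / s n) ^ (1 / 2 : ℝ) * om n) atTop (𝓝 0) := by
  rw [r_eq hs hom hr]
  exact (scales hs hs1 hom hom1 hlim hlow).2.2.2.2.1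

/-- for the arc: `(C + log (1 / om)) (s / r)^(1/2) → 0` -/
theorem log_lim (hs1 : ∀ n, 0 < s1 n) (hlow : ∀ n, (s n / s1 n) ^ (1 / 2 : ℝ) ≤ om n) (C : ℝ) :
    Tendsto (fun n => (C + Real.log (1 / om n)) * (s n / r n) ^ (1 / 2 : ℝ)) atTop (𝓝 0) := by
  rw [r_eq hs hom hr]
  exact (scales hs hs1 hom hom1 hlim hlow).2.2.2.2.2 C

end scale

set_option maxHeartbeats 2000000 in
/-- **HSide at kernel records** -/
theorem hside_of {AK k ε : ℝ} (hAK : 8 ≤ AK) (hk : 0 < k) (hεk : 128 * ε ≤ k) (hε1 : ε < 1)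
    {φ : ℂ × ℂ → ℂ} {p p0 : ℕ → ℝ × ℝ} {b0 : ℕ → ℂ} {s s1 r : ℕ → ℝ}
    (hsm : Tendsto (fun n => (1 + Real.log (2 * r n / s n)) ^ 4 *
      (2 * r n / s n) ^ (1 / 2 : ℝ) * oe AK φ (p n) (s n)) atTop (𝓝 0))
    (hrs1 : ∀ C : ℝ, ∀ᶠ n in atTop, C * r n ≤ s1 n)
    (hV : ∀ᶠ n in atTop, V (fun q t => φ (ray q t)) (b0 n) (s1 n) (p0 n) (3 * k / 4) (p n) (s n))
    (hd : ∀ᶠ n in atTop, dist (p n) (p0 n) ≤ s1 n / 2)
    (hcol : ∀ᶠ n in atTop, ∀ s'', s n ≤ s'' → s'' ≤ s1 n → oe AK φ (p n) s'' ≤ ε)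
    (hhol : ∀ᶠ n in atTop, ∀ p' s', V (fun q t => φ (ray q t)) (b0 n) (s1 n) (p0 n) k p' s' →
      DifferentiableOn ℂ φ (KD AK p'.1 p'.2 s'))
    (hrec : ∀ᶠ n in atTop, ∀ p' s', V (fun q t => φ (ray q t)) (b0 n) (s1 n) (p0 n) k p' s' →
      rho (1 / 2) (p n) (s n) p' s' * oe AK φ p' s' ≤ 16 * oe AK φ (p n) (s n)) :
    HSide (1 / 2) (1 / 2) φ p s r (fun n => oe AK φ (p n) (s n)) := by
  obtain ⟨M, hM, H⟩ := SideK201.sideK (E := ℂ) (th := 1 / 2) (Cl := 16) (A := 16) (by norm_num)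
    (by norm_num) (by norm_num)
  have hM0 : 0 < M := by linarith
  intro ν hν C hC
  set c₀ : ℝ := min (k / 8) (1 / 2) with hc₀
  have hc₀0 : 0 < c₀ := lt_min (by positivity) (by norm_num)
  set M1 : ℝ := max 1 (M * C * (C / ν) ^ 2) with hM1
  have hM11 : 1 ≤ M1 := le_max_left _ _
  have hC0 : 0 < C := by linarith
  obtain ⟨B, hB, hab⟩ := SideY201.absorb hM11 one_pos le_rfl
  refine ⟨B, hB, fun y hy => ?_⟩
  have y0 : 0 < y := by linarith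
  have hsm' : ∀ᶠ n in atTop, (1 + Real.log (2 * r n / s n)) ^ 4 *
      (2 * r n / s n) ^ (1 / 2 : ℝ) * oe AK φ (p n) (s n) < c₀ / M1 :=
    hsm.eventually (gt_mem_nhds (by positivity))
  filter_upwards [hsm', hrs1 (4 * C), hV, hd, hcol, hhol, hrec] with n n1 n2 n3 n4 n5 n6 n7
  intro T hyT hT2 x' v' s' hx' hv' hs'l hs'u
  have s0 : 0 < s n := n3.1
  have ys : 0 < y * s n := by positivity
  have T0 : 0 < T := lt_of_lt_of_le ys hyT
  have hx1 : 1 ≤ T / (y * s n) := by rw [one_le_div ys]; exact hyT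
  have hxs : T / (y * s n) ≤ 2 * r n / s n := by
    have e1 : T / (y * s n) ≤ T / s n := by
      apply div_le_div_of_nonneg_left T0.le s0
      nlinarith
    exact e1.trans (by gcongr)
  have hTs : T / s n ≤ 2 * r n / s n := by gcongr
  set x : ℝ := T / (y * s n) with hx
  have x0 : 0 < x := by linarith
  have hl0 : 0 ≤ Real.log x := Real.log_nonneg hx1
  have hlL : Real.log x ≤ Real.log (2 * r n / s n) := Real.log_le_log x0 hxs
  set l : ℝ := 1 + Real.log x with hl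
  have l1 : 1 ≤ l := by linarith
  have l0 : 0 < l := by linarith
  have hs' : 0 < s' := lt_of_lt_of_le (by positivity) hs'l
  have he0 := SlowE.oe_nonneg AK φ (p n) (s n)
  set om : ℝ := oe AK φ (p n) (s n) with hom
  have hTC : T ≤ C * T := by nlinarith
  have hsT : s n ≤ T := by nlinarith
  have hTs1 : 2 * (C * T) ≤ s1 n := by
    have : C * T ≤ C * (2 * r n) := by gcongr
    nlinarith
  have hdp : dist (p n) (x', v') ≤ C * T := by
    rw [Prod.dist_eq, Real.dist_eq, Real.dist_eq]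
    refine max_le ?_ ?_
    · rw [abs_sub_comm]; exact hx'
    · rw [abs_sub_comm]; exact hv'
  have hTs' : C * T / s n = C * (T / s n) := by ring
  have hyx : y * x = T / s n := by rw [hx]; field_simp
  have h1 : (C * T / s n) ^ (1 / 2 : ℝ) ≤ C * (T / s n) ^ (1 / 2 : ℝ) := by
    rw [hTs', Real.mul_rpow (by positivity) (by positivity)]
    have : C ^ (1 / 2 : ℝ) ≤ C ^ (1 : ℝ) := Real.rpow_le_rpow_of_exponent_le hC (by norm_num)
    rw [Real.rpow_one] at this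
    gcongr
  have h2 : C * T / s' ≤ C / ν * l ^ 2 := by
    rw [div_le_iff₀ hs']
    have h3 : ν * T ≤ s' * l ^ 2 := by
      rw [div_le_iff₀ (by positivity)] at hs'l
      exact hs'l
    calc C * T = C / ν * (ν * T) := by field_simp
      _ ≤ C / ν * (s' * l ^ 2) := by gcongr
      _ = C / ν * l ^ 2 * s' := by ring
  have h3 : M * (C * T / s n) ^ (1 / 2 : ℝ) * (C * T / s') ^ 2 * om ≤
      M1 * (l ^ 4 * (T / s n) ^ (1 / 2 : ℝ) * om) := by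
    calc M * (C * T / s n) ^ (1 / 2 : ℝ) * (C * T / s') ^ 2 * om
        ≤ M * (C * (T / s n) ^ (1 / 2 : ℝ)) * (C / ν * l ^ 2) ^ 2 * om := by gcongr
      _ = (M * C * (C / ν) ^ 2) * (l ^ 4 * (T / s n) ^ (1 / 2 : ℝ) * om) := by ring
      _ ≤ M1 * (l ^ 4 * (T / s n) ^ (1 / 2 : ℝ) * om) := by gcongr; exact le_max_right _ _
  have h4 : M1 * (l ^ 4 * (T / s n) ^ (1 / 2 : ℝ) * om) ≤ c₀ := by
    have h5 : l ^ 4 * (T / s n) ^ (1 / 2 : ℝ) * om ≤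
        (1 + Real.log (2 * r n / s n)) ^ 4 * (2 * r n / s n) ^ (1 / 2 : ℝ) * om := by
      have : l ≤ 1 + Real.log (2 * r n / s n) := by rw [hl]; linarith
      gcongr
    calc M1 * (l ^ 4 * (T / s n) ^ (1 / 2 : ℝ) * om) ≤ M1 * (c₀ / M1) := by
          have := h5.trans n1.le
          gcongr
      _ = c₀ := by field_simp
  have hN := h3.trans h4
  have res := (H (oe AK φ) (fun q t => φ (ray q t)) (b0 n) k ε (s1 n) (p0 n) (p n) (s n)
    (fun q t => SlowE.oe_nonneg AK φ q t)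
    (fun q t t' hq hq1 c1 c2 => by
      have := SlowE.hvert hAK hq.1 hq1 c1 c2
      have h0 := SlowE.oe_nonneg AK φ q t
      show ‖φ (ray q t) - φ (ray q t')‖ ≤ 16 * oe AK φ q t
      linarith)
    (fun q q' t hq hq1 c1 => SlowE.hlat hAK hq.1 (n6 q t hq) hq1 c1)
    hk.le n3 n4 n5 (by linarith) hε1 n7 (C * T) (x', v') s' (hsT.trans hTC) hTs1 hdp hs' hs'u
    (hN.trans (min_le_left _ _)) (hN.trans (min_le_right _ _))).2
  have h6 := (hab x hx1).1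
  have h7 : (T / s n) ^ (1 / 2 : ℝ) = y ^ (1 / 2 : ℝ) * x ^ (1 / 2 : ℝ) := by
    rw [← hyx, Real.mul_rpow y0.le x0.le]
  calc ‖φ (ray (x', v') s') - φ (ray (p n) (s n))‖
      ≤ M1 * (l ^ 4 * (T / s n) ^ (1 / 2 : ℝ) * om) := res.trans h3
    _ = om * y ^ (1 / 2 : ℝ) * (M1 * l ^ 4 * x ^ (1 / 2 : ℝ)) := by rw [h7]; ring
    _ ≤ om * y ^ (1 / 2 : ℝ) * Real.exp (B * x ^ (1 / 2 : ℝ)) := by gcongr

/-- **HSide at kernel records, outer scale `r = s * om ^ (-4/3)`** (all scale facts inside) -/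
theorem hside_rec {AK k ε : ℝ} (hAK : 8 ≤ AK) (hk : 0 < k) (hεk : 128 * ε ≤ k) (hε1 : ε < 1)
    {φ : ℂ × ℂ → ℂ} {p p0 : ℕ → ℝ × ℝ} {b0 : ℕ → ℂ} {s s1 r om : ℕ → ℝ}
    (hs : ∀ n, 0 < s n) (hs1 : ∀ n, 0 < s1 n)
    (home : ∀ n, om n = oe AK φ (p n) (s n)) (hom : ∀ n, 0 < om n)
    (hlim : Tendsto om atTop (𝓝 0)) (hr : ∀ n, r n = s n * om n ^ (-(4 : ℝ) / 3))
    (hlow : ∀ n, (s n / s1 n) ^ (1 / 2 : ℝ) ≤ om n)
    (hV : ∀ᶠ n in atTop, V (fun q t => φ (ray q t)) (b0 n) (s1 n) (p0 n) (3 * k / 4) (p n) (s n))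
    (hd : ∀ᶠ n in atTop, dist (p n) (p0 n) ≤ s1 n / 2)
    (hcol : ∀ᶠ n in atTop, ∀ s'', s n ≤ s'' → s'' ≤ s1 n → oe AK φ (p n) s'' ≤ ε)
    (hhol : ∀ᶠ n in atTop, ∀ p' s', V (fun q t => φ (ray q t)) (b0 n) (s1 n) (p0 n) k p' s' →
      DifferentiableOn ℂ φ (KD AK p'.1 p'.2 s'))
    (hrec : ∀ᶠ n in atTop, ∀ p' s', V (fun q t => φ (ray q t)) (b0 n) (s1 n) (p0 n) k p' s' →
      rho (1 / 2) (p n) (s n) p' s' * oe AK φ p' s' ≤ 16 * om n) :
    HSide (1 / 2) (1 / 2) φ p s r om := by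
  have he : om = fun n => oe AK φ (p n) (s n) := funext home
  have hom1 : ∀ n, om n ≤ 1 := fun n => by rw [home n]; exact SlowE.oe_le_one _ _ _ _
  have h1 := small_lim hs hom hom1 hr hlim hs1 hlow
  have h2 := rs1 hs hom hom1 hr hlim hs1 hlow
  subst he
  exact hside_of hAK hk hεk hε1 h1 h2 hV hd hcol hhol hrec

end Crest.Agent.R102.HSide201
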