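import Crest.Agent.R102.SlopeB_811

/-!
# Row 102, T1-B leaf (c), part C: the slope functional and the half-disc lower bound (S1)
-/

namespace Crest.Agent.R102.Slope811

open MeasureTheory Set Filter Topology Complex Metric
open scoped Real ENNReal ComplexConjugate

/-- inf-convolution of `d` on `S` -/
noncomputable def infc (S : Set ℂ) (d : ℂ → ℝ) (n : ℕ) (z : ℂ) : ℝ :=
  ⨅ w : S, (d w + n * ‖z - w‖)

section infc

variable {S : Set ℂ} {d : ℂ → ℝ}

theorem infc_bdd (hd : ∀ w ∈ S, 0 ≤ d w) (n : ℕ) (z : ℂ) :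
    BddBelow (range fun w : S => d w + n * ‖z - w‖) := by
  refine ⟨0, ?_⟩
  rintro _ ⟨w, rfl⟩
  have := hd w w.2
  positivity

theorem infc_le (hd : ∀ w ∈ S, 0 ≤ d w) (n : ℕ) (z : ℂ) {w : ℂ} (hw : w ∈ S) :
    infc S d n z ≤ d w + n * ‖z - w‖ := ciInf_le (infc_bdd hd n z) ⟨w, hw⟩

theorem infc_le_self (hd : ∀ w ∈ S, 0 ≤ d w) (n : ℕ) {z : ℂ} (hz : z ∈ S) :
    infc S d n z ≤ d z := by
  have := infc_le hd n z hz
  simpa using this

theorem infc_nonneg (hd : ∀ w ∈ S, 0 ≤ d w) (n : ℕ) (z : ℂ) : 0 ≤ infc S d n z := by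
  apply Real.iInf_nonneg
  intro w
  have := hd w w.2
  positivity

theorem infc_continuous (hS : S.Nonempty) (hd : ∀ w ∈ S, 0 ≤ d w) (n : ℕ) :
    Continuous (infc S d n) := by
  have : Nonempty S := hS.to_subtype
  have h : LipschitzWith (n : NNReal) (infc S d n) := by
    apply LipschitzWith.of_le_add_mul
    intro z z'
    have h1 : infc S d n z - n * ‖z - z'‖ ≤ infc S d n z' := by
      apply le_ciInf
      intro w
      have h2 := infc_le hd n z w.2
      have h3 : ‖z - w‖ ≤ ‖z - z'‖ + ‖z' - w‖ := norm_sub_le_norm_sub_add_norm_sub z z' w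
      have h4 : (n : ℝ) * ‖z - w‖ ≤ n * (‖z - z'‖ + ‖z' - w‖) := by gcongr
      linarith
    rw [dist_eq_norm]
    have : ((n : NNReal) : ℝ) = n := by simp
    rw [this]
    linarith
  exact h.continuous

theorem infc_tendsto (hd : ∀ w ∈ S, 0 ≤ d w) {z : ℂ} (hz : z ∈ S)
    (hl : LowerSemicontinuousWithinAt d S z) :
    Tendsto (fun n => infc S d n z) atTop (𝓝 (d z)) := by
  have : Nonempty S := ⟨⟨z, hz⟩⟩
  apply tendsto_order.2 ⟨fun a ha => ?_, fun a ha => Eventually.of_forall fun n =>
    (infc_le_self hd n hz).trans_lt ha⟩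
  set b := (a + d z) / 2 with hb
  have hab : a < b := by rw [hb]; linarith
  have hbd : b < d z := by rw [hb]; linarith
  have h1 := hl b hbd
  rw [Filter.Eventually, Metric.mem_nhdsWithin_iff] at h1
  obtain ⟨δ, hδ, h1⟩ := h1
  obtain ⟨N, hN⟩ := exists_nat_ge (b / δ)
  filter_upwards [eventually_ge_atTop N] with n hn
  apply hab.trans_le
  apply le_ciInf
  intro w
  by_cases hw : dist (w : ℂ) z < δ
  · have h2 : b < d w := h1 ⟨hw, w.2⟩
    have : 0 ≤ (n : ℝ) * ‖z - w‖ := by positivity
    linarith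
  · rw [not_lt, dist_comm, dist_eq_norm] at hw
    have h2 := hd w w.2
    have h3 : b ≤ n * δ := by
      have : b / δ ≤ n := hN.trans (by exact_mod_cast hn)
      rwa [div_le_iff₀ hδ] at this
    have h4 : (n : ℝ) * δ ≤ n * ‖z - w‖ := by gcongr
    linarith

end infc

/-- The half-circle mean which measures the slope of `D` at `u` at scale `r`. -/
noncomputable def mm (D : ℂ → ℝ) (u r : ℝ) : ℝ≥0∞ :=
  ENNReal.ofReal (2 / (π * r)) * ∫⁻ θ in Ioo 0 π, ENNReal.ofReal (D (pt u r θ) * Real.sin θ)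

/-- **(S1)** half-disc lower bound for a nonnegative superharmonic function, in terms of the
half-circle mean at scale `r`. -/
theorem lower {u r ρ : ℝ} (hr : 0 < r) (hrρ : r < ρ) {D : ℂ → ℝ} (hD : SupH (HD u ρ) D)
    (h0 : ∀ z ∈ HD u ρ, 0 ≤ D z) {z : ℂ} (hz : z ∈ HD u r) :
    ENNReal.ofReal ((1 - 4 * (‖z - u‖ / r)) * z.im) * mm D u r ≤ ENNReal.ofReal (D z) := by
  classical
  by_cases hq : 1 - 4 * (‖z - u‖ / r) ≤ 0
  · rw [ENNReal.ofReal_of_nonpos (mul_nonpos_of_nonpos_of_nonneg hq hz.1.le), zero_mul]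
    exact zero_le
  rw [not_le] at hq
  have hzim : 0 < z.im := hz.1
  set S : Set ℂ := sphere (u : ℂ) r with hS
  set d : ℂ → ℝ := fun w => if 0 < w.im then D w else 0 with hd
  have hSne : S.Nonempty := NormedSpace.sphere_nonempty.2 hr.le
  have hd0 : ∀ w ∈ S, 0 ≤ d w := by
    intro w hw
    simp only [hd]
    split_ifs with h
    · apply h0 w ⟨h, ?_⟩
      rw [hS, mem_sphere, dist_eq_norm] at hw
      rw [hw]; exact hrρ
    · exact le_refl _
  have hlsc : ∀ w ∈ S, LowerSemicontinuousWithinAt d S w := by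
    intro w hw
    by_cases h : 0 < w.im
    · have hwρ : w ∈ HD u ρ := by
        refine ⟨h, ?_⟩
        rw [hS, mem_sphere, dist_eq_norm] at hw
        rw [hw]; exact hrρ
      intro a ha
      have ha' : a < D w := by simpa [hd, h] using ha
      have h1 := hD.lsc w hwρ a ha'
      rw [(isOpen_HD u ρ).nhdsWithin_eq hwρ] at h1
      have h2 : ∀ᶠ v in 𝓝 w, v ∈ HD u ρ := (isOpen_HD u ρ).mem_nhds hwρ
      filter_upwards [nhdsWithin_le_nhds h1, nhdsWithin_le_nhds h2] with v hv hv2
      simp only [hd, hv2.1, if_true]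
      exact hv
    · intro a ha
      have ha' : a < 0 := by simpa [hd, h] using ha
      filter_upwards [self_mem_nhdsWithin] with v hv
      exact ha'.trans_le (hd0 v hv)
  have hcpt : Continuous (pt u r) := continuous_circleMap _ _
  have hptS : ∀ θ, pt u r θ ∈ S := fun θ => by
    rw [hS, mem_sphere, dist_eq_norm]; exact norm_pt hr u θ
  set C : ℝ := (1 - 4 * (‖z - u‖ / r)) * z.im with hC
  have hCpos : 0 < C := mul_pos hq hzim
  -- the bound for each n
  have hn : ∀ n, ENNReal.ofReal C * (ENNReal.ofReal (2 / (π * r)) *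
      ∫⁻ θ in Ioo 0 π, ENNReal.ofReal (infc S d n (pt u r θ) * Real.sin θ)) ≤
        ENNReal.ofReal (D z) := by
    intro n
    set g := infc S d n with hg
    have hgc : Continuous g := infc_continuous hSne hd0 n
    have hg0 : ∀ w, 0 ≤ g w := infc_nonneg hd0 n
    have h1 := core hr hrρ hD h0 hgc (fun w hw hwi => by
      have hwS : w ∈ S := by rw [hS, mem_sphere, dist_eq_norm]; exact hw
      have := infc_le_self hd0 n hwS
      simpa [hd, hwi] using this) (fun w hw hwi => by
      have hwS : w ∈ S := by rw [hS, mem_sphere, dist_eq_norm]; exact hw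
      have h2 := infc_le_self hd0 n hwS
      have h3 : d w = 0 := by simp [hd, not_lt.2 hwi]
      exact le_antisymm (h3 ▸ h2) (hg0 w)) hz
    have hsub : Continuous fun θ : ℝ => g (pt u r θ) * Real.sin θ :=
      (hgc.comp hcpt).mul Real.continuous_sin
    have h2 : C * (2 / (π * r)) * ∫ θ in (0 : ℝ)..π, g (pt u r θ) * Real.sin θ ≤ D z := by
      refine le_trans ?_ h1
      calc C * (2 / (π * r)) * ∫ θ in (0 : ℝ)..π, g (pt u r θ) * Real.sin θ
          = (2 * π)⁻¹ * ∫ θ in (0 : ℝ)..π, (4 * (1 - 4 * (‖z - u‖ / r)) * (z.im / r) *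
              Real.sin θ) * g (pt u r θ) := by
            have : ∫ θ in (0 : ℝ)..π, (4 * (1 - 4 * (‖z - u‖ / r)) * (z.im / r) *
              Real.sin θ) * g (pt u r θ) = (4 * (1 - 4 * (‖z - u‖ / r)) * (z.im / r)) *
              ∫ θ in (0 : ℝ)..π, g (pt u r θ) * Real.sin θ := by
              rw [← intervalIntegral.integral_const_mul]
              apply intervalIntegral.integral_congr
              intro θ _
              ring
            rw [this, hC]
            have := Real.pi_pos
            field_simp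
            ring
        _ ≤ _ := by
            apply mul_le_mul_of_nonneg_left _ (by positivity)
            apply intervalIntegral.integral_mono_on Real.pi_pos.le
            · exact ((continuous_const.mul Real.continuous_sin).mul
                (hgc.comp hcpt)).intervalIntegrable _ _
            · exact ((continuous_ker hr hz.2).mul (hgc.comp hcpt)).intervalIntegrable _ _
            · intro θ hθ
              exact mul_le_mul_of_nonneg_right (ker_lower hr hz.1 hz.2 hθ).1 (hg0 _)
    have h3 : ∫⁻ θ in Ioo 0 π, ENNReal.ofReal (g (pt u r θ) * Real.sin θ) =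
        ENNReal.ofReal (∫ θ in (0 : ℝ)..π, g (pt u r θ) * Real.sin θ) := by
      rw [intervalIntegral.integral_of_le Real.pi_pos.le, integral_Ioc_eq_integral_Ioo,
        ofReal_integral_eq_lintegral_ofReal]
      · exact (hsub.integrableOn_Icc (a := 0) (b := π)).mono_set Ioo_subset_Icc_self
      · refine (ae_restrict_iff' measurableSet_Ioo).2 (ae_of_all _ fun θ hθ => ?_)
        exact mul_nonneg (hg0 _) (Real.sin_pos_of_mem_Ioo hθ).le
    rw [h3, ← ENNReal.ofReal_mul (by positivity), ← ENNReal.ofReal_mul hCpos.le]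
    apply ENNReal.ofReal_le_ofReal
    linarith
  -- Fatou
  set c : ℝ≥0∞ := ENNReal.ofReal (2 / (π * r)) with hc
  set I : ℕ → ℝ≥0∞ := fun n =>
    ∫⁻ θ in Ioo 0 π, ENNReal.ofReal (infc S d n (pt u r θ) * Real.sin θ) with hI
  have hc0 : c ≠ 0 := by
    rw [hc, ne_eq, ENNReal.ofReal_eq_zero, not_le]; positivity
  have hc1 : c ≠ ∞ := ENNReal.ofReal_ne_top
  have hC0 : ENNReal.ofReal C ≠ 0 := by
    rw [ne_eq, ENNReal.ofReal_eq_zero, not_le]; exact hCpos
  have hC1 : ENNReal.ofReal C ≠ ∞ := ENNReal.ofReal_ne_top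
  have hfat : ∫⁻ θ in Ioo 0 π, ENNReal.ofReal (D (pt u r θ) * Real.sin θ) ≤
      liminf I atTop := by
    calc ∫⁻ θ in Ioo 0 π, ENNReal.ofReal (D (pt u r θ) * Real.sin θ)
        = ∫⁻ θ in Ioo 0 π, liminf (fun n => ENNReal.ofReal (infc S d n (pt u r θ) * Real.sin θ))
            atTop := by
          apply setLIntegral_congr_fun measurableSet_Ioo
          intro θ hθ
          have hsin := Real.sin_pos_of_mem_Ioo hθ
          have h1 : d (pt u r θ) = D (pt u r θ) := by
            have : 0 < (pt u r θ).im := by rw [pt_im]; positivity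
            simp [hd, this]
          have h2 := infc_tendsto hd0 (hptS θ) (hlsc _ (hptS θ))
          rw [h1] at h2
          have h3 : Tendsto (fun n => ENNReal.ofReal (infc S d n (pt u r θ) * Real.sin θ)) atTop
              (𝓝 (ENNReal.ofReal (D (pt u r θ) * Real.sin θ))) :=
            (ENNReal.continuous_ofReal.tendsto _).comp (h2.mul_const _)
          exact h3.liminf_eq.symm
      _ ≤ liminf I atTop := by
          apply lintegral_liminf_le
          intro n
          exact (((infc_continuous hSne hd0 n).comp hcpt).mul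
            Real.continuous_sin).measurable.ennreal_ofReal
  have hIle : ∀ n, I n ≤ ENNReal.ofReal (D z) / (ENNReal.ofReal C * c) := by
    intro n
    rw [ENNReal.le_div_iff_mul_le (Or.inl (mul_ne_zero hC0 hc0))
      (Or.inl (ENNReal.mul_ne_top hC1 hc1)), mul_comm, mul_assoc]
    exact hn n
  have hlim : liminf I atTop ≤ ENNReal.ofReal (D z) / (ENNReal.ofReal C * c) := by
    calc liminf I atTop ≤ liminf (fun _ : ℕ => ENNReal.ofReal (D z) / (ENNReal.ofReal C * c)) atTop :=
          liminf_le_liminf (Eventually.of_forall hIle)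
      _ = _ := by simp
  have h9 := hfat.trans hlim
  rw [ENNReal.le_div_iff_mul_le (Or.inl (mul_ne_zero hC0 hc0))
      (Or.inl (ENNReal.mul_ne_top hC1 hc1)), mul_comm, mul_assoc] at h9
  exact h9

theorem measurable_pt (u r : ℝ) : Measurable (pt u r) := (continuous_circleMap _ _).measurable

/-- The slope of `D` at `u` (from the upper side), as supremum over the scales `r < ρ`. -/
noncomputable def slope (D : ℂ → ℝ) (u ρ : ℝ) : ℝ≥0∞ := ⨆ r ∈ Ioo 0 ρ, mm D u r

/-- **(S1')** upper bound in the mean at every scale. -/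
theorem mm_le_slope (D : ℂ → ℝ) {u ρ r : ℝ} (hr : 0 < r) (hrρ : r < ρ) :
    mm D u r ≤ slope D u ρ := by
  unfold slope
  exact le_biSup (fun r => mm D u r) (⟨hr, hrρ⟩ : r ∈ Ioo 0 ρ)

theorem lintegral_sin_sq : ∫⁻ θ in Ioo 0 π, ENNReal.ofReal (Real.sin θ ^ 2) =
    ENNReal.ofReal (π / 2) := by
  have h := integral_sin_sq (a := 0) (b := π)
  rw [intervalIntegral.integral_of_le Real.pi_pos.le, integral_Ioc_eq_integral_Ioo] at h
  rw [← ofReal_integral_eq_lintegral_ofReal, h]
  · simp
  · exact ((Real.continuous_sin.pow 2).integrableOn_Icc (a := 0) (b := π)).mono_set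
      Ioo_subset_Icc_self
  · exact ae_of_all _ fun θ => sq_nonneg _

/-- The half-circle means at small scales dominate those at larger scales. -/
theorem mm_small {u r ρ : ℝ} (hr : 0 < r) (hrρ : r < ρ) {D : ℂ → ℝ} (hD : SupH (HD u ρ) D)
    (h0 : ∀ z ∈ HD u ρ, 0 ≤ D z) {η : ℝ} (hη : 0 < η) (hηr : η < r) :
    ENNReal.ofReal (1 - 4 * (η / r)) * mm D u r ≤ mm D u η := by
  by_cases hq : 1 - 4 * (η / r) ≤ 0
  · rw [ENNReal.ofReal_of_nonpos hq, zero_mul]
    exact zero_le
  rw [not_le] at hq
  have h1 : ∀ θ ∈ Ioo 0 π, ENNReal.ofReal ((1 - 4 * (η / r)) * η) * mm D u r *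
      ENNReal.ofReal (Real.sin θ ^ 2) ≤ ENNReal.ofReal (D (pt u η θ) * Real.sin θ) := by
    intro θ hθ
    have hsin := Real.sin_pos_of_mem_Ioo hθ
    have hz : pt u η θ ∈ HD u r := ⟨by rw [pt_im]; positivity, by rw [norm_pt hη]; exact hηr⟩
    have h2 := lower hr hrρ hD h0 hz
    rw [norm_pt hη, pt_im] at h2
    have h3 : 0 ≤ D (pt u η θ) := h0 _ (HD_mono hrρ.le hz)
    calc ENNReal.ofReal ((1 - 4 * (η / r)) * η) * mm D u r * ENNReal.ofReal (Real.sin θ ^ 2)
        = (ENNReal.ofReal ((1 - 4 * (η / r)) * (η * Real.sin θ)) * mm D u r) *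
            ENNReal.ofReal (Real.sin θ) := by
          rw [← mul_assoc (1 - 4 * (η / r)) η (Real.sin θ),
            ENNReal.ofReal_mul (p := (1 - 4 * (η / r)) * η) (by positivity), sq,
            ENNReal.ofReal_mul hsin.le]
          ring
      _ ≤ ENNReal.ofReal (D (pt u η θ)) * ENNReal.ofReal (Real.sin θ) := by gcongr
      _ = _ := (ENNReal.ofReal_mul h3).symm
  have h2 : ENNReal.ofReal ((1 - 4 * (η / r)) * η) * mm D u r * ENNReal.ofReal (π / 2) ≤
      ∫⁻ θ in Ioo 0 π, ENNReal.ofReal (D (pt u η θ) * Real.sin θ) := by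
    have hm : Measurable fun θ : ℝ => ENNReal.ofReal (Real.sin θ ^ 2) :=
      (Real.continuous_sin.pow 2).measurable.ennreal_ofReal
    rw [← lintegral_sin_sq, ← lintegral_const_mul _ hm]
    exact setLIntegral_mono' measurableSet_Ioo h1
  calc ENNReal.ofReal (1 - 4 * (η / r)) * mm D u r
      = ENNReal.ofReal (2 / (π * η)) * (ENNReal.ofReal ((1 - 4 * (η / r)) * η) * mm D u r *
          ENNReal.ofReal (π / 2)) := by
        have hpi := Real.pi_pos
        have : ENNReal.ofReal (2 / (π * η)) * ENNReal.ofReal ((1 - 4 * (η / r)) * η) *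
            ENNReal.ofReal (π / 2) = ENNReal.ofReal (1 - 4 * (η / r)) := by
          rw [← ENNReal.ofReal_mul (by positivity), ← ENNReal.ofReal_mul (by positivity)]
          congr 1
          field_simp
        rw [← this]
        ring
    _ ≤ _ := by
        unfold mm
        gcongr
        exact h2

end Crest.Agent.R102.Slope811
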