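import Crest.Agent.R102.Rec_359
import Crest.Agent.R102.SlopeC_811

/-!
Row 102, part (C), T1-B: **steps 1, 2, 3 of R1_523 at one fixed `u`**, as one pure real-analysis
theorem on height functions (helper150).

`kX x z`, `kL x z` = height (in the shifted coordinate, truncated at `1`) of the lowest main-sheet
singularity of the vertex resp. the line over the vertical line `Re t' = x`, at the parameter
`w = u + z`.  `LowAt` = local uniform lower slope; `Dh` = penalised height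
`inf (Im P)`, `P (t) = t + i λ (t - s)²`, capped at `1/(8 λ)`; `mr` = slope functional.
-/

set_option autoImplicit false

open Set Filter Topology MeasureTheory
open scoped ENNReal Real

noncomputable section

namespace Crest.Agent.R102.Heights150

open Crest.Agent.R102.Rec359
open Crest.Agent.R102.Slope811 (SupH mm pt)

/-- upper half disc -/
def HD (R : ℝ) : Set ℂ := {z | 0 < z.im ∧ ‖z‖ < R}

/-- `y ↦ y - λ y²`, continued by its maximum -/
def pen (lam y : ℝ) : ℝ := if y ≤ 1 / (2 * lam) then y - lam * y ^ 2 else 1 / (4 * lam)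

/-- penalised height: `inf` of `Im (t + i λ (t - s)²)` over the singular points, capped -/
def Dh (k : ℝ → ℂ → ℝ) (lam s : ℝ) (z : ℂ) : ℝ :=
  ⨅ x : ℝ, min (1 / (8 * lam)) (pen lam (k x z) + lam * (x - s) ^ 2)

/-- heights in the tilted coordinate `t' - α z` -/
def tilt (α : ℝ) (k : ℝ → ℂ → ℝ) : ℝ → ℂ → ℝ := fun x z => k (x + α * z.re) z - α * z.im

/-- slope functional -/
def mr (D : ℂ → ℝ) (r : ℝ) : ℝ≥0∞ :=
  ENNReal.ofReal (2 / (π * r)) *
    ∫⁻ θ in Ioo 0 π, ENNReal.ofReal (D (circleMap 0 r θ) * Real.sin θ)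

/-- what is used of a nonnegative superharmonic function on the half disc -/
structure HL (D : ℂ → ℝ) (r₀ : ℝ) : Prop where
  lsc : LowerSemicontinuousOn D (HD r₀)
  low : ∀ r, 0 < r → r < r₀ → ∀ z ∈ HD r,
    ENNReal.ofReal ((1 - 4 * (‖z‖ / r)) * z.im) * mr D r ≤ ENNReal.ofReal (D z)

/-- local uniform lower slope -/
def LowAt (k : ℝ → ℂ → ℝ) (s c : ℝ) : Prop :=
  ∃ d > 0, ∀ x, |x - s| < d → ∀ z ∈ HD d, c * z.im ≤ k x z

/-- the local lower slope at `s` -/
def low (k : ℝ → ℂ → ℝ) (s : ℝ) : EReal := sSup {c : EReal | ∃ r : ℝ, c = r ∧ LowAt k s r}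

variable {k : ℝ → ℂ → ℝ} {s c lam : ℝ}

theorem HD_mono {r r' : ℝ} (h : r ≤ r') : HD r ⊆ HD r' := fun _ hz => ⟨hz.1, hz.2.trans_le h⟩

theorem im_lt_of_mem {r : ℝ} {z : ℂ} (hz : z ∈ HD r) : z.im < r :=
  (le_abs_self _).trans_lt ((Complex.abs_im_le_norm z).trans_lt hz.2)

theorem LowAt.mono {c' : ℝ} (h : LowAt k s c) (hc : c' ≤ c) : LowAt k s c' := by
  obtain ⟨d, hd, H⟩ := h
  exact ⟨d, hd, fun x hx z hz => (mul_le_mul_of_nonneg_right hc hz.1.le).trans (H x hx z hz)⟩

theorem LowAt.near (h : LowAt k s c) : ∃ d > 0, ∀ s', |s' - s| < d → LowAt k s' c := by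
  obtain ⟨d, hd, H⟩ := h
  refine ⟨d / 2, by positivity, fun s' hs' => ⟨d / 2, by positivity, fun x hx z hz => ?_⟩⟩
  refine H x ?_ z (HD_mono (by linarith) hz)
  have := abs_sub_le x s' s
  linarith

theorem le_low (h : LowAt k s c) : (c : EReal) ≤ low k s := le_sSup ⟨c, rfl, h⟩

theorem lowAt_of_lt (h : (c : EReal) < low k s) : LowAt k s c := by
  obtain ⟨y, ⟨r, rfl, hr⟩, hy⟩ := lt_sSup_iff.1 h
  exact hr.mono (by exact_mod_cast hy.le)

theorem lsc_low (k : ℝ → ℂ → ℝ) : LowerSemicontinuous (low k) := by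
  intro s y hy
  obtain ⟨c', ⟨r, rfl, hr⟩, hc'⟩ := lt_sSup_iff.1 hy
  obtain ⟨d, hd, H⟩ := hr.near
  rw [Metric.eventually_nhds_iff]
  exact ⟨d, hd, fun s' hs' => lt_of_lt_of_le hc' (le_low (H s' (by rwa [Real.dist_eq] at hs')))⟩

/-! ### the penalty -/

theorem pen_le (hl : 0 < lam) (y : ℝ) : pen lam y ≤ y := by
  unfold pen
  split_ifs with h
  · nlinarith [sq_nonneg y]
  · push Not at h
    refine le_trans ?_ h.le
    exact one_div_le_one_div_of_le (by positivity) (by linarith)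

theorem pen_le_max (hl : 0 < lam) (y : ℝ) : pen lam y ≤ 1 / (4 * lam) := by
  unfold pen
  split_ifs with h
  · rw [le_div_iff₀ (by positivity)]
    nlinarith [sq_nonneg (2 * lam * y - 1)]
  · exact le_rfl

theorem pen_mono (hl : 0 < lam) : Monotone (pen lam) := by
  intro y y' h
  by_cases h' : y' ≤ 1 / (2 * lam)
  · have h1 : y ≤ 1 / (2 * lam) := h.trans h'
    unfold pen
    rw [if_pos h', if_pos h1]
    rw [le_div_iff₀ (by positivity)] at h' h1
    nlinarith
  · have : pen lam y' = 1 / (4 * lam) := by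
      unfold pen
      rw [if_neg h']
    rw [this]
    exact pen_le_max hl y

theorem pen_eq {y : ℝ} (h : y ≤ 1 / (2 * lam)) : pen lam y = y - lam * y ^ 2 := by
  unfold pen
  rw [if_pos h]

theorem pen_nonneg (hl : 0 < lam) {y : ℝ} (hy : 0 ≤ y) : 0 ≤ pen lam y := by
  have := pen_mono hl hy
  rwa [pen_eq (by positivity), show (0 : ℝ) - lam * 0 ^ 2 = 0 by ring] at this

/-! ### penalised heights -/

theorem bdd (hl : 0 < lam) {z : ℂ} {B : ℝ} (hB : ∀ x, B ≤ k x z) :
    BddBelow (range fun x : ℝ => min (1 / (8 * lam)) (pen lam (k x z) + lam * (x - s) ^ 2)) := by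
  refine ⟨min (1 / (8 * lam)) (pen lam B), ?_⟩
  rintro _ ⟨x, rfl⟩
  have h1 := pen_mono hl (hB x)
  have h2 : 0 ≤ lam * (x - s) ^ 2 := by positivity
  exact min_le_min le_rfl (by linarith)

theorem Dh_le (hl : 0 < lam) {z : ℂ} {B : ℝ} (hB : ∀ x, B ≤ k x z) (x : ℝ) :
    Dh k lam s z ≤ min (1 / (8 * lam)) (pen lam (k x z) + lam * (x - s) ^ 2) :=
  ciInf_le (bdd hl hB) x

theorem le_Dh {z : ℂ} {c : ℝ} (h : ∀ x, c ≤ min (1 / (8 * lam)) (pen lam (k x z) + lam * (x - s) ^ 2)) :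
    c ≤ Dh k lam s z := le_ciInf h

theorem Dh_le_self (hl : 0 < lam) {z : ℂ} {B : ℝ} (hB : ∀ x, B ≤ k x z) :
    Dh k lam s z ≤ k s z := by
  refine (Dh_le hl hB s).trans ((min_le_right _ _).trans ?_)
  have := pen_le hl (k s z)
  simpa using this

/-- Lipschitz dependence on the centre -/
theorem Dh_shift (hl : 0 < lam) {z : ℂ} {B : ℝ} (hB : ∀ x, B ≤ k x z) {s' : ℝ}
    (hs : lam * |s - s'| ≤ 1)
    (hn : ∀ x, pen lam (k x z) + lam * (x - s') ^ 2 < 1 / (8 * lam) →
      -(1 / (8 * lam)) ≤ pen lam (k x z)) :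
    Dh k lam s z ≤ Dh k lam s' z + 2 * |s - s'| := by
  rw [← sub_le_iff_le_add]
  refine le_Dh fun x => ?_
  have h0 : 0 ≤ |s - s'| := abs_nonneg _
  have hx := Dh_le (s := s) hl hB x
  refine le_min ?_ ?_
  · linarith [hx.trans (min_le_left _ _)]
  by_cases hcase : pen lam (k x z) + lam * (x - s') ^ 2 < 1 / (8 * lam)
  · have h1 : lam * (x - s') ^ 2 ≤ 1 / (4 * lam) := by
      have := hn x hcase
      have e : 1 / (8 * lam) + 1 / (8 * lam) = 1 / (4 * lam) := by field_simp; norm_num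
      linarith
    have h2 : (lam * |x - s'|) ^ 2 ≤ (1 / 2) ^ 2 := by
      rw [mul_pow, sq_abs]
      rw [le_div_iff₀ (by positivity)] at h1
      nlinarith
    have h3 : lam * |x - s'| ≤ 1 / 2 :=
      (le_abs_self _).trans (abs_le_of_sq_le_sq h2 (by norm_num))
    have h4 : (x - s) ^ 2 ≤ (|x - s'| + |s - s'|) ^ 2 := by
      rw [← sq_abs (x - s)]
      refine pow_le_pow_left₀ (abs_nonneg _) ?_ 2
      have := abs_sub_le x s' s
      rwa [abs_sub_comm s' s] at this
    have h5 : lam * (x - s) ^ 2 ≤ lam * (x - s') ^ 2 + 2 * |s - s'| := by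
      have h6 : lam * (|x - s'| + |s - s'|) ^ 2 =
          lam * (x - s') ^ 2 + (2 * (lam * |x - s'|) + lam * |s - s'|) * |s - s'| := by
        rw [← sq_abs (x - s')]; ring
      have h7 : (2 * (lam * |x - s'|) + lam * |s - s'|) * |s - s'| ≤ 2 * |s - s'| :=
        mul_le_mul_of_nonneg_right (by linarith) h0
      have := mul_le_mul_of_nonneg_left h4 hl.le
      linarith
    have := hx.trans (min_le_right _ _)
    linarith
  · push Not at hcase
    have := hx.trans (min_le_left _ _)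
    linarith

theorem HD_eq (R : ℝ) : HD R = Slope811.HD 0 R := by
  ext z; simp [HD, Slope811.HD]

theorem mr_eq (D : ℂ → ℝ) (r : ℝ) : mr D r = mm D 0 r := rfl

theorem isOpen_HD (R : ℝ) : IsOpen (HD R) := by
  rw [HD_eq]; exact Slope811.isOpen_HD 0 R

theorem HL.of_supH {D : ℂ → ℝ} {r₀ : ℝ} (h : SupH (HD r₀) D) (h0 : ∀ z ∈ HD r₀, 0 ≤ D z) :
    HL D r₀ := by
  refine ⟨h.lsc, fun r hr hrr z hz => ?_⟩
  rw [HD_eq] at h h0 hz
  have := Slope811.lower hr hrr h h0 hz
  rw [mr_eq]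
  simpa using this

theorem circleMap_im (r θ : ℝ) : (circleMap 0 r θ).im = r * Real.sin θ := by
  have := Slope811.pt_im 0 r θ
  simpa [pt] using this

theorem circleMap_re (r θ : ℝ) : (circleMap 0 r θ).re = r * Real.cos θ := by
  have := Slope811.pt_re 0 r θ
  simpa [pt] using this

theorem circleMap_mem {r r₀ θ : ℝ} (hr : 0 < r) (hrr : r < r₀) (hθ : θ ∈ Ioo 0 π) :
    circleMap 0 r θ ∈ HD r₀ := by
  refine ⟨?_, ?_⟩
  · rw [circleMap_im]
    exact mul_pos hr (Real.sin_pos_of_pos_of_lt_pi hθ.1 hθ.2)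
  · simpa [abs_of_pos hr] using hrr

theorem mr_mono {D D' : ℂ → ℝ} {r r₀ : ℝ} (hr : 0 < r) (hrr : r < r₀)
    (h : ∀ z ∈ HD r₀, D z ≤ D' z) : mr D r ≤ mr D' r := by
  unfold mr
  refine mul_le_mul_right ?_ _
  refine lintegral_mono_ae ?_
  refine (ae_restrict_iff' measurableSet_Ioo).2 (Eventually.of_forall fun θ hθ => ?_)
  exact ENNReal.ofReal_le_ofReal (mul_le_mul_of_nonneg_right (h _ (circleMap_mem hr hrr hθ))
    (Real.sin_pos_of_pos_of_lt_pi hθ.1 hθ.2).le)

theorem mr_le_add {D D' : ℂ → ℝ} {r r₀ e : ℝ} (hr : 0 < r) (hrr : r < r₀) (he : 0 ≤ e)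
    (h : ∀ z ∈ HD r₀, D z ≤ D' z + e) : mr D r ≤ mr D' r + ENNReal.ofReal (2 / r * e) := by
  unfold mr
  have h1 : ∫⁻ θ in Ioo 0 π, ENNReal.ofReal (D (circleMap 0 r θ) * Real.sin θ) ≤
      (∫⁻ θ in Ioo 0 π, ENNReal.ofReal (D' (circleMap 0 r θ) * Real.sin θ)) +
        ENNReal.ofReal (e * π) := by
    calc ∫⁻ θ in Ioo 0 π, ENNReal.ofReal (D (circleMap 0 r θ) * Real.sin θ)
        ≤ ∫⁻ θ in Ioo 0 π, (ENNReal.ofReal (D' (circleMap 0 r θ) * Real.sin θ) +
            ENNReal.ofReal e) := by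
          refine lintegral_mono_ae ?_
          refine (ae_restrict_iff' measurableSet_Ioo).2 (Eventually.of_forall fun θ hθ => ?_)
          have hs := (Real.sin_pos_of_pos_of_lt_pi hθ.1 hθ.2).le
          refine le_trans (ENNReal.ofReal_le_ofReal ?_) ENNReal.ofReal_add_le
          have := mul_le_mul_of_nonneg_right (h _ (circleMap_mem hr hrr hθ)) hs
          have h2 : e * Real.sin θ ≤ e := mul_le_of_le_one_right he (Real.sin_le_one θ)
          linarith
      _ = _ := by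
          rw [lintegral_add_right _ measurable_const, setLIntegral_const, Real.volume_Ioo,
            sub_zero, ← ENNReal.ofReal_mul he]
  calc _ ≤ ENNReal.ofReal (2 / (π * r)) *
        ((∫⁻ θ in Ioo 0 π, ENNReal.ofReal (D' (circleMap 0 r θ) * Real.sin θ)) +
        ENNReal.ofReal (e * π)) := by gcongr
    _ = _ := by
        rw [mul_add, ← ENNReal.ofReal_mul (by positivity)]
        congr 2
        field_simp

/-- **(A)** the slope functional is at most the local lower slope -/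
theorem lowAt_of_mr {β r r₀ : ℝ} (hl : 0 < lam) (hr : 0 < r) (hrr : r < r₀)
    (hb : ∀ z ∈ HD r₀, ∃ B, ∀ x, B ≤ k x z)
    (hH : ∃ d > 0, ∀ s', |s' - s| < d → HL (fun z => Dh k lam s' z + β * z.im) r₀ ∧
      ∀ z ∈ HD r₀, ∀ x, pen lam (k x z) + lam * (x - s') ^ 2 < 1 / (8 * lam) →
        -(1 / (8 * lam)) ≤ pen lam (k x z))
    (hc : ENNReal.ofReal c < mr (fun z => Dh k lam s z + β * z.im) r) :
    LowAt k s (c - β) := by
  obtain ⟨c', hc'0, hcc, hc'⟩ := ENNReal.lt_iff_exists_real_btwn.1 hc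
  have hc'c : c < c' := by
    by_contra hcon
    exact absurd (ENNReal.ofReal_le_ofReal (not_lt.1 hcon)) (not_le.2 hcc)
  have hc'pos : 0 < c' := by
    have : 0 < ENNReal.ofReal c' := lt_of_le_of_lt bot_le hcc
    exact ENNReal.ofReal_pos.1 this
  obtain ⟨d, hd, H⟩ := hH
  -- continuity in `s`
  have hcont : Tendsto (fun s' : ℝ => ENNReal.ofReal c' + ENNReal.ofReal (2 / r * (2 * |s - s'|)))
      (𝓝 s) (𝓝 (ENNReal.ofReal c')) := by
    have h1 : Tendsto (fun s' : ℝ => 2 / r * (2 * |s - s'|)) (𝓝 s) (𝓝 0) := by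
      have : Continuous fun s' : ℝ => 2 / r * (2 * |s - s'|) := by fun_prop
      have := this.tendsto s
      simpa using this
    have h2 := (ENNReal.continuous_ofReal.tendsto 0).comp h1
    have h3 := h2.const_add (ENNReal.ofReal c')
    simpa using h3
  have hev := hcont.eventually (gt_mem_nhds hc')
  obtain ⟨d1, hd1, H1⟩ := Metric.eventually_nhds_iff.1 hev
  set d2 := min (min d d1) (1 / lam) with hd2
  have hd2pos : 0 < d2 := lt_min (lt_min hd hd1) (by positivity)
  have hmain : ∀ s', |s' - s| < d2 → ENNReal.ofReal c' ≤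
      mr (fun z => Dh k lam s' z + β * z.im) r := by
    intro s' hs'
    have hs1 : |s' - s| < d := hs'.trans_le ((min_le_left _ _).trans (min_le_left _ _))
    have hs2 : |s' - s| < d1 := hs'.trans_le ((min_le_left _ _).trans (min_le_right _ _))
    have hs3 : |s' - s| < 1 / lam := hs'.trans_le (min_le_right _ _)
    by_contra hcon
    push Not at hcon
    have h1 : mr (fun z => Dh k lam s z + β * z.im) r ≤
        mr (fun z => Dh k lam s' z + β * z.im) r + ENNReal.ofReal (2 / r * (2 * |s - s'|)) := by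
      refine mr_le_add hr hrr (by positivity) fun z hz => ?_
      obtain ⟨B, hB⟩ := hb z hz
      have := Dh_shift (s := s) (s' := s') hl hB (by
        rw [lt_div_iff₀ hl] at hs3
        rw [abs_sub_comm]; linarith) ((H s' hs1).2 z hz)
      linarith
    have h2 := H1 (y := s') (by rwa [Real.dist_eq])
    have h3 : mr (fun z => Dh k lam s' z + β * z.im) r + ENNReal.ofReal (2 / r * (2 * |s - s'|))
        ≤ ENNReal.ofReal c' + ENNReal.ofReal (2 / r * (2 * |s - s'|)) := by gcongr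
    exact absurd (h1.trans h3) (not_le.2 h2)
  -- small `z`
  set q : ℝ := (1 - max c 0 / c') / 8 with hq
  have hmax : max c 0 < c' := max_lt hc'c hc'pos
  have hq0 : 0 < q := by
    have : max c 0 / c' < 1 := (div_lt_one hc'pos).2 hmax
    rw [hq]; linarith
  have hq1 : q ≤ 1 / 8 := by
    have : 0 ≤ max c 0 / c' := div_nonneg (le_max_right _ _) hc'pos.le
    rw [hq]; linarith
  refine ⟨min d2 (q * r), lt_min hd2pos (by positivity), fun x hx z hz => ?_⟩
  have hx2 : |x - s| < d2 := hx.trans_le (min_le_left _ _)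
  have hxd : |x - s| < d := hx2.trans_le ((min_le_left _ _).trans (min_le_left _ _))
  have hz1 : ‖z‖ < q * r := hz.2.trans_le (min_le_right _ _)
  have hz2 : ‖z‖ / r < q := by rwa [div_lt_iff₀ hr]
  have hzr : z ∈ HD r := ⟨hz.1, hz1.trans_le (by nlinarith)⟩
  have hzr0 : z ∈ HD r₀ := HD_mono hrr.le hzr
  have h1 := (H x hxd).1.low r hr hrr z hzr
  have h2 := hmain x hx2
  have h3 : ENNReal.ofReal ((1 - 4 * (‖z‖ / r)) * z.im * c') ≤
      ENNReal.ofReal (Dh k lam x z + β * z.im) := by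
    rw [ENNReal.ofReal_mul (mul_nonneg (by linarith) hz.1.le)]
    exact (mul_le_mul_right h2 _).trans h1
  have hpos : 0 < (1 - 4 * (‖z‖ / r)) * z.im * c' :=
    mul_pos (mul_pos (by linarith) hz.1) hc'pos
  have h4 : (1 - 4 * (‖z‖ / r)) * z.im * c' ≤ Dh k lam x z + β * z.im := by
    by_contra hcon
    push Not at hcon
    exact absurd h3 (not_le.2 ((ENNReal.ofReal_lt_ofReal_iff hpos).2 hcon))
  obtain ⟨B, hB⟩ := hb z hzr0
  have h5 := Dh_le_self (s := x) hl hB
  have h6 : max c 0 ≤ (1 - 4 * (‖z‖ / r)) * c' := by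
    have : 1 - 4 * q ≤ 1 - 4 * (‖z‖ / r) := by linarith
    have h7 : (1 - 4 * q) * c' ≤ (1 - 4 * (‖z‖ / r)) * c' := mul_le_mul_of_nonneg_right this hc'pos.le
    refine le_trans ?_ h7
    rw [hq]
    have e : max c 0 = (max c 0 / c') * c' := by field_simp
    have h8 : max c 0 / c' < 1 := (div_lt_one hc'pos).2 hmax
    rw [e]
    have e2 : (max c 0 / c') * c' / c' = max c 0 / c' := by field_simp
    rw [e2]
    exact mul_le_mul_of_nonneg_right (by linarith) hc'pos.le
  have h7 : c * z.im ≤ (1 - 4 * (‖z‖ / r)) * z.im * c' := by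
    have := mul_le_mul_of_nonneg_right ((le_max_left c 0).trans h6) hz.1.le
    linarith
  linarith

/-- **(B)** a local lower slope bounds the slope functional from below (`k ≥ 0`) -/
theorem mr_of_lowAt {c' R : ℝ} (hl : 0 < lam) (hR : 0 < R) (hk : ∀ z ∈ HD R, ∀ x, 0 ≤ k x z)
    (h : LowAt k s c) (hc : 0 < c) (hc' : c' < c) :
    ∀ᶠ r in 𝓝[>] (0 : ℝ), ENNReal.ofReal c' ≤ mr (Dh k lam s) r := by
  obtain ⟨d, hd, H⟩ := h
  -- lower bound for `Dh`
  have hev : ∀ᶠ r in 𝓝[>] (0 : ℝ), r < R ∧ r < d ∧ c * r ≤ 1 / (2 * lam) ∧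
      lam * c ^ 2 * r ≤ c - c' ∧ c * r ≤ 1 / (8 * lam) ∧ c * r ≤ lam * d ^ 2 ∧ 0 < r := by
    have t : ∀ a b : ℝ, 0 < b → ∀ᶠ r in 𝓝[>] (0 : ℝ), a * r ≤ b := by
      intro a b hb
      have h1 : Tendsto (fun r : ℝ => a * r) (𝓝[>] 0) (𝓝 0) := by
        have : Continuous fun r : ℝ => a * r := by fun_prop
        have := (this.tendsto 0).mono_left (nhdsWithin_le_nhds (s := Ioi 0))
        simpa using this
      filter_upwards [h1.eventually (gt_mem_nhds hb)] with r hr using hr.le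
    have t2 : ∀ b : ℝ, 0 < b → ∀ᶠ r in 𝓝[>] (0 : ℝ), r < b := fun b hb =>
      mem_nhdsWithin_of_mem_nhds (Iio_mem_nhds hb)
    filter_upwards [t2 R hR, t2 d hd, t c (1 / (2 * lam)) (by positivity),
      t (lam * c ^ 2) (c - c') (by linarith), t c (1 / (8 * lam)) (by positivity),
      t c (lam * d ^ 2) (by positivity), self_mem_nhdsWithin] with r h1 h2 h3 h4 h5 h6 h7
    exact ⟨h1, h2, h3, h4, h5, h6, h7⟩
  filter_upwards [hev] with r ⟨hrR, hrd, h3, h4, h5, h6, hr⟩
  have hlow : ∀ z ∈ HD R, ‖z‖ = r → c' * z.im ≤ Dh k lam s z := by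
    intro z hz hzr
    have him : z.im ≤ r := by
      rw [← hzr]; exact (le_abs_self _).trans (Complex.abs_im_le_norm z)
    have hcz : c * z.im ≤ c * r := mul_le_mul_of_nonneg_left him hc.le
    have hmain : c' * z.im ≤ c * z.im - lam * (c * z.im) ^ 2 := by
      have e1 : lam * (c * z.im) ^ 2 = (lam * c ^ 2 * z.im) * z.im := by ring
      have e2 : lam * c ^ 2 * z.im ≤ c - c' := by
        refine le_trans ?_ h4
        exact mul_le_mul_of_nonneg_left him (by positivity)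
      have := mul_le_mul_of_nonneg_right e2 hz.1.le
      rw [e1]; linarith
    have hmain2 : c' * z.im ≤ c * z.im := by nlinarith [hz.1]
    refine le_Dh fun x => le_min (by linarith) ?_
    by_cases hx : |x - s| < d
    · have h7 := H x hx z ⟨hz.1, by rw [hzr]; exact hrd⟩
      have h8 := pen_mono hl h7
      rw [pen_eq (by linarith)] at h8
      have : 0 ≤ lam * (x - s) ^ 2 := by positivity
      linarith
    · push Not at hx
      have h7 := pen_nonneg hl (hk z hz x)
      have h8 : lam * d ^ 2 ≤ lam * (x - s) ^ 2 := by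
        refine mul_le_mul_of_nonneg_left ?_ hl.le
        rw [← sq_abs (x - s)]
        exact pow_le_pow_left₀ hd.le hx 2
      linarith
  by_cases hcc : c' ≤ 0
  · rw [ENNReal.ofReal_of_nonpos hcc]; exact bot_le
  push Not at hcc
  unfold mr
  have h9 : ENNReal.ofReal (c' * r) * ENNReal.ofReal (π / 2) ≤
      ∫⁻ θ in Ioo 0 π, ENNReal.ofReal (Dh k lam s (circleMap 0 r θ) * Real.sin θ) := by
    rw [← Slope811.lintegral_sin_sq, ← lintegral_const_mul _ (by fun_prop)]
    refine lintegral_mono_ae ?_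
    refine (ae_restrict_iff' measurableSet_Ioo).2 (Eventually.of_forall fun θ hθ => ?_)
    have hs := (Real.sin_pos_of_pos_of_lt_pi hθ.1 hθ.2).le
    rw [← ENNReal.ofReal_mul (by positivity)]
    refine ENNReal.ofReal_le_ofReal ?_
    have := hlow _ (circleMap_mem hr hrR hθ) (by simp [abs_of_pos hr])
    rw [circleMap_im] at this
    have := mul_le_mul_of_nonneg_right this hs
    linarith
  calc ENNReal.ofReal c' = ENNReal.ofReal (2 / (π * r)) *
        (ENNReal.ofReal (c' * r) * ENNReal.ofReal (π / 2)) := by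
        rw [← ENNReal.ofReal_mul (by positivity), ← ENNReal.ofReal_mul (by positivity)]
        congr 1
        field_simp
    _ ≤ _ := by gcongr

/-! ### compactness, tilt, rule -/

theorem uniform {a b : ℝ} (h : ∀ s ∈ Icc a b, LowAt k s c) :
    ∃ d > 0, ∀ s ∈ Icc a b, ∀ z ∈ HD d, c * z.im ≤ k s z := by
  have key := isCompact_Icc (a := a) (b := b) |>.induction_on
    (p := fun S => ∃ d > 0, ∀ s ∈ S, ∀ z ∈ HD d, c * z.im ≤ k s z)
    ⟨1, one_pos, fun s hs => absurd hs (notMem_empty s)⟩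
    (fun S T hST ⟨d, hd, H⟩ => ⟨d, hd, fun s hs => H s (hST hs)⟩)
    (fun S T ⟨d, hd, H⟩ ⟨d', hd', H'⟩ => ⟨min d d', lt_min hd hd', fun s hs z hz => by
      rcases hs with hs | hs
      · exact H s hs z (HD_mono (min_le_left _ _) hz)
      · exact H' s hs z (HD_mono (min_le_right _ _) hz)⟩)
    (fun s hs => by
      obtain ⟨d, hd, H⟩ := h s hs
      refine ⟨{x | |x - s| < d}, mem_nhdsWithin_of_mem_nhds ?_, d, hd, fun x hx z hz => H x hx z hz⟩
      have : {x | |x - s| < d} = Metric.ball s d := by ext x; simp [Real.dist_eq]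
      rw [this]; exact Metric.ball_mem_nhds s hd)
  exact key

/-- heights of the incoming / outgoing line at the vertex -/
def mn (u : ℝ) (kL : ℝ → ℂ → ℝ) : ℝ → ℂ → ℝ := fun x z => kL (x - (u + z.re) / 2) z + z.im / 2
def pl (u : ℝ) (kL : ℝ → ℂ → ℝ) : ℝ → ℂ → ℝ := fun x z => kL (x + (u + z.re) / 2) z - z.im / 2

theorem abs_re_lt {d : ℝ} {z : ℂ} (hz : z ∈ HD d) : |z.re| < d :=
  (Complex.abs_re_le_norm z).trans_lt hz.2

theorem lowAt_mn {u : ℝ} {kL : ℝ → ℂ → ℝ} (h : LowAt kL (s - u / 2) (c - 1 / 2)) :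
    LowAt (mn u kL) s c := by
  obtain ⟨d, hd, H⟩ := h
  refine ⟨d / 2, by positivity, fun x hx z hz => ?_⟩
  have h1 := H (x - (u + z.re) / 2) (by
    have h2 := abs_re_lt hz
    rw [abs_lt] at h2 hx ⊢
    constructor <;> linarith) z (HD_mono (by linarith) hz)
  unfold mn
  linarith

theorem lowAt_pl {u : ℝ} {kL : ℝ → ℂ → ℝ} (h : LowAt kL (s + u / 2) (c + 1 / 2)) :
    LowAt (pl u kL) s c := by
  obtain ⟨d, hd, H⟩ := h
  refine ⟨d / 2, by positivity, fun x hx z hz => ?_⟩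
  have h1 := H (x + (u + z.re) / 2) (by
    have h2 := abs_re_lt hz
    rw [abs_lt] at h2 hx ⊢
    constructor <;> linarith) z (HD_mono (by linarith) hz)
  unfold pl
  linarith

theorem lowAt_of_mn {u : ℝ} {kL : ℝ → ℂ → ℝ} (h : LowAt (mn u kL) s c) :
    LowAt kL (s - u / 2) (c - 1 / 2) := by
  obtain ⟨d, hd, H⟩ := h
  refine ⟨d / 2, by positivity, fun x hx z hz => ?_⟩
  have h1 := H (x + (u + z.re) / 2) (by
    have h2 := abs_re_lt hz
    rw [abs_lt] at h2 hx ⊢
    constructor <;> linarith) z (HD_mono (by linarith) hz)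
  unfold mn at h1
  rw [show x + (u + z.re) / 2 - (u + z.re) / 2 = x by ring] at h1
  linarith

theorem lowAt_of_pl {u : ℝ} {kL : ℝ → ℂ → ℝ} (h : LowAt (pl u kL) s c) :
    LowAt kL (s + u / 2) (c + 1 / 2) := by
  obtain ⟨d, hd, H⟩ := h
  refine ⟨d / 2, by positivity, fun x hx z hz => ?_⟩
  have h1 := H (x - (u + z.re) / 2) (by
    have h2 := abs_re_lt hz
    rw [abs_lt] at h2 hx ⊢
    constructor <;> linarith) z (HD_mono (by linarith) hz)
  unfold pl at h1
  rw [show x - (u + z.re) / 2 + (u + z.re) / 2 = x by ring] at h1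
  linarith

/-- pointwise rule for three heights: if two are `≥ c` (`c ≤ 1/2`) then the third is -/
def Rule (k₁ k₂ k₃ : ℝ → ℂ → ℝ) (R : ℝ) : Prop :=
  ∀ x : ℝ, ∀ z ∈ HD R, ∀ c : ℝ, c ≤ 1 / 2 → c ≤ k₁ x z → c ≤ k₂ x z → c ≤ k₃ x z

theorem Rule.lowAt {k₁ k₂ k₃ : ℝ → ℂ → ℝ} {R : ℝ} (hR : 0 < R) (h : Rule k₁ k₂ k₃ R)
    (h1 : LowAt k₁ s c) (h2 : LowAt k₂ s c) : LowAt k₃ s c := by
  obtain ⟨d1, hd1, H1⟩ := h1
  obtain ⟨d2, hd2, H2⟩ := h2
  set e : ℝ := 1 / (2 * (|c| + 1)) with he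
  have he0 : 0 < e := by positivity
  refine ⟨min (min d1 d2) (min R e), lt_min (lt_min hd1 hd2) (lt_min hR he0), fun x hx z hz => ?_⟩
  have hzd1 : z ∈ HD d1 := HD_mono ((min_le_left _ _).trans (min_le_left _ _)) hz
  have hzd2 : z ∈ HD d2 := HD_mono ((min_le_left _ _).trans (min_le_right _ _)) hz
  have hzR : z ∈ HD R := HD_mono ((min_le_right _ _).trans (min_le_left _ _)) hz
  have hze : z ∈ HD e := HD_mono ((min_le_right _ _).trans (min_le_right _ _)) hz
  refine h x z hzR _ ?_ (H1 x (hx.trans_le ((min_le_left _ _).trans (min_le_left _ _))) z hzd1)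
    (H2 x (hx.trans_le ((min_le_left _ _).trans (min_le_right _ _))) z hzd2)
  have h3 := im_lt_of_mem hze
  have h4 : c * z.im ≤ |c| * z.im := mul_le_mul_of_nonneg_right (le_abs_self c) hz.1.le
  have h5 : |c| * z.im ≤ (|c| + 1) * e := by
    have : |c| * z.im ≤ (|c| + 1) * z.im := mul_le_mul_of_nonneg_right (by linarith) hz.1.le
    exact this.trans (mul_le_mul_of_nonneg_left h3.le (by positivity))
  have h6 : (|c| + 1) * e = 1 / 2 := by rw [he]; field_simp
  linarith

theorem low_tilt {α : ℝ} (h : LowAt (tilt α k) s c) : LowAt k s (c + α) := by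
  obtain ⟨d, hd, H⟩ := h
  set e : ℝ := d / (2 * (|α| + 1)) with he
  have he0 : 0 < e := by positivity
  have hed : e ≤ d / 2 := by
    rw [he]
    refine div_le_div_of_nonneg_left hd.le (by norm_num) ?_
    have := abs_nonneg α
    linarith
  refine ⟨e, he0, fun x hx z hz => ?_⟩
  have h2 := abs_re_lt hz
  have h3 : |α * z.re| ≤ d / 2 := by
    rw [abs_mul]
    have h4 : |α| * |z.re| ≤ (|α| + 1) * e := by
      have : |α| * |z.re| ≤ (|α| + 1) * |z.re| :=
        mul_le_mul_of_nonneg_right (by linarith) (abs_nonneg _)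
      exact this.trans (mul_le_mul_of_nonneg_left h2.le (by positivity))
    have h6 : (|α| + 1) * e = d / 2 := by rw [he]; field_simp
    linarith
  have h1 := H (x - α * z.re) (by
    rw [abs_le] at h3
    rw [abs_lt] at hx ⊢
    constructor <;> linarith) z (HD_mono (by linarith) hz)
  unfold tilt at h1
  rw [show x - α * z.re + α * z.re = x by ring] at h1
  linarith

theorem SupH_add_im {Ω : Set ℂ} {D : ℂ → ℝ} (h : SupH Ω D) (β : ℝ) :
    SupH Ω (fun z => D z + β * z.im) := by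
  have hq : AnalyticOnNhd ℂ (fun z : ℂ => -(Complex.I * β * z)) Ω := fun z _ => by fun_prop
  have := h.add_re hq
  have e : (fun z : ℂ => D z + β * z.im) = fun z => D z + (-(Complex.I * β * z)).re := by
    funext z
    simp [Complex.mul_re, Complex.mul_im]
  rw [e]; exact this

theorem volume_sin_lt {e : ℝ} (he : 0 < e) :
    volume {θ ∈ Ioo 0 π | Real.sin θ < e} ≤ ENNReal.ofReal (π * e) := by
  have hsub : {θ ∈ Ioo 0 π | Real.sin θ < e} ⊆ Ioo 0 (π * e / 2) ∪ Ioo (π - π * e / 2) π := by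
    rintro θ ⟨⟨h0, h1⟩, h2⟩
    rcases le_total θ (π / 2) with h | h
    · left
      have := Real.mul_le_sin h0.le h
      refine ⟨h0, ?_⟩
      have h3 : 2 / π * θ < e := this.trans_lt h2
      rw [div_mul_eq_mul_div, div_lt_iff₀ Real.pi_pos] at h3
      linarith
    · right
      have := Real.mul_le_sin (x := π - θ) (by linarith) (by linarith)
      rw [Real.sin_pi_sub] at this
      refine ⟨?_, h1⟩
      have h3 : 2 / π * (π - θ) < e := this.trans_lt h2
      rw [div_mul_eq_mul_div, div_lt_iff₀ Real.pi_pos] at h3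
      linarith
  refine (measure_mono hsub).trans ((measure_union_le _ _).trans ?_)
  rw [Real.volume_Ioo, Real.volume_Ioo, ← ENNReal.ofReal_add (by linarith [mul_pos Real.pi_pos he])
    (by linarith [mul_pos Real.pi_pos he])]
  refine ENNReal.ofReal_le_ofReal (by linarith)

/-- the set of bad directions at scale `η` -/
def Bad (kX : ℝ → ℂ → ℝ) (a₀ s ε η : ℝ) : Set ℝ :=
  {θ ∈ Ioo 0 π | ¬ ∃ x, |x - (s + a₀ * (η * Real.cos θ))| ≤ ε * η ∧
    kX x (circleMap 0 η θ) ≤ (a₀ + ε) * (η * Real.sin θ)}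

theorem Bad_anti {kX : ℝ → ℂ → ℝ} {a₀ s ε ε' η : ℝ} (hη : 0 < η) (h : ε' ≤ ε) :
    Bad kX a₀ s ε η ⊆ Bad kX a₀ s ε' η := by
  rintro θ ⟨hθ, h1⟩
  refine ⟨hθ, fun ⟨x, hx1, hx2⟩ => h1 ⟨x, hx1.trans (mul_le_mul_of_nonneg_right h hη.le), hx2.trans ?_⟩⟩
  have := Real.sin_pos_of_pos_of_lt_pi hθ.1 hθ.2
  exact mul_le_mul_of_nonneg_right (by linarith) (by positivity)

set_option maxHeartbeats 2000000 in
/-- **Step 3**: births are dense on the face -/
theorem births {kX : ℝ → ℂ → ℝ} {R lam₀ a₀ s₀ : ℝ} (hR : 0 < R) (hl₀ : 0 < lam₀) (ha₀ : 0 ≤ a₀)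
    (hk : ∀ z ∈ HD R, ∀ x, 0 ≤ kX x z)
    (hS : ∀ lam s, lam₀ ≤ lam → SupH (HD R) (Dh (tilt a₀ kX) lam s))
    (hA : ∀ ε > (0 : ℝ), ∃ δ > (0 : ℝ), ∀ s, |s - s₀| < δ →
      ∃ r : ℝ, low kX s = (r : EReal) ∧ |r - a₀| < ε) :
    ∀ ε > (0 : ℝ), ∃ δ > (0 : ℝ), ∃ η₀ > (0 : ℝ), ∀ s, |s - s₀| < δ →
      (∀ z ∈ HD η₀, (a₀ - ε) * z.im ≤ kX s z) ∧
      ∀ η, 0 < η → η < η₀ → volume (Bad kX a₀ s ε η) ≤ ENNReal.ofReal ε := by
  intro ε hε
  set e : ℝ := min (ε / 8) (1 / 8) with he
  have he0 : 0 < e := by positivity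
  have heε : e ≤ ε / 8 := min_le_left _ _
  have he1 : e ≤ 1 / 8 := min_le_right _ _
  set ε1 : ℝ := e ^ 4 / 40 with hε1
  have hε10 : 0 < ε1 := by positivity
  have he4 : e ^ 4 ≤ e := by
    calc e ^ 4 ≤ e ^ 1 := pow_le_pow_of_le_one he0.le (by linarith) (by norm_num)
      _ = e := pow_one e
  have hε1e : ε1 ≤ e / 40 := by rw [hε1]; linarith
  have hε1s : ε1 ≤ 1 / 320 := by linarith
  obtain ⟨δ1, hδ1, HA⟩ := hA ε1 hε10
  -- uniform lower bound
  obtain ⟨d1, hd1, HU⟩ := uniform (k := kX) (c := a₀ - ε1) (a := s₀ - δ1 / 2) (b := s₀ + δ1 / 2)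
    (fun s hs => by
      obtain ⟨r, hr, hr2⟩ := HA s (by rw [abs_lt]; constructor <;> linarith [hs.1, hs.2])
      refine lowAt_of_lt ?_
      rw [hr]
      rw [abs_lt] at hr2
      exact_mod_cast (by linarith : a₀ - ε1 < r))
  set δ : ℝ := δ1 / 8 with hδ
  have hδ0 : 0 < δ := by positivity
  set M : ℝ := 2 + 2 * a₀ + a₀ ^ 2 with hM
  have hM0 : 0 < M := by positivity
  -- choice of `η₀`
  obtain ⟨η₀, hη₀, hη1, hη2, hη3, hη4, hη5⟩ : ∃ η₀ : ℝ, 0 < η₀ ∧ η₀ ≤ d1 / 2 ∧ η₀ ≤ R / 2 ∧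
      η₀ ≤ 1 / (8 * lam₀) ∧ a₀ * (2 * η₀) ≤ δ ∧ 8 * M * η₀ ^ 2 ≤ δ ^ 2 := by
    have t1 : ∀ b : ℝ, 0 < b → ∀ᶠ r in 𝓝[>] (0 : ℝ), r ≤ b := fun b hb =>
      mem_nhdsWithin_of_mem_nhds (Iic_mem_nhds hb)
    have t2 : ∀ᶠ r in 𝓝[>] (0 : ℝ), a₀ * (2 * r) ≤ δ := by
      have h1 : Tendsto (fun r : ℝ => a₀ * (2 * r)) (𝓝[>] 0) (𝓝 0) := by
        have : Continuous fun r : ℝ => a₀ * (2 * r) := by fun_prop
        have := (this.tendsto 0).mono_left (nhdsWithin_le_nhds (s := Ioi 0))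
        simpa using this
      filter_upwards [h1.eventually (gt_mem_nhds hδ0)] with r hr using hr.le
    have t3 : ∀ᶠ r in 𝓝[>] (0 : ℝ), 8 * M * r ^ 2 ≤ δ ^ 2 := by
      have h1 : Tendsto (fun r : ℝ => 8 * M * r ^ 2) (𝓝[>] 0) (𝓝 0) := by
        have : Continuous fun r : ℝ => 8 * M * r ^ 2 := by fun_prop
        have := (this.tendsto 0).mono_left (nhdsWithin_le_nhds (s := Ioi 0))
        simpa using this
      filter_upwards [h1.eventually (gt_mem_nhds (pow_pos hδ0 2))] with r hr using hr.le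
    have t0 : ∀ᶠ r in 𝓝[>] (0 : ℝ), 0 < r := self_mem_nhdsWithin
    obtain ⟨r, h1, h2, h3, h4, h5, h6⟩ := (t0.and
      ((t1 (d1 / 2) (by positivity)).and ((t1 (R / 2) (by positivity)).and
      ((t1 (1 / (8 * lam₀)) (by positivity)).and (t2.and t3))))).exists
    exact ⟨r, h1, h2, h3, h4, h5, h6⟩
  refine ⟨δ, hδ0, η₀, hη₀, fun s hs => ⟨fun z hz => ?_, fun η hη hηη => ?_⟩⟩
  · have h1 := HU s (by rw [abs_lt] at hs; constructor <;> linarith [hs.1, hs.2]) z
      (HD_mono (by linarith) hz)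
    have : (a₀ - ε) * z.im ≤ (a₀ - ε1) * z.im := mul_le_mul_of_nonneg_right (by linarith) hz.1.le
    linarith
  -- now the births
  set lam : ℝ := 1 / (8 * η) with hlam
  have hl : 0 < lam := by positivity
  have hcap : 1 / (8 * lam) = η := by rw [hlam]; field_simp
  have hcap2 : 1 / (2 * lam) = 4 * η := by rw [hlam]; field_simp; norm_num
  have hlamη : lam * η = 1 / 8 := by rw [hlam]; field_simp
  have hlge : lam₀ ≤ lam := by
    rw [hlam, le_div_iff₀ (by positivity)]
    have h1 : η ≤ 1 / (8 * lam₀) := hηη.le.trans hη3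
    rw [le_div_iff₀ (by positivity)] at h1
    linarith
  set kt := tilt a₀ kX with hkt
  have h2ηR : 2 * η ≤ R := by linarith
  have hkt0 : ∀ z ∈ HD (2 * η), ∀ x, -(a₀ * z.im) ≤ kt x z := by
    intro z hz x
    have := hk z (HD_mono h2ηR hz) (x + a₀ * z.re)
    simp only [hkt, tilt]; linarith
  -- near region
  have hnear : ∀ s', |s' - s₀| < δ → ∀ z ∈ HD (2 * η), ∀ x, |x - s'| < δ →
      -(ε1 * z.im) ≤ kt x z := by
    intro s' hs' z hz x hx
    have h1 : |a₀ * z.re| ≤ δ := by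
      rw [abs_mul, abs_of_nonneg ha₀]
      have := (abs_re_lt hz).le
      calc a₀ * |z.re| ≤ a₀ * (2 * η) := mul_le_mul_of_nonneg_left this ha₀
        _ ≤ a₀ * (2 * η₀) := mul_le_mul_of_nonneg_left (by linarith) ha₀
        _ ≤ δ := hη4
    have h2 := HU (x + a₀ * z.re) (by
      rw [abs_lt] at hs' hx
      rw [abs_le] at h1
      constructor <;> linarith [hs'.1, hs'.2, hx.1, hx.2, h1.1, h1.2]) z
      (HD_mono (by linarith) hz)
    simp only [hkt, tilt]; linarith
  have hpennear : ∀ z ∈ HD (2 * η), ∀ y : ℝ, -(ε1 * z.im) ≤ y → -(2 * ε1 * z.im) ≤ pen lam y := by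
    intro z hz y hy
    have h1 := pen_mono hl hy
    have him := im_lt_of_mem hz
    have h0 : 0 < ε1 * z.im := mul_pos hε10 hz.1
    rw [pen_eq (by
      have : 0 < 1 / (2 * lam) := by positivity
      linarith)] at h1
    have h2 : lam * (-(ε1 * z.im)) ^ 2 = (lam * z.im) * ε1 * (ε1 * z.im) := by ring
    have h3 : lam * z.im ≤ 1 / 4 := by
      have : lam * z.im ≤ lam * (2 * η) := mul_le_mul_of_nonneg_left him.le hl.le
      linarith
    have h4 : (lam * z.im) * ε1 ≤ 1 := by nlinarith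
    have h5 : (lam * z.im) * ε1 * (ε1 * z.im) ≤ 1 * (ε1 * z.im) :=
      mul_le_mul_of_nonneg_right h4 h0.le
    rw [h2] at h1
    linarith
  -- far region
  have hfar : ∀ s' : ℝ, ∀ z ∈ HD (2 * η), ∀ x, δ ≤ |x - s'| →
      η < pen lam (kt x z) + lam * (x - s') ^ 2 := by
    intro s' z hz x hx
    have him := im_lt_of_mem hz
    have h1 := pen_mono hl (hkt0 z hz x)
    have h00 : 0 ≤ a₀ * z.im := mul_nonneg ha₀ hz.1.le
    rw [pen_eq (by
      have : 0 < 1 / (2 * lam) := by positivity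
      linarith)] at h1
    have h2 : a₀ * z.im ≤ a₀ * (2 * η) := mul_le_mul_of_nonneg_left him.le ha₀
    have h3 : lam * (-(a₀ * z.im)) ^ 2 ≤ a₀ ^ 2 * η / 2 := by
      have : (-(a₀ * z.im)) ^ 2 ≤ (a₀ * (2 * η)) ^ 2 := by
        rw [neg_sq]; exact pow_le_pow_left₀ h00 h2 2
      have h4 := mul_le_mul_of_nonneg_left this hl.le
      have h5 : lam * (a₀ * (2 * η)) ^ 2 = a₀ ^ 2 * η * 4 * (lam * η) := by ring
      rw [h5, hlamη] at h4
      linarith
    have h6 : δ ^ 2 ≤ (x - s') ^ 2 := by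
      rw [← sq_abs (x - s')]
      exact pow_le_pow_left₀ hδ0.le hx 2
    have h7 : lam * δ ^ 2 ≤ lam * (x - s') ^ 2 := mul_le_mul_of_nonneg_left h6 hl.le
    have h8 : M * η ≤ lam * δ ^ 2 := by
      have h9 : 8 * M * η ^ 2 ≤ δ ^ 2 := by
        refine le_trans ?_ hη5
        have : η ^ 2 ≤ η₀ ^ 2 := pow_le_pow_left₀ hη.le hηη.le 2
        exact mul_le_mul_of_nonneg_left this (by positivity)
      have h10 := mul_le_mul_of_nonneg_left h9 hl.le
      have h11 : lam * (8 * M * η ^ 2) = 8 * M * η * (lam * η) := by ring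
      rw [h11, hlamη] at h10
      linarith
    have h12 : M * η = 2 * η + 2 * a₀ * η + a₀ ^ 2 * η := by rw [hM]; ring
    have h13 : 0 ≤ a₀ ^ 2 * η := by positivity
    linarith
  -- `D + 2 ε1 Im ≥ 0`
  have hpos : ∀ s', |s' - s₀| < δ → ∀ z ∈ HD (2 * η), 0 ≤ Dh kt lam s' z + 2 * ε1 * z.im := by
    intro s' hs' z hz
    have : -(2 * ε1 * z.im) ≤ Dh kt lam s' z := by
      have hzpos : 0 < 2 * ε1 * z.im := by have := hz.1; positivity
      refine le_Dh fun x => le_min (by rw [hcap]; linarith) ?_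
      by_cases hx : |x - s'| < δ
      · have h1 := hpennear z hz _ (hnear s' hs' z hz x hx)
        have : 0 ≤ lam * (x - s') ^ 2 := by positivity
        linarith
      · have := hfar s' z hz x (not_lt.1 hx)
        linarith
    linarith
  have hHL : ∀ s', |s' - s₀| < δ → HL (fun z => Dh kt lam s' z + 2 * ε1 * z.im) (2 * η) := by
    intro s' hs'
    refine HL.of_supH (SupH_add_im ((hS lam s' hlge).mono (HD_mono h2ηR) (isOpen_HD _)) _)
      (hpos s' hs')
  -- slope
  have hslope : mr (fun z => Dh kt lam s z + 2 * ε1 * z.im) η ≤ ENNReal.ofReal (3 * ε1) := by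
    by_contra hcon
    push Not at hcon
    have h1 := lowAt_of_mr (k := kt) (s := s) (c := 3 * ε1) (β := 2 * ε1) (r := η) (r₀ := 2 * η)
      hl hη (by linarith) (fun z hz => ⟨_, hkt0 z hz⟩)
      ⟨δ - |s - s₀|, by linarith, fun s' hs' => by
        have hs'' : |s' - s₀| < δ := by
          have := abs_sub_le s' s s₀
          linarith
        refine ⟨hHL s' hs'', fun z hz x hx => ?_⟩
        rw [hcap] at hx ⊢
        by_cases hx' : |x - s'| < δ
        · have h1 := hpennear z hz _ (hnear s' hs'' z hz x hx')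
          have him := im_lt_of_mem hz
          have : 2 * ε1 * z.im ≤ 2 * ε1 * (2 * η) := mul_le_mul_of_nonneg_left him.le (by positivity)
          have h3 : 2 * ε1 * (2 * η) ≤ η := by nlinarith
          linarith
        · exact absurd hx (not_lt.2 (hfar s' z hz x (not_lt.1 hx')).le)⟩ hcon
    have h2 := low_tilt h1
    have h3 := le_low h2
    obtain ⟨r, hr, hr2⟩ := HA s (hs.trans_le (by rw [hδ]; linarith))
    rw [hr] at h3
    have h4 : 3 * ε1 - 2 * ε1 + a₀ ≤ r := by exact_mod_cast h3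
    rw [abs_lt] at hr2
    linarith [hr2.2]
  -- Chebyshev
  set f : ℝ → ℝ≥0∞ := fun θ => ENNReal.ofReal
    ((Dh kt lam s (circleMap 0 η θ) + 2 * ε1 * (circleMap 0 η θ).im) * Real.sin θ) with hf
  have hfm : AEMeasurable f (volume.restrict (Ioo 0 π)) := by
    have h1 : Measurable ((HD (2 * η)).indicator
        (fun z : ℂ => Dh kt lam s z + 2 * ε1 * z.im)) := by
      refine measurable_of_Ioi fun y => ?_
      by_cases hy : y < 0
      · have : (HD (2 * η)).indicator (fun z : ℂ => Dh kt lam s z + 2 * ε1 * z.im) ⁻¹' Ioi y =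
            univ := by
          refine eq_univ_of_forall fun z => ?_
          simp only [mem_preimage, mem_Ioi, indicator]
          split_ifs with h
          · exact lt_of_lt_of_le hy (hpos s hs z h)
          · exact hy
        rw [this]; exact MeasurableSet.univ
      · push Not at hy
        have hls := (hHL s hs).lsc
        have : (HD (2 * η)).indicator (fun z : ℂ => Dh kt lam s z + 2 * ε1 * z.im) ⁻¹' Ioi y =
            HD (2 * η) ∩ {z | y < Dh kt lam s z + 2 * ε1 * z.im} := by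
          ext z
          simp only [mem_preimage, mem_Ioi, indicator, mem_inter_iff, mem_ofPred_eq]
          split_ifs with h
          · exact ⟨fun h' => ⟨h, h'⟩, fun h' => h'.2⟩
          · exact ⟨fun h' => absurd h' (not_lt.2 hy), fun h' => absurd h'.1 h⟩
        rw [this]
        have hopen : IsOpen (HD (2 * η) ∩ {z | y < Dh kt lam s z + 2 * ε1 * z.im}) := by
          rw [isOpen_iff_mem_nhds]
          rintro z ⟨hz1, hz2⟩
          have h3 := hls z hz1 y hz2
          rw [(isOpen_HD _).nhdsWithin_eq hz1] at h3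
          exact inter_mem ((isOpen_HD _).mem_nhds hz1) h3
        exact hopen.measurableSet
    have h2 : Measurable fun θ : ℝ => ENNReal.ofReal
        ((HD (2 * η)).indicator (fun z : ℂ => Dh kt lam s z + 2 * ε1 * z.im) (circleMap 0 η θ) *
          Real.sin θ) := by
      have h3 : Measurable (circleMap 0 η) := (continuous_circleMap 0 η).measurable
      exact ((h1.comp h3).mul Real.measurable_sin).ennreal_ofReal
    refine ⟨_, h2, ?_⟩
    refine (ae_restrict_iff' measurableSet_Ioo).2 (Eventually.of_forall fun θ hθ => ?_)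
    simp only [hf, indicator_of_mem (circleMap_mem hη (by linarith : η < 2 * η) hθ)]
  have hint : ∫⁻ θ in Ioo 0 π, f θ ≤ ENNReal.ofReal (5 * ε1 * η) := by
    have h1 : ENNReal.ofReal (2 / (π * η)) * ∫⁻ θ in Ioo 0 π, f θ ≤ ENNReal.ofReal (3 * ε1) :=
      hslope
    have h2 : ∫⁻ θ in Ioo 0 π, f θ = ENNReal.ofReal (π * η / 2) *
        (ENNReal.ofReal (2 / (π * η)) * ∫⁻ θ in Ioo 0 π, f θ) := by
      rw [← mul_assoc, ← ENNReal.ofReal_mul (by positivity)]
      have : π * η / 2 * (2 / (π * η)) = 1 := by field_simp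
      rw [this, ENNReal.ofReal_one, one_mul]
    rw [h2]
    refine (mul_le_mul_right h1 _).trans ?_
    rw [← ENNReal.ofReal_mul (by positivity)]
    refine ENNReal.ofReal_le_ofReal ?_
    have := Real.pi_lt_d2
    have h3 : 0 < ε1 * η := by positivity
    nlinarith
  -- bad directions with `sin ≥ e`
  have hbad : volume (Bad kX a₀ s e η ∩ {θ | e ≤ Real.sin θ}) ≤ ENNReal.ofReal e := by
    have h1 : Bad kX a₀ s e η ∩ {θ | e ≤ Real.sin θ} ⊆
        {θ | ENNReal.ofReal (e ^ 3 * η / 8) ≤ f θ} ∩ Ioo 0 π := by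
      rintro θ ⟨⟨hθ, hno⟩, hsin⟩
      refine ⟨?_, hθ⟩
      have hp := circleMap_mem hη (by linarith : η < 2 * η) hθ
      set p := circleMap 0 η θ with hpdef
      have hpim : p.im = η * Real.sin θ := circleMap_im η θ
      have hpre : p.re = η * Real.cos θ := circleMap_re η θ
      have hsin' : e ≤ Real.sin θ := hsin
      have hDlow : -(2 * ε1 * p.im) + e ^ 2 * η / 8 ≤ Dh kt lam s p := by
        have hz0 : 0 ≤ 2 * ε1 * p.im := by have := hp.1; positivity
        have he2 : e ^ 2 ≤ 1 := pow_le_one₀ he0.le (by linarith)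
        have he2η : e ^ 2 * η ≤ η := mul_le_of_le_one_left hη.le he2
        refine le_Dh fun x => le_min (by rw [hcap]; linarith) ?_
        have hsq : 0 ≤ lam * (x - s) ^ 2 := by positivity
        by_cases hx : |x - s| ≤ e * η
        · have h2 : (a₀ + e) * (η * Real.sin θ) < kX (x + a₀ * p.re) p := by
            by_contra hcon
            exact hno ⟨x + a₀ * p.re, by
              rw [hpre, show x + a₀ * (η * Real.cos θ) - (s + a₀ * (η * Real.cos θ)) = x - s by ring]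
              exact hx, not_lt.1 hcon⟩
          have h3 : e ^ 2 * η ≤ kt x p := by
            simp only [hkt, tilt]
            rw [hpim]
            have h4 : e * e * η ≤ e * (η * Real.sin θ) := by
              have := mul_le_mul_of_nonneg_left hsin' (mul_pos he0 hη).le
              linarith
            nlinarith
          have h5 := pen_mono hl h3
          rw [pen_eq (by rw [hcap2]; linarith)] at h5
          have h6 : lam * (e ^ 2 * η) ^ 2 = e ^ 2 * (e ^ 2 * η) * (lam * η) := by ring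
          rw [h6, hlamη] at h5
          have h7 : e ^ 2 * (e ^ 2 * η) ≤ 1 * (e ^ 2 * η) :=
            mul_le_mul_of_nonneg_right he2 (by positivity)
          have h8 : 0 < e ^ 2 * η := by positivity
          linarith
        · push Not at hx
          by_cases hx' : |x - s| < δ
          · have h1 := hpennear p hp _ (hnear s hs p hp x hx')
            have h2 : (e * η) ^ 2 ≤ (x - s) ^ 2 := by
              rw [← sq_abs (x - s)]
              exact pow_le_pow_left₀ (by positivity) hx.le 2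
            have h3 := mul_le_mul_of_nonneg_left h2 hl.le
            have h4 : lam * (e * η) ^ 2 = e ^ 2 * η * (lam * η) := by ring
            rw [h4, hlamη] at h3
            linarith
          · have := hfar s p hp x (not_lt.1 hx')
            linarith
      show ENNReal.ofReal (e ^ 3 * η / 8) ≤ ENNReal.ofReal _
      refine ENNReal.ofReal_le_ofReal ?_
      have h9 : e ^ 2 * η / 8 ≤ Dh kt lam s p + 2 * ε1 * p.im := by linarith
      have h10 : e ^ 2 * η / 8 * e ≤ (Dh kt lam s p + 2 * ε1 * p.im) * Real.sin θ :=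
        mul_le_mul h9 hsin' he0.le (le_trans (by positivity) h9)
      linarith
    have h2 : ENNReal.ofReal (e ^ 3 * η / 8) *
        (volume.restrict (Ioo 0 π)) {θ | ENNReal.ofReal (e ^ 3 * η / 8) ≤ f θ} ≤
        ENNReal.ofReal (5 * ε1 * η) :=
      (mul_meas_ge_le_lintegral₀ hfm _).trans hint
    have h3 : volume (Bad kX a₀ s e η ∩ {θ | e ≤ Real.sin θ}) ≤
        (volume.restrict (Ioo 0 π)) {θ | ENNReal.ofReal (e ^ 3 * η / 8) ≤ f θ} := by
      rw [Measure.restrict_apply' measurableSet_Ioo]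
      exact measure_mono h1
    have h4 : 0 < e ^ 3 * η / 8 := by positivity
    have h5 : ENNReal.ofReal (e ^ 3 * η / 8) *
        volume (Bad kX a₀ s e η ∩ {θ | e ≤ Real.sin θ}) ≤
        ENNReal.ofReal (e ^ 3 * η / 8) * ENNReal.ofReal e := by
      refine (mul_le_mul_right h3 _).trans (h2.trans ?_)
      rw [← ENNReal.ofReal_mul h4.le]
      refine ENNReal.ofReal_le_ofReal ?_
      rw [hε1]
      have : 5 * (e ^ 4 / 40) * η = e ^ 3 * η / 8 * e := by ring
      linarith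
    exact (ENNReal.mul_le_mul_iff_right (ENNReal.ofReal_pos.2 h4).ne' ENNReal.ofReal_ne_top).1 h5
  calc volume (Bad kX a₀ s ε η) ≤ volume (Bad kX a₀ s e η) := measure_mono (Bad_anti hη (by linarith))
    _ ≤ volume ((Bad kX a₀ s e η ∩ {θ | e ≤ Real.sin θ}) ∪ {θ ∈ Ioo 0 π | Real.sin θ < e}) := by
        refine measure_mono fun θ hθ => ?_
        by_cases h : e ≤ Real.sin θ
        · exact Or.inl ⟨hθ, h⟩
        · exact Or.inr ⟨hθ.1, not_le.1 h⟩
    _ ≤ ENNReal.ofReal e + ENNReal.ofReal (π * e) :=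
        (measure_union_le _ _).trans (add_le_add hbad (volume_sin_lt he0))
    _ ≤ ENNReal.ofReal ε := by
        rw [← ENNReal.ofReal_add he0.le (by positivity)]
        refine ENNReal.ofReal_le_ofReal ?_
        have := Real.pi_lt_d2
        nlinarith

/-- **Steps 1, 2, 3 of R1_523 at one fixed `u`.** -/
theorem main {kX kL : ℝ → ℂ → ℝ} {u R lam₀ c₂ : ℝ} (hR : 0 < R) (hl₀ : 0 < lam₀)
    (hX0 : ∀ z ∈ HD R, ∀ x, 0 ≤ kX x z) (hL0 : ∀ z ∈ HD R, ∀ x, 0 ≤ kL x z)
    (r1 : Rule (mn u kL) (pl u kL) kX R) (r2 : Rule kX (pl u kL) (mn u kL) R)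
    (r3 : Rule (mn u kL) kX (pl u kL) R)
    (hL2 : ∀ s c, LowAt kL s c → c ≤ c₂)
    (hS : ∀ α lam s, 0 ≤ α → α ≤ c₂ + 1 → lam₀ ≤ lam → SupH (HD R) (Dh (tilt α kX) lam s)) :
    ∃ s₀ a₀ c : ℝ, 0 < c ∧ 0 ≤ a₀ ∧ a₀ + c ≤ c₂ + 1 ∧
      ∀ ε > (0 : ℝ), ∃ δ > (0 : ℝ), ∃ η₀ > (0 : ℝ), ∀ s, |s - s₀| < δ →
        (∀ z ∈ HD η₀, (a₀ - ε) * z.im ≤ kX s z) ∧
        (∀ z ∈ HD η₀, (a₀ + c) * z.im ≤ mn u kL s z) ∧
        (∀ i : ℕ, LowAt kL (s - (i + 1/2) * u) (a₀ + c - (i + 1/2))) ∧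
        ∀ η, 0 < η → η < η₀ → volume (Bad kX a₀ s ε η) ≤ ENNReal.ofReal ε := by
  -- the slopes
  have hLow0 : ∀ s, LowAt kL s 0 := fun s =>
    ⟨R, hR, fun x _ z hz => by rw [zero_mul]; exact hL0 z hz x⟩
  have hXow0 : ∀ s, LowAt kX s 0 := fun s =>
    ⟨R, hR, fun x _ z hz => by rw [zero_mul]; exact hX0 z hz x⟩
  have hle : ∀ s, low kL s ≤ (c₂ : EReal) := by
    intro s
    refine sSup_le ?_
    rintro _ ⟨r, rfl, hr⟩
    exact_mod_cast hL2 s r hr
  set lam : ℝ → ℝ := fun s => (low kL s).toReal with hlam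
  have hcoe : ∀ s, ((lam s : ℝ) : EReal) = low kL s := by
    intro s
    have h1 : low kL s ≠ ⊤ := ne_top_of_le_ne_top (EReal.coe_ne_top c₂) (hle s)
    have h2 : low kL s ≠ ⊥ := ne_bot_of_le_ne_bot (EReal.coe_ne_bot 0) (le_low (hLow0 s))
    exact EReal.coe_toReal h1 h2
  have hlam1 : ∀ s, 0 ≤ lam s := by
    intro s
    have := le_low (hLow0 s)
    rw [← hcoe] at this
    exact_mod_cast this
  have hlam2 : ∀ s, lam s ≤ c₂ := by
    intro s
    have := hle s
    rw [← hcoe] at this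
    exact_mod_cast this
  have hlsc : LowerSemicontinuous lam := by
    intro s y hy
    have := lsc_low kL s (y : EReal) (by
      show (y : EReal) < low kL s
      rw [← hcoe]; exact_mod_cast hy)
    filter_upwards [this] with s' hs'
    have hs'' : (y : EReal) < low kL s' := hs'
    rw [← hcoe] at hs''
    exact_mod_cast hs''
  have hlt : ∀ s c, c < lam s → LowAt kL s c := fun s c h => by
    refine lowAt_of_lt ?_
    rw [← hcoe]; exact_mod_cast h
  -- rule for the slopes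
  have rule : ∀ s, NoUniqueMin ((lam (s - u/2) + 1/2 : ℝ) : EReal) (low kX s)
      ((lam (s + u/2) - 1/2 : ℝ) : EReal) := by
    intro s
    refine ⟨?_, ?_, ?_⟩
    · rintro ⟨h1, h2⟩
      obtain ⟨q, hq1, hq2⟩ := EReal.lt_iff_exists_real_btwn.1 (lt_min h1 h2)
      have hq2a := lt_of_lt_of_le hq2 (min_le_left _ _)
      have hq2b : (q : EReal) < _ := lt_of_lt_of_le hq2 (min_le_right _ _)
      have hq2b' : q < lam (s + u/2) - 1/2 := by exact_mod_cast hq2b
      have hq1' : lam (s - u/2) + 1/2 < q := by exact_mod_cast hq1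
      have h3 := r2.lowAt (s := s) (c := q) hR (lowAt_of_lt hq2a) (lowAt_pl (hlt _ _ (by linarith)))
      have h4 := le_low (lowAt_of_mn h3)
      rw [← hcoe] at h4
      have h4' : q - 1/2 ≤ lam (s - u/2) := by exact_mod_cast h4
      linarith
    · rintro ⟨h1, h2⟩
      obtain ⟨q, hq1, hq2⟩ := EReal.lt_iff_exists_real_btwn.1 (lt_min h1 h2)
      have hq2a := lt_of_lt_of_le hq2 (min_le_left _ _)
      have hq2b := lt_of_lt_of_le hq2 (min_le_right _ _)
      have hq2a' : q < lam (s - u/2) + 1/2 := by exact_mod_cast hq2a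
      have hq2b' : q < lam (s + u/2) - 1/2 := by exact_mod_cast hq2b
      have h3 := r1.lowAt (s := s) (c := q) hR (lowAt_mn (hlt _ _ (by linarith)))
        (lowAt_pl (hlt _ _ (by linarith)))
      exact absurd (le_low h3) (not_le.2 hq1)
    · rintro ⟨h1, h2⟩
      obtain ⟨q, hq1, hq2⟩ := EReal.lt_iff_exists_real_btwn.1 (lt_min h1 h2)
      have hq2a := lt_of_lt_of_le hq2 (min_le_left _ _)
      have hq2b : (q : EReal) < _ := lt_of_lt_of_le hq2 (min_le_right _ _)
      have hq2a' : q < lam (s - u/2) + 1/2 := by exact_mod_cast hq2a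
      have hq1' : lam (s + u/2) - 1/2 < q := by exact_mod_cast hq1
      have h3 := r3.lowAt (s := s) (c := q) hR (lowAt_mn (hlt _ _ (by linarith))) (lowAt_of_lt hq2b)
      have h4 := le_low (lowAt_of_pl h3)
      rw [← hcoe] at h4
      have h4' : q + 1/2 ≤ lam (s + u/2) := by exact_mod_cast h4
      linarith
  obtain ⟨s₀, a₀, c, hc, ha₀, H⟩ := record_start hlsc (lsc_low kX) hlam1 hlam2 rule
  have ha0 : 0 ≤ a₀ := by
    have := le_low (hXow0 s₀)
    rw [ha₀] at this
    exact_mod_cast this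
  have hac : a₀ + c ≤ c₂ + 1 := by
    obtain ⟨δ, hδ, h⟩ := H 1 one_pos
    have h1 := (h s₀ (by simpa using hδ)).2.1 0
    have h2 := hlam2 (s₀ - ((0 : ℕ) + 1/2) * u)
    push_cast at h1 h2
    linarith
  refine ⟨s₀, a₀, c, hc, ha0, hac, fun ε hε => ?_⟩
  obtain ⟨δ, hδ, η₀, hη₀, hb⟩ := births hR hl₀ ha0 hX0
    (fun lam s hl => hS a₀ lam s ha0 (by linarith) hl)
    (fun ε hε => by
      obtain ⟨δ, hδ, h⟩ := H ε hε
      exact ⟨δ, hδ, fun s hs => (h s hs).1⟩) ε hε
  obtain ⟨δ', hδ', h'⟩ := H 1 one_pos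
  have hall : ∀ s, |s - s₀| < δ' → ∀ i : ℕ, LowAt kL (s - (i + 1/2) * u) (a₀ + c - (i + 1/2)) := by
    intro s hs i
    have := (h' s hs).2.1 i
    exact hlt _ _ (by linarith)
  obtain ⟨d, hd, hu⟩ := uniform (k := mn u kL) (c := a₀ + c) (a := s₀ - δ' / 2) (b := s₀ + δ' / 2)
    (fun s hs => by
      have h1 := hall s (by rw [abs_lt]; constructor <;> linarith [hs.1, hs.2]) 0
      refine lowAt_mn ?_
      have e1 : s - ((0 : ℕ) + 1/2) * u = s - u/2 := by push_cast; ring
      have e2 : a₀ + c - ((0 : ℕ) + 1/2) = a₀ + c - 1/2 := by push_cast; ring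
      rwa [e1, e2] at h1)
  refine ⟨min δ (δ' / 2), lt_min hδ (by positivity), min η₀ d, lt_min hη₀ hd, fun s hs => ?_⟩
  have hs1 : |s - s₀| < δ := hs.trans_le (min_le_left _ _)
  have hs2 : |s - s₀| < δ' / 2 := hs.trans_le (min_le_right _ _)
  obtain ⟨hb1, hb2⟩ := hb s hs1
  refine ⟨fun z hz => hb1 z (HD_mono (min_le_left _ _) hz), fun z hz => ?_,
    hall s (by linarith), fun η hη hηη => hb2 η hη (hηη.trans_le (min_le_left _ _))⟩
  rw [abs_lt] at hs2
  exact hu s ⟨by linarith [hs2.1], by linarith [hs2.2]⟩ z (HD_mono (min_le_right _ _) hz)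

end Crest.Agent.R102.Heights150
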