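import Mathlib

/-! # History lemma (972 (H)): pure sequence form

`p`, `m` are the heights in the two cusps at the geometric scales.  `W nu p k` is the memory. -/

open Filter

namespace Crest.Agent.R102.Hist672

/-- memory with decay `nu` per step -/
noncomputable def W (nu : ℝ) (p : ℕ → ℝ) : ℕ → ℝ
  | 0 => p 0
  | k + 1 => max (W nu p k / nu) (p (k + 1))

variable {nu : ℝ} {p m : ℕ → ℝ}

theorem W_bound (hnu : 1 < nu) : ∀ k j : ℕ, j ≤ k → p j ≤ W nu p k * nu ^ (k - j) := by
  have h0 : 0 < nu := by linarith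
  intro k
  induction k with
  | zero => intro j hj; obtain rfl : j = 0 := by omega
            simp [W]
  | succ k ih =>
    intro j hj
    rcases Nat.eq_or_lt_of_le hj with rfl | hj
    · simp [W]
    · have h1 := ih j (by omega)
      have h2 : W nu p k / nu ≤ W nu p (k + 1) := le_max_left _ _
      have h3 : k + 1 - j = (k - j) + 1 := by omega
      rw [h3, pow_succ]
      have h4 : W nu p k ≤ W nu p (k + 1) * nu := by rwa [div_le_iff₀ h0] at h2
      have h5 : 0 < nu ^ (k - j) := pow_pos h0 _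
      nlinarith [mul_le_mul_of_nonneg_right h4 h5.le]

theorem W_le (hnu : 1 < nu) (a : ℕ) : ∀ (d : ℕ) (D : ℝ),
    (∀ k, a < k → k ≤ a + d → p k ≤ D * nu ^ (a + d - k)) →
    W nu p (a + d) ≤ max (W nu p a / nu ^ d) D := by
  have h0 : 0 < nu := by linarith
  intro d
  induction d with
  | zero => intro D _; simp
  | succ d ih =>
    intro D hD
    have h1 := ih (D * nu) (fun k hk hk' => by
      have := hD k hk (by omega)
      have e : a + (d + 1) - k = (a + d - k) + 1 := by omega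
      rw [e, pow_succ] at this
      nlinarith [this])
    have h2 : W nu p (a + (d + 1)) = max (W nu p (a + d) / nu) (p (a + d + 1)) := rfl
    rw [h2]
    have h3 := hD (a + (d + 1)) (by omega) le_rfl
    simp only [Nat.sub_self, pow_zero, mul_one] at h3
    apply max_le
    · have h4 : W nu p (a + d) / nu ≤ max (W nu p a / nu ^ d) (D * nu) / nu :=
        div_le_div_of_nonneg_right h1 h0.le
      refine h4.trans ?_
      rw [← max_div_div_right h0.le]
      apply max_le_max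
      · rw [pow_succ, div_div]
      · rw [mul_div_assoc, div_self h0.ne', mul_one]
    · exact le_max_of_le_right h3

/-- Lipschitz property -/
def Lip (A0 mu : ℝ) (p : ℕ → ℝ) : Prop :=
  ∀ k, A0 + p (k + 1) ≤ mu * (A0 + p k) ∧ A0 + p k ≤ mu * (A0 + p (k + 1))

theorem Lip.up {A0 mu : ℝ} (h : Lip A0 mu p) (hmu : 1 ≤ mu) (a : ℕ) : ∀ d : ℕ,
    A0 + p (a + d) ≤ mu ^ d * (A0 + p a) := by
  intro d
  induction d with
  | zero => simp
  | succ d ih =>
    have h1 := (h (a + d)).1
    calc A0 + p (a + (d + 1)) = A0 + p (a + d + 1) := rfl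
      _ ≤ mu * (A0 + p (a + d)) := h1
      _ ≤ mu * (mu ^ d * (A0 + p a)) := by
        apply mul_le_mul_of_nonneg_left ih (by linarith)
      _ = mu ^ (d + 1) * (A0 + p a) := by ring

theorem Lip.down {A0 mu : ℝ} (h : Lip A0 mu p) (hmu : 1 ≤ mu) (a : ℕ) : ∀ d : ℕ,
    A0 + p a ≤ mu ^ d * (A0 + p (a + d)) := by
  intro d
  induction d with
  | zero => simp
  | succ d ih =>
    have h1 := (h (a + d)).2
    calc A0 + p a ≤ mu ^ d * (A0 + p (a + d)) := ih
      _ ≤ mu ^ d * (mu * (A0 + p (a + d + 1))) := by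
        apply mul_le_mul_of_nonneg_left h1 (by positivity)
      _ = mu ^ (d + 1) * (A0 + p (a + (d + 1))) := by ring_nf

/-- height bound inside an excursion -/
theorem exc_height {A0 mu T : ℝ} (hA : 0 ≤ A0) (hT : 0 ≤ T) (hmu : 1 ≤ mu) (hnu : 1 < nu)
    (hmn : mu ≤ nu ^ 3) (h : Lip A0 mu p) {a d : ℕ} (ha : p a ≤ T) (hb : p (a + d) ≤ T)
    {k : ℕ} (hk : a < k) (hk' : k ≤ a + d) :
    p k ≤ ((A0 + T) * nu ^ d) * nu ^ (a + d - k) := by
  obtain ⟨x, hx⟩ : ∃ x, a + d = k + x := ⟨a + d - k, by omega⟩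
  obtain ⟨y, hy⟩ : ∃ y, k = a + y := ⟨k - a, by omega⟩
  have e1 : a + d - k = x := by omega
  have e2 : d = y + x := by omega
  have h1 : A0 + p k ≤ mu ^ y * (A0 + T) := by
    rw [hy]
    refine (h.up hmu a y).trans ?_
    apply mul_le_mul_of_nonneg_left (by linarith) (by positivity)
  have h2 : A0 + p k ≤ mu ^ x * (A0 + T) := by
    refine (h.down hmu k x).trans ?_
    rw [← hx]
    apply mul_le_mul_of_nonneg_left (by linarith) (by positivity)
  have hmu0 : 0 ≤ mu := by linarith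
  rw [e1, e2]
  have key : p k ≤ (A0 + T) * nu ^ (y + x + x) := by
    rcases le_total y x with hyx | hxy
    · have h3 : mu ^ y ≤ nu ^ (y + x + x) := by
        calc mu ^ y ≤ (nu ^ 3) ^ y := pow_le_pow_left₀ hmu0 hmn y
          _ = nu ^ (3 * y) := by rw [pow_mul]
          _ ≤ nu ^ (y + x + x) := pow_le_pow_right₀ hnu.le (by omega)
      nlinarith [mul_le_mul_of_nonneg_right h3 (by linarith : (0:ℝ) ≤ A0 + T)]
    · have h3 : mu ^ x ≤ nu ^ (y + x + x) := by
        calc mu ^ x ≤ (nu ^ 3) ^ x := pow_le_pow_left₀ hmu0 hmn x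
          _ = nu ^ (3 * x) := by rw [pow_mul]
          _ ≤ nu ^ (y + x + x) := pow_le_pow_right₀ hnu.le (by omega)
      nlinarith [mul_le_mul_of_nonneg_right h3 (by linarith : (0:ℝ) ≤ A0 + T)]
  calc p k ≤ (A0 + T) * nu ^ (y + x + x) := key
    _ = (A0 + T) * nu ^ (y + x) * nu ^ x := by ring

/-- one excursion of `p` type between two low times -/
theorem exc {A0 mu T C : ℝ} (hA : 0 ≤ A0) (hmu : 1 ≤ mu) (hnu : 1 < nu)
    (hmn : mu ≤ nu ^ 3) (hT : T = (mu - 1) * A0)
    (hpm : ∀ k, 0 ≤ p k ∧ 0 ≤ m k ∧ (p k = 0 ∨ m k = 0))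
    (hp : Lip A0 mu p) (hC : 2 * (A0 + T) + 1 ≤ C) {a d : ℕ} (hd : 2 ≤ d) (ha : p a ≤ T)
    (hb : p (a + d) ≤ T) (hex : ∀ k, a < k → k < a + d → T < p k)
    (hm1 : C < W nu m (a + d)) (hp1 : C < W nu p (a + d)) :
    max (W nu p (a + d)) (W nu m (a + d)) ≤ max (W nu p a) (W nu m a) / min nu 2 := by
  have h0 : 0 < nu := by linarith
  have hT0 : 0 ≤ T := by rw [hT]; exact mul_nonneg (by linarith) hA
  have hm0 : ∀ k, a < k → k ≤ a + d → m k = 0 := by
    intro k hk hk'
    rcases Nat.eq_or_lt_of_le hk' with rfl | hk'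
    · have h1 := hex (a + d - 1) (by omega) (by omega)
      by_contra hne
      have h2 : p (a + d) = 0 := ((hpm (a + d)).2.2).resolve_right hne
      have h3 := (hp (a + d - 1)).2
      have e : a + d - 1 + 1 = a + d := by omega
      rw [e, h2] at h3
      nlinarith
    · have h1 := hex k hk hk'
      rcases (hpm k).2.2 with h2 | h2
      · rw [h2] at h1; linarith
      · exact h2
  have hWm : W nu m (a + d) ≤ max (W nu m a / nu ^ d) 0 :=
    W_le hnu a d 0 (fun k hk hk' => by rw [hm0 k hk hk']; simp)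
  have hCpos : 0 < C := by linarith
  have hWm' : W nu m (a + d) ≤ W nu m a / nu ^ d := by
    rcases le_max_iff.1 hWm with h | h
    · exact h
    · linarith
  have hWp : W nu p (a + d) ≤ max (W nu p a / nu ^ d) ((A0 + T) * nu ^ d) :=
    W_le hnu a d _ (fun k hk hk' => exc_height hA hT0 hmu hnu hmn hp ha hb hk hk')
  have hnd : 0 < nu ^ d := pow_pos h0 _
  have h5 : C * nu ^ d < W nu m a := by
    have := lt_of_lt_of_le hm1 hWm'
    rwa [lt_div_iff₀ hnd] at this
  have hWma : 0 < W nu m a := lt_trans (mul_pos hCpos hnd) h5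
  have hWpa : W nu p (a+d) ≤ W nu p a / nu ^ d ∨ W nu p (a+d) ≤ W nu m a / 2 := by
    rcases le_max_iff.1 hWp with h | h
    · exact Or.inl h
    · right
      have : (A0 + T) * nu ^ d ≤ (C / 2) * nu ^ d :=
        mul_le_mul_of_nonneg_right (by linarith) hnd.le
      linarith
  have hM : 0 < max (W nu p a) (W nu m a) := lt_of_lt_of_le hWma (le_max_right _ _)
  have hnd1 : nu ≤ nu ^ d := by
    calc nu = nu ^ 1 := (pow_one _).symm
      _ ≤ nu ^ d := pow_le_pow_right₀ hnu.le (by omega)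
  have hmin0 : 0 < min nu 2 := lt_min h0 (by norm_num)
  have hdiv : ∀ z : ℝ, z ≤ max (W nu p a) (W nu m a) → ∀ c : ℝ, min nu 2 ≤ c →
      z / c ≤ max (W nu p a) (W nu m a) / min nu 2 := by
    intro z hz c hc
    have hc0 : 0 < c := lt_of_lt_of_le hmin0 hc
    calc z / c ≤ max (W nu p a) (W nu m a) / c := div_le_div_of_nonneg_right hz hc0.le
      _ ≤ max (W nu p a) (W nu m a) / min nu 2 := div_le_div_of_nonneg_left hM.le hmin0 hc
  apply max_le
  · rcases hWpa with h | h
    · exact h.trans (hdiv _ (le_max_left _ _) _ ((min_le_left _ _).trans hnd1))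
    · exact h.trans (hdiv _ (le_max_right _ _) _ (min_le_right _ _))
  · exact hWm'.trans (hdiv _ (le_max_right _ _) _ ((min_le_left _ _).trans hnd1))

/-- a step between two consecutive low times -/
theorem low_step {A0 mu T C : ℝ} (hA : 0 ≤ A0) (hmu : 1 ≤ mu) (hnu : 1 < nu)
    (hT : T = (mu - 1) * A0) (hC : 2 * (A0 + T) + 1 ≤ C) {a : ℕ}
    (hb : p (a + 1) ≤ T) (hb' : m (a + 1) ≤ T)
    (hm1 : C < W nu m (a + 1)) (hp1 : C < W nu p (a + 1)) :
    max (W nu p (a + 1)) (W nu m (a + 1)) ≤ max (W nu p a) (W nu m a) / min nu 2 := by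
  have h0 : 0 < nu := by linarith
  have hT0 : 0 ≤ T := by rw [hT]; exact mul_nonneg (by linarith) hA
  have hmin0 : 0 < min nu 2 := lt_min h0 (by norm_num)
  have h1 : W nu p (a + 1) ≤ W nu p a / nu := by
    have : W nu p (a + 1) = max (W nu p a / nu) (p (a + 1)) := rfl
    rcases le_total (W nu p a / nu) (p (a+1)) with h | h
    · rw [this, max_eq_right h] at hp1; linarith
    · rw [this, max_eq_left h]
  have h2 : W nu m (a + 1) ≤ W nu m a / nu := by
    have : W nu m (a + 1) = max (W nu m a / nu) (m (a + 1)) := rfl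
    rcases le_total (W nu m a / nu) (m (a+1)) with h | h
    · rw [this, max_eq_right h] at hm1; linarith
    · rw [this, max_eq_left h]
  have hM : 0 ≤ max (W nu p a) (W nu m a) := by
    have : 0 < W nu p a / nu := by linarith
    have := (div_pos_iff_of_pos_right h0).1 this
    exact this.le.trans (le_max_left _ _)
  have h3 : max (W nu p a) (W nu m a) / nu ≤ max (W nu p a) (W nu m a) / min nu 2 :=
    div_le_div_of_nonneg_left hM hmin0 (min_le_left _ _)
  apply max_le
  · exact (h1.trans (div_le_div_of_nonneg_right (le_max_left _ _) h0.le)).trans h3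
  · exact (h2.trans (div_le_div_of_nonneg_right (le_max_right _ _) h0.le)).trans h3

/-- if `p` stays above `T` for ever then the memory of `m` dies -/
theorem no_escape {A0 mu T C : ℝ} (hA : 0 ≤ A0) (hmu : 1 ≤ mu) (hnu : 1 < nu)
    (hT : T = (mu - 1) * A0) (hC0 : 0 < C)
    (hpm : ∀ k, 0 ≤ p k ∧ 0 ≤ m k ∧ (p k = 0 ∨ m k = 0)) {a : ℕ}
    (hex : ∀ k, a < k → T < p k) (hm1 : ∀ k, a ≤ k → C < W nu m k) : False := by
  have h0 : 0 < nu := by linarith
  have hT0 : 0 ≤ T := by rw [hT]; exact mul_nonneg (by linarith) hA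
  have hm0 : ∀ k, a < k → m k = 0 := by
    intro k hk
    have h1 := hex k hk
    rcases (hpm k).2.2 with h2 | h2
    · rw [h2] at h1; linarith
    · exact h2
  obtain ⟨d, hd⟩ : ∃ d : ℕ, W nu m a / C < nu ^ d := pow_unbounded_of_one_lt _ hnu
  have hWm : W nu m (a + d) ≤ max (W nu m a / nu ^ d) 0 :=
    W_le hnu a d 0 (fun k hk hk' => by rw [hm0 k hk]; simp)
  have h1 := hm1 (a + d) (by omega)
  have hnd : 0 < nu ^ d := pow_pos h0 _
  rcases le_max_iff.1 hWm with h | h
  · rw [div_lt_iff₀ hC0] at hd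
    have : W nu m a / nu ^ d < C := by rw [div_lt_iff₀ hnd]; linarith
    linarith
  · linarith

/-- between low times the type of the excursion is constant -/
theorem type_const {A0 mu T : ℝ} (hA : 0 ≤ A0) (hmu : 1 ≤ mu)
    (hT : T = (mu - 1) * A0)
    (hpm : ∀ k, 0 ≤ p k ∧ 0 ≤ m k ∧ (p k = 0 ∨ m k = 0))
    (hp : Lip A0 mu p) {a : ℕ} (h1 : T < p (a + 1)) :
    ∀ n : ℕ, (∀ k, a < k → k ≤ a + 1 + n → ¬ (p k ≤ T ∧ m k ≤ T)) →
      ∀ k, a < k → k ≤ a + 1 + n → T < p k := by
  have hT0 : 0 ≤ T := by rw [hT]; exact mul_nonneg (by linarith) hA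
  intro n
  induction n with
  | zero => intro _ k hk hk'; obtain rfl : k = a + 1 := by omega
            exact h1
  | succ n ih =>
    intro hlow k hk hk'
    have ih' := ih (fun k hk hk' => hlow k hk (by omega))
    rcases Nat.eq_or_lt_of_le hk' with rfl | hk'
    · have h2 := ih' (a + 1 + n) (by omega) le_rfl
      have h3 : m (a + 1 + (n + 1)) = 0 := by
        by_contra hne
        have h4 : p (a + 1 + (n + 1)) = 0 := ((hpm _).2.2).resolve_right hne
        have h5 := (hp (a + 1 + n)).2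
        have e : a + 1 + n + 1 = a + 1 + (n + 1) := by omega
        rw [e, h4] at h5
        nlinarith
      have h6 := hlow (a + 1 + (n + 1)) (by omega) le_rfl
      by_contra hlt
      exact h6 ⟨not_lt.1 hlt, by rw [h3]; exact hT0⟩
    · exact ih' k hk (by omega)

/-- (H1) the history lemma -/
theorem hist (A0 mu nu : ℝ) (hA : 0 ≤ A0) (hmu : 1 ≤ mu) (hnu : 1 < nu) (hmn : mu ≤ nu ^ 3) :
    ∃ C : ℝ, 0 < C ∧ ∀ p m : ℕ → ℝ,
      (∀ k, 0 ≤ p k ∧ 0 ≤ m k ∧ (p k = 0 ∨ m k = 0)) →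
      (∀ k, A0 + p (k + 1) ≤ mu * (A0 + p k) ∧ A0 + p k ≤ mu * (A0 + p (k + 1))) →
      (∀ k, A0 + m (k + 1) ≤ mu * (A0 + m k) ∧ A0 + m k ≤ mu * (A0 + m (k + 1))) →
      ∃ᶠ k in atTop, (∀ j ≤ k, p j ≤ C * nu ^ (k - j)) ∨ (∀ j ≤ k, m j ≤ C * nu ^ (k - j)) := by
  set T : ℝ := (mu - 1) * A0 with hT
  have hT0 : 0 ≤ T := mul_nonneg (by linarith) hA
  set C : ℝ := 2 * (A0 + T) + 1 with hC
  have hCpos : 0 < C := by linarith
  refine ⟨C, hCpos, fun p m hpm hp hm => ?_⟩
  have h0 : 0 < nu := by linarith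
  have hpm' : ∀ k, 0 ≤ m k ∧ 0 ≤ p k ∧ (m k = 0 ∨ p k = 0) :=
    fun k => ⟨(hpm k).2.1, (hpm k).1, (hpm k).2.2.symm⟩
  by_contra hcon
  rw [not_frequently, eventually_atTop] at hcon
  obtain ⟨k0, hk0⟩ := hcon
  have hWp : ∀ k, k0 ≤ k → C < W nu p k := by
    intro k hk
    by_contra hle
    refine hk0 k hk (Or.inl fun j hj => ?_)
    exact (W_bound hnu k j hj).trans
      (mul_le_mul_of_nonneg_right (not_lt.1 hle) (pow_pos h0 _).le)
  have hWm : ∀ k, k0 ≤ k → C < W nu m k := by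
    intro k hk
    by_contra hle
    refine hk0 k hk (Or.inr fun j hj => ?_)
    exact (W_bound hnu k j hj).trans
      (mul_le_mul_of_nonneg_right (not_lt.1 hle) (pow_pos h0 _).le)
  -- low times are cofinal
  have hlow : ∀ a, k0 ≤ a → ∃ b, a < b ∧ p b ≤ T ∧ m b ≤ T := by
    intro a ha
    by_contra hno
    push Not at hno
    have hno' : ∀ k, a < k → ¬ (p k ≤ T ∧ m k ≤ T) := fun k hk h => by
      have := hno k hk h.1; linarith [h.2]
    rcases lt_or_ge T (p (a + 1)) with h | h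
    · refine no_escape hA hmu hnu hT hCpos hpm (a := a) (fun k hk => ?_)
        (fun k hk => hWm k (by omega))
      exact type_const hA hmu hT hpm hp h (k - a - 1)
        (fun k' h1 _ => hno' k' h1) k hk (by omega)
    · have h' : T < m (a + 1) := hno (a + 1) (by omega) h
      refine no_escape hA hmu hnu hT hCpos hpm' (a := a) (fun k hk => ?_)
        (fun k hk => hWp k (by omega))
      exact type_const hA hmu hT hpm' hm h' (k - a - 1)
        (fun k' h1 _ h2 => hno' k' h1 ⟨h2.2, h2.1⟩) k hk (by omega)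
  -- one step
  have hstep : ∀ a, k0 ≤ a → p a ≤ T → m a ≤ T → ∃ b, k0 ≤ b ∧ p b ≤ T ∧ m b ≤ T ∧
      max (W nu p b) (W nu m b) ≤ max (W nu p a) (W nu m a) / min nu 2 := by
    intro a ha hpa hma
    classical
    have hex := hlow a ha
    let b := Nat.find hex
    have hb : a < b ∧ p b ≤ T ∧ m b ≤ T := Nat.find_spec hex
    have hbmin : ∀ k, a < k → k < b → ¬ (p k ≤ T ∧ m k ≤ T) := fun k hk hkb h =>
      Nat.find_min hex hkb ⟨hk, h.1, h.2⟩
    refine ⟨b, by omega, hb.2.1, hb.2.2, ?_⟩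
    obtain ⟨d, hd⟩ : ∃ d, b = a + d := ⟨b - a, by omega⟩
    rw [hd] at hb hbmin ⊢
    rcases Nat.lt_or_ge d 2 with hd2 | hd2
    · obtain rfl : d = 1 := by omega
      exact low_step hA hmu hnu hT le_rfl hb.2.1 hb.2.2 (hWm _ (by omega)) (hWp _ (by omega))
    · rcases lt_or_ge T (p (a + 1)) with h | h
      · refine exc hA hmu hnu hmn hT hpm hp le_rfl hd2 hpa hb.2.1 (fun k hk hk' => ?_)
          (hWm _ (by omega)) (hWp _ (by omega))
        exact type_const hA hmu hT hpm hp h (d - 2)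
          (fun k' h1 h2 => hbmin k' h1 (by omega)) k hk (by omega)
      · have h' : T < m (a + 1) := by
          by_contra hle
          exact hbmin (a + 1) (by omega) (by omega) ⟨h, not_lt.1 hle⟩
        have h3 := exc hA hmu hnu hmn hT hpm' hm le_rfl hd2 hma hb.2.2 (fun k hk hk' => by
          exact type_const hA hmu hT hpm' hm h' (d - 2)
            (fun k' h1 h2 h3 => hbmin k' h1 (by omega) ⟨h3.2, h3.1⟩) k hk (by omega))
          (hWp _ (by omega)) (hWm _ (by omega))
        rw [max_comm (W nu p (a + d)), max_comm (W nu p a)]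
        exact h3
  -- iterate
  obtain ⟨a0, ha0, hpa0, hma0⟩ := hlow k0 le_rfl
  have hdel : 1 < min nu 2 := lt_min hnu (by norm_num)
  have hdel0 : 0 < min nu 2 := by linarith
  have hiter : ∀ n : ℕ, ∃ b, k0 ≤ b ∧ p b ≤ T ∧ m b ≤ T ∧
      max (W nu p b) (W nu m b) ≤ max (W nu p a0) (W nu m a0) / (min nu 2) ^ n := by
    intro n
    induction n with
    | zero => exact ⟨a0, ha0.le, hpa0, hma0, by simp⟩
    | succ n ih =>
      obtain ⟨b, h1, h2, h3, h4⟩ := ih
      obtain ⟨b', h1', h2', h3', h4'⟩ := hstep b h1 h2 h3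
      refine ⟨b', h1', h2', h3', h4'.trans ?_⟩
      rw [pow_succ, ← div_div]
      exact div_le_div_of_nonneg_right h4 hdel0.le
  obtain ⟨n, hn⟩ : ∃ n : ℕ, max (W nu p a0) (W nu m a0) / C < (min nu 2) ^ n :=
    pow_unbounded_of_one_lt _ hdel
  obtain ⟨b, h1, _, _, h4⟩ := hiter n
  have h5 := hWp b h1
  have h6 : max (W nu p a0) (W nu m a0) / (min nu 2) ^ n < C := by
    rw [div_lt_iff₀ (pow_pos hdel0 n)]
    rw [div_lt_iff₀ hCpos] at hn
    linarith
  have h7 := le_max_left (W nu p b) (W nu m b)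
  linarith

end Crest.Agent.R102.Hist672
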