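import Mathlib

/-!
Row 102, EDGE, step (H) of helper972 #28692 (history lemma), pure real analysis.

`t = log (1/s)` is the logarithmic scale. `a`, `b ≥ 0` continuous on `[t0, ∞)`, one of them zero at
each time, `a + K`, `b + K` change at most by the factor `exp |t' - t|`. Then for arbitrarily large
`t` the whole history of `a` (or the whole history of `b`) up to `t` is dominated by
`(K+1) * exp (θ (t - t'))`, `θ ≥ 1/3`.
-/

set_option autoImplicit false

open Set Filter Topology Real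

noncomputable section

namespace Crest.Agent.R102.Hist725

/-- the excursion around a positive time -/
theorem run {t0 : ℝ} {a : ℝ → ℝ} (ha : ContinuousOn a (Ici t0)) (ha0 : ∀ t, t0 ≤ t → 0 ≤ a t)
    {l0 r0 t' : ℝ} (h0 : t0 ≤ l0) (h1 : l0 ≤ t') (h2 : t' ≤ r0) (hl : a l0 = 0) (hr : a r0 = 0)
    (hp : 0 < a t') :
    ∃ l r, l0 ≤ l ∧ l < t' ∧ t' < r ∧ r ≤ r0 ∧ a l = 0 ∧ a r = 0 ∧ ∀ x ∈ Ioo l r, 0 < a x := by
  have hc1 : IsCompact (Icc l0 t' ∩ a ⁻¹' {0}) := by
    have : IsClosed (Icc l0 t' ∩ a ⁻¹' {0}) :=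
      (ha.mono fun x hx => h0.trans hx.1).preimage_isClosed_of_isClosed isClosed_Icc
        isClosed_singleton
    exact isCompact_Icc.of_isClosed_subset this inter_subset_left
  have hc2 : IsCompact (Icc t' r0 ∩ a ⁻¹' {0}) := by
    have : IsClosed (Icc t' r0 ∩ a ⁻¹' {0}) :=
      (ha.mono fun x hx => (h0.trans h1).trans hx.1).preimage_isClosed_of_isClosed isClosed_Icc
        isClosed_singleton
    exact isCompact_Icc.of_isClosed_subset this inter_subset_left
  obtain ⟨l, hlm, hlg⟩ := hc1.exists_isGreatest ⟨l0, ⟨le_rfl, h1⟩, hl⟩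
  obtain ⟨r, hrm, hrg⟩ := hc2.exists_isLeast ⟨r0, ⟨h2, le_rfl⟩, hr⟩
  have hl0 : a l = 0 := hlm.2
  have hr0 : a r = 0 := hrm.2
  have hlt : l < t' := lt_of_le_of_ne hlm.1.2 (by rintro rfl; exact hp.ne' hl0)
  have hrt : t' < r := lt_of_le_of_ne hrm.1.1 (by rintro rfl; exact hp.ne' hr0)
  refine ⟨l, r, hlm.1.1, hlt, hrt, hrm.1.2, hl0, hr0, fun x hx => ?_⟩
  have hx0 : t0 ≤ x := (h0.trans hlm.1.1).trans hx.1.le
  refine lt_of_le_of_ne (ha0 x hx0) fun h => ?_
  rcases le_total x t' with hxt | hxt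
  · exact absurd (hlg ⟨⟨hlm.1.1.trans hx.1.le, hxt⟩, h.symm⟩) (not_le.2 hx.1)
  · exact absurd (hrg ⟨⟨hxt, hx.2.le.trans hrm.1.2⟩, h.symm⟩) (not_le.2 hx.2)

/-- the data -/
structure HD (t0 K : ℝ) (a b : ℝ → ℝ) : Prop where
  one_le : 1 ≤ K
  ca : ContinuousOn a (Ici t0)
  cb : ContinuousOn b (Ici t0)
  a0 : ∀ t, t0 ≤ t → 0 ≤ a t
  b0 : ∀ t, t0 ≤ t → 0 ≤ b t
  ab : ∀ t, t0 ≤ t → a t = 0 ∨ b t = 0
  la : ∀ t, t0 ≤ t → ∀ t', t0 ≤ t' → a t' + K ≤ exp |t' - t| * (a t + K)
  lb : ∀ t, t0 ≤ t → ∀ t', t0 ≤ t' → b t' + K ≤ exp |t' - t| * (b t + K)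

theorem HD.symm {t0 K : ℝ} {a b : ℝ → ℝ} (h : HD t0 K a b) : HD t0 K b a :=
  ⟨h.one_le, h.cb, h.ca, h.b0, h.a0, fun t ht => (h.ab t ht).symm, h.lb, h.la⟩

/-- `b` vanishes on the closure of an excursion of `a` -/
theorem HD.b_zero {t0 K : ℝ} {a b : ℝ → ℝ} (h : HD t0 K a b) {l r : ℝ} (hl : t0 ≤ l) (hlr : l < r)
    (hp : ∀ x ∈ Ioo l r, 0 < a x) : ∀ x ∈ Icc l r, b x = 0 := by
  have h1 : ∀ x ∈ Ioo l r, b x = 0 := fun x hx =>
    (h.ab x (hl.trans hx.1.le)).resolve_left (hp x hx).ne'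
  have hc : IsClosed (Icc l r ∩ b ⁻¹' {0}) :=
    (h.cb.mono fun x hx => hl.trans hx.1).preimage_isClosed_of_isClosed isClosed_Icc
      isClosed_singleton
  intro x hx
  have h2 : Icc l r ⊆ Icc l r ∩ b ⁻¹' {0} := by
    rw [← closure_Ioo hlr.ne]
    refine closure_minimal ?_ (by rw [closure_Ioo hlr.ne]; exact hc)
    intro y hy
    exact ⟨by rw [closure_Ioo hlr.ne]; exact Ioo_subset_Icc_self hy, h1 y hy⟩
  exact (h2 hx).2

/-- the excursion estimate -/
theorem HD.exc {t0 K θ : ℝ} {a b : ℝ → ℝ} (h : HD t0 K a b) (hθ : 1 / 3 ≤ θ) {M : ℝ}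
    {l r t' : ℝ} (hl : t0 ≤ l) (hlt : l < t') (htr : t' < r) (hal : a l = 0) (har : a r = 0)
    (hp : ∀ x ∈ Ioo l r, 0 < a x)
    (hM : ∀ x ∈ Icc t0 l, b x ≤ M * exp (θ * (l - x)))
    (hC : ∃ x ∈ Icc t0 r, (K + 1) * exp (θ * (r - x)) < b x) :
    a t' ≤ K / (K + 1) * M * exp (θ * (r - t')) := by
  have hK := h.one_le
  have hb := h.b_zero hl (hlt.trans htr) hp
  obtain ⟨x, hx, hbx⟩ := hC
  have hbx0 : 0 < b x := lt_trans (by positivity) hbx
  have hxl : x ≤ l := by
    by_contra hcon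
    push Not at hcon
    exact hbx0.ne' (hb x ⟨hcon.le, hx.2⟩)
  have h1 := hM x ⟨hx.1, hxl⟩
  -- `(K+1) exp (θ (r - l)) < M`
  have h2 : (K + 1) * exp (θ * (r - l)) < M := by
    have h3 : (K + 1) * exp (θ * (r - x)) < M * exp (θ * (l - x)) := hbx.trans_le h1
    have h4 : exp (θ * (r - x)) = exp (θ * (r - l)) * exp (θ * (l - x)) := by
      rw [← exp_add]; congr 1; ring
    rw [h4, ← mul_assoc] at h3
    exact lt_of_mul_lt_mul_right h3 (exp_pos _).le
  -- the two Lipschitz bounds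
  have ht' : t0 ≤ t' := hl.trans hlt.le
  have e1 : a t' ≤ K * exp (t' - l) := by
    have := h.la l hl t' ht'
    rw [hal, abs_of_pos (by linarith), zero_add] at this
    linarith
  have e2 : a t' ≤ K * exp (r - t') := by
    have := h.la r (ht'.trans htr.le) t' ht'
    rw [har, abs_of_neg (by linarith), zero_add, neg_sub] at this
    linarith
  have e3 : a t' ≤ K * exp (θ * (r - l) + θ * (r - t')) := by
    have hK0 : 0 < K := by linarith
    rcases le_total (r - t') (t' - l) with hc | hc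
    · refine e2.trans (mul_le_mul_of_nonneg_left (exp_le_exp.2 ?_) hK0.le)
      nlinarith
    · refine e1.trans (mul_le_mul_of_nonneg_left (exp_le_exp.2 ?_) hK0.le)
      nlinarith
  rw [exp_add] at e3
  have hK1 : 0 < K + 1 := by linarith
  have h5 : exp (θ * (r - l)) ≤ M / (K + 1) := by
    rw [le_div_iff₀ hK1]; linarith
  calc a t' ≤ K * (exp (θ * (r - l)) * exp (θ * (r - t'))) := e3
    _ ≤ K * (M / (K + 1) * exp (θ * (r - t'))) := by
        have := exp_pos (θ * (r - t'))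
        gcongr
    _ = K / (K + 1) * M * exp (θ * (r - t')) := by ring

/-- domination of the history up to `t` -/
def Dom (t0 θ M : ℝ) (a : ℝ → ℝ) (t : ℝ) : Prop := ∀ x ∈ Icc t0 t, a x ≤ M * exp (θ * (t - x))

theorem Dom.mono {t0 θ M M' : ℝ} {a : ℝ → ℝ} {t : ℝ} (h : Dom t0 θ M a t) (hM : M ≤ M') :
    Dom t0 θ M' a t := fun x hx => (h x hx).trans (mul_le_mul_of_nonneg_right hM (exp_pos _).le)

/-- one side, with the start `t1` -/
theorem HD.next {t0 K θ : ℝ} {a b : ℝ → ℝ} (h : HD t0 K a b) (hθ : 1 / 3 ≤ θ) {M N t1 t : ℝ}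
    (hN : 0 ≤ N)
    (ht1 : t0 ≤ t1) (ha1 : a t1 = 0) (hat : a t = 0)
    (hold : ∀ x ∈ Icc t0 t1, a x ≤ N * exp (θ * (t - x)))
    (hMN : K / (K + 1) * M ≤ N)
    (hM : ∀ l, t1 ≤ l → l + log 2 ≤ t ∨ M = N ∨ l ≤ t → a l = 0 → b l = 0 →
      (∃ x, l < x ∧ x ≤ t ∧ N * exp (θ * (t - x)) < a x) → Dom t0 θ M b l)
    (hC : ∀ r, t1 ≤ r → r ≤ t → ∃ x ∈ Icc t0 r, (K + 1) * exp (θ * (r - x)) < b x) :
    Dom t0 θ N a t := by
  intro x hx
  by_contra hcon
  push Not at hcon
  have hx1 : t1 < x := by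
    by_contra h2
    push Not at h2
    exact absurd (hold x ⟨hx.1, h2⟩) (not_le.2 hcon)
  have hp : 0 < a x := lt_of_le_of_lt (by positivity) hcon
  obtain ⟨l, r, h1, h2, h3, h4, h5, h6, h7⟩ := run h.ca h.a0 ht1 hx1.le hx.2 ha1 hat hp
  have hl0 : t0 ≤ l := ht1.trans h1
  have hbl : b l = 0 := h.b_zero hl0 (h2.trans h3) h7 l ⟨le_rfl, (h2.trans h3).le⟩
  have hD := hM l h1 (Or.inr (Or.inr (h2.le.trans hx.2))) h5 hbl ⟨x, h2, hx.2, hcon⟩
  have hfin := h.exc hθ hl0 h2 h3 h5 h6 h7 hD (hC r (h1.trans (h2.trans h3).le) h4)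
  have h8 : K / (K + 1) * M * exp (θ * (r - x)) ≤ N * exp (θ * (t - x)) := by
    have h9 : exp (θ * (r - x)) ≤ exp (θ * (t - x)) := exp_le_exp.2 (by nlinarith)
    calc K / (K + 1) * M * exp (θ * (r - x)) ≤ N * exp (θ * (r - x)) :=
          mul_le_mul_of_nonneg_right hMN (exp_pos _).le
      _ ≤ N * exp (θ * (t - x)) := mul_le_mul_of_nonneg_left h9 hN
  linarith

/-- **the history lemma** -/
theorem hist {t0 K θ : ℝ} {a b : ℝ → ℝ} (h : HD t0 K a b) (hθ : 1 / 3 ≤ θ) (T : ℝ) :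
    ∃ t, T ≤ t ∧ t0 ≤ t ∧ (Dom t0 θ (K + 1) a t ∨ Dom t0 θ (K + 1) b t) := by
  by_contra hcon
  push Not at hcon
  have hK := h.one_le
  have hθ0 : 0 < θ := by linarith
  have hnot : ∀ t, T ≤ t → t0 ≤ t → (∃ x ∈ Icc t0 t, (K + 1) * exp (θ * (t - x)) < a x) ∧
      ∃ x ∈ Icc t0 t, (K + 1) * exp (θ * (t - x)) < b x := by
    intro t h1 h2
    have := hcon t h1 h2
    simp only [Dom, not_forall, not_le, exists_prop] at this
    exact this
  -- zero times are unbounded
  have hzero : ∀ T' : ℝ, ∃ t, T' ≤ t ∧ a t = 0 ∧ b t = 0 := by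
    intro T'
    by_contra hz
    push Not at hz
    set S : ℝ := max (max T' T) t0 with hS
    have hST' : T' ≤ S := (le_max_left _ _).trans (le_max_left _ _)
    have hST : T ≤ S := (le_max_right _ _).trans (le_max_left _ _)
    have hSt0 : t0 ≤ S := le_max_right _ _
    -- one of them is positive for ever
    have hpos : (∀ t, S ≤ t → b t = 0) ∨ (∀ t, S ≤ t → a t = 0) := by
      by_contra hcc
      push Not at hcc
      obtain ⟨⟨p, hp, hbp⟩, ⟨q, hq, haq⟩⟩ := hcc
      -- `f = a - b` changes sign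
      have hap : a p = 0 := (h.ab p (hSt0.trans hp)).resolve_right hbp
      have hbq : b q = 0 := (h.ab q (hSt0.trans hq)).resolve_left haq
      have hbp' : 0 < b p := lt_of_le_of_ne (h.b0 p (hSt0.trans hp)) (Ne.symm hbp)
      have haq' : 0 < a q := lt_of_le_of_ne (h.a0 q (hSt0.trans hq)) (Ne.symm haq)
      have hfc : ContinuousOn (fun x => a x - b x) (Ici S) :=
        (h.ca.sub h.cb).mono fun x hx => hSt0.trans hx
      have hpre : IsPreconnected (Ici S) := isPreconnected_Ici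
      obtain ⟨x, hx, hfx⟩ := hpre.intermediate_value (a := p) (b := q) hp hq hfc
        (show (0 : ℝ) ∈ Icc (a p - b p) (a q - b q) from ⟨by rw [hap]; linarith, by rw [hbq]; linarith⟩)
      have hx0 : t0 ≤ x := hSt0.trans hx
      have hfx' : a x - b x = 0 := hfx
      rcases h.ab x hx0 with h1 | h1
      · exact hz x (hST'.trans hx) h1 (by linarith)
      · exact hz x (hST'.trans hx) (by linarith) h1
    -- the other history dies
    have hdie : ∀ c : ℝ → ℝ, ContinuousOn c (Ici t0) → (∀ t, t0 ≤ t → 0 ≤ c t) →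
        (∀ t, S ≤ t → c t = 0) → ∃ t, S ≤ t ∧ Dom t0 θ (K + 1) c t := by
      intro c hc _ hcz
      obtain ⟨B, hB⟩ := (isCompact_Icc (a := t0) (b := S)).exists_bound_of_continuousOn
        (hc.mono fun x hx => hx.1)
      have hB0 : 0 ≤ B := (norm_nonneg _).trans (hB t0 ⟨le_rfl, hSt0⟩)
      refine ⟨S + B / θ, by have : 0 ≤ B / θ := by positivity
                            linarith, fun x hx => ?_⟩
      rcases le_total x S with hxS | hxS
      · have h1 : c x ≤ B := (le_abs_self _).trans (hB x ⟨hx.1, hxS⟩)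
        have h2 : B ≤ exp (θ * (S + B / θ - x)) := by
          have h3 : B ≤ θ * (S + B / θ - x) := by
            have : θ * (S + B / θ - x) = θ * (S - x) + B := by field_simp; ring
            rw [this]; nlinarith
          exact h3.trans ((by linarith [add_one_le_exp (θ * (S + B / θ - x))]))
        have h4 := exp_pos (θ * (S + B / θ - x))
        nlinarith
      · rw [hcz x hxS]
        positivity
    rcases hpos with hb | ha
    · obtain ⟨t, ht, hD⟩ := hdie b h.cb h.b0 hb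
      exact (hcon t (hST.trans ht) (hSt0.trans ht)).2 hD
    · obtain ⟨t, ht, hD⟩ := hdie a h.ca h.a0 ha
      exact (hcon t (hST.trans ht) (hSt0.trans ht)).1 hD
  -- a first zero time
  obtain ⟨t1, ht1, ha1, hb1⟩ := hzero (max T t0)
  have hTt1 : T ≤ t1 := (le_max_left _ _).trans ht1
  have ht01 : t0 ≤ t1 := (le_max_right _ _).trans ht1
  -- initial bound
  obtain ⟨Ba, hBa⟩ := (isCompact_Icc (a := t0) (b := t1)).exists_bound_of_continuousOn
    (h.ca.mono fun x hx => hx.1)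
  obtain ⟨Bb, hBb⟩ := (isCompact_Icc (a := t0) (b := t1)).exists_bound_of_continuousOn
    (h.cb.mono fun x hx => hx.1)
  set M0 : ℝ := max (K + 1) (max Ba Bb) with hM0
  have hM0K : K + 1 ≤ M0 := le_max_left _ _
  have hM0a : Ba ≤ M0 := (le_max_left _ _).trans (le_max_right _ _)
  have hM0b : Bb ≤ M0 := (le_max_right _ _).trans (le_max_right _ _)
  have hM00 : 0 ≤ M0 := by linarith
  have hρ : K / (K + 1) ≤ 1 := by rw [div_le_one (by linarith)]; linarith
  have hρ0 : 0 ≤ K / (K + 1) := by positivity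
  have oldA : ∀ t, t1 ≤ t → ∀ x ∈ Icc t0 t1, a x ≤ M0 * exp (θ * (t - x)) := by
    intro t ht x hx
    have h1 : a x ≤ M0 := ((le_abs_self _).trans (hBa x hx)).trans hM0a
    have h2 : 1 ≤ exp (θ * (t - x)) := one_le_exp (by nlinarith [hx.2])
    nlinarith
  have oldB : ∀ t, t1 ≤ t → ∀ x ∈ Icc t0 t1, b x ≤ M0 * exp (θ * (t - x)) := by
    intro t ht x hx
    have h1 : b x ≤ M0 := ((le_abs_self _).trans (hBb x hx)).trans hM0b
    have h2 : 1 ≤ exp (θ * (t - x)) := one_le_exp (by nlinarith [hx.2])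
    nlinarith
  -- positive excursions above `M0` are long
  have long : ∀ (c d : ℝ → ℝ), HD t0 K c d → ∀ l x t : ℝ, t0 ≤ l → c l = 0 → l < x → x ≤ t →
      M0 * exp (θ * (t - x)) < c x → l + log 2 ≤ t := by
    intro c d hcd l x t hl hcl hlx hxt hcx
    have h1 : 1 ≤ exp (θ * (t - x)) := one_le_exp (by nlinarith)
    have h2 : K + 1 < c x := by nlinarith
    have h3 := hcd.la l hl x (hl.trans hlx.le)
    rw [hcl, abs_of_pos (by linarith), zero_add] at h3
    have h4 : 2 ≤ exp (x - l) := by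
      by_contra h5
      push Not at h5
      nlinarith
    have h5 : log 2 ≤ x - l := by
      rw [← log_exp (x - l)]
      exact log_le_log (by norm_num) h4
    linarith
  have base : ∀ n : ℕ, ∀ t, t1 ≤ t → t ≤ t1 + n * log 2 → a t = 0 → b t = 0 →
      Dom t0 θ M0 a t ∧ Dom t0 θ M0 b t := by
    intro n
    induction n with
    | zero =>
      intro t h1 h2 _ _
      have : t = t1 := by
        simp at h2; linarith
      subst this
      exact ⟨fun x hx => oldA t le_rfl x hx, fun x hx => oldB t le_rfl x hx⟩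
    | succ n ih =>
      intro t h1 h2 hat hbt
      have h2' : t ≤ t1 + n * log 2 + log 2 := by push_cast at h2; linarith
      have hρM : K / (K + 1) * M0 ≤ M0 := by nlinarith
      constructor
      · refine h.next hθ hM00 ht01 ha1 hat (oldA t h1) hρM ?_ ?_
        · rintro l hl - hal hbl ⟨x, hlx, hxt, hx⟩
          have := long a b h l x t (ht01.trans hl) hal hlx hxt hx
          exact (ih l hl (by linarith) hal hbl).2
        · intro r hr _
          exact (hnot r (hTt1.trans hr) (ht01.trans hr)).2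
      · refine h.symm.next hθ hM00 ht01 hb1 hbt (oldB t h1) hρM ?_ ?_
        · rintro l hl - hbl hal ⟨x, hlx, hxt, hx⟩
          have := long b a h.symm l x t (ht01.trans hl) hbl hlx hxt hx
          exact (ih l hl (by linarith) hal hbl).1
        · intro r hr _
          exact (hnot r (hTt1.trans hr) (ht01.trans hr)).1
  have base' : ∀ t, t1 ≤ t → a t = 0 → b t = 0 → Dom t0 θ M0 a t ∧ Dom t0 θ M0 b t := by
    intro t h1 h2 h3
    obtain ⟨n, hn⟩ := exists_nat_ge ((t - t1) / log 2)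
    have hl2 : 0 < log 2 := log_pos (by norm_num)
    rw [div_le_iff₀ hl2] at hn
    exact base n t h1 (by linarith) h2 h3
  -- iteration
  have iter : ∀ n : ℕ, ∃ τ, t1 ≤ τ ∧ ∀ t, τ ≤ t → a t = 0 → b t = 0 →
      Dom t0 θ ((K / (K + 1)) ^ n * M0) a t ∧ Dom t0 θ ((K / (K + 1)) ^ n * M0) b t := by
    intro n
    induction n with
    | zero => exact ⟨t1, le_rfl, fun t ht h1 h2 => by simpa using base' t ht h1 h2⟩
    | succ n ih =>
      obtain ⟨τ, hτ, hih⟩ := ih
      obtain ⟨τ', hτ', haτ, hbτ⟩ := hzero τ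
      set M : ℝ := (K / (K + 1)) ^ n * M0 with hM
      have hMnn : 0 ≤ M := by positivity
      have hKp : 0 < K / (K + 1) := by positivity
      -- wait time
      set ω : ℝ := log ((K + 1) / K) / θ with hω
      have hω0 : 0 ≤ ω := by
        refine div_nonneg (log_nonneg ?_) hθ0.le
        rw [le_div_iff₀ (by linarith)]; linarith
      have hexp : exp (-(θ * ω)) = K / (K + 1) := by
        have : θ * ω = log ((K + 1) / K) := by rw [hω]; field_simp
        rw [this, exp_neg, exp_log (by positivity), inv_div]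
      have hsucc : (K / (K + 1)) ^ (n + 1) * M0 = K / (K + 1) * M := by rw [hM, pow_succ]; ring
      have hNn : 0 ≤ K / (K + 1) * M := by positivity
      have h0τ' : t0 ≤ τ' := ht01.trans (hτ.trans hτ')
      have old : ∀ c : ℝ → ℝ, Dom t0 θ M c τ' → ∀ t, τ' + ω ≤ t → ∀ x ∈ Icc t0 τ',
          c x ≤ K / (K + 1) * M * exp (θ * (t - x)) := by
        intro c hc t ht x hx
        refine (hc x hx).trans ?_
        have h1 : exp (θ * (τ' - x)) ≤ K / (K + 1) * exp (θ * (t - x)) := by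
          rw [← hexp, ← exp_add]
          exact exp_le_exp.2 (by nlinarith)
        calc M * exp (θ * (τ' - x)) ≤ M * (K / (K + 1) * exp (θ * (t - x))) :=
              mul_le_mul_of_nonneg_left h1 hMnn
          _ = K / (K + 1) * M * exp (θ * (t - x)) := by ring
      refine ⟨τ' + ω, by linarith, fun t ht hat hbt => ?_⟩
      have hDτ := hih τ' hτ' haτ hbτ
      rw [hsucc]
      constructor
      · refine h.next hθ hNn h0τ' haτ hat (old a hDτ.1 t ht) le_rfl ?_ ?_
        · rintro l hl - hal hbl -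
          exact (hih l (hτ'.trans hl) hal hbl).2
        · intro r hr _
          exact (hnot r (hTt1.trans (hτ.trans (hτ'.trans hr))) (h0τ'.trans hr)).2
      · refine h.symm.next hθ hNn h0τ' hbτ hbt (old b hDτ.2 t ht) le_rfl ?_ ?_
        · rintro l hl - hbl hal -
          exact (hih l (hτ'.trans hl) hal hbl).1
        · intro r hr _
          exact (hnot r (hTt1.trans (hτ.trans (hτ'.trans hr))) (h0τ'.trans hr)).1
  -- conclusion
  have hlt : K / (K + 1) < 1 := by rw [div_lt_one (by linarith)]; linarith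
  obtain ⟨n, hn⟩ := exists_pow_lt_of_lt_one (show (0 : ℝ) < (K + 1) / (M0 + 1) by positivity) hlt
  obtain ⟨τ, hτ, hD⟩ := iter n
  obtain ⟨t, ht, hat, hbt⟩ := hzero τ
  have h1 : (K / (K + 1)) ^ n * M0 ≤ K + 1 := by
    have h2 : (K / (K + 1)) ^ n * (M0 + 1) < K + 1 := by
      rwa [lt_div_iff₀ (by linarith)] at hn
    have h3 : 0 ≤ (K / (K + 1)) ^ n := by positivity
    nlinarith
  exact (hcon t (hTt1.trans (hτ.trans ht)) (ht01.trans (hτ.trans ht))).1 ((hD t ht hat hbt).1.mono h1)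

end Crest.Agent.R102.Hist725
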