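import Crest.Agent.R102.IfaceA_929

/-!
Row 102, part (A) (helper929): holomorphy of `Xq`, `Pq` in the base point and the increment,
reality, contour shift on closed strips.
-/

set_option autoImplicit false

open Set Filter Topology Metric Complex MeasureTheory
open scoped Real ContDiff

noncomputable section

namespace Crest.Agent.R102.A929

/-! ### exponentials -/

lemma ee_add (a b : ℂ) : ee (a + b) = ee a * ee b := by
  unfold ee; rw [← Complex.exp_add]; ring_nf

lemma ee_zero : ee 0 = 1 := by simp [ee]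

lemma ee_neg (a : ℂ) : ee (-a) = (ee a)⁻¹ := by
  unfold ee; rw [← Complex.exp_neg]; ring_nf

lemma ee_ne_zero (a : ℂ) : ee a ≠ 0 := Complex.exp_ne_zero _

lemma ee_int (n : ℤ) : ee (n : ℂ) = 1 := by
  unfold ee
  rw [Complex.exp_eq_one_iff]
  exact ⟨n, by ring⟩

lemma norm_ee (z : ℂ) : ‖ee z‖ = Real.exp (-(2 * π * z.im)) := by
  unfold ee
  rw [Complex.norm_exp]
  congr 1
  simp [Complex.mul_re, Complex.mul_im]

lemma differentiable_ee : Differentiable ℂ ee := by
  unfold ee; fun_prop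

lemma continuous_ee : Continuous ee := differentiable_ee.continuous

lemma hasDerivAt_ee (z : ℂ) : HasDerivAt ee (2 * π * I * ee z) z := by
  unfold ee
  have h := ((hasDerivAt_id z).const_mul (2 * π * I)).cexp
  refine h.congr_deriv ?_
  simp only [id]
  ring

/-! ### contour shift on a closed strip -/

theorem strip_shift {g : ℂ → ℂ} {η : ℝ} (hg : DifferentiableOn ℂ g (St η))
    (hper : ∀ z ∈ St η, g (z + 1) = g z) {s : ℂ} (hs : |s.im| ≤ η) :
    ∫ x in (0 : ℝ)..1, g (x + s) = ∫ x in (0 : ℝ)..1, g x := by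
  have h1 : ∫ x in (0 : ℝ)..1, g (x + s) = ∫ x in (0 : ℝ)..1, g (x + s.im * I) := by
    have hp : Function.Periodic (fun y : ℝ => g (y + s.im * I)) 1 := by
      intro y
      have := hper (y + s.im * I) (by simpa [St] using hs)
      beta_reduce
      rw [← this]
      congr 1
      push_cast
      ring
    have h2 := hp.intervalIntegral_add_eq s.re 0
    rw [zero_add] at h2
    rw [← h2]
    have h3 := intervalIntegral.integral_comp_add_right (fun y : ℝ => g (y + s.im * I)) s.re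
      (a := 0) (b := 1)
    rw [zero_add, add_comm (1 : ℝ)] at h3
    rw [← h3]
    refine intervalIntegral.integral_congr (fun x _ => ?_)
    congr 1
    push_cast
    rw [add_assoc, Complex.re_add_im]
  rw [h1]
  have hsub : (uIcc (0 : ℂ).re (1 + s.im * I : ℂ).re ×ℂ uIcc (0 : ℂ).im (1 + s.im * I : ℂ).im) ⊆
      St η := by
    intro z hz
    rw [Complex.mem_reProdIm] at hz
    have h4 := hz.2
    simp only [Complex.zero_im, Complex.add_im, Complex.one_im, Complex.mul_im, Complex.ofReal_re,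
      Complex.I_im, mul_one, Complex.ofReal_im, Complex.I_re, mul_zero, add_zero, zero_add] at h4
    have h5 : |z.im| ≤ |s.im| := by
      rcases le_total 0 s.im with h | h
      · rw [uIcc_of_le h] at h4
        rw [abs_of_nonneg h4.1, abs_of_nonneg h]; exact h4.2
      · rw [uIcc_of_ge h] at h4
        rw [abs_of_nonpos h4.2, abs_of_nonpos h]; linarith [h4.1]
    exact h5.trans hs
  have hrect := Complex.integral_boundary_rect_eq_zero_of_differentiableOn g 0 (1 + s.im * I)
    (hg.mono hsub)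
  simp only [Complex.zero_im, Complex.add_im, Complex.one_im, Complex.mul_im, Complex.ofReal_re,
      Complex.I_im, mul_one, Complex.ofReal_im, Complex.I_re, mul_zero, add_zero, zero_add,
      Complex.zero_re, Complex.add_re, Complex.one_re, Complex.mul_re, sub_zero, Complex.ofReal_zero,
      zero_mul, Complex.ofReal_one] at hrect
  have hvert : (∫ y in (0 : ℝ)..s.im, g (1 + y * I)) = ∫ y in (0 : ℝ)..s.im, g (y * I) := by
    refine intervalIntegral.integral_congr (fun y hy => ?_)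
    have h5 : |y| ≤ η := by
      refine le_trans ?_ hs
      rcases le_total 0 s.im with h | h
      · rw [uIcc_of_le h] at hy
        rw [abs_of_nonneg hy.1, abs_of_nonneg h]; exact hy.2
      · rw [uIcc_of_ge h] at hy
        rw [abs_of_nonpos hy.2, abs_of_nonpos h]; linarith [hy.1]
    have := hper (y * I) (by simpa [St] using h5)
    rw [← this, add_comm]
  rw [hvert] at hrect
  have h6 : (∫ x in (0 : ℝ)..1, g (x : ℂ)) - ∫ x in (0 : ℝ)..1, g (x + s.im * I) = 0 := by
    linear_combination hrect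
  exact (sub_eq_zero.1 h6).symm

/-- decay of Fourier coefficients of a function holomorphic on a closed strip -/
theorem norm_coeff_le {g : ℂ → ℂ} {η A : ℝ} (hη : 0 ≤ η) (hg : DifferentiableOn ℂ g (St η))
    (hper : ∀ z ∈ St η, g (z + 1) = g z) (hA : ∀ z ∈ St η, ‖g z‖ ≤ A) (k : ℤ) :
    ‖∫ x in (0 : ℝ)..1, g x * ee (-(k * x))‖ ≤ A * Real.exp (-(2 * π * η * |(k : ℝ)|)) := by
  obtain ⟨σ, hσ1, hσ2⟩ : ∃ σ : ℝ, |σ| = η ∧ (k : ℝ) * σ = - (|(k : ℝ)| * η) := by
    rcases le_total 0 k with h | h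
    · refine ⟨-η, by rw [abs_neg, abs_of_nonneg hη], ?_⟩
      rw [abs_of_nonneg (by exact_mod_cast h : (0 : ℝ) ≤ (k : ℝ))]; ring
    · refine ⟨η, abs_of_nonneg hη, ?_⟩
      rw [abs_of_nonpos (by exact_mod_cast h : ((k : ℝ)) ≤ 0)]; ring
  have hd : DifferentiableOn ℂ (fun z => g z * ee (-(k * z))) (St η) :=
    hg.mul (differentiable_ee.comp (by fun_prop)).differentiableOn
  have h3 := strip_shift (g := fun z => g z * ee (-(k * z))) hd (fun z hz => by
    rw [hper z hz]
    congr 1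
    rw [show (-((k : ℂ) * (z + 1))) = -(k * z) + ((-k : ℤ) : ℂ) by push_cast; ring, ee_add, ee_int,
      mul_one]) (s := σ * I) (by simp [hσ1])
  rw [← h3]
  have h5 := intervalIntegral.norm_integral_le_of_norm_le_const
    (f := fun x : ℝ => g (x + σ * I) * ee (-(k * (x + σ * I)))) (a := 0) (b := 1)
    (C := A * Real.exp (-(2 * π * η * |(k : ℝ)|))) (fun x _ => ?_)
  · simpa using h5
  · rw [norm_mul, norm_ee]
    have h6 : ((x : ℂ) + σ * I) ∈ St η := by simp [St, hσ1]
    have h8 : (-(2 * π * (-((k : ℂ) * (x + σ * I))).im)) = -(2 * π * η * |(k : ℝ)|) := by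
      have : (-((k : ℂ) * (x + σ * I))).im = -((k : ℝ) * σ) := by simp
      rw [this, hσ2]; ring
    rw [h8]
    exact mul_le_mul_of_nonneg_right (hA _ h6) (Real.exp_nonneg _)

/-! ### holomorphy of `Xq` -/

lemma taylor2 {q : ℂ → ℂ} (hq : Differentiable ℂ q) (R : ℝ) :
    ∃ M : ℝ, 0 ≤ M ∧ ∀ y h : ℂ, ‖y‖ ≤ R → ‖h‖ ≤ 1 →
      ‖q (y + h) - q y - h * deriv q y‖ ≤ M * ‖h‖ ^ 2 := by
  have h1 : Differentiable ℂ (deriv q) := by
    have := hq.differentiableOn (s := univ)
    exact differentiableOn_univ.1 (this.deriv isOpen_univ)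
  have h2 : Differentiable ℂ (deriv (deriv q)) := by
    have := h1.differentiableOn (s := univ)
    exact differentiableOn_univ.1 (this.deriv isOpen_univ)
  obtain ⟨M, hM⟩ := (isCompact_closedBall (0 : ℂ) (R + 1)).exists_bound_of_continuousOn
    h2.continuous.continuousOn
  refine ⟨max M 0, le_max_right _ _, fun y h hy hh => ?_⟩
  have hb : ∀ z ∈ closedBall (0 : ℂ) (R + 1), ‖deriv (deriv q) z‖ ≤ max M 0 := fun z hz =>
    (hM z hz).trans (le_max_left _ _)
  have hyh : ∀ t ∈ closedBall (0 : ℂ) ‖h‖, y + t ∈ closedBall (0 : ℂ) (R + 1) := by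
    intro t ht
    rw [mem_closedBall_zero_iff] at ht ⊢
    exact (norm_add_le _ _).trans (by linarith)
  have hd1 : ∀ t ∈ closedBall (0 : ℂ) ‖h‖, ‖deriv q (y + t) - deriv q y‖ ≤ max M 0 * ‖h‖ := by
    intro t ht
    have h3 := Convex.norm_image_sub_le_of_norm_hasDerivWithin_le (𝕜 := ℂ) (f := deriv q)
      (f' := deriv (deriv q)) (s := closedBall (0 : ℂ) (R + 1)) (x := y) (y := y + t)
      (fun z _ => (h1 z).hasDerivAt.hasDerivWithinAt) hb (convex_closedBall _ _)
      (by have := hyh 0 (by simp); simpa using this) (hyh t ht)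
    rw [add_sub_cancel_left] at h3
    exact h3.trans (mul_le_mul_of_nonneg_left (mem_closedBall_zero_iff.1 ht) (le_max_right _ _))
  have h4 := Convex.norm_image_sub_le_of_norm_hasDerivWithin_le (𝕜 := ℂ)
    (f := fun t => q (y + t) - t * deriv q y)
    (f' := fun t => deriv q (y + t) - deriv q y) (s := closedBall (0 : ℂ) ‖h‖) (x := 0) (y := h)
    (C := max M 0 * ‖h‖)
    (fun t _ => by
      have e1 : HasDerivAt (fun t => q (y + t)) (deriv q (y + t)) t := by
        have := (hq (y + t)).hasDerivAt.comp_const_add y t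
        exact this
      have e2 : HasDerivAt (fun t : ℂ => t * deriv q y) (deriv q y) t := by
        have := (hasDerivAt_id t).mul_const (deriv q y)
        simpa using this
      exact (e1.sub e2).hasDerivWithinAt) hd1 (convex_closedBall _ _) (by simp) (by simp)
  simp only [add_zero, zero_mul, sub_zero] at h4
  have h5 : q (y + h) - h * deriv q y - q y = q (y + h) - q y - h * deriv q y := by ring
  rw [h5] at h4
  refine h4.trans (le_of_eq ?_)
  ring

/-- `r ↦ f (x + e r)` as an element of `AA` -/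
def sg (f : ℂ → ℂ) (hf : Continuous f) (x e : ℂ) : AA :=
  (⟨fun r => f (x + e * ((r : ℝ) : ℂ)), by fun_prop⟩ : C(unitInterval, ℂ))

@[simp] lemma sg_apply (f : ℂ → ℂ) (hf : Continuous f) (x e : ℂ) (r : unitInterval) :
    sg f hf x e r = f (x + e * ((r : ℝ) : ℂ)) := rfl

lemma continuous_deriv_of_entire {q : ℂ → ℂ} (hq : Differentiable ℂ q) : Continuous (deriv q) := by
  have := hq.differentiableOn (s := univ)
  exact (differentiableOn_univ.1 (this.deriv isOpen_univ)).continuous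

theorem hasFDerivAt_dq {q : C(ℂ, ℂ)} (hq : Differentiable ℂ q) (p : ℂ × ℂ) :
    HasFDerivAt (fun p : ℂ × ℂ => dq q p.1 p.2)
      ((ContinuousLinearMap.fst ℂ ℂ ℂ).smulRight
          (sg (deriv q) (continuous_deriv_of_entire hq) p.1 p.2 - (deriv q p.1) • (1 : AA)) +
        (ContinuousLinearMap.snd ℂ ℂ ℂ).smulRight
          (sg (deriv q) (continuous_deriv_of_entire hq) p.1 p.2 * iot)) p := by
  obtain ⟨M, hM0, hM⟩ := taylor2 hq (‖p.1‖ + ‖p.2‖)
  rw [hasFDerivAt_iff_isLittleO_nhds_zero]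
  have hO : (fun h : ℂ × ℂ => dq q (p + h).1 (p + h).2 - dq q p.1 p.2 -
      ((ContinuousLinearMap.fst ℂ ℂ ℂ).smulRight
          (sg (deriv q) (continuous_deriv_of_entire hq) p.1 p.2 - (deriv q p.1) • (1 : AA)) +
        (ContinuousLinearMap.snd ℂ ℂ ℂ).smulRight
          (sg (deriv q) (continuous_deriv_of_entire hq) p.1 p.2 * iot)) h) =O[𝓝 0]
      fun h : ℂ × ℂ => ‖h‖ ^ 2 := by
    refine Asymptotics.IsBigO.of_bound (5 * M) ?_
    filter_upwards [Metric.ball_mem_nhds (0 : ℂ × ℂ) (by norm_num : (0 : ℝ) < 1 / 2)] with h hh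
    rw [mem_ball_zero_iff] at hh
    rw [Real.norm_of_nonneg (by positivity)]
    refine (AA.norm_le (by positivity)).2 (fun r => ?_)
    have e1 : (dq q (p + h).1 (p + h).2 - dq q p.1 p.2 -
      ((ContinuousLinearMap.fst ℂ ℂ ℂ).smulRight
          (sg (deriv q) (continuous_deriv_of_entire hq) p.1 p.2 - (deriv q p.1) • (1 : AA)) +
        (ContinuousLinearMap.snd ℂ ℂ ℂ).smulRight
          (sg (deriv q) (continuous_deriv_of_entire hq) p.1 p.2 * iot)) h) r =
        (q ((p.1 + p.2 * ((r : ℝ) : ℂ)) + (h.1 + h.2 * ((r : ℝ) : ℂ))) -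
          q (p.1 + p.2 * ((r : ℝ) : ℂ)) -
          (h.1 + h.2 * ((r : ℝ) : ℂ)) * deriv q (p.1 + p.2 * ((r : ℝ) : ℂ))) -
        (q (p.1 + h.1) - q p.1 - h.1 * deriv q p.1) := by
      have e2 : (p + h).1 + (p + h).2 * ((r : ℝ) : ℂ) =
          (p.1 + p.2 * ((r : ℝ) : ℂ)) + (h.1 + h.2 * ((r : ℝ) : ℂ)) := by
        simp only [Prod.fst_add, Prod.snd_add]; ring
      rw [AA.sub_apply, AA.sub_apply, dq_apply, dq_apply, e2]
      simp only [add_apply, ContinuousLinearMap.smulRight_apply,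
        ContinuousLinearMap.coe_fst', ContinuousLinearMap.coe_snd', AA.add_apply, AA.smul_apply,
        AA.sub_apply, AA.mul_apply, sg_apply, AA.one_apply, iot_apply, Prod.fst_add]
      ring
    rw [e1]
    have n1 : ‖h.1‖ ≤ ‖h‖ := norm_fst_le h
    have n2 : ‖h.2‖ ≤ ‖h‖ := norm_snd_le h
    have nr : ‖(((r : ℝ)) : ℂ)‖ ≤ 1 := by
      rw [Complex.norm_real, Real.norm_of_nonneg r.2.1]; exact r.2.2
    have n3 : ‖h.1 + h.2 * ((r : ℝ) : ℂ)‖ ≤ 2 * ‖h‖ := by
      refine (norm_add_le _ _).trans ?_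
      have := norm_mul_r_le h.2 r
      linarith
    have n4 : ‖p.1 + p.2 * ((r : ℝ) : ℂ)‖ ≤ ‖p.1‖ + ‖p.2‖ :=
      (norm_add_le _ _).trans (add_le_add le_rfl (norm_mul_r_le p.2 r))
    have b1 := hM (p.1 + p.2 * ((r : ℝ) : ℂ)) (h.1 + h.2 * ((r : ℝ) : ℂ)) n4 (by linarith)
    have b2 := hM p.1 h.1 (by have := norm_nonneg p.2; linarith) (by linarith)
    refine (norm_sub_le _ _).trans ((add_le_add b1 b2).trans ?_)
    have c1 : ‖h.1 + h.2 * ((r : ℝ) : ℂ)‖ ^ 2 ≤ 4 * ‖h‖ ^ 2 := by
      have := pow_le_pow_left₀ (norm_nonneg _) n3 2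
      linarith [this]
    have c2 : ‖h.1‖ ^ 2 ≤ ‖h‖ ^ 2 := pow_le_pow_left₀ (norm_nonneg _) n1 2
    nlinarith
  exact hO.trans_isLittleO (Asymptotics.isLittleO_norm_pow_id one_lt_two)

theorem differentiable_Xq {q : C(ℂ, ℂ)} (hq : Differentiable ℂ q) :
    Differentiable ℂ (fun p : ℂ × ℂ => Xq q p.1 p.2) := by
  intro p
  refine (hasFDerivAt_dq hq p).differentiableAt.prodMk ?_
  exact differentiableAt_snd.mul ((hq p.1).comp p differentiableAt_fst).cexp

theorem differentiableAt_Pq {ρ C : ℝ} (hL : LocQ ρ C) {q : C(ℂ, ℂ)} (hq : Differentiable ℂ q)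
    {p : ℂ × ℂ} (hp : ‖Xq q p.1 p.2‖ < ρ) :
    DifferentiableAt ℂ (fun p : ℂ × ℂ => Pq q p.1 p.2) p := by
  unfold Pq
  refine (differentiableAt_snd.pow 2).mul ?_
  exact DifferentiableAt.comp (g := Qf) (f := fun p : ℂ × ℂ => Xq q p.1 p.2) p
    (hL.an _ hp).differentiableAt (differentiable_Xq hq p)

end Crest.Agent.R102.A929
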