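import Crest.Agent.R102.RatGlueA_798
import Crest.Agent.R102.FCTA_575

/-!
# Row 102, block CT, leaf HOLXY (575 #26102)

Rings of holomorphic functions of two variables `(c, ω)`: partial derivatives, composition,
restriction to `ω = 0`, Taylor series in `ω`, injectivity, the flip `ω ↦ -ω`, parity, and the
"words" form of the identity theorem.
-/

set_option autoImplicit false
set_option linter.unusedSectionVars false

open Set Filter Topology TopologicalSpace PowerSeries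

noncomputable section

namespace Crest.Agent.R102.HolXY289

open Crest.Agent.R102.H3 Crest.Agent.R102.Glue798

/-! ### (1) partial derivatives and coordinates -/

/-- `∂/∂c` -/
def Dc (U : Opens (ℂ × ℂ)) : Derivation ℂ (Hol U) (Hol U) := pdH U (1, 0)

/-- `∂/∂ω` -/
def Dw (U : Opens (ℂ × ℂ)) : Derivation ℂ (Hol U) (Hol U) := pdH U (0, 1)

/-- the coordinate `c` -/
def cH (U : Opens (ℂ × ℂ)) : Hol U := Hol.ofFun (fun p => p.1) (fun _ _ => analyticAt_fst)

/-- the coordinate `ω` -/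
def wH (U : Opens (ℂ × ℂ)) : Hol U := Hol.ofFun (fun p => p.2) (fun _ _ => analyticAt_snd)

variable {U : Opens (ℂ × ℂ)}

theorem Dc_apply (f : Hol U) (x : U) :
    (Dc U f : U → ℂ) x = fderiv ℂ (ext0 (f : U → ℂ)) x (1, 0) := rfl

theorem Dw_apply (f : Hol U) (x : U) :
    (Dw U f : U → ℂ) x = fderiv ℂ (ext0 (f : U → ℂ)) x (0, 1) := rfl

@[simp] theorem cH_apply (x : U) : (cH U : U → ℂ) x = (x : ℂ × ℂ).1 := rfl

@[simp] theorem wH_apply (x : U) : (wH U : U → ℂ) x = (x : ℂ × ℂ).2 := rfl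

theorem ext0_cH {x : ℂ × ℂ} (hx : x ∈ U) : ext0 (cH U : U → ℂ) =ᶠ[𝓝 x] fun p => p.1 :=
  eventually_ext0_eq (F := fun p : ℂ × ℂ => p.1) (f := (cH U : U → ℂ)) (fun _ => rfl) hx

theorem ext0_wH {x : ℂ × ℂ} (hx : x ∈ U) : ext0 (wH U : U → ℂ) =ᶠ[𝓝 x] fun p => p.2 :=
  eventually_ext0_eq (F := fun p : ℂ × ℂ => p.2) (f := (wH U : U → ℂ)) (fun _ => rfl) hx

theorem fderiv_fst_apply (x v : ℂ × ℂ) : fderiv ℂ (fun p : ℂ × ℂ => p.1) x v = v.1 := by
  have : HasFDerivAt (fun p : ℂ × ℂ => p.1) (ContinuousLinearMap.fst ℂ ℂ ℂ) x := hasFDerivAt_fst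
  rw [this.fderiv]; rfl

theorem fderiv_snd_apply (x v : ℂ × ℂ) : fderiv ℂ (fun p : ℂ × ℂ => p.2) x v = v.2 := by
  have : HasFDerivAt (fun p : ℂ × ℂ => p.2) (ContinuousLinearMap.snd ℂ ℂ ℂ) x := hasFDerivAt_snd
  rw [this.fderiv]; rfl

@[simp] theorem Dc_cH : Dc U (cH U) = 1 := by
  ext x
  rw [Dc_apply, (ext0_cH x.2).fderiv_eq, fderiv_fst_apply]; rfl

@[simp] theorem Dw_cH : Dw U (cH U) = 0 := by
  ext x
  rw [Dw_apply, (ext0_cH x.2).fderiv_eq, fderiv_fst_apply]; rfl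

@[simp] theorem Dc_wH : Dc U (wH U) = 0 := by
  ext x
  rw [Dc_apply, (ext0_wH x.2).fderiv_eq, fderiv_snd_apply]; rfl

@[simp] theorem Dw_wH : Dw U (wH U) = 1 := by
  ext x
  rw [Dw_apply, (ext0_wH x.2).fderiv_eq, fderiv_snd_apply]; rfl

theorem Dc_Dw_comm (f : Hol U) : Dc U (Dw U f) = Dw U (Dc U f) := pdH_comm _ _ f

theorem commute_Dc_Dw : Commute ((Dc U : Derivation ℂ (Hol U) (Hol U)) : Module.End ℂ (Hol U))
    ((Dw U : Derivation ℂ (Hol U) (Hol U)) : Module.End ℂ (Hol U)) := by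
  refine LinearMap.ext fun f => ?_
  exact Dc_Dw_comm f

/-! ### (2) composition -/

theorem Dc_compH {V : Opens ℂ} (b : Hol U) (hb : ∀ x : U, (b : U → ℂ) x ∈ V) (f : Hol V) :
    Dc U (compH b hb f) = compH b hb (DH V f) * Dc U b := pdH_compH b hb _ f

theorem Dw_compH {V : Opens ℂ} (b : Hol U) (hb : ∀ x : U, (b : U → ℂ) x ∈ V) (f : Hol V) :
    Dw U (compH b hb f) = compH b hb (DH V f) * Dw U b := pdH_compH b hb _ f

/-! ### (3) restriction to `ω = 0` -/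

variable {D : Opens ℂ}

theorem an_slice0 (h : ∀ c ∈ D, ((c, 0) : ℂ × ℂ) ∈ U) (f : Hol U) :
    AnalyticOnNhd ℂ (fun c => ext0 (f : U → ℂ) (c, 0)) D := by
  intro c hc
  have h1 : AnalyticAt ℂ (fun c : ℂ => ((c, 0) : ℂ × ℂ)) c := analyticAt_id.prod analyticAt_const
  exact AnalyticAt.fun_comp (g := ext0 (f : U → ℂ)) (Hol.an f _ (h c hc)) h1

/-- restriction to `ω = 0` -/
def res0 (h : ∀ c ∈ D, ((c, 0) : ℂ × ℂ) ∈ U) : Hol U →ₐ[ℂ] Hol D where
  toFun f := ⟨fun c => (f : U → ℂ) ⟨((c : ℂ), 0), h c c.2⟩,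
    analyticOnNhd_ext0 (F := fun c => ext0 (f : U → ℂ) (c, 0))
      (fun c => ext0_of_mem _ (h c c.2)) (an_slice0 h f)⟩
  map_one' := rfl
  map_mul' _ _ := rfl
  map_zero' := rfl
  map_add' _ _ := rfl
  commutes' _ := rfl

@[simp] theorem res0_apply (h : ∀ c ∈ D, ((c, 0) : ℂ × ℂ) ∈ U) (f : Hol U) (c : D) :
    (res0 h f : D → ℂ) c = (f : U → ℂ) ⟨((c : ℂ), 0), h c c.2⟩ := rfl

@[simp] theorem res0_cH (h : ∀ c ∈ D, ((c, 0) : ℂ × ℂ) ∈ U) : res0 h (cH U) = zH D := rfl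

@[simp] theorem res0_wH (h : ∀ c ∈ D, ((c, 0) : ℂ × ℂ) ∈ U) : res0 h (wH U) = 0 := rfl

theorem res0_Dc (h : ∀ c ∈ D, ((c, 0) : ℂ × ℂ) ∈ U) (f : Hol U) :
    res0 h (Dc U f) = DH D (res0 h f) := by
  ext x
  rw [res0_apply, Dc_apply, DH_apply]
  have h1 : ext0 (res0 h f : D → ℂ) =ᶠ[𝓝 (x : ℂ)] fun c => ext0 (f : U → ℂ) (c, 0) :=
    eventually_ext0_eq (fun c => ext0_of_mem _ (h c c.2)) x.2
  rw [h1.deriv_eq]
  have h2 : HasDerivAt (fun c : ℂ => ((c, 0) : ℂ × ℂ)) ((1, 0) : ℂ × ℂ) (x : ℂ) :=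
    (hasDerivAt_id (x : ℂ)).prodMk (hasDerivAt_const (x : ℂ) (0 : ℂ))
  have h3 : HasFDerivAt (ext0 (f : U → ℂ)) (fderiv ℂ (ext0 (f : U → ℂ)) ((x : ℂ), 0))
      ((x : ℂ), 0) := (Hol.an f _ (h x x.2)).differentiableAt.hasFDerivAt
  exact (h3.comp_hasDerivAt (x : ℂ) h2).deriv.symm

theorem res0_compH {V : Opens ℂ} (h : ∀ c ∈ D, ((c, 0) : ℂ × ℂ) ∈ U) (b : Hol U)
    (hb : ∀ x : U, (b : U → ℂ) x ∈ V) (f : Hol V) :
    res0 h (compH b hb f) = compH (res0 h b) (fun _ => hb _) f := rfl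

/-! ### (4) Taylor series in `ω` -/

theorem map_derivative {A B : Type*} [CommRing A] [CommRing B] (φ : A →+* B) (F : A⟦X⟧) :
    PowerSeries.map φ (d⁄dX A F) = d⁄dX B (PowerSeries.map φ F) := by
  ext n
  rw [coeff_map, coeff_derivative, coeff_derivative, coeff_map, map_mul, map_add, map_natCast,
    map_one]

/-- the Taylor series in `ω` -/
def Tay (h : ∀ c ∈ D, ((c, 0) : ℂ × ℂ) ∈ U) : Hol U →ₐ[ℂ] (Hol D)⟦X⟧ :=
  { (PowerSeries.map (res0 h : Hol U →+* Hol D)).comp (Ty (Dw U)) with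
    commutes' := fun r => by
      change PowerSeries.map (res0 h : Hol U →+* Hol D) (Ty (Dw U) (algebraMap ℂ (Hol U) r)) = _
      rw [Ty_algebraMap, map_C]
      rw [PowerSeries.algebraMap_apply]
      congr 1 }

theorem Tay_apply (h : ∀ c ∈ D, ((c, 0) : ℂ × ℂ) ∈ U) (f : Hol U) :
    Tay h f = PowerSeries.map (res0 h : Hol U →+* Hol D) (Ty (Dw U) f) := rfl

theorem coeff_Tay (h : ∀ c ∈ D, ((c, 0) : ℂ × ℂ) ∈ U) (f : Hol U) (n : ℕ) :
    coeff n (Tay h f) = res0 h (dn (Dw U) n f) := by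
  rw [Tay_apply, coeff_map, coeff_Ty]; rfl

theorem constantCoeff_Tay (h : ∀ c ∈ D, ((c, 0) : ℂ × ℂ) ∈ U) (f : Hol U) :
    constantCoeff (Tay h f) = res0 h f := by
  rw [← coeff_zero_eq_constantCoeff_apply, coeff_Tay, dn_zero]

theorem Tay_Dw (h : ∀ c ∈ D, ((c, 0) : ℂ × ℂ) ∈ U) (f : Hol U) :
    Tay h (Dw U f) = d⁄dX (Hol D) (Tay h f) := by
  rw [Tay_apply, Tay_apply, ← derivative_Ty, map_derivative]

theorem iter_comm (n : ℕ) (f : Hol U) : (Dw U)^[n] (Dc U f) = Dc U ((Dw U)^[n] f) := by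
  induction n with
  | zero => rfl
  | succ n ih => rw [Function.iterate_succ_apply', ih, Function.iterate_succ_apply', Dc_Dw_comm]

theorem dn_Dc (n : ℕ) (f : Hol U) : dn (Dw U) n (Dc U f) = Dc U (dn (Dw U) n f) := by
  rw [dn, dn, iter_comm, (Dc U).map_smul]

theorem Tay_Dc (h : ∀ c ∈ D, ((c, 0) : ℂ × ℂ) ∈ U) (f : Hol U) :
    Tay h (Dc U f) = cD (DH D) (Tay h f) := by
  ext1 n
  rw [coeff_Tay, coeff_cD, coeff_Tay, dn_Dc, res0_Dc]

theorem iter_zero (n : ℕ) : (Dw U)^[n] (0 : Hol U) = 0 := by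
  induction n with
  | zero => rfl
  | succ n ih => rw [Function.iterate_succ_apply', ih, map_zero]

theorem dn_add_of {m : ℕ} {f : Hol U} (hf : (Dw U)^[m] f = 0) (n : ℕ) (hn : m ≤ n) :
    dn (Dw U) n f = 0 := by
  obtain ⟨k, rfl⟩ := Nat.exists_eq_add_of_le hn
  rw [dn, Nat.add_comm, Function.iterate_add_apply, hf, iter_zero, smul_zero]

theorem Tay_cH (h : ∀ c ∈ D, ((c, 0) : ℂ × ℂ) ∈ U) : Tay h (cH U) = C (zH D) := by
  ext1 n
  rw [coeff_Tay, coeff_C]
  rcases Nat.eq_zero_or_pos n with rfl | hn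
  · simp
  · rw [dn_add_of (m := 1) (by simp) n hn, map_zero, if_neg (by omega)]

theorem Tay_wH (h : ∀ c ∈ D, ((c, 0) : ℂ × ℂ) ∈ U) : Tay h (wH U) = X := by
  ext1 n
  rw [coeff_Tay, coeff_X]
  rcases Nat.lt_or_ge n 2 with hn | hn
  · interval_cases n
    · simp
    · simp
  · rw [dn_add_of (m := 2) (by simp) n hn, map_zero, if_neg (by omega)]

/-! ### identity theorem on slices -/

theorem iteratedDeriv_slice (f : Hol U) (c : ℂ) (n : ℕ) :
    ∀ w : ℂ, ((c, w) : ℂ × ℂ) ∈ U →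
      iteratedDeriv n (fun w => ext0 (f : U → ℂ) (c, w)) w =
        ext0 ((Dw U)^[n] f : U → ℂ) (c, w) := by
  induction n with
  | zero => intro w hw; simp
  | succ n ih =>
    intro w hw
    rw [iteratedDeriv_succ]
    have hcont : Continuous (fun w : ℂ => ((c, w) : ℂ × ℂ)) := by fun_prop
    have hev : iteratedDeriv n (fun w => ext0 (f : U → ℂ) (c, w)) =ᶠ[𝓝 w]
        fun w => ext0 ((Dw U)^[n] f : U → ℂ) (c, w) := by
      have : ∀ᶠ w' in 𝓝 w, ((c, w') : ℂ × ℂ) ∈ U :=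
        hcont.continuousAt.eventually (U.isOpen.mem_nhds hw)
      filter_upwards [this] with w' hw' using ih w' hw'
    rw [hev.deriv_eq, Function.iterate_succ_apply', ext0_of_mem _ hw, Dw_apply]
    have h2 : HasDerivAt (fun w : ℂ => ((c, w) : ℂ × ℂ)) ((0, 1) : ℂ × ℂ) w :=
      (hasDerivAt_const w c).prodMk (hasDerivAt_id w)
    have h3 : HasFDerivAt (ext0 ((Dw U)^[n] f : U → ℂ))
        (fderiv ℂ (ext0 ((Dw U)^[n] f : U → ℂ)) (c, w)) (c, w) :=
      (Hol.an ((Dw U)^[n] f) _ hw).differentiableAt.hasFDerivAt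
    exact (h3.comp_hasDerivAt w h2).deriv

theorem ofScalars_zero' : (FormalMultilinearSeries.ofScalars ℂ (fun _ : ℕ => (0 : ℂ)) :
    FormalMultilinearSeries ℂ ℂ ℂ) = 0 := by
  ext n
  simp [FormalMultilinearSeries.ofScalars]

/-- a function of one variable all of whose derivatives at a point vanish is zero near it -/
theorem eventually_zero_of_iter {φ : ℂ → ℂ} {w : ℂ} (hφ : AnalyticAt ℂ φ w)
    (h : ∀ n, iteratedDeriv n φ w = 0) : ∀ᶠ z in 𝓝 w, φ z = 0 := by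
  have h1 := hφ.hasFPowerSeriesAt
  have h2 : (fun n : ℕ => iteratedDeriv n φ w / (n.factorial : ℂ)) = fun _ => 0 := by
    funext n; rw [h n, zero_div]
  rw [h2, ofScalars_zero'] at h1
  exact h1.eventually_eq_zero

/-- vanishing on a slice -/
theorem slice_zero (f : Hol U) {c w0 : ℂ} {S : Set ℂ} (hS : IsPreconnected S) (h0 : w0 ∈ S)
    (hSU : ∀ w ∈ S, ((c, w) : ℂ × ℂ) ∈ U)
    (hz : ∀ n, ext0 ((Dw U)^[n] f : U → ℂ) (c, w0) = 0) :
    ∀ w ∈ S, ext0 (f : U → ℂ) (c, w) = 0 := by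
  have han : AnalyticOnNhd ℂ (fun w => ext0 (f : U → ℂ) (c, w)) S := by
    intro w hw
    have h1 : AnalyticAt ℂ (fun w : ℂ => ((c, w) : ℂ × ℂ)) w := analyticAt_const.prod analyticAt_id
    exact AnalyticAt.fun_comp (g := ext0 (f : U → ℂ)) (Hol.an f _ (hSU w hw)) h1
  have h1 := eventually_zero_of_iter (han w0 h0)
    (fun n => (iteratedDeriv_slice f c n w0 (hSU w0 h0)).trans (hz n))
  exact han.eqOn_zero_of_preconnected_of_eventuallyEq_zero hS h0 h1

theorem iter_of_Tay_zero (h : ∀ c ∈ D, ((c, 0) : ℂ × ℂ) ∈ U) {f : Hol U} (hf : Tay h f = 0)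
    {c : ℂ} (hc : c ∈ D) (n : ℕ) : ext0 ((Dw U)^[n] f : U → ℂ) (c, 0) = 0 := by
  have h1 := coeff_Tay h f n
  rw [hf, map_zero, dn, map_smul] at h1
  have h2 : (n.factorial : ℂ)⁻¹ ≠ 0 := inv_ne_zero (Nat.cast_ne_zero.2 n.factorial_ne_zero)
  have h3 : res0 h ((Dw U)^[n] f) = 0 := (smul_eq_zero.1 h1.symm).resolve_left h2
  have h4 := congrArg (fun F : Hol D => (F : D → ℂ) ⟨c, hc⟩) h3
  rw [ext0_of_mem _ (h c hc)]
  exact h4

/-- **Taylor expansion is injective** if all the slices of `U` are preconnected and contain `0` -/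
theorem Tay_injective_of_slices (h : ∀ c ∈ D, ((c, 0) : ℂ × ℂ) ∈ U)
    (hD : ∀ p ∈ U, p.1 ∈ D) (hS : ∀ c ∈ D, IsPreconnected {w : ℂ | ((c, w) : ℂ × ℂ) ∈ U}) :
    Function.Injective (Tay h) := by
  rw [injective_iff_map_eq_zero]
  intro f hf
  ext x
  have hx : (x : ℂ × ℂ).1 ∈ D := hD x x.2
  have := slice_zero f (hS _ hx) (h _ hx) (fun w hw => hw)
    (fun n => iter_of_Tay_zero h hf hx n) (x : ℂ × ℂ).2 x.2
  have e := ext0_apply (f : U → ℂ) x
  rw [← e]
  exact this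

/-- `D × ball 0 ρ` -/
theorem Tay_injective (h : ∀ c ∈ D, ((c, 0) : ℂ × ℂ) ∈ U) {ρ : ℝ}
    (hU : ∀ p : ℂ × ℂ, p ∈ U ↔ p.1 ∈ D ∧ p.2 ∈ Metric.ball (0 : ℂ) ρ) :
    Function.Injective (Tay h) := by
  refine Tay_injective_of_slices h (fun p hp => ((hU p).1 hp).1) (fun c hc => ?_)
  have : {w : ℂ | ((c, w) : ℂ × ℂ) ∈ U} = Metric.ball (0 : ℂ) ρ := by
    ext w
    exact ⟨fun hw => ((hU _).1 hw).2, fun hw => (hU _).2 ⟨hc, hw⟩⟩
  rw [this]
  exact (convex_ball _ _).isPreconnected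

/-- preconnected `U` -/
theorem Tay_injective_of_preconnected (h : ∀ c ∈ D, ((c, 0) : ℂ × ℂ) ∈ U)
    (hU : IsPreconnected (U : Set (ℂ × ℂ))) (hD : (D : Set ℂ).Nonempty) :
    Function.Injective (Tay h) := by
  rw [injective_iff_map_eq_zero]
  intro f hf
  obtain ⟨c0, hc0⟩ := hD
  refine Hol.eq_zero_of_eventually hU f ⟨(c0, 0), h c0 hc0⟩ ?_
  obtain ⟨r, hr, hball⟩ := Metric.isOpen_iff.1 U.isOpen (c0, 0) (h c0 hc0)
  obtain ⟨r', hr', hball'⟩ := Metric.isOpen_iff.1 D.isOpen c0 hc0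
  have hprod : ∀ p : ℂ × ℂ, p ∈ Metric.ball ((c0, 0) : ℂ × ℂ) r ↔
      p.1 ∈ Metric.ball c0 r ∧ p.2 ∈ Metric.ball (0 : ℂ) r := by
    intro p
    rw [← ball_prod_same]
    exact Iff.rfl
  filter_upwards [Metric.ball_mem_nhds ((c0, 0) : ℂ × ℂ) hr,
    Metric.ball_mem_nhds ((c0, 0) : ℂ × ℂ) hr'] with p hp hp'
  have hp1 : p.1 ∈ D := by
    apply hball'
    have : dist p (c0, 0) < r' := hp'
    rw [Prod.dist_eq, max_lt_iff] at this
    exact this.1
  have hpp := (hprod p).1 hp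
  refine slice_zero f (S := Metric.ball (0 : ℂ) r) (convex_ball _ _).isPreconnected
    (Metric.mem_ball_self hr) (fun w hw => hball ((hprod _).2 ⟨hpp.1, hw⟩))
    (fun n => iter_of_Tay_zero h hf hp1 n) p.2 hpp.2

/-! ### (5) the flip `ω ↦ -ω` -/

/-- `f(c, ω) ↦ f(c, -ω)` -/
def flip (hs : ∀ p ∈ U, ((p.1, -p.2) : ℂ × ℂ) ∈ U) : Hol U →ₐ[ℂ] Hol U where
  toFun f := ⟨fun p => (f : U → ℂ) ⟨((p : ℂ × ℂ).1, -(p : ℂ × ℂ).2), hs p p.2⟩, by
    refine analyticOnNhd_ext0 (F := fun p => ext0 (f : U → ℂ) (p.1, -p.2))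
      (fun p => ext0_of_mem _ (hs p p.2)) (fun p hp => ?_)
    have h1 : AnalyticAt ℂ (fun p : ℂ × ℂ => ((p.1, -p.2) : ℂ × ℂ)) p :=
      analyticAt_fst.prod analyticAt_snd.neg
    exact AnalyticAt.fun_comp (g := ext0 (f : U → ℂ)) (Hol.an f _ (hs p hp)) h1⟩
  map_one' := rfl
  map_mul' _ _ := rfl
  map_zero' := rfl
  map_add' _ _ := rfl
  commutes' _ := rfl

@[simp] theorem flip_apply (hs : ∀ p ∈ U, ((p.1, -p.2) : ℂ × ℂ) ∈ U) (f : Hol U) (p : U) :
    (flip hs f : U → ℂ) p = (f : U → ℂ) ⟨((p : ℂ × ℂ).1, -(p : ℂ × ℂ).2), hs p p.2⟩ := rfl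

theorem flip_flip (hs : ∀ p ∈ U, ((p.1, -p.2) : ℂ × ℂ) ∈ U) (f : Hol U) :
    flip hs (flip hs f) = f := by
  ext p
  rw [flip_apply, flip_apply]
  exact congrArg (f : U → ℂ) (Subtype.ext (Prod.ext rfl (neg_neg _)))

@[simp] theorem flip_cH (hs : ∀ p ∈ U, ((p.1, -p.2) : ℂ × ℂ) ∈ U) : flip hs (cH U) = cH U := rfl

@[simp] theorem flip_wH (hs : ∀ p ∈ U, ((p.1, -p.2) : ℂ × ℂ) ∈ U) : flip hs (wH U) = -wH U := rfl

theorem pd_flip (hs : ∀ p ∈ U, ((p.1, -p.2) : ℂ × ℂ) ∈ U) (f : Hol U) (v : ℂ × ℂ) :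
    pdH U v (flip hs f) = flip hs (pdH U (v.1, -v.2) f) := by
  ext x
  rw [pdH_apply, flip_apply, pdH_apply]
  have h1 : ext0 (flip hs f : U → ℂ) =ᶠ[𝓝 (x : ℂ × ℂ)]
      fun p => ext0 (f : U → ℂ) (p.1, -p.2) :=
    eventually_ext0_eq (fun p => ext0_of_mem _ (hs p p.2)) x.2
  rw [h1.fderiv_eq]
  have h2 : HasFDerivAt (fun p : ℂ × ℂ => ((p.1, -p.2) : ℂ × ℂ))
      ((ContinuousLinearMap.fst ℂ ℂ ℂ).prod (-(ContinuousLinearMap.snd ℂ ℂ ℂ))) (x : ℂ × ℂ) :=
    hasFDerivAt_fst.prodMk hasFDerivAt_snd.neg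
  have h3 : HasFDerivAt (ext0 (f : U → ℂ))
      (fderiv ℂ (ext0 (f : U → ℂ)) ((x : ℂ × ℂ).1, -(x : ℂ × ℂ).2))
      ((x : ℂ × ℂ).1, -(x : ℂ × ℂ).2) := (Hol.an f _ (hs x x.2)).differentiableAt.hasFDerivAt
  have h4 := (h3.comp (x : ℂ × ℂ) h2).fderiv
  have h5 : (fun p : ℂ × ℂ => ext0 (f : U → ℂ) (p.1, -p.2)) =
      ext0 (f : U → ℂ) ∘ fun p : ℂ × ℂ => ((p.1, -p.2) : ℂ × ℂ) := rfl
  rw [h5, h4]
  rfl

theorem Dc_flip (hs : ∀ p ∈ U, ((p.1, -p.2) : ℂ × ℂ) ∈ U) (f : Hol U) :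
    Dc U (flip hs f) = flip hs (Dc U f) := by
  have := pd_flip hs f (1, 0)
  simpa [Dc] using this

theorem pdH_neg (v : ℂ × ℂ) (f : Hol U) : pdH U (-v) f = -pdH U v f := by
  ext x
  rw [pdH_apply, map_neg]
  rfl

theorem Dw_flip (hs : ∀ p ∈ U, ((p.1, -p.2) : ℂ × ℂ) ∈ U) (f : Hol U) :
    Dw U (flip hs f) = -flip hs (Dw U f) := by
  have := pd_flip hs f (0, 1)
  have e : (((0, 1) : ℂ × ℂ).1, -((0, 1) : ℂ × ℂ).2) = -((0, 1) : ℂ × ℂ) := by simp
  rw [e, pdH_neg, map_neg] at this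
  exact this

theorem iter_flip (hs : ∀ p ∈ U, ((p.1, -p.2) : ℂ × ℂ) ∈ U) (f : Hol U) (n : ℕ) :
    (Dw U)^[n] (flip hs f) = (-1 : ℂ) ^ n • flip hs ((Dw U)^[n] f) := by
  induction n with
  | zero => simp
  | succ n ih =>
    rw [Function.iterate_succ_apply', ih, (Dw U).map_smul, Dw_flip, Function.iterate_succ_apply',
      pow_succ, mul_smul, neg_one_smul, smul_neg]

theorem res0_flip (h : ∀ c ∈ D, ((c, 0) : ℂ × ℂ) ∈ U)
    (hs : ∀ p ∈ U, ((p.1, -p.2) : ℂ × ℂ) ∈ U) (f : Hol U) :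
    res0 h (flip hs f) = res0 h f := by
  ext c
  rw [res0_apply, flip_apply, res0_apply]
  exact congrArg (f : U → ℂ) (Subtype.ext (Prod.ext rfl neg_zero))

theorem coeff_Tay_flip (h : ∀ c ∈ D, ((c, 0) : ℂ × ℂ) ∈ U)
    (hs : ∀ p ∈ U, ((p.1, -p.2) : ℂ × ℂ) ∈ U) (f : Hol U) (n : ℕ) :
    coeff n (Tay h (flip hs f)) = (-1) ^ n * coeff n (Tay h f) := by
  rw [coeff_Tay, coeff_Tay, dn, dn, iter_flip, map_smul, map_smul, map_smul, res0_flip]
  have e : ((-1 : Hol D)) ^ n = algebraMap ℂ (Hol D) ((-1) ^ n) := by simp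
  rw [e, ← Algebra.smul_def, smul_comm]

/-- flip and Taylor series -/
theorem Tay_flip_rescale (h : ∀ c ∈ D, ((c, 0) : ℂ × ℂ) ∈ U)
    (hs : ∀ p ∈ U, ((p.1, -p.2) : ℂ × ℂ) ∈ U) (f : Hol U) :
    Tay h (flip hs f) = PowerSeries.rescale (-1) (Tay h f) := by
  ext1 n
  rw [coeff_Tay_flip, coeff_rescale]

theorem X_dvd_neg_X {S : Type*} [CommRing S] : (X : S⟦X⟧) ∣ -X := (dvd_neg).2 dvd_rfl

theorem rescale_neg_one {S : Type*} [CommRing S] (F : S⟦X⟧) :
    PowerSeries.rescale (-1) F = evS C (-X) X_dvd_neg_X F := by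
  have : (PowerSeries.rescale (-1 : S)) = evS C (-X) X_dvd_neg_X := by
    refine evS_unique _ _ _ (fun a => ?_) ?_
    · ext n
      rw [coeff_rescale, coeff_C]
      split_ifs with h0
      · simp [h0]
      · simp
    · ext n
      rw [coeff_rescale, map_neg, coeff_X]
      split_ifs with h1
      · simp [h1]
      · simp
  rw [this]

/-- flip and Taylor series, substitution form -/
theorem Tay_flip (h : ∀ c ∈ D, ((c, 0) : ℂ × ℂ) ∈ U)
    (hs : ∀ p ∈ U, ((p.1, -p.2) : ℂ × ℂ) ∈ U) (f : Hol U) :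
    Tay h (flip hs f) = evS C (-X) X_dvd_neg_X (Tay h f) := by
  rw [Tay_flip_rescale, rescale_neg_one]

/-! ### even functions -/

theorem coeff_evn {H : Type*} [CommRing H] (F : H⟦X⟧) (n : ℕ) :
    coeff n (evn F) = if Even n then coeff (n / 2) F else 0 := by
  have h := X_pow_dvd_evS C X_dvd_X2 F (n + 1)
  rw [X_pow_dvd_iff] at h
  have h1 := h n (Nat.lt_succ_self n)
  rw [map_sub, sub_eq_zero] at h1
  change coeff n (evS C (X ^ 2) X_dvd_X2 F) = _
  rw [h1, map_sum]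
  have h2 : ∀ m, coeff n (C (coeff m F) * ((X : H⟦X⟧) ^ 2) ^ m) =
      if n = 2 * m then coeff m F else 0 := by
    intro m
    rw [← pow_mul, coeff_C_mul, coeff_X_pow]
    split_ifs <;> simp
  simp only [h2]
  split_ifs with hn
  · obtain ⟨k, rfl⟩ := hn
    rw [Finset.sum_eq_single k]
    · rw [if_pos (by ring)]
      congr 2
      omega
    · intro m _ hm
      rw [if_neg (by omega)]
    · intro hk
      exact absurd (Finset.mem_range.2 (by omega)) hk
  · refine Finset.sum_eq_zero fun m _ => ?_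
    rw [if_neg]
    rintro rfl
    exact hn (even_two_mul m)

theorem eq_evn_iff {H : Type*} [CommRing H] (G : H⟦X⟧) :
    (∃ F, G = evn F) ↔ ∀ n, ¬ Even n → coeff n G = 0 := by
  constructor
  · rintro ⟨F, rfl⟩ n hn
    rw [coeff_evn, if_neg hn]
  · intro h
    refine ⟨PowerSeries.mk fun n => coeff (2 * n) G, ?_⟩
    ext n
    rw [coeff_evn]
    split_ifs with hn
    · rw [coeff_mk]
      obtain ⟨k, rfl⟩ := hn
      have : 2 * ((k + k) / 2) = k + k := by omega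
      rw [this]
    · exact h n hn

theorem neg_one_pow_mul_apply (n : ℕ) (f : Hol D) (x : D) :
    (((-1) ^ n * f : Hol D) : D → ℂ) x = (-1) ^ n * (f : D → ℂ) x := by
  simp

/-- an even function has an even Taylor series -/
theorem Tay_even (h : ∀ c ∈ D, ((c, 0) : ℂ × ℂ) ∈ U)
    (hs : ∀ p ∈ U, ((p.1, -p.2) : ℂ × ℂ) ∈ U) {f : Hol U} (hf : flip hs f = f) :
    ∃ F, Tay h f = evn F := by
  rw [eq_evn_iff]
  intro n hn
  have h1 := coeff_Tay_flip h hs f n
  rw [hf] at h1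
  ext x
  have h2 := congrArg (fun F : Hol D => (F : D → ℂ) x) h1
  simp only [neg_one_pow_mul_apply, (Nat.not_even_iff_odd.1 hn).neg_one_pow] at h2
  have h3 : (2 : ℂ) * ((coeff n (Tay h f) : Hol D) : D → ℂ) x = 0 := by linear_combination h2
  simpa using h3

/-- `f` is even iff its Taylor series is even -/
theorem even_iff (h : ∀ c ∈ D, ((c, 0) : ℂ × ℂ) ∈ U)
    (hs : ∀ p ∈ U, ((p.1, -p.2) : ℂ × ℂ) ∈ U) (hinj : Function.Injective (Tay h)) (f : Hol U) :
    flip hs f = f ↔ ∃ F, Tay h f = evn F := by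
  refine ⟨Tay_even h hs, fun hF => hinj ?_⟩
  rw [eq_evn_iff] at hF
  ext1 n
  rw [coeff_Tay_flip]
  by_cases hn : Even n
  · ext x
    rw [neg_one_pow_mul_apply, hn.neg_one_pow, one_mul]
  · rw [hF n hn, mul_zero]

/-- `f` is even in terms of its representative -/
theorem flip_eq_iff (hs : ∀ p ∈ U, ((p.1, -p.2) : ℂ × ℂ) ∈ U) (f : Hol U) :
    flip hs f = f ↔ ∀ p ∈ U, ext0 (f : U → ℂ) (p.1, -p.2) = ext0 (f : U → ℂ) p := by
  constructor
  · intro h p hp
    have := congrArg (fun F : Hol U => (F : U → ℂ) ⟨p, hp⟩) h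
    rw [ext0_of_mem _ hp, ext0_of_mem _ (hs p hp)]
    exact this
  · intro h
    ext p
    have := h p p.2
    rw [ext0_of_mem _ (hs p p.2), ext0_apply] at this
    exact this

/-! ### words -/

/-- if all mixed derivatives of `f` at one point of the preconnected set `U` vanish, `f = 0` -/
theorem eq_zero_of_mixed (hU : IsPreconnected (U : Set (ℂ × ℂ))) (f : Hol U) (p : U)
    (h : ∀ m n : ℕ, evH p ((Dc U)^[m] ((Dw U)^[n] f)) = 0) : f = 0 := by
  refine Hol.eq_zero_of_eventually hU f p ?_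
  obtain ⟨r, hr, hball⟩ := Metric.isOpen_iff.1 U.isOpen (p : ℂ × ℂ) p.2
  have hprod : ∀ q : ℂ × ℂ, q ∈ Metric.ball (p : ℂ × ℂ) r ↔
      q.1 ∈ Metric.ball (p : ℂ × ℂ).1 r ∧ q.2 ∈ Metric.ball (p : ℂ × ℂ).2 r := by
    intro q
    have : Metric.ball (p : ℂ × ℂ) r =
        Metric.ball (p : ℂ × ℂ).1 r ×ˢ Metric.ball (p : ℂ × ℂ).2 r := by
      rw [ball_prod_same]
    rw [this]
    exact Iff.rfl
  -- the horizontal line through `p`
  have hline : ∀ g : Hol U, (∀ m : ℕ, evH p ((Dc U)^[m] g) = 0) →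
      ∀ c ∈ Metric.ball (p : ℂ × ℂ).1 r, ext0 (g : U → ℂ) (c, (p : ℂ × ℂ).2) = 0 := by
    intro g hg
    have hmem : ∀ c ∈ Metric.ball (p : ℂ × ℂ).1 r, ((c, (p : ℂ × ℂ).2) : ℂ × ℂ) ∈ U := fun c hc =>
      hball ((hprod _).2 ⟨hc, Metric.mem_ball_self hr⟩)
    have key : ∀ n : ℕ, ∀ c ∈ Metric.ball (p : ℂ × ℂ).1 r,
        iteratedDeriv n (fun c => ext0 (g : U → ℂ) (c, (p : ℂ × ℂ).2)) c =
          ext0 ((Dc U)^[n] g : U → ℂ) (c, (p : ℂ × ℂ).2) := by
      intro n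
      induction n with
      | zero => intro c _; simp
      | succ n ih =>
        intro c hc
        rw [iteratedDeriv_succ]
        have hev : iteratedDeriv n (fun c => ext0 (g : U → ℂ) (c, (p : ℂ × ℂ).2)) =ᶠ[𝓝 c]
            fun c => ext0 ((Dc U)^[n] g : U → ℂ) (c, (p : ℂ × ℂ).2) := by
          filter_upwards [Metric.isOpen_ball.mem_nhds hc] with c' hc' using ih c' hc'
        rw [hev.deriv_eq, Function.iterate_succ_apply', ext0_of_mem _ (hmem c hc), Dc_apply]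
        have h2 : HasDerivAt (fun c : ℂ => ((c, (p : ℂ × ℂ).2) : ℂ × ℂ)) ((1, 0) : ℂ × ℂ) c :=
          (hasDerivAt_id c).prodMk (hasDerivAt_const c _)
        have h3 : HasFDerivAt (ext0 ((Dc U)^[n] g : U → ℂ))
            (fderiv ℂ (ext0 ((Dc U)^[n] g : U → ℂ)) (c, (p : ℂ × ℂ).2)) (c, (p : ℂ × ℂ).2) :=
          (Hol.an ((Dc U)^[n] g) _ (hmem c hc)).differentiableAt.hasFDerivAt
        exact (h3.comp_hasDerivAt c h2).deriv
    have han : AnalyticOnNhd ℂ (fun c => ext0 (g : U → ℂ) (c, (p : ℂ × ℂ).2))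
        (Metric.ball (p : ℂ × ℂ).1 r) := by
      intro c hc
      have h1 : AnalyticAt ℂ (fun c : ℂ => ((c, (p : ℂ × ℂ).2) : ℂ × ℂ)) c :=
        analyticAt_id.prod analyticAt_const
      exact AnalyticAt.fun_comp (g := ext0 (g : U → ℂ)) (Hol.an g _ (hmem c hc)) h1
    have hz : ∀ n, iteratedDeriv n (fun c => ext0 (g : U → ℂ) (c, (p : ℂ × ℂ).2))
        (p : ℂ × ℂ).1 = 0 := by
      intro n
      rw [key n _ (Metric.mem_ball_self hr)]
      have := hg n
      rw [evH_apply] at this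
      have e := ext0_apply ((Dc U)^[n] g : U → ℂ) p
      rw [this] at e
      exact e
    have h1 := eventually_zero_of_iter (han _ (Metric.mem_ball_self hr)) hz
    exact han.eqOn_zero_of_preconnected_of_eventuallyEq_zero (convex_ball _ _).isPreconnected
      (Metric.mem_ball_self hr) h1
  filter_upwards [Metric.ball_mem_nhds (p : ℂ × ℂ) hr] with q hq
  have hqq := (hprod q).1 hq
  refine slice_zero f (c := q.1) (S := Metric.ball (p : ℂ × ℂ).2 r)
    (convex_ball _ _).isPreconnected (Metric.mem_ball_self hr)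
    (fun w hw => hball ((hprod _).2 ⟨hqq.1, hw⟩)) (fun n => ?_) q.2 hqq.2
  exact hline ((Dw U)^[n] f) (fun m => h m n) q.1 hqq.1

section words

variable {ι : Type*} (del : ι → Derivation ℂ (Hol U) (Hol U))

/-- the elements all of whose words vanish at `p` form an ideal stable under the derivations -/
def wordIdeal (p : U) : Ideal (Hol U) where
  carrier := {g | ∀ l : List ι, evH p (l.foldl (fun x i => del i x) g) = 0}
  add_mem' := by
    intro a b ha hb l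
    have key : ∀ (l : List ι) (a b : Hol U), l.foldl (fun x i => del i x) (a + b) =
        l.foldl (fun x i => del i x) a + l.foldl (fun x i => del i x) b := by
      intro l
      induction l with
      | nil => intro a b; rfl
      | cons i l ih =>
        intro a b
        rw [List.foldl_cons, List.foldl_cons, List.foldl_cons, map_add, ih]
    rw [key, map_add, ha l, hb l, add_zero]
  zero_mem' := by
    intro l
    have key : ∀ l : List ι, l.foldl (fun x i => del i x) (0 : Hol U) = 0 := by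
      intro l
      induction l with
      | nil => rfl
      | cons i l ih => rw [List.foldl_cons, map_zero, ih]
    rw [key, map_zero]
  smul_mem' := by
    intro a g hg l
    have keya : ∀ (l : List ι) (a b : Hol U), l.foldl (fun x i => del i x) (a + b) =
        l.foldl (fun x i => del i x) a + l.foldl (fun x i => del i x) b := by
      intro l
      induction l with
      | nil => intro a b; rfl
      | cons i l ih =>
        intro a b
        rw [List.foldl_cons, List.foldl_cons, List.foldl_cons, map_add, ih]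
    have key : ∀ (l : List ι) (a g : Hol U),
        (∀ l' : List ι, evH p (l'.foldl (fun x i => del i x) g) = 0) →
        evH p (l.foldl (fun x i => del i x) (a * g)) = 0 := by
      intro l
      induction l with
      | nil =>
        intro a g hg
        have := hg []
        rw [List.foldl_nil] at this ⊢
        rw [map_mul, this, mul_zero]
      | cons i l ih =>
        intro a g hg
        rw [List.foldl_cons, Derivation.leibniz, smul_eq_mul, smul_eq_mul, keya, map_add,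
          ih a (del i g) (fun l' => hg (i :: l')), mul_comm g, ih (del i a) g hg, add_zero]
    exact key l a g hg

theorem mem_wordIdeal {p : U} {g : Hol U} : g ∈ wordIdeal del p ↔
    ∀ l : List ι, evH p (l.foldl (fun x i => del i x) g) = 0 := Iff.rfl

theorem wordIdeal_stable {p : U} {g : Hol U} (hg : g ∈ wordIdeal del p) (i : ι) :
    del i g ∈ wordIdeal del p := fun l => hg (i :: l)

theorem ev_of_mem {p : U} {g : Hol U} (hg : g ∈ wordIdeal del p) : evH p g = 0 := hg []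

/-- **words form of the identity theorem**: `∂_c` and `∂_ω` are combinations of the derivations
`del i` with coefficients in `Hol U` -/
theorem eq_zero_of_words [Fintype ι] (hU : IsPreconnected (U : Set (ℂ × ℂ))) (a b : ι → Hol U)
    (hc : ∀ g, Dc U g = ∑ i, a i * del i g) (hw : ∀ g, Dw U g = ∑ i, b i * del i g)
    (f : Hol U) (p : U)
    (h : ∀ l : List ι, evH p (l.foldl (fun x i => del i x) f) = 0) : f = 0 := by
  have hf : f ∈ wordIdeal del p := h
  have sc : ∀ g ∈ wordIdeal del p, Dc U g ∈ wordIdeal del p := by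
    intro g hg
    rw [hc]
    exact Ideal.sum_mem _ fun i _ => Ideal.mul_mem_left _ _ (wordIdeal_stable del hg i)
  have sw : ∀ g ∈ wordIdeal del p, Dw U g ∈ wordIdeal del p := by
    intro g hg
    rw [hw]
    exact Ideal.sum_mem _ fun i _ => Ideal.mul_mem_left _ _ (wordIdeal_stable del hg i)
  have iw : ∀ n : ℕ, (Dw U)^[n] f ∈ wordIdeal del p := by
    intro n
    induction n with
    | zero => exact hf
    | succ n ih => rw [Function.iterate_succ_apply']; exact sw _ ih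
  have ic : ∀ m n : ℕ, (Dc U)^[m] ((Dw U)^[n] f) ∈ wordIdeal del p := by
    intro m n
    induction m with
    | zero => exact iw n
    | succ m ih => rw [Function.iterate_succ_apply']; exact sc _ ih
  exact eq_zero_of_mixed hU f p fun m n => ev_of_mem del (ic m n)

/-- the same with `foldr` -/
theorem eq_zero_of_words' [Fintype ι] (hU : IsPreconnected (U : Set (ℂ × ℂ))) (a b : ι → Hol U)
    (hc : ∀ g, Dc U g = ∑ i, a i * del i g) (hw : ∀ g, Dw U g = ∑ i, b i * del i g)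
    (f : Hol U) (p : U)
    (h : ∀ l : List ι, evH p (l.foldr (fun i x => del i x) f) = 0) : f = 0 := by
  refine eq_zero_of_words del hU a b hc hw f p fun l => ?_
  have := h l.reverse
  rwa [List.foldr_reverse] at this

end words

end Crest.Agent.R102.HolXY289
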