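import Crest.Agent.R102.Chain_540

/-!
Row 102, part (B), lemma B4 (helper540): holomorphy and reality of the Dirichlet chain.
-/

set_option autoImplicit false

open Set Filter Topology Metric Complex MeasureTheory
open scoped Real ContDiff ComplexConjugate

noncomputable section

namespace Crest.Agent.R102.B540

open Crest.Agent.R102.B821 Crest.Agent.R266.SCV

variable {ρ₀ ε₀ ρ d w ε K δ₀ b : ℝ} {n j : ℕ} {L Ψ : ℂ × ℂ → ℂ} {X : ℂ → ℂ}

lemma isOpen_strip (σ : ℝ) : IsOpen {t : ℂ | |t.im| < σ} :=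
  isOpen_lt (by fun_prop) continuous_const

lemma Dat.hasDerivAt_XX (D : Dat ρ₀ ε₀ ρ d w ε K δ₀ b n j L Ψ X) {t : ℂ} (ht : |t.im| < ρ)
    (i : ℕ) : HasDerivAt (fun s => XX X w s i) (DX X w t i) t := by
  have h1 : HasDerivAt X (deriv X (t + i * w)) (t + i * w) :=
    (D.Xd.differentiableAt ((isOpen_strip ρ).mem_nhds (by simpa using ht))).hasDerivAt
  have h2 : HasDerivAt (fun s : ℂ => s + i * w) 1 t := (hasDerivAt_id t).add_const _
  have := h1.comp t h2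
  rw [mul_one] at this
  exact this

lemma Dat.diff_XX (D : Dat ρ₀ ε₀ ρ d w ε K δ₀ b n j L Ψ X) (i : ℕ) :
    DifferentiableOn ℂ (fun s => XX X w s i) {t | |t.im| < ρ} := fun _ ht =>
  (D.hasDerivAt_XX ht i).differentiableAt.differentiableWithinAt

lemma Dat.diff_DX (D : Dat ρ₀ ε₀ ρ d w ε K δ₀ b n j L Ψ X) (i : ℕ) :
    DifferentiableOn ℂ (fun s => DX X w s i) {t | |t.im| < ρ} := by
  have h1 : DifferentiableOn ℂ (deriv X) {t | |t.im| < ρ} := D.Xd.deriv (isOpen_strip ρ)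
  refine h1.comp (g := deriv X) (f := fun s : ℂ => s + i * w) ?_ ?_
  · exact (differentiable_id.add_const _).differentiableOn
  · intro s hs
    simpa using hs

lemma Dat.sub_Dg (D : Dat ρ₀ ε₀ ρ d w ε K δ₀ b n j L Ψ X) :
    Dg (3 / 4 * ρ₀) (ε₀ / 2) ⊆ Dg ρ₀ ε₀ :=
  Dg_mono (by have := D.ρ₀_pos; linarith) (by have := D.lag.ε_pos; linarith)

lemma Dat.diff_aa (D : Dat ρ₀ ε₀ ρ d w ε K δ₀ b n j L Ψ X) (l : ℕ) :
    DifferentiableOn ℂ (fun s => aa L X w s l) {t | |t.im| < ρ} := by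
  have h1 : DifferentiableOn ℂ (q2 (q1 L)) (Dg ρ₀ ε₀) :=
    (ana_q2 (ana_q1 D.lag.anaL)).differentiableOn
  have h2 : DifferentiableOn ℂ (fun s => (XX X w s l, XX X w s (l + 1))) {t | |t.im| < ρ} :=
    (D.diff_XX l).prodMk (D.diff_XX (l + 1))
  have h3 : DifferentiableOn ℂ (fun s => q2 (q1 L) (XX X w s l, XX X w s (l + 1)))
      {t | |t.im| < ρ} := h1.comp h2 (fun s hs => D.sub_Dg (D.XX_Dg hs l))
  exact h3.mul ((D.diff_DX l).mul (D.diff_DX (l + 1)))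

lemma Dat.yy_step (D : Dat ρ₀ ε₀ ρ d w ε K δ₀ b n j L Ψ X) {t : ℂ} (ht : |t.im| < ρ)
    {v : ℕ → ℂ} {i : ℕ} (h0 : ‖v i‖ ≤ b) (h1 : ‖v (i + 1)‖ ≤ b) :
    ‖yy X w t v (i + 1) - yy X w t v i - w‖ ≤ 27 / 100 * w := by
  have e : yy X w t v (i + 1) - yy X w t v i - w = (XX X w t (i + 1) - XX X w t i - w) +
      DX X w t (i + 1) * v (i + 1) - DX X w t i * v i := by
    unfold yy; ring
  rw [e]
  have s1 := D.XX_step ht i
  have s2 := D.DXv_le ht h0 i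
  have s3 := D.DXv_le ht h1 (i + 1)
  have s4 := norm_sub_le ((XX X w t (i + 1) - XX X w t i - w) +
      DX X w t (i + 1) * v (i + 1)) (DX X w t i * v i)
  have s5 := norm_add_le (XX X w t (i + 1) - XX X w t i - w) (DX X w t (i + 1) * v (i + 1))
  have s6 := D.b_w
  have s7 := D.w_pos
  linarith

lemma Dat.yy_im (D : Dat ρ₀ ε₀ ρ d w ε K δ₀ b n j L Ψ X) {t : ℂ} (ht : |t.im| < ρ)
    {v : ℕ → ℂ} {i : ℕ} (h0 : ‖v i‖ ≤ b) : |(yy X w t v i).im| < 3 / 4 * ρ₀ := by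
  have s0 := D.ρ₀_pos
  have s1 := D.XX_im ht i
  have s2 := D.DXv_le ht h0 i
  have s3 := Complex.abs_im_le_norm (DX X w t i * v i)
  have s4 : (yy X w t v i).im = (XX X w t i).im + (DX X w t i * v i).im := by
    unfold yy; rw [Complex.add_im]
  have s5 := abs_add_le (XX X w t i).im (DX X w t i * v i).im
  have s6 := D.b_ρ
  rw [s4]
  linarith

lemma Dat.yy_Dg (D : Dat ρ₀ ε₀ ρ d w ε K δ₀ b n j L Ψ X) {t : ℂ} (ht : |t.im| < ρ)
    {v : ℕ → ℂ} {i : ℕ} (h0 : ‖v i‖ ≤ b) (h1 : ‖v (i + 1)‖ ≤ b) :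
    (yy X w t v i, yy X w t v (i + 1)) ∈ Dg (3 / 4 * ρ₀) (ε₀ / 2) := by
  refine ⟨D.yy_im ht h0, D.yy_im ht h1, ?_⟩
  have s1 := D.yy_step ht h0 h1
  have s2 := D.w_lt
  have s3 := D.w_pos
  have e2 : ‖(w : ℂ)‖ = w := by rw [Complex.norm_real, Real.norm_of_nonneg D.w_pos.le]
  have s4 := norm_add_le (yy X w t v (i + 1) - yy X w t v i - w) w
  rw [sub_add_cancel, e2] at s4
  simp only
  linarith

lemma Dat.diff_yy (D : Dat ρ₀ ε₀ ρ d w ε K δ₀ b n j L Ψ X) {v : ℂ → ℕ → ℂ} {U : Set ℂ}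
    (hU : U ⊆ {t | |t.im| < ρ}) {i : ℕ} (hv : DifferentiableOn ℂ (fun t => v t i) U) :
    DifferentiableOn ℂ (fun t => yy X w t (v t) i) U :=
  ((D.diff_XX i).mono hU).add (((D.diff_DX i).mono hU).mul hv)

lemma Dat.diff_gg (D : Dat ρ₀ ε₀ ρ d w ε K δ₀ b n j L Ψ X) {v : ℂ → ℕ → ℂ} {U : Set ℂ}
    (hU : U ⊆ {t | |t.im| < ρ}) (hv : ∀ i ≤ n, DifferentiableOn ℂ (fun t => v t i) U)
    (hb : ∀ t ∈ U, ∀ i ≤ n, ‖v t i‖ ≤ b) {m : ℕ} (hm : m + 1 < n) :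
    DifferentiableOn ℂ (fun t => gg L X w t (v t) m) U := by
  have i0 : m ≤ n := by omega
  have i1 : m + 1 ≤ n := by omega
  have i2 : m + 1 + 1 ≤ n := by omega
  have y0 := D.diff_yy hU (hv _ i0)
  have y1 := D.diff_yy hU (hv _ i1)
  have y2 := D.diff_yy hU (hv _ i2)
  have h1 : DifferentiableOn ℂ (q2 L) (Dg ρ₀ ε₀) := (ana_q2 D.lag.anaL).differentiableOn
  have h2 : DifferentiableOn ℂ (q1 L) (Dg ρ₀ ε₀) := (ana_q1 D.lag.anaL).differentiableOn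
  have e1 : DifferentiableOn ℂ (fun t => q2 L (yy X w t (v t) m, yy X w t (v t) (m + 1))) U :=
    h1.comp (y0.prodMk y1) (fun t ht => D.sub_Dg (D.yy_Dg (hU ht) (hb t ht _ i0) (hb t ht _ i1)))
  have e2 : DifferentiableOn ℂ
      (fun t => q1 L (yy X w t (v t) (m + 1), yy X w t (v t) (m + 1 + 1))) U :=
    h2.comp (y1.prodMk y2) (fun t ht => D.sub_Dg (D.yy_Dg (hU ht) (hb t ht _ i1) (hb t ht _ i2)))
  have a0 := (D.diff_aa m).mono hU
  have a1 := (D.diff_aa (m + 1)).mono hU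
  exact ((a1.mul ((hv _ i2).sub (hv _ i1))).sub (a0.mul ((hv _ i1).sub (hv _ i0)))).sub
    (((D.diff_DX (m + 1)).mono hU).mul (e1.add e2))

lemma Dat.strip_sub (D : Dat ρ₀ ε₀ ρ d w ε K δ₀ b n j L Ψ X) :
    {t : ℂ | |t.im| < ρ - d} ⊆ {t : ℂ | |t.im| < ρ} := by
  intro t ht
  have := D.d_pos
  simp only [Set.mem_ofPred_eq] at ht ⊢
  linarith

lemma Dat.diff_VV (D : Dat ρ₀ ε₀ ρ d w ε K δ₀ b n j L Ψ X) (k : ℕ) :
    ∀ i ≤ n, DifferentiableOn ℂ (fun t => VV L X w n t k i) {t | |t.im| < ρ - d} := by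
  induction k with
  | zero => intro i _; exact differentiableOn_const _
  | succ k ih =>
    intro i hi
    refine differentiableOn_dinv (A := fun t => aa L X w t)
      (F := fun t => ff L X w t (VV L X w n t k)) (fun l _ => (D.diff_aa l).mono D.strip_sub)
      (fun t ht l hl => (D.coef (D.strip_sub ht)).ne hl)
      (fun t ht => (D.coef (D.strip_sub ht)).sum_ne) (fun m hm1 hm2 => ?_) hi
    obtain ⟨q, rfl⟩ : ∃ q, m = q + 1 := ⟨m - 1, by omega⟩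
    exact D.diff_gg D.strip_sub ih (fun t ht i hi => D.VV_le ht k hi) hm2

lemma Dat.diff_WW (D : Dat ρ₀ ε₀ ρ d w ε K δ₀ b n j L Ψ X) {i : ℕ} (hi : i ≤ n) :
    DifferentiableOn ℂ (fun t => WW L X w n t i) {t | |t.im| < ρ - d} := by
  have hbn := D.b_nn
  have h1 : TendstoUniformlyOn (fun k t => VV L X w n t k i) (fun t => WW L X w n t i) atTop
      {t | |t.im| < ρ - d} := by
    rw [Metric.tendstoUniformlyOn_iff]
    intro η hη
    have h3 : Tendsto (fun k : ℕ => b * (1 / 2 : ℝ) ^ k) atTop (𝓝 (b * 0)) :=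
      (tendsto_pow_atTop_nhds_zero_of_lt_one (by norm_num) (by norm_num)).const_mul _
    rw [mul_zero] at h3
    filter_upwards [h3.eventually (gt_mem_nhds hη)] with k hk t ht
    rw [dist_comm, dist_eq_norm]
    refine (D.dist_WW ht hi k).trans_lt ?_
    rw [div_pow, one_pow] at hk
    calc b / 2 ^ k = b * (1 / 2 ^ k) := by ring
      _ < η := hk
  exact h1.tendstoLocallyUniformlyOn.differentiableOn
    (Eventually.of_forall (fun k => D.diff_VV k i hi)) (isOpen_strip _)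

/-! reality -/

lemma Dat.XX_real (D : Dat ρ₀ ε₀ ρ d w ε K δ₀ b n j L Ψ X) (t : ℝ) (i : ℕ) :
    conj (XX X w t i) = XX X w t i := by
  rw [Complex.conj_eq_iff_im]
  have h := D.Xre (t + i * w)
  unfold XX
  push_cast at h
  exact h

lemma Dat.DX_real (D : Dat ρ₀ ε₀ ρ d w ε K δ₀ b n j L Ψ X) (t : ℝ) (i : ℕ) :
    conj (DX X w t i) = DX X w t i := by
  rw [Complex.conj_eq_iff_im]
  have hρ := D.ρ_pos
  have h1 : HasDerivAt X (deriv X ((t + i * w : ℝ) : ℂ)) ((t + i * w : ℝ) : ℂ) :=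
    (D.Xd.differentiableAt ((isOpen_strip ρ).mem_nhds (by simpa using hρ))).hasDerivAt
  have h2 := h1.comp_ofReal
  have h3 := Complex.imCLM.hasFDerivAt.comp_hasDerivAt (t + i * w : ℝ) h2
  have h4 : (fun s : ℝ => Complex.imCLM (X (s : ℂ))) = fun _ => (0 : ℝ) := by
    funext s
    exact D.Xre s
  have h5 : HasDerivAt (fun s : ℝ => Complex.imCLM (X (s : ℂ))) 0 (t + i * w : ℝ) := by
    rw [h4]
    exact hasDerivAt_const _ _
  have h6 := h3.unique h5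
  unfold DX
  have e : ((t + i * w : ℝ) : ℂ) = (t : ℂ) + i * w := by push_cast; ring
  rw [e] at h6
  exact h6

lemma Dat.real_strip (D : Dat ρ₀ ε₀ ρ d w ε K δ₀ b n j L Ψ X) (t : ℝ) :
    |((t : ℂ)).im| < ρ - d := by
  rw [Complex.ofReal_im, abs_zero]
  have := D.d_lt
  linarith

lemma Dat.aa_real (D : Dat ρ₀ ε₀ ρ d w ε K δ₀ b n j L Ψ X) (t : ℝ) (l : ℕ) :
    conj (aa L X w t l) = aa L X w t l := by
  have hm := D.sub_Dg (D.XX_Dg (D.strip_sub (D.real_strip t)) l)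
  have h1 := D.lag.q12_real hm
  rw [D.XX_real t l, D.XX_real t (l + 1)] at h1
  unfold aa
  rw [map_mul, map_mul, D.DX_real, D.DX_real, ← h1]

lemma Dat.yy_real (D : Dat ρ₀ ε₀ ρ d w ε K δ₀ b n j L Ψ X) (t : ℝ) {v : ℕ → ℂ} {i : ℕ}
    (hv : conj (v i) = v i) : conj (yy X w t v i) = yy X w t v i := by
  unfold yy
  rw [map_add, map_mul, D.XX_real, D.DX_real, hv]

lemma Dat.gg_real (D : Dat ρ₀ ε₀ ρ d w ε K δ₀ b n j L Ψ X) (t : ℝ) {v : ℕ → ℂ}
    (hv : ∀ i ≤ n, conj (v i) = v i) (hb : ∀ i ≤ n, ‖v i‖ ≤ b) {m : ℕ} (hm : m + 1 < n) :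
    conj (gg L X w t v m) = gg L X w t v m := by
  have i0 : m ≤ n := by omega
  have i1 : m + 1 ≤ n := by omega
  have i2 : m + 1 + 1 ≤ n := by omega
  have ht := D.strip_sub (D.real_strip t)
  have h1 := D.lag.EL_real (D.sub_Dg (D.yy_Dg ht (hb _ i0) (hb _ i1)))
    (D.sub_Dg (D.yy_Dg ht (hb _ i1) (hb _ i2)))
  rw [D.yy_real t (hv _ i0), D.yy_real t (hv _ i1), D.yy_real t (hv _ i2)] at h1
  unfold gg
  rw [map_sub, map_sub, map_mul, map_mul, map_mul, map_sub, map_sub, D.aa_real, D.aa_real,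
    D.DX_real, hv _ i0, hv _ i1, hv _ i2, ← h1]

lemma Dat.VV_real (D : Dat ρ₀ ε₀ ρ d w ε K δ₀ b n j L Ψ X) (t : ℝ) (k : ℕ) :
    ∀ i ≤ n, conj (VV L X w n t k i) = VV L X w n t k i := by
  induction k with
  | zero => intro i _; simp [VV]
  | succ k ih =>
    intro i hi
    refine conj_dinv (fun l _ => D.aa_real t l) (fun m hm1 hm2 => ?_) hi
    obtain ⟨q, rfl⟩ : ∃ q, m = q + 1 := ⟨m - 1, by omega⟩
    exact D.gg_real t ih (fun i hi => D.VV_le (D.real_strip t) k hi) hm2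

lemma Dat.WW_real (D : Dat ρ₀ ε₀ ρ d w ε K δ₀ b n j L Ψ X) (t : ℝ) {i : ℕ} (hi : i ≤ n) :
    conj (WW L X w n t i) = WW L X w n t i := by
  have h1 := D.tendsto_WW (D.real_strip t) hi
  have h2 := (Complex.continuous_conj.tendsto _).comp h1
  have h3 : (conj ∘ fun k => VV L X w n t k i) = fun k => VV L X w n t k i := by
    funext k
    exact D.VV_real t k i hi
  rw [h3] at h2
  exact tendsto_nhds_unique h2 h1

end Crest.Agent.R102.B540
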