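import Crest.Agent.R102.Ident_821

/-!
Row 102, part (B), B3 continued (helper821): mean value zero, symmetries of `E, P, a`,
Fourier form of (3.3).
-/

set_option autoImplicit false

open Set Filter Topology Metric Complex MeasureTheory
open scoped Real ContDiff ComplexConjugate

noncomputable section

namespace Crest.Agent.R102.B821

open Crest.Agent.R266.SCV

variable {ρ₀ ε₀ k ρ r : ℝ} {L Ψ U V f g : ℂ × ℂ → ℂ}

section Mean

lemma Adm.im_lt (h : Adm ρ₀ ε₀ ρ r U) {w : ℂ} (hw : ‖w‖ < r) : 3 * |w.im| < ρ := by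
  have h1 := Complex.abs_im_le_norm w
  have h2 := h.r_le_ρ
  have h3 := h.r_pos
  linarith

/-- (3.1): the mean of `P` vanishes -/
theorem Adm.mean (hL : IsLag ρ₀ ε₀ L Ψ) (h : Adm ρ₀ ε₀ ρ r U) {w : ℂ} (hw : ‖w‖ < r) :
    fc (Pf L U) 0 w = 0 := by
  have him := h.im_lt hw
  have hρ := h.ρ_pos
  have habs := abs_nonneg w.im
  set A : ℂ → ℂ := fun t => Xt U (t, w) * q2 L (tr (-1) (Xf U) (t, w), Xf U (t, w)) with hA
  set B : ℂ → ℂ := fun t => Xt U (t, w) * q1 L (Xf U (t, w), tr 1 (Xf U) (t, w)) with hB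
  have hmem : ∀ t : ℂ, |t.im| < ρ - 3 / 2 * |w.im| → (t, w) ∈ Dom (3 / 2) ρ r := fun t ht =>
    ⟨by simp only; linarith, hw⟩
  have hX := h.hU.isX
  -- holomorphy of A
  have hAd : DifferentiableOn ℂ A {t : ℂ | |t.im| < ρ - 3 / 2 * |w.im|} := by
    intro t ht
    have hp := hmem t ht
    have hm := h.mem3 hL hp
    have h1 : DifferentiableAt ℂ (fun t => Xt U (t, w)) t :=
      (hasDerivAt_fst (h.hXt.differentiableAt (h.mem_0 hp))).differentiableAt
    have h2 : DifferentiableAt ℂ (fun t => tr (-1) (Xf U) (t, w)) t :=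
      (hasDerivAt_Xf_t (h.hU.differentiableAt (h.mem_m hp))).differentiableAt
    have h3 : DifferentiableAt ℂ (fun t => Xf U (t, w)) t := by
      have := hasDerivAt_Xf_t (c := 0) (U := U) (t := t) (w := w)
        (by simpa using h.hU.differentiableAt (h.mem_0 hp))
      have h4 := this.differentiableAt
      simpa [tr_zero] using h4
    have h4 : DifferentiableAt ℂ (fun t => q2 L (tr (-1) (Xf U) (t, w), Xf U (t, w))) t :=
      DifferentiableAt.comp (g := q2 L) (f := fun t => (tr (-1) (Xf U) (t, w), Xf U (t, w))) t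
        (ana_q2 hL.anaL _ hm.1).differentiableAt (h2.prodMk h3)
    exact (h1.mul h4).differentiableWithinAt
  have hAper : ∀ z : ℂ, |z.im| < ρ - 3 / 2 * |w.im| → A (z + 1) = A z := by
    intro z hz
    have hp := hmem z hz
    have hm := h.mem3 hL hp
    have e1 : Xt U (z + 1, w) = Xt U (z, w) := h.hXt.per z w (h.mem_0 hp)
    have e2 : Xf U (z + 1, w) = Xf U (z, w) + 1 := hX.per z w (h.mem_0 hp)
    have e3 : tr (-1) (Xf U) (z + 1, w) = tr (-1) (Xf U) (z, w) + 1 := by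
      have := hX.per _ _ (h.mem_m hp)
      unfold tr
      simp only at this ⊢
      rw [← this]
      congr 2
      ring
    simp only [hA]
    rw [e1, e2, e3, hL.q2_per hm.1]
  have hshift := strip_shift hAd hAper (s := w) (by linarith)
  -- the derivative of the action
  have hder : ∀ x ∈ uIcc (0 : ℝ) 1, HasDerivAt
      (fun x : ℝ => L (Xf U ((x : ℂ), w), tr 1 (Xf U) ((x : ℂ), w))) (A (x + w) + B x) x := by
    intro x _
    have hp : ((x : ℂ), w) ∈ Dom (3 / 2) ρ r := hmem x (by simp; linarith)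
    have hm := h.mem3 hL hp
    have h3 : HasDerivAt (fun t => Xf U (t, w)) (Xt U ((x : ℂ), w)) (x : ℂ) := by
      have := hasDerivAt_Xf_t (c := 0) (U := U) (t := x) (w := w)
        (by simpa using h.hU.differentiableAt (h.mem_0 hp))
      simpa [tr_zero] using this
    have h4 : HasDerivAt (fun t => tr 1 (Xf U) (t, w)) (tr 1 (Xt U) ((x : ℂ), w)) (x : ℂ) :=
      hasDerivAt_Xf_t (h.hU.differentiableAt (h.mem_p hp))
    have h5 := (hasDerivAt_comp2 (F := L) (hL.dL _ hm.2) h3 h4).comp_ofReal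
    refine h5.congr_deriv ?_
    have e1 : tr (-1) (Xf U) ((x : ℂ) + w, w) = Xf U ((x : ℂ), w) := by
      unfold tr
      simp only
      congr 2
      push_cast; ring
    have e2 : Xf U ((x : ℂ) + w, w) = tr 1 (Xf U) ((x : ℂ), w) := by
      unfold tr
      simp only
      congr 2
      push_cast; ring
    have e3 : Xt U ((x : ℂ) + w, w) = tr 1 (Xt U) ((x : ℂ), w) := by
      unfold tr
      simp only
      congr 2
      push_cast; ring
    simp only [hA, hB]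
    rw [e1, e2, e3]
    ring
  -- continuity
  have hcA : Continuous (fun x : ℝ => A x) := by
    refine hAd.continuousOn.comp_continuous (by fun_prop) (fun x => ?_)
    change |((x : ℂ)).im| < _
    simp; linarith
  have hcAw : Continuous (fun x : ℝ => A (x + w)) := by
    refine hAd.continuousOn.comp_continuous (f := fun x : ℝ => (x : ℂ) + w) (by fun_prop)
      (fun x => ?_)
    change |((x : ℂ) + w).im| < _
    simp; linarith
  have hPc : Continuous (fun x : ℝ => Pf L U ((x : ℂ), w)) :=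
    (h.hPf hL).continuousOn.comp_continuous (by fun_prop) (fun x => hmem x (by simp; linarith))
  have hPAB : ∀ t : ℂ, Pf L U (t, w) = A t + B t := by
    intro t
    simp only [hA, hB, Pf, Ef, EL]
    ring
  have hcB : Continuous (fun x : ℝ => B x) := by
    have : (fun x : ℝ => B x) = fun x : ℝ => Pf L U ((x : ℂ), w) - A x := by
      ext x; rw [hPAB]; ring
    rw [this]
    exact hPc.sub hcA
  have hFTC := intervalIntegral.integral_eq_sub_of_hasDerivAt hder
    ((hcAw.add hcB).intervalIntegrable _ _)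
  have h0 : fc (Pf L U) 0 w = ∫ x in (0 : ℝ)..1, (A x + B x) := by
    unfold fc
    refine intervalIntegral.integral_congr (fun x _ => ?_)
    simp only [Int.cast_zero, zero_mul, neg_zero, ee_zero, mul_one]
    exact hPAB x
  rw [h0, intervalIntegral.integral_add (hcA.intervalIntegrable _ _)
    (hcB.intervalIntegrable _ _), ← hshift, ← intervalIntegral.integral_add
    (hcAw.intervalIntegrable _ _) (hcB.intervalIntegrable _ _), hFTC]
  have hp0 : ((0 : ℂ), w) ∈ Dom (3 / 2) ρ r := hmem 0 (by simp; linarith)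
  have hm := h.mem3 hL hp0
  have e2 : Xf U ((0 : ℂ) + 1, w) = Xf U (0, w) + 1 := hX.per 0 w (h.mem_0 hp0)
  have e3 : tr 1 (Xf U) ((0 : ℂ) + 1, w) = tr 1 (Xf U) (0, w) + 1 := by
    have := hX.per _ _ (h.mem_p hp0)
    unfold tr
    simp only at this ⊢
    rw [← this]
    congr 2
    ring
  have e4 := hL.perL hm.2
  rw [zero_add] at e2 e3
  rw [Complex.ofReal_one, Complex.ofReal_zero, e2, e3, e4, sub_self]

end Mean

section Sym

lemma IsRe.apply (h : IsRe k ρ r f) {t w : ℂ} (hp : (t, w) ∈ Dom k ρ r) :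
    f (conj t, conj w) = conj (f (t, w)) := by
  have := h (t, w) hp
  unfold cj at this
  rw [← this, Complex.conj_conj]

lemma IsPar.apply {s : ℂ} (h : IsPar k ρ r s f) {t w : ℂ} (hp : (t, w) ∈ Dom k ρ r) :
    f (t, -w) = s * f (t, w) := h (t, w) hp

lemma tr_mem_half (c : ℝ) {t w : ℂ} {k' : ℝ} (hc : k + |c| ≤ k') (hp : (t, w) ∈ Dom k' ρ r) :
    (t + c * w, w) ∈ Dom k ρ r := tr_mem c (Dom_mono hc le_rfl le_rfl hp)

/-- translates of real functions -/
lemma IsRe.tr {k' : ℝ} (h : IsRe k ρ r f) (c : ℝ) (hc : k + |c| ≤ k') {t w : ℂ}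
    (hp : (t, w) ∈ Dom k' ρ r) : tr c f (conj t, conj w) = conj (tr c f (t, w)) := by
  have h1 := h.apply (tr_mem_half c hc hp)
  unfold B821.tr
  simp only
  rw [← h1]
  congr 2
  simp

lemma IsPar.tr {k' : ℝ} {s : ℂ} (h : IsPar k ρ r s f) (c : ℝ) (hc : k + |c| ≤ k') {t w : ℂ}
    (hp : (t, w) ∈ Dom k' ρ r) : tr c f (t, -w) = s * tr (-c) f (t, w) := by
  have h1 := h.apply (tr_mem_half (-c) (by rwa [abs_neg]) hp)
  unfold B821.tr
  simp only
  rw [← h1]
  congr 2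
  push_cast
  ring

/-- partial derivatives of real / even functions -/
lemma IsRe.q1 (h : IsRe k ρ r f) (hf : IsH k ρ r f) : IsRe k ρ r (q1 f) := by
  rintro ⟨t, w⟩ hp
  have hp' := mem_Dom_conj.2 hp
  have h1 := hasDerivAt_fst (hf.differentiableAt hp)
  have h2 := (hasDerivAt_fst (hf.differentiableAt hp')).conj_conj
  rw [Complex.conj_conj] at h2
  have h3 : (fun s => f (s, w)) =ᶠ[𝓝 t] (conj ∘ (fun s => f (s, conj w)) ∘ conj) := by
    have hcont : Continuous (fun s : ℂ => (s, w)) := by fun_prop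
    filter_upwards [hcont.continuousAt.preimage_mem_nhds ((isOpen_Dom k ρ r).mem_nhds hp)] with s hs
    exact (h _ hs).symm
  exact ((h1.congr_of_eventuallyEq h3.symm).unique h2).symm

lemma IsRe.q2 (h : IsRe k ρ r f) (hf : IsH k ρ r f) : IsRe k ρ r (q2 f) := by
  rintro ⟨t, w⟩ hp
  have hp' := mem_Dom_conj.2 hp
  have h1 := hasDerivAt_snd (hf.differentiableAt hp)
  have h2 := (hasDerivAt_snd (hf.differentiableAt hp')).conj_conj
  rw [Complex.conj_conj] at h2
  have h3 : (fun s => f (t, s)) =ᶠ[𝓝 w] (conj ∘ (fun s => f (conj t, s)) ∘ conj) := by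
    have hcont : Continuous (fun s : ℂ => (t, s)) := by fun_prop
    filter_upwards [hcont.continuousAt.preimage_mem_nhds ((isOpen_Dom k ρ r).mem_nhds hp)] with s hs
    exact (h _ hs).symm
  exact ((h1.congr_of_eventuallyEq h3.symm).unique h2).symm

lemma IsPar.q1 {s : ℂ} (h : IsPar k ρ r s f) (hf : IsH k ρ r f) : IsPar k ρ r s (q1 f) := by
  rintro ⟨t, w⟩ hp
  have hp' := mem_Dom_neg.2 hp
  have h1 := (hasDerivAt_fst (hf.differentiableAt hp)).const_mul s
  have h2 := hasDerivAt_fst (hf.differentiableAt hp')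
  have h3 : (fun z => f (z, -w)) =ᶠ[𝓝 t] (fun z => s * f (z, w)) := by
    have hcont : Continuous (fun s : ℂ => (s, w)) := by fun_prop
    filter_upwards [hcont.continuousAt.preimage_mem_nhds ((isOpen_Dom k ρ r).mem_nhds hp)] with z hz
    exact h _ hz
  exact (h2.congr_of_eventuallyEq h3.symm).unique h1

/-- the Euler-Lagrange defect is odd and real -/
lemma Adm.Ef_re (hL : IsLag ρ₀ ε₀ L Ψ) (h : Adm ρ₀ ε₀ ρ r U) : IsRe (3 / 2) ρ r (Ef L U) := by
  rintro ⟨t, w⟩ hp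
  have hXre : ∀ {c : ℝ}, 1 / 2 + |c| ≤ 3 / 2 →
      tr c (Xf U) (conj t, conj w) = conj (tr c (Xf U) (t, w)) := by
    intro c hc
    have h1 := h.re.tr c hc hp
    unfold Xf tr at *
    simp only at h1 ⊢
    rw [h1]
    simp
  have h0 : Xf U (conj t, conj w) = conj (Xf U (t, w)) := by
    have := hXre (c := 0) (by norm_num)
    rwa [tr_zero, tr_zero] at this
  have hm := h.mem3 hL hp
  unfold cj Ef
  simp only
  rw [hXre (c := -1) (by norm_num), hXre (c := 1) (by norm_num), h0, hL.EL_real hm.1 hm.2,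
    Complex.conj_conj]

lemma Adm.Xf_par (h : Adm ρ₀ ε₀ ρ r U) {k' : ℝ} (c : ℝ) (hc : 1 / 2 + |c| ≤ k') {t w : ℂ}
    (hp : (t, w) ∈ Dom k' ρ r) : tr c (Xf U) (t, -w) = tr (-c) (Xf U) (t, w) := by
  have h1 := h.par.tr c hc hp
  unfold Xf tr at *
  simp only at h1 ⊢
  rw [h1]
  push_cast
  ring

lemma Adm.Xf_re (h : Adm ρ₀ ε₀ ρ r U) {k' : ℝ} (c : ℝ) (hc : 1 / 2 + |c| ≤ k') {t w : ℂ}
    (hp : (t, w) ∈ Dom k' ρ r) : tr c (Xf U) (conj t, conj w) = conj (tr c (Xf U) (t, w)) := by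
  have h1 := h.re.tr c hc hp
  unfold Xf tr at *
  simp only at h1 ⊢
  rw [h1]
  simp

lemma Adm.Ef_par (hL : IsLag ρ₀ ε₀ L Ψ) (h : Adm ρ₀ ε₀ ρ r U) : IsPar (3 / 2) ρ r (-1) (Ef L U) := by
  rintro ⟨t, w⟩ hp
  have hm := h.mem3 hL hp
  have h0 : Xf U (t, -w) = Xf U (t, w) := by
    have := h.Xf_par 0 (k' := 3 / 2) (by norm_num) hp
    rwa [tr_zero, neg_zero, tr_zero] at this
  have h1 := h.Xf_par 1 (k' := 3 / 2) (by norm_num) hp
  have h2 := h.Xf_par (-1) (k' := 3 / 2) (by norm_num) hp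
  rw [neg_neg] at h2
  unfold rf Ef
  simp only
  rw [h0, h1, h2, hL.EL_swap hm.1 hm.2]
  ring

lemma Adm.Xt_re (h : Adm ρ₀ ε₀ ρ r U) : IsRe (1 / 2) ρ r (Xt U) := by
  intro p hp
  have h1 := (h.re.q1 h.hU) p hp
  unfold cj Xt at *
  rw [map_add, map_one, h1]

lemma Adm.Xt_par (h : Adm ρ₀ ε₀ ρ r U) : IsPar (1 / 2) ρ r 1 (Xt U) := by
  intro p hp
  have h1 := (h.par.q1 h.hU) p hp
  unfold rf Xt at *
  rw [h1]
  ring

lemma Adm.Pf_re (hL : IsLag ρ₀ ε₀ L Ψ) (h : Adm ρ₀ ε₀ ρ r U) : IsRe (3 / 2) ρ r (Pf L U) := by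
  intro p hp
  have h1 := h.Ef_re hL p hp
  have h2 := h.Xt_re p (Dom_mono (by norm_num) le_rfl le_rfl hp)
  unfold cj Pf at *
  rw [map_mul, h1, h2]

lemma Adm.Pf_par (hL : IsLag ρ₀ ε₀ L Ψ) (h : Adm ρ₀ ε₀ ρ r U) :
    IsPar (3 / 2) ρ r (-1) (Pf L U) := by
  intro p hp
  have h1 := h.Ef_par hL p hp
  have h2 := h.Xt_par p (Dom_mono (by norm_num) le_rfl le_rfl hp)
  unfold rf Pf at *
  rw [h1, h2]
  ring

lemma Adm.pair_half (hL : IsLag ρ₀ ε₀ L Ψ) (h : Adm ρ₀ ε₀ ρ r U) {p : ℂ × ℂ} (hp : p ∈ Dom 1 ρ r) :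
    (tr (-(1 / 2)) (Xf U) p, tr (1 / 2) (Xf U) p) ∈ Dg ρ₀ ε₀ :=
  Dg_sub_of_lag hL (h.pair_tr (by rw [abs_neg]; norm_num [abs_of_pos]) (by norm_num [abs_of_pos])
    (by norm_num) hp)

lemma Adm.af_re (hL : IsLag ρ₀ ε₀ L Ψ) (h : Adm ρ₀ ε₀ ρ r U) : IsRe 1 ρ r (af L U) := by
  rintro ⟨t, w⟩ hp
  have hm := h.pair_half hL hp
  have c1 : (1 : ℝ) / 2 + |(1 / 2 : ℝ)| ≤ 1 := by norm_num [abs_of_pos]
  have c2 : (1 : ℝ) / 2 + |(-(1 / 2) : ℝ)| ≤ 1 := by rw [abs_neg]; norm_num [abs_of_pos]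
  have h1 := h.Xf_re (1 / 2) c1 hp
  have h2 := h.Xf_re (-(1 / 2)) c2 hp
  have h3 := h.Xt_re.tr (1 / 2) c1 hp
  have h4 := h.Xt_re.tr (-(1 / 2)) c2 hp
  unfold cj af
  simp only
  rw [h1, h2, h3, h4, hL.q12_real hm]
  simp only [map_mul, Complex.conj_conj]

lemma Adm.af_par (hL : IsLag ρ₀ ε₀ L Ψ) (h : Adm ρ₀ ε₀ ρ r U) : IsPar 1 ρ r (-1) (af L U) := by
  rintro ⟨t, w⟩ hp
  have hm := h.pair_half hL hp
  have c1 : (1 : ℝ) / 2 + |(1 / 2 : ℝ)| ≤ 1 := by norm_num [abs_of_pos]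
  have c2 : (1 : ℝ) / 2 + |(-(1 / 2) : ℝ)| ≤ 1 := by rw [abs_neg]; norm_num [abs_of_pos]
  have h1 := h.Xf_par (1 / 2) c1 hp
  have h2 := h.Xf_par (-(1 / 2)) c2 hp
  have h3 := h.Xt_par.tr (1 / 2) c1 hp
  have h4 := h.Xt_par.tr (-(1 / 2)) c2 hp
  rw [neg_neg] at h2 h4
  unfold rf af
  simp only
  rw [h1, h2, h3, h4, hL.q12_swap hm]
  ring

end Sym

section Fourier3

/-- (3.3) in Fourier-friendly form -/
theorem Adm.ident3' (hL : IsLag ρ₀ ε₀ L Ψ) (h : Adm ρ₀ ε₀ ρ r U) {p : ℂ × ℂ}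
    (hp : p ∈ Dom (3 / 2) ρ r) :
    del (muf L U) p = - q2 (Pf L U) p + q1 (fun q => Pf L U q * uf U q) p := by
  obtain ⟨t, w⟩ := p
  rw [h.ident3 hL hp]
  have hp0 := h.mem_0 hp
  have hE := (h.hEf hL).differentiableAt hp
  have hXt := h.hXt.differentiableAt hp0
  have hXw := h.hXw.differentiableAt hp0
  -- derivative of P in w
  have e1 : q2 (Pf L U) (t, w) = q2 (Xt U) (t, w) * Ef L U (t, w) + Xt U (t, w) * q2 (Ef L U) (t, w) := by
    have h1 := hasDerivAt_snd ((h.hPf hL).differentiableAt hp)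
    have h2 := (hasDerivAt_snd hXt).mul (hasDerivAt_snd hE)
    exact h1.unique h2
  have e2 : q1 (fun q => Pf L U q * uf U q) (t, w) =
      q1 (Xw U) (t, w) * Ef L U (t, w) + Xw U (t, w) * q1 (Ef L U) (t, w) := by
    have hPu : IsH (3 / 2) ρ r (fun q => Pf L U q * uf U q) :=
      (h.hPf hL).mul (h.huf.mono (by norm_num) le_rfl le_rfl)
    have h1 := hasDerivAt_fst (hPu.differentiableAt hp)
    have h2 := (hasDerivAt_fst hXw).mul (hasDerivAt_fst hE)
    have h3 : (fun s => Pf L U (s, w) * uf U (s, w)) =ᶠ[𝓝 t] (fun s => Xw U (s, w) * Ef L U (s, w)) := by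
      have hcont : Continuous (fun s : ℂ => (s, w)) := by fun_prop
      filter_upwards [hcont.continuousAt.preimage_mem_nhds
        ((isOpen_Dom (3 / 2) ρ r).mem_nhds hp)] with s hs
      have := h.Xt_ne (h.mem_0 hs)
      unfold Pf uf
      field_simp
    exact (h1.congr_of_eventuallyEq h3.symm).unique h2
  have e3 : q2 (Xt U) (t, w) = q1 (Xw U) (t, w) := by
    have hana := h.hU.analytic _ hp0
    have h1 : q2 (Xt U) (t, w) = q2 (q1 U) (t, w) := by
      have h2 := hasDerivAt_snd hXt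
      have h3 := hasDerivAt_snd (h.hU.q1.differentiableAt hp0)
      exact h2.unique (h3.const_add 1)
    rw [h1, ← q_symm hana]
    rfl
  rw [e1, e2, e3]
  ring

end Fourier3

end Crest.Agent.R102.B821
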