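import Crest.Agent.R102.Lag_821

/-!
Row 102, part (B), B3 (helper821): properties of the Lagrangian, the leaf function
`X = t + U`, the defect `E`, the coefficient `a`, and the exact identities (3.1)-(3.3).
-/

set_option autoImplicit false

open Set Filter Topology Metric Complex MeasureTheory
open scoped Real ContDiff ComplexConjugate

noncomputable section

namespace Crest.Agent.R102.B821

open Crest.Agent.R266.SCV

section Chain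

lemma hasDerivAt_comp2 {F : ℂ × ℂ → ℂ} {x y : ℂ → ℂ} {x' y' s : ℂ}
    (hF : DifferentiableAt ℂ F (x s, y s)) (hx : HasDerivAt x x' s) (hy : HasDerivAt y y' s) :
    HasDerivAt (fun s => F (x s, y s)) (q1 F (x s, y s) * x' + q2 F (x s, y s) * y') s := by
  have h := hF.hasFDerivAt.comp_hasDerivAt s (hx.prodMk hy)
  have e : fderiv ℂ F (x s, y s) (x', y') = q1 F (x s, y s) * x' + q2 F (x s, y s) * y' := by
    have h1 : ((x', y') : ℂ × ℂ) = x' • ((1 : ℂ), (0 : ℂ)) + y' • ((0 : ℂ), (1 : ℂ)) := by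
      ext <;> simp
    rw [h1, map_add, map_smul, map_smul, q1, q2, smul_eq_mul, smul_eq_mul]
    ring
  rw [e] at h
  exact h

lemma q_symm {F : ℂ × ℂ → ℂ} {p : ℂ × ℂ} (hF : AnalyticAt ℂ F p) :
    q1 (q2 F) p = q2 (q1 F) p := by
  have h1 : ContDiffAt ℂ 2 F p := hF.contDiffAt
  have h2 : IsSymmSndFDerivAt ℂ F p := h1.isSymmSndFDerivAt (by simp)
  have hd : DifferentiableAt ℂ (fderiv ℂ F) p := hF.fderiv.differentiableAt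
  have e1 : ∀ v u : ℂ × ℂ, fderiv ℂ (fun q => fderiv ℂ F q v) p u = fderiv ℂ (fderiv ℂ F) p u v := by
    intro v u
    have h3 : HasFDerivAt (fun q => fderiv ℂ F q v)
        ((ContinuousLinearMap.apply ℂ ℂ v).comp (fderiv ℂ (fderiv ℂ F) p)) p :=
      (ContinuousLinearMap.apply ℂ ℂ v).hasFDerivAt.comp p hd.hasFDerivAt
    rw [h3.fderiv]
    rfl
  unfold q1 q2
  rw [e1, e1]
  exact h2.eq _ _

lemma q1_eq_deriv {F : ℂ × ℂ → ℂ} {a b : ℂ} (h : DifferentiableAt ℂ F (a, b)) :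
    q1 F (a, b) = deriv (fun s => F (s, b)) a := (hasDerivAt_fst h).deriv.symm

lemma q2_eq_deriv {F : ℂ × ℂ → ℂ} {a b : ℂ} (h : DifferentiableAt ℂ F (a, b)) :
    q2 F (a, b) = deriv (fun s => F (a, s)) b := (hasDerivAt_snd h).deriv.symm

end Chain

section LagFacts

variable {ρ₀ ε₀ : ℝ} {L Ψ : ℂ × ℂ → ℂ}

lemma Dg_swap {a b : ℂ} : (b, a) ∈ Dg ρ₀ ε₀ ↔ (a, b) ∈ Dg ρ₀ ε₀ := by
  simp only [Dg, mem_ofPred_eq]
  rw [norm_sub_rev]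
  tauto

lemma Dg_conj {a b : ℂ} : (conj a, conj b) ∈ Dg ρ₀ ε₀ ↔ (a, b) ∈ Dg ρ₀ ε₀ := by
  simp only [Dg, mem_ofPred_eq]
  rw [← map_sub, Complex.norm_conj]
  simp

lemma Dg_add_one {a b : ℂ} : (a + 1, b + 1) ∈ Dg ρ₀ ε₀ ↔ (a, b) ∈ Dg ρ₀ ε₀ := by
  simp only [Dg, mem_ofPred_eq]
  rw [add_sub_add_right_eq_sub]
  simp

lemma Dg_mono {ρ₁ ε₁ : ℝ} (h1 : ρ₁ ≤ ρ₀) (h2 : ε₁ ≤ ε₀) : Dg ρ₁ ε₁ ⊆ Dg ρ₀ ε₀ :=
  fun _ hp => ⟨hp.1.trans_le h1, hp.2.1.trans_le h1, hp.2.2.trans_le h2⟩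

lemma IsLag.diffL (h : IsLag ρ₀ ε₀ L Ψ) : DifferentiableOn ℂ L (Dg ρ₀ ε₀) := by
  have h1 : DifferentiableOn ℂ (fun p : ℂ × ℂ => (p.2 - p.1) ^ 3 * Ψ p) (Dg ρ₀ ε₀) := by
    refine DifferentiableOn.mul ?_ h.diff
    exact ((differentiable_snd.sub differentiable_fst).pow 3).differentiableOn
  exact h1.congr (fun p hp => h.eq p.1 p.2 hp)

lemma IsLag.anaL (h : IsLag ρ₀ ε₀ L Ψ) : AnalyticOnNhd ℂ L (Dg ρ₀ ε₀) :=
  analyticOnNhd_of_differentiableOn (isOpen_Dg ρ₀ ε₀) h.diffL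

lemma ana_q1 {F : ℂ × ℂ → ℂ} {U : Set (ℂ × ℂ)} (h : AnalyticOnNhd ℂ F U) :
    AnalyticOnNhd ℂ (q1 F) U := fun p hp =>
  ((ContinuousLinearMap.apply ℂ ℂ ((1 : ℂ), (0 : ℂ))).analyticAt _).comp (h p hp).fderiv

lemma ana_q2 {F : ℂ × ℂ → ℂ} {U : Set (ℂ × ℂ)} (h : AnalyticOnNhd ℂ F U) :
    AnalyticOnNhd ℂ (q2 F) U := fun p hp =>
  ((ContinuousLinearMap.apply ℂ ℂ ((0 : ℂ), (1 : ℂ))).analyticAt _).comp (h p hp).fderiv

lemma IsLag.perL (h : IsLag ρ₀ ε₀ L Ψ) {a b : ℂ} (hp : (a, b) ∈ Dg ρ₀ ε₀) :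
    L (a + 1, b + 1) = L (a, b) := by
  rw [h.eq _ _ hp, h.eq _ _ (Dg_add_one.2 hp), h.per _ _ hp]
  ring

lemma IsLag.antiL (h : IsLag ρ₀ ε₀ L Ψ) {a b : ℂ} (hp : (a, b) ∈ Dg ρ₀ ε₀) :
    L (b, a) = - L (a, b) := by
  rw [h.eq _ _ hp, h.eq _ _ (Dg_swap.2 hp), h.symm _ _ hp]
  ring

lemma IsLag.realL (h : IsLag ρ₀ ε₀ L Ψ) {a b : ℂ} (hp : (a, b) ∈ Dg ρ₀ ε₀) :
    L (conj a, conj b) = conj (L (a, b)) := by
  rw [h.eq _ _ hp, h.eq _ _ (Dg_conj.2 hp), h.real _ _ hp]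
  simp

/-- derivative of a function invariant under the diagonal translation -/
lemma q_per {F : ℂ × ℂ → ℂ} (hper : ∀ a b : ℂ, (a, b) ∈ Dg ρ₀ ε₀ → F (a + 1, b + 1) = F (a, b))
    {a b : ℂ} (hp : (a, b) ∈ Dg ρ₀ ε₀) : fderiv ℂ F (a + 1, b + 1) = fderiv ℂ F (a, b) := by
  have h1 : (fun p : ℂ × ℂ => F (p + (1, 1))) =ᶠ[𝓝 (a, b)] F := by
    filter_upwards [(isOpen_Dg ρ₀ ε₀).mem_nhds hp] with p hp'
    exact hper p.1 p.2 hp'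
  have h2 := h1.fderiv_eq (𝕜 := ℂ)
  rw [fderiv_comp_add_right] at h2
  exact h2

lemma IsLag.q1_per (h : IsLag ρ₀ ε₀ L Ψ) {a b : ℂ} (hp : (a, b) ∈ Dg ρ₀ ε₀) :
    q1 L (a + 1, b + 1) = q1 L (a, b) := by
  unfold q1; rw [q_per (fun a b h' => h.perL h') hp]

lemma IsLag.q2_per (h : IsLag ρ₀ ε₀ L Ψ) {a b : ℂ} (hp : (a, b) ∈ Dg ρ₀ ε₀) :
    q2 L (a + 1, b + 1) = q2 L (a, b) := by
  unfold q2; rw [q_per (fun a b h' => h.perL h') hp]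

lemma IsLag.q12_per (h : IsLag ρ₀ ε₀ L Ψ) {a b : ℂ} (hp : (a, b) ∈ Dg ρ₀ ε₀) :
    q2 (q1 L) (a + 1, b + 1) = q2 (q1 L) (a, b) := by
  conv_lhs => unfold q2
  rw [q_per (fun a b h' => h.q1_per h') hp]
  rfl

/-- `L_1(b, a) = - L_2(a, b)` -/
lemma IsLag.q1_swap (h : IsLag ρ₀ ε₀ L Ψ) {a b : ℂ} (hp : (a, b) ∈ Dg ρ₀ ε₀) :
    q1 L (b, a) = - q2 L (a, b) := by
  have hd1 : DifferentiableAt ℂ L (b, a) :=
    h.diffL.differentiableAt ((isOpen_Dg ρ₀ ε₀).mem_nhds (Dg_swap.2 hp))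
  have hd2 : DifferentiableAt ℂ L (a, b) :=
    h.diffL.differentiableAt ((isOpen_Dg ρ₀ ε₀).mem_nhds hp)
  have h1 := hasDerivAt_fst hd1
  have h2 := (hasDerivAt_snd hd2).neg
  have h3 : (fun s => L (s, a)) =ᶠ[𝓝 b] (fun s => - L (a, s)) := by
    have hcont : Continuous (fun s : ℂ => (a, s)) := by fun_prop
    filter_upwards [hcont.continuousAt.preimage_mem_nhds ((isOpen_Dg ρ₀ ε₀).mem_nhds hp)] with s hs
    exact h.antiL hs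
  exact (h1.congr_of_eventuallyEq h3.symm).unique h2

lemma IsLag.q2_swap (h : IsLag ρ₀ ε₀ L Ψ) {a b : ℂ} (hp : (a, b) ∈ Dg ρ₀ ε₀) :
    q2 L (b, a) = - q1 L (a, b) := by
  have := h.q1_swap (Dg_swap.2 hp)
  rw [this, neg_neg]

/-- `L_12(b, a) = - L_12(a, b)` -/
lemma IsLag.q12_swap (h : IsLag ρ₀ ε₀ L Ψ) {a b : ℂ} (hp : (a, b) ∈ Dg ρ₀ ε₀) :
    q2 (q1 L) (b, a) = - q2 (q1 L) (a, b) := by
  have hp' := Dg_swap.2 hp
  have hd1 : DifferentiableAt ℂ (q1 L) (b, a) := (ana_q1 h.anaL _ hp').differentiableAt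
  have hd2 : DifferentiableAt ℂ (q2 L) (a, b) := (ana_q2 h.anaL _ hp).differentiableAt
  have h1 := hasDerivAt_snd hd1
  have h2 := (hasDerivAt_fst hd2).neg
  have h3 : (fun s => q1 L (b, s)) =ᶠ[𝓝 a] (fun s => - q2 L (s, b)) := by
    have hcont : Continuous (fun s : ℂ => (s, b)) := by fun_prop
    filter_upwards [hcont.continuousAt.preimage_mem_nhds ((isOpen_Dg ρ₀ ε₀).mem_nhds hp)] with s hs
    exact h.q1_swap hs
  rw [(h1.congr_of_eventuallyEq h3.symm).unique h2, q_symm (h.anaL _ hp)]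

lemma q1_conj {F : ℂ × ℂ → ℂ} (hF : ∀ a b : ℂ, (a, b) ∈ Dg ρ₀ ε₀ → F (conj a, conj b) = conj (F (a, b)))
    (hd : ∀ p ∈ Dg ρ₀ ε₀, DifferentiableAt ℂ F p) {a b : ℂ} (hp : (a, b) ∈ Dg ρ₀ ε₀) :
    q1 F (conj a, conj b) = conj (q1 F (a, b)) := by
  have h1 := hasDerivAt_fst (hd _ (Dg_conj.2 hp))
  have h2 := (hasDerivAt_fst (hd _ hp)).conj_conj
  have h3 : (fun s => F (s, conj b)) =ᶠ[𝓝 (conj a)] (conj ∘ (fun s => F (s, b)) ∘ conj) := by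
    have hcont : Continuous (fun s : ℂ => (s, conj b)) := by fun_prop
    filter_upwards [hcont.continuousAt.preimage_mem_nhds ((isOpen_Dg ρ₀ ε₀).mem_nhds
      (Dg_conj.2 hp))] with s hs
    have h4 : (conj s, b) ∈ Dg ρ₀ ε₀ := by
      have := Dg_conj.2 hs
      simpa using this
    have := hF _ _ h4
    rw [Complex.conj_conj] at this
    exact this
  exact (h1.congr_of_eventuallyEq h3.symm).unique h2

lemma q2_conj {F : ℂ × ℂ → ℂ} (hF : ∀ a b : ℂ, (a, b) ∈ Dg ρ₀ ε₀ → F (conj a, conj b) = conj (F (a, b)))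
    (hd : ∀ p ∈ Dg ρ₀ ε₀, DifferentiableAt ℂ F p) {a b : ℂ} (hp : (a, b) ∈ Dg ρ₀ ε₀) :
    q2 F (conj a, conj b) = conj (q2 F (a, b)) := by
  have h1 := hasDerivAt_snd (hd _ (Dg_conj.2 hp))
  have h2 := (hasDerivAt_snd (hd _ hp)).conj_conj
  have h3 : (fun s => F (conj a, s)) =ᶠ[𝓝 (conj b)] (conj ∘ (fun s => F (a, s)) ∘ conj) := by
    have hcont : Continuous (fun s : ℂ => (conj a, s)) := by fun_prop
    filter_upwards [hcont.continuousAt.preimage_mem_nhds ((isOpen_Dg ρ₀ ε₀).mem_nhds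
      (Dg_conj.2 hp))] with s hs
    have h4 : (a, conj s) ∈ Dg ρ₀ ε₀ := by
      have := Dg_conj.2 hs
      simpa using this
    have := hF _ _ h4
    rw [Complex.conj_conj] at this
    exact this
  exact (h1.congr_of_eventuallyEq h3.symm).unique h2

lemma IsLag.dL (h : IsLag ρ₀ ε₀ L Ψ) : ∀ p ∈ Dg ρ₀ ε₀, DifferentiableAt ℂ L p :=
  fun _ hp => (h.anaL _ hp).differentiableAt

lemma IsLag.q1_real (h : IsLag ρ₀ ε₀ L Ψ) {a b : ℂ} (hp : (a, b) ∈ Dg ρ₀ ε₀) :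
    q1 L (conj a, conj b) = conj (q1 L (a, b)) := q1_conj (fun _ _ h' => h.realL h') h.dL hp

lemma IsLag.q2_real (h : IsLag ρ₀ ε₀ L Ψ) {a b : ℂ} (hp : (a, b) ∈ Dg ρ₀ ε₀) :
    q2 L (conj a, conj b) = conj (q2 L (a, b)) := q2_conj (fun _ _ h' => h.realL h') h.dL hp

lemma IsLag.q12_real (h : IsLag ρ₀ ε₀ L Ψ) {a b : ℂ} (hp : (a, b) ∈ Dg ρ₀ ε₀) :
    q2 (q1 L) (conj a, conj b) = conj (q2 (q1 L) (a, b)) :=
  q2_conj (fun _ _ h' => h.q1_real h') (fun _ hp => (ana_q1 h.anaL _ hp).differentiableAt) hp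

lemma IsLag.EL_swap (h : IsLag ρ₀ ε₀ L Ψ) {x y z : ℂ} (h1 : (x, y) ∈ Dg ρ₀ ε₀)
    (h2 : (y, z) ∈ Dg ρ₀ ε₀) : EL L z y x = - EL L x y z := by
  unfold EL
  rw [h.q2_swap h2, h.q1_swap h1]
  ring

lemma IsLag.EL_real (h : IsLag ρ₀ ε₀ L Ψ) {x y z : ℂ} (h1 : (x, y) ∈ Dg ρ₀ ε₀)
    (h2 : (y, z) ∈ Dg ρ₀ ε₀) : EL L (conj x) (conj y) (conj z) = conj (EL L x y z) := by
  unfold EL
  rw [h.q2_real h1, h.q1_real h2, map_add]

lemma IsLag.EL_per (h : IsLag ρ₀ ε₀ L Ψ) {x y z : ℂ} (h1 : (x, y) ∈ Dg ρ₀ ε₀)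
    (h2 : (y, z) ∈ Dg ρ₀ ε₀) : EL L (x + 1) (y + 1) (z + 1) = EL L x y z := by
  unfold EL
  rw [h.q2_per h1, h.q1_per h2]

end LagFacts

section Leaf

variable {ρ₀ ε₀ k ρ r : ℝ} {L Ψ U V f : ℂ × ℂ → ℂ}

/-- holomorphic functions with `X(t + 1, w) = X(t, w) + 1` -/
structure IsX (k ρ r : ℝ) (X : ℂ × ℂ → ℂ) : Prop where
  diff : DifferentiableOn ℂ X (Dom k ρ r)
  per : ∀ t w : ℂ, (t, w) ∈ Dom k ρ r → X (t + 1, w) = X (t, w) + 1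

/-- the leaf function `X = t + U` -/
def Xf (U : ℂ × ℂ → ℂ) (p : ℂ × ℂ) : ℂ := p.1 + U p

/-- `X_t` -/
def Xt (U : ℂ × ℂ → ℂ) (p : ℂ × ℂ) : ℂ := 1 + q1 U p

/-- `X_w` -/
def Xw (U : ℂ × ℂ → ℂ) (p : ℂ × ℂ) : ℂ := q2 U p

lemma IsH.isX (h : IsH k ρ r U) : IsX k ρ r (Xf U) :=
  ⟨differentiable_fst.differentiableOn.add h.diff, fun t w hp => by
    unfold Xf; simp only; rw [h.per t w hp]; ring⟩

lemma IsX.tr {X : ℂ × ℂ → ℂ} (h : IsX k ρ r X) (c : ℝ) : IsX (k + |c|) ρ r (B821.tr c X) := by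
  refine ⟨h.diff.comp (by fun_prop) (fun p hp => tr_mem c hp), fun t w hp => ?_⟩
  have h1 := h.per _ _ (tr_mem c hp)
  unfold B821.tr
  simp only at h1 ⊢
  rw [← h1]
  congr 2
  ring

lemma IsX.mono {k' ρ' r' : ℝ} {X : ℂ × ℂ → ℂ} (h : IsX k ρ r X) (hk : k ≤ k') (hρ : ρ' ≤ ρ)
    (hr : r' ≤ r) : IsX k' ρ' r' X :=
  ⟨h.diff.mono (Dom_mono hk hρ hr), fun t w hp => h.per t w (Dom_mono hk hρ hr hp)⟩

lemma IsX.comp_Dg {F X1 X2 : ℂ × ℂ → ℂ} (hF : DifferentiableOn ℂ F (Dg ρ₀ ε₀))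
    (hper : ∀ a b : ℂ, (a, b) ∈ Dg ρ₀ ε₀ → F (a + 1, b + 1) = F (a, b))
    (h1 : IsX k ρ r X1) (h2 : IsX k ρ r X2) (hmem : ∀ p ∈ Dom k ρ r, (X1 p, X2 p) ∈ Dg ρ₀ ε₀) :
    IsH k ρ r (fun p => F (X1 p, X2 p)) := by
  refine ⟨hF.comp (h1.diff.prodMk h2.diff) hmem, fun t w hp => ?_⟩
  rw [h1.per t w hp, h2.per t w hp, hper _ _ (hmem _ hp)]

/-- derivatives of translates -/
lemma hasDerivAt_tr_t {F : ℂ × ℂ → ℂ} {c : ℝ} {t w : ℂ}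
    (h : DifferentiableAt ℂ F (t + c * w, w)) :
    HasDerivAt (fun s => tr c F (s, w)) (tr c (q1 F) (t, w)) t := by
  have h1 : HasDerivAt (fun s : ℂ => s + c * w) 1 t := (hasDerivAt_id t).add_const _
  have h2 := hasDerivAt_comp2 (x := fun s => s + c * w) (y := fun _ => w) h h1
    (hasDerivAt_const t w)
  simpa [tr] using h2

lemma hasDerivAt_tr_w {F : ℂ × ℂ → ℂ} {c : ℝ} {t w : ℂ}
    (h : DifferentiableAt ℂ F (t + c * w, w)) :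
    HasDerivAt (fun s => tr c F (t, s)) (tr c (q2 F) (t, w) + c * tr c (q1 F) (t, w)) w := by
  have h1 : HasDerivAt (fun s : ℂ => t + c * s) (c : ℂ) w := by
    simpa using ((hasDerivAt_id w).const_mul (c : ℂ)).const_add t
  have h2 := hasDerivAt_comp2 (x := fun s => t + c * s) (y := fun s => s) h h1 (hasDerivAt_id w)
  refine h2.congr_deriv ?_
  simp only [tr, mul_one]
  ring

lemma hasDerivAt_Xf_t {c : ℝ} {t w : ℂ} (h : DifferentiableAt ℂ U (t + c * w, w)) :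
    HasDerivAt (fun s => tr c (Xf U) (s, w)) (tr c (Xt U) (t, w)) t := by
  have h1 : HasDerivAt (fun s : ℂ => s + c * w) 1 t := (hasDerivAt_id t).add_const _
  exact h1.add (hasDerivAt_tr_t h)

lemma hasDerivAt_Xf_w {c : ℝ} {t w : ℂ} (h : DifferentiableAt ℂ U (t + c * w, w)) :
    HasDerivAt (fun s => tr c (Xf U) (t, s)) (tr c (Xw U) (t, w) + c * tr c (Xt U) (t, w)) w := by
  have h1 : HasDerivAt (fun s : ℂ => t + c * s) (c : ℂ) w := by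
    simpa using ((hasDerivAt_id w).const_mul (c : ℂ)).const_add t
  have h2 := h1.add (hasDerivAt_tr_w h)
  refine h2.congr_deriv ?_
  simp only [tr, Xw, Xt]
  ring

/-- differential of the Euler-Lagrange function -/
def dEL (L : ℂ × ℂ → ℂ) (x y z x' y' z' : ℂ) : ℂ :=
  q2 (q1 L) (x, y) * x' + (q2 (q2 L) (x, y) + q1 (q1 L) (y, z)) * y' + q2 (q1 L) (y, z) * z'

lemma IsLag.hasDerivAt_EL (h : IsLag ρ₀ ε₀ L Ψ) {x y z : ℂ → ℂ} {x' y' z' s : ℂ}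
    (h1 : (x s, y s) ∈ Dg ρ₀ ε₀) (h2 : (y s, z s) ∈ Dg ρ₀ ε₀)
    (hx : HasDerivAt x x' s) (hy : HasDerivAt y y' s) (hz : HasDerivAt z z' s) :
    HasDerivAt (fun s => EL L (x s) (y s) (z s)) (dEL L (x s) (y s) (z s) x' y' z') s := by
  have e1 := hasDerivAt_comp2 (F := q2 L) (ana_q2 h.anaL _ h1).differentiableAt hx hy
  have e2 := hasDerivAt_comp2 (F := q1 L) (ana_q1 h.anaL _ h2).differentiableAt hy hz
  refine (e1.add e2).congr_deriv ?_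
  unfold dEL
  rw [q_symm (h.anaL _ h1)]
  ring

/-- admissible leaf functions -/
structure Adm (ρ₀ ε₀ ρ r : ℝ) (U : ℂ × ℂ → ℂ) : Prop where
  ρ_pos : 0 < ρ
  ρ_le : ρ ≤ ρ₀ / 2
  r_pos : 0 < r
  r_le : r ≤ 1
  r_le_ρ : 8 * r ≤ ρ
  r_le_ε : 4 * r ≤ ε₀
  hU : IsH (1 / 2) ρ r U
  U_bd : ∀ p ∈ Dom (1 / 2) ρ r, ‖U p‖ ≤ ρ₀ / 8
  Ut_bd : ∀ p ∈ Dom (1 / 2) ρ r, ‖q1 U p‖ ≤ 1 / 100
  Uw_bd : ∀ p ∈ Dom (1 / 2) ρ r, ‖q2 U p‖ ≤ 1 / 100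
  re : IsRe (1 / 2) ρ r U
  par : IsPar (1 / 2) ρ r 1 U

lemma convex_strip (σ : ℝ) : Convex ℝ {t : ℂ | |t.im| < σ} := by
  have : {t : ℂ | |t.im| < σ} = Complex.imLm ⁻¹' (Ioo (-σ) σ) := by
    ext w
    simp [abs_lt]
  rw [this]
  exact (convex_Ioo _ _).linear_preimage _

lemma Adm.lip (h : Adm ρ₀ ε₀ ρ r U) {t₁ t₂ w : ℂ} (h1 : (t₁, w) ∈ Dom (1 / 2) ρ r)
    (h2 : (t₂, w) ∈ Dom (1 / 2) ρ r) : ‖U (t₂, w) - U (t₁, w)‖ ≤ 1 / 100 * ‖t₂ - t₁‖ := by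
  have hmem : ∀ t : ℂ, |t.im| < ρ - 1 / 2 * |w.im| → (t, w) ∈ Dom (1 / 2) ρ r := fun t ht =>
    ⟨by simp only; linarith, h1.2⟩
  have hm1 : |t₁.im| < ρ - 1 / 2 * |w.im| := by
    have := h1.1; simp only at this; linarith
  have hm2 : |t₂.im| < ρ - 1 / 2 * |w.im| := by
    have := h2.1; simp only at this; linarith
  refine (convex_strip (ρ - 1 / 2 * |w.im|)).norm_image_sub_le_of_norm_hasDerivWithin_le
    (f := fun t => U (t, w)) (f' := fun t => q1 U (t, w)) (fun t ht => ?_) (fun t ht => ?_) hm1 hm2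
  · exact (hasDerivAt_fst (h.hU.differentiableAt (hmem t ht))).hasDerivWithinAt
  · exact h.Ut_bd _ (hmem t ht)

lemma Adm.pair (h : Adm ρ₀ ε₀ ρ r U) {t₁ t₂ w : ℂ} (h1 : (t₁, w) ∈ Dom (1 / 2) ρ r)
    (h2 : (t₂, w) ∈ Dom (1 / 2) ρ r) (h3 : ‖t₂ - t₁‖ ≤ ‖w‖) :
    (Xf U (t₁, w), Xf U (t₂, w)) ∈ Dg (3 / 4 * ρ₀) (ε₀ / 2) := by
  have him : ∀ t : ℂ, (t, w) ∈ Dom (1 / 2) ρ r → |(Xf U (t, w)).im| < 3 / 4 * ρ₀ := by
    intro t ht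
    have e1 : (Xf U (t, w)).im = t.im + (U (t, w)).im := by simp [Xf]
    rw [e1]
    have e2 := (Complex.abs_im_le_norm (U (t, w))).trans (h.U_bd _ ht)
    have e3 : |t.im| < ρ := by
      have := ht.1; simp only at this
      have := abs_nonneg w.im
      linarith
    have e4 := abs_add_le t.im (U (t, w)).im
    have := h.ρ_le
    have := h.ρ_pos
    linarith
  refine ⟨him _ h1, him _ h2, ?_⟩
  have e1 : Xf U (t₂, w) - Xf U (t₁, w) = (t₂ - t₁) + (U (t₂, w) - U (t₁, w)) := by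
    unfold Xf; ring
  simp only
  rw [e1]
  have e2 := norm_add_le (t₂ - t₁) (U (t₂, w) - U (t₁, w))
  have e3 := h.lip h1 h2
  have e4 : ‖w‖ < r := h1.2
  have := h.r_le_ε
  have := h.r_pos
  linarith

lemma tr_zero (f : ℂ × ℂ → ℂ) (p : ℂ × ℂ) : tr 0 f p = f p := by
  simp [tr]

lemma Adm.pair_tr (h : Adm ρ₀ ε₀ ρ r U) {c₁ c₂ : ℝ} {k : ℝ} (hc₁ : 1 / 2 + |c₁| ≤ k)
    (hc₂ : 1 / 2 + |c₂| ≤ k) (hc : |c₂ - c₁| ≤ 1) {p : ℂ × ℂ} (hp : p ∈ Dom k ρ r) :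
    (tr c₁ (Xf U) p, tr c₂ (Xf U) p) ∈ Dg (3 / 4 * ρ₀) (ε₀ / 2) := by
  have h1 := tr_mem (k := 1 / 2) c₁ (Dom_mono hc₁ le_rfl le_rfl hp)
  have h2 := tr_mem (k := 1 / 2) c₂ (Dom_mono hc₂ le_rfl le_rfl hp)
  refine h.pair h1 h2 ?_
  have e : p.1 + c₂ * p.2 - (p.1 + c₁ * p.2) = ((c₂ - c₁ : ℝ) : ℂ) * p.2 := by push_cast; ring
  rw [e, norm_mul, Complex.norm_real, Real.norm_eq_abs]
  have := norm_nonneg p.2
  nlinarith

lemma Dg_sub_of_lag (h : IsLag ρ₀ ε₀ L Ψ) : Dg (3 / 4 * ρ₀) (ε₀ / 2) ⊆ Dg ρ₀ ε₀ :=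
  Dg_mono (by have := h.ρ_pos; linarith) (by have := h.ε_pos; linarith)

/-- the defect `E(t, w)` -/
def Ef (L U : ℂ × ℂ → ℂ) (p : ℂ × ℂ) : ℂ := EL L (tr (-1) (Xf U) p) (Xf U p) (tr 1 (Xf U) p)

/-- `P = X_t E` -/
def Pf (L U : ℂ × ℂ → ℂ) (p : ℂ × ℂ) : ℂ := Xt U p * Ef L U p

/-- `a = L_12(X^-, X^+) X_t^- X_t^+` -/
def af (L U : ℂ × ℂ → ℂ) (p : ℂ × ℂ) : ℂ :=
  q2 (q1 L) (tr (-(1 / 2)) (Xf U) p, tr (1 / 2) (Xf U) p) *
    (tr (-(1 / 2)) (Xt U) p * tr (1 / 2) (Xt U) p)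

lemma Adm.hXt (h : Adm ρ₀ ε₀ ρ r U) : IsH (1 / 2) ρ r (Xt U) := (IsH.const 1).add h.hU.q1

lemma Adm.hXw (h : Adm ρ₀ ε₀ ρ r U) : IsH (1 / 2) ρ r (Xw U) := h.hU.q2

lemma Adm.Xt_ne (h : Adm ρ₀ ε₀ ρ r U) {p : ℂ × ℂ} (hp : p ∈ Dom (1 / 2) ρ r) : Xt U p ≠ 0 := by
  intro h0
  have h1 := h.Ut_bd p hp
  have h2 : q1 U p = -1 := by unfold Xt at h0; linear_combination h0
  rw [h2, norm_neg, norm_one] at h1
  norm_num at h1

lemma Adm.hEf (hL : IsLag ρ₀ ε₀ L Ψ) (h : Adm ρ₀ ε₀ ρ r U) : IsH (3 / 2) ρ r (Ef L U) := by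
  have hX := h.hU.isX
  have hX0 : IsX (3 / 2) ρ r (Xf U) := hX.mono (by norm_num) le_rfl le_rfl
  have hXm : IsX (3 / 2) ρ r (tr (-1) (Xf U)) := by
    have := hX.tr (-1)
    rw [abs_neg, abs_one] at this
    exact this.mono (by norm_num) le_rfl le_rfl
  have hXp : IsX (3 / 2) ρ r (tr 1 (Xf U)) := by
    have := hX.tr 1
    rw [abs_one] at this
    exact this.mono (by norm_num) le_rfl le_rfl
  have e1 : IsH (3 / 2) ρ r (fun p => q2 L (tr (-1) (Xf U) p, Xf U p)) := by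
    refine IsX.comp_Dg (ρ₀ := ρ₀) (ε₀ := ε₀) (ana_q2 hL.anaL).differentiableOn
      (fun a b hp => hL.q2_per hp) hXm hX0 (fun p hp => ?_)
    have := h.pair_tr (c₁ := -1) (c₂ := 0) (k := 3 / 2) (by norm_num) (by norm_num) (by norm_num) hp
    rw [tr_zero] at this
    exact Dg_sub_of_lag hL this
  have e2 : IsH (3 / 2) ρ r (fun p => q1 L (Xf U p, tr 1 (Xf U) p)) := by
    refine IsX.comp_Dg (ρ₀ := ρ₀) (ε₀ := ε₀) (ana_q1 hL.anaL).differentiableOn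
      (fun a b hp => hL.q1_per hp) hX0 hXp (fun p hp => ?_)
    have := h.pair_tr (c₁ := 0) (c₂ := 1) (k := 3 / 2) (by norm_num) (by norm_num) (by norm_num) hp
    rw [tr_zero] at this
    exact Dg_sub_of_lag hL this
  exact e1.add e2

lemma Adm.hPf (hL : IsLag ρ₀ ε₀ L Ψ) (h : Adm ρ₀ ε₀ ρ r U) : IsH (3 / 2) ρ r (Pf L U) :=
  (h.hXt.mono (by norm_num) le_rfl le_rfl).mul (h.hEf hL)

lemma Adm.haf (hL : IsLag ρ₀ ε₀ L Ψ) (h : Adm ρ₀ ε₀ ρ r U) : IsH 1 ρ r (af L U) := by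
  have e12 : |(1 / 2 : ℝ)| = 1 / 2 := by norm_num
  have hX := h.hU.isX
  have hXm : IsX 1 ρ r (tr (-(1 / 2)) (Xf U)) := by
    have := hX.tr (-(1 / 2))
    rw [abs_neg, e12] at this
    exact this.mono (by norm_num) le_rfl le_rfl
  have hXp : IsX 1 ρ r (tr (1 / 2) (Xf U)) := by
    have := hX.tr (1 / 2)
    rw [e12] at this
    exact this.mono (by norm_num) le_rfl le_rfl
  have hTm : IsH 1 ρ r (tr (-(1 / 2)) (Xt U)) := by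
    have := h.hXt.tr (-(1 / 2))
    rw [abs_neg, e12] at this
    exact this.mono (by norm_num) le_rfl le_rfl
  have hTp : IsH 1 ρ r (tr (1 / 2) (Xt U)) := by
    have := h.hXt.tr (1 / 2)
    rw [e12] at this
    exact this.mono (by norm_num) le_rfl le_rfl
  have e1 : IsH 1 ρ r (fun p => q2 (q1 L) (tr (-(1 / 2)) (Xf U) p, tr (1 / 2) (Xf U) p)) := by
    refine IsX.comp_Dg (ρ₀ := ρ₀) (ε₀ := ε₀) (ana_q2 (ana_q1 hL.anaL)).differentiableOn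
      (fun a b hp => hL.q12_per hp) hXm hXp (fun p hp => ?_)
    exact Dg_sub_of_lag hL
      (h.pair_tr (by rw [abs_neg, e12]; norm_num) (by rw [e12]; norm_num) (by norm_num) hp)
  exact e1.mul (hTm.mul hTp)

/-- the three points of the Euler-Lagrange equation are in the domain of `L` -/
lemma Adm.mem3 (hL : IsLag ρ₀ ε₀ L Ψ) (h : Adm ρ₀ ε₀ ρ r U) {p : ℂ × ℂ} (hp : p ∈ Dom (3 / 2) ρ r) :
    (tr (-1) (Xf U) p, Xf U p) ∈ Dg ρ₀ ε₀ ∧ (Xf U p, tr 1 (Xf U) p) ∈ Dg ρ₀ ε₀ := by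
  constructor
  · have := h.pair_tr (c₁ := -1) (c₂ := 0) (k := 3 / 2) (by norm_num) (by norm_num) (by norm_num) hp
    rw [tr_zero] at this
    exact Dg_sub_of_lag hL this
  · have := h.pair_tr (c₁ := 0) (c₂ := 1) (k := 3 / 2) (by norm_num) (by norm_num) (by norm_num) hp
    rw [tr_zero] at this
    exact Dg_sub_of_lag hL this

lemma Adm.mem_m (_h : Adm ρ₀ ε₀ ρ r U) {t w : ℂ} (hp : (t, w) ∈ Dom (3 / 2) ρ r) :
    (t + ((-1 : ℝ) : ℂ) * w, w) ∈ Dom (1 / 2) ρ r := by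
  have := tr_mem (k := 1 / 2) (-1) (p := (t, w)) (by
    rw [abs_neg, abs_one]; exact Dom_mono (by norm_num) le_rfl le_rfl hp)
  exact this

lemma Adm.mem_p (_h : Adm ρ₀ ε₀ ρ r U) {t w : ℂ} (hp : (t, w) ∈ Dom (3 / 2) ρ r) :
    (t + ((1 : ℝ) : ℂ) * w, w) ∈ Dom (1 / 2) ρ r := by
  have := tr_mem (k := 1 / 2) 1 (p := (t, w)) (by
    rw [abs_one]; exact Dom_mono (by norm_num) le_rfl le_rfl hp)
  exact this

lemma Adm.mem_0 (_h : Adm ρ₀ ε₀ ρ r U) {t w : ℂ} (hp : (t, w) ∈ Dom (3 / 2) ρ r) :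
    (t, w) ∈ Dom (1 / 2) ρ r := Dom_mono (by norm_num) le_rfl le_rfl hp

/-- `E_t` -/
lemma Adm.q1_Ef (hL : IsLag ρ₀ ε₀ L Ψ) (h : Adm ρ₀ ε₀ ρ r U) {t w : ℂ}
    (hp : (t, w) ∈ Dom (3 / 2) ρ r) :
    q1 (Ef L U) (t, w) = dEL L (tr (-1) (Xf U) (t, w)) (Xf U (t, w)) (tr 1 (Xf U) (t, w))
      (tr (-1) (Xt U) (t, w)) (Xt U (t, w)) (tr 1 (Xt U) (t, w)) := by
  have hm := h.mem3 hL hp
  have h0 : HasDerivAt (fun s => Xf U (s, w)) (Xt U (t, w)) t := by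
    have := hasDerivAt_Xf_t (c := 0) (U := U) (t := t) (w := w)
      (by simpa using h.hU.differentiableAt (h.mem_0 hp))
    simpa [tr_zero] using this
  have h1 := hL.hasDerivAt_EL (x := fun s => tr (-1) (Xf U) (s, w)) (y := fun s => Xf U (s, w))
    (z := fun s => tr 1 (Xf U) (s, w)) (s := t) hm.1 hm.2
    (hasDerivAt_Xf_t (h.hU.differentiableAt (h.mem_m hp))) h0
    (hasDerivAt_Xf_t (h.hU.differentiableAt (h.mem_p hp)))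
  exact (hasDerivAt_fst ((h.hEf hL).differentiableAt hp)).unique h1

/-- `E_w` -/
lemma Adm.q2_Ef (hL : IsLag ρ₀ ε₀ L Ψ) (h : Adm ρ₀ ε₀ ρ r U) {t w : ℂ}
    (hp : (t, w) ∈ Dom (3 / 2) ρ r) :
    q2 (Ef L U) (t, w) = dEL L (tr (-1) (Xf U) (t, w)) (Xf U (t, w)) (tr 1 (Xf U) (t, w))
      (tr (-1) (Xw U) (t, w) - tr (-1) (Xt U) (t, w)) (Xw U (t, w))
      (tr 1 (Xw U) (t, w) + tr 1 (Xt U) (t, w)) := by
  have hm := h.mem3 hL hp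
  have h0 : HasDerivAt (fun s => Xf U (t, s)) (Xw U (t, w)) w := by
    have := hasDerivAt_Xf_w (c := 0) (U := U) (t := t) (w := w)
      (by simpa using h.hU.differentiableAt (h.mem_0 hp))
    simpa [tr_zero] using this
  have hA := hasDerivAt_Xf_w (c := -1) (h.hU.differentiableAt (h.mem_m hp))
  have hB := hasDerivAt_Xf_w (c := 1) (h.hU.differentiableAt (h.mem_p hp))
  have eA : tr (-1) (Xw U) (t, w) + ((-1 : ℝ) : ℂ) * tr (-1) (Xt U) (t, w) =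
      tr (-1) (Xw U) (t, w) - tr (-1) (Xt U) (t, w) := by push_cast; ring
  have eB : tr 1 (Xw U) (t, w) + ((1 : ℝ) : ℂ) * tr 1 (Xt U) (t, w) =
      tr 1 (Xw U) (t, w) + tr 1 (Xt U) (t, w) := by push_cast; ring
  rw [eA] at hA
  rw [eB] at hB
  have h1 := hL.hasDerivAt_EL (x := fun s => tr (-1) (Xf U) (t, s)) (y := fun s => Xf U (t, s))
    (z := fun s => tr 1 (Xf U) (t, s)) (s := w) hm.1 hm.2 hA h0 hB
  exact (hasDerivAt_snd ((h.hEf hL).differentiableAt hp)).unique h1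

/-- evaluation of `a` at `t ± w/2` -/
lemma tr_half_af (L U : ℂ × ℂ → ℂ) (p : ℂ × ℂ) : tr (1 / 2) (af L U) p =
    q2 (q1 L) (Xf U p, tr 1 (Xf U) p) * (Xt U p * tr 1 (Xt U) p) := by
  unfold af tr
  simp only
  have e1 : p.1 + ((1 / 2 : ℝ) : ℂ) * p.2 + ((-(1 / 2) : ℝ) : ℂ) * p.2 = p.1 := by push_cast; ring
  have e2 : p.1 + ((1 / 2 : ℝ) : ℂ) * p.2 + ((1 / 2 : ℝ) : ℂ) * p.2 = p.1 + ((1 : ℝ) : ℂ) * p.2 := by
    push_cast; ring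
  rw [e1, e2]

lemma tr_neg_half_af (L U : ℂ × ℂ → ℂ) (p : ℂ × ℂ) : tr (-(1 / 2)) (af L U) p =
    q2 (q1 L) (tr (-1) (Xf U) p, Xf U p) * (tr (-1) (Xt U) p * Xt U p) := by
  unfold af tr
  simp only
  have e1 : p.1 + ((-(1 / 2) : ℝ) : ℂ) * p.2 + ((1 / 2 : ℝ) : ℂ) * p.2 = p.1 := by push_cast; ring
  have e2 : p.1 + ((-(1 / 2) : ℝ) : ℂ) * p.2 + ((-(1 / 2) : ℝ) : ℂ) * p.2 =
      p.1 + ((-1 : ℝ) : ℂ) * p.2 := by
    push_cast; ring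
  rw [e1, e2]

/-- translates of products and differences -/
lemma tr_tr (c c' : ℝ) (f : ℂ × ℂ → ℂ) (p : ℂ × ℂ) : tr c (tr c' f) p = tr (c + c') f p := by
  unfold tr
  simp only
  congr 2
  push_cast
  ring

lemma tr_mul (c : ℝ) (f g : ℂ × ℂ → ℂ) (p : ℂ × ℂ) :
    tr c (fun q => f q * g q) p = tr c f p * tr c g p := rfl

lemma tr_half_del (f : ℂ × ℂ → ℂ) (p : ℂ × ℂ) : tr (1 / 2) (del f) p = tr 1 f p - f p := by
  have e : tr (1 / 2) (del f) p = tr (1 / 2) (tr (1 / 2) f) p - tr (1 / 2) (tr (-(1 / 2)) f) p := rfl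
  rw [e, tr_tr, tr_tr, show (1 / 2 + 1 / 2 : ℝ) = 1 by norm_num,
    show (1 / 2 + -(1 / 2) : ℝ) = 0 by norm_num, tr_zero]

lemma tr_neg_half_del (f : ℂ × ℂ → ℂ) (p : ℂ × ℂ) :
    tr (-(1 / 2)) (del f) p = f p - tr (-1) f p := by
  have e : tr (-(1 / 2)) (del f) p =
    tr (-(1 / 2)) (tr (1 / 2) f) p - tr (-(1 / 2)) (tr (-(1 / 2)) f) p := rfl
  rw [e, tr_tr, tr_tr, show (-(1 / 2) + 1 / 2 : ℝ) = 0 by norm_num,
    show (-(1 / 2) + -(1 / 2) : ℝ) = -1 by norm_num, tr_zero]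

/-- (3.2): the linearised equation in divergence form -/
theorem Adm.ident2 (hL : IsLag ρ₀ ε₀ L Ψ) (h : Adm ρ₀ ε₀ ρ r U) (V : ℂ × ℂ → ℂ) {t w : ℂ}
    (hp : (t, w) ∈ Dom (3 / 2) ρ r) :
    Xt U (t, w) * dEL L (tr (-1) (Xf U) (t, w)) (Xf U (t, w)) (tr 1 (Xf U) (t, w))
      (tr (-1) (Xt U) (t, w) * tr (-1) V (t, w)) (Xt U (t, w) * V (t, w))
      (tr 1 (Xt U) (t, w) * tr 1 V (t, w)) =
    Xt U (t, w) * q1 (Ef L U) (t, w) * V (t, w) + del (fun q => af L U q * del V q) (t, w) := by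
  have e1 : del (fun q => af L U q * del V q) (t, w) =
      tr (1 / 2) (af L U) (t, w) * tr (1 / 2) (del V) (t, w) -
      tr (-(1 / 2)) (af L U) (t, w) * tr (-(1 / 2)) (del V) (t, w) := rfl
  rw [e1, tr_half_af, tr_neg_half_af, tr_half_del, tr_neg_half_del, h.q1_Ef hL hp]
  unfold dEL
  ring

/-- `μ = - a (1 + del u)`, `u = X_w / X_t` -/
def uf (U : ℂ × ℂ → ℂ) (p : ℂ × ℂ) : ℂ := Xw U p * (Xt U p)⁻¹

def muf (L U : ℂ × ℂ → ℂ) (p : ℂ × ℂ) : ℂ := - (af L U p * (1 + del (uf U) p))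

lemma Adm.huf (h : Adm ρ₀ ε₀ ρ r U) : IsH (1 / 2) ρ r (uf U) :=
  h.hXw.mul (h.hXt.inv (fun _ hp => h.Xt_ne hp))

lemma Adm.hmuf (hL : IsLag ρ₀ ε₀ L Ψ) (h : Adm ρ₀ ε₀ ρ r U) : IsH 1 ρ r (muf L U) := by
  have h1 : IsH 1 ρ r (del (uf U)) := by
    have := h.huf.del
    norm_num at this
    exact this
  exact ((h.haf hL).mul ((IsH.const 1).add h1)).neg

/-- (3.3): `del μ = - P_w + (P u)_t` (in the form `X_w E_t - X_t E_w`) -/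
theorem Adm.ident3 (hL : IsLag ρ₀ ε₀ L Ψ) (h : Adm ρ₀ ε₀ ρ r U) {t w : ℂ}
    (hp : (t, w) ∈ Dom (3 / 2) ρ r) :
    del (muf L U) (t, w) =
      Xw U (t, w) * q1 (Ef L U) (t, w) - Xt U (t, w) * q2 (Ef L U) (t, w) := by
  have e1 : del (muf L U) (t, w) =
      - (tr (1 / 2) (af L U) (t, w) * (1 + tr (1 / 2) (del (uf U)) (t, w))) +
      tr (-(1 / 2)) (af L U) (t, w) * (1 + tr (-(1 / 2)) (del (uf U)) (t, w)) := by
    have : del (muf L U) (t, w) =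
      - (tr (1 / 2) (af L U) (t, w) * (1 + tr (1 / 2) (del (uf U)) (t, w))) -
      - (tr (-(1 / 2)) (af L U) (t, w) * (1 + tr (-(1 / 2)) (del (uf U)) (t, w))) := rfl
    rw [this]; ring
  have hm := h.Xt_ne (h.mem_m hp)
  have h0 := h.Xt_ne (h.mem_0 hp)
  have hpl := h.Xt_ne (h.mem_p hp)
  have um : tr (-1) (uf U) (t, w) * tr (-1) (Xt U) (t, w) = tr (-1) (Xw U) (t, w) := by
    unfold uf tr
    simp only
    field_simp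
  have u0 : uf U (t, w) * Xt U (t, w) = Xw U (t, w) := by
    unfold uf
    field_simp
  have up : tr 1 (uf U) (t, w) * tr 1 (Xt U) (t, w) = tr 1 (Xw U) (t, w) := by
    unfold uf tr
    simp only
    field_simp
  rw [e1, tr_half_af, tr_neg_half_af, tr_half_del, tr_neg_half_del, h.q1_Ef hL hp, h.q2_Ef hL hp]
  unfold dEL
  rw [← um, ← u0, ← up]
  ring

end Leaf

end Crest.Agent.R102.B821
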