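import Crest.Agent.R102.LocA_929

/-!
Row 102, part (A) (helper929): interface definitions (action, (R*) in terms of `EP`, exponentials).
-/

set_option autoImplicit false

open Set Filter Topology Metric Complex MeasureTheory
open scoped Real ContDiff

noncomputable section

namespace Crest.Agent.R102.A929

/-- `e(x) = exp(2 π i x)` -/
def ee (z : ℂ) : ℂ := Complex.exp (2 * π * I * z)

/-- a real function as a function on `ℂ` (constant in the imaginary direction) -/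
def ofR (f : ℝ → ℝ) (hf : Continuous f) : C(ℂ, ℂ) := ⟨fun z => (f z.re : ℂ), by fun_prop⟩

/-- `M` is an action for `q` on pairs with step in `(0, ε)`: `M = arc - chord` -/
structure IsAct (q : C(ℂ, ℂ)) (ε : ℝ) (M : ℝ → ℝ → ℝ) : Prop where
  d : ∀ x y : ℝ, x < y → y - x < ε →
    HasFDerivAt (fun p : ℝ × ℝ => M p.1 p.2)
      ((-(Pq q x ((y : ℂ) - x)).re) • ContinuousLinearMap.fst ℝ ℝ ℝ +
        (Pq q y (-((y : ℂ) - x))).re • ContinuousLinearMap.snd ℝ ℝ ℝ) (x, y)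
  per : ∀ x y : ℝ, M (x + 1) (y + 1) = M x y

/-- (R*) in terms of `EP` -/
def RStarP (q : C(ℂ, ℂ)) (ε₁ : ℝ) : Prop :=
  ∀ (n j : ℕ) (x : ℕ → ℝ), 1 ≤ n → 1 ≤ j →
    (∀ i < n, 0 < x (i + 1) - x i ∧ x (i + 1) - x i < ε₁) → x n = x 0 + j →
    (∀ i, 1 ≤ i → i < n → EP q (x (i - 1)) (x i) (x (i + 1)) = 0) →
    EP q ((x (n - 1) : ℂ) - j) (x 0) (x 1) = 0

/-- the real line as a subset of `ℂ` -/
def RR : Set ℂ := {z | z.im = 0}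

/-- closed strip -/
def St (η : ℝ) : Set ℂ := {z | |z.im| ≤ η}

/-- LEAF SMR (real functions) -/
def LeafSMR : Prop :=
  ∀ (f : ℝ → ℝ) (hf : ContDiff ℝ 3 f), (∀ x, f (x + 1) = f x) →
    ∃ (q1 q2 : ℂ → ℂ) (B : ℝ), Sm (ofR f hf.continuous) q1 q2 RR B

/-- LEAF SMS (entire functions with bounded derivatives on a closed strip) -/
def LeafSMS : Prop :=
  ∀ (q : C(ℂ, ℂ)) (η B : ℝ), 0 ≤ η → 1 ≤ B → Differentiable ℂ q →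
    (∀ z ∈ St η, ‖q z‖ ≤ B) → (∀ z ∈ St η, ‖deriv q z‖ ≤ B) →
    (∀ z ∈ St η, ‖deriv (deriv q) z‖ ≤ B) → (∀ z ∈ St η, ‖deriv (deriv (deriv q)) z‖ ≤ B) →
    Sm q (deriv q) (deriv (deriv q)) (St η) (4 * B)

/-- LEAF GEO: the action `M(x, y) = ∫_x^y e^{-2q} - |∫_x^y e^{-2q + iΘ}|`, `Θ' = e^q` -/
def LeafGEO : Prop :=
  ∀ (ρ C : ℝ), LocQ ρ C → ∀ (q : C(ℂ, ℂ)) (ε : ℝ), 0 < ε → (∀ x : ℝ, (q x).im = 0) →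
    (∀ x : ℝ, q (x + 1) = q x) → (∀ x e : ℝ, |e| < ε → ‖Xq q x e‖ < ρ) →
    ∃ M : ℝ → ℝ → ℝ, IsAct q ε M

/-- LEAF VAR: almost constancy of the action on approximate closed families -/
def LeafVAR : Prop :=
  ∀ (ρ C : ℝ), LocQ ρ C → ∀ (q : C(ℂ, ℂ)) (q1 q2 : ℂ → ℂ) (B ε₀ ε₁ A : ℝ) (M : ℝ → ℝ → ℝ),
    Sm q q1 q2 RR B → (∀ x : ℝ, (q x).im = 0) → (∀ x : ℝ, q (x + 1) = q x) →
    0 < ε₀ → IsAct q ε₀ M → 0 < ε₁ → RStarP q ε₁ → 0 ≤ A →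
    ∃ (K c : ℝ) (n₀ : ℕ), 0 < K ∧ 0 < c ∧ ∀ (n : ℕ) (S : ℝ → ℝ) (r : ℝ), n₀ ≤ n → 0 ≤ r →
      r ≤ c / n ^ 10 → Continuous S → (∀ t, S (t + 1) = S t + 1) →
      (∀ t, |S (t + 1 / n) - S t - 1 / n| ≤ A / (n : ℝ) ^ (5 / 2 : ℝ)) →
      (∀ t : ℝ, ‖EP q (S (t - 1 / n)) (S t) (S (t + 1 / n))‖ ≤ r) →
      ∃ A₀ : ℝ, ∀ t : ℝ,
        |(∑ i ∈ Finset.range n, M (S (t + i / n)) (S (t + (i + 1) / n))) - A₀| ≤ K * n ^ 10 * r ^ 2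

/-- LEAF FIX: the approximate leaf of rotation number `1/n` -/
def LeafFIX : Prop :=
  ∀ (ρ C : ℝ), LocQ ρ C → ∀ B : ℝ, 1 ≤ B → ∃ (A : ℝ) (n₁ : ℕ), 0 < A ∧ ∀ (n : ℕ)
    (q : C(ℂ, ℂ)) (q1 q2 : ℂ → ℂ) (η : ℝ) (M : ℝ → ℝ → ℝ), n₁ ≤ n → 0 ≤ η →
    Differentiable ℂ q → (∀ z, q (z + 1) = q z) → (∀ x : ℝ, (q x).im = 0) →
    Sm q q1 q2 (St (η + 2 / n)) B → IsAct q (2 / n) M →
    ∃ v : ℂ → ℂ, Differentiable ℂ v ∧ (∀ z, v (z + 1) = v z) ∧ (∀ x : ℝ, (v x).im = 0) ∧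
      (∀ z ∈ St η, ‖v z‖ ≤ A / n ^ 2) ∧
      (∀ z ∈ St η, ‖v (z + 1 / n) - v z‖ ≤ A / (n : ℝ) ^ (5 / 2 : ℝ)) ∧
      (∀ z ∈ St η, ‖deriv v z‖ ≤ A / n) ∧
      (∀ z ∈ St η, ‖EP q (z - 1 / n + v (z - 1 / n)) (z + v z) (z + 1 / n + v (z + 1 / n))‖ ≤
        A / n ^ 4) ∧
      (∀ k : ℤ, 2 * |k| ≤ n → ∫ x in (0 : ℝ)..1,
        EP q (x - 1 / n + v (x - 1 / n)) (x + v x) (x + 1 / n + v (x + 1 / n)) * ee (-(k * x)) = 0)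

/-- LEAF LIN: first order change of the `n`-th Fourier coefficient of `EP` under `q = qL + h`,
`h = ∑ a_k e(k x)`.  The main term comes from `Lf (sin (2π r)) = 3/(2π)`. -/
def LeafLIN : Prop :=
  ∀ (ρ C : ℝ), LocQ ρ C → ∀ B A : ℝ, 1 ≤ B → 0 ≤ A → ∃ (A' : ℝ) (n₂ : ℕ), 0 < A' ∧ ∀ (n : ℕ)
    (q qL : C(ℂ, ℂ)) (q1 q2 : ℂ → ℂ) (η : ℝ) (a : ℤ → ℂ) (v : ℂ → ℂ), n₂ ≤ n → 0 ≤ η →
    Differentiable ℂ qL → (∀ z, qL (z + 1) = qL z) → (∀ x : ℝ, (qL x).im = 0) →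
    Sm qL q1 q2 (St (η + 2 / n)) B →
    Summable (fun k => ‖a k‖) → (∑' k, ‖a k‖) ≤ 1 / n →
    (∀ x : ℝ, q x = qL x + ∑' k : ℤ, a k * ee (k * x)) → (∀ x : ℝ, (q x).im = 0) →
    Differentiable ℂ v → (∀ z, v (z + 1) = v z) → (∀ x : ℝ, (v x).im = 0) →
    (∀ z ∈ St η, ‖v z‖ ≤ A / n ^ 2) →
    (∀ z ∈ St η, ‖v (z + 1 / n) - v z‖ ≤ A / (n : ℝ) ^ (5 / 2 : ℝ)) →
    (∀ z ∈ St η, ‖deriv v z‖ ≤ A / n) →
    ‖(∫ x in (0 : ℝ)..1,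
        (EP q (x - 1 / n + v (x - 1 / n)) (x + v x) (x + 1 / n + v (x + 1 / n)) -
          EP qL (x - 1 / n + v (x - 1 / n)) (x + v x) (x + 1 / n + v (x + 1 / n))) *
        (1 + deriv v x) * ee (-(n * x))) + I * (3 / (2 * π)) * (1 / n ^ 2) * a n‖ ≤
      A' * ((∑' k : ℤ, if |k| ≤ 2 * n then ‖a k‖ * Real.exp (-(2 * π * η * |(n : ℝ) - k|)) else 0)
            / n ^ 3 +
          (∑' k : ℤ, if 2 * n < |k| ∧ |k| ≤ n ^ 2 then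
            ‖a k‖ * Real.exp (-(2 * π * η * |(n : ℝ) - k|)) else 0) / n ^ 2 +
          (∑' k : ℤ, if (n : ℤ) ^ 2 < |k| then ‖a k‖ else 0) / n ^ 2 +
          (∑' k, ‖a k‖) ^ 2 / n ^ 2)

end Crest.Agent.R102.A929
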