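import Crest.Agent.R102.PartIIAt_150
import Crest.Agent.R102.Step5Defs_613
import Crest.Agent.R102.Step7B_559
import Crest.Agent.R102.SheetC_982

/-!
Row 102, T1-B (helper150): the fields `low`, `line`, `births` of `S5.In5` from the output `At` of
PART II.
-/

set_option autoImplicit false

open Set Filter Topology Metric Complex MeasureTheory
open scoped Real

noncomputable section

namespace Crest.Agent.R102.PartII150

open Crest.Agent.R102.K669 Crest.Agent.R102.Heights150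
open Crest.Agent.R102.S5 (Half bl Gam Low)
open Crest.Agent.R102.Step7559 (dn)
open Crest.Agent.R102.VH982 (pt)

variable {L X : Set (ℂ × ℂ)} {G : ℂ → ℂ} {a a' c ε s₁ δ η u : ℝ}

/-- inverse blow-up -/
def bi (e : ℝ × ℝ) (s : ℝ) (q : ℂ × ℂ) : ℂ × ℂ := ((q.1 - e.1) / s, (q.2 - e.2) / s)

/-- inverse of `ex` -/
def exi (G : ℂ → ℂ) (q : ℂ × ℂ) : ℂ × ℂ := (q.1 - G q.2, q.2)

theorem bl_bi (e : ℝ × ℝ) {s : ℝ} (hs : s ≠ 0) (q : ℂ × ℂ) : bl e s (bi e s q) = q := by
  have h : (s : ℂ) ≠ 0 := by exact_mod_cast hs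
  unfold bl bi
  ext1
  · simp only; field_simp; ring
  · simp only; field_simp; ring

theorem bi_bl (e : ℝ × ℝ) {s : ℝ} (hs : s ≠ 0) (q : ℂ × ℂ) : bi e s (bl e s q) = q := by
  have h : (s : ℂ) ≠ 0 := by exact_mod_cast hs
  unfold bl bi
  ext1
  · simp only; field_simp; ring
  · simp only; field_simp; ring

theorem ex_exi (G : ℂ → ℂ) (q : ℂ × ℂ) : ex G (exi G q) = q := by
  unfold ex exi; ext1 <;> simp

theorem exi_ex (G : ℂ → ℂ) (q : ℂ × ℂ) : exi G (ex G q) = q := by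
  unfold ex exi; ext1 <;> simp

theorem analyticAt_bl (e : ℝ × ℝ) (s : ℝ) (x : ℂ × ℂ) : AnalyticAt ℂ (bl e s) x := by
  unfold bl
  exact (analyticAt_const.add (analyticAt_const.mul analyticAt_fst)).prod
    (analyticAt_const.add (analyticAt_const.mul analyticAt_snd))

theorem analyticAt_bi (e : ℝ × ℝ) (s : ℝ) (x : ℂ × ℂ) : AnalyticAt ℂ (bi e s) x := by
  unfold bi
  exact ((analyticAt_fst.sub analyticAt_const).div_const).prod
    ((analyticAt_snd.sub analyticAt_const).div_const)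

theorem analyticAt_ex {q : ℂ × ℂ} (hG : AnalyticAt ℂ G q.2) : AnalyticAt ℂ (ex G) q := by
  unfold ex
  have h1 : AnalyticAt ℂ (fun x : ℂ × ℂ => G x.2) q := AnalyticAt.comp (g := G) hG analyticAt_snd
  exact (analyticAt_fst.add h1).prod analyticAt_snd

theorem analyticAt_ln {q : ℂ × ℂ} (hG : AnalyticAt ℂ G q.2) : AnalyticAt ℂ (ln G) q := by
  unfold ln
  have h1 : AnalyticAt ℂ (fun x : ℂ × ℂ => G x.2) q := AnalyticAt.comp (g := G) hG analyticAt_snd
  exact ((analyticAt_fst.add h1).sub analyticAt_snd.div_const).prod analyticAt_snd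

theorem analyticAt_exi {q : ℂ × ℂ} (hG : AnalyticAt ℂ G q.2) : AnalyticAt ℂ (exi G) q := by
  unfold exi
  have h1 : AnalyticAt ℂ (fun x : ℂ × ℂ => G x.2) q := AnalyticAt.comp (g := G) hG analyticAt_snd
  exact (analyticAt_fst.sub h1).prod analyticAt_snd

theorem dn_ex_bl (G : ℂ → ℂ) (e : ℝ × ℝ) {s : ℝ} (hs : s ≠ 0) (x y τ : ℝ) (w : ℂ) :
    dn (ex G (bl e s (pt x y w))) τ = ex G (bl e s (pt x (y - τ / s) w)) := by
  have h : (s : ℂ) ≠ 0 := by exact_mod_cast hs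
  unfold dn ex bl VH982.pt
  ext1
  · simp only; push_cast; field_simp; ring
  · rfl

/-- `low` as an inclusion: the half neighbourhoods of `(s, u)` -/
theorem At.half_low (h : At L X G a' c ε s₁ δ η u) {e : ℝ × ℝ} (he1 : |e.1 - s₁| < δ)
    (he2 : e.2 = u) (hη : 0 < η) {m : ℝ} (hm : m ≤ a' - ε) {d : ℝ} (hd : 0 < d) :
    ∃ η' > 0, η' ≤ d ∧ ∀ q ∈ Half e η' m, q.2 - u ∈ HD η ∧ ex G q ∈ X := by
  refine ⟨min (min η d) (δ - |e.1 - s₁|), lt_min (lt_min hη hd) (by linarith),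
    (min_le_left _ _).trans (min_le_right _ _), fun q hq => ?_⟩
  obtain ⟨h1, h2, h3, h4, h5⟩ := hq
  rw [he2] at h3
  have hz : q.2 - u ∈ HD η := ⟨by simpa using h4,
    h3.trans_le ((min_le_left _ _).trans (min_le_left _ _))⟩
  refine ⟨hz, h.low q ?_ hz ?_ (h5.trans_le (mul_le_mul_of_nonneg_right hm h4.le))⟩
  swap
  · have := (min_le_left (min η d) (δ - |e.1 - s₁|)).trans (min_le_left η d)
    linarith
  calc |q.1.re - s₁| = |(q.1.re - e.1) + (e.1 - s₁)| := by ring_nf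
    _ ≤ |q.1.re - e.1| + |e.1 - s₁| := abs_add_le _ _
    _ < δ := by linarith [h1.trans_le (min_le_right (min η d) (δ - |e.1 - s₁|))]

/-- `line` as an inclusion -/
theorem At.half_line (h : At L X G a' c ε s₁ δ η u) {e : ℝ × ℝ} (he1 : |e.1 - s₁| < δ)
    (he2 : e.2 = u) (hη : 0 < η) {m : ℝ} (hm : m ≤ a' + c) {d : ℝ} (hd : 0 < d) :
    ∃ η' > 0, η' ≤ d ∧ ∀ q ∈ Half e η' m, q.2 - u ∈ HD η ∧ ln G q ∈ L := by
  refine ⟨min (min η d) (δ - |e.1 - s₁|), lt_min (lt_min hη hd) (by linarith),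
    (min_le_left _ _).trans (min_le_right _ _), fun q hq => ?_⟩
  obtain ⟨h1, h2, h3, h4, h5⟩ := hq
  rw [he2] at h3
  have hz : q.2 - u ∈ HD η := ⟨by simpa using h4,
    h3.trans_le ((min_le_left _ _).trans (min_le_left _ _))⟩
  refine ⟨hz, h.line q ?_ hz ?_ (h5.trans_le (mul_le_mul_of_nonneg_right hm h4.le))⟩
  swap
  · have := (min_le_left (min η d) (δ - |e.1 - s₁|)).trans (min_le_left η d)
    linarith
  calc |q.1.re - s₁| = |(q.1.re - e.1) + (e.1 - s₁)| := by ring_nf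
    _ ≤ |q.1.re - e.1| + |e.1 - s₁| := abs_add_le _ _
    _ < δ := by linarith [h1.trans_le (min_le_right (min η d) (δ - |e.1 - s₁|))]

set_option maxHeartbeats 1000000 in
/-- **births are `r`-dense** (field `births` of `S5.In5`) -/
theorem At.births_dense (h : At L X G a' c ε s₁ δ η u) (hXo : IsOpen X) (hη : 0 < η)
    {N : Set ℂ} (hN : IsOpen N) (hGN : DifferentiableOn ℂ G N)
    (hHN : ∀ z ∈ HD η, (u : ℂ) + z ∈ N) (hGim : ∀ w ∈ N, 0 ≤ (G w).im)
    {y1 : ℝ} (hy1 : y1 < 0) {S : Set ℂ} {B : ℂ × ℂ → ℂ}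
    (hB : ∀ q ∈ X, y1 < q.1.im → AnalyticAt ℂ B q)
    (hmax : ∀ q : ℂ × ℂ, q.2 ∈ N → y1 < q.1.im → ∀ g : ℂ × ℂ → ℂ, AnalyticAt ℂ g q → g q ∈ S →
      (∀ᶠ τ : ℝ in 𝓝[>] 0, dn q τ ∈ X ∧ g =ᶠ[𝓝 (dn q τ)] B) → q ∈ X)
    {g r ρ : ℝ} (ha : 0 ≤ a) (hr : 0 < r) (hρr : ρ * (a + 4) ≤ r / 8)
    (haa : |a - a'| * (a + 4) ≤ r / 16) (hε0 : 0 < ε) (hεr : ε * (a + 5) ^ 2 ≤ r / 16)
    (hε8 : 2 * ε * (a + 4) ≤ 1 / 8) {e : ℝ × ℝ} (he1 : |e.1 - s₁| < δ) (he2 : e.2 = u) :
    ∀ q : ℂ × ℂ, q.1.im = a * q.2.im → closedBall q r ⊆ Gam a g →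
      ∃ K ⊆ Low a g ρ, IsCompact K ∧ ∀ᶠ s : ℝ in 𝓝[>] 0,
        ¬ ∃ (g' : ℂ × ℂ → ℂ) (V : Set (ℂ × ℂ)), IsOpen V ∧ closedBall q r ⊆ V ∧
          DifferentiableOn ℂ g' V ∧ (∀ x ∈ V, g' x ∈ S) ∧
          ∀ x ∈ K ∩ V, g' x = B (ex G (bl e s x)) := by
  intro q hq hGam
  -- facts on the ball
  have hA : ∀ x ∈ closedBall q r, ‖x.1‖ < a + 4 ∧ ‖x.2‖ < a + 4 ∧ 0 < x.2.im := by
    intro x hx
    obtain ⟨h1, h2, h3, -⟩ := hGam hx
    exact ⟨h1, h2, by linarith⟩
  have hball : ∀ x : ℂ × ℂ, ‖x.1 - q.1‖ ≤ r → ‖x.2 - q.2‖ ≤ r → x ∈ closedBall q r := by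
    intro x h1 h2
    rw [mem_closedBall, Prod.dist_eq, dist_eq_norm, dist_eq_norm]
    exact max_le h1 h2
  have hball' : ∀ x : ℂ × ℂ, ‖x.1 - q.1‖ < r → ‖x.2 - q.2‖ < r → x ∈ ball q r := by
    intro x h1 h2
    rw [mem_ball, Prod.dist_eq, dist_eq_norm, dist_eq_norm]
    exact max_lt h1 h2
  have hqq : q ∈ closedBall q r := mem_closedBall_self hr.le
  obtain ⟨hq1, hq2, hq20⟩ := hA q hqq
  have hq8 : 1 / 8 < q.2.im := (hGam hqq).2.2.1
  have ha5 : 0 < a + 5 := by linarith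
  have hεa : ε * (a + 4) ≤ r / 16 := by nlinarith
  have hεaa : ε * (a + 4) * a ≤ r / 16 := by
    nlinarith [mul_nonneg hε0.le (mul_nonneg ha ha), mul_nonneg hε0.le ha]
  have hεsum : ε * (a + 4) * a + ε * (a + 4) + ε * (a + 4) ≤ r / 16 := by nlinarith
  have haa' : ∀ t : ℝ, 0 ≤ t → t ≤ a + 4 → |(a - a') * t| ≤ r / 16 := by
    intro t ht0 ht
    rw [abs_mul, abs_of_nonneg ht0]
    exact (mul_le_mul_of_nonneg_left ht (abs_nonneg _)).trans haa
  -- the compact set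
  set r₁ : ℝ := r / (16 * (a + 1)) with hr₁
  have hr₁0 : 0 < r₁ := by positivity
  have hr₁1 : r₁ ≤ r / 16 := by
    rw [hr₁]
    apply div_le_div_of_nonneg_left hr.le (by norm_num) (by linarith)
  have hr₁a : a * r₁ ≤ r / 16 := by
    have h1 : (a + 1) * r₁ = r / 16 := by rw [hr₁]; field_simp
    nlinarith
  set ql : ℂ × ℂ := (q.1 - ((r / 2 : ℝ) : ℂ) * I, q.2) with hql
  have hKball : closedBall ql r₁ ⊆ closedBall q r := by
    intro x hx
    rw [mem_closedBall, Prod.dist_eq, max_le_iff, dist_eq_norm, dist_eq_norm] at hx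
    refine hball x ?_ (hx.2.trans (by linarith))
    have h1 : x.1 - q.1 = (x.1 - ql.1) + (-((r / 2 : ℝ) : ℂ) * I) := by rw [hql]; ring
    rw [h1]
    refine (norm_add_le _ _).trans ?_
    have h2 : ‖-((r / 2 : ℝ) : ℂ) * I‖ = r / 2 := by
      rw [norm_mul, norm_neg, Complex.norm_I, mul_one, Complex.norm_real, Real.norm_eq_abs,
        abs_of_pos (by positivity)]
    rw [h2]
    linarith [hx.1]
  refine ⟨closedBall ql r₁, ?_, isCompact_closedBall _ _, ?_⟩
  · intro x hx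
    have hxb := hKball hx
    refine ⟨hGam hxb, ?_⟩
    obtain ⟨-, hx2, hx0⟩ := hA x hxb
    rw [mem_closedBall, Prod.dist_eq, max_le_iff, dist_eq_norm, dist_eq_norm] at hx
    have h1 : x.1.im - q.1.im + r / 2 ≤ r₁ := by
      have h2 := (Complex.abs_im_le_norm (x.1 - ql.1)).trans hx.1
      have h3 : (x.1 - ql.1).im = x.1.im - q.1.im + r / 2 := by rw [hql]; simp; ring
      rw [h3] at h2
      exact (le_abs_self _).trans h2
    have h2 : |x.2.im - q.2.im| ≤ r₁ := by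
      have h3 := (Complex.abs_im_le_norm (x.2 - ql.2)).trans hx.2
      rwa [Complex.sub_im] at h3
    have h3 := abs_le.1 h2
    have h4 : x.2.im ≤ a + 4 := ((le_abs_self _).trans (Complex.abs_im_le_norm _)).trans hx2.le
    have h6 : a * q.2.im - a * r₁ ≤ a * x.2.im := by nlinarith
    rcases le_total 0 ρ with hρ0 | hρ0
    · have h5 : ρ * x.2.im ≤ r / 8 := (mul_le_mul_of_nonneg_left h4 hρ0).trans hρr
      rw [hq] at h1
      linarith [sub_mul a ρ x.2.im]
    · have h5 : ρ * x.2.im ≤ 0 := mul_nonpos_of_nonpos_of_nonneg hρ0 hx0.le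
      rw [hq] at h1
      linarith [sub_mul a ρ x.2.im]
  -- small scales
  have hsmall : ∀ᶠ s : ℝ in 𝓝[>] 0, 0 < s ∧ s * (a + 6) < η ∧ s * (a + 6) < δ - |e.1 - s₁| ∧
      s * (a + 6) < -y1 := by
    have hc : Tendsto (fun s : ℝ => s * (a + 6)) (𝓝[>] 0) (𝓝 0) := by
      have h1 : Continuous (fun s : ℝ => s * (a + 6)) := by fun_prop
      have h2 := h1.tendsto 0
      rw [zero_mul] at h2
      exact h2.mono_left nhdsWithin_le_nhds
    filter_upwards [self_mem_nhdsWithin, hc.eventually (gt_mem_nhds hη),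
      hc.eventually (gt_mem_nhds (show (0 : ℝ) < δ - |e.1 - s₁| by linarith)),
      hc.eventually (gt_mem_nhds (show (0 : ℝ) < -y1 by linarith))] with s h1 h2 h3 h4
    exact ⟨h1, h2, h3, h4⟩
  filter_upwards [hsmall] with s hs
  obtain ⟨hs0, hsη, hsδ, hsy⟩ := hs
  have hsne : s ≠ 0 := hs0.ne'
  have hsc : (s : ℂ) ≠ 0 := by exact_mod_cast hsne
  rintro ⟨g', V, hVo, hVq, hg', hg'S, hg'K⟩
  -- coordinates of the blow-up
  have hblz : ∀ x : ℂ × ℂ, (bl e s x).2 - u = s * x.2 := by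
    intro x; unfold bl; rw [he2]; ring
  have hblre : ∀ x : ℂ × ℂ, (bl e s x).1.re = e.1 + s * x.1.re := by
    intro x; unfold bl; simp
  have hblim : ∀ x : ℂ × ℂ, (bl e s x).1.im = s * x.1.im := by
    intro x; unfold bl; simp
  have hblim2 : ∀ x : ℂ × ℂ, (bl e s x).2.im = s * x.2.im := by
    intro x; unfold bl; simp
  -- a wider range of points: `‖x.2‖ < a + 5`, `‖x.1.re‖ < a + 5`, `0 < x.2.im`
  have hHD : ∀ x : ℂ × ℂ, ‖x.2‖ < a + 5 → 0 < x.2.im → (bl e s x).2 - u ∈ HD η := by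
    intro x h1 h2
    rw [hblz]
    refine ⟨by simpa using mul_pos hs0 h2, ?_⟩
    rw [norm_mul, Complex.norm_real, Real.norm_eq_abs, abs_of_pos hs0]
    refine lt_of_le_of_lt ?_ hsη
    exact mul_le_mul_of_nonneg_left (by linarith) hs0.le
  have hNm : ∀ x : ℂ × ℂ, ‖x.2‖ < a + 5 → 0 < x.2.im → (bl e s x).2 ∈ N := by
    intro x h1 h2
    have h3 := hHN _ (hHD x h1 h2)
    rwa [add_sub_cancel] at h3
  have hre : ∀ x : ℂ × ℂ, |x.1.re| < a + 5 → |(bl e s x).1.re - s₁| < δ := by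
    intro x h1
    rw [hblre]
    have h2 : |s * x.1.re| ≤ s * (a + 6) := by
      rw [abs_mul, abs_of_pos hs0]
      exact mul_le_mul_of_nonneg_left (by linarith) hs0.le
    calc |e.1 + s * x.1.re - s₁| = |(e.1 - s₁) + s * x.1.re| := by ring_nf
      _ ≤ |e.1 - s₁| + |s * x.1.re| := abs_add_le _ _
      _ < δ := by linarith
  have hlowX : ∀ x : ℂ × ℂ, |x.1.re| < a + 5 → ‖x.2‖ < a + 5 → 0 < x.2.im → -(a + 6) < x.1.im →
      x.1.im < (a' - ε) * x.2.im → ex G (bl e s x) ∈ X := by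
    intro x h1 h2 h3 h0 h4
    refine h.low _ (hre x h1) (hHD x h2 h3) ?_ ?_
    · rw [hblim]
      have := mul_lt_mul_of_pos_left h0 hs0
      linarith
    rw [hblim, hblim2]
    calc s * x.1.im < s * ((a' - ε) * x.2.im) := mul_lt_mul_of_pos_left h4 hs0
      _ = (a' - ε) * (s * x.2.im) := by ring
  have hy1X : ∀ x : ℂ × ℂ, ‖x.2‖ < a + 5 → 0 < x.2.im → -(a + 6) < x.1.im →
      y1 < (ex G (bl e s x)).1.im := by
    intro x h2 h3 h4
    have h5 := hGim _ (hNm x h2 h3)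
    unfold ex
    rw [Complex.add_im, hblim]
    have h6 : -(s * (a + 6)) < s * x.1.im := by
      have := mul_lt_mul_of_pos_left h4 hs0
      linarith
    linarith
  have hGan : ∀ w ∈ N, AnalyticAt ℂ G w := fun w hw => hGN.analyticAt (hN.mem_nhds hw)
  have hmapan : ∀ x : ℂ × ℂ, ‖x.2‖ < a + 5 → 0 < x.2.im →
      AnalyticAt ℂ (fun x => ex G (bl e s x)) x := by
    intro x h2 h3
    exact AnalyticAt.comp (g := ex G) (analyticAt_ex (hGan _ (hNm x h2 h3))) (analyticAt_bl e s x)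
  set f : ℂ × ℂ → ℂ := fun x => B (ex G (bl e s x)) with hf
  set Ω : Set (ℂ × ℂ) := ball q r ∩ (fun x => ex G (bl e s x)) ⁻¹' X with hΩ
  have hbr : ∀ x ∈ ball q r, ‖x.1‖ < a + 5 ∧ ‖x.2‖ < a + 5 ∧ 0 < x.2.im := by
    intro x hx
    obtain ⟨h1, h2, h3⟩ := hA x (ball_subset_closedBall hx)
    exact ⟨by linarith, by linarith, h3⟩
  have hΩo : IsOpen Ω := by
    refine ContinuousOn.isOpen_inter_preimage ?_ isOpen_ball hXo
    intro x hx
    obtain ⟨-, h2, h3⟩ := hbr x hx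
    exact (hmapan x h2 h3).continuousAt.continuousWithinAt
  have hfΩ : AnalyticOnNhd ℂ f Ω := by
    intro x hx
    obtain ⟨h1, h2, h3⟩ := hbr x hx.1
    refine AnalyticAt.comp (g := B) (f := fun x => ex G (bl e s x)) ?_ (hmapan x h2 h3)
    refine hB _ hx.2 (hy1X x h2 h3 ?_)
    have := (neg_abs_le x.1.im).trans' (neg_le_neg (Complex.abs_im_le_norm x.1))
    linarith
  have hg'an : ∀ x ∈ ball q r, AnalyticAt ℂ g' x := by
    intro x hx
    have := Crest.Agent.R266.SCV.analyticOnNhd_of_differentiableOn hVo hg'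
    exact this x (hVq (ball_subset_closedBall hx))
  have hg'Ω : AnalyticOnNhd ℂ g' Ω := fun x hx => hg'an x hx.1
  -- the convex lower part
  set C : Set (ℂ × ℂ) := ball q r ∩ {x | x.1.im < (a' - ε) * x.2.im} with hC
  have hCΩ : C ⊆ Ω := by
    intro x hx
    obtain ⟨h1, h2, h3⟩ := hbr x hx.1
    have h4 := (neg_abs_le x.1.im).trans' (neg_le_neg (Complex.abs_im_le_norm x.1))
    exact ⟨hx.1, hlowX x ((Complex.abs_re_le_norm _).trans_lt h1) h2 h3 (by linarith) hx.2⟩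
  have hCo : IsOpen C := by
    refine isOpen_ball.inter (isOpen_lt ?_ ?_) <;> fun_prop
  have hCc : Convex ℝ C := by
    refine (convex_ball q r).inter ?_
    intro x hx y hy α β hα hβ hαβ
    simp only [Set.mem_ofPred_eq] at hx hy ⊢
    have e1 : (α • x + β • y).1.im = α * x.1.im + β * y.1.im := by simp
    have e2 : (α • x + β • y).2.im = α * x.2.im + β * y.2.im := by simp
    rw [e1, e2]
    rcases eq_or_lt_of_le hα with h0 | h0
    · have hβ1 : β = 1 := by linarith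
      rw [← h0, hβ1]; linarith
    · nlinarith [mul_lt_mul_of_pos_left hx h0, mul_le_mul_of_nonneg_left hy.le hβ]
  have hlevel : ∀ t : ℝ, 0 ≤ t → t ≤ a + 4 → a * t - r / 8 ≤ (a' - ε) * t := by
    intro t ht0 ht
    have h1 := (abs_le.1 (haa' t ht0 ht)).2
    have h2 : ε * t ≤ r / 16 := (mul_le_mul_of_nonneg_left ht hε0.le).trans hεa
    linarith [sub_mul a' ε t, sub_mul a a' t]
  have hqlC : ql ∈ C := by
    refine ⟨hball' ql ?_ (by rw [hql]; simpa using hr), ?_⟩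
    · have h1 : ql.1 - q.1 = -((r / 2 : ℝ) : ℂ) * I := by rw [hql]; ring
      rw [h1, norm_mul, norm_neg, Complex.norm_I, mul_one, Complex.norm_real, Real.norm_eq_abs,
        abs_of_pos (by positivity)]
      linarith
    · have h1 : ql.1.im = a * q.2.im - r / 2 := by rw [hql, ← hq]; simp
      have h2 := hlevel q.2.im hq20.le
        (((le_abs_self _).trans (Complex.abs_im_le_norm _)).trans hq2.le)
      show ql.1.im < (a' - ε) * ql.2.im
      rw [h1]
      show a * q.2.im - r / 2 < (a' - ε) * q.2.im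
      linarith
  have hfg : EqOn g' f C := by
    refine AnalyticOnNhd.eqOn_of_preconnected_of_eventuallyEq (fun x hx => hg'an x hx.1)
      (fun x hx => hfΩ x (hCΩ hx)) hCc.isPreconnected hqlC ?_
    filter_upwards [ball_mem_nhds ql hr₁0] with x hx
    exact hg'K x ⟨ball_subset_closedBall hx, hVq (hKball (ball_subset_closedBall hx))⟩
  -- the birth
  have hx0 : |e.1 + s * q.1.re - s₁| < δ := by
    have := hre q ((Complex.abs_re_le_norm _).trans_lt (by linarith))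
    rwa [hblre] at this
  have hz0 : (s : ℂ) * q.2 ∈ HD η := by
    have := hHD q (by linarith) hq20
    rwa [hblz] at this
  have hnz0 : ‖(s : ℂ) * q.2‖ = s * ‖q.2‖ := by
    rw [norm_mul, Complex.norm_real, Real.norm_eq_abs, abs_of_pos hs0]
  obtain ⟨p, hp1, hp2, hp3, hp4, hpX⟩ := h.births _ hx0 _ hz0 (by
    rw [hnz0]
    have h1 : 2 * ε * ‖q.2‖ < q.2.im := by
      have := mul_le_mul_of_nonneg_left hq2.le (show 0 ≤ 2 * ε by linarith)
      linarith
    have h2 : ((s : ℂ) * q.2).im = s * q.2.im := by simp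
    rw [h2]
    have := mul_lt_mul_of_pos_left h1 hs0
    linarith)
  rw [hnz0] at hp1 hp2
  set x' : ℂ × ℂ := bi e s p with hx'
  have hblx' : bl e s x' = p := bl_bi e hsne p
  have hx'1 : |x'.1.re - q.1.re| ≤ ε * (a + 4) := by
    have h1 := hblre x'
    rw [hblx'] at h1
    rw [h1] at hp1
    have h2 : e.1 + s * x'.1.re - (e.1 + s * q.1.re) = s * (x'.1.re - q.1.re) := by ring
    rw [h2, abs_mul, abs_of_pos hs0] at hp1
    have h3 : s * |x'.1.re - q.1.re| ≤ s * (ε * (a + 4)) := by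
      refine hp1.trans ?_
      have := mul_le_mul_of_nonneg_left hq2.le (mul_pos hε0 hs0).le
      linarith
    exact le_of_mul_le_mul_left h3 hs0
  have hx'2 : ‖x'.2 - q.2‖ ≤ ε * (a + 4) := by
    have h1 := hblz x'
    rw [hblx'] at h1
    have h2 : p.2 - (u + s * q.2) = s * (x'.2 - q.2) := by
      rw [mul_sub, ← h1]; ring
    rw [h2, norm_mul, Complex.norm_real, Real.norm_eq_abs, abs_of_pos hs0] at hp2
    have h3 : s * ‖x'.2 - q.2‖ ≤ s * (ε * (a + 4)) := by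
      refine hp2.trans ?_
      have := mul_le_mul_of_nonneg_left hq2.le (mul_pos hε0 hs0).le
      linarith
    exact le_of_mul_le_mul_left h3 hs0
  have hx'3 : (a' - ε) * x'.2.im ≤ x'.1.im := by
    have h1 := hblim x'
    have h2 := hblim2 x'
    rw [hblx'] at h1 h2
    rw [h1, h2] at hp3
    have h3 : s * ((a' - ε) * x'.2.im) ≤ s * x'.1.im := by linarith
    exact le_of_mul_le_mul_left h3 hs0
  have hx'4 : x'.1.im ≤ (a' + ε) * x'.2.im := by
    have h1 := hblim x'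
    have h2 := hblim2 x'
    rw [hblx'] at h1 h2
    rw [h1, h2] at hp4
    have h3 : s * x'.1.im ≤ s * ((a' + ε) * x'.2.im) := by linarith
    exact le_of_mul_le_mul_left h3 hs0
  have hx'b : x'.2 ∈ closedBall q.2 r := by
    rw [mem_closedBall, dist_eq_norm]; linarith
  have hx'cb : ((q.1, x'.2) : ℂ × ℂ) ∈ closedBall q r := hball _ (by simpa using hr.le) (by linarith)
  obtain ⟨-, hx'n, hx'0⟩ := hA _ hx'cb
  simp only at hx'n hx'0
  have hx'im : |x'.2.im - q.2.im| ≤ ε * (a + 4) := by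
    rw [← Complex.sub_im]; exact (Complex.abs_im_le_norm _).trans hx'2
  have hx'4' : x'.2.im ≤ a + 4 := ((le_abs_self _).trans (Complex.abs_im_le_norm _)).trans hx'n.le
  have hx're : |x'.1.re| < a + 5 := by
    have h1 : |q.1.re| < a + 4 := (Complex.abs_re_le_norm _).trans_lt hq1
    have h2 : |x'.1.re| ≤ |x'.1.re - q.1.re| + |q.1.re| := by
      have := abs_add_le (x'.1.re - q.1.re) q.1.re
      rwa [sub_add_cancel] at this
    linarith
  -- heights on the vertical line through the birth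
  have hup : x'.1.im ≤ q.1.im + 3 * r / 16 := by
    have h1 := abs_le.1 (haa' x'.2.im hx'0.le hx'4')
    have h2 : ε * x'.2.im ≤ ε * (a + 4) := mul_le_mul_of_nonneg_left hx'4' hε0.le
    have h3 := abs_le.1 hx'im
    have h4 : a * x'.2.im ≤ a * q.2.im + ε * (a + 4) * a := by nlinarith
    rw [hq]
    linarith [add_mul a' ε x'.2.im, sub_mul a a' x'.2.im]
  have hlo : q.1.im - r / 4 ≤ (a' - ε) * x'.2.im := by
    have h1 := hlevel x'.2.im hx'0.le hx'4'
    have h3 := abs_le.1 hx'im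
    have h4 : a * q.2.im - ε * (a + 4) * a ≤ a * x'.2.im := by nlinarith
    rw [hq]
    linarith
  set ξ : ℝ → ℂ × ℂ := fun y => pt x'.1.re y x'.2 with hξ
  have hξc : Continuous ξ := by rw [hξ]; unfold VH982.pt; fun_prop
  have hξmap : Continuous (fun y => ex G (bl e s (ξ y))) := by
    have : (fun y => ex G (bl e s (ξ y))) =
        fun y : ℝ => ((e.1 + s * ((x'.1.re : ℂ) + y * I) + G (e.2 + s * x'.2), e.2 + s * x'.2) :
          ℂ × ℂ) := by
      funext y
      rw [hξ]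
      unfold ex bl VH982.pt
      simp
    rw [this]
    fun_prop
  set yb : ℝ := q.1.im - r / 2 with hyb
  have hrq : r < a + 4 := by
    have h1 : ((q.1, q.2 - ((r : ℝ) : ℂ) * I) : ℂ × ℂ) ∈ closedBall q r := by
      refine hball _ (by simpa using hr.le) ?_
      have h2 : q.2 - ((r : ℝ) : ℂ) * I - q.2 = -(((r : ℝ) : ℂ) * I) := by ring
      simp only [h2, norm_neg, norm_mul, Complex.norm_I, mul_one, Complex.norm_real,
        Real.norm_eq_abs, abs_of_pos hr]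
      exact le_rfl
    have h3 := (hGam h1).2.2.1
    have h4 : (q.2 - ((r : ℝ) : ℂ) * I).im = q.2.im - r := by simp
    simp only [h4] at h3
    have h6 := ((le_abs_self _).trans (Complex.abs_im_le_norm q.2))
    linarith
  have hyb0 : -(a + 6) < yb := by
    have h1 : 0 ≤ q.1.im := by rw [hq]; exact mul_nonneg ha hq20.le
    rw [hyb]; linarith
  set T : Set ℝ := {y | y ∈ Icc yb x'.1.im ∧ ex G (bl e s (ξ y)) ∉ X} with hT
  have hξX : ∀ y, yb ≤ y → y < (a' - ε) * x'.2.im → ex G (bl e s (ξ y)) ∈ X := by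
    intro y hy0 hy
    refine hlowX _ ?_ ?_ ?_ ?_ ?_
    · rw [hξ]; simpa using hx're
    · rw [hξ]; simp only [VH982.pt_snd]; linarith
    · rw [hξ]; simpa using hx'0
    · rw [hξ]; simp only [VH982.pt_im]; linarith
    · rw [hξ]; simpa using hy
  have hTb : ∀ y ∈ T, (a' - ε) * x'.2.im ≤ y := by
    intro y hy
    by_contra hlt
    push Not at hlt
    exact hy.2 (hξX y hy.1.1 hlt)
  have hTc : IsClosed T := by
    have h1 : T = Icc yb x'.1.im ∩ ((fun y => ex G (bl e s (ξ y))) ⁻¹' X)ᶜ := by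
      ext y; rfl
    rw [h1]
    exact isClosed_Icc.inter (hXo.preimage hξmap).isClosed_compl
  have hTn : x'.1.im ∈ T := by
    refine ⟨⟨by linarith, le_rfl⟩, ?_⟩
    have h1 : ξ x'.1.im = x' := by rw [hξ]; exact VH982.pt_eta x'
    rw [h1, hblx']
    exact hpX
  have hTbb : BddBelow T := ⟨_, hTb⟩
  set ys : ℝ := sInf T with hys
  have hysT : ys ∈ T := hTc.csInf_mem ⟨_, hTn⟩ hTbb
  have hys1 := hTb ys hysT
  have hys2 : ys ≤ x'.1.im := hysT.1.2
  have hybys : yb < ys := by linarith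
  have hin : ∀ y, yb ≤ y → y < ys → ex G (bl e s (ξ y)) ∈ X := by
    intro y hy0 hy
    by_contra hcon
    have : y ∈ T := ⟨⟨hy0, by linarith⟩, hcon⟩
    exact absurd (csInf_le hTbb this) (not_le.2 hy)
  have hξball : ∀ y, yb ≤ y → y ≤ ys → ξ y ∈ ball q r := by
    intro y h1 h2
    refine hball' _ ?_ (by rw [hξ]; simp only [VH982.pt_snd]; linarith)
    have h3 : (ξ y).1 - q.1 = ((x'.1.re - q.1.re : ℝ) : ℂ) + ((y - q.1.im : ℝ) : ℂ) * I := by
      rw [hξ]
      apply Complex.ext <;> simp [VH982.pt]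
    rw [h3]
    refine (norm_add_le _ _).trans_lt ?_
    rw [norm_mul, Complex.norm_I, mul_one, Complex.norm_real, Complex.norm_real, Real.norm_eq_abs,
      Real.norm_eq_abs]
    have h4 : |y - q.1.im| ≤ r / 2 := by
      rw [abs_le]; constructor <;> linarith
    linarith
  have hξΩ : ∀ y, yb ≤ y → y < ys → ξ y ∈ Ω := fun y h1 h2 => ⟨hξball y h1 h2.le, hin y h1 h2⟩
  have hbC : ξ yb ∈ C := by
    refine ⟨hξball yb le_rfl hybys.le, ?_⟩
    show (ξ yb).1.im < (a' - ε) * (ξ yb).2.im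
    rw [hξ]
    simp only [VH982.pt_im, VH982.pt_snd]
    linarith
  have hev0 : g' =ᶠ[𝓝 (ξ yb)] f := by
    filter_upwards [hCo.mem_nhds hbC] with x hx
    exact hfg hx
  have hev : ∀ y, yb ≤ y → y < ys → g' =ᶠ[𝓝 (ξ y)] f := by
    intro y h1 h2
    refine Sh982.ev_along hΩo hg'Ω hfΩ (y₁ := yb) ?_ hev0
    intro y' hy'
    rw [uIcc_of_le h1] at hy'
    exact hξΩ y' hy'.1 (hy'.2.trans_lt h2)
  -- the extension at the lowest singular point
  refine hysT.2 (hmax (ex G (bl e s (ξ ys))) ?_ ?_ (fun z => g' (bi e s (exi G z))) ?_ ?_ ?_)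
  · have := hbr _ (hξball ys hybys.le le_rfl)
    exact hNm _ this.2.1 this.2.2
  · have h1 := hbr _ (hξball ys hybys.le le_rfl)
    refine hy1X _ h1.2.1 h1.2.2 ?_
    have := (neg_abs_le (ξ ys).1.im).trans' (neg_le_neg (Complex.abs_im_le_norm (ξ ys).1))
    linarith [h1.1]
  · have h1 := hbr _ (hξball ys hybys.le le_rfl)
    have h2 : AnalyticAt ℂ (exi G) (ex G (bl e s (ξ ys))) :=
      analyticAt_exi (hGan _ (hNm _ h1.2.1 h1.2.2))
    have h3 : AnalyticAt ℂ (fun z => bi e s (exi G z)) (ex G (bl e s (ξ ys))) :=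
      AnalyticAt.comp (g := bi e s) (analyticAt_bi e s _) h2
    refine AnalyticAt.comp (g := g') (f := fun z => bi e s (exi G z)) ?_ h3
    rw [exi_ex, bi_bl e hsne]
    exact hg'an _ (hξball ys hybys.le le_rfl)
  · show g' (bi e s (exi G (ex G (bl e s (ξ ys))))) ∈ S
    rw [exi_ex, bi_bl e hsne]
    exact hg'S _ (hVq (ball_subset_closedBall (hξball ys hybys.le le_rfl)))
  · have h1 : ∀ᶠ τ : ℝ in 𝓝[>] 0, τ ∈ Ioo (0 : ℝ) (s * (ys - yb)) :=
      Ioo_mem_nhdsGT (mul_pos hs0 (by linarith))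
    filter_upwards [h1] with τ hτ
    have h2 : dn (ex G (bl e s (ξ ys))) τ = ex G (bl e s (ξ (ys - τ / s))) := by
      rw [hξ]; exact dn_ex_bl G e hsne _ _ _ _
    have h3 : 0 < τ / s := div_pos hτ.1 hs0
    have h4 : τ / s < ys - yb := by
      rw [div_lt_iff₀ hs0]; linarith [hτ.2]
    rw [h2]
    refine ⟨hin _ (by linarith) (by linarith), ?_⟩
    have h5 := hbr _ (hξball (ys - τ / s) (by linarith) (by linarith))
    have h6 : AnalyticAt ℂ (exi G) (ex G (bl e s (ξ (ys - τ / s)))) :=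
      analyticAt_exi (hGan _ (hNm _ h5.2.1 h5.2.2))
    have h7 : ContinuousAt (fun z => bi e s (exi G z)) (ex G (bl e s (ξ (ys - τ / s)))) :=
      (AnalyticAt.comp (g := bi e s) (analyticAt_bi e s _) h6).continuousAt
    have h8 := hev (ys - τ / s) (by linarith) (by linarith)
    have h9 : (fun z => bi e s (exi G z)) (ex G (bl e s (ξ (ys - τ / s)))) = ξ (ys - τ / s) := by
      simp only
      rw [exi_ex, bi_bl e hsne]
    have h10 := h7.eventually (by rw [h9]; exact h8)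
    filter_upwards [h10] with z hz
    rw [hz]
    show B (ex G (bl e s (bi e s (exi G z)))) = B z
    rw [bl_bi e hsne, ex_exi]

end Crest.Agent.R102.PartII150
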