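import Crest.Agent.R102.Form_575

/-!
Row 102, part (C), leaf H3: deformed billiard chains over a differential ring, and the
inner (scaled) chains near a grazing line.
-/

set_option linter.unusedSectionVars false

namespace Crest.Agent.R102.H3

open PowerSeries Finset

section second

variable {A S : Type*} [CommRing A] [CommRing S]

/-- second order difference property of the substitution -/
theorem evS_sub_evS2 (ψ : A →+* S⟦X⟧) {y y' : S⟦X⟧} (hy : X ∣ y) (hy' : X ∣ y') (F : A⟦X⟧) :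
    ∃ q : S⟦X⟧, X ^ 2 ∣ q - (ψ (coeff 1 F) + ψ (coeff 2 F) * (y + y')) ∧
      evS ψ y hy F - evS ψ y' hy' F = (y - y') * q := by
  let h : ℕ → S⟦X⟧ := fun m => ∑ i ∈ range m, y ^ i * y' ^ (m - 1 - i)
  have hh : ∀ m, (y - y') * h m = y ^ m - y' ^ m := by
    intro m
    have := (Commute.all y y').geom_sum₂_mul m
    rw [mul_comm]
    exact this
  have hdvd : ∀ m, (X : S⟦X⟧) ^ (m - 1) ∣ h m := by
    intro m
    refine Finset.dvd_sum fun i hi => ?_
    have hi' := Finset.mem_range.1 hi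
    have : (X : S⟦X⟧) ^ (m - 1) = X ^ i * X ^ (m - 1 - i) := by
      rw [← pow_add]; congr 1; omega
    rw [this]
    exact mul_dvd_mul (X_pow_dvd_pow hy i) (X_pow_dvd_pow hy' _)
  let q : S⟦X⟧ := PowerSeries.mk fun n => coeff n (∑ m ∈ range (n + 2), ψ (coeff m F) * h m)
  have hq : ∀ M, (X : S⟦X⟧) ^ M ∣ q - ∑ m ∈ range (M + 1), ψ (coeff m F) * h m := by
    intro M
    rw [X_pow_dvd_iff]
    intro n hn
    rw [map_sub, coeff_mk, sub_eq_zero, map_sum, map_sum]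
    refine Finset.sum_subset (by intro x; simp only [Finset.mem_range]; omega) ?_
    intro m _ hm
    simp only [Finset.mem_range, not_lt] at hm
    exact X_pow_dvd_iff.1 ((hdvd m).mul_left _) n (by omega)
  refine ⟨q, ?_, eq_of_forall_X_pow_dvd fun M => ?_⟩
  · have h1 := hq 2
    have e : ∑ m ∈ range (2 + 1), ψ (coeff m F) * h m
        = ψ (coeff 1 F) + ψ (coeff 2 F) * (y + y') := by
      rw [Finset.sum_range_succ, Finset.sum_range_succ, Finset.sum_range_one]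
      simp only [h, Finset.sum_range_succ, Finset.sum_range_zero]
      norm_num
      ring
    rwa [e] at h1
  · have h1 := X_pow_dvd_evS ψ hy F (M + 1)
    have h2 := X_pow_dvd_evS ψ hy' F (M + 1)
    have h3 := (hq M).mul_left (y - y')
    have e3 : (y - y') * ∑ m ∈ range (M + 1), ψ (coeff m F) * h m
        = ∑ m ∈ range (M + 1), ψ (coeff m F) * y ^ m
          - ∑ m ∈ range (M + 1), ψ (coeff m F) * y' ^ m := by
      rw [Finset.mul_sum, ← Finset.sum_sub_distrib]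
      refine Finset.sum_congr rfl fun m _ => ?_
      rw [mul_left_comm, hh]; ring
    rw [mul_sub, e3] at h3
    have hM : (X : S⟦X⟧) ^ M ∣ X ^ (M + 1) := pow_dvd_pow _ (Nat.le_succ M)
    set a := ∑ m ∈ range (M + 1), ψ (coeff m F) * y ^ m
    set b := ∑ m ∈ range (M + 1), ψ (coeff m F) * y' ^ m
    have e : evS ψ y hy F - evS ψ y' hy' F - (y - y') * q
        = (evS ψ y hy F - a) - (evS ψ y' hy' F - b) - ((y - y') * q - (a - b)) := by ring
    rw [e]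
    exact dvd_sub (dvd_sub (hM.trans h1) (hM.trans h2)) h3

variable {K H : Type*} [Field K] [CharZero K] [CommRing H] [Algebra K H]

theorem pt_sub_pt2 (d : Derivation K H H) (φ : H →+* S⟦X⟧) {y y' : S⟦X⟧} (hy : X ∣ y)
    (hy' : X ∣ y') (f : H) : ∃ q : S⟦X⟧, X ^ 2 ∣ q - (φ (d f) + φ (dn d 2 f) * (y + y')) ∧
      pt d φ y hy f - pt d φ y' hy' f = (y - y') * q := by
  obtain ⟨q, h1, h2⟩ := evS_sub_evS2 φ hy hy' (Ty d f)
  refine ⟨q, ?_, h2⟩
  rwa [coeff_Ty, coeff_Ty, dn_one] at h1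

theorem two_dn_two (d : Derivation K H H) (f : H) : d (d f) = 2 * dn d 2 f := by
  have := dn_succ d 1 f
  rw [dn_one] at this
  rw [← this]
  norm_num
  ring

end second

section chain

variable {K H Λ : Type*} [Field K] [CommRing H] [Algebra K H] [CommRing Λ]

/-- A billiard chain with `N` reflections: vertices `Φ j : H →+* Λ`, mirrors `G j ∈ H`, lines
`a = m j * b + k j`. -/
structure Chain (d : Derivation K H H) (z : H) (G : ℕ → H) (N : ℕ) (Φ : ℕ → H →+* Λ)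
    (m k : ℕ → Λ) : Prop where
  inc : ∀ j < N, Φ j (G j) = m j * Φ j z + k j
  inc' : ∀ j < N, Φ j (G j) = m (j + 1) * Φ j z + k (j + 1)
  refl : ∀ j < N, m (j + 1) * m j = (Φ j (d (G j))) ^ 2

theorem Chain.map {Λ' : Type*} [CommRing Λ'] {d : Derivation K H H} {z : H} {G : ℕ → H} {N : ℕ}
    {Φ : ℕ → H →+* Λ} {m k : ℕ → Λ} (h : Chain d z G N Φ m k) (χ : Λ →+* Λ') :
    Chain d z G N (fun j => χ.comp (Φ j)) (fun j => χ (m j)) (fun j => χ (k j)) where
  inc j hj := by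
    simp only [RingHom.comp_apply]
    rw [h.inc j hj, map_add, map_mul]
  inc' j hj := by
    simp only [RingHom.comp_apply]
    rw [h.inc' j hj, map_add, map_mul]
  refl j hj := by
    simp only [RingHom.comp_apply]
    rw [← map_mul, h.refl j hj, map_pow]

theorem Chain.mono {d : Derivation K H H} {z : H} {G : ℕ → H} {N N' : ℕ}
    {Φ : ℕ → H →+* Λ} {m k : ℕ → Λ} (h : Chain d z G N Φ m k) (hN : N' ≤ N) :
    Chain d z G N' Φ m k where
  inc j hj := h.inc j (hj.trans_le hN)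
  inc' j hj := h.inc' j (hj.trans_le hN)
  refl j hj := h.refl j (hj.trans_le hN)

end chain

section inner

variable {K H S : Type*} [Field K] [CharZero K] [CommRing H] [Algebra K H] [CommRing S]

/-- shift down by two -/
noncomputable def sd2 (F : S⟦X⟧) : S⟦X⟧ := PowerSeries.mk fun n => coeff (n + 2) F

theorem X_sq_mul_sd2 {F : S⟦X⟧} (h : X ^ 2 ∣ F) : X ^ 2 * sd2 F = F := by
  obtain ⟨G, rfl⟩ := h
  congr 1
  ext n
  rw [sd2, coeff_mk, coeff_X_pow_mul]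

theorem X_pow_cancel {F G : S⟦X⟧} (n : ℕ) (h : X ^ n * F = X ^ n * G) : F = G := by
  ext k
  have := congrArg (coeff (k + n)) h
  rwa [coeff_X_pow_mul, coeff_X_pow_mul] at this

theorem X_pow_dvd_cancel {F : S⟦X⟧} (n k : ℕ) (h : X ^ (n + k) ∣ X ^ n * F) : X ^ k ∣ F := by
  obtain ⟨G, hG⟩ := h
  rw [pow_add, mul_assoc] at hG
  exact ⟨G, X_pow_cancel n hG⟩

theorem X_dvd_X_mul (Y : S⟦X⟧) : X ∣ X * Y := Dvd.intro _ rfl

/-- the inner Hensel step: expansion of the equation -/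
theorem inner_expand (d : Derivation K H H) (φ : H →+* S⟦X⟧) {z : H} (hz : d z = 1) (G : H)
    (m k : S⟦X⟧) (a0 a1 g2 : S)
    (h0 : X ^ 3 ∣ φ G - (m * φ z + k) - X ^ 2 * C a0)
    (h1 : X ^ 2 ∣ φ (d G) - m - X * C a1)
    (h2 : X ∣ φ (dn d 2 G) - C g2) (Y : S⟦X⟧) :
    X ^ 3 ∣ pt d φ (X * Y) (X_dvd_X_mul Y) G - (m * pt d φ (X * Y) (X_dvd_X_mul Y) z + k)
      - X ^ 2 * (C a0 + C a1 * Y + C g2 * Y ^ 2) := by
  obtain ⟨q, hq⟩ := pt_eq d φ (X_dvd_X_mul Y) G 3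
  rw [pt_coord d φ _ hz, hq, Finset.sum_range_succ, Finset.sum_range_succ, Finset.sum_range_one]
  simp only [dn_zero, dn_one, pow_zero, mul_one, pow_one]
  obtain ⟨w0, hw0⟩ := h0
  obtain ⟨w1, hw1⟩ := h1
  obtain ⟨w2, hw2⟩ := h2
  refine ⟨w0 + w1 * Y + w2 * Y ^ 2 + Y ^ 3 * q, ?_⟩
  have e0 : φ G = m * φ z + k + X ^ 2 * C a0 + X ^ 3 * w0 := by
    rw [← hw0]; ring
  have e1 : φ (d G) = m + X * C a1 + X ^ 2 * w1 := by
    rw [← hw1]; ring
  have e2 : φ (dn d 2 G) = C g2 + X * w2 := by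
    rw [← hw2]; ring
  rw [e0, e1, e2]
  ring

/-- the inner Hensel step: difference -/
theorem inner_diff (d : Derivation K H H) (φ : H →+* S⟦X⟧) {z : H} (hz : d z = 1) (G : H)
    (m k : S⟦X⟧) (a1 g2 : S)
    (h1 : X ^ 2 ∣ φ (d G) - m - X * C a1)
    (h2 : X ∣ φ (dn d 2 G) - C g2) (Y Y' : S⟦X⟧) :
    ∃ q : S⟦X⟧, constantCoeff q = a1 + g2 * (constantCoeff Y + constantCoeff Y') ∧
      (pt d φ (X * Y) (X_dvd_X_mul Y) G - (m * pt d φ (X * Y) (X_dvd_X_mul Y) z + k))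
      - (pt d φ (X * Y') (X_dvd_X_mul Y') G - (m * pt d φ (X * Y') (X_dvd_X_mul Y') z + k))
      = X ^ 2 * ((Y - Y') * q) := by
  obtain ⟨q, hq, hq2⟩ := pt_sub_pt2 d φ (X_dvd_X_mul Y) (X_dvd_X_mul Y') G
  obtain ⟨w, hw⟩ := hq
  obtain ⟨w1, hw1⟩ := h1
  obtain ⟨w2, hw2⟩ := h2
  have e1 : φ (d G) = m + X * C a1 + X ^ 2 * w1 := by
    rw [← hw1]; ring
  have e2 : φ (dn d 2 G) = C g2 + X * w2 := by
    rw [← hw2]; ring
  have e3 : q = m + X * (C a1 + X * w1 + (C g2 + X * w2) * (Y + Y') + X * w) := by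
    have : q = (φ (d G) + φ (dn d 2 G) * (X * Y + X * Y')) + X ^ 2 * w := by
      rw [← hw]; ring
    rw [this, e1, e2]; ring
  refine ⟨C a1 + X * w1 + (C g2 + X * w2) * (Y + Y') + X * w, ?_, ?_⟩
  · simp
  · rw [pt_coord d φ _ hz, pt_coord d φ _ hz]
    have e4 : (pt d φ (X * Y) (X_dvd_X_mul Y) G - (m * (φ z + X * Y) + k))
      - (pt d φ (X * Y') (X_dvd_X_mul Y') G - (m * (φ z + X * Y') + k))
      = (X * Y - X * Y') * (q - m) := by
      have : pt d φ (X * Y) (X_dvd_X_mul Y) G = pt d φ (X * Y') (X_dvd_X_mul Y') G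
          + (X * Y - X * Y') * q := by rw [← hq2]; ring
      rw [this]; ring
    rw [e4, e3]; ring

/-- the inner Hensel step: existence -/
theorem inner_step (d : Derivation K H H) (φ : H →+* S⟦X⟧) {z : H} (hz : d z = 1) (G : H)
    (m k : S⟦X⟧) (a0 a1 g2 y0 : S)
    (h0 : X ^ 3 ∣ φ G - (m * φ z + k) - X ^ 2 * C a0)
    (h1 : X ^ 2 ∣ φ (d G) - m - X * C a1)
    (h2 : X ∣ φ (dn d 2 G) - C g2)
    (hy : a0 + a1 * y0 + g2 * y0 ^ 2 = 0) (hu : IsUnit (a1 + g2 * (y0 + y0))) :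
    ∃ Y : S⟦X⟧, constantCoeff Y = y0 ∧
      pt d φ (X * Y) (X_dvd_X_mul Y) G = m * pt d φ (X * Y) (X_dvd_X_mul Y) z + k := by
  let Θ : S⟦X⟧ → S⟦X⟧ := fun Y =>
    sd2 (pt d φ (X * Y) (X_dvd_X_mul Y) G - (m * pt d φ (X * Y) (X_dvd_X_mul Y) z + k))
  have hexp : ∀ Y, ∃ w, pt d φ (X * Y) (X_dvd_X_mul Y) G
      - (m * pt d φ (X * Y) (X_dvd_X_mul Y) z + k)
      = X ^ 2 * (C a0 + C a1 * Y + C g2 * Y ^ 2 + X * w) := by
    intro Y
    obtain ⟨w, hw⟩ := inner_expand d φ hz G m k a0 a1 g2 h0 h1 h2 Y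
    refine ⟨w, ?_⟩
    rw [← sub_eq_zero]
    rw [← sub_eq_zero] at hw
    rw [← hw]; ring
  have hΘ : ∀ Y, X ^ 2 * Θ Y = pt d φ (X * Y) (X_dvd_X_mul Y) G
      - (m * pt d φ (X * Y) (X_dvd_X_mul Y) z + k) := by
    intro Y
    obtain ⟨w, hw⟩ := hexp Y
    exact X_sq_mul_sd2 (by rw [hw]; exact Dvd.intro _ rfl)
  have hroot := exists_root Θ (C y0) ?_ _ hu ?_
  · obtain ⟨Y, hY1, hY2⟩ := hroot
    refine ⟨Y, ?_, ?_⟩
    · rw [X_dvd_iff, map_sub, constantCoeff_C, sub_eq_zero] at hY1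
      exact hY1
    · have := hΘ Y
      rw [hY2, mul_zero] at this
      exact (sub_eq_zero.1 this.symm)
  · obtain ⟨w, hw⟩ := hexp (C y0)
    have : Θ (C y0) = C a0 + C a1 * C y0 + C g2 * (C y0) ^ 2 + X * w := by
      refine X_pow_cancel 2 ?_
      rw [hΘ, hw]
    rw [this, X_dvd_iff]
    simpa using hy
  · intro Y Y' hY hY'
    obtain ⟨q, hq, hq2⟩ := inner_diff d φ hz G m k a1 g2 h1 h2 Y Y'
    rw [X_dvd_iff, map_sub, constantCoeff_C, sub_eq_zero] at hY hY'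
    refine ⟨q, ?_, ?_⟩
    · rw [hq, hY, hY']
    · refine X_pow_cancel 2 ?_
      rw [mul_sub, hΘ, hΘ, hq2]

/-- the inner Hensel step: uniqueness -/
theorem inner_step_unique (d : Derivation K H H) (φ : H →+* S⟦X⟧) {z : H} (hz : d z = 1) (G : H)
    (m k : S⟦X⟧) (a1 g2 y0 : S)
    (h1 : X ^ 2 ∣ φ (d G) - m - X * C a1)
    (h2 : X ∣ φ (dn d 2 G) - C g2) (hu : IsUnit (a1 + g2 * (y0 + y0)))
    {Y Y' : S⟦X⟧} (hY : constantCoeff Y = y0) (hY' : constantCoeff Y' = y0)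
    (h : pt d φ (X * Y) (X_dvd_X_mul Y) G = m * pt d φ (X * Y) (X_dvd_X_mul Y) z + k)
    (h' : pt d φ (X * Y') (X_dvd_X_mul Y') G = m * pt d φ (X * Y') (X_dvd_X_mul Y') z + k) :
    Y = Y' := by
  obtain ⟨q, hq, hq2⟩ := inner_diff d φ hz G m k a1 g2 h1 h2 Y Y'
  rw [h, h', sub_self, sub_self, sub_self] at hq2
  have h3 : (Y - Y') * q = 0 := by
    refine X_pow_cancel 2 ?_
    rw [← hq2, mul_zero]
  have hqu : IsUnit q := by
    rw [PowerSeries.isUnit_iff_constantCoeff, hq, hY, hY']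
    exact hu
  rw [← sub_eq_zero]
  exact (hqu.mul_left_eq_zero).1 h3

end inner

end Crest.Agent.R102.H3

namespace Crest.Agent.R102.H3

open PowerSeries Finset

section innerchain

variable {K H S : Type*} [Field K] [CharZero K] [CommRing H] [Algebra K H] [CommRing S]

/-- the mirrors near the base point -/
structure Near (d : Derivation K H H) (φ : H →+* S⟦X⟧) (G : ℕ → H) (t : ℕ → S)
    (g0 g1 g2 : S) : Prop where
  n0 : ∀ j, X ^ 3 ∣ φ (G j) - (C g0 + X ^ 2 * C (t j))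
  n1 : ∀ j, X ^ 2 ∣ φ (d (G j)) - C g1
  n2 : ∀ j, X ∣ φ (dn d 2 (G j)) - C g2

/-- the leading behaviour of a line of an inner chain -/
structure Inv (φz : S⟦X⟧) (g0 g1 g2 P : S) (m k : S⟦X⟧) : Prop where
  i1 : X ^ 2 ∣ m - (C g1 + X * C (2 * g2 * P))
  i2 : X ^ 3 ∣ m * φz + k - (C g0 + X ^ 2 * C (g2 * (1 - P ^ 2)))

variable {d : Derivation K H H} {φ : H →+* S⟦X⟧} {z : H} {G : ℕ → H} {t : ℕ → S} {g0 g1 g2 : S}

theorem Near.hyp0 (hN : Near d φ G t g0 g1 g2) {P : S} {m k : S⟦X⟧}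
    (hI : Inv (φ z) g0 g1 g2 P m k) (j : ℕ) :
    X ^ 3 ∣ φ (G j) - (m * φ z + k) - X ^ 2 * C (t j - g2 * (1 - P ^ 2)) := by
  have h := dvd_sub (hN.n0 j) hI.i2
  convert h using 1
  rw [map_sub]
  ring

theorem Near.hyp1 (hN : Near d φ G t g0 g1 g2) {P : S} {m k : S⟦X⟧}
    (hI : Inv (φ z) g0 g1 g2 P m k) (j : ℕ) :
    X ^ 2 ∣ φ (d (G j)) - m - X * C (-(2 * g2 * P)) := by
  have h := dvd_sub (hN.n1 j) hI.i1
  convert h using 1
  rw [map_neg]
  ring

theorem inner_unit {g2 P r : S} (h2 : IsUnit (2 : S)) (hg2 : IsUnit g2) (hr : IsUnit r) :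
    IsUnit (-(2 * g2 * P) + g2 * ((P + r) + (P + r))) := by
  have : -(2 * g2 * P) + g2 * ((P + r) + (P + r)) = 2 * g2 * r := by ring
  rw [this]
  exact (h2.mul hg2).mul hr

theorem inner_root {g2 t P r : S} (hr : g2 * r ^ 2 = g2 - t) :
    (t - g2 * (1 - P ^ 2)) + (-(2 * g2 * P)) * (P + r) + g2 * (P + r) ^ 2 = 0 := by
  linear_combination hr

theorem Inv.isUnit_m {φz : S⟦X⟧} {P : S} {m k : S⟦X⟧} (hI : Inv φz g0 g1 g2 P m k)
    (hg1 : IsUnit g1) : IsUnit m := by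
  rw [PowerSeries.isUnit_iff_constantCoeff]
  obtain ⟨w, hw⟩ := hI.i1
  have : m = C g1 + X * C (2 * g2 * P) + X ^ 2 * w := by rw [← hw]; ring
  rw [this]
  simpa using hg1

/-- one step of an inner chain -/
theorem inner_next (hz : d z = 1) (h2 : IsUnit (2 : S)) (hg1 : IsUnit g1) (hg2 : IsUnit g2)
    (hN : Near d φ G t g0 g1 g2) (j : ℕ) {P r : S} (hru : IsUnit r) (hr : g2 * r ^ 2 = g2 - t j)
    {m k : S⟦X⟧} (hI : Inv (φ z) g0 g1 g2 P m k) :
    ∃ Y m' k' : S⟦X⟧, constantCoeff Y = P + r ∧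
      pt d φ (X * Y) (X_dvd_X_mul Y) (G j) = m * pt d φ (X * Y) (X_dvd_X_mul Y) z + k ∧
      pt d φ (X * Y) (X_dvd_X_mul Y) (G j) = m' * pt d φ (X * Y) (X_dvd_X_mul Y) z + k' ∧
      m' * m = (pt d φ (X * Y) (X_dvd_X_mul Y) (d (G j))) ^ 2 ∧
      Inv (φ z) g0 g1 g2 (P + 2 * r) m' k' := by
  obtain ⟨Y, hY, hinc⟩ := inner_step d φ hz (G j) m k _ _ g2 (P + r) (hN.hyp0 hI j) (hN.hyp1 hI j)
    (hN.n2 j) (inner_root hr) (inner_unit h2 hg2 hru)
  obtain ⟨v, hv⟩ := (hI.isUnit_m hg1).exists_right_inv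
  set s := pt d φ (X * Y) (X_dvd_X_mul Y) (d (G j)) with hs
  set b := pt d φ (X * Y) (X_dvd_X_mul Y) z with hb
  have hbz : b = φ z + X * Y := by rw [hb, pt_coord d φ _ hz]
  set m' := s ^ 2 * v with hm'
  have hmm : m' * m = s ^ 2 := by
    rw [hm', mul_assoc, mul_comm v m, hv, mul_one]
  refine ⟨Y, m', m * b + k - m' * b, hY, hinc, ?_, hmm, ?_, ?_⟩
  · rw [hinc]; ring
  · -- expansion of `s`
    obtain ⟨q, hq⟩ := pt_eq d φ (X_dvd_X_mul Y) (d (G j)) 2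
    rw [Finset.sum_range_succ, Finset.sum_range_one] at hq
    simp only [dn_zero, dn_one, pow_zero, mul_one, pow_one] at hq
    rw [two_dn_two, map_mul, map_ofNat] at hq
    obtain ⟨w1, hw1⟩ := hN.n1 j
    obtain ⟨w2, hw2⟩ := hN.n2 j
    obtain ⟨w3, hw3⟩ := hI.i1
    have hYc : X ∣ Y - C (P + r) := by
      rw [X_dvd_iff, map_sub, constantCoeff_C, hY, sub_self]
    obtain ⟨w4, hw4⟩ := hYc
    have e1 : φ (d (G j)) = C g1 + X ^ 2 * w1 := by rw [← hw1]; ring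
    have e2 : φ (dn d 2 (G j)) = C g2 + X * w2 := by rw [← hw2]; ring
    have e3 : m = C g1 + X * C (2 * g2 * P) + X ^ 2 * w3 := by rw [← hw3]; ring
    have e4 : Y = C (P + r) + X * w4 := by rw [← hw4]; ring
    have e5 : ∃ w5, s = C g1 + X * C (2 * g2 * (P + r)) + X ^ 2 * w5 := by
      refine ⟨w1 + 2 * w2 * Y + 2 * C g2 * w4 + Y ^ 2 * q, ?_⟩
      rw [hs, hq, e1, e2]
      have : (X : S⟦X⟧) * C (2 * g2 * (P + r)) = X * (2 * C g2 * C (P + r)) := by
        rw [map_mul, map_mul, map_ofNat]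
      rw [this]
      have e4' : C (P + r) = Y - X * w4 := by rw [e4]; ring
      rw [e4']
      ring
    obtain ⟨w5, hw5⟩ := e5
    -- `(m' - target) * m` is divisible by `X^2`
    have hunit := hI.isUnit_m hg1
    have hdiv : X ^ 2 ∣ (m' - (C g1 + X * C (2 * g2 * (P + 2 * r)))) * m := by
      rw [sub_mul, hmm, hw5, e3]
      refine ⟨(C (2 * g2 * (P + r)))^2 + 2 * w5 * C g1 + 2 * X * w5 * C (2 * g2 * (P + r))
        + X ^ 2 * w5 ^ 2 - C g1 * w3 - C (2 * g2 * (P + 2 * r)) * C (2 * g2 * P)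
        - X * C (2 * g2 * (P + 2 * r)) * w3, ?_⟩
      simp only [map_mul, map_add, map_ofNat]
      ring
    rw [mul_comm] at hdiv
    obtain ⟨u, hu⟩ := hunit
    rw [← hu] at hdiv
    exact (u.isUnit.dvd_mul_left).1 hdiv
  · -- the value at the base point
    have h5 : m' * φ z + (m * b + k - m' * b) = (m * φ z + k) + (m - m') * (X * Y) := by
      rw [hbz]; ring
    -- need the expansion of `m'`
    have hi1 : X ^ 2 ∣ m' - (C g1 + X * C (2 * g2 * (P + 2 * r))) := by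
      obtain ⟨q, hq⟩ := pt_eq d φ (X_dvd_X_mul Y) (d (G j)) 2
      rw [Finset.sum_range_succ, Finset.sum_range_one] at hq
      simp only [dn_zero, dn_one, pow_zero, mul_one, pow_one] at hq
      rw [two_dn_two, map_mul, map_ofNat] at hq
      obtain ⟨w1, hw1⟩ := hN.n1 j
      obtain ⟨w2, hw2⟩ := hN.n2 j
      obtain ⟨w3, hw3⟩ := hI.i1
      have hYc : X ∣ Y - C (P + r) := by
        rw [X_dvd_iff, map_sub, constantCoeff_C, hY, sub_self]
      obtain ⟨w4, hw4⟩ := hYc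
      have e1 : φ (d (G j)) = C g1 + X ^ 2 * w1 := by rw [← hw1]; ring
      have e2 : φ (dn d 2 (G j)) = C g2 + X * w2 := by rw [← hw2]; ring
      have e3 : m = C g1 + X * C (2 * g2 * P) + X ^ 2 * w3 := by rw [← hw3]; ring
      have e4 : Y = C (P + r) + X * w4 := by rw [← hw4]; ring
      have e5 : ∃ w5, s = C g1 + X * C (2 * g2 * (P + r)) + X ^ 2 * w5 := by
        refine ⟨w1 + 2 * w2 * Y + 2 * C g2 * w4 + Y ^ 2 * q, ?_⟩
        rw [hs, hq, e1, e2]
        have : (X : S⟦X⟧) * C (2 * g2 * (P + r)) = X * (2 * C g2 * C (P + r)) := by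
          rw [map_mul, map_mul, map_ofNat]
        rw [this]
        have e4' : C (P + r) = Y - X * w4 := by rw [e4]; ring
        rw [e4']
        ring
      obtain ⟨w5, hw5⟩ := e5
      have hunit := hI.isUnit_m hg1
      have hdiv : X ^ 2 ∣ (m' - (C g1 + X * C (2 * g2 * (P + 2 * r)))) * m := by
        rw [sub_mul, hmm, hw5, e3]
        refine ⟨(C (2 * g2 * (P + r)))^2 + 2 * w5 * C g1 + 2 * X * w5 * C (2 * g2 * (P + r))
          + X ^ 2 * w5 ^ 2 - C g1 * w3 - C (2 * g2 * (P + 2 * r)) * C (2 * g2 * P)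
          - X * C (2 * g2 * (P + 2 * r)) * w3, ?_⟩
        simp only [map_mul, map_add, map_ofNat]
        ring
      rw [mul_comm] at hdiv
      obtain ⟨u, hu⟩ := hunit
      rw [← hu] at hdiv
      exact (u.isUnit.dvd_mul_left).1 hdiv
    obtain ⟨w6, hw6⟩ := hi1
    obtain ⟨w3, hw3⟩ := hI.i1
    obtain ⟨w7, hw7⟩ := hI.i2
    have hYc : X ∣ Y - C (P + r) := by
      rw [X_dvd_iff, map_sub, constantCoeff_C, hY, sub_self]
    obtain ⟨w4, hw4⟩ := hYc
    have e3 : m = C g1 + X * C (2 * g2 * P) + X ^ 2 * w3 := by rw [← hw3]; ring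
    have e6 : m' = C g1 + X * C (2 * g2 * (P + 2 * r)) + X ^ 2 * w6 := by rw [← hw6]; ring
    have e4 : Y = C (P + r) + X * w4 := by rw [← hw4]; ring
    have e7 : m * φ z + k = C g0 + X ^ 2 * C (g2 * (1 - P ^ 2)) + X ^ 3 * w7 := by
      rw [← hw7]; ring
    rw [h5, e7]
    have e8 : (m - m') * (X * Y) = X ^ 2 * (C (2 * g2 * P) - C (2 * g2 * (P + 2 * r)))
        * (C (P + r)) + X ^ 3 * ((C (2 * g2 * P) - C (2 * g2 * (P + 2 * r))) * w4
          + (w3 - w6) * Y) := by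
      rw [e3, e6, e4]; ring
    rw [e8]
    refine ⟨w7 + ((C (2 * g2 * P) - C (2 * g2 * (P + 2 * r))) * w4
          + (w3 - w6) * Y), ?_⟩
    simp only [map_mul, map_add, map_sub, map_pow, map_ofNat, map_one]
    ring

/-- existence of inner chains -/
theorem inner_exists (hz : d z = 1) (h2 : IsUnit (2 : S)) (hg1 : IsUnit g1) (hg2 : IsUnit g2)
    (hN : Near d φ G t g0 g1 g2) (r : ℕ → S) (hru : ∀ j, IsUnit (r j))
    (hr : ∀ j, g2 * r j ^ 2 = g2 - t j) (m0 k0 : S⟦X⟧) (hI : Inv (φ z) g0 g1 g2 0 m0 k0) :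
    ∃ Y m k : ℕ → S⟦X⟧, m 0 = m0 ∧ k 0 = k0 ∧
      (∀ j, constantCoeff (Y j) = 2 * ∑ i ∈ range j, r i + r j) ∧
      (∀ N, Chain d z G N (fun j => pt d φ (X * Y j) (X_dvd_X_mul (Y j))) m k) ∧
      (∀ j, Inv (φ z) g0 g1 g2 (2 * ∑ i ∈ range j, r i) (m j) (k j)) := by
  classical
  let St : ℕ → Type _ := fun j =>
    {p : S⟦X⟧ × S⟦X⟧ // Inv (φ z) g0 g1 g2 (2 * ∑ i ∈ range j, r i) p.1 p.2}
  have hstep : ∀ j (p : St j), ∃ Y m' k' : S⟦X⟧,
      constantCoeff Y = 2 * ∑ i ∈ range j, r i + r j ∧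
      pt d φ (X * Y) (X_dvd_X_mul Y) (G j)
        = p.1.1 * pt d φ (X * Y) (X_dvd_X_mul Y) z + p.1.2 ∧
      pt d φ (X * Y) (X_dvd_X_mul Y) (G j) = m' * pt d φ (X * Y) (X_dvd_X_mul Y) z + k' ∧
      m' * p.1.1 = (pt d φ (X * Y) (X_dvd_X_mul Y) (d (G j))) ^ 2 ∧
      Inv (φ z) g0 g1 g2 (2 * ∑ i ∈ range (j + 1), r i) m' k' := by
    intro j p
    obtain ⟨Y, m', k', h⟩ := inner_next hz h2 hg1 hg2 hN j (hru j) (hr j) p.2
    refine ⟨Y, m', k', h.1, h.2.1, h.2.2.1, h.2.2.2.1, ?_⟩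
    have : 2 * ∑ i ∈ range (j + 1), r i = 2 * ∑ i ∈ range j, r i + 2 * r j := by
      rw [Finset.sum_range_succ]; ring
    rw [this]
    exact h.2.2.2.2
  choose Yf mf kf hf using hstep
  let st : (j : ℕ) → St j := fun j =>
    Nat.rec (motive := fun j => St j) ⟨(m0, k0), by simpa using hI⟩
      (fun j p => ⟨(mf j p, kf j p), (hf j p).2.2.2.2⟩) j
  have hst : ∀ j, st (j + 1) = ⟨(mf j (st j), kf j (st j)), (hf j (st j)).2.2.2.2⟩ :=
    fun j => rfl
  refine ⟨fun j => Yf j (st j), fun j => (st j).1.1, fun j => (st j).1.2, rfl, rfl,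
    fun j => (hf j (st j)).1, fun N => ⟨?_, ?_, ?_⟩, fun j => (st j).2⟩
  · intro j _
    exact (hf j (st j)).2.1
  · intro j _
    change _ = (st (j + 1)).1.1 * _ + (st (j + 1)).1.2
    rw [hst]
    exact (hf j (st j)).2.2.1
  · intro j _
    change (st (j + 1)).1.1 * _ = _
    rw [hst]
    exact (hf j (st j)).2.2.2.1

/-- uniqueness of inner chains -/
theorem inner_unique (hz : d z = 1) (h2 : IsUnit (2 : S)) (hg1 : IsUnit g1) (hg2 : IsUnit g2)
    (hN : Near d φ G t g0 g1 g2) (r : ℕ → S) (N : ℕ) (hru : ∀ j < N, IsUnit (r j))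
    (hr : ∀ j < N, g2 * r j ^ 2 = g2 - t j)
    {Y m k Y' m' k' : ℕ → S⟦X⟧} (hm : m 0 = m' 0) (hk : k 0 = k' 0)
    (hI : Inv (φ z) g0 g1 g2 0 (m 0) (k 0))
    (hY : ∀ j < N, constantCoeff (Y j) = 2 * ∑ i ∈ range j, r i + r j)
    (hY' : ∀ j < N, constantCoeff (Y' j) = 2 * ∑ i ∈ range j, r i + r j)
    (hc : Chain d z G N (fun j => pt d φ (X * Y j) (X_dvd_X_mul (Y j))) m k)
    (hc' : Chain d z G N (fun j => pt d φ (X * Y' j) (X_dvd_X_mul (Y' j))) m' k') :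
    (∀ j ≤ N, m j = m' j ∧ k j = k' j ∧ Inv (φ z) g0 g1 g2 (2 * ∑ i ∈ range j, r i) (m j) (k j))
      ∧ ∀ j < N, Y j = Y' j := by
  have key : ∀ j ≤ N, (m j = m' j ∧ k j = k' j ∧
      Inv (φ z) g0 g1 g2 (2 * ∑ i ∈ range j, r i) (m j) (k j)) ∧ (j < N → Y j = Y' j) := by
    intro j
    induction j with
    | zero =>
      intro _
      refine ⟨⟨hm, hk, by simpa using hI⟩, fun h0 => ?_⟩
      refine inner_step_unique d φ hz (G 0) (m 0) (k 0) _ g2 _ (hN.hyp1 (P := 0) hI 0) (hN.n2 0)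
        (inner_unit h2 hg2 (hru 0 h0)) ?_ ?_ (hc.inc 0 h0) ?_
      · simpa using hY 0 h0
      · simpa using hY' 0 h0
      · have := hc'.inc 0 h0
        rwa [← hm, ← hk] at this
    | succ j ih =>
      intro hj
      obtain ⟨⟨hmj, hkj, hIj⟩, hYj⟩ := ih (by omega)
      have hYj := hYj (by omega)
      obtain ⟨Y1, m1, k1, hs1, hs2, hs3, hs4, hs5⟩ :=
        inner_next hz h2 hg1 hg2 hN j (hru j (by omega)) (hr j (by omega)) hIj
      -- the new line is determined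
      have hY1 : Y1 = Y j := inner_step_unique d φ hz (G j) (m j) (k j) _ g2 _
        (hN.hyp1 hIj j) (hN.n2 j) (inner_unit h2 hg2 (hru j (by omega))) hs1 (hY j (by omega))
        hs2 (hc.inc j (by omega))
      subst hY1
      have hu := hIj.isUnit_m hg1
      have e1 : m (j + 1) = m1 := by
        have := hc.refl j (by omega)
        exact hu.mul_left_injective (this.trans hs4.symm)
      have e2 : k (j + 1) = k1 := by
        have := hc.inc' j (by omega)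
        rw [e1] at this
        exact add_left_cancel (this.symm.trans hs3)
      have e1' : m' (j + 1) = m1 := by
        have := hc'.refl j (by omega)
        simp only [← hmj] at this
        have hYj' : pt d φ (X * Y' j) (X_dvd_X_mul (Y' j))
          = pt d φ (X * Y j) (X_dvd_X_mul (Y j)) := pt_congr d _ _ rfl (by rw [hYj])
        rw [hYj'] at this
        exact hu.mul_left_injective (this.trans hs4.symm)
      have e2' : k' (j + 1) = k1 := by
        have := hc'.inc' j (by omega)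
        rw [e1'] at this
        have hYj' : pt d φ (X * Y' j) (X_dvd_X_mul (Y' j))
          = pt d φ (X * Y j) (X_dvd_X_mul (Y j)) := pt_congr d _ _ rfl (by rw [hYj])
        rw [hYj'] at this
        exact add_left_cancel (this.symm.trans hs3)
      have hsum : 2 * ∑ i ∈ range (j + 1), r i = 2 * ∑ i ∈ range j, r i + 2 * r j := by
        rw [Finset.sum_range_succ]; ring
      have hI' : Inv (φ z) g0 g1 g2 (2 * ∑ i ∈ range (j + 1), r i) (m (j + 1)) (k (j + 1)) := by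
        rw [e1, e2, hsum]
        exact hs5
      refine ⟨⟨e1.trans e1'.symm, e2.trans e2'.symm, hI'⟩, fun hjN => ?_⟩
      refine inner_step_unique d φ hz (G (j + 1)) (m (j + 1)) (k (j + 1)) _ g2 _
        (hN.hyp1 hI' (j + 1)) (hN.n2 (j + 1))
        (inner_unit h2 hg2 (hru (j + 1) hjN)) (hY (j + 1) hjN) (hY' (j + 1) hjN)
        (hc.inc (j + 1) hjN) ?_
      have := hc'.inc (j + 1) hjN
      rw [e1, e2]
      rwa [e1', e2'] at this
  exact ⟨fun j hj => (key j hj).1, fun j hj => (key j hj.le).2 hj⟩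

end innerchain

end Crest.Agent.R102.H3
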