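import Mathlib

/-!
# Row 102, part (C), item [d]: the isotropic end, one-dimensional theorem, part 1 (helper297)

`LL n y = n/(n-1) * log y - log (y-1)`; the domains `D`, `W`; the chord involution
`P : D → W`, `LL (P a) = LL a`, and the map `T a = n^2 / P a` of `D` into itself.
-/

set_option autoImplicit false

open Complex Set Filter Topology

noncomputable section

namespace Crest.Agent.R102.Iso297

/-- `M = n/(n-1)` -/
def MM (n : ℝ) : ℝ := n / (n - 1)

/-- `L(y) = M log y - log (y-1)` -/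
def LL (n : ℝ) (y : ℂ) : ℂ := (MM n : ℂ) * Complex.log y - Complex.log (y - 1)

theorem MM_gt {n : ℝ} (hn : 1 < n) : 1 < MM n := by
  unfold MM
  rw [lt_div_iff₀ (by linarith)]
  linarith

theorem MM_eq {n : ℝ} (hn : 1 < n) : (MM n - 1) * n = MM n := by
  unfold MM
  have : n - 1 ≠ 0 := by linarith
  field_simp
  ring

theorem LL_im (n : ℝ) (y : ℂ) : (LL n y).im = MM n * arg y - arg (y - 1) := by
  unfold LL
  rw [sub_im, im_ofReal_mul, log_im, log_im]

theorem LL_re (n : ℝ) (y : ℂ) :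
    (LL n y).re = MM n * Real.log ‖y‖ - Real.log ‖y - 1‖ := by
  unfold LL
  rw [sub_re, re_ofReal_mul, log_re, log_re]

/-! ### angles -/

/-- the angles of the triangle `0, 1, y` -/
theorem angles {y : ℂ} (h : 0 < y.im) :
    0 < arg y ∧ arg y < arg (y - 1) ∧ arg (y - 1) < Real.pi ∧
    ‖y‖ * Real.sin (arg (y - 1) - arg y) = Real.sin (arg (y - 1)) ∧
    ‖y - 1‖ * Real.sin (arg (y - 1) - arg y) = Real.sin (arg y) := by
  have him : (y - 1).im = y.im := by simp
  have hre : (y - 1).re = y.re - 1 := by simp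
  have c1 := Complex.norm_mul_cos_arg y
  have s1 := Complex.norm_mul_sin_arg y
  have c2 := Complex.norm_mul_cos_arg (y - 1)
  have s2 := Complex.norm_mul_sin_arg (y - 1)
  rw [him] at s2
  rw [hre] at c2
  have hn1 : 0 < ‖y‖ := norm_pos_iff.2 (by rintro rfl; simp at h)
  have hn2 : 0 < ‖y - 1‖ := norm_pos_iff.2 (by
    intro h0; rw [h0] at him; simp at him; linarith)
  have sp1 : 0 < Real.sin (arg y) := by
    by_contra hc
    push Not at hc
    nlinarith
  have sp2 : 0 < Real.sin (arg (y - 1)) := by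
    by_contra hc
    push Not at hc
    nlinarith
  have a1 : 0 < arg y ∧ arg y < Real.pi := by
    have := Complex.arg_mem_Ioc y
    have h1 : 0 ≤ arg y := Complex.arg_nonneg_iff.2 h.le
    constructor
    · rcases h1.lt_or_eq with h2 | h2
      · exact h2
      · rw [← h2, Real.sin_zero] at sp1; exact absurd sp1 (lt_irrefl _)
    · rcases this.2.lt_or_eq with h2 | h2
      · exact h2
      · rw [h2, Real.sin_pi] at sp1; exact absurd sp1 (lt_irrefl _)
  have a2 : 0 < arg (y - 1) ∧ arg (y - 1) < Real.pi := by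
    have := Complex.arg_mem_Ioc (y - 1)
    have h1 : 0 ≤ arg (y - 1) := Complex.arg_nonneg_iff.2 (by rw [him]; exact h.le)
    constructor
    · rcases h1.lt_or_eq with h2 | h2
      · exact h2
      · rw [← h2, Real.sin_zero] at sp2; exact absurd sp2 (lt_irrefl _)
    · rcases this.2.lt_or_eq with h2 | h2
      · exact h2
      · rw [h2, Real.sin_pi] at sp2; exact absurd sp2 (lt_irrefl _)
  have e1 : ‖y‖ * Real.sin (arg (y - 1) - arg y) = Real.sin (arg (y - 1)) := by
    rw [Real.sin_sub]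
    linear_combination Real.sin (arg (y - 1)) * c1 - Real.cos (arg (y - 1)) * s1 +
      Real.cos (arg (y - 1)) * s2 - Real.sin (arg (y - 1)) * c2
  have e2 : ‖y - 1‖ * Real.sin (arg (y - 1) - arg y) = Real.sin (arg y) := by
    rw [Real.sin_sub]
    linear_combination Real.cos (arg y) * s2 - Real.cos (arg y) * s1 +
      Real.sin (arg y) * c1 - Real.sin (arg y) * c2
  refine ⟨a1.1, ?_, a2.2, e1, e2⟩
  by_contra hc
  push Not at hc
  have h3 : Real.sin (arg (y - 1) - arg y) ≤ 0 :=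
    Real.sin_nonpos_of_nonpos_of_neg_pi_le (by linarith) (by linarith [a1.2, a2.1])
  nlinarith

/-- **the basic lemma** -/
theorem norm_lt {n : ℝ} (hn : 1 < n) {y : ℂ} (h : 0 < y.im)
    (hy : MM n * arg y ≤ arg (y - 1)) : ‖y‖ < n := by
  obtain ⟨h1, h2, h3, h4, -⟩ := angles h
  set φ := arg y
  set ψ := arg (y - 1)
  have hψ : 0 < ψ := by linarith
  have hM := MM_gt hn
  have hMn := MM_eq hn
  have hlam0 : 0 < (ψ - φ) / ψ := div_pos (by linarith) hψ
  have hlam1 : (ψ - φ) / ψ < 1 := by rw [div_lt_one hψ]; linarith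
  have hlam : 1 ≤ n * ((ψ - φ) / ψ) := by
    rw [mul_div_assoc', one_le_div hψ]
    -- `n (ψ - φ) ≥ ψ` iff `(n-1) ψ ≥ n φ`
    have h5 : MM n * φ * (n - 1) ≤ ψ * (n - 1) := mul_le_mul_of_nonneg_right hy (by linarith)
    have h6 : MM n * (n - 1) = n := by unfold MM; rw [div_mul_cancel₀]; linarith
    nlinarith
  have hconc := strictConcaveOn_sin_Icc.2 (show (0 : ℝ) ∈ Icc 0 Real.pi from
    ⟨le_rfl, Real.pi_pos.le⟩) (show ψ ∈ Icc 0 Real.pi from
    ⟨hψ.le, h3.le⟩) hψ.ne (show 0 < 1 - (ψ - φ) / ψ by linarith) hlam0 (by ring)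
  simp only [smul_eq_mul, mul_zero, zero_add, Real.sin_zero] at hconc
  rw [div_mul_cancel₀ _ hψ.ne'] at hconc
  have hs : 0 < Real.sin ψ := Real.sin_pos_of_pos_of_lt_pi hψ h3
  have hs2 : 0 < Real.sin (ψ - φ) := Real.sin_pos_of_pos_of_lt_pi (by linarith) (by linarith)
  have h7 : Real.sin ψ < n * Real.sin (ψ - φ) := by
    calc Real.sin ψ ≤ n * ((ψ - φ) / ψ) * Real.sin ψ := by nlinarith
      _ = n * ((ψ - φ) / ψ * Real.sin ψ) := by ring
      _ < n * Real.sin (ψ - φ) := mul_lt_mul_of_pos_left hconc (by linarith)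
  rw [← h4] at h7
  exact lt_of_mul_lt_mul_right h7 hs2.le

/-! ### conjugation -/

theorem slit1 {y : ℂ} (h : y - 1 ∈ slitPlane) : y ∈ slitPlane := by
  rcases h with h | h
  · left; simp at h; linarith
  · right; simpa using h

theorem arg_conj' {y : ℂ} (h : y ∈ slitPlane) :
    arg ((starRingEnd ℂ) y) = - arg y := by
  rw [arg_conj, if_neg (mem_slitPlane_iff_arg.1 h).1]

theorem LL_conj {n : ℝ} {y : ℂ} (h : y - 1 ∈ slitPlane) :
    LL n ((starRingEnd ℂ) y) = (starRingEnd ℂ) (LL n y) := by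
  unfold LL
  rw [map_sub, map_mul, conj_ofReal, ← log_conj _ (mem_slitPlane_iff_arg.1 (slit1 h)).1,
    ← log_conj _ (mem_slitPlane_iff_arg.1 h).1, map_sub, map_one]

theorem slit_of_im {y : ℂ} (h : y.im ≠ 0) : y - 1 ∈ slitPlane := Or.inr (by simpa using h)

theorem LL_real_im {n : ℝ} {y : ℂ} (h : y - 1 ∈ slitPlane) (hy : y.im = 0) :
    (LL n y).im = 0 := by
  have h1 : (starRingEnd ℂ) y = y := conj_eq_iff_im.2 hy
  have h2 := LL_conj (n := n) h
  rw [h1] at h2
  exact conj_eq_iff_im.1 h2.symm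

/-! ### derivative -/

theorem LL_hasDerivAt {n : ℝ} {y : ℂ} (h : y - 1 ∈ slitPlane) :
    HasDerivAt (LL n) ((MM n : ℂ) / y - 1 / (y - 1)) y := by
  have e1 := (Complex.hasDerivAt_log (slit1 h)).const_mul (MM n : ℂ)
  have e2 : HasDerivAt (fun z : ℂ => z - 1) 1 y := by
    simpa using (hasDerivAt_id y).sub_const 1
  have e3 := e2.clog h
  exact (e1.sub e3).congr_deriv (by ring)

theorem LL_an {n : ℝ} {y : ℂ} (h : y - 1 ∈ slitPlane) : AnalyticAt ℂ (LL n) y :=
  ((analyticAt_const).mul (analyticAt_id.clog (slit1 h))).sub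
    ((analyticAt_id.sub analyticAt_const).clog h)

theorem dLL_ne {n : ℝ} (hn : 1 < n) {y : ℂ} (h : y - 1 ∈ slitPlane) (hy : y ≠ (n : ℂ)) :
    (MM n : ℂ) / y - 1 / (y - 1) ≠ 0 := by
  have h0 : y ≠ 0 := slitPlane_ne_zero (slit1 h)
  have h1 : y - 1 ≠ 0 := slitPlane_ne_zero h
  have hn1 : (n : ℂ) - 1 ≠ 0 := by
    have : n - 1 ≠ 0 := by linarith
    exact_mod_cast this
  rw [div_sub_div _ _ h0 h1]
  refine div_ne_zero ?_ (mul_ne_zero h0 h1)
  intro h2
  apply hy
  unfold MM at h2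
  push_cast at h2
  field_simp at h2
  linear_combination h2

/-! ### sign of `Im LL` near real points -/

theorem sign_near {n : ℝ} {x0 : ℝ} (hx0 : 1 < x0) {c : ℝ}
    (hc : 0 < c * (MM n / x0 - 1 / (x0 - 1))) :
    ∀ᶠ z in 𝓝 (x0 : ℂ), (0 < z.im → 0 < c * (LL n z).im) ∧ (z.im < 0 → c * (LL n z).im < 0) := by
  have hopen : IsOpen {y : ℂ | y - 1 ∈ slitPlane} :=
    isOpen_slitPlane.preimage (continuous_id.sub continuous_const)
  have hmem : (x0 : ℂ) ∈ {y : ℂ | y - 1 ∈ slitPlane} := Or.inl (by simpa using hx0)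
  have hcont : ContinuousAt (fun y : ℂ => c * ((MM n : ℂ) / y - 1 / (y - 1)).re) (x0 : ℂ) := by
    have h0 : (x0 : ℂ) ≠ 0 := slitPlane_ne_zero (slit1 hmem)
    have h1 : (x0 : ℂ) - 1 ≠ 0 := slitPlane_ne_zero hmem
    have e1 : ContinuousAt (fun y : ℂ => (MM n : ℂ) / y) (x0 : ℂ) :=
      continuousAt_const.div continuousAt_id h0
    have e2 : ContinuousAt (fun y : ℂ => 1 / (y - 1)) (x0 : ℂ) :=
      continuousAt_const.div (continuousAt_id.sub continuousAt_const) h1
    exact continuousAt_const.mul (continuous_re.continuousAt.comp (e1.sub e2))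
  have hval : (0 : ℝ) < (fun y : ℂ => c * ((MM n : ℂ) / y - 1 / (y - 1)).re) (x0 : ℂ) := by
    have : ((MM n : ℂ) / (x0 : ℂ) - 1 / ((x0 : ℂ) - 1)) =
        ((MM n / x0 - 1 / (x0 - 1) : ℝ) : ℂ) := by push_cast; rfl
    show 0 < c * ((MM n : ℂ) / (x0 : ℂ) - 1 / ((x0 : ℂ) - 1)).re
    rw [this, ofReal_re]
    exact hc
  have hev : ∀ᶠ y in 𝓝 (x0 : ℂ), y - 1 ∈ slitPlane ∧
      0 < c * ((MM n : ℂ) / y - 1 / (y - 1)).re :=
    (hopen.eventually_mem hmem).and (hcont.eventually (lt_mem_nhds hval))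
  obtain ⟨ε, hε, hball⟩ := Metric.eventually_nhds_iff_ball.1 hev
  filter_upwards [Metric.ball_mem_nhds (x0 : ℂ) hε] with z hz
  have hzn : ‖z - x0‖ < ε := by simpa [dist_eq_norm] using hz
  -- the vertical segment
  have hseg : ∀ t : ℝ, |t| ≤ |z.im| → ((z.re : ℂ) + t * I) ∈ Metric.ball (x0 : ℂ) ε := by
    intro t ht
    rw [Metric.mem_ball, dist_eq_norm]
    refine lt_of_le_of_lt ?_ hzn
    rw [← Real.sqrt_sq (norm_nonneg _), ← Real.sqrt_sq (norm_nonneg (z - x0))]
    apply Real.sqrt_le_sqrt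
    rw [← normSq_eq_norm_sq, ← normSq_eq_norm_sq, normSq_apply, normSq_apply]
    have h2 : t * t ≤ z.im * z.im := by
      have := sq_le_sq' (by linarith [neg_abs_le t] : -|z.im| ≤ t)
        (by linarith [le_abs_self t] : t ≤ |z.im|)
      rw [sq_abs] at this
      nlinarith
    simp
    nlinarith
  set f : ℝ → ℝ := fun t => c * (LL n ((z.re : ℂ) + t * I)).im with hf
  have hder : ∀ t : ℝ, |t| ≤ |z.im| → HasDerivAt f
      (c * ((MM n : ℂ) / ((z.re : ℂ) + t * I) - 1 / ((z.re : ℂ) + t * I - 1)).re) t := by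
    intro t ht
    have h1 := LL_hasDerivAt (n := n) (hball _ (hseg t ht)).1
    have h2 : HasDerivAt (fun s : ℝ => (z.re : ℂ) + s * I) I t := by
      have := ((hasDerivAt_id t).ofReal_comp.mul_const I).const_add (z.re : ℂ)
      simpa using this
    have h3 := h1.comp t h2
    have h4 : HasDerivAt (fun s : ℝ => (LL n ((z.re : ℂ) + s * I)).im)
        (((MM n : ℂ) / ((z.re : ℂ) + t * I) - 1 / ((z.re : ℂ) + t * I - 1)) * I).im t := by
      have h5 : HasFDerivAt (fun w : ℂ => w.im) imCLM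
          ((LL n ∘ fun s : ℝ => (z.re : ℂ) + s * I) t) := imCLM.hasFDerivAt
      exact h5.comp_hasDerivAt t h3
    have h5 := h4.const_mul c
    refine h5.congr_deriv ?_
    rw [mul_I_im]
  have h0 : f 0 = 0 := by
    rw [hf]
    simp only [ofReal_zero, zero_mul, add_zero]
    have := hball _ (hseg 0 (by simp))
    simp only [ofReal_zero, zero_mul, add_zero] at this
    rw [LL_real_im this.1 (ofReal_im _), mul_zero]
  have hz' : (z.re : ℂ) + z.im * I = z := re_add_im z
  have hfz : f z.im = c * (LL n z).im := by rw [hf]; simp only [hz']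
  constructor
  · intro hpos
    obtain ⟨ξ, hξ, hslope⟩ := exists_hasDerivAt_eq_slope f _ hpos
      (fun t ht => (hder t (by rw [abs_of_nonneg ht.1, abs_of_pos hpos]; exact ht.2)).continuousAt.continuousWithinAt)
      (fun t ht => hder t (by rw [abs_of_nonneg ht.1.le, abs_of_pos hpos]; exact ht.2.le))
    have h6 := (hball _ (hseg ξ (by rw [abs_of_nonneg hξ.1.le, abs_of_pos hpos]; exact hξ.2.le))).2
    rw [hslope, h0, hfz, sub_zero, sub_zero] at h6
    exact (div_pos_iff_of_pos_right hpos).1 h6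
  · intro hneg
    obtain ⟨ξ, hξ, hslope⟩ := exists_hasDerivAt_eq_slope f _ hneg
      (fun t ht => (hder t (by rw [abs_of_nonpos ht.2, abs_of_neg hneg]; linarith [ht.1])).continuousAt.continuousWithinAt)
      (fun t ht => hder t (by rw [abs_of_nonpos ht.2.le, abs_of_neg hneg]; linarith [ht.1]))
    have h6 := (hball _ (hseg ξ (by rw [abs_of_nonpos hξ.2.le, abs_of_neg hneg]; linarith [hξ.1]))).2
    rw [hslope, h0, hfz, zero_sub, zero_sub, neg_div_neg_eq] at h6
    by_contra hcon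
    push Not at hcon
    have := div_nonpos_of_nonneg_of_nonpos hcon hneg.le
    linarith

end Crest.Agent.R102.Iso297
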