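import Crest.Agent.R102.Iso1_297

/-!
# Row 102, part (C), item [d]: the isotropic end, part 2 (helper297): the domains `DD`, `WW`
-/

set_option autoImplicit false

open Complex Set Filter Topology

noncomputable section

namespace Crest.Agent.R102.Iso297

/-- range of the second chord coordinate -/
def WW (n : ℝ) : Set ℂ :=
  {b | b - 1 ∈ slitPlane ∧ (0 < b.im → (LL n b).im < 0) ∧ (b.im < 0 → 0 < (LL n b).im) ∧
    (b.im = 0 → b.re < n)}

/-- the sector `n < |a|`, `|arg a| < π / M` -/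
def D2 (n : ℝ) : Set ℂ := {a | n < ‖a‖ ∧ a ∈ slitPlane ∧ |arg a| * MM n < Real.pi}

variable {n : ℝ}

theorem im_ne_of {b : ℂ} (h : b.im < 0 ∨ 0 < b.im) : b.im ≠ 0 := by
  rcases h with h | h
  · exact h.ne
  · exact h.ne'

theorem dreal_neg (hn : 1 < n) {x : ℝ} (h1 : 1 < x) (h2 : x < n) :
    MM n / x - 1 / (x - 1) < 0 := by
  have h3 : 0 < n - 1 := by linarith
  rw [sub_neg]
  unfold MM
  rw [div_div, div_lt_div_iff₀ (by positivity) (by linarith)]
  nlinarith

theorem dreal_pos (hn : 1 < n) {x : ℝ} (h2 : n < x) :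
    0 < MM n / x - 1 / (x - 1) := by
  have h3 : 0 < n - 1 := by linarith
  rw [sub_pos]
  unfold MM
  rw [div_div, div_lt_div_iff₀ (by linarith) (mul_pos h3 (by linarith))]
  nlinarith

theorem isOpen_slit1 : IsOpen {y : ℂ | y - 1 ∈ slitPlane} :=
  isOpen_slitPlane.preimage (continuous_id.sub continuous_const)

theorem cont_LL_im {y : ℂ} (h : y - 1 ∈ slitPlane) :
    ContinuousAt (fun z => (LL n z).im) y :=
  continuous_im.continuousAt.comp (LL_an h).continuousAt

theorem isOpen_WW (hn : 1 < n) : IsOpen (WW n) := by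
  rw [isOpen_iff_mem_nhds]
  rintro b ⟨h1, h2, h3, h4⟩
  have e1 : ∀ᶠ z in 𝓝 b, z - 1 ∈ slitPlane := isOpen_slit1.eventually_mem h1
  have e2 := cont_LL_im (n := n) h1
  rcases lt_trichotomy b.im 0 with hb | hb | hb
  · filter_upwards [e1, e2.eventually (lt_mem_nhds (h3 hb)),
      continuous_im.continuousAt.eventually (gt_mem_nhds hb)] with z g1 g2 g3
    exact ⟨g1, fun h => absurd h (not_lt.2 g3.le), fun _ => g2, fun h => absurd h g3.ne⟩
  · have hb' : b = ((b.re : ℝ) : ℂ) := Complex.ext rfl (by simpa using hb)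
    have h5 : 1 < b.re := by
      rcases h1 with h | h
      · simpa using h
      · simp [hb] at h
    have h6 := sign_near (n := n) h5 (c := -1) (by have := dreal_neg hn h5 (h4 hb); linarith)
    rw [← hb'] at h6
    filter_upwards [e1, h6, continuous_re.continuousAt.eventually (gt_mem_nhds (h4 hb))]
      with z g1 g2 g3
    exact ⟨g1, fun h => by have := g2.1 h; linarith, fun h => by have := g2.2 h; linarith,
      fun _ => g3⟩
  · filter_upwards [e1, e2.eventually (gt_mem_nhds (h2 hb)),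
      continuous_im.continuousAt.eventually (lt_mem_nhds hb)] with z g1 g2 g3
    exact ⟨g1, fun _ => g2, fun h => absurd h (not_lt.2 g3.le), fun h => absurd h g3.ne'⟩

theorem isOpen_D2 (n : ℝ) : IsOpen (D2 n) := by
  rw [isOpen_iff_mem_nhds]
  rintro a ⟨h1, h2, h3⟩
  have e1 : ContinuousAt (fun a : ℂ => |arg a| * MM n) a :=
    ((continuousAt_arg h2).abs).mul continuousAt_const
  filter_upwards [continuous_norm.continuousAt.eventually (lt_mem_nhds h1),
    isOpen_slitPlane.eventually_mem h2, e1.eventually (gt_mem_nhds h3)] with z g1 g2 g3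
  exact ⟨g1, g2, g3⟩

theorem D2_slit (hn : 1 < n) {a : ℂ} (h : a ∈ D2 n) : a - 1 ∈ slitPlane := by
  by_cases him : a.im = 0
  · left
    have h1 : 0 < a.re := by
      rcases h.2.1 with h2 | h2
      · exact h2
      · exact absurd him h2
    have e1 : a = ((a.re : ℝ) : ℂ) := Complex.ext rfl (by simpa using him)
    have h2 := h.1
    rw [e1, Complex.norm_real, Real.norm_of_nonneg h1.le] at h2
    rw [sub_re, one_re]
    linarith
  · exact slit_of_im him

theorem isPreconnected_D2 {n : ℝ} (hn : 1 < n) : IsPreconnected (D2 n) := by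
  have hM := MM_gt hn
  have hn0 : (0 : ℝ) < n := by linarith
  have hconv : Convex ℝ {z : ℂ | Real.log n < z.re ∧ |z.im| * MM n < Real.pi} := by
    have e : {z : ℂ | Real.log n < z.re ∧ |z.im| * MM n < Real.pi} =
        (Complex.reLm ⁻¹' Ioi (Real.log n)) ∩
          (Complex.imLm ⁻¹' Ioo (-(Real.pi / MM n)) (Real.pi / MM n)) := by
      ext z
      simp only [mem_ofPred_eq, mem_inter_iff, mem_preimage, mem_Ioi, mem_Ioo]
      have : |z.im| * MM n < Real.pi ↔ |z.im| < Real.pi / MM n := by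
        rw [lt_div_iff₀ (by linarith)]
      rw [this, abs_lt]
      rfl
    rw [e]
    exact ((convex_Ioi _).linear_preimage _).inter ((convex_Ioo _ _).linear_preimage _)
  have himg : D2 n = Complex.exp '' {z : ℂ | Real.log n < z.re ∧ |z.im| * MM n < Real.pi} := by
    ext a
    constructor
    · rintro ⟨h1, h2, h3⟩
      refine ⟨Complex.log a, ⟨?_, ?_⟩, Complex.exp_log (slitPlane_ne_zero h2)⟩
      · rw [log_re]
        exact Real.log_lt_log hn0 h1
      · rw [log_im]; exact h3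
    · rintro ⟨z, ⟨h1, h2⟩, rfl⟩
      have h3 : |z.im| < Real.pi := by nlinarith [abs_nonneg z.im]
      have h4 := abs_lt.1 h3
      have harg : arg (Complex.exp z) = z.im := by
        rw [← log_im, Complex.log_exp h4.1 h4.2.le]
      refine ⟨?_, ?_, ?_⟩
      · rw [norm_exp]
        calc n = Real.exp (Real.log n) := (Real.exp_log hn0).symm
          _ < _ := Real.exp_lt_exp.2 h1
      · rw [mem_slitPlane_iff_arg, harg]
        exact ⟨h4.2.ne, Complex.exp_ne_zero _⟩
      · rw [harg]; exact h2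
  rw [himg]
  exact hconv.isPreconnected.image _ Complex.continuous_exp.continuousOn

theorem slit_conj {y : ℂ} (h : y - 1 ∈ slitPlane) : (starRingEnd ℂ) y - 1 ∈ slitPlane := by
  rcases h with h | h
  · left; simpa using h
  · right; simpa using h

theorem WW_conj {b : ℂ} (h : b ∈ WW n) : (starRingEnd ℂ) b ∈ WW n := by
  obtain ⟨h1, h2, h3, h4⟩ := h
  refine ⟨slit_conj h1, ?_, ?_, ?_⟩
  · intro h; rw [conj_im] at h
    rw [LL_conj h1, conj_im]; linarith [h3 (by linarith)]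
  · intro h; rw [conj_im] at h
    rw [LL_conj h1, conj_im]; linarith [h2 (by linarith)]
  · intro h; rw [conj_im] at h
    rw [conj_re]; exact h4 (by linarith)

theorem D2_conj {a : ℂ} (h : a ∈ D2 n) : (starRingEnd ℂ) a ∈ D2 n := by
  obtain ⟨h1, h2, h3⟩ := h
  refine ⟨by rwa [norm_conj], ?_, ?_⟩
  · rcases h2 with h | h
    · left; simpa using h
    · right; simpa using h
  · rw [arg_conj' h2, abs_neg]; exact h3

/-! ### the reflection `b ↦ n²/b` -/

theorem inv_mem_of_pos (hn : 1 < n) {b : ℂ} (hb : 0 < b.im) (h : (LL n b).im ≤ 0) :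
    (n : ℂ) ^ 2 / b ∈ D2 n ∧ arg ((n : ℂ) ^ 2 / b) = - arg b ∧ ‖b‖ < n := by
  rw [LL_im] at h
  have hlt : ‖b‖ < n := norm_lt hn hb (by linarith)
  obtain ⟨a1, a2, a3, -, -⟩ := angles hb
  have hb0 : b ≠ 0 := by rintro rfl; simp at hb
  have hbn : 0 < ‖b‖ := norm_pos_iff.2 hb0
  have hn0 : (0 : ℝ) < n := by linarith
  set a := (n : ℂ) ^ 2 / b with ha
  have hna : ‖a‖ = n ^ 2 / ‖b‖ := by
    rw [ha, norm_div, norm_pow, Complex.norm_real, Real.norm_of_nonneg hn0.le]
  have hgt : n < ‖a‖ := by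
    rw [hna, lt_div_iff₀ hbn]
    nlinarith
  have harg : arg a = - arg b := by
    have : a = ((n ^ 2 : ℝ) : ℂ) * b⁻¹ := by rw [ha]; push_cast; rw [div_eq_mul_inv]
    rw [this, arg_real_mul _ (by positivity), arg_inv, if_neg (by linarith)]
  have ha0 : a ≠ 0 := by
    intro h0
    rw [h0, norm_zero] at hgt
    linarith
  refine ⟨⟨hgt, ?_, ?_⟩, harg, hlt⟩
  · rw [mem_slitPlane_iff_arg, harg]
    exact ⟨by linarith [Real.pi_pos], ha0⟩
  · rw [harg, abs_neg, abs_of_pos a1]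
    linarith

theorem inv_mem (hn : 1 < n) {b : ℂ} (hb : b ∈ WW n) :
    (n : ℂ) ^ 2 / b ∈ D2 n ∧ ‖b‖ < n := by
  rcases lt_trichotomy b.im 0 with h | h | h
  · have h1 := WW_conj hb
    have h2 : 0 < ((starRingEnd ℂ) b).im := by rw [conj_im]; linarith
    obtain ⟨g1, -, g2⟩ := inv_mem_of_pos hn h2 (h1.2.1 h2).le
    have h3 : (n : ℂ) ^ 2 / b = (starRingEnd ℂ) ((n : ℂ) ^ 2 / (starRingEnd ℂ) b) := by
      rw [map_div₀, map_pow, conj_ofReal, conj_conj]
    rw [h3]
    refine ⟨D2_conj g1, ?_⟩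
    rwa [norm_conj] at g2
  · have hb' : b = ((b.re : ℝ) : ℂ) := Complex.ext rfl (by simpa using h)
    have h5 : 1 < b.re := by
      rcases hb.1 with h6 | h6
      · simpa using h6
      · simp [h] at h6
    have h6 := hb.2.2.2 h
    have h7 : (n : ℂ) ^ 2 / b = ((n ^ 2 / b.re : ℝ) : ℂ) := by
      rw [hb']; push_cast; simp
    have h8 : n < n ^ 2 / b.re := by rw [lt_div_iff₀ (by linarith)]; nlinarith
    have h9 : 0 < n ^ 2 / b.re := by linarith
    rw [h7]
    refine ⟨⟨?_, Or.inl (by rw [ofReal_re]; exact h9), ?_⟩, ?_⟩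
    · rw [Complex.norm_real, Real.norm_of_nonneg h9.le]; exact h8
    · rw [arg_ofReal_of_nonneg h9.le, abs_zero, zero_mul]; exact Real.pi_pos
    · rw [hb', Complex.norm_real, Real.norm_of_nonneg (by linarith)]; exact h6
  · obtain ⟨g1, -, g2⟩ := inv_mem_of_pos hn h (hb.2.1 h).le
    exact ⟨g1, g2⟩

/-! ### injectivity -/

/-- a holomorphic function on a convex set whose derivative has positive imaginary part is
injective -/
theorem inj_of_im_pos {f : ℂ → ℂ} {f' : ℂ → ℂ} {s : Set ℂ} (hs : Convex ℝ s)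
    (hf : ∀ z ∈ s, HasDerivAt f (f' z) z) (hp : ∀ z ∈ s, 0 < (f' z).im) : InjOn f s := by
  intro z1 h1 z2 h2 heq
  by_contra hne
  have hd : z2 - z1 ≠ 0 := sub_ne_zero.2 (Ne.symm hne)
  have hseg : ∀ t : ℝ, t ∈ Icc (0 : ℝ) 1 → z1 + (t : ℂ) * (z2 - z1) ∈ s := by
    intro t ht
    have := hs h1 h2 (show 0 ≤ 1 - t by linarith [ht.2]) ht.1 (by ring)
    have e : z1 + (t : ℂ) * (z2 - z1) = (1 - t) • z1 + t • z2 := by
      rw [real_smul, real_smul]; push_cast; ring
    rw [e]; exact this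
  set g : ℝ → ℝ := fun t => (f (z1 + (t : ℂ) * (z2 - z1)) / (z2 - z1)).im with hg
  have hder : ∀ t ∈ Icc (0 : ℝ) 1, HasDerivAt g ((f' (z1 + (t : ℂ) * (z2 - z1))).im) t := by
    intro t ht
    have e1 : HasDerivAt (fun t : ℝ => z1 + (t : ℂ) * (z2 - z1)) (z2 - z1) t := by
      have := ((hasDerivAt_id t).ofReal_comp.mul_const (z2 - z1)).const_add z1
      simpa using this
    have e2 := ((hf _ (hseg t ht)).comp t e1).div_const (z2 - z1)
    have e3 : HasFDerivAt (fun w : ℂ => w.im) imCLM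
        ((fun t : ℝ => (f ∘ fun t : ℝ => z1 + (t : ℂ) * (z2 - z1)) t / (z2 - z1)) t) :=
      imCLM.hasFDerivAt
    have e4 := e3.comp_hasDerivAt t e2
    refine e4.congr_deriv ?_
    rw [mul_div_cancel_right₀ _ hd]
    rfl
  obtain ⟨ξ, hξ, hslope⟩ := exists_hasDerivAt_eq_slope g _ (zero_lt_one)
    (fun t ht => (hder t ht).continuousAt.continuousWithinAt)
    (fun t ht => hder t (Ioo_subset_Icc_self ht))
  have h5 := hp _ (hseg ξ (Ioo_subset_Icc_self hξ))
  rw [hslope] at h5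
  have h6 : g 1 = g 0 := by
    rw [hg]
    simp only [ofReal_one, one_mul, add_sub_cancel, ofReal_zero, zero_mul, add_zero, heq]
  rw [h6] at h5
  simp at h5

theorem LL_injOn_UH (n : ℝ) : InjOn (LL n) {y : ℂ | 0 < y.im} := by
  -- `LL n y = g (log y)`, `g z = M z - log (e^z - 1)`
  have hconv : Convex ℝ {z : ℂ | 0 < z.im ∧ z.im < Real.pi} := by
    have : {z : ℂ | 0 < z.im ∧ z.im < Real.pi} = Complex.imLm ⁻¹' Ioo 0 Real.pi := by
      ext z; rfl
    rw [this]
    exact (convex_Ioo 0 Real.pi).linear_preimage _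
  have him : ∀ z : ℂ, 0 < z.im ∧ z.im < Real.pi → 0 < (Complex.exp z).im := by
    intro z hz
    rw [exp_im]
    exact mul_pos (Real.exp_pos _) (Real.sin_pos_of_pos_of_lt_pi hz.1 hz.2)
  have hinj := inj_of_im_pos (f := fun z => (MM n : ℂ) * z - Complex.log (Complex.exp z - 1))
    (f' := fun z => (MM n : ℂ) - Complex.exp z / (Complex.exp z - 1)) hconv
    (by
      intro z hz
      have h1 : Complex.exp z - 1 ∈ slitPlane := slit_of_im (him z hz).ne'
      have e1 : HasDerivAt (fun z : ℂ => Complex.exp z - 1) (Complex.exp z) z :=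
        (Complex.hasDerivAt_exp z).sub_const 1
      have e2 := e1.clog h1
      have e3 : HasDerivAt (fun z : ℂ => (MM n : ℂ) * z) (MM n : ℂ) z := by
        simpa using (hasDerivAt_id z).const_mul (MM n : ℂ)
      exact e3.sub e2)
    (by
      intro z hz
      have h1 := him z hz
      have h2 : Complex.exp z - 1 ≠ 0 := slitPlane_ne_zero (slit_of_im h1.ne')
      have h3 : Complex.exp z / (Complex.exp z - 1) = 1 + (Complex.exp z - 1)⁻¹ := by
        field_simp
        ring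
      rw [h3, sub_im, ofReal_im, add_im, one_im, inv_im, zero_add, zero_sub, neg_div, neg_neg]
      have h4 : 0 < normSq (Complex.exp z - 1) := normSq_pos.2 h2
      refine div_pos ?_ h4
      rw [sub_im, one_im, sub_zero]
      exact h1)
  intro y1 h1 y2 h2 heq
  have hl : ∀ y : ℂ, 0 < y.im → 0 < (Complex.log y).im ∧ (Complex.log y).im < Real.pi := by
    intro y hy
    obtain ⟨a1, a2, a3, -, -⟩ := angles hy
    rw [log_im]
    exact ⟨a1, by linarith⟩
  have hne : ∀ y : ℂ, 0 < y.im → y ≠ 0 := by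
    rintro y hy rfl; simp at hy
  have hlog := hinj (hl y1 h1) (hl y2 h2) (by
    simp only [Complex.exp_log (hne y1 h1), Complex.exp_log (hne y2 h2)]
    exact heq)
  rw [← Complex.exp_log (hne y1 h1), hlog, Complex.exp_log (hne y2 h2)]

/-- the real function -/
def ll (n x : ℝ) : ℝ := MM n * Real.log x - Real.log (x - 1)

theorem LL_real {x : ℝ} (h : 1 < x) : LL n (x : ℂ) = (ll n x : ℂ) := by
  unfold LL ll
  rw [← ofReal_log (by linarith), show (x : ℂ) - 1 = ((x - 1 : ℝ) : ℂ) by push_cast; rfl,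
    ← ofReal_log (by linarith)]
  push_cast
  rfl

theorem ll_hasDerivAt {x : ℝ} (h : 1 < x) :
    HasDerivAt (ll n) (MM n / x - 1 / (x - 1)) x := by
  have e1 := (Real.hasDerivAt_log (show x ≠ 0 by linarith)).const_mul (MM n)
  have e2 : HasDerivAt (fun z : ℝ => z - 1) 1 x := by
    simpa using (hasDerivAt_id x).sub_const 1
  have e3 := e2.log (by linarith)
  exact (e1.sub e3).congr_deriv (by ring)

theorem ll_cont : ContinuousOn (ll n) (Ioi 1) := fun _ hx =>
  (ll_hasDerivAt hx).continuousAt.continuousWithinAt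

theorem ll_anti (hn : 1 < n) : StrictAntiOn (ll n) (Ioc 1 n) := by
  refine strictAntiOn_of_deriv_neg (convex_Ioc 1 n) (ll_cont.mono fun x hx => hx.1) ?_
  intro x hx
  rw [interior_Ioc] at hx
  rw [(ll_hasDerivAt hx.1).deriv]
  exact dreal_neg hn hx.1 hx.2

theorem ll_mono (hn : 1 < n) : StrictMonoOn (ll n) (Ici n) := by
  refine strictMonoOn_of_deriv_pos (convex_Ici n)
    (ll_cont.mono fun x hx => by rw [mem_Ici] at hx; rw [mem_Ioi]; linarith) ?_
  intro x hx
  rw [interior_Ici, mem_Ioi] at hx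
  rw [(ll_hasDerivAt (by linarith)).deriv]
  exact dreal_pos hn hx

theorem WW_real {b : ℂ} (h : b ∈ WW n) (hb : b.im = 0) : 1 < b.re ∧ b.re < n := by
  refine ⟨?_, h.2.2.2 hb⟩
  rcases h.1 with h1 | h1
  · simpa using h1
  · simp [hb] at h1

theorem LL_injOn_WW (hn : 1 < n) : InjOn (LL n) (WW n) := by
  intro y1 h1 y2 h2 heq
  have him : (LL n y1).im = (LL n y2).im := by rw [heq]
  rcases lt_trichotomy y1.im 0 with g1 | g1 | g1 <;> rcases lt_trichotomy y2.im 0 with g2 | g2 | g2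
  · have := LL_injOn_UH n (show 0 < ((starRingEnd ℂ) y1).im by rw [conj_im]; linarith)
      (show 0 < ((starRingEnd ℂ) y2).im by rw [conj_im]; linarith)
      (by rw [LL_conj h1.1, LL_conj h2.1, heq])
    exact (starRingEnd ℂ).injective this
  · have := h1.2.2.1 g1
    rw [him, LL_real_im h2.1 g2] at this
    exact absurd this (lt_irrefl _)
  · have := h1.2.2.1 g1
    have := h2.2.1 g2
    linarith
  · have := h2.2.2.1 g2
    rw [← him, LL_real_im h1.1 g1] at this
    exact absurd this (lt_irrefl _)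
  · obtain ⟨r1, r2⟩ := WW_real h1 g1
    obtain ⟨r3, r4⟩ := WW_real h2 g2
    have e1 : y1 = ((y1.re : ℝ) : ℂ) := Complex.ext rfl (by simpa using g1)
    have e2 : y2 = ((y2.re : ℝ) : ℂ) := Complex.ext rfl (by simpa using g2)
    rw [e1, e2, LL_real r1, LL_real r3] at heq
    have h3 : ll n y1.re = ll n y2.re := by exact_mod_cast heq
    have h4 := (ll_anti hn).injOn ⟨r1, r2.le⟩ ⟨r3, r4.le⟩ h3
    rw [e1, e2, h4]
  · have := h2.2.1 g2
    rw [← him, LL_real_im h1.1 g1] at this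
    exact absurd this (lt_irrefl _)
  · have := h1.2.1 g1
    have := h2.2.2.1 g2
    linarith
  · have := h1.2.1 g1
    rw [him, LL_real_im h2.1 g2] at this
    exact absurd this (lt_irrefl _)
  · exact LL_injOn_UH n g1 g2 heq

/-! ### surjectivity -/

theorem exists_angles (hn : 1 < n) (ξ : ℝ) {η : ℝ} (h1 : 0 < η) (h2 : η < Real.pi) :
    ∃ φ : ℝ, 0 < φ ∧ MM n * φ < Real.pi - η ∧
      MM n * Real.log (Real.sin (η + MM n * φ)) - Real.log (Real.sin φ) -
        (MM n - 1) * Real.log (Real.sin (η + (MM n - 1) * φ)) = ξ := by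
  have hM := MM_gt hn
  set M := MM n with hMdef
  set φ1 := (Real.pi - η) / M with hφ1
  have hφ1pos : 0 < φ1 := div_pos (by linarith) (by linarith)
  have hMφ1 : M * φ1 = Real.pi - η := by rw [hφ1]; field_simp
  have hφ1lt : φ1 < Real.pi := by nlinarith
  set R : ℝ → ℝ := fun φ => M * Real.log (Real.sin (η + M * φ)) - Real.log (Real.sin φ) -
        (M - 1) * Real.log (Real.sin (η + (M - 1) * φ)) with hR
  -- positivity of the sines
  have p1 : ∀ φ ∈ Ioo 0 φ1, 0 < Real.sin (η + M * φ) := fun φ hφ =>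
    Real.sin_pos_of_pos_of_lt_pi (by have := hφ.1; positivity) (by nlinarith [hφ.2])
  have p2 : ∀ φ ∈ Ioo 0 φ1, 0 < Real.sin φ := fun φ hφ =>
    Real.sin_pos_of_pos_of_lt_pi hφ.1 (by linarith [hφ.2])
  have p3 : ∀ φ ∈ Ioo 0 φ1, 0 < Real.sin (η + (M - 1) * φ) := fun φ hφ =>
    Real.sin_pos_of_pos_of_lt_pi (by nlinarith [hφ.1]) (by nlinarith [hφ.1, hφ.2])
  have hcont : ContinuousOn R (Ioo 0 φ1) := by
    intro φ hφ
    have c1 : ContinuousAt (fun φ : ℝ => Real.log (Real.sin (η + M * φ))) φ :=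
      ContinuousAt.log (by fun_prop) (p1 φ hφ).ne'
    have c2 : ContinuousAt (fun φ : ℝ => Real.log (Real.sin φ)) φ :=
      ContinuousAt.log (by fun_prop) (p2 φ hφ).ne'
    have c3 : ContinuousAt (fun φ : ℝ => Real.log (Real.sin (η + (M - 1) * φ))) φ :=
      ContinuousAt.log (by fun_prop) (p3 φ hφ).ne'
    exact (((continuousAt_const.mul c1).sub c2).sub
      (continuousAt_const.mul c3)).continuousWithinAt
  -- limit at `0`
  have lim0 : Tendsto R (𝓝[>] 0) atTop := by
    have c1 : Tendsto (fun φ : ℝ => M * Real.log (Real.sin (η + M * φ))) (𝓝[>] 0)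
        (𝓝 (M * Real.log (Real.sin (η + M * 0)))) := by
      refine Tendsto.mono_left ?_ nhdsWithin_le_nhds
      refine (ContinuousAt.log (by fun_prop) ?_).tendsto.const_mul M
      simp only [mul_zero, add_zero]
      exact (Real.sin_pos_of_pos_of_lt_pi h1 h2).ne'
    have c3 : Tendsto (fun φ : ℝ => (M - 1) * Real.log (Real.sin (η + (M - 1) * φ))) (𝓝[>] 0)
        (𝓝 ((M - 1) * Real.log (Real.sin (η + (M - 1) * 0)))) := by
      refine Tendsto.mono_left ?_ nhdsWithin_le_nhds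
      refine (ContinuousAt.log (by fun_prop) ?_).tendsto.const_mul (M - 1)
      simp only [mul_zero, add_zero]
      exact (Real.sin_pos_of_pos_of_lt_pi h1 h2).ne'
    have c2 : Tendsto (fun φ : ℝ => -Real.log (Real.sin φ)) (𝓝[>] 0) atTop := by
      refine tendsto_neg_atBot_atTop.comp (Real.tendsto_log_nhdsGT_zero.comp ?_)
      refine tendsto_nhdsWithin_iff.2 ⟨?_, ?_⟩
      · have := (Real.continuous_sin.tendsto 0).mono_left (nhdsWithin_le_nhds (s := Ioi 0))
        rwa [Real.sin_zero] at this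
      · filter_upwards [Ioo_mem_nhdsGT Real.pi_pos] with φ hφ
        exact Real.sin_pos_of_pos_of_lt_pi hφ.1 hφ.2
    have := (c1.add_atTop c2).atTop_add c3.neg
    refine this.congr fun φ => ?_
    simp only [hR]
    ring
  -- limit at `φ1`
  have lim1 : Tendsto R (𝓝[<] φ1) atBot := by
    have c1 : Tendsto (fun φ : ℝ => M * Real.log (Real.sin (η + M * φ))) (𝓝[<] φ1) atBot := by
      refine Tendsto.const_mul_atBot (by linarith) (Real.tendsto_log_nhdsGT_zero.comp ?_)
      refine tendsto_nhdsWithin_iff.2 ⟨?_, ?_⟩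
      · have h3 : Continuous (fun φ : ℝ => Real.sin (η + M * φ)) := by fun_prop
        have := (h3.tendsto φ1).mono_left (nhdsWithin_le_nhds (s := Iio φ1))
        rwa [hMφ1, add_sub_cancel, Real.sin_pi] at this
      · filter_upwards [Ioo_mem_nhdsLT hφ1pos] with φ hφ using p1 φ hφ
    have c2 : Tendsto (fun φ : ℝ => -Real.log (Real.sin φ)) (𝓝[<] φ1)
        (𝓝 (-Real.log (Real.sin φ1))) := by
      refine Tendsto.mono_left ?_ nhdsWithin_le_nhds
      refine (ContinuousAt.log (by fun_prop) ?_).tendsto.neg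
      exact (Real.sin_pos_of_pos_of_lt_pi hφ1pos hφ1lt).ne'
    have c3 : Tendsto (fun φ : ℝ => (M - 1) * Real.log (Real.sin (η + (M - 1) * φ))) (𝓝[<] φ1)
        (𝓝 ((M - 1) * Real.log (Real.sin (η + (M - 1) * φ1)))) := by
      refine Tendsto.mono_left ?_ nhdsWithin_le_nhds
      refine (ContinuousAt.log (by fun_prop) ?_).tendsto.const_mul (M - 1)
      exact (Real.sin_pos_of_pos_of_lt_pi (by nlinarith) (by nlinarith)).ne'
    have := (c1.atBot_add c2).atBot_add c3.neg
    refine this.congr fun φ => ?_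
    simp only [hR]
    ring
  obtain ⟨a, ha1, ha2⟩ := ((lim0.eventually (eventually_gt_atTop ξ)).and
    (Ioo_mem_nhdsGT hφ1pos)).exists
  obtain ⟨b, hb1, hb2⟩ := ((lim1.eventually (eventually_lt_atBot ξ)).and
    (Ioo_mem_nhdsLT hφ1pos)).exists
  have hsub : uIcc a b ⊆ Ioo 0 φ1 := by
    intro x hx
    rw [mem_uIcc] at hx
    rcases hx with hx | hx
    · exact ⟨by linarith [ha2.1, hx.1], by linarith [hb2.2, hx.2]⟩
    · exact ⟨by linarith [hb2.1, hx.1], by linarith [ha2.2, hx.2]⟩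
  obtain ⟨φ, hφ, hRφ⟩ := intermediate_value_uIcc (hcont.mono hsub)
    (show ξ ∈ uIcc (R a) (R b) by rw [mem_uIcc]; right; exact ⟨hb1.le, ha1.le⟩)
  have hφ' := hsub hφ
  refine ⟨φ, hφ'.1, ?_, hRφ⟩
  nlinarith [hφ'.2]

theorem exists_UH (hn : 1 < n) {v : ℂ} (h1 : -Real.pi < v.im) (h2 : v.im < 0) :
    ∃ b : ℂ, 0 < b.im ∧ LL n b = v := by
  obtain ⟨φ, hφ0, hφ1, hφ2⟩ := exists_angles hn v.re (η := -v.im) (by linarith) (by linarith)
  have hM := MM_gt hn
  set M := MM n with hMdef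
  set ψ := -v.im + M * φ with hψdef
  have hψ0 : φ < ψ := by nlinarith
  have hψ1 : ψ < Real.pi := by linarith
  have hs1 : 0 < Real.sin ψ := Real.sin_pos_of_pos_of_lt_pi (by linarith) hψ1
  have hs2 : 0 < Real.sin φ := Real.sin_pos_of_pos_of_lt_pi hφ0 (by linarith)
  have hs3 : 0 < Real.sin (ψ - φ) := Real.sin_pos_of_pos_of_lt_pi (by linarith) (by linarith)
  have hψφ : -v.im + (M - 1) * φ = ψ - φ := by rw [hψdef]; ring
  rw [hψφ] at hφ2
  set b : ℂ := ((Real.sin ψ / Real.sin (ψ - φ) : ℝ) : ℂ) * (Real.cos φ + Real.sin φ * I) with hb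
  have hb1 : b - 1 = ((Real.sin φ / Real.sin (ψ - φ) : ℝ) : ℂ) * (Real.cos ψ + Real.sin ψ * I) := by
    have h4 : (Real.sin (ψ - φ) : ℂ) ≠ 0 := by exact_mod_cast hs3.ne'
    have h5 : (Real.sin (ψ - φ) : ℂ) = Real.sin ψ * Real.cos φ - Real.cos ψ * Real.sin φ := by
      rw [Real.sin_sub]; push_cast; rfl
    rw [hb]
    push_cast
    push_cast at h4 h5
    field_simp
    rw [h5]
    ring
  have harg : arg b = φ := by
    rw [hb]
    have := arg_mul_cos_add_sin_mul_I (div_pos hs1 hs3) (show φ ∈ Ioc (-Real.pi) Real.pi from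
      ⟨by linarith, by linarith⟩)
    rw [ofReal_cos, ofReal_sin]
    exact this
  have harg1 : arg (b - 1) = ψ := by
    rw [hb1]
    have := arg_mul_cos_add_sin_mul_I (div_pos hs2 hs3) (show ψ ∈ Ioc (-Real.pi) Real.pi from
      ⟨by linarith, by linarith⟩)
    rw [ofReal_cos, ofReal_sin]
    exact this
  have hunit : ∀ x : ℝ, ‖((Real.cos x : ℂ) + Real.sin x * I)‖ = 1 := by
    intro x
    rw [ofReal_cos, ofReal_sin, ← exp_mul_I, norm_exp_ofReal_mul_I]
  have hnorm : ‖b‖ = Real.sin ψ / Real.sin (ψ - φ) := by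
    rw [hb, norm_mul, hunit, mul_one, Complex.norm_real, Real.norm_of_nonneg (by positivity)]
  have hnorm1 : ‖b - 1‖ = Real.sin φ / Real.sin (ψ - φ) := by
    rw [hb1, norm_mul, hunit, mul_one, Complex.norm_real, Real.norm_of_nonneg (by positivity)]
  have hbim : 0 < b.im := by
    rw [← norm_mul_sin_arg b, harg, hnorm]
    positivity
  refine ⟨b, hbim, Complex.ext ?_ ?_⟩
  · rw [LL_re, hnorm, hnorm1, Real.log_div hs1.ne' hs3.ne', Real.log_div hs2.ne' hs3.ne', ← hφ2]
    ring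
  · rw [LL_im, harg, harg1, hψdef]
    ring

/-- the target of `LL` on `WW` -/
def YY (n : ℝ) : Set ℂ := {v | -Real.pi < v.im ∧ v.im < Real.pi ∧ (v.im = 0 → ll n n < v.re)}

theorem exists_WW (hn : 1 < n) {v : ℂ} (hv : v ∈ YY n) : ∃ b ∈ WW n, LL n b = v := by
  obtain ⟨h1, h2, h3⟩ := hv
  rcases lt_trichotomy v.im 0 with h | h | h
  · obtain ⟨b, hb, hLb⟩ := exists_UH hn h1 h
    refine ⟨b, ⟨slit_of_im hb.ne', fun _ => by rw [hLb]; exact h,
      fun h' => absurd h' (not_lt.2 hb.le), fun h' => absurd h' hb.ne'⟩, hLb⟩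
  · have h4 := h3 h
    -- real case
    have hlim : Tendsto (ll n) (𝓝[>] 1) atTop := by
      have c1 : Tendsto (fun x : ℝ => MM n * Real.log x) (𝓝[>] 1) (𝓝 (MM n * Real.log 1)) :=
        ((Real.continuousAt_log one_ne_zero).tendsto.const_mul _).mono_left nhdsWithin_le_nhds
      have c2 : Tendsto (fun x : ℝ => -Real.log (x - 1)) (𝓝[>] 1) atTop := by
        refine tendsto_neg_atBot_atTop.comp (Real.tendsto_log_nhdsGT_zero.comp ?_)
        refine tendsto_nhdsWithin_iff.2 ⟨?_, ?_⟩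
        · have : Tendsto (fun x : ℝ => x - 1) (𝓝 1) (𝓝 (1 - 1)) := tendsto_id.sub_const 1
          rw [sub_self] at this
          exact this.mono_left nhdsWithin_le_nhds
        · filter_upwards [self_mem_nhdsWithin] with x hx
          simpa using hx
      refine (c1.add_atTop c2).congr fun x => ?_
      unfold ll
      ring
    obtain ⟨x, hx1, hx2⟩ := ((hlim.eventually (eventually_gt_atTop v.re)).and
      (Ioo_mem_nhdsGT hn)).exists
    obtain ⟨r, hr, hrv⟩ := intermediate_value_Icc' hx2.2.le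
      (ll_cont.mono fun z hz => lt_of_lt_of_le hx2.1 hz.1)
      (show v.re ∈ Icc (ll n n) (ll n x) from ⟨h4.le, hx1.le⟩)
    have hr1 : 1 < r := lt_of_lt_of_le hx2.1 hr.1
    have hrn : r < n := by
      refine lt_of_le_of_ne hr.2 ?_
      rintro rfl
      linarith
    refine ⟨(r : ℂ), ⟨Or.inl (by simpa using hr1), fun h' => ?_, fun h' => ?_,
      fun _ => by rw [ofReal_re]; exact hrn⟩, ?_⟩
    · rw [ofReal_im] at h'; exact absurd h' (lt_irrefl _)
    · rw [ofReal_im] at h'; exact absurd h' (lt_irrefl _)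
    · rw [LL_real hr1]
      exact Complex.ext (by rw [ofReal_re, hrv]) (by rw [ofReal_im, h])
  · obtain ⟨b, hb, hLb⟩ := exists_UH hn (v := (starRingEnd ℂ) v) (by rw [conj_im]; linarith)
      (by rw [conj_im]; linarith)
    have hs : b - 1 ∈ slitPlane := slit_of_im hb.ne'
    have hL2 : LL n ((starRingEnd ℂ) b) = v := by rw [LL_conj hs, hLb, conj_conj]
    have hbi : ((starRingEnd ℂ) b).im < 0 := by rw [conj_im]; linarith
    refine ⟨(starRingEnd ℂ) b, ⟨slit_conj hs, fun h' => absurd h' (not_lt.2 hbi.le),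
      fun _ => by rw [hL2]; exact h, fun h' => absurd h' hbi.ne⟩, hL2⟩

theorem LL_pos_of_D2 (hn : 1 < n) {a : ℂ} (ha : a ∈ D2 n) (h : 0 < a.im) :
    0 < (LL n a).im ∧ (LL n a).im < Real.pi := by
  obtain ⟨a1, a2, a3, -, -⟩ := angles h
  constructor
  · by_contra hcon
    push Not at hcon
    rw [LL_im] at hcon
    have := norm_lt hn h (by linarith)
    linarith [ha.1]
  · rw [LL_im]
    have := ha.2.2
    rw [abs_of_pos a1] at this
    linarith

theorem LL_mem_YY (hn : 1 < n) {a : ℂ} (ha : a ∈ D2 n) : LL n a ∈ YY n := by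
  have hs := D2_slit hn ha
  have hpi := Real.pi_pos
  rcases lt_trichotomy a.im 0 with h | h | h
  · have h1 := LL_pos_of_D2 hn (D2_conj ha) (by rw [conj_im]; linarith)
    rw [LL_conj hs, conj_im] at h1
    exact ⟨by linarith [h1.2], by linarith [h1.1], fun h' => by linarith [h1.1]⟩
  · have h5 := LL_real_im (n := n) hs h
    have e1 : a = ((a.re : ℝ) : ℂ) := Complex.ext rfl (by simpa using h)
    have h0 : 0 < a.re := by
      rcases ha.2.1 with h2 | h2
      · exact h2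
      · exact absurd h h2
    have h6 : n < a.re := by
      have h2 := ha.1
      rwa [e1, Complex.norm_real, Real.norm_of_nonneg h0.le] at h2
    refine ⟨by rw [h5]; linarith, by rw [h5]; exact hpi, fun _ => ?_⟩
    rw [e1, LL_real (by linarith), ofReal_re]
    exact ll_mono hn (mem_Ici.2 le_rfl) (mem_Ici.2 h6.le) h6
  · have := LL_pos_of_D2 hn ha h
    exact ⟨by linarith [this.1], this.2, fun h' => absurd h' this.1.ne'⟩

/-! ### the chord involution -/

/-- inverse of `LL` on `WW` -/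
def KK (n : ℝ) : ℂ → ℂ := Function.invFunOn (LL n) (WW n)

theorem KK_spec (hn : 1 < n) {v : ℂ} (hv : v ∈ YY n) : KK n v ∈ WW n ∧ LL n (KK n v) = v := by
  obtain ⟨b, hb, hLb⟩ := exists_WW hn hv
  exact ⟨Function.invFunOn_mem ⟨b, hb, hLb⟩, Function.invFunOn_eq ⟨b, hb, hLb⟩⟩

theorem KK_eq (hn : 1 < n) {b : ℂ} (hb : b ∈ WW n) : KK n (LL n b) = b := by
  have h1 : KK n (LL n b) ∈ WW n := Function.invFunOn_mem ⟨b, hb, rfl⟩
  have h2 : LL n (KK n (LL n b)) = LL n b := Function.invFunOn_eq ⟨b, hb, rfl⟩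
  exact LL_injOn_WW hn h1 hb h2

theorem WW_ne {b : ℂ} (hb : b ∈ WW n) : b ≠ (n : ℂ) := by
  rintro rfl
  have := hb.2.2.2 (ofReal_im _)
  rw [ofReal_re] at this
  exact lt_irrefl _ this

theorem WW_ne_zero {b : ℂ} (hb : b ∈ WW n) : b ≠ 0 := slitPlane_ne_zero (slit1 hb.1)

theorem KK_an (hn : 1 < n) {v : ℂ} (hv : v ∈ YY n) :
    AnalyticAt ℂ (KK n) v ∧ deriv (KK n) v ≠ 0 := by
  obtain ⟨h1, h2⟩ := KK_spec hn hv
  have hL := LL_an (n := n) h1.1
  have hd : deriv (LL n) (KK n v) ≠ 0 := by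
    rw [(LL_hasDerivAt h1.1).deriv]
    exact dLL_ne hn h1.1 (WW_ne h1)
  set J := hL.hasStrictDerivAt.localInverse _ _ _ hd with hJ
  have hJa : AnalyticAt ℂ J (LL n (KK n v)) := hL.analyticAt_localInverse hd
  have hJv : J (LL n (KK n v)) = KK n v := HasStrictFDerivAt.localInverse_apply_image ..
  have hJr : ∀ᶠ y in 𝓝 (LL n (KK n v)), LL n (J y) = y :=
    HasStrictDerivAt.eventually_right_inverse ..
  have hJd : deriv J (LL n (KK n v)) ≠ 0 := by
    rw [hJ, (hL.hasStrictDerivAt.to_localInverse hd).hasDerivAt.deriv]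
    exact inv_ne_zero hd
  rw [h2] at hJa hJv hJr hJd
  have hev : ∀ᶠ y in 𝓝 v, J y ∈ WW n := by
    refine hJa.continuousAt.eventually_mem ?_
    rw [hJv]
    exact (isOpen_WW hn).mem_nhds h1
  have heq : KK n =ᶠ[𝓝 v] J := by
    filter_upwards [hJr, hev] with y g1 g2
    have := KK_eq hn g2
    rwa [g1] at this
  exact ⟨hJa.congr heq.symm, by rw [heq.deriv_eq]; exact hJd⟩

/-- the chord involution -/
def PP (n : ℝ) (a : ℂ) : ℂ := KK n (LL n a)

/-- the dynamics -/
def TT (n : ℝ) (a : ℂ) : ℂ := (n : ℂ) ^ 2 / PP n a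

theorem PP_mem (hn : 1 < n) {a : ℂ} (ha : a ∈ D2 n) : PP n a ∈ WW n :=
  (KK_spec hn (LL_mem_YY hn ha)).1

theorem LL_PP (hn : 1 < n) {a : ℂ} (ha : a ∈ D2 n) : LL n (PP n a) = LL n a :=
  (KK_spec hn (LL_mem_YY hn ha)).2

theorem PP_eq (hn : 1 < n) {a b : ℂ} (hb : b ∈ WW n) (h : LL n b = LL n a) : PP n a = b := by
  unfold PP
  rw [← h, KK_eq hn hb]

theorem TT_mem (hn : 1 < n) {a : ℂ} (ha : a ∈ D2 n) : TT n a ∈ D2 n :=
  (inv_mem hn (PP_mem hn ha)).1

theorem D2_ne (hn : 1 < n) {a : ℂ} (ha : a ∈ D2 n) : a ≠ (n : ℂ) := by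
  rintro rfl
  have := ha.1
  rw [Complex.norm_real, Real.norm_of_nonneg (by linarith)] at this
  exact lt_irrefl _ this

theorem PP_an (hn : 1 < n) {a : ℂ} (ha : a ∈ D2 n) :
    AnalyticAt ℂ (PP n) a ∧ deriv (PP n) a ≠ 0 := by
  obtain ⟨h1, h2⟩ := KK_an hn (LL_mem_YY hn ha)
  have hs := D2_slit hn ha
  have h3 := LL_an (n := n) hs
  refine ⟨h1.fun_comp h3, ?_⟩
  have h4 : HasDerivAt (PP n) (deriv (KK n) (LL n a) * ((MM n : ℂ) / a - 1 / (a - 1))) a :=
    h1.differentiableAt.hasDerivAt.comp a (LL_hasDerivAt hs)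
  rw [h4.deriv]
  exact mul_ne_zero h2 (dLL_ne hn hs (D2_ne hn ha))

theorem TT_an (hn : 1 < n) {a : ℂ} (ha : a ∈ D2 n) :
    AnalyticAt ℂ (TT n) a ∧ deriv (TT n) a ≠ 0 := by
  obtain ⟨h1, h2⟩ := PP_an hn ha
  have h0 := WW_ne_zero (PP_mem hn ha)
  have hn0 : (n : ℂ) ≠ 0 := by
    have : n ≠ 0 := by linarith
    exact_mod_cast this
  refine ⟨analyticAt_const.div h1 h0, ?_⟩
  have h4 : HasDerivAt (TT n) ((0 * PP n a - (n : ℂ) ^ 2 * deriv (PP n) a) / (PP n a) ^ 2) a :=
    (hasDerivAt_const a ((n : ℂ) ^ 2)).div h1.differentiableAt.hasDerivAt h0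
  rw [h4.deriv]
  refine div_ne_zero ?_ (pow_ne_zero _ h0)
  rw [zero_mul, zero_sub]
  exact neg_ne_zero.2 (mul_ne_zero (pow_ne_zero _ hn0) h2)

theorem PP_conj (hn : 1 < n) {a : ℂ} (ha : a ∈ D2 n) :
    PP n ((starRingEnd ℂ) a) = (starRingEnd ℂ) (PP n a) := by
  refine PP_eq hn (WW_conj (PP_mem hn ha)) ?_
  rw [LL_conj (PP_mem hn ha).1, LL_PP hn ha, LL_conj (D2_slit hn ha)]

theorem TT_conj (hn : 1 < n) {a : ℂ} (ha : a ∈ D2 n) :
    TT n ((starRingEnd ℂ) a) = (starRingEnd ℂ) (TT n a) := by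
  unfold TT
  rw [PP_conj hn ha, map_div₀, map_pow, conj_ofReal]

end Crest.Agent.R102.Iso297
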