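import Crest.Agent.R102.Iso2_297

/-!
# Row 102, isotropic end (helper799): the end of the explicit curve (leaf E' of helper297)
-/

set_option autoImplicit false

open Complex Set Filter Topology

noncomputable section

namespace Crest.Agent.R102.IsoEnd799

open Crest.Agent.R102.Iso297

variable {n : ℝ}

/-- the explicit curve `Im LL = 0` -/
def BB (n θ : ℝ) : ℂ :=
  ((Real.sin (n * θ / 2) / Real.sin (θ / 2) : ℝ) : ℂ) * Complex.exp (((n - 1) * θ / 2 : ℝ) * I)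

/-- the reflected curve -/
def zz (n θ : ℝ) : ℂ := (n : ℂ) ^ 2 / BB n θ

/-- the chord of the reflected curve -/
def wv (n θ : ℝ) : ℂ := PP n (zz n θ)

theorem ang (hn : 1 < n) {θ : ℝ} (h : θ ∈ Ioo 0 (2 * Real.pi / n)) :
    0 < n * θ / 2 ∧ n * θ / 2 < Real.pi ∧ 0 < θ / 2 ∧ θ / 2 < Real.pi ∧
    0 < (n - 1) * θ / 2 ∧ (n - 1) * θ / 2 < Real.pi := by
  have hpi := Real.pi_pos
  have h0 := h.1
  have h1 : n * θ < 2 * Real.pi := by
    have := h.2
    rw [lt_div_iff₀ (by linarith)] at this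
    linarith
  have h2 : 0 < (n - 1) * θ := mul_pos (by linarith) h0
  have h3 : 0 < n * θ := by nlinarith
  refine ⟨by linarith, by linarith, by linarith, by nlinarith, by linarith, by nlinarith⟩

theorem exp_eq (x : ℝ) : Complex.exp ((x : ℝ) * I) = Real.cos x + Real.sin x * I := by
  rw [Complex.exp_mul_I, ofReal_cos, ofReal_sin]

theorem BB_norm (hn : 1 < n) {θ : ℝ} (h : θ ∈ Ioo 0 (2 * Real.pi / n)) :
    ‖BB n θ‖ = Real.sin (n * θ / 2) / Real.sin (θ / 2) := by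
  obtain ⟨h1, h2, h3, h4, h5, h6⟩ := ang hn h
  have hs1 := Real.sin_pos_of_pos_of_lt_pi h1 h2
  have hs2 := Real.sin_pos_of_pos_of_lt_pi h3 h4
  unfold BB
  rw [norm_mul, norm_exp_ofReal_mul_I, mul_one, Complex.norm_real,
    Real.norm_of_nonneg (by positivity)]

theorem BB_arg (hn : 1 < n) {θ : ℝ} (h : θ ∈ Ioo 0 (2 * Real.pi / n)) :
    arg (BB n θ) = (n - 1) * θ / 2 := by
  obtain ⟨h1, h2, h3, h4, h5, h6⟩ := ang hn h
  have hs1 := Real.sin_pos_of_pos_of_lt_pi h1 h2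
  have hs2 := Real.sin_pos_of_pos_of_lt_pi h3 h4
  unfold BB
  rw [exp_eq, ofReal_cos, ofReal_sin]
  exact arg_mul_cos_add_sin_mul_I (div_pos hs1 hs2) ⟨by linarith [Real.pi_pos], h6.le⟩

theorem BB_sub_one (hn : 1 < n) {θ : ℝ} (h : θ ∈ Ioo 0 (2 * Real.pi / n)) :
    BB n θ - 1 = ((Real.sin ((n - 1) * θ / 2) / Real.sin (θ / 2) : ℝ) : ℂ) *
      (Real.cos (n * θ / 2) + Real.sin (n * θ / 2) * I) := by
  obtain ⟨h1, h2, h3, h4, h5, h6⟩ := ang hn h
  have hs2 := Real.sin_pos_of_pos_of_lt_pi h3 h4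
  have h7 : (Real.sin (θ / 2) : ℂ) ≠ 0 := by exact_mod_cast hs2.ne'
  have h8 : (Real.sin (θ / 2) : ℂ) =
      Real.sin (n * θ / 2) * Real.cos ((n - 1) * θ / 2) -
        Real.cos (n * θ / 2) * Real.sin ((n - 1) * θ / 2) := by
    have : θ / 2 = n * θ / 2 - (n - 1) * θ / 2 := by ring
    rw [this, Real.sin_sub]
    push_cast
    rfl
  have key : ∀ (s c s' c' r : ℂ), r ≠ 0 → r = s * c' - c * s' →
      s / r * (c' + s' * I) - 1 = s' / r * (c + s * I) := by
    intro s c s' c' r hr h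
    field_simp
    linear_combination -h
  unfold BB
  rw [exp_eq]
  rw [Complex.ofReal_div, Complex.ofReal_div]
  exact key _ _ _ _ _ h7 h8

theorem BB_sub_one_arg (hn : 1 < n) {θ : ℝ} (h : θ ∈ Ioo 0 (2 * Real.pi / n)) :
    arg (BB n θ - 1) = n * θ / 2 := by
  obtain ⟨h1, h2, h3, h4, h5, h6⟩ := ang hn h
  have hs1 := Real.sin_pos_of_pos_of_lt_pi h5 h6
  have hs2 := Real.sin_pos_of_pos_of_lt_pi h3 h4
  rw [BB_sub_one hn h, ofReal_cos, ofReal_sin]
  exact arg_mul_cos_add_sin_mul_I (div_pos hs1 hs2) ⟨by linarith [Real.pi_pos], h2.le⟩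

theorem BB_im (hn : 1 < n) {θ : ℝ} (h : θ ∈ Ioo 0 (2 * Real.pi / n)) : 0 < (BB n θ).im := by
  obtain ⟨h1, h2, h3, h4, h5, h6⟩ := ang hn h
  have hs1 := Real.sin_pos_of_pos_of_lt_pi h1 h2
  have hs2 := Real.sin_pos_of_pos_of_lt_pi h3 h4
  rw [← norm_mul_sin_arg, BB_norm hn h, BB_arg hn h]
  exact mul_pos (div_pos hs1 hs2) (Real.sin_pos_of_pos_of_lt_pi h5 h6)

theorem LL_BB (hn : 1 < n) {θ : ℝ} (h : θ ∈ Ioo 0 (2 * Real.pi / n)) :
    (LL n (BB n θ)).im = 0 := by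
  rw [LL_im, BB_arg hn h, BB_sub_one_arg hn h]
  unfold MM
  have : n - 1 ≠ 0 := by linarith
  field_simp
  ring

theorem zz_mem (hn : 1 < n) {θ : ℝ} (h : θ ∈ Ioo 0 (2 * Real.pi / n)) :
    zz n θ ∈ D2 n ∧ arg (zz n θ) = -((n - 1) * θ / 2) := by
  obtain ⟨h1, h2, -⟩ := inv_mem_of_pos hn (BB_im hn h) (LL_BB hn h).le
  rw [BB_arg hn h] at h2
  exact ⟨h1, h2⟩

theorem zz_norm (hn : 1 < n) {θ : ℝ} (h : θ ∈ Ioo 0 (2 * Real.pi / n)) :
    ‖zz n θ‖ = n ^ 2 / (Real.sin (n * θ / 2) / Real.sin (θ / 2)) := by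
  unfold zz
  rw [norm_div, norm_pow, Complex.norm_real, Real.norm_of_nonneg (by linarith), BB_norm hn h]

theorem Ioo_mem (hn : 1 < n) : Ioo 0 (2 * Real.pi / n) ∈ 𝓝[<] (2 * Real.pi / n) :=
  Ioo_mem_nhdsLT (div_pos (by linarith [Real.pi_pos]) (by linarith))

theorem zz_tendsto (hn : 1 < n) :
    Tendsto (fun θ => ‖zz n θ‖) (𝓝[<] (2 * Real.pi / n)) atTop := by
  have hpi := Real.pi_pos
  have hn0 : (n : ℝ) ≠ 0 := by linarith
  -- the norm of BB tends to 0 from above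
  have hs2 : 0 < Real.sin (2 * Real.pi / n / 2) := by
    apply Real.sin_pos_of_pos_of_lt_pi
    · have : 0 < n := by linarith
      positivity
    · rw [div_lt_iff₀ (by norm_num), div_lt_iff₀ (by linarith)]
      nlinarith
  have h1 : Tendsto (fun θ : ℝ => Real.sin (n * θ / 2) / Real.sin (θ / 2))
      (𝓝[<] (2 * Real.pi / n)) (𝓝[>] 0) := by
    refine tendsto_nhdsWithin_iff.2 ⟨?_, ?_⟩
    · have hc : ContinuousAt (fun θ : ℝ => Real.sin (n * θ / 2) / Real.sin (θ / 2))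
          (2 * Real.pi / n) := by
        refine ContinuousAt.div (by fun_prop) (by fun_prop) hs2.ne'
      have := hc.tendsto.mono_left (nhdsWithin_le_nhds (s := Iio (2 * Real.pi / n)))
      have e : Real.sin (n * (2 * Real.pi / n) / 2) = 0 := by
        have : n * (2 * Real.pi / n) / 2 = Real.pi := by field_simp
        rw [this, Real.sin_pi]
      simp only [e, zero_div] at this
      exact this
    · filter_upwards [Ioo_mem hn] with θ hθ
      obtain ⟨a1, a2, a3, a4, -, -⟩ := ang hn hθ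
      exact div_pos (Real.sin_pos_of_pos_of_lt_pi a1 a2) (Real.sin_pos_of_pos_of_lt_pi a3 a4)
  have h2 : Tendsto (fun θ : ℝ => n ^ 2 * (Real.sin (n * θ / 2) / Real.sin (θ / 2))⁻¹)
      (𝓝[<] (2 * Real.pi / n)) atTop :=
    (h1.inv_tendsto_nhdsGT_zero).const_mul_atTop (by positivity)
  refine h2.congr' ?_
  filter_upwards [Ioo_mem hn] with θ hθ
  rw [zz_norm hn hθ]
  exact (div_eq_mul_inv _ _).symm

/-- **E' (ii)** -/
theorem wv_tendsto (hn : 1 < n) :
    Tendsto (fun θ => wv n θ) (𝓝[<] (2 * Real.pi / n)) (𝓝 1) := by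
  have hM := MM_gt hn
  have hz := zz_tendsto hn
  -- `log ‖z‖`
  have hlog : Tendsto (fun θ => Real.log ‖zz n θ‖) (𝓝[<] (2 * Real.pi / n)) atTop :=
    Real.tendsto_log_atTop.comp hz
  have hup : ∀ᶠ θ in 𝓝[<] (2 * Real.pi / n), ‖wv n θ - 1‖ ≤
      Real.exp (MM n * Real.log n + Real.log 2 - (MM n - 1) * Real.log ‖zz n θ‖) := by
    filter_upwards [Ioo_mem hn, hz.eventually_ge_atTop 1] with θ hθ hz1
    have hmem := (zz_mem hn hθ).1
    have hw := PP_mem hn hmem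
    have hLL := LL_PP hn hmem
    have hwn := (inv_mem hn hw).2
    have hw1 : PP n (zz n θ) - 1 ≠ 0 := slitPlane_ne_zero hw.1
    have hw0 : PP n (zz n θ) ≠ 0 := WW_ne_zero hw
    have hre := congrArg Complex.re hLL
    rw [LL_re, LL_re] at hre
    have hzm : ‖zz n θ - 1‖ ≤ 2 * ‖zz n θ‖ := by
      calc ‖zz n θ - 1‖ ≤ ‖zz n θ‖ + ‖(1 : ℂ)‖ := norm_sub_le _ _
        _ ≤ 2 * ‖zz n θ‖ := by rw [norm_one]; linarith
    have hz1' : zz n θ - 1 ≠ 0 := slitPlane_ne_zero (D2_slit hn hmem)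
    have hz0 : 0 < ‖zz n θ‖ := by linarith
    have h3 : Real.log ‖zz n θ - 1‖ ≤ Real.log 2 + Real.log ‖zz n θ‖ := by
      rw [← Real.log_mul (by norm_num) hz0.ne']
      exact Real.log_le_log (norm_pos_iff.2 hz1') hzm
    have h4 : Real.log ‖PP n (zz n θ)‖ ≤ Real.log n :=
      Real.log_le_log (norm_pos_iff.2 hw0) hwn.le
    have h5 : Real.log ‖wv n θ - 1‖ ≤
        MM n * Real.log n + Real.log 2 - (MM n - 1) * Real.log ‖zz n θ‖ := by
      unfold wv
      nlinarith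
    calc ‖wv n θ - 1‖ = Real.exp (Real.log ‖wv n θ - 1‖) :=
          (Real.exp_log (norm_pos_iff.2 hw1)).symm
      _ ≤ _ := Real.exp_le_exp.2 h5
  have hlim : Tendsto (fun θ => Real.exp (MM n * Real.log n + Real.log 2 -
      (MM n - 1) * Real.log ‖zz n θ‖)) (𝓝[<] (2 * Real.pi / n)) (𝓝 0) := by
    refine Real.tendsto_exp_atBot.comp ?_
    have h1 : Tendsto (fun θ => (MM n - 1) * Real.log ‖zz n θ‖) (𝓝[<] (2 * Real.pi / n)) atTop :=
      hlog.const_mul_atTop (by linarith)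
    have h2 := tendsto_neg_atTop_atBot.comp h1
    have h3 := tendsto_atBot_add_const_left _ (MM n * Real.log n + Real.log 2) h2
    refine h3.congr fun θ => ?_
    simp [sub_eq_add_neg]
  rw [tendsto_iff_norm_sub_tendsto_zero]
  exact tendsto_of_tendsto_of_tendsto_of_le_of_le' tendsto_const_nhds hlim
    (Eventually.of_forall fun _ => norm_nonneg _) hup

/-- exact formula on the curve -/
theorem wv_formula (hn : 1 < n) {θ : ℝ} (h : θ ∈ Ioo 0 (2 * Real.pi / n)) :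
    ((‖zz n θ‖ ^ (1 / (n - 1)) : ℝ) : ℂ) * (wv n θ - 1) =
      Complex.exp ((MM n : ℂ) * Complex.log (wv n θ)) * (1 - (zz n θ)⁻¹) *
        Complex.exp ((θ / 2 : ℝ) * I) := by
  obtain ⟨hmem, harg⟩ := zz_mem hn h
  have hw := PP_mem hn hmem
  have hLL := LL_PP hn hmem
  have hw1 : PP n (zz n θ) - 1 ≠ 0 := slitPlane_ne_zero hw.1
  have hz1 : zz n θ - 1 ≠ 0 := slitPlane_ne_zero (D2_slit hn hmem)
  have hz0 : zz n θ ≠ 0 := slitPlane_ne_zero hmem.2.1
  have hn1 : n - 1 ≠ 0 := by linarith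
  have hMM : MM n = 1 + 1 / (n - 1) := by unfold MM; field_simp; ring
  have e1 : wv n θ - 1 = Complex.exp ((MM n : ℂ) * Complex.log (wv n θ)) *
      (Complex.exp (-((MM n : ℂ) * Complex.log (zz n θ))) * (zz n θ - 1)) := by
    have h1 : Complex.log (wv n θ - 1) =
        (MM n : ℂ) * Complex.log (wv n θ) - (MM n : ℂ) * Complex.log (zz n θ) +
          Complex.log (zz n θ - 1) := by
      unfold LL at hLL
      unfold wv
      linear_combination -hLL
    calc wv n θ - 1 = Complex.exp (Complex.log (wv n θ - 1)) := (Complex.exp_log hw1).symm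
      _ = _ := by
        rw [h1, Complex.exp_add, Complex.exp_log hz1, sub_eq_add_neg, Complex.exp_add]; ring
  have e2 : Complex.exp (-((MM n : ℂ) * Complex.log (zz n θ))) * (zz n θ - 1) *
      ((‖zz n θ‖ ^ (1 / (n - 1)) : ℝ) : ℂ) = (1 - (zz n θ)⁻¹) * Complex.exp ((θ / 2 : ℝ) * I) := by
    have hnz : 0 < ‖zz n θ‖ := norm_pos_iff.2 hz0
    have h1 : Complex.log (zz n θ) = (Real.log ‖zz n θ‖ : ℂ) + (-((n - 1) * θ / 2) : ℝ) * I := by
      rw [← harg]
      exact Complex.ext (by simp [log_re]) (by simp [log_im])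
    have h2 : ((‖zz n θ‖ ^ (1 / (n - 1)) : ℝ) : ℂ) =
        Complex.exp ((Real.log ‖zz n θ‖ * (1 / (n - 1)) : ℝ)) := by
      rw [Real.rpow_def_of_pos hnz, ofReal_exp]
    have h3 : Complex.exp (-((MM n : ℂ) * Complex.log (zz n θ))) *
        ((‖zz n θ‖ ^ (1 / (n - 1)) : ℝ) : ℂ) =
        (zz n θ)⁻¹ * Complex.exp ((θ / 2 : ℝ) * I) := by
      have h4 : (zz n θ)⁻¹ = Complex.exp (-Complex.log (zz n θ)) := by
        rw [Complex.exp_neg, Complex.exp_log hz0]
      rw [h4, h2, ← Complex.exp_add, ← Complex.exp_add]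
      congr 1
      rw [h1, hMM]
      have hn1' : (n : ℂ) - 1 ≠ 0 := by exact_mod_cast hn1
      push_cast
      field_simp
      ring
    calc _ = (Complex.exp (-((MM n : ℂ) * Complex.log (zz n θ))) *
        ((‖zz n θ‖ ^ (1 / (n - 1)) : ℝ) : ℂ)) * (zz n θ - 1) := by ring
      _ = _ := by
        rw [h3]
        have : (1 : ℂ) - (zz n θ)⁻¹ = (zz n θ)⁻¹ * (zz n θ - 1) := by
          field_simp
        rw [this]; ring
  calc _ = Complex.exp ((MM n : ℂ) * Complex.log (wv n θ)) *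
      (Complex.exp (-((MM n : ℂ) * Complex.log (zz n θ))) * (zz n θ - 1) *
      ((‖zz n θ‖ ^ (1 / (n - 1)) : ℝ) : ℂ)) := by
        nth_rw 1 [e1]; ring
    _ = _ := by rw [e2]; ring

/-- **E' (iii)** -/
theorem wv_asymp (hn : 1 < n) :
    Tendsto (fun θ => ((‖zz n θ‖ ^ (1 / (n - 1)) : ℝ) : ℂ) * (wv n θ - 1))
      (𝓝[<] (2 * Real.pi / n)) (𝓝 (Complex.exp ((Real.pi / n : ℝ) * I))) := by
  have hw := wv_tendsto hn
  have hz := zz_tendsto hn
  have h1 : Tendsto (fun θ => Complex.exp ((MM n : ℂ) * Complex.log (wv n θ)))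
      (𝓝[<] (2 * Real.pi / n)) (𝓝 1) := by
    have hc : ContinuousAt (fun w : ℂ => Complex.exp ((MM n : ℂ) * Complex.log w)) 1 := by
      refine ContinuousAt.cexp (ContinuousAt.mul continuousAt_const ?_)
      exact continuousAt_clog (by simp)
    have := hc.tendsto.comp hw
    simp only [Complex.log_one, mul_zero, Complex.exp_zero] at this
    exact this
  have h2 : Tendsto (fun θ => 1 - (zz n θ)⁻¹) (𝓝[<] (2 * Real.pi / n)) (𝓝 1) := by
    have h3 : Tendsto (fun θ => (zz n θ)⁻¹) (𝓝[<] (2 * Real.pi / n)) (𝓝 0) := by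
      rw [tendsto_zero_iff_norm_tendsto_zero]
      refine (tendsto_inv_atTop_zero.comp hz).congr fun θ => ?_
      simp
    simpa using h3.const_sub 1
  have h4 : Tendsto (fun θ : ℝ => Complex.exp ((θ / 2 : ℝ) * I)) (𝓝[<] (2 * Real.pi / n))
      (𝓝 (Complex.exp ((Real.pi / n : ℝ) * I))) := by
    have hc : Continuous (fun θ : ℝ => Complex.exp ((θ / 2 : ℝ) * I)) := by fun_prop
    have := (hc.tendsto (2 * Real.pi / n)).mono_left
      (nhdsWithin_le_nhds (s := Iio (2 * Real.pi / n)))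
    have e : 2 * Real.pi / n / 2 = Real.pi / n := by ring
    rwa [e] at this
  have h5 := (h1.mul h2).mul h4
  rw [one_mul, one_mul] at h5
  refine h5.congr' ?_
  filter_upwards [Ioo_mem hn] with θ hθ
  exact (wv_formula hn hθ).symm

end Crest.Agent.R102.IsoEnd799
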