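import Crest.Agent.R102.Petal_297
import Crest.Agent.R102.IsoEnd_799

/-!
# Row 102, (T5), isotropic end, `n > 1`: the one-dimensional theorem (helper297)

`LL n (n e^{F t}) = LL n (n e^{-F(t/(1+t))})`, `F` an odd real germ, `F'(0) > 0`, `n > 1` ⟹ `n = 2`.
-/

set_option autoImplicit false

open Complex Set Filter Topology Metric

noncomputable section

namespace Crest.Agent.R102.Iso3297

open Crest.Agent.R102.Iso297 Crest.Agent.R102.Petal297 Crest.Agent.R102.IsoEnd799

/-- the germ of the isotropic end -/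
structure GermI (n : ℝ) (F : ℂ → ℂ) : Prop where
  hn : 1 < n
  an : AnalyticAt ℂ F 0
  odd : ∀ᶠ t in 𝓝 (0 : ℂ), F (-t) = -F t
  real : ∀ᶠ t in 𝓝 (0 : ℂ), F ((starRingEnd ℂ) t) = (starRingEnd ℂ) (F t)
  der : ∃ g : ℝ, 0 < g ∧ deriv F 0 = (g : ℂ)
  eq : ∀ᶠ t in 𝓝 (0 : ℂ), LL n (n * exp (F t)) = LL n (n * exp (-(F (t / (1 + t)))))

variable {n : ℝ} {F : ℂ → ℂ}

/-- mean value inequality, real part of the slope -/
theorem slope_re_pos {f : ℂ → ℂ} {f' : ℂ → ℂ} {s : Set ℂ} (hs : Convex ℝ s)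
    (hf : ∀ z ∈ s, HasDerivAt f (f' z) z) (hp : ∀ z ∈ s, 0 < (f' z).re) {z1 z2 : ℂ}
    (h1 : z1 ∈ s) (h2 : z2 ∈ s) (hne : z1 ≠ z2) : 0 < ((f z2 - f z1) / (z2 - z1)).re := by
  have hd : z2 - z1 ≠ 0 := sub_ne_zero.2 (Ne.symm hne)
  have hseg : ∀ t : ℝ, t ∈ Icc (0 : ℝ) 1 → z1 + (t : ℂ) * (z2 - z1) ∈ s := by
    intro t ht
    have := hs h1 h2 (show 0 ≤ 1 - t by linarith [ht.2]) ht.1 (by ring)
    have e : z1 + (t : ℂ) * (z2 - z1) = (1 - t) • z1 + t • z2 := by
      rw [real_smul, real_smul]; push_cast; ring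
    rw [e]; exact this
  set g : ℝ → ℝ := fun t => (f (z1 + (t : ℂ) * (z2 - z1)) / (z2 - z1)).re with hg
  have hder : ∀ t ∈ Icc (0 : ℝ) 1, HasDerivAt g ((f' (z1 + (t : ℂ) * (z2 - z1))).re) t := by
    intro t ht
    have e1 : HasDerivAt (fun t : ℝ => z1 + (t : ℂ) * (z2 - z1)) (z2 - z1) t := by
      have := ((hasDerivAt_id t).ofReal_comp.mul_const (z2 - z1)).const_add z1
      simpa using this
    have e2 := ((hf _ (hseg t ht)).comp t e1).div_const (z2 - z1)
    have e3 : HasFDerivAt (fun w : ℂ => w.re) reCLM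
        ((fun t : ℝ => (f ∘ fun t : ℝ => z1 + (t : ℂ) * (z2 - z1)) t / (z2 - z1)) t) :=
      reCLM.hasFDerivAt
    have e4 := e3.comp_hasDerivAt t e2
    refine e4.congr_deriv ?_
    rw [mul_div_cancel_right₀ _ hd]
    rfl
  obtain ⟨ξ, hξ, hslope⟩ := exists_hasDerivAt_eq_slope g _ (zero_lt_one)
    (fun t ht => (hder t ht).continuousAt.continuousWithinAt)
    (fun t ht => hder t (Ioo_subset_Icc_self ht))
  have h5 := hp _ (hseg ξ (Ioo_subset_Icc_self hξ))
  rw [hslope] at h5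
  have h6 : g 1 - g 0 = ((f z2 - f z1) / (z2 - z1)).re := by
    rw [hg]
    simp only [ofReal_one, one_mul, add_sub_cancel, ofReal_zero, zero_mul, add_zero]
    rw [sub_div, sub_re]
  rw [h6] at h5
  simpa using h5

/-- the germ with a fixed radius -/
structure LocF (n : ℝ) (F : ℂ → ℂ) (ε : ℝ) : Prop where
  ε_pos : 0 < ε
  odd : ∀ t : ℂ, ‖t‖ < ε → F (-t) = -F t
  real : ∀ t : ℂ, ‖t‖ < ε → F ((starRingEnd ℂ) t) = (starRingEnd ℂ) (F t)
  eq : ∀ t : ℂ, ‖t‖ < ε → LL n (n * exp (F t)) = LL n (n * exp (-(F (t / (1 + t)))))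
  im_pos : ∀ t : ℂ, ‖t‖ < ε → 0 < t.im → 0 < (F t).im
  im_neg : ∀ t : ℂ, ‖t‖ < ε → t.im < 0 → (F t).im < 0
  re_pos : ∀ t : ℂ, ‖t‖ < ε → t.im = 0 → 0 < t.re → 0 < (F t).re
  small : ∀ t : ℂ, ‖t‖ < ε → ‖F t‖ < 1
  small' : ∀ t : ℂ, ‖t‖ < ε → ‖F t‖ < Real.log n

theorem GermI.zero (h : GermI n F) : F 0 = 0 := by
  have h1 := h.odd.self_of_nhds
  rw [neg_zero] at h1
  have h2 : (2 : ℂ) * F 0 = 0 := by linear_combination h1
  simpa using h2

theorem GermI.exists_loc (h : GermI n F) : ∃ ε, LocF n F ε := by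
  obtain ⟨g, hg, hd⟩ := h.der
  have h0 := h.zero
  have hc : ContinuousAt (fun z => ((deriv F) z).re) 0 :=
    continuous_re.continuousAt.comp h.an.deriv.continuousAt
  have e1 : ∀ᶠ z in 𝓝 (0 : ℂ), 0 < (deriv F z).re := by
    refine hc.eventually (lt_mem_nhds ?_)
    show 0 < (deriv F 0).re
    rw [hd, ofReal_re]; exact hg
  have hlog : 0 < Real.log n := Real.log_pos h.hn
  have e2 : ∀ᶠ z in 𝓝 (0 : ℂ), ‖F z‖ < min 1 (Real.log n) := by
    refine h.an.continuousAt.norm.eventually (gt_mem_nhds ?_)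
    show ‖F 0‖ < min 1 (Real.log n)
    rw [h0, norm_zero]; exact lt_min one_pos hlog
  obtain ⟨ε, hε, hb⟩ := Metric.eventually_nhds_iff_ball.1
    (h.odd.and (h.real.and (h.eq.and (h.an.eventually_analyticAt.and (e1.and e2)))))
  have hm : ∀ t : ℂ, ‖t‖ < ε → t ∈ ball (0 : ℂ) ε := fun t ht => by rwa [mem_ball_zero_iff]
  have hder : ∀ z ∈ ball (0 : ℂ) ε, HasDerivAt F (deriv F z) z := fun z hz =>
    ((hb z hz).2.2.2.1).differentiableAt.hasDerivAt
  have hpos : ∀ z ∈ ball (0 : ℂ) ε, 0 < (deriv F z).re := fun z hz => (hb z hz).2.2.2.2.1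
  have him : ∀ t : ℂ, ‖t‖ < ε → t.im ≠ 0 → 0 < (F t).im / t.im := by
    intro t ht h1
    have hne : (starRingEnd ℂ) t ≠ t := fun hh => h1 (conj_eq_iff_im.1 hh)
    have h2 := slope_re_pos (convex_ball (0 : ℂ) ε) hder hpos (z1 := (starRingEnd ℂ) t) (z2 := t)
      (hm _ (by rwa [norm_conj])) (hm _ ht) hne
    rw [(hb t (hm t ht)).2.1] at h2
    rw [show F t - (starRingEnd ℂ) (F t) = (2 * (F t).im : ℝ) * I by
        rw [sub_conj],
      show t - (starRingEnd ℂ) t = (2 * t.im : ℝ) * I by rw [sub_conj],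
      mul_div_mul_right _ _ I_ne_zero, ← ofReal_div, ofReal_re] at h2
    rwa [mul_div_mul_left _ _ two_ne_zero] at h2
  refine ⟨ε, hε, fun t ht => (hb t (hm t ht)).1, fun t ht => (hb t (hm t ht)).2.1,
    fun t ht => (hb t (hm t ht)).2.2.1, ?_, ?_, ?_,
    fun t ht => lt_of_lt_of_le (hb t (hm t ht)).2.2.2.2.2 (min_le_left _ _),
    fun t ht => lt_of_lt_of_le (hb t (hm t ht)).2.2.2.2.2 (min_le_right _ _)⟩
  · intro t ht h1
    have := him t ht h1.ne'
    rcases div_pos_iff.1 this with h2 | h2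
    · exact h2.1
    · linarith [h2.2]
  · intro t ht h1
    have := him t ht h1.ne
    rcases div_pos_iff.1 this with h2 | h2
    · linarith [h2.2]
    · exact h2.1
  · intro t ht h1 h2
    have hne : (0 : ℂ) ≠ t := by rintro rfl; simp at h2
    have h3 := slope_re_pos (convex_ball (0 : ℂ) ε) hder hpos (z1 := 0) (z2 := t)
      (hm _ (by rwa [norm_zero])) (hm _ ht) hne
    rw [h0, sub_zero, sub_zero] at h3
    have h4 : t = (t.re : ℂ) := by
      apply Complex.ext
      · simp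
      · simp [h1]
    rw [h4, div_ofReal_re] at h3
    rw [← h4] at h3
    rcases div_pos_iff.1 h3 with h5 | h5
    · exact h5.1
    · linarith [h5.2]

/-- the local parametrisation -/
def HH (n : ℝ) (F : ℂ → ℂ) (t : ℂ) : ℂ := n * exp (F t)

theorem LocF.im_zero {ε : ℝ} (L : LocF n F ε) {t : ℂ} (ht : ‖t‖ < ε) (h : t.im = 0) :
    (F t).im = 0 := by
  have h1 := L.real t ht
  rw [conj_eq_iff_im.2 h] at h1
  exact conj_eq_iff_im.1 h1.symm

theorem im_exp_pos (hn : 1 < n) {z : ℂ} (hz : ‖z‖ < 1) (h : 0 < z.im) :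
    0 < ((n : ℂ) * exp z).im := by
  rw [im_ofReal_mul, exp_im]
  have h1 : |z.im| < 1 := lt_of_le_of_lt (abs_im_le_norm z) hz
  have h2 : 0 < Real.sin z.im :=
    Real.sin_pos_of_pos_of_lt_pi h (by linarith [(abs_lt.1 h1).2, Real.pi_gt_three])
  have h3 := Real.exp_pos z.re
  have h4 : 0 < n := by linarith
  positivity

theorem im_exp_neg (hn : 1 < n) {z : ℂ} (hz : ‖z‖ < 1) (h : z.im < 0) :
    ((n : ℂ) * exp z).im < 0 := by
  have h1 := im_exp_pos hn (z := (starRingEnd ℂ) z) (by rwa [norm_conj]) (by rw [conj_im]; linarith)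
  rw [exp_conj, ← conj_ofReal, ← map_mul, conj_im] at h1
  linarith

theorem exp_real {z : ℂ} (h : z.im = 0) : (n : ℂ) * exp z = ((n * Real.exp z.re : ℝ) : ℂ) := by
  have h4 : z = (z.re : ℂ) := by
    apply Complex.ext
    · simp
    · simp [h]
  conv_lhs => rw [h4]
  push_cast
  rfl

theorem step_im {t : ℂ} (ht : ‖t‖ < 1) : ∃ c : ℝ, 0 < c ∧ (t / (1 + t)).im = c * t.im ∧
    (t.im = 0 → (t / (1 + t)).re = t.re / (1 + t.re)) := by
  have h1 := one_add_ne ht
  have h2 : 0 < normSq (1 + t) := normSq_pos.2 h1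
  refine ⟨1 / normSq (1 + t), by positivity, ?_, ?_⟩
  · rw [div_im, add_im, add_re, one_im, one_re]
    field_simp
    ring
  · intro h
    have h4 : t = (t.re : ℂ) := by
      apply Complex.ext
      · simp
      · simp [h]
    conv_lhs => rw [h4]
    rw [show (1 : ℂ) + (t.re : ℂ) = ((1 + t.re : ℝ) : ℂ) by push_cast; rfl, ← ofReal_div, ofReal_re]

/-- the local conjugation -/
theorem LocF.conj {ε : ℝ} (L : LocF n F ε) (hn : 1 < n) {t : ℂ} (ht : ‖t‖ < ε) (ht1 : ‖t‖ < 1)
    (ht' : ‖t / (1 + t)‖ < ε) (hD : HH n F t ∈ D2 n) :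
    TT n (HH n F t) = HH n F (t / (1 + t)) := by
  have hn0 : 0 < n := by linarith
  obtain ⟨c, hc, hcim, hcre⟩ := step_im ht1
  set t' := t / (1 + t) with ht'def
  set b : ℂ := n * exp (-(F t')) with hb
  have hsm : ‖-(F t')‖ < 1 := by rw [norm_neg]; exact L.small t' ht'
  have hsm' : ‖-(F t')‖ < Real.log n := by rw [norm_neg]; exact L.small' t' ht'
  have heq : LL n (HH n F t) = LL n b := L.eq t ht
  have hW : b ∈ WW n := by
    rcases lt_trichotomy t.im 0 with h | h | h
    · -- `Im t < 0`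
      have h1 : (HH n F t).im < 0 := im_exp_neg hn (L.small t ht) (L.im_neg t ht h)
      have h2 : t'.im < 0 := by rw [hcim]; nlinarith
      have h3 : 0 < b.im := im_exp_pos hn hsm (by rw [neg_im]; linarith [L.im_neg t' ht' h2])
      have h4 := LL_pos_of_D2 hn (D2_conj hD) (by rw [conj_im]; linarith)
      rw [LL_conj (D2_slit hn hD), conj_im, heq] at h4
      exact ⟨slit_of_im h3.ne', fun _ => by linarith [h4.1], fun h' => by linarith,
        fun h' => absurd h' h3.ne'⟩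
    · -- `t` real
      have hF := L.im_zero ht h
      have hH : HH n F t = ((n * Real.exp (F t).re : ℝ) : ℂ) := exp_real hF
      have h1 : n < n * Real.exp (F t).re := by
        have := hD.1
        rwa [hH, Complex.norm_real, Real.norm_of_nonneg (by positivity)] at this
      have h2 : 0 < (F t).re := by
        by_contra hcon
        push Not at hcon
        have := Real.exp_le_one_iff.2 hcon
        nlinarith
      have h3 : 0 < t.re := by
        by_contra hcon
        push Not at hcon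
        rcases hcon.lt_or_eq with h4 | h4
        · have h5 := L.re_pos (-t) (by rwa [norm_neg]) (by simp [h]) (by simpa using h4)
          rw [L.odd t ht, neg_re] at h5
          linarith
        · have h5 : t = 0 := Complex.ext h4 h
          have h6 := L.odd t ht
          rw [h5, neg_zero] at h6
          have h7 : (F 0).re = 0 := by
            have := congrArg Complex.re h6
            rw [neg_re] at this
            linarith
          rw [h5, h7] at h2
          exact lt_irrefl _ h2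
      have h4 : t'.im = 0 := by rw [hcim, h, mul_zero]
      have h5 : 0 < t'.re := by rw [hcre h]; positivity
      have h6 := L.re_pos t' ht' h4 h5
      have h7 : (-(F t')).im = 0 := by rw [neg_im, L.im_zero ht' h4, neg_zero]
      have h8 : b = ((n * Real.exp (-(F t')).re : ℝ) : ℂ) := exp_real h7
      have h9 : Real.exp (-(F t')).re < 1 := by
        rw [Real.exp_lt_one_iff, neg_re]; linarith
      have h10 : 1 < n * Real.exp (-(F t')).re := by
        have h11 : -Real.log n < (-(F t')).re := by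
          have := (abs_lt.1 (lt_of_le_of_lt (abs_re_le_norm (-(F t'))) hsm')).1
          exact this
        have h12 := Real.exp_lt_exp.2 h11
        rw [Real.exp_neg, Real.exp_log hn0] at h12
        have h13 := mul_lt_mul_of_pos_left h12 hn0
        rwa [mul_inv_cancel₀ hn0.ne'] at h13
      have h14 : b.im = 0 := by rw [h8, ofReal_im]
      have h15 : b.re = n * Real.exp (-(F t')).re := by rw [h8, ofReal_re]
      refine ⟨Or.inl ?_, fun h' => by linarith, fun h' => by linarith, fun _ => ?_⟩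
      · rw [sub_re, h15, one_re]; linarith
      · rw [h15]; nlinarith
    · -- `0 < Im t`
      have h1 : 0 < (HH n F t).im := im_exp_pos hn (L.small t ht) (L.im_pos t ht h)
      have h2 : 0 < t'.im := by rw [hcim]; positivity
      have h3 : b.im < 0 := im_exp_neg hn hsm (by rw [neg_im]; linarith [L.im_pos t' ht' h2])
      have h4 := LL_pos_of_D2 hn hD h1
      rw [heq] at h4
      exact ⟨slit_of_im h3.ne, fun h' => by linarith, fun _ => h4.1,
        fun h' => absurd h' h3.ne⟩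
  have hP : PP n (HH n F t) = b := PP_eq hn hW heq.symm
  unfold TT
  rw [hP, hb, exp_neg]
  have hnC : (n : ℂ) ≠ 0 := by exact_mod_cast hn0.ne'
  unfold HH
  field_simp

theorem GermI.petal (h : GermI n F) : Petal (D2 n) (TT n) (HH n F) n 0 1 := by
  have hn := h.hn
  have hn0 : 0 < n := by linarith
  have hnC : (n : ℂ) ≠ 0 := by exact_mod_cast hn0.ne'
  obtain ⟨ε, L⟩ := h.exists_loc
  obtain ⟨g, hg, hd⟩ := h.der
  have hH : HasDerivAt (HH n F) ((n : ℂ) * (exp (F 0) * deriv F 0)) 0 :=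
    (h.an.differentiableAt.hasDerivAt.cexp).const_mul (n : ℂ)
  refine ⟨isOpen_D2 n, isPreconnected_D2 hn, fun z hz => TT_mem hn hz, fun z hz => (TT_an hn hz).1,
    fun z hz => (TT_an hn hz).2, zero_ne_one, ?_, ?_, fun hz => D2_ne hn hz rfl,
    analyticAt_const.mul h.an.cexp, ?_, ?_, ?_, ?_⟩
  · intro h0; have := h0.1; rw [norm_zero] at this; linarith
  · intro h0; have := h0.1; rw [norm_one] at this; linarith
  · unfold HH; rw [h.zero, exp_zero, mul_one]
  · rw [hH.deriv, h.zero, exp_zero, one_mul, hd]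
    exact mul_ne_zero hnC (by exact_mod_cast hg.ne')
  · -- conjugation
    have hmin : 0 < min (1 / 4) ε := lt_min (by norm_num) L.ε_pos
    filter_upwards [Metric.ball_mem_nhds (0 : ℂ) (half_pos hmin)] with t ht hD
    rw [mem_ball_zero_iff] at ht
    have h1 : min (1 / 4) ε ≤ 1 / 4 := min_le_left _ _
    have h2 : min (1 / 4) ε ≤ ε := min_le_right _ _
    refine L.conj hn (by linarith) (by linarith) ?_ hD
    exact lt_of_lt_of_le (norm_step h1 ht) h2
  · -- membership
    filter_upwards [Ioo_mem_nhdsGT L.ε_pos] with x hx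
    have hxn : ‖(x : ℂ)‖ < ε := by
      rw [Complex.norm_real, Real.norm_of_nonneg hx.1.le]; exact hx.2
    have h1 := L.im_zero hxn (ofReal_im x)
    have h2 := L.re_pos x hxn (ofReal_im x) (by rw [ofReal_re]; exact hx.1)
    have h3 : HH n F x = ((n * Real.exp (F x).re : ℝ) : ℂ) := exp_real h1
    have h4 : 0 < n * Real.exp (F x).re := by positivity
    have h5 : 1 < Real.exp (F x).re := by rwa [Real.one_lt_exp_iff]
    refine ⟨?_, ?_, ?_⟩
    · rw [h3, Complex.norm_real, Real.norm_of_nonneg h4.le]; nlinarith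
    · rw [h3]; left; rw [ofReal_re]; exact h4
    · rw [h3, arg_ofReal_of_nonneg h4.le, abs_zero, zero_mul]; exact Real.pi_pos

theorem TT_real (hn : 1 < n) {z : ℂ} (hz : z ∈ D2 n) (h : z.im = 0) : (TT n z).im = 0 := by
  have h1 := TT_conj hn hz
  rw [conj_eq_iff_im.2 h] at h1
  exact conj_eq_iff_im.1 h1.symm

theorem GermI.HH_conj (h : GermI n F) :
    ∀ᶠ t in 𝓝 (0 : ℂ), HH n F ((starRingEnd ℂ) t) = (starRingEnd ℂ) (HH n F t) := by
  filter_upwards [h.real] with t ht
  unfold HH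
  rw [ht, exp_conj, map_mul, conj_ofReal]

/-! ### the curve -/

/-- the complexified reflected curve -/
def zc (n : ℝ) (w : ℂ) : ℂ :=
  (n : ℂ) ^ 2 * (Complex.sin (w / 2) / Complex.sin (n * w / 2) * exp (-((n - 1) * w / 2 * I)))

theorem zc_real (n θ : ℝ) : zc n (θ : ℂ) = zz n θ := by
  unfold zc zz BB
  rw [exp_neg]
  push_cast
  rw [div_eq_mul_inv ((n : ℂ) ^ 2), mul_inv, inv_div]

theorem zc_an (hn : 1 < n) {θ : ℝ} (h : θ ∈ Ioo 0 (2 * Real.pi / n)) :
    AnalyticAt ℂ (zc n) (θ : ℂ) := by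
  obtain ⟨h1, h2, -⟩ := ang hn h
  have hs : Complex.sin (n * (θ : ℂ) / 2) ≠ 0 := by
    have := Real.sin_pos_of_pos_of_lt_pi h1 h2
    have h3 : Complex.sin (n * (θ : ℂ) / 2) = (Real.sin (n * θ / 2) : ℂ) := by push_cast; rfl
    rw [h3]
    exact_mod_cast this.ne'
  have hd : Differentiable ℂ (fun w : ℂ => Complex.sin (w / 2)) :=
    Complex.differentiable_sin.comp (differentiable_id.div_const 2)
  have hd2 : Differentiable ℂ (fun w : ℂ => Complex.sin (n * w / 2)) :=
    Complex.differentiable_sin.comp ((differentiable_id.const_mul (n : ℂ)).div_const 2)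
  have hd3 : Differentiable ℂ (fun w : ℂ => exp (-(((n : ℂ) - 1) * w / 2 * I))) :=
    Complex.differentiable_exp.comp
      ((((differentiable_id.const_mul ((n : ℂ) - 1)).div_const 2).mul_const I).neg)
  have a1 := hd.analyticAt (θ : ℂ)
  have a2 := hd2.analyticAt (θ : ℂ)
  have a3 := hd3.analyticAt (θ : ℂ)
  exact analyticAt_const.mul ((a1.div a2 hs).mul a3)

theorem BB_tendsto (hn : 1 < n) : Tendsto (fun θ => BB n θ) (𝓝[>] (0 : ℝ)) (𝓝 (n : ℂ)) := by
  have h1 : Tendsto (fun θ : ℝ => n * Real.sinc (n * θ / 2) / Real.sinc (θ / 2)) (𝓝 0)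
      (𝓝 (n * Real.sinc (n * 0 / 2) / Real.sinc (0 / 2))) := by
    refine ContinuousAt.tendsto (f := fun θ : ℝ => n * Real.sinc (n * θ / 2) / Real.sinc (θ / 2)) ?_
    refine ContinuousAt.div ?_ ?_ ?_
    · exact (continuous_const.mul (Real.continuous_sinc.comp (by fun_prop))).continuousAt
    · exact (Real.continuous_sinc.comp (by fun_prop)).continuousAt
    · rw [zero_div, Real.sinc_zero]; exact one_ne_zero
  rw [mul_zero, zero_div, Real.sinc_zero, mul_one, div_one] at h1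
  have h2 : Tendsto (fun θ : ℝ => Complex.exp (((n - 1) * θ / 2 : ℝ) * I)) (𝓝 0)
      (𝓝 (Complex.exp (((n - 1) * 0 / 2 : ℝ) * I))) := by
    refine ContinuousAt.tendsto (f := fun θ : ℝ => Complex.exp (((n - 1) * θ / 2 : ℝ) * I)) ?_
    refine Continuous.continuousAt ?_
    fun_prop
  rw [mul_zero, zero_div, ofReal_zero, zero_mul, exp_zero] at h2
  have h3 := ((continuous_ofReal.tendsto n).comp h1).mul h2
  rw [mul_one] at h3
  refine (h3.mono_left nhdsWithin_le_nhds).congr' ?_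
  have hn0 : 0 < n := by linarith
  filter_upwards [self_mem_nhdsWithin] with θ hθ
  have hθ0 : 0 < θ := hθ
  show ((n * Real.sinc (n * θ / 2) / Real.sinc (θ / 2) : ℝ) : ℂ) * _ = _
  unfold BB
  congr 2
  rw [Real.sinc_of_ne_zero (by positivity), Real.sinc_of_ne_zero (by positivity)]
  by_cases hs : Real.sin (θ / 2) = 0
  · rw [hs]; simp
  · field_simp

/-- the curve starts in the petal, on the line `Re (1/t) = 1/2` -/
theorem GermI.start (h : GermI n F) {r : ℝ} (hr : 0 < r) :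
    ∀ᶠ θ : ℝ in 𝓝[>] (0 : ℝ), ∃ t : ℂ, ‖t‖ < r ∧ 0 < t.re ∧ HH n F t = zc n θ ∧
      (1 / t).re = 1 / 2 := by
  have hn := h.hn
  have hn0 : 0 < n := by linarith
  have hnC : (n : ℂ) ≠ 0 := by exact_mod_cast hn0.ne'
  obtain ⟨ε, L⟩ := h.exists_loc
  have hP := h.petal
  obtain ⟨J, ε', δ, ε1, M⟩ := hP.exists_loc
  have hJc : ContinuousAt J (n : ℂ) := (M.J_an (n : ℂ) (mem_ball_self M.δ_pos)).continuousAt
  have hJ0 : J (n : ℂ) = 0 := by
    have := M.JH 0 (by rw [norm_zero]; exact M.ε_pos)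
    rwa [hP.H_zero] at this
  have hB := BB_tendsto hn
  have hB' : Tendsto (fun θ => (starRingEnd ℂ) (BB n θ)) (𝓝[>] (0 : ℝ)) (𝓝 (n : ℂ)) := by
    have := (continuous_conj.tendsto (n : ℂ)).comp hB
    rwa [conj_ofReal] at this
  have hJB : Tendsto (fun θ => ‖J ((starRingEnd ℂ) (BB n θ))‖) (𝓝[>] (0 : ℝ)) (𝓝 0) := by
    have := (hJc.norm.tendsto).comp hB'
    rwa [hJ0, norm_zero] at this
  have hmin : 0 < min (1 / 4) (min ε (min ε' r)) :=
    lt_min (by norm_num) (lt_min L.ε_pos (lt_min M.ε_pos hr))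
  have hpi : 0 < 2 * Real.pi / n := by have := Real.pi_pos; positivity
  filter_upwards [hJB.eventually (gt_mem_nhds (half_pos hmin)),
    hB'.eventually_mem (ball_mem_nhds _ M.δ_pos), Ioo_mem_nhdsGT hpi] with θ g1 g2 g3
  have m1 : min (1 / 4) (min ε (min ε' r)) ≤ 1 / 4 := min_le_left _ _
  have m2 : min (1 / 4) (min ε (min ε' r)) ≤ ε := le_trans (min_le_right _ _) (min_le_left _ _)
  have m3 : min (1 / 4) (min ε (min ε' r)) ≤ ε' :=
    le_trans (min_le_right _ _) (le_trans (min_le_right _ _) (min_le_left _ _))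
  have m4 : min (1 / 4) (min ε (min ε' r)) ≤ r :=
    le_trans (min_le_right _ _) (le_trans (min_le_right _ _) (min_le_right _ _))
  set μ := min (1 / 4) (min ε (min ε' r)) with hμ
  have hBim := BB_im hn g3
  have hBL := LL_BB hn g3
  set B := BB n θ with hBdef
  set t1 := J ((starRingEnd ℂ) B) with ht1
  have hH1 : HH n F t1 = (starRingEnd ℂ) B := M.HJ _ g2
  have hstep : ‖t1 / (1 + t1)‖ < μ := norm_step m1 g1
  have n1 : ‖t1‖ < 1 := by linarith
  obtain ⟨c, hc, hcim, -⟩ := step_im n1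
  set t := t1 / (1 + t1) with ht
  have hne1 := one_add_ne n1
  -- `Im t1 < 0`
  have him1 : t1.im < 0 := by
    rcases lt_trichotomy t1.im 0 with h1 | h1 | h1
    · exact h1
    · exfalso
      have h2 := L.im_zero (t := t1) (by linarith) h1
      have h3 : HH n F t1 = ((n * Real.exp (F t1).re : ℝ) : ℂ) := exp_real h2
      rw [hH1] at h3
      have h4 := congrArg Complex.im h3
      rw [ofReal_im, conj_im] at h4
      linarith
    · exfalso
      have h2 : 0 < (HH n F t1).im :=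
        im_exp_pos hn (L.small t1 (by linarith)) (L.im_pos t1 (by linarith) h1)
      rw [hH1, conj_im] at h2
      linarith
  have him : t.im < 0 := by rw [hcim]; nlinarith
  have hts : ‖t‖ < ε := by linarith
  -- `b = B`
  have hb : (n : ℂ) * exp (-(F t)) = B := by
    have h1 : 0 < ((n : ℂ) * exp (-(F t))).im :=
      im_exp_pos hn (by rw [norm_neg]; exact L.small t hts)
        (by rw [neg_im]; linarith [L.im_neg t hts him])
    refine LL_injOn_UH n h1 hBim ?_
    rw [← L.eq t1 (by linarith)]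
    show LL n (HH n F t1) = _
    rw [hH1, LL_conj (slit_of_im hBim.ne')]
    exact conj_eq_iff_im.2 hBL
  -- `-t = conj t1`
  have h2 : HH n F (-t) = B := by
    unfold HH; rw [L.odd t hts]; exact hb
  have h3 : HH n F ((starRingEnd ℂ) t1) = B := by
    unfold HH
    rw [L.real t1 (by linarith), exp_conj]
    have := congrArg (starRingEnd ℂ) hH1
    unfold HH at this
    rw [map_mul, conj_ofReal, conj_conj] at this
    exact this
  have h4 : -t = (starRingEnd ℂ) t1 := by
    rw [← M.JH (-t) (by rw [norm_neg]; linarith), h2, ← h3,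
      M.JH _ (by rw [norm_conj]; linarith)]
  have ht10 : t1 ≠ 0 := by rintro h0; rw [h0] at him1; simp at him1
  have ht0 : t ≠ 0 := by rintro h0; rw [h0] at him; simp at him
  have h5 : 1 / t = 1 / t1 + 1 := by
    rw [ht]; field_simp
  have h6 : (1 / t).re = -(1 / t1).re := by
    have : 1 / t = -(starRingEnd ℂ) (1 / t1) := by
      rw [map_div₀, map_one, ← h4]
      rw [div_neg, neg_neg]
    rw [this, neg_re, conj_re]
  have h7 : (1 / t).re = (1 / t1).re + 1 := by rw [h5, add_re, one_re]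
  have h8 : (1 / t).re = 1 / 2 := by linarith
  refine ⟨t, by linarith, ?_, ?_, h8⟩
  · have h9 : 0 < normSq t := normSq_pos.2 ht0
    rw [one_div, inv_re] at h8
    have h10 : t.re = 1 / 2 * normSq t := by
      rw [← h8]; field_simp
    rw [h10]; positivity
  · rw [zc_real]
    unfold zz
    rw [← hBdef, ← hb, exp_neg]
    unfold HH
    field_simp

/-- **isotropic end, `n > 1`.** -/
theorem iso (h : GermI n F) : n = 2 := by
  have hn := h.hn
  have hn0 : 0 < n := by linarith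
  have hnC : (n : ℂ) ≠ 0 := by exact_mod_cast hn0.ne'
  have hP := h.petal
  obtain ⟨S, r, hr, hSa, hSd, hST, hSH, hSk⟩ := hP.fatou
  have hreal : ∀ z ∈ D2 n, z.im = 0 → (S z).im = 0 :=
    hP.real (fun z hz => TT_real hn hz) h.HH_conj hSk
  have hcurve := curve hSa hSH (z := zc n) (θ1 := 2 * Real.pi / n)
    (fun θ h1 h2 => ⟨zc_an hn ⟨h1, h2⟩, by rw [zc_real]; exact (zz_mem hn ⟨h1, h2⟩).1⟩)
    (h.start hr)
  -- the point `n ^ 2`
  have hn2 : (n : ℂ) ^ 2 = ((n ^ 2 : ℝ) : ℂ) := by push_cast; rfl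
  have hmem : ((n ^ 2 : ℝ) : ℂ) ∈ D2 n := by
    refine ⟨?_, ?_, ?_⟩
    · rw [Complex.norm_real, Real.norm_of_nonneg (by positivity)]; nlinarith
    · left; rw [ofReal_re]; positivity
    · rw [arg_ofReal_of_nonneg (by positivity), abs_zero, zero_mul]; exact Real.pi_pos
  set Φ : ℂ → ℂ := fun w => S ((n : ℂ) ^ 2 / w) with hΦ
  have hdiv : HasDerivAt (fun w : ℂ => (n : ℂ) ^ 2 / w) (-(n : ℂ) ^ 2) 1 := by
    have := (hasDerivAt_inv (one_ne_zero : (1 : ℂ) ≠ 0)).const_mul ((n : ℂ) ^ 2)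
    refine (this.congr_deriv (by ring)).congr_of_eventuallyEq ?_
    exact Filter.Eventually.of_forall fun w => by simp [div_eq_mul_inv]
  have hΦd : HasDerivAt Φ (deriv S ((n ^ 2 : ℝ) : ℂ) * (-(n : ℂ) ^ 2)) 1 := by
    have h1 : HasDerivAt S (deriv S ((n ^ 2 : ℝ) : ℂ)) ((fun w : ℂ => (n : ℂ) ^ 2 / w) 1) := by
      show HasDerivAt S _ ((n : ℂ) ^ 2 / 1)
      rw [div_one, hn2]
      exact (hSa _ hmem).differentiableAt.hasDerivAt
    exact h1.comp 1 hdiv
  have hSim : (deriv S ((n ^ 2 : ℝ) : ℂ)).im = 0 := by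
    refine deriv_im_zero (hSa _ hmem) ?_
    have := continuous_ofReal.continuousAt.eventually_mem ((isOpen_D2 n).mem_nhds hmem)
    filter_upwards [this] with y hy
    exact hreal _ hy (ofReal_im y)
  set s := (deriv S ((n ^ 2 : ℝ) : ℂ)).re with hs
  have hsd : deriv S ((n ^ 2 : ℝ) : ℂ) = (s : ℂ) := by
    apply Complex.ext
    · simp [hs]
    · rw [hSim, ofReal_im]
  have hs0 : s ≠ 0 := by
    intro h0
    apply hSd _ hmem
    rw [hsd, h0, ofReal_zero]
  rw [hsd] at hΦd
  -- `Re Φ (wv θ) = 3/2`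
  have hre : ∀ θ ∈ Ioo 0 (2 * Real.pi / n), (Φ (wv n θ)).re = 3 / 2 := by
    intro θ hθ
    have h1 := hST _ (zz_mem hn hθ).1
    have h2 : Φ (wv n θ) = S (zz n θ) + 1 := h1
    have h3 := hcurve θ hθ.1 hθ.2
    rw [zc_real] at h3
    rw [h2, add_re, h3, one_re]
    norm_num
  have hw := wv_tendsto hn
  have hIoo := Ioo_mem hn
  have hlim : (Φ 1).re = 3 / 2 := by
    have h1 : Tendsto (fun θ => (Φ (wv n θ)).re) (𝓝[<] (2 * Real.pi / n)) (𝓝 (Φ 1).re) :=
      (continuous_re.tendsto _).comp (hΦd.continuousAt.tendsto.comp hw)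
    have h2 : Tendsto (fun θ => (Φ (wv n θ)).re) (𝓝[<] (2 * Real.pi / n)) (𝓝 (3 / 2)) :=
      tendsto_const_nhds.congr' (by filter_upwards [hIoo] with θ hθ; exact (hre θ hθ).symm)
    exact tendsto_nhds_unique h1 h2
  -- the slope
  have hsl : ContinuousAt (dslope Φ 1) 1 := continuousAt_dslope_same.2 hΦd.differentiableAt
  have h1 : Tendsto (fun θ => dslope Φ 1 (wv n θ) *
      (((‖zz n θ‖ ^ (1 / (n - 1)) : ℝ) : ℂ) * (wv n θ - 1))) (𝓝[<] (2 * Real.pi / n))
      (𝓝 (deriv Φ 1 * Complex.exp ((Real.pi / n : ℝ) * I))) := by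
    have := (hsl.tendsto.comp hw).mul (wv_asymp hn)
    rwa [dslope_same] at this
  have h2 : Tendsto (fun θ => (dslope Φ 1 (wv n θ) *
      (((‖zz n θ‖ ^ (1 / (n - 1)) : ℝ) : ℂ) * (wv n θ - 1))).re) (𝓝[<] (2 * Real.pi / n))
      (𝓝 (deriv Φ 1 * Complex.exp ((Real.pi / n : ℝ) * I)).re) :=
    (continuous_re.tendsto _).comp h1
  have h3 : Tendsto (fun θ => (dslope Φ 1 (wv n θ) *
      (((‖zz n θ‖ ^ (1 / (n - 1)) : ℝ) : ℂ) * (wv n θ - 1))).re) (𝓝[<] (2 * Real.pi / n))
      (𝓝 0) := by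
    refine tendsto_const_nhds.congr' ?_
    filter_upwards [hIoo] with θ hθ
    have e1 : dslope Φ 1 (wv n θ) * (((‖zz n θ‖ ^ (1 / (n - 1)) : ℝ) : ℂ) * (wv n θ - 1)) =
        ((‖zz n θ‖ ^ (1 / (n - 1)) : ℝ) : ℂ) * (Φ (wv n θ) - Φ 1) := by
      rw [← sub_smul_dslope Φ 1 (wv n θ), smul_eq_mul]
      ring
    rw [e1, re_ofReal_mul, sub_re, hre θ hθ, hlim, sub_self, mul_zero]
  have h4 := tendsto_nhds_unique h2 h3
  rw [hΦd.deriv, show (s : ℂ) * (-(n : ℂ) ^ 2) = ((s * (-n ^ 2) : ℝ) : ℂ) by push_cast; ring,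
    re_ofReal_mul, exp_ofReal_mul_I_re] at h4
  have h5 : Real.cos (Real.pi / n) = 0 := by
    rcases mul_eq_zero.1 h4 with h6 | h6
    · exfalso
      rcases mul_eq_zero.1 h6 with h7 | h7
      · exact hs0 h7
      · have : 0 < n ^ 2 := by positivity
        linarith
    · exact h6
  have hpi := Real.pi_pos
  have h6 : 0 < Real.pi / n := by positivity
  have h7 : Real.pi / n < Real.pi := by
    rw [div_lt_iff₀ hn0]; nlinarith
  rw [Real.cos_eq_zero_iff] at h5
  obtain ⟨k, hk⟩ := h5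
  have hk0 : (k : ℝ) = 0 := by
    have h8 : 0 < (2 * (k : ℝ) + 1) := by
      by_contra hcon
      push Not at hcon
      nlinarith
    have h9 : (2 * (k : ℝ) + 1) < 2 := by
      by_contra hcon
      push Not at hcon
      nlinarith
    have h10 : -1 < k := by
      have : (-1 : ℝ) < k := by linarith
      exact_mod_cast this
    have h11 : k < 1 := by
      have : (k : ℝ) < 1 := by linarith
      exact_mod_cast this
    have : k = 0 := by omega
    exact_mod_cast this
  rw [hk0, mul_zero, zero_add, one_mul] at hk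
  field_simp at hk
  exact hk.symm

end Crest.Agent.R102.Iso3297
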