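import Crest.Agent.R102.H4Defs_490

/-!
# Row 102, 1-D classification of ends: the isotropic end (helper799), part A

Geometry of `L(z) = N log z + log (1 - z)` on the upper half plane for every real `N > 0`
(here `N = 1/(n-1)`, `nn N = 1/n`).
-/

open Complex Set Filter Topology

noncomputable section

namespace Crest.Agent.R102.Iso799

open Crest.Agent.R102.H4 (UH L nn ell)

variable {N : ℝ}

local notation "cj" => (starRingEnd ℂ)

lemma nn_pos (hN : 0 < N) : 0 < nn N := by unfold nn; positivity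

lemma nn_lt_one (hN : 0 < N) : nn N < 1 := by
  unfold nn; rw [div_lt_one (by linarith)]; linarith

lemma isOpen_UH : IsOpen UH := isOpen_lt continuous_const Complex.continuous_im

lemma mem_slit_of_im {z : ℂ} (hz : z.im ≠ 0) : z ∈ slitPlane := by
  rw [Complex.mem_slitPlane_iff]; exact Or.inr hz

lemma arg_pos {z : ℂ} (hz : 0 < z.im) : 0 < arg z := by
  have h1 : 0 ≤ arg z := Complex.arg_nonneg_iff.2 hz.le
  rcases h1.lt_or_eq with h | h
  · exact h
  · exfalso
    have := (Complex.arg_eq_zero_iff.1 h.symm).2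
    exact hz.ne' this

lemma arg_lt {z : ℂ} (hz : z.im ≠ 0) : arg z < Real.pi :=
  Complex.arg_lt_pi_iff.2 (Or.inr hz)

lemma L_im (z : ℂ) : (L N z).im = N * arg z + arg (1 - z) := by
  unfold L
  simp [Complex.log_im]

lemma L_re (z : ℂ) : (L N z).re = N * Real.log ‖z‖ + Real.log ‖1 - z‖ := by
  unfold L
  simp [Complex.log_re]

/-- sine rule in the triangle `0, 1, u` -/
lemma sine_rule (u : ℂ) :
    ‖u‖ * Real.sin (arg u - arg (1 - u)) = Real.sin (-arg (1 - u)) := by
  have h1 := Complex.norm_mul_cos_arg u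
  have h2 := Complex.norm_mul_sin_arg u
  have h3 := Complex.norm_mul_cos_arg (1 - u)
  have h4 := Complex.norm_mul_sin_arg (1 - u)
  simp only [Complex.sub_re, Complex.sub_im, Complex.one_re, Complex.one_im] at h3 h4
  rw [Real.sin_sub, Real.sin_neg]
  have : ‖u‖ * (Real.sin (arg u) * Real.cos (arg (1 - u)) -
      Real.cos (arg u) * Real.sin (arg (1 - u))) =
      u.im * Real.cos (arg (1 - u)) - u.re * Real.sin (arg (1 - u)) := by
    rw [← h1, ← h2]; ring
  rw [this]
  have h5 : u.im = -(‖1 - u‖ * Real.sin (arg (1 - u))) := by linarith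
  have h6 : u.re = 1 - ‖1 - u‖ * Real.cos (arg (1 - u)) := by linarith
  rw [h5, h6]; ring

/-- `sin x / x` is decreasing -/
lemma sin_ratio {θ τ : ℝ} (hθ : 0 < θ) (hτ : 0 < τ) (h : θ + τ < Real.pi) :
    θ / (θ + τ) * Real.sin (θ + τ) < Real.sin θ := by
  have hx0 : (0 : ℝ) ∈ Icc 0 Real.pi := ⟨le_rfl, Real.pi_pos.le⟩
  have hy0 : θ + τ ∈ Icc 0 Real.pi := ⟨by linarith, h.le⟩
  have hne : (0 : ℝ) ≠ θ + τ := by linarith
  have ha : 0 < τ / (θ + τ) := by positivity
  have hb : 0 < θ / (θ + τ) := by positivity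
  have hab : τ / (θ + τ) + θ / (θ + τ) = 1 := by field_simp; ring
  have hs := strictConcaveOn_sin_Icc.2 hx0 hy0 hne ha hb hab
  simp only [smul_eq_mul, Real.sin_zero, mul_zero, zero_add] at hs
  have h0 : θ / (θ + τ) * (θ + τ) = θ := by field_simp
  rwa [h0] at hs

/-- key estimate -/
lemma K1 (hN : 0 < N) {u : ℂ} (hu : 0 < u.im) (h : (L N u).im ≤ 0) :
    nn N < ‖u‖ ∧ (N + 1) * arg u < Real.pi := by
  have hτ := arg_pos hu
  have hθ0 : 0 < -arg (1 - u) := by
    have : arg (1 - u) < 0 := Complex.arg_neg_iff.2 (by simpa using hu)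
    linarith
  have hθπ : -arg (1 - u) < Real.pi := by
    have := Complex.neg_pi_lt_arg (1 - u); linarith
  have hτπ := arg_lt (z := u) hu.ne'
  have hr : 0 < ‖u‖ := by
    rw [norm_pos_iff]; rintro rfl; simp at hu
  have hsr := sine_rule u
  rw [L_im] at h
  set τ := arg u
  set θ := -arg (1 - u) with hθ
  have hsub : τ - arg (1 - u) = θ + τ := by rw [hθ]; ring
  rw [hsub] at hsr
  have hNτ : N * τ ≤ θ := by rw [hθ]; linarith
  have hsum : θ + τ < Real.pi := by
    by_contra hcon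
    have h1 : 0 < Real.sin θ := Real.sin_pos_of_pos_of_lt_pi hθ0 hθπ
    have h2 : Real.sin (θ + τ) ≤ 0 := by
      have : Real.sin (θ + τ) = -Real.sin (θ + τ - Real.pi) := by
        rw [Real.sin_sub_pi]; ring
      rw [this]
      have := Real.sin_nonneg_of_nonneg_of_le_pi (x := θ + τ - Real.pi) (by linarith)
        (by linarith)
      linarith
    have : ‖u‖ * Real.sin (θ + τ) ≤ 0 := mul_nonpos_of_nonneg_of_nonpos hr.le h2
    linarith
  have hspos : 0 < Real.sin (θ + τ) := Real.sin_pos_of_pos_of_lt_pi (by linarith) hsum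
  have h3 := sin_ratio hθ0 hτ hsum
  rw [← hsr] at h3
  have h4 : θ / (θ + τ) < ‖u‖ := lt_of_mul_lt_mul_right h3 hspos.le
  refine ⟨?_, by nlinarith⟩
  refine lt_of_le_of_lt ?_ h4
  unfold nn
  rw [div_le_div_iff₀ (by linarith) (by linarith)]
  nlinarith

lemma L_conj {z : ℂ} (hz : z.im ≠ 0) : L N (cj z) = cj (L N z) := by
  unfold L
  have h1 : arg z ≠ Real.pi := (arg_lt hz).ne
  have h2 : arg (1 - z) ≠ Real.pi := (arg_lt (z := 1 - z) (by simpa using hz)).ne
  rw [Complex.log_conj _ h1]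
  have h3 : (1 : ℂ) - cj z = cj (1 - z) := by simp
  rw [h3, Complex.log_conj _ h2]
  simp

/-- the reflected point -/
lemma A4 (hN : 0 < N) {u : ℂ} (hu : 0 < u.im) (h : (L N u).im ≤ 0) :
    ((nn N : ℂ) ^ 2 / u).im < 0 ∧ (L N ((nn N : ℂ) ^ 2 / u)).im < 0 ∧
      -(N * arg u) < (L N ((nn N : ℂ) ^ 2 / u)).im := by
  obtain ⟨h1, h2⟩ := K1 hN hu h
  have hn := nn_pos hN
  have hu0 : u ≠ 0 := by rintro rfl; simp at hu
  have hr : 0 < ‖u‖ := norm_pos_iff.2 hu0
  set v := (nn N : ℂ) ^ 2 / u with hv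
  have hcv : cj v = ((nn N ^ 2 / ‖u‖ ^ 2 : ℝ) : ℂ) * u := by
    rw [hv, map_div₀, map_pow, Complex.conj_ofReal]
    have h3 : cj u ≠ 0 := by simpa using hu0
    rw [div_eq_iff h3]
    have : ((nn N ^ 2 / ‖u‖ ^ 2 : ℝ) : ℂ) * u * cj u =
        ((nn N ^ 2 / ‖u‖ ^ 2 : ℝ) : ℂ) * (u * cj u) := by ring
    have hr' : (‖u‖ : ℂ) ≠ 0 := by exact_mod_cast hr.ne'
    rw [this, Complex.mul_conj, Complex.normSq_eq_norm_sq]
    push_cast
    field_simp
  have hpos : 0 < nn N ^ 2 / ‖u‖ ^ 2 := by positivity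
  have him : 0 < (cj v).im := by
    rw [hcv, Complex.im_ofReal_mul]; positivity
  have hvim : v.im < 0 := by simpa using him
  have hnorm : ‖cj v‖ < nn N := by
    rw [hcv, norm_mul, Complex.norm_real, Real.norm_eq_abs, abs_of_pos hpos]
    rw [show nn N ^ 2 / ‖u‖ ^ 2 * ‖u‖ = nn N ^ 2 / ‖u‖ by field_simp]
    rw [div_lt_iff₀ hr]
    nlinarith
  have hpos2 : 0 < (L N (cj v)).im := by
    by_contra hcon
    have := (K1 hN him (not_lt.1 hcon)).1
    linarith
  have hLv : L N v = cj (L N (cj v)) := by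
    rw [← L_conj him.ne', Complex.conj_conj]
  refine ⟨hvim, ?_, ?_⟩
  · rw [hLv, Complex.conj_im]; linarith
  · rw [hLv, Complex.conj_im, L_im]
    have harg : arg (cj v) = arg u := by
      rw [hcv]; exact Complex.arg_real_mul u hpos
    rw [harg]
    have : arg (1 - cj v) < 0 := Complex.arg_neg_iff.2 (by simpa using him)
    linarith

lemma L_hasDerivAt {z : ℂ} (hz : z ∈ slitPlane) (hz1 : 1 - z ∈ slitPlane) :
    HasDerivAt (L N) ((N : ℂ) * z⁻¹ + -1 / (1 - z)) z := by
  unfold L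
  refine HasDerivAt.add ?_ ?_
  · exact (Complex.hasDerivAt_log hz).const_mul _
  · have h1 : HasDerivAt (fun z : ℂ => 1 - z) (-1) z := by
      simpa using (hasDerivAt_id z).const_sub (1 : ℂ)
    exact h1.clog hz1

lemma L_hasDerivAt' {z : ℂ} (hz : z.im ≠ 0) :
    HasDerivAt (L N) ((N : ℂ) * z⁻¹ + -1 / (1 - z)) z :=
  L_hasDerivAt (mem_slit_of_im hz) (mem_slit_of_im (by simpa using hz))

lemma L_deriv_im (hN : 0 < N) {z : ℂ} (hz' : 0 < z.im) :
    ((N : ℂ) * z⁻¹ + -1 / (1 - z)).im < 0 := by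
  have h3 : 0 < normSq z := by
    rw [normSq_pos]; rintro rfl; simp at hz'
  have h4 : 0 < normSq (1 - z) := by
    rw [normSq_pos]; intro h; have := congrArg Complex.im h; simp at this; linarith
  have h5 : ((N : ℂ) * z⁻¹).im = -(N * z.im / normSq z) := by
    rw [Complex.im_ofReal_mul, Complex.inv_im]; ring
  have h6 : (-1 / (1 - z)).im = -(z.im / normSq (1 - z)) := by
    rw [neg_div, one_div, Complex.neg_im, Complex.inv_im]; simp
  rw [Complex.add_im, h5, h6]
  have : 0 < N * z.im / normSq z := by positivity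
  have : 0 < z.im / normSq (1 - z) := by positivity
  linarith

/-- Noshiro-Warschawski -/
lemma L_injOn (hN : 0 < N) : Set.InjOn (L N) {z : ℂ | 0 < z.im} := by
  intro z1 h1 z2 h2 heq
  by_contra hne
  have h1' : 0 < z1.im := h1
  have h2' : 0 < z2.im := h2
  have hd : z2 - z1 ≠ 0 := sub_ne_zero.2 (Ne.symm hne)
  set γ : ℝ → ℂ := fun t => z1 + t * (z2 - z1) with hγ
  have hγim : ∀ t ∈ Icc (0:ℝ) 1, 0 < (γ t).im := by
    intro t ht
    have : (γ t).im = (1 - t) * z1.im + t * z2.im := by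
      simp [hγ]; ring
    rw [this]
    rcases eq_or_lt_of_le ht.1 with h | h
    · rw [← h]; simp; exact h1'
    · have : 0 ≤ (1 - t) * z1.im := mul_nonneg (by linarith [ht.2]) h1'.le
      have : 0 < t * z2.im := mul_pos h h2'
      linarith
  have hder : ∀ t ∈ Icc (0:ℝ) 1, HasDerivAt (fun t : ℝ => (L N (γ t) / (z2 - z1)).im)
      (((N : ℂ) * (γ t)⁻¹ + -1 / (1 - γ t)).im) t := by
    intro t ht
    have hγd : HasDerivAt γ (z2 - z1) t := by
      have := ((Complex.ofRealCLM.hasDerivAt (x := t)).mul_const (z2 - z1)).const_add z1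
      simpa [hγ] using this
    have h3 := (L_hasDerivAt' (N := N) (hγim t ht).ne').comp_of_eq t hγd rfl
    have h4 := (h3.div_const (z2 - z1))
    have h5 := (Complex.imCLM.hasFDerivAt.comp_hasDerivAt t h4)
    have h6 : (((N : ℂ) * (γ t)⁻¹ + -1 / (1 - γ t)) * (z2 - z1)) / (z2 - z1) =
        (N : ℂ) * (γ t)⁻¹ + -1 / (1 - γ t) := by field_simp
    rw [h6] at h5
    exact h5
  have hc : ContinuousOn (fun t : ℝ => (L N (γ t) / (z2 - z1)).im) (Icc 0 1) :=
    fun t ht => (hder t ht).continuousAt.continuousWithinAt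
  obtain ⟨c, hc1, hc2⟩ := exists_hasDerivAt_eq_slope _ _ (zero_lt_one' ℝ) hc
    (fun t ht => hder t (Ioo_subset_Icc_self ht))
  have h7 := L_deriv_im hN (hγim c (Ioo_subset_Icc_self hc1))
  rw [hc2] at h7
  simp [hγ, heq] at h7

end Crest.Agent.R102.Iso799
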