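import Crest.Agent.R102.IsoA_799

/-!
# Row 102, isotropic end (helper799), part B: explicit inverse of `L` on `{-π < Im ≤ 0}`
-/

open Complex Set Filter Topology

noncomputable section

namespace Crest.Agent.R102.Iso799

open Crest.Agent.R102.H4 (UH L nn ell)

variable {N : ℝ}

local notation "cj" => (starRingEnd ℂ)

/-- the point with angles `τ` at `0` and `A` at `1` -/
def UU (A τ : ℝ) : ℂ :=
  Complex.exp (((Real.log (Real.sin A) - Real.log (Real.sin (A + τ)) : ℝ) : ℂ) + τ * I)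

lemma one_sub_UU {A τ : ℝ} (hA : 0 < A) (hτ : 0 < τ) (h : A + τ < Real.pi) :
    1 - UU A τ = Complex.exp
      (((Real.log (Real.sin τ) - Real.log (Real.sin (A + τ)) : ℝ) : ℂ) + (-A : ℝ) * I) := by
  have s1 : 0 < Real.sin A := Real.sin_pos_of_pos_of_lt_pi hA (by linarith)
  have s2 : 0 < Real.sin τ := Real.sin_pos_of_pos_of_lt_pi hτ (by linarith)
  have s3 : 0 < Real.sin (A + τ) := Real.sin_pos_of_pos_of_lt_pi (by linarith) h
  have e1 : Real.exp (Real.log (Real.sin A) - Real.log (Real.sin (A + τ))) =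
      Real.sin A / Real.sin (A + τ) := by
    rw [Real.exp_sub, Real.exp_log s1, Real.exp_log s3]
  have e2 : Real.exp (Real.log (Real.sin τ) - Real.log (Real.sin (A + τ))) =
      Real.sin τ / Real.sin (A + τ) := by
    rw [Real.exp_sub, Real.exp_log s2, Real.exp_log s3]
  have hs : Real.sin (A + τ) = Real.sin A * Real.cos τ + Real.cos A * Real.sin τ :=
    Real.sin_add _ _
  unfold UU
  apply Complex.ext
  · simp only [Complex.sub_re, Complex.one_re, Complex.exp_re, Complex.add_re, Complex.ofReal_re,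
      Complex.mul_re, Complex.I_re, Complex.I_im, Complex.ofReal_im, Complex.add_im,
      Complex.mul_im, mul_zero, mul_one, sub_zero, add_zero, zero_add]
    rw [e1, e2, Real.cos_neg]
    field_simp
    rw [hs]; ring
  · simp only [Complex.sub_im, Complex.one_im, Complex.exp_im, Complex.add_re, Complex.ofReal_re,
      Complex.mul_re, Complex.I_re, Complex.I_im, Complex.ofReal_im, Complex.add_im,
      Complex.mul_im, mul_zero, mul_one, sub_zero, add_zero, zero_add]
    rw [e1, e2, Real.sin_neg]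
    field_simp
    ring

lemma log_UU {A τ : ℝ} (hτ : 0 < τ) (hτ' : τ < Real.pi) :
    Complex.log (UU A τ) =
      (((Real.log (Real.sin A) - Real.log (Real.sin (A + τ)) : ℝ) : ℂ) + τ * I) := by
  unfold UU
  apply Complex.log_exp <;> simp <;> linarith [Real.pi_pos]

lemma log_one_sub_UU {A τ : ℝ} (hA : 0 < A) (hτ : 0 < τ) (h : A + τ < Real.pi) :
    Complex.log (1 - UU A τ) =
      (((Real.log (Real.sin τ) - Real.log (Real.sin (A + τ)) : ℝ) : ℂ) + (-A : ℝ) * I) := by
  rw [one_sub_UU hA hτ h]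
  apply Complex.log_exp <;> simp <;> linarith [Real.pi_pos]

lemma UU_im {A τ : ℝ} (hτ : 0 < τ) (hτ' : τ < Real.pi) : 0 < (UU A τ).im := by
  unfold UU
  rw [Complex.exp_im]
  simp only [Complex.add_re, Complex.ofReal_re, Complex.mul_re, Complex.I_re, Complex.I_im,
    Complex.ofReal_im, Complex.add_im, Complex.mul_im, mul_zero, mul_one, sub_zero, add_zero,
    zero_add]
  have := Real.sin_pos_of_pos_of_lt_pi hτ hτ'
  positivity

/-- the real part of `L` along the curve `Im L = -φ` -/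
def hf (N φ τ : ℝ) : ℝ :=
  N * (Real.log (Real.sin (N * τ + φ)) - Real.log (Real.sin (N * τ + φ + τ))) +
    (Real.log (Real.sin τ) - Real.log (Real.sin (N * τ + φ + τ)))

lemma L_UU (hN : 0 < N) {φ τ : ℝ} (hφ : 0 ≤ φ) (hτ : 0 < τ) (h : (N + 1) * τ + φ < Real.pi) :
    0 < (UU (N * τ + φ) τ).im ∧ L N (UU (N * τ + φ) τ) = (hf N φ τ : ℂ) - φ * I := by
  have hNτ : 0 < N * τ := mul_pos hN hτ
  have hA : 0 < N * τ + φ := by linarith
  have h' : N * τ + φ + τ < Real.pi := by linarith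
  refine ⟨UU_im hτ (by linarith), ?_⟩
  unfold L
  rw [log_UU hτ (by linarith), log_one_sub_UU hA hτ h']
  unfold hf
  push_cast
  ring

lemma hf_cont (hN : 0 < N) {φ : ℝ} (hφ : 0 ≤ φ) :
    ContinuousOn (hf N φ) (Ioo 0 ((Real.pi - φ) / (N + 1))) := by
  have hN1 : 0 < N + 1 := by linarith
  intro τ hτ
  have h2 : (N + 1) * τ < Real.pi - φ := by
    have := (lt_div_iff₀ hN1).1 hτ.2; linarith
  have h0 := hτ.1
  have hNτ : 0 < N * τ := mul_pos hN h0
  have s1 : Real.sin (N * τ + φ) ≠ 0 :=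
    (Real.sin_pos_of_pos_of_lt_pi (by linarith) (by linarith)).ne'
  have s2 : Real.sin τ ≠ 0 := (Real.sin_pos_of_pos_of_lt_pi h0 (by linarith)).ne'
  have s3 : Real.sin (N * τ + φ + τ) ≠ 0 :=
    (Real.sin_pos_of_pos_of_lt_pi (by linarith) (by linarith)).ne'
  apply ContinuousAt.continuousWithinAt
  unfold hf
  have c1 : ContinuousAt (fun τ => Real.log (Real.sin (N * τ + φ))) τ :=
    ContinuousAt.log (by fun_prop) s1
  have c2 : ContinuousAt (fun τ => Real.log (Real.sin τ)) τ :=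
    ContinuousAt.log (by fun_prop) s2
  have c3 : ContinuousAt (fun τ => Real.log (Real.sin (N * τ + φ + τ))) τ :=
    ContinuousAt.log (by fun_prop) s3
  exact ((c1.sub c3).const_mul N).add (c2.sub c3)

lemma hf_top (hN : 0 < N) {φ : ℝ} (hφ : 0 ≤ φ) (hφπ : φ < Real.pi) :
    Tendsto (hf N φ) (𝓝[<] ((Real.pi - φ) / (N + 1))) atTop := by
  have hN1 : 0 < N + 1 := by linarith
  set τs := (Real.pi - φ) / (N + 1) with hτs
  have hs0 : 0 < τs := by rw [hτs]; apply div_pos <;> linarith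
  have hs1 : N * τs + φ + τs = Real.pi := by
    rw [hτs]; field_simp; ring
  have hNs : 0 < N * τs := mul_pos hN hs0
  have s1 : Real.sin (N * τs + φ) ≠ 0 :=
    (Real.sin_pos_of_pos_of_lt_pi (by linarith) (by linarith)).ne'
  have s2 : Real.sin τs ≠ 0 := (Real.sin_pos_of_pos_of_lt_pi hs0 (by linarith)).ne'
  have t1 : Tendsto (fun τ => N * Real.log (Real.sin (N * τ + φ)) + Real.log (Real.sin τ))
      (𝓝[<] τs) (𝓝 (N * Real.log (Real.sin (N * τs + φ)) + Real.log (Real.sin τs))) := by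
    have c1 : ContinuousAt (fun τ => Real.log (Real.sin (N * τ + φ))) τs :=
      ContinuousAt.log (by fun_prop) s1
    have c2 : ContinuousAt (fun τ => Real.log (Real.sin τ)) τs :=
      ContinuousAt.log (by fun_prop) s2
    exact ((c1.const_mul N).add c2).tendsto.mono_left nhdsWithin_le_nhds
  have t2 : Tendsto (fun τ => Real.sin (N * τ + φ + τ)) (𝓝[<] τs) (𝓝[>] 0) := by
    rw [tendsto_nhdsWithin_iff]
    constructor
    · have : ContinuousAt (fun τ => Real.sin (N * τ + φ + τ)) τs := by fun_prop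
      have h := this.tendsto
      rw [hs1, Real.sin_pi] at h
      exact h.mono_left nhdsWithin_le_nhds
    · have : ∀ᶠ τ in 𝓝[<] τs, τ ∈ Ioo 0 τs := Ioo_mem_nhdsLT hs0
      filter_upwards [this] with τ hτ
      have h1 : 0 < N * τ := mul_pos hN hτ.1
      have h2 : N * τ < N * τs := mul_lt_mul_of_pos_left hτ.2 hN
      exact Real.sin_pos_of_pos_of_lt_pi (by linarith [hτ.1]) (by linarith [hτ.2])
  have t3 : Tendsto (fun τ => -(N + 1) * Real.log (Real.sin (N * τ + φ + τ)))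
      (𝓝[<] τs) atTop := by
    have := Real.tendsto_log_nhdsGT_zero.comp t2
    exact this.const_mul_atBot_of_neg (by linarith)
  have t4 := t1.add_atTop t3
  refine t4.congr fun τ => ?_
  unfold hf; ring

lemma hf_bot {φ : ℝ} (hφ : 0 < φ) (hφπ : φ < Real.pi) :
    Tendsto (hf N φ) (𝓝[>] 0) atBot := by
  have s1 : Real.sin φ ≠ 0 := (Real.sin_pos_of_pos_of_lt_pi hφ hφπ).ne'
  have t1 : Tendsto (fun τ => N * (Real.log (Real.sin (N * τ + φ)) -
      Real.log (Real.sin (N * τ + φ + τ))) - Real.log (Real.sin (N * τ + φ + τ)))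
      (𝓝[>] 0) (𝓝 (N * (Real.log (Real.sin (N * 0 + φ)) -
      Real.log (Real.sin (N * 0 + φ + 0))) - Real.log (Real.sin (N * 0 + φ + 0)))) := by
    have c1 : ContinuousAt (fun τ => Real.log (Real.sin (N * τ + φ))) 0 :=
      ContinuousAt.log (by fun_prop) (by simpa using s1)
    have c3 : ContinuousAt (fun τ => Real.log (Real.sin (N * τ + φ + τ))) 0 :=
      ContinuousAt.log (by fun_prop) (by simpa using s1)
    exact (((c1.sub c3).const_mul N).sub c3).tendsto.mono_left nhdsWithin_le_nhds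
  have t2 : Tendsto (fun τ => Real.sin τ) (𝓝[>] 0) (𝓝[>] 0) := by
    rw [tendsto_nhdsWithin_iff]
    constructor
    · have h : Tendsto (fun τ => Real.sin τ) (𝓝 0) (𝓝 (Real.sin 0)) :=
        Real.continuous_sin.tendsto 0
      rw [Real.sin_zero] at h
      exact h.mono_left nhdsWithin_le_nhds
    · have : ∀ᶠ τ in 𝓝[>] (0 : ℝ), τ ∈ Ioo 0 Real.pi := Ioo_mem_nhdsGT Real.pi_pos
      filter_upwards [this] with τ hτ
      exact Real.sin_pos_of_pos_of_lt_pi hτ.1 hτ.2
  have t3 := Real.tendsto_log_nhdsGT_zero.comp t2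
  have t4 := t1.add_atBot t3
  refine t4.congr fun τ => ?_
  unfold hf; simp only [Function.comp]; ring

lemma sin_div (a : ℝ) : Tendsto (fun τ => Real.sin (a * τ) / τ) (𝓝[>] 0) (𝓝 a) := by
  have h1 : HasDerivAt (fun τ => Real.sin (a * τ)) (Real.cos (a * 0) * a) 0 := by
    have h2 : HasDerivAt (fun τ : ℝ => a * τ) a 0 := by
      simpa using (hasDerivAt_id (0 : ℝ)).const_mul a
    exact h2.sin
  rw [hasDerivAt_iff_tendsto_slope_zero] at h1
  simp only [mul_zero, Real.cos_zero, one_mul, zero_add, Real.sin_zero, sub_zero,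
    smul_eq_mul] at h1
  have h3 := h1.mono_left (nhdsWithin_mono (0 : ℝ) (fun x (hx : 0 < x) => (hx.ne' : x ≠ 0)))
  refine h3.congr fun τ => ?_
  rw [div_eq_inv_mul]

lemma hf_zero (hN : 0 < N) : Tendsto (hf N 0) (𝓝[>] 0) (𝓝 (ell N (nn N))) := by
  have hN1 : 0 < N + 1 := by linarith
  have r1 : Tendsto (fun τ => Real.sin (N * τ) / Real.sin ((N + 1) * τ)) (𝓝[>] 0)
      (𝓝 (N / (N + 1))) := by
    have := (sin_div N).div (sin_div (N + 1)) hN1.ne'
    refine this.congr' ?_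
    filter_upwards [self_mem_nhdsWithin] with τ hτ
    have hτ' : (0 : ℝ) < τ := hτ
    simp only [Pi.div_apply]
    field_simp
  have r2 : Tendsto (fun τ => Real.sin τ / Real.sin ((N + 1) * τ)) (𝓝[>] 0)
      (𝓝 (1 / (N + 1))) := by
    have := (sin_div 1).div (sin_div (N + 1)) hN1.ne'
    refine this.congr' ?_
    filter_upwards [self_mem_nhdsWithin] with τ hτ
    have hτ' : (0 : ℝ) < τ := hτ
    simp only [Pi.div_apply, one_mul]
    field_simp
  have l1 := (Real.continuousAt_log (x := N / (N + 1)) (by positivity)).tendsto.comp r1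
  have l2 := (Real.continuousAt_log (x := 1 / (N + 1)) (by positivity)).tendsto.comp r2
  have l3 := (l1.const_mul N).add l2
  have he : N * Real.log (N / (N + 1)) + Real.log (1 / (N + 1)) = ell N (nn N) := by
    unfold ell nn
    congr 2
    field_simp; ring
  rw [he] at l3
  refine l3.congr' ?_
  have h2 : ∀ᶠ τ in 𝓝[>] (0 : ℝ), τ ∈ Ioo 0 (Real.pi / (N + 1)) :=
    Ioo_mem_nhdsGT (by positivity)
  filter_upwards [h2] with τ hτ
  have h3 : (N + 1) * τ < Real.pi := by
    have := (lt_div_iff₀ hN1).1 hτ.2; linarith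
  have h0 := hτ.1
  have hNτ : 0 < N * τ := mul_pos hN h0
  have s1 : Real.sin (N * τ) ≠ 0 :=
    (Real.sin_pos_of_pos_of_lt_pi (by linarith) (by linarith)).ne'
  have s2 : Real.sin τ ≠ 0 := (Real.sin_pos_of_pos_of_lt_pi h0 (by linarith)).ne'
  have s3 : Real.sin ((N + 1) * τ) ≠ 0 :=
    (Real.sin_pos_of_pos_of_lt_pi (by positivity) h3).ne'
  simp only [Function.comp]
  rw [Real.log_div s1 s3, Real.log_div s2 s3]
  unfold hf
  rw [show N * τ + 0 + τ = (N + 1) * τ by ring, add_zero]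

lemma surj_neg (hN : 0 < N) {φ : ℝ} (x : ℝ) (hφ : 0 < φ) (hφπ : φ < Real.pi) :
    ∃ u : ℂ, 0 < u.im ∧ L N u = (x : ℂ) - φ * I := by
  have hN1 : 0 < N + 1 := by linarith
  have hs0 : 0 < (Real.pi - φ) / (N + 1) := by apply div_pos <;> linarith
  obtain ⟨τ1, h1, h1'⟩ := ((hf_bot hφ hφπ).eventually (eventually_le_atBot x)).and
    (Ioo_mem_nhdsGT hs0) |>.exists
  obtain ⟨τ2, h2, h2'⟩ := ((hf_top hN hφ.le hφπ).eventually (eventually_ge_atTop x)).and
    (Ioo_mem_nhdsLT hs0) |>.exists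
  obtain ⟨τ, hτ, hτx⟩ := isPreconnected_Ioo.intermediate_value h1' h2' (hf_cont hN hφ.le)
    ⟨h1, h2⟩
  have h3 : (N + 1) * τ + φ < Real.pi := by
    have := (lt_div_iff₀ hN1).1 hτ.2; linarith
  obtain ⟨h4, h5⟩ := L_UU hN hφ.le hτ.1 h3
  exact ⟨_, h4, by rw [h5, hτx]⟩

lemma surj_zero (hN : 0 < N) {x : ℝ} (hx : ell N (nn N) < x) :
    ∃ u : ℂ, 0 < u.im ∧ L N u = (x : ℂ) := by
  have hN1 : 0 < N + 1 := by linarith
  have hs0 : 0 < (Real.pi - 0) / (N + 1) := by
    rw [sub_zero]; exact div_pos Real.pi_pos hN1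
  obtain ⟨τ1, h1, h1'⟩ := ((hf_zero hN).eventually_lt_const hx).and
    (Ioo_mem_nhdsGT hs0) |>.exists
  obtain ⟨τ2, h2, h2'⟩ := ((hf_top hN le_rfl Real.pi_pos).eventually
    (eventually_ge_atTop x)).and (Ioo_mem_nhdsLT hs0) |>.exists
  obtain ⟨τ, hτ, hτx⟩ := isPreconnected_Ioo.intermediate_value h1' h2'
    (hf_cont hN le_rfl) ⟨h1.le, h2⟩
  have h3 : (N + 1) * τ + 0 < Real.pi := by
    have := (lt_div_iff₀ hN1).1 hτ.2; linarith
  obtain ⟨h4, h5⟩ := L_UU hN le_rfl hτ.1 h3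
  exact ⟨_, h4, by rw [h5, hτx]; simp⟩

end Crest.Agent.R102.Iso799
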