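import Crest.Agent.R102.IsoB_799

/-!
# Row 102, isotropic end (helper799), part C: the slit strip, the inverse `kap` and the self-map `T`
-/

open Complex Set Filter Topology Metric

noncomputable section

namespace Crest.Agent.R102.Iso799

open Crest.Agent.R102.H4 (UH L nn ell)

variable {N : ℝ}

local notation "cj" => (starRingEnd ℂ)

/-- a real-analytic germ with real derivative `d` preserves/reverses half planes -/
lemma sign_lemma {f : ℂ → ℂ} {x0 d : ℝ} (hf : HasStrictDerivAt f (d : ℂ) (x0 : ℂ))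
    (hreal : ∀ᶠ x : ℝ in 𝓝 x0, (f x).im = 0) (hd : d ≠ 0) :
    ∀ᶠ z in 𝓝 (x0 : ℂ), |(f z).im - d * z.im| ≤ |d| / 2 * |z.im| := by
  have h1 := hf.isLittleO.def (show (0 : ℝ) < |d| / 2 by positivity)
  have h2 : Tendsto (fun z : ℂ => (z, ((z.re : ℝ) : ℂ))) (𝓝 (x0 : ℂ))
      (𝓝 ((x0 : ℂ), (x0 : ℂ))) := by
    have : ContinuousAt (fun z : ℂ => (z, ((z.re : ℝ) : ℂ))) (x0 : ℂ) := by fun_prop
    simpa [ContinuousAt] using this
  have h3 : Tendsto (fun z : ℂ => z.re) (𝓝 (x0 : ℂ)) (𝓝 x0) := by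
    have : ContinuousAt (fun z : ℂ => z.re) (x0 : ℂ) := by fun_prop
    simpa [ContinuousAt] using this
  filter_upwards [h2.eventually h1, h3.eventually hreal] with z hz hz2
  have h4 : z - (z.re : ℂ) = z.im * I := by
    apply Complex.ext <;> simp
  have h5 : ‖z - (z.re : ℂ)‖ = |z.im| := by
    rw [h4, norm_mul, Complex.norm_I, mul_one, Complex.norm_real, Real.norm_eq_abs]
  rw [h5] at hz
  refine le_trans ?_ hz
  have h6 := Complex.abs_im_le_norm (f z - f (z.re : ℂ) -
    (ContinuousLinearMap.toSpanSingleton ℂ (d : ℂ)) (z - (z.re : ℂ)))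
  refine le_trans (le_of_eq ?_) h6
  congr 1
  simp [h4, hz2]
  ring

/-- the slit strip -/
def Sig (N : ℝ) : Set ℂ := {w | |w.im| < Real.pi ∧ (w.im = 0 → w.re < ell N (nn N))}

/-- the domain of the `b` variable (in the inverse coordinate) -/
def DD (N : ℝ) : Set ℂ := {u | (0 < u.im ∧ (L N u).im < 0) ∨
  (u.im = 0 ∧ nn N < u.re ∧ u.re < 1) ∨ (u.im < 0 ∧ 0 < (L N u).im)}

lemma L_ofReal {x : ℝ} (h0 : 0 < x) (h1 : x < 1) : L N (x : ℂ) = (ell N x : ℂ) := by
  unfold L ell
  rw [show (1 : ℂ) - (x : ℂ) = ((1 - x : ℝ) : ℂ) by push_cast; ring,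
    ← Complex.ofReal_log h0.le, ← Complex.ofReal_log (by linarith : (0:ℝ) ≤ 1 - x)]
  push_cast; ring

lemma ell_hasDerivAt {x : ℝ} (h0 : 0 < x) (h1 : x < 1) :
    HasDerivAt (ell N) (N * x⁻¹ + -1 / (1 - x)) x := by
  unfold ell
  refine HasDerivAt.add ?_ ?_
  · exact (Real.hasDerivAt_log h0.ne').const_mul _
  · have h2 : HasDerivAt (fun z : ℝ => 1 - z) (-1) x := by
      simpa using (hasDerivAt_id x).const_sub (1 : ℝ)
    exact h2.log (by linarith)

lemma ell_deriv_eq {x : ℝ} (h0 : 0 < x) (h1 : x < 1) :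
    N * x⁻¹ + -1 / (1 - x) = (N - (N + 1) * x) / (x * (1 - x)) := by
  have : 1 - x ≠ 0 := by linarith
  field_simp; ring

lemma ell_anti (hN : 0 < N) : StrictAntiOn (ell N) (Ico (nn N) 1) := by
  have hn := nn_pos hN
  apply strictAntiOn_of_deriv_neg (convex_Ico _ _)
  · intro x hx
    exact (ell_hasDerivAt (by linarith [hx.1]) hx.2).continuousAt.continuousWithinAt
  · intro x hx
    rw [interior_Ico] at hx
    have h0 : 0 < x := by linarith [hx.1]
    rw [(ell_hasDerivAt h0 hx.2).deriv, ell_deriv_eq h0 hx.2]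
    apply div_neg_of_neg_of_pos
    · have := hx.1
      unfold nn at this
      rw [div_lt_iff₀ (by linarith)] at this
      linarith
    · have : 0 < 1 - x := by linarith [hx.2]
      positivity

lemma ell_mono (hN : 0 < N) : StrictMonoOn (ell N) (Ioc 0 (nn N)) := by
  have hn1 := nn_lt_one hN
  apply strictMonoOn_of_deriv_pos (convex_Ioc _ _)
  · intro x hx
    exact (ell_hasDerivAt hx.1 (by linarith [hx.2])).continuousAt.continuousWithinAt
  · intro x hx
    rw [interior_Ioc] at hx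
    have h1 : x < 1 := by linarith [hx.2]
    rw [(ell_hasDerivAt hx.1 h1).deriv, ell_deriv_eq hx.1 h1]
    apply div_pos
    · have := hx.2
      unfold nn at this
      rw [lt_div_iff₀ (by linarith)] at this
      linarith
    · have : 0 < 1 - x := by linarith
      exact mul_pos hx.1 this

lemma L_im_gt (hN : 0 < N) {u : ℂ} (hu : 0 < u.im) : -Real.pi < (L N u).im := by
  rw [L_im]
  have := arg_pos hu
  have := Complex.neg_pi_lt_arg (1 - u)
  have : 0 < N * arg u := by positivity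
  linarith

lemma L_maps (hN : 0 < N) {u : ℂ} (hu : u ∈ DD N) : L N u ∈ Sig N := by
  rcases hu with ⟨h1, h2⟩ | ⟨h1, h2, h3⟩ | ⟨h1, h2⟩
  · refine ⟨?_, fun h => absurd h h2.ne⟩
    rw [abs_lt]; exact ⟨L_im_gt hN h1, by linarith [Real.pi_pos]⟩
  · have hx : u = (u.re : ℂ) := Complex.ext (by simp) (by simp [h1])
    have hn := nn_pos hN
    rw [hx, L_ofReal (by linarith) h3]
    refine ⟨by simp [Real.pi_pos], fun _ => ?_⟩
    rw [Complex.ofReal_re]
    exact ell_anti hN ⟨le_rfl, nn_lt_one hN⟩ ⟨h2.le, h3⟩ h2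
  · refine ⟨?_, fun h => absurd h h2.ne'⟩
    have h4 : 0 < (cj u).im := by simpa using h1
    have h5 := L_im_gt hN h4
    rw [L_conj h1.ne, Complex.conj_im] at h5
    rw [abs_lt]; exact ⟨by linarith [Real.pi_pos], by linarith⟩

lemma L_inj_DD (hN : 0 < N) : InjOn (L N) (DD N) := by
  have hn := nn_pos hN
  have hreal : ∀ u : ℂ, u.im = 0 → nn N < u.re → u.re < 1 → L N u = (ell N u.re : ℂ) := by
    intro u h1 h2 h3
    have hx : u = (u.re : ℂ) := Complex.ext (by simp) (by simp [h1])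
    rw [hx, L_ofReal (by linarith) h3, Complex.ofReal_re]
  intro u hu v hv huv
  rcases hu with ⟨h1, h2⟩ | ⟨h1, h2, h3⟩ | ⟨h1, h2⟩
  · rcases hv with ⟨k1, k2⟩ | ⟨k1, k2, k3⟩ | ⟨k1, k2⟩
    · exact L_injOn hN h1 k1 huv
    · rw [huv, hreal v k1 k2 k3, Complex.ofReal_im] at h2; exact absurd h2 (lt_irrefl _)
    · rw [huv] at h2; linarith
  · rcases hv with ⟨k1, k2⟩ | ⟨k1, k2, k3⟩ | ⟨k1, k2⟩
    · rw [← huv, hreal u h1 h2 h3, Complex.ofReal_im] at k2; exact absurd k2 (lt_irrefl _)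
    · rw [hreal u h1 h2 h3, hreal v k1 k2 k3] at huv
      have h4 := Complex.ofReal_injective huv
      have h5 := (ell_anti hN).injOn ⟨h2.le, h3⟩ ⟨k2.le, k3⟩ h4
      exact Complex.ext h5 (by rw [h1, k1])
    · rw [← huv, hreal u h1 h2 h3, Complex.ofReal_im] at k2; exact absurd k2 (lt_irrefl _)
  · rcases hv with ⟨k1, k2⟩ | ⟨k1, k2, k3⟩ | ⟨k1, k2⟩
    · rw [huv] at h2; linarith
    · rw [huv, hreal v k1 k2 k3, Complex.ofReal_im] at h2; exact absurd h2 (lt_irrefl _)
    · have h4 : 0 < (cj u).im := by simpa using h1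
      have k4 : 0 < (cj v).im := by simpa using k1
      have h5 : L N (cj u) = L N (cj v) := by rw [L_conj h1.ne, L_conj k1.ne, huv]
      have h6 := L_injOn hN h4 k4 h5
      have := congrArg cj h6
      simpa using this

lemma ell_surj (hN : 0 < N) {y : ℝ} (hy : y < ell N (nn N)) :
    ∃ x : ℝ, nn N < x ∧ x < 1 ∧ ell N x = y := by
  have hn := nn_pos hN
  have hn1 := nn_lt_one hN
  have ht : Tendsto (ell N) (𝓝[<] 1) atBot := by
    have h1 : Tendsto (fun x : ℝ => 1 - x) (𝓝[<] 1) (𝓝[>] 0) := by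
      rw [tendsto_nhdsWithin_iff]
      constructor
      · have : ContinuousAt (fun x : ℝ => 1 - x) 1 := by fun_prop
        have h := this.tendsto
        simp only [sub_self] at h
        exact h.mono_left nhdsWithin_le_nhds
      · filter_upwards [self_mem_nhdsWithin] with x hx
        have : x < 1 := hx
        exact (by linarith : (0 : ℝ) < 1 - x)
    have h2 := Real.tendsto_log_nhdsGT_zero.comp h1
    have h3 : Tendsto (fun x : ℝ => N * Real.log x) (𝓝[<] 1) (𝓝 (N * Real.log 1)) := by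
      have : ContinuousAt (fun x : ℝ => N * Real.log x) 1 :=
        (Real.continuousAt_log one_ne_zero).const_mul N
      exact this.tendsto.mono_left nhdsWithin_le_nhds
    exact h3.add_atBot h2
  obtain ⟨x1, h1, h1'⟩ := ((ht.eventually (eventually_le_atBot y)).and
    (Ioo_mem_nhdsLT hn1)).exists
  have hc : ContinuousOn (ell N) (Icc (nn N) x1) := fun x hx =>
    (ell_hasDerivAt (by linarith [hx.1]) (by linarith [hx.2, h1'.2])).continuousAt.continuousWithinAt
  obtain ⟨x, hx, hxy⟩ := intermediate_value_Icc' h1'.1.le hc ⟨h1, hy.le⟩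
  refine ⟨x, ?_, by linarith [hx.2, h1'.2], hxy⟩
  rcases eq_or_lt_of_le hx.1 with h | h
  · exfalso; rw [← h] at hxy; linarith
  · exact h

lemma L_surj (hN : 0 < N) {w : ℂ} (hw : w ∈ Sig N) : ∃ u ∈ DD N, L N u = w := by
  obtain ⟨h1, h2⟩ := hw
  rw [abs_lt] at h1
  rcases lt_trichotomy w.im 0 with h | h | h
  · obtain ⟨u, hu, hLu⟩ := surj_neg hN w.re (φ := -w.im) (by linarith) (by linarith)
    have hw' : L N u = w := by
      rw [hLu]; apply Complex.ext <;> simp
    exact ⟨u, Or.inl ⟨hu, by rw [hw']; exact h⟩, hw'⟩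
  · obtain ⟨x, hx1, hx2, hx3⟩ := ell_surj hN (h2 h)
    have hn := nn_pos hN
    refine ⟨(x : ℂ), Or.inr (Or.inl ⟨by simp, by simpa using hx1, by simpa using hx2⟩), ?_⟩
    rw [L_ofReal (by linarith) hx2, hx3]
    exact Complex.ext (by simp) (by simp [h])
  · obtain ⟨u, hu, hLu⟩ := surj_neg hN w.re (φ := w.im) (by linarith) (by linarith)
    have hw' : L N (cj u) = w := by
      rw [L_conj hu.ne', hLu]; apply Complex.ext <;> simp
    exact ⟨cj u, Or.inr (Or.inr ⟨by simpa using hu, by rw [hw']; exact h⟩), hw'⟩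

lemma DD_slit (hN : 0 < N) {u : ℂ} (hu : u ∈ DD N) : u ∈ slitPlane ∧ 1 - u ∈ slitPlane := by
  have hn := nn_pos hN
  rcases hu with ⟨h1, _⟩ | ⟨_, h2, h3⟩ | ⟨h1, _⟩
  · exact ⟨mem_slit_of_im h1.ne', mem_slit_of_im (by simpa using h1.ne')⟩
  · exact ⟨Or.inl (by linarith), Or.inl (by simpa using h3)⟩
  · exact ⟨mem_slit_of_im h1.ne, mem_slit_of_im (by simpa using h1.ne)⟩

lemma L_analyticAt {z : ℂ} (hz : z ∈ slitPlane) (hz1 : 1 - z ∈ slitPlane) :
    AnalyticAt ℂ (L N) z := by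
  unfold L
  exact (analyticAt_const.mul (analyticAt_clog hz)).add
    ((analyticAt_const.sub analyticAt_id).clog hz1)

lemma isOpen_DD (hN : 0 < N) : IsOpen (DD N) := by
  rw [isOpen_iff_mem_nhds]
  intro u hu
  have hn := nn_pos hN
  obtain ⟨s1, s2⟩ := DD_slit hN hu
  have hc : ContinuousAt (fun z => (L N z).im) u :=
    Complex.continuous_im.continuousAt.comp (L_analyticAt s1 s2).continuousAt
  rcases hu with ⟨h1, h2⟩ | ⟨h1, h2, h3⟩ | ⟨h1, h2⟩
  · filter_upwards [(isOpen_lt continuous_const Complex.continuous_im).mem_nhds h1,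
      hc.eventually_lt_const h2] with z hz1 hz2
    exact Or.inl ⟨hz1, hz2⟩
  · have hx : u = (u.re : ℂ) := Complex.ext (by simp) (by simp [h1])
    set x := u.re with hxdef
    have hx0 : 0 < x := by linarith
    have hd : N * x⁻¹ + -1 / (1 - x) < 0 := by
      rw [ell_deriv_eq hx0 h3]
      apply div_neg_of_neg_of_pos
      · have := h2
        unfold nn at this
        rw [div_lt_iff₀ (by linarith)] at this
        linarith
      · have : 0 < 1 - x := by linarith
        positivity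
    have hsd : HasStrictDerivAt (L N) ((N * x⁻¹ + -1 / (1 - x) : ℝ) : ℂ) (x : ℂ) := by
      rw [hx] at s1 s2
      have h4 := (L_analyticAt (N := N) s1 s2).hasStrictDerivAt
      rw [(L_hasDerivAt s1 s2).deriv] at h4
      have h5 : ((N * x⁻¹ + -1 / (1 - x) : ℝ) : ℂ) =
          (N : ℂ) * (x : ℂ)⁻¹ + -1 / (1 - (x : ℂ)) := by push_cast; rfl
      rw [h5]; exact h4
    have hreal : ∀ᶠ y : ℝ in 𝓝 x, (L N y).im = 0 := by
      filter_upwards [Ioo_mem_nhds hx0 h3] with y hy
      rw [L_ofReal hy.1 hy.2, Complex.ofReal_im]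
    have h5 := sign_lemma hsd hreal hd.ne
    rw [hx]
    have h6 : ∀ᶠ z in 𝓝 (x : ℂ), nn N < z.re ∧ z.re < 1 := by
      have hcr : ContinuousAt (fun z : ℂ => z.re) (x : ℂ) := by fun_prop
      exact (hcr.eventually_const_lt (by simpa using h2)).and
        (hcr.eventually_lt_const (by simpa using h3))
    filter_upwards [h5, h6] with z hz hz2
    rw [abs_of_neg hd] at hz
    set d := N * x⁻¹ + -1 / (1 - x)
    rcases lt_trichotomy z.im 0 with h | h | h
    · refine Or.inr (Or.inr ⟨h, ?_⟩)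
      rw [abs_of_neg h, abs_le] at hz
      nlinarith [mul_pos_of_neg_of_neg hd h]
    · exact Or.inr (Or.inl ⟨h, hz2.1, hz2.2⟩)
    · refine Or.inl ⟨h, ?_⟩
      rw [abs_of_pos h, abs_le] at hz
      nlinarith [mul_neg_of_neg_of_pos hd h]
  · filter_upwards [(isOpen_lt Complex.continuous_im continuous_const).mem_nhds h1,
      hc.eventually_const_lt h2] with z hz1 hz2
    exact Or.inr (Or.inr ⟨hz1, hz2⟩)

end Crest.Agent.R102.Iso799
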