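import Crest.Agent.R102.IsoC_799

/-!
# Row 102, isotropic end (helper799), part D: the self-map `T` of the slit strip, its iterates
-/

open Complex Set Filter Topology Metric

noncomputable section

namespace Crest.Agent.R102.Iso799

open Crest.Agent.R102.H4 (UH L nn ell)

variable {N : ℝ}

local notation "cj" => (starRingEnd ℂ)

def kap (N : ℝ) (w : ℂ) : ℂ := Function.invFunOn (L N) (DD N) w

lemma kap_mem (hN : 0 < N) {w : ℂ} (hw : w ∈ Sig N) : kap N w ∈ DD N := by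
  obtain ⟨u, hu, h⟩ := L_surj hN hw
  exact Function.invFunOn_mem ⟨u, hu, h⟩

lemma L_kap (hN : 0 < N) {w : ℂ} (hw : w ∈ Sig N) : L N (kap N w) = w := by
  obtain ⟨u, hu, h⟩ := L_surj hN hw
  exact Function.invFunOn_eq ⟨u, hu, h⟩

lemma kap_eq (hN : 0 < N) {u w : ℂ} (hu : u ∈ DD N) (h : L N u = w) : kap N w = u := by
  have hw : w ∈ Sig N := h ▸ L_maps hN hu
  exact L_inj_DD hN (kap_mem hN hw) hu (by rw [L_kap hN hw, h])

lemma isOpen_Sig (N : ℝ) : IsOpen (Sig N) := by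
  have h : Sig N = {w | |w.im| < Real.pi} ∩ ({w | w.im ≠ 0} ∪ {w : ℂ | w.re < ell N (nn N)}) := by
    ext w
    constructor
    · rintro ⟨h1, h2⟩
      refine ⟨h1, ?_⟩
      by_cases h : w.im = 0
      · exact Or.inr (h2 h)
      · exact Or.inl h
    · rintro ⟨h1, h2⟩
      refine ⟨h1, fun h => ?_⟩
      rcases h2 with h3 | h3
      · exact absurd h h3
      · exact h3
  rw [h]
  refine (isOpen_lt (by fun_prop) continuous_const).inter (IsOpen.union ?_ ?_)
  · exact isOpen_ne_fun Complex.continuous_im continuous_const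
  · exact isOpen_lt Complex.continuous_re continuous_const

lemma dL_eq {z : ℂ} (h0 : z ≠ 0) (h1 : 1 - z ≠ 0) :
    (N : ℂ) * z⁻¹ + -1 / (1 - z) = (N - (N + 1) * z) / (z * (1 - z)) := by
  field_simp; ring

lemma dL_ne (hN : 0 < N) {z : ℂ} (h0 : z ≠ 0) (h1 : 1 - z ≠ 0) (hz : z ≠ (nn N : ℂ)) :
    (N : ℂ) * z⁻¹ + -1 / (1 - z) ≠ 0 := by
  rw [dL_eq h0 h1]
  refine div_ne_zero ?_ (mul_ne_zero h0 h1)
  intro h
  apply hz
  have hN1 : (N : ℂ) + 1 ≠ 0 := by
    have : (N + 1 : ℝ) ≠ 0 := by linarith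
    exact_mod_cast this
  unfold nn
  push_cast
  rw [eq_div_iff hN1]
  linear_combination -h

lemma DD_ne {u : ℂ} (hu : u ∈ DD N) : u ≠ (nn N : ℂ) := by
  rintro rfl
  rcases hu with ⟨h1, _⟩ | ⟨_, h2, _⟩ | ⟨h1, _⟩
  · simp at h1
  · simp at h2
  · simp at h1

lemma slit_ne {z : ℂ} (hz : z ∈ slitPlane) : z ≠ 0 := Complex.slitPlane_ne_zero hz

lemma kap_hasDerivAt (hN : 0 < N) {w : ℂ} (hw : w ∈ Sig N) :
    HasDerivAt (kap N) ((N : ℂ) * (kap N w)⁻¹ + -1 / (1 - kap N w))⁻¹ w := by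
  have hu := kap_mem hN hw
  have hLu := L_kap hN hw
  obtain ⟨s1, s2⟩ := DD_slit hN hu
  set u := kap N w with hudef
  have hne := dL_ne hN (slit_ne s1) (slit_ne s2) (DD_ne hu)
  have hs : HasStrictDerivAt (L N) ((N : ℂ) * u⁻¹ + -1 / (1 - u)) u := by
    have h := (L_analyticAt (N := N) s1 s2).hasStrictDerivAt
    rwa [(L_hasDerivAt s1 s2).deriv] at h
  set J := hs.localInverse (L N) _ u hne with hJ
  have hJd : HasStrictDerivAt J ((N : ℂ) * u⁻¹ + -1 / (1 - u))⁻¹ (L N u) := hs.to_localInverse hne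
  have hJu : J (L N u) = u := by
    have := (hs.eventually_left_inverse hne).self_of_nhds
    exact this
  have hJr : ∀ᶠ v in 𝓝 (L N u), L N (J v) = v := hs.eventually_right_inverse hne
  have hJm : ∀ᶠ v in 𝓝 (L N u), J v ∈ DD N := by
    have hc : ContinuousAt J (L N u) := hJd.hasDerivAt.continuousAt
    apply hc.eventually_mem
    rw [hJu]
    exact (isOpen_DD hN).mem_nhds hu
  rw [hLu] at hJd hJr hJm
  refine hJd.hasDerivAt.congr_of_eventuallyEq ?_
  filter_upwards [hJr, hJm] with v h1 h2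
  exact kap_eq hN h2 h1

lemma conj_DD {u : ℂ} (hu : u ∈ DD N) : cj u ∈ DD N := by
  rcases hu with ⟨h1, h2⟩ | ⟨h1, h2, h3⟩ | ⟨h1, h2⟩
  · refine Or.inr (Or.inr ⟨by simpa using h1, ?_⟩)
    rw [L_conj h1.ne', Complex.conj_im]; linarith
  · exact Or.inr (Or.inl ⟨by simpa using h1, by simpa using h2, by simpa using h3⟩)
  · refine Or.inl ⟨by simpa using h1, ?_⟩
    rw [L_conj h1.ne, Complex.conj_im]; linarith

/-- everything about the reflected point -/
lemma refl_facts (hN : 0 < N) {u : ℂ} (hu : u ∈ DD N) :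
    let v := (nn N : ℂ) ^ 2 / u
    v ∈ slitPlane ∧ 1 - v ∈ slitPlane ∧ v ≠ (nn N : ℂ) ∧ L N v ∈ Sig N := by
  have key : ∀ u : ℂ, 0 < u.im → (L N u).im < 0 → let v := (nn N : ℂ) ^ 2 / u
      v.im < 0 ∧ L N v ∈ Sig N := by
    intro u h1 h2
    obtain ⟨k1, k2, k3⟩ := A4 hN h1 h2.le
    refine ⟨k1, ?_, fun h => absurd h k2.ne⟩
    have k4 := (K1 hN h1 h2.le).2
    have k5 := arg_pos h1
    rw [abs_lt]
    exact ⟨by nlinarith, by linarith [Real.pi_pos]⟩
  have hn := nn_pos hN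
  intro v
  rcases hu with ⟨h1, h2⟩ | ⟨h1, h2, h3⟩ | ⟨h1, h2⟩
  · obtain ⟨k1, k2⟩ := key u h1 h2
    refine ⟨mem_slit_of_im k1.ne, mem_slit_of_im (by simpa using k1.ne), ?_, k2⟩
    intro h; have := congrArg Complex.im h; simp only [Complex.ofReal_im] at this
    exact k1.ne this
  · have hx : u = (u.re : ℂ) := Complex.ext (by simp) (by simp [h1])
    have hx0 : 0 < u.re := by linarith
    have hv : v = ((nn N ^ 2 / u.re : ℝ) : ℂ) := by
      show (nn N : ℂ) ^ 2 / u = _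
      rw [hx]; push_cast; rfl
    have hv0 : 0 < nn N ^ 2 / u.re := by positivity
    have hv1 : nn N ^ 2 / u.re < nn N := by
      rw [div_lt_iff₀ hx0]; nlinarith
    have hv2 : nn N ^ 2 / u.re < 1 := by linarith [nn_lt_one hN]
    rw [hv]
    refine ⟨Or.inl (by rw [Complex.ofReal_re]; exact hv0), Or.inl (by
      rw [Complex.sub_re, Complex.one_re, Complex.ofReal_re]; linarith), ?_, ?_⟩
    · intro h; exact hv1.ne (Complex.ofReal_injective h)
    · rw [L_ofReal hv0 hv2]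
      refine ⟨by simp [Real.pi_pos], fun _ => ?_⟩
      rw [Complex.ofReal_re]
      exact ell_mono hN ⟨hv0, hv1.le⟩ ⟨hn, le_rfl⟩ hv1
  · have h1' : 0 < (cj u).im := by simpa using h1
    have h2' : (L N (cj u)).im < 0 := by rw [L_conj h1.ne, Complex.conj_im]; linarith
    obtain ⟨k1, k2⟩ := key (cj u) h1' h2'
    have hcv : (nn N : ℂ) ^ 2 / cj u = cj v := by
      show _ = cj ((nn N : ℂ) ^ 2 / u)
      rw [map_div₀, map_pow, Complex.conj_ofReal]
    rw [hcv] at k1 k2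
    have hv : 0 < v.im := by simpa using k1
    refine ⟨mem_slit_of_im hv.ne', mem_slit_of_im (by simpa using hv.ne'), ?_, ?_⟩
    · intro h; have := congrArg Complex.im h; simp only [Complex.ofReal_im] at this
      exact hv.ne' this
    · rw [L_conj hv.ne'] at k2
      obtain ⟨m1, m2⟩ := k2
      exact ⟨by simpa using m1, by simpa using m2⟩

/-- the self-map of the slit strip -/
def T (N : ℝ) (w : ℂ) : ℂ := L N ((nn N : ℂ) ^ 2 / kap N w)

lemma T_mem (hN : 0 < N) {w : ℂ} (hw : w ∈ Sig N) : T N w ∈ Sig N :=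
  (refl_facts hN (kap_mem hN hw)).2.2.2

lemma T_hasDerivAt (hN : 0 < N) {w : ℂ} (hw : w ∈ Sig N) :
    ∃ d : ℂ, d ≠ 0 ∧ HasDerivAt (T N) d w := by
  have hu := kap_mem hN hw
  obtain ⟨s1, s2⟩ := DD_slit hN hu
  obtain ⟨r1, r2, r3, -⟩ := refl_facts hN hu
  have hk := kap_hasDerivAt hN hw
  have hu0 := slit_ne s1
  have hn : (nn N : ℂ) ≠ 0 := by exact_mod_cast (nn_pos hN).ne'
  have h1 : HasDerivAt (fun w => (nn N : ℂ) ^ 2 / kap N w)
      (-((nn N : ℂ) ^ 2 * ((N : ℂ) * (kap N w)⁻¹ + -1 / (1 - kap N w))⁻¹) / (kap N w) ^ 2) w := by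
    have := (hasDerivAt_const w ((nn N : ℂ) ^ 2)).fun_div hk hu0
    simpa using this
  have h2 := (L_hasDerivAt (N := N) r1 r2).comp w h1
  refine ⟨_, ?_, h2⟩
  refine mul_ne_zero (dL_ne hN (slit_ne r1) (slit_ne r2) r3) ?_
  refine div_ne_zero (neg_ne_zero.2 (mul_ne_zero (pow_ne_zero 2 hn) (inv_ne_zero ?_)))
    (pow_ne_zero 2 hu0)
  exact dL_ne hN hu0 (slit_ne s2) (DD_ne hu)

lemma iter_mem (hN : 0 < N) (k : ℕ) {w : ℂ} (hw : w ∈ Sig N) : (T N)^[k] w ∈ Sig N := by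
  induction k with
  | zero => exact hw
  | succ k ih => rw [Function.iterate_succ_apply']; exact T_mem hN ih

lemma iter_hasDerivAt (hN : 0 < N) (k : ℕ) {w : ℂ} (hw : w ∈ Sig N) :
    ∃ d : ℂ, d ≠ 0 ∧ HasDerivAt ((T N)^[k]) d w := by
  induction k with
  | zero => exact ⟨1, one_ne_zero, by simpa using hasDerivAt_id w⟩
  | succ k ih =>
    obtain ⟨d, hd, h⟩ := ih
    obtain ⟨e, he, h'⟩ := T_hasDerivAt hN (iter_mem hN k hw)
    refine ⟨e * d, mul_ne_zero he hd, ?_⟩
    rw [Function.iterate_succ']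
    exact h'.comp w h

/-- the square root of `m - w` -/
def P (N : ℝ) (w : ℂ) : ℂ := Complex.exp (Complex.log ((ell N (nn N) : ℂ) - w) / 2)

lemma sub_slit {w : ℂ} (hw : w ∈ Sig N) : (ell N (nn N) : ℂ) - w ∈ slitPlane := by
  by_cases h : w.im = 0
  · exact Or.inl (by rw [Complex.sub_re, Complex.ofReal_re]; linarith [hw.2 h])
  · exact Or.inr (by simpa using h)

lemma P_sq {w : ℂ} (hw : w ∈ Sig N) : P N w ^ 2 = (ell N (nn N) : ℂ) - w := by
  unfold P
  rw [sq, ← Complex.exp_add, add_halves, Complex.exp_log (slit_ne (sub_slit hw))]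

lemma re_exp_half {z : ℂ} (hz : z ∈ slitPlane) : 0 < (Complex.exp (Complex.log z / 2)).re := by
  rw [Complex.exp_re]
  apply mul_pos (Real.exp_pos _)
  have h1 : (Complex.log z / 2).im = arg z / 2 := by
    rw [show (Complex.log z / 2) = Complex.log z / ((2 : ℝ) : ℂ) by norm_num,
      Complex.div_ofReal_im, Complex.log_im]
  rw [h1]
  apply Real.cos_pos_of_mem_Ioo
  have h2 := Complex.neg_pi_lt_arg z
  have h3 := (Complex.mem_slitPlane_iff_arg.1 hz).1
  have h4 := lt_of_le_of_ne (Complex.arg_le_pi z) h3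
  exact ⟨by linarith, by linarith⟩

lemma P_re {w : ℂ} (hw : w ∈ Sig N) : 0 < (P N w).re := re_exp_half (sub_slit hw)

lemma P_ne (w : ℂ) : P N w ≠ 0 := Complex.exp_ne_zero _

lemma P_hasDerivAt {w : ℂ} (hw : w ∈ Sig N) : ∃ d : ℂ, d ≠ 0 ∧ HasDerivAt (P N) d w := by
  have h1 : HasDerivAt (fun w => (ell N (nn N) : ℂ) - w) (-1) w := by
    simpa using (hasDerivAt_id w).const_sub (ell N (nn N) : ℂ)
  have h2 := ((h1.clog (sub_slit hw)).div_const 2).cexp
  refine ⟨_, ?_, h2⟩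
  refine mul_ne_zero (Complex.exp_ne_zero _) (div_ne_zero (div_ne_zero (by norm_num)
    (slit_ne (sub_slit hw))) (by norm_num))

lemma PT_differentiableOn (hN : 0 < N) (k : ℕ) :
    DifferentiableOn ℂ (fun z => P N ((T N)^[k] z)) (Sig N) := by
  intro z hz
  obtain ⟨d, _, h⟩ := iter_hasDerivAt hN k hz
  obtain ⟨e, _, h'⟩ := P_hasDerivAt (iter_mem hN k hz)
  exact (h'.comp z h).differentiableAt.differentiableWithinAt

/-- Schwarz lemma for maps into the right half plane -/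
lemma schwarz_half {h : ℂ → ℂ} {z0 : ℂ} {r : ℝ} (hr : 0 < r)
    (hd : DifferentiableOn ℂ h (ball z0 r)) (hpos : ∀ z ∈ ball z0 r, 0 < (h z).re) :
    ∀ z ∈ ball z0 (r / 2), ‖h z‖ ≤ 3 * ‖h z0‖ := by
  have hz0 : z0 ∈ ball z0 r := mem_ball_self hr
  have hp0 := hpos z0 hz0
  have hden : ∀ z ∈ ball z0 r, h z + cj (h z0) ≠ 0 := by
    intro z hz h0
    have := congrArg Complex.re h0
    simp at this
    linarith [hpos z hz]
  set g : ℂ → ℂ := fun z => (h z - h z0) / (h z + cj (h z0)) with hg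
  have hg0 : g z0 = 0 := by simp [hg]
  have hgd : DifferentiableOn ℂ g (ball z0 r) :=
    (hd.sub_const _).div (hd.add_const _) hden
  have hgm : MapsTo g (ball z0 r) (ball (g z0) 1) := by
    intro z hz
    rw [hg0, mem_ball_zero_iff]
    simp only [hg]
    rw [norm_div, div_lt_one (norm_pos_iff.2 (hden z hz))]
    have h1 : ‖h z - h z0‖ ^ 2 < ‖h z + cj (h z0)‖ ^ 2 := by
      rw [← Complex.normSq_eq_norm_sq, ← Complex.normSq_eq_norm_sq, Complex.normSq_apply,
        Complex.normSq_apply]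
      simp
      nlinarith [mul_pos (hpos z hz) hp0]
    exact lt_of_pow_lt_pow_left₀ 2 (norm_nonneg _) h1
  intro z hz
  have hz' : z ∈ ball z0 r := ball_subset_ball (by linarith) hz
  have h1 := Complex.dist_le_div_mul_dist_of_mapsTo_ball hgd
    (hgm.mono_right ball_subset_closedBall) hz'
  rw [hg0, dist_zero_right] at h1
  have h2 : ‖g z‖ ≤ 1 / 2 := by
    refine h1.trans ?_
    have : dist z z0 ≤ r / 2 := (mem_ball.1 hz).le
    calc 1 / r * dist z z0 ≤ 1 / r * (r / 2) := by gcongr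
      _ = 1 / 2 := by field_simp
  simp only [hg] at h2
  rw [norm_div, div_le_iff₀ (norm_pos_iff.2 (hden z hz'))] at h2
  have h3 : ‖h z + cj (h z0)‖ ≤ ‖h z - h z0‖ + (‖h z0‖ + ‖h z0‖) := by
    have : h z + cj (h z0) = (h z - h z0) + (h z0 + cj (h z0)) := by ring
    rw [this]
    refine (norm_add_le _ _).trans ?_
    gcongr
    refine (norm_add_le _ _).trans ?_
    rw [Complex.norm_conj]
  have h4 : ‖h z - h z0‖ ≤ 2 * ‖h z0‖ := by linarith
  have h5 : ‖h z‖ ≤ ‖h z - h z0‖ + ‖h z0‖ := by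
    have : h z = (h z - h z0) + h z0 := by ring
    calc ‖h z‖ = ‖(h z - h z0) + h z0‖ := by rw [← this]
      _ ≤ _ := norm_add_le _ _
  linarith

lemma PT_bound (hN : 0 < N) {z0 : ℂ} {r : ℝ} (hr : 0 < r) (hb : ball z0 r ⊆ Sig N) (k : ℕ) :
    ∀ z ∈ ball z0 (r / 2), ‖P N ((T N)^[k] z)‖ ≤ 3 * ‖P N ((T N)^[k] z0)‖ :=
  schwarz_half hr ((PT_differentiableOn hN k).mono hb)
    (fun z hz => P_re (iter_mem hN k (hb hz)))

lemma Sig_preconnected (N : ℝ) : IsPreconnected (Sig N) := by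
  have h : StarConvex ℝ (((ell N (nn N) - 1 : ℝ)) : ℂ) (Sig N) := by
    intro w hw a b _ hb hab
    have him : (a • (((ell N (nn N) - 1 : ℝ)) : ℂ) + b • w).im = b * w.im := by simp
    have hre : (a • (((ell N (nn N) - 1 : ℝ)) : ℂ) + b • w).re =
        a * (ell N (nn N) - 1) + b * w.re := by simp
    refine ⟨?_, fun h0 => ?_⟩
    · rw [him, abs_mul, abs_of_nonneg hb]
      have : b ≤ 1 := by linarith
      calc b * |w.im| ≤ 1 * |w.im| := by gcongr
        _ < Real.pi := by rw [one_mul]; exact hw.1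
    · rw [him] at h0
      rw [hre]
      rcases mul_eq_zero.1 h0 with h1 | h1
      · rw [h1]; rw [h1] at hab
        have : a = 1 := by linarith
        rw [this]; linarith
      · have := hw.2 h1
        rcases eq_or_lt_of_le hb with h2 | h2
        · rw [← h2] at hab ⊢
          have : a = 1 := by linarith
          rw [this]; linarith
        · have h3 : b * w.re < b * ell N (nn N) := mul_lt_mul_of_pos_left this h2
          have h4 : ell N (nn N) = a * ell N (nn N) + b * ell N (nn N) := by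
            rw [← add_mul, hab, one_mul]
          nlinarith
  have hne : ((ell N (nn N) - 1 : ℝ) : ℂ) ∈ Sig N := ⟨by
    simp [Real.pi_pos], by simp⟩
  exact (h.isPathConnected hne).isConnected.isPreconnected

lemma conv_all (hN : 0 < N) {z0 : ℂ} (hz0 : z0 ∈ Sig N)
    (h0 : Tendsto (fun k => P N ((T N)^[k] z0)) atTop (𝓝 0)) :
    ∀ z ∈ Sig N, Tendsto (fun k => P N ((T N)^[k] z)) atTop (𝓝 0) := by
  set G : Set ℂ := {z | z ∈ Sig N ∧ Tendsto (fun k => P N ((T N)^[k] z)) atTop (𝓝 0)} with hG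
  have step : ∀ z1 : ℂ, ∀ r : ℝ, 0 < r → ball z1 r ⊆ Sig N →
      Tendsto (fun k => P N ((T N)^[k] z1)) atTop (𝓝 0) → ∀ z ∈ ball z1 (r / 2),
      Tendsto (fun k => P N ((T N)^[k] z)) atTop (𝓝 0) := by
    intro z1 r hr hb ht z hz
    rw [tendsto_zero_iff_norm_tendsto_zero] at ht ⊢
    refine squeeze_zero (fun _ => norm_nonneg _) (fun k => PT_bound hN hr hb k z hz) ?_
    simpa using ht.const_mul 3
  have hopen : IsOpen G := by
    rw [Metric.isOpen_iff]
    rintro z ⟨hz1, hz2⟩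
    obtain ⟨r, hr, hb⟩ := Metric.isOpen_iff.1 (isOpen_Sig N) z hz1
    refine ⟨r / 2, by positivity, fun y hy => ⟨hb (ball_subset_ball (by linarith) hy), ?_⟩⟩
    exact step z r hr hb hz2 y hy
  have hcl : closure G ∩ Sig N ⊆ G := by
    rintro z ⟨hz1, hz2⟩
    refine ⟨hz2, ?_⟩
    obtain ⟨r, hr, hb⟩ := Metric.isOpen_iff.1 (isOpen_Sig N) z hz2
    obtain ⟨y, hy, hyz⟩ := Metric.mem_closure_iff.1 hz1 (r / 4) (by positivity)
    refine step y (r * (3 / 4)) (by positivity) ?_ hy.2 z ?_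
    · intro x hx
      apply hb
      rw [mem_ball] at hx ⊢
      calc dist x z ≤ dist x y + dist y z := dist_triangle _ _ _
        _ < r * (3 / 4) + r / 4 := by rw [dist_comm y z]; linarith
        _ = r := by ring
    · rw [mem_ball]; linarith
  have hsub := (Sig_preconnected N).subset_of_closure_inter_subset hopen ⟨z0, hz0, hz0, h0⟩ hcl
  exact fun z hz => (hsub hz).2

end Crest.Agent.R102.Iso799
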