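import Mathlib

/-!
# Row 102, part (C), T5: the isotropic end at a circular point (`m > 3`, `n = -N < -1`), part 1
(helper486; paper: helper160 #24389).

`J z = (e^z - 1)/z`; uniformisation of the correspondence `h(x) = h(p)`,
`h(x) = N/(N+1) x - log(1 + N e^x)`: `x = Ap τ`, `p = - Am τ`, `Ap τ = N τ + μ τ`,
`Am τ = τ - μ τ`, `μ τ = log J(-Nτ) - log J(-τ)`.
-/

open Complex Set Filter Topology

noncomputable section

namespace Crest.Agent.R102.IsoNeg486

/-- `LJ N y = N/(N+1) log y - log (1+y)` -/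
def LJ (N : ℝ) (y : ℂ) : ℂ := ((N / (N + 1) : ℝ) : ℂ) * Complex.log y - Complex.log (1 + y)

/-- the input germ -/
structure GermJ (N : ℝ) (F : ℂ → ℂ) : Prop where
  hN : 1 < N
  an : AnalyticAt ℂ F 0
  odd : ∀ᶠ t in 𝓝 (0 : ℂ), F (-t) = -F t
  real : ∀ᶠ t in 𝓝 (0 : ℂ), F ((starRingEnd ℂ) t) = (starRingEnd ℂ) (F t)
  der : ∃ g : ℝ, 0 < g ∧ deriv F 0 = (g : ℂ)
  eq : ∀ᶠ t in 𝓝 (0 : ℂ),
    LJ N ((N : ℂ) * Complex.exp (F t)) = LJ N ((N : ℂ) * Complex.exp (-F (t / (1 + t))))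

/-- `(e^z - 1)/z` -/
def J (z : ℂ) : ℂ := dslope Complex.exp 0 z

theorem J_zero : J 0 = 1 := by
  unfold J
  rw [dslope_same, Complex.deriv_exp, Complex.exp_zero]

theorem mul_J (z : ℂ) : z * J z = Complex.exp z - 1 := by
  have h := sub_smul_dslope Complex.exp 0 z
  simpa [J, smul_eq_mul] using h

theorem J_of_ne {z : ℂ} (hz : z ≠ 0) : J z = (Complex.exp z - 1) / z := by
  rw [eq_div_iff hz, mul_comm, mul_J]

theorem J_diff : Differentiable ℂ J := by
  have h := (Complex.differentiableOn_dslope (f := Complex.exp) (c := (0 : ℂ)) (s := univ)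
    univ_mem).2 Complex.differentiable_exp.differentiableOn
  exact differentiableOn_univ.1 h

theorem J_cont : Continuous J := J_diff.continuous

theorem J_an (z : ℂ) : AnalyticAt ℂ J z := J_diff.analyticAt z

theorem J_conj (z : ℂ) : J ((starRingEnd ℂ) z) = (starRingEnd ℂ) (J z) := by
  by_cases hz : z = 0
  · subst hz
    rw [map_zero, J_zero, map_one]
  · have hz' : (starRingEnd ℂ) z ≠ 0 := by simpa using hz
    rw [J_of_ne hz, J_of_ne hz', map_div₀, map_sub, map_one, Complex.exp_conj]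

/-- positivity of the imaginary part in the left half strip -/
theorem J_im_pos {z : ℂ} (hr : z.re ≤ 0) (h0 : 0 < z.im) (h1 : z.im < 2 * Real.pi) :
    0 < (J z).im := by
  have hz : z ≠ 0 := by
    rintro rfl; simp at h0
  have hn : 0 < normSq z := normSq_pos.2 hz
  rw [J_of_ne hz, div_im, ← sub_div]
  refine div_pos ?_ hn
  rw [sub_re, sub_im, one_re, one_im, sub_zero, exp_re, exp_im]
  set x := z.re with hx
  set y := z.im with hy
  have hcos : Real.cos y < 1 := by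
    rcases eq_or_lt_of_le (Real.cos_le_one y) with h | h
    · exfalso
      rw [Real.cos_eq_one_iff_of_lt_of_lt (by linarith [Real.pi_pos]) h1] at h
      exact h0.ne' h
    · exact h
  have hsin : -x * Real.sin y ≤ -x * y :=
    mul_le_mul_of_nonneg_left (Real.sin_le h0.le) (by linarith)
  have h2 : y * Real.cos y - x * Real.sin y < y * (1 - x) := by
    have : y * Real.cos y < y * 1 := mul_lt_mul_of_pos_left hcos h0
    nlinarith
  have h3 : 1 - x ≤ Real.exp (-x) := by linarith [Real.add_one_le_exp (-x)]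
  have h4 : Real.exp x * (y * Real.cos y - x * Real.sin y) < y := by
    calc Real.exp x * (y * Real.cos y - x * Real.sin y)
        < Real.exp x * (y * (1 - x)) := mul_lt_mul_of_pos_left h2 (Real.exp_pos _)
      _ ≤ Real.exp x * (y * Real.exp (-x)) :=
          mul_le_mul_of_nonneg_left (mul_le_mul_of_nonneg_left h3 h0.le) (Real.exp_pos _).le
      _ = y := by rw [mul_left_comm, ← Real.exp_add]; simp
  nlinarith

theorem J_slit {z : ℂ} (hr : z.re ≤ 0) (h1 : |z.im| < 2 * Real.pi) : J z ∈ slitPlane := by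
  rcases lt_trichotomy z.im 0 with h | h | h
  · right
    have := J_im_pos (z := (starRingEnd ℂ) z) (by simpa using hr) (by simpa using h)
      (by rw [conj_im]; linarith [(abs_lt.1 h1).1])
    rw [J_conj, conj_im] at this
    intro h0
    rw [h0] at this
    simp at this
  · left
    have hz : z = (z.re : ℂ) := by
      apply Complex.ext <;> simp [h]
    rcases eq_or_lt_of_le hr with h2 | h2
    · rw [hz, h2, ofReal_zero, J_zero, one_re]; exact one_pos
    · have hne : z ≠ 0 := by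
        intro h3; rw [h3] at h2; simp at h2
      rw [J_of_ne hne, hz, ← ofReal_exp, ← ofReal_one, ← ofReal_sub, ← ofReal_div, ofReal_re]
      have : Real.exp z.re - 1 < 0 := by
        have := Real.exp_lt_exp.2 h2
        rw [Real.exp_zero] at this
        linarith
      exact div_pos_of_neg_of_neg this h2
  · right
    exact (J_im_pos hr h (abs_lt.1 h1).2).ne'

/-- `log J` -/
def lam (z : ℂ) : ℂ := Complex.log (J z)

theorem lam_an {z : ℂ} (h : J z ∈ slitPlane) : AnalyticAt ℂ lam z := (J_an z).clog h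

theorem exp_lam {z : ℂ} (h : J z ∈ slitPlane) : Complex.exp (lam z) = J z :=
  Complex.exp_log (slitPlane_ne_zero h)

theorem lam_zero : lam 0 = 0 := by rw [lam, J_zero, Complex.log_one]

theorem lam_conj {z : ℂ} (h : J z ∈ slitPlane) :
    lam ((starRingEnd ℂ) z) = (starRingEnd ℂ) (lam z) := by
  rw [lam, J_conj, Complex.log_conj _ (slitPlane_arg_ne_pi h)]
  rfl

theorem lam_hasDerivAt {z : ℂ} (hz : z ≠ 0) (h : J z ∈ slitPlane) :
    HasDerivAt lam (Complex.exp z / (Complex.exp z - 1) - 1 / z) z := by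
  have h1 : Complex.exp z - 1 ≠ 0 := by
    rw [← mul_J]
    exact mul_ne_zero hz (slitPlane_ne_zero h)
  have e1 : HasDerivAt (fun z : ℂ => (Complex.exp z - 1) / z)
      ((Complex.exp z * z - (Complex.exp z - 1) * 1) / z ^ 2) z :=
    ((Complex.hasDerivAt_exp z).sub_const 1).div (hasDerivAt_id z) hz
  have e2 : HasDerivAt J ((Complex.exp z * z - (Complex.exp z - 1) * 1) / z ^ 2) z := by
    refine e1.congr_of_eventuallyEq ?_
    filter_upwards [isOpen_ne.mem_nhds hz] with w hw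
    exact J_of_ne hw
  have e3 := e2.clog h
  refine e3.congr_deriv ?_
  rw [J_of_ne hz]
  field_simp

/-! ### the two maps -/

/-- the domain on which everything is defined -/
def D0 (N : ℝ) : Set ℂ := {τ | J (-((N : ℂ) * τ)) ∈ slitPlane ∧ J (-τ) ∈ slitPlane}

/-- `x = Ap τ` -/
def Ap (N : ℝ) (τ : ℂ) : ℂ := (N : ℂ) * τ + (lam (-((N : ℂ) * τ)) - lam (-τ))

/-- `T x = Am τ` -/
def Am (N : ℝ) (τ : ℂ) : ℂ := τ - (lam (-((N : ℂ) * τ)) - lam (-τ))

/-- closed right half strip, without the corners -/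
def Tc (N : ℝ) : Set ℂ := {τ | 0 ≤ τ.re ∧ |τ.im| < 2 * Real.pi / N}

/-- open right half strip -/
def To (N : ℝ) : Set ℂ := {τ | 0 < τ.re ∧ |τ.im| < 2 * Real.pi / N}

variable {N : ℝ}

theorem To_sub : To N ⊆ Tc N := fun _ h => ⟨h.1.le, h.2⟩

theorem isOpen_D0 : IsOpen (D0 N) := by
  have h1 : Continuous fun τ : ℂ => J (-((N : ℂ) * τ)) := J_cont.comp (by fun_prop)
  have h2 : Continuous fun τ : ℂ => J (-τ) := J_cont.comp (by fun_prop)
  exact (isOpen_slitPlane.preimage h1).inter (isOpen_slitPlane.preimage h2)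

theorem Tc_sub (hN : 1 < N) : Tc N ⊆ D0 N := by
  intro τ h
  have hN0 : 0 < N := by linarith
  have h1 : |τ.im| * N < 2 * Real.pi := (lt_div_iff₀ hN0).1 h.2
  refine ⟨J_slit ?_ ?_, J_slit ?_ ?_⟩
  · simp only [neg_re, mul_re, ofReal_re, ofReal_im, zero_mul, sub_zero]
    have := mul_nonneg hN0.le h.1
    linarith
  · simp only [neg_im, mul_im, ofReal_re, ofReal_im, zero_mul, add_zero]
    rw [abs_neg, abs_mul, abs_of_pos hN0]
    linarith [mul_comm N |τ.im|]
  · simp only [neg_re]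
    linarith [h.1]
  · rw [neg_im, abs_neg]
    have : |τ.im| * 1 ≤ |τ.im| * N := mul_le_mul_of_nonneg_left hN.le (abs_nonneg _)
    linarith

theorem Ap_add_Am (τ : ℂ) : Ap N τ + Am N τ = ((N : ℂ) + 1) * τ := by
  unfold Ap Am; ring

theorem Ap_zero : Ap N 0 = 0 := by simp [Ap]

theorem Am_zero : Am N 0 = 0 := by simp [Am]

theorem Ap_an {τ : ℂ} (h : τ ∈ D0 N) : AnalyticAt ℂ (Ap N) τ := by
  have h1 : AnalyticAt ℂ (fun τ : ℂ => -((N : ℂ) * τ)) τ := by fun_prop
  have h2 : AnalyticAt ℂ (fun τ : ℂ => -τ) τ := by fun_prop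
  have h3 : AnalyticAt ℂ (fun τ : ℂ => (N : ℂ) * τ) τ := by fun_prop
  have h4 : AnalyticAt ℂ (fun τ : ℂ => lam (-((N : ℂ) * τ))) τ :=
    AnalyticAt.comp (g := lam) (f := fun τ : ℂ => -((N : ℂ) * τ)) (lam_an h.1) h1
  have h5 : AnalyticAt ℂ (fun τ : ℂ => lam (-τ)) τ :=
    AnalyticAt.comp (g := lam) (f := fun τ : ℂ => -τ) (lam_an h.2) h2
  exact h3.add (h4.sub h5)

theorem Am_an {τ : ℂ} (h : τ ∈ D0 N) : AnalyticAt ℂ (Am N) τ := by
  have h1 : AnalyticAt ℂ (fun τ : ℂ => -((N : ℂ) * τ)) τ := by fun_prop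
  have h2 : AnalyticAt ℂ (fun τ : ℂ => -τ) τ := by fun_prop
  have h4 : AnalyticAt ℂ (fun τ : ℂ => lam (-((N : ℂ) * τ))) τ :=
    AnalyticAt.comp (g := lam) (f := fun τ : ℂ => -((N : ℂ) * τ)) (lam_an h.1) h1
  have h5 : AnalyticAt ℂ (fun τ : ℂ => lam (-τ)) τ :=
    AnalyticAt.comp (g := lam) (f := fun τ : ℂ => -τ) (lam_an h.2) h2
  exact analyticAt_id.sub (h4.sub h5)

theorem conj_mem {τ : ℂ} (h : τ ∈ D0 N) : (starRingEnd ℂ) τ ∈ D0 N := by
  have hc : ∀ z : ℂ, z ∈ slitPlane → (starRingEnd ℂ) z ∈ slitPlane := by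
    intro z hz
    rcases hz with hz | hz
    · left; simpa using hz
    · right; simpa using hz
  refine ⟨?_, ?_⟩
  · have := hc _ h.1
    rwa [← J_conj, map_neg, map_mul, conj_ofReal] at this
  · have := hc _ h.2
    rwa [← J_conj, map_neg] at this

theorem Ap_conj {τ : ℂ} (h : τ ∈ D0 N) :
    Ap N ((starRingEnd ℂ) τ) = (starRingEnd ℂ) (Ap N τ) := by
  have h1 := lam_conj h.1
  have h2 := lam_conj h.2
  rw [map_neg, map_mul, conj_ofReal] at h1
  rw [map_neg] at h2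
  unfold Ap
  rw [h1, h2, map_add, map_sub, map_mul, conj_ofReal]

theorem Am_conj {τ : ℂ} (h : τ ∈ D0 N) :
    Am N ((starRingEnd ℂ) τ) = (starRingEnd ℂ) (Am N τ) := by
  have h1 := lam_conj h.1
  have h2 := lam_conj h.2
  rw [map_neg, map_mul, conj_ofReal] at h1
  rw [map_neg] at h2
  unfold Am
  rw [h1, h2, map_sub, map_sub]

theorem exp_Ap {τ : ℂ} (h : τ ∈ D0 N) :
    Complex.exp (Ap N τ) = Complex.exp ((N : ℂ) * τ) * (J (-((N : ℂ) * τ)) / J (-τ)) := by
  unfold Ap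
  rw [Complex.exp_add, Complex.exp_sub, exp_lam h.1, exp_lam h.2]

theorem exp_neg_Am {τ : ℂ} (h : τ ∈ D0 N) :
    Complex.exp (-(Am N τ)) = Complex.exp (-τ) * (J (-((N : ℂ) * τ)) / J (-τ)) := by
  unfold Am
  rw [show -(τ - (lam (-((N : ℂ) * τ)) - lam (-τ))) = -τ + (lam (-((N : ℂ) * τ)) - lam (-τ)) by
    ring, Complex.exp_add, Complex.exp_sub, exp_lam h.1, exp_lam h.2]

theorem exp_ne_one {τ : ℂ} (h0 : τ ≠ 0) (h : J (-τ) ∈ slitPlane) : Complex.exp τ - 1 ≠ 0 := by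
  have h1 := mul_J (-τ)
  have h2 : Complex.exp (-τ) - 1 ≠ 0 := by
    rw [← h1]
    exact mul_ne_zero (neg_ne_zero.2 h0) (slitPlane_ne_zero h)
  intro h3
  apply h2
  rw [Complex.exp_neg, sub_eq_zero.1 h3]
  simp

/-- derivative of `Ap` -/
theorem Ap_hasDerivAt (hN : 1 < N) {τ : ℂ} (h0 : τ ≠ 0) (h : τ ∈ D0 N) :
    HasDerivAt (Ap N) ((N : ℂ) + ((N : ℂ) / (Complex.exp ((N : ℂ) * τ) - 1)
      - 1 / (Complex.exp τ - 1))) τ := by
  have hN0 : (N : ℂ) ≠ 0 := by
    have : N ≠ 0 := by linarith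
    exact_mod_cast this
  have e1 : HasDerivAt (fun τ : ℂ => (N : ℂ) * τ) (N : ℂ) τ := by
    simpa using (hasDerivAt_id τ).const_mul (N : ℂ)
  have e1' : HasDerivAt (fun τ : ℂ => -((N : ℂ) * τ)) (-(N : ℂ)) τ := e1.neg
  have e2' : HasDerivAt (fun τ : ℂ => -τ) (-1) τ := hasDerivAt_neg τ
  have n1 : -((N : ℂ) * τ) ≠ 0 := neg_ne_zero.2 (mul_ne_zero hN0 h0)
  have n2 : -τ ≠ 0 := neg_ne_zero.2 h0
  have e3 := (lam_hasDerivAt n1 h.1).comp τ e1'
  have e4 := (lam_hasDerivAt n2 h.2).comp τ e2'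
  have e5 := e1.add (e3.sub e4)
  have m1 : Complex.exp ((N : ℂ) * τ) - 1 ≠ 0 := exp_ne_one (mul_ne_zero hN0 h0) h.1
  have m2 : Complex.exp τ - 1 ≠ 0 := exp_ne_one h0 h.2
  refine e5.congr_deriv ?_
  have k1 : Complex.exp (-((N : ℂ) * τ)) / (Complex.exp (-((N : ℂ) * τ)) - 1)
      = -(1 / (Complex.exp ((N : ℂ) * τ) - 1)) := by
    have h3 := Complex.exp_ne_zero ((N : ℂ) * τ)
    rw [Complex.exp_neg]
    have h4 : (Complex.exp ((N : ℂ) * τ))⁻¹ - 1 ≠ 0 := by
      intro h5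
      apply m1
      have : (Complex.exp ((N : ℂ) * τ))⁻¹ = 1 := sub_eq_zero.1 h5
      rw [inv_eq_one.1 this, sub_self]
    rw [div_eq_iff h4]
    field_simp
    ring
  have k2 : Complex.exp (-τ) / (Complex.exp (-τ) - 1) = -(1 / (Complex.exp τ - 1)) := by
    have h3 := Complex.exp_ne_zero τ
    rw [Complex.exp_neg]
    have h4 : (Complex.exp τ)⁻¹ - 1 ≠ 0 := by
      intro h5
      apply m2
      have : (Complex.exp τ)⁻¹ = 1 := sub_eq_zero.1 h5
      rw [inv_eq_one.1 this, sub_self]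
    rw [div_eq_iff h4]
    field_simp
    ring
  rw [k1, k2]
  field_simp
  ring

end Crest.Agent.R102.IsoNeg486
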