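import Crest.Agent.R102.IsoNeg1_486

/-!
# Row 102, part (C), T5: the isotropic end at a circular point, part 2: estimates (helper486)
-/

open Complex Set Filter Topology

noncomputable section

namespace Crest.Agent.R102.IsoNeg486

variable {N : ℝ}

/-! ### real inequalities -/

theorem sin_lt' (hN : 1 < N) {x : ℝ} (h0 : 0 < x) (h1 : N * x ≤ Real.pi) :
    Real.sin (N * x) < N * Real.sin x := by
  have hN0 : 0 < N := by linarith
  have hNx : 0 < N * x := mul_pos hN0 h0
  have h := strictConcaveOn_sin_Icc.2 (show (0 : ℝ) ∈ Icc 0 Real.pi from ⟨le_refl _, Real.pi_pos.le⟩)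
    (show N * x ∈ Icc 0 Real.pi from ⟨hNx.le, h1⟩) hNx.ne
    (show 0 < 1 - 1 / N by rw [sub_pos, div_lt_one hN0]; exact hN)
    (show 0 < 1 / N by positivity) (by ring)
  simp only [smul_eq_mul, Real.sin_zero, mul_zero, zero_add] at h
  rw [show 1 / N * (N * x) = x by field_simp] at h
  have h2 : N * (1 / N * Real.sin (N * x)) < N * Real.sin x := mul_lt_mul_of_pos_left h hN0
  rwa [← mul_assoc, mul_one_div_cancel hN0.ne', one_mul] at h2

/-- squares -/
theorem sin_sq_lt (hN : 1 < N) {x : ℝ} (h0 : x ≠ 0) (h1 : N * |x| ≤ Real.pi) :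
    Real.sin (N * x) ^ 2 < N ^ 2 * Real.sin x ^ 2 := by
  have hN0 : 0 < N := by linarith
  have key : ∀ y : ℝ, 0 < y → N * y ≤ Real.pi → Real.sin (N * y) ^ 2 < N ^ 2 * Real.sin y ^ 2 := by
    intro y hy hy1
    have h2 := sin_lt' hN hy hy1
    have h3 : 0 ≤ Real.sin (N * y) :=
      Real.sin_nonneg_of_nonneg_of_le_pi (mul_pos hN0 hy).le hy1
    nlinarith
  rcases lt_or_gt_of_ne h0 with h | h
  · have := key (-x) (by linarith) (by rwa [abs_of_neg h] at h1)
    rw [show N * -x = -(N * x) by ring, Real.sin_neg, Real.sin_neg, neg_sq, neg_sq] at this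
    exact this
  · exact key x h (by rwa [abs_of_pos h] at h1)

theorem sin_sq_le (hN : 1 < N) {x : ℝ} (h1 : N * |x| ≤ Real.pi) :
    Real.sin (N * x) ^ 2 ≤ N ^ 2 * Real.sin x ^ 2 := by
  by_cases h0 : x = 0
  · subst h0; simp
  · exact (sin_sq_lt hN h0 h1).le

theorem sinh_ge (hN : 1 < N) {y : ℝ} (hy : 0 ≤ y) : N * Real.sinh y ≤ Real.sinh (N * y) := by
  have hd : ∀ y : ℝ, HasDerivAt (fun y => Real.sinh (N * y) - N * Real.sinh y)
      (Real.cosh (N * y) * N - N * Real.cosh y) y := by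
    intro y
    have e1 : HasDerivAt (fun y : ℝ => N * y) N y := by
      simpa using (hasDerivAt_id y).const_mul N
    exact e1.sinh.sub ((Real.hasDerivAt_sinh y).const_mul N)
  have hm : MonotoneOn (fun y => Real.sinh (N * y) - N * Real.sinh y) (Ici 0) := by
    refine monotoneOn_of_deriv_nonneg (convex_Ici 0)
      (fun y _ => (hd y).continuousAt.continuousWithinAt)
      (fun y _ => (hd y).differentiableAt.differentiableWithinAt) ?_
    intro y hy
    rw [interior_Ici, mem_Ioi] at hy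
    rw [(hd y).deriv]
    have : Real.cosh y ≤ Real.cosh (N * y) := by
      rw [Real.cosh_le_cosh, abs_of_pos hy, abs_of_pos (by positivity)]
      nlinarith
    nlinarith
  have := hm (show (0 : ℝ) ∈ Ici 0 from self_mem_Ici) (show y ∈ Ici 0 from hy) hy
  simp only [mul_zero, Real.sinh_zero, sub_zero] at this
  linarith

theorem tanh_le (hN : 1 < N) {y : ℝ} (hy : 0 ≤ y) :
    Real.sinh (N * y) * Real.cosh y ≤ N * (Real.cosh (N * y) * Real.sinh y) := by
  have hd : ∀ y : ℝ, HasDerivAt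
      (fun y => N * (Real.cosh (N * y) * Real.sinh y) - Real.sinh (N * y) * Real.cosh y)
      (N * ((Real.sinh (N * y) * N) * Real.sinh y + Real.cosh (N * y) * Real.cosh y) -
        ((Real.cosh (N * y) * N) * Real.cosh y + Real.sinh (N * y) * Real.sinh y)) y := by
    intro y
    have e1 : HasDerivAt (fun y : ℝ => N * y) N y := by
      simpa using (hasDerivAt_id y).const_mul N
    exact ((e1.cosh.mul (Real.hasDerivAt_sinh y)).const_mul N).sub
      (e1.sinh.mul (Real.hasDerivAt_cosh y))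
  have hm : MonotoneOn
      (fun y => N * (Real.cosh (N * y) * Real.sinh y) - Real.sinh (N * y) * Real.cosh y)
      (Ici 0) := by
    refine monotoneOn_of_deriv_nonneg (convex_Ici 0)
      (fun y _ => (hd y).continuousAt.continuousWithinAt)
      (fun y _ => (hd y).differentiableAt.differentiableWithinAt) ?_
    intro y hy
    rw [interior_Ici, mem_Ioi] at hy
    rw [(hd y).deriv]
    have h1 : 0 < Real.sinh y := Real.sinh_pos_iff.2 hy
    have h2 : 0 < Real.sinh (N * y) := Real.sinh_pos_iff.2 (by positivity)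
    have h3 : 0 < Real.sinh (N * y) * Real.sinh y := mul_pos h2 h1
    have h4 : 0 ≤ N ^ 2 - 1 := by nlinarith
    have h5 := mul_nonneg h4 h3.le
    nlinarith
  have := hm (show (0 : ℝ) ∈ Ici 0 from self_mem_Ici) (show y ∈ Ici 0 from hy) hy
  simp only [mul_zero, Real.sinh_zero, Real.cosh_zero, zero_mul, sub_zero] at this
  linarith

/-- the main real inequality -/
theorem real_main (hN : 1 < N) {s θ : ℝ} (hs : 0 < s) (hθ : N * |θ| ≤ 2 * Real.pi) :
    Real.sinh s * (Real.cosh (N * s) - Real.cos (N * θ)) ≤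
      N * Real.sinh (N * s) * (Real.cosh s - Real.cos θ) := by
  have c1 : ∀ x : ℝ, Real.cosh x = 1 + 2 * Real.sinh (x / 2) ^ 2 := by
    intro x
    have := Real.cosh_two_mul (x / 2)
    rw [show 2 * (x / 2) = x by ring] at this
    rw [this, Real.cosh_sq]; ring
  have s1 : ∀ x : ℝ, Real.sinh x = 2 * Real.sinh (x / 2) * Real.cosh (x / 2) := by
    intro x
    have := Real.sinh_two_mul (x / 2)
    rwa [show 2 * (x / 2) = x by ring] at this
  have k1 : ∀ x : ℝ, Real.cos x = 1 - 2 * Real.sin (x / 2) ^ 2 := by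
    intro x
    have := Real.cos_two_mul (x / 2)
    rw [show 2 * (x / 2) = x by ring] at this
    rw [this]
    have := Real.sin_sq_add_cos_sq (x / 2)
    linarith
  have h1 : Real.sin (N * θ / 2) ^ 2 ≤ N ^ 2 * Real.sin (θ / 2) ^ 2 := by
    rw [show N * θ / 2 = N * (θ / 2) by ring]
    refine sin_sq_le hN ?_
    rw [abs_div, abs_of_pos (show (0 : ℝ) < 2 by norm_num)]
    linarith
  have h2 := sinh_ge hN hs.le
  have h3 := tanh_le hN (show 0 ≤ s / 2 by linarith)
  have h4 : 0 < Real.sinh s := Real.sinh_pos_iff.2 hs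
  have hN0 : 0 < N := by linarith
  have h5 : 0 < Real.sinh (N * s / 2) := Real.sinh_pos_iff.2 (by positivity)
  have h6 : 0 < Real.sinh (s / 2) := Real.sinh_pos_iff.2 (by positivity)
  rw [show N * (s / 2) = N * s / 2 by ring] at h3
  -- first half
  have A : Real.sinh s * (Real.cosh (N * s) - 1) ≤
      N * Real.sinh (N * s) * (Real.cosh s - 1) := by
    rw [c1 (N * s), c1 s, s1 s, s1 (N * s)]
    have := mul_le_mul_of_nonneg_left h3 (mul_pos h5 h6).le
    nlinarith
  -- second half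
  have B : Real.sinh s * (1 - Real.cos (N * θ)) ≤ N * Real.sinh (N * s) * (1 - Real.cos θ) := by
    rw [k1 (N * θ), k1 θ]
    have h7 : 0 ≤ Real.sin (θ / 2) ^ 2 := sq_nonneg _
    have h8 : Real.sinh s * Real.sin (N * θ / 2) ^ 2 ≤
        Real.sinh s * (N ^ 2 * Real.sin (θ / 2) ^ 2) := mul_le_mul_of_nonneg_left h1 h4.le
    have h9 : N * (N * Real.sinh s) * Real.sin (θ / 2) ^ 2 ≤
        N * Real.sinh (N * s) * Real.sin (θ / 2) ^ 2 :=
      mul_le_mul_of_nonneg_right (mul_le_mul_of_nonneg_left h2 hN0.le) h7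
    nlinarith
  linarith

/-- real part of `1/(e^z-1)` -/
theorem re_inv {z : ℂ} (hx : 0 < z.re) :
    (1 / (Complex.exp z - 1)).re =
      Real.sinh z.re / (2 * (Real.cosh z.re - Real.cos z.im)) - 1 / 2 := by
  have hc : 1 < Real.cosh z.re := Real.one_lt_cosh.2 hx.ne'
  have hd : 0 < Real.cosh z.re - Real.cos z.im := by
    have := Real.cos_le_one z.im
    linarith
  rw [one_div, inv_re, normSq_apply, sub_re, sub_im, one_re, one_im, sub_zero, exp_re, exp_im]
  rw [Real.cosh_eq, Real.sinh_eq] at *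
  have hab : Real.exp z.re * Real.exp (-z.re) = 1 := by rw [← Real.exp_add]; simp
  have hsc := Real.sin_sq_add_cos_sq z.im
  set a := Real.exp z.re
  set b := Real.exp (-z.re)
  set c := Real.cos z.im
  set s := Real.sin z.im
  have ha : 0 < a := Real.exp_pos _
  have hden : (a * c - 1) * (a * c - 1) + a * s * (a * s) = 2 * a * ((a + b) / 2 - c) := by
    linear_combination a ^ 2 * hsc - hab
  rw [hden]
  obtain ⟨D, hD⟩ : ∃ D, D = (a + b) / 2 - c := ⟨_, rfl⟩
  rw [← hD] at hd ⊢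
  have h2 : D ≠ 0 := hd.ne'
  have h3 : (a - b) / 2 / (2 * D) - 1 / 2 = (c - b) / (2 * D) := by
    rw [div_sub_div _ _ (by positivity) (by norm_num), div_eq_div_iff (by positivity)
      (by positivity), hD]
    ring
  rw [h3, div_eq_div_iff (by positivity) (by positivity)]
  linear_combination (2 * D) * hab

/-! ### the derivative -/

/-- the value of the derivative of `Ap` -/
def dAp (N : ℝ) (τ : ℂ) : ℂ := (N : ℂ) + ((N : ℂ) / (Complex.exp ((N : ℂ) * τ) - 1)
      - 1 / (Complex.exp τ - 1))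

theorem dAp_re (hN : 1 < N) {τ : ℂ} (h0 : 0 < τ.re) (h1 : N * |τ.im| ≤ 2 * Real.pi) :
    (N + 1) / 2 ≤ (dAp N τ).re := by
  have hN0 : 0 < N := by linarith
  have h2 : 0 < ((N : ℂ) * τ).re := by
    rw [re_ofReal_mul]; positivity
  have e1 := re_inv h0
  have e2 := re_inv h2
  rw [re_ofReal_mul, im_ofReal_mul] at e2
  unfold dAp
  rw [div_eq_mul_one_div (N : ℂ), add_re, sub_re, re_ofReal_mul, ofReal_re, e1, e2]
  have h3 := real_main hN h0 h1
  have hc : 1 < Real.cosh τ.re := Real.one_lt_cosh.2 h0.ne'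
  have hd : 0 < Real.cosh τ.re - Real.cos τ.im := by
    have := Real.cos_le_one τ.im
    linarith
  have hc' : 1 < Real.cosh (N * τ.re) := Real.one_lt_cosh.2 (by positivity)
  have hd' : 0 < Real.cosh (N * τ.re) - Real.cos (N * τ.im) := by
    have := Real.cos_le_one (N * τ.im)
    linarith
  have h4 : Real.sinh τ.re / (2 * (Real.cosh τ.re - Real.cos τ.im)) ≤
      N * (Real.sinh (N * τ.re) / (2 * (Real.cosh (N * τ.re) - Real.cos (N * τ.im)))) := by
    rw [← mul_div_assoc, div_le_div_iff₀ (by positivity) (by positivity)]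
    nlinarith
  nlinarith

theorem slit_div {a b : ℂ} (ha : 0 < a.re) (hb : 0 < b.re) : a / b ∈ slitPlane := by
  by_contra h
  rw [mem_slitPlane_iff, not_or, not_lt, not_not] at h
  have hb0 : b ≠ 0 := by rintro rfl; simp at hb
  have h1 : a = a / b * b := by field_simp
  have h2 : a.re = (a / b).re * b.re := by
    conv_lhs => rw [h1]
    rw [mul_re, h.2, zero_mul, sub_zero]
  have h3 := mul_nonpos_of_nonpos_of_nonneg h.1 hb.le
  linarith

theorem one_sub_exp_re {w : ℂ} (h : 0 < w.re) : 0 < (1 - Complex.exp (-w)).re := by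
  rw [sub_re, one_re, exp_re, neg_re, neg_im]
  have h1 : Real.exp (-w.re) < 1 := by
    have := Real.exp_lt_exp.2 (show -w.re < 0 by linarith)
    rwa [Real.exp_zero] at this
  have h2 : Real.exp (-w.re) * Real.cos (-w.im) ≤ Real.exp (-w.re) * 1 :=
    mul_le_mul_of_nonneg_left (Real.cos_le_one _) (Real.exp_pos _).le
  linarith

theorem J_neg {w : ℂ} (h : w ≠ 0) : J (-w) = (1 - Complex.exp (-w)) / w := by
  rw [J_of_ne (neg_ne_zero.2 h)]
  field_simp
  ring

theorem ne_of_re {w : ℂ} (h : 0 < w.re) : w ≠ 0 := by rintro rfl; simp at h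

theorem J_neg_slit {w : ℂ} (h : 0 < w.re) : J (-w) ∈ slitPlane := by
  rw [J_neg (ne_of_re h)]
  exact slit_div (one_sub_exp_re h) h

theorem mul_re_pos (hN : 1 < N) {τ : ℂ} (h : 0 < τ.re) : 0 < ((N : ℂ) * τ).re := by
  rw [re_ofReal_mul]
  have : 0 < N := by linarith
  positivity

theorem D0_of_pos (hN : 1 < N) {τ : ℂ} (h : 0 < τ.re) : τ ∈ D0 N :=
  ⟨J_neg_slit (mul_re_pos hN h), J_neg_slit h⟩

theorem lam_neg {w : ℂ} (h : 0 < w.re) :
    lam (-w) = Complex.log (1 - Complex.exp (-w)) - Complex.log w := by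
  have h1 := one_sub_exp_re h
  have a1 : |(1 - Complex.exp (-w)).arg| < Real.pi / 2 :=
    Complex.abs_arg_lt_pi_div_two_iff.2 (Or.inl h1)
  have a2 : |w.arg| < Real.pi / 2 := Complex.abs_arg_lt_pi_div_two_iff.2 (Or.inl h)
  rw [abs_lt] at a1 a2
  have e : J (-w) = Complex.exp (Complex.log (1 - Complex.exp (-w)) - Complex.log w) := by
    rw [Complex.exp_sub, Complex.exp_log (ne_of_re h1), Complex.exp_log (ne_of_re h),
      J_neg (ne_of_re h)]
  rw [lam, e, Complex.log_exp]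
  · rw [sub_im, log_im, log_im]; linarith
  · rw [sub_im, log_im, log_im]; linarith

theorem mu_formula (hN : 1 < N) {τ : ℂ} (h : 0 < τ.re) :
    lam (-((N : ℂ) * τ)) - lam (-τ) =
      Complex.log (1 - Complex.exp (-((N : ℂ) * τ))) - Complex.log (1 - Complex.exp (-τ))
        - (Real.log N : ℂ) := by
  rw [lam_neg (mul_re_pos hN h), lam_neg h,
    Complex.log_ofReal_mul (show 0 < N by linarith) (ne_of_re h)]
  ring

theorem mu_im_lt (hN : 1 < N) {τ : ℂ} (h : 0 < τ.re) :
    |(lam (-((N : ℂ) * τ)) - lam (-τ)).im| < Real.pi := by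
  rw [mu_formula hN h, sub_im, sub_im, log_im, log_im, ofReal_im, sub_zero]
  have a1 : |(1 - Complex.exp (-((N : ℂ) * τ))).arg| < Real.pi / 2 :=
    Complex.abs_arg_lt_pi_div_two_iff.2 (Or.inl (one_sub_exp_re (mul_re_pos hN h)))
  have a2 : |(1 - Complex.exp (-τ)).arg| < Real.pi / 2 :=
    Complex.abs_arg_lt_pi_div_two_iff.2 (Or.inl (one_sub_exp_re h))
  rw [abs_lt] at a1 a2 ⊢
  constructor <;> linarith

/-- lower bound of the imaginary part of `Ap` -/
theorem Im_Ap_ge (hN : 1 < N) {s θ : ℝ} (hs : 0 < s) (h0 : 0 ≤ θ) (h1 : N * θ ≤ 2 * Real.pi) :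
    (N + 1) / 2 * θ ≤ (Ap N (s + θ * I)).im := by
  have hre : ∀ x : ℝ, ((s : ℂ) + x * I).re = s := by intro x; simp
  have him : ∀ x : ℝ, ((s : ℂ) + x * I).im = x := by intro x; simp
  have hr : (Ap N (s : ℂ)).im = 0 := by
    have := Ap_conj (D0_of_pos hN (show 0 < (s : ℂ).re by simpa using hs))
    rw [conj_ofReal] at this
    exact Complex.conj_eq_iff_im.1 this.symm
  rcases eq_or_lt_of_le h0 with h | h
  · rw [← h]; simp [hr]
  set g : ℝ → ℝ := fun x => (Ap N (s + x * I)).im with hg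
  have hder : ∀ x : ℝ, HasDerivAt g (dAp N (s + x * I)).re x := by
    intro x
    have hx : 0 < ((s : ℂ) + x * I).re := by rw [hre]; exact hs
    have e1 : HasDerivAt (fun x : ℝ => (s : ℂ) + x * I) I x := by
      have := ((hasDerivAt_id x).ofReal_comp.mul_const I).const_add (s : ℂ)
      simpa using this
    have e2 := (Ap_hasDerivAt hN (ne_of_re hx) (D0_of_pos hN hx)).comp x e1
    have e3 := imCLM.hasFDerivAt.comp_hasDerivAt x e2
    refine e3.congr_deriv ?_
    change (dAp N (s + x * I) * I).im = _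
    simp
  obtain ⟨ξ, hξ, hslope⟩ := exists_hasDerivAt_eq_slope g _ h
    (fun t _ => (hder t).continuousAt.continuousWithinAt) (fun t _ => hder t)
  have h2 := dAp_re hN (τ := s + ξ * I) (by rw [hre]; exact hs) (by
    rw [him, abs_of_pos hξ.1]
    have : N * ξ ≤ N * θ := mul_le_mul_of_nonneg_left hξ.2.le (by linarith)
    linarith)
  rw [hslope, le_div_iff₀ (by linarith), sub_zero] at h2
  have h3 : g 0 = 0 := by simp [hg, hr]
  rw [h3, sub_zero] at h2
  exact h2

/-! ### the norm inequality -/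

theorem normSq_one_sub (w : ℂ) : normSq (1 - Complex.exp (-w)) =
    (1 - Real.exp (-w.re)) ^ 2 + 4 * Real.exp (-w.re) * Real.sin (w.im / 2) ^ 2 := by
  rw [normSq_apply, sub_re, sub_im, one_re, one_im, exp_re, exp_im, neg_re, neg_im, Real.cos_neg,
    Real.sin_neg]
  have h := Real.cos_two_mul (w.im / 2)
  rw [show 2 * (w.im / 2) = w.im by ring] at h
  have h1 := Real.sin_sq_add_cos_sq (w.im / 2)
  have h2 := Real.sin_sq_add_cos_sq w.im
  have h3 : Real.cos w.im = 1 - 2 * Real.sin (w.im / 2) ^ 2 := by linarith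
  set e := Real.exp (-w.re)
  have h4 : Real.sin w.im ^ 2 = 1 - Real.cos w.im ^ 2 := by linarith
  have : (1 - e * Real.cos w.im) * (1 - e * Real.cos w.im) +
      (0 - e * -Real.sin w.im) * (0 - e * -Real.sin w.im) =
      1 - 2 * e * Real.cos w.im + e ^ 2 * (Real.cos w.im ^ 2 + Real.sin w.im ^ 2) := by ring
  rw [this, h4, h3]
  ring

theorem normSq_exp_sub (w : ℂ) : normSq (Complex.exp w - 1) =
    (Real.exp w.re - 1) ^ 2 + 4 * Real.exp w.re * Real.sin (w.im / 2) ^ 2 := by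
  have h := normSq_one_sub (-w)
  rw [neg_neg, neg_re, neg_im, neg_neg, neg_div, Real.sin_neg, neg_sq] at h
  rw [← normSq_neg, neg_sub, h]
  ring

theorem norm_lt (hN : 1 < N) {τ : ℂ} (h0 : 0 ≤ τ.re) (h1 : N * |τ.im| ≤ 2 * Real.pi)
    (hne : τ ≠ 0) : ‖1 - Complex.exp (-((N : ℂ) * τ))‖ < N * ‖Complex.exp τ - 1‖ := by
  have hN0 : 0 < N := by linarith
  refine lt_of_pow_lt_pow_left₀ 2 (by positivity) ?_
  rw [mul_pow, ← Complex.normSq_eq_norm_sq, ← Complex.normSq_eq_norm_sq, normSq_one_sub,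
    normSq_exp_sub, re_ofReal_mul, im_ofReal_mul]
  have hs : Real.sin (N * τ.im / 2) ^ 2 ≤ N ^ 2 * Real.sin (τ.im / 2) ^ 2 := by
    rw [show N * τ.im / 2 = N * (τ.im / 2) by ring]
    refine sin_sq_le hN ?_
    rw [abs_div, abs_of_pos (show (0 : ℝ) < 2 by norm_num)]
    linarith
  have e1 : Real.exp (-(N * τ.re)) ≤ 1 := by
    rw [Real.exp_le_one_iff]; nlinarith
  have e2 : 1 ≤ Real.exp τ.re := Real.one_le_exp h0
  have e0 : 0 < Real.exp (-(N * τ.re)) := Real.exp_pos _
  have hsn : 0 ≤ Real.sin (τ.im / 2) ^ 2 := sq_nonneg _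
  have g1 : 1 - Real.exp (-(N * τ.re)) ≤ N * τ.re := by
    linarith [Real.add_one_le_exp (-(N * τ.re))]
  have g2 : τ.re ≤ Real.exp τ.re - 1 := by linarith [Real.add_one_le_exp τ.re]
  have B : 4 * Real.exp (-(N * τ.re)) * Real.sin (N * τ.im / 2) ^ 2 ≤
      N ^ 2 * (4 * Real.exp τ.re * Real.sin (τ.im / 2) ^ 2) := by
    calc 4 * Real.exp (-(N * τ.re)) * Real.sin (N * τ.im / 2) ^ 2
        ≤ 4 * Real.exp τ.re * (N ^ 2 * Real.sin (τ.im / 2) ^ 2) := by
          refine mul_le_mul (by linarith) hs (sq_nonneg _) (by positivity)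
      _ = _ := by ring
  rcases eq_or_lt_of_le h0 with h | h
  · rw [← h] at B ⊢
    have hi : τ.im ≠ 0 := by
      intro hi
      exact hne (Complex.ext h.symm hi)
    have hs' : Real.sin (N * τ.im / 2) ^ 2 < N ^ 2 * Real.sin (τ.im / 2) ^ 2 := by
      rw [show N * τ.im / 2 = N * (τ.im / 2) by ring]
      refine sin_sq_lt hN (by simpa using hi) ?_
      rw [abs_div, abs_of_pos (show (0 : ℝ) < 2 by norm_num)]
      linarith
    simp only [mul_zero, neg_zero, Real.exp_zero, sub_self, ne_eq, OfNat.ofNat_ne_zero,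
      not_false_eq_true, zero_pow, mul_one, zero_add]
    linarith
  · have g3 : τ.re < Real.exp τ.re - 1 := by
      have := Real.add_one_lt_exp h.ne'
      linarith
    have g4 : 0 ≤ 1 - Real.exp (-(N * τ.re)) := by linarith
    have g5 : 1 - Real.exp (-(N * τ.re)) < N * (Real.exp τ.re - 1) := by nlinarith
    have A : (1 - Real.exp (-(N * τ.re))) ^ 2 < N ^ 2 * (Real.exp τ.re - 1) ^ 2 := by
      rw [← mul_pow]
      exact pow_lt_pow_left₀ g5 g4 two_ne_zero
    linarith

/-- the function `exp (Ap τ)`, which is continuous on the closed half strip -/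
def EA (N : ℝ) (τ : ℂ) : ℂ := Complex.exp ((N : ℂ) * τ) * (J (-((N : ℂ) * τ)) / J (-τ))

theorem exp_ne_one' {τ : ℂ} (h0 : 0 ≤ τ.re) (h1 : |τ.im| < 2 * Real.pi) (hne : τ ≠ 0) :
    Complex.exp τ - 1 ≠ 0 := by
  refine exp_ne_one hne (J_slit ?_ ?_)
  · rw [neg_re]; linarith
  · rw [neg_im, abs_neg]; exact h1

theorem im_lt_two_pi (hN : 1 < N) {τ : ℂ} (h1 : N * |τ.im| ≤ 2 * Real.pi) :
    |τ.im| < 2 * Real.pi := by
  by_contra h
  rw [not_lt] at h
  have := Real.pi_pos
  nlinarith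

theorem exp_neg_Am_formula (hN : 1 < N) {τ : ℂ} (h : τ ∈ D0 N) (hne : τ ≠ 0) :
    Complex.exp (-(Am N τ)) = (1 - Complex.exp (-((N : ℂ) * τ))) / (N * (Complex.exp τ - 1)) := by
  have hN0 : (N : ℂ) ≠ 0 := by
    have : N ≠ 0 := by linarith
    exact_mod_cast this
  have h1 := exp_ne_one hne h.2
  rw [exp_neg_Am h, J_neg (mul_ne_zero hN0 hne), J_neg hne, Complex.exp_neg τ]
  have h2 := Complex.exp_ne_zero τ
  have h3 : 1 - (Complex.exp τ)⁻¹ ≠ 0 := by
    intro h5
    apply h1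
    have : (Complex.exp τ)⁻¹ = 1 := (sub_eq_zero.1 h5).symm
    rw [inv_eq_one.1 this, sub_self]
  rw [div_div_div_eq, ← mul_div_assoc, div_eq_div_iff (by positivity) (by positivity)]
  field_simp

theorem Am_re_pos (hN : 1 < N) {τ : ℂ} (h0 : 0 ≤ τ.re) (h1 : N * |τ.im| ≤ 2 * Real.pi)
    (h : τ ∈ D0 N) (hne : τ ≠ 0) : 0 < (Am N τ).re := by
  have hN0 : 0 < N := by linarith
  have h2 := norm_lt hN h0 h1 hne
  have h3 : 0 < ‖Complex.exp τ - 1‖ := norm_pos_iff.2 (exp_ne_one hne h.2)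
  have h4 : ‖Complex.exp (-(Am N τ))‖ < 1 := by
    rw [exp_neg_Am_formula hN h hne, norm_div, norm_mul, Complex.norm_real,
      Real.norm_of_nonneg hN0.le, div_lt_one (by positivity)]
    exact h2
  rw [Complex.norm_exp, neg_re, Real.exp_lt_one_iff] at h4
  linarith

theorem EA_norm_le (hN : 1 < N) {τ : ℂ} (h0 : τ.re = 0) (h1 : N * |τ.im| ≤ 2 * Real.pi) :
    ‖EA N τ‖ ≤ 1 := by
  have hN0 : 0 < N := by linarith
  have hN0' : (N : ℂ) ≠ 0 := by exact_mod_cast hN0.ne'
  by_cases hne : τ = 0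
  · rw [hne]; simp [EA, J_zero]
  have h2 := norm_lt hN h0.ge h1 hne
  have h3 : 0 < ‖Complex.exp τ - 1‖ :=
    norm_pos_iff.2 (exp_ne_one' h0.ge (im_lt_two_pi hN h1) hne)
  unfold EA
  have e1 : ‖Complex.exp ((N : ℂ) * τ)‖ = 1 := by
    rw [Complex.norm_exp, re_ofReal_mul, h0]; simp
  have e2 : ‖1 - Complex.exp (-τ)‖ = ‖Complex.exp τ - 1‖ := by
    have : 1 - Complex.exp (-τ) = Complex.exp (-τ) * (Complex.exp τ - 1) := by
      rw [mul_sub, ← Complex.exp_add]; simp
    rw [this, norm_mul, Complex.norm_exp, neg_re, h0]; simp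
  rw [norm_mul, e1, one_mul, J_neg (mul_ne_zero hN0' hne), J_neg hne, div_div_div_eq, norm_div,
    norm_mul, norm_mul, norm_mul, e2, Complex.norm_real, Real.norm_of_nonneg hN0.le]
  have h5 : 0 < ‖τ‖ := norm_pos_iff.2 hne
  rw [div_le_one (by positivity)]
  nlinarith

theorem EA_cont (hN : 1 < N) {τ : ℂ} (h0 : 0 ≤ τ.re) (h1 : N * |τ.im| ≤ 2 * Real.pi) :
    ContinuousAt (EA N) τ := by
  have h2 : J (-τ) ≠ 0 := slitPlane_ne_zero (J_slit (by rw [neg_re]; linarith)
    (by rw [neg_im, abs_neg]; exact im_lt_two_pi hN h1))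
  have h3 : ContinuousAt (fun τ : ℂ => J (-((N : ℂ) * τ))) τ :=
    (J_cont.comp (by fun_prop)).continuousAt
  have h4 : ContinuousAt (fun τ : ℂ => J (-τ)) τ := (J_cont.comp (by fun_prop)).continuousAt
  have h5 : ContinuousAt (fun τ : ℂ => Complex.exp ((N : ℂ) * τ)) τ := by fun_prop
  exact h5.mul (h3.div h4 h2)

end Crest.Agent.R102.IsoNeg486
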