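import Crest.Agent.R102.IsoNeg2_486

/-!
# Row 102, part (C), T5: the isotropic end at a circular point, part 3: the dynamics `T` on the
half strip `HH` (helper486)
-/

open Complex Set Filter Topology

noncomputable section

namespace Crest.Agent.R102.IsoNeg486

variable {N : ℝ}

/-- the half strip in the `x`-plane -/
def HH (N : ℝ) : Set ℂ := {x | 0 < x.re ∧ |x.im| < (N + 1) / N * Real.pi}

theorem convex_strip (c : ℝ) : Convex ℝ {x : ℂ | 0 < x.re ∧ |x.im| < c} := by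
  have h1 : Convex ℝ {x : ℂ | 0 < x.re} := by
    have : {x : ℂ | 0 < x.re} = Complex.reLm ⁻¹' Ioi 0 := by ext z; rfl
    rw [this]; exact (convex_Ioi 0).linear_preimage _
  have h2 : Convex ℝ {x : ℂ | |x.im| < c} := by
    have : {x : ℂ | |x.im| < c} = Complex.imLm ⁻¹' Ioo (-c) c := by
      ext z
      change |z.im| < c ↔ -c < z.im ∧ z.im < c
      exact abs_lt
    rw [this]; exact (convex_Ioo _ _).linear_preimage _
  exact h1.inter h2

theorem isOpen_strip (c : ℝ) : IsOpen {x : ℂ | 0 < x.re ∧ |x.im| < c} :=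
  (isOpen_lt continuous_const continuous_re).inter (isOpen_lt continuous_im.abs continuous_const)

theorem convex_To : Convex ℝ (To N) := convex_strip _
theorem convex_HH : Convex ℝ (HH N) := convex_strip _
theorem isOpen_To : IsOpen (To N) := isOpen_strip _
theorem isOpen_HH : IsOpen (HH N) := isOpen_strip _

theorem To_bd (hN : 1 < N) {τ : ℂ} (h : τ ∈ To N) : N * |τ.im| < 2 * Real.pi := by
  have := (lt_div_iff₀ (show 0 < N by linarith)).1 h.2
  linarith

theorem mem_To (hN : 1 < N) {τ : ℂ} (h : 0 < τ.re) (h1 : N * |τ.im| < 2 * Real.pi) : τ ∈ To N :=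
  ⟨h, by rw [lt_div_iff₀ (show 0 < N by linarith)]; linarith⟩

/-- expansion from the real part of the derivative -/
theorem expand {f : ℂ → ℂ} {f' : ℂ → ℂ} {s : Set ℂ} {α : ℝ} (hs : Convex ℝ s)
    (hf : ∀ z ∈ s, HasDerivAt f (f' z) z) (hp : ∀ z ∈ s, α ≤ (f' z).re) {z1 z2 : ℂ}
    (h1 : z1 ∈ s) (h2 : z2 ∈ s) : α * ‖z2 - z1‖ ≤ ‖f z2 - f z1‖ := by
  by_cases hne : z1 = z2
  · rw [hne]; simp
  have hd : z2 - z1 ≠ 0 := sub_ne_zero.2 (Ne.symm hne)
  have hseg : ∀ t : ℝ, t ∈ Icc (0 : ℝ) 1 → z1 + (t : ℂ) * (z2 - z1) ∈ s := by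
    intro t ht
    have := hs h1 h2 (show 0 ≤ 1 - t by linarith [ht.2]) ht.1 (by ring)
    have e : z1 + (t : ℂ) * (z2 - z1) = (1 - t) • z1 + t • z2 := by
      rw [real_smul, real_smul]; push_cast; ring
    rw [e]; exact this
  set g : ℝ → ℝ := fun t => (f (z1 + (t : ℂ) * (z2 - z1)) / (z2 - z1)).re with hg
  have hder : ∀ t ∈ Icc (0 : ℝ) 1, HasDerivAt g ((f' (z1 + (t : ℂ) * (z2 - z1))).re) t := by
    intro t ht
    have e1 : HasDerivAt (fun t : ℝ => z1 + (t : ℂ) * (z2 - z1)) (z2 - z1) t := by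
      have := ((hasDerivAt_id t).ofReal_comp.mul_const (z2 - z1)).const_add z1
      simpa using this
    have e2 := ((hf _ (hseg t ht)).comp t e1).div_const (z2 - z1)
    have e4 := reCLM.hasFDerivAt.comp_hasDerivAt t e2
    refine e4.congr_deriv ?_
    rw [mul_div_cancel_right₀ _ hd]
    rfl
  obtain ⟨ξ, hξ, hslope⟩ := exists_hasDerivAt_eq_slope g _ (zero_lt_one)
    (fun t ht => (hder t ht).continuousAt.continuousWithinAt)
    (fun t ht => hder t (Ioo_subset_Icc_self ht))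
  have h5 := hp _ (hseg ξ (Ioo_subset_Icc_self hξ))
  rw [hslope] at h5
  have h6 : g 1 - g 0 = ((f z2 - f z1) / (z2 - z1)).re := by
    simp only [hg]
    rw [← sub_re, ← sub_div]
    simp
  rw [h6, sub_zero, div_one] at h5
  have h7 := h5.trans (Complex.re_le_norm _)
  rw [norm_div, le_div_iff₀ (norm_pos_iff.2 hd)] at h7
  exact h7

theorem Ap_expand (hN : 1 < N) {z1 z2 : ℂ} (h1 : z1 ∈ To N) (h2 : z2 ∈ To N) :
    (N + 1) / 2 * ‖z2 - z1‖ ≤ ‖Ap N z2 - Ap N z1‖ :=
  expand convex_To (f' := dAp N)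
    (fun _ hz => Ap_hasDerivAt hN (ne_of_re hz.1) (D0_of_pos hN hz.1))
    (fun _ hz => dAp_re hN hz.1 (To_bd hN hz).le) h1 h2

theorem Ap_inj (hN : 1 < N) : InjOn (Ap N) (To N) := by
  intro z1 h1 z2 h2 h
  have := Ap_expand hN h1 h2
  rw [h, sub_self, norm_zero] at this
  have h3 : 0 < (N + 1) / 2 := by linarith
  have h4 : ‖z2 - z1‖ ≤ 0 := by
    by_contra h5
    rw [not_le] at h5
    have := mul_pos h3 h5
    linarith
  exact (sub_eq_zero.1 (norm_le_zero_iff.1 h4)).symm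

theorem dAp_ne (hN : 1 < N) {τ : ℂ} (h : τ ∈ To N) : deriv (Ap N) τ ≠ 0 := by
  rw [(Ap_hasDerivAt hN (ne_of_re h.1) (D0_of_pos hN h.1)).deriv]
  intro h0
  have := dAp_re hN h.1 (To_bd hN h).le
  unfold dAp at this
  rw [h0, zero_re] at this
  linarith

theorem isOpen_image (hN : 1 < N) : IsOpen (Ap N '' To N) := by
  rw [isOpen_iff_mem_nhds]
  rintro _ ⟨τ, hτ, rfl⟩
  have h1 := (Ap_an (N := N) (D0_of_pos hN hτ.1)).hasStrictDerivAt
  rw [← h1.map_nhds_eq (dAp_ne hN hτ)]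
  exact image_mem_map (isOpen_To.mem_nhds hτ)

/-- asymptotics of `μ` at infinity -/
theorem mu_asymp (hN : 1 < N) {ε : ℝ} (hε : 0 < ε) : ∃ s0 : ℝ, 0 < s0 ∧ ∀ τ : ℂ, s0 ≤ τ.re →
    ‖lam (-((N : ℂ) * τ)) - lam (-τ) + (Real.log N : ℂ)‖ ≤ ε := by
  have hc : ContinuousAt (fun z : ℂ => Complex.log (1 - z)) 0 := by
    refine ContinuousAt.clog (by fun_prop) ?_
    simp
  have h1 := (Metric.continuousAt_iff.1 hc) (ε / 2) (by linarith)
  obtain ⟨δ, hδ, h2⟩ := h1
  simp only [dist_eq_norm, sub_zero, Complex.log_one] at h2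
  refine ⟨max 1 (-Real.log δ + 1), by positivity, ?_⟩
  intro τ hτ
  have h3 : 0 < τ.re := lt_of_lt_of_le (by positivity) hτ
  have h4 : -Real.log δ < τ.re := by
    have := (le_max_right 1 (-Real.log δ + 1)).trans hτ
    linarith
  rw [mu_formula hN h3, sub_add_cancel]
  have e1 : ‖Complex.exp (-τ)‖ < δ := by
    rw [Complex.norm_exp, neg_re, ← Real.lt_log_iff_exp_lt hδ]
    linarith
  have e2 : ‖Complex.exp (-((N : ℂ) * τ))‖ < δ := by
    rw [Complex.norm_exp, neg_re, re_ofReal_mul, ← Real.lt_log_iff_exp_lt hδ]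
    nlinarith
  have g1 := h2 e1
  have g2 := h2 e2
  calc _ ≤ ‖Complex.log (1 - Complex.exp (-((N : ℂ) * τ)))‖ + ‖Complex.log (1 - Complex.exp (-τ))‖ :=
        norm_sub_le _ _
    _ ≤ ε := by linarith

theorem im_Ap_bd (hN : 1 < N) {τ : ℂ} (h : 0 < τ.re) (h1 : N * |τ.im| ≤ 2 * Real.pi) :
    (N + 1) / 2 * |τ.im| ≤ |(Ap N τ).im| := by
  rcases le_total 0 τ.im with h2 | h2
  · rw [abs_of_nonneg h2] at h1 ⊢
    have := Im_Ap_ge hN h h2 h1
    rw [re_add_im] at this
    exact this.trans (le_abs_self _)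
  · rw [abs_of_nonpos h2] at h1 ⊢
    have h3 : 0 ≤ -τ.im := by linarith
    have := Im_Ap_ge hN h h3 h1
    have e : (τ.re : ℂ) + ((-τ.im : ℝ) : ℂ) * I = (starRingEnd ℂ) τ := by
      apply Complex.ext <;> simp
    rw [e, Ap_conj (D0_of_pos hN h), conj_im] at this
    exact this.trans (neg_le_abs _)

theorem HH_sub (hN : 1 < N) : HH N ⊆ Ap N '' To N := by
  have hN0 : 0 < N := by linarith
  refine convex_HH.isPreconnected.subset_of_closure_inter_subset (isOpen_image hN) ?_ ?_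
  · obtain ⟨s0, hs0, h1⟩ := mu_asymp hN one_pos
    set s : ℝ := s0 + (Real.log N + 2) / N with hs
    have hlog : 0 < Real.log N := Real.log_pos hN
    have hs1 : 0 < s := by positivity
    have hsre : 0 < (s : ℂ).re := by simpa using hs1
    have h2 := h1 (s : ℂ) (by rw [ofReal_re, hs]; have : 0 < (Real.log N + 2) / N := by positivity
                              linarith)
    have him : (Ap N (s : ℂ)).im = 0 := by
      have := Ap_conj (D0_of_pos hN hsre)
      rw [conj_ofReal] at this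
      exact Complex.conj_eq_iff_im.1 this.symm
    refine ⟨Ap N (s : ℂ), ⟨?_, ?_⟩, ⟨(s : ℂ), mem_To hN hsre (by simp; positivity), rfl⟩⟩
    · have h3 := (abs_le.1 ((Complex.abs_re_le_norm _).trans h2)).1
      unfold Ap
      rw [add_re, re_ofReal_mul, ofReal_re]
      rw [add_re, ofReal_re] at h3
      have h4 : N * s = N * s0 + (Real.log N + 2) := by
        rw [hs, mul_add, mul_div_cancel₀ _ hN0.ne']
      have h5 : 0 < N * s0 := by positivity
      linarith
    · rw [him, abs_zero]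
      have := Real.pi_pos
      positivity
  · rintro x ⟨hx, hxH⟩
    obtain ⟨y, hy, hlim⟩ := mem_closure_iff_seq_limit.1 hx
    choose τ hτ hyτ using hy
    have hbdd : ∃ B : ℝ, ∀ n, ‖τ n‖ ≤ B := by
      obtain ⟨C, hC⟩ := (Metric.isBounded_range_of_tendsto _ hlim).exists_norm_le
      refine ⟨‖τ 0‖ + (C + ‖y 0‖) / ((N + 1) / 2), fun n => ?_⟩
      have h1 := Ap_expand hN (hτ 0) (hτ n)
      rw [hyτ, hyτ] at h1
      have h2 : ‖y n - y 0‖ ≤ C + ‖y 0‖ := (norm_sub_le _ _).trans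
        (add_le_add_left (hC _ (mem_range_self n)) _)
      have h3 : ‖τ n - τ 0‖ ≤ (C + ‖y 0‖) / ((N + 1) / 2) := by
        rw [le_div_iff₀ (by linarith), mul_comm]
        exact h1.trans h2
      calc ‖τ n‖ = ‖τ 0 + (τ n - τ 0)‖ := by rw [add_sub_cancel]
        _ ≤ ‖τ 0‖ + ‖τ n - τ 0‖ := norm_add_le _ _
        _ ≤ _ := by linarith
    obtain ⟨B, hB⟩ := hbdd
    have hcomp : IsCompact (Metric.closedBall (0 : ℂ) B) := isCompact_closedBall _ _
    obtain ⟨t, -, φ, hφ, ht⟩ := hcomp.tendsto_subseq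
      (fun n => by rw [mem_closedBall_zero_iff]; exact hB n)
    have hre : 0 ≤ t.re := ge_of_tendsto' ((continuous_re.tendsto t).comp ht)
      (fun n => (hτ (φ n)).1.le)
    have him : N * |t.im| ≤ 2 * Real.pi :=
      le_of_tendsto' (((continuous_const.mul continuous_im.abs).tendsto t).comp ht)
        (fun n => (To_bd hN (hτ (φ n))).le)
    have hyφ : Tendsto (fun n => y (φ n)) atTop (𝓝 x) := hlim.comp hφ.tendsto_atTop
    have hexp : Complex.exp x = EA N t := by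
      have h1 : Tendsto (fun n => EA N (τ (φ n))) atTop (𝓝 (EA N t)) :=
        (EA_cont hN hre him).tendsto.comp ht
      have h2 : Tendsto (fun n => Complex.exp (y (φ n))) atTop (𝓝 (Complex.exp x)) :=
        (Complex.continuous_exp.tendsto x).comp hyφ
      refine tendsto_nhds_unique h2 (h1.congr fun n => ?_)
      rw [← hyτ, exp_Ap (D0_of_pos hN (hτ (φ n)).1)]
      rfl
    have hre0 : 0 < t.re := by
      rcases eq_or_lt_of_le hre with h | h
      · exfalso
        have h1 := EA_norm_le hN h.symm him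
        rw [← hexp, Complex.norm_exp, Real.exp_le_one_iff] at h1
        exact absurd hxH.1 (not_lt.2 h1)
      · exact h
    have hx' : x = Ap N t := by
      have h1 : Tendsto (fun n => Ap N (τ (φ n))) atTop (𝓝 (Ap N t)) :=
        ((Ap_an (D0_of_pos hN hre0)).continuousAt.tendsto).comp ht
      refine tendsto_nhds_unique hyφ (h1.congr fun n => ?_)
      rw [hyτ]
    refine ⟨t, mem_To hN hre0 ?_, hx'.symm⟩
    rcases eq_or_lt_of_le him with h | h
    · exfalso
      have h1 := im_Ap_bd hN hre0 him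
      rw [← hx'] at h1
      have h2 := hxH.2
      have h3 : (N + 1) / 2 * |t.im| = (N + 1) / N * Real.pi := by
        have : |t.im| = 2 * Real.pi / N := by
          rw [eq_div_iff hN0.ne']; linarith
        rw [this]; field_simp
      rw [h3] at h1
      exact absurd h2 (not_lt.2 h1)
    · exact h

/-! ### the inverse of `Ap` and the dynamics -/

/-- inverse of `Ap` on `To` -/
def KK (N : ℝ) : ℂ → ℂ := Function.invFunOn (Ap N) (To N)

theorem KK_spec (hN : 1 < N) {x : ℂ} (hx : x ∈ HH N) : KK N x ∈ To N ∧ Ap N (KK N x) = x := by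
  obtain ⟨b, hb, hLb⟩ := HH_sub hN hx
  exact ⟨Function.invFunOn_mem ⟨b, hb, hLb⟩, Function.invFunOn_eq ⟨b, hb, hLb⟩⟩

theorem KK_eq (hN : 1 < N) {τ : ℂ} (hτ : τ ∈ To N) : KK N (Ap N τ) = τ := by
  have h1 : KK N (Ap N τ) ∈ To N := Function.invFunOn_mem ⟨τ, hτ, rfl⟩
  have h2 : Ap N (KK N (Ap N τ)) = Ap N τ := Function.invFunOn_eq ⟨τ, hτ, rfl⟩
  exact Ap_inj hN h1 hτ h2

theorem KK_an (hN : 1 < N) {x : ℂ} (hx : x ∈ HH N) :
    AnalyticAt ℂ (KK N) x ∧ deriv (KK N) x ≠ 0 := by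
  obtain ⟨h1, h2⟩ := KK_spec hN hx
  have hL := Ap_an (N := N) (D0_of_pos hN h1.1)
  have hd : deriv (Ap N) (KK N x) ≠ 0 := dAp_ne hN h1
  set J := hL.hasStrictDerivAt.localInverse _ _ _ hd with hJ
  have hJa : AnalyticAt ℂ J (Ap N (KK N x)) := hL.analyticAt_localInverse hd
  have hJv : J (Ap N (KK N x)) = KK N x := HasStrictFDerivAt.localInverse_apply_image ..
  have hJr : ∀ᶠ y in 𝓝 (Ap N (KK N x)), Ap N (J y) = y :=
    HasStrictDerivAt.eventually_right_inverse ..
  have hJd : deriv J (Ap N (KK N x)) ≠ 0 := by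
    rw [hJ, (hL.hasStrictDerivAt.to_localInverse hd).hasDerivAt.deriv]
    exact inv_ne_zero hd
  rw [h2] at hJa hJv hJr hJd
  have hev : ∀ᶠ y in 𝓝 x, J y ∈ To N := by
    refine hJa.continuousAt.eventually_mem ?_
    rw [hJv]
    exact isOpen_To.mem_nhds h1
  have heq : KK N =ᶠ[𝓝 x] J := by
    filter_upwards [hJr, hev] with y g1 g2
    have := KK_eq hN g2
    rwa [g1] at this
  exact ⟨hJa.congr heq.symm, by rw [heq.deriv_eq]; exact hJd⟩

/-- the dynamics -/
def TT (N : ℝ) (x : ℂ) : ℂ := Am N (KK N x)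

theorem TT_Ap (hN : 1 < N) {τ : ℂ} (hτ : τ ∈ To N) : TT N (Ap N τ) = Am N τ := by
  unfold TT; rw [KK_eq hN hτ]

theorem Am_eq (τ : ℂ) : Am N τ = ((N : ℂ) + 1) * τ - Ap N τ := by
  rw [← Ap_add_Am]; ring

theorem Am_im_bd (hN : 1 < N) {τ : ℂ} (h : τ ∈ To N) : |(Am N τ).im| < (N + 1) / N * Real.pi := by
  have hN0 : 0 < N := by linarith
  have hπ := Real.pi_pos
  have key : ∀ τ : ℂ, τ ∈ To N → 0 ≤ τ.im → |(Am N τ).im| < (N + 1) / N * Real.pi := by
    intro τ h h0
    have h1 := To_bd hN h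
    rw [abs_of_nonneg h0] at h1
    have h2 := Im_Ap_ge hN h.1 h0 h1.le
    rw [re_add_im] at h2
    have h3 : (Am N τ).im = (N + 1) * τ.im - (Ap N τ).im := by
      rw [Am_eq, sub_im]
      congr 1
      rw [mul_im]; simp
    have h4 := (abs_lt.1 (mu_im_lt hN h.1))
    have h5 : (Am N τ).im = τ.im - (lam (-((N : ℂ) * τ)) - lam (-τ)).im := by
      unfold Am; rw [sub_im]
    have h6 : Real.pi < (N + 1) / N * Real.pi := by
      have : 1 < (N + 1) / N := by rw [lt_div_iff₀ hN0]; linarith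
      nlinarith
    have h7 : (N + 1) / 2 * τ.im < (N + 1) / N * Real.pi := by
      have : τ.im < 2 * Real.pi / N := by rw [lt_div_iff₀ hN0]; linarith
      calc (N + 1) / 2 * τ.im < (N + 1) / 2 * (2 * Real.pi / N) :=
            mul_lt_mul_of_pos_left this (by linarith)
        _ = _ := by field_simp
    rw [abs_lt]
    constructor
    · rw [h5]; linarith
    · rw [h3]; linarith
  rcases le_total 0 τ.im with h0 | h0
  · exact key τ h h0
  · have h1 : (starRingEnd ℂ) τ ∈ To N := ⟨by simpa using h.1, by rw [conj_im, abs_neg]; exact h.2⟩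
    have h2 := key _ h1 (by rw [conj_im]; linarith)
    rwa [Am_conj (D0_of_pos hN h.1), conj_im, abs_neg] at h2

theorem Am_mem (hN : 1 < N) {τ : ℂ} (h : τ ∈ To N) : Am N τ ∈ HH N :=
  ⟨Am_re_pos hN h.1.le (To_bd hN h).le (D0_of_pos hN h.1) (ne_of_re h.1), Am_im_bd hN h⟩

theorem TT_mem (hN : 1 < N) {x : ℂ} (hx : x ∈ HH N) : TT N x ∈ HH N :=
  Am_mem hN (KK_spec hN hx).1

/-- the identity behind the uniformisation -/
theorem ident (hN : 1 < N) {τ : ℂ} (h : τ ∈ D0 N) (hne : τ ≠ 0) :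
    Complex.exp ((N : ℂ) * τ) * (1 + N * Complex.exp (-(Am N τ))) =
      1 + N * Complex.exp (Ap N τ) := by
  have hN0 : (N : ℂ) ≠ 0 := by
    have : N ≠ 0 := by linarith
    exact_mod_cast this
  have e1 : Complex.exp (Ap N τ) = Complex.exp ((N : ℂ) * τ) * Complex.exp τ *
      Complex.exp (-(Am N τ)) := by
    rw [← Complex.exp_add, ← Complex.exp_add]
    congr 1
    rw [Am_eq]; ring
  rw [e1, exp_neg_Am_formula hN h hne, Complex.exp_neg]
  have h1 := exp_ne_one hne h.2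
  have h2 := Complex.exp_ne_zero ((N : ℂ) * τ)
  field_simp
  ring

theorem dAm_ne (hN : 1 < N) {τ : ℂ} (h : τ ∈ To N) (hre : 0 < (Ap N τ).re) :
    deriv (Am N) τ ≠ 0 := by
  intro h0
  have hN0 : (N : ℂ) ≠ 0 := by
    have : N ≠ 0 := by linarith
    exact_mod_cast this
  have hD := D0_of_pos (N := N) hN h.1
  have dP := (Ap_an hD).differentiableAt.hasDerivAt
  have dM := (Am_an hD).differentiableAt.hasDerivAt
  rw [h0] at dM
  have e1 : HasDerivAt (fun τ : ℂ => (N : ℂ) * τ) (N : ℂ) τ := by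
    simpa using (hasDerivAt_id τ).const_mul (N : ℂ)
  have dL := e1.cexp.mul (((dM.neg).cexp.const_mul (N : ℂ)).const_add 1)
  have dR := (dP.cexp.const_mul (N : ℂ)).const_add 1
  have hS : (fun τ => Complex.exp ((N : ℂ) * τ) * (1 + N * Complex.exp (-(Am N τ)))) =ᶠ[𝓝 τ]
      fun τ => 1 + N * Complex.exp (Ap N τ) := by
    filter_upwards [isOpen_To.mem_nhds h] with z hz
    exact ident hN (D0_of_pos hN hz.1) (ne_of_re hz.1)
  have hE := (dL.congr_of_eventuallyEq hS.symm).unique dR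
  have hAp' : deriv (Ap N) τ = (N : ℂ) + 1 := by
    have h2 : HasDerivAt (fun τ : ℂ => ((N : ℂ) + 1) * τ - Ap N τ)
        (((N : ℂ) + 1) - deriv (Ap N) τ) τ := by
      have e2 : HasDerivAt (fun τ : ℂ => ((N : ℂ) + 1) * τ) ((N : ℂ) + 1) τ := by
        simpa using (hasDerivAt_id τ).const_mul ((N : ℂ) + 1)
      exact e2.sub dP
    have h3 : HasDerivAt (fun τ : ℂ => ((N : ℂ) + 1) * τ - Ap N τ) 0 τ := by
      refine dM.congr_of_eventuallyEq (Eventually.of_forall fun z => ?_)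
      rw [Am_eq]
    have := h2.unique h3
    linear_combination -this
  rw [hAp'] at hE
  have hid := ident hN hD (ne_of_re h.1)
  have hk : (N : ℂ) * Complex.exp (Ap N τ) = (N : ℂ) * 1 := by
    have : Complex.exp ((N : ℂ) * τ) * (N : ℂ) * (1 + N * Complex.exp (-(Am N τ))) =
        N * (Complex.exp (Ap N τ) * ((N : ℂ) + 1)) := by
      rw [← hE]; simp
    have h5 : (N : ℂ) * (1 + N * Complex.exp (Ap N τ)) =
        N * (Complex.exp (Ap N τ) * ((N : ℂ) + 1)) := by
      rw [← this, ← hid]; ring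
    linear_combination -h5
  have h6 := mul_left_cancel₀ hN0 hk
  have h7 : ‖Complex.exp (Ap N τ)‖ = 1 := by rw [h6, norm_one]
  rw [Complex.norm_exp, Real.exp_eq_one_iff] at h7
  linarith

theorem TT_an (hN : 1 < N) {x : ℂ} (hx : x ∈ HH N) :
    AnalyticAt ℂ (TT N) x ∧ deriv (TT N) x ≠ 0 := by
  obtain ⟨h1, h2⟩ := KK_an hN hx
  obtain ⟨h3, h4⟩ := KK_spec hN hx
  have h5 := Am_an (N := N) (D0_of_pos hN h3.1)
  refine ⟨AnalyticAt.comp (g := Am N) (f := KK N) h5 h1, ?_⟩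
  have h6 : HasDerivAt (TT N) (deriv (Am N) (KK N x) * deriv (KK N) x) x :=
    h5.differentiableAt.hasDerivAt.comp x h1.differentiableAt.hasDerivAt
  rw [h6.deriv]
  exact mul_ne_zero (dAm_ne hN h3 (by rw [h4]; exact hx.1)) h2

theorem TT_formula (hN : 1 < N) {x : ℂ} (hx : x ∈ HH N) :
    TT N x = x / N - ((N : ℂ) + 1) / N *
      (lam (-((N : ℂ) * KK N x)) - lam (-(KK N x))) := by
  have hN0 : (N : ℂ) ≠ 0 := by
    have : N ≠ 0 := by linarith
    exact_mod_cast this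
  obtain ⟨h3, h4⟩ := KK_spec hN hx
  unfold TT
  nth_rewrite 2 [← h4]
  unfold Am Ap
  field_simp
  ring

end Crest.Agent.R102.IsoNeg486
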