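import Crest.Agent.R102.BigMontel_948

/-!
# Row 102, part (C), item [d]: Fatou coordinate of a petal, abstract form (helper297)

`Ω` open preconnected, `T : Ω → Ω` holomorphic, omitting two values, and near the base point `c`
conjugate by `H` to `t ↦ t/(1+t)`.  Then `T^k → c` locally uniformly on `Ω` (Vitali) and there is a
holomorphic `S` on `Ω` with `S (T z) = S z + 1`, `S (H t) = 1/t`.
-/

set_option autoImplicit false

open Complex Set Filter Topology Metric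

noncomputable section

namespace Crest.Agent.R102.Petal297

/-- data of a petal -/
structure Petal (Ω : Set ℂ) (T H : ℂ → ℂ) (c a b : ℂ) : Prop where
  isOpen : IsOpen Ω
  conn : IsPreconnected Ω
  maps : ∀ z ∈ Ω, T z ∈ Ω
  an : ∀ z ∈ Ω, AnalyticAt ℂ T z
  der : ∀ z ∈ Ω, deriv T z ≠ 0
  ab : a ≠ b
  a_not : a ∉ Ω
  b_not : b ∉ Ω
  c_not : c ∉ Ω
  H_an : AnalyticAt ℂ H 0
  H_zero : H 0 = c
  H_der : deriv H 0 ≠ 0
  conj : ∀ᶠ t in 𝓝 (0 : ℂ), H t ∈ Ω → T (H t) = H (t / (1 + t))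
  mem : ∀ᶠ x : ℝ in 𝓝[>] (0 : ℝ), H (x : ℂ) ∈ Ω

variable {Ω : Set ℂ} {T H : ℂ → ℂ} {c a b : ℂ}

/-- local data with fixed radii -/
structure Loc (Ω : Set ℂ) (T H J : ℂ → ℂ) (c : ℂ) (ε δ ε1 : ℝ) : Prop where
  ε_pos : 0 < ε
  ε_le : ε ≤ 1 / 4
  δ_pos : 0 < δ
  ε1_pos : 0 < ε1
  ε1_le : ε1 ≤ ε
  conj : ∀ t : ℂ, ‖t‖ < ε → H t ∈ Ω → T (H t) = H (t / (1 + t))
  JH : ∀ t : ℂ, ‖t‖ < ε → J (H t) = t
  HJ : ∀ z ∈ ball c δ, H (J z) = z
  J_an : ∀ z ∈ ball c δ, AnalyticAt ℂ J z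
  J_der : ∀ z ∈ ball c δ, deriv J z ≠ 0
  J_small : ∀ z ∈ ball c δ, ‖J z‖ < ε / 2
  H_ball : ∀ t : ℂ, ‖t‖ < ε1 → H t ∈ ball c δ
  H_cont : ∀ t : ℂ, ‖t‖ < ε → ContinuousAt H t

theorem Petal.exists_loc (h : Petal Ω T H c a b) :
    ∃ (J : ℂ → ℂ) (ε δ ε1 : ℝ), Loc Ω T H J c ε δ ε1 := by
  have hH := h.H_an
  set J := hH.hasStrictDerivAt.localInverse _ _ _ h.H_der with hJ
  have hJa : AnalyticAt ℂ J (H 0) := hH.analyticAt_localInverse h.H_der
  have hJ0 : J (H 0) = 0 := HasStrictFDerivAt.localInverse_apply_image ..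
  have hJr : ∀ᶠ y in 𝓝 (H 0), H (J y) = y := HasStrictDerivAt.eventually_right_inverse ..
  have hJl : ∀ᶠ t in 𝓝 (0 : ℂ), J (H t) = t := HasStrictDerivAt.eventually_left_inverse ..
  have hJd : deriv J (H 0) ≠ 0 := by
    rw [hJ, (hH.hasStrictDerivAt.to_localInverse h.H_der).hasDerivAt.deriv]
    exact inv_ne_zero h.H_der
  rw [h.H_zero] at hJa hJ0 hJr hJd
  have e1 := (h.conj.and (hJl.and (hH.eventually_analyticAt)))
  obtain ⟨ε0, hε0, hball0⟩ := Metric.eventually_nhds_iff_ball.1 e1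
  set ε := min ε0 (1 / 4) with hε
  have hεp : 0 < ε := lt_min hε0 (by norm_num)
  have e2 : ∀ᶠ z in 𝓝 c, ‖J z‖ < ε / 2 := by
    have : ContinuousAt (fun z => ‖J z‖) c := hJa.continuousAt.norm
    refine this.eventually (gt_mem_nhds ?_)
    show ‖J c‖ < ε / 2
    rw [hJ0, norm_zero]; linarith
  have hdc : ContinuousAt (deriv J) c := hJa.deriv.continuousAt
  have e3 := (hJr.and ((hJa.eventually_analyticAt).and ((hdc.eventually_ne hJd).and e2)))
  obtain ⟨δ, hδ, hball1⟩ := Metric.eventually_nhds_iff_ball.1 e3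
  have e4 : ∀ᶠ t in 𝓝 (0 : ℂ), H t ∈ ball c δ := by
    refine hH.continuousAt.eventually_mem ?_
    rw [h.H_zero]; exact ball_mem_nhds _ hδ
  obtain ⟨ε2, hε2, hball2⟩ := Metric.eventually_nhds_iff_ball.1 e4
  have hb0 : ∀ t : ℂ, ‖t‖ < ε → t ∈ ball (0 : ℂ) ε0 := fun t ht => by
    rw [mem_ball_zero_iff]; exact lt_of_lt_of_le ht (min_le_left _ _)
  refine ⟨J, ε, δ, min ε ε2, ⟨hεp, min_le_right _ _, hδ, lt_min hεp hε2, min_le_left _ _,
    fun t ht => (hball0 t (hb0 t ht)).1, fun t ht => (hball0 t (hb0 t ht)).2.1,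
    fun z hz => (hball1 z hz).1, fun z hz => (hball1 z hz).2.1, fun z hz => (hball1 z hz).2.2.1,
    fun z hz => (hball1 z hz).2.2.2, fun t ht => hball2 t ?_,
    fun t ht => (hball0 t (hb0 t ht)).2.2.continuousAt⟩⟩
  rw [mem_ball_zero_iff]
  exact lt_of_lt_of_le ht (min_le_right _ _)

section

variable {J : ℂ → ℂ} {ε δ ε1 : ℝ}

theorem one_add_ne {t : ℂ} (h : ‖t‖ < 1) : (1 : ℂ) + t ≠ 0 := by
  intro h0
  have : t = -1 := by linear_combination h0
  rw [this, norm_neg, norm_one] at h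
  exact lt_irrefl _ h

theorem norm_step {t : ℂ} {ε : ℝ} (hε : ε ≤ 1 / 4) (ht : ‖t‖ < ε / 2) :
    ‖t / (1 + t)‖ < ε := by
  have h1 : 1 - ‖t‖ ≤ ‖1 + t‖ := by
    have := norm_sub_norm_le (1 : ℂ) (-t)
    rwa [sub_neg_eq_add, norm_neg, norm_one] at this
  have h2 : 0 < ‖1 + t‖ := by linarith
  rw [norm_div, div_lt_iff₀ h2]
  nlinarith [norm_nonneg t]

/-- one step near the base point -/
theorem Loc.step (L : Loc Ω T H J c ε δ ε1) (hc : H 0 = c) (hcn : c ∉ Ω) {z : ℂ} (hz : z ∈ Ω)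
    (hb : z ∈ ball c δ) :
    J z ≠ 0 ∧ T z = H (J z / (1 + J z)) ∧ J (T z) = J z / (1 + J z) := by
  have h1 := L.HJ z hb
  have h2 := L.J_small z hb
  have h3 : J z ≠ 0 := by
    intro h0
    rw [h0, hc] at h1
    rw [← h1] at hz
    exact hcn hz
  have hε := L.ε_pos
  have h4 : T z = H (J z / (1 + J z)) := by
    have := L.conj (J z) (by linarith) (by rw [h1]; exact hz)
    rwa [h1] at this
  refine ⟨h3, h4, ?_⟩
  rw [h4]
  exact L.JH _ (norm_step L.ε_le h2)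

theorem Loc.inv_step (L : Loc Ω T H J c ε δ ε1) (hc : H 0 = c) (hcn : c ∉ Ω) {z : ℂ}
    (hz : z ∈ Ω) (hb : z ∈ ball c δ) : 1 / J (T z) = 1 / J z + 1 := by
  obtain ⟨h1, -, h3⟩ := L.step hc hcn hz hb
  have h4 := one_add_ne (t := J z) (by have := L.J_small z hb; have := L.ε_le; linarith)
  rw [h3]
  field_simp

/-- the `k`-th iterate of `t ↦ t/(1+t)` -/
def tk (t : ℂ) (k : ℕ) : ℂ := t / (1 + k * t)

theorem norm_den {t : ℂ} (ht : 0 < t.re) (k : ℕ) : 1 + k * t.re ≤ ‖1 + (k : ℂ) * t‖ := by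
  refine le_trans ?_ (re_le_norm _)
  simp

theorem den_ne {t : ℂ} (ht : 0 < t.re) (k : ℕ) : 1 + (k : ℂ) * t ≠ 0 := by
  have h1 := norm_den ht k
  intro h0
  rw [h0, norm_zero] at h1
  have : 0 ≤ (k : ℝ) * t.re := by positivity
  linarith

theorem norm_tk {t : ℂ} (ht : 0 < t.re) (k : ℕ) : ‖tk t k‖ ≤ ‖t‖ := by
  unfold tk
  have h1 := norm_den ht k
  have h2 : 0 ≤ (k : ℝ) * t.re := by positivity
  rw [norm_div]
  exact div_le_self (norm_nonneg _) (by linarith)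

theorem tk_step {t : ℂ} (ht : 0 < t.re) (k : ℕ) : tk t k / (1 + tk t k) = tk t (k + 1) := by
  unfold tk
  have h1 := den_ne ht k
  have h2 := den_ne ht (k + 1)
  have h3 : 1 + (k : ℂ) * t + t ≠ 0 := by
    push_cast at h2
    intro h0
    apply h2
    linear_combination h0
  have h4 : 1 + t / (1 + (k : ℂ) * t) ≠ 0 := by
    have e : 1 + t / (1 + (k : ℂ) * t) = (1 + (k : ℂ) * t + t) / (1 + (k : ℂ) * t) := by
      rw [add_div, div_self h1]
    rw [e]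
    exact div_ne_zero h3 h1
  push_cast
  rw [div_div, mul_add, mul_one, mul_div_cancel₀ _ h1]
  ring_nf

theorem tendsto_tk {t : ℂ} (ht : 0 < t.re) : Tendsto (tk t) atTop (𝓝 0) := by
  rw [tendsto_zero_iff_norm_tendsto_zero]
  have h1 : Tendsto (fun k : ℕ => ‖t‖ / (1 + k * t.re)) atTop (𝓝 0) := by
    refine Tendsto.div_atTop tendsto_const_nhds ?_
    exact tendsto_atTop_add_const_left _ _ (tendsto_natCast_atTop_atTop.atTop_mul_const ht)
  refine squeeze_zero (fun _ => norm_nonneg _) (fun k => ?_) h1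
  unfold tk
  rw [norm_div]
  have : 0 < 1 + (k : ℝ) * t.re := by positivity
  exact div_le_div_of_nonneg_left (norm_nonneg _) this (norm_den ht k)

theorem iter_mem (hm : ∀ z ∈ Ω, T z ∈ Ω) {z : ℂ} (hz : z ∈ Ω) (k : ℕ) : T^[k] z ∈ Ω := by
  induction k with
  | zero => exact hz
  | succ k ih => rw [Function.iterate_succ_apply']; exact hm _ ih

/-- iterates of the points `H t`, `Re t > 0` -/
theorem Loc.iter (L : Loc Ω T H J c ε δ ε1) (hm : ∀ z ∈ Ω, T z ∈ Ω) {t : ℂ} (ht : ‖t‖ < ε1)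
    (hr : 0 < t.re) (hmem : H t ∈ Ω) (k : ℕ) :
    T^[k] (H t) = H (tk t k) ∧ T^[k] (H t) ∈ ball c δ := by
  have hb : ∀ k, H (tk t k) ∈ ball c δ := fun k => L.H_ball _ (lt_of_le_of_lt (norm_tk hr k) ht)
  have h1 : T^[k] (H t) = H (tk t k) := by
    induction k with
    | zero => simp [tk]
    | succ k ih =>
      have h2 := iter_mem hm hmem k
      rw [Function.iterate_succ_apply', ih]
      rw [ih] at h2
      rw [L.conj _ (lt_of_lt_of_le (lt_of_le_of_lt (norm_tk hr k) ht) L.ε1_le) h2, tk_step hr]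
  exact ⟨h1, by rw [h1]; exact hb k⟩

end

theorem iter_an (h : Petal Ω T H c a b) {z : ℂ} (hz : z ∈ Ω) (k : ℕ) :
    AnalyticAt ℂ (T^[k]) z ∧ deriv (T^[k]) z ≠ 0 := by
  induction k with
  | zero =>
    simp only [Function.iterate_zero]
    refine ⟨analyticAt_id, ?_⟩
    rw [deriv_id]; exact one_ne_zero
  | succ k ih =>
    have h1 := iter_mem h.maps hz k
    rw [Function.iterate_succ']
    refine ⟨(h.an _ h1).comp ih.1, ?_⟩
    have h2 : HasDerivAt (T ∘ T^[k]) (deriv T (T^[k] z) * deriv (T^[k]) z) z :=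
      (h.an _ h1).differentiableAt.hasDerivAt.comp z ih.1.differentiableAt.hasDerivAt
    rw [h2.deriv]
    exact mul_ne_zero (h.der _ h1) ih.2

/-- **Vitali**: all orbits converge to the base point, locally uniformly. -/
theorem Petal.conv (h : Petal Ω T H c a b) :
    TendstoLocallyUniformlyOn (fun k : ℕ => T^[k]) (fun _ => c) atTop Ω := by
  obtain ⟨J, ε, δ, ε1, L⟩ := h.exists_loc
  -- the open set of points `H t`, `Re t > 0`, `|t| < ε1`
  set W : Set ℂ := {z | z ∈ Ω ∧ z ∈ ball c δ ∧ ‖J z‖ < ε1 ∧ 0 < (J z).re} with hW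
  have hWo : IsOpen W := by
    rw [isOpen_iff_mem_nhds]
    rintro z ⟨h1, h2, h3, h4⟩
    have hc := (L.J_an z h2).continuousAt
    filter_upwards [h.isOpen.mem_nhds h1, isOpen_ball.mem_nhds h2,
      hc.norm.eventually (gt_mem_nhds h3),
      (continuous_re.continuousAt.comp hc).eventually (lt_mem_nhds h4)] with y g1 g2 g3 g4
    exact ⟨g1, g2, g3, g4⟩
  have hWne : W.Nonempty := by
    have e1 : ∀ᶠ x : ℝ in 𝓝[>] (0 : ℝ), x < ε1 :=
      nhdsWithin_le_nhds (gt_mem_nhds L.ε1_pos)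
    obtain ⟨x, hx1, hx2, hx3⟩ := (h.mem.and (e1.and self_mem_nhdsWithin)).exists
    have hx3' : 0 < x := hx3
    have hn : ‖(x : ℂ)‖ < ε1 := by
      rw [Complex.norm_real, Real.norm_of_nonneg hx3'.le]; exact hx2
    have hJ : J (H x) = x := L.JH _ (lt_of_lt_of_le hn L.ε1_le)
    exact ⟨H x, hx1, L.H_ball _ hn, by rw [hJ]; exact hn, by rw [hJ]; simpa using hx3'⟩
  refine M948.vitali_omit_ab h.isOpen h.conn (differentiableOn_const c) h.ab
    (Eventually.of_forall fun k => fun z hz => (iter_an h hz k).1.differentiableAt.differentiableWithinAt)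
    (Eventually.of_forall fun k z hz => ?_) (Eventually.of_forall fun k z hz => ?_)
    hWo hWne (fun z hz => hz.1) ?_
  · intro h0
    have := iter_mem h.maps hz k
    rw [h0] at this
    exact h.a_not this
  · intro h0
    have := iter_mem h.maps hz k
    rw [h0] at this
    exact h.b_not this
  · rintro z ⟨h1, h2, h3, h4⟩
    have hHz := L.HJ z h2
    have h5 : ∀ k, T^[k] z = H (tk (J z) k) := fun k => by
      have := (L.iter h.maps h3 h4 (by rw [hHz]; exact h1) k).1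
      rwa [hHz] at this
    have h6 : Tendsto (fun k => H (tk (J z) k)) atTop (𝓝 (H 0)) :=
      h.H_an.continuousAt.tendsto.comp (tendsto_tk h4)
    rw [h.H_zero] at h6
    exact h6.congr fun k => (h5 k).symm

/-- **Fatou coordinate.** -/
theorem Petal.fatou (h : Petal Ω T H c a b) :
    ∃ (S : ℂ → ℂ) (r : ℝ), 0 < r ∧ (∀ z ∈ Ω, AnalyticAt ℂ S z) ∧ (∀ z ∈ Ω, deriv S z ≠ 0) ∧
      (∀ z ∈ Ω, S (T z) = S z + 1) ∧
      (∀ t : ℂ, ‖t‖ < r → 0 < t.re → H t ∈ Ω → S (H t) = 1 / t) ∧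
      (∀ z ∈ Ω, ∀ R : ℝ, 0 < R → ∃ (k : ℕ) (t : ℂ), ‖t‖ < R ∧ t ≠ 0 ∧ T^[k] z = H t ∧
        S z = 1 / t - k) := by
  obtain ⟨J, ε, δ, ε1, L⟩ := h.exists_loc
  have hconv := h.conv
  have hδ := L.δ_pos
  set S : ℂ → ℂ := fun z => limUnder atTop (fun k : ℕ => 1 / J (T^[k] z) - k) with hS
  -- local constancy of the sequence
  have key : ∀ z ∈ Ω, ∀ k : ℕ, (∀ j, k ≤ j → T^[j] z ∈ ball c δ) →
      ∀ j, k ≤ j → 1 / J (T^[j] z) - j = 1 / J (T^[k] z) - k := by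
    intro z hz k hk j hj
    induction j, hj using Nat.le_induction with
    | base => rfl
    | succ j hj ih =>
      have h1 := L.inv_step h.H_zero h.c_not (iter_mem h.maps hz j) (hk j hj)
      rw [Function.iterate_succ_apply', h1, ← ih]
      push_cast
      ring
  have hSk : ∀ z ∈ Ω, ∀ k : ℕ, (∀ j, k ≤ j → T^[j] z ∈ ball c δ) →
      S z = 1 / J (T^[k] z) - k := by
    intro z hz k hk
    refine Tendsto.limUnder_eq ?_
    refine tendsto_const_nhds.congr' ?_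
    filter_upwards [eventually_ge_atTop k] with j hj
    exact (key z hz k hk j hj).symm
  -- locally uniform entrance time
  have hent : ∀ z ∈ Ω, ∃ (k : ℕ), ∀ᶠ y in 𝓝 z, y ∈ Ω ∧ ∀ j, k ≤ j → T^[j] y ∈ ball c δ := by
    intro z hz
    obtain ⟨V, hV, hev⟩ := Metric.tendstoLocallyUniformlyOn_iff.1 hconv δ hδ z hz
    rw [nhdsWithin_eq_nhds.2 (h.isOpen.mem_nhds hz)] at hV
    obtain ⟨k, hk⟩ := eventually_atTop.1 hev
    refine ⟨k, ?_⟩
    filter_upwards [hV, h.isOpen.mem_nhds hz] with y hy hyΩ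
    refine ⟨hyΩ, fun j hj => ?_⟩
    rw [mem_ball, dist_comm]
    exact hk j hj y hy
  have hJne : ∀ z ∈ Ω, z ∈ ball c δ → J z ≠ 0 := fun z hz hb => (L.step h.H_zero h.c_not hz hb).1
  have hSan : ∀ z ∈ Ω, ∃ k : ℕ, S =ᶠ[𝓝 z] (fun y => 1 / J (T^[k] y) - k) ∧
      T^[k] z ∈ ball c δ := by
    intro z hz
    obtain ⟨k, hk⟩ := hent z hz
    refine ⟨k, ?_, (hk.self_of_nhds).2 k le_rfl⟩
    filter_upwards [hk] with y hy
    exact hSk y hy.1 k hy.2
  refine ⟨S, ε1, L.ε1_pos, ?_, ?_, ?_, ?_, ?_⟩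
  · intro z hz
    obtain ⟨k, hk, hb⟩ := hSan z hz
    have h1 : AnalyticAt ℂ (fun y => J (T^[k] y)) z :=
      (L.J_an _ hb).fun_comp (iter_an h hz k).1
    refine AnalyticAt.congr ?_ hk.symm
    exact (analyticAt_const.div h1 (hJne _ (iter_mem h.maps hz k) hb)).sub analyticAt_const
  · intro z hz
    obtain ⟨k, hk, hb⟩ := hSan z hz
    rw [hk.deriv_eq]
    have hne := hJne _ (iter_mem h.maps hz k) hb
    have h1 : HasDerivAt (fun y => J (T^[k] y)) (deriv J (T^[k] z) * deriv (T^[k]) z) z :=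
      (L.J_an _ hb).differentiableAt.hasDerivAt.comp z
        (iter_an h hz k).1.differentiableAt.hasDerivAt
    have h2 : HasDerivAt (fun y => 1 / J (T^[k] y) - (k : ℂ))
        ((0 * J (T^[k] z) - 1 * (deriv J (T^[k] z) * deriv (T^[k]) z)) / (J (T^[k] z)) ^ 2) z :=
      ((hasDerivAt_const z (1 : ℂ)).div h1 hne).sub_const _
    rw [h2.deriv]
    refine div_ne_zero ?_ (pow_ne_zero _ hne)
    rw [zero_mul, zero_sub, one_mul]
    exact neg_ne_zero.2 (mul_ne_zero (L.J_der _ hb) (iter_an h hz k).2)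
  · intro z hz
    obtain ⟨k, hk⟩ := hent z hz
    have h1 := (hk.self_of_nhds).2
    rw [hSk z hz k h1, hSk (T z) (h.maps z hz) k (fun j hj => by
      rw [← Function.iterate_succ_apply]; exact h1 (j + 1) (by omega)),
      ← Function.iterate_succ_apply, Function.iterate_succ_apply',
      L.inv_step h.H_zero h.c_not (iter_mem h.maps hz k) (h1 k le_rfl)]
    ring
  · intro t ht hr hmem
    have h1 := L.iter h.maps ht hr hmem
    rw [hSk _ hmem 0 (fun j _ => (h1 j).2)]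
    simp only [Function.iterate_zero, id_eq, Nat.cast_zero, sub_zero]
    rw [L.JH _ (lt_of_lt_of_le ht L.ε1_le)]
  · intro z hz R hR
    obtain ⟨k, hk⟩ := hent z hz
    have h1 := (hk.self_of_nhds).2
    -- go further until `J` is small
    have hpt : Tendsto (fun j : ℕ => T^[j] z) atTop (𝓝 c) := hconv.tendsto_at hz
    have hJc : Tendsto (fun j : ℕ => J (T^[j] z)) atTop (𝓝 (J c)) :=
      ((L.J_an c (mem_ball_self hδ)).continuousAt.tendsto).comp hpt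
    have hJ0 : J c = 0 := by
      have := L.JH 0 (by rw [norm_zero]; exact L.ε_pos)
      rwa [h.H_zero] at this
    rw [hJ0] at hJc
    have h2 : ∀ᶠ j : ℕ in atTop, ‖J (T^[j] z)‖ < R := by
      have := hJc.norm
      rw [norm_zero] at this
      exact this.eventually (gt_mem_nhds hR)
    obtain ⟨j, hj1, hj2⟩ := (h2.and (eventually_ge_atTop k)).exists
    have h3 := h1 j hj2
    refine ⟨j, J (T^[j] z), hj1, hJne _ (iter_mem h.maps hz j) h3, (L.HJ _ h3).symm, ?_⟩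
    exact hSk z hz j (fun i hi => h1 i (le_trans hj2 hi))

/-- reality of the Fatou coordinate at the real points -/
theorem Petal.real (h : Petal Ω T H c a b) (hT : ∀ z ∈ Ω, z.im = 0 → (T z).im = 0)
    (hH : ∀ᶠ t in 𝓝 (0 : ℂ), H ((starRingEnd ℂ) t) = (starRingEnd ℂ) (H t)) {S : ℂ → ℂ}
    (hS : ∀ z ∈ Ω, ∀ R : ℝ, 0 < R → ∃ (k : ℕ) (t : ℂ), ‖t‖ < R ∧ t ≠ 0 ∧ T^[k] z = H t ∧
        S z = 1 / t - k) :
    ∀ z ∈ Ω, z.im = 0 → (S z).im = 0 := by
  intro z hz him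
  obtain ⟨J, ε, δ, ε1, L⟩ := h.exists_loc
  obtain ⟨R, hR, hball⟩ := Metric.eventually_nhds_iff_ball.1 hH
  obtain ⟨k, t, ht, -, hk, hSz⟩ := hS z hz (min R ε) (lt_min hR L.ε_pos)
  have hreal : ∀ k : ℕ, (T^[k] z).im = 0 := by
    intro k
    induction k with
    | zero => exact him
    | succ k ih =>
      rw [Function.iterate_succ_apply']
      exact hT _ (iter_mem h.maps hz k) ih
  have h1 := hball t (by rw [mem_ball_zero_iff]; exact lt_of_lt_of_le ht (min_le_left _ _))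
  rw [← hk, conj_eq_iff_im.2 (hreal k), hk] at h1
  have h2 := L.JH t (lt_of_lt_of_le ht (min_le_right _ _))
  have h3 := L.JH ((starRingEnd ℂ) t) (by
    rw [norm_conj]; exact lt_of_lt_of_le ht (min_le_right _ _))
  rw [h1, h2] at h3
  have h4 : t.im = 0 := conj_eq_iff_im.1 h3.symm
  rw [hSz, sub_im, natCast_im, sub_zero, one_div, inv_im, h4, neg_zero, zero_div]

/-- the derivative of a function which is real on the real line is real at real points -/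
theorem deriv_im_zero {S : ℂ → ℂ} {x : ℝ} (hS : AnalyticAt ℂ S (x : ℂ))
    (hr : ∀ᶠ y : ℝ in 𝓝 x, (S (y : ℂ)).im = 0) : (deriv S (x : ℂ)).im = 0 := by
  have h1 : HasDerivAt (fun y : ℝ => S (y : ℂ)) (deriv S (x : ℂ)) x :=
    hS.differentiableAt.hasDerivAt.comp_ofReal
  have h2 : HasFDerivAt (fun w : ℂ => w.im) imCLM ((fun y : ℝ => S (y : ℂ)) x) :=
    imCLM.hasFDerivAt
  have h3 : HasDerivAt ((fun w : ℂ => w.im) ∘ fun y : ℝ => S (y : ℂ)) (imCLM (deriv S (x : ℂ)))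
      x := h2.comp_hasDerivAt x h1
  have h4 : HasDerivAt (fun y : ℝ => (S (y : ℂ)).im) 0 x := by
    refine (hasDerivAt_const x (0 : ℝ)).congr_of_eventuallyEq ?_
    filter_upwards [hr] with y hy using hy
  exact h3.unique h4

/-- **the curve `Re S = 1/2`** -/
theorem curve {S : ℂ → ℂ} (hSa : ∀ z ∈ Ω, AnalyticAt ℂ S z) {r : ℝ}
    (hSH : ∀ t : ℂ, ‖t‖ < r → 0 < t.re → H t ∈ Ω → S (H t) = 1 / t)
    {z : ℂ → ℂ} {θ1 : ℝ} (hz : ∀ θ : ℝ, 0 < θ → θ < θ1 → AnalyticAt ℂ z (θ : ℂ) ∧ z θ ∈ Ω)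
    (hst : ∀ᶠ θ : ℝ in 𝓝[>] (0 : ℝ), ∃ t : ℂ, ‖t‖ < r ∧ 0 < t.re ∧ H t = z θ ∧
      (1 / t).re = 1 / 2) :
    ∀ θ : ℝ, 0 < θ → θ < θ1 → (S (z θ)).re = 1 / 2 := by
  intro θ h0 h1
  obtain ⟨u, hu, hev⟩ := (mem_nhdsGT_iff_exists_Ioo_subset' h0).1 hst
  have hu0 : 0 < u := hu
  have han : AnalyticOnNhd ℝ (fun x : ℝ => (S (z (x : ℂ))).re) (Ioo 0 θ1) := by
    intro x hx
    obtain ⟨g1, g2⟩ := hz x hx.1 hx.2
    have : AnalyticAt ℂ (fun y : ℂ => S (z y)) (x : ℂ) := (hSa _ g2).fun_comp g1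
    exact this.re_ofReal
  have han2 : AnalyticOnNhd ℝ (fun _ : ℝ => (1 / 2 : ℝ)) (Ioo 0 θ1) := fun x _ => analyticAt_const
  set x0 : ℝ := min (u / 2) (θ1 / 2) with hx0
  have hx01 : x0 ∈ Ioo 0 θ1 := by
    refine ⟨lt_min (by linarith) (by linarith), ?_⟩
    exact lt_of_le_of_lt (min_le_right _ _) (by linarith)
  have hx02 : x0 ∈ Ioo 0 u := ⟨hx01.1, lt_of_le_of_lt (min_le_left _ _) (by linarith)⟩
  have heq : (fun x : ℝ => (S (z (x : ℂ))).re) =ᶠ[𝓝 x0] (fun _ : ℝ => (1 / 2 : ℝ)) := by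
    filter_upwards [isOpen_Ioo.mem_nhds hx02, isOpen_Ioo.mem_nhds hx01] with x hx hx'
    obtain ⟨t, t1, t2, t3, t4⟩ := hev hx
    rw [← t3, hSH t t1 t2 (by rw [t3]; exact (hz x hx'.1 hx'.2).2), t4]
  exact han.eqOn_of_preconnected_of_eventuallyEq han2 isPreconnected_Ioo hx01 heq ⟨h0, h1⟩

end Crest.Agent.R102.Petal297
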