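import Crest.Agent.R102.IsoNeg3_486
import Crest.Agent.R102.Petal_297

/-!
# Row 102, part (C), T5: the isotropic end at a circular point, part 4: the germ, end asymptotics,
`GermJ N F → False` (helper486; paper: helper160 #24389)
-/

open Complex Set Filter Topology

noncomputable section

namespace Crest.Agent.R102.IsoNeg486

variable {N : ℝ}

/-! ### the imaginary axis -/

theorem lam_I {y : ℝ} (h0 : y ≠ 0) (h1 : |y| < 2 * Real.pi) : (lam ((y : ℂ) * I)).im = y / 2 := by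
  have hy : (y : ℂ) * I ≠ 0 := by simpa using h0
  have hs : 0 < Real.sin (y / 2) / (y / 2) := by
    rw [abs_lt] at h1
    rcases lt_or_gt_of_ne h0 with h | h
    · refine div_pos_of_neg_of_neg ?_ (by linarith)
      exact Real.sin_neg_of_neg_of_neg_pi_lt (by linarith) (by linarith)
    · refine div_pos ?_ (by linarith)
      exact Real.sin_pos_of_pos_of_lt_pi (by linarith) (by linarith)
  have e : J ((y : ℂ) * I) =
      ((Real.sin (y / 2) / (y / 2) : ℝ) : ℂ) * Complex.exp (((y / 2 : ℝ) : ℂ) * I) := by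
    rw [J_of_ne hy, div_eq_iff hy]
    have h2 : Complex.exp ((y : ℂ) * I) =
        Complex.exp (((y / 2 : ℝ) : ℂ) * I) * Complex.exp (((y / 2 : ℝ) : ℂ) * I) := by
      rw [← Complex.exp_add]; congr 1; push_cast; ring
    have h3 : Complex.sin ((y / 2 : ℝ) : ℂ) = (Complex.exp (-(((y / 2 : ℝ) : ℂ)) * I) -
        Complex.exp (((y / 2 : ℝ) : ℂ) * I)) * I / 2 := rfl
    have h4 : Complex.exp (-(((y / 2 : ℝ) : ℂ)) * I) * Complex.exp (((y / 2 : ℝ) : ℂ) * I) = 1 := by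
      rw [← Complex.exp_add]; simp
    have hyc : (y : ℂ) ≠ 0 := by exact_mod_cast h0
    rw [h2]
    push_cast [Complex.ofReal_sin]
    rw [show Complex.sin ((y : ℂ) / 2) = Complex.sin ((y / 2 : ℝ) : ℂ) by push_cast; rfl, h3]
    push_cast at h4 ⊢
    field_simp
    have hI : I ^ 2 = -1 := I_sq
    ring_nf
    ring_nf at h4
    rw [hI]
    linear_combination h4
  rw [lam, e, Complex.log_ofReal_mul hs (Complex.exp_ne_zero _), Complex.log_exp]
  · simp
  · rw [abs_lt] at h1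
    simp; linarith
  · rw [abs_lt] at h1
    simp; linarith

theorem Am_I_im (hN : 1 < N) {θ : ℝ} (h0 : 0 < θ) (h1 : N * θ < 2 * Real.pi) :
    (Am N ((θ : ℂ) * I)).im = (N + 1) / 2 * θ := by
  have hN0 : 0 < N := by linarith
  have e1 : -((N : ℂ) * ((θ : ℂ) * I)) = ((-(N * θ) : ℝ) : ℂ) * I := by push_cast; ring
  have e2 : -((θ : ℂ) * I) = ((-θ : ℝ) : ℂ) * I := by push_cast; ring
  have hNθ : 0 < N * θ := mul_pos hN0 h0
  have hlt : θ < 2 * Real.pi := by nlinarith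
  have l1 : (lam (-((N : ℂ) * ((θ : ℂ) * I)))).im = -(N * θ) / 2 := by
    rw [e1]
    exact lam_I (by linarith) (by rw [abs_neg, abs_of_pos hNθ]; exact h1)
  have l2 : (lam (-((θ : ℂ) * I))).im = -θ / 2 := by
    rw [e2]
    exact lam_I (by linarith) (by rw [abs_neg, abs_of_pos h0]; exact hlt)
  unfold Am
  rw [sub_im, sub_im, l1, l2]
  simp
  ring

theorem I_mem (hN : 1 < N) {θ : ℝ} (h0 : 0 < θ) (h1 : N * θ < 2 * Real.pi) :
    ((θ : ℂ) * I) ∈ Tc N := by
  refine ⟨by simp, ?_⟩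
  have : ((θ : ℂ) * I).im = θ := by simp
  rw [this, abs_of_pos h0, lt_div_iff₀ (by linarith)]
  linarith

theorem I_ne {θ : ℝ} (h0 : 0 < θ) : ((θ : ℂ) * I) ≠ 0 := by simpa using h0.ne'

theorem Am_I_re (hN : 1 < N) {θ : ℝ} (h0 : 0 < θ) (h1 : N * θ < 2 * Real.pi) :
    0 < (Am N ((θ : ℂ) * I)).re := by
  refine Am_re_pos hN (by simp) ?_ (Tc_sub hN (I_mem hN h0 h1)) (I_ne h0)
  have : ((θ : ℂ) * I).im = θ := by simp
  rw [this, abs_of_pos h0]; exact h1.le

theorem Am_I_mem (hN : 1 < N) {θ : ℝ} (h0 : 0 < θ) (h1 : N * θ < 2 * Real.pi) :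
    Am N ((θ : ℂ) * I) ∈ HH N := by
  refine ⟨Am_I_re hN h0 h1, ?_⟩
  rw [Am_I_im hN h0 h1, abs_of_pos (mul_pos (by linarith) h0)]
  have hN0 : 0 < N := by linarith
  have : θ < 2 * Real.pi / N := by rw [lt_div_iff₀ hN0]; linarith
  calc (N + 1) / 2 * θ < (N + 1) / 2 * (2 * Real.pi / N) :=
        mul_lt_mul_of_pos_left this (by linarith)
    _ = _ := by field_simp

theorem Ap_I (hN : 1 < N) {θ : ℝ} (h0 : 0 < θ) (h1 : N * θ < 2 * Real.pi) :
    Ap N ((θ : ℂ) * I) = -(starRingEnd ℂ) (Am N ((θ : ℂ) * I)) := by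
  have h2 := Am_I_im hN h0 h1
  have h3 := Ap_add_Am (N := N) ((θ : ℂ) * I)
  have h4 : ((N : ℂ) + 1) * ((θ : ℂ) * I) = (((N + 1) * θ : ℝ) : ℂ) * I := by push_cast; ring
  rw [h4] at h3
  have h5 := congrArg Complex.re h3
  have h6 := congrArg Complex.im h3
  rw [add_re] at h5
  rw [add_im] at h6
  simp only [mul_re, mul_im, ofReal_re, ofReal_im, I_re, I_im, mul_zero, mul_one,
    sub_zero, add_zero] at h5 h6
  apply Complex.ext
  · rw [neg_re, conj_re]; linarith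
  · rw [neg_im, conj_im, neg_neg]; linarith

/-- `Re Am (iθ) → ∞` at the corner -/
theorem Am_I_large (hN : 1 < N) (L : ℝ) : ∃ θ : ℝ, 0 < θ ∧ N * θ < 2 * Real.pi ∧
    L ≤ (Am N ((θ : ℂ) * I)).re := by
  have hN0 : 0 < N := by linarith
  have hN0' : (N : ℂ) ≠ 0 := by exact_mod_cast hN0.ne'
  set θ1 : ℝ := 2 * Real.pi / N with hθ1
  have hθ1p : 0 < θ1 := by have := Real.pi_pos; positivity
  have hNθ1 : N * θ1 = 2 * Real.pi := by rw [hθ1]; field_simp
  have hne : Complex.exp ((θ1 : ℂ) * I) - 1 ≠ 0 := by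
    refine exp_ne_one' (by simp) ?_ (I_ne hθ1p)
    refine im_lt_two_pi hN ?_
    have : ((θ1 : ℂ) * I).im = θ1 := by simp
    rw [this, abs_of_pos hθ1p]; exact hNθ1.le
  have hcont : ContinuousAt (fun θ : ℝ => ‖(1 - Complex.exp (-((N : ℂ) * ((θ : ℂ) * I)))) /
      (N * (Complex.exp ((θ : ℂ) * I) - 1))‖) θ1 := by
    refine ContinuousAt.norm (ContinuousAt.div (by fun_prop) (by fun_prop) ?_)
    exact mul_ne_zero hN0' hne
  have hval : ‖(1 - Complex.exp (-((N : ℂ) * ((θ1 : ℂ) * I)))) /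
      (N * (Complex.exp ((θ1 : ℂ) * I) - 1))‖ = 0 := by
    have : Complex.exp (-((N : ℂ) * ((θ1 : ℂ) * I))) = 1 := by
      rw [show -((N : ℂ) * ((θ1 : ℂ) * I)) = -(((N * θ1 : ℝ) : ℂ) * I) by push_cast; ring, hNθ1,
        Complex.exp_neg]
      push_cast
      rw [Complex.exp_two_pi_mul_I, inv_one]
    rw [this]; simp
  have hev : ∀ᶠ θ : ℝ in 𝓝 θ1, ‖(1 - Complex.exp (-((N : ℂ) * ((θ : ℂ) * I)))) /
      (N * (Complex.exp ((θ : ℂ) * I) - 1))‖ < Real.exp (-L) := by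
    have h := hcont.tendsto
    rw [hval] at h
    exact h.eventually (gt_mem_nhds (Real.exp_pos _))
  have hev2 : ∀ᶠ θ : ℝ in 𝓝[<] θ1, 0 < θ ∧ θ < θ1 := by
    have h1 : ∀ᶠ θ : ℝ in 𝓝[<] θ1, 0 < θ := nhdsWithin_le_nhds (lt_mem_nhds hθ1p)
    filter_upwards [h1, self_mem_nhdsWithin] with θ g1 g2
    exact ⟨g1, g2⟩
  obtain ⟨θ, g1, g2, g3⟩ := ((hev.filter_mono nhdsWithin_le_nhds).and hev2).exists
  have g4 : N * θ < 2 * Real.pi := by
    rw [← hNθ1]; exact mul_lt_mul_of_pos_left g3 hN0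
  refine ⟨θ, g2, g4, ?_⟩
  rw [← exp_neg_Am_formula hN (Tc_sub hN (I_mem hN g2 g4)) (I_ne g2), Complex.norm_exp, neg_re,
    Real.exp_lt_exp] at g1
  linarith

/-! ### asymptotics of the dynamics -/

theorem KK_large (hN : 1 < N) (s0 : ℝ) : ∃ L : ℝ, ∀ x ∈ HH N, L ≤ x.re → s0 ≤ (KK N x).re := by
  have hN0 : 0 < N := by linarith
  have hK : IsCompact {τ : ℂ | τ.re ∈ Icc 0 s0 ∧ τ.im ∈ Icc (-(2 * Real.pi / N)) (2 * Real.pi / N)} :=
    isCompact_Icc.reProdIm isCompact_Icc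
  have hc : ContinuousOn (EA N)
      {τ : ℂ | τ.re ∈ Icc 0 s0 ∧ τ.im ∈ Icc (-(2 * Real.pi / N)) (2 * Real.pi / N)} := by
    intro τ hτ
    refine (EA_cont hN hτ.1.1 ?_).continuousWithinAt
    have : |τ.im| ≤ 2 * Real.pi / N := abs_le.2 hτ.2
    rw [le_div_iff₀ hN0] at this
    linarith
  obtain ⟨B, hB⟩ := hK.exists_bound_of_continuousOn hc
  refine ⟨B, fun x hx hxB => ?_⟩
  by_contra h
  rw [not_le] at h
  obtain ⟨h1, h2⟩ := KK_spec hN hx
  have h3 := hB (KK N x) ⟨⟨h1.1.le, h.le⟩, abs_le.1 h1.2.le⟩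
  have h4 : EA N (KK N x) = Complex.exp x := by
    conv_rhs => rw [← h2]
    rw [exp_Ap (D0_of_pos hN h1.1)]
    rfl
  rw [h4, Complex.norm_exp] at h3
  have := Real.add_one_le_exp x.re
  linarith

theorem TT_asymp (hN : 1 < N) : ∃ L0 ψ : ℝ, 0 < L0 ∧ ψ < (N + 1) / N * Real.pi ∧
    ∀ x ∈ HH N, L0 ≤ x.re → x.re / N ≤ (TT N x).re ∧ |(TT N x).im| ≤ ψ := by
  have hN0 : 0 < N := by linarith
  have hlog : 0 < Real.log N := Real.log_pos hN
  have hN1 : 0 < (N - 1) / N := div_pos (by linarith) hN0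
  obtain ⟨s0, hs0, hμ⟩ := mu_asymp hN (lt_min hlog hN1)
  obtain ⟨L, hL⟩ := KK_large hN s0
  refine ⟨max L 1, (N + 1) / N * Real.pi / N + (N + 1) / N * ((N - 1) / N), by positivity, ?_, ?_⟩
  · have h1 : (N + 1) / N * Real.pi - ((N + 1) / N * Real.pi / N + (N + 1) / N * ((N - 1) / N)) =
        (N + 1) / N * ((N - 1) / N) * (Real.pi - 1) := by field_simp; ring
    have h2 : 0 < (N + 1) / N * ((N - 1) / N) * (Real.pi - 1) := by
      have := Real.pi_gt_three
      have h3 : 0 < Real.pi - 1 := by linarith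
      positivity
    linarith
  · intro x hx hxL
    have h1 := hμ _ (hL x hx ((le_max_left _ _).trans hxL))
    set e : ℂ := lam (-((N : ℂ) * KK N x)) - lam (-(KK N x)) + (Real.log N : ℂ) with he
    have hT : TT N x = ((1 / N : ℝ) : ℂ) * x + (((N + 1) / N : ℝ) : ℂ) * ((Real.log N : ℂ) - e) := by
      rw [TT_formula hN hx, he]
      push_cast
      ring
    have g1 : |e.re| ≤ Real.log N := (Complex.abs_re_le_norm _).trans (h1.trans (min_le_left _ _))
    have g2 : |e.im| ≤ (N - 1) / N :=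
      (Complex.abs_im_le_norm _).trans (h1.trans (min_le_right _ _))
    have hc : 0 < (N + 1) / N := by positivity
    constructor
    · rw [hT, add_re, re_ofReal_mul, re_ofReal_mul, sub_re, ofReal_re]
      have : 0 ≤ (N + 1) / N * (Real.log N - e.re) :=
        mul_nonneg hc.le (by linarith [(abs_le.1 g1).2])
      rw [one_div, inv_mul_eq_div]
      linarith
    · rw [hT, add_im, im_ofReal_mul, im_ofReal_mul, sub_im, ofReal_im]
      refine (abs_add_le _ _).trans ?_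
      rw [abs_mul, abs_mul, abs_of_pos hc, zero_sub, abs_neg, abs_of_pos (show 0 < 1 / N by
        positivity)]
      have h5 : 1 / N * |x.im| ≤ (N + 1) / N * Real.pi / N := by
        rw [one_div, inv_mul_eq_div]
        exact div_le_div_of_nonneg_right hx.2.le hN0.le
      have h6 : (N + 1) / N * |e.im| ≤ (N + 1) / N * ((N - 1) / N) :=
        mul_le_mul_of_nonneg_left g2 hc.le
      linarith

/-- **the end**: `Re S → -∞` -/
theorem S_end (hN : 1 < N) {S : ℂ → ℂ} (hSa : ∀ z ∈ HH N, AnalyticAt ℂ S z)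
    (hST : ∀ z ∈ HH N, S (TT N z) = S z + 1)
    (hconv : ∀ z ∈ HH N, Tendsto (fun k : ℕ => (TT N)^[k] z) atTop (𝓝 0)) :
    ∃ (C L0 : ℝ), ∀ (m : ℕ) (x : ℂ), x ∈ HH N → N ^ m * L0 ≤ x.re → (S x).re ≤ C - m := by
  have hN0 : 0 < N := by linarith
  obtain ⟨L0, ψ, hL0, hψ, hT⟩ := TT_asymp hN
  have hK : IsCompact {τ : ℂ | τ.re ∈ Icc (L0 / N) L0 ∧ τ.im ∈ Icc (-ψ) ψ} :=
    isCompact_Icc.reProdIm isCompact_Icc
  have hc : ContinuousOn S {τ : ℂ | τ.re ∈ Icc (L0 / N) L0 ∧ τ.im ∈ Icc (-ψ) ψ} := by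
    intro τ hτ
    refine (hSa τ ⟨?_, ?_⟩).continuousAt.continuousWithinAt
    · exact lt_of_lt_of_le (by positivity) hτ.1.1
    · exact lt_of_le_of_lt (abs_le.2 hτ.2) hψ
  obtain ⟨C, hC⟩ := hK.exists_bound_of_continuousOn hc
  refine ⟨C, L0, fun m x hx hxm => ?_⟩
  have hmem : ∀ k : ℕ, (TT N)^[k] x ∈ HH N := Petal297.iter_mem (fun z hz => TT_mem hN hz) hx
  have hSk : ∀ k : ℕ, S ((TT N)^[k] x) = S x + k := by
    intro k
    induction k with
    | zero => simp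
    | succ k ih =>
      rw [Function.iterate_succ_apply', hST _ (hmem k), ih]
      push_cast; ring
  have hex : ∃ k : ℕ, ((TT N)^[k] x).re < L0 := by
    have h1 := (continuous_re.tendsto (0 : ℂ)).comp (hconv x hx)
    rw [zero_re] at h1
    exact (h1.eventually (gt_mem_nhds hL0)).exists
  classical
  set k := Nat.find hex with hk
  have hk1 : ((TT N)^[k] x).re < L0 := Nat.find_spec hex
  have hk2 : ∀ j, j < k → L0 ≤ ((TT N)^[j] x).re := by
    intro j hj
    have := Nat.find_min hex hj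
    exact not_lt.1 this
  have hlow : ∀ j, j ≤ k → x.re ≤ N ^ j * ((TT N)^[j] x).re := by
    intro j
    induction j with
    | zero => intro _; simp
    | succ j ih =>
      intro hj
      have h1 := ih (by omega)
      have h2 := (hT _ (hmem j) (hk2 j (by omega))).1
      rw [div_le_iff₀ hN0] at h2
      rw [Function.iterate_succ_apply', pow_succ]
      have h3 : N ^ j * ((TT N)^[j] x).re ≤ N ^ j * ((TT N ((TT N)^[j] x)).re * N) :=
        mul_le_mul_of_nonneg_left h2 (by positivity)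
      linarith
  have hmk : m < k := by
    by_contra h
    rw [not_lt] at h
    have h1 := hlow k le_rfl
    have h2 : N ^ k * ((TT N)^[k] x).re < N ^ k * L0 := mul_lt_mul_of_pos_left hk1 (by positivity)
    have h3 : N ^ k * L0 ≤ N ^ m * L0 :=
      mul_le_mul_of_nonneg_right (pow_le_pow_right₀ hN.le h) hL0.le
    linarith
  obtain ⟨j, hj⟩ : ∃ j, k = j + 1 := ⟨k - 1, by omega⟩
  have h4 := hT _ (hmem j) (hk2 j (by omega))
  have e4 : TT N ((TT N)^[j] x) = (TT N)^[k] x := by rw [hj, Function.iterate_succ_apply']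
  rw [e4] at h4
  have h5 : L0 / N ≤ ((TT N)^[k] x).re := by
    refine le_trans ?_ h4.1
    exact div_le_div_of_nonneg_right (hk2 j (by omega)) hN0.le
  have h6 := hC ((TT N)^[k] x) ⟨⟨h5, hk1.le⟩, abs_le.1 h4.2⟩
  have h7 := (Complex.re_le_norm _).trans h6
  rw [hSk k, add_re, natCast_re] at h7
  have h8 : (m : ℝ) < k := by exact_mod_cast hmk
  linarith

end Crest.Agent.R102.IsoNeg486
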