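import Crest.Agent.R102.T5Defs_160

/-!
# Row 102, [T5], leaf T5-L6I (helper496)

From an isotropic homogeneous germ `HI n p ϱ` to the one-dimensional germ
`F t = log (a_n (ϱ (t / (1 + t/2))) / n)`: `F` is analytic at `0`, odd, real, `F'(0) = (n-1)/2 * p`,
and `n e^{F t}`, `n e^{-F(t/(1+t))}` are `a_n(r)`, `a_n(-r)` for the same small `r`.
-/

set_option autoImplicit false

open Complex Set Filter Topology
open scoped ComplexConjugate

noncomputable section

namespace Crest.Agent.R102.T5L6I496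

open Crest.Agent.R102.T5R

/-! ### the function `a_n` -/

/-- `(e^z - 1)/z` -/
def ps (z : ℂ) : ℂ := dslope Complex.exp 0 z

theorem ps_diff : Differentiable ℂ ps := by
  have h := (Complex.differentiable_exp (𝕜 := ℂ)).differentiableOn (s := Set.univ)
  have := (Complex.differentiableOn_dslope (c := (0:ℂ)) (s := Set.univ)
    (f := Complex.exp) Filter.univ_mem).2 h
  exact differentiableOn_univ.1 this

theorem ps_mul (z : ℂ) : z * ps z = exp z - 1 := by
  unfold ps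
  by_cases h : z = 0
  · simp [h]
  · rw [dslope_of_ne _ h, slope_def_field]
    simp only [sub_zero, exp_zero]
    field_simp

theorem ps_zero : ps 0 = 1 := by
  unfold ps
  rw [dslope_same]
  simp

theorem ps_deriv : deriv ps 0 = 1 / 2 := by
  have h1 : (fun z => z * ps z) = fun z => exp z - 1 := funext ps_mul
  have h2 : ∀ z, deriv (fun z => z * ps z) z = ps z + z * deriv ps z := by
    intro z
    have := (hasDerivAt_id z).mul (ps_diff z).hasDerivAt
    have h3 := this.deriv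
    simp only [id_eq, one_mul] at h3
    exact h3
  have h3 : ∀ z, deriv (fun z => z * ps z) z = exp z := by
    intro z
    rw [h1]
    simp
  have h4 : (fun z => ps z + z * deriv ps z) = fun z => exp z := by
    funext z
    rw [← h2, h3]
  have hd : DifferentiableAt ℂ (deriv ps) 0 := by
    have : Differentiable ℂ (deriv ps) :=
      (ps_diff.contDiff (n := 2)).differentiable_deriv_two
    exact this 0
  have h5 : deriv (fun z => ps z + z * deriv ps z) 0 = deriv ps 0 + deriv ps 0 := by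
    have h6 := (ps_diff 0).hasDerivAt.add ((hasDerivAt_id (0:ℂ)).mul hd.hasDerivAt)
    have h7 := h6.deriv
    simp only [id_eq, one_mul, zero_mul, add_zero] at h7
    exact h7
  rw [h4] at h5
  simp at h5
  linear_combination (-1/2 : ℂ) * h5

theorem aN_eq {n : ℝ} (hn : n ≠ 0) (r : ℂ) : aN n r = n * ps (n * r) / ps r := by
  unfold aN
  have hn' : (n : ℂ) ≠ 0 := by exact_mod_cast hn
  split_ifs with h
  · subst h
    simp [ps_zero]
  · have h1 := ps_mul ((n:ℂ) * r)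
    have h2 := ps_mul r
    rw [← h1, ← h2]
    by_cases h3 : ps r = 0
    · simp [h3]
    · field_simp

theorem aN_zero (n : ℝ) : aN n 0 = n := by simp [aN]

theorem aN_an {n : ℝ} (hn : n ≠ 0) : AnalyticAt ℂ (aN n) 0 := by
  have h : aN n = fun r => (n : ℂ) * ps (n * r) / ps r := funext (aN_eq hn)
  rw [h]
  have h1 : AnalyticAt ℂ ps 0 := ps_diff.analyticAt 0
  have h2 : AnalyticAt ℂ (fun r : ℂ => ps (n * r)) 0 := by
    have : Differentiable ℂ (fun r : ℂ => ps (n * r)) := ps_diff.comp (by fun_prop)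
    exact this.analyticAt 0
  refine (analyticAt_const.mul h2).div h1 ?_
  rw [ps_zero]
  exact one_ne_zero

theorem aN_deriv {n : ℝ} (hn : n ≠ 0) : HasDerivAt (aN n) ((n : ℂ) * (n - 1) / 2) 0 := by
  have h : aN n = fun r => (n : ℂ) * ps (n * r) / ps r := funext (aN_eq hn)
  rw [h]
  have h1 : HasDerivAt ps (1/2) 0 := by
    have := (ps_diff 0).hasDerivAt
    rwa [ps_deriv] at this
  have h2 : HasDerivAt (fun r : ℂ => ps (n * r)) ((1/2) * n) 0 := by
    have h3 : HasDerivAt ps (1/2) ((n:ℂ) * 0) := by simpa using h1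
    have h4 : HasDerivAt (fun r : ℂ => (n:ℂ) * r) n 0 := by
      simpa using (hasDerivAt_id (0:ℂ)).const_mul (n:ℂ)
    exact h3.comp (0:ℂ) h4
  have h5 := (h2.const_mul (n:ℂ)).div h1 (by rw [ps_zero]; exact one_ne_zero)
  refine h5.congr_deriv ?_
  rw [mul_zero, ps_zero]
  ring

theorem aN_neg (n : ℝ) (r : ℂ) : aN n (-r) = exp ((1 - n) * r) * aN n r := by
  unfold aN
  by_cases h : r = 0
  · simp [h]
  · rw [if_neg h, if_neg (neg_ne_zero.2 h)]
    have e1 : exp (n * -r) = (exp (n * r))⁻¹ := by rw [← exp_neg]; ring_nf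
    have e2 : exp (-r) = (exp r)⁻¹ := exp_neg r
    have e3 : exp ((1 - n) * r) = exp r * (exp (n * r))⁻¹ := by
      rw [← exp_neg, ← exp_add]; ring_nf
    rw [e1, e2, e3]
    have h1 := exp_ne_zero r
    have h2 := exp_ne_zero (n * r)
    by_cases h3 : exp r = 1
    · simp [h3]
    · have h4 : exp r - 1 ≠ 0 := sub_ne_zero.2 h3
      have h5 : (exp r)⁻¹ - 1 ≠ 0 := by
        intro h6
        apply h3
        have h7 : (exp r)⁻¹ = 1 := by linear_combination h6
        exact inv_eq_one.1 h7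
      rw [div_eq_iff h5]
      field_simp
      ring

theorem aN_neg_sub (n : ℝ) {r : ℂ} (hr : r = 0 ∨ exp r ≠ 1) :
    aN n (-r) - 1 = exp (-n * r) * (aN n r - 1) := by
  unfold aN
  by_cases h : r = 0
  · simp [h]
  · rw [if_neg h, if_neg (neg_ne_zero.2 h)]
    have h3 : exp r ≠ 1 := by
      rcases hr with hr | hr
      · exact absurd hr h
      · exact hr
    have e1 : exp (n * -r) = (exp (n * r))⁻¹ := by rw [← exp_neg]; ring_nf
    have e2 : exp (-r) = (exp r)⁻¹ := exp_neg r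
    have e3 : exp (-n * r) = (exp (n * r))⁻¹ := by
      rw [← exp_neg]; ring_nf
    rw [e1, e2, e3]
    have h1 := exp_ne_zero r
    have h2 := exp_ne_zero (n * r)
    have h4 : exp r - 1 ≠ 0 := sub_ne_zero.2 h3
    have h5 : (exp r)⁻¹ - 1 ≠ 0 := by
      intro h6
      apply h3
      have h7 : (exp r)⁻¹ = 1 := by linear_combination h6
      exact inv_eq_one.1 h7
    have h6 : 1 - exp r ≠ 0 := by
      intro h7
      apply h4
      linear_combination -h7
    field_simp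
    ring

theorem aN_conj (n : ℝ) (r : ℂ) : aN n (conj r) = conj (aN n r) := by
  unfold aN
  by_cases h : r = 0
  · simp [h]
  · have h' : conj r ≠ 0 := by simpa using h
    rw [if_neg h, if_neg h']
    simp only [map_div₀, map_sub, map_one, ← exp_conj, map_mul, conj_ofReal]

/-! ### logarithms -/

theorem log_exp_mul {z y : ℂ} (hz : |z.im| < Real.pi / 2) (hy : 0 < y.re) :
    log (exp z * y) = z + log y := by
  have hy0 : y ≠ 0 := by rintro rfl; simp at hy
  have h1 : |arg y| < Real.pi / 2 := Complex.abs_arg_lt_pi_div_two_iff.2 (Or.inl hy)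
  have h2 : exp z * y = exp (z + log y) := by rw [exp_add, exp_log hy0]
  rw [h2, log_exp]
  · rw [add_im, log_im]
    have := abs_lt.1 hz
    have := abs_lt.1 h1
    linarith [Real.pi_pos]
  · rw [add_im, log_im]
    have := abs_lt.1 hz
    have := abs_lt.1 h1
    linarith [Real.pi_pos]

/-! ### the germ -/

/-- `F t = log (a_n (ϱ (t / (1 + t/2))) / n)` -/
def FF (n : ℝ) (ϱ : ℂ → ℂ) (t : ℂ) : ℂ := log (aN n (ϱ (t / (1 + 1/2 * t))) / n)

theorem sub_an (c : ℂ) : AnalyticAt ℂ (fun t : ℂ => t / (1 + c * t)) 0 := by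
  refine analyticAt_id.div (analyticAt_const.add (analyticAt_const.mul analyticAt_id)) ?_
  simp

theorem sub_tendsto (c : ℂ) : Tendsto (fun t : ℂ => t / (1 + c * t)) (𝓝 0) (𝓝 0) := by
  have h := (sub_an c).continuousAt.tendsto
  simpa using h

theorem sub_tendsto' : Tendsto (fun t : ℂ => t / (1 + 1/2 * t)) (𝓝 0) (𝓝 0) := sub_tendsto (1/2)

theorem sub_comp {t a b c : ℂ} (ha : 1 + a * t ≠ 0) (hc : c = a + b) :
    t / (1 + a * t) / (1 + b * (t / (1 + a * t))) = t / (1 + c * t) := by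
  have h1 : 1 + b * (t / (1 + a * t)) = (1 + c * t) / (1 + a * t) := by
    rw [eq_div_iff ha, add_mul, mul_assoc, div_mul_cancel₀ _ ha, hc]
    ring
  rw [h1, div_div_div_cancel_right₀ ha]

theorem germ_data {n p : ℝ} {ϱ : ℂ → ℂ} (hn : n ≠ 0) (h : HI n p ϱ) :
    AnalyticAt ℂ (FF n ϱ) 0 ∧
    (∀ᶠ t in 𝓝 (0 : ℂ), FF n ϱ (-t) = -FF n ϱ t) ∧
    (∀ᶠ t in 𝓝 (0 : ℂ), FF n ϱ (conj t) = conj (FF n ϱ t)) ∧
    deriv (FF n ϱ) 0 = (((n - 1) / 2 * p : ℝ) : ℂ) ∧
    (∀ᶠ t in 𝓝 (0 : ℂ), (n : ℂ) * exp (FF n ϱ t) = aN n (ϱ (t / (1 + 1/2 * t))) ∧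
      (n : ℂ) * exp (-FF n ϱ (t / (1 + t))) = aN n (-ϱ (t / (1 + 1/2 * t)))) := by
  have hn' : (n : ℂ) ≠ 0 := by exact_mod_cast hn
  have hsub_an : AnalyticAt ℂ (fun t : ℂ => t / (1 + 1/2 * t)) 0 := sub_an (1/2)
  have hr_an : AnalyticAt ℂ (fun t : ℂ => ϱ (t / (1 + 1/2 * t))) 0 := by
    refine AnalyticAt.comp (f := fun t : ℂ => t / (1 + 1/2 * t)) (g := ϱ) ?_ hsub_an
    simpa using h.an
  have ha_an : AnalyticAt ℂ (fun t : ℂ => aN n (ϱ (t / (1 + 1/2 * t)))) 0 := by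
    refine AnalyticAt.comp (f := fun t : ℂ => ϱ (t / (1 + 1/2 * t))) (g := aN n) ?_ hr_an
    simpa [h.zero] using aN_an hn
  have hq_an : AnalyticAt ℂ (fun t : ℂ => aN n (ϱ (t / (1 + 1/2 * t))) / n) 0 :=
    ha_an.div analyticAt_const hn'
  have hq0 : (fun t : ℂ => aN n (ϱ (t / (1 + 1/2 * t))) / n) 0 = 1 := by
    simp [h.zero, aN_zero, hn']
  have hF_an : AnalyticAt ℂ (FF n ϱ) 0 := by
    refine hq_an.clog ?_
    have hq0' : aN n (ϱ (0 / (1 + 1/2 * 0))) / (n:ℂ) = 1 := hq0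
    rw [hq0']
    exact Complex.one_mem_slitPlane
  -- continuity facts
  have hρ0 : Tendsto ϱ (𝓝 0) (𝓝 0) := by
    have := h.an.continuousAt.tendsto
    rwa [h.zero] at this
  have haN0 : Tendsto (fun r => aN n r / n) (𝓝 0) (𝓝 1) := by
    have h1 : ContinuousAt (fun r => aN n r / n) 0 := (aN_an hn).continuousAt.div_const _
    have h2 := h1.tendsto
    rwa [aN_zero, div_self hn'] at h2
  have hre : ∀ᶠ r in 𝓝 (0 : ℂ), 0 < (aN n r / n).re := by
    have h1 : ∀ᶠ w in 𝓝 (1 : ℂ), 0 < w.re := by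
      refine (isOpen_lt continuous_const Complex.continuous_re).mem_nhds ?_
      simp
    exact haN0.eventually h1
  -- the law at `u`, and everything needed about `r = ϱ u`
  have hgood : ∀ᶠ u in 𝓝 (0 : ℂ), 0 < (aN n (ϱ u) / n).re ∧ 0 < (aN n (-ϱ u) / n).re ∧
      ϱ (-u) = -ϱ u ∧ ϱ (conj u) = conj (ϱ u) ∧
      aN n (ϱ (u / (1 + u))) * aN n (-ϱ u) = n ^ 2 := by
    have hneg : Tendsto (fun u => -ϱ u) (𝓝 0) (𝓝 0) := by
      simpa using hρ0.neg
    filter_upwards [hρ0.eventually hre, hneg.eventually hre, h.odd, h.real, h.law]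
      with u h1 h2 h3 h4 h5
    exact ⟨h1, h2, h3, h4, h5⟩
  -- odd
  have hodd : ∀ᶠ t in 𝓝 (0 : ℂ), FF n ϱ (-t) = -FF n ϱ t := by
    have hs1 : Tendsto (fun t : ℂ => t / (1 + (-1/2) * t)) (𝓝 0) (𝓝 0) := sub_tendsto (-1/2)
    have hs2 : Tendsto (fun t : ℂ => t / (1 + 1/2 * t)) (𝓝 0) (𝓝 0) := sub_tendsto'
    have hnz : ∀ᶠ t in 𝓝 (0 : ℂ), 1 + (-1/2) * t ≠ 0 := by
      have c1 : ContinuousAt (fun t : ℂ => 1 + (-1/2) * t) 0 := by fun_prop
      exact c1.eventually_ne (by simp)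
    filter_upwards [hs1.eventually hgood, hs2.eventually hgood, hnz] with t g1 g2 z1
    obtain ⟨a1, a2, a3, a4, a5⟩ := g1
    obtain ⟨b1, b2, b3, b4, b5⟩ := g2
    unfold FF
    have e1 : -t / (1 + 1/2 * -t) = -(t / (1 + (-1/2) * t)) := by
      rw [neg_div]; congr 2; ring
    have e2 : t / (1 + (-1/2) * t) / (1 + t / (1 + (-1/2) * t)) = t / (1 + 1/2 * t) := by
      have := sub_comp (t := t) (a := -1/2) (b := 1) (c := 1/2) z1 (by norm_num)
      rwa [one_mul] at this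
    rw [e1, a3]
    rw [e2] at a5
    have hne1 : aN n (ϱ (t / (1 + 1/2 * t))) ≠ 0 := by
      intro h0
      rw [h0] at b1
      simp at b1
    have e3 : aN n (-ϱ (t / (1 + (-1/2) * t))) / n = (aN n (ϱ (t / (1 + 1/2 * t))) / n)⁻¹ := by
      rw [inv_div, div_eq_div_iff hn' hne1]
      linear_combination a5
    rw [e3, Complex.log_inv]
    intro h0
    have h1 : |arg (aN n (ϱ (t / (1 + 1/2 * t))) / n)| < Real.pi / 2 :=
      Complex.abs_arg_lt_pi_div_two_iff.2 (Or.inl b1)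
    rw [h0, abs_of_pos Real.pi_pos] at h1
    linarith [Real.pi_pos]
  -- real
  have hreal : ∀ᶠ t in 𝓝 (0 : ℂ), FF n ϱ (conj t) = conj (FF n ϱ t) := by
    have hs2 : Tendsto (fun t : ℂ => t / (1 + 1/2 * t)) (𝓝 0) (𝓝 0) := sub_tendsto'
    filter_upwards [hs2.eventually hgood] with t g2
    obtain ⟨b1, b2, b3, b4, b5⟩ := g2
    unfold FF
    have e1 : conj t / (1 + 1/2 * conj t) = conj (t / (1 + 1/2 * t)) := by
      simp only [map_div₀, map_add, map_mul, map_one, map_ofNat]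
    rw [e1, b4, aN_conj]
    have e2 : conj (aN n (ϱ (t / (1 + 1/2 * t)))) / (n : ℂ)
        = conj (aN n (ϱ (t / (1 + 1/2 * t))) / n) := by
      simp
    rw [e2, Complex.log_conj]
    intro h0
    have h1 : |arg (aN n (ϱ (t / (1 + 1/2 * t))) / n)| < Real.pi / 2 :=
      Complex.abs_arg_lt_pi_div_two_iff.2 (Or.inl b1)
    rw [h0, abs_of_pos Real.pi_pos] at h1
    linarith [Real.pi_pos]
  -- derivative
  have hder : deriv (FF n ϱ) 0 = (((n - 1) / 2 * p : ℝ) : ℂ) := by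
    have d1 : HasDerivAt (fun t : ℂ => t / (1 + 1/2 * t)) 1 0 := by
      have a1 : HasDerivAt (fun t : ℂ => 1 + 1/2 * t) (1 / 2) 0 := by
        simpa using ((hasDerivAt_id (0:ℂ)).const_mul (1/2 : ℂ)).const_add 1
      have := (hasDerivAt_id (0:ℂ)).div a1 (by simp)
      refine this.congr_deriv ?_
      norm_num
    have d2 : HasDerivAt ϱ p 0 := by
      have := h.an.differentiableAt.hasDerivAt
      rwa [h.der] at this
    have d3 : HasDerivAt (fun t : ℂ => ϱ (t / (1 + 1/2 * t))) (p * 1) 0 := by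
      refine HasDerivAt.comp (0:ℂ) (h₂ := ϱ) ?_ d1
      simpa using d2
    have d4 : HasDerivAt (fun t : ℂ => aN n (ϱ (t / (1 + 1/2 * t))))
        ((n : ℂ) * (n - 1) / 2 * (p * 1)) 0 := by
      refine HasDerivAt.comp (0:ℂ) (h₂ := aN n) ?_ d3
      simpa [h.zero] using aN_deriv hn
    have d5 : HasDerivAt (fun t : ℂ => aN n (ϱ (t / (1 + 1/2 * t))) / n)
        ((n : ℂ) * (n - 1) / 2 * (p * 1) / n) 0 := d4.div_const _
    have hq0' : aN n (ϱ (0 / (1 + 1/2 * 0))) / (n:ℂ) = 1 := hq0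
    have d6 := d5.clog (by rw [hq0']; exact Complex.one_mem_slitPlane)
    have d7 := d6.deriv
    rw [show FF n ϱ = fun t => log (aN n (ϱ (t / (1 + 1/2 * t))) / n) from rfl, d7]
    rw [hq0', div_one]
    push_cast
    field_simp
  refine ⟨hF_an, hodd, hreal, hder, ?_⟩
  have hs2 : Tendsto (fun t : ℂ => t / (1 + 1/2 * t)) (𝓝 0) (𝓝 0) := sub_tendsto'
  have hnz : ∀ᶠ t in 𝓝 (0 : ℂ), 1 + 1 * t ≠ 0 ∧ 1 + 1/2 * t ≠ 0 := by
    have c1 : ContinuousAt (fun t : ℂ => 1 + 1 * t) 0 := by fun_prop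
    have c2 : ContinuousAt (fun t : ℂ => 1 + 1/2 * t) 0 := by fun_prop
    have e1 := c1.eventually_ne (y := 0) (by simp)
    have e2 := c2.eventually_ne (y := 0) (by simp)
    exact e1.and e2
  have hs3 : Tendsto (fun t : ℂ => t / (1 + (3/2) * t)) (𝓝 0) (𝓝 0) := sub_tendsto (3/2)
  filter_upwards [hs2.eventually hgood, hs3.eventually hgood, hnz] with t g2 g3 gz
  obtain ⟨z1, z2⟩ := gz
  obtain ⟨b1, b2, b3, b4, b5⟩ := g2
  obtain ⟨c1, c2, c3, c4, c5⟩ := g3
  constructor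
  · unfold FF
    rw [exp_log (by intro h0; rw [h0] at b1; simp at b1)]
    field_simp
  · have e1 : t / (1 + t) / (1 + 1/2 * (t / (1 + t))) = t / (1 + (3/2) * t) := by
      have := sub_comp (t := t) (a := 1) (b := 1/2) (c := 3/2) z1 (by norm_num)
      rwa [one_mul] at this
    have e2 : t / (1 + 1/2 * t) / (1 + t / (1 + 1/2 * t)) = t / (1 + (3/2) * t) := by
      have := sub_comp (t := t) (a := 1/2) (b := 1) (c := 3/2) z2 (by norm_num)
      rwa [one_mul] at this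
    unfold FF
    rw [e1, exp_neg, exp_log (by intro h0; rw [h0] at c1; simp at c1)]
    rw [e2] at b5
    have hne : aN n (ϱ (t / (1 + (3/2) * t))) ≠ 0 := by
      intro h0
      rw [h0] at c1
      simp at c1
    rw [inv_div, mul_div_assoc', div_eq_iff hne]
    linear_combination -b5

/-! ### the chord involution in logarithmic form -/

theorem small_facts (n : ℝ) : ∀ᶠ r in 𝓝 (0 : ℂ), |((1 - (n:ℂ)) * r).im| < Real.pi / 2 ∧
    |(-(n:ℂ) * r).im| < Real.pi / 2 ∧ (r = 0 ∨ exp r ≠ 1) := by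
  have h1 : ∀ᶠ r in 𝓝 (0 : ℂ), |((1 - (n:ℂ)) * r).im| < Real.pi / 2 := by
    have c : Continuous fun r : ℂ => |((1 - (n:ℂ)) * r).im| :=
      continuous_abs.comp (Complex.continuous_im.comp (by fun_prop))
    refine (isOpen_lt c continuous_const).mem_nhds ?_
    simp [Real.pi_pos]
  have h2 : ∀ᶠ r in 𝓝 (0 : ℂ), |(-(n:ℂ) * r).im| < Real.pi / 2 := by
    have c : Continuous fun r : ℂ => |(-(n:ℂ) * r).im| :=
      continuous_abs.comp (Complex.continuous_im.comp (by fun_prop))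
    refine (isOpen_lt c continuous_const).mem_nhds ?_
    simp [Real.pi_pos]
  have h3 : ∀ᶠ r in 𝓝 (0 : ℂ), (r = 0 ∨ exp r ≠ 1) := by
    have h4 : ∀ᶠ r in 𝓝 (0 : ℂ), ps r ≠ 0 := by
      have := (ps_diff 0).continuousAt.eventually_ne (y := 0) (by rw [ps_zero]; exact one_ne_zero)
      exact this
    filter_upwards [h4] with r hr
    by_cases h0 : r = 0
    · exact Or.inl h0
    · right
      intro h5
      have := ps_mul r
      rw [h5, sub_self] at this
      rcases mul_eq_zero.1 this with h6 | h6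
      · exact h0 h6
      · exact hr h6
  filter_upwards [h1, h2, h3] with r a b c
  exact ⟨a, b, c⟩

/-- `n > 1` -/
theorem LL_inv {n : ℝ} (hn : 1 < n) : ∀ᶠ r in 𝓝 (0 : ℂ),
    ((n / (n - 1) : ℝ) : ℂ) * log (aN n r) - log (aN n r - 1) =
    ((n / (n - 1) : ℝ) : ℂ) * log (aN n (-r)) - log (aN n (-r) - 1) := by
  have hn0 : n ≠ 0 := by linarith
  have hn1 : (n : ℂ) - 1 ≠ 0 := by
    have : n - 1 ≠ 0 := by linarith
    exact_mod_cast this
  have hc : Tendsto (aN n) (𝓝 0) (𝓝 (n : ℂ)) := by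
    have := (aN_an hn0).continuousAt.tendsto
    rwa [aN_zero] at this
  have hre : ∀ᶠ r in 𝓝 (0 : ℂ), 1 < (aN n r).re := by
    have h1 : ∀ᶠ w in 𝓝 (n : ℂ), 1 < w.re := by
      refine (isOpen_lt continuous_const Complex.continuous_re).mem_nhds ?_
      simpa using hn
    exact hc.eventually h1
  filter_upwards [small_facts n, hre] with r hr h1
  obtain ⟨a, b, c⟩ := hr
  rw [aN_neg_sub n c, aN_neg, log_exp_mul a (by linarith), log_exp_mul b (by simpa using h1)]
  push_cast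
  field_simp
  ring

/-- `n < -1` -/
theorem LJ_inv {n : ℝ} (hn : n < -1) : ∀ᶠ r in 𝓝 (0 : ℂ),
    ((-n / (-n + 1) : ℝ) : ℂ) * log (-aN n r) - log (1 + -aN n r) =
    ((-n / (-n + 1) : ℝ) : ℂ) * log (-aN n (-r)) - log (1 + -aN n (-r)) := by
  have hn0 : n ≠ 0 := by linarith
  have hn1 : -(n : ℂ) + 1 ≠ 0 := by
    have : -n + 1 ≠ 0 := by linarith
    exact_mod_cast this
  have hc : Tendsto (aN n) (𝓝 0) (𝓝 (n : ℂ)) := by
    have := (aN_an hn0).continuousAt.tendsto
    rwa [aN_zero] at this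
  have hre : ∀ᶠ r in 𝓝 (0 : ℂ), (aN n r).re < -1 := by
    have h1 : ∀ᶠ w in 𝓝 (n : ℂ), w.re < -1 := by
      refine (isOpen_lt Complex.continuous_re continuous_const).mem_nhds ?_
      simpa using hn
    exact hc.eventually h1
  filter_upwards [small_facts n, hre] with r hr h1
  obtain ⟨a, b, c⟩ := hr
  have e1 : -aN n (-r) = exp ((1 - n) * r) * (-aN n r) := by rw [aN_neg]; ring
  have e2 : 1 + -aN n (-r) = exp (-n * r) * (1 + -aN n r) := by
    have := aN_neg_sub n c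
    linear_combination -this
  rw [e2, e1, log_exp_mul a (by simp; linarith), log_exp_mul b (by simp; linarith)]
  push_cast
  field_simp
  ring

/-! ### the leaf, from the one-dimensional theorems in raw form -/

/-- raw form of the isotropic germ, `n > 1` -/
def IsoPos : Prop := ∀ (n : ℝ) (F : ℂ → ℂ), 1 < n → AnalyticAt ℂ F 0 →
  (∀ᶠ t in 𝓝 (0 : ℂ), F (-t) = -F t) → (∀ᶠ t in 𝓝 (0 : ℂ), F (conj t) = conj (F t)) →
  (∃ g : ℝ, 0 < g ∧ deriv F 0 = (g : ℂ)) →
  (∀ᶠ t in 𝓝 (0 : ℂ),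
    ((n / (n - 1) : ℝ) : ℂ) * log (n * exp (F t)) - log (n * exp (F t) - 1) =
    ((n / (n - 1) : ℝ) : ℂ) * log (n * exp (-F (t / (1 + t)))) -
      log (n * exp (-F (t / (1 + t))) - 1)) → n = 2

/-- raw form of the isotropic germ, `N = -n > 1` -/
def IsoNeg : Prop := ∀ (N : ℝ) (F : ℂ → ℂ), 1 < N → AnalyticAt ℂ F 0 →
  (∀ᶠ t in 𝓝 (0 : ℂ), F (-t) = -F t) → (∀ᶠ t in 𝓝 (0 : ℂ), F (conj t) = conj (F t)) →
  (∃ g : ℝ, 0 < g ∧ deriv F 0 = (g : ℂ)) →
  (∀ᶠ t in 𝓝 (0 : ℂ),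
    ((N / (N + 1) : ℝ) : ℂ) * log (N * exp (F t)) - log (1 + N * exp (F t)) =
    ((N / (N + 1) : ℝ) : ℂ) * log (N * exp (-F (t / (1 + t)))) -
      log (1 + N * exp (-F (t / (1 + t))))) → False

/-- **T5-L6I** from the two one-dimensional theorems. -/
theorem noI_of (hP : IsoPos) (hN : IsoNeg) : NoI := by
  intro m ϱ hm hm3 h
  have hr0 : Tendsto (fun t : ℂ => ϱ (t / (1 + 1/2 * t))) (𝓝 0) (𝓝 0) := by
    have h1 : Tendsto ϱ (𝓝 0) (𝓝 0) := by
      have := h.an.continuousAt.tendsto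
      rwa [h.zero] at this
    exact h1.comp sub_tendsto'
  rcases lt_or_gt_of_ne hm3 with hlt | hgt
  · have hn : 1 < (3 + m) / (3 - m) := by
      rw [lt_div_iff₀ (by linarith)]
      linarith
    obtain ⟨h1, h2, h3, h4, h5⟩ := germ_data (by linarith : (3 + m) / (3 - m) ≠ 0) h
    have h6 := hP _ _ hn h1 h2 h3 ⟨m, hm, by
      rw [h4]
      have h7 : 3 - m ≠ 0 := by linarith
      have h8 : ((3 + m) / (3 - m) - 1) / 2 * (3 - m) = m := by
        field_simp
        ring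
      rw [h8]⟩ (by
      filter_upwards [h5, hr0.eventually (LL_inv hn)] with t ht ht2
      rw [ht.1, ht.2]
      exact ht2)
    have h7 : 3 - m ≠ 0 := by linarith
    rw [div_eq_iff h7] at h6
    linarith
  · exfalso
    have hn : (3 + m) / (3 - m) < -1 := by
      rw [div_lt_iff_of_neg (by linarith)]
      linarith
    obtain ⟨h1, h2, h3, h4, h5⟩ := germ_data (by linarith : (3 + m) / (3 - m) ≠ 0) h
    refine hN (-((3 + m) / (3 - m))) _ (by linarith) h1 h2 h3 ⟨m, hm, by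
      rw [h4]
      have h7 : 3 - m ≠ 0 := by linarith
      have h8 : ((3 + m) / (3 - m) - 1) / 2 * (3 - m) = m := by
        field_simp
        ring
      rw [h8]⟩ ?_
    filter_upwards [h5, hr0.eventually (LJ_inv hn)] with t ht ht2
    have e1 : ((-((3 + m) / (3 - m)) : ℝ) : ℂ) * exp (FF ((3 + m) / (3 - m)) ϱ t) =
        -aN ((3 + m) / (3 - m)) (ϱ (t / (1 + 1/2 * t))) := by
      rw [← ht.1]; push_cast; ring
    have e2 : ((-((3 + m) / (3 - m)) : ℝ) : ℂ) *
        exp (-FF ((3 + m) / (3 - m)) ϱ (t / (1 + t))) =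
        -aN ((3 + m) / (3 - m)) (-ϱ (t / (1 + 1/2 * t))) := by
      rw [← ht.2]; push_cast; ring
    rw [e1, e2]
    exact ht2

end Crest.Agent.R102.T5L6I496
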