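import Crest.Agent.R102.IsoNeg4_486
import Crest.Agent.R102.T5L6I_496

/-!
# Row 102, part (C), T5: the isotropic end at a circular point, part 5: the germ and the
contradiction (helper486; paper: helper160 #24389)
-/

open Complex Set Filter Topology

noncomputable section

namespace Crest.Agent.R102.IsoNeg486

variable {N : ℝ}

theorem zero_mem (hN : 1 < N) : (0 : ℂ) ∈ D0 N := by
  refine Tc_sub hN ⟨by simp, ?_⟩
  rw [zero_im, abs_zero]
  have := Real.pi_pos
  positivity

theorem dAp_zero (hN : 1 < N) : (N + 1) / 2 ≤ (deriv (Ap N) 0).re := by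
  have hc : ContinuousAt (deriv (Ap N)) 0 := (Ap_an (zero_mem hN)).deriv.continuousAt
  have ht : Tendsto (fun s : ℝ => (deriv (Ap N) (s : ℂ)).re) (𝓝[>] 0)
      (𝓝 (deriv (Ap N) 0).re) := by
    have h1 : Tendsto (fun s : ℝ => (s : ℂ)) (𝓝[>] 0) (𝓝 (0 : ℂ)) := by
      have := (continuous_ofReal.tendsto (0 : ℝ))
      rw [ofReal_zero] at this
      exact this.mono_left nhdsWithin_le_nhds
    exact (continuous_re.tendsto _).comp (hc.tendsto.comp h1)
  refine ge_of_tendsto ht ?_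
  filter_upwards [self_mem_nhdsWithin] with s hs
  have hs' : 0 < (s : ℂ).re := by simpa using hs
  rw [(Ap_hasDerivAt hN (ne_of_re hs') (D0_of_pos hN hs')).deriv]
  refine dAp_re hN hs' ?_
  rw [ofReal_im, abs_zero, mul_zero]
  have := Real.pi_pos
  positivity

/-- monotonicity of the real part in the horizontal direction -/
theorem re_mono {f : ℂ → ℂ} {f' : ℂ → ℂ} {s : Set ℂ} (hs : Convex ℝ s)
    (hf : ∀ z ∈ s, HasDerivAt f (f' z) z) (hp : ∀ z ∈ s, 0 ≤ (f' z).re) {z1 z2 : ℂ}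
    (h1 : z1 ∈ s) (h2 : z2 ∈ s) (him : z1.im = z2.im) (hre : z1.re ≤ z2.re) :
    (f z1).re ≤ (f z2).re := by
  have hd : z2 - z1 = ((z2.re - z1.re : ℝ) : ℂ) := by
    apply Complex.ext
    · simp
    · simp [him]
  have hseg : ∀ t : ℝ, t ∈ Icc (0 : ℝ) 1 → z1 + (t : ℂ) * (z2 - z1) ∈ s := by
    intro t ht
    have := hs h1 h2 (show 0 ≤ 1 - t by linarith [ht.2]) ht.1 (by ring)
    have e : z1 + (t : ℂ) * (z2 - z1) = (1 - t) • z1 + t • z2 := by
      rw [real_smul, real_smul]; push_cast; ring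
    rw [e]; exact this
  set g : ℝ → ℝ := fun t => (f (z1 + (t : ℂ) * (z2 - z1))).re with hg
  have hder : ∀ t ∈ Icc (0 : ℝ) 1,
      HasDerivAt g ((f' (z1 + (t : ℂ) * (z2 - z1)) * (z2 - z1)).re) t := by
    intro t ht
    have e1 : HasDerivAt (fun t : ℝ => z1 + (t : ℂ) * (z2 - z1)) (z2 - z1) t := by
      have := ((hasDerivAt_id t).ofReal_comp.mul_const (z2 - z1)).const_add z1
      simpa using this
    have e2 := (hf _ (hseg t ht)).comp t e1
    exact reCLM.hasFDerivAt.comp_hasDerivAt t e2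
  obtain ⟨ξ, hξ, hslope⟩ := exists_hasDerivAt_eq_slope g _ (zero_lt_one)
    (fun t ht => (hder t ht).continuousAt.continuousWithinAt)
    (fun t ht => hder t (Ioo_subset_Icc_self ht))
  have h5 := hp _ (hseg ξ (Ioo_subset_Icc_self hξ))
  have h6 : 0 ≤ (f' (z1 + (ξ : ℂ) * (z2 - z1)) * (z2 - z1)).re := by
    rw [hd, mul_comm, re_ofReal_mul]
    exact mul_nonneg (by linarith) (by rw [hd] at h5; exact h5)
  rw [hslope] at h6
  have h7 : g 1 = (f z2).re := by simp [hg]
  have h8 : g 0 = (f z1).re := by simp [hg]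
  rw [h7, h8] at h6
  simp at h6
  linarith

/-- small `τ` in the left half plane go to the left half plane -/
theorem half (hN : 1 < N) : ∃ ρ : ℝ, 0 < ρ ∧ ∀ τ : ℂ, ‖τ‖ < ρ → τ.re ≤ 0 → (Ap N τ).re ≤ 0 := by
  have hN0 : 0 < N := by linarith
  have hc : ContinuousAt (deriv (Ap N)) 0 := (Ap_an (zero_mem hN)).deriv.continuousAt
  have h1 : ∀ᶠ τ in 𝓝 (0 : ℂ), 0 < (deriv (Ap N) τ).re :=
    (continuous_re.continuousAt.comp hc).eventually
      (lt_mem_nhds (lt_of_lt_of_le (by linarith) (dAp_zero hN)))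
  have h2 : ∀ᶠ τ in 𝓝 (0 : ℂ), τ ∈ D0 N := isOpen_D0.mem_nhds (zero_mem hN)
  have h3 : ∀ᶠ τ in 𝓝 (0 : ℂ), N * |τ.im| < 2 * Real.pi := by
    have hc2 : ContinuousAt (fun τ : ℂ => N * |τ.im|) 0 := by fun_prop
    refine hc2.eventually (gt_mem_nhds ?_)
    simp
    exact Real.pi_pos
  obtain ⟨ρ, hρ, hball⟩ := Metric.eventually_nhds_iff_ball.1 (h1.and (h2.and h3))
  refine ⟨ρ, hρ, fun τ hτ hre => ?_⟩
  have hτb : τ ∈ Metric.ball (0 : ℂ) ρ := by simpa using hτ
  set z2 : ℂ := (τ.im : ℂ) * I with hz2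
  have hz2re : z2.re = 0 := by simp [hz2]
  have hz2im : z2.im = τ.im := by simp [hz2]
  have hz2b : z2 ∈ Metric.ball (0 : ℂ) ρ := by
    rw [mem_ball_zero_iff, hz2, norm_mul, norm_I, mul_one, Complex.norm_real, Real.norm_eq_abs]
    exact lt_of_le_of_lt (abs_im_le_norm τ) hτ
  have h4 : (Ap N τ).re ≤ (Ap N z2).re := by
    refine re_mono (convex_ball (0 : ℂ) ρ) (f' := deriv (Ap N))
      (fun z hz => (Ap_an (hball z hz).2.1).differentiableAt.hasDerivAt)
      (fun z hz => (hball z hz).1.le) hτb hz2b hz2im.symm ?_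
    rw [hz2re]; exact hre
  refine h4.trans ?_
  by_cases hne : z2 = 0
  · rw [hne, Ap_zero, zero_re]
  · have h5 := Am_re_pos hN hz2re.ge (hball z2 hz2b).2.2.le (hball z2 hz2b).2.1 hne
    have h6 := congrArg Complex.re (Ap_add_Am (N := N) z2)
    rw [add_re] at h6
    have h7 : (((N : ℂ) + 1) * z2).re = 0 := by
      rw [mul_re, hz2re]; simp
    linarith

theorem log_exp_mul (hN : 1 < N) {x : ℂ} (hx : |x.im| < Real.pi) :
    Complex.log ((N : ℂ) * Complex.exp x) = (Real.log N : ℂ) + x := by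
  rw [Complex.log_ofReal_mul (by linarith) (Complex.exp_ne_zero _),
    Complex.log_exp (abs_lt.1 hx).1 (abs_lt.1 hx).2.le]

/-- the correspondence, pointwise -/
theorem cor_pt (hN : 1 < N) {x p τ : ℂ} (hxp : x - p = ((N : ℂ) + 1) * τ) (hτ : τ ∈ D0 N)
    (hτ0 : τ ≠ 0) (hx : |x.im| < Real.pi) (hp : |p.im| < Real.pi)
    (hAm : |(Am N τ).im| < Real.pi) (n1 : 1 + (N : ℂ) * Complex.exp x ≠ 0)
    (n2 : 1 + (N : ℂ) * Complex.exp p ≠ 0)
    (heq : LJ N ((N : ℂ) * Complex.exp x) = LJ N ((N : ℂ) * Complex.exp p)) :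
    x = Ap N τ ∧ -p = Am N τ := by
  have hN0 : (N : ℂ) ≠ 0 := by
    have : N ≠ 0 := by linarith
    exact_mod_cast this
  have hN1 : (N : ℂ) + 1 ≠ 0 := by
    have : N + 1 ≠ 0 := by linarith
    exact_mod_cast this
  unfold LJ at heq
  rw [log_exp_mul hN hx, log_exp_mul hN hp] at heq
  have e1 : (N : ℂ) * τ = Complex.log (1 + (N : ℂ) * Complex.exp x) -
      Complex.log (1 + (N : ℂ) * Complex.exp p) := by
    have : ((N / (N + 1) : ℝ) : ℂ) * (x - p) = (N : ℂ) * τ := by
      rw [hxp]; push_cast; field_simp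
    linear_combination heq - this
  have e2 : Complex.exp ((N : ℂ) * τ) * (1 + (N : ℂ) * Complex.exp p) =
      1 + (N : ℂ) * Complex.exp x := by
    rw [e1, Complex.exp_sub, Complex.exp_log n1, Complex.exp_log n2]
    field_simp
  have e3 := ident hN hτ hτ0
  have e4 : Complex.exp x = Complex.exp p * Complex.exp (((N : ℂ) + 1) * τ) := by
    rw [← Complex.exp_add]; congr 1; linear_combination hxp
  have e5 : Complex.exp (Ap N τ) = Complex.exp (-(Am N τ)) * Complex.exp (((N : ℂ) + 1) * τ) := by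
    rw [← Complex.exp_add]; congr 1; linear_combination Ap_add_Am (N := N) τ
  have e6 : Complex.exp (((N : ℂ) + 1) * τ) = Complex.exp ((N : ℂ) * τ) * Complex.exp τ := by
    rw [← Complex.exp_add]; congr 1; ring
  have e7 : (Complex.exp p - Complex.exp (-(Am N τ))) *
      ((N : ℂ) * Complex.exp ((N : ℂ) * τ) * (Complex.exp τ - 1)) = 0 := by
    rw [e4, e6] at e2
    rw [e5, e6] at e3
    linear_combination e3 - e2
  have e8 : Complex.exp p = Complex.exp (-(Am N τ)) := by
    rcases mul_eq_zero.1 e7 with h | h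
    · exact sub_eq_zero.1 h
    · exact absurd h (mul_ne_zero (mul_ne_zero hN0 (Complex.exp_ne_zero _))
        (exp_ne_one hτ0 hτ.2))
  have e9 : p = -(Am N τ) := by
    rw [abs_lt] at hp hAm
    refine Complex.exp_inj_of_neg_pi_lt_of_le_pi hp.1 hp.2.le ?_ ?_ e8
    · rw [neg_im]; linarith
    · rw [neg_im]; linarith
  constructor
  · have := Ap_add_Am (N := N) τ
    linear_combination hxp + e9 - this
  · rw [e9, neg_neg]

/-- **the isotropic end at a circular point does not exist** -/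
theorem not_germJ {F : ℂ → ℂ} (h : GermJ N F) : False := by
  have hN := h.hN
  have hN0 : 0 < N := by linarith
  have hπ := Real.pi_pos
  have hN1 : (N : ℂ) + 1 ≠ 0 := by
    have : N + 1 ≠ 0 := by linarith
    exact_mod_cast this
  obtain ⟨g, hg, hgd⟩ := h.der
  have hgc : (g : ℂ) ≠ 0 := by exact_mod_cast hg.ne'
  have hF0 : F 0 = 0 := by
    have h1 := h.odd.self_of_nhds
    rw [neg_zero] at h1
    have h2 : (2 : ℂ) * F 0 = 0 := by linear_combination h1
    simpa using h2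
  have hFd : HasDerivAt F (g : ℂ) 0 := by
    rw [← hgd]; exact h.an.differentiableAt.hasDerivAt
  -- the map `σ`
  set σ : ℂ → ℂ := fun t => t / (1 + t) with hσ
  have hσan : AnalyticAt ℂ σ 0 :=
    analyticAt_id.div (analyticAt_const.add analyticAt_id) (by simp)
  have hσ0 : σ 0 = 0 := by simp [hσ]
  have hσd : HasDerivAt σ 1 0 := by
    have h1 : HasDerivAt (fun t : ℂ => 1 + t) 1 0 := by
      simpa using (hasDerivAt_id (0 : ℂ)).const_add (1 : ℂ)
    have h2 := (hasDerivAt_id (0 : ℂ)).div h1 (by simp)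
    refine h2.congr_deriv ?_
    simp
  have hFσan : AnalyticAt ℂ (fun t => F (σ t)) 0 :=
    AnalyticAt.comp (g := F) (f := σ) (by rw [hσ0]; exact h.an) hσan
  have hFσd : HasDerivAt (fun t => F (σ t)) (g : ℂ) 0 := by
    have h1 : HasDerivAt (F ∘ σ) ((g : ℂ) * 1) 0 :=
      HasDerivAt.comp (0 : ℂ) (by rw [hσ0]; exact hFd) hσd
    rw [mul_one] at h1
    exact h1
  have hFσ0 : F (σ 0) = 0 := by rw [hσ0, hF0]
  -- the map `τ`
  set τf : ℂ → ℂ := fun t => (F t + F (σ t)) / ((N : ℂ) + 1) with hτf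
  have hτan : AnalyticAt ℂ τf 0 := (h.an.add hFσan).div analyticAt_const hN1
  have hτd : HasDerivAt τf (((g : ℂ) + g) / ((N : ℂ) + 1)) 0 := (hFd.add hFσd).div_const _
  have hτ0 : τf 0 = 0 := by simp only [hτf]; rw [hF0, hFσ0]; simp
  have hτne : ((g : ℂ) + g) / ((N : ℂ) + 1) ≠ 0 := by
    refine div_ne_zero ?_ hN1
    rw [← two_mul]
    exact mul_ne_zero two_ne_zero hgc
  have hτt : Tendsto τf (𝓝 0) (𝓝 0) := by
    have := hτan.continuousAt.tendsto
    rwa [hτ0] at this
  have hFt : Tendsto F (𝓝 0) (𝓝 0) := by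
    have := h.an.continuousAt.tendsto
    rwa [hF0] at this
  have hFσt : Tendsto (fun t => F (σ t)) (𝓝 0) (𝓝 0) := by
    have := hFσan.continuousAt.tendsto
    rwa [hFσ0] at this
  -- small things
  have hsm : ∀ᶠ x : ℂ in 𝓝 0, |x.im| < Real.pi ∧ 1 + (N : ℂ) * Complex.exp x ≠ 0 := by
    have h1 : ContinuousAt (fun x : ℂ => |x.im|) 0 := by fun_prop
    have h2 : ContinuousAt (fun x : ℂ => 1 + (N : ℂ) * Complex.exp x) 0 := by fun_prop
    refine (h1.eventually (gt_mem_nhds (by simp; exact hπ))).and (h2.eventually_ne ?_)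
    rw [Complex.exp_zero, mul_one, add_comm]
    exact hN1
  have hcor : ∀ᶠ t in 𝓝 (0 : ℂ), F t = Ap N (τf t) ∧ F (σ t) = Am N (τf t) := by
    have c1 : ∀ᶠ t in 𝓝 (0 : ℂ), τf t ∈ D0 N := hτt.eventually (isOpen_D0.mem_nhds (zero_mem hN))
    have c2 := hFt.eventually hsm
    have hneg : Tendsto (fun t => -F (σ t)) (𝓝 0) (𝓝 0) := by
      have := hFσt.neg
      rwa [neg_zero] at this
    have c3 := hneg.eventually hsm
    have hAmt : Tendsto (fun t => Am N (τf t)) (𝓝 0) (𝓝 0) := by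
      have h1 := (Am_an (zero_mem hN)).continuousAt.tendsto
      rw [Am_zero] at h1
      exact h1.comp hτt
    have c4 := hAmt.eventually hsm
    have c7 : ∀ᶠ t in 𝓝 (0 : ℂ), t ≠ 0 → τf t ≠ 0 :=
      eventually_nhdsWithin_iff.1 (hτd.eventually_ne hτne)
    filter_upwards [c1, c2, c3, c4, c7, h.eq] with t g1 g2 g3 g4 g7 g8
    by_cases ht : t = 0
    · rw [ht, hτ0, hF0, hFσ0, Ap_zero, Am_zero]
      exact ⟨rfl, rfl⟩
    · have h1 : F t - -F (σ t) = ((N : ℂ) + 1) * τf t := by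
        simp only [hτf]; field_simp; ring
      obtain ⟨h2, h3⟩ := cor_pt hN h1 g1 (g7 ht) g2.1 g3.1 g4.1 g2.2 g3.2 g8
      rw [neg_neg] at h3
      exact ⟨h2, h3⟩
  -- conjugation
  obtain ⟨ρ, hρ, hhalf⟩ := half hN
  have hconj : ∀ᶠ t in 𝓝 (0 : ℂ), F t ∈ HH N → TT N (F t) = F (t / (1 + t)) := by
    have c1 : ∀ᶠ t in 𝓝 (0 : ℂ), ‖τf t‖ < ρ := by
      have h1 := hτt.norm
      rw [norm_zero] at h1
      exact h1.eventually (gt_mem_nhds hρ)
    have c2 : ∀ᶠ t in 𝓝 (0 : ℂ), N * |(τf t).im| < 2 * Real.pi := by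
      have h1 : ContinuousAt (fun τ : ℂ => N * |τ.im|) 0 := by fun_prop
      have h2 := h1.tendsto.comp hτt
      refine h2.eventually (gt_mem_nhds ?_)
      simp; exact hπ
    filter_upwards [c1, c2, hcor] with t g1 g2 g3 g4
    have g5 : 0 < (τf t).re := by
      by_contra h1
      rw [not_lt] at h1
      have h2 := hhalf _ g1 h1
      rw [← g3.1] at h2
      exact absurd g4.1 (not_lt.2 h2)
    have g6 := TT_Ap hN (mem_To hN g5 g2)
    rw [← g3.1, ← g3.2] at g6
    exact g6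
  have hmem : ∀ᶠ x : ℝ in 𝓝[>] (0 : ℝ), F (x : ℂ) ∈ HH N := by
    have hxt : Tendsto (fun x : ℝ => (x : ℂ)) (𝓝 0) (𝓝 (0 : ℂ)) := by
      have := (continuous_ofReal.tendsto (0 : ℝ))
      rwa [ofReal_zero] at this
    have c1 : ∀ᶠ x : ℝ in 𝓝 (0 : ℝ), (F (x : ℂ)).im = 0 := by
      filter_upwards [hxt.eventually h.real] with x hx
      rw [conj_ofReal] at hx
      exact Complex.conj_eq_iff_im.1 hx.symm
    have hd : HasDerivAt (fun x : ℝ => (F (x : ℂ)).re) g 0 := by
      have h1 : HasDerivAt (fun x : ℝ => F (x : ℂ)) (g : ℂ) 0 :=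
        HasDerivAt.comp_ofReal (by rw [ofReal_zero]; exact hFd)
      have h2 : HasDerivAt (fun x : ℝ => (F (x : ℂ)).re) (reCLM (g : ℂ)) 0 :=
        reCLM.hasFDerivAt.comp_hasDerivAt (0 : ℝ) h1
      have h3 : reCLM (g : ℂ) = g := by rw [reCLM_apply, ofReal_re]
      rwa [h3] at h2
    have c2 : ∀ᶠ x : ℝ in 𝓝[>] (0 : ℝ), 0 < (F (x : ℂ)).re := by
      have h1 := hasDerivAt_iff_tendsto_slope.1 hd
      have h2 : ∀ᶠ x : ℝ in 𝓝[≠] (0 : ℝ), 0 < slope (fun x : ℝ => (F (x : ℂ)).re) 0 x :=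
        h1.eventually (lt_mem_nhds hg)
      have h3 : ∀ᶠ x : ℝ in 𝓝[>] (0 : ℝ), 0 < slope (fun x : ℝ => (F (x : ℂ)).re) 0 x :=
        h2.filter_mono (nhdsWithin_mono _ (fun x hx => ne_of_gt hx))
      filter_upwards [h3, self_mem_nhdsWithin] with x g1 g2
      have g2' : (0 : ℝ) < x := g2
      rw [slope_def_field, sub_zero, ofReal_zero, hF0, zero_re, sub_zero] at g1
      exact (div_pos_iff_of_pos_right g2').1 g1
    filter_upwards [c1.filter_mono nhdsWithin_le_nhds, c2] with x g1 g2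
    refine ⟨g2, ?_⟩
    rw [g1, abs_zero]
    positivity
  -- the petal
  have hP : Petal297.Petal (HH N) (TT N) F 0 (-1) (-2) :=
    { isOpen := isOpen_HH
      conn := convex_HH.isPreconnected
      maps := fun z hz => TT_mem hN hz
      an := fun z hz => (TT_an hN hz).1
      der := fun z hz => (TT_an hN hz).2
      ab := by norm_num
      a_not := by
        intro h1
        have := h1.1
        simp at this
        linarith
      b_not := by
        intro h1
        have := h1.1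
        simp at this
        linarith
      c_not := by
        intro h1
        have := h1.1
        simp at this
      H_an := h.an
      H_zero := hF0
      H_der := by rw [hgd]; exact hgc
      conj := hconj
      mem := hmem }
  obtain ⟨S, r, hr, hSa, -, hST, hSH, -⟩ := hP.fatou
  have hconv : ∀ z ∈ HH N, Tendsto (fun k : ℕ => (TT N)^[k] z) atTop (𝓝 0) :=
    fun z hz => hP.conv.tendsto_at hz
  obtain ⟨C, L0, hend⟩ := S_end hN hSa hST hconv
  -- the curve
  have hcurve : ∀ θ : ℝ, 0 < θ → θ < 2 * Real.pi / N →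
      (S ((fun w : ℂ => Am N (w * I)) θ)).re = 1 / 2 := by
    refine Petal297.curve (Ω := HH N) (H := F) (z := fun w : ℂ => Am N (w * I))
      (θ1 := 2 * Real.pi / N) hSa hSH (fun θ h0 h1 => ?_) ?_
    · have h1' : N * θ < 2 * Real.pi := by
        rw [lt_div_iff₀ hN0] at h1; linarith
      refine ⟨?_, Am_I_mem hN h0 h1'⟩
      have e1 : AnalyticAt ℂ (fun w : ℂ => w * I) (θ : ℂ) := by fun_prop
      exact AnalyticAt.comp (g := Am N) (f := fun w : ℂ => w * I)
        (Am_an (Tc_sub hN (I_mem hN h0 h1'))) e1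
    · -- local inverses
      have hτne' : deriv τf 0 ≠ 0 := by rw [hτd.deriv]; exact hτne
      set L := hτan.hasStrictDerivAt.localInverse _ _ _ hτne' with hL
      have hLa : AnalyticAt ℂ L (τf 0) := hτan.analyticAt_localInverse hτne'
      have hLv : L (τf 0) = 0 := HasStrictFDerivAt.localInverse_apply_image ..
      have hLr : ∀ᶠ y in 𝓝 (τf 0), τf (L y) = y := HasStrictDerivAt.eventually_right_inverse ..
      rw [hτ0] at hLa hLv hLr
      have hFne : deriv F 0 ≠ 0 := by rw [hgd]; exact hgc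
      set Φ := h.an.hasStrictDerivAt.localInverse _ _ _ hFne with hΦ
      have hΦl : ∀ᶠ t in 𝓝 (0 : ℂ), Φ (F t) = t := HasStrictDerivAt.eventually_left_inverse ..
      have hw : Tendsto (fun θ : ℝ => (θ : ℂ) * I) (𝓝[>] 0) (𝓝 0) := by
        have h1 : Continuous fun θ : ℝ => (θ : ℂ) * I := by fun_prop
        have h2 := h1.tendsto 0
        rw [ofReal_zero, zero_mul] at h2
        exact h2.mono_left nhdsWithin_le_nhds
      have ht1 : Tendsto (fun θ : ℝ => L ((θ : ℂ) * I)) (𝓝[>] 0) (𝓝 0) := by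
        have h1 := hLa.continuousAt.tendsto
        rw [hLv] at h1
        exact h1.comp hw
      have hσt : Tendsto σ (𝓝 0) (𝓝 0) := by
        have := hσan.continuousAt.tendsto
        rwa [hσ0] at this
      have ht : Tendsto (fun θ : ℝ => σ (L ((θ : ℂ) * I))) (𝓝[>] 0) (𝓝 0) := hσt.comp ht1
      have hcj : Tendsto (fun t : ℂ => (starRingEnd ℂ) t) (𝓝 0) (𝓝 0) := by
        have := Complex.continuous_conj.tendsto (0 : ℂ)
        rwa [map_zero] at this
      have hncj : Tendsto (fun t : ℂ => -(starRingEnd ℂ) t) (𝓝 0) (𝓝 0) := by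
        have := hcj.neg
        rwa [neg_zero] at this
      have k1 := hw.eventually hLr
      have k2 := ht1.eventually hcor
      have k3 := ht.eventually (h.real.and (hcj.eventually h.odd))
      have k4 := (ht.eventually (hncj.eventually hΦl)).and (ht1.eventually hΦl)
      have k5 : ∀ᶠ θ : ℝ in 𝓝[>] (0 : ℝ), ‖σ (L ((θ : ℂ) * I))‖ < r := by
        have h1 := ht.norm
        rw [norm_zero] at h1
        exact h1.eventually (gt_mem_nhds hr)
      have k6 : ∀ᶠ θ : ℝ in 𝓝[>] (0 : ℝ), N * θ < 2 * Real.pi := by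
        have h1 : ContinuousAt (fun θ : ℝ => N * θ) 0 := by fun_prop
        have h2 : N * (0 : ℝ) < 2 * Real.pi := by rw [mul_zero]; positivity
        exact (h1.eventually (gt_mem_nhds h2)).filter_mono nhdsWithin_le_nhds
      have k7 : ∀ᶠ θ : ℝ in 𝓝[>] (0 : ℝ), 1 + L ((θ : ℂ) * I) ≠ 0 := by
        have h1 : Tendsto (fun θ : ℝ => 1 + L ((θ : ℂ) * I)) (𝓝[>] 0) (𝓝 (1 + 0)) :=
          tendsto_const_nhds.add ht1
        exact h1.eventually_ne (by simp)
      filter_upwards [k1, k2, k3, k4, k5, k6, k7, self_mem_nhdsWithin] with θ g1 g2 g3 g4 g5 g6 g7 g8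
      have g8' : 0 < θ := g8
      set w : ℂ := (θ : ℂ) * I with hwd
      set t1 : ℂ := L w with ht1d
      set t : ℂ := σ t1 with htd
      rw [g1] at g2
      have hFt' : F t = Am N w := g2.2
      have e1 : F (-(starRingEnd ℂ) t) = F t1 := by
        rw [g3.2, g3.1, hFt', g2.1, Ap_I hN g8' g6]
      have e2 : -(starRingEnd ℂ) t = t1 := by
        rw [← g4.1, e1, g4.2]
      have hwne : w ≠ 0 := I_ne g8'
      have ht1ne : t1 ≠ 0 := by
        intro h0
        apply hwne
        rw [← g1, h0, hτ0]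
      have htne : t ≠ 0 := by
        intro h0
        apply ht1ne
        rw [← e2, h0, map_zero, neg_zero]
      have e3 : 1 / t = 1 + 1 / t1 := by
        have : t = t1 / (1 + t1) := rfl
        rw [this]
        field_simp
        ring
      have e4 : 1 / t1 = -(starRingEnd ℂ) (1 / t) := by
        rw [← e2, map_div₀ (starRingEnd ℂ) 1 t, map_one, div_neg]
      have e5 : (1 / t).re = 1 / 2 := by
        have h1 := congrArg Complex.re e3
        rw [e4, add_re, one_re, neg_re, conj_re] at h1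
        linarith
      refine ⟨t, g5, ?_, hFt', e5⟩
      rw [one_div, inv_re] at e5
      have h2 : 0 < normSq t := normSq_pos.2 htne
      rw [div_eq_iff h2.ne'] at e5
      rw [e5]; positivity
  -- contradiction
  obtain ⟨m, hm⟩ := exists_nat_gt C
  obtain ⟨θ, h0, h1, h2⟩ := Am_I_large hN (N ^ m * L0)
  have h3 := hend m _ (Am_I_mem hN h0 h1) h2
  have h4 := hcurve θ h0 (by rw [lt_div_iff₀ hN0]; linarith)
  rw [h4] at h3
  linarith

/-- raw form used by `T5L6I_496` -/
theorem isoNeg : Crest.Agent.R102.T5L6I496.IsoNeg := by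
  intro N F h1 h2 h3 h4 h5 h6
  exact not_germJ (N := N) (F := F) ⟨h1, h2, h3, h4, h5, h6⟩

end Crest.Agent.R102.IsoNeg486
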