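import Crest.Agent.R102.Iso3_297
import Crest.Agent.R102.T5L6I_496

/-!
# Row 102, (T5): `IsoPos` (raw form used by `T5L6I496.noI_of`) from `Iso3297.iso` (helper297)
-/

set_option autoImplicit false

namespace Crest.Agent.R102.Iso3297

theorem isoPos : Crest.Agent.R102.T5L6I496.IsoPos :=
  fun _ _ hn an odd real der eq => iso ⟨hn, an, odd, real, der, eq⟩

end Crest.Agent.R102.Iso3297
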