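import Crest.Agent.R102.NewtD_821

/-!
Row 102, part (B) (helper821): convergence of the Newton scheme.
-/

set_option autoImplicit false

open Set Filter Topology Metric Complex MeasureTheory
open scoped Real ContDiff ComplexConjugate

noncomputable section

namespace Crest.Agent.R102.B821

open Crest.Agent.R266.SCV

section Iter

variable {ρ₀ ε₀ ρ r d x : ℝ} {L Ψ U V : ℂ × ℂ → ℂ}

lemma AdmS.slack {y : ℝ} (h : AdmS ρ₀ ε₀ ρ r x U) (hy : y ≤ x) : AdmS ρ₀ ε₀ ρ r y U :=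
  ⟨h.adm, fun p hp => (h.U_s p hp).trans (by linarith),
    fun p hp => (h.Ut_s p hp).trans (by linarith), fun p hp => (h.Uw_s p hp).trans (by linarith)⟩

lemma convex_Dom {k : ℝ} (hk : 0 ≤ k) (ρ r : ℝ) : Convex ℝ (Dom k ρ r) := by
  intro p hp q hq a b ha hb hab
  obtain ⟨h1, h2⟩ := hp
  obtain ⟨h3, h4⟩ := hq
  refine ⟨?_, ?_⟩
  · have e1 : (a • p + b • q).1.im = a * p.1.im + b * q.1.im := by simp
    have e2 : (a • p + b • q).2.im = a * p.2.im + b * q.2.im := by simp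
    rw [e1, e2]
    have i1 : |a * p.1.im + b * q.1.im| ≤ a * |p.1.im| + b * |q.1.im| := by
      refine (abs_add_le _ _).trans ?_
      rw [abs_mul, abs_mul, abs_of_nonneg ha, abs_of_nonneg hb]
    have i2 : |a * p.2.im + b * q.2.im| ≤ a * |p.2.im| + b * |q.2.im| := by
      refine (abs_add_le _ _).trans ?_
      rw [abs_mul, abs_mul, abs_of_nonneg ha, abs_of_nonneg hb]
    have i3 : k * |a * p.2.im + b * q.2.im| ≤ k * (a * |p.2.im| + b * |q.2.im|) :=
      mul_le_mul_of_nonneg_left i2 hk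
    rcases eq_or_lt_of_le ha with ha0 | ha0
    · subst ha0
      have hb1 : b = 1 := by linarith
      subst hb1
      nlinarith
    · have j1 := mul_lt_mul_of_pos_left h1 ha0
      have j2 := mul_le_mul_of_nonneg_left h3.le hb
      have j3 : ρ = a * ρ + b * ρ := by rw [← add_mul, hab, one_mul]
      nlinarith
  · have e2 : (a • p + b • q).2 = (a : ℂ) * p.2 + (b : ℂ) * q.2 := by simp
    rw [e2]
    have i1 : ‖(a : ℂ) * p.2 + (b : ℂ) * q.2‖ ≤ a * ‖p.2‖ + b * ‖q.2‖ := by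
      refine (norm_add_le _ _).trans ?_
      rw [norm_mul, norm_mul, Complex.norm_real, Complex.norm_real, Real.norm_eq_abs,
        Real.norm_eq_abs, abs_of_nonneg ha, abs_of_nonneg hb]
    rcases eq_or_lt_of_le ha with ha0 | ha0
    · subst ha0
      have hb1 : b = 1 := by linarith
      subst hb1
      linarith
    · have j1 := mul_lt_mul_of_pos_left h2 ha0
      have j2 := mul_le_mul_of_nonneg_left h4.le hb
      have j3 : r = a * r + b * r := by rw [← add_mul, hab, one_mul]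
      linarith

/-- iteration of a relation along a sequence of predicates -/
lemma exists_iter {X : Type*} (Q : ℕ → X → Prop) (Rl : ℕ → X → X → Prop)
    (step : ∀ n x, Q n x → ∃ y, Q (n + 1) y ∧ Rl n x y) {x₀ : X} (h0 : Q 0 x₀) :
    ∃ F : ℕ → X, F 0 = x₀ ∧ ∀ n, Q n (F n) ∧ Rl n (F n) (F (n + 1)) := by
  classical
  choose! g hg using step
  let F : ℕ → X := fun n => Nat.rec x₀ (fun n x => g n x) n
  have hF : ∀ n, Q n (F n) := by
    intro n
    induction n with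
    | zero => exact h0
    | succ n ih => exact (hg n (F n) ih).1
  exact ⟨F, rfl, fun n => ⟨hF n, (hg n (F n) (hF n)).2⟩⟩

lemma norm_clm_le (A : ℂ × ℂ →L[ℂ] ℂ) {a b : ℝ} (ha : ‖A (1, 0)‖ ≤ a) (hb : ‖A (0, 1)‖ ≤ b) :
    ‖A‖ ≤ a + b := by
  have ha0 : 0 ≤ a := (norm_nonneg _).trans ha
  have hb0 : 0 ≤ b := (norm_nonneg _).trans hb
  refine ContinuousLinearMap.opNorm_le_bound _ (by positivity) (fun p => ?_)
  have e : A p = p.1 * A (1, 0) + p.2 * A (0, 1) := by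
    have h1 : p = p.1 • ((1 : ℂ), (0 : ℂ)) + p.2 • ((0 : ℂ), (1 : ℂ)) := by
      ext <;> simp
    conv_lhs => rw [h1]
    rw [map_add, map_smul, map_smul, smul_eq_mul, smul_eq_mul]
  rw [e]
  refine (norm_add_le _ _).trans ?_
  rw [norm_mul, norm_mul, add_mul]
  have n1 : ‖p.1‖ ≤ ‖p‖ := norm_fst_le p
  have n2 : ‖p.2‖ ≤ ‖p‖ := norm_snd_le p
  refine add_le_add ?_ ?_
  · rw [mul_comm]
    exact mul_le_mul ha n1 (norm_nonneg _) ha0
  · rw [mul_comm]
    exact mul_le_mul hb n2 (norm_nonneg _) hb0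

/-- limits of admissible functions with summable increments -/
theorem limit_of_seq (hL : IsLag ρ₀ ε₀ L Ψ) {F : ℕ → ℂ × ℂ → ℂ} {u : ℕ → ℝ} {e : ℕ → ℝ}
    (hu : Summable u) (hu0 : ∀ n, 0 ≤ u n) (he : Tendsto e atTop (𝓝 0))
    (hA : ∀ n, Adm ρ₀ ε₀ ρ r (F n))
    (hinc : ∀ n, ∀ p ∈ Dom (1 / 2) ρ r, ‖F (n + 1) p - F n p‖ ≤ u n * ‖p.2‖ ^ 5 ∧
      ‖q1 (F (n + 1)) p - q1 (F n) p‖ ≤ u n ∧ ‖q2 (F (n + 1)) p - q2 (F n) p‖ ≤ u n)
    (hP : ∀ n, Bdd (3 / 2) ρ r 8 (e n) (Pf L (F n))) :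
    ∃ U : ℂ × ℂ → ℂ, Adm ρ₀ ε₀ ρ r U ∧ (∀ p ∈ Dom (3 / 2) ρ r, Ef L U p = 0) ∧
      (∀ p ∈ Dom (1 / 2) ρ r, ‖U p - F 0 p‖ ≤ (∑' n, u n) * ‖p.2‖ ^ 5) := by
  have hadm := hA 0
  have hr := hadm.r_pos
  have hr1 := hadm.r_le
  have hρ := hadm.ρ_pos
  set f : ℕ → ℂ × ℂ → ℂ := fun n p => F (n + 1) p - F n p with hf
  set f' : ℕ → ℂ × ℂ → (ℂ × ℂ →L[ℂ] ℂ) := fun n p => fderiv ℂ (F (n + 1)) p - fderiv ℂ (F n) p with hf'
  have hfd : ∀ n p, p ∈ Dom (1 / 2) ρ r → HasFDerivAt (f n) (f' n p) p := by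
    intro n p hp
    exact (((hA (n + 1)).hU.differentiableAt hp).hasFDerivAt).sub
      (((hA n).hU.differentiableAt hp).hasFDerivAt)
  have hfb : ∀ n p, p ∈ Dom (1 / 2) ρ r → ‖f' n p‖ ≤ 2 * u n := by
    intro n p hp
    obtain ⟨-, h1, h2⟩ := hinc n p hp
    have := norm_clm_le (f' n p) (a := u n) (b := u n)
      (by rw [hf']; simp only [sub_apply]; exact h1)
      (by rw [hf']; simp only [sub_apply]; exact h2)
    linarith
  have hw1 : ∀ p ∈ Dom (1 / 2) ρ r, ‖p.2‖ ^ 5 ≤ 1 := by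
    intro p hp
    have : ‖p.2‖ < r := hp.2
    exact pow_le_one₀ (norm_nonneg _) (by linarith)
  have hfb0 : ∀ n p, p ∈ Dom (1 / 2) ρ r → ‖f n p‖ ≤ u n * ‖p.2‖ ^ 5 := fun n p hp => (hinc n p hp).1
  have hfb1 : ∀ n p, p ∈ Dom (1 / 2) ρ r → ‖f n p‖ ≤ u n := fun n p hp =>
    (hfb0 n p hp).trans (by have := hu0 n; have := hw1 p hp; nlinarith)
  have hsum : ∀ p ∈ Dom (1 / 2) ρ r, Summable (fun n => f n p) := fun p hp =>
    Summable.of_norm_bounded hu (fun n => hfb1 n p hp)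
  have h00 : ((0 : ℂ), (0 : ℂ)) ∈ Dom (1 / 2) ρ r := by
    refine ⟨?_, ?_⟩
    · simpa using hρ
    · simpa using hr
  have hu2 : Summable (fun n => 2 * u n) := hu.mul_left 2
  set U : ℂ × ℂ → ℂ := fun p => F 0 p + ∑' n, f n p with hU
  have hUd : ∀ p ∈ Dom (1 / 2) ρ r, HasFDerivAt U (fderiv ℂ (F 0) p + ∑' n, f' n p) p := by
    intro p hp
    refine (((hA 0).hU.differentiableAt hp).hasFDerivAt).add ?_
    exact hasFDerivAt_tsum_of_isPreconnected hu2 (isOpen_Dom (1 / 2) ρ r)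
      (convex_Dom (by norm_num) ρ r).isPreconnected hfd hfb h00 (hsum _ h00) hp
  -- limits
  have hlim : ∀ p ∈ Dom (1 / 2) ρ r, Tendsto (fun n => F n p) atTop (𝓝 (U p)) := by
    intro p hp
    have h1 := (hsum p hp).hasSum.tendsto_sum_nat.const_add (F 0 p)
    refine h1.congr (fun n => ?_)
    have : ∀ n, ∑ i ∈ Finset.range n, f i p = F n p - F 0 p := by
      intro n
      exact Finset.sum_range_sub (fun n => F n p) n
    rw [this]; ring
  have hlim' : ∀ p ∈ Dom (1 / 2) ρ r, Tendsto (fun n => fderiv ℂ (F n) p) atTop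
      (𝓝 (fderiv ℂ U p)) := by
    intro p hp
    have hs' : Summable (fun n => f' n p) := Summable.of_norm_bounded hu2 (fun n => hfb n p hp)
    have h1 := hs'.hasSum.tendsto_sum_nat.const_add (fderiv ℂ (F 0) p)
    rw [(hUd p hp).fderiv]
    refine h1.congr (fun n => ?_)
    have : ∀ n, ∑ i ∈ Finset.range n, f' i p = fderiv ℂ (F n) p - fderiv ℂ (F 0) p := by
      intro n
      exact Finset.sum_range_sub (fun n => fderiv ℂ (F n) p) n
    rw [this]
    abel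
  have hq1 : ∀ p ∈ Dom (1 / 2) ρ r, Tendsto (fun n => q1 (F n) p) atTop (𝓝 (q1 U p)) := by
    intro p hp
    exact ((ContinuousLinearMap.apply ℂ ℂ ((1 : ℂ), (0 : ℂ))).continuous.tendsto _).comp (hlim' p hp)
  have hq2 : ∀ p ∈ Dom (1 / 2) ρ r, Tendsto (fun n => q2 (F n) p) atTop (𝓝 (q2 U p)) := by
    intro p hp
    exact ((ContinuousLinearMap.apply ℂ ℂ ((0 : ℂ), (1 : ℂ))).continuous.tendsto _).comp (hlim' p hp)
  have hUH : IsH (1 / 2) ρ r U := by
    refine ⟨fun p hp => (hUd p hp).differentiableAt.differentiableWithinAt, fun t w hp => ?_⟩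
    refine tendsto_nhds_unique (hlim _ (mem_Dom_add_one.2 hp)) ?_
    refine (hlim _ hp).congr (fun n => ?_)
    exact ((hA n).hU.per t w hp).symm
  have hadmU : Adm ρ₀ ε₀ ρ r U := by
    refine { ρ_pos := hρ, ρ_le := hadm.ρ_le, r_pos := hr, r_le := hr1, r_le_ρ := hadm.r_le_ρ,
             r_le_ε := hadm.r_le_ε, hU := hUH, U_bd := ?_, Ut_bd := ?_, Uw_bd := ?_, re := ?_,
             par := ?_ }
    · intro p hp
      exact le_of_tendsto (hlim p hp).norm (Eventually.of_forall (fun n => (hA n).U_bd p hp))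
    · intro p hp
      exact le_of_tendsto (hq1 p hp).norm (Eventually.of_forall (fun n => (hA n).Ut_bd p hp))
    · intro p hp
      exact le_of_tendsto (hq2 p hp).norm (Eventually.of_forall (fun n => (hA n).Uw_bd p hp))
    · rintro ⟨t, w⟩ hp
      have h1 := (Complex.continuous_conj.tendsto _).comp (hlim _ (mem_Dom_conj.2 hp))
      refine tendsto_nhds_unique h1 ((hlim _ hp).congr (fun n => ?_))
      exact ((hA n).re _ hp).symm
    · rintro ⟨t, w⟩ hp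
      have h1 := hlim _ (mem_Dom_neg.2 hp)
      refine tendsto_nhds_unique h1 (((hlim _ hp).const_mul 1).congr (fun n => ?_))
      exact ((hA n).par _ hp).symm
  refine ⟨U, hadmU, ?_, ?_⟩
  · rintro ⟨t, w⟩ hp
    have m1 := hadmU.mem_m hp
    have m2 := hadmU.mem_p hp
    have m0 := hadmU.mem_0 hp
    obtain ⟨g1, g2⟩ := hadmU.mem3 hL hp
    have hX : ∀ q ∈ Dom (1 / 2) ρ r, Tendsto (fun n => Xf (F n) q) atTop (𝓝 (Xf U q)) := fun q hq =>
      (hlim q hq).const_add q.1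
    have c1 : ContinuousAt (q2 L) (tr (-1) (Xf U) (t, w), Xf U (t, w)) :=
      (ana_q2 hL.anaL _ g1).continuousAt
    have c2 : ContinuousAt (q1 L) (Xf U (t, w), tr 1 (Xf U) (t, w)) :=
      (ana_q1 hL.anaL _ g2).continuousAt
    have t1 : Tendsto (fun n => (tr (-1) (Xf (F n)) (t, w), Xf (F n) (t, w))) atTop
        (𝓝 (tr (-1) (Xf U) (t, w), Xf U (t, w))) := (hX _ m1).prodMk_nhds (hX _ m0)
    have t2 : Tendsto (fun n => (Xf (F n) (t, w), tr 1 (Xf (F n)) (t, w))) atTop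
        (𝓝 (Xf U (t, w), tr 1 (Xf U) (t, w))) := (hX _ m0).prodMk_nhds (hX _ m2)
    have t3 : Tendsto (fun n => Ef L (F n) (t, w)) atTop (𝓝 (Ef L U (t, w))) :=
      (c1.tendsto.comp t1).add (c2.tendsto.comp t2)
    have t4 : Tendsto (fun n => Ef L (F n) (t, w)) atTop (𝓝 0) := by
      refine squeeze_zero_norm (a := fun n => 100 / 99 * (e n * ‖w‖ ^ 8)) (fun n => ?_) ?_
      · have h1 := hP n _ hp
        have h2 := (hA n).Ut_bd _ m0
        have h4 : 99 / 100 ≤ ‖Xt (F n) (t, w)‖ := by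
          have : ‖(1 : ℂ)‖ ≤ ‖Xt (F n) (t, w)‖ + ‖q1 (F n) (t, w)‖ := by
            have := norm_sub_le (Xt (F n) (t, w)) (q1 (F n) (t, w))
            unfold Xt at this ⊢
            rw [add_sub_cancel_right] at this
            exact this
          rw [norm_one] at this
          linarith
        unfold Pf at h1
        rw [norm_mul] at h1
        have h3 : 99 / 100 * ‖Ef L (F n) (t, w)‖ ≤ e n * ‖w‖ ^ 8 :=
          (mul_le_mul_of_nonneg_right h4 (norm_nonneg _)).trans h1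
        linarith
      · have := (he.mul_const (‖w‖ ^ 8)).const_mul (100 / 99)
        rw [zero_mul, mul_zero] at this
        exact this
    exact tendsto_nhds_unique t3 t4
  · intro p hp
    have e1 : U p - F 0 p = ∑' n, f n p := by rw [hU]; ring
    rw [e1]
    calc ‖∑' n, f n p‖ ≤ ∑' n, u n * ‖p.2‖ ^ 5 :=
          tsum_of_norm_bounded (hu.mul_right _).hasSum (fun n => hfb0 n p hp)
      _ = (∑' n, u n) * ‖p.2‖ ^ 5 := tsum_mul_right

/-- the Newton scheme converges -/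
theorem newton_limit (hL : IsLag ρ₀ ε₀ L Ψ) {C c r₁ r₂ K δ₀ : ℝ} (hC : 0 ≤ C) (hc : 0 < c)
    (hB4 : B4Const ρ₀ L C c r₁) (hδ : 0 < δ₀) (hK0 : 0 ≤ K)
    (hr₂ : ∀ x y : ℂ, (x, y) ∈ Dg (3 / 4 * ρ₀) (ε₀ / 2) → ‖y - x‖ ≤ r₂ →
        ‖q2 (q1 L) (x, y) + (y - x)‖ ≤ 1 / 100 * ‖y - x‖)
    (hK : ∀ x y z x' y' z' : ℂ, ∀ m : ℝ, (x, y) ∈ Dg (3 / 4 * ρ₀) (ε₀ / 2) →
        (y, z) ∈ Dg (3 / 4 * ρ₀) (ε₀ / 2) → ‖x'‖ ≤ m → ‖y'‖ ≤ m → ‖z'‖ ≤ m → m ≤ δ₀ →
        ‖EL L (x + x') (y + y') (z + z') - EL L x y z - dEL L x y z x' y' z'‖ ≤ K * m ^ 2) :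
    ∃ C₀ : ℝ, 1 ≤ C₀ ∧ ∀ (ρ r x : ℝ) (U₀ : ℂ × ℂ → ℂ), r ≤ r₁ → 2 * r ≤ r₂ →
      0 < x → C₀ * x ≤ (r / 200) ^ 3 → AdmS ρ₀ ε₀ ρ r (2 * x) U₀ →
      Bdd (3 / 2) ρ r 8 (x ^ 20) (Pf L U₀) →
      ∃ U : ℂ × ℂ → ℂ, Adm ρ₀ ε₀ (ρ / 2) (r / 2) U ∧
        (∀ p ∈ Dom (3 / 2) (ρ / 2) (r / 2), Ef L U p = 0) ∧
        (∀ p ∈ Dom (1 / 2) (ρ / 2) (r / 2), ‖U p - U₀ p‖ ≤ 2 * x * ‖p.2‖ ^ 5) := by
  obtain ⟨C₀, hC₀, hstep⟩ := newton_step hL hC hc hB4 hδ hK0 hr₂ hK
  refine ⟨C₀, hC₀, ?_⟩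
  intro ρ r x U₀ hrr₁ hrr₂ hx hCx hA₀ hP₀
  have h₀ := hA₀.adm
  have hr := h₀.r_pos
  have hr1 := h₀.r_le
  have hrρ := h₀.r_le_ρ
  have hρ := h₀.ρ_pos
  set d₀ : ℝ := r / 200 with hd₀
  have hd₀p : 0 < d₀ := by positivity
  set q : ℕ → ℝ := fun n => (1 / 2 : ℝ) ^ n with hq
  have hq0 : ∀ n, 0 < q n := fun n => by rw [hq]; positivity
  have hq1 : ∀ n, q n ≤ 1 := fun n => pow_le_one₀ (by norm_num) (by norm_num)
  have hqs : ∀ n, q (n + 1) = q n / 2 := fun n => by rw [hq]; simp only [pow_succ]; ring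
  set ρs : ℕ → ℝ := fun n => ρ - 12 * d₀ * (1 - q n) with hρs
  set rs : ℕ → ℝ := fun n => r - 8 * d₀ * (1 - q n) with hrs
  set xs : ℕ → ℝ := fun n => x * (1 / 16 : ℝ) ^ n with hxs
  have hxs0 : ∀ n, 0 < xs n := fun n => by rw [hxs]; positivity
  have hxss : ∀ n, xs (n + 1) = xs n / 16 := fun n => by rw [hxs]; simp only [pow_succ]; ring
  obtain ⟨F, hF0, hF⟩ := exists_iter
    (Q := fun n U => AdmS ρ₀ ε₀ (ρs n) (rs n) (2 * xs n) U ∧
      Bdd (3 / 2) (ρs n) (rs n) 8 (xs n ^ 20) (Pf L U))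
    (Rl := fun n U U' => ∀ p ∈ Dom (1 / 2) (ρs (n + 1)) (rs (n + 1)),
      ‖U' p - U p‖ ≤ xs n * ‖p.2‖ ^ 5 ∧ ‖q1 U' p - q1 U p‖ ≤ xs n ∧ ‖q2 U' p - q2 U p‖ ≤ xs n)
    (x₀ := U₀)
    (fun n U ⟨hAn, hPn⟩ => by
      have e1 : ρs (n + 1) = ρs n - 6 * (d₀ * q n) := by
        simp only [hρs, hqs]; ring
      have e2 : rs (n + 1) = rs n - 4 * (d₀ * q n) := by
        simp only [hrs, hqs]; ring
      have hqn := hq0 n
      have hqn1 := hq1 n
      have hrsn : r / 2 ≤ rs n := by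
        simp only [hrs, hd₀]
        nlinarith
      obtain ⟨U', h1, h2, h3⟩ := hstep (ρs n) (rs n) (d₀ * q n) (xs n) U
        (by simp only [hrs]; nlinarith) (by simp only [hrs]; nlinarith) (by positivity)
        (by
          have : d₀ * q n ≤ d₀ := by nlinarith
          rw [hd₀] at this ⊢
          linarith)
        (hxs0 n)
        (by
          have h5 : C₀ * xs n ≤ d₀ ^ 3 * (1 / 16 : ℝ) ^ n := by
            rw [hxs]
            have : 0 < (1 / 16 : ℝ) ^ n := by positivity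
            calc C₀ * (x * (1 / 16 : ℝ) ^ n) = (C₀ * x) * (1 / 16 : ℝ) ^ n := by ring
              _ ≤ d₀ ^ 3 * (1 / 16 : ℝ) ^ n := mul_le_mul_of_nonneg_right hCx this.le
          refine h5.trans ?_
          rw [mul_pow]
          refine mul_le_mul_of_nonneg_left ?_ (by positivity)
          rw [hq]
          simp only
          rw [← pow_mul, mul_comm n 3, pow_mul]
          exact pow_le_pow_left₀ (by norm_num) (by norm_num) n)
        hAn hPn
      refine ⟨U', ⟨?_, ?_⟩, ?_⟩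
      · rw [e1, e2, hxss]
        exact h1.slack (by have := hxs0 n; linarith)
      · rw [e1, e2, hxss]
        exact h2
      · rw [e1, e2]
        exact h3)
    (h0 := by
      have e1 : ρs 0 = ρ := by simp [hρs, hq]
      have e2 : rs 0 = r := by simp [hrs, hq]
      have e3 : xs 0 = x := by simp [hxs]
      rw [e1, e2, e3]
      exact ⟨hA₀, hP₀⟩)
  have hρsn : ∀ n, ρ / 2 ≤ ρs n := by
    intro n
    have hqn := hq0 n
    have hqn1 := hq1 n
    simp only [hρs, hd₀]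
    nlinarith
  have hrsn : ∀ n, r / 2 ≤ rs n := by
    intro n
    have hqn := hq0 n
    have hqn1 := hq1 n
    simp only [hrs, hd₀]
    nlinarith
  have hsub : ∀ n k, Dom k (ρ / 2) (r / 2) ⊆ Dom k (ρs n) (rs n) := fun n k =>
    Dom_mono le_rfl (hρsn n) (hrsn n)
  have hadm : ∀ n, Adm ρ₀ ε₀ (ρ / 2) (r / 2) (F n) := by
    intro n
    have h := (hF n).1.1.adm
    exact { ρ_pos := by linarith, ρ_le := by linarith [h₀.ρ_le], r_pos := by linarith,
            r_le := by linarith, r_le_ρ := by linarith, r_le_ε := by linarith [h₀.r_le_ε],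
            hU := h.hU.mono le_rfl (hρsn n) (hrsn n), U_bd := fun p hp => h.U_bd p (hsub n _ hp),
            Ut_bd := fun p hp => h.Ut_bd p (hsub n _ hp),
            Uw_bd := fun p hp => h.Uw_bd p (hsub n _ hp),
            re := fun p hp => h.re p (hsub n _ hp), par := fun p hp => h.par p (hsub n _ hp) }
  have hgeo : Summable (fun n : ℕ => (1 / 16 : ℝ) ^ n) :=
    summable_geometric_of_lt_one (by norm_num) (by norm_num)
  have hxsum : Summable xs := hgeo.mul_left x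
  have hxt : ∑' n, xs n ≤ 2 * x := by
    rw [hxs]
    simp only
    rw [tsum_mul_left, tsum_geometric_of_lt_one (by norm_num) (by norm_num)]
    norm_num
    linarith
  obtain ⟨U, hU, hE, hUd⟩ := limit_of_seq (F := F) (u := xs) (e := fun n => xs n ^ 20) hL hxsum
    (fun n => (hxs0 n).le)
    (by
      have h1 := hxsum.tendsto_atTop_zero.pow 20
      rw [zero_pow (by norm_num)] at h1
      exact h1)
    hadm (fun n p hp => (hF n).2 p (hsub (n + 1) _ hp)) (fun n p hp => (hF n).1.2 p (hsub n _ hp))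
  refine ⟨U, hU, hE, fun p hp => ?_⟩
  rw [← hF0]
  exact (hUd p hp).trans (mul_le_mul_of_nonneg_right hxt (by positivity))

end Iter

end Crest.Agent.R102.B821
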