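import Crest.Agent.R102.SlopeB_231

/-!
# Upper bound of the sum of the two slopes (S2), nontangential expansion, thin sector bound
-/

namespace Crest.Agent.R102.Slope231

open MeasureTheory Set Filter Topology Complex Metric
open scoped Real NNReal

theorem reab (a b : ℝ) : ((a : ℂ) + (b : ℂ) * I).re = a := by simp

theorem imab (a b : ℝ) : ((a : ℂ) + (b : ℂ) * I).im = b := by simp

theorem circleMap_im_pos {u η θ : ℝ} (hη : 0 < η) (h0 : 0 < θ) (h1 : θ < π) :
    0 < (circleMap (u : ℂ) η θ).im := by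
  have : (circleMap (u : ℂ) η θ).im = η * Real.sin θ := by
    simp [circleMap, Complex.exp_im]
  rw [this]
  exact mul_pos hη (Real.sin_pos_of_pos_of_lt_pi h0 h1)

theorem circleMap_eq_add (u η θ : ℝ) :
    circleMap (u : ℂ) η θ = u + ((η * Real.cos θ : ℝ) + (η * Real.sin θ : ℝ) * I) := by
  rw [circleMap, Complex.exp_mul_I]
  push_cast
  ring

/-- the imaginary part of a bounded holomorphic function on the half disc is integrable on
half circles -/
theorem halfCircle_integrable {G : ℂ → ℂ} {W : Set ℂ} (hG : DifferentiableOn ℂ G W) (hW : IsOpen W)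
    {M : ℝ} (hM : ∀ z ∈ W, |(G z).im| ≤ M) {u η : ℝ} 
    (hmem : ∀ θ ∈ Ioo (0 : ℝ) π, circleMap (u : ℂ) η θ ∈ W) :
    IntervalIntegrable (fun θ : ℝ => (G (circleMap u η θ)).im) volume 0 π := by
  rw [intervalIntegrable_iff_integrableOn_Ioo_of_le Real.pi_pos.le]
  have hfin : IsFiniteMeasure (volume.restrict (Ioo (0 : ℝ) π)) := ⟨by
    rw [Measure.restrict_apply_univ, Real.volume_Ioo]; exact ENNReal.ofReal_lt_top⟩
  have hc : ContinuousOn (fun θ : ℝ => (G (circleMap u η θ)).im) (Ioo (0 : ℝ) π) := by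
    intro θ hθ
    apply ContinuousAt.continuousWithinAt
    have h1 : ContinuousAt G (circleMap u η θ) :=
      (hG.differentiableAt (hW.mem_nhds (hmem θ hθ))).continuousAt
    exact Complex.continuous_im.continuousAt.comp
      (h1.comp (f := circleMap (u : ℂ) η) (continuous_circleMap _ _).continuousAt)
  refine Integrable.of_bound (hc.aestronglyMeasurable measurableSet_Ioo) M ?_
  filter_upwards [ae_restrict_mem measurableSet_Ioo] with θ hθ
  exact hM _ (hmem θ hθ)

/-- **(S2)** the sum of the two arc means is bounded at every scale. -/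
theorem S2_core {R E : ℂ → ℝ} {u α β δ η : ℝ} (hη : 0 < η) (hηδ : η < δ)
    (hlow : ∀ z : ℂ, 0 < z.im → ‖z‖ < δ → R u + α * z.re + β * z.im - ‖z‖ ≤ E (u + z))
    (hER : ∀ z : ℂ, 0 < z.im → ‖z‖ < δ → E (u + z) ≤ R (u + z) ∧
      E (u + z) ≤ R (u + starRingEnd ℂ z))
    (hR : CircleIntegrable R u η) (hmean : Real.circleAverage R u η ≤ R u)
    (hE : IntervalIntegrable (fun θ : ℝ => E (circleMap u η θ)) volume 0 π) :
    (2 / (π * η)) * (∫ θ in (0 : ℝ)..π, (R (circleMap u η θ) - E (circleMap u η θ)) * Real.sin θ) +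
    (2 / (π * η)) * (∫ θ in (0 : ℝ)..π, (R (circleMap u η (-θ)) - E (circleMap u η θ)) *
      Real.sin θ) ≤ 4 - 8 * β / π := by
  have hpi := Real.pi_pos
  have hR0 : IntervalIntegrable (fun θ : ℝ => R (circleMap u η θ)) volume 0 (2 * π) := hR
  have hR1 : IntervalIntegrable (fun θ : ℝ => R (circleMap u η θ)) volume 0 π :=
    hR0.mono_set (by
      rw [uIcc_of_le hpi.le, uIcc_of_le (by positivity)]
      exact Icc_subset_Icc_right (by linarith))
  have hR2 : IntervalIntegrable (fun θ : ℝ => R (circleMap u η θ)) volume π (2 * π) :=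
    hR0.mono_set (by
      rw [uIcc_of_le (by linarith), uIcc_of_le (by positivity)]
      exact Icc_subset_Icc_left (by linarith))
  have hcm : ∀ θ : ℝ, circleMap (u : ℂ) η (2 * π - θ) = circleMap u η (-θ) := by
    intro θ
    have := (periodic_circleMap (u : ℂ) η) (-θ)
    rw [← this]
    congr 1; ring
  have hR3 : IntervalIntegrable (fun θ : ℝ => R (circleMap u η (-θ))) volume 0 π := by
    have h1 := hR2.comp_sub_left (2 * π)
    simp only [hcm] at h1
    have h2 := h1.symm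
    have e1 : 2 * π - 2 * π = 0 := by ring
    have e2 : 2 * π - π = π := by ring
    rw [e1, e2] at h2
    exact h2
  have hsplit : (∫ θ in (0 : ℝ)..(2 * π), R (circleMap u η θ)) =
      (∫ θ in (0 : ℝ)..π, R (circleMap u η θ)) + ∫ θ in (0 : ℝ)..π, R (circleMap u η (-θ)) := by
    rw [← intervalIntegral.integral_add_adjacent_intervals hR1 hR2]
    congr 1
    have h1 := intervalIntegral.integral_comp_sub_left (a := 0) (b := π)
      (fun θ : ℝ => R (circleMap u η θ)) (2 * π)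
    simp only [hcm] at h1
    rw [h1]
    congr 1 <;> ring
  have hmn : (∫ θ in (0 : ℝ)..(2 * π), R (circleMap u η θ)) ≤ 2 * π * R u := by
    rw [Real.circleAverage_def, smul_eq_mul] at hmean
    rw [inv_mul_le_iff₀ (by positivity)] at hmean
    exact hmean
  -- positivity of the two differences
  have hz : ∀ θ : ℝ, circleMap (u : ℂ) η θ = u + ((η * Real.cos θ : ℝ) + (η * Real.sin θ : ℝ) * I) :=
    circleMap_eq_add u η
  have hnorm : ∀ θ : ℝ, ‖(((η * Real.cos θ : ℝ) : ℂ) + (η * Real.sin θ : ℝ) * I)‖ = η := by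
    intro θ
    have h1 : (((η * Real.cos θ : ℝ) : ℂ) + (η * Real.sin θ : ℝ) * I) = circleMap 0 η θ := by
      rw [circleMap, Complex.exp_mul_I]; push_cast; ring
    rw [h1]
    simp [abs_of_pos hη]
  have him : ∀ θ ∈ Ioo (0 : ℝ) π, 0 < (((η * Real.cos θ : ℝ) : ℂ) + (η * Real.sin θ : ℝ) * I).im := by
    intro θ hθ
    rw [imab]
    exact mul_pos hη (Real.sin_pos_of_pos_of_lt_pi hθ.1 hθ.2)
  have hconj : ∀ θ : ℝ, starRingEnd ℂ (((η * Real.cos θ : ℝ) : ℂ) + (η * Real.sin θ : ℝ) * I) =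
      ((η * Real.cos (-θ) : ℝ) : ℂ) + (η * Real.sin (-θ) : ℝ) * I := by
    intro θ
    rw [Real.cos_neg, Real.sin_neg]
    apply Complex.ext <;> simp
  have hup : ∀ θ ∈ Ioo (0 : ℝ) π, 0 ≤ R (circleMap u η θ) - E (circleMap u η θ) := by
    intro θ hθ
    have := (hER _ (him θ hθ) (by rw [hnorm]; exact hηδ)).1
    rw [← hz] at this
    linarith
  have hdn : ∀ θ ∈ Ioo (0 : ℝ) π, 0 ≤ R (circleMap u η (-θ)) - E (circleMap u η θ) := by
    intro θ hθ
    have := (hER _ (him θ hθ) (by rw [hnorm]; exact hηδ)).2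
    rw [hconj, ← hz, ← hz] at this
    linarith
  have hle : ∀ F : ℝ → ℝ, IntervalIntegrable F volume 0 π → (∀ θ ∈ Ioo (0 : ℝ) π, 0 ≤ F θ) →
      (∫ θ in (0 : ℝ)..π, F θ * Real.sin θ) ≤ ∫ θ in (0 : ℝ)..π, F θ := by
    intro F hF hF0
    apply intervalIntegral.integral_mono_on_of_le_Ioo hpi.le
    · exact hF.mul_continuousOn Real.continuous_sin.continuousOn
    · exact hF
    · intro θ hθ
      have h1 := hF0 θ hθ
      have h2 := Real.sin_le_one θ
      nlinarith
  have i1 := hle _ (hR1.sub hE) hup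
  have i2 := hle _ (hR3.sub hE) hdn
  rw [intervalIntegral.integral_sub hR1 hE] at i1
  rw [intervalIntegral.integral_sub hR3 hE] at i2
  -- lower bound of the mean of `E`
  have hE2 : π * R u + 2 * β * η - π * η ≤ ∫ θ in (0 : ℝ)..π, E (circleMap u η θ) := by
    have h1 : (∫ θ in (0 : ℝ)..π, (R u + α * (η * Real.cos θ) + β * (η * Real.sin θ) - η)) =
        π * R u + 2 * β * η - π * η := by
      have e : (fun θ : ℝ => R u + α * (η * Real.cos θ) + β * (η * Real.sin θ) - η) =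
          fun θ : ℝ => (R u - η) + ((α * η) * Real.cos θ + (β * η) * Real.sin θ) := by
        ext θ; ring
      rw [e, intervalIntegral.integral_add (by simp) (by
          apply Continuous.intervalIntegrable; fun_prop),
        intervalIntegral.integral_add (by apply Continuous.intervalIntegrable; fun_prop)
          (by apply Continuous.intervalIntegrable; fun_prop)]
      simp
      ring
    rw [← h1]
    apply intervalIntegral.integral_mono_on_of_le_Ioo hpi.le
    · apply Continuous.intervalIntegrable; fun_prop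
    · exact hE
    · intro θ hθ
      have h2 := hlow _ (him θ hθ) (by rw [hnorm]; exact hηδ)
      rw [hnorm, ← hz] at h2
      rw [reab, imab] at h2
      exact h2
  have htot : (∫ θ in (0 : ℝ)..π, (R (circleMap u η θ) - E (circleMap u η θ)) * Real.sin θ) +
      (∫ θ in (0 : ℝ)..π, (R (circleMap u η (-θ)) - E (circleMap u η θ)) * Real.sin θ) ≤
      2 * (π - 2 * β) * η := by
    rw [hsplit] at hmn
    linarith
  rw [← mul_add]
  calc (2 / (π * η)) * _ ≤ (2 / (π * η)) * (2 * (π - 2 * β) * η) := by gcongr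
    _ = 4 - 8 * β / π := by field_simp; ring

/-- the sector `κ |z| ≤ Im z`, `0 < |z| < δ` -/
def Sec (κ δ : ℝ) : Set ℂ := {z | κ * ‖z‖ ≤ z.im ∧ 0 < z.im ∧ ‖z‖ < δ}

theorem convex_Sec {κ δ : ℝ} (hκ : 0 ≤ κ) : Convex ℝ (Sec κ δ) := by
  have h1 : Convex ℝ {z : ℂ | κ * ‖z‖ ≤ z.im} := by
    have hc : ConvexOn ℝ univ fun z : ℂ => κ * ‖z‖ - z.im := by
      have a1 : ConvexOn ℝ univ fun z : ℂ => κ * ‖z‖ := by
        have := (convexOn_norm (convex_univ (𝕜 := ℝ) (E := ℂ))).smul hκ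
        simpa using this
      have a2 : ConcaveOn ℝ univ fun z : ℂ => z.im :=
        (Complex.imLm : ℂ →ₗ[ℝ] ℝ).concaveOn convex_univ
      exact a1.sub a2
    have := hc.convex_le 0
    have e : {z : ℂ | κ * ‖z‖ ≤ z.im} = {x | x ∈ (univ : Set ℂ) ∧ κ * ‖x‖ - x.im ≤ 0} := by
      ext z; simp
    rw [e]; exact this
  have h2 : Convex ℝ {z : ℂ | 0 < z.im} := convex_halfSpace_im_gt 0
  have h3 : Convex ℝ {z : ℂ | ‖z‖ < δ} := by
    have e : {z : ℂ | ‖z‖ < δ} = ball 0 δ := by ext z; simp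
    rw [e]; exact convex_ball 0 δ
  have e : Sec κ δ = {z : ℂ | κ * ‖z‖ ≤ z.im} ∩ ({z : ℂ | 0 < z.im} ∩ {z : ℂ | ‖z‖ < δ}) := by
    ext z; simp [Sec]
  rw [e]
  exact h1.inter (h2.inter h3)

/-- nontangential first order expansion from the nontangential limit of the derivative -/
theorem nt_expansion {G : ℂ → ℂ} {W : Set ℂ} (hW : IsOpen W) (hG : DifferentiableOn ℂ G W) {u : ℝ}
    {h1 : ℂ} (hder : ∀ κ > 0, ∀ ε > 0, ∃ δ > 0, ∀ z ∈ Sec κ δ,
      (u : ℂ) + z ∈ W ∧ ‖deriv G (u + z) - h1‖ ≤ ε) :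
    ∃ h0 : ℂ, ∀ κ > 0, ∀ ε > 0, ∃ δ > 0, ∀ z ∈ Sec κ δ, ‖G (u + z) - h0 - h1 * z‖ ≤ ε * ‖z‖ := by
  -- Lipschitz estimate in every sector
  have hlip : ∀ κ > 0, ∀ ε > 0, ∃ δ > 0, ∀ z ∈ Sec κ δ, ∀ w ∈ Sec κ δ,
      ‖(G (u + z) - h1 * z) - (G (u + w) - h1 * w)‖ ≤ ε * ‖z - w‖ := by
    intro κ hκ ε hε
    obtain ⟨δ, hδ, h⟩ := hder κ hκ ε hε
    refine ⟨δ, hδ, fun z hz w hw => ?_⟩
    have hd : ∀ x ∈ Sec κ δ, HasDerivWithinAt (fun x => G (u + x) - h1 * x)
        (deriv G (u + x) - h1) (Sec κ δ) x := by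
      intro x hx
      have a1 := (hG.differentiableAt (hW.mem_nhds (h x hx).1)).hasDerivAt
      have a2 : HasDerivAt (fun x => G (u + x)) (deriv G (u + x)) x := by
        have := HasDerivAt.comp_const_add (u : ℂ) x a1
        simpa using this
      have a3 : HasDerivAt (fun x : ℂ => h1 * x) h1 x := by
        simpa using (hasDerivAt_id x).const_mul h1
      exact (a2.sub a3).hasDerivWithinAt
    exact Convex.norm_image_sub_le_of_norm_hasDerivWithin_le hd (fun x hx => (h x hx).2)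
      (convex_Sec hκ.le) hw hz
  -- the vertical limit
  set F : ℝ → ℂ := fun y => G (u + (y : ℂ) * I) - h1 * ((y : ℂ) * I) with hF
  have hsecy : ∀ δ > 0, ∀ y ∈ Ioo (0 : ℝ) δ, ((y : ℂ) * I) ∈ Sec 1 δ := by
    intro δ hδ y hy
    have : ‖(y : ℂ) * I‖ = y := by simp [abs_of_pos hy.1]
    refine ⟨by rw [this]; simp, by simpa using hy.1, by rw [this]; exact hy.2⟩
  have hcau : Cauchy (map F (𝓝[>] 0)) := by
    rw [Metric.cauchy_iff]
    refine ⟨inferInstance, fun ε hε => ?_⟩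
    obtain ⟨δ, hδ, h⟩ := hlip 1 one_pos 1 one_pos
    set d : ℝ := min δ (ε / 2) with hd
    have hd0 : 0 < d := lt_min hδ (by positivity)
    refine ⟨F '' Ioo 0 d, image_mem_map (Ioo_mem_nhdsGT hd0), ?_⟩
    rintro _ ⟨y, hy, rfl⟩ _ ⟨y', hy', rfl⟩
    have b1 := h _ (hsecy δ hδ y ⟨hy.1, hy.2.trans_le (min_le_left _ _)⟩) _
      (hsecy δ hδ y' ⟨hy'.1, hy'.2.trans_le (min_le_left _ _)⟩)
    rw [dist_eq_norm]
    refine lt_of_le_of_lt b1 ?_
    have b2 : ‖(y : ℂ) * I - (y' : ℂ) * I‖ = |y - y'| := by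
      rw [← sub_mul, norm_mul, Complex.norm_I, mul_one, ← Complex.ofReal_sub, Complex.norm_real,
        Real.norm_eq_abs]
    rw [b2, one_mul, abs_lt]
    have c1 := hy.1
    have c2 := hy.2.trans_le (min_le_right _ _)
    have c3 := hy'.1
    have c4 := hy'.2.trans_le (min_le_right _ _)
    constructor <;> linarith
  obtain ⟨h0, hh0⟩ := cauchy_iff_exists_le_nhds.1 hcau
  refine ⟨h0, fun κ hκ ε hε => ?_⟩
  obtain ⟨δ, hδ, h⟩ := hlip (min κ 1) (by positivity) ε hε
  refine ⟨δ, hδ, fun z hz => ?_⟩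
  have hz' : z ∈ Sec (min κ 1) δ := by
    refine ⟨le_trans ?_ hz.1, hz.2⟩
    exact mul_le_mul_of_nonneg_right (min_le_left _ _) (norm_nonneg _)
  have hlim : Tendsto (fun y : ℝ => ε * ‖z - (y : ℂ) * I‖) (𝓝[>] 0) (𝓝 (ε * ‖z‖)) := by
    have hc : Continuous fun y : ℝ => ε * ‖z - (y : ℂ) * I‖ := by fun_prop
    have := hc.tendsto 0
    simp only [ofReal_zero, zero_mul, sub_zero] at this
    exact this.mono_left nhdsWithin_le_nhds
  have hlim2 : Tendsto (fun y : ℝ => ‖(G (u + z) - h1 * z) - F y‖) (𝓝[>] 0)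
      (𝓝 ‖(G (u + z) - h1 * z) - h0‖) := ((tendsto_const_nhds).sub hh0).norm
  have hle := le_of_tendsto_of_tendsto hlim2 hlim (by
    filter_upwards [Ioo_mem_nhdsGT hδ] with y hy
    have hy1 : ((y : ℂ) * I) ∈ Sec (min κ 1) δ := by
      have := hsecy δ hδ y hy
      refine ⟨le_trans ?_ this.1, this.2⟩
      exact mul_le_mul_of_nonneg_right (min_le_right _ _) (norm_nonneg _)
    exact h z hz' _ hy1)
  have e : G (u + z) - h0 - h1 * z = (G (u + z) - h1 * z) - h0 := by ring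
  rw [e]; exact hle

/-- Harnack (Borel-Caratheodory) for the derivative in thin sectors: logarithmic growth -/
theorem thin_sector {G : ℂ → ℂ} {u ρ : ℝ} (hρ : 0 < ρ)
    (hG : DifferentiableOn ℂ G (ball (u : ℂ) ρ ∩ {z : ℂ | 0 < z.im}))
    (hre : ∀ z ∈ ball (u : ℂ) ρ ∩ {z : ℂ | 0 < z.im}, (deriv G z).re ≤ 0) {h0 h1 : ℂ}
    (hder : ∀ κ > 0, ∀ ε > 0, ∃ δ > 0, ∀ z ∈ Sec κ δ, ‖deriv G (u + z) - h1‖ ≤ ε)
    (hexp : ∀ κ > 0, ∀ ε > 0, ∃ δ > 0, ∀ z ∈ Sec κ δ, ‖G (u + z) - h0 - h1 * z‖ ≤ ε * ‖z‖) :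
    ∃ C > 0, ∃ δ > 0, ∀ z : ℂ, 0 < z.im → ‖z‖ < δ →
      ‖G (u + z) - h0‖ ≤ C * ‖z‖ * (1 + Real.log (‖z‖ / z.im)) := by
  obtain ⟨δ1, hδ1, hd1⟩ := hder (1 / 2) (by norm_num) 1 one_pos
  obtain ⟨δ2, hδ2, hd2⟩ := hexp (1 / 2) (by norm_num) 1 one_pos
  set W : Set ℂ := ball (u : ℂ) ρ ∩ {z : ℂ | 0 < z.im} with hW
  have hWo : IsOpen W := isOpen_ball.inter (isOpen_lt continuous_const Complex.continuous_im)
  set A : ℝ := ‖h1‖ + 1 with hA
  have hA1 : 1 ≤ A := by rw [hA]; linarith [norm_nonneg h1]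
  set δ : ℝ := min (min δ1 δ2 / 2) (ρ / 3) with hδ
  have hδ0 : 0 < δ := by positivity
  have hδδ1 : 2 * δ ≤ δ1 := by
    have a1 : δ ≤ min δ1 δ2 / 2 := min_le_left _ _
    have a2 : min δ1 δ2 ≤ δ1 := min_le_left _ _
    linarith
  have hδδ2 : 2 * δ ≤ δ2 := by
    have a1 : δ ≤ min δ1 δ2 / 2 := min_le_left _ _
    have a2 : min δ1 δ2 ≤ δ2 := min_le_right _ _
    linarith
  have hδρ : 3 * δ ≤ ρ := by
    have a1 : δ ≤ ρ / 3 := min_le_right _ _
    linarith
  refine ⟨2 * (1 + A), by positivity, δ, hδ0, fun z hz hzδ => ?_⟩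
  set r : ℝ := ‖z‖ with hr
  have hyr : z.im ≤ r := (le_abs_self _).trans (Complex.abs_im_le_norm z)
  have hr0 : 0 < r := lt_of_lt_of_le hz hyr
  have hlog : 0 ≤ Real.log (r / z.im) := Real.log_nonneg (by
    rw [le_div_iff₀ hz]; linarith)
  have hsec : ∀ w : ℂ, 1 / 2 * ‖w‖ ≤ w.im → 0 < w.im → ‖w‖ < 2 * δ →
      ‖G (u + w) - h0‖ ≤ A * ‖w‖ := by
    intro w hw1 hw2 hw3
    have b1 := hd2 w ⟨hw1, hw2, hw3.trans_le hδδ2⟩
    have b2 : G (u + w) - h0 = (G (u + w) - h0 - h1 * w) + h1 * w := by ring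
    rw [b2]
    refine (norm_add_le _ _).trans ?_
    rw [norm_mul, hA]
    linarith
  by_cases hcase : r / 2 ≤ z.im
  · have b1 := hsec z (by rw [← hr]; linarith) hz (by rw [← hr]; linarith)
    refine b1.trans ?_
    rw [← hr]
    have b2 : A * r ≤ 2 * (1 + A) * r := by nlinarith
    have b3 : 2 * (1 + A) * r ≤ 2 * (1 + A) * r * (1 + Real.log (r / z.im)) :=
      le_mul_of_one_le_right (by positivity) (by linarith)
    exact b2.trans b3
  push Not at hcase
  have hxr : |z.re| ≤ r := Complex.abs_re_le_norm z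
  -- the point `c = x + i r`
  set c : ℂ := (z.re : ℂ) + (r : ℂ) * I with hc
  have hcim : c.im = r := imab _ _
  have hcre : c.re = z.re := reab _ _
  have hcn : ‖c‖ ≤ 2 * r := by
    have := Complex.norm_le_abs_re_add_abs_im c
    rw [hcim, hcre, abs_of_pos hr0] at this
    linarith
  have hc1 : 1 / 2 * ‖c‖ ≤ c.im := by rw [hcim]; linarith
  have hc2 : 0 < c.im := by rw [hcim]; exact hr0
  have hc3 : ‖c‖ < 2 * δ := by linarith
  have hcG := hsec c hc1 hc2 hc3
  have hcd : ‖deriv G (u + c)‖ ≤ A := by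
    have b1 := hd1 c ⟨hc1, hc2, hc3.trans_le hδδ1⟩
    have b2 : deriv G (u + c) = (deriv G (u + c) - h1) + h1 := by ring
    rw [b2]
    refine (norm_add_le _ _).trans ?_
    rw [hA]; linarith
  have hballW : ∀ ζ ∈ ball (0 : ℂ) r, (u : ℂ) + c + ζ ∈ W := by
    intro ζ hζ
    rw [mem_ball_zero_iff] at hζ
    constructor
    · rw [mem_ball, dist_eq_norm]
      have : (u : ℂ) + c + ζ - u = c + ζ := by ring
      rw [this]
      have := norm_add_le c ζ
      linarith
    · have b1 : ((u : ℂ) + c + ζ).im = r + ζ.im := by simp [hcim]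
      change 0 < ((u : ℂ) + c + ζ).im
      rw [b1]
      have := (abs_le.1 (Complex.abs_im_le_norm ζ)).1
      linarith
  have hfd : DifferentiableOn ℂ (fun ζ => deriv G (u + c + ζ)) (ball (0 : ℂ) r) := by
    intro ζ hζ
    have b1 : DifferentiableAt ℂ (deriv G) (u + c + ζ) :=
      ((hG.deriv hWo).differentiableAt (hWo.mem_nhds (hballW ζ hζ)))
    exact (b1.comp ζ (by fun_prop : DifferentiableAt ℂ (fun ζ : ℂ => (u : ℂ) + c + ζ) ζ)
      ).differentiableWithinAt
  have hBC : ∀ s ∈ Ioc (0 : ℝ) r, ‖deriv G (u + ((z.re : ℂ) + (s : ℂ) * I))‖ ≤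
      2 * (1 + A) * r / s := by
    intro s hs
    set ζ : ℂ := -(((r - s : ℝ) : ℂ) * I) with hζ
    have hζn : ‖ζ‖ = r - s := by
      rw [hζ, norm_neg, norm_mul, Complex.norm_I, mul_one, Complex.norm_real, Real.norm_eq_abs,
        abs_of_nonneg (by linarith [hs.2])]
    have hζb : ζ ∈ ball (0 : ℂ) r := by rw [mem_ball_zero_iff, hζn]; linarith [hs.1]
    have b1 := Complex.borelCaratheodory (f := fun ζ => deriv G (u + c + ζ)) (M := 1) one_pos hfd
      (fun x hx => by
        have := hre _ (hballW x hx)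
        change (deriv G (u + c + x)).re ≤ 1
        linarith) hr0 hζb
    have e1 : (u : ℂ) + c + ζ = u + ((z.re : ℂ) + (s : ℂ) * I) := by
      rw [hζ, hc]; push_cast; ring
    simp only [add_zero] at b1
    rw [e1, hζn] at b1
    have e2 : r - (r - s) = s := by ring
    rw [e2] at b1
    refine b1.trans ?_
    rw [← add_div]
    apply div_le_div_of_nonneg_right _ hs.1.le
    have b3 : ‖deriv G (u + c)‖ * (r + (r - s)) ≤ A * (2 * r) := by
      apply mul_le_mul hcd _ _ (by linarith)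
      · linarith [hs.1]
      · linarith [hs.2]
    have := hs.1
    nlinarith
  -- integrate along the vertical segment
  set L : ℝ := Real.log (r / z.im) with hL
  have hexpL : r * Real.exp (-L) = z.im := by
    rw [hL, Real.exp_neg, Real.exp_log (by positivity)]
    field_simp
  set φ : ℝ → ℂ := fun t => G (u + ((z.re : ℂ) + ((r * Real.exp (-t) : ℝ) : ℂ) * I)) with hφ
  have hmean : ‖φ L - φ 0‖ ≤ 2 * (1 + A) * r * ‖L - 0‖ := by
    apply Convex.norm_image_sub_le_of_norm_hasDerivWithin_le (s := Icc 0 L)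
      (f' := fun t => deriv G (u + ((z.re : ℂ) + ((r * Real.exp (-t) : ℝ) : ℂ) * I)) *
        (((-(r * Real.exp (-t)) : ℝ) : ℂ) * I))
    · intro t ht
      have hs0 : 0 < r * Real.exp (-t) := by positivity
      have hs1 : r * Real.exp (-t) ≤ r := by
        have : Real.exp (-t) ≤ 1 := Real.exp_le_one_iff.2 (by linarith [ht.1])
        nlinarith
      have hmem : (u : ℂ) + ((z.re : ℂ) + ((r * Real.exp (-t) : ℝ) : ℂ) * I) ∈ W := by
        constructor
        · rw [mem_ball, dist_eq_norm, add_sub_cancel_left]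
          have b2 := Complex.norm_le_abs_re_add_abs_im
            ((z.re : ℂ) + ((r * Real.exp (-t) : ℝ) : ℂ) * I)
          rw [reab, imab, abs_of_pos hs0] at b2
          linarith
        · change 0 < ((u : ℂ) + ((z.re : ℂ) + ((r * Real.exp (-t) : ℝ) : ℂ) * I)).im
          rw [Complex.add_im, imab]
          simpa using hs0
      have a1 := (hG.differentiableAt (hWo.mem_nhds hmem)).hasDerivAt
      have a2 : HasDerivAt (fun t : ℝ => (u : ℂ) + ((z.re : ℂ) +
          ((r * Real.exp (-t) : ℝ) : ℂ) * I)) (((-(r * Real.exp (-t)) : ℝ) : ℂ) * I) t := by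
        have b1 : HasDerivAt (fun t : ℝ => r * Real.exp (-t)) (-(r * Real.exp (-t))) t := by
          have := ((Real.hasDerivAt_exp (-t)).comp t (hasDerivAt_neg t)).const_mul r
          have e9 : r * (Real.exp (-t) * -1) = -(r * Real.exp (-t)) := by ring
          rw [e9] at this
          exact this
        exact ((b1.ofReal_comp.mul_const I).const_add (z.re : ℂ)).const_add (u : ℂ)
      have a3 := HasDerivAt.comp_of_eq t a1 a2 rfl
      exact a3.hasDerivWithinAt
    · intro t ht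
      have hs0 : 0 < r * Real.exp (-t) := by positivity
      have hs1 : r * Real.exp (-t) ≤ r := by
        have : Real.exp (-t) ≤ 1 := Real.exp_le_one_iff.2 (by linarith [ht.1])
        nlinarith
      have b1 := hBC _ ⟨hs0, hs1⟩
      rw [norm_mul, norm_mul, Complex.norm_I, mul_one, Complex.norm_real, Real.norm_eq_abs,
        abs_neg, abs_of_pos hs0]
      calc _ ≤ 2 * (1 + A) * r / (r * Real.exp (-t)) * (r * Real.exp (-t)) := by gcongr
        _ = 2 * (1 + A) * r := by field_simp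
    · exact convex_Icc 0 L
    · exact ⟨le_rfl, hlog⟩
    · exact ⟨hlog, le_rfl⟩
  have hφL : φ L = G (u + z) := by
    simp only [hφ, hexpL, Complex.re_add_im]
  have hφ0 : φ 0 = G (u + c) := by
    simp [hφ, hc]
  rw [hφL, hφ0, sub_zero, Real.norm_of_nonneg hlog] at hmean
  have e3 : G (u + z) - h0 = (G (u + z) - G (u + c)) + (G (u + c) - h0) := by ring
  rw [e3]
  refine (norm_add_le _ _).trans ?_
  have hb4 : ‖G (u + c) - h0‖ ≤ A * (2 * r) := hcG.trans (by gcongr)
  nlinarith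

end Crest.Agent.R102.Slope231
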