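import Crest.Agent.R102.Fatou_472

/-!
Row 102, T1-B (c) (helper845): a.e. nontangential limits of the derivative (`Re G' ≤ 0`) and
integration along cones.
-/

set_option autoImplicit false

open Set Metric Filter Topology MeasureTheory Complex

noncomputable section

namespace Crest.Agent.R102.Slope845

open Crest.Agent.R102.LP472 (Cone mem_Cone fatou_bounded lusin_privalov eventually_Cone)

theorem isOpen_hd (R : ℝ) : IsOpen (Metric.ball (0:ℂ) R ∩ {z | 0 < z.im}) :=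
  isOpen_ball.inter (isOpen_lt continuous_const Complex.continuous_im)

theorem cone_sub_hd {R x : ℝ} (hx : x ∈ Ioo (-R) R) {b : ℝ} (hb : 0 < b) :
    ∃ h > 0, Cone b h x ⊆ Metric.ball (0:ℂ) R ∩ {z | 0 < z.im} := by
  have h1 : ∀ᶠ z in 𝓝 (x : ℂ), z ∈ Metric.ball (0:ℂ) R := by
    refine isOpen_ball.mem_nhds ?_
    rw [mem_ball_zero_iff, Complex.norm_real, Real.norm_eq_abs]
    exact abs_lt.2 hx
  obtain ⟨δ, hδ, _, h2⟩ := eventually_Cone (x := x) (h := 1) hb one_pos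
    (nhdsWithin_le_nhds h1 : ∀ᶠ z in 𝓝[Cone b 1 x] (x : ℂ), z ∈ Metric.ball (0:ℂ) R)
  exact ⟨δ, hδ, fun z hz => ⟨h2 z hz, hz.1⟩⟩

theorem tendsto_vertical (x : ℝ) {b h : ℝ} (hb : 0 < b) (hh : 0 < h) :
    Tendsto (fun y : ℝ => (x : ℂ) + y * I) (𝓝[>] 0) (𝓝[Cone b h x] (x : ℂ)) := by
  have hcont : Tendsto (fun y : ℝ => (x : ℂ) + y * I) (𝓝 0) (𝓝 (x : ℂ)) := by
    have h1 : Continuous (fun y : ℝ => (x : ℂ) + y * I) := by fun_prop
    have := h1.tendsto 0
    simpa using this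
  refine tendsto_nhdsWithin_iff.2 ⟨hcont.mono_left nhdsWithin_le_nhds, ?_⟩
  filter_upwards [Ioo_mem_nhdsGT hh] with y hy
  rw [mem_Cone]
  have h1 : ((x : ℂ) + y * I).im = y := by simp
  have h2 : ((x : ℂ) + y * I).re = x := by simp
  rw [h1, h2, sub_self, abs_zero]
  exact ⟨hy.1, hy.2, mul_pos hb hy.1⟩

theorem cone_neBot (x : ℝ) {b h : ℝ} (hb : 0 < b) (hh : 0 < h) :
    (𝓝[Cone b h x] (x : ℂ)).NeBot :=
  (tendsto_vertical x hb hh).neBot

theorem convex_Cone (b h x : ℝ) : Convex ℝ (Cone b h x) := by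
  intro z hz w hw s t hs ht hst
  rw [mem_Cone] at hz hw ⊢
  have e1 : (s • z + t • w).im = s * z.im + t * w.im := by simp
  have e2 : (s • z + t • w).re - x = s * (z.re - x) + t * (w.re - x) := by
    have : (s • z + t • w).re = s * z.re + t * w.re := by simp
    rw [this]
    have : x = (s + t) * x := by rw [hst, one_mul]
    nth_rewrite 1 [this]; ring
  rw [e1, e2]
  rcases hs.lt_or_eq with hs0 | hs0
  · refine ⟨?_, ?_, ?_⟩
    · nlinarith [mul_pos hs0 hz.1, mul_nonneg ht hw.1.le]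
    · have h1 : s * z.im < s * h := mul_lt_mul_of_pos_left hz.2.1 hs0
      have h2 : t * w.im ≤ t * h := mul_le_mul_of_nonneg_left hw.2.1.le ht
      have h3 : s * h + t * h = h := by rw [← add_mul, hst, one_mul]
      linarith
    · calc |s * (z.re - x) + t * (w.re - x)| ≤ |s * (z.re - x)| + |t * (w.re - x)| := abs_add_le _ _
        _ = s * |z.re - x| + t * |w.re - x| := by
            rw [abs_mul, abs_mul, abs_of_nonneg hs, abs_of_nonneg ht]
        _ < s * (b * z.im) + t * (b * w.im) :=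
            add_lt_add_of_lt_of_le (mul_lt_mul_of_pos_left hz.2.2 hs0)
              (mul_le_mul_of_nonneg_left hw.2.2.le ht)
        _ = b * (s * z.im + t * w.im) := by ring
  · have ht1 : t = 1 := by rw [← hs0] at hst; linarith
    rw [← hs0, ht1]
    simpa using hw

theorem ae_ntlim {R : ℝ} {G : ℂ → ℂ}
    (hG : DifferentiableOn ℂ G (Metric.ball (0:ℂ) R ∩ {z | 0 < z.im}))
    (hre : ∀ z ∈ (Metric.ball (0:ℂ) R ∩ {z | 0 < z.im}), (deriv G z).re ≤ 0) :
    ∀ᵐ u : ℝ, u ∈ Ioo (-R) R → ∃ c : ℂ, c.re ≤ 0 ∧ ∀ b > 0, ∃ h > 0,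
      Cone b h u ⊆ (Metric.ball (0:ℂ) R ∩ {z | 0 < z.im}) ∧
      Tendsto (deriv G) (𝓝[Cone b h u] (u:ℂ)) (𝓝 c) := by
  set W : Set ℂ := Metric.ball (0:ℂ) R ∩ {z | 0 < z.im} with hW
  have hWo : IsOpen W := isOpen_hd R
  set g : ℂ → ℂ := fun z => (1 - deriv G z)⁻¹ with hg
  have hne1 : ∀ z ∈ W, 1 ≤ ‖1 - deriv G z‖ := by
    intro z hz
    have h1 := Complex.re_le_norm (1 - deriv G z)
    have h2 := hre z hz
    simp only [Complex.sub_re, Complex.one_re] at h1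
    linarith
  have hne : ∀ z ∈ W, 1 - deriv G z ≠ 0 := fun z hz h0 => by
    have := hne1 z hz
    rw [h0, norm_zero] at this
    linarith
  have hdG : DifferentiableOn ℂ (deriv G) W := hG.deriv hWo
  have hgd : DifferentiableOn ℂ g W := by
    have h1 : DifferentiableOn ℂ (fun z => 1 - deriv G z) W :=
      (differentiableOn_const 1).sub hdG
    exact h1.inv hne
  have hgb : ∀ z ∈ W, ‖g z‖ ≤ 1 := by
    intro z hz
    rw [hg]
    simp only [norm_inv]
    exact inv_le_one_of_one_le₀ (hne1 z hz)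
  have hF := fatou_bounded hWo hgd hgb one_pos (E := Ioo (-R) R)
    (fun x hx => cone_sub_hd hx one_pos)
  set Z : Set ℝ := {x | ∃ h > 0, Cone 1 h x ⊆ W ∧ Tendsto g (𝓝[Cone 1 h x] (x : ℂ)) (𝓝 0)} with hZ
  have hZ0 : volume Z = 0 := by
    by_contra hcon
    obtain ⟨z, hz, h1⟩ := lusin_privalov hWo hgd one_pos hcon (fun x hx => hx)
    have h2 : g z = 0 := h1.eq_of_nhds
    rw [hg] at h2
    exact hne z hz (inv_eq_zero.1 h2)
  have hZae : ∀ᵐ x : ℝ, x ∉ Z := measure_eq_zero_iff_ae_notMem.1 hZ0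
  filter_upwards [hF, hZae] with x hx hxZ hxI
  obtain ⟨l, hl⟩ := hx hxI
  have hl0 : l ≠ 0 := by
    intro h0
    obtain ⟨h, hh, h1, h2⟩ := hl 1 one_pos
    rw [h0] at h2
    exact hxZ ⟨h, hh, h1, h2⟩
  have hder : ∀ b > 0, ∃ h > 0, Cone b h x ⊆ W ∧
      Tendsto (deriv G) (𝓝[Cone b h x] (x:ℂ)) (𝓝 (1 - l⁻¹)) := by
    intro b hb
    obtain ⟨h, hh, h1, h2⟩ := hl b hb
    refine ⟨h, hh, h1, ?_⟩
    have h3 : Tendsto (fun z => 1 - (g z)⁻¹) (𝓝[Cone b h x] (x:ℂ)) (𝓝 (1 - l⁻¹)) :=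
      (h2.inv₀ hl0).const_sub 1
    refine h3.congr' ?_
    filter_upwards [self_mem_nhdsWithin] with z hz
    rw [hg]
    simp
  refine ⟨1 - l⁻¹, ?_, hder⟩
  obtain ⟨h, hh, h1, h2⟩ := hder 1 one_pos
  have hnb := cone_neBot x (b := 1) one_pos hh
  have h3 : Tendsto (fun z => (deriv G z).re) (𝓝[Cone 1 h x] (x:ℂ)) (𝓝 (1 - l⁻¹).re) :=
    (Complex.continuous_re.tendsto _).comp h2
  refine le_of_tendsto h3 ?_
  filter_upwards [self_mem_nhdsWithin] with z hz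
  exact hre z (h1 hz)

theorem int_cone {R : ℝ} {G : ℂ → ℂ}
    (hG : DifferentiableOn ℂ G (Metric.ball (0:ℂ) R ∩ {z | 0 < z.im})) {u v : ℝ} {c : ℂ}
    (hlim : ∀ b > 0, ∃ h > 0, Cone b h u ⊆ (Metric.ball (0:ℂ) R ∩ {z | 0 < z.im}) ∧
      Tendsto (deriv G) (𝓝[Cone b h u] (u:ℂ)) (𝓝 c))
    (hv : Tendsto (fun y : ℝ => (G (u + y * I)).im) (𝓝[>] 0) (𝓝 v)) :
    ∀ κ > 0, ∀ ε > 0, ∃ δ > 0, ∀ z : ℂ, ‖z‖ < δ → 0 < z.im → κ * ‖z‖ ≤ z.im →
      (u:ℂ) + z ∈ (Metric.ball (0:ℂ) R ∩ {z | 0 < z.im}) ∧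
      |(G (u+z)).im - v - c.im * z.re - c.re * z.im| ≤ ε * ‖z‖ ∧ ‖deriv G (u+z) - c‖ ≤ ε := by
  intro κ hκ ε hε
  set W : Set ℂ := Metric.ball (0:ℂ) R ∩ {z | 0 < z.im} with hW
  have hWo : IsOpen W := isOpen_hd R
  set b : ℝ := 1 / κ + 1 with hb
  have hb0 : 0 < b := by positivity
  obtain ⟨h, hh, h1, h2⟩ := hlim b hb0
  have h3 : ∀ᶠ z in 𝓝[Cone b h u] (u:ℂ), ‖deriv G z - c‖ < ε := by
    have := (tendsto_iff_norm_sub_tendsto_zero.1 h2).eventually (gt_mem_nhds hε)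
    exact this
  obtain ⟨δ, hδ, hδh, h4⟩ := eventually_Cone hb0 hh h3
  have hsub : Cone b δ u ⊆ W := (LP472.Cone_mono hδh).trans h1
  have hf : ∀ w ∈ Cone b δ u, HasDerivWithinAt (fun w => G w - c * w) (deriv G w - c)
      (Cone b δ u) w := by
    intro w hw
    have h5 : HasDerivAt G (deriv G w) w :=
      ((hG w (hsub hw)).differentiableAt (hWo.mem_nhds (hsub hw))).hasDerivAt
    have h6 : HasDerivAt (fun w : ℂ => c * w) c w := by
      simpa using (hasDerivAt_id w).const_mul c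
    exact (h5.sub h6).hasDerivWithinAt
  have hlip : ∀ w ∈ Cone b δ u, ∀ w' ∈ Cone b δ u,
      ‖(G w - c * w) - (G w' - c * w')‖ ≤ ε * ‖w - w'‖ := fun w hw w' hw' =>
    (convex_Cone b δ u).norm_image_sub_le_of_norm_hasDerivWithin_le hf
      (fun x hx => (h4 x hx).le) hw' hw
  refine ⟨δ, hδ, fun z hz hz0 hzk => ?_⟩
  have hwC : (u : ℂ) + z ∈ Cone b δ u := by
    rw [mem_Cone]
    have e1 : ((u : ℂ) + z).im = z.im := by simp
    have e2 : ((u : ℂ) + z).re - u = z.re := by simp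
    rw [e1, e2]
    refine ⟨hz0, ?_, ?_⟩
    · have := Complex.abs_im_le_norm z
      rw [abs_of_pos hz0] at this
      linarith
    · have h5 := Complex.abs_re_le_norm z
      have h6 : ‖z‖ ≤ 1 / κ * z.im := by
        rw [div_mul_eq_mul_div, le_div_iff₀ hκ, one_mul]; linarith
      have h7 : b * z.im = 1 / κ * z.im + z.im := by rw [hb]; ring
      linarith
  refine ⟨hsub hwC, ?_, (h4 _ hwC).le⟩
  have h5 : ∀ᶠ y : ℝ in 𝓝[>] 0, |(G (u+z)).im - (G (u + y * I)).im - c.im * z.re - c.re * z.im +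
      c.re * y| ≤ ε * ‖z - y * I‖ := by
    have h6 : ∀ᶠ y : ℝ in 𝓝[>] 0, (u : ℂ) + y * I ∈ Cone b δ u :=
      (tendsto_vertical u hb0 hδ).eventually self_mem_nhdsWithin
    filter_upwards [h6] with y hy
    have h7 := hlip _ hwC _ hy
    have h8 := (Complex.abs_im_le_norm _).trans h7
    have e1 : ((u : ℂ) + z) - (u + y * I) = z - y * I := by ring
    rw [e1] at h8
    have e2 : ((G (u + z) - c * (u + z)) - (G (u + y * I) - c * (u + y * I))).im =
        (G (u+z)).im - (G (u + y * I)).im - c.im * z.re - c.re * z.im + c.re * y := by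
      simp only [Complex.sub_im, Complex.mul_im, Complex.add_im, Complex.add_re, Complex.ofReal_re,
        Complex.ofReal_im, Complex.mul_re, Complex.I_re, Complex.I_im]
      ring
    rw [e2] at h8
    exact h8
  have h6 : Tendsto (fun y : ℝ => |(G (u+z)).im - (G (u + y * I)).im - c.im * z.re - c.re * z.im +
      c.re * y|) (𝓝[>] 0) (𝓝 |(G (u+z)).im - v - c.im * z.re - c.re * z.im + c.re * 0|) := by
    have h7 : Tendsto (fun y : ℝ => c.re * y) (𝓝[>] 0) (𝓝 (c.re * 0)) := by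
      have : Continuous (fun y : ℝ => c.re * y) := by fun_prop
      exact (this.tendsto 0).mono_left nhdsWithin_le_nhds
    exact ((((hv.const_sub _).sub_const _).sub_const _).add h7).abs
  have h7 : Tendsto (fun y : ℝ => ε * ‖z - y * I‖) (𝓝[>] 0) (𝓝 (ε * ‖z - ((0:ℝ):ℂ) * I‖)) := by
    have : Continuous (fun y : ℝ => ε * ‖z - y * I‖) := by fun_prop
    exact (this.tendsto 0).mono_left nhdsWithin_le_nhds
  have h8 := le_of_tendsto_of_tendsto h6 h7 h5
  simpa using h8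

end Crest.Agent.R102.Slope845
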