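import Crest.Agent.R102.SlopeB_845
import Crest.Agent.R102.SlopeI_845

/-!
Row 102, T1-B (c) (helper845): a.e. slope expansion of a bounded superharmonic function at real
points, with the exact harmonic shift `Im G`.
-/

set_option autoImplicit false

open Set Filter Topology Metric Complex MeasureTheory
open scoped Real ComplexConjugate

noncomputable section

namespace Crest.Agent.R102.Slope845

open Crest.Agent.R102.SH712 (NT)
open Crest.Agent.R102.LP472 (Cone)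
open Crest.Agent.R102.SlopeK (HD)

/-- the conclusion at a single real point `u` -/
def Expn (G : ℂ → ℂ) (V : ℂ → ℝ) (u α β : ℝ) : Prop :=
  β ≤ 0 ∧
  (∀ κ > 0, ∀ ε > 0, ∃ δ > 0, ∀ z : ℂ, ‖z‖ < δ → 0 < z.im → κ * ‖z‖ ≤ z.im →
    |(G (u + z)).im - V u - α * z.re - β * z.im| ≤ ε * ‖z‖ ∧
    ‖deriv G (u + z) - (β + I * α)‖ ≤ ε) ∧
  (∀ ε > 0, ∃ δ > 0, ∀ z : ℂ, ‖z‖ < δ → 0 < z.im →
    V u + α * z.re + β * z.im - ε * ‖z‖ ≤ (G (u + z)).im) ∧
  (∀ ε > 0, ∃ δ > 0, ∀ z : ℂ, ‖z‖ < δ →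
    V u + α * z.re + β * |z.im| - ε * ‖z‖ ≤ V (u + z))

/-- the deterministic part: from the cone expansion to the tangential bounds -/
theorem expn_of_cone {R : ℝ} {V : ℂ → ℝ} {G : ℂ → ℂ} {u : ℝ} (hu : u ∈ Ioo (-R) R)
    (hle : ∀ z ∈ HD R, (G z).im ≤ V z) (hle' : ∀ z ∈ HD R, (G z).im ≤ V (conj z))
    (hmono : ∀ x y1 y2 : ℝ, 0 < y1 → y1 ≤ y2 → (x : ℂ) + y2 * I ∈ HD R →
      (G (x + y2 * I)).im ≤ (G (x + y1 * I)).im)
    (hreal : ∀ x y : ℝ, 0 < y → (x : ℂ) + y * I ∈ HD R → (G (x + y * I)).im ≤ V x)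
    {c : ℂ} (hc : c.re ≤ 0)
    (hcone : ∀ κ > 0, ∀ ε > 0, ∃ δ > 0, ∀ z : ℂ, ‖z‖ < δ → 0 < z.im → κ * ‖z‖ ≤ z.im →
      (u : ℂ) + z ∈ HD R ∧ |(G (u + z)).im - V u - c.im * z.re - c.re * z.im| ≤ ε * ‖z‖ ∧
      ‖deriv G (u + z) - c‖ ≤ ε) :
    Expn G V u c.im c.re := by
  have hcc : (c.re : ℂ) + I * c.im = c := by
    rw [mul_comm]; exact Complex.re_add_im c
  have hR0 : |u| < R := abs_lt.2 hu
  have hHDu : ∀ z : ℂ, ‖z‖ < R - |u| → 0 < z.im → (u : ℂ) + z ∈ HD R := by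
    intro z hz hz0
    refine mem_HD.2 ⟨?_, by simpa using hz0⟩
    calc ‖(u : ℂ) + z‖ ≤ ‖(u : ℂ)‖ + ‖z‖ := norm_add_le _ _
      _ = |u| + ‖z‖ := by rw [Complex.norm_real, Real.norm_eq_abs]
      _ < R := by linarith
  -- (ii)
  have h2 : ∀ ε > 0, ∃ δ > 0, δ ≤ R - |u| ∧ ∀ z : ℂ, ‖z‖ < δ → 0 < z.im →
      V u + c.im * z.re + c.re * z.im - ε * ‖z‖ ≤ (G (u + z)).im := by
    intro ε hε
    set κ : ℝ := min (1 / 2) (ε / (4 * (|c.re| + 1))) with hκ
    have hκ0 : 0 < κ := by positivity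
    have hκ1 : κ ≤ 1 / 2 := min_le_left _ _
    have hκ2 : |c.re| * κ ≤ ε / 4 := by
      have h1 : κ ≤ ε / (4 * (|c.re| + 1)) := min_le_right _ _
      have h2 : 0 ≤ |c.re| := abs_nonneg _
      calc |c.re| * κ ≤ (|c.re| + 1) * (ε / (4 * (|c.re| + 1))) := by gcongr; linarith
        _ = ε / 4 := by field_simp
    obtain ⟨δ, hδ, hδc⟩ := hcone (κ / 2) (by positivity) (ε / 4) (by positivity)
    refine ⟨min (δ / 2) (R - |u|), by
      have : 0 < R - |u| := by linarith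
      positivity, min_le_right _ _, ?_⟩
    intro z hz hz0
    have hzδ : ‖z‖ < δ / 2 := hz.trans_le (min_le_left _ _)
    have hzR : ‖z‖ < R - |u| := hz.trans_le (min_le_right _ _)
    have hn0 := norm_nonneg z
    by_cases hcase : κ * ‖z‖ ≤ z.im
    · obtain ⟨_, h4, _⟩ := hδc z (by linarith) hz0 (by nlinarith)
      have h5 := (abs_le.1 h4).1
      nlinarith
    · push Not at hcase
      -- lift the point to height κ * ‖z‖
      set y : ℝ := κ * ‖z‖ with hy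
      have hzpos : 0 < ‖z‖ := by
        have := Complex.abs_im_le_norm z
        rw [abs_of_pos hz0] at this
        linarith
      have hy0 : 0 < y := by positivity
      set w : ℂ := (z.re : ℂ) + y * I with hw
      have hwre : w.re = z.re := by simp [hw]
      have hwim : w.im = y := by simp [hw]
      have hwn : ‖w‖ ≤ ‖z‖ + κ * ‖z‖ := by
        calc ‖w‖ ≤ ‖(z.re : ℂ)‖ + ‖(y : ℂ) * I‖ := norm_add_le _ _
          _ = |z.re| + y := by
              rw [Complex.norm_real, norm_mul, Complex.norm_real, Complex.norm_I, mul_one,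
                Real.norm_eq_abs, Real.norm_eq_abs, abs_of_pos hy0]
          _ ≤ ‖z‖ + κ * ‖z‖ := by
              have := Complex.abs_re_le_norm z
              linarith
      have hwn2 : ‖w‖ ≤ 2 * ‖z‖ := by nlinarith
      have hwδ : ‖w‖ < δ := by linarith
      obtain ⟨h3, h4, _⟩ := hδc w hwδ (by rw [hwim]; exact hy0) (by rw [hwim]; nlinarith)
      have h5 := (abs_le.1 h4).1
      rw [hwre, hwim] at h5
      have e1 : (u : ℂ) + w = ((u + z.re : ℝ) : ℂ) + y * I := by rw [hw]; push_cast; ring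
      have e2 : (u : ℂ) + z = ((u + z.re : ℝ) : ℂ) + z.im * I := by
        apply Complex.ext <;> simp
      have h6 := hmono (u + z.re) z.im y hz0 hcase.le (by rw [← e1]; exact h3)
      rw [← e1, ← e2] at h6
      have h7 : -(ε / 4) * ‖z‖ ≤ c.re * y := by
        have : -(|c.re| * κ) ≤ c.re * κ := by
          have := neg_abs_le c.re
          nlinarith
        rw [hy, ← mul_assoc]
        have h8 : -(ε / 4) ≤ c.re * κ := by linarith
        exact mul_le_mul_of_nonneg_right h8 hn0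
      have h8 : c.re * z.im ≤ 0 := mul_nonpos_of_nonpos_of_nonneg hc hz0.le
      nlinarith
  refine ⟨hc, ?_, ?_, ?_⟩
  · intro κ hκ ε hε
    obtain ⟨δ, hδ, h⟩ := hcone κ hκ ε hε
    refine ⟨δ, hδ, fun z hz hz0 hzk => ?_⟩
    rw [hcc]
    exact (h z hz hz0 hzk).2
  · intro ε hε
    obtain ⟨δ, hδ, _, h⟩ := h2 ε hε
    exact ⟨δ, hδ, h⟩
  · intro ε hε
    obtain ⟨δ, hδ, hδR, h⟩ := h2 ε hε
    refine ⟨δ, hδ, fun z hz => ?_⟩
    rcases lt_trichotomy z.im 0 with hz0 | hz0 | hz0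
    · -- below
      have hz' : ‖conj z‖ < δ := by rwa [Complex.norm_conj]
      have hzi : 0 < (conj z).im := by simpa using hz0
      have h3 := h (conj z) hz' hzi
      have h4 := hle' _ (hHDu (conj z) (hz'.trans_le hδR) hzi)
      have e1 : conj ((u : ℂ) + conj z) = u + z := by simp
      rw [e1] at h4
      rw [Complex.conj_re, Complex.conj_im, Complex.norm_conj] at h3
      rw [abs_of_neg hz0]
      exact h3.trans h4
    · -- real
      have ez : z = (z.re : ℂ) := Complex.ext (by simp) (by simpa using hz0)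
      set x := z.re with hx
      rw [hz0, abs_zero, mul_zero, add_zero, ez, Complex.norm_real, Real.norm_eq_abs]
      rw [ez, Complex.norm_real, Real.norm_eq_abs] at hz
      have hcont : Tendsto (fun y : ℝ => V u + c.im * x + c.re * y - ε * ‖(x : ℂ) + y * I‖)
          (𝓝[>] 0) (𝓝 (V u + c.im * x + c.re * 0 - ε * ‖(x : ℂ) + ((0 : ℝ) : ℂ) * I‖)) := by
        have : Continuous (fun y : ℝ => V u + c.im * x + c.re * y - ε * ‖(x : ℂ) + y * I‖) := by
          fun_prop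
        exact (this.tendsto 0).mono_left nhdsWithin_le_nhds
      have e2 : V u + c.im * x + c.re * 0 - ε * ‖(x : ℂ) + ((0 : ℝ) : ℂ) * I‖ =
          V u + c.im * x - ε * |x| := by
        simp
      rw [e2] at hcont
      refine le_of_tendsto hcont ?_
      have hn : Tendsto (fun y : ℝ => ‖(x : ℂ) + y * I‖) (𝓝 0) (𝓝 |x|) := by
        have h5 : Continuous (fun y : ℝ => ‖(x : ℂ) + y * I‖) := by fun_prop
        have := h5.tendsto 0
        simpa using this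
      filter_upwards [nhdsWithin_le_nhds (hn.eventually (gt_mem_nhds hz)), self_mem_nhdsWithin]
        with y hy1 hy2
      have hy0 : 0 < y := hy2
      have h6 := h ((x : ℂ) + y * I) hy1 (by simpa using hy0)
      have h7 : ((x : ℂ) + y * I).re = x := by simp
      have h8 : ((x : ℂ) + y * I).im = y := by simp
      rw [h7, h8] at h6
      have e3 : (u : ℂ) + ((x : ℂ) + y * I) = ((u + x : ℝ) : ℂ) + y * I := by push_cast; ring
      have h9 := hHDu ((x : ℂ) + y * I) (hy1.trans_le hδR) (by rw [h8]; exact hy0)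
      rw [e3] at h9 h6
      have h10 := hreal (u + x) y hy0 h9
      have e4 : ((u + x : ℝ) : ℂ) = (u : ℂ) + (x : ℂ) := by push_cast; ring
      rw [e4] at h10 h6
      exact h6.trans h10
    · -- above
      have h3 := h z hz hz0
      have h4 := hle _ (hHDu z (hz.trans_le hδR) hz0)
      rw [abs_of_pos hz0]
      exact h3.trans h4

/-- the theorem for a disc centred at `0`, local test form -/
theorem slope0 {R M : ℝ} (hR : 0 < R) {V : ℂ → ℝ} (hl : LowerSemicontinuousOn V (ball 0 R))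
    (hNT : NT V (ball 0 R)) (hb : ∀ w ∈ ball (0 : ℂ) R, 0 ≤ V w ∧ V w ≤ M) :
    ∃ G : ℂ → ℂ, DifferentiableOn ℂ G (HD R) ∧
      (∀ w ∈ HD R, 0 ≤ (G w).im ∧ (G w).im ≤ M ∧ (G w).im ≤ V w ∧ (G w).im ≤ V (conj w) ∧
        (deriv G w).re ≤ 0) ∧
      (∀ x y1 y2 : ℝ, 0 < y1 → y1 ≤ y2 → (x : ℂ) + y2 * I ∈ HD R →
        (G (x + y2 * I)).im ≤ (G (x + y1 * I)).im) ∧
      (∀ x y : ℝ, 0 < y → (x : ℂ) + y * I ∈ HD R → (G (x + y * I)).im ≤ V x) ∧
      (∀ u ∈ Ioo (-R) R, Tendsto (fun y : ℝ => (G (u + y * I)).im) (𝓝[>] 0) (𝓝 (V u))) ∧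
      ∀ᵐ u : ℝ, u ∈ Ioo (-R) R → ∃ α β : ℝ, Expn G V u α β := by
  have hM : 0 ≤ M := by
    have := hb 0 (mem_ball_self hR)
    exact this.1.trans this.2
  have hmeas := (Fr_lsc hb hl).measurable
  have hFa := Fr_abs hM hb
  have hdiff : DifferentiableOn ℂ (SlopeK.G R (Fr R V)) (HD R) := SlopeK.G_diff hR hmeas hFa
  have hd := deriv_re_nonpos hR hM hb hl hNT
  have hge := V_ge hR hM hb hl hNT
  have hge' := V_ge_conj hR hM hb hl hNT
  have hv : ∀ u ∈ Ioo (-R) R,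
      Tendsto (fun y : ℝ => (SlopeK.G R (Fr R V) (u + y * I)).im) (𝓝[>] 0) (𝓝 (V u)) :=
    fun u hu => tendsto_vert hR hM hb hl hNT hu
  have hmono : ∀ x y1 y2 : ℝ, 0 < y1 → y1 ≤ y2 → (x : ℂ) + y2 * I ∈ HD R →
      (SlopeK.G R (Fr R V) (x + y2 * I)).im ≤ (SlopeK.G R (Fr R V) (x + y1 * I)).im := by
    intro x y1 y2 h1 h12 hz
    have h2 := EE_mono hR hM hb hl hNT (x := x) h1.le h12 (mem_ball_zero_iff.2 (mem_HD.1 hz).1)
    rwa [EE_pos (mem_HD.1 hz).2, EE_pos (by simpa using h1)] at h2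
  have hreal : ∀ x y : ℝ, 0 < y → (x : ℂ) + y * I ∈ HD R →
      (SlopeK.G R (Fr R V) (x + y * I)).im ≤ V x := by
    intro x y h1 hz
    have h2 := EE_mono hR hM hb hl hNT (x := x) le_rfl h1.le (mem_ball_zero_iff.2 (mem_HD.1 hz).1)
    rw [EE_pos (mem_HD.1 hz).2] at h2
    refine h2.trans_eq ?_
    have hx : x ∈ Ioo (-R) R := by
      rw [← mem_ball_real, mem_ball_zero_iff, Complex.norm_real, Real.norm_eq_abs]
      have h3 := Complex.abs_re_le_norm ((x : ℂ) + y * I)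
      have h4 : ((x : ℂ) + y * I).re = x := by simp
      rw [h4] at h3
      exact h3.trans_lt (mem_HD.1 hz).1
    have h5 : (x : ℂ) + ((0 : ℝ) : ℂ) * I = x := by simp
    rw [h5, EE_real, Fr_of_mem hx]
  refine ⟨SlopeK.G R (Fr R V), hdiff, fun w hw =>
    ⟨SlopeK.G_im_nonneg hR hmeas (Fr_nonneg hb) hw,
      SlopeK.G_im_le hR hmeas (Fr_nonneg hb) (Fr_le hM hb) hw, hge w hw, hge' w hw, hd w hw⟩,
    hmono, hreal, hv, ?_⟩
  filter_upwards [ae_ntlim hdiff hd] with u hu huI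
  obtain ⟨c, hc, hlim⟩ := hu huI
  exact ⟨c.im, c.re, expn_of_cone huI hge hge' hmono hreal hc
    (int_cone hdiff hlim (hv u huI))⟩

/-- the half disc with real centre `u0` -/
def HDc (u0 R : ℝ) : Set ℂ := ball (u0 : ℂ) R ∩ {z | 0 < z.im}

theorem mem_HDc {u0 R : ℝ} {z : ℂ} : z ∈ HDc u0 R ↔ z - u0 ∈ HD R := by
  unfold HDc
  rw [mem_HD, mem_inter_iff, mem_ball, dist_eq_norm]
  simp

/-- **slope theorem**, local test form -/
theorem slope_NT {u0 R M : ℝ} (hR : 0 < R) {V : ℂ → ℝ}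
    (hl : LowerSemicontinuousOn V (ball (u0 : ℂ) R)) (hNT : NT V (ball (u0 : ℂ) R))
    (hb : ∀ w ∈ ball (u0 : ℂ) R, 0 ≤ V w ∧ V w ≤ M) :
    ∃ G : ℂ → ℂ, DifferentiableOn ℂ G (HDc u0 R) ∧
      (∀ w ∈ HDc u0 R, 0 ≤ (G w).im ∧ (G w).im ≤ M ∧ (G w).im ≤ V w ∧ (G w).im ≤ V (conj w) ∧
        (deriv G w).re ≤ 0) ∧
      (∀ x y1 y2 : ℝ, 0 < y1 → y1 ≤ y2 → (x : ℂ) + y2 * I ∈ HDc u0 R →
        (G (x + y2 * I)).im ≤ (G (x + y1 * I)).im) ∧
      (∀ x y : ℝ, 0 < y → (x : ℂ) + y * I ∈ HDc u0 R → (G (x + y * I)).im ≤ V x) ∧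
      (∀ u ∈ Ioo (u0 - R) (u0 + R),
        Tendsto (fun y : ℝ => (G (u + y * I)).im) (𝓝[>] 0) (𝓝 (V u))) ∧
      ∀ᵐ u : ℝ, u ∈ Ioo (u0 - R) (u0 + R) → ∃ α β : ℝ, Expn G V u α β := by
  have hshift : ∀ z : ℂ, z ∈ ball (0 : ℂ) R ↔ z + u0 ∈ ball (u0 : ℂ) R := fun z => by
    rw [mem_ball_zero_iff, mem_ball, dist_eq_norm, add_sub_cancel_right]
  have hcs : Continuous (fun z : ℂ => z + u0) := by fun_prop
  have hl0 : LowerSemicontinuousOn (fun z => V (z + u0)) (ball 0 R) := by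
    intro z hz y hy
    have h1 := hl (z + u0) ((hshift z).1 hz) y hy
    have h2 : Tendsto (fun z : ℂ => z + u0) (𝓝[ball 0 R] z) (𝓝[ball (u0 : ℂ) R] (z + u0)) := by
      refine tendsto_nhdsWithin_iff.2 ⟨(hcs.tendsto z).mono_left nhdsWithin_le_nhds, ?_⟩
      filter_upwards [self_mem_nhdsWithin] with w hw
      exact (hshift w).1 hw
    exact h2.eventually h1
  have hNT0 : NT (fun z => V (z + u0)) (ball 0 R) := by
    have h1 := NT_comp_sub hNT (-(u0 : ℂ))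
    simp only [sub_neg_eq_add] at h1
    exact NT_mono h1 (fun z hz => (hshift z).1 hz)
  obtain ⟨G, g1, g2, g3, g4, g5, g6⟩ := slope0 hR hl0 hNT0 (fun w hw => hb _ ((hshift w).1 hw))
  have hderiv : ∀ w : ℂ, deriv (fun z => G (z - u0)) w = deriv G (w - u0) := fun w =>
    deriv_comp_sub_const (f := G) (a := (u0 : ℂ)) w
  refine ⟨fun z => G (z - u0), ?_, ?_, ?_, ?_, ?_, ?_⟩
  · refine DifferentiableOn.comp (t := HD R) g1 (by fun_prop) ?_
    intro z hz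
    exact mem_HDc.1 hz
  · intro w hw
    have h1 := g2 _ (mem_HDc.1 hw)
    have e1 : w - u0 + u0 = w := by ring
    have e2 : conj (w - u0) + u0 = conj w := by simp
    rw [e1, e2] at h1
    rw [hderiv]
    exact h1
  · intro x y1 y2 h1 h2 hz
    have e : ∀ y : ℝ, (x : ℂ) + y * I - u0 = ((x - u0 : ℝ) : ℂ) + y * I := fun y => by
      push_cast; ring
    have hz' := mem_HDc.1 hz
    simp only [e] at hz' ⊢
    exact g3 _ _ _ h1 h2 hz'
  · intro x y h1 hz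
    have e : ∀ y : ℝ, (x : ℂ) + y * I - u0 = ((x - u0 : ℝ) : ℂ) + y * I := fun y => by
      push_cast; ring
    have hz' := mem_HDc.1 hz
    simp only [e] at hz' ⊢
    have h2 := g4 _ _ h1 hz'
    have e3 : (((x - u0 : ℝ) : ℂ)) + u0 = x := by push_cast; ring
    rwa [e3] at h2
  · intro u hu
    have h2 := g5 (u - u0) ⟨by linarith [hu.1], by linarith [hu.2]⟩
    have e : ∀ y : ℝ, (u : ℂ) + y * I - u0 = ((u - u0 : ℝ) : ℂ) + y * I := fun y => by
      push_cast; ring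
    have e3 : (((u - u0 : ℝ) : ℂ)) + u0 = u := by push_cast; ring
    simp only [e]
    rwa [e3] at h2
  · have h1 : ∀ᵐ u : ℝ, u - u0 ∈ Ioo (-R) R →
        ∃ α β : ℝ, Expn G (fun z => V (z + u0)) (u - u0 : ℝ) α β :=
      (measurePreserving_sub_right volume u0).quasiMeasurePreserving.ae g6
    filter_upwards [h1] with u hu huI
    obtain ⟨α, β, h2, h3, h4, h5⟩ := hu ⟨by linarith [huI.1], by linarith [huI.2]⟩
    have e3 : (((u - u0 : ℝ) : ℂ)) + u0 = u := by push_cast; ring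
    have e4 : ∀ z : ℂ, (u : ℂ) + z - u0 = ((u - u0 : ℝ) : ℂ) + z := fun z => by push_cast; ring
    have e5 : ∀ z : ℂ, ((u - u0 : ℝ) : ℂ) + z + u0 = u + z := fun z => by push_cast; ring
    simp only [e3, e5] at h3 h4 h5
    refine ⟨α, β, h2, ?_, ?_, ?_⟩
    · simpa only [e4, hderiv] using h3
    · simpa only [e4] using h4
    · exact h5

/-- **slope theorem** (super mean value form) -/
theorem slope {u0 R M : ℝ} (hR : 0 < R) {V : ℂ → ℝ} (hV : SH (ball (u0 : ℂ) R) V)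
    (hb : ∀ w ∈ ball (u0 : ℂ) R, 0 ≤ V w ∧ V w ≤ M) :
    ∃ G : ℂ → ℂ, DifferentiableOn ℂ G (HDc u0 R) ∧
      (∀ w ∈ HDc u0 R, 0 ≤ (G w).im ∧ (G w).im ≤ M ∧ (G w).im ≤ V w ∧ (G w).im ≤ V (conj w) ∧
        (deriv G w).re ≤ 0) ∧
      (∀ x y1 y2 : ℝ, 0 < y1 → y1 ≤ y2 → (x : ℂ) + y2 * I ∈ HDc u0 R →
        (G (x + y2 * I)).im ≤ (G (x + y1 * I)).im) ∧
      (∀ x y : ℝ, 0 < y → (x : ℂ) + y * I ∈ HDc u0 R → (G (x + y * I)).im ≤ V x) ∧
      (∀ u ∈ Ioo (u0 - R) (u0 + R),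
        Tendsto (fun y : ℝ => (G (u + y * I)).im) (𝓝[>] 0) (𝓝 (V u))) ∧
      ∀ᵐ u : ℝ, u ∈ Ioo (u0 - R) (u0 + R) → ∃ α β : ℝ, Expn G V u α β :=
  slope_NT hR hV.1 (NT_of_SH hV) hb

end Crest.Agent.R102.Slope845
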