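import Crest.Agent.R102.LVC_669
import Crest.Agent.R102.Slope_845
import Crest.Agent.R102.SlopeF_231

/-!
Row 102, T1-B, joint `JN`: if no point of the first line `Im t = V u` belongs to `OmL` (hypothesis
(N) at the real parameter `u`), the local lower slopes of the heights of the sheared set
(`t' = t - G(u+z)`, `G` = exact harmonic shift of 845) are bounded.
-/

set_option autoImplicit false

open Set Filter Topology Metric Complex MeasureTheory
open scoped Real

noncomputable section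

namespace Crest.Agent.R102.JN

open Crest.Agent.R102.K669 Crest.Agent.R102.Heights150
open Crest.Agent.R102.Slope811 (SupH)
open Crest.Agent.R102.Slope845 (Expn)

/-! ### a superharmonic function which is `≤ 0` at the centre and `≥ -C r` on the circle -/

theorem re_test (A B : ℝ) (ζ : ℂ) (hζ : ‖ζ‖ = 1) :
    ((B : ℂ) + A * (1 / 4 - (3 / 4) * I * ζ - (1 / 2) * ζ ^ 2)).re =
      B + A * ((1 + ζ.im) * (ζ.im - 1 / 4)) := by
  have h1 : ζ.re ^ 2 + ζ.im ^ 2 = 1 := by
    have := Complex.sq_norm ζ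
    rw [hζ, Complex.normSq_apply] at this
    linarith
  have h2 : ((B : ℂ) + A * (1 / 4 - (3 / 4) * I * ζ - (1 / 2) * ζ ^ 2)).re =
      B + A * (1 / 4 + (3 / 4) * ζ.im - (1 / 2) * (ζ.re ^ 2 - ζ.im ^ 2)) := by
    simp [Complex.add_re, Complex.mul_re, Complex.sub_re, pow_two]
  rw [h2]
  have h3 : ζ.re ^ 2 = 1 - ζ.im ^ 2 := by linarith
  rw [h3]
  ring

/-- a superharmonic function which is `≤ 0` at `u` and `≥ -C r` on the circle of radius `r` is
`≤ (5 C + 12) r` somewhere on the upper part of the circle -/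
theorem exists_small {W : Set ℂ} {D : ℂ → ℝ} (hD : SupH W D) {u : ℂ} (hu : u ∈ W)
    (h0 : D u ≤ 0) {C : ℝ} (hC : 0 ≤ C) {δ : ℝ} (hδ : 0 < δ)
    (hlow : ∀ z : ℂ, ‖z‖ < δ → -(C * ‖z‖) ≤ D (u + z)) :
    ∃ r0 > 0, ∀ r, 0 < r → r < r0 → ∃ z : ℂ, ‖z‖ = r ∧ r / 4 ≤ z.im ∧
      D (u + z) ≤ (5 * C + 12) * r := by
  obtain ⟨r1, hr1, hcmp⟩ := hD.cmp u hu
  refine ⟨min r1 δ, lt_min hr1 hδ, fun r hr hrr => ?_⟩
  by_contra hcon
  push Not at hcon
  have h2 := (hcmp r hr (hrr.trans_le (min_le_left _ _))).2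
  set A : ℝ := 4 * C + 8 with hA
  set B : ℝ := -(C * r) with hB
  have hr' : (r : ℂ) ≠ 0 := by exact_mod_cast hr.ne'
  set p : ℂ → ℂ := fun w => (B : ℂ) + ((A * r : ℝ) : ℂ) * (1 / 4 - (3 / 4) * I * ((w - u) / r) -
    (1 / 2) * ((w - u) / r) ^ 2) with hp
  have hpa : AnalyticOnNhd ℂ p (closedBall u r) := by
    intro w _
    have : Differentiable ℂ p := by
      rw [hp]
      fun_prop
    exact this.analyticAt w
  have h3 := h2 p hpa ?_
  · have e1 : (p u).re = B + A * r / 4 := by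
      rw [hp]
      simp only [sub_self, zero_div, mul_zero, sub_zero, ne_eq, OfNat.ofNat_ne_zero,
        not_false_eq_true, zero_pow]
      have : ((B : ℂ) + ((A * r : ℝ) : ℂ) * (1 / 4)) = ((B + A * r * (1 / 4) : ℝ) : ℂ) := by
        push_cast; ring
      rw [this, Complex.ofReal_re]
      ring
    rw [e1, hB, hA] at h3
    nlinarith
  · intro w hw
    set z := w - u with hz
    have hwz : w = u + z := by rw [hz]; ring
    have hzr : ‖z‖ = r := by
      rw [mem_sphere, dist_eq_norm] at hw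
      exact hw
    have hζ : ‖z / (r : ℂ)‖ = 1 := by
      rw [norm_div, hzr, Complex.norm_real, Real.norm_of_nonneg hr.le, div_self hr.ne']
    have hζim : (z / (r : ℂ)).im = z.im / r := by
      rw [Complex.div_ofReal_im]
    have e1 : (p w).re = B + A * r * ((1 + z.im / r) * (z.im / r - 1 / 4)) := by
      rw [hp]
      simp only
      rw [re_test (A * r) B (z / r) hζ, hζim]
    rw [e1, hwz]
    have hσ : |z.im / r| ≤ 1 := by
      rw [← hζim, ← hζ]
      exact Complex.abs_im_le_norm _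
    obtain ⟨hσ1, hσ2⟩ := abs_le.1 hσ
    have hlow' := hlow z (by rw [hzr]; exact hrr.trans_le (min_le_right _ _))
    rw [hzr] at hlow'
    have hAr : 0 ≤ A * r := by positivity
    by_cases hs : 1 / 4 ≤ z.im / r
    · have hzim : r / 4 ≤ z.im := by
        rw [div_le_div_iff₀ (by norm_num) hr] at hs
        linarith
      have h4 := hcon z hzr hzim
      have h5 : (1 + z.im / r) * (z.im / r - 1 / 4) ≤ 3 / 2 := by nlinarith
      have h6 : A * r * ((1 + z.im / r) * (z.im / r - 1 / 4)) ≤ A * r * (3 / 2) :=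
        mul_le_mul_of_nonneg_left h5 hAr
      rw [hA] at h6 ⊢
      rw [hB]
      nlinarith
    · push Not at hs
      have h5 : (1 + z.im / r) * (z.im / r - 1 / 4) ≤ 0 :=
        mul_nonpos_of_nonneg_of_nonpos (by linarith) (by linarith)
      have h6 : A * r * ((1 + z.im / r) * (z.im / r - 1 / 4)) ≤ 0 :=
        mul_nonpos_of_nonneg_of_nonpos hAr h5
      rw [hB]
      linarith

/-! ### the joint -/

/-- the set sheared by the exact shift `G`, in the parameter `z = w - u` -/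
def sheared (u : ℝ) (R : ℝ) (G : ℂ → ℂ) (Om : Set (ℂ × ℂ)) : Set (ℂ × ℂ) :=
  {q | q.2 ∈ HD R ∧ (q.1 + G (u + q.2), (u : ℂ) + q.2) ∈ Om}

theorem tilt_zero (k : ℝ → ℂ → ℝ) : tilt 0 k = k := by
  funext x z
  simp [tilt]

set_option maxHeartbeats 1000000 in
/-- **JN.** -/
theorem jn {b : ℝ} {W : Set ℂ} {OmL : Set (ℂ × ℂ)} {V : ℂ → ℝ} {u R α β : ℝ} {G : ℂ → ℂ}
    (hL : LV b W OmL) (hu : (u : ℂ) ∈ W)
    (hV : ∀ w ∈ W, ∀ t : ℂ, t.im < V w → (t, w) ∈ OmL)
    (hN : ∀ x : ℝ, ((x : ℂ) + (V u) * I, (u : ℂ)) ∉ OmL)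
    (hR : 0 < R) (hG : DifferentiableOn ℂ G {w | w - u ∈ HD R}) (hE : Expn G V u α β)
    (hS : LV 0 (HD R) (sheared u R G OmL)) :
    ∃ c2 : ℝ, 0 ≤ c2 ∧ ∀ s c : ℝ, LowAt (kO (sheared u R G OmL)) s c → c ≤ c2 := by
  obtain ⟨-, hE1, -, hE3⟩ := hE
  -- constants
  set C : ℝ := |α| + |β| + 1 with hC
  have hC1 : 1 ≤ C := by
    rw [hC]; have := abs_nonneg α; have := abs_nonneg β; linarith
  have hlin : ∀ z : ℂ, |α * z.re| + |β| * |z.im| ≤ (|α| + |β|) * ‖z‖ := by
    intro z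
    have h1 := Complex.abs_re_le_norm z
    have h2 := Complex.abs_im_le_norm z
    rw [abs_mul]
    have h3 := mul_le_mul_of_nonneg_left h1 (abs_nonneg α)
    have h4 := mul_le_mul_of_nonneg_left h2 (abs_nonneg β)
    linarith
  -- lower bound of `V`
  obtain ⟨δ1, hδ1, hV1⟩ := hE3 1 one_pos
  have hVlow : ∀ z : ℂ, ‖z‖ < δ1 → V u - C * ‖z‖ ≤ V (u + z) := by
    intro z hz
    have h1 := hV1 z hz
    have h2 := hlin z
    have h3 := neg_abs_le (α * z.re)
    have h4 : -(|β| * |z.im|) ≤ β * |z.im| := by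
      have := mul_le_mul_of_nonneg_right (neg_abs_le β) (abs_nonneg z.im)
      linarith
    have h5 : C * ‖z‖ = (|α| + |β|) * ‖z‖ + 1 * ‖z‖ := by rw [hC]; ring
    linarith
  -- the sector bounds of `G`
  obtain ⟨δ2, hδ2, hG2⟩ := hE1 (1 / 4) (by norm_num) 1 one_pos
  have hGlow : ∀ z : ℂ, ‖z‖ < δ2 → 0 < z.im → 1 / 4 * ‖z‖ ≤ z.im →
      V u - C * ‖z‖ ≤ (G (u + z)).im := by
    intro z hz h0 hs
    have h1 := (abs_le.1 (hG2 z hz h0 hs).1).1
    have h2 := hlin z
    have h3 := neg_abs_le (α * z.re)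
    have h4 : -(|β| * |z.im|) ≤ β * z.im := by
      rw [← abs_mul]; exact neg_abs_le _
    have h5 : C * ‖z‖ = (|α| + |β|) * ‖z‖ + 1 * ‖z‖ := by rw [hC]; ring
    linarith
  -- the limit of `G` in the sector
  have hHDopen : IsOpen (HD R) := by
    have h1 : IsOpen {z : ℂ | 0 < z.im} := isOpen_lt continuous_const Complex.continuous_im
    have h2 : IsOpen {z : ℂ | ‖z‖ < R} := isOpen_lt continuous_norm continuous_const
    exact h1.inter h2
  have hWo : IsOpen {w : ℂ | w - u ∈ HD R} := hHDopen.preimage (by fun_prop)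
  obtain ⟨h0, hh0⟩ := Slope231.nt_expansion (h1 := (β : ℂ) + I * α) (u := u) hWo hG (by
    intro κ hκ ε hε
    obtain ⟨δ, hδ, h⟩ := hE1 κ hκ ε hε
    refine ⟨min δ R, lt_min hδ hR, fun z hz => ⟨?_, ?_⟩⟩
    · show (u : ℂ) + z - u ∈ HD R
      rw [add_sub_cancel_left]
      exact ⟨hz.2.1, hz.2.2.trans_le (min_le_right _ _)⟩
    · exact (h z (hz.2.2.trans_le (min_le_left _ _)) hz.2.1 hz.1).2)
  obtain ⟨δ3, hδ3, hG3⟩ := hh0 (1 / 4) (by norm_num) 1 one_pos
  have hGre : ∀ z : ℂ, ‖z‖ < δ3 → 0 < z.im → 1 / 4 * ‖z‖ ≤ z.im →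
      |(G (u + z)).re - h0.re| ≤ 2 * C * ‖z‖ := by
    intro z hz hz0 hs
    have h1 := hG3 z ⟨hs, hz0, hz⟩
    have h2 := Complex.abs_re_le_norm (G (u + z) - h0)
    rw [Complex.sub_re] at h2
    have h3 : ‖G (u + z) - h0‖ ≤ ‖G (u + z) - h0 - ((β : ℂ) + I * α) * z‖ +
        ‖((β : ℂ) + I * α) * z‖ := by
      have := norm_add_le (G (u + z) - h0 - ((β : ℂ) + I * α) * z) (((β : ℂ) + I * α) * z)
      rwa [sub_add_cancel] at this
    have h4 : ‖((β : ℂ) + I * α) * z‖ ≤ (|α| + |β|) * ‖z‖ := by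
      rw [norm_mul]
      refine mul_le_mul_of_nonneg_right ?_ (norm_nonneg z)
      refine (norm_add_le _ _).trans ?_
      rw [norm_mul, Complex.norm_I, one_mul, Complex.norm_real, Complex.norm_real,
        Real.norm_eq_abs, Real.norm_eq_abs]
      linarith
    have h5 : 2 * C * ‖z‖ = (|α| + |β|) * ‖z‖ + 1 * ‖z‖ + C * ‖z‖ := by rw [hC]; ring
    have h6 : 0 ≤ C * ‖z‖ := by positivity
    linarith
  -- the unsheared set in the height relative to `V u`
  set Om' : Set (ℂ × ℂ) := shr W (fun _ => ((V u : ℝ) : ℂ) * I) OmL with hOm'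
  have him : (((V u : ℝ) : ℂ) * I).im = V u := by simp
  have hLV' : LV (b - V u) W Om' := by
    refine hL.shear hL.WO (subset_refl _) (differentiableOn_const _) ?_
    intro w hw t ht
    rw [him] at ht
    exact hL.base w hw t (by linarith)
  have hb0 : b - V u ≤ 0 := by
    by_contra hcon
    push Not at hcon
    apply hN 0
    apply hL.base _ hu
    simp only [Complex.add_im, Complex.ofReal_im, him, zero_add]
    linarith
  have hmem' : ∀ x y : ℝ, ∀ w ∈ W, (((x : ℂ) + y * I, w) ∈ Om' ↔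
      ((x : ℂ) + ((y + V u : ℝ) : ℂ) * I, w) ∈ OmL) := by
    intro x y w hw
    have e : (x : ℂ) + y * I + ((V u : ℝ) : ℂ) * I = (x : ℂ) + ((y + V u : ℝ) : ℂ) * I := by
      push_cast; ring
    constructor
    · intro h
      have h1 := h.2
      simp only at h1
      rwa [e] at h1
    · intro h
      refine ⟨hw, ?_⟩
      simp only
      rwa [e]
  -- a neighbourhood of `u` in `W`
  obtain ⟨δ4, hδ4, hW4⟩ := Metric.isOpen_iff.1 hL.WO u hu
  have hW4' : ∀ z : ℂ, ‖z‖ < δ4 → (u : ℂ) + z ∈ W := by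
    intro z hz
    apply hW4
    rw [mem_ball, dist_eq_norm, add_sub_cancel_left]
    exact hz
  -- lower bound of the heights
  have hk : ∀ z : ℂ, ‖z‖ < min δ1 δ4 → ∀ x, -(C * ‖z‖) ≤ kO Om' x (u + z) := by
    intro z hz x
    have hzW := hW4' z (hz.trans_le (min_le_right _ _))
    refine hLV'.le_kO hzW ?_ (fun y' hy' => ?_)
    · have : 0 ≤ C * ‖z‖ := by positivity
      linarith
    · rw [hmem' _ _ _ hzW]
      apply hV _ hzW
      have h1 := hVlow z (hz.trans_le (min_le_left _ _))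
      simp only [Complex.add_im, Complex.ofReal_im, Complex.mul_im, Complex.ofReal_re, Complex.I_im,
        Complex.I_re, mul_one, mul_zero, add_zero, zero_add]
      linarith
  set C' : ℝ := 5 * (2 * C) + 12 with hC'
  have hC'0 : 0 < C' := by rw [hC']; linarith
  set C'' : ℝ := 2 * (C' + 1) + C with hC''
  refine ⟨4 * C'', by rw [hC'', hC']; linarith, fun s c hsc => ?_⟩
  obtain ⟨d, hd, hlow⟩ := hsc
  set x0 : ℝ := s + h0.re with hx0
  -- the penalised height
  have hDsup : SupH W (Dh (kO Om') 1 x0) := by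
    have h1 := hLV'.supH_Dh (by linarith) (a := 0) (α := 0) (by intro w _; simp) (by norm_num)
      (lam := 1) x0 le_rfl (by
        have := pen_le one_pos (b - V u - 0)
        norm_num at this ⊢
        linarith)
    rwa [tilt_zero] at h1
  have hD0 : Dh (kO Om') 1 x0 u ≤ 0 := by
    have hB : ∀ x, -(C * ‖(0 : ℂ)‖) ≤ kO Om' x ((u : ℂ) + 0) := hk 0 (by simpa using ⟨hδ1, hδ4⟩)
    simp only [add_zero, norm_zero, mul_zero, neg_zero] at hB
    refine (Dh_le_self one_pos hB).trans ?_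
    refine csSup_le (hLV'.kO_ne x0 hu) ?_
    rintro y ⟨-, hy⟩
    by_contra hcon
    push Not at hcon
    rw [hmem' _ _ _ hu] at hy
    exact hN x0 (hL.below (by linarith) hy)
  have hDlow : ∀ z : ℂ, ‖z‖ < min (min δ1 δ4) (1 / C) →
      -(2 * C * ‖z‖) ≤ Dh (kO Om') 1 x0 (u + z) := by
    intro z hz
    have hzn : 0 ≤ C * ‖z‖ := by positivity
    have hz1 : C * ‖z‖ < 1 := by
      have := hz.trans_le (min_le_right _ _)
      rwa [lt_div_iff₀ (by linarith), mul_comm] at this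
    refine le_Dh (fun x => ?_)
    have h1 := pen_mono one_pos (hk z (hz.trans_le (min_le_left _ _)) x)
    rw [pen_eq (show -(C * ‖z‖) ≤ 1 / (2 * 1) by linarith)] at h1
    refine le_min ?_ ?_
    · linarith
    · have h2 : 0 ≤ 1 * (x - x0) ^ 2 := by positivity
      have h3 : (-(C * ‖z‖)) ^ 2 = C * ‖z‖ * (C * ‖z‖) := by ring
      have h4 := mul_le_mul_of_nonneg_left hz1.le hzn
      linarith
  obtain ⟨r0, hr0, hex⟩ := exists_small hDsup hu hD0 (C := 2 * C) (by linarith)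
    (δ := min (min δ1 δ4) (1 / C)) (lt_min (lt_min hδ1 hδ4) (by positivity)) hDlow
  -- choose the radius
  set K : ℝ := C' + 1 + 2 * C with hK
  have hK0 : 0 < K := by rw [hK]; linarith
  obtain ⟨r, hr, hr1, hr2, hr3, hr4, hr5, hr6, hr7, hr8, hr9, hr10⟩ : ∃ r : ℝ, 0 < r ∧ r < r0 ∧
      r < δ1 ∧ r < δ2 ∧ r < δ3 ∧ r < δ4 ∧ r < R ∧ r < d ∧ (C' + 1) * r < 1 / 8 ∧
      K * r < (d / 2) ^ 2 ∧ 2 * C * r < d / 2 := by
    have hev : ∀ᶠ r : ℝ in 𝓝[>] 0, 0 < r ∧ r < r0 ∧
      r < δ1 ∧ r < δ2 ∧ r < δ3 ∧ r < δ4 ∧ r < R ∧ r < d ∧ (C' + 1) * r < 1 / 8 ∧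
      K * r < (d / 2) ^ 2 ∧ 2 * C * r < d / 2 := by
      have hlt : ∀ a : ℝ, 0 < a → ∀ᶠ r : ℝ in 𝓝[>] 0, r < a := fun a ha =>
        nhdsWithin_le_nhds (gt_mem_nhds ha)
      have hmul : ∀ k a : ℝ, 0 < k → 0 < a → ∀ᶠ r : ℝ in 𝓝[>] 0, k * r < a := fun k a hk ha => by
        filter_upwards [hlt (a / k) (by positivity)] with r hr
        rwa [lt_div_iff₀ hk, mul_comm] at hr
      filter_upwards [self_mem_nhdsWithin, hlt r0 hr0, hlt δ1 hδ1, hlt δ2 hδ2, hlt δ3 hδ3,
        hlt δ4 hδ4, hlt R hR, hlt d hd, hmul (C' + 1) (1 / 8) (by linarith) (by norm_num),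
        hmul K ((d / 2) ^ 2) hK0 (by positivity), hmul (2 * C) (d / 2) (by linarith)
        (by positivity)] with r a1 a2 a3 a4 a5 a6 a7 a8 a9 a10 a11
      exact ⟨a1, a2, a3, a4, a5, a6, a7, a8, a9, a10, a11⟩
    exact hev.exists
  obtain ⟨z, hz, hzim, hDz⟩ := hex r hr hr1
  have hz0 : 0 < z.im := by linarith
  have hzs : 1 / 4 * ‖z‖ ≤ z.im := by rw [hz]; linarith
  have hzHD : z ∈ HD R := ⟨hz0, by rw [hz]; exact hr6⟩
  have hzW := hW4' z (by rw [hz]; exact hr5)
  -- a nearly minimal vertical line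
  have hlt : Dh (kO Om') 1 x0 (u + z) < (C' + 1) * r := by
    refine hDz.trans_lt ?_
    have : (C' + 1) * r = (5 * (2 * C) + 12) * r + r := by rw [hC']; ring
    linarith
  obtain ⟨x1, hx1⟩ := exists_lt_of_ciInf_lt hlt
  rw [min_lt_iff] at hx1
  have hx1' : pen 1 (kO Om' x1 (u + z)) + 1 * (x1 - x0) ^ 2 < (C' + 1) * r := by
    rcases hx1 with h | h
    · linarith
    · exact h
  set k := kO Om' x1 (u + z) with hkdef
  have hk1 : -(C * r) ≤ k := by
    have := hk z (by rw [hz]; exact lt_min hr2 hr5) x1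
    rwa [hz] at this
  have hsq : 0 ≤ (x1 - x0) ^ 2 := sq_nonneg _
  have hpk : pen 1 k < (C' + 1) * r := by linarith
  have hk2 : k ≤ 1 / 2 := by
    by_contra hcon
    push Not at hcon
    unfold pen at hpk
    rw [if_neg (by linarith)] at hpk
    linarith
  have hpk' : k - k ^ 2 < (C' + 1) * r := by
    rw [pen_eq (by linarith)] at hpk
    linarith
  have hk3 : k ≤ 2 * (C' + 1) * r := by
    by_cases hk0 : 0 ≤ k
    · have h1 := mul_le_mul_of_nonneg_left hk2 hk0
      have h2 : k ^ 2 = k * k := by ring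
      linarith
    · push Not at hk0
      have : 0 ≤ 2 * (C' + 1) * r := by positivity
      linarith
  have hCr : C * r < 1 := by
    have : C * r ≤ (C' + 1) * r := mul_le_mul_of_nonneg_right (by rw [hC']; linarith) hr.le
    linarith
  have hpen_low : -(2 * C * r) ≤ pen 1 k := by
    have h1 := pen_mono one_pos hk1
    have hCr0 : 0 ≤ C * r := by positivity
    rw [pen_eq (show -(C * r) ≤ 1 / (2 * 1) by linarith)] at h1
    have h3 : (-(C * r)) ^ 2 = C * r * (C * r) := by ring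
    have h4 := mul_le_mul_of_nonneg_left hCr.le hCr0
    linarith
  have hx1sq : (x1 - x0) ^ 2 < (d / 2) ^ 2 := by
    have : K * r = (C' + 1) * r + 2 * C * r := by rw [hK]; ring
    linarith
  have hx1d : |x1 - x0| < d / 2 := abs_lt_of_sq_lt_sq hx1sq (by positivity)
  -- the singular point
  have hnot : ((x1 : ℂ) + ((k + V u : ℝ) : ℂ) * I, (u : ℂ) + z) ∉ OmL := by
    have h1 := hLV'.kO_notMem (x := x1) (y := k) (w := u + z) (by rw [← hkdef]; linarith) le_rfl
    rwa [hmem' _ _ _ hzW] at h1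
  set x' : ℝ := x1 - (G (u + z)).re with hx'
  set y' : ℝ := k + V u - (G (u + z)).im with hy'
  have hnotS : ((x' : ℂ) + y' * I, z) ∉ sheared u R G OmL := by
    intro hmem
    apply hnot
    have h1 := hmem.2
    simp only at h1
    have e : (x' : ℂ) + y' * I + G (u + z) = (x1 : ℂ) + ((k + V u : ℝ) : ℂ) * I := by
      apply Complex.ext
      · simp [hx']
      · simp [hy']
    rwa [e] at h1
  have hkS : kO (sheared u R G OmL) x' z ≤ y' := by
    by_contra hcon
    push Not at hcon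
    exact hnotS (hS.mem_of_lt hzHD hcon)
  have hy'le : y' ≤ C'' * r := by
    have h1 := hGlow z (by rw [hz]; exact hr3) hz0 hzs
    rw [hz] at h1
    rw [hy', hC'']
    have : (2 * (C' + 1) + C) * r = 2 * (C' + 1) * r + C * r := by ring
    linarith
  have hx's : |x' - s| < d := by
    have h1 := hGre z (by rw [hz]; exact hr4) hz0 hzs
    rw [hz] at h1
    have e : x' - s = (x1 - x0) - ((G (u + z)).re - h0.re) := by rw [hx', hx0]; ring
    rw [e]
    have h2 := abs_sub (x1 - x0) ((G (u + z)).re - h0.re)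
    linarith
  have hfin := hlow x' hx's z ⟨hz0, by rw [hz]; exact hr7⟩
  have h1 : c * z.im ≤ C'' * r := hfin.trans (hkS.trans hy'le)
  have hC''0 : 0 < C'' := by rw [hC'']; linarith
  have h2 : C'' * r ≤ 4 * C'' * z.im := by
    have h3 : r ≤ 4 * z.im := by linarith
    have h4 := mul_le_mul_of_nonneg_left h3 hC''0.le
    linarith
  have h3 : c * z.im ≤ 4 * C'' * z.im := h1.trans h2
  exact le_of_mul_le_mul_right h3 hz0

/-- **JN** with the literal set `half` of `LVC_669` -/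
theorem jn_half {b : ℝ} {W : Set ℂ} {OmL : Set (ℂ × ℂ)} {V : ℂ → ℝ} {u R α β : ℝ} {G : ℂ → ℂ}
    (hL : LV b W OmL) (hu : (u : ℂ) ∈ W)
    (hV : ∀ w ∈ W, ∀ t : ℂ, t.im < V w → (t, w) ∈ OmL)
    (hN : ∀ x : ℝ, ((x : ℂ) + (V u) * I, (u : ℂ)) ∉ OmL)
    (hR : 0 < R) (hG : DifferentiableOn ℂ G {w | w - u ∈ HD R}) (hE : Expn G V u α β)
    (hS : LV 0 (HD R) (half u R (fun z => G (u + z)) OmL)) :
    ∃ c2 : ℝ, 0 ≤ c2 ∧
      ∀ s c : ℝ, LowAt (kO (half u R (fun z => G (u + z)) OmL)) s c → c ≤ c2 :=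
  jn hL hu hV hN hR hG hE hS

end Crest.Agent.R102.JN
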