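import Mathlib
import Crest.Agent.R102.T5Defs_160
import Crest.Agent.R102.C1F_821

/-!
Row 102, T5S / P2c (helper596): the law `k (y, z - y) = - k (y, x - y)` implies the reflection law
`EL (PsiQ q) x y z = 0`, `θ' = exp q`; scaling of the momentum function.
-/

set_option autoImplicit false

open Set Filter Topology Metric
open scoped ComplexConjugate

noncomputable section

namespace Crest.Agent.R102.P2c596

open Crest.Agent.R102.C1 Crest.Agent.R102.T5R

/-! ### (c2) scaling -/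

section scaling
variable {θ H : ℂ → ℂ} {s μ : ℂ}

/-- `θ (s + μ t)` -/
def thS (θ : ℂ → ℂ) (s μ : ℂ) (t : ℂ) : ℂ := θ (s + μ * t)

/-- `H (s + μ t) / μ³` -/
def HS (H : ℂ → ℂ) (s μ : ℂ) (t : ℂ) : ℂ := H (s + μ * t) / μ ^ 3

lemma deriv_aff (f : ℂ → ℂ) (s μ t : ℂ) :
    deriv (fun t => f (s + μ * t)) t = μ * deriv f (s + μ * t) := by
  have h1 : deriv (fun t => f (s + μ * t)) t = μ • deriv (fun u => f (s + u)) (μ * t) :=
    deriv_comp_mul_left μ (fun u => f (s + u)) t
  rw [h1, deriv_comp_const_add, smul_eq_mul]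

lemma thS_deriv : deriv (thS θ s μ) = fun t => μ * deriv θ (s + μ * t) := by
  funext t
  exact deriv_aff θ s μ t

lemma thS_deriv2 (t : ℂ) : deriv (deriv (thS θ s μ)) t = μ ^ 2 * deriv (deriv θ) (s + μ * t) := by
  rw [thS_deriv, deriv_const_mul_field, deriv_aff]; ring

lemma HS_deriv (hμ : μ ≠ 0) : deriv (HS H s μ) = fun t => deriv H (s + μ * t) / μ ^ 2 := by
  funext t
  have h1 : deriv (HS H s μ) t = deriv (fun t => H (s + μ * t)) t / μ ^ 3 := by
    unfold HS
    rw [deriv_div_const]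
  rw [h1, deriv_aff]
  field_simp

lemma HS_deriv2 (hμ : μ ≠ 0) (t : ℂ) :
    deriv (deriv (HS H s μ)) t = deriv (deriv H) (s + μ * t) / μ := by
  rw [HS_deriv hμ, deriv_div_const, deriv_aff]
  field_simp

lemma GG_S (hμ : μ ≠ 0) (c t : ℂ) :
    GG (thS θ s μ) (HS H s μ) c t = GG θ H c (s + μ * t) / μ ^ 2 := by
  unfold GG
  rw [thS_deriv, HS_deriv hμ]
  unfold thS HS
  field_simp

lemma D2_S (hμ : μ ≠ 0) (f : ℂ → ℂ) (c x y : ℂ) :
    D2 (fun t => f (s + μ * t) * c) (x, y) = μ * c * D2 f (s + μ * x, s + μ * y) := by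
  rcases eq_or_ne x y with h | h
  · subst h
    rw [D2_diag, D2_diag, deriv_mul_const_field, deriv_aff]; ring
  · have h1 := D2_mul (fun t => f (s + μ * t) * c) x y
    have h2 := D2_mul f (s + μ * x) (s + μ * y)
    have h3 : y - x ≠ 0 := sub_ne_zero.2 h.symm
    refine mul_left_cancel₀ h3 ?_
    linear_combination h1 - c * h2

/-- the scaled pair satisfies the Lazutkin relation -/
theorem LZ_S (hμ : μ ≠ 0) {V : Set ℂ} (L : LZ V θ H) :
    LZ ((fun t => s + μ * t) ⁻¹' V) (thS θ s μ) (HS H s μ) := by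
  have hm : MapsTo (fun t => s + μ * t) ((fun t => s + μ * t) ⁻¹' V) V := fun t ht => ht
  refine ⟨L.op.preimage (by fun_prop), ?_, ?_, ?_⟩
  · exact L.dθ.comp (by fun_prop) hm
  · exact (L.dH.comp (f := fun t => s + μ * t) (by fun_prop) hm).div_const _
  · intro t ht
    rw [thS_deriv2, HS_deriv2 hμ, thS_deriv, HS_deriv hμ]
    have h := L.rel (s + μ * t) ht
    unfold HS
    rw [← h]
    field_simp

/-- **(c2)** scaling of the momentum function -/
theorem kk_S (hμ : μ ≠ 0) (t e : ℂ) :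
    kk (thS θ s μ) (HS H s μ) (t, e) = kk θ H (s + μ * t, μ * e) / μ := by
  have hG : ∀ c : ℂ, GG (thS θ s μ) (HS H s μ) c = fun t => GG θ H c (s + μ * t) * (μ ^ 2)⁻¹ := by
    intro c
    funext t
    rw [GG_S hμ, div_eq_mul_inv]
  have hT : deriv (thS θ s μ) = fun t => deriv θ (s + μ * t) * μ := by
    rw [thS_deriv]; funext t; ring
  set X : ℂ := s + μ * t with hX
  have hY : s + μ * (t + e) = X + μ * e := by rw [hX]; ring
  have dG : ∀ c : ℂ, D2 (GG (thS θ s μ) (HS H s μ) c) (t, t + e) =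
      D2 (GG θ H c) (X, X + μ * e) / μ := by
    intro c
    rw [hG c, D2_S hμ, ← hX, hY]
    field_simp
  have dT : D2 (deriv (thS θ s μ)) (t, t + e) = μ ^ 2 * D2 (deriv θ) (X, X + μ * e) := by
    rw [hT, D2_S hμ, ← hX, hY]
    ring
  have eA : ∀ c : ℂ, As (thS θ s μ) (HS H s μ) c (t, t + e) = As θ H c (X, X + μ * e) := by
    intro c
    unfold As
    rw [dG, dT, thS_deriv]
    simp only
    rw [GG_S hμ, ← hX]
    field_simp
  have eW : Wch (thS θ s μ) (HS H s μ) (t, t + e) = Wch θ H (X, X + μ * e) := by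
    unfold Wch
    rw [eA, eA]
    simp only
    unfold thS
    rw [← hX, hY]
  have eP : Phi (thS θ s μ) (HS H s μ) (t, t + e) = Phi θ H (X, X + μ * e) := by
    unfold Phi
    rw [eW]
    simp only
    unfold thS
    rw [← hX, hY]
  have eD : C1.DD (thS θ s μ) (HS H s μ) (t, t + e) = C1.DD θ H (X, X + μ * e) / μ := by
    unfold C1.DD
    rw [dG, dG, dT]
    simp only
    unfold thS HS
    rw [← hX]
    field_simp
  unfold kk kx
  simp only
  rw [eD, eP, eA]
  unfold thS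
  rw [← hX]
  ring

end scaling

/-! ### segments -/

lemma seg_mem {c x y : ℂ} {ρ : ℝ} (hx : x ∈ ball c ρ) (hy : y ∈ ball c ρ) {t : ℝ} (h0 : 0 ≤ t)
    (h1 : t ≤ 1) : x + t * (y - x) ∈ ball c ρ := by
  have := (convex_ball c ρ) hx hy (a := 1 - t) (b := t) (by linarith) h0 (by ring)
  convert this using 1
  simp only [Complex.real_smul]
  push_cast
  ring

/-- fundamental theorem on a segment -/
lemma seg_int {f f' : ℂ → ℂ} {c x y : ℂ} {ρ : ℝ} (hf : ∀ z ∈ ball c ρ, HasDerivAt f (f' z) z)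
    (hc : ContinuousOn f' (ball c ρ)) (hx : x ∈ ball c ρ) (hy : y ∈ ball c ρ) {t : ℝ} (h0 : 0 ≤ t)
    (h1 : t ≤ 1) :
    (y - x) * ∫ r in (0 : ℝ)..t, f' (x + r * (y - x)) = f (x + t * (y - x)) - f x := by
  have hseg : ∀ r ∈ uIcc (0 : ℝ) t, x + r * (y - x) ∈ ball c ρ := by
    intro r hr
    rw [uIcc_of_le h0] at hr
    exact seg_mem hx hy hr.1 (hr.2.trans h1)
  have h2 : ∀ r ∈ uIcc (0 : ℝ) t, HasDerivAt (fun r : ℝ => f (x + r * (y - x)))
      ((y - x) * f' (x + r * (y - x))) r := by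
    intro r hr
    have h3 := hf _ (hseg r hr)
    have h4 : HasDerivAt (fun r : ℝ => x + (r : ℂ) * (y - x)) (y - x) r := by
      have := ((Complex.ofRealCLM.hasDerivAt (x := r)).mul_const (y - x)).const_add x
      simpa using this
    have h5 := h3.comp r h4
    rw [mul_comm]
    exact h5
  have h6 : ContinuousOn (fun r : ℝ => (y - x) * f' (x + r * (y - x))) (uIcc 0 t) := by
    refine continuousOn_const.mul (hc.comp (f := fun r : ℝ => x + (r : ℂ) * (y - x))
      (by fun_prop) hseg)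
  have h7 := intervalIntegral.integral_eq_sub_of_hasDerivAt h2 h6.intervalIntegrable
  rw [intervalIntegral.integral_const_mul] at h7
  rw [h7]
  simp

/-! ### (c1) -/

/-- `∫ θ'^{-2} exp (s i θ)` -/
def Zf (θ H : ℂ → ℂ) (s : ℂ) (z : ℂ) : ℂ := GG θ H s z / deriv θ z

section
variable {V U : Set ℂ} {θ H q : ℂ → ℂ} (L : LZ V θ H) (hU : IsOpen U) (hUV : U ⊆ V)
  (hq : DifferentiableOn ℂ q U) (hexp : ∀ z ∈ U, Complex.exp (q z) = deriv θ z)

include L hUV hexp

lemma th_ne {z : ℂ} (hz : z ∈ U) : deriv θ z ≠ 0 := by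
  rw [← hexp z hz]; exact Complex.exp_ne_zero _

lemma Zf_deriv {s : ℂ} (hs : s ^ 2 = 1) {z : ℂ} (hz : z ∈ U) :
    HasDerivAt (Zf θ H s) (Complex.exp (s * (Complex.I * θ z)) / deriv θ z ^ 2) z := by
  have h0 := th_ne L hUV hexp hz
  have h1 : HasDerivAt (GG θ H s) (deriv (GG θ H s) z) z :=
    ((L.GG_diff s).differentiableAt (L.op.mem_nhds (hUV hz))).hasDerivAt
  have h2 := h1.div (L.hθ' (hUV hz)) h0
  have h3 := L.As_diag hs (hUV hz)
  unfold As at h3
  rw [D2_diag, D2_diag] at h3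
  simp only at h3
  have h4 : (deriv (GG θ H s) z * deriv θ z - GG θ H s z * deriv (deriv θ) z) / deriv θ z ^ 2 =
      Complex.exp (s * (Complex.I * θ z)) / deriv θ z ^ 2 := by
    rw [← h3]; ring
  rw [← h4]
  exact h2

/-- chord = increment of `Zf` -/
lemma As_Zf {s x y : ℂ} (hx : x ∈ U) (hy : y ∈ U) :
    (y - x) * As θ H s (x, y) = deriv θ x * deriv θ y * (Zf θ H s y - Zf θ H s x) := by
  have h1 := D2_mul (GG θ H s) x y
  have h2 := D2_mul (deriv θ) x y
  have hx0 := th_ne L hUV hexp hx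
  have hy0 := th_ne L hUV hexp hy
  unfold As Zf
  simp only
  have h3 : deriv θ x * deriv θ y * (GG θ H s y / deriv θ y - GG θ H s x / deriv θ x) =
      deriv θ x * GG θ H s y - deriv θ y * GG θ H s x := by
    field_simp
  rw [h3]
  linear_combination deriv θ x * h1 - GG θ H s x * h2

include hq

/-- `P_s` in terms of the reduced chord -/
lemma Pj_eq {c : ℂ} {ρ : ℝ} (hb : ball c ρ ⊆ U) {s x y : ℂ} (hs : s ^ 2 = 1) (hx : x ∈ ball c ρ)
    (hy : y ∈ ball c ρ) :
    Pj q (s * Complex.I) x y = As θ H s (x, y) * Complex.exp (q x - q y) *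
      Complex.exp (-(s * (Complex.I * θ x))) := by
  have hqc : ContinuousOn q (ball c ρ) := (hq.mono hb).continuousOn
  have hin : ∀ t ∈ uIcc (0 : ℝ) 1, Complex.exp (-2 * (q (x + t * (y - x)) - q x)) *
      Complex.exp (s * Complex.I * ((y - x) * ∫ s' in (0 : ℝ)..t,
        Complex.exp (q (x + s' * (y - x))))) =
      Complex.exp (2 * q x) * Complex.exp (-(s * (Complex.I * θ x))) *
        ((fun z => Complex.exp (s * (Complex.I * θ z)) / deriv θ z ^ 2) (x + t * (y - x))) := by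
    intro t ht
    rw [uIcc_of_le zero_le_one] at ht
    have h1 : (y - x) * ∫ s' in (0 : ℝ)..t, Complex.exp (q (x + s' * (y - x))) =
        θ (x + t * (y - x)) - θ x :=
      seg_int (f := θ) (f' := fun z => Complex.exp (q z)) (fun z hz => by
        rw [hexp z (hb hz)]; exact L.hθ (hUV (hb hz))) hqc.cexp hx hy ht.1 ht.2
    have h2 := hexp _ (hb (seg_mem hx hy ht.1 ht.2))
    simp only
    rw [h1, ← h2, ← Complex.exp_nat_mul, ← Complex.exp_sub, ← Complex.exp_add, ← Complex.exp_add,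
      ← Complex.exp_add]
    congr 1
    push_cast
    ring
  unfold Pj
  rw [intervalIntegral.integral_congr hin, intervalIntegral.integral_const_mul]
  have hd : ContinuousOn (fun z => Complex.exp (s * (Complex.I * θ z)) / deriv θ z ^ 2)
      (ball c ρ) := by
    have h3 : ContinuousOn θ (ball c ρ) := L.dθ.continuousOn.mono (hb.trans hUV)
    have h4 : ContinuousOn (deriv θ) (ball c ρ) :=
      (L.dθ.deriv L.op).continuousOn.mono (hb.trans hUV)
    exact (continuousOn_const.mul (continuousOn_const.mul h3)).cexp.div (h4.pow 2)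
      (fun z hz => pow_ne_zero 2 (th_ne L hUV hexp (hb hz)))
  have hI := seg_int (fun z hz => Zf_deriv L hUV hexp hs (hb hz)) hd hx hy zero_le_one le_rfl
  have hx0 := th_ne L hUV hexp (hb hx)
  have hy0 := th_ne L hUV hexp (hb hy)
  rcases eq_or_ne x y with h | h
  · subst h
    have h5 : (∫ t in (0 : ℝ)..1, (fun z => Complex.exp (s * (Complex.I * θ z)) / deriv θ z ^ 2)
        (x + t * (x - x))) = Complex.exp (s * (Complex.I * θ x)) / deriv θ x ^ 2 := by
      simp
    rw [h5, L.As_diag hs (hUV (hb hx)), ← hexp x (hb hx), ← Complex.exp_nat_mul,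
      ← Complex.exp_sub, ← Complex.exp_add, ← Complex.exp_add, ← Complex.exp_add,
      ← Complex.exp_add]
    congr 1
    push_cast
    ring
  · have hyx : y - x ≠ 0 := sub_ne_zero.2 h.symm
    refine mul_left_cancel₀ hyx ?_
    have h6 := As_Zf L hUV hexp (s := s) (hb hx) (hb hy)
    simp only [Complex.ofReal_one, one_mul, add_sub_cancel] at hI
    have h7 : Complex.exp (q x - q y) * (deriv θ x * deriv θ y) = Complex.exp (2 * q x) := by
      rw [← hexp x (hb hx), ← hexp y (hb hy), ← Complex.exp_add, ← Complex.exp_add]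
      congr 1
      ring
    calc (y - x) * (Complex.exp (2 * q x) * Complex.exp (-(s * (Complex.I * θ x))) *
          ∫ t in (0 : ℝ)..1, (fun z => Complex.exp (s * (Complex.I * θ z)) / deriv θ z ^ 2)
            (x + t * (y - x)))
        = Complex.exp (2 * q x) * Complex.exp (-(s * (Complex.I * θ x))) *
          (Zf θ H s y - Zf θ H s x) := by rw [← hI]; ring
      _ = Complex.exp (q x - q y) * Complex.exp (-(s * (Complex.I * θ x))) *
          (deriv θ x * deriv θ y * (Zf θ H s y - Zf θ H s x)) := by rw [← h7]; ring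
      _ = _ := by rw [← h6]; ring

/-- the arc -/
lemma Pj0_eq {c : ℂ} {ρ : ℝ} (hb : ball c ρ ⊆ U) {S : ℂ → ℂ}
    (hS : ∀ z ∈ ball c ρ, HasDerivAt S (Complex.exp (-2 * q z)) z) {x y : ℂ} (hx : x ∈ ball c ρ)
    (hy : y ∈ ball c ρ) :
    (y - x) * Pj q 0 x y = Complex.exp (2 * q x) * (S y - S x) := by
  have hqc : ContinuousOn q (ball c ρ) := (hq.mono hb).continuousOn
  have hI := seg_int hS (continuousOn_const.mul hqc).cexp hx hy zero_le_one le_rfl
  simp only [Complex.ofReal_one, one_mul, add_sub_cancel] at hI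
  unfold Pj
  have hin : ∀ t ∈ uIcc (0 : ℝ) 1, Complex.exp (-2 * (q (x + t * (y - x)) - q x)) *
      Complex.exp (0 * ((y - x) * ∫ s' in (0 : ℝ)..t, Complex.exp (q (x + s' * (y - x))))) =
      Complex.exp (2 * q x) * Complex.exp (-2 * q (x + t * (y - x))) := by
    intro t _
    rw [zero_mul, Complex.exp_zero, mul_one, ← Complex.exp_add]
    congr 1
    ring
  rw [intervalIntegral.integral_congr hin, intervalIntegral.integral_const_mul, ← hI]
  ring

include hU in
/-- derivative of the chord length `e^{iΦ} ΔZ₋ = e^{-iΦ} ΔZ₊` in the second label -/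
lemma chord_deriv {x y : ℂ} (hx : x ∈ U) (hy : y ∈ U) (hN : (x, y) ∈ N1 θ H V) :
    HasDerivAt (fun y => Complex.exp (Complex.I * Phi θ H (x, y)) *
      (Zf θ H (-1) y - Zf θ H (-1) x))
      (Complex.cos (Phi θ H (x, y) - θ y) / deriv θ y ^ 2) y := by
  have hx0 := th_ne L hUV hexp hx
  have hy0 := th_ne L hUV hexp hy
  have hPd : DifferentiableAt ℂ (fun y => Phi θ H (x, y)) y := by
    have h1 : DifferentiableAt ℂ (Phi θ H) (x, y) :=
      L.Phi_diff.differentiableAt (L.open1.mem_nhds hN)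
    exact DifferentiableAt.comp (f := fun y : ℂ => ((x, y) : ℂ × ℂ)) y h1 (by fun_prop)
  have hP := hPd.hasDerivAt
  set P' := deriv (fun y => Phi θ H (x, y)) y with hP'
  have hZm := (Zf_deriv L hUV hexp (s := -1) (by norm_num) hy).sub_const (Zf θ H (-1) x)
  have hZp := (Zf_deriv L hUV hexp (s := 1) (by norm_num) hy).sub_const (Zf θ H 1 x)
  have h1 := ((hP.const_mul Complex.I).cexp).mul hZm
  have h2 := (((hP.const_mul Complex.I).neg).cexp).mul hZp
  -- the two expressions agree near `y`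
  have hev : (fun y => Complex.exp (Complex.I * Phi θ H (x, y)) *
      (Zf θ H (-1) y - Zf θ H (-1) x)) =ᶠ[𝓝 y]
      fun y => Complex.exp (-(Complex.I * Phi θ H (x, y))) * (Zf θ H 1 y - Zf θ H 1 x) := by
    have ho : {y' : ℂ | (x, y') ∈ N1 θ H V} ∈ 𝓝 y :=
      (L.open1.preimage (Continuous.prodMk_right x)).mem_nhds hN
    filter_upwards [ho, hU.mem_nhds hy] with y' hy' hyU
    have h3 := exp_Phi' hy'.2.1 hy'.2.2
    have hy0' := th_ne L hUV hexp hyU
    have a1 := As_Zf L hUV hexp (s := 1) hx hyU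
    have a2 := As_Zf L hUV hexp (s := -1) hx hyU
    have h4 : deriv θ x * deriv θ y' ≠ 0 := mul_ne_zero hx0 hy0'
    refine mul_left_cancel₀ h4 ?_
    linear_combination (y' - x) * h3 - Complex.exp (Complex.I * Phi θ H (x, y')) * a2 +
      Complex.exp (-(Complex.I * Phi θ H (x, y'))) * a1
  have h2' := h2.congr_of_eventuallyEq hev
  have h5 := h1.unique h2'
  -- value of the two expressions at `y`
  have h6 : Complex.exp (Complex.I * Phi θ H (x, y)) * (Zf θ H (-1) y - Zf θ H (-1) x) =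
      Complex.exp (-(Complex.I * Phi θ H (x, y))) * (Zf θ H 1 y - Zf θ H 1 x) :=
    hev.self_of_nhds
  have h7 : Complex.exp (Complex.I * Phi θ H (x, y)) * (Complex.I * P') *
        (Zf θ H (-1) y - Zf θ H (-1) x) +
      Complex.exp (Complex.I * Phi θ H (x, y)) *
        (Complex.exp (-1 * (Complex.I * θ y)) / deriv θ y ^ 2) =
      Complex.cos (Phi θ H (x, y) - θ y) / deriv θ y ^ 2 := by
    have e1 : Complex.cos (Phi θ H (x, y) - θ y) =
        (Complex.exp (Complex.I * Phi θ H (x, y)) * Complex.exp (-1 * (Complex.I * θ y)) +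
        Complex.exp (-(Complex.I * Phi θ H (x, y))) * Complex.exp (1 * (Complex.I * θ y))) / 2 := by
      rw [Complex.cos, ← Complex.exp_add, ← Complex.exp_add]
      congr 3
      · ring_nf
      · ring_nf
    rw [e1]
    have h8 : Complex.exp (Complex.I * Phi θ H (x, y)) * (Complex.I * P') *
        (Zf θ H (-1) y - Zf θ H (-1) x) +
      Complex.exp (Complex.I * Phi θ H (x, y)) *
        (Complex.exp (-1 * (Complex.I * θ y)) / deriv θ y ^ 2) =
      Complex.exp (-(Complex.I * Phi θ H (x, y))) * (-(Complex.I * P')) *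
        (Zf θ H 1 y - Zf θ H 1 x) +
      Complex.exp (-(Complex.I * Phi θ H (x, y))) *
        (Complex.exp (1 * (Complex.I * θ y)) / deriv θ y ^ 2) := h5
    linear_combination (1 / 2 : ℂ) * h8 + (1 / 2 * (Complex.I * P')) * h6
  rw [← h7]
  exact h1

/-- `4 (arc - chord)` -/
lemma LL_eq {c : ℂ} {ρ : ℝ} (hb : ball c ρ ⊆ U) {S : ℂ → ℂ}
    (hS : ∀ z ∈ ball c ρ, HasDerivAt S (Complex.exp (-2 * q z)) z) {x y : ℂ} (hx : x ∈ ball c ρ)
    (hy : y ∈ ball c ρ) (hN : (x, y) ∈ N1 θ H V)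
    (h1 : ‖As θ H 1 (x, y) * Complex.exp (q x - q y) * Complex.exp (-(1 * (Complex.I * θ x))) - 1‖
      < 1 / 2)
    (h2 : ‖As θ H (-1) (x, y) * Complex.exp (q x - q y) *
      Complex.exp (-(-1 * (Complex.I * θ x))) - 1‖ < 1 / 2)
    (h3 : ‖Complex.exp (Complex.I * Phi θ H (x, y)) * As θ H (-1) (x, y) *
      Complex.exp (q x - q y) - 1‖ < 1 / 2) :
    LL (PsiQ q) x y = 4 * ((S y - S x) - Complex.exp (Complex.I * Phi θ H (x, y)) *
      (Zf θ H (-1) y - Zf θ H (-1) x)) := by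
  have hxU := hb hx
  have hyU := hb hy
  set A := Pj q 0 x y with hA
  have eP : Pj q Complex.I x y = As θ H 1 (x, y) * Complex.exp (q x - q y) *
      Complex.exp (-(1 * (Complex.I * θ x))) := by
    have := Pj_eq L hUV hq hexp hb (s := 1) (by norm_num) hx hy
    rwa [one_mul] at this
  have eM : Pj q (-Complex.I) x y = As θ H (-1) (x, y) * Complex.exp (q x - q y) *
      Complex.exp (-(-1 * (Complex.I * θ x))) := by
    have := Pj_eq L hUV hq hexp hb (s := -1) (by norm_num) hx hy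
    rwa [neg_one_mul] at this
  -- the square roots
  have hre : ∀ v : ℂ, ‖v - 1‖ < 1 / 2 → 0 < (v ^ (1 / 2 : ℂ)).re ∧ (v ^ (1 / 2 : ℂ)) ^ 2 = v ∧
      |(v ^ (1 / 2 : ℂ)).im| < (v ^ (1 / 2 : ℂ)).re := by
    intro v hv
    have e2 : (1 / 2 : ℂ) = (2 : ℂ)⁻¹ := by norm_num
    rw [e2]
    have hvre : 1 / 2 < v.re := by
      have h4 := (Complex.abs_re_le_norm (v - 1)).trans_lt hv
      rw [Complex.sub_re, Complex.one_re] at h4
      linarith [(abs_lt.1 h4).1]
    have hsq : (v ^ (2⁻¹ : ℂ)) ^ 2 = v := by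
      have := Complex.cpow_nat_inv_pow v (n := 2) (by norm_num)
      rw [Nat.cast_ofNat] at this
      exact this
    have hpos : 0 < (v ^ (2⁻¹ : ℂ)).re := by
      rw [Complex.cpow_inv_two_re]
      apply Real.sqrt_pos.2
      have := norm_nonneg v
      linarith
    refine ⟨hpos, hsq, ?_⟩
    have h5 : v.re = (v ^ (2⁻¹ : ℂ)).re ^ 2 - (v ^ (2⁻¹ : ℂ)).im ^ 2 := by
      conv_lhs => rw [← hsq]
      rw [sq, Complex.mul_re]
      ring
    have h6 : (v ^ (2⁻¹ : ℂ)).im ^ 2 < (v ^ (2⁻¹ : ℂ)).re ^ 2 := by linarith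
    exact abs_lt_of_sq_lt_sq h6 hpos.le
  obtain ⟨a1, a2, a3⟩ := hre _ h1
  obtain ⟨b1, b2, b3⟩ := hre _ h2
  have hprod : Pj q Complex.I x y ^ (1 / 2 : ℂ) * Pj q (-Complex.I) x y ^ (1 / 2 : ℂ) =
      Complex.exp (Complex.I * Phi θ H (x, y)) * As θ H (-1) (x, y) * Complex.exp (q x - q y) := by
    rw [eP, eM]
    set p1 := (As θ H 1 (x, y) * Complex.exp (q x - q y) *
      Complex.exp (-(1 * (Complex.I * θ x)))) ^ (1 / 2 : ℂ) with hp1
    set p2 := (As θ H (-1) (x, y) * Complex.exp (q x - q y) *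
      Complex.exp (-(-1 * (Complex.I * θ x)))) ^ (1 / 2 : ℂ) with hp2
    set Λ := Complex.exp (Complex.I * Phi θ H (x, y)) * As θ H (-1) (x, y) *
      Complex.exp (q x - q y) with hΛ
    have e3 := exp_Phi' hN.2.1 hN.2.2
    have ee : Complex.exp (Complex.I * Phi θ H (x, y)) *
        Complex.exp (-(Complex.I * Phi θ H (x, y))) = 1 := by rw [← Complex.exp_add]; simp
    have et : Complex.exp (-(1 * (Complex.I * θ x))) * Complex.exp (-(-1 * (Complex.I * θ x))) =
        1 := by rw [← Complex.exp_add]; simp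
    have e4 : (p1 * p2) ^ 2 = Λ ^ 2 := by
      rw [mul_pow, a2, b2, hΛ]
      have e5 : As θ H 1 (x, y) = Complex.exp (Complex.I * Phi θ H (x, y)) ^ 2 *
          As θ H (-1) (x, y) := by
        calc As θ H 1 (x, y) = (Complex.exp (Complex.I * Phi θ H (x, y)) *
              Complex.exp (-(Complex.I * Phi θ H (x, y)))) * As θ H 1 (x, y) := by
              rw [ee, one_mul]
          _ = Complex.exp (Complex.I * Phi θ H (x, y)) *
              (Complex.exp (-(Complex.I * Phi θ H (x, y))) * As θ H 1 (x, y)) := by ring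
          _ = _ := by rw [← e3]; ring
      rw [e5]
      linear_combination (Complex.exp (Complex.I * Phi θ H (x, y)) ^ 2 *
        As θ H (-1) (x, y) ^ 2 * Complex.exp (q x - q y) ^ 2) * et
    have e6 : (p1 * p2 - Λ) * (p1 * p2 + Λ) = 0 := by linear_combination e4
    rcases mul_eq_zero.1 e6 with h | h
    · exact sub_eq_zero.1 h
    · exfalso
      have hr1 : 0 < (p1 * p2).re := by
        rw [Complex.mul_re]
        have h4 : |p1.im * p2.im| < p1.re * p2.re := by
          rw [abs_mul]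
          exact mul_lt_mul'' a3 b3 (abs_nonneg _) (abs_nonneg _)
        linarith [(abs_lt.1 h4).2]
      have hr2 : 0 < Λ.re := by
        have h4 := (Complex.abs_re_le_norm (Λ - 1)).trans_lt h3
        rw [Complex.sub_re, Complex.one_re] at h4
        linarith [(abs_lt.1 h4).1]
      have h7 : (p1 * p2 + Λ).re = 0 := by rw [h]; rfl
      rw [Complex.add_re] at h7
      linarith
  have hA0 := Pj0_eq L hUV hq hexp hb hS hx hy
  have hex := Complex.exp_ne_zero (2 * q x)
  have hZ := As_Zf L hUV hexp (s := -1) hxU hyU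
  have e8 : Complex.exp (q x - q y) * (deriv θ x * deriv θ y) = Complex.exp (2 * q x) := by
    rw [← hexp x hxU, ← hexp y hyU, ← Complex.exp_add, ← Complex.exp_add]
    congr 1
    ring
  -- closed form
  have key : (y - x) * (A - Pj q Complex.I x y ^ (1 / 2 : ℂ) * Pj q (-Complex.I) x y ^ (1 / 2 : ℂ)) =
      Complex.exp (2 * q x) * ((S y - S x) - Complex.exp (Complex.I * Phi θ H (x, y)) *
        (Zf θ H (-1) y - Zf θ H (-1) x)) := by
    rw [mul_sub, hA0, hprod, ← e8]
    linear_combination (-(Complex.exp (Complex.I * Phi θ H (x, y)) * Complex.exp (q x - q y))) * hZ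
  unfold LL PsiQ
  rcases eq_or_ne y x with h | h
  · subst h
    simp
  · rw [if_neg h]
    have hyx : y - x ≠ 0 := sub_ne_zero.2 h
    have e9 : (y - x) ^ 3 * (4 * (Pj q 0 x y - Pj q Complex.I x y ^ (1 / 2 : ℂ) *
        Pj q (-Complex.I) x y ^ (1 / 2 : ℂ)) / ((y - x) ^ 2 * Complex.exp (2 * q x))) =
        4 * ((y - x) * (A - Pj q Complex.I x y ^ (1 / 2 : ℂ) *
          Pj q (-Complex.I) x y ^ (1 / 2 : ℂ))) / Complex.exp (2 * q x) := by
      rw [← hA]
      field_simp
    rw [e9, key]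
    field_simp

/-- good pairs -/
def Gd (V : Set ℂ) (θ H q : ℂ → ℂ) (p : ℂ × ℂ) : Prop :=
  p ∈ ND θ H V ∧
  ‖As θ H 1 p * Complex.exp (q p.1 - q p.2) * Complex.exp (-(1 * (Complex.I * θ p.1))) - 1‖
    < 1 / 2 ∧
  ‖As θ H (-1) p * Complex.exp (q p.1 - q p.2) * Complex.exp (-(-1 * (Complex.I * θ p.1))) - 1‖
    < 1 / 2 ∧
  ‖Complex.exp (Complex.I * Phi θ H p) * As θ H (-1) p * Complex.exp (q p.1 - q p.2) - 1‖ < 1 / 2

omit hexp in
include hU in
lemma Gd_near {y : ℂ} (hy : y ∈ U) : ∀ᶠ p in 𝓝 ((y, y) : ℂ × ℂ), Gd V θ H q p := by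
  have hyV := hUV hy
  have hm : ((y, y) : ℂ × ℂ) ∈ V ×ˢ V := ⟨hyV, hyV⟩
  have hVV : V ×ˢ V ∈ 𝓝 ((y, y) : ℂ × ℂ) := (L.op.prod L.op).mem_nhds hm
  have c1 : ∀ s : ℂ, ContinuousAt (As θ H s) (y, y) := fun s =>
    ((L.As_diff s).differentiableAt hVV).continuousAt
  have hqy : ContinuousAt q y := (hq.differentiableAt (hU.mem_nhds hy)).continuousAt
  have c2 : ContinuousAt (fun p : ℂ × ℂ => Complex.exp (q p.1 - q p.2)) (y, y) := by
    have e1 : ContinuousAt (fun p : ℂ × ℂ => q p.1) (y, y) :=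
      ContinuousAt.comp (f := fun p : ℂ × ℂ => p.1) (g := q) hqy continuousAt_fst
    have e2 : ContinuousAt (fun p : ℂ × ℂ => q p.2) (y, y) :=
      ContinuousAt.comp (f := fun p : ℂ × ℂ => p.2) (g := q) hqy continuousAt_snd
    exact (e1.sub e2).cexp
  have hθy : ContinuousAt θ y := (L.hθ hyV).continuousAt
  have c3 : ContinuousAt (fun p : ℂ × ℂ => θ p.1) (y, y) :=
    ContinuousAt.comp (f := fun p : ℂ × ℂ => p.1) (g := θ) hθy continuousAt_fst
  have c4 : ContinuousAt (Phi θ H) (y, y) :=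
    (L.Phi_diff.differentiableAt (L.open1.mem_nhds (L.diag_mem hyV).1)).continuousAt
  have v1 : ∀ s : ℂ, s ^ 2 = 1 → ∀ᶠ p in 𝓝 ((y, y) : ℂ × ℂ),
      ‖As θ H s p * Complex.exp (q p.1 - q p.2) * Complex.exp (-(s * (Complex.I * θ p.1))) - 1‖
        < 1 / 2 := by
    intro s hs
    have c5 : ContinuousAt (fun p : ℂ × ℂ => ‖As θ H s p * Complex.exp (q p.1 - q p.2) *
        Complex.exp (-(s * (Complex.I * θ p.1))) - 1‖) (y, y) :=
      ((((c1 s).mul c2).mul (continuousAt_const.mul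
        (continuousAt_const.mul c3)).neg.cexp).sub continuousAt_const).norm
    refine c5.eventually_lt continuousAt_const ?_
    simp only
    rw [L.As_diag hs hyV, sub_self, Complex.exp_zero, mul_one, ← Complex.exp_add]
    simp
  have v3 : ∀ᶠ p in 𝓝 ((y, y) : ℂ × ℂ),
      ‖Complex.exp (Complex.I * Phi θ H p) * As θ H (-1) p * Complex.exp (q p.1 - q p.2) - 1‖
        < 1 / 2 := by
    have c5 : ContinuousAt (fun p : ℂ × ℂ => ‖Complex.exp (Complex.I * Phi θ H p) *
        As θ H (-1) p * Complex.exp (q p.1 - q p.2) - 1‖) (y, y) :=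
      (((((continuousAt_const.mul c4).cexp).mul (c1 (-1))).mul c2).sub continuousAt_const).norm
    refine c5.eventually_lt continuousAt_const ?_
    simp only
    rw [L.As_diag (by norm_num) hyV, L.Phi_diag hyV, sub_self, Complex.exp_zero, mul_one,
      ← Complex.exp_add]
    simp
  filter_upwards [L.openD.mem_nhds (L.diag_mem hyV), v1 1 (by norm_num), v1 (-1) (by norm_num),
    v3] with p h1 h2 h3 h4
  exact ⟨h1, h2, h3, h4⟩

include hU in
/-- **(c1)** the law of the momentum function implies the reflection law of `PsiQ` -/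
theorem el_of_kk {Q : Set ℂ} (hQ : IsCompact Q) (hQU : Q ⊆ U) :
    ∃ δ > 0, ∀ x y z : ℂ, y ∈ Q → ‖x - y‖ < δ → ‖z - y‖ < δ →
      kk θ H (y, z - y) = -kk θ H (y, x - y) → EL (PsiQ q) x y z = 0 := by
  obtain ⟨ρ, hρ, hρU⟩ := hQ.exists_thickening_subset_open hU hQU
  have hK : IsCompact ((fun y : ℂ => ((y, y) : ℂ × ℂ)) '' Q) := hQ.image (by fun_prop)
  have hO : IsOpen {p : ℂ × ℂ | ∀ᶠ p' in 𝓝 p, Gd V θ H q p'} := isOpen_setOfPred_eventually_nhds
  obtain ⟨δ₁, hδ₁, hδO⟩ := hK.exists_thickening_subset_open hO (by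
    rintro _ ⟨y, hy, rfl⟩
    exact Gd_near L hU hUV hq (hQU hy))
  refine ⟨min ρ δ₁, lt_min hρ hδ₁, ?_⟩
  intro x y z hy hx hz hk
  have hb : ball y ρ ⊆ U := fun w hw => hρU (mem_thickening_iff.2 ⟨y, hy, hw⟩)
  have hG : ∀ a b : ℂ, ‖a - y‖ < min ρ δ₁ → ‖b - y‖ < min ρ δ₁ → Gd V θ H q (a, b) := by
    intro a b ha hb'
    have : ((a, b) : ℂ × ℂ) ∈ thickening δ₁ ((fun y : ℂ => ((y, y) : ℂ × ℂ)) '' Q) := by
      refine mem_thickening_iff.2 ⟨(y, y), ⟨y, hy, rfl⟩, ?_⟩
      rw [Prod.dist_eq, max_lt_iff, dist_eq_norm, dist_eq_norm]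
      exact ⟨ha.trans_le (min_le_right _ _), hb'.trans_le (min_le_right _ _)⟩
    exact (hδO this).self_of_nhds
  have hm : ∀ a : ℂ, ‖a - y‖ < min ρ δ₁ → a ∈ ball y ρ := fun a ha => by
    rw [mem_ball, dist_eq_norm]; exact ha.trans_le (min_le_left _ _)
  have hyy : ‖y - y‖ < min ρ δ₁ := by rw [sub_self, norm_zero]; exact lt_min hρ hδ₁
  have hev : ∀ᶠ y' in 𝓝 y, ‖y' - y‖ < min ρ δ₁ := by
    filter_upwards [ball_mem_nhds y (lt_min hρ hδ₁)] with y' hy'
    rwa [mem_ball, dist_eq_norm] at hy'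
  have hyU := hQU hy
  have hy0 := th_ne L hUV hexp hyU
  -- primitive of `exp (-2 q)`
  obtain ⟨S, hS⟩ : ∃ S : ℂ → ℂ, ∀ w ∈ ball y ρ, HasDerivAt S (Complex.exp (-2 * q w)) w :=
    ((hq.mono hb).const_mul (-2)).cexp.isExactOn_ball
  -- square of the momentum
  have hsq : ∀ a : ℂ, ‖a - y‖ < min ρ δ₁ →
      4 * (Complex.exp (-2 * q y) - Complex.cos (Phi θ H (a, y) - θ y) / deriv θ y ^ 2) =
        kk θ H (y, a - y) ^ 2 / 2 := by
    intro a ha
    have hD := (hG y a hyy ha).1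
    have h1 := kx_mul hD.1.2.1 hD.1.2.2 hD.2
    have h2 : kk θ H (y, a - y) = kx θ H (y, a) := by
      unfold kk
      simp only [add_sub_cancel]
    have h3 : Complex.exp (-2 * q y) * deriv θ y ^ 2 = 1 := by
      rw [← hexp y hyU, ← Complex.exp_nat_mul, ← Complex.exp_add]
      have : -2 * q y + ((2 : ℕ) : ℂ) * q y = 0 := by push_cast; ring
      rw [this, Complex.exp_zero]
    have h4 : Complex.cos (Phi θ H (a, y) - θ y) =
        1 - 2 * Complex.sin ((Phi θ H (y, a) - θ y) / 2) ^ 2 := by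
      rw [Phi_swap y a]
      have h5 := Complex.cos_two_mul ((Phi θ H (y, a) - θ y) / 2)
      have h6 := Complex.sin_sq_add_cos_sq ((Phi θ H (y, a) - θ y) / 2)
      have h7 : 2 * ((Phi θ H (y, a) - θ y) / 2) = Phi θ H (y, a) - θ y := by ring
      rw [h7] at h5
      linear_combination h5 + 2 * h6
    rw [h2, h4]
    have h8 : kx θ H (y, a) = 4 * Complex.sin ((Phi θ H (y, a) - θ y) / 2) / deriv θ y := by
      rw [← h1]; field_simp
    have h9 : Complex.exp (-2 * q y) = 1 / deriv θ y ^ 2 := by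
      rw [← h3]; field_simp
    rw [h8, h9]
    field_simp
    ring
  -- first term
  have t1 : deriv (fun y' => LL (PsiQ q) x y') y = kk θ H (y, x - y) ^ 2 / 2 := by
    have e1 : (fun y' => LL (PsiQ q) x y') =ᶠ[𝓝 y] fun y' => 4 * ((S y' - S x) -
        Complex.exp (Complex.I * Phi θ H (x, y')) * (Zf θ H (-1) y' - Zf θ H (-1) x)) := by
      filter_upwards [hev] with y' hy'
      have hg := hG x y' hx hy'
      exact LL_eq L hUV hq hexp hb hS (hm x hx) (hm y' hy') hg.1.1 hg.2.1 hg.2.2.1 hg.2.2.2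
    rw [e1.deriv_eq, ← hsq x hx]
    exact ((((hS y (mem_ball_self hρ)).sub_const _).sub
      (chord_deriv L hU hUV hq hexp (hb (hm x hx)) hyU (hG x y hx hyy).1.1)).const_mul 4).deriv
  have t2 : deriv (fun y' => LL (PsiQ q) y' z) y = -(kk θ H (y, z - y) ^ 2 / 2) := by
    have e1 : (fun y' => LL (PsiQ q) y' z) =ᶠ[𝓝 y] fun y' => -(4 * ((S y' - S z) -
        Complex.exp (Complex.I * Phi θ H (z, y')) * (Zf θ H (-1) y' - Zf θ H (-1) z))) := by
      filter_upwards [hev] with y' hy'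
      have hg := hG y' z hy' hz
      rw [LL_eq L hUV hq hexp hb hS (hm y' hy') (hm z hz) hg.1.1 hg.2.1 hg.2.2.1 hg.2.2.2,
        Phi_swap z y']
      ring
    rw [e1.deriv_eq, ← hsq z hz]
    exact ((((hS y (mem_ball_self hρ)).sub_const _).sub
      (chord_deriv L hU hUV hq hexp (hb (hm z hz)) hyU (hG z y hz hyy).1.1)).const_mul 4).neg.deriv
  unfold EL
  rw [t1, t2, hk]
  ring

end

end Crest.Agent.R102.P2c596
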