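import Crest.Agent.R102.MelData_490
import Crest.Agent.R102.P2c_596

/-!
# Row 102, [T5]/MEL: (K→PSI), transfer of one side to `T5R.Fam (PsiQ q)` (helper490)
-/

set_option autoImplicit false

open Set Filter Topology Metric
open scoped ComplexConjugate

noncomputable section

namespace Crest.Agent.R102.Mel

open Crest.Agent.R102.T5R Crest.Agent.R102.C1 Crest.Agent.R102.C1Sec963 Crest.Agent.R102.P2c596

lemma exp_add_pi (z : ℂ) : Complex.exp (z + Real.pi * Complex.I) = -Complex.exp z := by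
  rw [Complex.exp_add, Complex.exp_pi_mul_I]; ring

lemma Pj_add_pi (q : ℂ → ℂ) (j x y : ℂ) :
    Pj (fun τ => q τ + Real.pi * Complex.I) j x y = Pj q (-j) x y := by
  unfold Pj
  refine intervalIntegral.integral_congr (fun s _ => ?_)
  simp only [add_sub_add_right_eq_sub, exp_add_pi, intervalIntegral.integral_neg]
  congr 2
  ring

lemma PsiQ_add_pi (q : ℂ → ℂ) : PsiQ (fun τ => q τ + Real.pi * Complex.I) = PsiQ q := by
  funext x y
  unfold PsiQ
  simp only [Pj_add_pi, neg_zero, neg_neg]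
  have h : Complex.exp (2 * (q x + Real.pi * Complex.I)) = Complex.exp (2 * q x) := by
    rw [mul_add, Complex.exp_add]
    have : (2 : ℂ) * (Real.pi * Complex.I) = 2 * Real.pi * Complex.I := by ring
    rw [this, Complex.exp_two_pi_mul_I, mul_one]
  rw [h]
  split_ifs
  · rfl
  · ring

/-- larger sector -/
def Wl (κ l : ℝ) : Set ℂ := {τ | τ ≠ 0 ∧ l * ‖τ‖ < 1 ∧ τ.im < κ * ‖τ‖}

lemma Wl_open (κ l : ℝ) : IsOpen (Wl κ l) := by
  refine IsOpen.inter isOpen_ne (IsOpen.inter ?_ ?_)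
  · exact isOpen_lt (continuous_const.mul continuous_norm) continuous_const
  · exact isOpen_lt Complex.continuous_im (continuous_const.mul continuous_norm)

lemma Wl_scale {κ l : ℝ} (hl : 0 < l) {τ : ℂ} (h : τ ∈ Wl κ l) : (l : ℂ) * τ ∈ Sg κ := by
  obtain ⟨h1, h2, h3⟩ := h
  have hlc : (l : ℂ) ≠ 0 := by exact_mod_cast hl.ne'
  have hn : ‖(l : ℂ) * τ‖ = l * ‖τ‖ := by
    rw [norm_mul, Complex.norm_real, Real.norm_of_nonneg hl.le]
  refine ⟨mul_ne_zero hlc h1, by rw [hn]; exact h2, ?_⟩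
  rw [hn, Complex.im_ofReal_mul l τ]
  nlinarith

lemma SgZ_mem {s a : ℂ} {ε κ ε₁ l : ℝ} (ha : a = 1 ∨ a = -1) (hε₁ : 0 < ε₁) (hε : ε₁ ≤ ε)
    (hl : 0 < l) {τ : ℂ} (h : τ ∈ Wl κ l) : s + a * (l * ε₁) * τ ∈ SgZ s a ε κ := by
  obtain ⟨h1, h2, h3⟩ := h
  have ha0 : a ≠ 0 := by rcases ha with h | h <;> rw [h] <;> norm_num
  have hna : ‖a‖ = 1 := by rcases ha with h | h <;> rw [h] <;> simp
  have hlc : (l : ℂ) ≠ 0 := by exact_mod_cast hl.ne'
  have hεc : (ε₁ : ℂ) ≠ 0 := by exact_mod_cast hε₁.ne'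
  have hn : ‖a * (l * ε₁) * τ‖ = l * ε₁ * ‖τ‖ := by
    rw [norm_mul, norm_mul, norm_mul, hna, Complex.norm_real, Complex.norm_real,
      Real.norm_of_nonneg hl.le, Real.norm_of_nonneg hε₁.le, one_mul]
  have he : s + a * (l * ε₁) * τ - s = a * (l * ε₁) * τ := by ring
  refine ⟨?_, ?_, ?_⟩
  · intro h0
    rw [add_eq_left] at h0
    exact (mul_ne_zero (mul_ne_zero ha0 (mul_ne_zero hlc hεc)) h1) h0
  · rw [he, hn]
    nlinarith
  · rw [he, hn]
    have e2 : a * (l * ε₁) * τ / a = ((l * ε₁ : ℝ) : ℂ) * τ := by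
      push_cast; field_simp
    rw [e2, Complex.im_ofReal_mul]
    have : 0 < l * ε₁ := by positivity
    nlinarith

/-- compact annular sectors -/
def Qa (κ' α R : ℝ) : Set ℂ := {τ | α ≤ ‖τ‖ ∧ ‖τ‖ ≤ R ∧ τ.im ≤ κ' * ‖τ‖}

lemma Qa_compact (κ' α R : ℝ) : IsCompact (Qa κ' α R) := by
  refine IsCompact.of_isClosed_subset (isCompact_closedBall (0 : ℂ) R) ?_ ?_
  · refine IsClosed.inter ?_ (IsClosed.inter ?_ ?_)
    · exact isClosed_le continuous_const continuous_norm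
    · exact isClosed_le continuous_norm continuous_const
    · exact isClosed_le Complex.continuous_im (continuous_const.mul continuous_norm)
  · intro τ hτ
    rw [mem_closedBall_zero_iff]
    exact hτ.2.1

lemma Qa_sub {κ κ' α R l : ℝ} (hα : 0 < α) (hκ : κ' < κ) (hR : l * R < 1) (hl : 0 < l) :
    Qa κ' α R ⊆ Wl κ l := by
  rintro τ ⟨h1, h2, h3⟩
  have hpos : 0 < ‖τ‖ := lt_of_lt_of_le hα h1
  refine ⟨norm_pos_iff.1 hpos, ?_, ?_⟩
  · nlinarith
  · nlinarith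

/-- uniform data at distance `≥ α` -/
theorem kpsi_unif {s a : ℂ} {ε κ : ℝ} {θ H : ℂ → ℂ} {X : ℂ × ℂ → ℂ} (S : SideZ s a ε κ θ H X)
    {ε₁ l κ' : ℝ} {q : ℂ → ℂ} (hε₁ : 0 < ε₁) (hε : ε₁ ≤ ε) (hl : 0 < l) (hl1 : l < 1)
    (hκ' : 0 < κ') (hκ : κ' < κ) (hq : DifferentiableOn ℂ q (Sg κ))
    (hexp : ∀ τ ∈ Sg κ, Complex.exp (q τ) = ε₁ * deriv θ (s + a * ε₁ * τ)) {α : ℝ} (hα : 0 < α) :
    ∃ r B : ℝ, 0 < r ∧ 
      (∀ t w : ℂ, t ∈ Qa κ' α 1 → ‖w‖ < r → DifferentiableAt ℂ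
        (fun p : ℂ × ℂ => (X (s + a * (l * ε₁) * p.1, a * (l * ε₁) * p.2) - s) / (a * (l * ε₁)))
        (t, w)) ∧
      (∀ t w : ℂ, t ∈ Qa κ' α 1 → ‖w‖ < r →
        ‖(X (s + a * (l * ε₁) * t, a * (l * ε₁) * w) - s) / (a * (l * ε₁)) - t‖ ≤ B * ‖w‖ ^ 2) ∧
      (∀ t w : ℂ, t ∈ Qa κ' α 1 → ‖w‖ < r →
        X (s + a * (l * ε₁) * t, a * (l * ε₁) * (-w)) =
          X (s + a * (l * ε₁) * t, a * (l * ε₁) * w)) ∧
      (∀ t w : ℂ, t ∈ Qa κ' α 1 → t - w ∈ Qa κ' α 1 → t + w ∈ Qa κ' α 1 → ‖w‖ < r →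
        EL (PsiQ (scq l q))
          ((X (s + a * (l * ε₁) * (t - w), a * (l * ε₁) * w) - s) / (a * (l * ε₁)))
          ((X (s + a * (l * ε₁) * t, a * (l * ε₁) * w) - s) / (a * (l * ε₁)))
          ((X (s + a * (l * ε₁) * (t + w), a * (l * ε₁) * w) - s) / (a * (l * ε₁))) = 0) := by
  have ha0 : a ≠ 0 := by rcases S.ha with h | h <;> rw [h] <;> norm_num
  have hna : ‖a‖ = 1 := by rcases S.ha with h | h <;> rw [h] <;> simp
  have hlc : (l : ℂ) ≠ 0 := by exact_mod_cast hl.ne'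
  have hεc : (ε₁ : ℂ) ≠ 0 := by exact_mod_cast hε₁.ne'
  set μ : ℂ := a * (l * ε₁) with hμdef
  have hμ : μ ≠ 0 := mul_ne_zero ha0 (mul_ne_zero hlc hεc)
  have hnμ : ‖μ‖ = l * ε₁ := by
    rw [hμdef, norm_mul, norm_mul, hna, Complex.norm_real, Complex.norm_real,
      Real.norm_of_nonneg hl.le, Real.norm_of_nonneg hε₁.le, one_mul]
  have hμpos : 0 < ‖μ‖ := norm_pos_iff.2 hμ
  -- the scaled curve
  have L : LZ ((fun t => s + μ * t) ⁻¹' SgZ s a ε κ) (thS θ s μ) (HS H s μ) := LZ_S hμ S.lz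
  have hWV : Wl κ l ⊆ (fun t => s + μ * t) ⁻¹' SgZ s a ε κ := fun τ hτ =>
    SgZ_mem S.ha hε₁ hε hl hτ
  -- the logarithm
  have hqd : DifferentiableOn ℂ (scq l q) (Wl κ l) := by
    have h0 : DifferentiableOn ℂ (fun τ : ℂ => q ((l : ℂ) * τ)) (Wl κ l) :=
      hq.comp (f := fun τ : ℂ => (l : ℂ) * τ) (by fun_prop) (fun τ hτ => Wl_scale hl hτ)
    exact h0.add_const ((Real.log l : ℝ) : ℂ)
  have hqe : ∀ τ ∈ Wl κ l, a * Complex.exp (scq l q τ) = deriv (thS θ s μ) τ := by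
    intro τ hτ
    rw [thS_deriv]
    unfold scq
    rw [Complex.exp_add, hexp _ (Wl_scale hl hτ), ← Complex.ofReal_exp, Real.exp_log hl]
    have e : s + a * ε₁ * ((l : ℂ) * τ) = s + μ * τ := by rw [hμdef]; ring
    rw [e, hμdef]; ring
  -- compact sets
  set R : ℝ := (1 + 1 / l) / 2 with hR
  have hl' : 1 < 1 / l := by rw [lt_div_iff₀ hl]; linarith
  have hR1 : 1 < R := by rw [hR]; linarith
  have hRl : l * R < 1 := by
    have : R < 1 / l := by rw [hR]; linarith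
    rwa [lt_div_iff₀ hl, mul_comm] at this
  set κ₁ : ℝ := (κ' + κ) / 2 with hκ₁
  have hQ : Qa κ₁ (α / 2) R ⊆ Wl κ l := Qa_sub (by positivity) (by rw [hκ₁]; linarith) hRl hl
  have hel : ∃ δ > 0, ∀ x y z : ℂ, y ∈ Qa κ₁ (α / 2) R → ‖x - y‖ < δ → ‖z - y‖ < δ →
      kk (thS θ s μ) (HS H s μ) (y, z - y) = -kk (thS θ s μ) (HS H s μ) (y, x - y) →
      EL (PsiQ (scq l q)) x y z = 0 := by
    rcases S.ha with h | h
    · refine el_of_kk L (Wl_open κ l) hWV hqd ?_ (Qa_compact _ _ _) hQ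
      intro z hz
      rw [← hqe z hz, h, one_mul]
    · rw [← PsiQ_add_pi (scq l q)]
      refine el_of_kk L (Wl_open κ l) hWV (hqd.add_const _) ?_ (Qa_compact _ _ _) hQ
      intro z hz
      rw [exp_add_pi, ← hqe z hz, h]; ring
  obtain ⟨δ, hδ, hel⟩ := hel
  -- thickening
  obtain ⟨d, hd, hdQ⟩ : ∃ d > 0, thickening d (Qa κ' α 1) ⊆ Qa κ₁ (α / 2) R := by
    have hO : IsOpen {τ : ℂ | α / 2 < ‖τ‖ ∧ ‖τ‖ < R ∧ τ.im < κ₁ * ‖τ‖} := by
      refine IsOpen.inter ?_ (IsOpen.inter ?_ ?_)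
      · exact isOpen_lt continuous_const continuous_norm
      · exact isOpen_lt continuous_norm continuous_const
      · exact isOpen_lt Complex.continuous_im (continuous_const.mul continuous_norm)
    obtain ⟨d, hd, h⟩ := (Qa_compact κ' α 1).exists_thickening_subset_open hO (by
      rintro τ ⟨h1, h2, h3⟩
      have hpos : 0 < ‖τ‖ := lt_of_lt_of_le hα h1
      refine ⟨by linarith, by linarith, ?_⟩
      rw [hκ₁]
      nlinarith)
    exact ⟨d, hd, fun τ hτ => by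
      obtain ⟨h1, h2, h3⟩ := h hτ
      exact ⟨h1.le, h2.le, h3.le⟩⟩
  -- the leaf function
  have hKc : IsCompact ((fun t => s + μ * t) '' Qa κ' α 1) :=
    (Qa_compact κ' α 1).image (by fun_prop)
  have hKV : (fun t => s + μ * t) '' Qa κ' α 1 ⊆ SgZ s a ε κ := by
    rintro _ ⟨t, ht, rfl⟩
    exact hWV (Qa_sub hα hκ (by linarith) hl ht)
  obtain ⟨σ, hσ, r₀, hr₀, B₀, hX⟩ := compact_unif S.leaf hKc hKV
  have hX' : ∀ t ∈ Qa κ' α 1, LeafOn (kk θ H) (ball (s + μ * t) σ) r₀ B₀ X :=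
    fun t ht => hX _ ⟨t, ht, rfl⟩
  set B : ℝ := |B₀| * ‖μ‖ with hB
  have hB0 : 0 ≤ B := by positivity
  set r : ℝ := min (min (r₀ / ‖μ‖) (σ / ‖μ‖)) (min 1 (min (d / (B + 1)) (δ / (2 * B + 2)))) with hr
  have hrpos : 0 < r := by
    rw [hr]
    refine lt_min (lt_min (by positivity) (by positivity)) (lt_min one_pos (lt_min ?_ ?_)) <;>
      positivity
  have hr1 : r ≤ r₀ / ‖μ‖ := (min_le_left _ _).trans (min_le_left _ _)
  have hr2 : r ≤ σ / ‖μ‖ := (min_le_left _ _).trans (min_le_right _ _)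
  have hr3 : r ≤ 1 := (min_le_right _ _).trans (min_le_left _ _)
  have hr4 : r ≤ d / (B + 1) := (min_le_right _ _).trans ((min_le_right _ _).trans (min_le_left _ _))
  have hr5 : r ≤ δ / (2 * B + 2) :=
    (min_le_right _ _).trans ((min_le_right _ _).trans (min_le_right _ _))
  have hw1 : ∀ w : ℂ, ‖w‖ < r → ‖μ * w‖ < r₀ := by
    intro w hw
    rw [norm_mul, mul_comm]
    have := hw.trans_le hr1
    rwa [lt_div_iff₀ hμpos] at this
  have hw2 : ∀ w : ℂ, ‖w‖ < r → ‖μ * w‖ < σ := by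
    intro w hw
    rw [norm_mul, mul_comm]
    have := hw.trans_le hr2
    rwa [lt_div_iff₀ hμpos] at this
  have hnear : ∀ t w : ℂ, t ∈ Qa κ' α 1 → ‖w‖ < r →
      ‖(X (s + μ * t, μ * w) - s) / μ - t‖ ≤ B * ‖w‖ ^ 2 := by
    intro t w ht hw
    have h1 := (hX' t ht).near (s + μ * t) (mem_ball_self hσ) (μ * w) (hw1 w hw)
    have e : (X (s + μ * t, μ * w) - s) / μ - t = (X (s + μ * t, μ * w) - (s + μ * t)) / μ := by
      field_simp; ring
    rw [e, norm_div, div_le_iff₀ hμpos]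
    refine h1.trans ?_
    rw [norm_mul, hB]
    have h2 : B₀ ≤ |B₀| := le_abs_self _
    calc B₀ * (‖μ‖ * ‖w‖) ^ 2 ≤ |B₀| * (‖μ‖ * ‖w‖) ^ 2 := by gcongr
      _ = |B₀| * ‖μ‖ * ‖w‖ ^ 2 * ‖μ‖ := by ring
  refine ⟨r, B, hrpos, ?_, hnear, ?_, ?_⟩
  · intro t w ht hw
    have h1 : DifferentiableAt ℂ X (s + μ * t, μ * w) := by
      refine (hX' t ht).diff.differentiableAt ((isOpen_ball.prod isOpen_ball).mem_nhds ?_)
      exact ⟨mem_ball_self hσ, by rw [mem_ball_zero_iff]; exact hw1 w hw⟩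
    have h2 : DifferentiableAt ℂ (fun p : ℂ × ℂ => X (s + μ * p.1, μ * p.2)) (t, w) :=
      DifferentiableAt.comp (t, w) (g := X) (f := fun p : ℂ × ℂ => (s + μ * p.1, μ * p.2))
        h1 (by fun_prop)
    have h3 : DifferentiableAt ℂ (fun p : ℂ × ℂ => (X (s + μ * p.1, μ * p.2) - s) * μ⁻¹) (t, w) :=
      (h2.sub_const s).mul_const μ⁻¹
    simpa only [div_eq_mul_inv] using h3
  · -- even
    intro t w ht hw
    have hmem : s + μ * t ∈ SgZ s a ε κ := hKV ⟨t, ht, rfl⟩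
    have hev := S.even _ hmem
    have hc : Tendsto (fun w : ℂ => ((s + μ * t, w) : ℂ × ℂ)) (𝓝 0) (𝓝 (s + μ * t, 0)) := by
      have : Continuous (fun w : ℂ => ((s + μ * t, w) : ℂ × ℂ)) := by fun_prop
      exact this.tendsto 0
    have hev' : (fun w : ℂ => X (s + μ * t, -w)) =ᶠ[𝓝 0] fun w => X (s + μ * t, w) :=
      hc.eventually hev
    have hd1 : DifferentiableOn ℂ (fun w : ℂ => X (s + μ * t, w)) (ball 0 r₀) := by
      refine (hX' t ht).diff.comp (f := fun w : ℂ => ((s + μ * t, w) : ℂ × ℂ)) (by fun_prop) ?_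
      intro w hw
      exact ⟨mem_ball_self hσ, hw⟩
    have hd2 : DifferentiableOn ℂ (fun w : ℂ => X (s + μ * t, -w)) (ball 0 r₀) := by
      refine hd1.comp (f := fun w : ℂ => -w) (by fun_prop) ?_
      intro w hw
      rw [mem_ball_zero_iff] at hw ⊢
      rwa [norm_neg]
    have heq := (hd2.analyticOnNhd isOpen_ball).eqOn_of_preconnected_of_eventuallyEq
      (hd1.analyticOnNhd isOpen_ball) (convex_ball (0 : ℂ) r₀).isPreconnected
      (mem_ball_self hr₀) hev'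
    have := heq (x := μ * w) (by rw [mem_ball_zero_iff]; exact hw1 w hw)
    simp only at this
    rw [mul_neg]
    exact this
  · -- law
    intro t w ht htm htp hw
    have hlaw := (hX' t ht).law (s + μ * t) (μ * w) (hw1 w hw)
      (by rw [mem_ball, dist_eq_norm]
          have : s + μ * t - μ * w - (s + μ * t) = -(μ * w) := by ring
          rw [this, norm_neg]; exact hw2 w hw)
      (mem_ball_self hσ)
      (by rw [mem_ball, dist_eq_norm]
          have : s + μ * t + μ * w - (s + μ * t) = μ * w := by ring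
          rw [this]; exact hw2 w hw)
    have e1 : s + μ * t + μ * w = s + μ * (t + w) := by ring
    have e2 : s + μ * t - μ * w = s + μ * (t - w) := by ring
    rw [e1, e2] at hlaw
    set x₀ := (X (s + μ * t, μ * w) - s) / μ with hx0
    set xm := (X (s + μ * (t - w), μ * w) - s) / μ with hxm
    set xp := (X (s + μ * (t + w), μ * w) - s) / μ with hxp
    have n0 := hnear t w ht hw
    have nm := hnear (t - w) w htm hw
    have np := hnear (t + w) w htp hw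
    rw [← hx0] at n0
    rw [← hxm] at nm
    rw [← hxp] at np
    have hww : ‖w‖ ^ 2 ≤ ‖w‖ := by
      have : ‖w‖ ≤ 1 := hw.le.trans hr3
      nlinarith [norm_nonneg w]
    have hBw : B * ‖w‖ ^ 2 ≤ B * ‖w‖ := by gcongr
    have hmemQ : x₀ ∈ Qa κ₁ (α / 2) R := by
      refine hdQ (mem_thickening_iff.2 ⟨t, ht, ?_⟩)
      rw [dist_eq_norm]
      have h6 : ‖w‖ * (B + 1) < d := by
        have := hw.trans_le hr4
        rwa [lt_div_iff₀ (by positivity)] at this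
      nlinarith [norm_nonneg w]
    have h7 : ‖w‖ * (2 * B + 2) < δ := by
      have := hw.trans_le hr5
      rwa [lt_div_iff₀ (by positivity)] at this
    refine hel xm x₀ xp hmemQ ?_ ?_ ?_
    · have e : xm - x₀ = (xm - (t - w)) - (x₀ - t) - w := by ring
      rw [e]
      refine lt_of_le_of_lt ((norm_sub_le _ _).trans (add_le_add_left (norm_sub_le _ _) _)) ?_
      nlinarith [norm_nonneg w]
    · have e : xp - x₀ = (xp - (t + w)) - (x₀ - t) + w := by ring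
      rw [e]
      refine lt_of_le_of_lt ((norm_add_le _ _).trans (add_le_add_left (norm_sub_le _ _) _)) ?_
      nlinarith [norm_nonneg w]
    · rw [kk_S hμ, kk_S hμ]
      have f0 : s + μ * x₀ = X (s + μ * t, μ * w) := by rw [hx0]; field_simp; ring
      have f1 : μ * (xp - x₀) = X (s + μ * (t + w), μ * w) - X (s + μ * t, μ * w) := by
        rw [hx0, hxp]; field_simp; ring
      have f2 : μ * (xm - x₀) = X (s + μ * (t - w), μ * w) - X (s + μ * t, μ * w) := by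
        rw [hx0, hxm]; field_simp; ring
      rw [f0, f1, f2, hlaw]
      ring

/-- **(K→PSI)** -/
theorem kPsi : KPsi := by
  intro s a ε κ θ H X S ε₁ l κ' q hε₁ hε hl hl1 hκ' hκ hq hexp
  have h := fun (α : ℝ) (hα : 0 < α) =>
    kpsi_unif S hε₁ hε hl hl1 hκ' hκ hq hexp hα
  choose! r B hr h1 h2 h3 h4 using h
  have hmem : ∀ (α : ℝ) (t : ℂ), t ∈ Sg κ' → α < ‖t‖ → t ∈ Qa κ' α 1 :=
    fun α t ht hα => ⟨hα.le, ht.2.1.le, ht.2.2.le⟩
  refine ⟨r, B, hr, ?_, ?_, ?_, ?_⟩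
  · rintro α hα p ⟨hp1, hp2, hp3⟩
    exact (h1 α hα p.1 p.2 (hmem α _ hp1 hp2) hp3).differentiableWithinAt
  · intro α hα t w ht hta hw
    exact h2 α hα t w (hmem α t ht hta) hw
  · intro α hα t w ht hta hw
    simp only
    rw [h3 α hα t w (hmem α t ht hta) hw]
  · intro α hα t w ht htm htp hta htma htpa hw
    exact h4 α hα t w (hmem α t ht hta) (hmem α _ htm htma) (hmem α _ htp htpa) hw

end Crest.Agent.R102.Mel
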