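import Mathlib
import Crest.Agent.R266.SCV

/-!
Row 102, T1-B (b): Kontinuitaetssatz, part A: Hartogs figures and the local extension at a
strictly pseudoconcave point (helper669).
-/

set_option autoImplicit false

open Set Filter Topology Metric Complex MeasureTheory
open scoped Real

noncomputable section

namespace Crest.Agent.R102.K669

open Crest.Agent.R266.SCV

variable {E : Type*} [NormedAddCommGroup E] [NormedSpace ℂ E] [CompleteSpace E]

/-- the Cauchy transform in the second variable -/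
def cau (F : ℂ × ℂ → E) (c : ℂ) (r : ℝ) (p : ℂ × ℂ) : E :=
  (2 * π * I : ℂ)⁻¹ • ∮ η in C(c, r), (η - p.2)⁻¹ • F (p.1, η)

/-- the kernel of the Cauchy transform -/
def ker (F : ℂ × ℂ → E) (c : ℂ) (r : ℝ) (q : (ℂ × ℂ) × ℝ) : E :=
  deriv (circleMap c r) q.2 • ((circleMap c r q.2 - q.1.2)⁻¹ • F (q.1.1, circleMap c r q.2))

/-- **Hartogs figure** -/
theorem hartogs {F : ℂ × ℂ → E} {D : Set (ℂ × ℂ)} (hD : IsOpen D) (hF : DifferentiableOn ℂ F D)
    {V : Set ℂ} (hV : IsOpen V) {c : ℂ} {r : ℝ} (hr : 0 < r)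
    (hVs : ∀ s ∈ V, ∀ η ∈ sphere c r, (s, η) ∈ D) :
    AnalyticOnNhd ℂ (cau F c r) (V ×ˢ ball c r) := by
  have hU : IsOpen (V ×ˢ ball c r) := hV.prod isOpen_ball
  have hh : ContinuousOn (ker F c r) ((V ×ˢ ball c r) ×ˢ uIcc (0:ℝ) (2 * π)) ∧
      ∀ t ∈ uIcc (0:ℝ) (2 * π), DifferentiableOn ℂ (fun x => ker F c r (x, t))
        (V ×ˢ ball c r) := by
    refine ⟨?_, ?_⟩
    · have hne : ∀ q ∈ ((V ×ˢ ball c r) ×ˢ uIcc (0:ℝ) (2 * π)),
          circleMap c r q.2 - q.1.2 ≠ 0 := by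
        rintro ⟨⟨s, w⟩, θ⟩ ⟨⟨hs, hw⟩, hθ⟩
        have h1 : circleMap c r θ ∈ sphere c r := circleMap_mem_sphere c hr.le θ
        intro h
        have h2 : w = circleMap c r θ := by
          have : circleMap c r θ - w = 0 := h
          exact (sub_eq_zero.1 this).symm
        rw [h2] at hw
        exact (ne_of_lt (mem_ball.1 hw)) (mem_sphere.1 h1)
      have hmap : MapsTo (fun q : (ℂ × ℂ) × ℝ => ((q.1.1, circleMap c r q.2) : ℂ × ℂ))
          ((V ×ˢ ball c r) ×ˢ uIcc (0:ℝ) (2 * π)) D := by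
        rintro ⟨⟨s, w⟩, θ⟩ ⟨⟨hs, hw⟩, hθ⟩
        exact hVs s hs _ (circleMap_mem_sphere c hr.le θ)
      have h1 : Continuous (fun q : (ℂ × ℂ) × ℝ => circleMap c r q.2) :=
        (continuous_circleMap c r).comp continuous_snd
      have h2 : Continuous (fun q : (ℂ × ℂ) × ℝ => deriv (circleMap c r) q.2) := by
        simp only [deriv_circleMap]
        exact ((continuous_circleMap 0 r).comp continuous_snd).mul continuous_const
      refine h2.continuousOn.smul (ContinuousOn.smul (ContinuousOn.inv₀ ?_ hne) ?_)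
      · exact (h1.sub (by fun_prop)).continuousOn
      · exact hF.continuousOn.comp (by fun_prop) hmap
    · intro θ _
      rintro ⟨s, w⟩ ⟨hs, hw⟩
      have hsp := circleMap_mem_sphere c hr.le θ
      have hne : circleMap c r θ - w ≠ 0 := by
        intro h
        have h2 : w = circleMap c r θ := (sub_eq_zero.1 h).symm
        have hw' : w ∈ ball c r := hw
        rw [h2] at hw'
        exact (ne_of_lt (mem_ball.1 hw')) (mem_sphere.1 hsp)
      refine DifferentiableAt.differentiableWithinAt ?_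
      have hFd : DifferentiableAt ℂ (fun p : ℂ × ℂ => F (p.1, circleMap c r θ)) (s, w) := by
        have h3 : DifferentiableAt ℂ F (s, circleMap c r θ) :=
          hF.differentiableAt (hD.mem_nhds (hVs s hs _ hsp))
        exact DifferentiableAt.comp (f := fun p : ℂ × ℂ => ((p.1, circleMap c r θ) : ℂ × ℂ))
          (s, w) h3 (by fun_prop)
      have h4 : DifferentiableAt ℂ (fun p : ℂ × ℂ => (circleMap c r θ - p.2)⁻¹) (s, w) :=
        DifferentiableAt.inv (by fun_prop) hne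
      exact DifferentiableAt.const_smul (h4.smul hFd) (deriv (circleMap c r) θ)
  have key := analyticOnNhd_intervalIntegral (E := ℂ × ℂ) (F := E) hU hh.1 hh.2
  have h6 := (((2 * π * I : ℂ)⁻¹ • ContinuousLinearMap.id ℂ E).comp_analyticOnNhd key)
  refine h6.congr hU ?_
  intro p hp
  simp only [cau, ker, circleIntegral, Function.comp_apply, _root_.smul_apply,
    ContinuousLinearMap.id_apply]

theorem cau_eq {F : ℂ × ℂ → E} {D : Set (ℂ × ℂ)} (hD : IsOpen D) (hF : DifferentiableOn ℂ F D)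
    {c : ℂ} {r : ℝ} {s : ℂ}
    (hs : ∀ η ∈ closedBall c r, (s, η) ∈ D) {w : ℂ} (hw : w ∈ ball c r) :
    cau F c r (s, w) = F (s, w) := by
  have h1 : DiffContOnCl ℂ (fun η => F (s, η)) (ball c r) := by
    have : DifferentiableOn ℂ (fun η => F (s, η)) (closedBall c r) := by
      intro η hη
      refine DifferentiableAt.differentiableWithinAt ?_
      exact DifferentiableAt.comp (f := fun η : ℂ => ((s, η) : ℂ × ℂ)) η
        (hF.differentiableAt (hD.mem_nhds (hs η hη))) (by fun_prop)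
    exact this.diffContOnCl_ball (subset_refl _)
  have h2 := h1.circleIntegral_sub_inv_smul hw
  simp only [cau]
  rw [h2, smul_smul, inv_mul_cancel₀, one_smul]
  simp [Real.pi_ne_zero, Complex.I_ne_zero]

/-- the value of the Cauchy transform at the centre lies in every open convex set containing the
values on the circle -/
theorem cau_center_mem {F : ℂ × ℂ → E} {D : Set (ℂ × ℂ)} (hF : ContinuousOn F D)
    {c : ℂ} {r : ℝ} (hr : 0 < r) {s : ℂ} (hs : ∀ η ∈ sphere c r, (s, η) ∈ D)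
    {C : Set E} (hCo : IsOpen C) (hCc : Convex ℝ C) (hC : ∀ η ∈ sphere c r, F (s, η) ∈ C) :
    cau F c r (s, c) ∈ C := by
  have hcont : ContinuousOn (fun η => F (s, η)) (sphere c r) :=
    hF.comp (by fun_prop) (fun η hη => hs η hη)
  -- formula as an average
  have h1 : cau F c r (s, c) = (2 * π)⁻¹ • ∫ θ in (0:ℝ)..(2 * π), F (s, circleMap c r θ) := by
    simp only [cau, circleIntegral]
    have : ∀ θ : ℝ, deriv (circleMap c r) θ • ((circleMap c r θ - c)⁻¹ • F (s, circleMap c r θ))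
        = I • F (s, circleMap c r θ) := by
      intro θ
      rw [smul_smul]
      congr 1
      rw [deriv_circleMap]
      have h0 : circleMap c r θ - c = circleMap 0 r θ := by simp [circleMap]
      rw [h0]
      have hne : circleMap 0 r θ ≠ 0 := circleMap_ne_center hr.ne'
      field_simp
    simp only [this]
    rw [intervalIntegral.integral_smul, smul_smul]
    have h2 : ((2 * π * I : ℂ)⁻¹ * I) = (((2 * π)⁻¹ : ℝ) : ℂ) := by
      push_cast
      have := Real.pi_ne_zero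
      field_simp
    rw [h2]
    exact (Complex.coe_smul _ _)
  rw [h1]
  set K := (fun η => F (s, η)) '' sphere c r with hK
  have hKc : IsCompact K := (isCompact_sphere c r).image_of_continuousOn hcont
  have hKC : K ⊆ C := by
    rintro _ ⟨η, hη, rfl⟩
    exact hC η hη
  obtain ⟨δ, hδ, hδC⟩ := hKc.exists_thickening_subset_open hCo hKC
  have hcl : closure (convexHull ℝ K) ⊆ C := by
    intro x hx
    obtain ⟨y, hy, hxy⟩ := Metric.mem_closure_iff.1 hx δ hδ
    have h3 : convexHull ℝ K ⊆ {z | z + (x - y) ∈ C} := by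
      refine convexHull_min ?_ ?_
      · intro z hz
        refine hδC ?_
        rw [mem_thickening_iff]
        refine ⟨z, hz, ?_⟩
        rw [dist_eq_norm]
        simpa [dist_eq_norm] using hxy
      · intro z1 hz1 z2 hz2 a b ha hb hab
        have := hCc hz1 hz2 ha hb hab
        simp only [mem_ofPred_eq] at this ⊢
        convert this using 1
        have : (x - y) = a • (x - y) + b • (x - y) := by rw [← add_smul, hab, one_smul]
        nth_rewrite 1 [this]
        simp only [smul_add]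
        abel
    have := h3 hy
    simpa using this
  refine hcl ?_
  -- average
  have hci : Continuous (fun θ : ℝ => F (s, circleMap c r θ)) :=
    hcont.comp_continuous (continuous_circleMap c r) (fun θ => circleMap_mem_sphere c hr.le θ)
  have h0 : volume (Ioc (0:ℝ) (2 * π)) ≠ 0 := by
    rw [Real.volume_Ioc]; simp [Real.pi_pos]
  have ht : volume (Ioc (0:ℝ) (2 * π)) ≠ ⊤ := by
    rw [Real.volume_Ioc]; exact ENNReal.ofReal_ne_top
  have h4 : (⨍ θ in Ioc (0:ℝ) (2 * π), F (s, circleMap c r θ)) ∈ closure (convexHull ℝ K) :=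
    (convex_convexHull ℝ K).closure.set_average_mem isClosed_closure h0 ht
      (ae_of_all _ (fun θ => subset_closure (subset_convexHull ℝ K
        ⟨_, circleMap_mem_sphere c hr.le θ, rfl⟩)))
      (hci.integrableOn_Ioc)
  rw [setAverage_eq] at h4
  rw [intervalIntegral.integral_of_le (by positivity)]
  have h5 : volume.real (Ioc (0:ℝ) (2 * π)) = 2 * π := by
    rw [Real.volume_real_Ioc_of_le (by positivity)]; ring
  rw [h5] at h4
  exact h4

/-- analytic local inverse in one variable -/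
theorem exists_local_inverse {P : ℂ → ℂ} {t0 : ℂ} (hP : AnalyticAt ℂ P t0)
    (hP' : deriv P t0 ≠ 0) :
    ∃ e : OpenPartialHomeomorph ℂ ℂ, t0 ∈ e.source ∧ (∀ y, e y = P y) ∧
      AnalyticOnNhd ℂ e e.source ∧ AnalyticOnNhd ℂ e.symm e.target := by
  have h1 : HasFDerivAt P ((ContinuousLinearEquiv.unitsEquivAut ℂ (Units.mk0 _ hP') :
      ℂ ≃L[ℂ] ℂ) : ℂ →L[ℂ] ℂ) t0 := by
    have h2 := hP.differentiableAt.hasDerivAt.hasFDerivAt
    have h3 : ((ContinuousLinearEquiv.unitsEquivAut ℂ (Units.mk0 _ hP') :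
      ℂ ≃L[ℂ] ℂ) : ℂ →L[ℂ] ℂ) = ContinuousLinearMap.toSpanSingleton ℂ (deriv P t0) := by
      ext
      simp
    rw [h3]
    exact h2
  obtain ⟨e, h3, -, h4, h5, h6⟩ := exists_analytic_openPartialHomeomorph hP _ h1 univ_mem
  exact ⟨e, h3, h4, h5, h6⟩

/-- **local extension at a strictly pseudoconcave point** -/
theorem levi {F : ℂ × ℂ → E} {D : Set (ℂ × ℂ)} (hD : IsOpen D) (hF : DifferentiableOn ℂ F D)
    {C : Set E} (hCo : IsOpen C) (hCc : Convex ℝ C) (hC : ∀ p ∈ D, F p ∈ C)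
    {P H : ℂ → ℂ} {t0 w0 : ℂ} (hP : AnalyticAt ℂ P t0) (hP' : deriv P t0 ≠ 0)
    (hH : AnalyticAt ℂ H w0) (h0 : (P t0).im = (H w0).im) {δ : ℝ} (hδ : 0 < δ)
    (hsub : ∀ᶠ p : ℂ × ℂ in 𝓝 (t0, w0),
      (P p.1).im < (H p.2).im + δ * ‖p.2 - w0‖ ^ 2 → p ∈ D) :
    ∃ N : Set (ℂ × ℂ), IsOpen N ∧ (t0, w0) ∈ N ∧ ∃ G : ℂ × ℂ → E, DifferentiableOn ℂ G N ∧
      (∀ p ∈ N, G p ∈ C) ∧ ∀ p ∈ N, (P p.1).im < (H p.2).im → p ∈ D ∧ G p = F p := by
  obtain ⟨e, ht0, he, hea, hes⟩ := exists_local_inverse hP hP'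
  set κ : ℂ × ℂ → ℂ := fun q => e.symm (P t0 + q.1 + (H q.2 - H w0)) with hκ
  have hPt : P t0 ∈ e.target := by rw [← he]; exact e.map_source ht0
  have harg : ContinuousAt (fun q : ℂ × ℂ => P t0 + q.1 + (H q.2 - H w0)) ((0 : ℂ), w0) := by
    have h1 : ContinuousAt (fun q : ℂ × ℂ => H q.2) ((0 : ℂ), w0) :=
      hH.continuousAt.comp (f := Prod.snd) continuousAt_snd
    exact (continuousAt_const.add continuousAt_fst).add (h1.sub continuousAt_const)
  have harg0 : P t0 + (0 : ℂ) + (H w0 - H w0) = P t0 := by ring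
  have hκc : ContinuousAt κ ((0 : ℂ), w0) := by
    have h2 : ContinuousAt e.symm (P t0 + (0 : ℂ) + (H w0 - H w0)) := by
      rw [harg0]; exact (hes _ hPt).continuousAt
    exact ContinuousAt.comp (g := e.symm) (f := fun q : ℂ × ℂ => P t0 + q.1 + (H q.2 - H w0))
      h2 harg
  have hκ0 : κ ((0 : ℂ), w0) = t0 := by
    simp only [hκ]
    rw [harg0, ← he]
    exact e.left_inv ht0
  have ev1 : ∀ᶠ q : ℂ × ℂ in 𝓝 ((0 : ℂ), w0), P t0 + q.1 + (H q.2 - H w0) ∈ e.target := by
    have := harg.eventually (e.open_target.mem_nhds (by simpa [harg0] using hPt))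
    exact this
  have ev2 : ∀ᶠ q : ℂ × ℂ in 𝓝 ((0 : ℂ), w0), AnalyticAt ℂ H q.2 :=
    (continuousAt_snd (p := ((0 : ℂ), w0))).eventually hH.eventually_analyticAt
  have ev3 : ∀ᶠ q : ℂ × ℂ in 𝓝 ((0 : ℂ), w0),
      (P (κ q)).im < (H q.2).im + δ * ‖q.2 - w0‖ ^ 2 → (κ q, q.2) ∈ D := by
    have h3 : Tendsto (fun q : ℂ × ℂ => (κ q, q.2)) (𝓝 ((0 : ℂ), w0)) (𝓝 (t0, w0)) := by
      have := hκc.prodMk (continuousAt_snd (p := ((0 : ℂ), w0)))
      simpa [ContinuousAt, hκ0] using this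
    exact h3.eventually hsub
  obtain ⟨ρ, hρ, hρs⟩ := Metric.eventually_nhds_iff_ball.1 (ev1.and (ev2.and ev3))
  have hbox : ∀ s w : ℂ, ‖s‖ < ρ → ‖w - w0‖ < ρ → (s, w) ∈ ball ((0 : ℂ), w0) ρ := by
    intro s w hs hw
    rw [mem_ball, Prod.dist_eq]
    exact max_lt (by simpa [dist_eq_norm] using hs) (by simpa [dist_eq_norm] using hw)
  have hPκ : ∀ q ∈ ball ((0 : ℂ), w0) ρ, P (κ q) = P t0 + q.1 + (H q.2 - H w0) := by
    intro q hq
    rw [← he (κ q)]
    exact e.right_inv (hρs q hq).1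
  have hPκim : ∀ q ∈ ball ((0 : ℂ), w0) ρ, (P (κ q)).im = q.1.im + (H q.2).im := by
    intro q hq
    rw [hPκ q hq]
    simp only [add_im, sub_im]
    rw [h0]; ring
  have hκd : ∀ q ∈ ball ((0 : ℂ), w0) ρ, DifferentiableAt ℂ κ q := by
    intro q hq
    have h1 := (hes _ (hρs q hq).1).differentiableAt
    have h2 : DifferentiableAt ℂ (fun q : ℂ × ℂ => H q.2) q :=
      DifferentiableAt.comp q (hρs q hq).2.1.differentiableAt differentiableAt_snd
    exact DifferentiableAt.comp (g := e.symm)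
      (f := fun q : ℂ × ℂ => P t0 + q.1 + (H q.2 - H w0)) q h1
      ((differentiableAt_fst.const_add _).add (h2.sub_const _))
  set D' : Set (ℂ × ℂ) := ball ((0 : ℂ), w0) ρ ∩ (fun q : ℂ × ℂ => (κ q, q.2)) ⁻¹' D with hD'
  have hκcont : ContinuousOn (fun q : ℂ × ℂ => (κ q, q.2)) (ball ((0 : ℂ), w0) ρ) := by
    intro q hq
    exact ((hκd q hq).continuousAt.prodMk continuousAt_snd).continuousWithinAt
  have hD'o : IsOpen D' := hκcont.isOpen_inter_preimage isOpen_ball hD
  set F' : ℂ × ℂ → E := fun q => F (κ q, q.2) with hF'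
  have hF'd : DifferentiableOn ℂ F' D' := by
    intro q hq
    refine DifferentiableAt.differentiableWithinAt ?_
    have h1 : DifferentiableAt ℂ F (κ q, q.2) := hF.differentiableAt (hD.mem_nhds hq.2)
    exact DifferentiableAt.comp (g := F) (f := fun q : ℂ × ℂ => (κ q, q.2)) q h1
      ((hκd q hq.1).prodMk differentiableAt_snd)
  have hin : ∀ s w : ℂ, ‖s‖ < ρ → ‖w - w0‖ < ρ → s.im < δ * ‖w - w0‖ ^ 2 → (s, w) ∈ D' := by
    intro s w hs hw hlt
    refine ⟨hbox s w hs hw, ?_⟩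
    refine (hρs _ (hbox s w hs hw)).2.2 ?_
    rw [hPκim _ (hbox s w hs hw)]
    change s.im + (H w).im < (H w).im + δ * ‖w - w0‖ ^ 2
    linarith
  set r : ℝ := ρ / 2 with hr
  have hr0 : 0 < r := by positivity
  set c : ℝ := min (ρ / 2) (δ * r ^ 2) with hc
  have hc0 : 0 < c := lt_min (by positivity) (by positivity)
  have hcρ : c < ρ := lt_of_le_of_lt (min_le_left _ _) (by linarith)
  have hVs : ∀ s ∈ ball (0 : ℂ) c, ∀ η ∈ sphere w0 r, (s, η) ∈ D' := by
    intro s hs η hη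
    have hs' : ‖s‖ < c := by simpa using hs
    have hη' : ‖η - w0‖ = r := by simpa [dist_eq_norm] using hη
    refine hin s η (hs'.trans hcρ) (by rw [hη']; linarith) ?_
    rw [hη']
    calc s.im ≤ ‖s‖ := (le_abs_self _).trans (Complex.abs_im_le_norm s)
      _ < c := hs'
      _ ≤ δ * r ^ 2 := min_le_right _ _
  have hG' := hartogs hD'o hF'd (V := ball (0 : ℂ) c) isOpen_ball hr0 hVs
  have hGF : ∀ s ∈ ball (0 : ℂ) c, s.im < 0 → ∀ w ∈ ball w0 r,
      cau F' w0 r (s, w) = F' (s, w) := by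
    intro s hs him w hw
    refine cau_eq hD'o hF'd (fun η hη => ?_) hw
    have hs' : ‖s‖ < c := by simpa using hs
    have hη' : ‖η - w0‖ ≤ r := by simpa [dist_eq_norm] using hη
    refine hin s η (hs'.trans hcρ) (by linarith) ?_
    have : 0 ≤ δ * ‖η - w0‖ ^ 2 := by positivity
    linarith
  -- the map back
  set σ : ℂ × ℂ → ℂ × ℂ := fun p => (P p.1 - P t0 - (H p.2 - H w0), p.2) with hσ
  have hPan : ∀ t ∈ e.source, DifferentiableAt ℂ P t := by
    intro t ht
    have h1 := (hea t ht).differentiableAt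
    have h2 : (e : ℂ → ℂ) = P := funext he
    rwa [h2] at h1
  obtain ⟨ρ2, hρ2, hρ2s⟩ := Metric.eventually_nhds_iff_ball.1 hH.eventually_analyticAt
  have hσd : ∀ p ∈ e.source ×ˢ ball w0 ρ2, DifferentiableAt ℂ σ p := by
    rintro ⟨t, w⟩ ⟨ht, hw⟩
    have h1 : DifferentiableAt ℂ (fun p : ℂ × ℂ => P p.1) (t, w) :=
      DifferentiableAt.comp (t, w) (hPan t ht) differentiableAt_fst
    have h2 : DifferentiableAt ℂ (fun p : ℂ × ℂ => H p.2) (t, w) :=
      DifferentiableAt.comp (t, w) (hρ2s w hw).differentiableAt differentiableAt_snd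
    exact ((h1.sub_const _).sub (h2.sub_const _)).prodMk differentiableAt_snd
  have hσc : ContinuousOn σ (e.source ×ˢ ball w0 ρ2) :=
    fun p hp => (hσd p hp).continuousAt.continuousWithinAt
  set N0 : Set (ℂ × ℂ) := (e.source ×ˢ ball w0 ρ2) ∩ σ ⁻¹' (ball (0 : ℂ) c ×ˢ ball w0 r) with hN0
  have hN0o : IsOpen N0 :=
    hσc.isOpen_inter_preimage (e.open_source.prod isOpen_ball) (isOpen_ball.prod isOpen_ball)
  have hσ0 : σ (t0, w0) = (0, w0) := by simp [hσ]
  have hmem0 : (t0, w0) ∈ N0 := by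
    refine ⟨⟨ht0, mem_ball_self hρ2⟩, ?_⟩
    rw [mem_preimage, hσ0]
    exact ⟨mem_ball_self hc0, mem_ball_self hr0⟩
  set G : ℂ × ℂ → E := fun p => cau F' w0 r (σ p) with hG
  have hGd : DifferentiableOn ℂ G N0 := by
    intro p hp
    refine DifferentiableAt.differentiableWithinAt ?_
    exact DifferentiableAt.comp (g := cau F' w0 r) (f := σ) p
      (hG' (σ p) hp.2).differentiableAt (hσd p hp.1)
  have hG0 : G (t0, w0) ∈ C := by
    simp only [hG, hσ0]
    refine cau_center_mem hF'd.continuousOn hr0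
      (fun η hη => hVs 0 (mem_ball_self hc0) η hη) hCo hCc ?_
    intro η hη
    exact hC _ (hVs 0 (mem_ball_self hc0) η hη).2
  refine ⟨N0 ∩ G ⁻¹' C, hGd.continuousOn.isOpen_inter_preimage hN0o hCo, ⟨hmem0, hG0⟩, G,
    hGd.mono inter_subset_left, fun p hp => hp.2, ?_⟩
  rintro ⟨t, w⟩ ⟨⟨⟨hts, hwρ⟩, hσm⟩, -⟩ hlt
  obtain ⟨hs, hw⟩ := hσm
  have hs1 : (P t - P t0 - (H w - H w0)) ∈ ball (0 : ℂ) c := hs
  have him : (P t - P t0 - (H w - H w0)).im < 0 := by
    simp only [sub_im]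
    have : (P t).im < (H w).im := hlt
    rw [h0]; linarith
  have hκt : κ (P t - P t0 - (H w - H w0), w) = t := by
    simp only [hκ]
    have : P t0 + (P t - P t0 - (H w - H w0)) + (H w - H w0) = P t := by ring
    rw [this, ← he]
    exact e.left_inv hts
  have hmem : (P t - P t0 - (H w - H w0), w) ∈ D' := by
    refine hin _ _ ?_ ?_ ?_
    · have : ‖P t - P t0 - (H w - H w0)‖ < c := by simpa using hs1
      exact this.trans hcρ
    · have : ‖w - w0‖ < r := by simpa [dist_eq_norm] using hw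
      linarith
    · have : 0 ≤ δ * ‖w - w0‖ ^ 2 := by positivity
      linarith
  constructor
  · have h1 := hmem.2
    simp only [mem_preimage, hκt] at h1
    exact h1
  · have h2 := hGF _ hs1 him w hw
    simp only [hG, hσ]
    rw [h2]
    simp only [hF', hκt]

end Crest.Agent.R102.K669
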