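import Crest.Agent.R102.KontB_669

/-!
Row 102, T1-B (b): Kontinuitaetssatz, part C: the penalised heights `R_Φ(w)`: lower
semicontinuity and the viscosity form of superharmonicity (helper669).
-/

set_option autoImplicit false
set_option linter.unusedSectionVars false

open Set Filter Topology Metric Complex MeasureTheory
open scoped Real

noncomputable section

namespace Crest.Agent.R102.K669

variable {E : Type*} [NormedAddCommGroup E] [NormedSpace ℂ E] [CompleteSpace E]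

/-- admissible data for a penalised height: `F` on the base slab, values in the open convex set
`C`, `Φ` a penalised height function with levels in `[m, M]`, `Q` a compact set to which singular
points can be moved. -/
structure Pen (F : ℂ × ℂ → E) (C : Set E) (y1 y0 : ℝ) (W : Set ℂ) (Φ : ℂ → ℝ) (m M : ℝ)
    (Q : Set ℂ) : Prop where
  h10 : y1 < y0
  hW : IsOpen W
  hF : DifferentiableOn ℂ F (Slab y1 y0 W)
  hC : ∀ q ∈ Slab y1 y0 W, F q ∈ C
  hCo : IsOpen C
  hCc : Convex ℝ C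
  hmM : m ≤ M
  /-- the lowest level lies in the slab -/
  low : ∀ t : ℂ, y1 < t.im → Φ t < m → t.im < y0
  cont : ContinuousOn Φ {t | y1 < t.im}
  /-- a touching harmonic majorant at every point -/
  touch : ∀ t : ℂ, y1 < t.im → m ≤ Φ t → Φ t ≤ M → ∃ P : ℂ → ℂ, AnalyticAt ℂ P t ∧
    0 < (deriv P t).re ∧ (P t).im = Φ t ∧ ∀ᶠ s in 𝓝 t, Φ s ≤ (P s).im
  Qc : IsCompact Q
  Qy : ∀ t ∈ Q, y1 < t.im
  /-- singular points can be moved to `Q` without raising the level -/
  move : ∀ w ∈ W, ∀ t : ℂ, y1 < t.im → Φ t ≤ M → ¬ IsReg F C y1 y0 W (t, w) →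
    ∃ t' ∈ Q, Φ t' ≤ Φ t ∧ ¬ IsReg F C y1 y0 W (t', w)

/-- the admissible levels at `w` -/
def Lev (F : ℂ × ℂ → E) (C : Set E) (y1 y0 : ℝ) (W : Set ℂ) (Φ : ℂ → ℝ) (m M : ℝ) (w : ℂ) :
    Set ℝ := {r | m ≤ r ∧ r ≤ M ∧ ∀ t : ℂ, y1 < t.im → Φ t < r → IsReg F C y1 y0 W (t, w)}

/-- **the penalised height** -/
def hgt (F : ℂ × ℂ → E) (C : Set E) (y1 y0 : ℝ) (W : Set ℂ) (Φ : ℂ → ℝ) (m M : ℝ) (w : ℂ) : ℝ :=
  sSup (Lev F C y1 y0 W Φ m M w)

variable {F : ℂ × ℂ → E} {C : Set E} {y1 y0 : ℝ} {W : Set ℂ} {Φ : ℂ → ℝ} {m M : ℝ} {Q : Set ℂ}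

lemma Pen.m_mem (h : Pen F C y1 y0 W Φ m M Q) {w : ℂ} (hw : w ∈ W) :
    m ∈ Lev F C y1 y0 W Φ m M w :=
  ⟨le_refl _, h.hmM, fun t ht hΦ => isReg_of_slab h.hW h.hF h.hC (h.low t ht hΦ) hw⟩

lemma Lev_bdd (w : ℂ) : BddAbove (Lev F C y1 y0 W Φ m M w) := ⟨M, fun _ hr => hr.2.1⟩

lemma Pen.m_le (h : Pen F C y1 y0 W Φ m M Q) {w : ℂ} (hw : w ∈ W) :
    m ≤ hgt F C y1 y0 W Φ m M w := le_csSup (Lev_bdd w) (h.m_mem hw)

lemma Pen.le_M (h : Pen F C y1 y0 W Φ m M Q) {w : ℂ} (hw : w ∈ W) :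
    hgt F C y1 y0 W Φ m M w ≤ M := csSup_le ⟨m, h.m_mem hw⟩ (fun _ hr => hr.2.1)

/-- below the height everything is regular -/
lemma Pen.reg (h : Pen F C y1 y0 W Φ m M Q) {w : ℂ} (hw : w ∈ W) {t : ℂ} (ht : y1 < t.im)
    (hΦ : Φ t < hgt F C y1 y0 W Φ m M w) : IsReg F C y1 y0 W (t, w) := by
  obtain ⟨r, hr, hlt⟩ := exists_lt_of_lt_csSup ⟨m, h.m_mem hw⟩ hΦ
  exact hr.2.2 t ht hlt

lemma Pen.le_hgt (h : Pen F C y1 y0 W Φ m M Q) {w : ℂ} (hw : w ∈ W) {r : ℝ} (hrM : r ≤ M)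
    (hr : ∀ t : ℂ, y1 < t.im → Φ t < r → IsReg F C y1 y0 W (t, w)) :
    r ≤ hgt F C y1 y0 W Φ m M w := by
  rcases lt_or_ge r m with h1 | h1
  · exact h1.le.trans (h.m_le hw)
  · exact le_csSup (Lev_bdd w) ⟨h1, hrM, hr⟩

/-- reduction of a level to the compact set `Q` -/
lemma Pen.le_hgt_Q (h : Pen F C y1 y0 W Φ m M Q) {w : ℂ} (hw : w ∈ W) {r : ℝ} (hrM : r ≤ M)
    (hr : ∀ t ∈ Q, Φ t ≤ r → IsReg F C y1 y0 W (t, w)) :
    r ≤ hgt F C y1 y0 W Φ m M w := by
  refine h.le_hgt hw hrM (fun t ht hΦ => ?_)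
  by_contra hcon
  obtain ⟨t', ht', hle, hn⟩ := h.move w hw t ht (hΦ.le.trans hrM) hcon
  exact hn (hr t' ht' (hle.trans hΦ.le))

lemma Pen.isCompact_low (h : Pen F C y1 y0 W Φ m M Q) (r : ℝ) :
    IsCompact {t | t ∈ Q ∧ Φ t ≤ r} := by
  have h1 : ContinuousOn Φ Q := h.cont.mono (fun t ht => h.Qy t ht)
  have h2 : {t | t ∈ Q ∧ Φ t ≤ r} = Q ∩ Φ ⁻¹' Iic r := rfl
  rw [h2]
  exact h.Qc.of_isClosed_subset (h1.preimage_isClosed_of_isClosed h.Qc.isClosed isClosed_Iic)
    inter_subset_left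

/-- **lower semicontinuity** -/
theorem Pen.lsc (h : Pen F C y1 y0 W Φ m M Q) :
    LowerSemicontinuousOn (hgt F C y1 y0 W Φ m M) W := by
  intro w0 hw0 c hc
  rcases lt_or_ge c m with h1 | h1
  · filter_upwards [self_mem_nhdsWithin] with w hw
    exact h1.trans_le (h.m_le hw)
  obtain ⟨r, hcr, hr⟩ := exists_between hc
  have hrM : r ≤ M := hr.le.trans (h.le_M hw0)
  have hev : ∀ᶠ w in 𝓝 w0, ∀ t ∈ {t | t ∈ Q ∧ Φ t ≤ r}, IsReg F C y1 y0 W (t, w) := by
    refine (h.isCompact_low r).eventually_forall_of_forall_eventually (fun t ht => ?_)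
    have h2 : IsReg F C y1 y0 W (t, w0) := h.reg hw0 (h.Qy t ht.1) (ht.2.trans_lt hr)
    have h3 : {p : ℂ × ℂ | IsReg F C y1 y0 W p} ∈ 𝓝 (t, w0) := isOpen_isReg.mem_nhds h2
    have h4 : Tendsto (fun z : ℂ × ℂ => (z.2, z.1)) (𝓝 (w0, t)) (𝓝 (t, w0)) :=
      (continuous_swap (X := ℂ) (Y := ℂ)).tendsto (w0, t)
    exact h4.eventually h3
  filter_upwards [nhdsWithin_le_nhds hev, self_mem_nhdsWithin] with w hw hwW
  exact hcr.trans_le (h.le_hgt_Q hwW hrM (fun t ht hΦ => hw t ⟨ht, hΦ⟩))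

/-- **no strictly subharmonic quadratic function touches the height from below** -/
theorem Pen.no_touch (h : Pen F C y1 y0 W Φ m M Q) {w0 : ℂ} (hw0 : w0 ∈ W) {H : ℂ → ℂ}
    (hH : AnalyticAt ℂ H w0) {δ : ℝ} (hδ : 0 < δ)
    (heq : hgt F C y1 y0 W Φ m M w0 = (H w0).im)
    (hle : ∀ᶠ w in 𝓝 w0, (H w).im + δ * ‖w - w0‖ ^ 2 ≤ hgt F C y1 y0 W Φ m M w) : False := by
  set R := hgt F C y1 y0 W Φ m M with hR
  have hWn : W ∈ 𝓝 w0 := h.hW.mem_nhds hw0
  rcases eq_or_lt_of_le (h.le_M hw0) with hM | hM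
  · -- the cap: mean value property of `H`
    have hM' : R w0 = M := hM
    obtain ⟨ρ, hρ, hρs⟩ := Metric.eventually_nhds_iff_ball.1
      (hle.and (hH.eventually_analyticAt.and hWn))
    set r := ρ / 2 with hr
    have hr0 : 0 < r := by positivity
    have hcb : closedBall w0 r ⊆ ball w0 ρ := closedBall_subset_ball (by linarith)
    have hd : DiffContOnCl ℂ H (ball w0 r) := by
      have : DifferentiableOn ℂ H (closedBall w0 r) := fun z hz =>
        (hρs z (hcb hz)).2.1.differentiableAt.differentiableWithinAt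
      exact this.diffContOnCl_ball (subset_refl _)
    -- maximum principle for `exp (-i H)`
    have hexp : DiffContOnCl ℂ (fun z => Complex.exp (-(I * H z))) (ball w0 r) :=
      (Complex.differentiable_exp.comp (Differentiable.neg differentiable_id)).comp_diffContOnCl
        (hd.const_smul I)
    have hb : ∀ z ∈ frontier (ball w0 r), ‖Complex.exp (-(I * H z))‖ ≤
        Real.exp (M - δ * r ^ 2) := by
      intro z hz
      rw [frontier_ball w0 hr0.ne'] at hz
      have hz' : z ∈ ball w0 ρ := hcb (sphere_subset_closedBall hz)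
      have h1 := (hρs z hz').1
      have h2 := h.le_M (hρs z hz').2.2
      have h3 : ‖z - w0‖ = r := by simpa [dist_eq_norm] using hz
      rw [h3] at h1
      rw [Complex.norm_exp]
      refine Real.exp_le_exp.2 ?_
      have h4 : (-(I * H z)).re = (H z).im := by simp
      rw [h4]
      have h5 : R z ≤ M := h2
      have h6 : (H z).im + δ * r ^ 2 ≤ R z := h1
      linarith
    have h7 := Complex.norm_le_of_forall_mem_frontier_norm_le isBounded_ball hexp hb
      (subset_closure (mem_ball_self hr0))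
    rw [Complex.norm_exp] at h7
    have h8 := Real.exp_le_exp.1 h7
    have h9 : (-(I * H w0)).re = (H w0).im := by simp
    rw [h9, ← heq, hM'] at h8
    have : 0 < δ * r ^ 2 := by positivity
    linarith
  · have hmR : m ≤ R w0 := h.m_le hw0
    -- every point of `Q` at level `≤ R w0` is regular
    have hreg : ∀ t ∈ Q, Φ t ≤ R w0 → IsReg F C y1 y0 W (t, w0) := by
      intro t ht hΦ
      rcases eq_or_lt_of_le hΦ with he | hlt
      · have hty := h.Qy t ht
        obtain ⟨P, hP, hP', hPt, hPm⟩ := h.touch t hty (he ▸ hmR) (he ▸ hM.le)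
        refine isReg_of_touch h.h10 h.hW h.hF h.hC h.hCo h.hCc hty hw0 hP hP' hH
          (by rw [hPt, he, heq]) hδ ?_
        have e1 : ∀ᶠ q : ℂ × ℂ in 𝓝 (t, w0), Φ q.1 ≤ (P q.1).im :=
          (continuousAt_fst (p := (t, w0))).eventually hPm
        have e2 : ∀ᶠ q : ℂ × ℂ in 𝓝 (t, w0), (H q.2).im + δ * ‖q.2 - w0‖ ^ 2 ≤ R q.2 :=
          (continuousAt_snd (p := (t, w0))).eventually hle
        have e3 : ∀ᶠ q : ℂ × ℂ in 𝓝 (t, w0), q.2 ∈ W :=
          (continuousAt_snd (p := (t, w0))).eventually hWn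
        have e4 : ∀ᶠ q : ℂ × ℂ in 𝓝 (t, w0), y1 < q.1.im :=
          (isOpen_lt continuous_const
            (by fun_prop : Continuous (fun p : ℂ × ℂ => p.1.im))).mem_nhds hty
        filter_upwards [e1, e2, e3, e4] with q h1 h2 h3 h4 h5
        exact h.reg h3 h4 (by linarith)
      · exact h.reg hw0 (h.Qy t ht) hlt
    -- compactness gives a higher level
    have hex : ∃ r, R w0 < r ∧ r ≤ M ∧ ∀ t ∈ Q, Φ t ≤ r → IsReg F C y1 y0 W (t, w0) := by
      by_contra hcon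
      push Not at hcon
      set u : ℕ → ℝ := fun n => R w0 + (M - R w0) / (n + 1) with hu
      have hu1 : ∀ n, R w0 < u n := by
        intro n
        have : 0 < (M - R w0) / ((n : ℝ) + 1) := div_pos (by linarith) (by positivity)
        simp only [hu]; linarith
      have hu2 : ∀ n, u n ≤ M := by
        intro n
        have : (M - R w0) / ((n : ℝ) + 1) ≤ M - R w0 :=
          div_le_self (by linarith) (by linarith [(Nat.cast_nonneg n : (0 : ℝ) ≤ n)])
        simp only [hu]; linarith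
      have hu3 : Tendsto u atTop (𝓝 (R w0)) := by
        have h1 : Tendsto (fun n : ℕ => (M - R w0) / ((n : ℝ) + 1)) atTop (𝓝 0) :=
          tendsto_const_div_atTop_nhds_zero_nat (M - R w0) |>.comp (tendsto_add_atTop_nat 1)
            |>.congr (fun n => by simp [Function.comp])
        simpa [hu] using h1.const_add (R w0)
      choose t htQ htΦ htn using fun n => hcon (u n) (hu1 n) (hu2 n)
      obtain ⟨a, haQ, φ, hφ, hlim⟩ := h.Qc.tendsto_subseq htQ
      have hac : ContinuousAt Φ a :=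
        h.cont.continuousAt ((isOpen_lt continuous_const Complex.continuous_im).mem_nhds
          (h.Qy a haQ))
      have h1 : Φ a ≤ R w0 :=
        le_of_tendsto_of_tendsto (hac.tendsto.comp hlim) (hu3.comp hφ.tendsto_atTop)
          (Eventually.of_forall (fun n => htΦ (φ n)))
      have h2 := hreg a haQ h1
      have h3 : {p : ℂ × ℂ | IsReg F C y1 y0 W p} ∈ 𝓝 (a, w0) := isOpen_isReg.mem_nhds h2
      have h4 : Tendsto (fun n => ((t (φ n), w0) : ℂ × ℂ)) atTop (𝓝 (a, w0)) :=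
        hlim.prodMk_nhds tendsto_const_nhds
      obtain ⟨n, hn⟩ := (h4.eventually h3).exists
      exact htn (φ n) hn
    obtain ⟨r, hr1, hr2, hr3⟩ := hex
    exact absurd (h.le_hgt_Q hw0 hr2 hr3) (not_le.2 hr1)

end Crest.Agent.R102.K669
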