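import Mathlib

/-!
# Row 102, [H3], L1g (helper201): the web lemma with groups

`k` a field of characteristic `0`, `R = k⟦x₀, x₁⟧`.  `z j : R` finitely many series without constant
term with pairwise independent linear parts, `g j i : R` finitely many weights which are linearly
independent over `k` on the leaf `z j = 0`.  Then the space of solutions `n j i ∈ k⟦T⟧` of
`∑ n j i (z j) * g j i = 0` is finite dimensional; more precisely a solution all whose entries are
divisible by `T ^ p₀` is `0`.
-/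

set_option autoImplicit false

open MvPowerSeries

noncomputable section

namespace Crest.Agent.R102.L1g201

variable {k : Type*} [Field k]

local notation "RR" => MvPowerSeries (Fin 2) k

/-- the derivation `b ∂₀ - a ∂₁`. -/
def DD (a b : k) : Derivation k RR RR :=
  b • MvPowerSeries.pderiv k 0 - a • MvPowerSeries.pderiv k 1

/-- the linear form `a x₀ + b x₁`. -/
def ll (a b : k) : RR := a • (MvPowerSeries.X 0 : RR) + b • (MvPowerSeries.X 1 : RR)

theorem DD_apply (a b : k) (f : RR) :
    DD a b f = b • MvPowerSeries.pderiv k 0 f - a • MvPowerSeries.pderiv k 1 f := rfl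

theorem DD_ll (a b c d : k) : DD a b (ll c d) = MvPowerSeries.C (b * c - a * d) := by
  have h01 : MvPowerSeries.pderiv k (0 : Fin 2) (MvPowerSeries.X 1 : RR) = 0 :=
    MvPowerSeries.pderiv_X_of_ne (by decide)
  have h10 : MvPowerSeries.pderiv k (1 : Fin 2) (MvPowerSeries.X 0 : RR) = 0 :=
    MvPowerSeries.pderiv_X_of_ne (by decide)
  rw [DD_apply, ll, map_add, map_add, Derivation.map_smul, Derivation.map_smul,
    Derivation.map_smul, Derivation.map_smul, MvPowerSeries.pderiv_X_self,
    MvPowerSeries.pderiv_X_self, h01, h10, smul_zero, smul_zero, add_zero, zero_add, map_sub,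
    smul_smul, smul_smul]
  congr 1 <;> rw [MvPowerSeries.smul_eq_C_mul, mul_one]

theorem DD_homog {a b : k} {f : RR} {q : ℕ} (hf : f.IsHomogeneous (q + 1)) :
    (DD a b f).IsHomogeneous q := by
  intro d hd
  rw [DD_apply, map_sub, MvPowerSeries.coeff_smul, MvPowerSeries.coeff_smul,
    MvPowerSeries.coeff_pderiv, MvPowerSeries.coeff_pderiv] at hd
  by_contra hc
  apply hd
  have hc' : d.degree ≠ q := by
    rwa [Finsupp.degree_eq_weight_one]
  have h : ∀ i : Fin 2, MvPowerSeries.coeff (d + Finsupp.single i 1) f = 0 := by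
    intro i
    apply hf.coeff_eq_zero
    rw [map_add, Finsupp.degree_single]
    omega
  rw [h, h]
  simp

theorem DD_homog_zero {a b : k} {f : RR} (hf : f.IsHomogeneous 0) : DD a b f = 0 := by
  ext d
  rw [DD_apply, map_sub, MvPowerSeries.coeff_smul, MvPowerSeries.coeff_smul,
    MvPowerSeries.coeff_pderiv, MvPowerSeries.coeff_pderiv]
  have h : ∀ i : Fin 2, MvPowerSeries.coeff (d + Finsupp.single i 1) f = 0 := by
    intro i
    apply hf.coeff_eq_zero
    rw [map_add, Finsupp.degree_single]
    omega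
  rw [h, h]
  simp

theorem wt_eq (d : Fin 2 →₀ ℕ) : (Finsupp.weight (1 : Fin 2 → ℕ)) d = d.degree := by
  rw [Finsupp.degree_eq_weight_one]
  rfl

theorem ll_homog (a b : k) : (ll a b).IsHomogeneous 1 := by
  intro d hd
  rw [ll, map_add, MvPowerSeries.coeff_smul, MvPowerSeries.coeff_smul, MvPowerSeries.coeff_X,
    MvPowerSeries.coeff_X] at hd
  rw [wt_eq]
  by_cases h0 : d = Finsupp.single 0 1
  · rw [h0, Finsupp.degree_single]
  · by_cases h1 : d = Finsupp.single 1 1
    · rw [h1, Finsupp.degree_single]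
    · simp [h0, h1] at hd

theorem C_homog (c : k) : (MvPowerSeries.C c : RR).IsHomogeneous 0 := by
  intro d hd
  rw [MvPowerSeries.coeff_C] at hd
  rw [wt_eq]
  by_cases h0 : d = 0
  · rw [h0, map_zero]
  · simp [h0] at hd

theorem smul_homog (c : k) {f : RR} {q : ℕ} (hf : f.IsHomogeneous q) :
    (c • f).IsHomogeneous q := by
  intro d hd
  rw [MvPowerSeries.coeff_smul] at hd
  exact hf (fun h => hd (by rw [h, mul_zero]))

theorem zero_homog (q : ℕ) : (0 : RR).IsHomogeneous q := by
  intro d hd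
  exact absurd rfl hd

theorem ll_ne_zero {a b : k} (h : a ≠ 0 ∨ b ≠ 0) : ll a b ≠ 0 := by
  intro h0
  have h1 := congrArg (MvPowerSeries.coeff (Finsupp.single 0 1)) h0
  have h2 := congrArg (MvPowerSeries.coeff (Finsupp.single 1 1)) h0
  have e1 : (Finsupp.single (0 : Fin 2) 1 : Fin 2 →₀ ℕ) ≠ Finsupp.single 1 1 := by
    intro h
    have := DFunLike.congr_fun h 0
    simp at this
  rw [ll, map_add, MvPowerSeries.coeff_smul, MvPowerSeries.coeff_smul, MvPowerSeries.coeff_X,
    MvPowerSeries.coeff_X, if_pos rfl, if_neg e1, mul_one, mul_zero, add_zero, map_zero] at h1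
  rw [ll, map_add, MvPowerSeries.coeff_smul, MvPowerSeries.coeff_smul, MvPowerSeries.coeff_X,
    MvPowerSeries.coeff_X, if_neg e1.symm, if_pos rfl, mul_one, mul_zero, zero_add,
    map_zero] at h2
  rcases h with h | h
  · exact h h1
  · exact h h2

/-- finite multiplicity. -/
theorem exists_mult {l G : RR} (hl : MvPowerSeries.constantCoeff l = 0) (hG : G ≠ 0) :
    ∃ (N : ℕ) (G' : RR), G = l ^ N * G' ∧ ¬ l ∣ G' := by
  classical
  have hex : ∃ N, ¬ l ^ N ∣ G := by
    by_contra hc
    push Not at hc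
    have hord : G.order ≠ ⊤ := by
      rw [Ne, MvPowerSeries.order_eq_top_iff]; exact hG
    obtain ⟨m, hm⟩ := ENat.ne_top_iff_exists.mp hord
    obtain ⟨H, hH⟩ := hc (m + 1)
    have h1 : ((m + 1 : ℕ) : ℕ∞) ≤ (l ^ (m + 1)).order :=
      MvPowerSeries.le_order_pow_of_constantCoeff_eq_zero (m + 1) hl
    have h2 : (l ^ (m + 1)).order + H.order ≤ G.order := by
      rw [hH]; exact MvPowerSeries.le_order_mul
    rw [← hm] at h2
    have h3 : ((m + 1 : ℕ) : ℕ∞) ≤ (m : ℕ∞) := (h1.trans le_self_add).trans h2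
    have := ENat.natCast_le_natCast.mp h3
    omega
  have hne : Nat.find hex ≠ 0 := by
    intro h
    have := Nat.find_spec hex
    rw [h, pow_zero] at this
    exact this (one_dvd _)
  obtain ⟨N, hN⟩ := Nat.exists_eq_succ_of_ne_zero hne
  have h1 : l ^ N ∣ G := by
    by_contra h
    have := Nat.find_min' hex h
    omega
  obtain ⟨G', hG'⟩ := h1
  refine ⟨N, G', hG', fun h2 => ?_⟩
  obtain ⟨H, rfl⟩ := h2
  have h3 := Nat.find_spec hex
  rw [hN] at h3
  exact h3 ⟨H, by rw [hG', pow_succ]; ring⟩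

/-- a derivation with `D l` a nonzero constant does not kill multiples of `l`. -/
theorem der_ne_zero [CharZero k] {D : Derivation k RR RR} {l G : RR}
    (hl : MvPowerSeries.constantCoeff l = 0) (hl0 : l ≠ 0) {c : k} (hc : c ≠ 0)
    (hD : D l = MvPowerSeries.C c) (hdvd : l ∣ G) (h : D G = 0) : G = 0 := by
  by_contra hG
  obtain ⟨N, G', hG', hnd⟩ := exists_mult hl hG
  cases N with
  | zero =>
    rw [pow_zero, one_mul] at hG'
    exact hnd (hG' ▸ hdvd)
  | succ N =>
    rw [hG', Derivation.leibniz, Derivation.leibniz_pow, Nat.add_sub_cancel, hD] at h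
    have h1 : l ^ N * (l * D G' + G' * (((N + 1 : ℕ) : RR) * MvPowerSeries.C c)) = 0 := by
      rw [← h]
      simp only [smul_eq_mul, nsmul_eq_mul]
      ring
    have h2 := (mul_eq_zero.mp h1).resolve_left (pow_ne_zero N hl0)
    apply hnd
    have h3 : ((N + 1 : ℕ) : RR) * MvPowerSeries.C c =
        MvPowerSeries.C (((N + 1 : ℕ) : k) * c) := by
      rw [map_mul, map_natCast]
    rw [h3] at h2
    have h4 : ((N + 1 : ℕ) : k) * c ≠ 0 := mul_ne_zero (Nat.cast_ne_zero.mpr (by omega)) hc
    have h5 : G' = -(l * D G') * MvPowerSeries.C (((N + 1 : ℕ) : k) * c)⁻¹ := by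
      have h6 : G' * MvPowerSeries.C (((N + 1 : ℕ) : k) * c) = -(l * D G') := by
        linear_combination h2
      rw [← h6, mul_assoc, ← map_mul, mul_inv_cancel₀ h4, map_one, mul_one]
    rw [h5, neg_mul, mul_assoc]
    exact (dvd_mul_right l _).neg_right

/-- one derivation step. -/
theorem step_one [CharZero k] {a b c d : k} (hne : b * c - a * d ≠ 0) (P : ℕ) {F : RR} {q : ℕ}
    (hF : F.IsHomogeneous q) :
    ∃ F' : RR, F'.IsHomogeneous q ∧ DD a b (ll c d ^ (P + 1) * F) = ll c d ^ P * F' ∧
      (F' = 0 → F = 0) := by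
  have hl0 : ll c d ≠ 0 := by
    apply ll_ne_zero
    by_contra h
    push Not at h
    rw [h.1, h.2] at hne
    simp at hne
  have hl : MvPowerSeries.constantCoeff (ll c d) = 0 := by
    rw [← MvPowerSeries.coeff_zero_eq_constantCoeff_apply]
    exact MvPowerSeries.IsHomogeneous.coeff_eq_zero (ll_homog c d) (by rw [map_zero]; omega)
  have key : DD a b (ll c d ^ (P + 1) * F) = ll c d ^ P *
      ((((P + 1 : ℕ) : k) * (b * c - a * d)) • F + ll c d * DD a b F) := by
    rw [Derivation.leibniz, Derivation.leibniz_pow, Nat.add_sub_cancel, DD_ll,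
      MvPowerSeries.smul_eq_C_mul, map_mul, map_natCast]
    simp only [smul_eq_mul, nsmul_eq_mul]
    ring
  refine ⟨_, ?_, key, fun h0 => ?_⟩
  · refine MvPowerSeries.IsHomogeneous.add (smul_homog _ hF) ?_
    cases q with
    | zero => rw [DD_homog_zero hF, mul_zero]; exact zero_homog 0
    | succ q =>
      have h7 : (ll c d * DD a b F).IsHomogeneous (1 + q) :=
        MvPowerSeries.IsHomogeneous.mul (ll_homog c d) (DD_homog (a := a) (b := b) hF)
      rw [add_comm 1 q] at h7
      exact @h7
  · have h1 : DD a b (ll c d ^ (P + 1) * F) = 0 := by rw [key, h0, mul_zero]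
    have h2 := der_ne_zero hl hl0 hne (DD_ll a b c d)
      (Dvd.dvd.mul_right (dvd_pow_self _ (by omega)) F) h1
    exact (mul_eq_zero.mp h2).resolve_left (pow_ne_zero _ hl0)

/-- `m` derivation steps. -/
theorem step_many [CharZero k] {a b c d : k} (hne : b * c - a * d ≠ 0) (m P : ℕ) {F : RR} {q : ℕ}
    (hF : F.IsHomogeneous q) :
    ∃ F' : RR, F'.IsHomogeneous q ∧ (DD a b)^[m] (ll c d ^ (P + m) * F) = ll c d ^ P * F' ∧
      (F' = 0 → F = 0) := by
  induction m generalizing F with
  | zero => exact ⟨F, hF, rfl, fun h => h⟩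
  | succ m ih =>
    obtain ⟨F1, h1, h2, h3⟩ := step_one hne (P + m) hF
    obtain ⟨F2, h4, h5, h6⟩ := ih h1
    refine ⟨F2, h4, ?_, fun h => h3 (h6 h)⟩
    rw [Function.iterate_succ_apply, ← add_assoc, h2, h5]

/-- the form `ll a b` is killed by `DD a b`. -/
theorem step_kill {a b : k} (q : ℕ) : ∀ (m P : ℕ) {F : RR}, F.IsHomogeneous q → q < m →
    (DD a b)^[m] (ll a b ^ P * F) = 0 := by
  have h0 : ∀ (P : ℕ) (F : RR), DD a b (ll a b ^ P * F) = ll a b ^ P * DD a b F := by
    intro P F
    have : DD a b (ll a b) = 0 := by rw [DD_ll, mul_comm, sub_self, map_zero]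
    rw [Derivation.leibniz, Derivation.leibniz_pow, this]
    simp
  induction q with
  | zero =>
    intro m P F hF hm
    obtain ⟨m', rfl⟩ := Nat.exists_eq_succ_of_ne_zero (by omega : m ≠ 0)
    rw [Function.iterate_succ_apply, h0, DD_homog_zero hF, mul_zero]
    exact iterate_map_zero _ _
  | succ q ih =>
    intro m P F hF hm
    obtain ⟨m', rfl⟩ := Nat.exists_eq_succ_of_ne_zero (by omega : m ≠ 0)
    rw [Function.iterate_succ_apply, h0]
    exact ih m' P (DD_homog hF) (by omega)

/-- **key lemma**: powers of pairwise independent linear forms. -/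
theorem key_forms [CharZero k] {ι : Type*} [DecidableEq ι] {a b : ι → k} (q : ℕ)
    (S : Finset ι) (hab : ∀ i ∈ S, ∀ j ∈ S, i ≠ j → b i * a j - a i * b j ≠ 0)
    (hne : ∀ i ∈ S, a i ≠ 0 ∨ b i ≠ 0) :
    ∀ (p : ℕ) (F : ι → RR), S.card * (q + 1) ≤ p → (∀ j ∈ S, (F j).IsHomogeneous q) →
      ∑ j ∈ S, ll (a j) (b j) ^ p * F j = 0 → ∀ j ∈ S, F j = 0 := by
  induction S using Finset.induction_on with
  | empty => intro p F _ _ _ j hj; exact absurd hj (Finset.notMem_empty j)
  | insert s S hs ih =>
    intro p F hp hF hsum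
    have ih' := ih (fun i hi j hj => hab i (Finset.mem_insert_of_mem hi) j
      (Finset.mem_insert_of_mem hj)) (fun i hi => hne i (Finset.mem_insert_of_mem hi))
    rw [Finset.card_insert_of_notMem hs, add_mul, one_mul] at hp
    obtain ⟨P, hP⟩ : ∃ P, p = P + (q + 1) := ⟨p - (q + 1), by omega⟩
    have hst : ∀ j, ∃ F' : RR, j ∈ S → F'.IsHomogeneous q ∧
        (DD (a s) (b s))^[q + 1] (ll (a j) (b j) ^ (P + (q + 1)) * F j) =
          ll (a j) (b j) ^ P * F' ∧ (F' = 0 → F j = 0) := by
      intro j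
      by_cases hj : j ∈ S
      · obtain ⟨F', h⟩ := step_many (hab s (Finset.mem_insert_self s S) j
          (Finset.mem_insert_of_mem hj) (fun h => hs (h ▸ hj))) (q + 1) P
          (hF j (Finset.mem_insert_of_mem hj))
        exact ⟨F', fun _ => h⟩
      · exact ⟨0, fun h => absurd h hj⟩
    choose F' hF' using hst
    have hS : ∀ j ∈ S, F j = 0 := by
      have h1 := congrArg ((DD (a s) (b s))^[q + 1]) hsum
      have hsm : ∀ (m : ℕ) (T : Finset ι) (H : ι → RR),
          (DD (a s) (b s))^[m] (∑ j ∈ T, H j) = ∑ j ∈ T, (DD (a s) (b s))^[m] (H j) := by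
        intro m T H
        induction m with
        | zero => rfl
        | succ m ihm =>
          rw [Function.iterate_succ_apply', ihm, map_sum]
          exact Finset.sum_congr rfl fun j _ => (Function.iterate_succ_apply' _ _ _).symm
      rw [iterate_map_zero, hsm, Finset.sum_insert hs, hP,
        step_kill q (q + 1) _ (hF s (Finset.mem_insert_self s S)) (by omega), zero_add,
        Finset.sum_congr rfl fun j hj => (hF' j hj).2.1] at h1
      have h2 := ih' P F' (by omega) (fun j hj => (hF' j hj).1) h1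
      exact fun j hj => (hF' j hj).2.2 (h2 j hj)
    intro j hj
    rcases Finset.mem_insert.mp hj with rfl | hj'
    · rw [Finset.sum_insert hs, Finset.sum_eq_zero fun i hi => by rw [hS i hi, mul_zero],
        add_zero] at hsum
      exact (mul_eq_zero.mp hsum).resolve_left (pow_ne_zero _ (ll_ne_zero (hne j hj)))
    · exact hS j hj'

/-! ## Bounded orders in finite dimensional spaces of series -/

/-- the orders of the nonzero elements of a finite dimensional space of power series are bounded. -/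
theorem exists_bound {G : Type*} [Fintype G] {v : G → PowerSeries k}
    (hv : LinearIndependent k v) :
    ∃ Q : ℕ, ∀ c : G → k, (PowerSeries.X : PowerSeries k) ^ Q ∣ ∑ i, c i • v i → c = 0 := by
  classical
  let L : (G → k) →ₗ[k] PowerSeries k := Fintype.linearCombination k v
  have hL : ∀ c, L c = ∑ i, c i • v i := fun c => Fintype.linearCombination_apply k v c
  let K : ℕ → Submodule k (G → k) := fun m =>
    ((Ideal.span {(PowerSeries.X : PowerSeries k) ^ m}).restrictScalars k).comap L
  have hK : ∀ m c, c ∈ K m ↔ (PowerSeries.X : PowerSeries k) ^ m ∣ L c := by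
    intro m c
    show L c ∈ (Ideal.span {(PowerSeries.X : PowerSeries k) ^ m}) ↔ _
    exact Ideal.mem_span_singleton
  have hanti : ∀ m m', m ≤ m' → K m' ≤ K m := by
    intro m m' hm c hc
    rw [hK] at hc ⊢
    exact (pow_dvd_pow _ hm).trans hc
  obtain ⟨Q, hQ⟩ := monotone_stabilizes_iff_artinian.mpr
    (inferInstance : IsArtinian k (G → k)) ⟨fun m => OrderDual.toDual (K m),
      fun m m' hm => OrderDual.toDual_le_toDual.mpr (hanti m m' hm)⟩
  refine ⟨Q, fun c hc => ?_⟩
  rw [← hL] at hc
  have hc' : ∀ m, (PowerSeries.X : PowerSeries k) ^ m ∣ L c := by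
    intro m
    rcases le_total m Q with h | h
    · exact (pow_dvd_pow _ h).trans hc
    · have h1 : K Q = K m := hQ m h
      rw [← hK, ← h1, hK]
      exact hc
  have h0 : L c = 0 := by
    ext m
    rw [map_zero]
    exact (PowerSeries.X_pow_dvd_iff.mp (hc' (m + 1))) m (by omega)
  rw [hL] at h0
  funext i
  exact Fintype.linearIndependent_iff.mp hv c h0 i

/-! ## Restriction to a leaf is continuous -/

/-- a series of positive order is `x₀ f₀ + x₁ f₁`. -/
theorem exists_split {f : RR} {q : ℕ} (hf : ((q + 1 : ℕ) : ℕ∞) ≤ f.order) :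
    ∃ f0 f1 : RR, f = MvPowerSeries.X 0 * f0 + MvPowerSeries.X 1 * f1 ∧
      ((q : ℕ) : ℕ∞) ≤ f0.order ∧ ((q : ℕ) : ℕ∞) ≤ f1.order := by
  classical
  have hcf : ∀ d : Fin 2 →₀ ℕ, d.degree < q + 1 → MvPowerSeries.coeff d f = 0 := by
    intro d hd
    apply MvPowerSeries.coeff_of_lt_order
    exact lt_of_lt_of_le (by exact_mod_cast hd) hf
  obtain ⟨f0, hf0⟩ : ∃ f0 : RR, ∀ d, MvPowerSeries.coeff d f0 =
      MvPowerSeries.coeff (d + Finsupp.single 0 1) f :=
    ⟨fun d => MvPowerSeries.coeff (d + Finsupp.single 0 1) f, fun d => rfl⟩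
  obtain ⟨f1, hf1⟩ : ∃ f1 : RR, ∀ d, MvPowerSeries.coeff d f1 =
      if d 0 = 0 then MvPowerSeries.coeff (d + Finsupp.single 1 1) f else 0 :=
    ⟨fun d => if d 0 = 0 then MvPowerSeries.coeff (d + Finsupp.single 1 1) f else 0,
      fun d => rfl⟩
  refine ⟨f0, f1, ?_, ?_, ?_⟩
  · ext d
    rw [map_add, MvPowerSeries.X_def, MvPowerSeries.X_def, MvPowerSeries.coeff_monomial_mul,
      MvPowerSeries.coeff_monomial_mul, one_mul, one_mul]
    by_cases h0 : d 0 = 0
    · have h1 : ¬ (Finsupp.single (0 : Fin 2) 1 ≤ d) := by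
        intro h
        have := h 0
        simp [h0] at this
      rw [if_neg h1, zero_add]
      by_cases h2 : d 1 = 0
      · have hd : d = 0 := by
          ext i
          fin_cases i
          · exact h0
          · exact h2
        have h3 : ¬ (Finsupp.single (1 : Fin 2) 1 ≤ d) := by
          intro h
          have := h 1
          simp [h2] at this
        rw [if_neg h3]
        exact hcf d (by rw [hd, map_zero]; omega)
      · have h3 : Finsupp.single (1 : Fin 2) 1 ≤ d := by
          intro i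
          fin_cases i
          · simp
          · simp
            omega
        rw [if_pos h3, hf1, if_pos (by simp [h0]), tsub_add_cancel_of_le h3]
    · have h1 : Finsupp.single (0 : Fin 2) 1 ≤ d := by
        intro i
        fin_cases i
        · simp
          omega
        · simp
      rw [if_pos h1]
      have h2 : (if Finsupp.single (1 : Fin 2) 1 ≤ d then
          MvPowerSeries.coeff (d - Finsupp.single 1 1) f1 else 0) = 0 := by
        split_ifs with h3
        · rw [hf1, if_neg]
          simpa using h0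
        · rfl
      rw [h2, add_zero, hf0, tsub_add_cancel_of_le h1]
  · apply MvPowerSeries.nat_le_order
    intro d hd
    rw [hf0]
    exact hcf _ (by rw [map_add, Finsupp.degree_single]; omega)
  · apply MvPowerSeries.nat_le_order
    intro d hd
    rw [hf1]
    split_ifs
    · exact hcf _ (by rw [map_add, Finsupp.degree_single]; omega)
    · rfl

/-- algebra homomorphisms to `k⟦s⟧` are continuous. -/
theorem hom_continuous (lam : RR →ₐ[k] PowerSeries k) (q : ℕ) :
    ∀ f : RR, ((q : ℕ) : ℕ∞) ≤ f.order → (PowerSeries.X : PowerSeries k) ^ q ∣ lam f := by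
  have hX : ∀ i : Fin 2, (PowerSeries.X : PowerSeries k) ∣ lam (MvPowerSeries.X i) := by
    intro i
    rw [PowerSeries.X_dvd_iff]
    by_contra hc
    set c := PowerSeries.constantCoeff (lam (MvPowerSeries.X i)) with hcdef
    have hu : IsUnit ((MvPowerSeries.X i : RR) - MvPowerSeries.C c) := by
      rw [MvPowerSeries.isUnit_iff_constantCoeff]
      simp only [map_sub, MvPowerSeries.constantCoeff_X, MvPowerSeries.constantCoeff_C, zero_sub]
      exact isUnit_iff_ne_zero.mpr (neg_ne_zero.mpr hc)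
    have hu2 := hu.map lam
    rw [PowerSeries.isUnit_iff_constantCoeff, map_sub, map_sub, ← hcdef] at hu2
    have h3 : lam (MvPowerSeries.C c) = PowerSeries.C c := by
      have := lam.commutes c
      rw [MvPowerSeries.algebraMap_apply, PowerSeries.algebraMap_apply] at this
      simpa using this
    rw [h3, PowerSeries.constantCoeff_C, sub_self] at hu2
    exact not_isUnit_zero hu2
  induction q with
  | zero => intro f _; rw [pow_zero]; exact one_dvd _
  | succ q ih =>
    intro f hf
    obtain ⟨f0, f1, h1, h2, h3⟩ := exists_split hf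
    rw [h1, map_add, map_mul, map_mul, pow_succ, mul_comm ((PowerSeries.X : PowerSeries k) ^ q)]
    exact dvd_add (mul_dvd_mul (hX 0) (ih f0 h2)) (mul_dvd_mul (hX 1) (ih f1 h3))

/-! ## Lowest forms -/

/-- coefficient of `x_e`. -/
def lin (e : Fin 2) (f : RR) : k := MvPowerSeries.coeff (Finsupp.single e 1) f

theorem hc_one {z : RR} : z.homogeneousComponent 1 = ll (lin 0 z) (lin 1 z) := by
  classical
  ext d
  rw [MvPowerSeries.coeff_homogeneousComponent, ll, map_add, MvPowerSeries.coeff_smul,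
    MvPowerSeries.coeff_smul, MvPowerSeries.coeff_X, MvPowerSeries.coeff_X]
  have e1 : (Finsupp.single (0 : Fin 2) 1 : Fin 2 →₀ ℕ) ≠ Finsupp.single 1 1 := by
    intro h
    have := DFunLike.congr_fun h 0
    simp at this
  by_cases h0 : d = Finsupp.single 0 1
  · rw [h0, Finsupp.degree_single, if_pos rfl, if_pos rfl, if_neg e1, mul_one, mul_zero, add_zero]
    rfl
  · by_cases h1 : d = Finsupp.single 1 1
    · rw [h1, Finsupp.degree_single, if_pos rfl, if_pos rfl, if_neg e1.symm, mul_one, mul_zero,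
        zero_add]
      rfl
    · rw [if_neg h0, if_neg h1, mul_zero, mul_zero, add_zero, if_neg]
      intro hd
      rw [Finsupp.degree_eq_sum, Fin.sum_univ_two] at hd
      rcases Nat.add_eq_one_iff.mp hd with ⟨h2, h3⟩ | ⟨h2, h3⟩
      · apply h1
        ext i
        fin_cases i
        · simpa using h2
        · simpa using h3
      · apply h0
        ext i
        fin_cases i
        · simpa using h2
        · simpa using h3

theorem one_le_order {z : RR} (hz : MvPowerSeries.constantCoeff z = 0) : ((1 : ℕ) : ℕ∞) ≤ z.order := by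
  apply MvPowerSeries.nat_le_order
  intro d hd
  have : d = 0 := by
    have h : d.degree = 0 := by omega
    rwa [Finsupp.degree_eq_zero_iff] at h
  rw [this, MvPowerSeries.coeff_zero_eq_constantCoeff_apply, hz]

theorem hc_pow {z : RR} (hz : MvPowerSeries.constantCoeff z = 0) (p : ℕ) :
    (z ^ p).homogeneousComponent p = ll (lin 0 z) (lin 1 z) ^ p := by
  induction p with
  | zero =>
    rw [pow_zero, pow_zero]
    have h : (1 : RR).IsHomogeneous 0 := by
      have h' : (MvPowerSeries.C (1 : k) : RR).IsHomogeneous 0 := C_homog 1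
      rw [map_one] at h'
      exact @h'
    exact (MvPowerSeries.isHomogeneous_iff_eq_homogeneousComponent.mp h).symm
  | succ p ih =>
    rw [pow_succ, MvPowerSeries.homogeneousComponent_mul_of_le_order
      (MvPowerSeries.le_order_pow_of_constantCoeff_eq_zero p hz) (one_le_order hz), ih, hc_one,
      pow_succ]

/-- if `∑ z_j ^ p H_j = 0` and `p` is large compared with `Q`, then all `H_j` have order `≥ Q`. -/
theorem order_ge [CharZero k] {ι : Type*} [Fintype ι] {z : ι → RR}
    (hz : ∀ j, MvPowerSeries.constantCoeff (z j) = 0)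
    (hind : ∀ i j, i ≠ j → lin 1 (z i) * lin 0 (z j) - lin 0 (z i) * lin 1 (z j) ≠ 0)
    (hne : ∀ j, lin 0 (z j) ≠ 0 ∨ lin 1 (z j) ≠ 0) {Q p : ℕ} (hp : Fintype.card ι * (Q + 1) ≤ p)
    {H : ι → RR} (hsum : ∑ j, z j ^ p * H j = 0) (j : ι) : ((Q : ℕ) : ℕ∞) ≤ (H j).order := by
  classical
  by_contra hc
  have hc' : (H j).order < (Q : ℕ∞) := not_le.mp hc
  have htop : (H j).order ≠ ⊤ := ne_top_of_lt hc'
  obtain ⟨m, hm⟩ := ENat.ne_top_iff_exists.mp htop
  have hmQ : m < Q := by
    rw [← hm] at hc'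
    exact_mod_cast hc'
  have hex : ∃ q, ∃ j, (H j).homogeneousComponent q ≠ 0 :=
    ⟨m, j, MvPowerSeries.homogeneousComponent_of_order hm⟩
  set q := Nat.find hex with hq
  have hqm : q ≤ m := Nat.find_min' hex ⟨j, MvPowerSeries.homogeneousComponent_of_order hm⟩
  have hmin : ∀ i, ((q : ℕ) : ℕ∞) ≤ (H i).order := by
    intro i
    apply MvPowerSeries.nat_le_order
    intro d hd
    have h1 := Nat.find_min hex hd
    push Not at h1
    have h2 := congrArg (MvPowerSeries.coeff d) (h1 i)
    rw [MvPowerSeries.coeff_homogeneousComponent, if_pos rfl, map_zero] at h2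
    exact h2
  have hz0 : ∑ i, ll (lin 0 (z i)) (lin 1 (z i)) ^ p * (H i).homogeneousComponent q = 0 := by
    have h1 := congrArg (MvPowerSeries.homogeneousComponent (p + q)) hsum
    rw [map_zero, map_sum] at h1
    rw [← h1]
    refine Finset.sum_congr rfl fun i _ => ?_
    rw [MvPowerSeries.homogeneousComponent_mul_of_le_order
      (MvPowerSeries.le_order_pow_of_constantCoeff_eq_zero p (hz i)) (hmin i), hc_pow (hz i)]
  have h3 := key_forms (a := fun i => lin 0 (z i)) (b := fun i => lin 1 (z i)) q Finset.univ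
    (fun i _ j _ hij => hind i j hij) (fun i _ => hne i) p
    (fun i => (H i).homogeneousComponent q) (by
      rw [Finset.card_univ]
      exact (Nat.mul_le_mul_left _ (by omega)).trans hp)
    (fun i _ => MvPowerSeries.isHomogeneous_homogeneousComponent _ _) hz0
  obtain ⟨j', hj'⟩ := Nat.find_spec hex
  exact hj' (h3 j' (Finset.mem_univ _))

/-! ## The web lemma -/

theorem lam_sig {z : RR} {σ : PowerSeries k →ₐ[k] RR} (hσ : σ PowerSeries.X = z)
    {lam : RR →ₐ[k] PowerSeries k} (hl : lam z = 0) (m : PowerSeries k) :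
    lam (σ m) = PowerSeries.C (PowerSeries.constantCoeff m) := by
  have h1 : (PowerSeries.X : PowerSeries k) ∣ m - PowerSeries.C (PowerSeries.constantCoeff m) := by
    rw [PowerSeries.X_dvd_iff]
    simp
  obtain ⟨m', hm'⟩ := h1
  have h2 : m = PowerSeries.C (PowerSeries.constantCoeff m) + PowerSeries.X * m' := by
    rw [← hm']; ring
  have h3 : ∀ c : k, (PowerSeries.C c : PowerSeries k) = algebraMap k (PowerSeries k) c := by
    intro c; rw [PowerSeries.algebraMap_apply]; rfl
  conv_lhs => rw [h2]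
  rw [map_add, map_add, map_mul, map_mul, hσ, hl, zero_mul, add_zero, h3, AlgHom.commutes,
    AlgHom.commutes]

/-- **L1g (order form)**. -/
theorem web_step [CharZero k] {ι : Type*} [Fintype ι] {z : ι → RR}
    (hz : ∀ j, MvPowerSeries.constantCoeff (z j) = 0)
    (hind : ∀ i j, i ≠ j → lin 1 (z i) * lin 0 (z j) - lin 0 (z i) * lin 1 (z j) ≠ 0)
    (hne : ∀ j, lin 0 (z j) ≠ 0 ∨ lin 1 (z j) ≠ 0)
    {σ : ι → PowerSeries k →ₐ[k] RR} (hσ : ∀ j, σ j PowerSeries.X = z j)
    {lam : ι → RR →ₐ[k] PowerSeries k} (hl : ∀ j, lam j (z j) = 0)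
    {G : ι → Type*} [∀ j, Fintype (G j)] {g : ∀ j, G j → RR}
    (hg : ∀ j, LinearIndependent k fun i => lam j (g j i)) :
    ∃ p0 : ℕ, ∀ n : (j : ι) → G j → PowerSeries k, (∑ j, ∑ i, σ j (n j i) * g j i = 0) →
      ∀ p, p0 ≤ p → (∀ j i, (PowerSeries.X : PowerSeries k) ^ p ∣ n j i) →
        ∀ j i, (PowerSeries.X : PowerSeries k) ^ (p + 1) ∣ n j i := by
  classical
  choose Q hQ using fun j => exists_bound (hg j)
  refine ⟨Fintype.card ι * ((∑ j, Q j) + 1), fun n hn p hp hdvd j i => ?_⟩
  choose m hm using hdvd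
  set H : ι → RR := fun j => ∑ i, σ j (m j i) * g j i with hH
  have hsum : ∑ j, z j ^ p * H j = 0 := by
    rw [← hn]
    refine Finset.sum_congr rfl fun j _ => ?_
    rw [hH, Finset.mul_sum]
    refine Finset.sum_congr rfl fun i _ => ?_
    rw [hm j i, map_mul, map_pow, hσ, mul_assoc]
  have hord := order_ge hz hind hne hp hsum j
  have h1 := hom_continuous (lam j) _ (H j) hord
  have h2 : lam j (H j) = ∑ i, PowerSeries.constantCoeff (m j i) • lam j (g j i) := by
    rw [hH, map_sum]
    refine Finset.sum_congr rfl fun i _ => ?_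
    rw [map_mul, lam_sig (hσ j) (hl j), PowerSeries.smul_eq_C_mul]
  rw [h2] at h1
  have h3 := hQ j (fun i => PowerSeries.constantCoeff (m j i))
    ((pow_dvd_pow _ (Finset.single_le_sum (fun _ _ => Nat.zero_le _) (Finset.mem_univ j))).trans h1)
  rw [hm j i, pow_succ]
  exact mul_dvd_mul_left _ (PowerSeries.X_dvd_iff.mpr (congrFun h3 i))

/-- **L1g**: solutions are determined by a finite jet. -/
theorem web [CharZero k] {ι : Type*} [Fintype ι] {z : ι → RR}
    (hz : ∀ j, MvPowerSeries.constantCoeff (z j) = 0)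
    (hind : ∀ i j, i ≠ j → lin 1 (z i) * lin 0 (z j) - lin 0 (z i) * lin 1 (z j) ≠ 0)
    (hne : ∀ j, lin 0 (z j) ≠ 0 ∨ lin 1 (z j) ≠ 0)
    {σ : ι → PowerSeries k →ₐ[k] RR} (hσ : ∀ j, σ j PowerSeries.X = z j)
    {lam : ι → RR →ₐ[k] PowerSeries k} (hl : ∀ j, lam j (z j) = 0)
    {G : ι → Type*} [∀ j, Fintype (G j)] {g : ∀ j, G j → RR}
    (hg : ∀ j, LinearIndependent k fun i => lam j (g j i)) :
    ∃ p0 : ℕ, ∀ n : (j : ι) → G j → PowerSeries k, (∑ j, ∑ i, σ j (n j i) * g j i = 0) →
      (∀ j i, ∀ m < p0, PowerSeries.coeff m (n j i) = 0) → n = 0 := by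
  obtain ⟨p0, h⟩ := web_step hz hind hne hσ hl hg
  refine ⟨p0, fun n hn h0 => ?_⟩
  have hall : ∀ p, p0 ≤ p → ∀ j i, (PowerSeries.X : PowerSeries k) ^ p ∣ n j i := by
    intro p hp
    induction p, hp using Nat.le_induction with
    | base => exact fun j i => PowerSeries.X_pow_dvd_iff.mpr (h0 j i)
    | succ p hp ih => exact h n hn p hp ih
  funext j i
  ext m
  rw [Pi.zero_apply, Pi.zero_apply, map_zero]
  exact PowerSeries.X_pow_dvd_iff.mp (hall (max p0 (m + 1)) (le_max_left _ _) j i) m
    (lt_of_lt_of_le (Nat.lt_succ_self m) (le_max_right _ _))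

/-- the space of solutions. -/
def Sol {ι : Type*} [Fintype ι] (σ : ι → PowerSeries k →ₐ[k] RR)
    {G : ι → Type*} [∀ j, Fintype (G j)] (g : ∀ j, G j → RR) :
    Submodule k ((j : ι) → G j → PowerSeries k) where
  carrier := {n | ∑ j, ∑ i, σ j (n j i) * g j i = 0}
  add_mem' := by
    intro n n' hn hn'
    simp only [Set.mem_ofPred_eq] at hn hn' ⊢
    simp only [Pi.add_apply, map_add, add_mul, Finset.sum_add_distrib, hn, hn', add_zero]
  zero_mem' := by simp
  smul_mem' := by
    intro c n hn
    simp only [Set.mem_ofPred_eq] at hn ⊢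
    simp only [Pi.smul_apply, map_smul, smul_mul_assoc, ← Finset.smul_sum, hn, smul_zero]

/-- **L1g**: the space of solutions is finite dimensional. -/
theorem web_finite [CharZero k] {ι : Type*} [Fintype ι] {z : ι → RR}
    (hz : ∀ j, MvPowerSeries.constantCoeff (z j) = 0)
    (hind : ∀ i j, i ≠ j → lin 1 (z i) * lin 0 (z j) - lin 0 (z i) * lin 1 (z j) ≠ 0)
    (hne : ∀ j, lin 0 (z j) ≠ 0 ∨ lin 1 (z j) ≠ 0)
    {σ : ι → PowerSeries k →ₐ[k] RR} (hσ : ∀ j, σ j PowerSeries.X = z j)
    {lam : ι → RR →ₐ[k] PowerSeries k} (hl : ∀ j, lam j (z j) = 0)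
    {G : ι → Type*} [∀ j, Fintype (G j)] {g : ∀ j, G j → RR}
    (hg : ∀ j, LinearIndependent k fun i => lam j (g j i)) : Module.Finite k (Sol σ g) := by
  classical
  obtain ⟨p0, h⟩ := web hz hind hne hσ hl hg
  let J : Sol σ g →ₗ[k] ((Σ j, G j) × Fin p0 → k) :=
    { toFun := fun n x => PowerSeries.coeff (x.2 : ℕ) (n.1 x.1.1 x.1.2)
      map_add' := fun n n' => by funext x; simp
      map_smul' := fun c n => by funext x; simp }
  refine Module.Finite.of_injective J ?_
  rw [← LinearMap.ker_eq_bot, LinearMap.ker_eq_bot']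
  intro n hn
  apply Subtype.ext
  apply h n.1 n.2
  intro j i m hm
  exact congrFun hn (⟨j, i⟩, ⟨m, hm⟩)

end Crest.Agent.R102.L1g201
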