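import Crest.Agent.R102.LVB_669

/-!
Row 102, T1-B (helper669), part C: the sheared sets over the half disc and 150's pointwise rules
from the three set inclusions.
-/

set_option autoImplicit false
set_option linter.unusedSectionVars false

open Set Filter Topology Metric Complex MeasureTheory
open scoped Real

noncomputable section

namespace Crest.Agent.R102.K669

open Crest.Agent.R102.Heights150 (HD pen Dh tilt Rule mn pl)

lemma isOpen_HD (R : ℝ) : IsOpen (HD R) :=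
  (isOpen_lt continuous_const Complex.continuous_im).inter
    (isOpen_lt (by fun_prop : Continuous (fun z : ℂ => ‖z‖)) continuous_const)

/-- the set `Om` in the coordinates `t' = t - G z`, `w = u + z`, `z ∈ HD R` -/
def half (u R : ℝ) (G : ℂ → ℂ) (Om : Set (ℂ × ℂ)) : Set (ℂ × ℂ) :=
  {q | q.2 ∈ HD R ∧ (q.1 + G q.2, (u : ℂ) + q.2) ∈ Om}

lemma half_eq (u R : ℝ) (G : ℂ → ℂ) (Om : Set (ℂ × ℂ)) :
    half u R G Om = shr (HD R) G {q | (q.1, (u : ℂ) + q.2) ∈ Om} := rfl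

/-- **the set over the half disc is an LV set** -/
theorem LV.half {b : ℝ} {W : Set ℂ} {Om : Set (ℂ × ℂ)} (h : LV b W Om) {u R : ℝ}
    (hsub : ∀ z ∈ HD R, (u : ℂ) + z ∈ W) {G : ℂ → ℂ} (hG : DifferentiableOn ℂ G (HD R)) {b' : ℝ}
    (hb : ∀ z ∈ HD R, ∀ t : ℂ, t.im < b' + (G z).im → (t, (u : ℂ) + z) ∈ Om) :
    LV b' (HD R) (half u R G Om) := by
  rw [half_eq]
  exact (h.translate (u : ℂ)).shear (isOpen_HD R) (fun z hz => hsub z hz) hG hb

section Rules

variable {u R : ℝ} {G : ℂ → ℂ} {A B D : Set (ℂ × ℂ)} {A' B' D' : Set (ℂ × ℂ)}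

/-- general form: `A` shifted by `a w`, `B` shifted by `c w`, `D` shifted by `d w` -/
theorem rule_gen {bD : ℝ} (hR1 : R ≤ 1)
    (hA : LV 0 (HD R) (half u R G A)) (hB : LV 0 (HD R) (half u R G B))
    (hD : LV bD (HD R) (half u R G D)) {a c d : ℝ} (hd : |d| ≤ 1 / 2)
    (hrule : ∀ t : ℂ, ∀ z ∈ HD R, (t + a * ((u : ℂ) + z), (u : ℂ) + z) ∈ A →
      (t + c * ((u : ℂ) + z), (u : ℂ) + z) ∈ B → (t + d * ((u : ℂ) + z), (u : ℂ) + z) ∈ D) :
    Rule (fun x z => kO (half u R G A) (x + a * (u + z.re)) z - a * z.im)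
      (fun x z => kO (half u R G B) (x + c * (u + z.re)) z - c * z.im)
      (fun x z => kO (half u R G D) (x + d * (u + z.re)) z - d * z.im) R := by
  intro x z hz e he h1 h2
  have hzim : 0 < z.im := hz.1
  have hzR : z.im < R := Heights150.im_lt_of_mem hz
  obtain ⟨d1, d2⟩ := abs_le.1 hd
  have hdz : d * z.im ≤ 1 / 2 := by nlinarith
  have key : e + d * z.im ≤ kO (half u R G D) (x + d * (u + z.re)) z := by
    refine hD.le_kO hz (by linarith) (fun y' hy' => ?_)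
    set y := y' - d * z.im with hy
    have hye : y < e := by rw [hy]; linarith
    have m1 := hA.mem_of_lt (x := x + a * (u + z.re)) (y := y + a * z.im) hz (by linarith)
    have m2 := hB.mem_of_lt (x := x + c * (u + z.re)) (y := y + c * z.im) hz (by linarith)
    have conv : ∀ (S : Set (ℂ × ℂ)) (α : ℝ),
        ((((x + α * (u + z.re) : ℝ) : ℂ) + ((y + α * z.im : ℝ) : ℂ) * I, z) : ℂ × ℂ) ∈
          half u R G S ↔
        (((x : ℂ) + y * I + G z) + α * ((u : ℂ) + z), (u : ℂ) + z) ∈ S := by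
      intro S α
      have e1 : ((x + α * (u + z.re) : ℝ) : ℂ) + ((y + α * z.im : ℝ) : ℂ) * I + G z =
          ((x : ℂ) + y * I + G z) + α * ((u : ℂ) + z) := by
        apply Complex.ext <;> simp <;> ring
      constructor
      · rintro ⟨-, h⟩
        simp only at h
        rwa [e1] at h
      · intro h
        refine ⟨hz, ?_⟩
        simp only
        rwa [e1]
    have m3 := hrule _ z hz ((conv A a).1 m1) ((conv B c).1 m2)
    have m4 := (conv D d).2 m3
    have e2 : y + d * z.im = y' := by rw [hy]; ring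
    rw [e2] at m4
    exact m4
  linarith

lemma mn_eq : mn u (kO (half u R G A)) =
    (fun x z => kO (half u R G A) (x + (-(1 / 2) : ℝ) * (u + z.re)) z - (-(1 / 2) : ℝ) * z.im) := by
  funext x z
  unfold mn
  have : x - (u + z.re) / 2 = x + (-(1 / 2) : ℝ) * (u + z.re) := by ring
  rw [this]; ring

lemma pl_eq : pl u (kO (half u R G A)) =
    (fun x z => kO (half u R G A) (x + ((1 / 2 : ℝ)) * (u + z.re)) z - ((1 / 2 : ℝ)) * z.im) := by
  funext x z
  unfold pl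
  have : x + (u + z.re) / 2 = x + ((1 / 2 : ℝ)) * (u + z.re) := by ring
  rw [this]; ring

lemma k_eq : kO (half u R G A) =
    (fun x z => kO (half u R G A) (x + (0 : ℝ) * (u + z.re)) z - (0 : ℝ) * z.im) := by
  funext x z
  simp

/-- **150's three rules from the three set inclusions** -/
theorem rules {L X : Set (ℂ × ℂ)} (hR1 : R ≤ 1)
    (hL : LV 0 (HD R) (half u R G L)) (hX : LV 0 (HD R) (half u R G X))
    (h1 : ∀ t : ℂ, ∀ z ∈ HD R, (t - ((u : ℂ) + z) / 2, (u : ℂ) + z) ∈ L →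
      (t + ((u : ℂ) + z) / 2, (u : ℂ) + z) ∈ L → (t, (u : ℂ) + z) ∈ X)
    (h2 : ∀ t : ℂ, ∀ z ∈ HD R, (t, (u : ℂ) + z) ∈ X →
      (t + ((u : ℂ) + z) / 2, (u : ℂ) + z) ∈ L → (t - ((u : ℂ) + z) / 2, (u : ℂ) + z) ∈ L)
    (h3 : ∀ t : ℂ, ∀ z ∈ HD R, (t - ((u : ℂ) + z) / 2, (u : ℂ) + z) ∈ L →
      (t, (u : ℂ) + z) ∈ X → (t + ((u : ℂ) + z) / 2, (u : ℂ) + z) ∈ L) :
    Rule (mn u (kO (half u R G L))) (pl u (kO (half u R G L))) (kO (half u R G X)) R ∧
    Rule (kO (half u R G X)) (pl u (kO (half u R G L))) (mn u (kO (half u R G L))) R ∧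
    Rule (mn u (kO (half u R G L))) (kO (half u R G X)) (pl u (kO (half u R G L))) R := by
  have em : ∀ (t z : ℂ), t + ((-(1 / 2) : ℝ) : ℂ) * ((u : ℂ) + z) = t - ((u : ℂ) + z) / 2 := by
    intro t z; push_cast; ring
  have ep : ∀ (t z : ℂ), t + ((1 / 2 : ℝ) : ℂ) * ((u : ℂ) + z) = t + ((u : ℂ) + z) / 2 := by
    intro t z; push_cast; ring
  have e0 : ∀ (t z : ℂ), t + ((0 : ℝ) : ℂ) * ((u : ℂ) + z) = t := by
    intro t z; simp
  have n1 : |(-(1 / 2) : ℝ)| ≤ 1 / 2 := by norm_num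
  have n2 : |((1 / 2 : ℝ))| ≤ 1 / 2 := by norm_num
  have n0 : |(0 : ℝ)| ≤ 1 / 2 := by norm_num
  have r1 := rule_gen hR1 hL hL hX (a := -(1 / 2)) (c := 1 / 2) (d := 0) n0
    (fun t z hz => by simp only [em, ep, e0]; exact h1 t z hz)
  have r2 := rule_gen hR1 hX hL hL (a := 0) (c := 1 / 2) (d := -(1 / 2)) n1
    (fun t z hz => by simp only [em, ep, e0]; exact h2 t z hz)
  have r3 := rule_gen hR1 hL hX hL (a := -(1 / 2)) (c := 0) (d := 1 / 2) n2
    (fun t z hz => by simp only [em, ep, e0]; exact h3 t z hz)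
  rw [← mn_eq, ← pl_eq, ← k_eq] at r1
  rw [← mn_eq, ← pl_eq, ← k_eq] at r2
  rw [← mn_eq, ← pl_eq, ← k_eq] at r3
  exact ⟨r1, r2, r3⟩

end Rules

end Crest.Agent.R102.K669
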