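import Crest.Agent.R102.KontD_669
import Crest.Agent.R102.Heights_150

/-!
Row 102, T1-B (D1), (D2) of 547 and (P2) of 150 (helper669): vertical-star open sets with the Levi
property, closed under holomorphic shears; heights over vertical lines; penalised heights are
superharmonic.
-/

set_option autoImplicit false
set_option linter.unusedSectionVars false

open Set Filter Topology Metric Complex MeasureTheory
open scoped Real

noncomputable section

namespace Crest.Agent.R102.K669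

/-- vertical-star open set over `W` with (one-sided) base `{Im t < b}` and the Levi property -/
structure LV (b : ℝ) (W : Set ℂ) (Om : Set (ℂ × ℂ)) : Prop where
  isOpen : IsOpen Om
  WO : IsOpen W
  sub : ∀ p ∈ Om, p.2 ∈ W
  base : ∀ w ∈ W, ∀ t : ℂ, t.im < b → (t, w) ∈ Om
  star : ∀ p ∈ Om, ∀ y : ℝ, 0 ≤ y → (p.1 - y * I, p.2) ∈ Om
  levi : ∀ t0 : ℂ, ∀ w0 ∈ W, ∀ P sg H : ℂ → ℂ, AnalyticAt ℂ P (t0 - sg w0) →
    0 < (deriv P (t0 - sg w0)).re → AnalyticAt ℂ sg w0 → AnalyticAt ℂ H w0 →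
    (P (t0 - sg w0)).im = (H w0).im → ∀ δ > 0,
    (∀ᶠ q : ℂ × ℂ in 𝓝 (t0, w0),
      (P (q.1 - sg q.2)).im < (H q.2).im + δ * ‖q.2 - w0‖ ^ 2 → q ∈ Om) → (t0, w0) ∈ Om

/-- the sheared set -/
def shr (W' : Set ℂ) (g : ℂ → ℂ) (Om : Set (ℂ × ℂ)) : Set (ℂ × ℂ) :=
  {q | q.2 ∈ W' ∧ (q.1 + g q.2, q.2) ∈ Om}

section LVs

variable {b : ℝ} {W : Set ℂ} {Om : Set (ℂ × ℂ)}

/-- **LV sets are closed under holomorphic shears** -/
theorem LV.shear (h : LV b W Om) {W' : Set ℂ} (hW' : IsOpen W') (hWW : W' ⊆ W) {g : ℂ → ℂ}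
    (hg : DifferentiableOn ℂ g W') {b' : ℝ}
    (hb : ∀ w ∈ W', ∀ t : ℂ, t.im < b' + (g w).im → (t, w) ∈ Om) : LV b' W' (shr W' g Om) := by
  have hgc : ContinuousOn g W' := hg.continuousOn
  refine ⟨?_, hW', fun p hp => hp.1, ?_, ?_, ?_⟩
  · have h1 : ContinuousOn (fun q : ℂ × ℂ => ((q.1 + g q.2, q.2) : ℂ × ℂ)) (Prod.snd ⁻¹' W') := by
      refine ContinuousOn.prodMk ?_ continuousOn_snd
      exact continuousOn_fst.add (hgc.comp continuousOn_snd (fun q hq => hq))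
    exact h1.isOpen_inter_preimage (hW'.preimage continuous_snd) h.isOpen
  · intro w hw t ht
    refine ⟨hw, hb w hw _ ?_⟩
    simp only [add_im]; linarith
  · intro p hp y hy
    refine ⟨hp.1, ?_⟩
    have h1 := h.star _ hp.2 y hy
    simp only at h1 ⊢
    have h2 : p.1 - y * I + g p.2 = p.1 + g p.2 - y * I := by ring
    rw [h2]; exact h1
  · intro t0 w0 hw0 P sg H hP hP' hsg hH h0 δ hδ hev
    refine ⟨hw0, ?_⟩
    have hga : AnalyticAt ℂ g w0 := hg.analyticAt (hW'.mem_nhds hw0)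
    have e1 : t0 + g w0 - (sg w0 + g w0) = t0 - sg w0 := by ring
    refine h.levi (t0 + g w0) w0 (hWW hw0) P (fun w => sg w + g w) H (by simpa only [e1] using hP)
      (by simpa only [e1] using hP') (hsg.add hga) hH (by simpa only [e1] using h0) δ hδ ?_
    have hc : ContinuousAt (fun q : ℂ × ℂ => ((q.1 - g q.2, q.2) : ℂ × ℂ)) (t0 + g w0, w0) := by
      refine ContinuousAt.prodMk ?_ continuousAt_snd
      refine continuousAt_fst.sub ?_
      exact ContinuousAt.comp (g := g) (f := fun q : ℂ × ℂ => q.2) hga.continuousAt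
        continuousAt_snd
    have hpt : ((t0 + g w0 - g w0, w0) : ℂ × ℂ) = (t0, w0) := by simp
    have hev' := hc.eventually (by simpa only [hpt] using hev)
    filter_upwards [hev'] with q hq h1
    have e2 : q.1 - (sg q.2 + g q.2) = q.1 - g q.2 - sg q.2 := by ring
    have h3 := hq (by simpa only [e2] using h1)
    have h4 := h3.2
    simpa using h4

/-- translation of the parameter -/
theorem LV.translate (h : LV b W Om) (u : ℂ) :
    LV b {z | u + z ∈ W} {q | (q.1, u + q.2) ∈ Om} := by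
  have c1 : Continuous (fun q : ℂ × ℂ => ((q.1, u + q.2) : ℂ × ℂ)) := by fun_prop
  have c2 : Continuous (fun z : ℂ => u + z) := by fun_prop
  refine ⟨h.isOpen.preimage c1, h.WO.preimage c2, fun p hp => h.sub _ hp, ?_, ?_, ?_⟩
  · intro w hw t ht
    exact h.base _ hw t ht
  · intro p hp y hy
    exact h.star _ hp y hy
  · intro t0 w0 hw0 P sg H hP hP' hsg hH h0 δ hδ hev
    have hsub : AnalyticAt ℂ (fun z : ℂ => z - u) (u + w0) := by fun_prop
    have e1 : u + w0 - u = w0 := by ring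
    have h1 : AnalyticAt ℂ (fun z => sg (z - u)) (u + w0) :=
      AnalyticAt.comp (g := sg) (f := fun z : ℂ => z - u) (by simpa only [e1] using hsg) hsub
    have h2 : AnalyticAt ℂ (fun z => H (z - u)) (u + w0) :=
      AnalyticAt.comp (g := H) (f := fun z : ℂ => z - u) (by simpa only [e1] using hH) hsub
    refine h.levi t0 (u + w0) hw0 P (fun z => sg (z - u)) (fun z => H (z - u))
      (by simpa only [e1] using hP) (by simpa only [e1] using hP') h1 h2
      (by simpa only [e1] using h0) δ hδ ?_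
    have hc : ContinuousAt (fun q : ℂ × ℂ => ((q.1, q.2 - u) : ℂ × ℂ)) (t0, u + w0) := by fun_prop
    have hpt : ((t0, u + w0 - u) : ℂ × ℂ) = (t0, w0) := by simp
    have hev' := hc.eventually (by simpa only [hpt] using hev)
    filter_upwards [hev'] with q hq h3
    have e2 : q.2 - u - w0 = q.2 - (u + w0) := by ring
    have h4 := hq (by simpa only [e2] using h3)
    simpa using h4

theorem LV.restrict (h : LV b W Om) {W' : Set ℂ} (hW' : IsOpen W') (hWW : W' ⊆ W) :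
    LV b W' {q | q.2 ∈ W' ∧ q ∈ Om} := by
  have h1 := h.shear hW' hWW (g := fun _ => 0) (differentiableOn_const _) (b' := b) ?_
  · simpa [shr] using h1
  · intro w hw t ht
    exact h.base w (hWW hw) t (by simpa using ht)

theorem LV.base_le (h : LV b W Om) {b' : ℝ} (hb : b' ≤ b) : LV b' W Om :=
  ⟨h.isOpen, h.WO, h.sub, fun w hw t ht => h.base w hw t (ht.trans_le hb), h.star, h.levi⟩

/-- a set reached from below (limit from below along the vertical line is enough) -/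
theorem LV.below (h : LV b W Om) {x y y' : ℝ} {w : ℂ} (hy : y' ≤ y)
    (hm : ((x : ℂ) + y * I, w) ∈ Om) : ((x : ℂ) + y' * I, w) ∈ Om := by
  have h1 := h.star _ hm (y - y') (by linarith)
  simp only at h1
  have h2 : (x : ℂ) + y * I - ((y - y' : ℝ) : ℂ) * I = x + y' * I := by push_cast; ring
  rwa [h2] at h1

/-! ### heights over vertical lines -/

/-- the height over the vertical line `Re t = x`, capped at `1` -/
def kO (Om : Set (ℂ × ℂ)) (x : ℝ) (w : ℂ) : ℝ := sSup {y : ℝ | y ≤ 1 ∧ ((x : ℂ) + y * I, w) ∈ Om}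

lemma kO_bdd (Om : Set (ℂ × ℂ)) (x : ℝ) (w : ℂ) :
    BddAbove {y : ℝ | y ≤ 1 ∧ ((x : ℂ) + y * I, w) ∈ Om} := ⟨1, fun _ hy => hy.1⟩

lemma LV.kO_ne (h : LV b W Om) (x : ℝ) {w : ℂ} (hw : w ∈ W) :
    {y : ℝ | y ≤ 1 ∧ ((x : ℂ) + y * I, w) ∈ Om}.Nonempty := by
  refine ⟨min 1 (b - 1), min_le_left _ _, h.base w hw _ ?_⟩
  have := min_le_right 1 (b - 1)
  simp only [add_im, ofReal_im, mul_im, ofReal_re, I_im, I_re, mul_one, mul_zero, add_zero,
    zero_add]
  linarith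

lemma LV.kO_le (h : LV b W Om) (x : ℝ) {w : ℂ} (hw : w ∈ W) : kO Om x w ≤ 1 :=
  csSup_le (h.kO_ne x hw) (fun _ hy => hy.1)

lemma LV.le_kO (h : LV b W Om) {x y : ℝ} {w : ℂ} (hw : w ∈ W) (hy1 : y ≤ 1)
    (hy : ∀ y' < y, ((x : ℂ) + y' * I, w) ∈ Om) : y ≤ kO Om x w := by
  refine le_of_forall_lt (fun y' hy' => ?_)
  obtain ⟨y'', h1, h2⟩ := exists_between hy'
  exact h1.trans_le (le_csSup (kO_bdd Om x w) ⟨h2.le.trans hy1, hy y'' h2⟩)

lemma LV.base_le_kO (h : LV b W Om) (hb : b ≤ 1) (x : ℝ) {w : ℂ} (hw : w ∈ W) :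
    b ≤ kO Om x w := by
  refine h.le_kO hw hb (fun y' hy' => h.base w hw _ ?_)
  simpa using hy'

lemma LV.mem_of_lt (h : LV b W Om) {x y : ℝ} {w : ℂ} (hw : w ∈ W) (hy : y < kO Om x w) :
    ((x : ℂ) + y * I, w) ∈ Om := by
  obtain ⟨y', hy', hlt⟩ := exists_lt_of_lt_csSup (h.kO_ne x hw) hy
  exact h.below hlt.le hy'.2

lemma LV.lt_kO_of_mem (h : LV b W Om) {x y : ℝ} {w : ℂ} (hy1 : y < 1)
    (hm : ((x : ℂ) + y * I, w) ∈ Om) : y < kO Om x w := by
  have hc : ContinuousAt (fun y' : ℝ => (((x : ℂ) + y' * I, w) : ℂ × ℂ)) y := by fun_prop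
  have hev := hc.eventually (h.isOpen.mem_nhds hm)
  obtain ⟨ε, hε, hev⟩ := Metric.eventually_nhds_iff.1 hev
  set y' := min ((y + 1) / 2) (y + ε / 2) with hy'
  have h1 : y < y' := lt_min (by linarith) (by linarith)
  have h2 : y' ≤ 1 := (min_le_left _ _).trans (by linarith)
  have h3 : y' ≤ y + ε / 2 := min_le_right _ _
  refine h1.trans_le (le_csSup (kO_bdd Om x w) ⟨h2, hev ?_⟩)
  rw [Real.dist_eq, abs_of_pos (by linarith)]
  linarith

lemma LV.kO_notMem (h : LV b W Om) {x y : ℝ} {w : ℂ} (hy1 : kO Om x w < 1)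
    (hy : kO Om x w ≤ y) : ((x : ℂ) + y * I, w) ∉ Om := by
  intro hm
  have := h.lt_kO_of_mem hy1 (h.below hy hm)
  exact lt_irrefl _ this

/-- joint lower semicontinuity of the heights -/
lemma LV.kO_lsc (h : LV b W Om) :
    LowerSemicontinuousOn (fun p : ℝ × ℂ => kO Om p.1 p.2) {p | p.2 ∈ W} := by
  rintro ⟨x, w⟩ hw c hc
  obtain ⟨c', h1, h2⟩ := exists_between hc
  have h3 := h.mem_of_lt hw h2
  have hc' : ContinuousAt (fun p : ℝ × ℂ => (((p.1 : ℂ) + c' * I, p.2) : ℂ × ℂ)) (x, w) := by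
    fun_prop
  have hev := hc'.eventually (h.isOpen.mem_nhds h3)
  filter_upwards [nhdsWithin_le_nhds hev, self_mem_nhdsWithin] with p hp hpW
  have hc1 : c' ≤ 1 := (h2.le).trans (h.kO_le x hw)
  exact h1.trans_le (h.le_kO hpW hc1 (fun y' hy' => h.below hy'.le hp))

end LVs

/-! ### abstract penalised heights -/

/-- admissible penalty for an open set -/
structure PenS (Om : Set (ℂ × ℂ)) (W : Set ℂ) (Φ : ℂ → ℝ) (m M : ℝ) (Q : Set ℂ) : Prop where
  isOpen : IsOpen Om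
  WO : IsOpen W
  hmM : m ≤ M
  low : ∀ w ∈ W, ∀ t : ℂ, Φ t < m → (t, w) ∈ Om
  cont : Continuous Φ
  touch : ∀ t ∈ Q, ∀ w0 ∈ W, m ≤ Φ t → Φ t ≤ M → ∀ H : ℂ → ℂ, AnalyticAt ℂ H w0 →
    (H w0).im = Φ t → ∀ δ > 0, (∀ᶠ q : ℂ × ℂ in 𝓝 (t, w0),
      Φ q.1 < (H q.2).im + δ * ‖q.2 - w0‖ ^ 2 → q ∈ Om) → (t, w0) ∈ Om
  Qc : IsCompact Q
  move : ∀ w ∈ W, ∀ t : ℂ, Φ t ≤ M → (t, w) ∉ Om → ∃ t' ∈ Q, Φ t' ≤ Φ t ∧ (t', w) ∉ Om

/-- the admissible levels at `w` -/
def LevS (Om : Set (ℂ × ℂ)) (Φ : ℂ → ℝ) (m M : ℝ) (w : ℂ) : Set ℝ :=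
  {r | m ≤ r ∧ r ≤ M ∧ ∀ t : ℂ, Φ t < r → (t, w) ∈ Om}

/-- the penalised height of an open set -/
def hgtS (Om : Set (ℂ × ℂ)) (Φ : ℂ → ℝ) (m M : ℝ) (w : ℂ) : ℝ := sSup (LevS Om Φ m M w)

section PenS

variable {Om : Set (ℂ × ℂ)} {W : Set ℂ} {Φ : ℂ → ℝ} {m M : ℝ} {Q : Set ℂ}

lemma PenS.m_mem (h : PenS Om W Φ m M Q) {w : ℂ} (hw : w ∈ W) : m ∈ LevS Om Φ m M w :=
  ⟨le_refl _, h.hmM, fun t hΦ => h.low w hw t hΦ⟩

lemma LevS_bdd (w : ℂ) : BddAbove (LevS Om Φ m M w) := ⟨M, fun _ hr => hr.2.1⟩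

lemma PenS.m_le (h : PenS Om W Φ m M Q) {w : ℂ} (hw : w ∈ W) : m ≤ hgtS Om Φ m M w :=
  le_csSup (LevS_bdd w) (h.m_mem hw)

lemma PenS.le_M (h : PenS Om W Φ m M Q) {w : ℂ} (hw : w ∈ W) : hgtS Om Φ m M w ≤ M :=
  csSup_le ⟨m, h.m_mem hw⟩ (fun _ hr => hr.2.1)

lemma PenS.reg (h : PenS Om W Φ m M Q) {w : ℂ} (hw : w ∈ W) {t : ℂ}
    (hΦ : Φ t < hgtS Om Φ m M w) : (t, w) ∈ Om := by
  obtain ⟨r, hr, hlt⟩ := exists_lt_of_lt_csSup ⟨m, h.m_mem hw⟩ hΦ
  exact hr.2.2 t hlt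

lemma PenS.le_hgt (h : PenS Om W Φ m M Q) {w : ℂ} (hw : w ∈ W) {r : ℝ} (hrM : r ≤ M)
    (hr : ∀ t : ℂ, Φ t < r → (t, w) ∈ Om) : r ≤ hgtS Om Φ m M w := by
  rcases lt_or_ge r m with h1 | h1
  · exact h1.le.trans (h.m_le hw)
  · exact le_csSup (LevS_bdd w) ⟨h1, hrM, hr⟩

lemma PenS.le_hgt_Q (h : PenS Om W Φ m M Q) {w : ℂ} (hw : w ∈ W) {r : ℝ} (hrM : r ≤ M)
    (hr : ∀ t ∈ Q, Φ t ≤ r → (t, w) ∈ Om) : r ≤ hgtS Om Φ m M w := by
  refine h.le_hgt hw hrM (fun t hΦ => ?_)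
  by_contra hcon
  obtain ⟨t', ht', hle, hn⟩ := h.move w hw t (hΦ.le.trans hrM) hcon
  exact hn (hr t' ht' (hle.trans hΦ.le))

lemma PenS.isCompact_low (h : PenS Om W Φ m M Q) (r : ℝ) : IsCompact {t | t ∈ Q ∧ Φ t ≤ r} := by
  have h2 : {t | t ∈ Q ∧ Φ t ≤ r} = Q ∩ Φ ⁻¹' Iic r := rfl
  rw [h2]
  exact h.Qc.inter_right (isClosed_Iic.preimage h.cont)

theorem PenS.lsc (h : PenS Om W Φ m M Q) : LowerSemicontinuousOn (hgtS Om Φ m M) W := by
  intro w0 hw0 c hc
  rcases lt_or_ge c m with h1 | h1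
  · filter_upwards [self_mem_nhdsWithin] with w hw
    exact h1.trans_le (h.m_le hw)
  obtain ⟨r, hcr, hr⟩ := exists_between hc
  have hrM : r ≤ M := hr.le.trans (h.le_M hw0)
  have hev : ∀ᶠ w in 𝓝 w0, ∀ t ∈ {t | t ∈ Q ∧ Φ t ≤ r}, (t, w) ∈ Om := by
    refine (h.isCompact_low r).eventually_forall_of_forall_eventually (fun t ht => ?_)
    have h2 : (t, w0) ∈ Om := h.reg hw0 (ht.2.trans_lt hr)
    have h3 : Om ∈ 𝓝 (t, w0) := h.isOpen.mem_nhds h2
    have h4 : Tendsto (fun z : ℂ × ℂ => (z.2, z.1)) (𝓝 (w0, t)) (𝓝 (t, w0)) :=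
      (continuous_swap (X := ℂ) (Y := ℂ)).tendsto (w0, t)
    exact h4.eventually h3
  filter_upwards [nhdsWithin_le_nhds hev, self_mem_nhdsWithin] with w hw hwW
  exact hcr.trans_le (h.le_hgt_Q hwW hrM (fun t ht hΦ => hw t ⟨ht, hΦ⟩))

theorem PenS.nt (h : PenS Om W Φ m M Q) : SH712.NT (hgtS Om Φ m M) W := by
  intro w0 hw0 H hH δ hδ hcon
  obtain ⟨heq, hle⟩ := hcon
  set R := hgtS Om Φ m M with hR
  have hWn : W ∈ 𝓝 w0 := h.WO.mem_nhds hw0
  rcases eq_or_lt_of_le (h.le_M hw0) with hM | hM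
  · have hM' : R w0 = M := hM
    obtain ⟨ρ, hρ, hρs⟩ := Metric.eventually_nhds_iff_ball.1
      (hle.and (hH.eventually_analyticAt.and hWn))
    set r := ρ / 2 with hr
    have hr0 : 0 < r := by positivity
    have hcb : closedBall w0 r ⊆ ball w0 ρ := closedBall_subset_ball (by linarith)
    have hd : DiffContOnCl ℂ H (ball w0 r) := by
      have : DifferentiableOn ℂ H (closedBall w0 r) := fun z hz =>
        (hρs z (hcb hz)).2.1.differentiableAt.differentiableWithinAt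
      exact this.diffContOnCl_ball (subset_refl _)
    have hexp : DiffContOnCl ℂ (fun z => Complex.exp (-(I * H z))) (ball w0 r) :=
      (Complex.differentiable_exp.comp (Differentiable.neg differentiable_id)).comp_diffContOnCl
        (hd.const_smul I)
    have hb : ∀ z ∈ frontier (ball w0 r), ‖Complex.exp (-(I * H z))‖ ≤
        Real.exp (M - δ * r ^ 2) := by
      intro z hz
      rw [frontier_ball w0 hr0.ne'] at hz
      have hz' : z ∈ ball w0 ρ := hcb (sphere_subset_closedBall hz)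
      have h1 := (hρs z hz').1
      have h2 := h.le_M (hρs z hz').2.2
      have h3 : ‖z - w0‖ = r := by simpa [dist_eq_norm] using hz
      rw [h3] at h1
      rw [Complex.norm_exp]
      refine Real.exp_le_exp.2 ?_
      have h4 : (-(I * H z)).re = (H z).im := by simp
      rw [h4]
      have h5 : R z ≤ M := h2
      have h6 : (H z).im + δ * r ^ 2 ≤ R z := h1
      linarith
    have h7 := Complex.norm_le_of_forall_mem_frontier_norm_le isBounded_ball hexp hb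
      (subset_closure (mem_ball_self hr0))
    rw [Complex.norm_exp] at h7
    have h8 := Real.exp_le_exp.1 h7
    have h9 : (-(I * H w0)).re = (H w0).im := by simp
    rw [h9, ← heq, hM'] at h8
    have : 0 < δ * r ^ 2 := by positivity
    linarith
  · have hmR : m ≤ R w0 := h.m_le hw0
    have hreg : ∀ t ∈ Q, Φ t ≤ R w0 → (t, w0) ∈ Om := by
      intro t ht hΦ
      rcases eq_or_lt_of_le hΦ with he | hlt
      · refine h.touch t ht w0 hw0 (he ▸ hmR) (he ▸ hM.le) H hH (by rw [he, heq]) δ hδ ?_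
        have e2 : ∀ᶠ q : ℂ × ℂ in 𝓝 (t, w0), (H q.2).im + δ * ‖q.2 - w0‖ ^ 2 ≤ R q.2 :=
          (continuousAt_snd (p := (t, w0))).eventually hle
        have e3 : ∀ᶠ q : ℂ × ℂ in 𝓝 (t, w0), q.2 ∈ W :=
          (continuousAt_snd (p := (t, w0))).eventually hWn
        filter_upwards [e2, e3] with q h2 h3 h5
        exact h.reg h3 (by linarith)
      · exact h.reg hw0 hlt
    have hex : ∃ r, R w0 < r ∧ r ≤ M ∧ ∀ t ∈ Q, Φ t ≤ r → (t, w0) ∈ Om := by
      by_contra hcon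
      push Not at hcon
      set u : ℕ → ℝ := fun n => R w0 + (M - R w0) / (n + 1) with hu
      have hu1 : ∀ n, R w0 < u n := by
        intro n
        have : 0 < (M - R w0) / ((n : ℝ) + 1) := div_pos (by linarith) (by positivity)
        simp only [hu]; linarith
      have hu2 : ∀ n, u n ≤ M := by
        intro n
        have : (M - R w0) / ((n : ℝ) + 1) ≤ M - R w0 :=
          div_le_self (by linarith) (by linarith [(Nat.cast_nonneg n : (0 : ℝ) ≤ n)])
        simp only [hu]; linarith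
      have hu3 : Tendsto u atTop (𝓝 (R w0)) := by
        have h1 : Tendsto (fun n : ℕ => (M - R w0) / ((n : ℝ) + 1)) atTop (𝓝 0) :=
          tendsto_const_div_atTop_nhds_zero_nat (M - R w0) |>.comp (tendsto_add_atTop_nat 1)
            |>.congr (fun n => by simp [Function.comp])
        simpa [hu] using h1.const_add (R w0)
      choose t htQ htΦ htn using fun n => hcon (u n) (hu1 n) (hu2 n)
      obtain ⟨a, haQ, φ, hφ, hlim⟩ := h.Qc.tendsto_subseq htQ
      have hac : ContinuousAt Φ a := h.cont.continuousAt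
      have h1 : Φ a ≤ R w0 :=
        le_of_tendsto_of_tendsto (hac.tendsto.comp hlim) (hu3.comp hφ.tendsto_atTop)
          (Eventually.of_forall (fun n => htΦ (φ n)))
      have h2 := hreg a haQ h1
      have h3 : Om ∈ 𝓝 (a, w0) := h.isOpen.mem_nhds h2
      have h4 : Tendsto (fun n => ((t (φ n), w0) : ℂ × ℂ)) atTop (𝓝 (a, w0)) :=
        hlim.prodMk_nhds tendsto_const_nhds
      obtain ⟨n, hn⟩ := (h4.eventually h3).exists
      exact htn (φ n) hn
    obtain ⟨r, hr1, hr2, hr3⟩ := hex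
    exact absurd (h.le_hgt_Q hw0 hr2 hr3) (not_le.2 hr1)

/-- **the penalised height is superharmonic** (811's form) -/
theorem PenS.supH (h : PenS Om W Φ m M Q) : Slope811.SupH W (hgtS Om Φ m M) :=
  Slope811.SupH.of_im h.WO h.lsc (fun _ _ hs hsub _ hg hb => SH712.sh1 h.lsc h.nt hs hsub hg hb)

end PenS

end Crest.Agent.R102.K669
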