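import Crest.Agent.R102.Ident2_821

/-!
Row 102, part (B) (helper821): bounds for the Lagrangian, Taylor remainder of the Euler-Lagrange
function, the factorisation `a = w a'` with `a'` close to `-1`.
-/

set_option autoImplicit false

open Set Filter Topology Metric Complex MeasureTheory
open scoped Real ContDiff ComplexConjugate

noncomputable section

namespace Crest.Agent.R102.B821

open Crest.Agent.R266.SCV

variable {ρ₀ ε₀ k ρ r d : ℝ} {L Ψ U V f g : ℂ × ℂ → ℂ}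

section Bounds

lemma ball_subset_Dg {ρ₁ ε₁ s : ℝ} {p : ℂ × ℂ} (hp : p ∈ Dg ρ₁ ε₁) :
    ball p s ⊆ Dg (ρ₁ + s) (ε₁ + 2 * s) := by
  intro q hq
  rw [mem_ball, dist_eq_norm] at hq
  have h1 : ‖q.1 - p.1‖ < s := (norm_fst_le (q - p)).trans_lt hq
  have h2 : ‖q.2 - p.2‖ < s := (norm_snd_le (q - p)).trans_lt hq
  have h3 : |q.1.im| < ρ₁ + s := by
    have e1 := Complex.abs_im_le_norm (q.1 - p.1)
    rw [Complex.sub_im] at e1
    have e2 := abs_sub_abs_le_abs_sub q.1.im p.1.im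
    have := hp.1
    linarith
  have h4 : |q.2.im| < ρ₁ + s := by
    have e1 := Complex.abs_im_le_norm (q.2 - p.2)
    rw [Complex.sub_im] at e1
    have e2 := abs_sub_abs_le_abs_sub q.2.im p.2.im
    have := hp.2.1
    linarith
  refine ⟨h3, h4, ?_⟩
  have e : q.2 - q.1 = (q.2 - p.2) + (p.2 - p.1) - (q.1 - p.1) := by ring
  rw [e]
  have e1 := norm_sub_le ((q.2 - p.2) + (p.2 - p.1)) (q.1 - p.1)
  have e2 := norm_add_le (q.2 - p.2) (p.2 - p.1)
  have := hp.2.2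
  linarith

/-- Cauchy estimate for partial derivatives on neighbourhoods of the diagonal -/
lemma fderiv_bound_Dg {F : ℂ × ℂ → ℂ} {ρ₁ ε₁ s K : ℝ} (hs : 0 < s)
    (hF : DifferentiableOn ℂ F (Dg (ρ₁ + s) (ε₁ + 2 * s)))
    (hK : ∀ p ∈ Dg (ρ₁ + s) (ε₁ + 2 * s), ‖F p‖ ≤ K) :
    ∀ p ∈ Dg ρ₁ ε₁, ‖fderiv ℂ F p‖ ≤ K / s := fun _ hp =>
  norm_fderiv_le_of_ball hs (hF.mono (ball_subset_Dg hp)) (fun y hy => hK y (ball_subset_Dg hp hy))

lemma norm_q1_le (F : ℂ × ℂ → ℂ) (p : ℂ × ℂ) : ‖q1 F p‖ ≤ ‖fderiv ℂ F p‖ := by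
  have h := (fderiv ℂ F p).le_opNorm ((1 : ℂ), (0 : ℂ))
  have h1 : ‖((1 : ℂ), (0 : ℂ))‖ = 1 := by simp [Prod.norm_def]
  rw [h1, mul_one] at h
  exact h

lemma norm_q2_le (F : ℂ × ℂ → ℂ) (p : ℂ × ℂ) : ‖q2 F p‖ ≤ ‖fderiv ℂ F p‖ := by
  have h := (fderiv ℂ F p).le_opNorm ((0 : ℂ), (1 : ℂ))
  have h1 : ‖((0 : ℂ), (1 : ℂ))‖ = 1 := by simp [Prod.norm_def]
  rw [h1, mul_one] at h
  exact h

/-- one variable second order Taylor estimate -/
lemma taylor_one {φ : ℂ → ℂ} {R K : ℝ} (hR : 2 ≤ R) (hφ : DifferentiableOn ℂ φ (ball 0 R))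
    (hK : ∀ z ∈ ball (0 : ℂ) R, ‖φ z‖ ≤ K) :
    ‖φ 1 - φ 0 - deriv φ 0‖ ≤ 6 * K / R ^ 2 := by
  have hR0 : 0 < R := by linarith
  have hK0 : 0 ≤ K := (norm_nonneg _).trans (hK 0 (mem_ball_self hR0))
  have hball : ball (0 : ℂ) R ∈ 𝓝 (0 : ℂ) := ball_mem_nhds _ hR0
  have h1 : DifferentiableOn ℂ (dslope φ 0) (ball 0 R) :=
    (Complex.differentiableOn_dslope hball).2 hφ
  have h2 : DifferentiableOn ℂ (dslope (dslope φ 0) 0) (ball 0 R) :=
    (Complex.differentiableOn_dslope hball).2 h1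
  have e1 : ∀ z : ℂ, z * dslope φ 0 z = φ z - φ 0 := by
    intro z
    have := sub_smul_dslope φ 0 z
    rwa [sub_zero, smul_eq_mul] at this
  have e2 : ∀ z : ℂ, z * dslope (dslope φ 0) 0 z = dslope φ 0 z - deriv φ 0 := by
    intro z
    have := sub_smul_dslope (dslope φ 0) 0 z
    rwa [sub_zero, smul_eq_mul, dslope_same] at this
  have e3 : ∀ z : ℂ, z ^ 2 * dslope (dslope φ 0) 0 z = φ z - φ 0 - z * deriv φ 0 := by
    intro z
    linear_combination z * e2 z + e1 z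
  set R' : ℝ := 3 / 4 * R with hR'
  have hR'0 : 0 < R' := by positivity
  have hR'1 : 1 < R' := by rw [hR']; linarith
  have hsub : closedBall (0 : ℂ) R' ⊆ ball 0 R := closedBall_subset_ball (by rw [hR']; linarith)
  have hdc : DiffContOnCl ℂ (dslope (dslope φ 0) 0) (ball 0 R') :=
    (h2.mono hsub).diffContOnCl_ball subset_rfl
  have hder : ‖deriv φ 0‖ ≤ K / R' :=
    norm_deriv_le_of_forall_mem_sphere_norm_le hR'0 ((hφ.mono hsub).diffContOnCl_ball subset_rfl)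
      (fun y hy => hK y (hsub (sphere_subset_closedBall hy)))
  have hbd : ∀ z ∈ frontier (ball (0 : ℂ) R'), ‖dslope (dslope φ 0) 0 z‖ ≤ 6 * K / R ^ 2 := by
    intro z hz
    rw [frontier_ball _ hR'0.ne', mem_sphere_zero_iff_norm] at hz
    have h3 := congrArg norm (e3 z)
    rw [norm_mul, norm_pow, hz] at h3
    have h4 : ‖φ z - φ 0 - z * deriv φ 0‖ ≤ 3 * K := by
      have h5 := norm_sub_le (φ z - φ 0) (z * deriv φ 0)
      have h6 := norm_sub_le (φ z) (φ 0)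
      have h7 := hK z (hsub (by rw [mem_closedBall_zero_iff]; exact hz.le))
      have h8 := hK 0 (mem_ball_self hR0)
      have h9 : ‖z * deriv φ 0‖ ≤ K := by
        rw [norm_mul, hz]
        calc R' * ‖deriv φ 0‖ ≤ R' * (K / R') := mul_le_mul_of_nonneg_left hder hR'0.le
          _ = K := by field_simp
      linarith
    rw [← h3] at h4
    have h10 : ‖dslope (dslope φ 0) 0 z‖ ≤ 3 * K / R' ^ 2 := by
      rw [le_div_iff₀ (by positivity)]
      linarith
    refine h10.trans ?_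
    rw [hR', div_le_div_iff₀ (by positivity) (by positivity)]
    have : 0 ≤ K * R ^ 2 := by positivity
    nlinarith
  have hfin := Complex.norm_le_of_forall_mem_frontier_norm_le isBounded_ball hdc hbd
    (subset_closure (show (1 : ℂ) ∈ ball 0 R' by rw [mem_ball_zero_iff, norm_one]; exact hR'1))
  have h3 := e3 1
  rw [one_pow, one_mul, one_mul] at h3
  rw [← h3]
  exact hfin

/-- second order Taylor estimate on a ball of a normed space -/
lemma taylor_ball {E : Type*} [NormedAddCommGroup E] [NormedSpace ℂ E] {F : E → ℂ} {p h : E}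
    {s K : ℝ} (hs : 0 < s) (hF : DifferentiableOn ℂ F (ball p s))
    (hK : ∀ q ∈ ball p s, ‖F q‖ ≤ K) (hh : 2 * ‖h‖ ≤ s) :
    ‖F (p + h) - F p - fderiv ℂ F p h‖ ≤ 6 * K / s ^ 2 * ‖h‖ ^ 2 := by
  have hK0 : 0 ≤ K := (norm_nonneg _).trans (hK p (mem_ball_self hs))
  by_cases h0 : h = 0
  · subst h0
    simp
  have hpos : 0 < ‖h‖ := norm_pos_iff.2 h0
  set R : ℝ := s / ‖h‖ with hR
  have hR2 : 2 ≤ R := by rw [hR, le_div_iff₀ hpos]; exact hh
  have hmem : ∀ z ∈ ball (0 : ℂ) R, p + z • h ∈ ball p s := by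
    intro z hz
    rw [mem_ball_zero_iff, hR, lt_div_iff₀ hpos] at hz
    rw [mem_ball, dist_eq_norm, add_sub_cancel_left, norm_smul]
    exact hz
  have hdiff : ∀ z ∈ ball (0 : ℂ) R, HasDerivAt (fun z : ℂ => F (p + z • h))
      (fderiv ℂ F (p + z • h) h) z := by
    intro z hz
    have h2 : HasFDerivAt F (fderiv ℂ F (p + z • h)) (p + z • h) :=
      (hF.differentiableAt (isOpen_ball.mem_nhds (hmem z hz))).hasFDerivAt
    have h3 : HasDerivAt (fun z : ℂ => p + z • h) h z := by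
      simpa using ((hasDerivAt_id z).smul_const h).const_add p
    exact h2.comp_hasDerivAt z h3
  have h1 := taylor_one (φ := fun z : ℂ => F (p + z • h)) hR2
    (fun z hz => (hdiff z hz).differentiableAt.differentiableWithinAt)
    (fun z hz => hK _ (hmem z hz))
  have hd0 := (hdiff 0 (mem_ball_self (by linarith))).deriv
  rw [hd0] at h1
  simp only [one_smul, zero_smul, add_zero] at h1
  refine h1.trans (le_of_eq ?_)
  rw [hR]
  field_simp

lemma fderiv_eq_q (F : ℂ × ℂ → ℂ) (p : ℂ × ℂ) (a b : ℂ) :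
    fderiv ℂ F p (a, b) = q1 F p * a + q2 F p * b := by
  have h1 : ((a, b) : ℂ × ℂ) = a • ((1 : ℂ), (0 : ℂ)) + b • ((0 : ℂ), (1 : ℂ)) := by
    ext <;> simp
  rw [h1, map_add, map_smul, map_smul, q1, q2, smul_eq_mul, smul_eq_mul]
  ring

/-- all the bounds for the Lagrangian which are used in the Newton scheme -/
theorem IsLag.exists_bounds (h : IsLag ρ₀ ε₀ L Ψ) :
    ∃ K r₂ δ₀ : ℝ, 1 ≤ K ∧ 0 < r₂ ∧ 0 < δ₀ ∧
      (∀ x y : ℂ, (x, y) ∈ Dg (3 / 4 * ρ₀) (ε₀ / 2) → ‖y - x‖ ≤ r₂ →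
        ‖q2 (q1 L) (x, y) + (y - x)‖ ≤ 1 / 100 * ‖y - x‖) ∧
      (∀ x y z x' y' z' : ℂ, ∀ m : ℝ, (x, y) ∈ Dg (3 / 4 * ρ₀) (ε₀ / 2) →
        (y, z) ∈ Dg (3 / 4 * ρ₀) (ε₀ / 2) → ‖x'‖ ≤ m → ‖y'‖ ≤ m → ‖z'‖ ≤ m → m ≤ δ₀ →
        ‖EL L (x + x') (y + y') (z + z') - EL L x y z - dEL L x y z x' y' z'‖ ≤ K * m ^ 2) := by
  obtain ⟨K0, hK0⟩ := h.bdd
  have hρ := h.ρ_pos
  have hε := h.ε_pos
  -- radius of the Cauchy estimates
  set s : ℝ := min (ρ₀ / 32) (ε₀ / 32) with hs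
  have hs0 : 0 < s := lt_min (by linarith) (by linarith)
  have hs1 : s ≤ ρ₀ / 32 := min_le_left _ _
  have hs2 : s ≤ ε₀ / 32 := min_le_right _ _
  have hKn : 0 ≤ K0 := by
    have hmem : ((0 : ℂ), (0 : ℂ)) ∈ Dg ρ₀ ε₀ := by
      refine ⟨by simpa using hρ, by simpa using hρ, by simpa using hε⟩
    exact (norm_nonneg _).trans (hK0 _ hmem)
  have hmono : ∀ {ρ₁ ε₁ : ℝ}, ρ₁ ≤ ρ₀ → ε₁ ≤ ε₀ → Dg ρ₁ ε₁ ⊆ Dg ρ₀ ε₀ := fun h1 h2 => Dg_mono h1 h2
  -- Ψ and its derivatives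
  have hΨana : AnalyticOnNhd ℂ Ψ (Dg ρ₀ ε₀) :=
    analyticOnNhd_of_differentiableOn (isOpen_Dg ρ₀ ε₀) h.diff
  have hΨ1 : ∀ p ∈ Dg (3 / 4 * ρ₀ + 3 * s) (ε₀ / 2 + 6 * s), ‖fderiv ℂ Ψ p‖ ≤ K0 / s :=
    fderiv_bound_Dg hs0 (h.diff.mono (hmono (by linarith) (by linarith)))
      (fun p hp => hK0 p (hmono (by linarith) (by linarith) hp))
  have hΨ2 : ∀ p ∈ Dg (3 / 4 * ρ₀ + 2 * s) (ε₀ / 2 + 4 * s), ‖fderiv ℂ (q1 Ψ) p‖ ≤ K0 / s / s := by
    refine fderiv_bound_Dg hs0 ((ana_q1 hΨana).differentiableOn.mono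
      (hmono (by linarith) (by linarith))) (fun p hp => ?_)
    refine (norm_q1_le _ _).trans (hΨ1 p (Dg_mono (by linarith) (by linarith) hp))
  -- L bounded
  set KL : ℝ := ε₀ ^ 3 * K0 with hKL
  have hKL0 : 0 ≤ KL := by positivity
  have hLb : ∀ p ∈ Dg ρ₀ ε₀, ‖L p‖ ≤ KL := by
    intro p hp
    rw [h.eq p.1 p.2 hp, norm_mul, norm_pow]
    exact mul_le_mul (pow_le_pow_left₀ (norm_nonneg _) hp.2.2.le 3) (hK0 _ hp) (norm_nonneg _)
      (by positivity)
  have hL1 : ∀ p ∈ Dg (3 / 4 * ρ₀ + 3 * s) (ε₀ / 2 + 6 * s), ‖fderiv ℂ L p‖ ≤ KL / s :=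
    fderiv_bound_Dg hs0 (h.diffL.mono (hmono (by linarith) (by linarith)))
      (fun p hp => hLb p (hmono (by linarith) (by linarith) hp))
  set C1 : ℝ := 6 * K0 / s + 6 * (K0 / s) + K0 / s / s + 1 with hC1
  have hC10 : 0 < C1 := by positivity
  refine ⟨2 * (6 * (KL / s) / s ^ 2) + 1, min (1 : ℝ) (1 / (100 * C1)), s / 2, ?_, ?_, by linarith,
    ?_, ?_⟩
  · have : 0 ≤ 2 * (6 * (KL / s) / s ^ 2) := by positivity
    linarith
  · exact lt_min one_pos (by positivity)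
  · intro x y hp hxy
    have hxy1 : ‖y - x‖ ≤ 1 := hxy.trans (min_le_left _ _)
    have hxy2 : ‖y - x‖ ≤ 1 / (100 * C1) := hxy.trans (min_le_right _ _)
    have hp' : (x, y) ∈ Dg ρ₀ ε₀ := hmono (by linarith) (by linarith) hp
    have hp3 : (x, y) ∈ Dg (3 / 4 * ρ₀ + 3 * s) (ε₀ / 2 + 6 * s) :=
      Dg_mono (by linarith) (by linarith) hp
    have hp2 : (x, y) ∈ Dg (3 / 4 * ρ₀ + 2 * s) (ε₀ / 2 + 4 * s) :=
      Dg_mono (by linarith) (by linarith) hp
    -- formula for L_1 near (x, y)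
    have hq1 : ∀ q ∈ Dg ρ₀ ε₀, q1 L q = -3 * (q.2 - q.1) ^ 2 * Ψ q + (q.2 - q.1) ^ 3 * q1 Ψ q := by
      rintro ⟨a, b⟩ hq
      have hd := hasDerivAt_fst (h.dL _ hq)
      have hdΨ := hasDerivAt_fst (hΨana _ hq).differentiableAt
      have h1 : HasDerivAt (fun s : ℂ => b - s) (-1) a := by
        simpa using (hasDerivAt_id a).const_sub b
      have h2 := (h1.pow 3).mul hdΨ
      have h3 : (fun s => L (s, b)) =ᶠ[𝓝 a] (fun s => (b - s) ^ 3 * Ψ (s, b)) := by
        have hcont : Continuous (fun s : ℂ => (s, b)) := by fun_prop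
        filter_upwards [hcont.continuousAt.preimage_mem_nhds
          ((isOpen_Dg ρ₀ ε₀).mem_nhds hq)] with s hs
        exact h.eq _ _ hs
      have h4 := (hd.congr_of_eventuallyEq h3.symm).unique h2
      rw [h4]
      simp only [Pi.pow_apply]
      push_cast
      ring
    have hq12 : q2 (q1 L) (x, y) = -6 * (y - x) * Ψ (x, y) - 3 * (y - x) ^ 2 * q2 Ψ (x, y) +
        3 * (y - x) ^ 2 * q1 Ψ (x, y) + (y - x) ^ 3 * q2 (q1 Ψ) (x, y) := by
      have hd := hasDerivAt_snd (ana_q1 h.anaL _ hp').differentiableAt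
      have hdΨ := hasDerivAt_snd (hΨana _ hp').differentiableAt
      have hdΨ1 := hasDerivAt_snd (ana_q1 hΨana _ hp').differentiableAt
      have h1 : HasDerivAt (fun s : ℂ => s - x) 1 y := (hasDerivAt_id y).sub_const x
      have h2 := (((h1.pow 2).const_mul (-3 : ℂ)).mul hdΨ).add ((h1.pow 3).mul hdΨ1)
      have h3 : (fun s => q1 L (x, s)) =ᶠ[𝓝 y] (fun s => -3 * (s - x) ^ 2 * Ψ (x, s) +
          (s - x) ^ 3 * q1 Ψ (x, s)) := by
        have hcont : Continuous (fun s : ℂ => (x, s)) := by fun_prop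
        filter_upwards [hcont.continuousAt.preimage_mem_nhds
          ((isOpen_Dg ρ₀ ε₀).mem_nhds hp')] with s hs
        exact hq1 _ hs
      have h4 := (hd.congr_of_eventuallyEq h3.symm).unique h2
      rw [h4]
      simp only [Pi.pow_apply]
      push_cast
      ring
    -- Ψ (x, y) - 1/6
    have hΨd : ‖Ψ (x, y) - 1 / 6‖ ≤ K0 / s * ‖y - x‖ := by
      rw [← h.diag x hp'.1]
      have hseg : ∀ z ∈ segment ℝ x y, (x, z) ∈ Dg (3 / 4 * ρ₀ + 3 * s) (ε₀ / 2 + 6 * s) := by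
        intro z hz
        obtain ⟨a, b, ha, hb, hab, rfl⟩ := hz
        refine ⟨hp3.1, ?_, ?_⟩
        · have e1 : (a • x + b • y).im = a * x.im + b * y.im := by simp
          simp only
          rw [e1]
          have h1 := abs_add_le (a * x.im) (b * y.im)
          rw [abs_mul, abs_mul, abs_of_nonneg ha, abs_of_nonneg hb] at h1
          have h2 := hp3.1
          have h3 := hp3.2.1
          simp only at h2 h3
          have h4 : a * |x.im| + b * |y.im| < 3 / 4 * ρ₀ + 3 * s := by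
            rcases eq_or_lt_of_le ha with h5 | h5
            · rw [← h5] at hab ⊢
              have : b = 1 := by linarith
              rw [this]; linarith
            · have h6 : a * |x.im| < a * (3 / 4 * ρ₀ + 3 * s) := mul_lt_mul_of_pos_left h2 h5
              have h7 : b * |y.im| ≤ b * (3 / 4 * ρ₀ + 3 * s) := mul_le_mul_of_nonneg_left h3.le hb
              have h8 : a * (3 / 4 * ρ₀ + 3 * s) + b * (3 / 4 * ρ₀ + 3 * s) =
                3 / 4 * ρ₀ + 3 * s := by rw [← add_mul, hab, one_mul]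
              linarith
          linarith
        · have e1 : a • x + b • y - x = b • (y - x) := by
            have : a = 1 - b := by linarith
            rw [this, sub_smul, one_smul, smul_sub]; ring
          simp only
          rw [e1, norm_smul, Real.norm_of_nonneg hb]
          have h2 := hp3.2.2
          simp only at h2
          have := norm_nonneg (y - x)
          nlinarith
      have hconv := (convex_segment x y).norm_image_sub_le_of_norm_hasDerivWithin_le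
        (f := fun z => Ψ (x, z)) (f' := fun z => q2 Ψ (x, z)) (C := K0 / s)
        (fun z hz => (hasDerivAt_snd (hΨana _ (hmono (by linarith) (by linarith)
          (hseg z hz))).differentiableAt).hasDerivWithinAt)
        (fun z hz => (norm_q2_le _ _).trans (hΨ1 _ (hseg z hz)))
        (left_mem_segment ℝ x y) (right_mem_segment ℝ x y)
      exact hconv
    have b1 : ‖q2 Ψ (x, y)‖ ≤ K0 / s := (norm_q2_le _ _).trans (hΨ1 _ hp3)
    have b2 : ‖q1 Ψ (x, y)‖ ≤ K0 / s := (norm_q1_le _ _).trans (hΨ1 _ hp3)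
    have b3 : ‖q2 (q1 Ψ) (x, y)‖ ≤ K0 / s / s := (norm_q2_le _ _).trans (hΨ2 _ hp2)
    have e : q2 (q1 L) (x, y) + (y - x) = (y - x) * (-6 * (Ψ (x, y) - 1 / 6) -
        3 * (y - x) * q2 Ψ (x, y) + 3 * (y - x) * q1 Ψ (x, y) +
        (y - x) ^ 2 * q2 (q1 Ψ) (x, y)) := by
      rw [hq12]; ring
    rw [e, norm_mul, mul_comm]
    refine mul_le_mul_of_nonneg_right ?_ (norm_nonneg _)
    set D := ‖y - x‖ with hD
    have hD0 : 0 ≤ D := norm_nonneg _
    have n1 : ‖-6 * (Ψ (x, y) - 1 / 6)‖ ≤ 6 * (K0 / s * D) := by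
      rw [norm_mul]
      have : ‖(-6 : ℂ)‖ = 6 := by simp
      rw [this]
      linarith
    have n2 : ‖3 * (y - x) * q2 Ψ (x, y)‖ ≤ 3 * D * (K0 / s) := by
      rw [norm_mul, norm_mul]
      have : ‖(3 : ℂ)‖ = 3 := by simp
      rw [this]
      exact mul_le_mul_of_nonneg_left b1 (by positivity)
    have n3 : ‖3 * (y - x) * q1 Ψ (x, y)‖ ≤ 3 * D * (K0 / s) := by
      rw [norm_mul, norm_mul]
      have : ‖(3 : ℂ)‖ = 3 := by simp
      rw [this]
      exact mul_le_mul_of_nonneg_left b2 (by positivity)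
    have n4 : ‖(y - x) ^ 2 * q2 (q1 Ψ) (x, y)‖ ≤ D * (K0 / s / s) := by
      rw [norm_mul, norm_pow]
      refine mul_le_mul ?_ b3 (norm_nonneg _) hD0
      change D ^ 2 ≤ D
      nlinarith
    have t1 := norm_add_le (-6 * (Ψ (x, y) - 1 / 6) - 3 * (y - x) * q2 Ψ (x, y) +
      3 * (y - x) * q1 Ψ (x, y)) ((y - x) ^ 2 * q2 (q1 Ψ) (x, y))
    have t2 := norm_add_le (-6 * (Ψ (x, y) - 1 / 6) - 3 * (y - x) * q2 Ψ (x, y))
      (3 * (y - x) * q1 Ψ (x, y))
    have t3 := norm_sub_le (-6 * (Ψ (x, y) - 1 / 6)) (3 * (y - x) * q2 Ψ (x, y))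
    have t4 : 6 * (K0 / s * D) + 3 * D * (K0 / s) + 3 * D * (K0 / s) + D * (K0 / s / s) ≤ C1 * D := by
      rw [hC1]
      have : 0 ≤ D := hD0
      have e5 : (6 * K0 / s + 6 * (K0 / s) + K0 / s / s + 1) * D =
        6 * (K0 / s * D) + 3 * D * (K0 / s) + 3 * D * (K0 / s) + D * (K0 / s / s) + D := by ring
      linarith
    have t5 : C1 * D ≤ 1 / 100 := by
      calc C1 * D ≤ C1 * (1 / (100 * C1)) := mul_le_mul_of_nonneg_left hxy2 hC10.le
        _ = 1 / 100 := by field_simp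
    linarith
  · intro x y z x' y' z' m hxy hyz hx' hy' hz' hm
    have hm0 : 0 ≤ m := (norm_nonneg _).trans hx'
    have key : ∀ (F : ℂ × ℂ → ℂ) (a b a' b' : ℂ), AnalyticOnNhd ℂ F (Dg ρ₀ ε₀) →
        (∀ q ∈ Dg (3 / 4 * ρ₀ + 3 * s) (ε₀ / 2 + 6 * s), ‖F q‖ ≤ KL / s) →
        (a, b) ∈ Dg (3 / 4 * ρ₀) (ε₀ / 2) → ‖a'‖ ≤ m → ‖b'‖ ≤ m →
        ‖F (a + a', b + b') - F (a, b) - (q1 F (a, b) * a' + q2 F (a, b) * b')‖ ≤
          6 * (KL / s) / s ^ 2 * m ^ 2 := by
      intro F a b a' b' hF hFb hab ha' hb'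
      have hh : ‖((a', b') : ℂ × ℂ)‖ ≤ m := by
        rw [Prod.norm_def]; exact max_le ha' hb'
      have hsub : ball ((a, b) : ℂ × ℂ) s ⊆ Dg (3 / 4 * ρ₀ + s) (ε₀ / 2 + 2 * s) :=
        ball_subset_Dg hab
      have h1 := taylor_ball (F := F) (p := ((a, b) : ℂ × ℂ)) (h := ((a', b') : ℂ × ℂ)) hs0
        (hF.differentiableOn.mono (hsub.trans (hmono (by linarith) (by linarith))))
        (fun q hq => hFb q (Dg_mono (by linarith) (by linarith) (hsub hq)))
        (by linarith)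
      rw [fderiv_eq_q] at h1
      refine h1.trans ?_
      have : 0 ≤ 6 * (KL / s) / s ^ 2 := by positivity
      exact mul_le_mul_of_nonneg_left (pow_le_pow_left₀ (norm_nonneg _) hh 2) this
    have k1 := key (q2 L) x y x' y' (ana_q2 h.anaL)
      (fun q hq => (norm_q2_le _ _).trans (hL1 q hq)) hxy hx' hy'
    have k2 := key (q1 L) y z y' z' (ana_q1 h.anaL)
      (fun q hq => (norm_q1_le _ _).trans (hL1 q hq)) hyz hy' hz'
    have hxy' : (x, y) ∈ Dg ρ₀ ε₀ := hmono (by linarith) (by linarith) hxy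
    have e : EL L (x + x') (y + y') (z + z') - EL L x y z - dEL L x y z x' y' z' =
        (q2 L (x + x', y + y') - q2 L (x, y) - (q1 (q2 L) (x, y) * x' + q2 (q2 L) (x, y) * y')) +
        (q1 L (y + y', z + z') - q1 L (y, z) - (q1 (q1 L) (y, z) * y' + q2 (q1 L) (y, z) * z')) := by
      unfold EL dEL
      rw [q_symm (h.anaL _ hxy')]
      ring
    rw [e]
    refine (norm_add_le _ _).trans ?_
    have : 0 ≤ m ^ 2 := by positivity
    nlinarith

end Bounds

section Coefficient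

/-- the difference quotient `(X^+ - X^-)/w - 1` -/
lemma Adm.exists_kappa (h : Adm ρ₀ ε₀ ρ r U) :
    ∃ κ, IsH 1 ρ r κ ∧ (∀ p ∈ Dom 1 ρ r, ‖κ p‖ ≤ 1 / 100) ∧
      ∀ p ∈ Dom 1 ρ r, del U p = p.2 * κ p := by
  have hU1 : IsH 1 ρ r (del U) := by
    have := h.hU.del
    norm_num at this
    exact this
  obtain ⟨κ, hκ, hκ2⟩ := hU1.exists_div_w (by norm_num) (fun t _ => by rw [del_apply]; simp)
  have hb : Bdd 1 ρ r 0 (1 / 100) κ := by
    refine bdd_of_ne (by norm_num) hκ.continuousOn (fun t w hp hw => ?_)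
    have h1 := hκ2 t w hp
    rw [del_apply] at h1
    have e12 : |(1 / 2 : ℝ)| = 1 / 2 := by norm_num
    have m1 : (t + w / 2, w) ∈ Dom (1 / 2) ρ r := by
      have := tr_mem (k := 1 / 2) (1 / 2) (p := (t, w)) (by rw [e12]; norm_num; exact hp)
      have e : t + ((1 / 2 : ℝ) : ℂ) * w = t + w / 2 := by push_cast; ring
      simp only [e] at this
      exact this
    have m2 : (t - w / 2, w) ∈ Dom (1 / 2) ρ r := by
      have := tr_mem (k := 1 / 2) (-(1 / 2)) (p := (t, w)) (by rw [abs_neg, e12]; norm_num; exact hp)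
      have e : t + ((-(1 / 2) : ℝ) : ℂ) * w = t - w / 2 := by push_cast; ring
      simp only [e] at this
      exact this
    have h2 := h.lip m2 m1
    rw [h1, norm_mul] at h2
    have e : t + w / 2 - (t - w / 2) = w := by ring
    rw [e] at h2
    have hw' : 0 < ‖w‖ := norm_pos_iff.2 hw
    rw [pow_zero, mul_one]
    have h3 : ‖w‖ * ‖κ (t, w)‖ ≤ ‖w‖ * (1 / 100) := by linarith
    exact le_of_mul_le_mul_left h3 hw'
  refine ⟨κ, hκ, fun p hp => by simpa using hb p hp, fun p hp => hκ2 p.1 p.2 hp⟩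

/-- `a = w a'` with `a'` close to `-1` -/
lemma Adm.exists_at (hL : IsLag ρ₀ ε₀ L Ψ) {r₂ : ℝ}
    (hr₂ : ∀ x y : ℂ, (x, y) ∈ Dg (3 / 4 * ρ₀) (ε₀ / 2) → ‖y - x‖ ≤ r₂ →
        ‖q2 (q1 L) (x, y) + (y - x)‖ ≤ 1 / 100 * ‖y - x‖)
    (h : Adm ρ₀ ε₀ ρ r U) (hr : 2 * r ≤ r₂) :
    ∃ α, IsH 1 ρ r α ∧ (∀ p ∈ Dom 1 ρ r, ‖α p + 1‖ ≤ 1 / 10) ∧
      ∀ p ∈ Dom 1 ρ r, af L U p = p.2 * α p := by
  obtain ⟨κ, hκ, hκb, hκe⟩ := h.exists_kappa
  have ha := h.haf hL
  -- value of `a`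
  have hpt : ∀ p ∈ Dom 1 ρ r, ‖af L U p + p.2‖ ≤ 1 / 10 * ‖p.2‖ := by
    rintro ⟨t, w⟩ hp
    have hm := h.pair_tr (c₁ := -(1 / 2)) (c₂ := 1 / 2) (k := 1) (by rw [abs_neg]; norm_num [abs_of_pos])
      (by norm_num [abs_of_pos]) (by norm_num) hp
    set x := tr (-(1 / 2)) (Xf U) (t, w) with hx
    set y := tr (1 / 2) (Xf U) (t, w) with hy
    have hyx : y - x = w * (1 + κ (t, w)) := by
      have h1 := hκe _ hp
      simp only at h1
      have h2 : y - x = w + del U (t, w) := by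
        rw [hx, hy]
        unfold del tr Xf
        simp only
        push_cast
        ring
      rw [h2, h1]; ring
    have hκ1 := hκb _ hp
    have hn : ‖y - x‖ ≤ 101 / 100 * ‖w‖ := by
      rw [hyx, norm_mul]
      have h3 := norm_add_le (1 : ℂ) (κ (t, w))
      rw [norm_one] at h3
      have := norm_nonneg w
      nlinarith
    have hwr : ‖w‖ < r := hp.2
    have hr0 := h.r_pos
    have h4 := hr₂ x y hm (by
      have := norm_nonneg w
      linarith)
    -- products of X_t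
    have e12 : |(1 / 2 : ℝ)| = 1 / 2 := by norm_num
    have u1 : ‖tr (-(1 / 2)) (Xt U) (t, w) - 1‖ ≤ 1 / 100 := by
      have hm1 := tr_mem (k := 1 / 2) (-(1 / 2)) (p := (t, w))
        (by rw [abs_neg, e12]; norm_num; exact hp)
      have := h.Ut_bd _ hm1
      have e : tr (-(1 / 2)) (Xt U) (t, w) - 1 = q1 U (t + ((-(1 / 2) : ℝ) : ℂ) * w, w) := by
        unfold tr Xt; ring
      rw [e]; exact this
    have u2 : ‖tr (1 / 2) (Xt U) (t, w) - 1‖ ≤ 1 / 100 := by
      have hm1 := tr_mem (k := 1 / 2) (1 / 2) (p := (t, w)) (by rw [e12]; norm_num; exact hp)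
      have := h.Ut_bd _ hm1
      have e : tr (1 / 2) (Xt U) (t, w) - 1 = q1 U (t + (((1 / 2) : ℝ) : ℂ) * w, w) := by
        unfold tr Xt; ring
      rw [e]; exact this
    set A := tr (-(1 / 2)) (Xt U) (t, w) with hA
    set B := tr (1 / 2) (Xt U) (t, w) with hB
    set Λ := q2 (q1 L) (x, y) with hΛ
    have haf : af L U (t, w) = Λ * (A * B) := rfl
    have nA : ‖A‖ ≤ 101 / 100 := by
      have := norm_add_le (A - 1) 1
      rw [sub_add_cancel, norm_one] at this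
      linarith
    have nB : ‖B‖ ≤ 101 / 100 := by
      have := norm_add_le (B - 1) 1
      rw [sub_add_cancel, norm_one] at this
      linarith
    have nAB : ‖A * B - 1‖ ≤ 3 / 100 := by
      have e : A * B - 1 = (A - 1) * B + (B - 1) := by ring
      rw [e]
      refine (norm_add_le _ _).trans ?_
      rw [norm_mul]
      have := norm_nonneg (A - 1)
      have := norm_nonneg B
      nlinarith
    have nAB' : ‖A * B‖ ≤ 103 / 100 := by
      have := norm_add_le (A * B - 1) 1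
      rw [sub_add_cancel, norm_one] at this
      linarith
    have e5 : af L U (t, w) + w = (Λ + (y - x)) * (A * B) - (y - x) * (A * B - 1) -
        w * κ (t, w) := by
      rw [haf]
      linear_combination (-1 : ℂ) * hyx
    simp only
    rw [e5]
    have t1 := norm_sub_le ((Λ + (y - x)) * (A * B) - (y - x) * (A * B - 1)) (w * κ (t, w))
    have t2 := norm_sub_le ((Λ + (y - x)) * (A * B)) ((y - x) * (A * B - 1))
    have t3 : ‖(Λ + (y - x)) * (A * B)‖ ≤ 1 / 100 * ‖y - x‖ * (103 / 100) := by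
      rw [norm_mul]
      exact mul_le_mul h4 nAB' (norm_nonneg _) (by positivity)
    have t4 : ‖(y - x) * (A * B - 1)‖ ≤ ‖y - x‖ * (3 / 100) := by
      rw [norm_mul]
      exact mul_le_mul_of_nonneg_left nAB (norm_nonneg _)
    have t5 : ‖w * κ (t, w)‖ ≤ ‖w‖ * (1 / 100) := by
      rw [norm_mul]
      exact mul_le_mul_of_nonneg_left hκ1 (norm_nonneg _)
    have := norm_nonneg w
    linarith
  have h0 : ∀ t : ℂ, (t, 0) ∈ Dom 1 ρ r → af L U (t, 0) = 0 := by
    intro t ht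
    have := hpt _ ht
    simp only [norm_zero, mul_zero, add_zero] at this
    exact norm_le_zero_iff.1 this
  obtain ⟨α, hα, hαe⟩ := ha.exists_div_w (by norm_num) h0
  have hb : Bdd 1 ρ r 0 (1 / 10) (fun p => α p + 1) := by
    refine bdd_of_ne (by norm_num) (hα.add (IsH.const 1)).continuousOn (fun t w hp hw => ?_)
    have h1 := hpt _ hp
    rw [hαe t w hp] at h1
    have e : w * α (t, w) + w = w * (α (t, w) + 1) := by ring
    simp only at h1
    rw [e, norm_mul] at h1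
    have hw' : 0 < ‖w‖ := norm_pos_iff.2 hw
    rw [pow_zero, mul_one]
    have h3 : ‖w‖ * ‖α (t, w) + 1‖ ≤ ‖w‖ * (1 / 10) := by linarith
    exact le_of_mul_le_mul_left h3 hw'
  exact ⟨α, hα, fun p hp => by simpa using hb p hp, fun p hp => hαe p.1 p.2 hp⟩

end Coefficient

section Gain

variable {A : ℝ} {M : ℕ}

/-- Fourier coefficients of `f_t` -/
lemma fc_q1 (hf : IsH k ρ r f) (n : ℤ) {w : ℂ} (hw : ‖w‖ < r) (hk : k * |w.im| < ρ) :
    fc (q1 f) n w = 2 * π * I * n * fc f n w := by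
  have hmem : ∀ x : ℝ, ((x : ℂ), w) ∈ Dom k ρ r := fun x => real_mem_Dom.2 ⟨hk, hw⟩
  have hu : ∀ x ∈ uIcc (0 : ℝ) 1, HasDerivAt (fun x : ℝ => f ((x : ℂ), w)) (q1 f ((x : ℂ), w)) x :=
    fun x _ => (hasDerivAt_fst (hf.differentiableAt (hmem x))).comp_ofReal
  have hv : ∀ x ∈ uIcc (0 : ℝ) 1, HasDerivAt (fun x : ℝ => ee (-((n : ℂ) * x)))
      (-(2 * π * I * n) * ee (-((n : ℂ) * x))) x := by
    intro x _
    have h1 : HasDerivAt (fun z : ℂ => ee (-((n : ℂ) * z)))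
        (-(2 * π * I * n) * ee (-((n : ℂ) * x))) (x : ℂ) := by
      unfold ee
      have h2 : HasDerivAt (fun z : ℂ => 2 * π * I * (-((n : ℂ) * z))) (2 * π * I * (-((n : ℂ) * 1)))
          (x : ℂ) := (((hasDerivAt_id (x : ℂ)).const_mul (n : ℂ)).neg).const_mul _
      refine h2.cexp.congr_deriv ?_
      ring
    exact h1.comp_ofReal
  have hc1 : Continuous (fun x : ℝ => q1 f ((x : ℂ), w)) :=
    hf.q1.continuousOn.comp_continuous (by fun_prop) hmem
  have hc2 : Continuous (fun x : ℝ => -(2 * π * I * n) * ee (-((n : ℂ) * x))) :=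
    continuous_const.mul (continuous_ee.comp (by fun_prop))
  have h3 := intervalIntegral.integral_mul_deriv_eq_deriv_mul hu hv
    (hc1.intervalIntegrable _ _) (hc2.intervalIntegrable _ _)
  have e1 : ee (-((n : ℂ) * (1 : ℝ))) = 1 := by
    have := ee_int (-n)
    push_cast at this ⊢
    rw [mul_one]
    exact this
  have e0 : ee (-((n : ℂ) * (0 : ℝ))) = 1 := by simp [ee_zero]
  have ep : f (((1 : ℝ) : ℂ), w) = f (((0 : ℝ) : ℂ), w) := by
    have := hf.per 0 w (by simpa using hmem 0)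
    simpa using this
  rw [e1, e0, ep, sub_self, zero_sub] at h3
  have h4 : ∫ x in (0 : ℝ)..1, f ((x : ℂ), w) * (-(2 * π * I * n) * ee (-((n : ℂ) * x))) =
      -(2 * π * I * n) * fc f n w := by
    unfold fc
    rw [← intervalIntegral.integral_const_mul]
    refine intervalIntegral.integral_congr (fun x _ => ?_)
    ring
  rw [h4] at h3
  unfold fc at h3 ⊢
  linear_combination h3

/-- the centred difference gains one power of `w` -/
lemma Bdd.del_gain (_hA : 0 ≤ A) (hf : IsH k ρ r f) (hb : Bdd k ρ r M A f) (hd : 0 < d) :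
    Bdd (k + 1 / 2) (ρ - d) r (M + 1) (A / d) (B821.del f) := by
  rintro ⟨t, w⟩ hp
  have e12 : |(1 / 2 : ℝ)| = 1 / 2 := by norm_num
  have hb1 := hb.q1 hf hd
  have m1 : (t + w / 2, w) ∈ Dom k (ρ - d) r := by
    have := tr_mem (k := k) (1 / 2) (p := (t, w)) (by rw [e12]; exact hp)
    have e : t + ((1 / 2 : ℝ) : ℂ) * w = t + w / 2 := by push_cast; ring
    simp only [e] at this
    exact this
  have m2 : (t - w / 2, w) ∈ Dom k (ρ - d) r := by
    have := tr_mem (k := k) (-(1 / 2)) (p := (t, w)) (by rw [abs_neg, e12]; exact hp)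
    have e : t + ((-(1 / 2) : ℝ) : ℂ) * w = t - w / 2 := by push_cast; ring
    simp only [e] at this
    exact this
  have hmem : ∀ s : ℂ, |s.im| < ρ - d - k * |w.im| → (s, w) ∈ Dom k (ρ - d) r := fun s hs =>
    ⟨by simp only; linarith, hp.2⟩
  have n1 : |(t + w / 2).im| < ρ - d - k * |w.im| := by
    have := m1.1; simp only at this; linarith
  have n2 : |(t - w / 2).im| < ρ - d - k * |w.im| := by
    have := m2.1; simp only at this; linarith
  have hsub : Dom k (ρ - d) r ⊆ Dom k ρ r := Dom_mono le_rfl (by linarith) le_rfl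
  have h1 := (convex_strip (ρ - d - k * |w.im|)).norm_image_sub_le_of_norm_hasDerivWithin_le
    (f := fun s => f (s, w)) (f' := fun s => B821.q1 f (s, w)) (C := A / d * ‖w‖ ^ M)
    (fun s hs => (hasDerivAt_fst (hf.differentiableAt (hsub (hmem s hs)))).hasDerivWithinAt)
    (fun s hs => hb1 _ (hmem s hs)) n2 n1
  rw [del_apply]
  refine h1.trans (le_of_eq ?_)
  have e : t + w / 2 - (t - w / 2) = w := by ring
  rw [e]
  simp only
  ring

end Gain

end Crest.Agent.R102.B821
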