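import Crest.Agent.R102.Iter_821

/-!
Row 102, part (B) (helper821): sharper expansions of the Lagrangian near the diagonal
(for the formal start of the Newton scheme, B6).
-/

set_option autoImplicit false

open Set Filter Topology Metric Complex MeasureTheory
open scoped Real ContDiff ComplexConjugate

noncomputable section

namespace Crest.Agent.R102.B821

open Crest.Agent.R266.SCV

variable {ρ₀ ε₀ : ℝ} {L Ψ : ℂ × ℂ → ℂ}

lemma IsLag.q1_formula (h : IsLag ρ₀ ε₀ L Ψ) {q : ℂ × ℂ} (hq : q ∈ Dg ρ₀ ε₀) :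
    q1 L q = -3 * (q.2 - q.1) ^ 2 * Ψ q + (q.2 - q.1) ^ 3 * q1 Ψ q := by
  obtain ⟨a, b⟩ := q
  have hΨana : AnalyticOnNhd ℂ Ψ (Dg ρ₀ ε₀) :=
    analyticOnNhd_of_differentiableOn (isOpen_Dg ρ₀ ε₀) h.diff
  have hd := hasDerivAt_fst (h.dL _ hq)
  have hdΨ := hasDerivAt_fst (hΨana _ hq).differentiableAt
  have h1 : HasDerivAt (fun s : ℂ => b - s) (-1) a := by
    simpa using (hasDerivAt_id a).const_sub b
  have h2 := (h1.pow 3).mul hdΨ
  have h3 : (fun s => L (s, b)) =ᶠ[𝓝 a] (fun s => (b - s) ^ 3 * Ψ (s, b)) := by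
    have hcont : Continuous (fun s : ℂ => (s, b)) := by fun_prop
    filter_upwards [hcont.continuousAt.preimage_mem_nhds
      ((isOpen_Dg ρ₀ ε₀).mem_nhds hq)] with s hs
    exact h.eq _ _ hs
  have h4 := (hd.congr_of_eventuallyEq h3.symm).unique h2
  rw [h4]
  simp only [Pi.pow_apply]
  push_cast
  ring

/-- `Ψ = 1/6 + O((y - x)^2)` -/
lemma IsLag.Psi_sq (h : IsLag ρ₀ ε₀ L Ψ) :
    ∃ K ε₁ : ℝ, 0 < K ∧ 0 < ε₁ ∧ ε₁ ≤ ε₀ ∧ ε₁ ≤ ρ₀ / 8 ∧
      ∀ x y : ℂ, (x, y) ∈ Dg (7 / 8 * ρ₀) ε₁ → ‖Ψ (x, y) - 1 / 6‖ ≤ K * ‖y - x‖ ^ 2 := by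
  obtain ⟨K0, hK0⟩ := h.bdd
  have hρ := h.ρ_pos
  have hε := h.ε_pos
  set e₂ : ℝ := min (ρ₀ / 4) ε₀ with he₂
  have he0 : 0 < e₂ := lt_min (by positivity) hε
  have he1 : e₂ ≤ ρ₀ / 4 := min_le_left _ _
  have he2 : e₂ ≤ ε₀ := min_le_right _ _
  have hKn : 0 ≤ K0 := by
    have hmem : ((0 : ℂ), (0 : ℂ)) ∈ Dg ρ₀ ε₀ := by
      refine ⟨by simpa using hρ, by simpa using hρ, by simpa using hε⟩
    exact (norm_nonneg _).trans (hK0 _ hmem)
  refine ⟨6 * K0 / e₂ ^ 2 + 1, e₂ / 2, by positivity, by positivity, by linarith, by linarith, ?_⟩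
  intro x y hxy
  obtain ⟨hx, hy, hh⟩ := hxy
  simp only at hx hy hh
  by_cases h0 : y = x
  · subst h0
    have hmem : |y.im| < ρ₀ := by linarith
    rw [h.diag y hmem]
    simp
  have hpos : 0 < ‖y - x‖ := norm_pos_iff.2 (sub_ne_zero.2 h0)
  set c : ℂ := (x + y) / 2 with hc
  set v : ℂ := y - x with hv
  have hcim : |c.im| < 7 / 8 * ρ₀ := by
    have : c.im = (x.im + y.im) / 2 := by
      rw [hc]
      have : ((x + y) / 2 : ℂ) = (((1 / 2 : ℝ)) : ℂ) * (x + y) := by push_cast; ring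
      rw [this, Complex.im_ofReal_mul, Complex.add_im]
      ring
    rw [this, abs_div, abs_of_pos (by norm_num : (0 : ℝ) < 2)]
    have := abs_add_le x.im y.im
    linarith
  set R : ℝ := e₂ / ‖v‖ with hR
  have hR2 : 2 ≤ R := by rw [hR, le_div_iff₀ hpos]; linarith
  have hmem : ∀ s ∈ ball (0 : ℂ) R, (c - s * v / 2, c + s * v / 2) ∈ Dg ρ₀ ε₀ := by
    intro s hs
    rw [mem_ball_zero_iff, hR, lt_div_iff₀ hpos] at hs
    have hn : ‖s * v / 2‖ < ρ₀ / 8 := by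
      rw [norm_div, norm_mul]
      have : ‖(2 : ℂ)‖ = 2 := by simp
      rw [this]
      linarith
    have him := Complex.abs_im_le_norm (s * v / 2)
    refine ⟨?_, ?_, ?_⟩
    · have := abs_sub c.im (s * v / 2).im
      simp only [Complex.sub_im]
      linarith
    · have := abs_add_le c.im (s * v / 2).im
      simp only [Complex.add_im]
      linarith
    · simp only
      have : c + s * v / 2 - (c - s * v / 2) = s * v := by ring
      rw [this, norm_mul]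
      linarith
  set φ : ℂ → ℂ := fun s => Ψ (c - s * v / 2, c + s * v / 2) with hφ
  have hφd : DifferentiableOn ℂ φ (ball 0 R) := by
    refine h.diff.comp ?_ (fun s hs => hmem s hs)
    fun_prop
  have h1 := taylor_one hR2 hφd (fun s hs => hK0 _ (hmem s hs))
  have hR0 : 0 < R := by linarith
  have heven : φ =ᶠ[𝓝 0] (fun s => φ (-s)) := by
    filter_upwards [ball_mem_nhds (0 : ℂ) hR0] with s hs
    have h2 := h.symm _ _ (hmem s hs)
    simp only [hφ]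
    rw [← h2]
    congr 2 <;> ring
  have hder : deriv φ 0 = 0 := by
    have h2 := heven.deriv_eq
    have h3 : deriv (fun s => φ (-s)) 0 = - deriv φ (-0) := deriv_comp_neg φ 0
    rw [h3, neg_zero] at h2
    have h4 : 2 * deriv φ 0 = 0 := by linear_combination h2
    have h5 : (2 : ℂ) ≠ 0 := two_ne_zero
    exact (mul_eq_zero.1 h4).resolve_left h5
  have e1 : φ 1 = Ψ (x, y) := by
    simp only [hφ]
    congr 2
    · rw [hc, hv]; ring
    · rw [hc, hv]; ring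
  have e0 : φ 0 = 1 / 6 := by
    simp only [hφ]
    rw [zero_mul, zero_div, sub_zero, add_zero]
    exact h.diag c (by linarith)
  rw [e1, e0, hder, sub_zero] at h1
  refine h1.trans ?_
  have e3 : 6 * K0 / R ^ 2 = 6 * K0 / e₂ ^ 2 * ‖v‖ ^ 2 := by
    rw [hR]
    field_simp
  rw [e3]
  have : 0 ≤ ‖v‖ ^ 2 := by positivity
  nlinarith

/-- expansions of the derivatives of `L` near the diagonal -/
theorem IsLag.exists_bounds2 (h : IsLag ρ₀ ε₀ L Ψ) :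
    ∃ K ε₂ : ℝ, 0 < K ∧ 0 < ε₂ ∧ ε₂ ≤ ε₀ ∧ ε₂ ≤ ρ₀ / 8 ∧ ε₂ ≤ 1 ∧
      (∀ x y : ℂ, (x, y) ∈ Dg (13 / 16 * ρ₀) ε₂ → ‖q1 L (x, y) + (y - x) ^ 2 / 2‖ ≤ K * ‖y - x‖ ^ 4) ∧
      (∀ x y : ℂ, (x, y) ∈ Dg (13 / 16 * ρ₀) ε₂ → ‖q2 L (x, y) - (y - x) ^ 2 / 2‖ ≤ K * ‖y - x‖ ^ 4) ∧
      (∀ x y : ℂ, (x, y) ∈ Dg (3 / 4 * ρ₀) ε₂ → x ≠ y →
        ‖q2 (q1 L) (x, y) + (y - x)‖ ≤ K * ‖y - x‖ ^ 3) := by
  obtain ⟨K, ε₁, hK, hε₁, hε₁0, hε₁1, hΨ⟩ := h.Psi_sq
  have hρ := h.ρ_pos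
  have hsub0 : Dg (7 / 8 * ρ₀) ε₁ ⊆ Dg ρ₀ ε₀ := Dg_mono (by linarith) hε₁0
  set Nf : ℂ × ℂ → ℂ := fun p => L p - (p.2 - p.1) ^ 3 / 6 with hNf
  have hNb : ∀ p ∈ Dg (7 / 8 * ρ₀) ε₁, ‖Nf p‖ ≤ K * ‖p.2 - p.1‖ ^ 5 := by
    rintro ⟨x, y⟩ hp
    have e : Nf (x, y) = (y - x) ^ 3 * (Ψ (x, y) - 1 / 6) := by
      simp only [hNf]
      rw [h.eq x y (hsub0 hp)]
      ring
    rw [e, norm_mul, norm_pow]
    calc ‖y - x‖ ^ 3 * ‖Ψ (x, y) - 1 / 6‖ ≤ ‖y - x‖ ^ 3 * (K * ‖y - x‖ ^ 2) :=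
          mul_le_mul_of_nonneg_left (hΨ x y hp) (by positivity)
      _ = K * ‖y - x‖ ^ 5 := by ring
  have hNana : AnalyticOnNhd ℂ Nf (Dg ρ₀ ε₀) := by
    refine analyticOnNhd_of_differentiableOn (isOpen_Dg ρ₀ ε₀) ?_
    refine h.diffL.sub ?_
    fun_prop
  have hq1N : ∀ x y : ℂ, (x, y) ∈ Dg ρ₀ ε₀ → q1 Nf (x, y) = q1 L (x, y) + (y - x) ^ 2 / 2 := by
    intro x y hp
    have h1 := hasDerivAt_fst (h.dL _ hp)
    have h2 : HasDerivAt (fun s : ℂ => y - s) (-1) x := by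
      simpa using (hasDerivAt_id x).const_sub y
    have h3 := h1.sub ((h2.pow 3).div_const 6)
    have h4 := (hasDerivAt_fst (hNana _ hp).differentiableAt).unique h3
    rw [h4]
    push_cast
    ring
  -- a ball around an off-diagonal point
  have hball : ∀ (ρ₁ ε : ℝ) (x y : ℂ), (x, y) ∈ Dg ρ₁ ε → ε ≤ ρ₀ / 8 →
      ∀ q ∈ ball ((x, y) : ℂ × ℂ) (‖y - x‖ / 4), q ∈ Dg (ρ₁ + 1 / 16 * ρ₀) (3 / 2 * ε) ∧
        ‖q.2 - q.1‖ ≤ 3 / 2 * ‖y - x‖ ∧ 1 / 2 * ‖y - x‖ ≤ ‖q.2 - q.1‖ := by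
    intro ρ₁ ε x y hp hε q hq
    obtain ⟨hx, hy, hh⟩ := hp
    simp only at hx hy hh
    rw [mem_ball, dist_eq_norm] at hq
    have h1 : ‖q.1 - x‖ < ‖y - x‖ / 4 := (norm_fst_le (q - (x, y))).trans_lt hq
    have h2 : ‖q.2 - y‖ < ‖y - x‖ / 4 := (norm_snd_le (q - (x, y))).trans_lt hq
    have e : q.2 - q.1 = (q.2 - y) + (y - x) - (q.1 - x) := by ring
    have i1 := norm_sub_le ((q.2 - y) + (y - x)) (q.1 - x)
    have i2 := norm_add_le (q.2 - y) (y - x)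
    rw [← e] at i1
    have e' : y - x = (q.2 - q.1) - (q.2 - y) + (q.1 - x) := by ring
    have i3 := norm_add_le ((q.2 - q.1) - (q.2 - y)) (q.1 - x)
    have i4 := norm_sub_le (q.2 - q.1) (q.2 - y)
    rw [← e'] at i3
    refine ⟨⟨?_, ?_, ?_⟩, by linarith, by linarith⟩
    · have j1 := Complex.abs_im_le_norm (q.1 - x)
      rw [Complex.sub_im] at j1
      have j2 := abs_sub_abs_le_abs_sub q.1.im x.im
      linarith
    · have j1 := Complex.abs_im_le_norm (q.2 - y)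
      rw [Complex.sub_im] at j1
      have j2 := abs_sub_abs_le_abs_sub q.2.im y.im
      linarith
    · linarith
  have b1 : ∀ x y : ℂ, (x, y) ∈ Dg (13 / 16 * ρ₀) (2 / 3 * ε₁) →
      ‖q1 L (x, y) + (y - x) ^ 2 / 2‖ ≤ 31 * K * ‖y - x‖ ^ 4 := by
    intro x y hp
    have hp0 : (x, y) ∈ Dg ρ₀ ε₀ := Dg_mono (by linarith) (by linarith) hp
    by_cases h0 : y = x
    · subst h0
      rw [h.q1_formula hp0]
      simp
    have hpos : 0 < ‖y - x‖ := norm_pos_iff.2 (sub_ne_zero.2 h0)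
    rw [← hq1N x y hp0]
    have hb := hball _ _ x y hp (by linarith)
    have hsub : ball ((x, y) : ℂ × ℂ) (‖y - x‖ / 4) ⊆ Dg (7 / 8 * ρ₀) ε₁ := fun q hq =>
      Dg_mono (by linarith) (by linarith) (hb q hq).1
    refine (norm_q1_le _ _).trans ?_
    have h1 := norm_fderiv_le_of_ball (f := Nf) (x := (x, y)) (r := ‖y - x‖ / 4)
      (M := K * (3 / 2 * ‖y - x‖) ^ 5) (by positivity)
      (hNana.differentiableOn.mono (hsub.trans hsub0))
      (fun q hq => (hNb q (hsub hq)).trans (by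
        have := (hb q hq).2.1
        gcongr))
    refine h1.trans ?_
    have e : K * (3 / 2 * ‖y - x‖) ^ 5 / (‖y - x‖ / 4) = 243 / 8 * (K * ‖y - x‖ ^ 4) := by
      field_simp
      ring
    rw [e]
    have : 0 ≤ K * ‖y - x‖ ^ 4 := by positivity
    nlinarith
  refine ⟨700 * K, min (4 / 9 * ε₁) 1, by positivity, lt_min (by positivity) one_pos,
    (min_le_left _ _).trans (by linarith), (min_le_left _ _).trans (by linarith),
    min_le_right _ _, ?_, ?_, ?_⟩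
  · intro x y hp
    refine (b1 x y (Dg_mono le_rfl ((min_le_left _ _).trans (by linarith)) hp)).trans ?_
    have : 0 ≤ K * ‖y - x‖ ^ 4 := by positivity
    nlinarith
  · intro x y hp
    have hp1 : (x, y) ∈ Dg (13 / 16 * ρ₀) (2 / 3 * ε₁) :=
      Dg_mono le_rfl ((min_le_left _ _).trans (by linarith)) hp
    have hp2 : (y, x) ∈ Dg (13 / 16 * ρ₀) (2 / 3 * ε₁) := Dg_swap.2 hp1
    have hp0 : (y, x) ∈ Dg ρ₀ ε₀ := Dg_mono (by linarith) (by linarith) hp2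
    have h1 := b1 y x hp2
    have h2 := h.q2_swap hp0
    have e : q2 L (x, y) - (y - x) ^ 2 / 2 = - (q1 L (y, x) + (x - y) ^ 2 / 2) := by
      rw [h2]; ring
    rw [e, norm_neg]
    refine h1.trans ?_
    rw [norm_sub_rev x y]
    have : 0 ≤ K * ‖y - x‖ ^ 4 := by positivity
    nlinarith
  · intro x y hp hxy
    have hpos : 0 < ‖y - x‖ := norm_pos_iff.2 (sub_ne_zero.2 (Ne.symm hxy))
    have hp1 : (x, y) ∈ Dg (3 / 4 * ρ₀) (4 / 9 * ε₁) := Dg_mono le_rfl (min_le_left _ _) hp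
    have hp0 : (x, y) ∈ Dg ρ₀ ε₀ := Dg_mono (by linarith) (by linarith) hp1
    have hb := hball _ _ x y hp1 (by linarith)
    have hsub : ball ((x, y) : ℂ × ℂ) (‖y - x‖ / 4) ⊆ Dg (13 / 16 * ρ₀) (2 / 3 * ε₁) := fun q hq =>
      Dg_mono (by linarith) (by linarith) (hb q hq).1
    have hsub1 : Dg (13 / 16 * ρ₀) (2 / 3 * ε₁) ⊆ Dg ρ₀ ε₀ := Dg_mono (by linarith) (by linarith)
    have hq12 : q2 (q1 L) (x, y) + (y - x) = q2 (q1 Nf) (x, y) := by
      have h1 := hasDerivAt_snd (ana_q1 h.anaL _ hp0).differentiableAt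
      have h2 : HasDerivAt (fun s : ℂ => s - x) 1 y := (hasDerivAt_id y).sub_const x
      have h3 := h1.add ((h2.pow 2).div_const 2)
      have h4 : (fun s => q1 Nf (x, s)) =ᶠ[𝓝 y] (fun s => q1 L (x, s) + (s - x) ^ 2 / 2) := by
        have hcont : Continuous (fun s : ℂ => (x, s)) := by fun_prop
        filter_upwards [hcont.continuousAt.preimage_mem_nhds
          ((isOpen_Dg ρ₀ ε₀).mem_nhds hp0)] with s hs
        exact hq1N x s hs
      have h5 := (hasDerivAt_snd (ana_q1 hNana _ hp0).differentiableAt).unique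
        (h3.congr_of_eventuallyEq h4)
      rw [h5]
      push_cast
      ring
    rw [hq12]
    refine (norm_q2_le _ _).trans ?_
    have h1 := norm_fderiv_le_of_ball (f := q1 Nf) (x := (x, y)) (r := ‖y - x‖ / 4)
      (M := 31 * K * (3 / 2 * ‖y - x‖) ^ 4) (by positivity)
      ((ana_q1 hNana).differentiableOn.mono (hsub.trans hsub1))
      (fun q hq => by
        rw [show q = (q.1, q.2) from rfl, hq1N q.1 q.2 (hsub1 (hsub hq))]
        refine (b1 q.1 q.2 (hsub hq)).trans ?_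
        have := (hb q hq).2.1
        gcongr)
    refine h1.trans ?_
    have e : 31 * K * (3 / 2 * ‖y - x‖) ^ 4 / (‖y - x‖ / 4) = 2511 / 4 * (K * ‖y - x‖ ^ 3) := by
      field_simp
      ring
    rw [e]
    have : 0 ≤ K * ‖y - x‖ ^ 3 := by positivity
    nlinarith

end Crest.Agent.R102.B821
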