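import Mathlib
import Crest.Agent.R102.MelDefs_490
import Crest.Agent.R102.T5L4_346

/-!
# Row 102, T5-MEL, LAW-R (helper519)

`EL (PsiQ q) x₁ x x₂ = 0` near the diagonal is the law of reflection
`R (x, x₁) * R (x, x₂) = 1`.
-/

set_option autoImplicit false

open Complex Metric Set Filter Topology

namespace Crest.Agent.R102.Law519

open Crest.Agent.R102.T5R Crest.Agent.R102.Mel Crest.Agent.R102.T5R.L4346

/-- local primitives -/
lemma prims {q : ℂ → ℂ} {x0 : ℂ} {R : ℝ} (hq : DifferentiableOn ℂ q (ball x0 R)) :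
    ∃ (θ : ℂ → ℂ) (Z : ℂ → ℂ → ℂ), (∀ z ∈ ball x0 R, HasDerivAt θ (exp (q z)) z) ∧
      ∀ j : ℂ, ∀ z ∈ ball x0 R, HasDerivAt (Z j) (exp (-2 * q z + j * θ z)) z := by
  have h1 : DifferentiableOn ℂ (fun z => exp (q z)) (ball x0 R) := hq.cexp
  obtain ⟨θ, -, hθ⟩ := h1.isExactOn_ball.with_val_at x0 0
  have hθd : DifferentiableOn ℂ θ (ball x0 R) := fun z hz =>
    (hθ z hz).differentiableAt.differentiableWithinAt
  have h2 : ∀ j : ℂ, ∃ Z : ℂ → ℂ, ∀ z ∈ ball x0 R,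
      HasDerivAt Z (exp (-2 * q z + j * θ z)) z := by
    intro j
    have h3 : DifferentiableOn ℂ (fun z => exp (-2 * q z + j * θ z)) (ball x0 R) :=
      ((hq.const_mul _).add (hθd.const_mul _)).cexp
    obtain ⟨Z, -, hZ⟩ := h3.isExactOn_ball.with_val_at x0 0
    exact ⟨Z, hZ⟩
  choose Z hZ using h2
  exact ⟨θ, Z, hθ, hZ⟩

section Loc

variable {q θ : ℂ → ℂ} {Z : ℂ → ℂ → ℂ} {x0 : ℂ} {R : ℝ}

lemma seg_ball {x y : ℂ} (hx : x ∈ ball x0 R) (hy : y ∈ ball x0 R) {s : ℝ}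
    (hs : s ∈ Icc (0 : ℝ) 1) : x + s * (y - x) ∈ ball x0 R := by
  have h4 := (convex_ball x0 R).add_smul_sub_mem (x := x) (y := y) hx hy hs
  simpa using h4

lemma seg_hasDerivAt (x y : ℂ) (s : ℝ) : HasDerivAt (fun s : ℝ => x + s * (y - x)) (y - x) s := by
  have h1 : HasDerivAt (fun s : ℝ => (s : ℂ) * (y - x)) (y - x) s := by
    simpa using ((hasDerivAt_id s).ofReal_comp).mul_const (y - x)
  exact h1.const_add x

lemma theta_eq (hq : DifferentiableOn ℂ q (ball x0 R))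
    (hθ : ∀ z ∈ ball x0 R, HasDerivAt θ (exp (q z)) z) {x y : ℂ} (hx : x ∈ ball x0 R)
    (hy : y ∈ ball x0 R) {s : ℝ} (hs : s ∈ Icc (0 : ℝ) 1) :
    (y - x) * ∫ s' in (0 : ℝ)..s, exp (q (x + s' * (y - x))) = θ (x + s * (y - x)) - θ x := by
  have hsub : uIcc (0 : ℝ) s ⊆ Icc (0 : ℝ) 1 := by
    rw [uIcc_of_le hs.1]; exact Icc_subset_Icc_right hs.2
  have hc : ContinuousOn (fun s' : ℝ => exp (q (x + s' * (y - x)))) (uIcc 0 s) :=
    Complex.continuous_exp.comp_continuousOn (hq.continuousOn.comp (by fun_prop)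
      (fun t ht => seg_ball hx hy (hsub ht)))
  have h1 := intervalIntegral.integral_eq_sub_of_hasDerivAt (a := 0) (b := s)
    (f := fun s' : ℝ => θ (x + s' * (y - x)))
    (f' := fun s' : ℝ => exp (q (x + s' * (y - x))) * (y - x)) (fun t ht =>
      HasDerivAt.comp_of_eq t (hθ _ (seg_ball hx hy (hsub ht))) (seg_hasDerivAt x y t) rfl)
    ((hc.mul continuousOn_const).intervalIntegrable)
  rw [intervalIntegral.integral_mul_const] at h1
  simp only [ofReal_zero, zero_mul, add_zero] at h1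
  rw [← h1]; ring

lemma pj_eq (hq : DifferentiableOn ℂ q (ball x0 R))
    (hθ : ∀ z ∈ ball x0 R, HasDerivAt θ (exp (q z)) z)
    (hZ : ∀ j : ℂ, ∀ z ∈ ball x0 R, HasDerivAt (Z j) (exp (-2 * q z + j * θ z)) z)
    {x y : ℂ} (hx : x ∈ ball x0 R) (hy : y ∈ ball x0 R) (j : ℂ) :
    (y - x) * Pj q j x y = exp (2 * q x - j * θ x) * (Z j y - Z j x) := by
  have hθd : DifferentiableOn ℂ θ (ball x0 R) := fun z hz =>
    (hθ z hz).differentiableAt.differentiableWithinAt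
  have e1 : Pj q j x y = ∫ s in (0 : ℝ)..1, exp (2 * q x - j * θ x) *
      exp (-2 * q (x + s * (y - x)) + j * θ (x + s * (y - x))) := by
    unfold Pj
    refine intervalIntegral.integral_congr (fun s hs => ?_)
    rw [uIcc_of_le zero_le_one] at hs
    rw [theta_eq hq hθ hx hy hs, ← Complex.exp_add, ← Complex.exp_add]
    congr 1
    ring
  have hc : ContinuousOn (fun s : ℝ =>
      exp (-2 * q (x + s * (y - x)) + j * θ (x + s * (y - x)))) (uIcc 0 1) := by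
    rw [uIcc_of_le zero_le_one]
    refine Complex.continuous_exp.comp_continuousOn (ContinuousOn.add ?_ ?_)
    · exact continuousOn_const.mul (hq.continuousOn.comp (by fun_prop)
        (fun t ht => seg_ball hx hy ht))
    · exact continuousOn_const.mul (hθd.continuousOn.comp (by fun_prop)
        (fun t ht => seg_ball hx hy ht))
  have h1 := intervalIntegral.integral_eq_sub_of_hasDerivAt (a := 0) (b := 1)
    (f := fun s' : ℝ => Z j (x + s' * (y - x)))
    (f' := fun s : ℝ => exp (-2 * q (x + s * (y - x)) + j * θ (x + s * (y - x))) * (y - x))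
    (fun t ht => HasDerivAt.comp_of_eq t (hZ j _ (seg_ball hx hy (by rwa [uIcc_of_le zero_le_one] at ht)))
      (seg_hasDerivAt x y t) rfl)
    ((hc.mul continuousOn_const).intervalIntegrable)
  rw [intervalIntegral.integral_mul_const] at h1
  have e2 : x + ((1 : ℝ) : ℂ) * (y - x) = y := by push_cast; ring
  have e3 : x + ((0 : ℝ) : ℂ) * (y - x) = x := by push_cast; ring
  simp only [e2, e3] at h1
  rw [e1, intervalIntegral.integral_const_mul, ← h1]
  ring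

end Loc

/-- derivative of one side of the law -/
lemma side_deriv {L G₀ S Gp Gm : ℂ → ℂ} {x Q T ε : ℂ} (hL : L =ᶠ[𝓝 x] fun y => 4 * (G₀ y - S y))
    (hG₀ : HasDerivAt G₀ (ε * exp (-2 * Q)) x) (hSd : DifferentiableAt ℂ S x) (hS0 : S x ≠ 0)
    (hS : ∀ᶠ y in 𝓝 x, S y ^ 2 = Gp y * Gm y)
    (hGp : HasDerivAt Gp (ε * exp (-2 * Q + I * T)) x)
    (hGm : HasDerivAt Gm (ε * exp (-2 * Q + (-I) * T)) x) :
    deriv L x = 4 * ε * exp (-2 * Q) *
      (1 - (exp (I * T) * Gm x / S x + exp (-I * T) * Gp x / S x) / 2) := by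
  have h1 : HasDerivAt (fun y => S y ^ 2) (2 * S x * deriv S x) x := by
    have := hSd.hasDerivAt.fun_pow 2
    simpa using this
  have h2 := (hGp.mul hGm).congr_of_eventuallyEq (f₁ := fun y => S y ^ 2) (by
    filter_upwards [hS] with y hy
    exact hy)
  have h3 := h1.unique h2
  have h4 : deriv L x = 4 * (ε * exp (-2 * Q) - deriv S x) := by
    rw [hL.deriv_eq]
    exact ((hG₀.sub hSd.hasDerivAt).const_mul 4).deriv
  have h5 : deriv S x = ε * exp (-2 * Q) *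
      (exp (I * T) * Gm x / S x + exp (-I * T) * Gp x / S x) / 2 := by
    rw [Complex.exp_add, Complex.exp_add] at h3
    have h6 : 2 * S x * deriv S x = 2 * S x * (ε * exp (-2 * Q) *
      (exp (I * T) * Gm x / S x + exp (-I * T) * Gp x / S x) / 2) := by
      rw [h3]
      field_simp
    exact mul_left_cancel₀ (mul_ne_zero two_ne_zero hS0) h6
  rw [h4, h5]
  ring

lemma sqrt_sq' (P : ℂ) : (P ^ (1 / 2 : ℂ)) ^ 2 = P := by
  have := Complex.cpow_nat_inv_pow P (n := 2) two_ne_zero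
  rwa [show (((2 : ℕ) : ℂ))⁻¹ = 1 / 2 by norm_num] at this

/-- one side of the law, in the form `4 ε e^{-2q} (1 - (a + b) / 2)` with `a b = 1` -/
lemma side_ab {L G₀ S Gp Gm : ℂ → ℂ} {x Q T ε : ℂ} (hL : L =ᶠ[𝓝 x] fun y => 4 * (G₀ y - S y))
    (hG₀ : HasDerivAt G₀ (ε * exp (-2 * Q)) x) (hSd : DifferentiableAt ℂ S x) (hS0 : S x ≠ 0)
    (hS : ∀ᶠ y in 𝓝 x, S y ^ 2 = Gp y * Gm y)
    (hGp : HasDerivAt Gp (ε * exp (-2 * Q + I * T)) x)
    (hGm : HasDerivAt Gm (ε * exp (-2 * Q + (-I) * T)) x) :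
    ∃ a b : ℂ, a * b = 1 ∧ deriv L x = 4 * ε * exp (-2 * Q) * (1 - (a + b) / 2) ∧
      b / a = exp (-(2 * I * T)) * (Gp x / Gm x) := by
  have h1 := hS.self_of_nhds
  have h2 : Gp x ≠ 0 := by
    intro h; rw [h, zero_mul] at h1; exact hS0 (pow_eq_zero_iff two_ne_zero |>.1 h1)
  have h3 : Gm x ≠ 0 := by
    intro h; rw [h, mul_zero] at h1; exact hS0 (pow_eq_zero_iff two_ne_zero |>.1 h1)
  have h4 : exp (I * T) * exp (-I * T) = 1 := by rw [← Complex.exp_add]; simp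
  have h5 : exp (I * T) ≠ 0 := exp_ne_zero _
  have h6 : exp (-(2 * I * T)) = exp (-I * T) / exp (I * T) := by
    rw [← Complex.exp_sub]; congr 1; ring
  refine ⟨exp (I * T) * Gm x / S x, exp (-I * T) * Gp x / S x, ?_,
    side_deriv hL hG₀ hSd hS0 hS hGp hGm, ?_⟩
  · have : exp (I * T) * Gm x / S x * (exp (-I * T) * Gp x / S x) =
        (exp (I * T) * exp (-I * T)) * (Gp x * Gm x) / S x ^ 2 := by ring
    rw [this, h4, ← h1, one_mul, div_self (pow_ne_zero 2 hS0)]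
  · rw [h6]
    field_simp

/-- **the law at one vertex**: general position -/
lemma law_loc {q : ℂ → ℂ} {x x₁ x₂ : ℂ} {R : ℝ} (hR : 0 < R)
    (hq : DifferentiableOn ℂ q (ball x R)) (h1 : x₁ ∈ ball x R) (h2 : x₂ ∈ ball x R)
    (hx1 : x₁ ≠ x) (hx2 : x₂ ≠ x)
    (hP1 : ∀ j : ℂ, j = I ∨ j = -I → Pj q j x₁ x ∈ slitPlane)
    (hP2 : ∀ j : ℂ, j = I ∨ j = -I → Pj q j x x₂ ∈ slitPlane)
    (hel : EL (PsiQ q) x₁ x x₂ = 0) :
    Rj q I x x₁ = Rj q I x x₂ ∨ Rj q I x x₁ * Rj q I x x₂ = 1 := by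
  obtain ⟨θ, Z, hθ, hZ⟩ := prims hq
  have hx : x ∈ ball x R := mem_ball_self hR
  have hθd : DifferentiableOn ℂ θ (ball x R) := fun z hz =>
    (hθ z hz).differentiableAt.differentiableWithinAt
  have hpj : ∀ u ∈ ball x R, ∀ v ∈ ball x R, ∀ j : ℂ,
      (v - u) * Pj q j u v = exp (2 * q u - j * θ u) * (Z j v - Z j u) :=
    fun u hu v hv j => pj_eq hq hθ hZ hu hv j
  have hball : ∀ᶠ y in 𝓝 x, y ∈ ball x R := ball_mem_nhds x hR
  have hne1 : ∀ᶠ y in 𝓝 x, y ≠ x₁ := (continuousAt_id (x := x)).eventually_ne hx1.symm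
  have hne2 : ∀ᶠ y in 𝓝 x, y ≠ x₂ := (continuousAt_id (x := x)).eventually_ne hx2.symm
  have hqd : DifferentiableAt ℂ q x := (hq x hx).differentiableAt (isOpen_ball.mem_nhds hx)
  have hθx : DifferentiableAt ℂ θ x := (hθ x hx).differentiableAt
  have hZx : ∀ j, DifferentiableAt ℂ (Z j) x := fun j => (hZ j x hx).differentiableAt
  -- the ratio
  have hR' : ∀ v ∈ ball x R, v ≠ x → Rj q I x v = exp (-(2 * I * θ x)) *
      ((Z I v - Z I x) / (Z (-I) v - Z (-I) x)) := by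
    intro v hv hvx
    have e1 := hpj x hx v hv I
    have e2 := hpj x hx v hv (-I)
    have e3 : v - x ≠ 0 := sub_ne_zero.2 hvx
    have e4 : Pj q I x v = exp (2 * q x - I * θ x) * (Z I v - Z I x) / (v - x) := by
      rw [eq_div_iff e3, ← e1]; ring
    have e5 : Pj q (-I) x v = exp (2 * q x - (-I) * θ x) * (Z (-I) v - Z (-I) x) / (v - x) := by
      rw [eq_div_iff e3, ← e2]; ring
    unfold Rj
    rw [e4, e5, div_div_div_cancel_right₀ e3, mul_div_mul_comm, ← Complex.exp_sub]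
    congr 2
    ring
  -- left side
  have hL1 : ∃ a b : ℂ, a * b = 1 ∧ deriv (fun y => LL (PsiQ q) x₁ y) x =
      4 * 1 * exp (-2 * q x) * (1 - (a + b) / 2) ∧
      b / a = exp (-(2 * I * θ x)) * ((Z I x - Z I x₁) / (Z (-I) x - Z (-I) x₁)) := by
    have hd : ∀ j, DifferentiableAt ℂ (fun y => Pj q j x₁ y) x := by
      intro j
      have e1 : (fun y => Pj q j x₁ y) =ᶠ[𝓝 x] fun y =>
          exp (2 * q x₁ - j * θ x₁) * (Z j y - Z j x₁) / (y - x₁) := by
        filter_upwards [hball, hne1] with y hy hy1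
        rw [eq_div_iff (sub_ne_zero.2 hy1), ← hpj x₁ h1 y hy j]; ring
      refine DifferentiableAt.congr_of_eventuallyEq ?_ e1
      exact (((hZx j).sub_const _).const_mul _).div (differentiableAt_id.sub_const _)
        (sub_ne_zero.2 hx1.symm)
    refine side_ab (G₀ := fun y => Z 0 y - Z 0 x₁)
      (S := fun y => exp (-2 * q x₁) * (y - x₁) * (Pj q I x₁ y ^ (1 / 2 : ℂ) *
        Pj q (-I) x₁ y ^ (1 / 2 : ℂ)))
      (Gp := fun y => Z I y - Z I x₁) (Gm := fun y => Z (-I) y - Z (-I) x₁)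
      ?_ ?_ ?_ ?_ ?_ ?_ ?_
    · filter_upwards [hball, hne1] with y hy hy1
      have e1 := hpj x₁ h1 y hy 0
      have e3 : y - x₁ ≠ 0 := sub_ne_zero.2 hy1
      have e4 := exp_ne_zero (2 * q x₁)
      have e5 : exp (-2 * q x₁) = (exp (2 * q x₁))⁻¹ := by rw [← Complex.exp_neg]; congr 1; ring
      have e6 : Z 0 y - Z 0 x₁ = exp (-2 * q x₁) * ((y - x₁) * Pj q 0 x₁ y) := by
        rw [e1, e5, zero_mul, sub_zero]
        field_simp
      unfold LL PsiQ
      rw [if_neg hy1, e6, e5]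
      field_simp
    · have := (hZ 0 x hx).sub_const (Z 0 x₁)
      rwa [zero_mul, add_zero, ← one_mul (exp (-2 * q x))] at this
    · refine ((differentiableAt_const _).mul (differentiableAt_id.sub_const _)).mul
        (DifferentiableAt.mul ?_ ?_)
      · exact (hd I).cpow (differentiableAt_const _) (hP1 I (Or.inl rfl))
      · exact (hd (-I)).cpow (differentiableAt_const _) (hP1 (-I) (Or.inr rfl))
    · refine mul_ne_zero (mul_ne_zero (exp_ne_zero _) (sub_ne_zero.2 hx1.symm))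
        (mul_ne_zero ?_ ?_)
      · exact (cpow_ne_zero_iff_of_exponent_ne_zero (by norm_num)).2
          (slitPlane_ne_zero (hP1 I (Or.inl rfl)))
      · exact (cpow_ne_zero_iff_of_exponent_ne_zero (by norm_num)).2
          (slitPlane_ne_zero (hP1 (-I) (Or.inr rfl)))
    · filter_upwards [hball] with y hy
      have e1 := hpj x₁ h1 y hy I
      have e2 := hpj x₁ h1 y hy (-I)
      have e3 : (exp (-2 * q x₁) * (y - x₁) * (Pj q I x₁ y ^ (1 / 2 : ℂ) *
          Pj q (-I) x₁ y ^ (1 / 2 : ℂ))) ^ 2 = exp (-2 * q x₁) ^ 2 *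
          (((y - x₁) * (Pj q I x₁ y ^ (1 / 2 : ℂ)) ^ 2) *
          ((y - x₁) * (Pj q (-I) x₁ y ^ (1 / 2 : ℂ)) ^ 2)) := by ring
      rw [e3, sqrt_sq', sqrt_sq', e1, e2]
      have e4 : exp (-2 * q x₁) ^ 2 * (exp (2 * q x₁ - I * θ x₁) *
          exp (2 * q x₁ - (-I) * θ x₁)) = 1 := by
        rw [← Complex.exp_nat_mul, ← Complex.exp_add, ← Complex.exp_add,
          ← Complex.exp_zero]
        congr 1
        push_cast; ring
      linear_combination ((Z I y - Z I x₁) * (Z (-I) y - Z (-I) x₁)) * e4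
    · have := (hZ I x hx).sub_const (Z I x₁)
      rwa [← one_mul (exp (-2 * q x + I * θ x))] at this
    · have := (hZ (-I) x hx).sub_const (Z (-I) x₁)
      rwa [← one_mul (exp (-2 * q x + (-I) * θ x))] at this
  -- right side
  have hL2 : ∃ a b : ℂ, a * b = 1 ∧ deriv (fun y => LL (PsiQ q) y x₂) x =
      4 * (-1) * exp (-2 * q x) * (1 - (a + b) / 2) ∧
      b / a = exp (-(2 * I * θ x)) * ((Z I x₂ - Z I x) / (Z (-I) x₂ - Z (-I) x)) := by
    have hd : ∀ j, DifferentiableAt ℂ (fun y => Pj q j y x₂) x := by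
      intro j
      have e1 : (fun y => Pj q j y x₂) =ᶠ[𝓝 x] fun y =>
          exp (2 * q y - j * θ y) * (Z j x₂ - Z j y) / (x₂ - y) := by
        filter_upwards [hball, hne2] with y hy hy1
        rw [eq_div_iff (sub_ne_zero.2 hy1.symm), ← hpj y hy x₂ h2 j]; ring
      refine DifferentiableAt.congr_of_eventuallyEq ?_ e1
      exact ((((hqd.const_mul _).sub (hθx.const_mul _)).cexp).mul
        ((hZx j).const_sub _)).div (differentiableAt_id.const_sub _)
        (sub_ne_zero.2 hx2)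
    refine side_ab (G₀ := fun y => Z 0 x₂ - Z 0 y)
      (S := fun y => exp (-2 * q y) * (x₂ - y) * (Pj q I y x₂ ^ (1 / 2 : ℂ) *
        Pj q (-I) y x₂ ^ (1 / 2 : ℂ)))
      (Gp := fun y => Z I x₂ - Z I y) (Gm := fun y => Z (-I) x₂ - Z (-I) y)
      ?_ ?_ ?_ ?_ ?_ ?_ ?_
    · filter_upwards [hball, hne2] with y hy hy1
      have e1 := hpj y hy x₂ h2 0
      have e3 : x₂ - y ≠ 0 := sub_ne_zero.2 hy1.symm
      have e4 := exp_ne_zero (2 * q y)
      have e5 : exp (-2 * q y) = (exp (2 * q y))⁻¹ := by rw [← Complex.exp_neg]; congr 1; ring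
      have e6 : Z 0 x₂ - Z 0 y = exp (-2 * q y) * ((x₂ - y) * Pj q 0 y x₂) := by
        rw [e1, e5, zero_mul, sub_zero]
        field_simp
      unfold LL PsiQ
      rw [if_neg hy1.symm, e6, e5]
      field_simp
    · have := (hZ 0 x hx).const_sub (Z 0 x₂)
      rw [zero_mul, add_zero] at this
      rwa [neg_one_mul]
    · refine ((((hqd.const_mul _).cexp)).mul (differentiableAt_id.const_sub _)).mul
        (DifferentiableAt.mul ?_ ?_)
      · exact (hd I).cpow (differentiableAt_const _) (hP2 I (Or.inl rfl))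
      · exact (hd (-I)).cpow (differentiableAt_const _) (hP2 (-I) (Or.inr rfl))
    · refine mul_ne_zero (mul_ne_zero (exp_ne_zero _) (sub_ne_zero.2 hx2))
        (mul_ne_zero ?_ ?_)
      · exact (cpow_ne_zero_iff_of_exponent_ne_zero (by norm_num)).2
          (slitPlane_ne_zero (hP2 I (Or.inl rfl)))
      · exact (cpow_ne_zero_iff_of_exponent_ne_zero (by norm_num)).2
          (slitPlane_ne_zero (hP2 (-I) (Or.inr rfl)))
    · filter_upwards [hball] with y hy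
      have e1 := hpj y hy x₂ h2 I
      have e2 := hpj y hy x₂ h2 (-I)
      have e3 : (exp (-2 * q y) * (x₂ - y) * (Pj q I y x₂ ^ (1 / 2 : ℂ) *
          Pj q (-I) y x₂ ^ (1 / 2 : ℂ))) ^ 2 = exp (-2 * q y) ^ 2 *
          (((x₂ - y) * (Pj q I y x₂ ^ (1 / 2 : ℂ)) ^ 2) *
          ((x₂ - y) * (Pj q (-I) y x₂ ^ (1 / 2 : ℂ)) ^ 2)) := by ring
      rw [e3, sqrt_sq', sqrt_sq', e1, e2]
      have e4 : exp (-2 * q y) ^ 2 * (exp (2 * q y - I * θ y) *
          exp (2 * q y - (-I) * θ y)) = 1 := by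
        rw [← Complex.exp_nat_mul, ← Complex.exp_add, ← Complex.exp_add,
          ← Complex.exp_zero]
        congr 1
        push_cast; ring
      linear_combination ((Z I x₂ - Z I y) * (Z (-I) x₂ - Z (-I) y)) * e4
    · have := (hZ I x hx).const_sub (Z I x₂)
      rwa [neg_one_mul]
    · have := (hZ (-I) x hx).const_sub (Z (-I) x₂)
      rwa [neg_one_mul]
  obtain ⟨a₁, b₁, hab1, hd1, hr1⟩ := hL1
  obtain ⟨a₂, b₂, hab2, hd2, hr2⟩ := hL2
  have hr1' : Rj q I x x₁ = b₁ / a₁ := by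
    rw [hR' x₁ h1 hx1, hr1]
    congr 1
    rw [← neg_div_neg_eq, neg_sub, neg_sub]
  have hr2' : Rj q I x x₂ = b₂ / a₂ := by rw [hR' x₂ h2 hx2, hr2]
  unfold EL at hel
  rw [hd1, hd2] at hel
  have hE := exp_ne_zero (-2 * q x)
  have h5 : a₁ + b₁ = a₂ + b₂ := by
    apply mul_left_cancel₀ hE
    linear_combination (-1 / 2 : ℂ) * hel
  have hb1 : b₁ ≠ 0 := by rintro rfl; simp at hab1
  have hb2 : b₂ ≠ 0 := by rintro rfl; simp at hab2
  have ha1 : a₁ = 1 / b₁ := by rw [eq_div_iff hb1]; exact hab1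
  have ha2 : a₂ = 1 / b₂ := by rw [eq_div_iff hb2]; exact hab2
  have h6 : (b₁ - b₂) * (b₁ * b₂ - 1) = 0 := by
    rw [ha1, ha2] at h5
    field_simp at h5
    linear_combination h5
  rw [hr1', hr2', ha1, ha2]
  rcases mul_eq_zero.1 h6 with h | h
  · left; rw [sub_eq_zero.1 h]
  · right
    have h7 : b₁ * b₂ = 1 := sub_eq_zero.1 h
    have : b₁ / (1 / b₁) * (b₂ / (1 / b₂)) = (b₁ * b₂) ^ 2 := by field_simp
    rw [this, h7, one_pow]

/-! ### the near-diagonal estimate -/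

lemma sc_near {v : ℂ} (hv : ‖v‖ ≤ 1) : ‖sc v - 1‖ ≤ ‖v‖ := by
  rcases eq_or_ne v 0 with rfl | h0
  · simp [sc_zero]
  have h1 := Complex.norm_exp_sub_one_sub_id_le (x := v * I) (by simpa using hv)
  have h2 := Complex.norm_exp_sub_one_sub_id_le (x := -v * I) (by simpa using hv)
  have h3 : ‖v * I‖ = ‖v‖ := by simp
  have h4 : ‖-v * I‖ = ‖v‖ := by simp
  rw [h3] at h1
  rw [h4] at h2
  have h5 : (2 * I) * (v * (sc v - 1)) = (exp (v * I) - 1 - v * I) -
      (exp (-v * I) - 1 - -v * I) := by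
    have e1 : v * (sc v - 1) = Complex.sin v - v := by rw [← mul_sc v]; ring
    rw [e1, Complex.sin]
    linear_combination (exp (-v * I) - exp (v * I)) * Complex.I_mul_I
  have h6 : ‖(2 * I) * (v * (sc v - 1))‖ ≤ 2 * ‖v‖ ^ 2 := by
    rw [h5]
    refine (norm_sub_le _ _).trans ?_
    linarith
  have h7 : ‖(2 * I) * (v * (sc v - 1))‖ = 2 * ‖v‖ * ‖sc v - 1‖ := by
    rw [norm_mul, norm_mul, norm_mul, Complex.norm_I, Complex.norm_ofNat]; ring
  rw [h7] at h6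
  have h8 : 0 < ‖v‖ := norm_pos_iff.2 h0
  nlinarith

lemma prod_near {a e g s : ℂ} (hs : ‖s‖ ≤ 1) (ha : ‖a - 1‖ ≤ 1 / 80) (he : ‖e - s‖ ≤ 1 / 160)
    (hg : ‖g - 1‖ ≤ 1 / 160) : ‖a * (e * g) - s‖ ≤ 1 / 32 := by
  have h1 : a * (e * g) - s = s * ((a - 1) * (g - 1) + (a - 1) + (g - 1)) +
      (1 + ((a - 1) * (g - 1) + (a - 1) + (g - 1))) * (e - s) := by ring
  have h2 : ‖(a - 1) * (g - 1) + (a - 1) + (g - 1)‖ ≤ 1 / 50 := by
    have e1 : ‖(a - 1) * (g - 1)‖ ≤ (1 / 80) * (1 / 160) := by rw [norm_mul]; gcongr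
    calc ‖(a - 1) * (g - 1) + (a - 1) + (g - 1)‖ ≤ ‖(a - 1) * (g - 1)‖ + ‖a - 1‖ + ‖g - 1‖ :=
          norm_add₃_le
      _ ≤ (1 / 80) * (1 / 160) + 1 / 80 + 1 / 160 := by gcongr
      _ ≤ 1 / 50 := by norm_num
  rw [h1]
  calc _ ≤ ‖s * ((a - 1) * (g - 1) + (a - 1) + (g - 1))‖ +
        ‖(1 + ((a - 1) * (g - 1) + (a - 1) + (g - 1))) * (e - s)‖ := norm_add_le _ _
    _ ≤ 1 * (1 / 50) + (1 + 1 / 50) * (1 / 160) := by
        rw [norm_mul, norm_mul]
        have e2 : ‖1 + ((a - 1) * (g - 1) + (a - 1) + (g - 1))‖ ≤ 1 + 1 / 50 := by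
          refine (norm_add_le _ _).trans ?_
          rw [norm_one]; gcongr
        gcongr
    _ ≤ 1 / 32 := by norm_num

section Est

variable {κ κ' c₀ c β C B : ℝ} {q : ℂ → ℂ}

lemma Gs_near (S : Sm κ κ' c₀ c β C B q) (hsm : 4 * (|c| + C) * c₀ + 2 * B * c₀ ≤ 1 / 160)
    {p : ℂ × ℂ} (hp : p ∈ DD κ' c₀) : ‖II q Gs p - 1 / 2‖ ≤ 1 / 32 := by
  have hCn : 0 ≤ (|c| + C) * c₀ :=
    mul_nonneg (add_nonneg (abs_nonneg _) (C_nonneg S.h)) S.c0_pos.le
  have hBn : 0 ≤ B * c₀ := mul_nonneg S.B_nonneg S.c0_pos.le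
  have hgg : ∀ s ∈ Icc (0 : ℝ) 1, ‖gg q p s‖ ≤ 1 / 320 := by
    intro s hs
    have := S.gg_le hp hs
    nlinarith
  have hgc : ContinuousOn (fun s : ℝ => gg q p s) (Icc (0 : ℝ) 1) :=
    S.gg_cont.comp (f := fun s : ℝ => (p, s)) (by fun_prop) (fun s hs => ⟨hp, hs⟩)
  have hEE : ∀ s ∈ Icc (0 : ℝ) 1, ‖EE q p s - s‖ ≤ 1 / 160 := by
    intro s hs
    have hi : IntervalIntegrable (fun r => exp (gg q p r)) MeasureTheory.volume 0 s := by
      apply ContinuousOn.intervalIntegrable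
      rw [uIcc_of_le hs.1]
      exact (Complex.continuous_exp.comp_continuousOn hgc).mono (Icc_subset_Icc_right hs.2)
    have e1 : EE q p s - s = ∫ r in (0 : ℝ)..s, (exp (gg q p r) - 1) := by
      unfold EE
      rw [intervalIntegral.integral_sub hi (by simp)]
      simp
    rw [e1]
    have h1 := intervalIntegral.norm_integral_le_of_norm_le_const
      (f := fun r => exp (gg q p r) - 1) (a := 0) (b := s) (C := 1 / 160) (fun r hr => by
        rw [uIoc_of_le hs.1] at hr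
        have h2 := hgg r ⟨hr.1.le, hr.2.trans hs.2⟩
        have h3 := Complex.norm_exp_sub_one_le (x := gg q p r) (by linarith)
        linarith)
    rw [sub_zero, abs_of_nonneg hs.1] at h1
    nlinarith [hs.2]
  have hph : ‖ph q p‖ ≤ 1 / 320 := by
    have := S.ph_le hp
    nlinarith
  have h0 : II q Gs p - 1 / 2 = ∫ s in (0 : ℝ)..1, (exp (-2 * gg q p s) *
      Gs (ph q p, EE q p s) - s) := by
    unfold II
    rw [intervalIntegral.integral_sub (S.slice_int Gs_diff.continuous hp)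
      (by apply Continuous.intervalIntegrable; fun_prop)]
    congr 1
    have e2 : (∫ x in (0 : ℝ)..1, (x : ℂ)) = ((∫ x in (0 : ℝ)..1, x : ℝ) : ℂ) :=
      intervalIntegral.integral_ofReal
    rw [e2, integral_id]
    norm_num
  rw [h0]
  have h1 := intervalIntegral.norm_integral_le_of_norm_le_const
    (f := fun s : ℝ => exp (-2 * gg q p s) * Gs (ph q p, EE q p s) - s) (a := 0) (b := 1)
    (C := 1 / 32) (fun r hr => by
      rw [uIoc_of_le zero_le_one] at hr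
      have hr' : r ∈ Icc (0 : ℝ) 1 := ⟨hr.1.le, hr.2⟩
      have h2 := hgg r hr'
      have h3 := hEE r hr'
      have h4 : ‖EE q p r‖ ≤ 2 := S.EE_le hp hr'
      have h5 : ‖ph q p * EE q p r‖ ≤ 1 / 160 := by
        rw [norm_mul]
        calc ‖ph q p‖ * ‖EE q p r‖ ≤ (1 / 320) * 2 := by gcongr
          _ = 1 / 160 := by norm_num
      simp only [Gs]
      apply prod_near
      · rw [Complex.norm_real, Real.norm_eq_abs, abs_of_nonneg hr'.1]; exact hr'.2
      · have h6 : ‖-2 * gg q p r‖ ≤ 1 / 160 := by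
          rw [norm_mul, norm_neg, Complex.norm_ofNat]; linarith
        have h7 := Complex.norm_exp_sub_one_le (x := -2 * gg q p r) (by linarith)
        linarith
      · exact h3
      · exact (sc_near (by linarith)).trans h5)
  simpa using h1

lemma Rj_near (S : Sm κ κ' c₀ c β C B q) (hsm : 4 * (|c| + C) * c₀ + 2 * B * c₀ ≤ 1 / 160)
    {x y : ℂ} (hp : (x, y) ∈ DD κ' c₀) :
    ∃ k : ℂ, ‖k - 1‖ ≤ 1 / 4 ∧ Rj q I x y = 1 + I * exp (q x) * ((y - x) * k) := by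
  have h1 := S.plus_eq hp (e := 1) (Or.inl rfl)
  have h2 := S.plus_eq hp (e := -1) (Or.inr rfl)
  rw [one_mul] at h1
  rw [show (-1 : ℂ) * I = -I by ring] at h2
  have h3 := Gs_near S hsm hp
  have h4 := S.near_I hp (j := -I) (by simp)
  have h5 : II q (Gj (-I)) (x, y) ≠ 0 := by
    intro h; rw [h] at h4; norm_num at h4
  refine ⟨2 * II q Gs (x, y) / II q (Gj (-I)) (x, y), ?_, ?_⟩
  · have e1 : 2 * II q Gs (x, y) / II q (Gj (-I)) (x, y) - 1 =
        (2 * (II q Gs (x, y) - 1 / 2) - (II q (Gj (-I)) (x, y) - 1)) /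
          II q (Gj (-I)) (x, y) := by
      field_simp
      ring
    have e2 : 7 / 8 ≤ ‖II q (Gj (-I)) (x, y)‖ := by
      have := norm_sub_norm_le (1 : ℂ) (1 - II q (Gj (-I)) (x, y))
      rw [sub_sub_cancel, norm_one, norm_sub_rev] at this
      linarith
    rw [e1, norm_div, div_le_iff₀ (by linarith)]
    calc ‖2 * (II q Gs (x, y) - 1 / 2) - (II q (Gj (-I)) (x, y) - 1)‖
        ≤ ‖2 * (II q Gs (x, y) - 1 / 2)‖ + ‖II q (Gj (-I)) (x, y) - 1‖ := norm_sub_le _ _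
      _ ≤ 2 * (1 / 32) + 1 / 8 := by
          rw [norm_mul, Complex.norm_ofNat]; gcongr
      _ ≤ 1 / 4 * ‖II q (Gj (-I)) (x, y)‖ := by linarith
  · unfold Rj
    have e3 : Pj q I x y = II q (Gj I) (x, y) := Pj_eq q I x y
    have e4 : Pj q (-I) x y = II q (Gj (-I)) (x, y) := Pj_eq q (-I) x y
    rw [e3, e4, div_eq_iff h5]
    have e5 : ph q (x, y) = (y - x) * exp (q x) := rfl
    have e6 : (1 + I * exp (q x) * ((y - x) * (2 * II q Gs (x, y) / II q (Gj (-I)) (x, y)))) *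
        II q (Gj (-I)) (x, y) = II q (Gj (-I)) (x, y) +
        2 * I * exp (q x) * (y - x) * II q Gs (x, y) := by
      field_simp
    rw [e6, h1, h2, e5]
    ring

end Est

/-- **LAW-R** -/
theorem lawR : LawR := by
  intro κ κ' c β C q hκ' hκ hq hc
  obtain ⟨c₀, B, S⟩ := exists_Sm (κ' := (κ + κ') / 2) (by linarith) (by linarith) hq hc
  have hc0 := S.c0_pos
  have hc0' := S.c0_lt
  have hκ1 := hq.κ_lt
  have S' : Sm κ ((κ + κ') / 2) (c₀ / 10) c β C B q := by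
    refine ⟨S.h, S.κ'_pos, S.κ'_lt, by linarith, by linarith, ?_, S.B_nonneg, S.hB, ?_⟩
    · have := S.geo
      nlinarith
    · have := S.small
      have e1 : 4 * (|c| + C) * (c₀ / 10) + 2 * B * (c₀ / 10) =
        (4 * (|c| + C) * c₀ + 2 * B * c₀) / 10 := by ring
      rw [e1]; linarith
  have hsm : 4 * (|c| + C) * (c₀ / 10) + 2 * B * (c₀ / 10) ≤ 1 / 160 := by
    have := S.small
    have e1 : 4 * (|c| + C) * (c₀ / 10) + 2 * B * (c₀ / 10) =
      (4 * (|c| + C) * c₀ + 2 * B * c₀) / 10 := by ring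
    rw [e1]; linarith
  set c₁ : ℝ := min (c₀ / 40) ((κ - κ') / 8) with hc₁
  have hc₁0 : 0 < c₁ := lt_min (by linarith) (by linarith)
  have hc₁a : c₁ ≤ c₀ / 40 := min_le_left _ _
  have hc₁b : c₁ ≤ (κ - κ') / 8 := min_le_right _ _
  -- chords of length `< (4/3) c₁ ‖x‖`
  have hdd : ∀ x ∈ Sg κ', ‖x‖ < 1 / 2 → ∀ y : ℂ, ‖y - x‖ < 4 / 3 * c₁ * ‖x‖ →
      (x, y) ∈ DD ((κ + κ') / 2) (c₀ / 10) := by
    intro x hx hx2 y hy
    have hx0 : 0 < ‖x‖ := norm_pos_iff.2 hx.1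
    have hgeo : κ' + 4 / 3 * c₁ ≤ (κ + κ') / 2 * (1 - 4 / 3 * c₁) := by nlinarith
    have h1 := seg_mem (κ := (κ + κ') / 2) (κ' := κ') (c₀ := 4 / 3 * c₁) hκ' (by linarith)
      (by linarith) (by linarith) hgeo hx.1 hx.2.2 hy (s := 1) ⟨zero_le_one, le_rfl⟩
    have h2 := norm_seg hy (s := 1) ⟨zero_le_one, le_rfl⟩
    rw [show x + ((1 : ℝ) : ℂ) * (y - x) = y by push_cast; ring] at h1 h2
    refine ⟨⟨hx.1, hx.2.1, ?_⟩, ⟨h1.1, ?_, h1.2⟩, ?_, ?_⟩
    · have := hx.2.2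
      simp only at this ⊢
      nlinarith
    · simp only
      nlinarith [h2.2]
    · simp only
      refine hy.trans_le ?_
      gcongr
      linarith
    · simp only
      refine hy.trans_le ?_
      have hgeo2 : 4 / 3 * c₁ ≤ c₀ / 10 * (1 - 4 / 3 * c₁) := by
        have : 0 ≤ c₀ * (1 / 2 - 4 / 3 * c₁) := mul_nonneg hc0.le (by linarith)
        linarith
      calc 4 / 3 * c₁ * ‖x‖ ≤ c₀ / 10 * (1 - 4 / 3 * c₁) * ‖x‖ := by gcongr
        _ = c₀ / 10 * ((1 - 4 / 3 * c₁) * ‖x‖) := by ring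
        _ ≤ c₀ / 10 * ‖y‖ := by
            gcongr
            exact h2.1
  refine ⟨c₁, hc₁0, fun x w x₁ x₂ hx hx2 hw hwx hx1 hx2' hel => ?_⟩
  have hw0 : 0 < ‖w‖ := norm_pos_iff.2 hw
  have hx0 : 0 < ‖x‖ := norm_pos_iff.2 hx.1
  have hn1 : ‖x₁ - x‖ ≤ 4 / 3 * ‖w‖ := by
    have : x₁ - x = (x₁ - (x - w)) - w := by ring
    rw [this]
    refine (norm_sub_le _ _).trans ?_
    linarith
  have hn2 : ‖x₂ - x‖ ≤ 4 / 3 * ‖w‖ := by
    have : x₂ - x = (x₂ - (x + w)) + w := by ring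
    rw [this]
    refine (norm_add_le _ _).trans ?_
    linarith
  have hlt : 4 / 3 * ‖w‖ < 4 / 3 * c₁ * ‖x‖ := by linarith
  have hd1 := hdd x hx hx2 x₁ (hn1.trans_lt hlt)
  have hd2 := hdd x hx hx2 x₂ (hn2.trans_lt hlt)
  have hne1 : x₁ ≠ x := by
    intro h
    rw [h, show x - (x - w) = w by ring] at hx1
    linarith
  have hne2 : x₂ ≠ x := by
    intro h
    rw [h, show x - (x + w) = -w by ring, norm_neg] at hx2'
    linarith
  have hR : 0 < 4 / 3 * c₁ * ‖x‖ := by positivity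
  have hqd : DifferentiableOn ℂ q (ball x (4 / 3 * c₁ * ‖x‖)) := by
    refine hq.diff.mono fun y hy => ?_
    rw [mem_ball, dist_eq_norm] at hy
    exact S'.mem1 (hdd x hx hx2 y hy).2.1
  have hP : ∀ u v : ℂ, (u, v) ∈ DD ((κ + κ') / 2) (c₀ / 10) → ∀ j : ℂ, j = I ∨ j = -I →
      Pj q j u v ∈ slitPlane := by
    intro u v huv j hj
    have hj1 : ‖j‖ ≤ 1 := by rcases hj with rfl | rfl <;> simp
    have := (sqrt_near (S'.near_I huv hj1)).2.2
    rwa [show II q (Gj j) (u, v) = Pj q j u v from (Pj_eq q j u v).symm] at this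
  rcases law_loc hR hqd (by rw [mem_ball, dist_eq_norm]; exact hn1.trans_lt hlt)
    (by rw [mem_ball, dist_eq_norm]; exact hn2.trans_lt hlt) hne1 hne2
    (hP x₁ x (DD_symm hd1)) (hP x x₂ hd2) hel with h | h
  · exfalso
    obtain ⟨k₁, hk₁, e₁⟩ := Rj_near S' hsm hd1
    obtain ⟨k₂, hk₂, e₂⟩ := Rj_near S' hsm hd2
    rw [e₁, e₂] at h
    have h3 : (x₁ - x) * k₁ = (x₂ - x) * k₂ := by
      have hne : I * exp (q x) ≠ 0 := mul_ne_zero I_ne_zero (exp_ne_zero _)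
      apply mul_left_cancel₀ hne
      linear_combination h
    have h4 : 2 * w = (x₁ - (x - w)) - (x₂ - (x + w)) + (x₁ - x) * (k₁ - 1) -
        (x₂ - x) * (k₂ - 1) := by linear_combination (-1 : ℂ) * h3
    have h5 : ‖2 * w‖ ≤ ‖w‖ / 3 + ‖w‖ / 3 + 4 / 3 * ‖w‖ * (1 / 4) + 4 / 3 * ‖w‖ * (1 / 4) := by
      rw [h4]
      refine (norm_sub_le _ _).trans (add_le_add ((norm_add_le _ _).trans (add_le_add
        ((norm_sub_le _ _).trans (add_le_add hx1 hx2')) ?_)) ?_)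
      · rw [norm_mul]; gcongr
      · rw [norm_mul]; gcongr
    rw [norm_mul, Complex.norm_ofNat] at h5
    linarith
  · exact h

end Crest.Agent.R102.Law519
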