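import Mathlib

/-! # Poisson kernel of the upper half plane: the facts needed for Lemma G -/

open Set Filter Metric Complex Topology MeasureTheory

namespace Crest.Agent.R102.G864

/-- Poisson kernel of the upper half plane -/
noncomputable def PK (z : ℂ) (t : ℝ) : ℝ := (1 / Real.pi) * (z.im / ((t - z.re) ^ 2 + z.im ^ 2))

theorem PK_nonneg {z : ℂ} (hz : 0 < z.im) (t : ℝ) : 0 ≤ PK z t := by
  unfold PK; positivity

theorem PK_eq {z : ℂ} (hz : 0 < z.im) (t : ℝ) :
    PK z t = (1 / (Real.pi * z.im)) * (1 + (z.im⁻¹ * (t - z.re)) ^ 2)⁻¹ := by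
  unfold PK
  have h1 : (0:ℝ) < (t - z.re) ^ 2 + z.im ^ 2 := by positivity
  have h2 : (0:ℝ) < 1 + (z.im⁻¹ * (t - z.re)) ^ 2 := by positivity
  field_simp
  ring

theorem PK_integrable {z : ℂ} (hz : 0 < z.im) : Integrable (PK z) := by
  have h1 : Integrable (fun x : ℝ => (1 + x ^ 2)⁻¹) := integrable_inv_one_add_sq
  have h2 := (h1.comp_mul_left' (inv_ne_zero hz.ne')).comp_sub_right z.re
  have h3 := h2.const_mul (1 / (Real.pi * z.im))
  refine h3.congr (Eventually.of_forall fun t => ?_)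
  simp only
  rw [PK_eq hz]

theorem PK_integral {z : ℂ} (hz : 0 < z.im) : ∫ t, PK z t = 1 := by
  have h1 : ∫ t, PK z t = ∫ t, (1 / (Real.pi * z.im)) * (1 + (z.im⁻¹ * (t - z.re)) ^ 2)⁻¹ := by
    congr 1; ext t; exact PK_eq hz t
  rw [h1, integral_const_mul]
  rw [integral_sub_right_eq_self (fun t => (1 + (z.im⁻¹ * t) ^ 2)⁻¹) z.re]
  rw [Measure.integral_comp_mul_left (fun t => (1 + t ^ 2)⁻¹) z.im⁻¹, integral_univ_inv_one_add_sq]
  rw [inv_inv, abs_of_pos hz, smul_eq_mul]
  have := Real.pi_pos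
  field_simp

theorem PK_le {z : ℂ} (hz : 0 < z.im) (t : ℝ) : PK z t ≤ 1 / (Real.pi * z.im) := by
  rw [PK_eq hz]
  have h2 : (1 + (z.im⁻¹ * (t - z.re)) ^ 2)⁻¹ ≤ 1 := by
    apply inv_le_one_of_one_le₀
    nlinarith [sq_nonneg (z.im⁻¹ * (t - z.re))]
  have h3 : 0 ≤ 1 / (Real.pi * z.im) := by positivity
  nlinarith

/-- the mass of a set of finite measure -/
theorem PK_mass_le {z : ℂ} (hz : 0 < z.im) {A : Set ℝ} {m : ℝ} (hm : volume A ≤ ENNReal.ofReal m)
    (hm0 : 0 ≤ m) : ∫ t in A, PK z t ≤ m / (Real.pi * z.im) := by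
  have hfin : volume A < ⊤ := lt_of_le_of_lt hm ENNReal.ofReal_lt_top
  have h1 : ∫ t in A, PK z t ≤ ∫ _ in A, (1 / (Real.pi * z.im)) := by
    apply setIntegral_mono (PK_integrable hz).integrableOn
    · exact integrableOn_const hfin.ne enorm_ne_top
    · intro t; exact PK_le hz t
  refine h1.trans ?_
  rw [setIntegral_const, smul_eq_mul]
  have h2 : volume.real A ≤ m := by
    rw [Measure.real]
    exact ENNReal.toReal_le_of_le_ofReal hm0 hm
  have h3 : 0 ≤ 1 / (Real.pi * z.im) := by positivity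
  calc volume.real A * (1 / (Real.pi * z.im)) ≤ m * (1 / (Real.pi * z.im)) := by gcongr
    _ = m / (Real.pi * z.im) := by ring

theorem pi_lt_3_2 : Real.pi < 3.2 := by linarith [Real.pi_lt_d2]

/-- an interval of length `y/2` at distance `≤ y/2` carries mass `≥ 1/8` -/
theorem PK_mass_ge {z : ℂ} (hz : 0 < z.im) {A : Set ℝ} {c : ℝ}
    (hA : Ioo c (c + z.im / 2) ⊆ A)
    (h1 : ∀ t ∈ Ioo c (c + z.im / 2), |t - z.re| ≤ z.im / 2) :
    1 / 8 ≤ ∫ t in A, PK z t := by
  have h2 : ∫ t in Ioo c (c + z.im / 2), PK z t ≤ ∫ t in A, PK z t :=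
    setIntegral_mono_set (PK_integrable hz).integrableOn
      (Eventually.of_forall fun t => PK_nonneg hz t) (LE.le.eventuallyLE hA)
  refine le_trans ?_ h2
  have h3 : ∫ _ in Ioo c (c + z.im / 2), (4 / 5 / (Real.pi * z.im)) ≤
      ∫ t in Ioo c (c + z.im / 2), PK z t := by
    apply setIntegral_mono_on _ (PK_integrable hz).integrableOn measurableSet_Ioo
    · intro t ht
      have h4 := h1 t ht
      rw [PK]
      have h5 : (t - z.re) ^ 2 ≤ (z.im / 2) ^ 2 := by
        rw [← sq_abs]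
        exact pow_le_pow_left₀ (abs_nonneg _) h4 2
      have h6 : (0:ℝ) < (t - z.re) ^ 2 + z.im ^ 2 := by positivity
      have hp := Real.pi_pos
      have h7 : 4 / 5 / z.im ≤ z.im / ((t - z.re) ^ 2 + z.im ^ 2) := by
        rw [div_le_div_iff₀ hz h6]
        nlinarith
      calc 4 / 5 / (Real.pi * z.im) = (1 / Real.pi) * (4 / 5 / z.im) := by
            field_simp
        _ ≤ (1 / Real.pi) * (z.im / ((t - z.re) ^ 2 + z.im ^ 2)) := by
            gcongr
    · exact integrableOn_const (by simp) enorm_ne_top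
  refine le_trans ?_ h3
  rw [setIntegral_const, smul_eq_mul, Measure.real, Real.volume_Ioo,
    ENNReal.toReal_ofReal (by linarith)]
  have h8 : c + z.im / 2 - c = z.im / 2 := by ring
  rw [h8]
  have hp := Real.pi_pos
  have : z.im / 2 * (4 / 5 / (Real.pi * z.im)) = 2 / (5 * Real.pi) := by
    field_simp
    ring
  rw [this, div_le_div_iff₀ (by norm_num) (by positivity)]
  have := pi_lt_3_2
  linarith

/-- mass of an interval via the complex logarithm -/
theorem PK_log {z : ℂ} (hz : 0 < z.im) {a b : ℝ} (hab : a ≤ b) :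
    ∫ t in Ioo a b, PK z t = (1 / Real.pi) * (Complex.log (z - b) - Complex.log (z - a)).im := by
  have hsl : ∀ t : ℝ, (z - t) ∈ Complex.slitPlane := by
    intro t
    rw [Complex.mem_slitPlane_iff]
    right
    simp [hz.ne']
  have hd : ∀ t ∈ uIcc a b, HasDerivAt (fun t : ℝ => (Complex.log (z - t)).im)
      (z.im / ((t - z.re) ^ 2 + z.im ^ 2)) t := by
    intro t _
    have h1 : HasDerivAt (fun t : ℝ => z - (t : ℂ)) (-1) t := by
      simpa using (Complex.ofRealCLM.hasDerivAt (x := t)).const_sub z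
    have h2 := h1.clog_real (hsl t)
    have h3 : HasDerivAt (fun t : ℝ => (Complex.log (z - t)).im)
        ((-1 / (z - t) : ℂ).im) t := by
      exact (Complex.imCLM.hasFDerivAt (x := Complex.log (z - t))).comp_hasDerivAt t h2
    convert h3 using 1
    rw [Complex.div_im]
    simp only [Complex.neg_im, Complex.one_im, neg_zero, Complex.sub_re, Complex.ofReal_re,
      Complex.neg_re, Complex.one_re, Complex.sub_im, Complex.ofReal_im, sub_zero, zero_mul,
      zero_div, Complex.normSq_apply]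
    have h6 : (0:ℝ) < (t - z.re) ^ 2 + z.im ^ 2 := by positivity
    have h7 : (0:ℝ) < (z.re - t) * (z.re - t) + z.im * z.im := by nlinarith
    field_simp
    ring
  have hi : IntervalIntegrable (fun t : ℝ => z.im / ((t - z.re) ^ 2 + z.im ^ 2)) volume a b := by
    apply Continuous.intervalIntegrable
    have : ∀ t : ℝ, (t - z.re) ^ 2 + z.im ^ 2 ≠ 0 := fun t => by positivity
    fun_prop (disch := exact this _)
  have h1 := intervalIntegral.integral_eq_sub_of_hasDerivAt hd hi
  rw [← integral_Ioc_eq_integral_Ioo, ← intervalIntegral.integral_of_le hab]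
  unfold PK
  rw [intervalIntegral.integral_const_mul, h1, Complex.sub_im]

end Crest.Agent.R102.G864
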