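import Crest.Agent.R102.SchL_864

/-! # Dyadic boxes and Harnack's inequality in a cusp -/

open Set Filter Metric Complex Topology MeasureTheory

namespace Crest.Agent.R102.G864

/-- index of the dyadic interval of length `2^-n` containing `x` -/
noncomputable def bx (n : ℕ) (x : ℝ) : ℤ := ⌊x * 2 ^ n⌋

/-- closed upper half of the dyadic Carleson box -/
def TB (n : ℕ) (k : ℤ) : Set ℂ :=
  {z | (k : ℝ) ≤ z.re * 2 ^ n ∧ z.re * 2 ^ n ≤ k + 1 ∧ 1 / 2 ≤ z.im * 2 ^ n ∧ z.im * 2 ^ n ≤ 1}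

/-- base point of the box -/
noncomputable def zc (n : ℕ) (k : ℤ) : ℂ := ⟨(k + 1 / 2) / 2 ^ n, 1 / 2 ^ n⟩

theorem bx_eq_iff {n : ℕ} {x : ℝ} {k : ℤ} :
    bx n x = k ↔ (k : ℝ) ≤ x * 2 ^ n ∧ x * 2 ^ n < k + 1 := Int.floor_eq_iff

theorem bx_le (n : ℕ) (x : ℝ) : (bx n x : ℝ) ≤ x * 2 ^ n := Int.floor_le _

theorem lt_bx (n : ℕ) (x : ℝ) : x * 2 ^ n < bx n x + 1 := Int.lt_floor_add_one _

theorem bx_div (j d : ℕ) (x : ℝ) : bx j x = bx (j + d) x / 2 ^ d := by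
  rw [bx_eq_iff]
  set m := bx (j + d) x with hm
  have h1 := bx_le (j + d) x
  have h2 := lt_bx (j + d) x
  rw [← hm] at h1 h2
  have hp : (0 : ℝ) < 2 ^ d := by positivity
  have e : x * 2 ^ (j + d) = (x * 2 ^ j) * 2 ^ d := by rw [pow_add]; ring
  rw [e] at h1 h2
  have h3 : (m / 2 ^ d) * 2 ^ d ≤ m := Int.ediv_mul_le _ (by positivity)
  have h4 : m < (m / 2 ^ d + 1) * 2 ^ d := Int.lt_ediv_add_one_mul_self _ (by positivity)
  have h5 : m + 1 ≤ (m / 2 ^ d + 1) * 2 ^ d := h4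
  have h3' : ((m / 2 ^ d : ℤ) : ℝ) * 2 ^ d ≤ m := by exact_mod_cast h3
  have h5' : (m : ℝ) + 1 ≤ (((m / 2 ^ d : ℤ) : ℝ) + 1) * 2 ^ d := by exact_mod_cast h5
  constructor
  · nlinarith
  · nlinarith

theorem bx_anc {n j : ℕ} {x y : ℝ} (h : bx n x = bx n y) (hj : j ≤ n) : bx j x = bx j y := by
  obtain ⟨d, rfl⟩ := Nat.exists_eq_add_of_le hj
  rw [bx_div j d x, bx_div j d y, h]

theorem bx_left (n : ℕ) (k : ℤ) : bx n ((k : ℝ) / 2 ^ n) = k := by
  rw [bx_eq_iff]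
  have hp : (0 : ℝ) < 2 ^ n := by positivity
  rw [div_mul_cancel₀ _ hp.ne']
  exact ⟨le_rfl, by linarith⟩

theorem zc_mem (n : ℕ) (k : ℤ) : zc n k ∈ TB n k := by
  have hp : (0 : ℝ) < 2 ^ n := by positivity
  unfold zc TB
  simp only [mem_ofPred_eq]
  rw [div_mul_cancel₀ _ hp.ne', div_mul_cancel₀ _ hp.ne']
  refine ⟨by linarith, by linarith, by norm_num, by norm_num⟩

theorem TB_convex (n : ℕ) (k : ℤ) : Convex ℝ (TB n k) := by
  intro z hz w hw a b ha hb hab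
  obtain ⟨z1, z2, z3, z4⟩ := hz
  obtain ⟨w1, w2, w3, w4⟩ := hw
  have e1 : (a • z + b • w).re = a * z.re + b * w.re := by simp
  have e2 : (a • z + b • w).im = a * z.im + b * w.im := by simp
  have hp : (0 : ℝ) < 2 ^ n := by positivity
  have hb' : b = 1 - a := by linarith
  subst hb'
  unfold TB
  simp only [mem_ofPred_eq]
  rw [e1, e2]
  refine ⟨?_, ?_, ?_, ?_⟩ <;> nlinarith

theorem TB_dist {n : ℕ} {k : ℤ} {z w : ℂ} (hz : z ∈ TB n k) (hw : w ∈ TB n k) :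
    ‖w - z‖ ≤ (3 / 2) / 2 ^ n := by
  obtain ⟨z1, z2, z3, z4⟩ := hz
  obtain ⟨w1, w2, w3, w4⟩ := hw
  have hp : (0 : ℝ) < 2 ^ n := by positivity
  have h1 := Complex.norm_le_abs_re_add_abs_im (w - z)
  rw [Complex.sub_re, Complex.sub_im] at h1
  have h2 : |w.re - z.re| ≤ 1 / 2 ^ n := by
    rw [abs_le]
    constructor
    · rw [neg_le, neg_sub, le_div_iff₀ hp]; nlinarith
    · rw [le_div_iff₀ hp]; nlinarith
  have h3 : |w.im - z.im| ≤ (1 / 2) / 2 ^ n := by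
    rw [abs_le]
    constructor
    · rw [neg_le, neg_sub, le_div_iff₀ hp]; nlinarith
    · rw [le_div_iff₀ hp]; nlinarith
  calc ‖w - z‖ ≤ |w.re - z.re| + |w.im - z.im| := h1
    _ ≤ 1 / 2 ^ n + (1 / 2) / 2 ^ n := add_le_add h2 h3
    _ = (3 / 2) / 2 ^ n := by ring

/-- `1 + |log ‖F z‖|` -/
noncomputable def HH (F : ℂ → ℂ) (z : ℂ) : ℝ := 1 + |Real.log ‖F z‖|

theorem one_le_HH (F : ℂ → ℂ) (z : ℂ) : 1 ≤ HH F z := by
  unfold HH; linarith [abs_nonneg (Real.log ‖F z‖)]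

/-- the hypothesis on `F` -/
structure Om (Ω : Set ℂ) (F : ℂ → ℂ) : Prop where
  open_ : IsOpen Ω
  diff : DifferentiableOn ℂ F Ω
  ne0 : ∀ z ∈ Ω, F z ≠ 0
  ne1 : ∀ z ∈ Ω, F z ≠ 1

theorem Om.inv {Ω : Set ℂ} {F : ℂ → ℂ} (h : Om Ω F) : Om Ω (fun z => (F z)⁻¹) where
  open_ := h.open_
  diff := h.diff.inv h.ne0
  ne0 := fun z hz => inv_ne_zero (h.ne0 z hz)
  ne1 := fun z hz h2 => h.ne1 z hz (inv_eq_one.mp h2)

theorem Om.cont {Ω : Set ℂ} {F : ℂ → ℂ} (h : Om Ω F) :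
    ContinuousOn (fun z => Real.log ‖F z‖) Ω :=
  (h.diff.continuousOn.norm).log (fun z hz => norm_ne_zero_iff.mpr (h.ne0 z hz))

noncomputable def K1 : ℝ := 1 + KS (1 / 2)

theorem one_le_K1 : 1 ≤ K1 := by unfold K1; linarith [KS_pos (1 / 2)]

theorem HH_step {Ω : Set ℂ} {F : ℂ → ℂ} (h : Om Ω F) {w w' : ℂ} {r : ℝ} (hr : 0 < r)
    (hb : ball w r ⊆ Ω) (hw : ‖w' - w‖ ≤ r / 2) : HH F w' ≤ K1 * HH F w := by
  have h1 := schottky_log hr (h.diff.mono hb) (fun z hz => h.ne0 z (hb hz))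
    (fun z hz => h.ne1 z (hb hz)) (θ := 1 / 2) (by norm_num) (by norm_num) w'
    (by rw [mem_closedBall, dist_eq_norm]; linarith)
  have h2 := one_le_HH F w
  unfold K1
  unfold HH at h2 ⊢
  nlinarith

theorem HH_chain {Ω : Set ℂ} {F : ℂ → ℂ} (h : Om Ω F) {r : ℝ} (hr : 0 < r) (N : ℕ) :
    ∀ w w' : ℂ, (∀ s ∈ segment ℝ w w', ball s r ⊆ Ω) → ‖w' - w‖ ≤ N * (r / 2) →
    HH F w' ≤ K1 ^ N * HH F w := by
  induction N with
  | zero =>
    intro w w' _ h2
    have : w' = w := by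
      rw [Nat.cast_zero, zero_mul] at h2
      exact sub_eq_zero.mp (norm_le_zero_iff.mp h2)
    simp [this]
  | succ N ih =>
    intro w w' hs h2
    have hN : (0 : ℝ) < N + 1 := by positivity
    set a : ℝ := N / (N + 1) with ha
    have ha0 : 0 ≤ a := by positivity
    have ha1 : a ≤ 1 := by rw [ha, div_le_one hN]; linarith
    set w1 : ℂ := w + (a : ℂ) * (w' - w) with hw1
    have e1 : w1 - w = (a : ℂ) * (w' - w) := by rw [hw1]; ring
    have e2 : w' - w1 = ((1 - a : ℝ) : ℂ) * (w' - w) := by rw [hw1]; push_cast; ring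
    have hmem : w1 ∈ segment ℝ w w' := by
      refine ⟨1 - a, a, by linarith, ha0, by ring, ?_⟩
      rw [hw1]
      simp only [Complex.real_smul]
      push_cast; ring
    have hsub : segment ℝ w w1 ⊆ segment ℝ w w' :=
      (convex_segment w w').segment_subset (left_mem_segment ℝ w w') hmem
    have h3 := ih w w1 (fun s hs' => hs s (hsub hs')) (by
      rw [e1, norm_mul, Complex.norm_real, Real.norm_of_nonneg ha0]
      push_cast at h2
      calc a * ‖w' - w‖ ≤ a * ((N + 1) * (r / 2)) := by gcongr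
        _ = N * (r / 2) := by rw [ha]; field_simp)
    have h4 : HH F w' ≤ K1 * HH F w1 := by
      refine HH_step h hr (hs w1 hmem) ?_
      rw [e2, norm_mul, Complex.norm_real, Real.norm_of_nonneg (by linarith)]
      push_cast at h2
      calc (1 - a) * ‖w' - w‖ ≤ (1 - a) * ((N + 1) * (r / 2)) := by
            apply mul_le_mul_of_nonneg_left h2; linarith
        _ = r / 2 := by rw [ha]; field_simp; ring
    calc HH F w' ≤ K1 * HH F w1 := h4
      _ ≤ K1 * (K1 ^ N * HH F w) := by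
          apply mul_le_mul_of_nonneg_left h3; linarith [one_le_K1]
      _ = K1 ^ (N + 1) * HH F w := by ring

/-- the box is available: `F` lives on a neighbourhood of relative size `1/32` -/
def Avl (Ω : Set ℂ) (n : ℕ) (k : ℤ) : Prop := ∀ w ∈ TB n k, ball w (1 / 32 / 2 ^ n) ⊆ Ω

theorem Avl.sub {Ω : Set ℂ} {n : ℕ} {k : ℤ} (h : Avl Ω n k) : TB n k ⊆ Ω :=
  fun w hw => h w hw (mem_ball_self (by positivity))

noncomputable def K2 : ℝ := K1 ^ 96

theorem one_le_K2 : 1 ≤ K2 := one_le_pow₀ one_le_K1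

theorem HH_box {Ω : Set ℂ} {F : ℂ → ℂ} (h : Om Ω F) {n : ℕ} {k : ℤ} (ha : Avl Ω n k)
    {w w' : ℂ} (hw : w ∈ TB n k) (hw' : w' ∈ TB n k) : HH F w' ≤ K2 * HH F w := by
  refine HH_chain h (r := 1 / 32 / 2 ^ n) (by positivity) 96 w w'
    (fun s hs => ha s ((TB_convex n k).segment_subset hw hw' hs)) ?_
  refine (TB_dist hw hw').trans (le_of_eq ?_)
  push_cast; ring

/-- `log ‖F‖` at the centre -/
noncomputable def UU (F : ℂ → ℂ) (n : ℕ) (k : ℤ) : ℝ := Real.log ‖F (zc n k)‖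

/-- the Harnack constant -/
noncomputable def KK : ℝ := 2 * K2

theorem one_le_KK : 1 ≤ KK := by unfold KK; linarith [one_le_K2]

/-- the box is in the cusp at infinity -/
def Up (Ω : Set ℂ) (F : ℂ → ℂ) (n : ℕ) (k : ℤ) : Prop := Avl Ω n k ∧ KK ≤ UU F n k

theorem Up.pos {Ω : Set ℂ} {F : ℂ → ℂ} (h : Om Ω F) {n : ℕ} {k : ℤ} (hu : Up Ω F n k)
    {w : ℂ} (hw : w ∈ TB n k) : 1 ≤ Real.log ‖F w‖ := by
  have hK := one_le_K2
  have habs : ∀ z ∈ TB n k, 1 ≤ |Real.log ‖F z‖| := by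
    intro z hz
    have h1 := HH_box h hu.1 hz (zc_mem n k)
    have h2 : 1 + KK ≤ HH F (zc n k) := by
      unfold HH
      have := le_abs_self (Real.log ‖F (zc n k)‖)
      have h3 := hu.2
      unfold UU at h3
      linarith
    unfold KK at h2
    have h3 : K2 * 2 ≤ K2 * HH F z := by nlinarith
    have h4 : 2 ≤ HH F z := le_of_mul_le_mul_left h3 (by linarith)
    unfold HH at h4
    linarith
  have hpos : 0 < Real.log ‖F w‖ := by
    by_contra hneg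
    push Not at hneg
    have hcon : ContinuousOn (fun z => Real.log ‖F z‖) (TB n k) := h.cont.mono hu.1.sub
    have hpre : IsPreconnected (TB n k) := (TB_convex n k).isPreconnected
    have hz := hpre.intermediate_value hw (zc_mem n k) hcon
    have hmem : (0 : ℝ) ∈ Icc (Real.log ‖F w‖) (Real.log ‖F (zc n k)‖) := by
      refine ⟨hneg, ?_⟩
      have h3 := hu.2
      unfold UU at h3
      linarith [one_le_KK]
    obtain ⟨z, hz1, hz2⟩ := hz hmem
    have h5 := habs z hz1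
    simp only at hz2
    rw [hz2] at h5
    norm_num at h5
  have := habs w hw
  rwa [abs_of_pos hpos] at this

theorem Up.le {Ω : Set ℂ} {F : ℂ → ℂ} (h : Om Ω F) {n : ℕ} {k : ℤ} (hu : Up Ω F n k)
    {w w' : ℂ} (hw : w ∈ TB n k) (hw' : w' ∈ TB n k) :
    Real.log ‖F w'‖ ≤ KK * Real.log ‖F w‖ := by
  have h1 := HH_box h hu.1 hw hw'
  have h2 := hu.pos h hw
  have h3 := hu.pos h hw'
  have hK := one_le_K2
  unfold HH at h1
  rw [abs_of_pos (by linarith), abs_of_pos (by linarith)] at h1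
  unfold KK
  nlinarith

theorem Up.meet {Ω : Set ℂ} {F : ℂ → ℂ} (h : Om Ω F) {n n' : ℕ} {k k' : ℤ} (hu : Up Ω F n k)
    (hu' : Up Ω F n' k') {w : ℂ} (hw : w ∈ TB n k) (hw' : w ∈ TB n' k') :
    UU F n k ≤ KK ^ 2 * UU F n' k' := by
  have h1 := hu.le h hw (zc_mem n k)
  have h2 := hu'.le h (zc_mem n' k') hw'
  unfold UU
  have hK := one_le_KK
  calc Real.log ‖F (zc n k)‖ ≤ KK * Real.log ‖F w‖ := h1
    _ ≤ KK * (KK * Real.log ‖F (zc n' k')‖) := by
        apply mul_le_mul_of_nonneg_left h2; linarith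
    _ = KK ^ 2 * Real.log ‖F (zc n' k')‖ := by ring

theorem TB_succ (n : ℕ) (x : ℝ) :
    (⟨x, 1 / 2 ^ (n + 1)⟩ : ℂ) ∈ TB n (bx n x) ∩ TB (n + 1) (bx (n + 1) x) := by
  have hp : (0 : ℝ) < 2 ^ n := by positivity
  have a1 := bx_le n x
  have a2 := lt_bx n x
  have b1 := bx_le (n + 1) x
  have b2 := lt_bx (n + 1) x
  refine ⟨⟨a1, a2.le, ?_, ?_⟩, ⟨b1, b2.le, ?_, ?_⟩⟩
  · simp only; rw [pow_succ]; field_simp; rfl
  · simp only; rw [pow_succ]; field_simp; norm_num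
  · simp only; field_simp; norm_num
  · simp only; field_simp; rfl

/-- Harnack along a vertical path -/
theorem Up.path {Ω : Set ℂ} {F : ℂ → ℂ} (h : Om Ω F) {j : ℕ} {x : ℝ} (d : ℕ)
    (hu : ∀ i, j ≤ i → i ≤ j + d → Up Ω F i (bx i x)) :
    UU F j (bx j x) ≤ KK ^ (2 * d) * UU F (j + d) (bx (j + d) x) ∧
    UU F (j + d) (bx (j + d) x) ≤ KK ^ (2 * d) * UU F j (bx j x) := by
  have hK := one_le_KK
  induction d with
  | zero => simp
  | succ d ih =>
    obtain ⟨i1, i2⟩ := ih (fun i hi hi' => hu i hi (by omega))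
    have u1 := hu (j + d) (by omega) (by omega)
    have u2 := hu (j + (d + 1)) (by omega) (by omega)
    obtain ⟨m1, m2⟩ := TB_succ (j + d) x
    have e1 := u1.meet h u2 m1 m2
    have e2 := u2.meet h u1 m2 m1
    have hp : (0 : ℝ) ≤ KK ^ (2 * d) := by positivity
    constructor
    · calc UU F j (bx j x) ≤ KK ^ (2 * d) * UU F (j + d) (bx (j + d) x) := i1
        _ ≤ KK ^ (2 * d) * (KK ^ 2 * UU F (j + (d + 1)) (bx (j + (d + 1)) x)) := by
            apply mul_le_mul_of_nonneg_left e1 hp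
        _ = _ := by ring
    · calc UU F (j + (d + 1)) (bx (j + (d + 1)) x) ≤ KK ^ 2 * UU F (j + d) (bx (j + d) x) := e2
        _ ≤ KK ^ 2 * (KK ^ (2 * d) * UU F j (bx j x)) := by
            apply mul_le_mul_of_nonneg_left i2; positivity
        _ = _ := by ring

end Crest.Agent.R102.G864
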