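import Crest.Agent.R102.LemG1_864
import Crest.Agent.R102.LemG2_864

/-! # Lemma G, one step: if most of a dyadic interval reaches level `lam` inside the cusp,
then the value at the top is at least `kappa * lam` -/

open Set Filter Metric Complex Topology MeasureTheory

namespace Crest.Agent.R102.G864

theorem PK_arctan {z : ℂ} (hz : 0 < z.im) {a b : ℝ} (hab : a ≤ b) :
    ∫ t in Ioo a b, PK z t =
      (1 / Real.pi) * (Real.arctan ((b - z.re) / z.im) - Real.arctan ((a - z.re) / z.im)) := by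
  have hd : ∀ t ∈ uIcc a b, HasDerivAt (fun t : ℝ => Real.arctan ((t - z.re) / z.im))
      (z.im / ((t - z.re) ^ 2 + z.im ^ 2)) t := by
    intro t _
    have h1 : HasDerivAt (fun t : ℝ => (t - z.re) / z.im) (1 / z.im) t :=
      ((hasDerivAt_id t).sub_const z.re).div_const z.im
    convert h1.arctan using 1
    have h6 : (0:ℝ) < (t - z.re) ^ 2 + z.im ^ 2 := by positivity
    have h7 : (0:ℝ) < 1 + ((t - z.re) / z.im) ^ 2 := by positivity
    field_simp
    ring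
  have hi : IntervalIntegrable (fun t : ℝ => z.im / ((t - z.re) ^ 2 + z.im ^ 2)) volume a b := by
    apply Continuous.intervalIntegrable
    have : ∀ t : ℝ, (t - z.re) ^ 2 + z.im ^ 2 ≠ 0 := fun t => by positivity
    fun_prop (disch := exact this _)
  have h1 := intervalIntegral.integral_eq_sub_of_hasDerivAt hd hi
  rw [← integral_Ioc_eq_integral_Ioo, ← intervalIntegral.integral_of_le hab]
  unfold PK
  rw [intervalIntegral.integral_const_mul, h1]

/-- the barrier -/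
theorem barrier {ι : Type*} (S : Finset ι) (a b : ι → ℝ) (hab : ∀ p ∈ S, a p ≤ b p)
    (hdis : (S : Set ι).Pairwise (Function.onFun Disjoint fun p => Ioo (a p) (b p))) (c : ℝ) :
    ∃ Φ : ℂ → ℂ, (∀ z : ℂ, 0 < z.im → DifferentiableAt ℂ Φ z) ∧
      ∀ z : ℂ, 0 < z.im →
        ‖Φ z‖ = Real.exp (c * (1 - 8 * ∫ t in (⋃ p ∈ S, Ioo (a p) (b p))ᶜ, PK z t)) := by
  have hsl : ∀ (z : ℂ) (t : ℝ), 0 < z.im → (z - t) ∈ Complex.slitPlane := by
    intro z t hz
    rw [Complex.mem_slitPlane_iff]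
    right
    simp [hz.ne']
  refine ⟨fun z => Complex.exp (-7 * c + 8 * c * (1 / Real.pi) * (-I) *
    ∑ p ∈ S, (Complex.log (z - b p) - Complex.log (z - a p))), ?_, ?_⟩
  · intro z hz
    apply DifferentiableAt.cexp
    apply DifferentiableAt.const_add
    apply DifferentiableAt.const_mul
    apply DifferentiableAt.fun_sum
    intro p _
    exact ((differentiableAt_id.sub_const _).clog (hsl z _ hz)).sub
      ((differentiableAt_id.sub_const _).clog (hsl z _ hz))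
  · intro z hz
    rw [Complex.norm_exp]
    congr 1
    have h1 : ∫ t in (⋃ p ∈ S, Ioo (a p) (b p)), PK z t =
        ∑ p ∈ S, ∫ t in Ioo (a p) (b p), PK z t :=
      integral_biUnion_finset S (fun p _ => measurableSet_Ioo) hdis
        (fun p _ => (PK_integrable hz).integrableOn)
    have h2 : ∑ p ∈ S, ∫ t in Ioo (a p) (b p), PK z t =
        (1 / Real.pi) * (∑ p ∈ S, (Complex.log (z - b p) - Complex.log (z - a p))).im := by
      rw [Complex.im_sum, Finset.mul_sum]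
      exact Finset.sum_congr rfl (fun p hp => PK_log hz (hab p hp))
    have hm : MeasurableSet (⋃ p ∈ S, Ioo (a p) (b p)) :=
      Finset.measurableSet_biUnion S (fun p _ => measurableSet_Ioo)
    have h3 := integral_add_compl hm (PK_integrable hz)
    rw [PK_integral hz, h1, h2] at h3
    set W := ∑ p ∈ S, (Complex.log (z - b p) - Complex.log (z - a p)) with hW
    have h4 : (-7 * (c : ℂ) + 8 * c * (1 / Real.pi) * (-I) * W).re =
        -7 * c + 8 * c * ((1 / Real.pi) * W.im) := by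
      have e : (8 * (c : ℂ) * (1 / Real.pi) * (-I) * W) =
          ((8 * c * (1 / Real.pi) : ℝ) : ℂ) * (-I * W) := by push_cast; ring
      have e2 : (-7 * (c : ℂ)) = ((-7 * c : ℝ) : ℂ) := by push_cast; ring
      rw [e, e2, Complex.add_re, Complex.ofReal_re, Complex.re_ofReal_mul]
      simp
      ring
    rw [h4]
    have h5 : (1 / Real.pi) * W.im =
        1 - ∫ t in (⋃ p ∈ S, Ioo (a p) (b p))ᶜ, PK z t := by linarith
    rw [h5]
    ring

/-- maximum principle for `c h ≤ log ‖F‖` -/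
theorem maxpr {Ω : Set ℂ} {F : ℂ → ℂ} (h : Om Ω F) {A V : Set ℂ} (hA : IsClosed A)
    (hAb : Bornology.IsBounded A) (hAΩ : A ⊆ Ω) (hAi : ∀ z ∈ A, 0 < z.im) (hV : IsOpen V)
    (hVA : V ⊆ A) {Φ : ℂ → ℂ} {g : ℂ → ℝ} (hΦ : ∀ z : ℂ, 0 < z.im → DifferentiableAt ℂ Φ z)
    (hg : ∀ z : ℂ, 0 < z.im → ‖Φ z‖ = Real.exp (g z))
    (hb : ∀ z ∈ A, z ∉ V → g z ≤ Real.log ‖F z‖) : ∀ z ∈ A, g z ≤ Real.log ‖F z‖ := by
  have hcl : closure V ⊆ A := closure_minimal hVA hA
  have hpos : ∀ z ∈ A, 0 < ‖F z‖ := fun z hz => norm_pos_iff.mpr (h.ne0 z (hAΩ hz))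
  have hiff : ∀ z ∈ A, (‖Φ z / F z‖ ≤ 1 ↔ g z ≤ Real.log ‖F z‖) := by
    intro z hz
    rw [norm_div, div_le_one (hpos z hz), hg z (hAi z hz), Real.le_log_iff_exp_le (hpos z hz)]
  intro z hz
  by_cases hzV : z ∈ V
  · rw [← hiff z hz]
    have hd : DiffContOnCl ℂ (fun z => Φ z / F z) V := by
      apply DifferentiableOn.diffContOnCl
      intro w hw
      have hwA := hcl hw
      exact ((hΦ w (hAi w hwA)).div
        (h.diff.differentiableAt (h.open_.mem_nhds (hAΩ hwA)))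
        (h.ne0 w (hAΩ hwA))).differentiableWithinAt
    refine Complex.norm_le_of_forall_mem_frontier_norm_le (hAb.subset hVA) hd ?_
      (subset_closure hzV)
    intro w hw
    rw [frontier, hV.interior_eq] at hw
    exact (hiff w (hcl hw.1)).mpr (hb w (hcl hw.1) hw.2)
  · exact hb z hz hzV

theorem nest {j n : ℕ} (hj : j ≤ n) {x X : ℝ} (h1 : (bx n x : ℝ) ≤ X * 2 ^ n)
    (h2 : X * 2 ^ n ≤ bx n x + 1) : (bx j x : ℝ) ≤ X * 2 ^ j ∧ X * 2 ^ j ≤ bx j x + 1 := by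
  obtain ⟨d, rfl⟩ := Nat.exists_eq_add_of_le hj
  set m := bx (j + d) x with hm
  have hjm : bx j x = m / 2 ^ d := bx_div j d x
  have hp : (0 : ℝ) < 2 ^ d := by positivity
  have e : X * 2 ^ (j + d) = (X * 2 ^ j) * 2 ^ d := by rw [pow_add]; ring
  rw [e] at h1 h2
  have h3 : (m / 2 ^ d) * 2 ^ d ≤ m := Int.ediv_mul_le _ (by positivity)
  have h4 : m < (m / 2 ^ d + 1) * 2 ^ d := Int.lt_ediv_add_one_mul_self _ (by positivity)
  have h5 : m + 1 ≤ (m / 2 ^ d + 1) * 2 ^ d := h4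
  have h3' : ((m / 2 ^ d : ℤ) : ℝ) * 2 ^ d ≤ m := by exact_mod_cast h3
  have h5' : (m : ℝ) + 1 ≤ (((m / 2 ^ d : ℤ) : ℝ) + 1) * 2 ^ d := by exact_mod_cast h5
  rw [hjm]
  constructor
  · have : ((m / 2 ^ d : ℤ) : ℝ) * 2 ^ d ≤ (X * 2 ^ j) * 2 ^ d := by linarith
    exact le_of_mul_le_mul_right this hp
  · have : (X * 2 ^ j) * 2 ^ d ≤ (((m / 2 ^ d : ℤ) : ℝ) + 1) * 2 ^ d := by linarith
    exact le_of_mul_le_mul_right this hp

section OneStep

variable (Ω : Set ℂ) (F : ℂ → ℂ) (n1 : ℕ) (k1 : ℤ) (N : ℕ) (lam : ℝ)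

/-- alive boxes: up along the whole path, no strict ancestor of level `≥ lam` -/
def AA (n : ℕ) (x : ℝ) : Prop :=
  n1 ≤ n ∧ n ≤ N ∧ bx n1 x = k1 ∧ (∀ j, n1 ≤ j → j ≤ n → Up Ω F j (bx j x)) ∧
    (∀ j, n1 ≤ j → j < n → UU F j (bx j x) < lam)

/-- the points which reach the level `lam` inside the cusp -/
def EE : Set ℝ := {x | bx n1 x = k1 ∧ ∃ m, n1 ≤ m ∧ m ≤ N ∧
  (∀ j, n1 ≤ j → j ≤ m → Up Ω F j (bx j x)) ∧ lam ≤ UU F m (bx m x)}

/-- the shrunken stopping intervals -/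
def DD : Set ℝ := {x | ∃ m, AA Ω F n1 k1 N lam m x ∧ lam ≤ UU F m (bx m x) ∧
  (bx m x : ℝ) + 1 / 2048 < x * 2 ^ m ∧ x * 2 ^ m < bx m x + 1 - 1 / 2048}

variable {Ω F n1 k1 N lam}

theorem AA_congr {n : ℕ} {x y : ℝ} (h : bx n x = bx n y) (hx : AA Ω F n1 k1 N lam n x) :
    AA Ω F n1 k1 N lam n y := by
  obtain ⟨a, b, c, d, e⟩ := hx
  refine ⟨a, b, ?_, ?_, ?_⟩
  · rw [← bx_anc h a]; exact c
  · intro j hj hj'
    rw [← bx_anc h hj']; exact d j hj hj'
  · intro j hj hj'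
    rw [← bx_anc h hj'.le]; exact e j hj hj'

theorem EE_min {t : ℝ} (ht : t ∈ EE Ω F n1 k1 N lam) :
    ∃ m, AA Ω F n1 k1 N lam m t ∧ lam ≤ UU F m (bx m t) := by
  classical
  obtain ⟨h0, hex⟩ := ht
  have hm := Nat.find_spec hex
  have hmin := fun j (hj : j < Nat.find hex) => Nat.find_min hex hj
  set m := Nat.find hex
  obtain ⟨a, b, c, d⟩ := hm
  refine ⟨m, ⟨a, b, h0, c, ?_⟩, d⟩
  intro j hj hj'
  by_contra hcon
  push Not at hcon
  exact hmin j hj' ⟨hj, hj'.le.trans b, fun i hi hi' => c i hi (hi'.trans hj'.le), hcon⟩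

theorem DD_sub : DD Ω F n1 k1 N lam ⊆ EE Ω F n1 k1 N lam := by
  rintro x ⟨m, ⟨a, b, c, d, e⟩, h, _⟩
  exact ⟨c, m, a, b, d, h⟩

theorem uniq {t : ℝ} {m m' : ℕ} (h : AA Ω F n1 k1 N lam m t) (h2 : lam ≤ UU F m (bx m t))
    (h' : AA Ω F n1 k1 N lam m' t) (h2' : lam ≤ UU F m' (bx m' t)) : m = m' := by
  rcases lt_trichotomy m m' with hl | hl | hl
  · have := h'.2.2.2.2 m h.1 hl; linarith
  · exact hl
  · have := h.2.2.2.2 m' h'.1 hl; linarith

/-- below a box which is not up (or below the last generation) nothing reaches the level -/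
theorem emp {m : ℕ} {x t : ℝ} (h : AA Ω F n1 k1 N lam m x) (h2 : UU F m (bx m x) < lam)
    (h3 : ¬ Up Ω F (m + 1) (bx (m + 1) x) ∨ m = N) (ht : bx (m + 1) t = bx (m + 1) x) :
    t ∉ EE Ω F n1 k1 N lam := by
  rintro ⟨h0, m', a, b, c, d⟩
  rcases lt_or_ge m m' with hl | hl
  · rcases h3 with h3 | h3
    · apply h3
      rw [← ht]
      exact c (m + 1) (by have := h.1; omega) hl
    · omega
  · have e : bx m' t = bx m' x := bx_anc ht (by omega)
    rw [e] at d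
    rcases Nat.lt_or_ge m' m with hl' | hl'
    · have := h.2.2.2.2 m' a hl'; linarith
    · have : m' = m := le_antisymm hl hl'
      subst this
      linarith

end OneStep

end Crest.Agent.R102.G864
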