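import Crest.Agent.R102.LemG3_864

/-! # Lemma G, one step (geometry of the region) -/

open Set Filter Metric Complex Topology MeasureTheory

namespace Crest.Agent.R102.G864

/-- the dyadic interval as a set -/
def JJ (n : ℕ) (k : ℤ) : Set ℝ := {x | bx n x = k}

theorem JJ_eq (n : ℕ) (k : ℤ) : JJ n k = Ico ((k : ℝ) / 2 ^ n) ((k + 1) / 2 ^ n) := by
  ext x
  have hp : (0 : ℝ) < 2 ^ n := by positivity
  unfold JJ
  rw [mem_ofPred_eq, bx_eq_iff, mem_Ico, div_le_iff₀ hp, lt_div_iff₀ hp]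

theorem JJ_meas (n : ℕ) (k : ℤ) : MeasurableSet (JJ n k) := by rw [JJ_eq]; exact measurableSet_Ico

theorem JJ_vol (n : ℕ) (k : ℤ) : volume (JJ n k) = ENNReal.ofReal (1 / 2 ^ n) := by
  rw [JJ_eq, Real.volume_Ico]; congr 1; ring

theorem TB_closed (n : ℕ) (k : ℤ) : IsClosed (TB n k) := by
  unfold TB
  have h1 : Continuous fun z : ℂ => z.re * 2 ^ n := by fun_prop
  have h2 : Continuous fun z : ℂ => z.im * 2 ^ n := by fun_prop
  exact (isClosed_le continuous_const h1).inter ((isClosed_le h1 continuous_const).inter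
    ((isClosed_le continuous_const h2).inter (isClosed_le h2 continuous_const)))

theorem TB_bdd (n : ℕ) (k : ℤ) : Bornology.IsBounded (TB n k) := by
  refine (isBounded_closedBall (x := zc n k) (r := (3 / 2) / 2 ^ n)).subset ?_
  intro w hw
  rw [mem_closedBall, dist_eq_norm]
  exact TB_dist (zc_mem n k) hw

theorem fin_index (n1 : ℕ) (k1 : ℤ) (N : ℕ) :
    {p : ℕ × ℤ | n1 ≤ p.1 ∧ p.1 ≤ N ∧ bx n1 ((p.2 : ℝ) / 2 ^ p.1) = k1}.Finite := by
  apply Set.Finite.subset (s := (↑(Finset.range (N + 1) ×ˢ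
    Finset.Icc (-((|k1| + 1) * 2 ^ N)) ((|k1| + 1) * 2 ^ N)) : Set (ℕ × ℤ))) (Finset.finite_toSet _)
  rintro ⟨n, k⟩ ⟨h1, h2, h3⟩
  simp only at h1 h2 h3
  obtain ⟨d, rfl⟩ := Nat.exists_eq_add_of_le h1
  rw [bx_eq_iff] at h3
  obtain ⟨h3, h4⟩ := h3
  have hp1 : (0 : ℝ) < 2 ^ n1 := by positivity
  have hpd : (0 : ℝ) < 2 ^ d := by positivity
  have e : (k : ℝ) / 2 ^ (n1 + d) * 2 ^ n1 = k / 2 ^ d := by
    rw [pow_add]; field_simp
  rw [e] at h3 h4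
  rw [le_div_iff₀ hpd] at h3
  rw [div_lt_iff₀ hpd] at h4
  have h3' : k1 * 2 ^ d ≤ k := by exact_mod_cast h3
  have h4' : k < (k1 + 1) * 2 ^ d := by exact_mod_cast h4
  have hdN : (2 : ℤ) ^ d ≤ 2 ^ N := pow_le_pow_right₀ (by norm_num) (by omega)
  have hd0 : (0 : ℤ) < 2 ^ d := by positivity
  have ha := neg_abs_le k1
  have hb := le_abs_self k1
  have hc := abs_nonneg k1
  simp only [Finset.coe_product, Finset.coe_range, Finset.coe_Icc, mem_prod, mem_Iio, mem_Icc]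
  refine ⟨by omega, ?_, ?_⟩
  · nlinarith
  · nlinarith

section OneStep

variable {Ω : Set ℂ} {F : ℂ → ℂ} {n1 : ℕ} {k1 : ℤ} {N : ℕ} {lam : ℝ}

theorem AA_left {n : ℕ} {x : ℝ} : AA Ω F n1 k1 N lam n ((bx n x : ℝ) / 2 ^ n) ↔
    AA Ω F n1 k1 N lam n x :=
  ⟨AA_congr (bx_left _ _), AA_congr (bx_left _ _).symm⟩

/-- mass next to a box below which nothing reaches the level -/
theorem mass_box {z : ℂ} (hz : 0 < z.im) {m : ℕ} {x : ℝ}
    (hd : ∀ t, bx m t = bx m x → t ∉ EE Ω F n1 k1 N lam)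
    (h1 : (bx m x : ℝ) ≤ z.re * 2 ^ m) (h2 : z.re * 2 ^ m ≤ bx m x + 1) (h3 : z.im * 2 ^ m ≤ 1) :
    1 / 8 ≤ ∫ t in (DD Ω F n1 k1 N lam)ᶜ, PK z t := by
  have hp : (0 : ℝ) < 2 ^ m := by positivity
  rcases le_or_gt (z.re * 2 ^ m) (bx m x + 1 / 2) with h4 | h4
  · apply PK_mass_ge hz (c := z.re)
    · rintro t ⟨ht1, ht2⟩ htD
      refine hd t ?_ (DD_sub htD)
      rw [bx_eq_iff]
      constructor <;> nlinarith
    · rintro t ⟨ht1, ht2⟩
      rw [abs_of_pos (by linarith)]; linarith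
  · apply PK_mass_ge hz (c := z.re - z.im / 2)
    · rintro t ⟨ht1, ht2⟩ htD
      refine hd t ?_ (DD_sub htD)
      rw [bx_eq_iff]
      constructor <;> nlinarith
    · rintro t ⟨ht1, ht2⟩
      rw [abs_of_neg (by linarith)]; linarith

/-- mass of the left margin of a stopping interval -/
theorem mass_left {z : ℂ} (hz : 0 < z.im) {m : ℕ} {x : ℝ}
    (ha : AA Ω F n1 k1 N lam m x) (hu : lam ≤ UU F m (bx m x))
    (h1 : z.re * 2 ^ m = bx m x) (h3 : z.im * 2 ^ m ≤ 1 / 2048) :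
    1 / 8 ≤ ∫ t in (DD Ω F n1 k1 N lam)ᶜ, PK z t := by
  have hp : (0 : ℝ) < 2 ^ m := by positivity
  apply PK_mass_ge hz (c := z.re)
  · rintro t ⟨ht1, ht2⟩ ⟨m', hm', hu', c1, c2⟩
    have e : bx m t = bx m x := by
      rw [bx_eq_iff]
      constructor <;> nlinarith
    have hAt := AA_congr e.symm ha
    have hm : m = m' := uniq hAt (by rw [e]; exact hu) hm' hu'
    subst hm
    rw [e] at c1
    nlinarith
  · rintro t ⟨ht1, ht2⟩
    rw [abs_of_pos (by linarith)]; linarith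

theorem mass_right {z : ℂ} (hz : 0 < z.im) {m : ℕ} {x : ℝ}
    (ha : AA Ω F n1 k1 N lam m x) (hu : lam ≤ UU F m (bx m x))
    (h1 : z.re * 2 ^ m = bx m x + 1) (h3 : z.im * 2 ^ m ≤ 1 / 2048) :
    1 / 8 ≤ ∫ t in (DD Ω F n1 k1 N lam)ᶜ, PK z t := by
  have hp : (0 : ℝ) < 2 ^ m := by positivity
  apply PK_mass_ge hz (c := z.re - z.im / 2)
  · rintro t ⟨ht1, ht2⟩ ⟨m', hm', hu', c1, c2⟩
    have e : bx m t = bx m x := by
      rw [bx_eq_iff]
      constructor <;> nlinarith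
    have hAt := AA_congr e.symm ha
    have hm : m = m' := uniq hAt (by rw [e]; exact hu) hm' hu'
    subst hm
    rw [e] at c2
    nlinarith
  · rintro t ⟨ht1, ht2⟩
    rw [abs_of_neg (by linarith)]; linarith

theorem mass_out {z : ℂ} (hz : 0 < z.im)
    (h1 : z.re * 2 ^ n1 ≤ k1 ∨ (k1 : ℝ) + 1 ≤ z.re * 2 ^ n1) :
    1 / 8 ≤ ∫ t in (DD Ω F n1 k1 N lam)ᶜ, PK z t := by
  have hp : (0 : ℝ) < 2 ^ n1 := by positivity
  rcases h1 with h1 | h1
  · apply PK_mass_ge hz (c := z.re - z.im / 2)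
    · rintro t ⟨ht1, ht2⟩ htD
      have h5 := (DD_sub htD).1
      rw [bx_eq_iff] at h5
      nlinarith [h5.1]
    · rintro t ⟨ht1, ht2⟩
      rw [abs_of_neg (by linarith)]; linarith
  · apply PK_mass_ge hz (c := z.re)
    · rintro t ⟨ht1, ht2⟩ htD
      have h5 := (DD_sub htD).1
      rw [bx_eq_iff] at h5
      nlinarith [h5.2]
    · rintro t ⟨ht1, ht2⟩
      rw [abs_of_pos (by linarith)]; linarith

theorem DD_sub_JJ : DD Ω F n1 k1 N lam ⊆ JJ n1 k1 := fun _ hx => (DD_sub hx).1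

variable (Ω F n1 k1 N lam) in
/-- the finite index set of stopping intervals -/
noncomputable def SS : Finset (ℕ × ℤ) :=
  (Set.Finite.subset (fin_index n1 k1 N)
    (t := {p : ℕ × ℤ | AA Ω F n1 k1 N lam p.1 ((p.2 : ℝ) / 2 ^ p.1) ∧ lam ≤ UU F p.1 p.2})
    (fun _ hp => ⟨hp.1.1, hp.1.2.1, hp.1.2.2.1⟩)).toFinset

theorem mem_SS {p : ℕ × ℤ} : p ∈ SS Ω F n1 k1 N lam ↔
    AA Ω F n1 k1 N lam p.1 ((p.2 : ℝ) / 2 ^ p.1) ∧ lam ≤ UU F p.1 p.2 := by
  unfold SS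
  rw [Set.Finite.mem_toFinset]
  rfl

theorem DD_eq : DD Ω F n1 k1 N lam = ⋃ p ∈ SS Ω F n1 k1 N lam,
    Ioo (((p.2 : ℝ) + 1 / 2048) / 2 ^ p.1) (((p.2 : ℝ) + 1 - 1 / 2048) / 2 ^ p.1) := by
  ext x
  simp only [mem_iUnion, mem_Ioo, exists_prop, mem_SS]
  constructor
  · rintro ⟨m, h1, h2, h3, h4⟩
    have hp : (0 : ℝ) < 2 ^ m := by positivity
    refine ⟨(m, bx m x), ⟨AA_left.mpr h1, h2⟩, ?_, ?_⟩
    · rw [div_lt_iff₀ hp]; exact h3
    · rw [lt_div_iff₀ hp]; exact h4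
  · rintro ⟨⟨m, k⟩, ⟨h1, h2⟩, h3, h4⟩
    simp only at h1 h2 h3 h4
    have hp : (0 : ℝ) < 2 ^ m := by positivity
    rw [div_lt_iff₀ hp] at h3
    rw [lt_div_iff₀ hp] at h4
    have e : bx m x = k := by
      rw [bx_eq_iff]; constructor <;> linarith
    refine ⟨m, AA_congr ((bx_left m k).trans e.symm) h1, ?_, ?_, ?_⟩
    · rw [e]; exact h2
    · rw [e]; exact h3
    · rw [e]; exact h4

theorem EE_eq : EE Ω F n1 k1 N lam = ⋃ p ∈ SS Ω F n1 k1 N lam, JJ p.1 p.2 := by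
  ext x
  simp only [mem_iUnion, exists_prop, mem_SS]
  constructor
  · intro hx
    obtain ⟨m, h1, h2⟩ := EE_min hx
    exact ⟨(m, bx m x), ⟨AA_left.mpr h1, h2⟩, rfl⟩
  · rintro ⟨⟨m, k⟩, ⟨h1, h2⟩, h3⟩
    simp only at h1 h2 h3
    have h3' : bx m x = k := h3
    have h4 := AA_congr ((bx_left m k).trans h3'.symm) h1
    exact ⟨h4.2.2.1, m, h4.1, h4.2.1, h4.2.2.2.1, by rw [h3']; exact h2⟩

theorem SS_disj {p q : ℕ × ℤ} (hp : p ∈ SS Ω F n1 k1 N lam) (hq : q ∈ SS Ω F n1 k1 N lam)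
    (hpq : p ≠ q) : Disjoint (JJ p.1 p.2) (JJ q.1 q.2) := by
  rw [Set.disjoint_left]
  intro x hx hx'
  rw [mem_SS] at hp hq
  have e1 : bx p.1 x = p.2 := hx
  have e2 : bx q.1 x = q.2 := hx'
  have a1 := AA_congr ((bx_left p.1 p.2).trans e1.symm) hp.1
  have a2 := AA_congr ((bx_left q.1 q.2).trans e2.symm) hq.1
  have := uniq a1 (by rw [e1]; exact hp.2) a2 (by rw [e2]; exact hq.2)
  apply hpq
  refine Prod.ext this ?_
  rw [← e1, ← e2, this]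

theorem Ioo_sub_JJ (p : ℕ × ℤ) :
    Ioo (((p.2 : ℝ) + 1 / 2048) / 2 ^ p.1) (((p.2 : ℝ) + 1 - 1 / 2048) / 2 ^ p.1) ⊆ JJ p.1 p.2 := by
  rw [JJ_eq]
  have hp : (0 : ℝ) < 2 ^ p.1 := by positivity
  rintro x ⟨h1, h2⟩
  rw [div_lt_iff₀ hp] at h1
  rw [lt_div_iff₀ hp] at h2
  rw [mem_Ico, div_le_iff₀ hp, lt_div_iff₀ hp]
  constructor <;> linarith

theorem EE_meas : MeasurableSet (EE Ω F n1 k1 N lam) := by
  rw [EE_eq]
  exact Finset.measurableSet_biUnion _ (fun p _ => JJ_meas _ _)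

theorem DD_meas : MeasurableSet (DD Ω F n1 k1 N lam) := by
  rw [DD_eq]
  exact Finset.measurableSet_biUnion _ (fun p _ => measurableSet_Ioo)

theorem vol_EE : volume (EE Ω F n1 k1 N lam) =
    ∑ p ∈ SS Ω F n1 k1 N lam, ENNReal.ofReal (1 / 2 ^ p.1) := by
  rw [EE_eq, measure_biUnion_finset (fun p hp q hq hpq => SS_disj hp hq hpq)
    (fun p _ => JJ_meas _ _)]
  exact Finset.sum_congr rfl (fun p _ => JJ_vol _ _)

theorem vol_DD : volume (DD Ω F n1 k1 N lam) =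
    ENNReal.ofReal (1023 / 1024) * volume (EE Ω F n1 k1 N lam) := by
  rw [vol_EE, DD_eq, measure_biUnion_finset (fun p hp q hq hpq =>
    (SS_disj hp hq hpq).mono (Ioo_sub_JJ p) (Ioo_sub_JJ q)) (fun p _ => measurableSet_Ioo),
    Finset.mul_sum]
  refine Finset.sum_congr rfl (fun p _ => ?_)
  rw [Real.volume_Ioo, ← ENNReal.ofReal_mul (by norm_num)]
  congr 1
  ring

theorem mass_top {z : ℂ} (hz : 0 < z.im) (h1 : 1 ≤ z.im * 2 ^ n1) :
    1 / 8 ≤ ∫ t in (DD Ω F n1 k1 N lam)ᶜ, PK z t := by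
  have hp : (0 : ℝ) < 2 ^ n1 := by positivity
  have h2 := integral_add_compl (DD_meas (Ω := Ω) (F := F) (n1 := n1) (k1 := k1) (N := N)
    (lam := lam)) (PK_integrable hz)
  rw [PK_integral hz] at h2
  have h3 : ∫ t in DD Ω F n1 k1 N lam, PK z t ≤ (1 / 2 ^ n1) / (Real.pi * z.im) := by
    apply PK_mass_le hz _ (by positivity)
    rw [← JJ_vol n1 k1]
    exact measure_mono DD_sub_JJ
  have h4 : (1 / 2 ^ n1) / (Real.pi * z.im) ≤ 1 / 3 := by
    have hpi := Real.pi_gt_three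
    rw [div_div, div_le_div_iff₀ (by positivity) (by norm_num)]
    nlinarith
  linarith

end OneStep

end Crest.Agent.R102.G864
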