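import Crest.Agent.R102.LemG4_864

/-! # Lemma G, one step (the region and its boundary) -/

open Set Filter Metric Complex Topology MeasureTheory

namespace Crest.Agent.R102.G864

section OneStep

variable (Ω : Set ℂ) (F : ℂ → ℂ) (n1 : ℕ) (k1 : ℤ) (N : ℕ) (lam : ℝ)

/-- the region above the stopping intervals -/
def RA : Set ℂ := {z | ∃ n x, AA Ω F n1 k1 N lam n x ∧ z ∈ TB n (bx n x)}

/-- the open Carleson box -/
def RQ : Set ℂ := {z | ((k1 : ℝ) < z.re * 2 ^ n1 ∧ z.re * 2 ^ n1 < k1 + 1) ∧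
  (1 / 2 < z.im * 2 ^ N ∧ z.im * 2 ^ n1 < 1)}

/-- the boxes which do not belong to the region -/
def RB : Set ℂ := {z | ∃ n x, n1 ≤ n ∧ n ≤ N ∧ bx n1 x = k1 ∧ ¬ AA Ω F n1 k1 N lam n x ∧
  z ∈ TB n (bx n x)}

/-- the open part of the region -/
def RV : Set ℂ := RQ n1 k1 N \ RB Ω F n1 k1 N lam

variable {Ω F n1 k1 N lam}

theorem RA_eq : RA Ω F n1 k1 N lam =
    ⋃ p ∈ {p : ℕ × ℤ | AA Ω F n1 k1 N lam p.1 ((p.2 : ℝ) / 2 ^ p.1)}, TB p.1 p.2 := by
  ext z
  simp only [mem_iUnion, exists_prop, mem_ofPred_eq]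
  constructor
  · rintro ⟨n, x, h1, h2⟩
    exact ⟨(n, bx n x), AA_left.mpr h1, h2⟩
  · rintro ⟨⟨n, k⟩, h1, h2⟩
    exact ⟨n, (k : ℝ) / 2 ^ n, h1, by rw [bx_left]; exact h2⟩

theorem RA_fin : {p : ℕ × ℤ | AA Ω F n1 k1 N lam p.1 ((p.2 : ℝ) / 2 ^ p.1)}.Finite :=
  Set.Finite.subset (fin_index n1 k1 N) (fun _ hp => ⟨hp.1, hp.2.1, hp.2.2.1⟩)

theorem RA_closed : IsClosed (RA Ω F n1 k1 N lam) := by
  rw [RA_eq]
  exact RA_fin.isClosed_biUnion (fun p _ => TB_closed _ _)

theorem RA_bdd : Bornology.IsBounded (RA Ω F n1 k1 N lam) := by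
  rw [RA_eq]
  exact (Bornology.isBounded_biUnion RA_fin).mpr (fun p _ => TB_bdd _ _)

theorem RB_eq : RB Ω F n1 k1 N lam =
    ⋃ p ∈ {p : ℕ × ℤ | n1 ≤ p.1 ∧ p.1 ≤ N ∧ bx n1 ((p.2 : ℝ) / 2 ^ p.1) = k1 ∧
      ¬ AA Ω F n1 k1 N lam p.1 ((p.2 : ℝ) / 2 ^ p.1)}, TB p.1 p.2 := by
  ext z
  simp only [mem_iUnion, exists_prop, mem_ofPred_eq]
  constructor
  · rintro ⟨n, x, h0, h0', h0'', h1, h2⟩
    refine ⟨(n, bx n x), ⟨h0, h0', ?_, fun h => h1 (AA_left.mp h)⟩, h2⟩
    rw [← h0'']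
    exact bx_anc (bx_left _ _) h0
  · rintro ⟨⟨n, k⟩, ⟨h0, h0', h0'', h1⟩, h2⟩
    exact ⟨n, (k : ℝ) / 2 ^ n, h0, h0', h0'', h1, by rw [bx_left]; exact h2⟩

theorem RB_closed : IsClosed (RB Ω F n1 k1 N lam) := by
  rw [RB_eq]
  refine Set.Finite.isClosed_biUnion (Set.Finite.subset (fin_index n1 k1 N)
    (fun _ hp => ⟨hp.1, hp.2.1, hp.2.2.1⟩)) (fun p _ => TB_closed _ _)

theorem RQ_open : IsOpen (RQ n1 k1 N) := by
  unfold RQ
  have h1 : Continuous fun z : ℂ => z.re * 2 ^ n1 := by fun_prop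
  have h2 : Continuous fun z : ℂ => z.im * 2 ^ n1 := by fun_prop
  have h3 : Continuous fun z : ℂ => z.im * 2 ^ N := by fun_prop
  exact ((isOpen_lt continuous_const h1).inter (isOpen_lt h1 continuous_const)).inter
    ((isOpen_lt continuous_const h3).inter (isOpen_lt h2 continuous_const))

theorem RV_open : IsOpen (RV Ω F n1 k1 N lam) := RQ_open.sdiff RB_closed

theorem exists_gen {n1 N : ℕ} (hN : n1 ≤ N) {y : ℝ} (h1 : 1 / 2 < y * 2 ^ N)
    (h2 : y * 2 ^ n1 < 1) : ∃ n, n1 ≤ n ∧ n ≤ N ∧ 1 / 2 ≤ y * 2 ^ n ∧ y * 2 ^ n ≤ 1 := by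
  classical
  have hy : 0 < y := by
    by_contra hcon
    push Not at hcon
    have : y * 2 ^ N ≤ 0 := mul_nonpos_of_nonpos_of_nonneg hcon (by positivity)
    linarith
  have hex : ∃ n, 1 / 2 ≤ y * 2 ^ n := ⟨N, h1.le⟩
  have hs := Nat.find_spec hex
  have hmin := fun j (hj : j < Nat.find hex) => Nat.find_min hex hj
  have hle : Nat.find hex ≤ N := Nat.find_min' hex h1.le
  set m := Nat.find hex
  rcases le_or_gt m n1 with h | h
  · refine ⟨n1, le_rfl, hN, ?_, h2.le⟩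
    have : (2 : ℝ) ^ m ≤ 2 ^ n1 := pow_le_pow_right₀ (by norm_num) h
    calc 1 / 2 ≤ y * 2 ^ m := hs
      _ ≤ y * 2 ^ n1 := by gcongr
  · refine ⟨m, h.le, hle, hs, ?_⟩
    obtain ⟨d, hd⟩ : ∃ d, m = d + 1 := ⟨m - 1, by omega⟩
    have h3 := hmin d (by omega)
    push Not at h3
    rw [hd, pow_succ]
    linarith

theorem RV_sub (hN : n1 ≤ N) : RV Ω F n1 k1 N lam ⊆ RA Ω F n1 k1 N lam := by
  rintro z ⟨⟨⟨h1, h2⟩, ⟨h3, h4⟩⟩, hzB⟩
  obtain ⟨n, a, b, c, d⟩ := exists_gen hN h3 h4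
  have hz : z ∈ TB n (bx n z.re) := ⟨bx_le _ _, (lt_bx _ _).le, c, d⟩
  refine ⟨n, z.re, ?_, hz⟩
  by_contra hcon
  exact hzB ⟨n, z.re, a, b, bx_eq_iff.mpr ⟨h1.le, h2⟩, hcon, hz⟩

theorem RA_sub : RA Ω F n1 k1 N lam ⊆ Ω := by
  rintro z ⟨n, x, h1, h2⟩
  exact (h1.2.2.2.1 n h1.1 le_rfl).1.sub h2

theorem TB_im {n : ℕ} {k : ℤ} {z : ℂ} (hz : z ∈ TB n k) : 0 < z.im := by
  by_contra hcon
  push Not at hcon
  have : z.im * 2 ^ n ≤ 0 := mul_nonpos_of_nonpos_of_nonneg hcon (by positivity)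
  linarith [hz.2.2.1]

theorem RA_im : ∀ z ∈ RA Ω F n1 k1 N lam, 0 < z.im := by
  rintro z ⟨n, x, _, h2⟩
  exact TB_im h2

theorem RA_log (h : Om Ω F) : ∀ z ∈ RA Ω F n1 k1 N lam, 1 ≤ Real.log ‖F z‖ := by
  rintro z ⟨n, x, h1, h2⟩
  exact (h1.2.2.2.1 n h1.1 le_rfl).pos h h2

theorem AA_root (hN : n1 ≤ N) (hroot : Up Ω F n1 k1) {x : ℝ} (hx : bx n1 x = k1) :
    AA Ω F n1 k1 N lam n1 x := by
  refine ⟨le_rfl, hN, hx, ?_, ?_⟩
  · intro j hj hj'
    have : j = n1 := le_antisymm hj' hj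
    subst this
    rw [hx]; exact hroot
  · intro j hj hj'
    omega

/-- the last alive generation above a box which is not alive -/
theorem last_alive (hN : n1 ≤ N) (hroot : Up Ω F n1 k1) {x : ℝ} (hx : bx n1 x = k1) {n : ℕ}
    (hn : n1 ≤ n) (hbad : ¬ AA Ω F n1 k1 N lam n x) :
    ∃ m, n1 ≤ m ∧ m < n ∧ AA Ω F n1 k1 N lam m x ∧ ¬ AA Ω F n1 k1 N lam (m + 1) x := by
  classical
  have hex : ∃ j, n1 ≤ j ∧ ¬ AA Ω F n1 k1 N lam j x := ⟨n, hn, hbad⟩
  have hs := Nat.find_spec hex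
  have hmin := fun j (hj : j < Nat.find hex) => Nat.find_min hex hj
  have hle : Nat.find hex ≤ n := Nat.find_min' hex ⟨hn, hbad⟩
  set j := Nat.find hex
  have hne : j ≠ n1 := by
    intro h
    apply hs.2
    rw [h]; exact AA_root hN hroot hx
  obtain ⟨d, hd⟩ : ∃ d, j = d + 1 := ⟨j - 1, by have := hs.1; omega⟩
  refine ⟨d, by have := hs.1; omega, by omega, ?_, by rw [← hd]; exact hs.2⟩
  by_contra hcon
  exact hmin d (by omega) ⟨by have := hs.1; omega, hcon⟩

/-- what stops at `m` -/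
theorem stop_cases {m : ℕ} {x : ℝ} (h1 : AA Ω F n1 k1 N lam m x)
    (h2 : ¬ AA Ω F n1 k1 N lam (m + 1) x) :
    lam ≤ UU F m (bx m x) ∨ (UU F m (bx m x) < lam ∧
      (¬ Up Ω F (m + 1) (bx (m + 1) x) ∨ m = N)) := by
  rcases le_or_gt lam (UU F m (bx m x)) with h | h
  · exact Or.inl h
  · refine Or.inr ⟨h, ?_⟩
    by_contra hcon
    push Not at hcon
    obtain ⟨c1, c2⟩ := hcon
    apply h2
    refine ⟨by have := h1.1; omega, by have := h1.2.1; omega, h1.2.2.1, ?_, ?_⟩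
    · intro j hj hj'
      rcases Nat.lt_or_ge j (m + 1) with h3 | h3
      · exact h1.2.2.2.1 j hj (by omega)
      · have : j = m + 1 := le_antisymm hj' h3
        subst this; exact c1
    · intro j hj hj'
      rcases Nat.lt_or_ge j m with h3 | h3
      · exact h1.2.2.2.2 j hj h3
      · have : j = m := by omega
        subst this; exact h

theorem pow_two_le_of {y : ℝ} (hy : 0 < y) {m n : ℕ} {a b : ℝ} (h1 : a ≤ y * 2 ^ n)
    (h2 : y * 2 ^ m < b) (hab : b ≤ a) : m < n := by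
  by_contra hcon
  push Not at hcon
  have : (2 : ℝ) ^ n ≤ 2 ^ m := pow_le_pow_right₀ (by norm_num) hcon
  have : y * 2 ^ n ≤ y * 2 ^ m := by gcongr
  linarith

/-- the boundary of the region -/
theorem fr (h : Om Ω F) (hN : n1 ≤ N) (hroot : Up Ω F n1 k1) (hlam : 0 < lam) {z : ℂ}
    (hzA : z ∈ RA Ω F n1 k1 N lam) (hzV : z ∉ RV Ω F n1 k1 N lam) :
    1 / 8 ≤ (∫ t in (DD Ω F n1 k1 N lam)ᶜ, PK z t) ∨ lam / KK ^ 23 ≤ Real.log ‖F z‖ := by
  have hK := one_le_KK
  have hK0 : 0 < KK := by linarith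
  obtain ⟨n, x, hA, hzT⟩ := hzA
  have hzi : 0 < z.im := TB_im hzT
  have hup : Up Ω F n (bx n x) := hA.2.2.2.1 n hA.1 le_rfl
  -- small powers of KK are enough
  have hweak : ∀ d : ℕ, d ≤ 23 → lam / KK ^ 23 ≤ lam / KK ^ d := by
    intro d hd
    apply div_le_div_of_nonneg_left hlam.le (by positivity)
    exact pow_le_pow_right₀ hK hd
  have hE : ∀ {m : ℕ} {x : ℝ}, AA Ω F n1 k1 N lam m x → lam ≤ UU F m (bx m x) →
      z ∈ TB m (bx m x) → lam / KK ^ 23 ≤ Real.log ‖F z‖ := by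
    intro m x ha hu hz
    refine (hweak 1 (by norm_num)).trans ?_
    rw [pow_one, div_le_iff₀ hK0, mul_comm]
    exact hu.trans ((ha.2.2.2.1 m ha.1 le_rfl).le h hz (zc_mem _ _))
  have hnest : (k1 : ℝ) ≤ z.re * 2 ^ n1 ∧ z.re * 2 ^ n1 ≤ k1 + 1 := by
    have := nest hA.1 hzT.1 hzT.2.1
    rwa [hA.2.2.1] at this
  by_cases hQ : z ∈ RQ n1 k1 N
  · -- z lies in a box which is not alive
    have hzB : z ∈ RB Ω F n1 k1 N lam := by
      by_contra hcon; exact hzV ⟨hQ, hcon⟩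
    obtain ⟨n2, x2, a1, a2, a3, a4, a5⟩ := hzB
    obtain ⟨m, b1, b2, b3, b4⟩ := last_alive hN hroot a3 a1 a4
    rcases stop_cases b3 b4 with hc | ⟨hc, hc'⟩
    · -- stopping interval m
      obtain ⟨p1, p2⟩ := nest b2.le a5.1 a5.2.1
      have p3 : z.im * 2 ^ m ≤ 1 / 2 := by
        have e1 : (2 : ℝ) ^ (m + 1) ≤ 2 ^ n2 := pow_le_pow_right₀ (by norm_num) b2
        have e2 : z.im * 2 ^ (m + 1) ≤ z.im * 2 ^ n2 := by gcongr
        rw [pow_succ] at e2
        have := a5.2.2.2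
        linarith
      have hmn : m ≤ n := by
        by_contra hcon
        push Not at hcon
        have e1 : (2 : ℝ) ^ (n + 1) ≤ 2 ^ m := pow_le_pow_right₀ (by norm_num) hcon
        have e2 : z.im * 2 ^ (n + 1) ≤ z.im * 2 ^ m := by gcongr
        rw [pow_succ] at e2
        have := hzT.2.2.1
        linarith
      obtain ⟨q1, q2⟩ := nest hmn hzT.1 hzT.2.1
      by_cases hk : bx m x = bx m x2
      · rcases Nat.lt_or_ge m n with hl | hl
        · have := hA.2.2.2.2 m b1 hl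
          rw [hk] at this
          linarith
        · have : m = n := le_antisymm hmn hl
          subst this
          right
          exact hE (AA_congr hk.symm b3 |> fun h' => h') (by rw [hk]; exact hc) hzT
      · -- neighbours
        rcases le_or_gt (z.im * 2 ^ m) (1 / 2048) with hy | hy
        · left
          rcases lt_or_gt_of_ne hk with hl | hl
          · -- bx m x < bx m x2 : z.re 2^m = bx m x2
            have e : (bx m x : ℝ) + 1 ≤ bx m x2 := by exact_mod_cast hl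
            exact mass_left hzi b3 hc (le_antisymm (by linarith) p1) hy
          · have e : (bx m x2 : ℝ) + 1 ≤ bx m x := by exact_mod_cast hl
            exact mass_right hzi b3 hc (le_antisymm p2 (by linarith)) hy
        · right
          obtain ⟨d, rfl⟩ := Nat.exists_eq_add_of_le hmn
          have hd : d < 11 := by
            by_contra hcon
            push Not at hcon
            have e1 : (2 : ℝ) ^ (m + 11) ≤ 2 ^ (m + d) := pow_le_pow_right₀ (by norm_num) (by omega)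
            have e2 : z.im * 2 ^ (m + 11) ≤ z.im * 2 ^ (m + d) := by gcongr
            rw [pow_add] at e2
            have := hzT.2.2.2
            norm_num at e2
            linarith
          have hpath := (Up.path (F := F) h (j := m) (x := x) d
            (fun i hi hi' => hA.2.2.2.1 i (by omega) hi')).1
          have hupm : Up Ω F m (bx m x) := hA.2.2.2.1 m b1 (by omega)
          have hupm2 : Up Ω F m (bx m x2) := b3.2.2.2.1 m b1 le_rfl
          have hp : (0 : ℝ) < 2 ^ m := by positivity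
          have hmeet : UU F m (bx m x2) ≤ KK ^ 2 * UU F m (bx m x) := by
            refine hupm2.meet h hupm (w := ⟨z.re, 1 / 2 ^ m⟩) ?_ ?_
            · refine ⟨p1, p2, ?_, ?_⟩
              · simp only; rw [div_mul_cancel₀ _ hp.ne']; norm_num
              · simp only; rw [div_mul_cancel₀ _ hp.ne']
            · refine ⟨q1, q2, ?_, ?_⟩
              · simp only; rw [div_mul_cancel₀ _ hp.ne']; norm_num
              · simp only; rw [div_mul_cancel₀ _ hp.ne']
          have hlast : UU F (m + d) (bx (m + d) x) ≤ KK * Real.log ‖F z‖ :=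
            hup.le h hzT (zc_mem _ _)
          have hlog : 0 ≤ Real.log ‖F z‖ := by linarith [hup.pos h hzT]
          rw [div_le_iff₀ (by positivity)]
          calc lam ≤ UU F m (bx m x2) := hc
            _ ≤ KK ^ 2 * UU F m (bx m x) := hmeet
            _ ≤ KK ^ 2 * (KK ^ (2 * d) * UU F (m + d) (bx (m + d) x)) := by gcongr
            _ ≤ KK ^ 2 * (KK ^ (2 * d) * (KK * Real.log ‖F z‖)) := by gcongr
            _ = KK ^ (2 * d + 3) * Real.log ‖F z‖ := by ring
            _ ≤ KK ^ 23 * Real.log ‖F z‖ := by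
                apply mul_le_mul_of_nonneg_right _ hlog
                exact pow_le_pow_right₀ hK (by omega)
            _ = Real.log ‖F z‖ * KK ^ 23 := by ring
    · -- dead box
      left
      obtain ⟨p1, p2⟩ := nest (show m + 1 ≤ n2 from b2) a5.1 a5.2.1
      refine mass_box hzi (m := m + 1) (x := x2) (fun t ht => emp b3 hc hc' ht) p1 p2 ?_
      have e1 : (2 : ℝ) ^ (m + 1) ≤ 2 ^ n2 := pow_le_pow_right₀ (by norm_num) b2
      calc z.im * 2 ^ (m + 1) ≤ z.im * 2 ^ n2 := by gcongr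
        _ ≤ 1 := a5.2.2.2
  · -- z on the boundary of the Carleson box
    by_cases c1 : (k1 : ℝ) < z.re * 2 ^ n1
    · by_cases c2 : z.re * 2 ^ n1 < k1 + 1
      · by_cases c3 : z.im * 2 ^ n1 < 1
        · -- bottom
          have c4 : z.im * 2 ^ N ≤ 1 / 2 := by
            by_contra hcon
            push Not at hcon
            exact hQ ⟨⟨c1, c2⟩, ⟨hcon, c3⟩⟩
          have hnN : n = N := by
            by_contra hcon
            have : n < N := lt_of_le_of_ne hA.2.1 hcon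
            have e1 : (2 : ℝ) ^ (n + 1) ≤ 2 ^ N := pow_le_pow_right₀ (by norm_num) this
            have e2 : z.im * 2 ^ (n + 1) ≤ z.im * 2 ^ N := by gcongr
            rw [pow_succ] at e2
            have := hzT.2.2.1
            linarith
          subst hnN
          rcases le_or_gt lam (UU F n (bx n x)) with hc | hc
          · right; exact hE hA hc hzT
          · left
            refine mass_box hzi (m := n) (x := x) ?_ hzT.1 hzT.2.1 hzT.2.2.2
            rintro t ht ⟨t0, m, t1, t2, t3, t4⟩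
            have e : bx m t = bx m x := bx_anc ht t2
            rw [e] at t4
            rcases Nat.lt_or_ge m n with hl | hl
            · have := hA.2.2.2.2 m t1 hl; linarith
            · have : m = n := le_antisymm t2 hl
              subst this; linarith
        · left; exact mass_top hzi (not_lt.mp c3)
      · left; exact mass_out hzi (Or.inr (not_lt.mp c2))
    · left; exact mass_out hzi (Or.inl (not_lt.mp c1))

end OneStep

end Crest.Agent.R102.G864
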