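import Crest.Agent.R102.LemG5_864

/-! # Lemma G, the one step lemma -/

open Set Filter Metric Complex Topology MeasureTheory

namespace Crest.Agent.R102.G864

section OneStep

variable {Ω : Set ℂ} {F : ℂ → ℂ} {n1 : ℕ} {k1 : ℤ} {N : ℕ} {lam : ℝ}

theorem PK_int_nonneg {z : ℂ} (hz : 0 < z.im) (A : Set ℝ) : 0 ≤ ∫ t in A, PK z t :=
  integral_nonneg (fun t => PK_nonneg hz t)

/-- the inequality in the region -/
theorem region_le (h : Om Ω F) (hN : n1 ≤ N) (hroot : Up Ω F n1 k1) (hlam : 0 < lam) :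
    ∀ z ∈ RA Ω F n1 k1 N lam,
      lam / KK ^ 23 * (1 - 8 * ∫ t in (DD Ω F n1 k1 N lam)ᶜ, PK z t) ≤ Real.log ‖F z‖ := by
  have hK := one_le_KK
  obtain ⟨Φ, hΦ1, hΦ2⟩ := barrier (SS Ω F n1 k1 N lam)
    (fun p => ((p.2 : ℝ) + 1 / 2048) / 2 ^ p.1) (fun p => ((p.2 : ℝ) + 1 - 1 / 2048) / 2 ^ p.1)
    (fun p _ => by gcongr; linarith)
    (fun p hp q hq hpq => (SS_disj hp hq hpq).mono (Ioo_sub_JJ p) (Ioo_sub_JJ q))
    (lam / KK ^ 23)
  rw [← DD_eq] at hΦ2
  refine maxpr h RA_closed RA_bdd RA_sub RA_im RV_open (RV_sub hN) hΦ1 hΦ2 ?_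
  intro z hz hzV
  have hc : 0 < lam / KK ^ 23 := by positivity
  have hlog := RA_log h z hz
  rcases fr h hN hroot hlam hz hzV with h1 | h1
  · nlinarith
  · have h2 := PK_int_nonneg (RA_im z hz) (DD Ω F n1 k1 N lam)ᶜ
    nlinarith

theorem vol_bound (hd : volume (JJ n1 k1 \ EE Ω F n1 k1 N lam) ≤
    ENNReal.ofReal (1 / 2048 * (1 / 2 ^ n1))) :
    volume (JJ n1 k1 \ DD Ω F n1 k1 N lam) ≤ ENNReal.ofReal (3 / 2048 * (1 / 2 ^ n1)) := by
  have h1 : JJ n1 k1 \ DD Ω F n1 k1 N lam ⊆ (JJ n1 k1 \ EE Ω F n1 k1 N lam) ∪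
      (EE Ω F n1 k1 N lam \ DD Ω F n1 k1 N lam) := by
    intro x hx
    by_cases h : x ∈ EE Ω F n1 k1 N lam
    · exact Or.inr ⟨h, hx.2⟩
    · exact Or.inl ⟨hx.1, h⟩
  have hfin : volume (EE Ω F n1 k1 N lam) ≤ ENNReal.ofReal (1 / 2 ^ n1) := by
    rw [← JJ_vol n1 k1]
    exact measure_mono (fun x hx => hx.1)
  have hfin' : volume (EE Ω F n1 k1 N lam) ≠ ⊤ := (hfin.trans_lt ENNReal.ofReal_lt_top).ne
  have h2 : volume (EE Ω F n1 k1 N lam \ DD Ω F n1 k1 N lam) ≤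
      ENNReal.ofReal (1 / 1024 * (1 / 2 ^ n1)) := by
    have hDfin : volume (DD Ω F n1 k1 N lam) ≠ ⊤ :=
      ((measure_mono DD_sub).trans_lt (lt_top_iff_ne_top.mpr hfin')).ne
    rw [measure_sdiff DD_sub DD_meas.nullMeasurableSet hDfin, vol_DD]
    have e : volume (EE Ω F n1 k1 N lam) =
        ENNReal.ofReal (volume (EE Ω F n1 k1 N lam)).toReal := (ENNReal.ofReal_toReal hfin').symm
    have hv : (volume (EE Ω F n1 k1 N lam)).toReal ≤ 1 / 2 ^ n1 :=
      ENNReal.toReal_le_of_le_ofReal (by positivity) hfin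
    have hv0 : 0 ≤ (volume (EE Ω F n1 k1 N lam)).toReal := ENNReal.toReal_nonneg
    rw [e, ← ENNReal.ofReal_mul (by norm_num), ← ENNReal.ofReal_sub _ (by positivity)]
    apply ENNReal.ofReal_le_ofReal
    linarith
  calc volume (JJ n1 k1 \ DD Ω F n1 k1 N lam) ≤ _ := measure_mono h1
    _ ≤ _ := measure_union_le _ _
    _ ≤ ENNReal.ofReal (1 / 2048 * (1 / 2 ^ n1)) + ENNReal.ofReal (1 / 1024 * (1 / 2 ^ n1)) :=
        add_le_add hd h2
    _ = ENNReal.ofReal (3 / 2048 * (1 / 2 ^ n1)) := by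
        rw [← ENNReal.ofReal_add (by positivity) (by positivity)]
        congr 1; ring

theorem arctan32 : Real.pi / 2 - 1 / 32 ≤ Real.arctan 32 := by
  have h1 := Real.arctan_inv_of_pos (show (0 : ℝ) < 32 by norm_num)
  have h2 : Real.arctan (32 : ℝ)⁻¹ ≤ (32 : ℝ)⁻¹ := by
    have h3 : 0 ≤ Real.arctan (32 : ℝ)⁻¹ := Real.arctan_nonneg.mpr (by norm_num)
    have := Real.le_tan h3 (Real.arctan_lt_pi_div_two _)
    rwa [Real.tan_arctan] at this
  norm_num at h1 h2 ⊢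
  linarith

/-- the mass at the point over the centre -/
theorem mass_centre (hd : volume (JJ n1 k1 \ EE Ω F n1 k1 N lam) ≤
    ENNReal.ofReal (1 / 2048 * (1 / 2 ^ n1))) :
    ∫ t in (DD Ω F n1 k1 N lam)ᶜ, PK ⟨((k1 : ℝ) + 1 / 2) / 2 ^ n1, 1 / 2 ^ (n1 + 6)⟩ t ≤ 1 / 16 := by
  set z : ℂ := ⟨((k1 : ℝ) + 1 / 2) / 2 ^ n1, 1 / 2 ^ (n1 + 6)⟩ with hz
  have hp : (0 : ℝ) < 2 ^ n1 := by positivity
  have hzi : 0 < z.im := by rw [hz]; simp only; positivity
  have hpi := Real.pi_gt_three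
  have hsplit : (DD Ω F n1 k1 N lam)ᶜ = (JJ n1 k1)ᶜ ∪ (JJ n1 k1 \ DD Ω F n1 k1 N lam) := by
    ext x
    constructor
    · intro hx
      by_cases h : x ∈ JJ n1 k1
      · exact Or.inr ⟨h, hx⟩
      · exact Or.inl h
    · rintro (hx | hx)
      · exact fun h => hx (DD_sub_JJ h)
      · exact hx.2
  have hdisj : Disjoint (JJ n1 k1)ᶜ (JJ n1 k1 \ DD Ω F n1 k1 N lam) :=
    Set.disjoint_left.mpr (fun x hx hx' => hx hx'.1)
  rw [hsplit, setIntegral_union hdisj ((JJ_meas _ _).diff DD_meas)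
    (PK_integrable hzi).integrableOn (PK_integrable hzi).integrableOn]
  have h1 : ∫ t in (JJ n1 k1 \ DD Ω F n1 k1 N lam), PK z t ≤ 3 / 32 / Real.pi := by
    refine (PK_mass_le hzi (vol_bound hd) (by positivity)).trans (le_of_eq ?_)
    rw [hz]; simp only
    rw [pow_add]
    field_simp
    norm_num
  have h2 : ∫ t in (JJ n1 k1)ᶜ, PK z t ≤ 1 / 16 / Real.pi := by
    have h3 := integral_add_compl (JJ_meas n1 k1) (PK_integrable hzi)
    rw [PK_integral hzi] at h3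
    have h4 : ∫ t in Ioo ((k1 : ℝ) / 2 ^ n1) ((k1 + 1) / 2 ^ n1), PK z t ≤
        ∫ t in JJ n1 k1, PK z t := by
      refine setIntegral_mono_set (PK_integrable hzi).integrableOn
        (Eventually.of_forall fun t => PK_nonneg hzi t) (LE.le.eventuallyLE ?_)
      rw [JJ_eq]; exact Ioo_subset_Ico_self
    rw [PK_arctan hzi (by gcongr; linarith)] at h4
    have e1 : ((k1 + 1) / 2 ^ n1 - z.re) / z.im = 32 := by
      rw [hz]; simp only; rw [pow_add]; field_simp; ring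
    have e2 : ((k1 : ℝ) / 2 ^ n1 - z.re) / z.im = -32 := by
      rw [hz]; simp only; rw [pow_add]; field_simp; ring
    rw [e1, e2, Real.arctan_neg] at h4
    have h5 := arctan32
    have h6 : 1 - 1 / 16 / Real.pi ≤ 1 / Real.pi * (Real.arctan 32 - -Real.arctan 32) := by
      have h7 : 1 / Real.pi * (2 * (Real.pi / 2 - 1 / 32)) ≤
          1 / Real.pi * (Real.arctan 32 - -Real.arctan 32) := by
        apply mul_le_mul_of_nonneg_left _ (by positivity)
        linarith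
      refine le_trans (le_of_eq ?_) h7
      field_simp
      ring
    linarith
  have h8 : 3 / 32 / Real.pi + 1 / 16 / Real.pi ≤ 1 / 16 := by
    rw [← add_div, div_le_iff₀ (by positivity)]
    linarith
  linarith

/-- ONE STEP -/
theorem one_step (h : Om Ω F) (hN : n1 ≤ N) (hroot : Up Ω F n1 k1) (hlam : 0 < lam)
    (hd : volume (JJ n1 k1 \ EE Ω F n1 k1 N lam) ≤ ENNReal.ofReal (1 / 2048 * (1 / 2 ^ n1))) :
    lam / (2 * KK ^ 34) ≤ UU F n1 k1 := by
  have hK := one_le_KK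
  have hK0 : 0 < KK := by linarith
  have hp : (0 : ℝ) < 2 ^ n1 := by positivity
  set x0 : ℝ := ((k1 : ℝ) + 1 / 2) / 2 ^ n1 with hx0
  have hbx : bx n1 x0 = k1 := by
    rw [bx_eq_iff, hx0, div_mul_cancel₀ _ hp.ne']
    constructor <;> linarith
  have hU0 : 0 ≤ UU F n1 k1 := by have := hroot.2; linarith
  by_cases hA : AA Ω F n1 k1 N lam (n1 + 5) x0
  · set z0 : ℂ := ⟨((k1 : ℝ) + 1 / 2) / 2 ^ n1, 1 / 2 ^ (n1 + 6)⟩ with hz0
    have hz0T : z0 ∈ TB (n1 + 5) (bx (n1 + 5) x0) := by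
      refine ⟨bx_le _ _, (lt_bx _ _).le, ?_, ?_⟩
      · rw [hz0]; simp only
        rw [show n1 + 6 = (n1 + 5) + 1 by ring, pow_succ]
        field_simp; rfl
      · rw [hz0]; simp only
        rw [show n1 + 6 = (n1 + 5) + 1 by ring, pow_succ]
        field_simp; norm_num
    have h1 := region_le h hN hroot hlam z0 ⟨n1 + 5, x0, hA, hz0T⟩
    have h2 := mass_centre hd
    have h3 : lam / KK ^ 23 * (1 / 2) ≤ Real.log ‖F z0‖ := by
      refine le_trans ?_ h1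
      apply mul_le_mul_of_nonneg_left _ (by positivity)
      rw [hz0]
      linarith
    have hup5 : Up Ω F (n1 + 5) (bx (n1 + 5) x0) := hA.2.2.2.1 _ hA.1 le_rfl
    have h4 : Real.log ‖F z0‖ ≤ KK * UU F (n1 + 5) (bx (n1 + 5) x0) :=
      hup5.le h (zc_mem _ _) hz0T
    have h5 := (Up.path (F := F) h (j := n1) (x := x0) 5
      (fun i hi hi' => hA.2.2.2.1 i hi hi')).2
    rw [hbx] at h5
    rw [div_le_iff₀ (by positivity)]
    have h6 : lam ≤ 2 * KK ^ 23 * Real.log ‖F z0‖ := by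
      rw [div_mul_eq_mul_div, div_le_iff₀ (by positivity)] at h3
      linarith
    calc lam ≤ 2 * KK ^ 23 * Real.log ‖F z0‖ := h6
      _ ≤ 2 * KK ^ 23 * (KK * UU F (n1 + 5) (bx (n1 + 5) x0)) := by gcongr
      _ ≤ 2 * KK ^ 23 * (KK * (KK ^ (2 * 5) * UU F n1 k1)) := by gcongr
      _ = UU F n1 k1 * (2 * KK ^ 34) := by ring
  · obtain ⟨m, b1, b2, b3, b4⟩ := last_alive hN hroot hbx (by omega) hA
    rcases stop_cases b3 b4 with hc | ⟨hc, hc'⟩
    · obtain ⟨d, rfl⟩ := Nat.exists_eq_add_of_le b1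
      have h5 := (Up.path (F := F) h (j := n1) (x := x0) d
        (fun i hi hi' => b3.2.2.2.1 i hi hi')).2
      rw [hbx] at h5
      rw [div_le_iff₀ (by positivity)]
      calc lam ≤ UU F (n1 + d) (bx (n1 + d) x0) := hc
        _ ≤ KK ^ (2 * d) * UU F n1 k1 := h5
        _ ≤ KK ^ 34 * UU F n1 k1 := by
            apply mul_le_mul_of_nonneg_right _ hU0
            exact pow_le_pow_right₀ hK (by omega)
        _ ≤ UU F n1 k1 * (2 * KK ^ 34) := by
            have : 0 ≤ KK ^ 34 * UU F n1 k1 := by positivity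
            linarith
    · exfalso
      have hsub : JJ (m + 1) (bx (m + 1) x0) ⊆ JJ n1 k1 \ EE Ω F n1 k1 N lam := by
        intro t ht
        refine ⟨?_, emp b3 hc hc' ht⟩
        have : bx n1 t = bx n1 x0 := bx_anc ht (by omega)
        exact this.trans hbx
      have h1 := (measure_mono hsub).trans hd
      rw [JJ_vol, ENNReal.ofReal_le_ofReal_iff (by positivity)] at h1
      have h2 : (2 : ℝ) ^ (m + 1) ≤ 2 ^ (n1 + 5) := pow_le_pow_right₀ (by norm_num) (by omega)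
      have h3 : 1 / (2 : ℝ) ^ (n1 + 5) ≤ 1 / 2 ^ (m + 1) :=
        one_div_le_one_div_of_le (by positivity) h2
      have h4 : 1 / (2 : ℝ) ^ (n1 + 5) = 1 / 32 * (1 / 2 ^ n1) := by
        rw [pow_add]; field_simp; norm_num
      have h5 : (0 : ℝ) < 1 / 2 ^ n1 := by positivity
      linarith

end OneStep

end Crest.Agent.R102.G864
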