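import Crest.Agent.R102.LemG6_864

/-! # Lemma G: dyadic covering and iteration (weak type with a power) -/

open Set Filter Metric Complex Topology MeasureTheory

namespace Crest.Agent.R102.G864

theorem JJ_fin (n : ℕ) (k : ℤ) : volume (JJ n k) ≠ ⊤ := by
  rw [JJ_vol]; exact ENNReal.ofReal_ne_top

theorem JJ_real (n : ℕ) (k : ℤ) : volume.real (JJ n k) = 1 / 2 ^ n := by
  rw [Measure.real, JJ_vol, ENNReal.toReal_ofReal (by positivity)]

/-- splitting into the two halves -/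
theorem JJ_split (n : ℕ) (k : ℤ) : JJ n k = JJ (n + 1) (2 * k) ∪ JJ (n + 1) (2 * k + 1) := by
  ext x
  unfold JJ
  simp only [mem_union, mem_ofPred_eq, bx_eq_iff]
  push_cast
  rw [pow_succ]
  constructor
  · rintro ⟨h1, h2⟩
    rcases lt_or_ge (x * (2 ^ n * 2)) (2 * k + 1) with h | h
    · left; constructor <;> linarith
    · right; constructor <;> linarith
  · rintro (⟨h1, h2⟩ | ⟨h1, h2⟩)
    · constructor <;> linarith
    · constructor <;> linarith

theorem JJ_disj (n : ℕ) {k k' : ℤ} (h : k ≠ k') : Disjoint (JJ n k) (JJ n k') := by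
  rw [Set.disjoint_left]
  intro x hx hx'
  exact h (hx.symm.trans hx')

/-- most of the interval is covered -/
def Big (E : Set ℝ) (n : ℕ) (k : ℤ) : Prop :=
  volume.real (JJ n k \ E) ≤ 1 / 2048 * (1 / 2 ^ n)

/-- intervals which are not big but have a big child -/
def Hat (E : Set ℝ) (n1 N : ℕ) : Set ℝ :=
  {x | ∃ m, n1 ≤ m ∧ m < N ∧ ¬ Big E m (bx m x) ∧
    ∃ y, bx m y = bx m x ∧ Big E (m + 1) (bx (m + 1) y)}

theorem real_split (E : Set ℝ) (hE : MeasurableSet E) (n : ℕ) (k : ℤ) :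
    volume.real (E ∩ JJ n k) + volume.real (JJ n k \ E) = 1 / 2 ^ n := by
  rw [← JJ_real n k, inter_comm]
  exact measureReal_inter_add_sdiff hE (JJ_fin n k)

theorem real_children (A : Set ℝ) (n : ℕ) (k : ℤ) :
    volume.real (A ∩ JJ n k) =
      volume.real (A ∩ JJ (n + 1) (2 * k)) + volume.real (A ∩ JJ (n + 1) (2 * k + 1)) := by
  have h0 : volume (A ∩ JJ n k) ≠ ⊤ := measure_ne_top_of_subset inter_subset_right (JJ_fin _ _)
  have h1 := measureReal_inter_add_sdiff (s := A ∩ JJ n k) (JJ_meas (n + 1) (2 * k)) h0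
  have e1 : (A ∩ JJ n k) ∩ JJ (n + 1) (2 * k) = A ∩ JJ (n + 1) (2 * k) := by
    ext x
    constructor
    · rintro ⟨⟨a, _⟩, c⟩; exact ⟨a, c⟩
    · rintro ⟨a, c⟩
      exact ⟨⟨a, by rw [JJ_split]; exact Or.inl c⟩, c⟩
  have e2 : (A ∩ JJ n k) \ JJ (n + 1) (2 * k) = A ∩ JJ (n + 1) (2 * k + 1) := by
    ext x
    constructor
    · rintro ⟨⟨a, b⟩, c⟩
      rw [JJ_split] at b
      rcases b with b | b
      · exact absurd b c
      · exact ⟨a, b⟩
    · rintro ⟨a, b⟩
      refine ⟨⟨a, by rw [JJ_split]; exact Or.inr b⟩, ?_⟩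
      exact Set.disjoint_right.mp (JJ_disj (n + 1) (show 2 * k ≠ 2 * k + 1 by omega)) b
  rw [e1, e2] at h1
  exact h1.symm

theorem covering {E : Set ℝ} (hE : MeasurableSet E) {n1 N : ℕ}
    (hEN : ∀ x y, bx N x = bx N y → x ∈ E → y ∈ E) : ∀ (d n : ℕ) (k : ℤ), n + d = N → n1 ≤ n →
    ¬ Big E n k → volume.real (E ∩ JJ n k) ≤ 2047 / 2048 * volume.real (Hat E n1 N ∩ JJ n k) := by
  intro d
  induction d with
  | zero =>
    intro n k hn hn1 hb
    rw [add_zero] at hn
    subst hn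
    have : E ∩ JJ n k = ∅ := by
      by_contra hcon
      obtain ⟨x, hx1, hx2⟩ := nonempty_iff_ne_empty.mpr hcon
      apply hb
      have h0 : JJ n k \ E = ∅ := by
        ext y
        constructor
        · rintro ⟨h1, h2⟩
          exact h2 (hEN x y (hx2.trans h1.symm) hx1)
        · exact fun h => h.elim
      unfold Big
      rw [h0, measureReal_empty]
      positivity
    rw [this, measureReal_empty]
    positivity
  | succ d ih =>
    intro n k hn hn1 hb
    by_cases hc : Big E (n + 1) (2 * k) ∨ Big E (n + 1) (2 * k + 1)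
    · have hsub : Hat E n1 N ∩ JJ n k = JJ n k := by
        apply inter_eq_right.mpr
        intro x hx
        have hx' : bx n x = k := hx
        refine ⟨n, hn1, by omega, by rw [hx']; exact hb, ?_⟩
        rcases hc with hc | hc
        · refine ⟨((2 * k : ℤ) : ℝ) / 2 ^ (n + 1), ?_, by rw [bx_left]; exact hc⟩
          rw [hx']
          have : (((2 * k : ℤ) : ℝ) / 2 ^ (n + 1)) ∈ JJ n k := by
            rw [JJ_split]; exact Or.inl (bx_left _ _)
          exact this
        · refine ⟨((2 * k + 1 : ℤ) : ℝ) / 2 ^ (n + 1), ?_, by rw [bx_left]; exact hc⟩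
          rw [hx']
          have : (((2 * k + 1 : ℤ) : ℝ) / 2 ^ (n + 1)) ∈ JJ n k := by
            rw [JJ_split]; exact Or.inr (bx_left _ _)
          exact this
      rw [hsub, JJ_real]
      have h1 := real_split E hE n k
      unfold Big at hb
      push Not at hb
      linarith
    · push Not at hc
      rw [real_children E, real_children (Hat E n1 N)]
      have i1 := ih (n + 1) (2 * k) (by omega) (by omega) hc.1
      have i2 := ih (n + 1) (2 * k + 1) (by omega) (by omega) hc.2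
      linarith

section Iter

variable {Ω : Set ℂ} {F : ℂ → ℂ} {n1 : ℕ} {k1 : ℤ} {N : ℕ} {lam : ℝ}

theorem EE_N (x y : ℝ) (hxy : bx N x = bx N y) (hx : x ∈ EE Ω F n1 k1 N lam) :
    y ∈ EE Ω F n1 k1 N lam := by
  obtain ⟨h0, m, h1, h2, h3, h4⟩ := hx
  refine ⟨?_, m, h1, h2, ?_, ?_⟩
  · rw [← bx_anc hxy (h1.trans h2)]; exact h0
  · intro j hj hj'
    rw [← bx_anc hxy (hj'.trans h2)]; exact h3 j hj hj'
  · rw [← bx_anc hxy h2]; exact h4

/-- the gain -/
theorem gain (h : Om Ω F) (hN : n1 ≤ N) (hroot : Up Ω F n1 k1) (hlam : 0 < lam)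
    (hbig : UU F n1 k1 < lam / (2 * KK ^ 34)) :
    volume.real (EE Ω F n1 k1 N lam) ≤
      2047 / 2048 * volume.real (EE Ω F n1 k1 N (lam / (2 * KK ^ 36))) := by
  have hK := one_le_KK
  have hK0 : 0 < KK := by linarith
  set E := EE Ω F n1 k1 N lam with hE
  have hEJ : E ⊆ JJ n1 k1 := fun x hx => hx.1
  have hbigE : ∀ {n : ℕ} {k : ℤ}, Big E n k →
      volume (JJ n k \ E) ≤ ENNReal.ofReal (1 / 2048 * (1 / 2 ^ n)) := by
    intro n k hb
    have hfin : volume (JJ n k \ E) ≠ ⊤ := measure_ne_top_of_subset sdiff_subset (JJ_fin n k)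
    rw [← ENNReal.ofReal_toReal hfin]
    exact ENNReal.ofReal_le_ofReal hb
  have hnb : ¬ Big E n1 k1 := by
    intro hb
    have := one_step h hN hroot hlam (hbigE hb)
    linarith
  obtain ⟨d, hd⟩ := Nat.exists_eq_add_of_le hN
  have hcov := covering (n1 := n1) (N := N) EE_meas (fun x y hxy hx => EE_N x y hxy hx) d n1 k1
    hd.symm le_rfl hnb
  rw [← hE, inter_eq_left.mpr hEJ] at hcov
  refine hcov.trans ?_
  apply mul_le_mul_of_nonneg_left _ (by norm_num)
  apply measureReal_mono _ (measure_ne_top_of_subset (fun x hx => hx.1) (JJ_fin n1 k1))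
  rintro x ⟨⟨m, m1, m2, hnb', y, hy, hbig'⟩, hx⟩
  -- a point of E in the big child
  have hne : (JJ (m + 1) (bx (m + 1) y) ∩ E).Nonempty := by
    by_contra hcon
    rw [not_nonempty_iff_eq_empty] at hcon
    have h1 := real_split E EE_meas (m + 1) (bx (m + 1) y)
    rw [inter_comm, hcon, measureReal_empty] at h1
    unfold Big at hbig'
    have : (0 : ℝ) < 1 / 2 ^ (m + 1) := by positivity
    linarith
  -- no point of JJ m is reached before m + 1
  have hlate : ∀ s ∈ E, bx m s = bx m x → ∃ m', m + 1 ≤ m' ∧ m' ≤ N ∧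
      (∀ j, n1 ≤ j → j ≤ m' → Up Ω F j (bx j s)) ∧ lam ≤ UU F m' (bx m' s) := by
    intro s hs hsx
    obtain ⟨s0, m', s1, s2, s3, s4⟩ := hs
    refine ⟨m', ?_, s2, s3, s4⟩
    by_contra hcon
    push Not at hcon
    apply hnb'
    have h0 : JJ m (bx m x) \ E = ∅ := by
      ext w
      constructor
      · rintro ⟨w1, w2⟩
        apply w2
        have hw : bx m w = bx m s := w1.trans hsx.symm
        refine ⟨?_, m', s1, s2, ?_, ?_⟩
        · rw [bx_anc hw m1]; exact s0
        · intro j hj hj'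
          rw [bx_anc hw (by omega)]; exact s3 j hj hj'
        · rw [bx_anc hw (by omega)]; exact s4
      · exact fun h => h.elim
    unfold Big
    rw [h0, measureReal_empty]
    positivity
  obtain ⟨t, ht1, ht2⟩ := hne
  have htm1 : bx (m + 1) t = bx (m + 1) y := ht1
  have htm : bx m t = bx m x := (bx_anc htm1 (Nat.le_succ m)).trans hy
  obtain ⟨m', c1, c2, c3, c4⟩ := hlate t ht2 htm
  have hupc : Up Ω F (m + 1) (bx (m + 1) y) := by
    rw [← htm1]; exact c3 (m + 1) (by omega) c1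
  have hup : Up Ω F m (bx m t) := c3 m m1 (by omega)
  have hsub : JJ (m + 1) (bx (m + 1) y) \ EE Ω F (m + 1) (bx (m + 1) y) N lam ⊆
      JJ (m + 1) (bx (m + 1) y) \ E := by
    rintro s ⟨s1, s2⟩
    refine ⟨s1, fun hs => s2 ?_⟩
    have hs1 : bx (m + 1) s = bx (m + 1) y := s1
    obtain ⟨m'', d1, d2, d3, d4⟩ := hlate s hs ((bx_anc hs1 (Nat.le_succ m)).trans hy)
    exact ⟨hs1, m'', d1, d2, fun j hj hj' => d3 j (by omega) hj', d4⟩
  have hone := one_step h (show m + 1 ≤ N by omega) hupc hlam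
    ((measure_mono hsub).trans (hbigE hbig'))
  have hmeet : UU F (m + 1) (bx (m + 1) t) ≤ KK ^ 2 * UU F m (bx m t) := by
    obtain ⟨w1, w2⟩ := TB_succ m t
    exact (c3 (m + 1) (by omega) c1).meet h hup w2 w1
  rw [htm1] at hmeet
  refine ⟨hx, m, m1, m2.le, ?_, ?_⟩
  · intro j hj hj'
    rw [← bx_anc htm hj']
    exact c3 j hj (by omega)
  · rw [← htm]
    have h2 := hone.trans hmeet
    rw [div_le_iff₀ (by positivity)] at h2 ⊢
    calc lam ≤ KK ^ 2 * UU F m (bx m t) * (2 * KK ^ 34) := h2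
      _ = UU F m (bx m t) * (2 * KK ^ 36) := by ring

theorem EE_real_le : volume.real (EE Ω F n1 k1 N lam) ≤ 1 / 2 ^ n1 := by
  rw [← JJ_real n1 k1]
  exact measureReal_mono (fun x hx => hx.1) (JJ_fin n1 k1)

theorem iter (h : Om Ω F) (hN : n1 ≤ N) (hroot : Up Ω F n1 k1) : ∀ (j : ℕ) (lam : ℝ), 0 < lam →
    UU F n1 k1 < lam / (2 * KK ^ 36) ^ j / (2 * KK ^ 34) →
    volume.real (EE Ω F n1 k1 N lam) ≤ (2047 / 2048) ^ (j + 1) * (1 / 2 ^ n1) := by
  have hK := one_le_KK
  have hK0 : 0 < KK := by linarith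
  intro j
  induction j with
  | zero =>
    intro lam hlam h1
    rw [pow_zero, div_one] at h1
    calc volume.real (EE Ω F n1 k1 N lam) ≤ 2047 / 2048 * _ := gain h hN hroot hlam h1
      _ ≤ 2047 / 2048 * (1 / 2 ^ n1) := by gcongr; exact EE_real_le
      _ = _ := by ring
  | succ j ih =>
    intro lam hlam h1
    have hb : (1 : ℝ) ≤ 2 * KK ^ 36 := by
      have : (1 : ℝ) ≤ KK ^ 36 := one_le_pow₀ hK
      linarith
    have h2 : UU F n1 k1 < lam / (2 * KK ^ 34) := by
      refine h1.trans_le ?_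
      gcongr
      exact div_le_self hlam.le (one_le_pow₀ hb)
    have h3 := ih (lam / (2 * KK ^ 36)) (by positivity) (by
      refine lt_of_lt_of_eq h1 ?_
      rw [pow_succ]
      field_simp)
    calc volume.real (EE Ω F n1 k1 N lam) ≤ 2047 / 2048 * _ := gain h hN hroot hlam h2
      _ ≤ 2047 / 2048 * ((2047 / 2048) ^ (j + 1) * (1 / 2 ^ n1)) := by gcongr
      _ = _ := by ring

/-- the exponent -/
noncomputable def TH : ℝ := Real.log (2048 / 2047) / Real.log (2 * KK ^ 36)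

theorem two_le : (2 : ℝ) ≤ 2 * KK ^ 36 := by
  have : (1 : ℝ) ≤ KK ^ 36 := one_le_pow₀ one_le_KK
  linarith

theorem TH_pos : 0 < TH := by
  have := two_le
  unfold TH
  apply div_pos (Real.log_pos (by norm_num)) (Real.log_pos (by linarith))

theorem TH_eq (j : ℕ) : ((2047 : ℝ) / 2048) ^ j = ((2 * KK ^ 36) ^ j)⁻¹ ^ TH := by
  have h2 := two_le
  have hpos : (0 : ℝ) < 2 * KK ^ 36 := by linarith
  have hl : 0 < Real.log (2 * KK ^ 36) := Real.log_pos (by linarith)
  rw [Real.rpow_def_of_pos (by positivity), Real.log_inv, Real.log_pow, ← Real.exp_log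
    (show (0 : ℝ) < (2047 / 2048) ^ j by positivity), Real.log_pow]
  congr 1
  have : Real.log (2047 / 2048) = - Real.log (2048 / 2047) := by
    rw [← Real.log_inv]; norm_num
  rw [this]
  unfold TH
  field_simp

/-- WEAK TYPE with a power, finite depth -/
theorem weakN (h : Om Ω F) (hN : n1 ≤ N) (hroot : Up Ω F n1 k1) {l : ℝ} (hl : 1 ≤ l) :
    volume.real (EE Ω F n1 k1 N (l * UU F n1 k1)) ≤
      (2 * KK ^ 34) ^ TH * l ^ (-TH) * (1 / 2 ^ n1) := by
  classical
  have hK := one_le_KK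
  have hK0 : 0 < KK := by linarith
  have hU : 0 < UU F n1 k1 := by have := hroot.2; linarith
  have hT := TH_pos
  have h2 := two_le
  have hB : (0 : ℝ) < 2 * KK ^ 34 := by positivity
  have hex : ∃ n : ℕ, l / (2 * KK ^ 36) ^ n ≤ 2 * KK ^ 34 := by
    obtain ⟨n, hn⟩ := pow_unbounded_of_one_lt (l / (2 * KK ^ 34)) (show (1 : ℝ) < 2 * KK ^ 36 by linarith)
    refine ⟨n, ?_⟩
    rw [div_le_iff₀ (by positivity)]
    rw [div_lt_iff₀ hB] at hn
    linarith
  have hs := Nat.find_spec hex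
  have hmin := fun j (hj : j < Nat.find hex) => Nat.find_min hex hj
  set n := Nat.find hex
  have hfin : ((2047 : ℝ) / 2048) ^ n ≤ (2 * KK ^ 34) ^ TH * l ^ (-TH) := by
    rw [TH_eq, Real.rpow_neg (by linarith), ← div_eq_mul_inv, ← Real.div_rpow hB.le (by linarith)]
    apply Real.rpow_le_rpow (by positivity) _ hT.le
    rw [inv_eq_one_div, div_le_div_iff₀ (by positivity) (by linarith)]
    rw [div_le_iff₀ (by positivity)] at hs
    linarith
  have hkey : volume.real (EE Ω F n1 k1 N (l * UU F n1 k1)) ≤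
      (2047 / 2048) ^ n * (1 / 2 ^ n1) := by
    rcases Nat.eq_zero_or_pos n with h0 | h0
    · rw [h0, pow_zero, one_mul]; exact EE_real_le
    · obtain ⟨j, hj⟩ : ∃ j, n = j + 1 := ⟨n - 1, by omega⟩
      rw [hj]
      apply iter h hN hroot j _ (by positivity)
      have h3 := hmin j (by omega)
      push Not at h3
      rw [lt_div_iff₀ hB]
      calc UU F n1 k1 * (2 * KK ^ 34) < UU F n1 k1 * (l / (2 * KK ^ 36) ^ j) := by gcongr
        _ = l * UU F n1 k1 / (2 * KK ^ 36) ^ j := by ring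
  refine hkey.trans ?_
  gcongr

/-- WEAK TYPE with a power -/
theorem weak (h : Om Ω F) (hroot : Up Ω F n1 k1) {l : ℝ} (hl : 1 ≤ l) :
    volume {x | bx n1 x = k1 ∧ ∃ m, n1 ≤ m ∧ (∀ j, n1 ≤ j → j ≤ m → Up Ω F j (bx j x)) ∧
      l * UU F n1 k1 ≤ UU F m (bx m x)} ≤
      ENNReal.ofReal ((2 * KK ^ 34) ^ TH * l ^ (-TH) / 2 ^ n1) := by
  have hK0 : 0 < KK := by linarith [one_le_KK]
  have he : {x | bx n1 x = k1 ∧ ∃ m, n1 ≤ m ∧ (∀ j, n1 ≤ j → j ≤ m → Up Ω F j (bx j x)) ∧
      l * UU F n1 k1 ≤ UU F m (bx m x)} =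
      ⋃ N : ℕ, EE Ω F n1 k1 (n1 + N) (l * UU F n1 k1) := by
    ext x
    simp only [mem_iUnion, mem_ofPred_eq]
    constructor
    · rintro ⟨h0, m, h1, h2, h3⟩
      exact ⟨m - n1, h0, m, h1, by omega, h2, h3⟩
    · rintro ⟨N, h0, m, h1, _, h2, h3⟩
      exact ⟨h0, m, h1, h2, h3⟩
  have hmono : Monotone (fun N : ℕ => EE Ω F n1 k1 (n1 + N) (l * UU F n1 k1)) := by
    intro a b hab x hx
    obtain ⟨h0, m, h1, h2, h3, h4⟩ := hx
    exact ⟨h0, m, h1, by omega, h3, h4⟩
  rw [he, hmono.measure_iUnion]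
  apply iSup_le
  intro N
  have h1 := weakN h (show n1 ≤ n1 + N by omega) hroot hl
  have hfin : volume (EE Ω F n1 k1 (n1 + N) (l * UU F n1 k1)) ≠ ⊤ :=
    measure_ne_top_of_subset (fun x hx => hx.1) (JJ_fin n1 k1)
  rw [← ENNReal.ofReal_toReal hfin]
  apply ENNReal.ofReal_le_ofReal
  refine h1.trans (le_of_eq ?_)
  ring

end Iter

end Crest.Agent.R102.G864
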