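import Crest.Agent.R102.LemGDefs_672

/-! # LEMMA G: comparison along chains, T2, and the assembly -/

open Set Filter Metric MeasureTheory
open scoped Topology ENNReal

namespace Crest.Agent.R102.LemG672

/-- `1 + |log |F z||` -/
noncomputable def LL (F : ℂ → ℂ) (z : ℂ) : ℝ := 1 + |Real.log ‖F z‖|

theorem one_le_LL (F : ℂ → ℂ) (z : ℂ) : 1 ≤ LL F z := by
  unfold LL; linarith [abs_nonneg (Real.log ‖F z‖)]

theorem Hf_eq (F : ℂ → ℂ) (n : ℕ) (k : ℤ) : Hf F n k = LL F (zp n k) := rfl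

/-- one step -/
def Stp (C : ℝ) : Prop := 1 ≤ C ∧ ∀ (W : Set ℂ) (F : ℂ → ℂ), Omit W F → ∀ (w z : ℂ) (r : ℝ),
  0 < r → ball w r ⊆ W → ‖z - w‖ ≤ r / 2 → LL F z ≤ C * LL F w

theorem exists_Stp (hS : SharpSchottky) : ∃ C, Stp C := by
  obtain ⟨C, hC, h⟩ := hS (1 / 2) (by norm_num) (by norm_num)
  refine ⟨2 * C, by linarith, fun W F hF w z r hr hb hz => ?_⟩
  have h1 := h w r hr F (hF.2.1.mono hb) (fun z hz => hF.2.2 z (hb hz)) z (by
    rw [mem_closedBall, dist_eq_norm]; linarith)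
  have h2 := one_le_LL F w
  have h3 : C * (1 + |Real.log ‖F w‖|) = C * LL F w := rfl
  unfold LL at h2 ⊢
  have h4 : 1 * 1 ≤ C * (1 + |Real.log ‖F w‖|) := by
    apply mul_le_mul hC h2 (by norm_num) (by linarith)
  nlinarith

theorem chain {C : ℝ} (hC : Stp C) {W : Set ℂ} {F : ℂ → ℂ} (hF : Omit W F) {p q : ℂ} {r : ℝ}
    (hr : 0 < r) (hseg : ∀ t : ℝ, 0 ≤ t → t ≤ 1 → ball (p + t * (q - p)) r ⊆ W) {N : ℕ}
    (hN : ‖q - p‖ ≤ N * (r / 2)) (hN0 : 0 < N) : LL F q ≤ C ^ N * LL F p := by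
  have hN' : (0 : ℝ) < N := by exact_mod_cast hN0
  have key : ∀ i : ℕ, i ≤ N → LL F (p + ((i / N : ℝ) : ℂ) * (q - p)) ≤ C ^ i * LL F p := by
    intro i
    induction i with
    | zero => intro _; simp
    | succ i ih =>
      intro hi
      have hi' : ((i : ℝ) + 1) ≤ N := by exact_mod_cast hi
      have h1 := ih (by omega)
      have h2 := hC.2 W F hF (p + ((i / N : ℝ) : ℂ) * (q - p))
        (p + (((i + 1 : ℕ) / N : ℝ) : ℂ) * (q - p)) r hr
        (hseg _ (by positivity) (by rw [div_le_one hN']; linarith)) (by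
          have : (p + (((i + 1 : ℕ) / N : ℝ) : ℂ) * (q - p)) -
              (p + ((i / N : ℝ) : ℂ) * (q - p)) = (((1 : ℝ) / N : ℝ) : ℂ) * (q - p) := by
            push_cast; ring
          rw [this, norm_mul, Complex.norm_real, Real.norm_of_nonneg (by positivity),
            one_div, inv_mul_le_iff₀ hN']
          exact hN)
      calc LL F (p + (((i + 1 : ℕ) / N : ℝ) : ℂ) * (q - p)) ≤ C * (C ^ i * LL F p) := by
            refine h2.trans ?_
            exact mul_le_mul_of_nonneg_left h1 (by linarith [hC.1])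
        _ = C ^ (i + 1) * LL F p := by ring
  have := key N le_rfl
  rw [div_self hN'.ne'] at this
  simpa using this

/-! ### parent and child -/

theorem zp_child (n : ℕ) (k : ℤ) : ‖zp (n + 1) k - zp n (k / 2)‖ ≤ 56 / 100 * (1 / 2 ^ n) := by
  have h2 : (0 : ℝ) < 2 ^ n := by positivity
  have hk : k % 2 = 0 ∨ k % 2 = 1 := by omega
  have hk2 : k = 2 * (k / 2) + k % 2 := by omega
  set m := k / 2 with hm
  have hre : (zp (n + 1) k - zp n m).re = (((k : ℝ) - 2 * m) / 2 - 1 / 4) / 2 ^ n := by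
    simp only [zp, Complex.sub_re]
    rw [pow_succ]; field_simp; ring
  have him : (zp (n + 1) k - zp n m).im = - (1 / 2) / 2 ^ n := by
    simp only [zp, Complex.sub_im]
    rw [pow_succ]; field_simp; ring
  have hc : (k : ℝ) - 2 * m = 0 ∨ (k : ℝ) - 2 * m = 1 := by
    have : (k : ℝ) = 2 * m + (k % 2 : ℤ) := by exact_mod_cast hk2
    rcases hk with h | h <;> rw [h] at this <;> push_cast at this
    · left; linarith
    · right; linarith
  have hsq : ‖zp (n + 1) k - zp n m‖ ^ 2 = (5 / 16) * (1 / 2 ^ n) ^ 2 := by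
    rw [← Complex.normSq_eq_norm_sq, Complex.normSq_apply, hre, him]
    rcases hc with h | h <;> rw [h] <;> field_simp <;> ring
  have h3 : 0 < (1 : ℝ) / 2 ^ n := by positivity
  nlinarith [norm_nonneg (zp (n + 1) k - zp n m)]

theorem seg_ball {p q : ℂ} {r R : ℝ} (h : ‖q - p‖ + r ≤ R) {t : ℝ} (h0 : 0 ≤ t) (h1 : t ≤ 1) :
    ball (p + t * (q - p)) r ⊆ ball p R := by
  intro z hz
  rw [mem_ball, dist_eq_norm] at hz ⊢
  have e : z - p = (z - (p + t * (q - p))) + t * (q - p) := by ring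
  rw [e]
  refine (norm_add_le _ _).trans_lt ?_
  rw [norm_mul, Complex.norm_real, Real.norm_of_nonneg h0]
  nlinarith [norm_nonneg (q - p)]

theorem exists_T2 {C : ℝ} (hC : Stp C) : T2 (C ^ 6) := by
  intro W F hF n k
  have h3 : 0 < (1 : ℝ) / 2 ^ n := by positivity
  have hd := zp_child n k
  have hd' : ‖zp n (k / 2) - zp (n + 1) k‖ ≤ 56 / 100 * (1 / 2 ^ n) := by
    rw [norm_sub_rev]; exact hd
  have hr : 0 < 19 / 100 * ((1 : ℝ) / 2 ^ n) := by positivity
  constructor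
  · intro hA
    rw [Hf_eq, Hf_eq]
    refine chain hC hF hr (fun t h0 h1 => (seg_ball ?_ h0 h1).trans hA) ?_ (by norm_num)
    · linarith
    · push_cast; linarith
  · intro _ hA
    rw [Hf_eq, Hf_eq]
    refine chain hC hF hr (fun t h0 h1 => ?_) ?_ (by norm_num)
    · have : zp (n + 1) k + (t : ℂ) * (zp n (k / 2) - zp (n + 1) k) =
        zp n (k / 2) + ((1 - t : ℝ) : ℂ) * (zp (n + 1) k - zp n (k / 2)) := by
        push_cast; ring
      rw [this]
      refine (seg_ball (R := 3 / 4 * (1 / 2 ^ n)) ?_ (by linarith) (by linarith)).trans hA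
      linarith
    · push_cast; linarith

/-! ### transfer to verticals -/

theorem zp_bx (n : ℕ) (x : ℝ) : |(zp n (bx n x)).re - x| ≤ 1 / 2 * (1 / 2 ^ n) := by
  have h2 : (0 : ℝ) < 2 ^ n := by positivity
  have h1 := Int.floor_le ((2 : ℝ) ^ n * x)
  have h3 := Int.lt_floor_add_one ((2 : ℝ) ^ n * x)
  simp only [zp, bx]
  have : ((⌊(2 : ℝ) ^ n * x⌋ : ℝ) + 1 / 2) / 2 ^ n - x =
      (((⌊(2 : ℝ) ^ n * x⌋ : ℝ) + 1 / 2) - 2 ^ n * x) / 2 ^ n := by
    field_simp
  rw [this, abs_div, abs_of_pos h2, div_eq_mul_one_div]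
  apply mul_le_mul_of_nonneg_right _ (by positivity)
  rw [abs_le]; constructor <;> linarith

theorem zp_im (n : ℕ) (k : ℤ) : (zp n k).im = 1 / 2 ^ n := rfl

theorem av_of_cone {W : Set ℂ} {a h x : ℝ} (ha : 6 ≤ a) (hc : LP472.Cone a h x ⊆ W) {n : ℕ}
    (hn : 7 / 4 * (1 / 2 ^ n) ≤ h) : Av W n (bx n x) := by
  intro z hz
  apply hc
  have h3 : 0 < (1 : ℝ) / 2 ^ n := by positivity
  rw [mem_ball, dist_eq_norm] at hz
  have hre : |(z - zp n (bx n x)).re| < 3 / 4 * (1 / 2 ^ n) :=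
    (Complex.abs_re_le_norm _).trans_lt hz
  have him : |(z - zp n (bx n x)).im| < 3 / 4 * (1 / 2 ^ n) :=
    (Complex.abs_im_le_norm _).trans_lt hz
  have hx := zp_bx n x
  rw [Complex.sub_re, abs_lt] at hre
  rw [Complex.sub_im, zp_im, abs_lt] at him
  rw [abs_le] at hx
  have hi : 1 / 4 * (1 / 2 ^ n) < z.im := by linarith
  refine ⟨by linarith, by linarith, ?_⟩
  have : 5 * (1 / 4 * (1 / 2 ^ n)) < a * z.im := by
    have : 6 * z.im ≤ a * z.im := by
      apply mul_le_mul_of_nonneg_right ha; linarith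
    linarith
  rw [abs_lt]; constructor <;> linarith

theorem vert_ball {W : Set ℂ} {a h x s' : ℝ} (ha : 6 ≤ a) (hc : LP472.Cone a h x ⊆ W) {n : ℕ}
    (h1 : 1 / 2 ^ n ≤ s') (h3 : s' ≤ h / 2) {w : ℂ}
    (hw1 : |w.re - x| ≤ 1 / 2 * (1 / 2 ^ n)) (hw2 : 1 / 2 ^ n ≤ w.im) (hw3 : w.im ≤ s') :
    ball w (1 / 2 * (1 / 2 ^ n)) ⊆ W := by
  intro z hz
  apply hc
  have h3 : 0 < (1 : ℝ) / 2 ^ n := by positivity
  rw [mem_ball, dist_eq_norm] at hz
  have hre : |(z - w).re| < 1 / 2 * (1 / 2 ^ n) := (Complex.abs_re_le_norm _).trans_lt hz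
  have him : |(z - w).im| < 1 / 2 * (1 / 2 ^ n) := (Complex.abs_im_le_norm _).trans_lt hz
  rw [Complex.sub_re, abs_lt] at hre
  rw [Complex.sub_im, abs_lt] at him
  rw [abs_le] at hw1
  have hi : 1 / 2 * (1 / 2 ^ n) < z.im := by linarith
  refine ⟨by linarith, by linarith, ?_⟩
  have : 2 * (1 / 2 * (1 / 2 ^ n)) < a * z.im := by
    have : 6 * z.im ≤ a * z.im := by
      apply mul_le_mul_of_nonneg_right ha; linarith
    linarith
  rw [abs_lt]; constructor <;> linarith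

theorem vert_aux {x s' : ℝ} {n : ℕ} (h1 : 1 / 2 ^ n ≤ s') {t : ℝ} (h0 : 0 ≤ t) (ht : t ≤ 1) :
    |(zp n (bx n x) + t * ((⟨x, s'⟩ : ℂ) - zp n (bx n x))).re - x| ≤ 1 / 2 * (1 / 2 ^ n) ∧
    1 / 2 ^ n ≤ (zp n (bx n x) + t * ((⟨x, s'⟩ : ℂ) - zp n (bx n x))).im ∧
    (zp n (bx n x) + t * ((⟨x, s'⟩ : ℂ) - zp n (bx n x))).im ≤ s' := by
  have hx := zp_bx n x
  simp only [Complex.add_re, Complex.mul_re, Complex.ofReal_re, Complex.sub_re, Complex.ofReal_im,
    zero_mul, sub_zero, Complex.add_im, Complex.mul_im, Complex.sub_im, add_zero, zp_im]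
  refine ⟨?_, by nlinarith, by nlinarith⟩
  have : (zp n (bx n x)).re + t * (x - (zp n (bx n x)).re) - x =
      (1 - t) * ((zp n (bx n x)).re - x) := by ring
  rw [this, abs_mul, abs_of_nonneg (by linarith : (0:ℝ) ≤ 1 - t)]
  nlinarith [abs_nonneg ((zp n (bx n x)).re - x)]

theorem vert_norm {x s' : ℝ} {n : ℕ} (h1 : 1 / 2 ^ n ≤ s') (h2 : s' ≤ 2 * (1 / 2 ^ n)) :
    ‖(⟨x, s'⟩ : ℂ) - zp n (bx n x)‖ ≤ 3 / 2 * (1 / 2 ^ n) := by
  have hx := zp_bx n x
  refine (Complex.norm_le_abs_re_add_abs_im _).trans ?_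
  rw [Complex.sub_re, Complex.sub_im, zp_im]
  have : |x - (zp n (bx n x)).re| ≤ 1 / 2 * (1 / 2 ^ n) := by rw [abs_sub_comm]; exact hx
  have h3 : |s' - 1 / 2 ^ n| ≤ 1 / 2 ^ n := by rw [abs_le]; constructor <;> linarith
  simp only at *
  linarith

/-- from the box to the vertical -/
theorem LL_vert {C : ℝ} (hC : Stp C) {W : Set ℂ} {F : ℂ → ℂ} (hF : Omit W F) {a h x s' : ℝ}
    (ha : 6 ≤ a) (hc : LP472.Cone a h x ⊆ W) {n : ℕ} (h1 : 1 / 2 ^ n ≤ s')
    (h2 : s' ≤ 2 * (1 / 2 ^ n)) (h3 : s' ≤ h / 2) :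
    LL F ⟨x, s'⟩ ≤ C ^ 6 * LL F (zp n (bx n x)) := by
  have h4 : 0 < (1 : ℝ) / 2 ^ n := by positivity
  refine chain hC hF (r := 1 / 2 * (1 / 2 ^ n)) (by positivity) (fun t h0 ht => ?_) ?_
    (by norm_num)
  · obtain ⟨a1, a2, a3⟩ := vert_aux (x := x) h1 h0 ht
    exact vert_ball ha hc h1 h3 a1 a2 a3
  · refine (vert_norm h1 h2).trans ?_
    push_cast; linarith

theorem omit_sub {W : Set ℂ} {F : ℂ → ℂ} (hF : Omit W F) : Omit W (fun z => 1 - F z) := by
  refine ⟨hF.1, (differentiableOn_const _).sub hF.2.1, fun z hz => ⟨?_, ?_⟩⟩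
  · intro h; exact (hF.2.2 z hz).2 (by linear_combination -h)
  · intro h; exact (hF.2.2 z hz).1 (by linear_combination -h)

theorem asm (hS : SharpSchottky) (h3 : T3All) (ht : Tree) (hi : InfThick) : LemmaG := by
  obtain ⟨C, hC⟩ := exists_Stp hS
  obtain ⟨T0, e0, hT0, he0, h3⟩ := h3
  obtain ⟨T1, e1, hT1, he1, hi⟩ := hi
  set T := max T0 T1 with hT
  set e := min e0 e1 with he
  have hepos : 0 < e := lt_min he0 he1
  obtain ⟨C3, θ, H1, hθ, h3⟩ := h3 T e (le_max_left _ _) hepos (min_le_left _ _)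
  obtain ⟨Cs, ht⟩ := ht (C ^ 6) T H1 C3 θ hθ
  have hCp : 0 < C := by linarith [hC.1]
  -- constant for the cusp at 1
  set D : ℝ := C ^ 6 * (1 + max |Real.log e| (Real.log (1 + Real.exp T))) with hD
  refine ⟨C ^ 6 * Cs, C ^ 6 * T, Real.exp (-D), Real.exp_pos _, ?_⟩
  intro W F hF a h P ha hh hh1 hP
  have hn0 : ∃ n : ℕ, 7 / 4 * (1 / 2 ^ n : ℝ) ≤ h := by
    obtain ⟨n, hn⟩ := exists_pow_lt_of_lt_one (show (0:ℝ) < 4 / 7 * h by positivity)
      (show (1 / 2 : ℝ) < 1 by norm_num)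
    refine ⟨n, ?_⟩
    rw [one_div, inv_pow] at hn
    rw [one_div]; linarith
  classical
  set n0 := Nat.find hn0 with hn0d
  have hn0s : 7 / 4 * (1 / 2 ^ n0 : ℝ) ≤ h := Nat.find_spec hn0
  have hmono : ∀ {m n : ℕ}, m ≤ n → (1 / 2 ^ n : ℝ) ≤ 1 / 2 ^ m := by
    intro m n hmn
    apply one_div_le_one_div_of_le (by positivity)
    exact pow_le_pow_right₀ (by norm_num) hmn
  have hav : ∀ x ∈ P, ∀ n, n0 ≤ n → Av W n (bx n x) := by
    intro x hx n hn
    refine av_of_cone ha (hP x hx) ?_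
    have := hmono hn
    linarith
  have htree := ht (Hf F) (Av W) (Th F T e) (fun n k => one_le_LL F _) (fun n k hk => hk.1)
    (fun n k hA hA' => ⟨(exists_T2 hC W F hF n k).1 hA, (exists_T2 hC W F hF n k).2 hA' hA⟩)
    (h3 W F hF) n0
  have hinf := hi T e (le_max_right _ _) hepos (min_le_right _ _) W F hF a h P ha hh hP
  filter_upwards [htree, hinf] with x hx1 hx2 hxP
  rcases hx2 hxP with hth | hlim
  · right
    have hfr := hx1 (hav x hxP) hth
    have hten : Tendsto (fun n : ℕ => (1 / 2 ^ n : ℝ)) atTop (𝓝[>] 0) := by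
      rw [tendsto_nhdsWithin_iff]
      refine ⟨?_, Eventually.of_forall fun n => by simp⟩
      have := tendsto_pow_atTop_nhds_zero_of_lt_one (r := (1 / 2 : ℝ)) (by norm_num) (by norm_num)
      simpa [one_div, inv_pow] using this
    refine hten.frequently ((hfr.and_eventually (eventually_ge_atTop (n0 + 1))).mono ?_)
    rintro n ⟨⟨hthn, hb⟩, hn⟩
    have hcone := hP x hxP
    have hsn : (1 / 2 ^ n : ℝ) ≤ h / 2 := by
      have := hmono hn
      rw [pow_succ] at this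
      have e2 : (1 / (2 ^ n0 * 2) : ℝ) = 1 / 2 * (1 / 2 ^ n0) := by field_simp
      rw [e2] at this
      linarith
    have hpos : (0 : ℝ) < 1 / 2 ^ n := by positivity
    refine ⟨?_, ?_, ?_⟩
    · have h5 := LL_vert hC hF ha hcone (n := n) le_rfl (by linarith) hsn
      have h6 : LL F (zp n (bx n x)) ≤ T := hthn.1
      have h7 : C ^ 6 * LL F (zp n (bx n x)) ≤ C ^ 6 * T :=
        mul_le_mul_of_nonneg_left h6 (by positivity)
      have h8 : |Real.log ‖F (⟨x, 1 / 2 ^ n⟩ : ℂ)‖| ≤ LL F ⟨x, 1 / 2 ^ n⟩ := by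
        unfold LL; linarith
      linarith
    · have h5 := LL_vert hC (omit_sub hF) ha hcone (n := n) le_rfl (by linarith) hsn
      have hz : F (zp n (bx n x)) ≠ 0 ∧ F (zp n (bx n x)) ≠ 1 :=
        hF.2.2 _ (hav x hxP n (by omega) (mem_ball_self (by positivity)))
      have h6 : |Real.log ‖1 - F (zp n (bx n x))‖| ≤
          max |Real.log e| (Real.log (1 + Real.exp T)) := by
        have a1 : e ≤ ‖1 - F (zp n (bx n x))‖ := by rw [norm_sub_rev]; exact hthn.2
        have a2 : ‖1 - F (zp n (bx n x))‖ ≤ 1 + Real.exp T := by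
          refine (norm_sub_le _ _).trans ?_
          rw [norm_one]
          have : ‖F (zp n (bx n x))‖ ≤ Real.exp T := by
            rw [← Real.exp_log (norm_pos_iff.2 hz.1)]
            apply Real.exp_le_exp.2
            have := hthn.1
            unfold Hf at this
            linarith [le_abs_self (Real.log ‖F (zp n (bx n x))‖)]
          linarith
        rw [abs_le]
        constructor
        · have := Real.log_le_log hepos a1
          have b1 := neg_abs_le (Real.log e)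
          have b2 := le_max_left |Real.log e| (Real.log (1 + Real.exp T))
          linarith
        · exact (Real.log_le_log (by linarith) a2).trans (le_max_right _ _)
      have h7 : LL (fun z => 1 - F z) ⟨x, 1 / 2 ^ n⟩ ≤ D := by
        refine h5.trans ?_
        rw [hD]
        apply mul_le_mul_of_nonneg_left _ (by positivity)
        unfold LL
        linarith
      unfold LL at h7
      have h8 := neg_abs_le (Real.log ‖1 - F (⟨x, 1 / 2 ^ n⟩ : ℂ)‖)
      have hb2 : F (⟨x, 1 / 2 ^ n⟩ : ℂ) ≠ 1 := by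
        have : (⟨x, 1 / 2 ^ n⟩ : ℂ) ∈ W := by
          apply hcone
          refine ⟨hpos, by show (1 / 2 ^ n : ℝ) < h; linarith, ?_⟩
          show |x - x| < a * (1 / 2 ^ n)
          rw [sub_self, abs_zero]; positivity
        exact (hF.2.2 _ this).2
      rw [norm_sub_rev, ← Real.exp_log (norm_pos_iff.2 (sub_ne_zero.2 hb2.symm) :
        0 < ‖1 - F (⟨x, 1 / 2 ^ n⟩ : ℂ)‖)]
      apply Real.exp_le_exp.2
      linarith
    · intro s' hs1 hs2
      -- the generation of s'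
      have hs0 : 0 < s' := hpos.trans_le hs1
      have hex : ∃ j : ℕ, (1 / 2 ^ j : ℝ) ≤ s' := ⟨n, hs1⟩
      set j := Nat.find hex with hj
      have hjs : (1 / 2 ^ j : ℝ) ≤ s' := Nat.find_spec hex
      have hjn : j ≤ n := Nat.find_min' hex hs1
      have hj0 : j ≠ 0 := by
        intro h0
        rw [h0] at hjs
        norm_num at hjs
        linarith
      have hjs2 : s' ≤ 2 * (1 / 2 ^ j) := by
        obtain ⟨i, hi⟩ := Nat.exists_eq_succ_of_ne_zero hj0
        have := Nat.find_min hex (m := i) (by omega)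
        push Not at this
        rw [hi, Nat.succ_eq_add_one, pow_succ]
        have e2 : (2 * (1 / (2 ^ i * 2)) : ℝ) = 1 / 2 ^ i := by field_simp
        rw [e2]; exact this.le
      have hnj : n0 ≤ j := by
        apply Nat.find_min' hn0
        linarith
      have hb' := hb j hnj hjn
      have h5 := LL_vert hC hF ha hcone (n := j) hjs hjs2 hs2
      have hCs : 0 < Cs := by
        have h6 : 1 ≤ Hf F j (bx j x) := one_le_LL F _
        have h7 : (0 : ℝ) < 2 ^ (((n : ℝ) - j) / 2) := by positivity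
        by_contra hcon
        push Not at hcon
        nlinarith
      have hrp : (2 : ℝ) ^ (((n : ℝ) - j) / 2) ≤ (s' / (1 / 2 ^ n)) ^ (1 / 2 : ℝ) := by
        have e3 : (2 : ℝ) ^ (((n : ℝ) - j) / 2) = ((2 : ℝ) ^ ((n : ℝ) - j)) ^ (1 / 2 : ℝ) := by
          rw [← Real.rpow_mul (by norm_num)]; congr 1; ring
        rw [e3]
        apply Real.rpow_le_rpow (by positivity) _ (by norm_num)
        rw [Real.rpow_sub (by norm_num), Real.rpow_natCast, Real.rpow_natCast]
        rw [le_div_iff₀ hpos]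
        calc (2 : ℝ) ^ n / 2 ^ j * (1 / 2 ^ n) = 1 / 2 ^ j := by field_simp
          _ ≤ s' := hjs
      calc 1 + |Real.log ‖F (⟨x, s'⟩ : ℂ)‖| ≤ C ^ 6 * Hf F j (bx j x) := h5
        _ ≤ C ^ 6 * (Cs * 2 ^ (((n : ℝ) - j) / 2)) :=
            mul_le_mul_of_nonneg_left hb' (by positivity)
        _ = C ^ 6 * Cs * 2 ^ (((n : ℝ) - j) / 2) := by ring
        _ ≤ C ^ 6 * Cs * (s' / (1 / 2 ^ n)) ^ (1 / 2 : ℝ) :=
            mul_le_mul_of_nonneg_left hrp (by positivity)
  · left; exact hlim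

end Crest.Agent.R102.LemG672
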