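import Crest.Agent.R102.LemGDefs_672
import Crest.Agent.R102.TreeG_196

/-! # LEMMA G: the tree lemma of 196 in the form of LemGDefs -/

open Set Filter Metric MeasureTheory
open scoped Topology ENNReal

namespace Crest.Agent.R102.LemG672

theorem tree : Tree := by
  intro K H0 H1 C θ hθ
  obtain ⟨Cs, _, h⟩ := TreeG196.tree_H1 (K := max K 1) (H0 := max H0 1) (H1 := H1) (C := C)
    (θ := θ) (le_max_right _ _) (le_max_right _ _) hθ
  refine ⟨Cs, fun H A T h1 hT hK hW n0 => ?_⟩
  have hI : ∀ n k, TreeG196.I n k = Iv n k := fun n k => TreeG196.I_eq n k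
  have key := h n0 H A T h1 (fun n k _ _ hT' => (hT n k hT').trans (le_max_left _ _))
    (fun n x _ ha ha' => by
      have e : (bx (n + 1) x) / 2 = bx n x := (TreeG196.bx_succ n x).symm
      have := (hK n (bx (n + 1) x) (by rw [e]; exact ha) ha').1
      rw [e] at this
      refine this.trans ?_
      apply mul_le_mul_of_nonneg_right (le_max_left _ _)
      linarith [h1 n (bx n x)])
    (fun n k l _ ha hl => by
      have := hW n k ha l hl
      unfold RunSet at this
      rw [← hI n k] at this
      exact this)
  filter_upwards [key] with x hx ha hf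
  have := hx ha (fun N => (frequently_atTop.1 hf N))
  exact frequently_atTop.2 this

end Crest.Agent.R102.LemG672
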