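import Mathlib
import Crest.Agent.R266.SCV

/-!
Row 102, leaf LEVI (helper314), part A: Cauchy formula on an annulus, moments on circles, circle
integrals depending holomorphically on parameters.
-/

set_option autoImplicit false
set_option linter.unusedVariables false
set_option linter.unusedSectionVars false

open Set Filter Topology Metric MeasureTheory
open scoped Real

noncomputable section

namespace Crest.Agent.R102.L314

/-- open annulus about the origin -/
def Ann (a b : ℝ) : Set ℂ := {z | a < ‖z‖ ∧ ‖z‖ < b}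

lemma isOpen_Ann (a b : ℝ) : IsOpen (Ann a b) :=
  (isOpen_lt continuous_const continuous_norm).inter (isOpen_lt continuous_norm continuous_const)

/-- moments on a circle -/
def mom (f : ℂ → ℂ) (r : ℝ) (n : ℕ) : ℂ := ∮ z in C(0, r), z ^ n * f z

lemma circ_eq {f : ℂ → ℂ} {r1 r2 a b : ℝ} (h1 : r1 < a) (ha : 0 < a) (hab : a ≤ b) (h2 : b < r2)
    (hf : DifferentiableOn ℂ f (Ann r1 r2)) :
    (∮ z in C(0, b), f z) = ∮ z in C(0, a), f z := by
  refine Complex.circleIntegral_eq_of_differentiable_on_annulus_off_countable ha hab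
    (s := ∅) countable_empty ?_ ?_
  · refine hf.continuousOn.mono (fun z hz => ?_)
    simp only [Set.mem_sdiff, mem_closedBall, dist_zero_right, mem_ball, not_lt] at hz
    exact ⟨h1.trans_le hz.2, hz.1.trans_lt h2⟩
  · intro z hz
    simp only [Set.mem_sdiff, mem_closedBall, dist_zero_right, mem_ball, not_le, mem_empty_iff_false,
      not_false_eq_true, and_true] at hz
    exact hf.differentiableAt ((isOpen_Ann r1 r2).mem_nhds ⟨h1.trans hz.2, hz.1.trans h2⟩)

lemma mom_eq {f : ℂ → ℂ} {r1 r2 a b : ℝ} (h1 : r1 < a) (ha : 0 < a) (hab : a ≤ b) (h2 : b < r2)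
    (hf : DifferentiableOn ℂ f (Ann r1 r2)) (n : ℕ) : mom f b n = mom f a n :=
  circ_eq h1 ha hab h2 (DifferentiableOn.mul (by fun_prop) hf)

lemma circleIntegrable_of {f : ℂ → ℂ} {r : ℝ} (hr : 0 < r) (hf : ContinuousOn f (sphere 0 r)) :
    CircleIntegrable f 0 r := hf.circleIntegrable hr.le

lemma integral_inv_outside {r : ℝ} (hr : 0 < r) {w : ℂ} (hw : r < ‖w‖) :
    (∮ z in C(0, r), (z - w)⁻¹) = 0 := by
  refine Complex.circleIntegral_eq_zero_of_differentiable_on_off_countable hr.le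
    (s := ∅) countable_empty ?_ ?_
  · refine ContinuousOn.inv₀ (by fun_prop) (fun z hz => sub_ne_zero.2 ?_)
    rintro rfl
    simp only [mem_closedBall, dist_zero_right] at hz
    linarith
  · intro z hz
    refine DifferentiableAt.inv (by fun_prop) (sub_ne_zero.2 ?_)
    rintro rfl
    simp only [mem_ball, dist_zero_right, Set.mem_sdiff] at hz
    linarith [hz.1]

/-- Cauchy formula on an annulus -/
theorem cauchy_annulus {f : ℂ → ℂ} {r1 r2 a b : ℝ} (h1 : r1 < a) (ha : 0 < a) (h2 : b < r2)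
    (hf : DifferentiableOn ℂ f (Ann r1 r2)) {w : ℂ} (hw1 : a < ‖w‖) (hw2 : ‖w‖ < b) :
    (∮ z in C(0, b), (z - w)⁻¹ * f z) - (∮ z in C(0, a), (z - w)⁻¹ * f z) =
      2 * π * Complex.I * f w := by
  have hwA : w ∈ Ann r1 r2 := ⟨h1.trans hw1, hw2.trans h2⟩
  have hb : 0 < b := ha.trans (hw1.trans hw2)
  have hg : DifferentiableOn ℂ (dslope f w) (Ann r1 r2) :=
    (Complex.differentiableOn_dslope ((isOpen_Ann r1 r2).mem_nhds hwA)).2 hf
  have key := circ_eq h1 ha (hw1.trans hw2).le h2 hg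
  have hcf : ContinuousOn f (Ann r1 r2) := hf.continuousOn
  -- rewriting on a circle avoiding `w`
  have hrw : ∀ r : ℝ, 0 < r → r1 < r → r < r2 → r ≠ ‖w‖ →
      (∮ z in C(0, r), dslope f w z) =
        (∮ z in C(0, r), (z - w)⁻¹ * f z) - f w * (∮ z in C(0, r), (z - w)⁻¹) := by
    intro r hr hr1 hr2 hne
    have hzw : ∀ z ∈ sphere (0 : ℂ) r, z ≠ w := by
      rintro z hz rfl
      exact hne (by simpa using hz.symm)
    have hsub : sphere (0 : ℂ) r ⊆ Ann r1 r2 := by
      intro z hz
      have : ‖z‖ = r := by simpa using hz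
      exact ⟨by rw [this]; exact hr1, by rw [this]; exact hr2⟩
    have hi1 : ContinuousOn (fun z : ℂ => (z - w)⁻¹) (sphere (0 : ℂ) r) :=
      ContinuousOn.inv₀ (by fun_prop) (fun z hz => sub_ne_zero.2 (hzw z hz))
    have e1 : CircleIntegrable (fun z => (z - w)⁻¹ * f z) 0 r :=
      circleIntegrable_of hr (hi1.mul (hcf.mono hsub))
    have e2 : CircleIntegrable (fun z => f w * (z - w)⁻¹) 0 r :=
      circleIntegrable_of hr (continuousOn_const.mul hi1)
    rw [← circleIntegral.integral_const_mul, ← circleIntegral.integral_sub e1 e2]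
    refine circleIntegral.integral_congr hr.le (fun z hz => ?_)
    rw [dslope_of_ne _ (hzw z hz), slope_def_field]
    field_simp
  rw [hrw b hb (h1.trans (hw1.trans hw2)) h2 hw2.ne', hrw a ha h1 ((hw1.trans hw2).trans h2) hw1.ne,
    integral_inv_outside ha hw1, circleIntegral.integral_sub_inv_of_mem_ball
      (by simpa using hw2)] at key
  linear_combination key

/-- the outer Cauchy integral vanishes when all moments do -/
theorem outer_zero {f : ℂ → ℂ} {a : ℝ} (ha : 0 < a) (hf : ContinuousOn f (sphere 0 a))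
    (hm : ∀ n, mom f a n = 0) {w : ℂ} (hw : a < ‖w‖) :
    (∮ z in C(0, a), (z - w)⁻¹ * f z) = 0 := by
  have hw0 : w ≠ 0 := by
    rintro rfl
    simp at hw
    linarith
  have hzw : ∀ z ∈ sphere (0 : ℂ) a, z ≠ w := by
    rintro z hz rfl
    simp at hz
    linarith
  have hi1 : ContinuousOn (fun z : ℂ => (z - w)⁻¹) (sphere (0 : ℂ) a) :=
    ContinuousOn.inv₀ (by fun_prop) (fun z hz => sub_ne_zero.2 (hzw z hz))
  have hi2 : ContinuousOn (fun z : ℂ => (z - w)⁻¹ * f z) (sphere (0 : ℂ) a) := hi1.mul hf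
  -- shifting by one power
  have hstep : ∀ n : ℕ, (∮ z in C(0, a), z ^ (n + 1) * ((z - w)⁻¹ * f z)) =
      w * ∮ z in C(0, a), z ^ n * ((z - w)⁻¹ * f z) := by
    intro n
    have e1 : CircleIntegrable (fun z => z ^ (n + 1) * ((z - w)⁻¹ * f z)) 0 a :=
      circleIntegrable_of ha ((continuousOn_id.pow _).mul hi2)
    have e2 : CircleIntegrable (fun z => w * (z ^ n * ((z - w)⁻¹ * f z))) 0 a :=
      circleIntegrable_of ha (continuousOn_const.mul ((continuousOn_id.pow _).mul hi2))
    have h1 : (∮ z in C(0, a), z ^ (n + 1) * ((z - w)⁻¹ * f z)) -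
        (∮ z in C(0, a), w * (z ^ n * ((z - w)⁻¹ * f z))) = mom f a n := by
      rw [← circleIntegral.integral_sub e1 e2]
      refine circleIntegral.integral_congr ha.le (fun z hz => ?_)
      have := sub_ne_zero.2 (hzw z hz)
      field_simp
      ring
    rw [hm n, circleIntegral.integral_const_mul] at h1
    linear_combination h1
  have hpow : ∀ n : ℕ, (∮ z in C(0, a), z ^ n * ((z - w)⁻¹ * f z)) =
      w ^ n * ∮ z in C(0, a), (z - w)⁻¹ * f z := by
    intro n
    induction n with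
    | zero => simp
    | succ n ih => rw [hstep, ih]; ring
  obtain ⟨C, hC⟩ := (isCompact_sphere (0 : ℂ) a).exists_bound_of_continuousOn hi2
  have hb : ∀ n : ℕ, ‖∮ z in C(0, a), (z - w)⁻¹ * f z‖ ≤ (2 * π * a * C) * (a / ‖w‖) ^ n := by
    intro n
    have h1 : ‖∮ z in C(0, a), z ^ n * ((z - w)⁻¹ * f z)‖ ≤ 2 * π * a * (a ^ n * C) := by
      refine circleIntegral.norm_integral_le_of_norm_le_const ha.le (fun z hz => ?_)
      rw [norm_mul, norm_pow]
      have : ‖z‖ = a := by simpa using hz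
      rw [this]
      exact mul_le_mul_of_nonneg_left (hC z hz) (by positivity)
    rw [hpow n, norm_mul, norm_pow] at h1
    have hwn : 0 < ‖w‖ := norm_pos_iff.2 hw0
    rw [div_pow, mul_div_assoc', le_div_iff₀ (by positivity)]
    nlinarith [h1]
  have hlim : Tendsto (fun n : ℕ => (2 * π * a * C) * (a / ‖w‖) ^ n) atTop (𝓝 0) := by
    have := (tendsto_pow_atTop_nhds_zero_of_lt_one (r := a / ‖w‖) (by positivity)
      ((div_lt_one (ha.trans hw)).2 hw)).const_mul (2 * π * a * C)
    simpa using this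
  have := ge_of_tendsto' hlim hb
  exact norm_le_zero_iff.1 this

/-- the inner Cauchy integral reproduces `f` when all moments vanish -/
theorem cauchy_of_mom {f : ℂ → ℂ} {r1 r2 b : ℝ} (h0 : 0 ≤ r1) (h2 : b < r2)
    (hf : DifferentiableOn ℂ f (Ann r1 r2)) (hm : ∀ r, r1 < r → r < r2 → ∀ n, mom f r n = 0)
    {w : ℂ} (hw1 : r1 < ‖w‖) (hw2 : ‖w‖ < b) :
    (∮ z in C(0, b), (z - w)⁻¹ * f z) = 2 * π * Complex.I * f w := by
  obtain ⟨a, ha1, ha2⟩ := exists_between hw1
  have ha : 0 < a := h0.trans_lt ha1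
  have hsub : sphere (0 : ℂ) a ⊆ Ann r1 r2 := by
    intro z hz
    have : ‖z‖ = a := by simpa using hz
    exact ⟨by rw [this]; exact ha1, by rw [this]; exact ha2.trans (hw2.trans h2)⟩
  rw [← cauchy_annulus ha1 ha h2 hf ha2 hw2, outer_zero ha (hf.continuousOn.mono hsub)
    (hm a ha1 (ha2.trans (hw2.trans h2))) ha2, sub_zero]

/-- parameter analyticity of circle integrals -/
theorem analytic_circle {E : Type*} [NormedAddCommGroup E] [NormedSpace ℂ E]
    [FiniteDimensional ℂ E] {D : Set E} (hD : IsOpen D) {r : ℝ} (hr : 0 < r)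
    {h : E × ℂ → ℂ} (hc : ContinuousOn h (D ×ˢ sphere (0 : ℂ) r))
    (hd : ∀ z ∈ sphere (0 : ℂ) r, DifferentiableOn ℂ (fun x => h (x, z)) D) :
    AnalyticOnNhd ℂ (fun x => ∮ z in C(0, r), h (x, z)) D := by
  simp only [circleIntegral]
  have hcm : ∀ θ : ℝ, circleMap 0 r θ ∈ sphere (0 : ℂ) r := fun θ =>
    circleMap_mem_sphere 0 hr.le θ
  refine R266.SCV.analyticOnNhd_intervalIntegral
    (f := fun p : E × ℝ => deriv (circleMap 0 r) p.2 • h (p.1, circleMap 0 r p.2)) hD ?_ ?_
  · have c1 : Continuous (fun p : E × ℝ => deriv (circleMap 0 r) p.2) := by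
      simp only [deriv_circleMap]
      fun_prop
    have c2 : ContinuousOn (fun p : E × ℝ => h (p.1, circleMap 0 r p.2))
        (D ×ˢ uIcc 0 (2 * π)) :=
      hc.comp (f := fun p : E × ℝ => (p.1, circleMap 0 r p.2)) (by fun_prop)
        (fun p hp => ⟨hp.1, hcm p.2⟩)
    exact c1.continuousOn.smul c2
  · intro θ _
    simp only [deriv_circleMap, smul_eq_mul]
    exact (differentiableOn_const _).mul (hd _ (hcm θ))

end Crest.Agent.R102.L314
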