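import Mathlib
import Crest.Agent.R102.LeviA_314

/-!
Row 102, leaf LEVI (helper314), part B: Hankel determinants.  If the sequences `a n t` satisfy a
linear recurrence for uncountably many `t` in a compact part of `Ω`, they satisfy one with
holomorphic coefficients, not all vanishing at a given point.
-/

set_option autoImplicit false
set_option linter.unusedVariables false
set_option linter.unusedSectionVars false

open Set Filter Topology Metric MeasureTheory
open scoped Real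

noncomputable section

namespace Crest.Agent.R102.L314

/-- Hankel determinant with rows `r`, columns `0,…,n-1` -/
def hk (a : ℕ → ℂ → ℂ) {n : ℕ} (r : Fin n → ℕ) (t : ℂ) : ℂ :=
  (Matrix.of fun i j : Fin n => a (r i + (j : ℕ)) t).det

lemma det_analytic {n : ℕ} {Ω : Set ℂ} {M : Fin n → Fin n → ℂ → ℂ}
    (hM : ∀ i j, AnalyticOnNhd ℂ (M i j) Ω) :
    AnalyticOnNhd ℂ (fun t => (Matrix.of fun i j => M i j t).det) Ω := by
  simp only [Matrix.det_apply']
  refine Finset.analyticOnNhd_fun_sum _ (fun σ _ => ?_)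
  refine analyticOnNhd_const.mul ?_
  exact Finset.analyticOnNhd_fun_prod _ (fun i _ => hM _ _)

theorem rel_of_pointwise {Ω : Set ℂ} (hc : IsPreconnected Ω)
    {a : ℕ → ℂ → ℂ} (ha : ∀ n, AnalyticOnNhd ℂ (a n) Ω)
    {K : Set ℂ} (hK : IsCompact K) (hKΩ : K ⊆ Ω) (hKinf : ¬ K.Countable)
    (hrel : ∀ t ∈ K, ∃ N : ℕ, ∃ c : Fin (N + 1) → ℂ, c ≠ 0 ∧
      ∀ n, ∑ j, c j * a (n + (j : ℕ)) t = 0) :
    ∃ N : ℕ, ∃ q : Fin (N + 1) → ℂ → ℂ, (∀ j, AnalyticOnNhd ℂ (q j) Ω) ∧
      (∃ t ∈ Ω, q (Fin.last N) t ≠ 0) ∧ ∀ n, ∀ t ∈ Ω, ∑ j, q j t * a (n + (j : ℕ)) t = 0 := by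
  classical
  -- pigeonhole
  obtain ⟨N, hN⟩ : ∃ N : ℕ, {t ∈ K | ∃ c : Fin (N + 1) → ℂ, c ≠ 0 ∧
      ∀ n, ∑ j, c j * a (n + (j : ℕ)) t = 0}.Infinite := by
    by_contra hcon
    push Not at hcon
    apply hKinf
    have : K ⊆ ⋃ N : ℕ, {t ∈ K | ∃ c : Fin (N + 1) → ℂ, c ≠ 0 ∧
        ∀ n, ∑ j, c j * a (n + (j : ℕ)) t = 0} := by
      intro t ht
      obtain ⟨N, c, h1, h2⟩ := hrel t ht
      exact mem_iUnion.2 ⟨N, ht, c, h1, h2⟩
    exact (countable_iUnion (fun N => (hcon N).countable)).mono this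
  set T := {t ∈ K | ∃ c : Fin (N + 1) → ℂ, c ≠ 0 ∧
      ∀ n, ∑ j, c j * a (n + (j : ℕ)) t = 0} with hT
  obtain ⟨x, hxK, hx⟩ := hN.exists_accPt_of_subset_isCompact hK (fun t ht => ht.1)
  have hfreq : ∃ᶠ t in 𝓝[≠] x, t ∈ T := by
    rw [accPt_iff_frequently_nhdsNE] at hx
    exact hx
  have hvan : ∀ r : Fin (N + 1) → ℕ, ∀ t ∈ Ω, hk a r t = 0 := by
    intro r
    have h1 : AnalyticOnNhd ℂ (hk a r) Ω := det_analytic (fun i j => ha _)
    refine h1.eqOn_zero_of_preconnected_of_frequently_eq_zero hc (hKΩ hxK) ?_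
    refine hfreq.mono (fun t ht => ?_)
    obtain ⟨c, hc0, hc1⟩ := ht.2
    refine Matrix.exists_mulVec_eq_zero_iff.1 ⟨c, hc0, ?_⟩
    ext i
    simp only [Matrix.mulVec, dotProduct, Matrix.of_apply, Pi.zero_apply]
    rw [← hc1 (r i)]
    exact Finset.sum_congr rfl (fun j _ => mul_comm _ _)
  have hex : ∃ n : ℕ, ∀ r : Fin (n + 1) → ℕ, ∀ t ∈ Ω, hk a r t = 0 := ⟨N, hvan⟩
  obtain ⟨m, hspec, hmin⟩ : ∃ m : ℕ, (∀ r : Fin (m + 1) → ℕ, ∀ t ∈ Ω, hk a r t = 0) ∧
      ∀ k < m, ¬ ∀ r : Fin (k + 1) → ℕ, ∀ t ∈ Ω, hk a r t = 0 :=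
    ⟨Nat.find hex, Nat.find_spec hex, fun k hk => Nat.find_min hex hk⟩
  rcases m with _ | m
  · refine ⟨0, fun _ _ => 1, fun j => analyticOnNhd_const, ⟨x, hKΩ hxK, one_ne_zero⟩, ?_⟩
    intro n t ht
    have := hspec (fun _ => n) t ht
    simpa [hk] using this
  · have h2 := hmin m (Nat.lt_succ_self m)
    push Not at h2
    obtain ⟨r, t0, ht0, hne⟩ := h2
    refine ⟨m + 1, fun j t => (-1) ^ (j : ℕ) *
      (Matrix.of fun i k : Fin (m + 1) => a (r i + ((j.succAbove k : Fin (m + 2)) : ℕ)) t).det,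
      ?_, ⟨t0, ht0, ?_⟩, ?_⟩
    · intro j
      exact analyticOnNhd_const.mul (det_analytic (fun i k => ha _))
    · simp only [Fin.succAbove_last, Fin.val_castSucc]
      exact mul_ne_zero (by simp) hne
    · intro n t ht
      have h3 := hspec (Fin.cons n r) t ht
      rw [hk, Matrix.det_succ_row_zero] at h3
      rw [← h3]
      refine Finset.sum_congr rfl (fun j _ => ?_)
      simp only [Matrix.of_apply, Fin.cons_zero]
      have : (Matrix.of fun i j : Fin (m + 1 + 1) => a ((Fin.cons n r : Fin (m + 2) → ℕ) i + (j : ℕ)) t).submatrix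
          Fin.succ j.succAbove = Matrix.of fun i k : Fin (m + 1) =>
            a (r i + ((j.succAbove k : Fin (m + 2)) : ℕ)) t := by
        ext i k
        simp [Matrix.submatrix_apply]
      rw [this]
      ring

theorem descend {Ω : Set ℂ} (hΩ : IsOpen Ω) {a : ℕ → ℂ → ℂ}
    (ha : ∀ n, AnalyticOnNhd ℂ (a n) Ω) {N : ℕ} {t1 : ℂ} (ht1 : t1 ∈ Ω) (k : ℕ) :
    ∀ q : Fin (N + 1) → ℂ → ℂ, (∀ j, AnalyticOnNhd ℂ (q j) Ω) →
      analyticOrderAt (q (Fin.last N)) t1 = k →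
      (∀ n, ∀ t ∈ Ω, ∑ j, q j t * a (n + (j : ℕ)) t = 0) →
      ∃ q' : Fin (N + 1) → ℂ → ℂ, (∀ j, AnalyticOnNhd ℂ (q' j) Ω) ∧
        (∃ j, q' j t1 ≠ 0) ∧ ∀ n, ∀ t ∈ Ω, ∑ j, q' j t * a (n + (j : ℕ)) t = 0 := by
  induction k with
  | zero =>
    intro q hq ho hr
    refine ⟨q, hq, ⟨Fin.last N, ?_⟩, hr⟩
    rw [Nat.cast_zero, (hq _ t1 ht1).analyticOrderAt_eq_zero] at ho
    exact ho
  | succ k ih =>
    intro q hq ho hr
    by_cases hz : ∃ j, q j t1 ≠ 0
    · exact ⟨q, hq, hz, hr⟩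
    push Not at hz
    have hq' : ∀ j, AnalyticOnNhd ℂ (dslope (q j) t1) Ω := fun j =>
      ((Complex.differentiableOn_dslope (hΩ.mem_nhds ht1)).2
        (hq j).differentiableOn).analyticOnNhd hΩ
    have hfac : ∀ j t, q j t = (t - t1) * dslope (q j) t1 t := by
      intro j t
      have := sub_smul_dslope (q j) t1 t
      rw [hz j, sub_zero, smul_eq_mul] at this
      exact this.symm
    refine ih (fun j => dslope (q j) t1) hq' ?_ ?_
    · have h1 : q (Fin.last N) = (fun t => t - t1) * dslope (q (Fin.last N)) t1 := by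
        ext t
        exact hfac _ t
      have hid : AnalyticAt ℂ (fun t : ℂ => t - t1) t1 := by fun_prop
      rw [h1, analyticOrderAt_mul hid (hq' _ t1 ht1)] at ho
      have h2 : analyticOrderAt (fun t : ℂ => t - t1) t1 = 1 := by
        exact_mod_cast (hid.analyticOrderAt_eq_natCast (n := 1)).2
          ⟨fun _ => 1, analyticAt_const, one_ne_zero, by simp⟩
      rw [h2] at ho
      have h3 : ((k + 1 : ℕ) : ℕ∞) = 1 + (k : ℕ∞) := by push_cast; ring
      rw [h3] at ho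
      have h4 : (1 : ℕ∞) ≠ ⊤ := by simp
      exact (WithTop.add_left_inj h4).1 ho
    · intro n
      have hcont : ∀ t ∈ Ω, ContinuousAt (fun t => ∑ j, dslope (q j) t1 t * a (n + (j : ℕ)) t) t := by
        intro t ht
        have : AnalyticAt ℂ (fun t => ∑ j, dslope (q j) t1 t * a (n + (j : ℕ)) t) t :=
          Finset.analyticAt_fun_sum _ (fun j _ => (hq' j t ht).mul (ha _ t ht))
        exact this.continuousAt
      have hne : ∀ t ∈ Ω, t ≠ t1 → ∑ j, dslope (q j) t1 t * a (n + (j : ℕ)) t = 0 := by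
        intro t ht htn
        have h1 : (t - t1) * ∑ j, dslope (q j) t1 t * a (n + (j : ℕ)) t = 0 := by
          rw [← hr n t ht, Finset.mul_sum]
          refine Finset.sum_congr rfl (fun j _ => ?_)
          rw [hfac j t]
          ring
        exact (mul_eq_zero.1 h1).resolve_left (sub_ne_zero.2 htn)
      intro t ht
      by_cases htn : t = t1
      · subst htn
        refine tendsto_nhds_unique
          ((hcont t ht).tendsto.mono_left (nhdsWithin_le_nhds (s := {t}ᶜ))) ?_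
        refine Tendsto.congr' ?_ tendsto_const_nhds
        filter_upwards [self_mem_nhdsWithin, nhdsWithin_le_nhds (hΩ.mem_nhds ht)] with s hs1 hs2
        exact (hne s hs2 hs1).symm
      · exact hne t ht htn

end Crest.Agent.R102.L314
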