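import Mathlib
import Crest.Agent.R102.LeviB_314

/-!
Row 102, leaf LEVI (helper314), part C: Levi extension theorem (`levi_core`):
`f(t,w)` holomorphic near `Ω × {|w| = ρ}`, and for `t` in a non-empty open `D0 ⊆ Ω` the slice
`f(t,·)` extends meromorphically to `{|w| ≤ ρ}` (`Ext1`).  Then near every `t1 ∈ Ω` the function is
`P/Q` on `ball t1 δ × ball 0 (ρ + ε)`, `Q` a polynomial in `w` with `Q(t1,·) ≠ 0`.
-/

set_option autoImplicit false
set_option linter.unusedVariables false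
set_option linter.unusedSectionVars false

open Set Filter Topology Metric MeasureTheory
open scoped Real

noncomputable section

namespace Crest.Agent.R102.L314

lemma ann_in_nhd {ρ : ℝ} (hρ : 0 < ρ) {v : Set ℂ} (hv : IsOpen v) (hs : sphere (0 : ℂ) ρ ⊆ v) :
    ∃ ε > 0, ε < ρ ∧ Ann (ρ - ε) (ρ + ε) ⊆ v := by
  obtain ⟨δ, hδ, hδv⟩ := (isCompact_sphere (0 : ℂ) ρ).exists_thickening_subset_open hv hs
  refine ⟨min δ (ρ / 2), lt_min hδ (by linarith), (min_le_right _ _).trans_lt (by linarith),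
    fun z hz => hδv ?_⟩
  obtain ⟨h1, h2⟩ := hz
  have e1 := min_le_left δ (ρ / 2)
  have e2 := min_le_right δ (ρ / 2)
  have hz0 : 0 < ‖z‖ := by linarith
  rw [mem_thickening_iff]
  refine ⟨((ρ / ‖z‖ : ℝ) : ℂ) * z, ?_, ?_⟩
  · rw [mem_sphere_zero_iff_norm, norm_mul, Complex.norm_real, Real.norm_of_nonneg (by positivity)]
    field_simp
  · have : z - ((ρ / ‖z‖ : ℝ) : ℂ) * z = ((1 - ρ / ‖z‖ : ℝ) : ℂ) * z := by push_cast; ring
    rw [dist_eq_norm, this, norm_mul, Complex.norm_real, Real.norm_eq_abs]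
    have h3 : |1 - ρ / ‖z‖| * ‖z‖ = |‖z‖ - ρ| := by
      rw [← abs_of_pos hz0, ← abs_mul, abs_of_pos hz0]
      congr 1
      field_simp
    rw [h3, abs_lt]
    constructor <;> linarith

lemma tube {ρ : ℝ} (hρ : 0 < ρ) {U : Set (ℂ × ℂ)} (hU : IsOpen U) {t1 : ℂ}
    (h : ∀ w ∈ sphere (0 : ℂ) ρ, (t1, w) ∈ U) :
    ∃ δ > 0, ∃ ε > 0, ε < ρ ∧ ball t1 δ ×ˢ Ann (ρ - ε) (ρ + ε) ⊆ U := by
  obtain ⟨u, v, hu, hv, hu1, hv1, huv⟩ := generalized_tube_lemma (s := {t1}) isCompact_singleton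
    (isCompact_sphere (0 : ℂ) ρ) hU (by
      rintro ⟨a, b⟩ ⟨ha, hb⟩
      simp only [mem_singleton_iff] at ha
      subst ha
      exact h b hb)
  obtain ⟨δ, hδ, hδu⟩ := Metric.isOpen_iff.1 hu t1 (hu1 rfl)
  obtain ⟨ε, hε, hε2, hεv⟩ := ann_in_nhd hρ hv hv1
  exact ⟨δ, hδ, ε, hε, hε2, (prod_mono hδu hεv).trans huv⟩

/-- the slice condition: `g` (defined near the circle) extends meromorphically inside -/
def Ext1 (ρ : ℝ) (g : ℂ → ℂ) : Prop :=
  ∃ c : Polynomial ℂ, c ≠ 0 ∧ ∃ h : ℂ → ℂ, DiffContOnCl ℂ h (ball 0 ρ) ∧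
    ∀ w ∈ sphere (0 : ℂ) ρ, h w = c.eval w * g w

lemma rel_of_ext1 {ρ : ℝ} (hρ : 0 < ρ) {g : ℂ → ℂ} (hg : ContinuousOn g (sphere 0 ρ))
    (h : Ext1 ρ g) : ∃ N : ℕ, ∃ c : Fin (N + 1) → ℂ, c ≠ 0 ∧
      ∀ n, ∑ j, c j * mom g ρ (n + (j : ℕ)) = 0 := by
  obtain ⟨c, hc, h, hh, hhg⟩ := h
  refine ⟨c.natDegree, fun j => c.coeff j, ?_, ?_⟩
  · intro h0
    have := congrFun h0 (Fin.last c.natDegree)
    simp only [Fin.val_last, Pi.zero_apply, Polynomial.coeff_natDegree,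
      Polynomial.leadingCoeff_eq_zero] at this
    exact hc this
  · intro n
    have h1 : (∮ z in C(0, ρ), z ^ n * h z) = 0 := by
      have hd : DiffContOnCl ℂ (fun z => z ^ n * h z) (ball 0 ρ) := by
        have h2 : DiffContOnCl ℂ (fun z : ℂ => z ^ n) (ball 0 ρ) :=
          Differentiable.diffContOnCl (by fun_prop)
        exact h2.smul hh
      exact hd.circleIntegral_eq_zero hρ.le
    rw [← h1]
    have h2 : ∀ z ∈ sphere (0 : ℂ) ρ, z ^ n * h z =
        ∑ j : Fin (c.natDegree + 1), c.coeff j * (z ^ (n + (j : ℕ)) * g z) := by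
      intro z hz
      rw [hhg z hz, Polynomial.eval_eq_sum_range, Finset.sum_range, Finset.sum_mul, Finset.mul_sum]
      refine Finset.sum_congr rfl (fun j _ => ?_)
      rw [pow_add]
      ring
    rw [circleIntegral.integral_congr hρ.le h2, circleIntegral.integral_fun_sum]
    · refine Finset.sum_congr rfl (fun j _ => ?_)
      rw [circleIntegral.integral_const_mul]
      rfl
    · intro j _
      refine circleIntegrable_of hρ ?_
      exact continuousOn_const.mul ((continuousOn_id.pow _).mul hg)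

/-- **Levi's extension theorem** (holomorphic near the circle) -/
theorem levi_core {Ω : Set ℂ} (hΩ : IsOpen Ω) (hc : IsPreconnected Ω) {ρ : ℝ} (hρ : 0 < ρ)
    {f : ℂ × ℂ → ℂ} (hf : AnalyticOnNhd ℂ f (Ω ×ˢ sphere 0 ρ)) {D0 : Set ℂ} (hD0 : IsOpen D0)
    (hD0n : D0.Nonempty) (hD0Ω : D0 ⊆ Ω) (hs : ∀ t ∈ D0, Ext1 ρ (fun w => f (t, w)))
    {t1 : ℂ} (ht1 : t1 ∈ Ω) :
    ∃ N : ℕ, ∃ q : Fin (N + 1) → ℂ → ℂ, (∀ j, AnalyticOnNhd ℂ (q j) Ω) ∧ (∃ j, q j t1 ≠ 0) ∧
      ∃ δ > 0, ∃ ε > 0, ε < ρ ∧ ball t1 δ ⊆ Ω ∧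
        AnalyticOnNhd ℂ f (ball t1 δ ×ˢ Ann (ρ - ε) (ρ + ε)) ∧
        ∃ P : ℂ × ℂ → ℂ, AnalyticOnNhd ℂ P (ball t1 δ ×ˢ ball 0 (ρ + ε)) ∧
          ∀ t ∈ ball t1 δ, ∀ w ∈ Ann (ρ - ε) (ρ + ε),
            P (t, w) = (∑ j, q j t * w ^ (j : ℕ)) * f (t, w) := by
  classical
  set a : ℕ → ℂ → ℂ := fun n t => mom (fun w => f (t, w)) ρ n with ha
  have haan : ∀ n, AnalyticOnNhd ℂ (a n) Ω := by
    intro n
    refine analytic_circle (h := fun p : ℂ × ℂ => p.2 ^ n * f p) hΩ hρ ?_ ?_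
    · exact (Continuous.continuousOn (by fun_prop)).mul hf.continuousOn
    · intro z hz t ht
      have h1 : AnalyticAt ℂ f (t, z) := hf (t, z) ⟨ht, hz⟩
      have h2 : DifferentiableAt ℂ (fun x : ℂ => f (x, z)) t :=
        h1.differentiableAt.comp t (f := fun x : ℂ => (x, z)) (by fun_prop)
      exact (h2.const_mul (z ^ n)).differentiableWithinAt
  -- relation on `Ω`
  obtain ⟨t0, ht0⟩ := hD0n
  obtain ⟨η, hη, hηD⟩ := Metric.nhds_basis_closedBall.mem_iff.1 (hD0.mem_nhds ht0)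
  have hcont : ∀ t ∈ Ω, ContinuousOn (fun w => f (t, w)) (sphere 0 ρ) := by
    intro t ht
    exact hf.continuousOn.comp (f := fun w : ℂ => (t, w)) (by fun_prop) (fun w hw => ⟨ht, hw⟩)
  obtain ⟨N, q, hq, ⟨t2, ht2, hq2⟩, hqr⟩ := rel_of_pointwise hc haan
    (isCompact_closedBall t0 η) (hηD.trans hD0Ω) (by
      intro hcount
      have h1 : (ball t0 η).Countable := hcount.mono ball_subset_closedBall
      have h2 : volume (ball t0 η) = 0 := h1.measure_zero volume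
      exact (Metric.measure_ball_pos volume t0 hη).ne' h2)
    (fun t ht => rel_of_ext1 hρ (hcont t (hD0Ω (hηD ht))) (hs t (hηD ht)))
  have hord : analyticOrderAt (q (Fin.last N)) t1 ≠ ⊤ := by
    intro htop
    rw [analyticOrderAt_eq_top] at htop
    exact hq2 ((hq (Fin.last N)).eqOn_zero_of_preconnected_of_eventuallyEq_zero hc ht1 htop ht2)
  obtain ⟨k, hk⟩ := ENat.ne_top_iff_exists.1 hord
  obtain ⟨q', hq', hq'1, hq'r⟩ := descend hΩ haan ht1 k q hq hk.symm hqr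
  -- tube
  have hUo : IsOpen ({p | AnalyticAt ℂ f p} ∩ (Ω ×ˢ (univ : Set ℂ))) :=
    (isOpen_analyticAt ℂ f).inter (hΩ.prod isOpen_univ)
  obtain ⟨δ, hδ, ε, hε, hερ, htube⟩ := tube hρ hUo (t1 := t1)
    (fun w hw => ⟨hf _ ⟨ht1, hw⟩, ht1, mem_univ _⟩)
  have hballΩ : ball t1 δ ⊆ Ω := by
    intro t ht
    have : ((t, (ρ : ℂ)) : ℂ × ℂ) ∈ ball t1 δ ×ˢ Ann (ρ - ε) (ρ + ε) := by
      refine ⟨ht, ?_⟩
      simp only [Ann, mem_ofPred_eq, Complex.norm_real, Real.norm_of_nonneg hρ.le]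
      constructor <;> linarith
    exact (htube this).2.1
  refine ⟨N, q', hq', hq'1, δ, hδ, ε / 2, by positivity, by linarith, hballΩ, ?_, ?_⟩
  · intro p hp
    exact (htube ⟨hp.1, by linarith [hp.2.1], by linarith [hp.2.2]⟩).1
  set b : ℝ := ρ + ε / 2 with hb
  have hb0 : 0 < b := by positivity
  set G : ℂ × ℂ → ℂ := fun p => (∑ j, q' j p.1 * p.2 ^ (j : ℕ)) * f p with hG
  have hGan : AnalyticOnNhd ℂ G (ball t1 δ ×ˢ Ann (ρ - ε) (ρ + ε)) := by
    intro p hp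
    refine AnalyticAt.mul ?_ (htube hp).1
    refine Finset.analyticAt_fun_sum _ (fun j _ => ?_)
    refine AnalyticAt.mul ?_ (analyticAt_snd.pow _)
    have h1 : AnalyticAt ℂ (q' j) p.1 := hq' j p.1 (hballΩ hp.1)
    exact h1.comp analyticAt_fst
  have hGd : ∀ t ∈ ball t1 δ, DifferentiableOn ℂ (fun w => G (t, w)) (Ann (ρ - ε) (ρ + ε)) := by
    intro t ht w hw
    have h1 : AnalyticAt ℂ G (t, w) := hGan _ ⟨ht, hw⟩
    exact (h1.differentiableAt.comp w (f := fun w : ℂ => (t, w)) (by fun_prop)).differentiableWithinAt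
  have hfd : ∀ t ∈ ball t1 δ, DifferentiableOn ℂ (fun w => f (t, w)) (Ann (ρ - ε) (ρ + ε)) := by
    intro t ht w hw
    have h1 : AnalyticAt ℂ f (t, w) := (htube (show ((t, w) : ℂ × ℂ) ∈ ball t1 δ ×ˢ Ann (ρ - ε) (ρ + ε) from ⟨ht, hw⟩)).1
    exact (h1.differentiableAt.comp w (f := fun w : ℂ => (t, w)) (by fun_prop)).differentiableWithinAt
  -- all moments of `G(t,·)` vanish
  have hmomf : ∀ t ∈ ball t1 δ, ∀ r, ρ - ε < r → r < ρ + ε → ∀ n,
      mom (fun w => f (t, w)) r n = a n t := by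
    intro t ht r hr1 hr2 n
    rcases le_total r ρ with h | h
    · exact (mom_eq hr1 (by linarith) h (by linarith) (hfd t ht) n).symm
    · exact mom_eq (by linarith) hρ h hr2 (hfd t ht) n
  have hmomG : ∀ t ∈ ball t1 δ, ∀ r, ρ - ε < r → r < ρ + ε → ∀ n,
      mom (fun w => G (t, w)) r n = 0 := by
    intro t ht r hr1 hr2 n
    have hr0 : 0 < r := by linarith
    rw [← hq'r n t (hballΩ ht), mom]
    have hfc : ContinuousOn (fun w => f (t, w)) (sphere 0 r) := by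
      refine (hfd t ht).continuousOn.mono (fun z hz => ?_)
      have : ‖z‖ = r := by simpa using hz
      exact ⟨by rw [this]; exact hr1, by rw [this]; exact hr2⟩
    have h2 : ∀ z ∈ sphere (0 : ℂ) r, z ^ n * G (t, z) =
        ∑ j : Fin (N + 1), q' j t * (z ^ (n + (j : ℕ)) * f (t, z)) := by
      intro z hz
      simp only [hG]
      rw [Finset.sum_mul, Finset.mul_sum]
      refine Finset.sum_congr rfl (fun j _ => ?_)
      rw [pow_add]
      ring
    rw [circleIntegral.integral_congr hr0.le h2, circleIntegral.integral_fun_sum]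
    · refine Finset.sum_congr rfl (fun j _ => ?_)
      rw [circleIntegral.integral_const_mul, ← hmomf t ht r hr1 hr2]
      rfl
    · intro j _
      refine circleIntegrable_of hr0 ?_
      exact continuousOn_const.mul ((continuousOn_id.pow _).mul hfc)
  refine ⟨fun p => (2 * π * Complex.I)⁻¹ * ∮ z in C(0, b), (z - p.2)⁻¹ * G (p.1, z), ?_, ?_⟩
  · refine analyticOnNhd_const.mul ?_
    refine analytic_circle (E := ℂ × ℂ) (D := ball t1 δ ×ˢ ball 0 b)
      (h := fun p : (ℂ × ℂ) × ℂ => (p.2 - p.1.2)⁻¹ * G (p.1.1, p.2))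
      (isOpen_ball.prod isOpen_ball) hb0 ?_ ?_
    · refine ContinuousOn.mul ?_ ?_
      · refine ContinuousOn.inv₀ (by fun_prop) ?_
        rintro ⟨⟨t, w⟩, z⟩ ⟨⟨_, hw⟩, hz⟩
        simp only [mem_sphere_iff_norm, sub_zero] at hz
        simp only [mem_ball, dist_zero_right] at hw
        rw [sub_ne_zero]
        rintro h
        simp only at h
        rw [h] at hz
        linarith
      · refine hGan.continuousOn.comp (f := fun p : (ℂ × ℂ) × ℂ => (p.1.1, p.2)) (by fun_prop) ?_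
        rintro ⟨⟨t, w⟩, z⟩ ⟨⟨ht, hw⟩, hz⟩
        simp only [mem_sphere_iff_norm, sub_zero] at hz
        refine ⟨ht, ?_⟩
        simp only [Ann, mem_ofPred_eq, hz]
        constructor <;> linarith
    · rintro z hz ⟨t, w⟩ ⟨ht, hw⟩
      simp only [mem_sphere_iff_norm, sub_zero] at hz
      simp only [mem_ball, dist_zero_right] at hw
      have hzA : z ∈ Ann (ρ - ε) (ρ + ε) := by
        simp only [Ann, mem_ofPred_eq, hz]
        constructor <;> linarith
      have h1 : DifferentiableAt ℂ (fun x : ℂ × ℂ => (z - x.2)⁻¹) (t, w) := by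
        refine DifferentiableAt.inv (by fun_prop) (sub_ne_zero.2 ?_)
        rintro rfl
        linarith
      have h2 : DifferentiableAt ℂ (fun x : ℂ × ℂ => G (x.1, z)) (t, w) :=
        (hGan (t, z) ⟨ht, hzA⟩).differentiableAt.comp (t, w)
          (f := fun x : ℂ × ℂ => (x.1, z)) (by fun_prop)
      exact (h1.mul h2).differentiableWithinAt
  · intro t ht w hw
    have hw' : ‖w‖ < b := hw.2
    have h1 := cauchy_of_mom (r1 := ρ - ε) (r2 := ρ + ε) (b := b) (by linarith) (by linarith)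
      (hGd t ht) (hmomG t ht) (w := w) (by linarith [hw.1]) hw'
    simp only
    rw [h1, ← mul_assoc, inv_mul_cancel₀ Complex.two_pi_I_ne_zero, one_mul]

end Crest.Agent.R102.L314
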