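import Mathlib
import Crest.Agent.R102.LeviC_314

/-!
Row 102, leaf LEVI (helper314), part D: holomorphic maps to projective space (`PH`), a generic
linear form does not vanish along a curve (`exists_form`).
-/

set_option autoImplicit false
set_option linter.unusedVariables false
set_option linter.unusedSectionVars false

open Set Filter Topology Metric MeasureTheory
open scoped Real

noncomputable section

namespace Crest.Agent.R102.L314

/-- proportional (with non-zero factor) -/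
def Sim {m : ℕ} (a b : Fin m → ℂ) : Prop := ∃ c : ℂ, c ≠ 0 ∧ a = c • b

/-- `F` represents a holomorphic map to projective space near `p` -/
def PH {E : Type*} [NormedAddCommGroup E] [NormedSpace ℂ E] {m : ℕ} (F : E → Fin m → ℂ) (p : E) :
    Prop :=
  ∃ v : E → Fin m → ℂ, AnalyticAt ℂ v p ∧ v p ≠ 0 ∧ ∀ᶠ x in 𝓝 p, Sim (F x) (v x)

/-- the linear form -/
def lf {m : ℕ} (L a : Fin m → ℂ) : ℂ := ∑ j, L j * a j

lemma lf_smul {m : ℕ} (L a : Fin m → ℂ) (c : ℂ) : lf L (c • a) = c * lf L a := by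
  simp only [lf, Pi.smul_apply, smul_eq_mul, Finset.mul_sum]
  exact Finset.sum_congr rfl (fun j _ => by ring)

lemma Sim.lf_ne {m : ℕ} {L a b : Fin m → ℂ} (h : Sim a b) (hb : lf L b ≠ 0) : lf L a ≠ 0 := by
  obtain ⟨c, hc, rfl⟩ := h
  rw [lf_smul]
  exact mul_ne_zero hc hb

lemma Sim.lf_ne' {m : ℕ} {L a b : Fin m → ℂ} (h : Sim a b) (ha : lf L a ≠ 0) : lf L b ≠ 0 := by
  obtain ⟨c, hc, rfl⟩ := h
  rw [lf_smul] at ha
  exact right_ne_zero_of_mul ha

/-- a generic linear form does not vanish along a curve in projective space -/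
theorem exists_form {m : ℕ} {g : ℂ → Fin m → ℂ} {ρ : ℝ} (hρ : 0 < ρ)
    (hg : ∀ w ∈ sphere (0 : ℂ) ρ, PH g w) :
    ∃ L : Fin m → ℂ, ∀ w ∈ sphere (0 : ℂ) ρ, lf L (g w) ≠ 0 := by
  classical
  -- local charts in the angle
  have hloc : ∀ θ : ℝ, ∃ η > 0, ∃ v : ℂ → Fin m → ℂ, ∃ k : Fin m,
      (∀ s ∈ ball θ η, AnalyticAt ℂ v (circleMap 0 ρ s) ∧ v (circleMap 0 ρ s) k ≠ 0 ∧
        Sim (g (circleMap 0 ρ s)) (v (circleMap 0 ρ s))) := by
    intro θ
    obtain ⟨v, hv, hv0, hsim⟩ := hg (circleMap 0 ρ θ) (circleMap_mem_sphere 0 hρ.le θ)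
    obtain ⟨k, hk⟩ := Function.ne_iff.1 hv0
    have h1 : ∀ᶠ x in 𝓝 (circleMap 0 ρ θ), AnalyticAt ℂ v x := hv.eventually_analyticAt
    have h2 : ∀ᶠ x in 𝓝 (circleMap 0 ρ θ), v x k ≠ 0 :=
      ((continuousAt_pi.1 hv.continuousAt) k).eventually_ne hk
    have hc : ContinuousAt (circleMap 0 ρ) θ := (continuous_circleMap 0 ρ).continuousAt
    obtain ⟨η, hη, hη2⟩ := Metric.eventually_nhds_iff_ball.1
      (hc.eventually (h1.and (h2.and hsim)))
    exact ⟨η, hη, v, k, fun s hs => hη2 s hs⟩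
  choose η hη v k hvk using hloc
  set Φ : (θ : ℝ) → ℝ × ({j : Fin m // j ≠ k θ} → ℂ) → (Fin m → ℂ) := fun θ x j =>
    if h : j = k θ then
      - (∑ i : {j : Fin m // j ≠ k θ}, x.2 i * v θ (circleMap 0 ρ x.1) i) *
        (v θ (circleMap 0 ρ x.1) (k θ))⁻¹
    else x.2 ⟨j, h⟩ with hΦ
  set S : (θ : ℝ) → Set (ℝ × ({j : Fin m // j ≠ k θ} → ℂ)) := fun θ => ball θ (η θ) ×ˢ univ with hS
  have hΦc : ∀ θ, ContDiffOn ℝ 1 (Φ θ) (S θ) := by
    intro θ
    rw [contDiffOn_pi]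
    rintro j ⟨s, μ⟩ ⟨hs, _⟩
    simp only [hΦ]
    refine ContDiffAt.contDiffWithinAt ?_
    obtain ⟨a1, a2, a3⟩ := hvk θ s hs
    have b1 : ContDiffAt ℝ 1 (fun x : ℝ × ({j : Fin m // j ≠ k θ} → ℂ) =>
        v θ (circleMap 0 ρ x.1)) (s, μ) := by
      have c1 : ContDiffAt ℝ 1 (v θ) (circleMap 0 ρ s) :=
        (a1.restrictScalars (𝕜 := ℝ)).contDiffAt
      have c2 : ContDiffAt ℝ 1 (fun x : ℝ × ({j : Fin m // j ≠ k θ} → ℂ) =>
        circleMap 0 ρ x.1) (s, μ) := by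
        have : ContDiff ℝ 1 (circleMap 0 ρ) := contDiff_circleMap 0 ρ
        exact (this.comp contDiff_fst).contDiffAt
      exact ContDiffAt.comp (s, μ) c1 c2
    have b2 : ∀ i : Fin m, ContDiffAt ℝ 1 (fun x : ℝ × ({j : Fin m // j ≠ k θ} → ℂ) =>
        v θ (circleMap 0 ρ x.1) i) (s, μ) := fun i => (contDiffAt_pi.1 b1) i
    have b3 : ∀ i : {j : Fin m // j ≠ k θ}, ContDiffAt ℝ 1
        (fun x : ℝ × ({j : Fin m // j ≠ k θ} → ℂ) => x.2 i) (s, μ) := by
      intro i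
      exact (contDiff_pi.1 (contDiff_snd (𝕜 := ℝ) (n := 1) (E := ℝ)
        (F := {j : Fin m // j ≠ k θ} → ℂ)) i).contDiffAt
    split_ifs with h
    · refine ContDiffAt.mul ?_ ((b2 (k θ)).inv a2)
      refine ContDiffAt.neg ?_
      exact ContDiffAt.sum (fun i _ => (b3 i).mul (b2 i))
    · exact b3 ⟨j, h⟩
  have hconv : ∀ θ, Convex ℝ (S θ) := fun θ => (convex_ball _ _).prod convex_univ
  have hdim : ∀ θ, dimH (Φ θ '' S θ) ≤ (2 * m - 1 : ℕ) := by
    intro θ
    refine ((hΦc θ).dimH_image_le (hconv θ) subset_rfl).trans ?_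
    refine (dimH_mono (subset_univ _)).trans ?_
    rw [Real.dimH_univ_eq_finrank]
    have hm : 0 < m := Fin.pos (k θ)
    have : Module.finrank ℝ (ℝ × ({j : Fin m // j ≠ k θ} → ℂ)) = 2 * m - 1 := by
      rw [Module.finrank_prod, Module.finrank_self, Module.finrank_pi_fintype]
      simp only [Complex.finrank_real_complex, Finset.sum_const, Finset.card_univ, smul_eq_mul]
      have : Fintype.card {j : Fin m // j ≠ k θ} = m - 1 := by
        simp [Fintype.card_subtype_compl]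
      rw [this]
      omega
    rw [this]
  -- countable cover
  obtain ⟨C, hC, hCu⟩ := TopologicalSpace.countable_cover_nhds (α := ℝ)
    (f := fun θ => ball θ (η θ)) (fun θ => ball_mem_nhds θ (hη θ))
  have hm : 0 < m := Fin.pos (k 0)
  have hcount : Countable C := hC.to_subtype
  have hB : dimH (⋃ θ : C, Φ θ '' S θ) < Module.finrank ℝ (Fin m → ℂ) := by
    rw [dimH_iUnion]
    refine (iSup_le (fun θ : C => hdim θ)).trans_lt ?_
    rw [Module.finrank_pi_fintype]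
    simp only [Complex.finrank_real_complex, Finset.sum_const, Finset.card_univ, Fintype.card_fin,
      smul_eq_mul]
    have : 2 * m - 1 < m * 2 := by omega
    exact_mod_cast this
  obtain ⟨L, hL⟩ := (dense_compl_of_dimH_lt_finrank hB).nonempty
  refine ⟨L, fun w hw hzero => hL ?_⟩
  -- find the angle
  obtain ⟨s, hs⟩ : ∃ s : ℝ, circleMap 0 ρ s = w := by
    have : w ∈ range (circleMap 0 ρ) := by
      rw [range_circleMap, abs_of_pos hρ]
      exact hw
    exact this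
  obtain ⟨θ, hθC, hsθ⟩ : ∃ θ ∈ C, s ∈ ball θ (η θ) := by
    have : s ∈ ⋃ x ∈ C, ball x (η x) := by rw [hCu]; exact mem_univ _
    simpa using this
  obtain ⟨a1, a2, a3⟩ := hvk θ s hsθ
  rw [hs] at a2 a3
  refine mem_iUnion.2 ⟨⟨θ, hθC⟩, (s, fun i => L i), ⟨hsθ, mem_univ _⟩, ?_⟩
  have hz2 : lf L (v θ w) = 0 := by
    by_contra h
    exact a3.lf_ne h hzero
  ext j
  simp only [hΦ]
  split_ifs with h
  · subst h
    rw [hs, ← div_eq_mul_inv, div_eq_iff a2]
    have hsum : lf L (v θ w) = L (k θ) * v θ w (k θ) +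
        ∑ i : {j : Fin m // j ≠ k θ}, L i * v θ w i := by
      rw [lf, ← Finset.add_sum_erase Finset.univ _ (Finset.mem_univ (k θ))]
      congr 1
      rw [← Finset.sum_subtype (Finset.univ.erase (k θ)) (by simp) (fun j => L j * v θ w j)]
    rw [hsum] at hz2
    linear_combination -hz2
  · rfl

end Crest.Agent.R102.L314
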