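import Mathlib
import Crest.Agent.R102.LeviD_314

/-!
Row 102, leaf LEVI (helper314), part E: factorization of one-variable functions, slices.
-/

set_option autoImplicit false
set_option linter.unusedVariables false
set_option linter.unusedSectionVars false

open Set Filter Topology Metric MeasureTheory
open scoped Real

noncomputable section

namespace Crest.Agent.R102.L314

theorem poly_factor_aux {K : Set ℂ} (Z : Finset ℂ) : ∀ ℓ : ℂ → ℂ, AnalyticOnNhd ℂ ℓ K →
    (∀ w ∈ K, ℓ w = 0 → w ∈ Z) → (∀ w ∈ K, analyticOrderAt ℓ w ≠ ⊤) →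
    ∃ c : Polynomial ℂ, c ≠ 0 ∧ ∃ u : ℂ → ℂ, AnalyticOnNhd ℂ u K ∧ (∀ w ∈ K, u w ≠ 0) ∧
      ∀ w, ℓ w = c.eval w * u w := by
  classical
  induction Z using Finset.induction_on with
  | empty =>
    intro ℓ hℓ hz _
    refine ⟨1, one_ne_zero, ℓ, hℓ, fun w hw h0 => ?_, fun w => by simp⟩
    simpa using hz w hw h0
  | insert z Z hzZ ih =>
    intro ℓ hℓ hz hord
    by_cases hzK : z ∈ K
    swap
    · refine ih ℓ hℓ (fun w hw h0 => ?_) hord
      have h1 := hz w hw h0
      rw [Finset.mem_insert] at h1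
      rcases h1 with h1 | h1
      · subst h1
        exact absurd hw hzK
      · exact h1
    obtain ⟨g, hg, hg0, hgl⟩ := (hℓ z hzK).analyticOrderAt_ne_top.1 (hord z hzK)
    set n := analyticOrderNatAt ℓ z
    set G : ℂ → ℂ := fun w => if w = z then g z else ℓ w / (w - z) ^ n with hG
    have hfac : ∀ w, ℓ w = (w - z) ^ n * G w := by
      intro w
      by_cases hw : w = z
      · subst hw
        simp only [hG, if_true]
        have := hgl.self_of_nhds
        simpa using this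
      · simp only [hG, if_neg hw]
        have : (w - z) ^ n ≠ 0 := pow_ne_zero _ (sub_ne_zero.2 hw)
        field_simp
    have hGg : G =ᶠ[𝓝 z] g := by
      filter_upwards [hgl] with w hw
      by_cases hwz : w = z
      · subst hwz
        simp [hG]
      · simp only [hG, if_neg hwz]
        rw [hw, smul_eq_mul]
        have : (w - z) ^ n ≠ 0 := pow_ne_zero _ (sub_ne_zero.2 hwz)
        field_simp
    have hGz : G z ≠ 0 := by simpa [hG] using hg0
    have hGan : AnalyticOnNhd ℂ G K := by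
      intro w hw
      by_cases hwz : w = z
      · subst hwz
        exact hg.congr hGg.symm
      · have h1 : (fun x => ℓ x / (x - z) ^ n) =ᶠ[𝓝 w] G := by
          filter_upwards [isOpen_ne.mem_nhds hwz] with x hx
          have hx' : x ≠ z := hx
          simp only [hG, if_neg hx']
        refine AnalyticAt.congr ?_ h1
        exact (hℓ w hw).div (by fun_prop) (pow_ne_zero _ (sub_ne_zero.2 hwz))
    obtain ⟨c, hc, u, hu, hu0, hcu⟩ := ih G hGan (by
      intro w hw h0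
      have hwz : w ≠ z := by
        rintro rfl
        exact hGz h0
      have h1 := hz w hw (by rw [hfac w, h0, mul_zero])
      rw [Finset.mem_insert] at h1
      exact h1.resolve_left hwz) (by
      intro w hw htop
      apply hord w hw
      rw [analyticOrderAt_eq_top] at htop ⊢
      filter_upwards [htop] with x hx
      rw [hfac x, hx, mul_zero])
    refine ⟨(Polynomial.X - Polynomial.C z) ^ n * c,
      mul_ne_zero (pow_ne_zero _ (Polynomial.X_sub_C_ne_zero z)) hc, u, hu, hu0, fun w => ?_⟩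
    rw [hfac w, hcu w]
    simp only [Polynomial.eval_mul, Polynomial.eval_pow, Polynomial.eval_sub, Polynomial.eval_X,
      Polynomial.eval_C]
    ring

theorem poly_factor {K : Set ℂ} (hK : IsCompact K) (hKc : IsPreconnected K) {ℓ : ℂ → ℂ}
    (hℓ : AnalyticOnNhd ℂ ℓ K) (hne : ∃ w ∈ K, ℓ w ≠ 0) :
    ∃ c : Polynomial ℂ, c ≠ 0 ∧ ∃ u : ℂ → ℂ, AnalyticOnNhd ℂ u K ∧ (∀ w ∈ K, u w ≠ 0) ∧
      ∀ w, ℓ w = c.eval w * u w := by
  obtain ⟨w0, hw0, hw0'⟩ := hne
  have hfin : {w ∈ K | ℓ w = 0}.Finite := by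
    by_contra hinf
    obtain ⟨x, hx, hacc⟩ := Set.Infinite.exists_accPt_of_subset_isCompact hinf hK
      (fun w hw => hw.1)
    rw [accPt_iff_frequently_nhdsNE] at hacc
    exact hw0' (hℓ.eqOn_zero_of_preconnected_of_frequently_eq_zero hKc hx
      (hacc.mono (fun w hw => hw.2)) hw0)
  refine poly_factor_aux hfin.toFinset ℓ hℓ (fun w hw h0 => ?_) (fun w hw htop => ?_)
  · rw [Set.Finite.mem_toFinset]
    exact ⟨hw, h0⟩
  · rw [analyticOrderAt_eq_top] at htop
    exact hw0' (hℓ.eqOn_zero_of_preconnected_of_eventuallyEq_zero hKc hw htop hw0)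

/-- the slice `g` extends meromorphically (as a map to projective space) inside the circle -/
def SExt {m : ℕ} (ρ : ℝ) (g : ℂ → Fin m → ℂ) : Prop :=
  ∃ ε > 0, ε < ρ ∧ ∃ v : ℂ → Fin m → ℂ, AnalyticOnNhd ℂ v (ball 0 (ρ + ε)) ∧
    (∃ w ∈ ball (0 : ℂ) (ρ + ε), v w ≠ 0) ∧
    ∀ w ∈ Ann (ρ - ε) (ρ + ε), ∃ c : ℂ, v w = c • g w

/-- the conclusion of the projective Levi theorem at `t1` -/
def Concl {m : ℕ} (F : ℂ × ℂ → Fin m → ℂ) (ρ : ℝ) (t1 : ℂ) : Prop :=
  ∃ δ > 0, ∃ ε > 0, ε < ρ ∧ ∃ V : ℂ × ℂ → Fin m → ℂ,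
    AnalyticOnNhd ℂ V (ball t1 δ ×ˢ ball 0 (ρ + ε)) ∧
    (∃ w ∈ ball (0 : ℂ) (ρ + ε), V (t1, w) ≠ 0) ∧
    ∀ t ∈ ball t1 δ, ∀ w ∈ Ann (ρ - ε) (ρ + ε), ∃ c : ℂ, V (t, w) = c • F (t, w)

lemma lf_analyticAt {E : Type*} [NormedAddCommGroup E] [NormedSpace ℂ E] {m : ℕ}
    {L : Fin m → ℂ} {v : E → Fin m → ℂ} {p : E} (hv : AnalyticAt ℂ v p) :
    AnalyticAt ℂ (fun x => lf L (v x)) p := by
  refine Finset.analyticAt_fun_sum _ (fun j _ => analyticAt_const.mul ?_)
  exact (analyticAt_pi_iff.1 hv) j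

lemma ann_nonempty {a b : ℝ} (h : a < b) (hb : 0 < b) : (Ann a b).Nonempty := by
  obtain ⟨r, h1, h2⟩ := exists_between (max_lt h hb)
  have hr : 0 < r := (le_max_right _ _).trans_lt h1
  refine ⟨(r : ℂ), ?_⟩
  simp only [Ann, mem_ofPred_eq, Complex.norm_real, Real.norm_of_nonneg hr.le]
  exact ⟨(le_max_left _ _).trans_lt h1, h2⟩

lemma SExt.ext1 {m : ℕ} {ρ : ℝ} (hρ : 0 < ρ) {g : ℂ → Fin m → ℂ} (h : SExt ρ g)
    {L : Fin m → ℂ} {ε : ℝ} (hε : 0 < ε) (hL : ∀ w ∈ Ann (ρ - ε) (ρ + ε), lf L (g w) ≠ 0)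
    (j : Fin m) : Ext1 ρ (fun w => (lf L (g w))⁻¹ * g w j) := by
  obtain ⟨ε', hε', hε'ρ, v, hv, hv0, hvg⟩ := h
  have hKsub : closedBall (0 : ℂ) ρ ⊆ ball 0 (ρ + ε') := closedBall_subset_ball (by linarith)
  have hℓ : AnalyticOnNhd ℂ (fun w => lf L (v w)) (ball 0 (ρ + ε')) := fun w hw =>
    lf_analyticAt (hv w hw)
  have hne : ∃ w ∈ closedBall (0 : ℂ) ρ, lf L (v w) ≠ 0 := by
    by_contra hcon
    push Not at hcon
    -- `v` vanishes on a small annulus
    set a := max (ρ - ε) (ρ - ε') with ha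
    have haρ : a < ρ := max_lt (by linarith) (by linarith)
    obtain ⟨w1, hw1⟩ := ann_nonempty haρ hρ
    have hvz : ∀ w ∈ Ann a ρ, v w = 0 := by
      intro w hw
      obtain ⟨c, hc⟩ := hvg w ⟨(le_max_right _ _).trans_lt hw.1, by linarith [hw.2]⟩
      have h1 := hcon w (by simpa using hw.2.le)
      rw [hc, lf_smul] at h1
      have h2 := hL w ⟨(le_max_left _ _).trans_lt hw.1, by linarith [hw.2]⟩
      rw [(mul_eq_zero.1 h1).resolve_right h2] at hc
      rw [hc, zero_smul]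
    obtain ⟨w0, hw0, hw0'⟩ := hv0
    apply hw0'
    refine hv.eqOn_zero_of_preconnected_of_eventuallyEq_zero (convex_ball _ _).isPreconnected
      (z₀ := w1) (by simp only [mem_ball, dist_zero_right]; linarith [hw1.2]) ?_ hw0
    filter_upwards [(isOpen_Ann a ρ).mem_nhds hw1] with w hw
    exact hvz w hw
  obtain ⟨c, hc, u, hu, hu0, hcu⟩ := poly_factor (isCompact_closedBall (0 : ℂ) ρ)
    (convex_closedBall _ _).isPreconnected (hℓ.mono hKsub) hne
  refine ⟨c, hc, fun w => v w j / u w, ?_, ?_⟩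
  · have h1 : AnalyticOnNhd ℂ (fun w => v w j / u w) (closedBall 0 ρ) := fun w hw =>
      ((analyticAt_pi_iff.1 (hv w (hKsub hw))) j).div (hu w hw) (hu0 w hw)
    refine DifferentiableOn.diffContOnCl ?_
    rw [closure_ball _ hρ.ne']
    exact h1.differentiableOn
  · intro w hw
    have hwn : ‖w‖ = ρ := by simpa using hw
    have hwK : w ∈ closedBall (0 : ℂ) ρ := by simp [hwn]
    obtain ⟨c', hc'⟩ := hvg w (by constructor <;> rw [hwn] <;> linarith)
    have h2 := hL w (by constructor <;> rw [hwn] <;> linarith)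
    have h3 := hcu w
    rw [hc', lf_smul] at h3
    have h4 := hu0 w hwK
    rw [div_eq_iff h4, hc', Pi.smul_apply, smul_eq_mul]
    have h5 : c' = c.eval w * u w * (lf L (g w))⁻¹ := by
      rw [← h3]
      field_simp
    rw [h5]
    ring

end Crest.Agent.R102.L314
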