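import Mathlib
import Crest.Agent.R102.LeviE_314

/-!
Row 102, leaf LEVI (helper314), part F: **Levi's extension theorem for maps to projective space**
(`levi_proj`): `F : Ω × {|w| = ρ} → P^{m-1}` holomorphic (`PH`), the slices over a non-empty open
`D0 ⊆ Ω` extend meromorphically inside the circle (`SExt`); then for every `t1 ∈ Ω` there is `V`
analytic on `ball t1 δ × ball 0 (ρ+ε)`, `V(t1,·) ≠ 0`, proportional to `F` on the annulus (`Concl`).
-/

set_option autoImplicit false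
set_option linter.unusedVariables false
set_option linter.unusedSectionVars false

open Set Filter Topology Metric MeasureTheory
open scoped Real

noncomputable section

namespace Crest.Agent.R102.L314

lemma PH.slice {m : ℕ} {F : ℂ × ℂ → Fin m → ℂ} {t w : ℂ} (h : PH F (t, w)) :
    PH (fun w => F (t, w)) w := by
  obtain ⟨v, hv, hv0, hs⟩ := h
  refine ⟨fun x => v (t, x), ?_, hv0, ?_⟩
  · exact hv.comp_of_eq (g := v) (f := fun x : ℂ => (t, x)) (analyticAt_const.prod analyticAt_id) rfl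
  · have hc : ContinuousAt (fun x : ℂ => ((t, x) : ℂ × ℂ)) w := by fun_prop
    exact hc.eventually hs

/-- the good chart near the circle over `t1` -/
lemma chart {m : ℕ} {F : ℂ × ℂ → Fin m → ℂ} {ρ : ℝ} (hρ : 0 < ρ) {t1 : ℂ}
    (hPH : ∀ w ∈ sphere (0 : ℂ) ρ, PH F (t1, w)) :
    ∃ L : Fin m → ℂ, ∃ δ > 0, ∃ ε > 0, ε < ρ ∧
      ∀ p ∈ ball t1 δ ×ˢ Ann (ρ - ε) (ρ + ε),
        AnalyticAt ℂ (fun p => (lf L (F p))⁻¹ • F p) p ∧ lf L (F p) ≠ 0 := by
  obtain ⟨L, hL⟩ := exists_form hρ (fun w hw => (hPH w hw).slice)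
  set U : Set (ℂ × ℂ) := {p | AnalyticAt ℂ (fun p => (lf L (F p))⁻¹ • F p) p} ∩
    interior {p | lf L (F p) ≠ 0} with hU
  have hUo : IsOpen U := (isOpen_analyticAt ℂ _).inter isOpen_interior
  obtain ⟨δ, hδ, ε, hε, hερ, htube⟩ := tube hρ hUo (t1 := t1) (by
    intro w hw
    obtain ⟨v, hv, hv0, hs⟩ := hPH w hw
    have h1 : lf L (v (t1, w)) ≠ 0 := hs.self_of_nhds.lf_ne' (hL w hw)
    have h2 : ∀ᶠ x in 𝓝 (t1, w), lf L (v x) ≠ 0 :=
      (lf_analyticAt hv).continuousAt.eventually_ne h1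
    constructor
    · have h3 : AnalyticAt ℂ (fun x => (lf L (v x))⁻¹ • v x) (t1, w) :=
        ((lf_analyticAt hv).inv h1).smul hv
      refine h3.congr ?_
      filter_upwards [hs] with x hx
      obtain ⟨c, hc, hcx⟩ := hx
      rw [hcx, lf_smul, smul_smul]
      congr 1
      field_simp
    · rw [mem_interior_iff_mem_nhds]
      filter_upwards [hs, h2] with x hx1 hx2
      exact hx1.lf_ne hx2)
  exact ⟨L, δ, hδ, ε, hε, hερ, fun p hp => ⟨(htube hp).1, interior_subset (htube hp).2⟩⟩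

theorem levi_step {m : ℕ} {F : ℂ × ℂ → Fin m → ℂ} {ρ : ℝ} (hρ : 0 < ρ) {t1 : ℂ}
    (hPH : ∀ w ∈ sphere (0 : ℂ) ρ, PH F (t1, w)) :
    ∃ δ > 0, ∀ D0 : Set ℂ, IsOpen D0 → D0.Nonempty → D0 ⊆ ball t1 δ →
      (∀ t ∈ D0, SExt ρ (fun w => F (t, w))) → Concl F ρ t1 := by
  classical
  obtain ⟨L, δ, hδ, ε, hε, hερ, hch⟩ := chart hρ hPH
  refine ⟨δ, hδ, fun D0 hD0 hD0n hD0δ hS => ?_⟩
  set G : ℂ × ℂ → Fin m → ℂ := fun p => (lf L (F p))⁻¹ • F p with hG
  have hsph : ∀ w ∈ sphere (0 : ℂ) ρ, w ∈ Ann (ρ - ε) (ρ + ε) := by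
    intro w hw
    have hwn : ‖w‖ = ρ := by simpa using hw
    constructor <;> rw [hwn] <;> linarith
  have hcore : ∀ j : Fin m, ∃ N : ℕ, ∃ q : Fin (N + 1) → ℂ → ℂ,
      (∀ j, AnalyticOnNhd ℂ (q j) (ball t1 δ)) ∧ (∃ j, q j t1 ≠ 0) ∧
      ∃ δ' > 0, ∃ ε' > 0, ε' < ρ ∧ ball t1 δ' ⊆ ball t1 δ ∧
        AnalyticOnNhd ℂ (fun p => G p j) (ball t1 δ' ×ˢ Ann (ρ - ε') (ρ + ε')) ∧
        ∃ P : ℂ × ℂ → ℂ, AnalyticOnNhd ℂ P (ball t1 δ' ×ˢ ball 0 (ρ + ε')) ∧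
          ∀ t ∈ ball t1 δ', ∀ w ∈ Ann (ρ - ε') (ρ + ε'),
            P (t, w) = (∑ j, q j t * w ^ (j : ℕ)) * G (t, w) j := by
    intro j
    refine levi_core isOpen_ball (convex_ball _ _).isPreconnected hρ ?_ hD0 hD0n hD0δ ?_
      (mem_ball_self hδ)
    · rintro p ⟨hp1, hp2⟩
      exact (analyticAt_pi_iff.1 (hch p ⟨hp1, hsph _ hp2⟩).1) j
    · intro t ht
      exact (hS t ht).ext1 hρ hε (fun w hw => (hch (t, w) ⟨hD0δ ht, hw⟩).2) j
  choose N q hq hq1 δ' hδ' ε' hε' hε'ρ hsub hGan P hP hPG using hcore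
  -- common radii
  have hcom : ∀ a : Fin m → ℝ, (∀ j, 0 < a j) → ∀ b > 0, ∃ c > 0, c ≤ b ∧ ∀ j, c ≤ a j := by
    intro a ha b hb
    have h1 : ∀ᶠ x in 𝓝[>] (0 : ℝ), ∀ j, x ≤ a j := by
      refine eventually_all.2 (fun j => ?_)
      filter_upwards [Ioc_mem_nhdsGT (ha j)] with x hx using hx.2
    have h2 : ∀ᶠ x in 𝓝[>] (0 : ℝ), x ≤ b := by
      filter_upwards [Ioc_mem_nhdsGT hb] with x hx using hx.2
    obtain ⟨c, ⟨hc1, hc2⟩, hc3⟩ := ((h1.and h2).and self_mem_nhdsWithin).exists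
    exact ⟨c, hc3, hc2, hc1⟩
  obtain ⟨δ₂, hδ₂, hδ₂δ, hδ₂'⟩ := hcom δ' hδ' δ hδ
  obtain ⟨ε₂, hε₂, hε₂ε, hε₂'⟩ := hcom ε' hε' ε hε
  set Q : Fin m → ℂ × ℂ → ℂ := fun j p => ∑ k, q j k p.1 * p.2 ^ (k : ℕ) with hQ
  have hQan : ∀ j, ∀ p ∈ ball t1 δ₂ ×ˢ (univ : Set ℂ), AnalyticAt ℂ (Q j) p := by
    rintro j p ⟨hp, _⟩
    refine Finset.analyticAt_fun_sum _ (fun k _ => ?_)
    refine AnalyticAt.mul ?_ (analyticAt_snd.pow _)
    have h1 : AnalyticAt ℂ (q j k) p.1 := hq j k p.1 (ball_subset_ball hδ₂δ hp)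
    exact h1.comp analyticAt_fst
  have hVG : ∀ t ∈ ball t1 δ₂, ∀ w ∈ Ann (ρ - ε₂) (ρ + ε₂),
      (fun j => (∏ i ∈ Finset.univ.erase j, Q i (t, w)) * P j (t, w)) =
        (∏ i, Q i (t, w)) • G (t, w) := by
    intro t ht w hw
    ext j
    have h1 := hPG j t (ball_subset_ball (hδ₂' j) ht) w
      ⟨by linarith [hw.1, hε₂' j], by linarith [hw.2, hε₂' j]⟩
    rw [Pi.smul_apply, smul_eq_mul, h1, ← Finset.prod_erase_mul _ _ (Finset.mem_univ j)]
    simp only [hQ]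
    ring
  refine ⟨δ₂, hδ₂, ε₂, hε₂, hε₂ε.trans_lt hερ, fun p j =>
    (∏ i ∈ Finset.univ.erase j, Q i p) * P j p, ?_, ?_, ?_⟩
  · rintro p ⟨hp1, hp2⟩
    rw [analyticAt_pi_iff]
    intro j
    refine AnalyticAt.mul ?_ ?_
    · exact Finset.analyticAt_fun_prod _ (fun i _ => hQan i p ⟨hp1, mem_univ _⟩)
    · exact hP j p ⟨ball_subset_ball (hδ₂' j) hp1, ball_subset_ball (by linarith [hε₂' j]) hp2⟩
  · -- some `w` in the annulus where no `Q i` vanishes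
    set pol : Fin m → Polynomial ℂ := fun j => ∑ k : Fin (N j + 1),
      Polynomial.C (q j k t1) * Polynomial.X ^ (k : ℕ) with hpol
    have hev : ∀ j w, (pol j).eval w = Q j (t1, w) := by
      intro j w
      simp only [hpol, hQ, Polynomial.eval_finsetSum, Polynomial.eval_mul, Polynomial.eval_C,
        Polynomial.eval_pow, Polynomial.eval_X]
    have hpol0 : ∀ j, pol j ≠ 0 := by
      intro j h0
      obtain ⟨k, hk⟩ := hq1 j
      apply hk
      have h1 : (pol j).coeff k = q j k t1 := by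
        simp only [hpol, Polynomial.finsetSum_coeff, Polynomial.coeff_C_mul_X_pow]
        rw [Finset.sum_eq_single k]
        · simp
        · intro b _ hb
          rw [if_neg]
          intro h
          exact hb (Fin.ext h.symm)
        · simp
      rw [← h1, h0, Polynomial.coeff_zero]
    have hprod : (∏ j, pol j) ≠ 0 := Finset.prod_ne_zero_iff.2 (fun j _ => hpol0 j)
    have hinf : (Ann (ρ - ε₂) (ρ + ε₂)).Infinite := by
      obtain ⟨w1, hw1⟩ := ann_nonempty (a := ρ - ε₂) (b := ρ + ε₂) (by linarith) (by linarith)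
      exact infinite_of_mem_nhds w1 ((isOpen_Ann _ _).mem_nhds hw1)
    obtain ⟨w, hw, hw0⟩ : ∃ w ∈ Ann (ρ - ε₂) (ρ + ε₂), (∏ j, pol j).eval w ≠ 0 := by
      by_contra hcon
      push Not at hcon
      exact hprod (Polynomial.eq_zero_of_infinite_isRoot _ (hinf.mono (fun w hw => hcon w hw)))
    refine ⟨w, by simpa using hw.2, ?_⟩
    have h1 := hVG t1 (mem_ball_self hδ₂) w hw
    change (fun j => (∏ i ∈ Finset.univ.erase j, Q i (t1, w)) * P j (t1, w)) ≠ 0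
    rw [h1]
    have h2 : (∏ i, Q i (t1, w)) ≠ 0 := by
      rw [Polynomial.eval_prod] at hw0
      simpa only [hev] using hw0
    have h3 := (hch (t1, w) ⟨mem_ball_self hδ, by linarith [hw.1], by linarith [hw.2]⟩).2
    refine smul_ne_zero h2 (smul_ne_zero (inv_ne_zero h3) ?_)
    rintro h0
    apply h3
    rw [h0]
    simp [lf]
  · intro t ht w hw
    refine ⟨(∏ i, Q i (t, w)) * (lf L (F (t, w)))⁻¹, ?_⟩
    have h1 := hVG t ht w hw
    change (fun j => (∏ i ∈ Finset.univ.erase j, Q i (t, w)) * P j (t, w)) = _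
    rw [h1, hG, smul_smul]

/-- **Levi's extension theorem for maps to projective space** -/
theorem levi_proj {m : ℕ} {Ω : Set ℂ} (hΩ : IsOpen Ω) (hc : IsPreconnected Ω) {ρ : ℝ} (hρ : 0 < ρ)
    {F : ℂ × ℂ → Fin m → ℂ} (hF : ∀ t ∈ Ω, ∀ w ∈ sphere (0 : ℂ) ρ, PH F (t, w))
    {D0 : Set ℂ} (hD0 : IsOpen D0) (hD0n : D0.Nonempty) (hD0Ω : D0 ⊆ Ω)
    (hs : ∀ t ∈ D0, SExt ρ (fun w => F (t, w))) {t1 : ℂ} (ht1 : t1 ∈ Ω) : Concl F ρ t1 := by
  -- near a good point all slices extend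
  have hgood : ∀ t, Concl F ρ t → ∀ᶠ s in 𝓝 t, Concl F ρ s ∧ SExt ρ (fun w => F (s, w)) := by
    rintro t ⟨δ, hδ, ε, hε, hερ, V, hV, ⟨w0, hw0, hVw0⟩, hVF⟩
    have h1 : ∀ᶠ s in 𝓝 t, V (s, w0) ≠ 0 := by
      have hc : ContinuousAt (fun s : ℂ => V (s, w0)) t :=
        (hV (t, w0) ⟨mem_ball_self hδ, hw0⟩).continuousAt.comp (f := fun s : ℂ => (s, w0))
          (by fun_prop)
      exact hc.eventually_ne hVw0
    filter_upwards [h1, ball_mem_nhds t hδ] with s hs1 hs2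
    have hsub : ball s (δ - dist s t) ⊆ ball t δ := ball_subset_ball' (by linarith)
    have hpos : 0 < δ - dist s t := by
      have : dist s t < δ := hs2
      linarith
    refine ⟨⟨δ - dist s t, hpos, ε, hε, hερ, V, fun p hp => hV p ⟨hsub hp.1, hp.2⟩,
      ⟨w0, hw0, hs1⟩, fun x hx w hw => hVF x (hsub hx) w hw⟩, ?_⟩
    refine ⟨ε, hε, hερ, fun w => V (s, w), fun w hw => ?_, ⟨w0, hw0, hs1⟩,
      fun w hw => hVF s hs2 w hw⟩
    exact (hV (s, w) ⟨hs2, hw⟩).comp_of_eq (g := V) (f := fun x : ℂ => (s, x))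
      (analyticAt_const.prod analyticAt_id) rfl
  set A : Set ℂ := {t | Concl F ρ t} with hA
  have hAo : IsOpen A := isOpen_iff_mem_nhds.2 (fun t ht => (hgood t ht).mono (fun s hs => hs.1))
  -- closure points of `A` in `Ω` are in `A`
  have hAcl : ∀ t ∈ Ω, t ∈ closure A → t ∈ A := by
    intro t ht hcl
    obtain ⟨δ, hδ, hstep⟩ := levi_step hρ (hF t ht)
    refine hstep (A ∩ ball t δ) (hAo.inter isOpen_ball) ?_ inter_subset_right ?_
    · have := mem_closure_iff.1 hcl (ball t δ) isOpen_ball (mem_ball_self hδ)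
      rwa [inter_comm] at this
    · intro s hs
      exact (hgood s hs.1).self_of_nhds.2
  have hne : (Ω ∩ A).Nonempty := by
    obtain ⟨t, ht⟩ := hD0n
    obtain ⟨δ, hδ, hstep⟩ := levi_step hρ (hF t (hD0Ω ht))
    refine ⟨t, hD0Ω ht, hstep (D0 ∩ ball t δ) (hD0.inter isOpen_ball) ⟨t, ht, mem_ball_self hδ⟩
      inter_subset_right (fun s hs' => hs s hs'.1)⟩
  exact hc.subset_of_closure_inter_subset hAo hne (fun t ht => hAcl t ht.2 ht.1) ht1

end Crest.Agent.R102.L314
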