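import Crest.Agent.R102.Mer_88
import Crest.Agent.R266.SCV

/-!
Row 102, part (C) (helper88): tools for the Levi extension theorem with meromorphic data.

* `reg f` : regularisation of `f`;
* `div_power` : `Q = (t - t1)^m Q1` with `Q1(t1,·)` not identically zero;
* `SliceOK`, `exists_sliceOK`, `meromorphicAt_slice`.
-/

set_option autoImplicit false

open Set Filter Topology Metric

noncomputable section

namespace Crest.Agent.R102.LeviM88

open Crest.Agent.R102.Mer88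

section Reg

variable {E : Type*} [NormedAddCommGroup E] [NormedSpace ℂ E]

/-- `g` coincides near `x` off a thin set with an analytic function -/
def Regular (g : E → ℂ) (x : E) : Prop := ∃ F : E → ℂ, AnalyticAt ℂ F x ∧ Rep g F (fun _ => 1) x

open Classical in
/-- regularisation -/
def reg (g : E → ℂ) (x : E) : ℂ := if h : Regular g x then h.choose x else 0

theorem rep_one_unique {g F F' : E → ℂ} {x : E} (hF : AnalyticAt ℂ F x) (hF' : AnalyticAt ℂ F' x)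
    (h : Rep g F (fun _ => 1) x) (h' : Rep g F' (fun _ => 1) x) : F =ᶠ[𝓝 x] F' := by
  have := Rep.unique hF analyticAt_const hF' analyticAt_const h h'
  filter_upwards [this] with y hy
  linear_combination hy

theorem reg_eq {g F : E → ℂ} {x : E} (hF : AnalyticAt ℂ F x) (h : Rep g F (fun _ => 1) x) :
    reg g =ᶠ[𝓝 x] F := by
  filter_upwards [hF.eventually_analyticAt, h.eventually] with y hy1 hy2
  have hr : Regular g y := ⟨F, hy1, hy2⟩
  unfold reg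
  rw [dif_pos hr]
  exact (rep_one_unique hr.choose_spec.1 hy1 hr.choose_spec.2 hy2).self_of_nhds

theorem Regular.analyticAt {g : E → ℂ} {x : E} (h : Regular g x) : AnalyticAt ℂ (reg g) x := by
  obtain ⟨F, hF, hR⟩ := h
  exact hF.congr (reg_eq hF hR).symm

theorem rep_congr {f P P' Q : E → ℂ} {c : E} (h : Rep f P Q c) (hp : P =ᶠ[𝓝 c] P') :
    Rep f P' Q c := by
  obtain ⟨D, hD, h1⟩ := h
  refine ⟨D, hD, ?_⟩
  filter_upwards [h1, hp] with x hx hx' h0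
  rw [← hx', hx h0]

theorem Regular.rep {g : E → ℂ} {x : E} (h : Regular g x) : Rep g (reg g) (fun _ => 1) x := by
  obtain ⟨F, hF, hR⟩ := h
  exact rep_congr hR (reg_eq hF hR).symm

theorem Regular.eventually {g : E → ℂ} {x : E} (h : Regular g x) : ∀ᶠ y in 𝓝 x, Regular g y := by
  obtain ⟨F, hF, hR⟩ := h
  filter_upwards [hF.eventually_analyticAt, hR.eventually] with y h1 h2
  exact ⟨F, h1, h2⟩

/-- if `Q f = P` off a thin set and `Q x ≠ 0`, then `f` is regular at `x` with value `P x / Q x` -/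
theorem regular_of_rep {f P Q : E → ℂ} {x : E} (_hP : AnalyticAt ℂ P x) (hQ : AnalyticAt ℂ Q x)
    (h : Rep f P Q x) (h0 : Q x ≠ 0) :
    Rep f (fun y => P y / Q y) (fun _ => 1) x := by
  obtain ⟨D, hD, h1⟩ := h
  refine ⟨D, hD, ?_⟩
  filter_upwards [h1, hQ.continuousAt.eventually_ne h0] with y hy hy0 hd
  rw [one_mul, eq_div_iff hy0, mul_comm]
  exact hy hd

theorem reg_of_rep {f P Q : E → ℂ} {x : E} (hP : AnalyticAt ℂ P x) (hQ : AnalyticAt ℂ Q x)
    (h : Rep f P Q x) (h0 : Q x ≠ 0) : reg f =ᶠ[𝓝 x] fun y => P y / Q y :=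
  reg_eq (hP.div hQ h0) (regular_of_rep hP hQ h h0)

theorem Regular.of_rep {f P Q : E → ℂ} {x : E} (hP : AnalyticAt ℂ P x) (hQ : AnalyticAt ℂ Q x)
    (h : Rep f P Q x) (h0 : Q x ≠ 0) : Regular f x :=
  ⟨_, hP.div hQ h0, regular_of_rep hP hQ h h0⟩

theorem Regular.mul_analytic {f a : E → ℂ} {x : E} (ha : AnalyticAt ℂ a x) (h : Regular f x) :
    Regular (fun y => a y * f y) x := by
  obtain ⟨F, hF, D, hD, h1⟩ := h
  refine ⟨fun y => a y * F y, ha.mul hF, D, hD, ?_⟩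
  filter_upwards [h1] with y hy h0
  have := hy h0
  rw [one_mul] at this ⊢
  rw [this]

/-- if `a f` is regular and `a x ≠ 0` then `f` is regular and the regularisations correspond -/
theorem reg_mul {f a : E → ℂ} {x : E} (ha : AnalyticAt ℂ a x) (h0 : a x ≠ 0)
    (h : Regular (fun y => a y * f y) x) :
    Regular f x ∧ reg (fun y => a y * f y) x = a x * reg f x := by
  have h1 : Regular f x := by
    obtain ⟨F, hF, D, hD, h1⟩ := h
    refine ⟨fun y => F y / a y, hF.div ha h0, D, hD, ?_⟩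
    filter_upwards [h1, ha.continuousAt.eventually_ne h0] with y hy hy0 hd
    have := hy hd
    rw [one_mul] at this ⊢
    rw [← this]; field_simp
  refine ⟨h1, ?_⟩
  have h2 : Rep (fun y => a y * f y) (fun y => a y * reg f y) (fun _ => 1) x := by
    obtain ⟨D, hD, h2⟩ := h1.rep
    refine ⟨D, hD, ?_⟩
    filter_upwards [h2] with y hy hd
    have := hy hd
    rw [one_mul] at this ⊢
    rw [this]
  exact (reg_eq (ha.mul h1.analyticAt) h2).self_of_nhds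

end Reg

/-! ### division by powers of `t - t1` -/

/-- one step: if `Q(t1,·) = 0` on `V`, then `Q = (t - t1) Q1` on `ball t1 r × V` -/
theorem div_step {Q : ℂ × ℂ → ℂ} {t1 w1 : ℂ} {r : ℝ}
    (hQ : AnalyticOnNhd ℂ Q (ball t1 r ×ˢ ball w1 r)) (h0 : ∀ w ∈ ball w1 r, Q (t1, w) = 0) :
    ∃ Q1 : ℂ × ℂ → ℂ, AnalyticOnNhd ℂ Q1 (ball t1 r ×ˢ ball w1 r) ∧
      ∀ x ∈ ball t1 r ×ˢ ball w1 r, Q x = (x.1 - t1) * Q1 x := by
  set U : Set (ℂ × ℂ) := ball t1 r ×ˢ ball w1 r with hU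
  have hUo : IsOpen U := isOpen_ball.prod isOpen_ball
  set d : ℂ × ℂ → ℂ := fun p => fderiv ℂ Q p (1, 0) with hd
  have hda : AnalyticOnNhd ℂ d U := fun p hp =>
    (ContinuousLinearMap.apply ℂ ℂ ((1, 0) : ℂ × ℂ)).analyticAt _ |>.comp (hQ p hp).fderiv
  -- the segment stays in `U`
  have hseg : ∀ p ∈ U, ∀ s : ℝ, s ∈ Icc (0 : ℝ) 1 → (t1 + s * (p.1 - t1), p.2) ∈ U := by
    rintro ⟨t, w⟩ ⟨ht, hw⟩ s hs
    refine ⟨?_, hw⟩
    rw [mem_ball, dist_eq_norm] at ht ⊢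
    have h1 : t1 + (s : ℂ) * (t - t1) - t1 = (s : ℂ) * (t - t1) := by ring
    show ‖t1 + (s : ℂ) * (t - t1) - t1‖ < r
    rw [h1, norm_mul, Complex.norm_real, Real.norm_eq_abs, abs_of_nonneg hs.1]
    calc s * ‖t - t1‖ ≤ 1 * ‖t - t1‖ := by gcongr; exact hs.2
      _ < r := by rw [one_mul]; exact ht
  refine ⟨fun p => ∫ s in (0 : ℝ)..1, d (t1 + s * (p.1 - t1), p.2), ?_, ?_⟩
  · refine Crest.Agent.R266.SCV.analyticOnNhd_intervalIntegral
      (f := fun p : (ℂ × ℂ) × ℝ => d (t1 + p.2 * (p.1.1 - t1), p.1.2)) hUo ?_ ?_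
    · refine hda.continuousOn.comp (by fun_prop) ?_
      rintro ⟨p, s⟩ ⟨hp, hs⟩
      rw [uIcc_of_le zero_le_one] at hs
      exact hseg p hp s hs
    · intro s hs
      rw [uIcc_of_le zero_le_one] at hs
      refine hda.differentiableOn.comp (f := fun p : ℂ × ℂ => (t1 + (s : ℂ) * (p.1 - t1), p.2))
        ?_ (fun p hp => hseg p hp s hs)
      exact Differentiable.differentiableOn (by fun_prop)
  · rintro ⟨t, w⟩ hp
    have hp' := hp
    obtain ⟨ht, hw⟩ := hp'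
    set γ : ℝ → ℂ := fun s => Q (t1 + s * (t - t1), w) with hγ
    have hder : ∀ s ∈ uIcc (0 : ℝ) 1, HasDerivAt γ ((t - t1) * d (t1 + s * (t - t1), w)) s := by
      intro s hs
      rw [uIcc_of_le zero_le_one] at hs
      have h1 : HasFDerivAt Q (fderiv ℂ Q (t1 + s * (t - t1), w)) (t1 + s * (t - t1), w) :=
        (hQ _ (hseg (t, w) hp s hs)).differentiableAt.hasFDerivAt
      have h2 : HasDerivAt (fun s : ℝ => ((t1 + s * (t - t1), w) : ℂ × ℂ)) (t - t1, 0) s := by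
        have h3 : HasDerivAt (fun s : ℝ => t1 + (s : ℂ) * (t - t1)) (t - t1) s := by
          have := ((Complex.ofRealCLM.hasDerivAt (x := s)).mul_const (t - t1)).const_add t1
          simpa using this
        exact h3.prodMk (hasDerivAt_const s w)
      have h4 : HasDerivAt γ ((fderiv ℂ Q (t1 + s * (t - t1), w)) (t - t1, 0)) s :=
        HasFDerivAt.comp_hasDerivAt (f := fun s : ℝ => ((t1 + s * (t - t1), w) : ℂ × ℂ)) s
          (h1.restrictScalars ℝ) h2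
      have h5 : ((t - t1, 0) : ℂ × ℂ) = (t - t1) • ((1, 0) : ℂ × ℂ) := by simp
      rw [h5, map_smul, smul_eq_mul] at h4
      exact h4
    have hint := intervalIntegral.integral_eq_sub_of_hasDerivAt hder (by
      refine ContinuousOn.intervalIntegrable ?_
      refine ContinuousOn.mul continuousOn_const ?_
      refine hda.continuousOn.comp (by fun_prop) ?_
      intro s hs
      rw [uIcc_of_le zero_le_one] at hs
      exact hseg (t, w) hp s hs)
    rw [intervalIntegral.integral_const_mul] at hint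
    have h6 : γ 1 = Q (t, w) := by simp [hγ]
    have h7 : γ 0 = 0 := by simp [hγ]; exact h0 w hw
    rw [h6, h7, sub_zero] at hint
    exact hint.symm

/-- **division**: `Q = (t - t1)^m Q1`, `Q1(t1, ·)` not identically zero -/
theorem div_power {t1 w1 : ℂ} {r : ℝ} (hr : 0 < r) (n : ℕ) : ∀ {Q : ℂ × ℂ → ℂ},
    AnalyticOnNhd ℂ Q (ball t1 r ×ˢ ball w1 r) →
    (∃ w ∈ ball w1 r, analyticOrderAt (fun t => Q (t, w)) t1 ≤ n) →
    ∃ (m : ℕ) (Q1 : ℂ × ℂ → ℂ), AnalyticOnNhd ℂ Q1 (ball t1 r ×ˢ ball w1 r) ∧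
      (∀ x ∈ ball t1 r ×ˢ ball w1 r, Q x = (x.1 - t1) ^ m * Q1 x) ∧
      ∃ w ∈ ball w1 r, Q1 (t1, w) ≠ 0 := by
  induction n with
  | zero =>
    intro Q hQ ⟨w, hw, hord⟩
    refine ⟨0, Q, hQ, fun x _ => by simp, w, hw, ?_⟩
    have h1 : analyticOrderAt (fun t => Q (t, w)) t1 = 0 := by simpa using hord
    have h2 : AnalyticAt ℂ (fun t => Q (t, w)) t1 :=
      (hQ (t1, w) ⟨mem_ball_self hr, hw⟩).comp (f := fun t : ℂ => (t, w)) (by fun_prop)
    exact h2.analyticOrderAt_eq_zero.1 h1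
  | succ n ih =>
    intro Q hQ ⟨w, hw, hord⟩
    by_cases h : ∃ w ∈ ball w1 r, Q (t1, w) ≠ 0
    · exact ⟨0, Q, hQ, fun x _ => by simp, h⟩
    push Not at h
    obtain ⟨Q1, hQ1, hQQ⟩ := div_step hQ h
    have h2 : AnalyticAt ℂ (fun t => Q1 (t, w)) t1 :=
      (hQ1 (t1, w) ⟨mem_ball_self hr, hw⟩).comp (f := fun t : ℂ => (t, w)) (by fun_prop)
    have h3 : analyticOrderAt (fun t => Q1 (t, w)) t1 ≤ n := by
      have h4 : (fun t => Q (t, w)) =ᶠ[𝓝 t1] fun t => (t - t1) * Q1 (t, w) := by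
        filter_upwards [ball_mem_nhds t1 hr] with t ht
        exact hQQ (t, w) ⟨ht, hw⟩
      have h5 : analyticOrderAt (fun t => Q (t, w)) t1 =
          analyticOrderAt (fun t : ℂ => t - t1) t1 + analyticOrderAt (fun t => Q1 (t, w)) t1 := by
        rw [analyticOrderAt_congr h4]
        exact analyticOrderAt_mul (by fun_prop) h2
      have h6 : (1 : ℕ∞) ≤ analyticOrderAt (fun t : ℂ => t - t1) t1 := by
        rw [Order.one_le_iff_ne_zero]
        intro h0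
        rw [(by fun_prop : AnalyticAt ℂ (fun t : ℂ => t - t1) t1).analyticOrderAt_eq_zero] at h0
        simp at h0
      rw [h5] at hord
      have h7 : (1 : ℕ∞) + analyticOrderAt (fun t => Q1 (t, w)) t1 ≤ (n : ℕ∞) + 1 := by
        refine (add_le_add_left h6 _).trans ?_
        exact_mod_cast hord
      rw [add_comm] at h7
      exact (ENat.add_le_add_iff_right (by simp)).1 h7
    obtain ⟨m, Q2, hQ2, hQ12, hne⟩ := ih hQ1 ⟨w, hw, h3⟩
    refine ⟨m + 1, Q2, hQ2, fun x hx => ?_, hne⟩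
    rw [hQQ x hx, hQ12 x hx]; ring

/-- division without prescribed order -/
theorem exists_div {Q : ℂ × ℂ → ℂ} {t1 w1 : ℂ} {r : ℝ} (hr : 0 < r)
    (hQ : AnalyticOnNhd ℂ Q (ball t1 r ×ˢ ball w1 r))
    (h : ∃ x ∈ ball t1 r ×ˢ ball w1 r, Q x ≠ 0) :
    ∃ (m : ℕ) (Q1 : ℂ × ℂ → ℂ), AnalyticOnNhd ℂ Q1 (ball t1 r ×ˢ ball w1 r) ∧
      (∀ x ∈ ball t1 r ×ˢ ball w1 r, Q x = (x.1 - t1) ^ m * Q1 x) ∧
      ∃ w ∈ ball w1 r, Q1 (t1, w) ≠ 0 := by
  obtain ⟨⟨t', w'⟩, ⟨ht', hw'⟩, hne⟩ := h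
  have h1 : AnalyticOnNhd ℂ (fun t => Q (t, w')) (ball t1 r) := fun t ht =>
    (hQ (t, w') ⟨ht, hw'⟩).comp (f := fun t : ℂ => (t, w')) (by fun_prop)
  have h2 : analyticOrderAt (fun t => Q (t, w')) t1 ≠ ⊤ := by
    rw [Ne, analyticOrderAt_eq_top]
    intro h3
    have := h1.eqOn_zero_of_preconnected_of_eventuallyEq_zero (convex_ball t1 r).isPreconnected
      (mem_ball_self hr) h3 ht'
    exact hne this
  obtain ⟨n, hn⟩ := ENat.ne_top_iff_exists.1 h2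
  exact div_power hr n hQ ⟨w', hw', hn ▸ le_rfl⟩

/-! ### slices -/

/-- for a generic height near `w1`, `Q(t, w) ≠ 0` for all `t ≠ t1` near `t1` -/
theorem punct_ne {Q : ℂ × ℂ → ℂ} {t1 w1 : ℂ} (h : NZ Q (t1, w1)) {r : ℝ} (hr : 0 < r) :
    ∃ w ∈ ball w1 r, ∀ᶠ t in 𝓝[≠] t1, Q (t, w) ≠ 0 := by
  obtain ⟨s, hs, hQ⟩ := exists_ball_analytic h.1
  set m := min r s with hm
  have hm0 : 0 < m := lt_min hr hs
  obtain ⟨⟨t', w'⟩, hne, hx⟩ := (h.2.and_eventually (ball_mem_nhds (t1, w1) hm0)).exists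
  have hx' : ((t', w') : ℂ × ℂ) ∈ ball t1 m ×ˢ ball w1 m := by rw [ball_prod_same]; exact hx
  obtain ⟨ht', hw'⟩ := hx'
  simp only at ht' hw'
  have h1 : AnalyticOnNhd ℂ (fun t => Q (t, w')) (ball t1 m) := fun t ht => by
    have h2 : ((t, w') : ℂ × ℂ) ∈ ball (t1, w1) s := by
      rw [← ball_prod_same]
      exact ⟨ball_subset_ball (min_le_right _ _) ht, ball_subset_ball (min_le_right _ _) hw'⟩
    exact (hQ _ h2).comp (f := fun t : ℂ => (t, w')) (by fun_prop)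
  refine ⟨w', ball_subset_ball (min_le_left _ _) hw', ?_⟩
  rcases (h1 t1 (mem_ball_self hm0)).eventually_eq_zero_or_eventually_ne_zero with h3 | h3
  · exact absurd (h1.eqOn_zero_of_preconnected_of_eventuallyEq_zero (convex_ball t1 m).isPreconnected
      (mem_ball_self hm0) h3 ht') hne
  · exact h3

/-- the slice of a representation -/
theorem slice_rep {f P Q : ℂ × ℂ → ℂ} {t w : ℂ} (hP : AnalyticAt ℂ P (t, w))
    (hQ : AnalyticAt ℂ Q (t, w)) (hR : Rep f P Q (t, w)) (h : ∃ᶠ z in 𝓝 w, Q (t, z) ≠ 0) :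
    (fun z => reg f (t, z)) =ᶠ[𝓝[≠] w] fun z => P (t, z) / Q (t, z) := by
  have hQ1 : AnalyticAt ℂ (fun z => Q (t, z)) w :=
    hQ.comp (f := fun z : ℂ => (t, z)) (by fun_prop)
  have hne : ∀ᶠ z in 𝓝[≠] w, Q (t, z) ≠ 0 := by
    rcases hQ1.eventually_eq_zero_or_eventually_ne_zero with h3 | h3
    · exact absurd h3 (by rw [not_eventually]; exact h)
    · exact h3
  have hcont : Tendsto (fun z : ℂ => (t, z)) (𝓝 w) (𝓝 (t, w)) :=
    Continuous.tendsto (by fun_prop : Continuous fun z : ℂ => (t, z)) w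
  have hev := (hcont.eventually (hP.eventually_analyticAt.and
    (hQ.eventually_analyticAt.and hR.eventually))).filter_mono
      (nhdsWithin_le_nhds (s := {w}ᶜ))
  filter_upwards [hne, hev] with z h1 h2
  exact (reg_of_rep h2.1 h2.2.1 h2.2.2 h1).self_of_nhds

/-- slices at `t ≠ t1` near `t1` are meromorphic near `w1` -/
theorem slice_local {f : ℂ × ℂ → ℂ} {t1 w1 : ℂ} (hf : MerAt f (t1, w1)) :
    ∃ r > 0, ∀ t ∈ ball t1 r, t ≠ t1 → ∀ w ∈ ball w1 r,
      MeromorphicAt (fun z => reg f (t, z)) w := by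
  obtain ⟨P, Q, hP, hQ, hR⟩ := hf
  obtain ⟨r, hr, h1⟩ := Metric.eventually_nhds_iff_ball.1
    (hP.eventually_analyticAt.and (hQ.1.eventually_analyticAt.and hR.eventually))
  obtain ⟨w', hw', hev⟩ := punct_ne hQ hr
  obtain ⟨s, hs, h2⟩ := Metric.eventually_nhds_iff_ball.1 (eventually_nhdsWithin_iff.1 hev)
  refine ⟨min r s, lt_min hr hs, fun t ht htne w hw => ?_⟩
  have hmem : ∀ z ∈ ball w1 r, ((t, z) : ℂ × ℂ) ∈ ball (t1, w1) r := by
    intro z hz
    rw [← ball_prod_same]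
    exact ⟨ball_subset_ball (min_le_left _ _) ht, hz⟩
  have hwr : w ∈ ball w1 r := ball_subset_ball (min_le_left _ _) hw
  have hne : Q (t, w') ≠ 0 := h2 t (ball_subset_ball (min_le_right _ _) ht) htne
  have hQa : AnalyticOnNhd ℂ (fun z => Q (t, z)) (ball w1 r) := fun z hz =>
    (h1 _ (hmem z hz)).2.1.comp (f := fun z : ℂ => (t, z)) (by fun_prop)
  have hPa : AnalyticAt ℂ (fun z => P (t, z)) w :=
    (h1 _ (hmem w hwr)).1.comp (f := fun z : ℂ => (t, z)) (by fun_prop)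
  have hfr : ∃ᶠ z in 𝓝 w, Q (t, z) ≠ 0 := by
    intro hcon
    have h3 : (fun z => Q (t, z)) =ᶠ[𝓝 w] 0 := by
      filter_upwards [hcon] with z hz
      by_contra h4
      exact hz h4
    exact hne (hQa.eqOn_zero_of_preconnected_of_eventuallyEq_zero
      (convex_ball w1 r).isPreconnected hwr h3 hw')
  have h4 := slice_rep (h1 _ (hmem w hwr)).1 (h1 _ (hmem w hwr)).2.1 (h1 _ (hmem w hwr)).2.2 hfr
  exact (hPa.meromorphicAt.div (hQa w hwr).meromorphicAt).congr h4.symm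

theorem slice_compact {f : ℂ × ℂ → ℂ} {t1 : ℂ} {K : Set ℂ} (hK : IsCompact K)
    (hf : ∀ w ∈ K, MerAt f (t1, w)) :
    ∃ r > 0, ∀ t ∈ ball t1 r, t ≠ t1 → ∀ w ∈ K, MeromorphicAt (fun z => reg f (t, z)) w := by
  refine hK.induction_on (p := fun S => ∃ r > 0, ∀ t ∈ ball t1 r, t ≠ t1 → ∀ w ∈ S,
    MeromorphicAt (fun z => reg f (t, z)) w) ⟨1, one_pos, by simp⟩ ?_ ?_ ?_
  · rintro S T hST ⟨r, hr, h⟩
    exact ⟨r, hr, fun t ht hne w hw => h t ht hne w (hST hw)⟩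
  · rintro S T ⟨r, hr, h⟩ ⟨r', hr', h'⟩
    refine ⟨min r r', lt_min hr hr', fun t ht hne w hw => ?_⟩
    rcases hw with hw | hw
    · exact h t (ball_subset_ball (min_le_left _ _) ht) hne w hw
    · exact h' t (ball_subset_ball (min_le_right _ _) ht) hne w hw
  · intro w hw
    obtain ⟨r, hr, h⟩ := slice_local (hf w hw)
    exact ⟨ball w r, mem_nhdsWithin_of_mem_nhds (ball_mem_nhds w hr), r, hr, h⟩

/-! ### choice of the radius -/

theorem regular_local {f : ℂ × ℂ → ℂ} {t1 w1 : ℂ} (hf : MerAt f (t1, w1)) :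
    ∃ m : ℕ, ∃ r > 0, ∀ w ∈ ball w1 r, w ≠ w1 →
      Regular (fun x : ℂ × ℂ => (x.1 - t1) ^ m * f x) (t1, w) := by
  obtain ⟨P, Q, hP, hQ, hR⟩ := hf
  obtain ⟨r, hr, h1⟩ := Metric.eventually_nhds_iff_ball.1
    (hP.eventually_analyticAt.and (hQ.1.eventually_analyticAt.and hR.eventually))
  have hball : ball (t1, w1) r = ball t1 r ×ˢ ball w1 r := (ball_prod_same _ _ _).symm
  obtain ⟨x0, hx0, hx0'⟩ := (hQ.2.and_eventually (ball_mem_nhds (t1, w1) hr)).exists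
  replace hx0' : x0 ∈ ball t1 r ×ˢ ball w1 r := by rw [ball_prod_same]; exact hx0'
  rw [hball] at h1
  obtain ⟨m, Q1, hQ1, hQQ, w', hw', hne⟩ := exists_div (t1 := t1) (w1 := w1) hr
    (fun x hx => (h1 x hx).2.1) ⟨x0, hx0', hx0⟩
  have hQa : AnalyticOnNhd ℂ (fun z => Q1 (t1, z)) (ball w1 r) := fun z hz =>
    (hQ1 (t1, z) ⟨mem_ball_self hr, hz⟩).comp (f := fun z : ℂ => (t1, z)) (by fun_prop)
  have hev : ∀ᶠ z in 𝓝[≠] w1, Q1 (t1, z) ≠ 0 := by
    rcases (hQa w1 (mem_ball_self hr)).eventually_eq_zero_or_eventually_ne_zero with h3 | h3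
    · exact absurd (hQa.eqOn_zero_of_preconnected_of_eventuallyEq_zero
        (convex_ball w1 r).isPreconnected (mem_ball_self hr) h3 hw') hne
    · exact h3
  obtain ⟨s, hs, h2⟩ := Metric.eventually_nhds_iff_ball.1 (eventually_nhdsWithin_iff.1 hev)
  refine ⟨m, min r s, lt_min hr hs, fun w hw hww => ?_⟩
  have hw1 : w ∈ ball w1 r := ball_subset_ball (min_le_left _ _) hw
  have hx : ((t1, w) : ℂ × ℂ) ∈ ball t1 r ×ˢ ball w1 r := ⟨mem_ball_self hr, hw1⟩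
  have h3 : Q1 (t1, w) ≠ 0 := h2 w (ball_subset_ball (min_le_right _ _) hw) hww
  refine Regular.of_rep (P := P) (Q := Q1) (h1 _ hx).1 (hQ1 _ hx) ?_ h3
  obtain ⟨D, hD, h4⟩ := (h1 _ hx).2.2
  refine ⟨D, hD, ?_⟩
  filter_upwards [h4, (isOpen_ball.prod isOpen_ball).mem_nhds hx] with x hx1 hx2 hd
  have h5 := hx1 hd
  rw [hQQ x hx2] at h5
  rw [← h5]; ring

theorem regular_compact {f : ℂ × ℂ → ℂ} {t1 : ℂ} {K : Set ℂ} (hK : IsCompact K)
    (hf : ∀ w ∈ K, MerAt f (t1, w)) :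
    ∃ M : ℕ, ∃ B : Set ℂ, B.Finite ∧ ∀ w ∈ K, w ∉ B →
      Regular (fun x : ℂ × ℂ => (x.1 - t1) ^ M * f x) (t1, w) := by
  have hup : ∀ {m n : ℕ} {w : ℂ}, m ≤ n → Regular (fun x : ℂ × ℂ => (x.1 - t1) ^ m * f x) (t1, w) →
      Regular (fun x : ℂ × ℂ => (x.1 - t1) ^ n * f x) (t1, w) := by
    intro m n w hmn h
    have h1 := h.mul_analytic (a := fun x : ℂ × ℂ => (x.1 - t1) ^ (n - m))
      ((analyticAt_fst.sub analyticAt_const).pow _)
    have h2 : (fun y : ℂ × ℂ => (y.1 - t1) ^ (n - m) * ((y.1 - t1) ^ m * f y)) =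
        fun x : ℂ × ℂ => (x.1 - t1) ^ n * f x := by
      funext y
      rw [← mul_assoc, ← pow_add, Nat.sub_add_cancel hmn]
    rwa [h2] at h1
  refine hK.induction_on (p := fun S => ∃ M : ℕ, ∃ B : Set ℂ, B.Finite ∧ ∀ w ∈ S, w ∉ B →
      Regular (fun x : ℂ × ℂ => (x.1 - t1) ^ M * f x) (t1, w)) ⟨0, ∅, by simp⟩ ?_ ?_ ?_
  · rintro S T hST ⟨M, B, hB, h⟩
    exact ⟨M, B, hB, fun w hw => h w (hST hw)⟩
  · rintro S T ⟨M, B, hB, h⟩ ⟨M', B', hB', h'⟩
    refine ⟨max M M', B ∪ B', hB.union hB', fun w hw hwB => ?_⟩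
    rcases hw with hw | hw
    · exact hup (le_max_left _ _) (h w hw fun hh => hwB (Or.inl hh))
    · exact hup (le_max_right _ _) (h' w hw fun hh => hwB (Or.inr hh))
  · intro w hw
    obtain ⟨m, r, hr, h⟩ := regular_local (hf w hw)
    exact ⟨ball w r, mem_nhdsWithin_of_mem_nhds (ball_mem_nhds w hr), m, {w},
      finite_singleton w, fun z hz hzB => h z hz (by simpa using hzB)⟩

/-- **choice of the radius** -/
theorem exists_radius {f : ℂ × ℂ → ℂ} {t1 : ℂ} {ρ1 ρ2 : ℝ} (h12 : ρ1 < ρ2)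
    (hf : ∀ w : ℂ, ρ1 ≤ ‖w‖ → ‖w‖ ≤ ρ2 → MerAt f (t1, w)) :
    ∃ M : ℕ, ∃ ρ, ρ1 < ρ ∧ ρ < ρ2 ∧ ∀ w : ℂ, ‖w‖ = ρ →
      Regular (fun x : ℂ × ℂ => (x.1 - t1) ^ M * f x) (t1, w) := by
  have hK : IsCompact {w : ℂ | ρ1 ≤ ‖w‖ ∧ ‖w‖ ≤ ρ2} := by
    refine (isCompact_closedBall (0 : ℂ) ρ2).of_isClosed_subset ?_ ?_
    · exact (isClosed_le continuous_const continuous_norm).inter
        (isClosed_le continuous_norm continuous_const)
    · intro w hw
      rw [mem_closedBall_zero_iff]; exact hw.2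
  obtain ⟨M, B, hB, h⟩ := regular_compact hK (fun w hw => hf w hw.1 hw.2)
  obtain ⟨ρ, hρ, hρB⟩ := ((Ioo_infinite h12).sdiff (hB.image (fun w => ‖w‖))).nonempty
  refine ⟨M, ρ, hρ.1, hρ.2, fun w hw => h w ⟨?_, ?_⟩ fun hwB => hρB ⟨w, hwB, hw⟩⟩
  · rw [hw]; exact hρ.1.le
  · rw [hw]; exact hρ.2.le

end Crest.Agent.R102.LeviM88
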