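import Crest.Agent.R102.LeviM1_88
import Crest.Agent.R102.LeviC_314

/-!
Row 102, part (C) (helper88): Levi extension theorem with meromorphic data (on top of
helper314's `levi_core`).
-/

set_option autoImplicit false

open Set Filter Topology Metric

noncomputable section

namespace Crest.Agent.R102.LeviM88

open Crest.Agent.R102.Mer88 Crest.Agent.R102

section Gen

variable {E : Type*} [NormedAddCommGroup E] [NormedSpace ℂ E]

theorem Regular.of_analytic {g : E → ℂ} {x : E} (h : AnalyticAt ℂ g x) : Regular g x :=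
  ⟨g, h, rep_of_analytic (Eventually.of_forall fun _ => one_mul _)⟩

theorem isOpen_regular (g : E → ℂ) : IsOpen {x | Regular g x} :=
  isOpen_iff_mem_nhds.2 fun _ hx => Regular.eventually hx

theorem isOpen_merAt (g : E → ℂ) : IsOpen {x | MerAt g x} :=
  isOpen_iff_mem_nhds.2 fun _ hx => MerAt.eventually hx

theorem nz_of_preconnected {D : E → ℂ} {U : Set E} (hUo : IsOpen U) (hU : IsPreconnected U)
    (hD : AnalyticOnNhd ℂ D U) {x : E} (hx : x ∈ U) (h : ∃ᶠ z in 𝓝 x, D z ≠ 0) :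
    ∀ y ∈ U, NZ D y := by
  refine fun y hy => ⟨hD y hy, fun hcon => ?_⟩
  have h0 : D =ᶠ[𝓝 y] 0 := by
    filter_upwards [hcon] with z hz
    by_contra h1
    exact hz h1
  have h2 := hD.eqOn_zero_of_preconnected_of_eventuallyEq_zero hU hy h0
  refine h ?_
  filter_upwards [hUo.mem_nhds hx] with z hz h3
  exact h3 (h2 hz)

end Gen

/-! ### one variable -/

theorem rep_of_punct {F g : ℂ → ℂ} {w : ℂ} (h : F =ᶠ[𝓝[≠] w] g) : Rep F g (fun _ => 1) w := by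
  refine ⟨fun z => z - w, ⟨by fun_prop, ?_⟩, ?_⟩
  · have h1 : ∀ᶠ z in 𝓝[≠] w, z - w ≠ 0 := by
      filter_upwards [self_mem_nhdsWithin] with z hz
      exact sub_ne_zero.2 hz
    exact h1.frequently.filter_mono nhdsWithin_le_nhds
  · rw [EventuallyEq, eventually_nhdsWithin_iff] at h
    filter_upwards [h] with z hz h0
    rw [one_mul]
    exact hz (sub_ne_zero.1 h0)

theorem clear_poles {G : ℂ → ℂ} {K : Set ℂ} (hK : IsCompact K)
    (hG : ∀ w ∈ K, MeromorphicAt G w) :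
    ∃ c : Polynomial ℂ, c ≠ 0 ∧ ∀ w ∈ K, Regular (fun z => c.eval z * G z) w := by
  refine hK.induction_on (p := fun S => ∃ c : Polynomial ℂ, c ≠ 0 ∧ ∀ w ∈ S,
    Regular (fun z => c.eval z * G z) w) ⟨1, one_ne_zero, by simp⟩ ?_ ?_ ?_
  · rintro S T hST ⟨c, hc, h⟩
    exact ⟨c, hc, fun w hw => h w (hST hw)⟩
  · rintro S T ⟨c, hc, h⟩ ⟨c', hc', h'⟩
    refine ⟨c * c', mul_ne_zero hc hc', fun w hw => ?_⟩
    rcases hw with hw | hw
    · have h1 := (h w hw).mul_analytic (a := fun z => c'.eval z) (c'.differentiable.analyticAt w)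
      have h2 : (fun y => c'.eval y * (c.eval y * G y)) = fun z => (c * c').eval z * G z := by
        funext y; rw [Polynomial.eval_mul]; ring
      rwa [h2] at h1
    · have h1 := (h' w hw).mul_analytic (a := fun z => c.eval z) (c.differentiable.analyticAt w)
      have h2 : (fun y => c.eval y * (c'.eval y * G y)) = fun z => (c * c').eval z * G z := by
        funext y; rw [Polynomial.eval_mul]; ring
      rwa [h2] at h1
  · intro w hw
    obtain ⟨n, hn⟩ := hG w hw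
    refine ⟨{z | AnalyticAt ℂ (fun z => (z - w) ^ n • G z) z}, mem_nhdsWithin_of_mem_nhds
      hn.eventually_analyticAt, (Polynomial.X - Polynomial.C w) ^ n,
      pow_ne_zero _ (Polynomial.X_sub_C_ne_zero w), fun z hz => ?_⟩
    have h2 : (fun z => ((Polynomial.X - Polynomial.C w) ^ n).eval z * G z) =
        fun z => (z - w) ^ n • G z := by
      funext z; simp
    rw [h2]
    exact Regular.of_analytic hz

theorem ext1_of_mero {ρ : ℝ} (hρ : 0 < ρ) {G g : ℂ → ℂ} (hG : ∀ w, ‖w‖ ≤ ρ → MeromorphicAt G w)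
    (hg : ∀ w, ‖w‖ = ρ → AnalyticAt ℂ g w) (hgG : ∀ w, ‖w‖ = ρ → G =ᶠ[𝓝[≠] w] g) :
    L314.Ext1 ρ g := by
  obtain ⟨c, hc, h⟩ := clear_poles (isCompact_closedBall (0 : ℂ) ρ) (G := G) (fun w hw => hG w (by
    rwa [mem_closedBall_zero_iff] at hw))
  have han : ∀ w ∈ closedBall (0 : ℂ) ρ, AnalyticAt ℂ (reg (fun z => c.eval z * G z)) w :=
    fun w hw => (h w hw).analyticAt
  refine ⟨c, hc, reg (fun z => c.eval z * G z), ⟨?_, ?_⟩, ?_⟩
  · exact fun w hw => (han w (ball_subset_closedBall hw)).differentiableAt.differentiableWithinAt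
  · rw [closure_ball _ hρ.ne']
    exact fun w hw => (han w hw).continuousAt.continuousWithinAt
  · intro w hw
    rw [mem_sphere_zero_iff_norm] at hw
    have h1 : Rep (fun z => c.eval z * G z) (fun z => c.eval z * g z) (fun _ => 1) w := by
      apply rep_of_punct
      filter_upwards [hgG w hw] with z hz
      rw [hz]
    exact (reg_eq ((c.differentiable.analyticAt w).mul (hg w hw))
      h1).self_of_nhds

/-! ### Levi data -/

/-- Levi data at `t1` -/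
def LD (f : ℂ × ℂ → ℂ) (ρ1 ρ2 : ℝ) (t1 : ℂ) : Prop :=
  ∃ ε > 0, ∃ ρ, ρ1 < ρ ∧ ρ < ρ2 ∧ ∃ P Q : ℂ × ℂ → ℂ,
    AnalyticOnNhd ℂ P (ball t1 ε ×ˢ ball 0 (ρ + ε)) ∧
    (∀ x ∈ ball t1 ε ×ˢ ball (0 : ℂ) (ρ + ε), NZ Q x) ∧
    ∀ t ∈ ball t1 ε, ∀ w : ℂ, ‖w‖ = ρ → Rep f P Q (t, w)

theorem rep_radial {f P Q : ℂ × ℂ → ℂ} {t : ℂ} {a b : ℝ} (ha : 0 < a)
    (hf : ∀ w : ℂ, a ≤ ‖w‖ → ‖w‖ ≤ b → MerAt f (t, w))
    (hP : ∀ w : ℂ, a ≤ ‖w‖ → ‖w‖ ≤ b → AnalyticAt ℂ P (t, w))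
    (hQ : ∀ w : ℂ, a ≤ ‖w‖ → ‖w‖ ≤ b → AnalyticAt ℂ Q (t, w))
    {ρ : ℝ} (hρ : a ≤ ρ) (hρb : ρ ≤ b) (h : ∀ w : ℂ, ‖w‖ = ρ → Rep f P Q (t, w)) :
    ∀ w : ℂ, a ≤ ‖w‖ → ‖w‖ ≤ b → Rep f P Q (t, w) := by
  intro w hw1 hw2
  have hw0 : 0 < ‖w‖ := ha.trans_le hw1
  set u : ℂ := w / ‖w‖ with hu
  have hun : ‖u‖ = 1 := by
    rw [hu, norm_div, Complex.norm_real, Real.norm_of_nonneg hw0.le, div_self hw0.ne']
  have hnorm : ∀ x ∈ Icc a b, ‖(x : ℂ) * u‖ = x := by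
    intro x hx
    rw [norm_mul, hun, mul_one, Complex.norm_real, Real.norm_of_nonneg (ha.le.trans hx.1)]
  set S : Set (ℂ × ℂ) := (fun x : ℝ => ((t, (x : ℂ) * u) : ℂ × ℂ)) '' Icc a b with hS
  have hSc : IsPreconnected S :=
    isPreconnected_Icc.image _ (Continuous.continuousOn (by fun_prop))
  have h1 := rep_of_preconnected (f := f) (P := P) (Q := Q) hSc
    (by rintro _ ⟨x, hx, rfl⟩; exact hf _ (by rw [hnorm x hx]; exact hx.1)
          (by rw [hnorm x hx]; exact hx.2))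
    (by rintro _ ⟨x, hx, rfl⟩; exact hP _ (by rw [hnorm x hx]; exact hx.1)
          (by rw [hnorm x hx]; exact hx.2))
    (by rintro _ ⟨x, hx, rfl⟩; exact hQ _ (by rw [hnorm x hx]; exact hx.1)
          (by rw [hnorm x hx]; exact hx.2))
    (c0 := (t, (ρ : ℂ) * u)) ⟨ρ, ⟨hρ, hρb⟩, rfl⟩ (h _ (hnorm ρ ⟨hρ, hρb⟩))
  have h2 : w = (‖w‖ : ℂ) * u := by
    have : (‖w‖ : ℂ) ≠ 0 := by exact_mod_cast hw0.ne'
    rw [hu]; field_simp
  have h3 := h1 (t, ((‖w‖ : ℝ) : ℂ) * u) ⟨‖w‖, ⟨hw1, hw2⟩, rfl⟩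
  rwa [← h2] at h3

/-- tube lemma for `{t1} × {ρ1 ≤ |w| ≤ ρ2}` -/
theorem tube_ann {U : Set (ℂ × ℂ)} (hU : IsOpen U) {t1 : ℂ} {ρ1 ρ2 : ℝ}
    (h : ∀ w : ℂ, ρ1 ≤ ‖w‖ → ‖w‖ ≤ ρ2 → (t1, w) ∈ U) :
    ∀ᶠ t in 𝓝 t1, ∀ w : ℂ, ρ1 ≤ ‖w‖ → ‖w‖ ≤ ρ2 → (t, w) ∈ U := by
  have hK : IsCompact {w : ℂ | ρ1 ≤ ‖w‖ ∧ ‖w‖ ≤ ρ2} := by
    refine (isCompact_closedBall (0 : ℂ) ρ2).of_isClosed_subset ?_ ?_
    · exact (isClosed_le continuous_const continuous_norm).inter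
        (isClosed_le continuous_norm continuous_const)
    · intro w hw
      rw [mem_closedBall_zero_iff]; exact hw.2
  obtain ⟨u, v, hu, hv, hu1, hv1, huv⟩ := generalized_tube_lemma (s := {t1}) isCompact_singleton
    hK hU (by
      rintro ⟨a, b⟩ ⟨ha, hb⟩
      simp only [mem_singleton_iff] at ha
      subst ha
      exact h b hb.1 hb.2)
  filter_upwards [hu.mem_nhds (hu1 rfl)] with t ht w h1 h2
  exact huv ⟨ht, hv1 ⟨h1, h2⟩⟩

theorem LD.slice {f : ℂ × ℂ → ℂ} {ρ1 ρ2 : ℝ} {t2 : ℂ} (h0 : 0 < ρ1) (h : LD f ρ1 ρ2 t2)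
    (hf : ∀ w : ℂ, ρ1 ≤ ‖w‖ → ‖w‖ ≤ ρ2 → MerAt f (t2, w)) :
    ∃ r > 0, ∀ t ∈ ball t2 r, t ≠ t2 → ∃ F : ℂ → ℂ, (∀ w : ℂ, ‖w‖ ≤ ρ2 → MeromorphicAt F w) ∧
      ∀ w : ℂ, ρ1 ≤ ‖w‖ → ‖w‖ ≤ ρ2 → F =ᶠ[𝓝[≠] w] fun z => reg f (t, z) := by
  obtain ⟨ε, hε, ρ, hρ1, hρ2, P, Q, hP, hQ, hR⟩ := h
  have hρ0 : 0 < ρ := h0.trans hρ1
  have hK : IsCompact {w : ℂ | ρ1 ≤ ‖w‖ ∧ ‖w‖ ≤ ρ2} := by
    refine (isCompact_closedBall (0 : ℂ) ρ2).of_isClosed_subset ?_ ?_
    · exact (isClosed_le continuous_const continuous_norm).inter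
        (isClosed_le continuous_norm continuous_const)
    · intro w hw
      rw [mem_closedBall_zero_iff]; exact hw.2
  obtain ⟨r1, hr1, hs⟩ := slice_compact hK (fun w hw => hf w hw.1 hw.2)
  obtain ⟨r2, hr2, hm⟩ := Metric.eventually_nhds_iff_ball.1 (tube_ann (isOpen_merAt f) hf)
  obtain ⟨w0, hw0, hev⟩ := punct_ne (hQ (t2, 0) ⟨mem_ball_self hε, mem_ball_self (by linarith)⟩)
    (by linarith : 0 < ρ + ε)
  obtain ⟨r3, hr3, h3⟩ := Metric.eventually_nhds_iff_ball.1 (eventually_nhdsWithin_iff.1 hev)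
  refine ⟨min (min ε r1) (min r2 r3), lt_min (lt_min hε hr1) (lt_min hr2 hr3),
    fun t ht hne => ?_⟩
  have htε : t ∈ ball t2 ε := ball_subset_ball ((min_le_left _ _).trans (min_le_left _ _)) ht
  have ht1 : t ∈ ball t2 r1 := ball_subset_ball ((min_le_left _ _).trans (min_le_right _ _)) ht
  have ht2 : t ∈ ball t2 r2 := ball_subset_ball ((min_le_right _ _).trans (min_le_left _ _)) ht
  have ht3 : t ∈ ball t2 r3 := ball_subset_ball ((min_le_right _ _).trans (min_le_right _ _)) ht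
  have hmem : ∀ w : ℂ, ‖w‖ ≤ ρ → ((t, w) : ℂ × ℂ) ∈ ball t2 ε ×ˢ ball (0 : ℂ) (ρ + ε) :=
    fun w hw => ⟨htε, by rw [mem_ball_zero_iff]; linarith⟩
  have hQa : AnalyticOnNhd ℂ (fun z => Q (t, z)) (ball 0 (ρ + ε)) := fun z hz =>
    ((hQ (t, z) ⟨htε, hz⟩).1).comp (f := fun z : ℂ => (t, z)) (by fun_prop)
  have hfr : ∀ w : ℂ, ‖w‖ ≤ ρ → ∃ᶠ z in 𝓝 w, Q (t, z) ≠ 0 := by
    intro w hw hcon
    have h4 : (fun z => Q (t, z)) =ᶠ[𝓝 w] 0 := by
      filter_upwards [hcon] with z hz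
      by_contra h5
      exact hz h5
    exact (h3 t ht3 hne) (hQa.eqOn_zero_of_preconnected_of_eventuallyEq_zero
      (convex_ball _ _).isPreconnected (hmem w hw).2 h4 hw0)
  have hrep : ∀ w : ℂ, ρ1 ≤ ‖w‖ → ‖w‖ ≤ ρ → Rep f P Q (t, w) := by
    refine rep_radial h0 (fun w h1 h2 => hm t ht2 w h1 (h2.trans hρ2.le))
      (fun w _ h2 => hP _ (hmem w h2)) (fun w _ h2 => (hQ _ (hmem w h2)).1) hρ1.le le_rfl
      (fun w hw => hR t htε w hw)
  have hC1 : ∀ w : ℂ, ρ1 ≤ ‖w‖ → ‖w‖ ≤ ρ →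
      (fun z => reg f (t, z)) =ᶠ[𝓝[≠] w] fun z => P (t, z) / Q (t, z) := fun w h1 h2 =>
    slice_rep (hP _ (hmem w h2)) (hQ _ (hmem w h2)).1 (hrep w h1 h2) (hfr w h2)
  have hPQ : ∀ w : ℂ, ‖w‖ ≤ ρ → MeromorphicAt (fun z => P (t, z) / Q (t, z)) w := by
    intro w hw
    have h5 : AnalyticAt ℂ (fun z => P (t, z)) w :=
      (hP _ (hmem w hw)).comp (f := fun z : ℂ => (t, z)) (by fun_prop)
    exact h5.meromorphicAt.div (hQa w (hmem w hw).2).meromorphicAt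
  set F : ℂ → ℂ := fun w => if ‖w‖ ≤ ρ then P (t, w) / Q (t, w) else reg f (t, w) with hF
  have hF1 : ∀ w : ℂ, ρ1 ≤ ‖w‖ → ‖w‖ ≤ ρ → F =ᶠ[𝓝[≠] w] fun z => reg f (t, z) := by
    intro w h1 h2
    filter_upwards [hC1 w h1 h2] with z hz
    simp only [hF]
    split_ifs with h
    · exact hz.symm
    · rfl
  have hF2 : ∀ w : ℂ, ρ < ‖w‖ → F =ᶠ[𝓝 w] fun z => reg f (t, z) := by
    intro w h1
    filter_upwards [(isOpen_lt continuous_const continuous_norm).mem_nhds h1] with z hz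
    simp only [hF]
    rw [if_neg (not_le.2 hz)]
  refine ⟨F, fun w hw => ?_, fun w h1 h2 => ?_⟩
  · rcases lt_trichotomy ‖w‖ ρ with h4 | h4 | h4
    · refine (hPQ w h4.le).congr ?_
      refine Filter.EventuallyEq.filter_mono ?_ nhdsWithin_le_nhds
      filter_upwards [(isOpen_lt continuous_norm continuous_const).mem_nhds h4] with z hz
      simp only [hF]
      rw [if_pos (le_of_lt hz)]
    · refine (hPQ w h4.le).congr ?_
      exact (hC1 w (by rw [h4]; exact hρ1.le) h4.le).symm.trans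
        (hF1 w (by rw [h4]; exact hρ1.le) h4.le).symm
    · refine (hs t ht1 hne w ⟨hρ1.le.trans h4.le, hw⟩).congr ?_
      exact (hF2 w h4).symm.filter_mono nhdsWithin_le_nhds
  · rcases le_or_gt ‖w‖ ρ with h4 | h4
    · exact hF1 w h1 h4
    · exact (hF2 w h4).filter_mono nhdsWithin_le_nhds

theorem nz_fst {t1 w0 : ℂ} (M : ℕ) : NZ (fun x : ℂ × ℂ => (x.1 - t1) ^ M) (t1, w0) := by
  refine ⟨(analyticAt_fst.sub analyticAt_const).pow _, ?_⟩
  have h1 : Tendsto (fun t : ℂ => (t, w0)) (𝓝[≠] t1) (𝓝 (t1, w0)) :=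
    (Continuous.tendsto (by fun_prop : Continuous fun t : ℂ => (t, w0)) t1).mono_left
      nhdsWithin_le_nhds
  have h2 : ∀ᶠ t in 𝓝[≠] t1, (t - t1) ^ M ≠ 0 := by
    filter_upwards [self_mem_nhdsWithin] with t ht
    exact pow_ne_zero _ (sub_ne_zero.2 ht)
  exact h1.frequently h2.frequently

theorem LD.step {f : ℂ × ℂ → ℂ} {ρ1 ρ2 : ℝ} {t1 : ℂ} (h0 : 0 < ρ1) (h12 : ρ1 < ρ2)
    (hf : ∀ w : ℂ, ρ1 ≤ ‖w‖ → ‖w‖ ≤ ρ2 → MerAt f (t1, w))
    (hex : ∃ᶠ t in 𝓝 t1, LD f ρ1 ρ2 t) : LD f ρ1 ρ2 t1 := by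
  obtain ⟨M, ρ, hρ1, hρ2, hreg⟩ := exists_radius h12 hf
  have hρ0 : 0 < ρ := h0.trans hρ1
  set g : ℂ × ℂ → ℂ := fun x => (x.1 - t1) ^ M * f x with hg
  obtain ⟨δ1, hδ1, ε1, hε1, hε1ρ, htube⟩ := L314.tube hρ0 (isOpen_regular g) (t1 := t1)
    (fun w hw => hreg w (by rwa [mem_sphere_zero_iff_norm] at hw))
  have hbt : ∀ᶠ t in 𝓝 t1, t ∈ ball t1 δ1 := ball_mem_nhds t1 hδ1
  obtain ⟨t2, hLD, ht2, hf2⟩ := (hex.and_eventually (hbt.and
    (tube_ann (isOpen_merAt f) hf))).exists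
  obtain ⟨r, hr, hsl⟩ := hLD.slice h0 hf2
  have ha : ∀ x : ℂ × ℂ, AnalyticAt ℂ (fun x : ℂ × ℂ => (x.1 - t1) ^ M) x := fun x =>
    (analyticAt_fst.sub analyticAt_const).pow _
  -- the open set of slices
  set D0 : Set ℂ := (ball t1 δ1 ∩ ball t2 r) \ {t1, t2} with hD0
  have hD0o : IsOpen D0 := (isOpen_ball.inter isOpen_ball).sdiff (by
    exact (Set.toFinite {t1, t2}).isClosed)
  have hD0n : D0.Nonempty := by
    have h1 : (ball t1 δ1 ∩ ball t2 r).Infinite := infinite_of_mem_nhds t2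
      ((isOpen_ball.inter isOpen_ball).mem_nhds ⟨ht2, mem_ball_self hr⟩)
    exact (h1.sdiff (Set.toFinite {t1, t2})).nonempty
  have hE : ∀ t ∈ D0, L314.Ext1 ρ (fun w => reg g (t, w)) := by
    rintro t ⟨⟨htd, htr⟩, htn⟩
    simp only [mem_insert_iff, mem_singleton_iff, not_or] at htn
    obtain ⟨F, hF, hFe⟩ := hsl t htr htn.2
    have hreg' : ∀ w : ℂ, ‖w‖ = ρ → Regular g (t, w) := fun w hw =>
      htube ⟨htd, by rw [hw]; linarith, by rw [hw]; linarith⟩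
    refine ext1_of_mero hρ0 (G := fun z => (t - t1) ^ M * F z) ?_ ?_ ?_
    · intro w hw
      exact (MeromorphicAt.const _ _).mul (hF w (hw.trans hρ2.le))
    · intro w hw
      exact (hreg' w hw).analyticAt.comp (f := fun z : ℂ => (t, z)) (by fun_prop)
    · intro w hw
      have h2 : ∀ᶠ z in 𝓝 w, Regular g (t, z) :=
        (Continuous.tendsto (by fun_prop : Continuous fun z : ℂ => (t, z)) w).eventually
          (hreg' w hw).eventually
      filter_upwards [hFe w (by rw [hw]; exact hρ1.le) (by rw [hw]; exact hρ2.le),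
        h2.filter_mono nhdsWithin_le_nhds] with z hz1 hz2
      rw [hz1]
      exact ((reg_mul (f := f) (ha (t, z)) (pow_ne_zero _ (sub_ne_zero.2 htn.1)) hz2).2).symm
  obtain ⟨N, q, hq, ⟨j0, hj0⟩, δ, hδ, ε, hε, hερ, hsub, -, P, hP, hPe⟩ :=
    L314.levi_core (Ω := ball t1 δ1) isOpen_ball (convex_ball _ _).isPreconnected hρ0
      (f := reg g) (fun x hx => (htube ⟨hx.1, by
        have := hx.2
        rw [mem_sphere_zero_iff_norm] at this
        exact ⟨by rw [this]; linarith, by rw [this]; linarith⟩⟩ : Regular g x).analyticAt)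
      hD0o hD0n (fun t ht => ht.1.1) hE (mem_ball_self hδ1)
  set s : ℂ × ℂ → ℂ := fun x => ∑ j, q j x.1 * x.2 ^ (j : ℕ) with hs
  have hsan : ∀ x : ℂ × ℂ, x.1 ∈ ball t1 δ1 → AnalyticAt ℂ s x := by
    intro x hx
    refine Finset.analyticAt_fun_sum _ fun j _ => ?_
    exact ((hq j x.1 hx).comp analyticAt_fst).mul (analyticAt_snd.pow _)
  set e : ℝ := min (min δ ε) ε1 with he
  have he0 : 0 < e := lt_min (lt_min hδ hε) hε1
  have heδ : e ≤ δ := (min_le_left _ _).trans (min_le_left _ _)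
  have heε : e ≤ ε := (min_le_left _ _).trans (min_le_right _ _)
  refine ⟨e, he0, ρ, hρ1, hρ2, P, fun x => (x.1 - t1) ^ M * s x, ?_, ?_, ?_⟩
  · intro x hx
    exact hP x ⟨ball_subset_ball heδ hx.1, ball_subset_ball (by linarith) hx.2⟩
  · -- a point where `s ≠ 0`
    have hw0 : ∃ w0 ∈ ball (0 : ℂ) (ρ + e), s (t1, w0) ≠ 0 := by
      set p : Polynomial ℂ := ∑ j : Fin (N + 1), Polynomial.C (q j t1) * Polynomial.X ^ (j : ℕ)
        with hp
      have hpe : ∀ w, p.eval w = s (t1, w) := by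
        intro w
        simp [hp, hs, Polynomial.eval_finsetSum]
      have hp0 : p ≠ 0 := by
        intro h
        have h1 : p.coeff (j0 : ℕ) = 0 := by rw [h]; simp
        rw [hp] at h1
        simp only [Polynomial.finsetSum_coeff, Polynomial.coeff_C_mul, Polynomial.coeff_X_pow]
          at h1
        rw [Finset.sum_eq_single j0] at h1
        · simp at h1; exact hj0 h1
        · intro b _ hb
          rw [if_neg, mul_zero]
          intro hcon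
          exact hb (Fin.ext hcon.symm)
        · simp
      have hfin : (p.roots.toFinset : Set ℂ).Finite := Finset.finite_toSet _
      have hinf : (ball (0 : ℂ) (ρ + e)).Infinite :=
        infinite_of_mem_nhds 0 (ball_mem_nhds _ (by linarith))
      obtain ⟨w0, hw0, hw0'⟩ := (hinf.sdiff hfin).nonempty
      refine ⟨w0, hw0, fun h => hw0' ?_⟩
      simp only [Finset.mem_coe, Multiset.mem_toFinset]
      rw [Polynomial.mem_roots hp0, Polynomial.IsRoot, hpe]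
      exact h
    obtain ⟨w0, hw0, hsw⟩ := hw0
    have h1 : NZ (fun x : ℂ × ℂ => (x.1 - t1) ^ M * s x) (t1, w0) :=
      (nz_fst M).mul (NZ.of_ne (hsan _ (mem_ball_self hδ1)) hsw)
    refine nz_of_preconnected (isOpen_ball.prod isOpen_ball)
      ((convex_ball _ _).isPreconnected.prod (convex_ball _ _).isPreconnected) ?_
      (x := (t1, w0)) ⟨mem_ball_self he0, hw0⟩ h1.2
    intro x hx
    exact (ha x).mul (hsan x (hsub (ball_subset_ball heδ hx.1)))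
  · intro t ht w hw
    have hR : Regular g (t, w) := htube ⟨hsub (ball_subset_ball heδ ht),
      by rw [hw]; linarith, by rw [hw]; linarith⟩
    obtain ⟨D, hD, h1⟩ := hR.rep
    refine ⟨D, hD, ?_⟩
    have h2 : ball t1 δ ×ˢ L314.Ann (ρ - ε) (ρ + ε) ∈ 𝓝 ((t, w) : ℂ × ℂ) :=
      (isOpen_ball.prod (L314.isOpen_Ann _ _)).mem_nhds ⟨ball_subset_ball heδ ht,
        by rw [hw]; linarith, by rw [hw]; linarith⟩
    filter_upwards [h1, h2] with x hx1 hx2 hd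
    have h3 := hPe x.1 hx2.1 x.2 hx2.2
    have h4 := hx1 hd
    simp only [hg, one_mul] at h4
    simp only [hs]
    rw [show P x = P (x.1, x.2) from rfl, h3, ← h4]
    ring

end Crest.Agent.R102.LeviM88
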