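import Crest.Agent.R102.LeviM2_88

/-!
Row 102, part (C) (helper88): Levi extension theorem with meromorphic data: propagation
(`LD.all`), compatibility with the values at `w = 0` (`LDC`), extraction of the coefficient
(`extract`), final statement `levi_mer`.
-/

set_option autoImplicit false

open Set Filter Topology Metric

noncomputable section

namespace Crest.Agent.R102.LeviM88

open Crest.Agent.R102.Mer88 Crest.Agent.R102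

theorem ball_sub {t1 t' : ℂ} {ε : ℝ} : ball t' (ε - dist t' t1) ⊆ ball t1 ε := by
  intro x hx
  rw [mem_ball] at hx ⊢
  linarith [dist_triangle x t' t1]

theorem isOpen_LD (f : ℂ × ℂ → ℂ) (ρ1 ρ2 : ℝ) : IsOpen {t | LD f ρ1 ρ2 t} := by
  rw [Metric.isOpen_iff]
  rintro t1 ⟨ε, hε, ρ, hρ1, hρ2, P, Q, hP, hQ, hR⟩
  refine ⟨ε, hε, fun t' ht' => ?_⟩
  rw [mem_ball] at ht'
  have hsub := ball_sub (t1 := t1) (t' := t') (ε := ε)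
  have hdist := dist_nonneg (x := t') (y := t1)
  have hsub2 : ball t' (ε - dist t' t1) ×ˢ ball (0 : ℂ) (ρ + (ε - dist t' t1)) ⊆
      ball t1 ε ×ˢ ball (0 : ℂ) (ρ + ε) :=
    prod_mono hsub (ball_subset_ball (by linarith))
  exact ⟨ε - dist t' t1, by linarith, ρ, hρ1, hρ2, P, Q, fun x hx => hP x (hsub2 hx),
    fun x hx => hQ x (hsub2 hx), fun t ht w hw => hR t (hsub ht) w hw⟩

/-- Levi data propagate -/
theorem LD.all {f : ℂ × ℂ → ℂ} {ρ1 ρ2 : ℝ} (h0 : 0 < ρ1) (h12 : ρ1 < ρ2) {Ω : Set ℂ}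
    (hc : IsPreconnected Ω)
    (hf : ∀ t ∈ Ω, ∀ w : ℂ, ρ1 ≤ ‖w‖ → ‖w‖ ≤ ρ2 → MerAt f (t, w)) {t0 : ℂ} (ht0 : t0 ∈ Ω)
    (hb : LD f ρ1 ρ2 t0) : ∀ t ∈ Ω, LD f ρ1 ρ2 t := by
  have h := hc.subset_of_closure_inter_subset (isOpen_LD f ρ1 ρ2) ⟨t0, ht0, hb⟩ (by
    rintro t ⟨ht, htΩ⟩
    exact LD.step h0 h12 (hf t htΩ) (mem_closure_iff_frequently.1 ht))
  exact fun t ht => h ht

/-- a function holomorphic near `{t0} × {|w| ≤ ρ2}` has Levi data at `t0` -/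
theorem LD.base {f : ℂ × ℂ → ℂ} {ρ1 ρ2 : ℝ} (h12 : ρ1 < ρ2) {t0 : ℂ}
    (hf : ∀ w : ℂ, ‖w‖ ≤ ρ2 → AnalyticAt ℂ f (t0, w)) : LD f ρ1 ρ2 t0 := by
  have h1 := tube_ann (U := {x | AnalyticAt ℂ f x}) (isOpen_analyticAt ℂ f) (t1 := t0) (ρ1 := -1)
    (ρ2 := ρ2) (fun w _ hw => hf w hw)
  obtain ⟨r, hr, h2⟩ := Metric.eventually_nhds_iff_ball.1 h1
  refine ⟨min r ((ρ2 - ρ1) / 2), lt_min hr (by linarith), (ρ1 + ρ2) / 2, by linarith, by linarith,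
    f, fun _ => 1, ?_, ?_, ?_⟩
  · rintro ⟨t, w⟩ ⟨ht, hw⟩
    simp only [mem_ball_zero_iff] at hw
    exact h2 t (ball_subset_ball (min_le_left _ _) ht) w (by linarith [norm_nonneg w])
      (by linarith [min_le_right r ((ρ2 - ρ1) / 2)])
  · exact fun x _ => nz_one x
  · intro t ht w hw
    exact rep_of_analytic (Eventually.of_forall fun _ => one_mul _)

/-- Levi data at `t1` representing `f` also at `(t1, 0)` -/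
def LDC (f : ℂ × ℂ → ℂ) (ρ1 ρ2 : ℝ) (t1 : ℂ) : Prop :=
  ∃ ε > 0, ∃ ρ, ρ1 < ρ ∧ ρ < ρ2 ∧ ∃ P Q : ℂ × ℂ → ℂ,
    AnalyticOnNhd ℂ P (ball t1 ε ×ˢ ball 0 (ρ + ε)) ∧
    (∀ x ∈ ball t1 ε ×ˢ ball (0 : ℂ) (ρ + ε), NZ Q x) ∧
    (∀ t ∈ ball t1 ε, ∀ w : ℂ, ‖w‖ = ρ → Rep f P Q (t, w)) ∧ Rep f P Q (t1, 0)

theorem isOpen_LDC (f : ℂ × ℂ → ℂ) (ρ1 ρ2 : ℝ) : IsOpen {t | LDC f ρ1 ρ2 t} := by
  rw [isOpen_iff_mem_nhds]
  rintro t1 ⟨ε, hε, ρ, hρ1, hρ2, P, Q, hP, hQ, hR, hR0⟩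
  have h1 : ∀ᶠ t in 𝓝 t1, Rep f P Q (t, 0) :=
    (Continuous.tendsto (by fun_prop : Continuous fun t : ℂ => ((t, 0) : ℂ × ℂ)) t1).eventually
      hR0.eventually
  filter_upwards [h1, ball_mem_nhds t1 hε] with t' hR' ht'
  rw [mem_ball] at ht'
  have hsub := ball_sub (t1 := t1) (t' := t') (ε := ε)
  have hdist := dist_nonneg (x := t') (y := t1)
  have hsub2 : ball t' (ε - dist t' t1) ×ˢ ball (0 : ℂ) (ρ + (ε - dist t' t1)) ⊆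
      ball t1 ε ×ˢ ball (0 : ℂ) (ρ + ε) :=
    prod_mono hsub (ball_subset_ball (by linarith))
  exact ⟨ε - dist t' t1, by linarith, ρ, hρ1, hρ2, P, Q, fun x hx => hP x (hsub2 hx),
    fun x hx => hQ x (hsub2 hx), fun t ht w hw => hR t (hsub ht) w hw, hR'⟩

theorem LDC.base {f : ℂ × ℂ → ℂ} {ρ1 ρ2 : ℝ} (h12 : ρ1 < ρ2) {t0 : ℂ}
    (hf : ∀ w : ℂ, ‖w‖ ≤ ρ2 → AnalyticAt ℂ f (t0, w)) : LDC f ρ1 ρ2 t0 := by
  have h1 := tube_ann (U := {x | AnalyticAt ℂ f x}) (isOpen_analyticAt ℂ f) (t1 := t0) (ρ1 := -1)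
    (ρ2 := ρ2) (fun w _ hw => hf w hw)
  obtain ⟨r, hr, h2⟩ := Metric.eventually_nhds_iff_ball.1 h1
  refine ⟨min r ((ρ2 - ρ1) / 2), lt_min hr (by linarith), (ρ1 + ρ2) / 2, by linarith, by linarith,
    f, fun _ => 1, ?_, ?_, ?_, ?_⟩
  · rintro ⟨t, w⟩ ⟨ht, hw⟩
    simp only [mem_ball_zero_iff] at hw
    exact h2 t (ball_subset_ball (min_le_left _ _) ht) w (by linarith [norm_nonneg w])
      (by linarith [min_le_right r ((ρ2 - ρ1) / 2)])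
  · exact fun x _ => nz_one x
  · intro t ht w hw
    exact rep_of_analytic (Eventually.of_forall fun _ => one_mul _)
  · exact rep_of_analytic (Eventually.of_forall fun _ => one_mul _)

/-- transfer of the representation at `(t2, 0)` between two data -/
theorem transfer {f : ℂ × ℂ → ℂ} {ρ1 ρ2 : ℝ} (h0 : 0 < ρ1) {t1 t2 : ℂ} {ε ρ : ℝ} (hε : 0 < ε)
    (hρ1 : ρ1 < ρ) (hρ2 : ρ < ρ2) {P Q : ℂ × ℂ → ℂ}
    (hP : AnalyticOnNhd ℂ P (ball t1 ε ×ˢ ball 0 (ρ + ε)))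
    (hQ : ∀ x ∈ ball t1 ε ×ˢ ball (0 : ℂ) (ρ + ε), NZ Q x)
    (hR : ∀ t ∈ ball t1 ε, ∀ w : ℂ, ‖w‖ = ρ → Rep f P Q (t, w)) (ht2 : t2 ∈ ball t1 ε)
    (hf : ∀ w : ℂ, ρ1 ≤ ‖w‖ → ‖w‖ ≤ ρ2 → MerAt f (t2, w)) (h : LDC f ρ1 ρ2 t2) :
    Rep f P Q (t2, 0) := by
  obtain ⟨ε', hε', ρ', hρ1', hρ2', P', Q', hP', hQ', hR', hR0⟩ := h
  have hr1 : Rep f P Q (t2, (ρ1 : ℂ)) := by
    refine rep_radial (b := ρ) h0 (fun w h1 h2 => hf w h1 (h2.trans hρ2.le))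
      (fun w _ h2 => hP _ ⟨ht2, by rw [mem_ball_zero_iff]; linarith⟩)
      (fun w _ h2 => (hQ _ ⟨ht2, by rw [mem_ball_zero_iff]; linarith⟩).1) hρ1.le le_rfl
      (fun w hw => hR t2 ht2 w hw) _ ?_ ?_
    · rw [Complex.norm_real, Real.norm_of_nonneg h0.le]
    · rw [Complex.norm_real, Real.norm_of_nonneg h0.le]; exact hρ1.le
  have hr2 : Rep f P' Q' (t2, (ρ1 : ℂ)) := by
    refine rep_radial (b := ρ') h0 (fun w h1 h2 => hf w h1 (h2.trans hρ2'.le))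
      (fun w _ h2 => hP' _ ⟨mem_ball_self hε', by rw [mem_ball_zero_iff]; linarith⟩)
      (fun w _ h2 => (hQ' _ ⟨mem_ball_self hε', by rw [mem_ball_zero_iff]; linarith⟩).1)
      hρ1'.le le_rfl
      (fun w hw => hR' t2 (mem_ball_self hε') w hw) _ ?_ ?_
    · rw [Complex.norm_real, Real.norm_of_nonneg h0.le]
    · rw [Complex.norm_real, Real.norm_of_nonneg h0.le]; exact hρ1'.le
  set m : ℝ := min ρ ρ' with hm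
  have hm1 : ρ1 < m := lt_min hρ1 hρ1'
  set U : Set (ℂ × ℂ) := (ball t1 ε ∩ ball t2 ε') ×ˢ ball (0 : ℂ) m with hU
  have hUo : IsOpen U := (isOpen_ball.inter isOpen_ball).prod isOpen_ball
  have hUc : IsPreconnected U :=
    ((convex_ball _ _).inter (convex_ball _ _)).isPreconnected.prod
      (convex_ball _ _).isPreconnected
  have hU1 : ∀ x ∈ U, x ∈ ball t1 ε ×ˢ ball (0 : ℂ) (ρ + ε) := fun x hx =>
    ⟨hx.1.1, ball_subset_ball (by linarith [min_le_left ρ ρ']) hx.2⟩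
  have hU2 : ∀ x ∈ U, x ∈ ball t2 ε' ×ˢ ball (0 : ℂ) (ρ' + ε') := fun x hx =>
    ⟨hx.1.2, ball_subset_ball (by linarith [min_le_right ρ ρ']) hx.2⟩
  have hx1 : ((t2, (ρ1 : ℂ)) : ℂ × ℂ) ∈ U := ⟨⟨ht2, mem_ball_self hε'⟩, by
    rw [mem_ball_zero_iff, Complex.norm_real, Real.norm_of_nonneg h0.le]; exact hm1⟩
  have hx0 : ((t2, 0) : ℂ × ℂ) ∈ U := ⟨⟨ht2, mem_ball_self hε'⟩, mem_ball_self (h0.trans hm1)⟩
  set H : ℂ × ℂ → ℂ := fun x => P' x * Q x - P x * Q' x with hH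
  have hHa : AnalyticOnNhd ℂ H U := fun x hx =>
    ((hP' x (hU2 x hx)).mul (hQ x (hU1 x hx)).1).sub ((hP x (hU1 x hx)).mul (hQ' x (hU2 x hx)).1)
  have hH1 : H =ᶠ[𝓝 ((t2, (ρ1 : ℂ)) : ℂ × ℂ)] 0 := by
    have := Rep.unique (hP' _ (hU2 _ hx1)) (hQ' _ (hU2 _ hx1)).1 (hP _ (hU1 _ hx1))
      (hQ _ (hU1 _ hx1)).1 hr2 hr1
    filter_upwards [this] with x hx
    exact hx
  have hH0 := hHa.eqOn_zero_of_preconnected_of_eventuallyEq_zero hUc hx1 hH1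
  refine Rep.transfer (hQ' _ (hU2 _ hx0)) hR0 ?_
  filter_upwards [hUo.mem_nhds hx0] with x hx
  exact hH0 hx

/-- propagation along `A × {0}` inside one chart -/
theorem propagate {f : ℂ × ℂ → ℂ} {t1 t2 : ℂ} {ε ρ : ℝ} (hρ : 0 < ρ + ε) {P Q : ℂ × ℂ → ℂ}
    (hP : AnalyticOnNhd ℂ P (ball t1 ε ×ˢ ball 0 (ρ + ε)))
    (hQ : ∀ x ∈ ball t1 ε ×ˢ ball (0 : ℂ) (ρ + ε), NZ Q x) {A : Set ℂ} (hA : Convex ℝ A)
    (hf : ∀ t ∈ A, MerAt f (t, 0)) (ht2 : t2 ∈ ball t1 ε) (ht2A : t2 ∈ A)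
    (h : Rep f P Q (t2, 0)) : ∀ t ∈ ball t1 ε, t ∈ A → Rep f P Q (t, 0) := by
  intro t ht htA
  set S : Set (ℂ × ℂ) := (fun t : ℂ => ((t, 0) : ℂ × ℂ)) '' (ball t1 ε ∩ A) with hS
  have hSc : IsPreconnected S := ((convex_ball _ _).inter hA).isPreconnected.image _
    (Continuous.continuousOn (by fun_prop))
  refine rep_of_preconnected hSc ?_ ?_ ?_ (c0 := (t2, 0)) ⟨t2, ⟨ht2, ht2A⟩, rfl⟩ h _
    ⟨t, ⟨ht, htA⟩, rfl⟩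
  · rintro _ ⟨s, hs, rfl⟩; exact hf s hs.2
  · rintro _ ⟨s, hs, rfl⟩; exact hP _ ⟨hs.1, mem_ball_self hρ⟩
  · rintro _ ⟨s, hs, rfl⟩; exact (hQ _ ⟨hs.1, mem_ball_self hρ⟩).1

theorem LDC.all {f : ℂ × ℂ → ℂ} {ρ1 ρ2 : ℝ} (h0 : 0 < ρ1) (h12 : ρ1 < ρ2) {A : Set ℂ}
    (hAo : IsOpen A) (hA : Convex ℝ A) (hf : ∀ t ∈ A, ∀ w : ℂ, ρ1 ≤ ‖w‖ → ‖w‖ ≤ ρ2 → MerAt f (t, w))
    (hf0 : ∀ t ∈ A, MerAt f (t, 0)) {t0 : ℂ} (ht0 : t0 ∈ A)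
    (hb : LDC f ρ1 ρ2 t0) : ∀ t ∈ A, LDC f ρ1 ρ2 t := by
  have hLD : ∀ t ∈ A, LD f ρ1 ρ2 t := by
    refine LD.all h0 h12 hA.isPreconnected hf ht0 ?_
    obtain ⟨ε, hε, ρ, hρ1, hρ2, P, Q, hP, hQ, hR, -⟩ := hb
    exact ⟨ε, hε, ρ, hρ1, hρ2, P, Q, hP, hQ, hR⟩
  have h := hA.isPreconnected.subset_of_closure_inter_subset (isOpen_LDC f ρ1 ρ2)
    ⟨t0, ht0, hb⟩ (by
      rintro t1 ⟨ht, htA⟩
      obtain ⟨ε, hε, ρ, hρ1, hρ2, P, Q, hP, hQ, hR⟩ := hLD t1 htA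
      have hb1 : ∀ᶠ t in 𝓝 t1, t ∈ ball t1 ε := ball_mem_nhds t1 hε
      have hb2 : ∀ᶠ t in 𝓝 t1, t ∈ A := hAo.mem_nhds htA
      obtain ⟨t2, ht2, ht2b, ht2A⟩ :=
        ((mem_closure_iff_frequently.1 ht).and_eventually (hb1.and hb2)).exists
      have h3 := transfer h0 hε hρ1 hρ2 hP hQ hR ht2b (hf t2 ht2A) ht2
      exact ⟨ε, hε, ρ, hρ1, hρ2, P, Q, hP, hQ, hR,
        propagate (by linarith) hP hQ hA hf0 ht2b ht2A h3 t1 (mem_ball_self hε) htA⟩)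
  exact fun t ht => h ht

/-! ### extraction at `w = 0` -/

theorem divP {F : ℂ × ℂ → ℂ} {t1 : ℂ} {r : ℝ} (hr : 0 < r) {A : Set ℂ} (hAo : IsOpen A)
    (hAn : (ball t1 r ∩ A).Nonempty) (hF : ∀ t ∈ ball t1 r, t ∈ A → AnalyticAt ℂ F (0, t))
    (m : ℕ) : ∀ {P : ℂ × ℂ → ℂ}, AnalyticOnNhd ℂ P (ball 0 r ×ˢ ball t1 r) →
      (∀ t ∈ ball t1 r, t ∈ A → ∀ᶠ x in 𝓝 ((0, t) : ℂ × ℂ), x.1 ^ m * F x = P x) →
      ∃ P1 : ℂ × ℂ → ℂ, AnalyticOnNhd ℂ P1 (ball 0 r ×ˢ ball t1 r) ∧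
        ∀ t ∈ ball t1 r, t ∈ A → ∀ᶠ x in 𝓝 ((0, t) : ℂ × ℂ), F x = P1 x := by
  induction m with
  | zero => exact fun {P} hP h => ⟨P, hP, by simpa using h⟩
  | succ m ih =>
    intro P hP h
    have h0 : ∀ t ∈ ball t1 r, P (0, t) = 0 := by
      have h1 : AnalyticOnNhd ℂ (fun t => P (0, t)) (ball t1 r) := fun t ht =>
        (hP (0, t) ⟨mem_ball_self hr, ht⟩).comp (f := fun t : ℂ => ((0 : ℂ), t)) (by fun_prop)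
      obtain ⟨t2, ht2, ht2A⟩ := hAn
      have h2 : (fun t => P (0, t)) =ᶠ[𝓝 t2] 0 := by
        filter_upwards [isOpen_ball.mem_nhds ht2, hAo.mem_nhds ht2A] with t ht htA
        have := (h t ht htA).self_of_nhds
        simp only [pow_succ, mul_zero, zero_mul] at this
        exact this.symm
      exact h1.eqOn_zero_of_preconnected_of_eventuallyEq_zero (convex_ball _ _).isPreconnected
        ht2 h2
    obtain ⟨P2, hP2, hPP⟩ := div_step hP h0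
    refine ih hP2 fun t ht htA => ?_
    have hmem : ball (0 : ℂ) r ×ˢ ball t1 r ∈ 𝓝 ((0, t) : ℂ × ℂ) :=
      (isOpen_ball.prod isOpen_ball).mem_nhds ⟨mem_ball_self hr, ht⟩
    have h1 : NZ (fun x : ℂ × ℂ => (x.1 - 0) ^ 1) (0, t) := nz_fst 1
    have h2 := eventually_zero_of_nz (F := fun x : ℂ × ℂ => x.1 ^ m * F x - P2 x)
      (((analyticAt_fst.pow _).mul (hF t ht htA)).sub (hP2 _ ⟨mem_ball_self hr, ht⟩)) h1 (by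
        filter_upwards [h t ht htA, hmem] with x hx1 hx2 hx3
        have h4 := hPP x hx2
        rw [← hx1, sub_zero] at h4
        rw [pow_one, sub_zero] at hx3
        have h5 : x.1 * (x.1 ^ m * F x - P2 x) = 0 := by
          rw [mul_sub, ← h4]; ring
        exact (mul_eq_zero.1 h5).resolve_left hx3)
    filter_upwards [h2] with x hx
    exact sub_eq_zero.1 hx

theorem extract {f : ℂ × ℂ → ℂ} {t1 : ℂ} {r : ℝ} (hr : 0 < r) {A : Set ℂ} (hAo : IsOpen A)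
    (hAn : (ball t1 r ∩ A).Nonempty) {P Q : ℂ × ℂ → ℂ}
    (hP : AnalyticOnNhd ℂ P (ball t1 r ×ˢ ball 0 r))
    (hQ : ∀ x ∈ ball t1 r ×ˢ ball (0 : ℂ) r, NZ Q x)
    (hf : ∀ t ∈ ball t1 r, t ∈ A → AnalyticAt ℂ f (t, 0))
    (hR : ∀ t ∈ ball t1 r, t ∈ A → Rep f P Q (t, 0)) :
    ∃ p q : ℂ → ℂ, AnalyticOnNhd ℂ p (ball t1 r) ∧ AnalyticOnNhd ℂ q (ball t1 r) ∧
      (∃ t ∈ ball t1 r, q t ≠ 0) ∧ ∀ t ∈ ball t1 r, t ∈ A → q t * f (t, 0) = p t := by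
  have hsw : ∀ x : ℂ × ℂ, AnalyticAt ℂ (fun x : ℂ × ℂ => (x.2, x.1)) x := fun x =>
    analyticAt_snd.prod analyticAt_fst
  have hQs : AnalyticOnNhd ℂ (fun x : ℂ × ℂ => Q (x.2, x.1)) (ball 0 r ×ˢ ball t1 r) := by
    rintro x ⟨hx1, hx2⟩
    exact ((hQ (x.2, x.1) ⟨hx2, hx1⟩).1).comp (f := fun x : ℂ × ℂ => (x.2, x.1)) (hsw x)
  have hPs : AnalyticOnNhd ℂ (fun x : ℂ × ℂ => P (x.2, x.1)) (ball 0 r ×ˢ ball t1 r) := by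
    rintro x ⟨hx1, hx2⟩
    exact (hP (x.2, x.1) ⟨hx2, hx1⟩).comp (f := fun x : ℂ × ℂ => (x.2, x.1)) (hsw x)
  have hne : ∃ x ∈ ball (0 : ℂ) r ×ˢ ball t1 r, (fun x : ℂ × ℂ => Q (x.2, x.1)) x ≠ 0 := by
    have h1 := (hQ (t1, 0) ⟨mem_ball_self hr, mem_ball_self hr⟩).2
    have h2 : ∀ᶠ x in 𝓝 ((t1, 0) : ℂ × ℂ), x ∈ ball t1 r ×ˢ ball (0 : ℂ) r :=
      (isOpen_ball.prod isOpen_ball).mem_nhds ⟨mem_ball_self hr, mem_ball_self hr⟩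
    obtain ⟨x, hx1, hx2⟩ := (h1.and_eventually h2).exists
    exact ⟨(x.2, x.1), ⟨hx2.2, hx2.1⟩, hx1⟩
  obtain ⟨m, Q1, hQ1, hQQ, t', ht', hne'⟩ := exists_div hr hQs hne
  have hcont : ∀ t : ℂ, Tendsto (fun x : ℂ × ℂ => (x.2, x.1)) (𝓝 (0, t)) (𝓝 (t, 0)) := fun t =>
    Continuous.tendsto (by fun_prop : Continuous fun x : ℂ × ℂ => (x.2, x.1)) (0, t)
  have hfs : ∀ t ∈ ball t1 r, t ∈ A → AnalyticAt ℂ (fun x : ℂ × ℂ => f (x.2, x.1)) (0, t) :=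
    fun t ht htA => (hf t ht htA).comp (f := fun x : ℂ × ℂ => (x.2, x.1)) (hsw _)
  obtain ⟨P1, hP1, hP1e⟩ := divP (F := fun x : ℂ × ℂ => Q1 x * f (x.2, x.1)) hr hAo hAn
    (fun t ht htA => (hQ1 _ ⟨mem_ball_self hr, ht⟩).mul (hfs t ht htA)) m hPs (by
      intro t ht htA
      have h3 := Rep.eq_of_analytic (hf t ht htA) (hP _ ⟨ht, mem_ball_self hr⟩)
        (hQ _ ⟨ht, mem_ball_self hr⟩).1 (hR t ht htA)
      have hmem : ball (0 : ℂ) r ×ˢ ball t1 r ∈ 𝓝 ((0, t) : ℂ × ℂ) :=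
        (isOpen_ball.prod isOpen_ball).mem_nhds ⟨mem_ball_self hr, ht⟩
      filter_upwards [(hcont t).eventually h3, hmem] with x hx1 hx2
      have h4 := hQQ x hx2
      simp only [sub_zero] at h4
      rw [← hx1, h4]; ring)
  refine ⟨fun t => P1 (0, t), fun t => Q1 (0, t), ?_, ?_, ⟨t', ht', hne'⟩, ?_⟩
  · exact fun t ht => (hP1 (0, t) ⟨mem_ball_self hr, ht⟩).comp (f := fun t : ℂ => ((0 : ℂ), t))
      (by fun_prop)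
  · exact fun t ht => (hQ1 (0, t) ⟨mem_ball_self hr, ht⟩).comp (f := fun t : ℂ => ((0 : ℂ), t))
      (by fun_prop)
  · exact fun t ht htA => (hP1e t ht htA).self_of_nhds

/-- **Levi extension with meromorphic data, restricted to `w = 0`** -/
theorem levi_mer {f : ℂ × ℂ → ℂ} {ρ1 ρ2 : ℝ} (h0 : 0 < ρ1) (h12 : ρ1 < ρ2) {A : Set ℂ}
    (hAo : IsOpen A) (hA : Convex ℝ A)
    (hf : ∀ t ∈ A, ∀ w : ℂ, ρ1 ≤ ‖w‖ → ‖w‖ ≤ ρ2 → MerAt f (t, w))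
    (hf0 : ∀ t ∈ A, AnalyticAt ℂ f (t, 0)) {t0 : ℂ} (ht0 : t0 ∈ A)
    (hb : ∀ w : ℂ, ‖w‖ ≤ ρ2 → AnalyticAt ℂ f (t0, w)) {t1 : ℂ} (ht1 : t1 ∈ closure A)
    (hf1 : ∀ w : ℂ, ρ1 ≤ ‖w‖ → ‖w‖ ≤ ρ2 → MerAt f (t1, w)) :
    ∃ r > 0, ∃ p q : ℂ → ℂ, AnalyticOnNhd ℂ p (ball t1 r) ∧ AnalyticOnNhd ℂ q (ball t1 r) ∧
      (∃ t ∈ ball t1 r, q t ≠ 0) ∧ ∀ t ∈ ball t1 r, t ∈ A → q t * f (t, 0) = p t := by
  have hall := LDC.all h0 h12 hAo hA hf (fun t ht => merAt_of_analyticAt (hf0 t ht)) ht0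
    (LDC.base h12 hb)
  have hfr : ∃ᶠ t in 𝓝 t1, t ∈ A := mem_closure_iff_frequently.1 ht1
  have hLD : LD f ρ1 ρ2 t1 := by
    refine LD.step h0 h12 hf1 (hfr.mono fun t ht => ?_)
    obtain ⟨ε, hε, ρ, hρ1, hρ2, P, Q, hP, hQ, hR, -⟩ := hall t ht
    exact ⟨ε, hε, ρ, hρ1, hρ2, P, Q, hP, hQ, hR⟩
  obtain ⟨ε, hε, ρ, hρ1, hρ2, P, Q, hP, hQ, hR⟩ := hLD
  have hbb : ∀ s > 0, ∀ᶠ t in 𝓝 t1, t ∈ ball t1 s := fun s hs => ball_mem_nhds t1 hs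
  obtain ⟨t2, ht2A, ht2⟩ := (hfr.and_eventually (hbb ε hε)).exists
  have h3 := transfer h0 hε hρ1 hρ2 hP hQ hR ht2 (hf t2 ht2A) (hall t2 ht2A)
  have h4 := propagate (by linarith) hP hQ hA (fun t ht => merAt_of_analyticAt (hf0 t ht)) ht2
    ht2A h3
  set r : ℝ := min ε ρ with hr
  have hr0 : 0 < r := lt_min hε (by linarith)
  have hsub : ball t1 r ⊆ ball t1 ε := ball_subset_ball (min_le_left _ _)
  have hsub2 : ball t1 r ×ˢ ball (0 : ℂ) r ⊆ ball t1 ε ×ˢ ball (0 : ℂ) (ρ + ε) :=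
    prod_mono hsub (ball_subset_ball (by linarith [min_le_right ε ρ]))
  obtain ⟨t3, ht3A, ht3⟩ := (hfr.and_eventually (hbb r hr0)).exists
  obtain ⟨p, q, hp, hq, hne, heq⟩ := extract hr0 hAo ⟨t3, ht3, ht3A⟩ (P := P) (Q := Q) (f := f)
    (fun x hx => hP x (hsub2 hx)) (fun x hx => hQ x (hsub2 hx))
    (fun t _ htA => hf0 t htA) (fun t ht htA => h4 t (hsub ht) htA)
  exact ⟨r, hr0, p, q, hp, hq, hne, heq⟩

end Crest.Agent.R102.LeviM88
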