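import Mathlib
import Crest.Agent.R102.LeviF_314

/-!
Row 102, leaf LEVI (helper314), part X: one-variable criteria for `Ext1`.
-/

set_option autoImplicit false
set_option linter.unusedVariables false
set_option linter.unusedSectionVars false

open Set Filter Topology Metric MeasureTheory
open scoped Real

noncomputable section

namespace Crest.Agent.R102.L314

/-- a meromorphic function on a compact set becomes analytic after multiplication by a polynomial
(literally, no normal form needed) -/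
theorem exists_poly_mul {K : Set ℂ} (hK : IsCompact K) {g : ℂ → ℂ} (hg : MeromorphicOn g K) :
    ∃ c : Polynomial ℂ, c ≠ 0 ∧ AnalyticOnNhd ℂ (fun x => c.eval x * g x) K := by
  classical
  have h1 : ∀ z ∈ K, ∃ r > 0, ∃ n : ℕ, ∀ x ∈ ball z r,
      AnalyticAt ℂ (fun x => (x - z) ^ n * g x) x := by
    intro z hz
    obtain ⟨n, hn⟩ := hg z hz
    obtain ⟨r, hr, hr2⟩ := Metric.eventually_nhds_iff_ball.1 hn.eventually_analyticAt
    exact ⟨r, hr, n, fun x hx => by simpa [smul_eq_mul] using hr2 x hx⟩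
  choose! r hr n hn using h1
  obtain ⟨s, hsK, hs⟩ := hK.elim_nhds_subcover (fun z => ball z (r z))
    (fun z hz => ball_mem_nhds z (hr z hz))
  refine ⟨∏ z ∈ s, (Polynomial.X - Polynomial.C z) ^ n z,
    Finset.prod_ne_zero_iff.2 (fun z _ => pow_ne_zero _ (Polynomial.X_sub_C_ne_zero z)), ?_⟩
  intro x0 hx0
  obtain ⟨z, hz, hxz⟩ : ∃ z ∈ s, x0 ∈ ball z (r z) := by simpa using hs hx0
  have h2 : (fun x => (∏ z ∈ s, (Polynomial.X - Polynomial.C z) ^ n z).eval x * g x) =
      fun x => (∏ y ∈ s.erase z, (x - y) ^ n y) * ((x - z) ^ n z * g x) := by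
    ext x
    rw [Polynomial.eval_prod, ← Finset.prod_erase_mul _ _ hz]
    simp only [Polynomial.eval_pow, Polynomial.eval_sub, Polynomial.eval_X, Polynomial.eval_C]
    ring
  rw [h2]
  refine AnalyticAt.mul ?_ (hn z (hsK z hz) x0 hxz)
  exact Finset.analyticAt_fun_prod _ (fun y _ => by fun_prop)

/-- `g` meromorphic on the closed disc, `f'` continuous at the points of the circle and equal to
`g` in punctured neighbourhoods of them -/
theorem ext1_of_mero {ρ : ℝ} (hρ : 0 < ρ) {g f' : ℂ → ℂ} (hg : MeromorphicOn g (closedBall 0 ρ))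
    (hf : ∀ z ∈ sphere (0 : ℂ) ρ, ContinuousAt f' z)
    (heq : ∀ z ∈ sphere (0 : ℂ) ρ, ∀ᶠ x in 𝓝[≠] z, f' x = g x) : Ext1 ρ f' := by
  obtain ⟨c, hc, hcg⟩ := exists_poly_mul (isCompact_closedBall (0 : ℂ) ρ) hg
  refine ⟨c, hc, fun x => c.eval x * g x, ?_, ?_⟩
  · refine DifferentiableOn.diffContOnCl ?_
    rw [closure_ball _ hρ.ne']
    exact hcg.differentiableOn
  · intro w hw
    have hwK : w ∈ closedBall (0 : ℂ) ρ := sphere_subset_closedBall hw
    have h1 : Tendsto (fun x => c.eval x * g x) (𝓝[≠] w) (𝓝 (c.eval w * g w)) :=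
      (hcg w hwK).continuousAt.tendsto.mono_left nhdsWithin_le_nhds
    have h2 : Tendsto (fun x => c.eval x * f' x) (𝓝[≠] w) (𝓝 (c.eval w * f' w)) :=
      (c.continuous.continuousAt.mul (hf w hw)).tendsto.mono_left nhdsWithin_le_nhds
    refine tendsto_nhds_unique h1 (h2.congr' ?_)
    filter_upwards [heq w hw] with x hx
    rw [hx]

/-- quotient form -/
theorem ext1_of_PQ {ρ : ℝ} (hρ : 0 < ρ) {P Q g : ℂ → ℂ}
    (hP : AnalyticOnNhd ℂ P (closedBall 0 ρ)) (hQ : AnalyticOnNhd ℂ Q (closedBall 0 ρ))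
    (hne : ∃ z ∈ closedBall (0 : ℂ) ρ, Q z ≠ 0) (hPQ : ∀ z ∈ sphere (0 : ℂ) ρ, Q z * g z = P z) :
    Ext1 ρ g := by
  obtain ⟨c, hc, u, hu, hu0, hcu⟩ := poly_factor (isCompact_closedBall (0 : ℂ) ρ)
    (convex_closedBall _ _).isPreconnected hQ hne
  refine ⟨c, hc, fun w => P w / u w, ?_, ?_⟩
  · refine DifferentiableOn.diffContOnCl ?_
    rw [closure_ball _ hρ.ne']
    have h1 : AnalyticOnNhd ℂ (fun w => P w / u w) (closedBall 0 ρ) := fun w hw =>
      (hP w hw).div (hu w hw) (hu0 w hw)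
    exact h1.differentiableOn
  · intro w hw
    have h1 := hPQ w hw
    have h2 := hu0 w (sphere_subset_closedBall hw)
    simp only
    rw [div_eq_iff h2, ← h1, hcu w]
    ring

/-- gluing of meromorphic functions along a circle -/
theorem meromorphicOn_glue {a ρ : ℝ} {g1 f : ℂ → ℂ} (hg1 : MeromorphicOn g1 (closedBall 0 a))
    (hf : ∀ z : ℂ, a ≤ ‖z‖ → ‖z‖ ≤ ρ → MeromorphicAt f z)
    (heq : ∀ z : ℂ, ‖z‖ = a → ∀ᶠ x in 𝓝[≠] z, g1 x = f x) :
    MeromorphicOn (fun z => if ‖z‖ < a then g1 z else f z) (closedBall 0 ρ) := by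
  intro z hz
  have hzρ : ‖z‖ ≤ ρ := by simpa using hz
  rcases lt_trichotomy ‖z‖ a with h | h | h
  · refine (hg1 z (by simpa using h.le)).congr ?_
    filter_upwards [nhdsWithin_le_nhds ((isOpen_lt continuous_norm continuous_const).mem_nhds h)]
      with x hx
    have hx' : ‖x‖ < a := hx
    simp only [hx', if_true]
  · refine (hf z h.ge hzρ).congr ?_
    filter_upwards [heq z h] with x hx
    by_cases hxa : ‖x‖ < a
    · simp only [hxa, if_true, hx]
    · simp only [hxa, if_false]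
  · refine (hf z h.le hzρ).congr ?_
    filter_upwards [nhdsWithin_le_nhds ((isOpen_lt continuous_const continuous_norm).mem_nhds h)]
      with x hx
    have hx' : a < ‖x‖ := hx
    simp only [not_lt.2 hx'.le, if_false]

/-- annular form: `g1` meromorphic inside the circle of radius `a < ρ`, `f` meromorphic on the
annulus, both agree near the circle of radius `a`; `f'` continuous near the outer circle -/
theorem ext1_glue {a ρ : ℝ} (hρ : 0 < ρ) (haρ : a < ρ) {g1 f f' : ℂ → ℂ}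
    (hg1 : MeromorphicOn g1 (closedBall 0 a))
    (hf : ∀ z : ℂ, a ≤ ‖z‖ → ‖z‖ ≤ ρ → MeromorphicAt f z)
    (heq : ∀ z : ℂ, ‖z‖ = a → ∀ᶠ x in 𝓝[≠] z, g1 x = f x)
    (hf'c : ∀ z ∈ sphere (0 : ℂ) ρ, ContinuousAt f' z)
    (hf' : ∀ z ∈ sphere (0 : ℂ) ρ, ∀ᶠ x in 𝓝[≠] z, f' x = f x) : Ext1 ρ f' := by
  refine ext1_of_mero hρ (meromorphicOn_glue hg1 hf heq) hf'c (fun z hz => ?_)
  have hzn : a < ‖z‖ := by
    have : ‖z‖ = ρ := by simpa using hz
    linarith
  filter_upwards [hf' z hz, nhdsWithin_le_nhds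
    ((isOpen_lt continuous_const continuous_norm).mem_nhds hzn)] with x hx1 hx2
  have hx' : a < ‖x‖ := hx2
  simp only [not_lt.2 hx'.le, if_false, hx1]

end Crest.Agent.R102.L314
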