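import Mathlib

/-!
Row 102, leaf T3l, part A: lifting a homeomorphism (circle) x (0,1) -> open essential subset of the
cylinder `AddCircle P × ℝ` to an equivariant open embedding `(0,1) × ℝ → ℝ × ℝ`.
-/

set_option autoImplicit false

namespace Crest.Agent.R102.L785

open Set Filter Topology

theorem isLocalHomeomorph_prodMap {X Y Z W : Type*} [TopologicalSpace X] [TopologicalSpace Y]
    [TopologicalSpace Z] [TopologicalSpace W] {f : X → Y} {g : Z → W}
    (hf : IsLocalHomeomorph f) (hg : IsLocalHomeomorph g) :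
    IsLocalHomeomorph (Prod.map f g) := by
  refine IsLocalHomeomorph.mk _ fun x => ?_
  obtain ⟨e, he, hfe⟩ := hf x.1
  obtain ⟨e', he', hge⟩ := hg x.2
  refine ⟨e.prod e', ⟨he, he'⟩, ?_⟩
  rintro ⟨a, b⟩ _
  simp only [Prod.map_apply, hfe, hge]
  rfl

/-- parameter space `(0,1) × ℝ`. -/
abbrev AA := Ioo (0:ℝ) 1 × ℝ

instance : ContractibleSpace (Ioo (0:ℝ) 1) :=
  (convex_Ioo 0 1).contractibleSpace (nonempty_Ioo.2 one_pos)

instance : LocallyPathConnectedSpace (Ioo (0:ℝ) 1) := isOpen_Ioo.locallyPathConnectedSpace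

instance : SimplyConnectedSpace AA := inferInstance
instance : LocallyPathConnectedSpace AA := inferInstance
instance : PreconnectedSpace AA := inferInstance

theorem coe_eq_iff (P : ℝ) {a b : ℝ} :
    (a : AddCircle P) = (b : AddCircle P) ↔ ∃ n : ℤ, b = a + n * P := by
  rw [eq_comm, ← sub_eq_zero, ← AddCircle.coe_sub, AddCircle.coe_eq_zero_iff]
  constructor
  · rintro ⟨n, hn⟩
    exact ⟨n, by rw [zsmul_eq_mul] at hn; linarith⟩
  · rintro ⟨n, hn⟩
    exact ⟨n, by rw [zsmul_eq_mul]; linarith⟩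

theorem coe_add_int_mul (P : ℝ) (a : ℝ) (n : ℤ) :
    ((a + n * P : ℝ) : AddCircle P) = (a : AddCircle P) :=
  ((coe_eq_iff P).2 ⟨n, rfl⟩).symm

theorem exists_rep (P : ℝ) (t : AddCircle P) : ∃ x : ℝ, (x : AddCircle P) = t :=
  QuotientAddGroup.mk_surjective t

/-- lifts of maps to the circle. -/
theorem exists_lift {A : Type*} [TopologicalSpace A] [SimplyConnectedSpace A]
    [LocallyPathConnectedSpace A] (P : ℝ) (f : C(A, AddCircle P)) :
    ∃ F : C(A, ℝ), ∀ a, (F a : AddCircle P) = f a := by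
  have a₀ : A := (inferInstance : Nonempty A).some
  obtain ⟨e₀, he₀⟩ := exists_rep P (f a₀)
  obtain ⟨F, ⟨_, hF⟩, _⟩ :=
    (AddCircle.isCoveringMap_coe P).existsUnique_continuousMap_lifts f a₀ e₀ he₀
  exact ⟨F, fun a => congrFun hF a⟩

/-- Two lifts of the same map differ by a constant multiple of the period. -/
theorem lift_diff {A : Type*} [TopologicalSpace A] [PreconnectedSpace A] [Nonempty A] (P : ℝ)
    {F G : A → ℝ} (hF : Continuous F) (hG : Continuous G)
    (h : ∀ a, (F a : AddCircle P) = (G a : AddCircle P)) :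
    ∃ n : ℤ, ∀ a, G a = F a + n * P := by
  have a₀ : A := (inferInstance : Nonempty A).some
  obtain ⟨n, hn⟩ := (coe_eq_iff P).1 (h a₀)
  refine ⟨n, fun a => ?_⟩
  have := (AddCircle.isCoveringMap_coe P).eq_of_comp_eq (g₁ := G) (g₂ := fun a => F a + n * P)
    hG (by fun_prop) (by
      funext a
      simp only [Function.comp]
      rw [coe_add_int_mul, h a]) a₀ hn
  exact congrFun this a

section lift
variable {P : ℝ}

/-- the projection of the plane to the cylinder. -/
def qq (P : ℝ) (z : ℝ × ℝ) : AddCircle P × ℝ := ((z.1 : AddCircle P), z.2)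

theorem qq_localHomeo (P : ℝ) : IsLocalHomeomorph (qq P) :=
  isLocalHomeomorph_prodMap (AddCircle.isLocalHomeomorph_coe P)
    (Homeomorph.refl ℝ).isLocalHomeomorph

/-- the covering `(0,1) × ℝ → circle × (0,1)`. -/
def pj (a : AA) : UnitAddCircle × Ioo (0:ℝ) 1 := ((a.2 : UnitAddCircle), a.1)

theorem pj_localHomeo : IsLocalHomeomorph pj := by
  have h1 : IsLocalHomeomorph (Prod.map (id : Ioo (0:ℝ) 1 → Ioo (0:ℝ) 1)
      ((↑) : ℝ → UnitAddCircle)) :=
    isLocalHomeomorph_prodMap (Homeomorph.refl _).isLocalHomeomorph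
      (AddCircle.isLocalHomeomorph_coe (1:ℝ))
  exact ((Homeomorph.prodComm _ _).isLocalHomeomorph).comp h1

/-- First step: the lift and its degree. -/
theorem lift_degree (hP : 0 < P) {W : Set (AddCircle P × ℝ)}
    (H : UnitAddCircle × Ioo (0:ℝ) 1 ≃ₜ W) {δ₀ : ℝ} (hδ : ∀ t : AddCircle P, (t, δ₀) ∈ W) :
    ∃ (F : C(AA, ℝ)) (d : ℤ), (d = 1 ∨ d = -1) ∧
      (∀ a, (F a : AddCircle P) = (H (pj a) : AddCircle P × ℝ).1) ∧
      ∀ (b : Ioo (0:ℝ) 1) (x : ℝ), F (b, x + 1) = F (b, x) + d * P := by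
  have hpj : Continuous pj := pj_localHomeo.continuous
  obtain ⟨F, hF⟩ := exists_lift P
    (⟨fun a : AA => (H (pj a) : AddCircle P × ℝ).1, by fun_prop⟩ : C(AA, AddCircle P))
  simp only [ContinuousMap.coe_mk] at hF
  obtain ⟨d, hd⟩ := lift_diff P (F := fun a : AA => F a) (G := fun a : AA => F (a.1, a.2 + 1))
    (by fun_prop) (by fun_prop) (by
      intro a
      rw [hF, hF]
      congr 3
      simp only [pj]
      congr 1
      rw [AddCircle.coe_add, AddCircle.coe_period]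
      simp)
  -- `F (b, x + k)`
  have hk : ∀ (b : Ioo (0:ℝ) 1) (x : ℝ) (k : ℤ), F (b, x + k) = F (b, x) + k * d * P := by
    intro b x k
    induction k using Int.induction_on with
    | zero => simp
    | succ i ih =>
      have := hd (b, x + i)
      simp only at this
      push_cast at ih ⊢
      rw [← add_assoc, this, ih]; ring
    | pred i ih =>
      have := hd (b, x + (-(i:ℤ) - 1 : ℤ))
      simp only at this
      push_cast at ih this ⊢
      have e : x + (-(i:ℝ) - 1) + 1 = x + -(i:ℝ) := by ring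
      rw [e, ih] at this
      linarith
  -- the loop
  let ℓ : ℝ → UnitAddCircle × Ioo (0:ℝ) 1 := fun s => H.symm ⟨((s : AddCircle P), δ₀), hδ _⟩
  have hℓc : Continuous ℓ := by
    refine H.symm.continuous.comp (Continuous.subtype_mk ?_ _)
    exact ((AddCircle.isLocalHomeomorph_coe P).continuous).prodMk continuous_const
  have hℓp : ∀ s, ℓ (s + P) = ℓ s := by
    intro s
    have : ((s + P : ℝ) : AddCircle P) = s := by
      rw [AddCircle.coe_add, AddCircle.coe_period, add_zero]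
    simp only [ℓ, this]
  obtain ⟨X, hX⟩ := exists_lift (1:ℝ) (⟨fun s => (ℓ s).1, by fun_prop⟩ : C(ℝ, AddCircle (1:ℝ)))
  simp only [ContinuousMap.coe_mk] at hX
  obtain ⟨k, hkX⟩ := lift_diff (1:ℝ) (F := fun s => X s) (G := fun s => X (s + P))
    (by fun_prop) (by fun_prop) (by
      intro s
      rw [hX, hX, hℓp])
  have hpjl : ∀ s, pj ((ℓ s).2, X s) = ℓ s := by
    intro s
    simp only [pj]
    exact Prod.ext (hX s) rfl
  obtain ⟨c, hc⟩ := lift_diff P (F := fun s : ℝ => s) (G := fun s => F ((ℓ s).2, X s))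
    (by fun_prop) (by fun_prop) (by
      intro s
      rw [hF, hpjl]
      simp [ℓ])
  have h1 := hc 0
  have h2 := hc (0 + P)
  rw [hkX, hℓp] at h2
  have h3 := hk (ℓ 0).2 (X 0) k
  rw [mul_one] at h2
  rw [h2, h1] at h3
  have h4 : ((k * d : ℤ) : ℝ) = 1 := by
    have : ((k:ℝ) * d) * P = 1 * P := by linarith
    push_cast
    exact mul_right_cancel₀ hP.ne' this
  have h5 : k * d = 1 := by exact_mod_cast h4
  refine ⟨F, d, ?_, hF, fun b x => hd (b, x)⟩
  exact Int.isUnit_iff.1 (IsUnit.of_mul_eq_one_right _ h5)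

/-- second step, degree one. -/
theorem lift_one {W : Set (AddCircle P × ℝ)} (hP : 0 < P) (hW : IsOpen W)
    (H : UnitAddCircle × Ioo (0:ℝ) 1 ≃ₜ W) (F : C(AA, ℝ))
    (hF : ∀ a, (F a : AddCircle P) = (H (pj a) : AddCircle P × ℝ).1)
    (hd : ∀ (b : Ioo (0:ℝ) 1) (x : ℝ), F (b, x + 1) = F (b, x) + P) :
    ∃ κ : AA → ℝ × ℝ, IsOpenEmbedding κ ∧ (∀ b x, κ (b, x + 1) = κ (b, x) + (P, 0)) ∧
      range κ = {z | qq P z ∈ W} ∧
      (∀ a : AA, qq P (κ a) = (H (pj a) : AddCircle P × ℝ)) := by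
  set κ : AA → ℝ × ℝ := fun a => (F a, (H (pj a) : AddCircle P × ℝ).2) with hκ
  have hpj : Continuous pj := pj_localHomeo.continuous
  have hκc : Continuous κ := by
    simp only [hκ]; fun_prop
  have hpj1 : ∀ (b : Ioo (0:ℝ) 1) (x : ℝ) (m : ℤ), pj (b, x + m) = pj (b, x) := by
    intro b x m
    simp only [pj]
    congr 1
    have := coe_add_int_mul 1 x m
    rwa [mul_one] at this
  have hqκ : ∀ a, qq P (κ a) = (H (pj a) : AddCircle P × ℝ) := by
    intro a
    simp only [qq, hκ, hF]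
  have hFm : ∀ (b : Ioo (0:ℝ) 1) (x : ℝ) (k : ℤ), F (b, x + k) = F (b, x) + k * P := by
    intro b x k
    induction k using Int.induction_on with
    | zero => simp
    | succ i ih =>
      have := hd b (x + i)
      push_cast at ih ⊢
      rw [← add_assoc, this, ih]; ring
    | pred i ih =>
      have := hd b (x + (-(i:ℤ) - 1 : ℤ))
      push_cast at ih this ⊢
      have e : x + (-(i:ℝ) - 1) + 1 = x + -(i:ℝ) := by ring
      rw [e, ih] at this
      linarith
  have hinj : Function.Injective κ := by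
    intro a a' h
    have h1 : H (pj a) = H (pj a') := by
      apply Subtype.ext
      rw [← hqκ, ← hqκ, h]
    have h2 := H.injective h1
    obtain ⟨b, x⟩ := a
    obtain ⟨b', x'⟩ := a'
    simp only [pj, Prod.mk.injEq] at h2
    obtain ⟨h3, rfl⟩ := h2
    obtain ⟨m, hm⟩ := (coe_eq_iff 1).1 h3
    rw [mul_one] at hm
    subst hm
    have h4 : F (b, x) = F (b, x + m) := congrArg Prod.fst h
    rw [hFm] at h4
    have h5 : (m:ℝ) * P = 0 := by linarith
    rcases mul_eq_zero.1 h5 with h6 | h6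
    · rw [h6, add_zero]
    · exact absurd h6 hP.ne'
  have hloc : IsLocalHomeomorph κ := by
    refine IsLocalHomeomorph.of_comp (g := qq P) ?_ (qq_localHomeo P) hκc
    have : qq P ∘ κ = (Subtype.val : W → _) ∘ H ∘ pj := by
      funext a; exact hqκ a
    rw [this]
    exact (hW.isOpenEmbedding_subtypeVal.isLocalHomeomorph).comp
      (H.isLocalHomeomorph.comp pj_localHomeo)
  refine ⟨κ, hloc.isOpenEmbedding_of_injective hinj, ?_, ?_, hqκ⟩
  · intro b x
    have h1 := hd b x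
    have h2 := hpj1 b x 1
    rw [Int.cast_one] at h2
    simp only [hκ, h1, h2, Prod.mk_add_mk, add_zero]
  · ext z
    simp only [mem_range, mem_setOf_eq]
    constructor
    · rintro ⟨a, rfl⟩
      rw [hqκ]; exact (H (pj a)).2
    · intro hz
      obtain ⟨x, hx⟩ := exists_rep 1 (H.symm ⟨qq P z, hz⟩).1
      set b := (H.symm ⟨qq P z, hz⟩).2 with hb
      have h1 : pj (b, x) = H.symm ⟨qq P z, hz⟩ := Prod.ext hx rfl
      have h2 : qq P (κ (b, x)) = qq P z := by rw [hqκ, h1]; simp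
      have h3 : ((F (b, x) : ℝ) : AddCircle P) = (z.1 : AddCircle P) := congrArg Prod.fst h2
      obtain ⟨n, hn⟩ := (coe_eq_iff P).1 h3
      refine ⟨(b, x + n), ?_⟩
      refine Prod.ext ?_ ?_
      · change F (b, x + n) = z.1
        rw [hFm, hn]
      · change (H (pj (b, x + n)) : AddCircle P × ℝ).2 = z.2
        rw [hpj1, ← hqκ, h2]; rfl

/-- Main lifting theorem. -/
theorem lift_main {W : Set (AddCircle P × ℝ)} (hP : 0 < P) (hW : IsOpen W)
    (H : UnitAddCircle × Ioo (0:ℝ) 1 ≃ₜ W) {δ₀ : ℝ} (hδ : ∀ t : AddCircle P, (t, δ₀) ∈ W) :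
    ∃ κ : AA → ℝ × ℝ, IsOpenEmbedding κ ∧ (∀ b x, κ (b, x + 1) = κ (b, x) + (P, 0)) ∧
      range κ = {z | qq P z ∈ W} ∧
      (∀ (b : Ioo (0:ℝ) 1) (y : AddCircle P × ℝ),
        (∃ x, qq P (κ (b, x)) = y) ↔ ∃ θ : UnitAddCircle, (H (θ, b) : AddCircle P × ℝ) = y) := by
  obtain ⟨F, d, hd1, hF, hd⟩ := lift_degree hP H hδ
  rcases hd1 with rfl | rfl
  · obtain ⟨κ, h1, h2, h3, h4⟩ := lift_one hP hW H F hF (by simpa using hd)
    refine ⟨κ, h1, h2, h3, fun b y => ⟨?_, ?_⟩⟩
    · rintro ⟨x, rfl⟩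
      exact ⟨(x : UnitAddCircle), (h4 (b, x)).symm⟩
    · rintro ⟨θ, rfl⟩
      obtain ⟨x, rfl⟩ := exists_rep 1 θ
      exact ⟨x, h4 (b, x)⟩
  · set H' : UnitAddCircle × Ioo (0:ℝ) 1 ≃ₜ W :=
      ((Homeomorph.neg UnitAddCircle).prodCongr (Homeomorph.refl _)).trans H with hH'
    have hH'a : ∀ (θ : UnitAddCircle) (b : Ioo (0:ℝ) 1), H' (θ, b) = H (-θ, b) := by
      intro θ b; rfl
    set F' : C(AA, ℝ) := ⟨fun a => F (a.1, -a.2), by fun_prop⟩ with hF'
    obtain ⟨κ, h1, h2, h3, h4⟩ := lift_one hP hW H' F' (by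
      intro a
      change (F (a.1, -a.2) : AddCircle P) = (H' ((a.2 : UnitAddCircle), a.1) : _ × ℝ).1
      rw [hF, hH'a]
      rfl) (by
      intro b x
      change F (b, -(x + 1)) = F (b, -x) + P
      have := hd b (-(x + 1))
      have e : -(x + 1) + 1 = -x := by ring
      rw [e] at this
      push_cast at this
      linarith)
    refine ⟨κ, h1, h2, h3, fun b y => ⟨?_, ?_⟩⟩
    · rintro ⟨x, rfl⟩
      exact ⟨-(x : UnitAddCircle), by rw [h4 (b, x)]; rfl⟩
    · rintro ⟨θ, rfl⟩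
      obtain ⟨x, hx⟩ := exists_rep 1 (-θ)
      refine ⟨x, ?_⟩
      rw [h4 (b, x)]
      change (H' ((x : UnitAddCircle), b) : AddCircle P × ℝ) = _
      rw [hH'a, hx, neg_neg]

end lift

end Crest.Agent.R102.L785
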