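import Crest.Agent.R102.GeoDefs_821
import Crest.Agent.R102.LiftA_785

/-!
Row 102, leaf T3l, part B: the circle of boundary points and the lift of the phase foliation.
-/

set_option autoImplicit false

namespace Crest.Agent.R102.L785

open Set Filter Topology
open Crest.AnalysisR.Billiard Crest.Agent.R102.S0

/-- values of `γ` agree iff the parameters agree mod `P`. -/
theorem gamma_eq_iff {C : Set (ℝ × ℝ)} {γ : ℝ → ℝ × ℝ} {P : ℝ} (h : IsSmoothClosedCurve γ P C)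
    {s t : ℝ} : γ s = γ t ↔ ∃ n : ℤ, t = s + n * P := by
  obtain ⟨hP, -, hper, hinj, -, -⟩ := h
  constructor
  · intro hst
    have : Fact (0 < P) := ⟨hP⟩
    -- reduce both to `[0,P)`
    have h1 : γ (toIcoMod hP 0 s) = γ s := by
      have := toIcoMod_add_toIcoDiv_zsmul hP 0 s
      conv_rhs => rw [← this]
      exact (hper.zsmul _ _).symm
    have h2 : γ (toIcoMod hP 0 t) = γ t := by
      have := toIcoMod_add_toIcoDiv_zsmul hP 0 t
      conv_rhs => rw [← this]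
      exact (hper.zsmul _ _).symm
    have m1 : toIcoMod hP 0 s ∈ Ico 0 P := by simpa using toIcoMod_mem_Ico hP 0 s
    have m2 : toIcoMod hP 0 t ∈ Ico 0 P := by simpa using toIcoMod_mem_Ico hP 0 t
    have h3 := hinj m1 m2 (by rw [h1, h2, hst])
    have h4 := toIcoMod_add_toIcoDiv_zsmul hP 0 s
    have h5 := toIcoMod_add_toIcoDiv_zsmul hP 0 t
    refine ⟨toIcoDiv hP 0 t - toIcoDiv hP 0 s, ?_⟩
    simp only [zsmul_eq_mul] at h4 h5
    push_cast
    rw [h3] at h4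
    linarith
  · rintro ⟨n, rfl⟩
    have := hper.zsmul n s
    rw [zsmul_eq_mul] at this
    exact this.symm

theorem table_homeo {Ω : Set (ℝ × ℝ)} {γ : ℝ → ℝ × ℝ} {P : ℝ} (h : IsTable Ω γ P) :
    ∃ e : AddCircle P ≃ₜ frontier Ω, ∀ s : ℝ, ((e (s : AddCircle P) : frontier Ω) : ℝ × ℝ) = γ s := by
  have hc := h.2.2.2.2.1
  have hP : 0 < P := hc.1
  have hper : Function.Periodic γ P := hc.2.2.1
  have hγc : Continuous γ := hc.2.1.continuous
  have hr : range γ = frontier Ω := hc.2.2.2.2.2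
  have : Fact (0 < P) := ⟨hP⟩
  let f : AddCircle P → frontier Ω := fun t => ⟨hper.lift t, by
    obtain ⟨s, rfl⟩ := exists_rep P t
    rw [← hr]
    exact ⟨s, rfl⟩⟩
  have hf : Continuous f := by
    refine Continuous.subtype_mk ?_ _
    exact continuous_coinduced_dom.2 hγc
  have hbij : Function.Bijective f := by
    constructor
    · intro a b hab
      obtain ⟨s, rfl⟩ := exists_rep P a
      obtain ⟨t, rfl⟩ := exists_rep P b
      have : γ s = γ t := congrArg Subtype.val hab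
      obtain ⟨n, hn⟩ := (gamma_eq_iff hc).1 this
      exact (coe_eq_iff P).2 ⟨n, hn⟩
    · rintro ⟨z, hz⟩
      rw [← hr] at hz
      obtain ⟨s, rfl⟩ := hz
      exact ⟨(s : AddCircle P), rfl⟩
  refine ⟨Continuous.homeoOfEquivCompactToT2 (f := Equiv.ofBijective f hbij) hf, fun s => rfl⟩

/-- Lift of an invariant phase foliation. -/
theorem lift_foliation {Ω : Set (ℝ × ℝ)} {γ : ℝ → ℝ × ℝ} {P : ℝ} (h : IsTable Ω γ P)
    {U : Set ((ℝ × ℝ) × ℝ)} (hUs : U ⊆ phaseSpace Ω) {O : Set ((ℝ × ℝ) × ℝ)} (hO : IsOpen O)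
    (hUO : U = O ∩ phaseSpace Ω) {η : ℝ} (hη : 0 < η) (hηU : {x | x ∈ phaseSpace Ω ∧ x.2 < η} ⊆ U)
    (H : UnitAddCircle × Ioo (0 : ℝ) 1 ≃ₜ U) :
    ∃ κ : AA → ℝ × ℝ, IsOpenEmbedding κ ∧ (∀ b x, κ (b, x + 1) = κ (b, x) + (P, 0)) ∧
      (∀ z : ℝ × ℝ, z ∈ range κ ↔ (γ z.1, z.2) ∈ U) ∧
      (∀ (b : Ioo (0:ℝ) 1) (y : (ℝ × ℝ) × ℝ),
        (∃ x, (γ (κ (b, x)).1, (κ (b, x)).2) = y) ↔
          ∃ θ : UnitAddCircle, ((H (θ, b) : U) : (ℝ × ℝ) × ℝ) = y) := by
  obtain ⟨e, he⟩ := table_homeo h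
  have hP : 0 < P := h.2.2.2.2.1.1
  set W : Set (AddCircle P × ℝ) := {w | (((e w.1 : frontier Ω) : ℝ × ℝ), w.2) ∈ U} with hWdef
  have hW : IsOpen W := by
    have : W = (fun w : AddCircle P × ℝ => (((e w.1 : frontier Ω) : ℝ × ℝ), w.2)) ⁻¹' O ∩
        Prod.snd ⁻¹' (Ioo 0 Real.pi) := by
      ext w
      simp only [hWdef, hUO, phaseSpace, mem_setOf_eq, mem_inter_iff, mem_preimage]
      constructor
      · rintro ⟨h1, -, h3⟩
        exact ⟨h1, h3⟩
      · rintro ⟨h1, h3⟩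
        exact ⟨h1, (e w.1).2, h3⟩
    rw [this]
    refine (hO.preimage (by fun_prop)).inter (isOpen_Ioo.preimage continuous_snd)
  let Φ : U ≃ₜ W :=
    { toFun := fun u => ⟨(e.symm ⟨u.1.1, (hUs u.2).1⟩, u.1.2), by
        simp only [hWdef, mem_setOf_eq, Homeomorph.apply_symm_apply]
        exact u.2⟩
      invFun := fun w => ⟨(((e w.1.1 : frontier Ω) : ℝ × ℝ), w.1.2), w.2⟩
      left_inv := by
        rintro ⟨⟨p, δ⟩, hu⟩
        simp
      right_inv := by
        rintro ⟨⟨t, δ⟩, hw⟩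
        simp
      continuous_toFun := by
        refine Continuous.subtype_mk ?_ _
        refine Continuous.prodMk (e.symm.continuous.comp (Continuous.subtype_mk ?_ _)) ?_ <;>
        fun_prop
      continuous_invFun := by
        refine Continuous.subtype_mk ?_ _
        fun_prop }
  set δ₀ : ℝ := min (η / 2) (Real.pi / 2) with hδ₀
  have hπ := Real.pi_pos
  have hδ : ∀ t : AddCircle P, (t, δ₀) ∈ W := by
    intro t
    have h1 : 0 < δ₀ := lt_min (by linarith) (by linarith)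
    have h2 : δ₀ < η := (min_le_left _ _).trans_lt (by linarith)
    have h3 : δ₀ < Real.pi := (min_le_right _ _).trans_lt (by linarith)
    exact hηU ⟨⟨(e t).2, h1, h3⟩, h2⟩
  obtain ⟨κ, k1, k2, k3, k4⟩ := lift_main hP hW (H.trans Φ) hδ
  -- dictionary
  have hdict : ∀ (z : ℝ × ℝ), (((e (qq P z).1 : frontier Ω) : ℝ × ℝ), (qq P z).2) = (γ z.1, z.2) := by
    intro z
    simp only [qq, he]
  refine ⟨κ, k1, k2, ?_, ?_⟩
  · intro z
    rw [k3]
    simp only [mem_setOf_eq, hWdef, hdict]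
  · intro b y
    constructor
    · rintro ⟨x, rfl⟩
      obtain ⟨θ, hθ⟩ := (k4 b (qq P (κ (b, x)))).1 ⟨x, rfl⟩
      refine ⟨θ, ?_⟩
      have h1 : H (θ, b) = Φ.symm ⟨qq P (κ (b, x)), by rw [← hθ]; exact ((H.trans Φ) (θ, b)).2⟩ := by
        rw [Homeomorph.eq_symm_apply]
        exact Subtype.ext hθ
      rw [h1]
      exact hdict _
    · rintro ⟨θ, rfl⟩
      obtain ⟨x, hx⟩ := (k4 b ((H.trans Φ) (θ, b) : AddCircle P × ℝ)).2 ⟨θ, rfl⟩
      refine ⟨x, ?_⟩
      rw [← hdict, hx]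
      exact congrArg Subtype.val (Φ.symm_apply_apply (H (θ, b)))

end Crest.Agent.R102.L785
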