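import Crest.Agent.R102.F5_985

/-!
Row 102, part (C), leaf PSI, first half: lifting of a tangent vector at a generic point to a
formal curve which is constant along a given subalgebra.
-/

namespace Crest.Agent.R102.F5

open PowerSeries

/-- LIFT, general form: prescribed first order germ `ψB` on `B` -/
theorem exists_lift_gen {A B : Type*} [CommRing A] [IsDomain A] [Algebra ℂ A]
    [Algebra.FiniteType ℂ A] [CommRing B] [Algebra ℂ B] [Algebra.FiniteType ℂ B]
    (iB : B →ₐ[ℂ] A) (hinj : Function.Injective iB) :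
    ∃ f : A, f ≠ 0 ∧ ∀ ev : A →ₐ[ℂ] ℂ, ev f ≠ 0 → ∀ d : A →ₗ[ℂ] ℂ,
      (∀ a b, d (a * b) = ev a * d b + ev b * d a) → ∀ ψB : B →ₐ[ℂ] PowerSeries ℂ,
      (∀ b, constantCoeff (ψB b) = ev (iB b)) → (∀ b, coeff 1 (ψB b) = d (iB b)) →
      ∃ ψ : A →ₐ[ℂ] PowerSeries ℂ, (∀ a, constantCoeff (ψ a) = ev a ∧ coeff 1 (ψ a) = d a) ∧
        ∀ b, ψ (iB b) = ψB b := by
  have hdomB : IsDomain B := hinj.isDomain iB.toRingHom
  let _ : Algebra B A := iB.toRingHom.toAlgebra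
  have : IsScalarTower ℂ B A := IsScalarTower.of_algebraMap_eq fun x => (iB.commutes x).symm
  obtain ⟨f, hf, hsm⟩ := generic_smooth B A hinj
  refine ⟨f, hf, ?_⟩
  intro ev hev d hd ψB h0 h1
  let Af := Localization.Away f
  have hunit : ∀ s : Submonoid.powers f, IsUnit (ev s) := by
    rintro ⟨_, k, rfl⟩
    simpa using (isUnit_iff_ne_zero.mpr hev).pow k
  let ev' : Af →ₐ[ℂ] ℂ := IsLocalization.liftAlgHom (M := Submonoid.powers f) (f := ev) hunit
  have hev' : ∀ a, ev' (algebraMap A Af a) = ev a := fun a => by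
    simp [ev']
  have hfs : Algebra.FormallySmooth A Af :=
    Algebra.FormallySmooth.of_isLocalization (Submonoid.powers f)
  obtain ⟨d', hd', hdd'⟩ := exists_derivation (B := A) (A := Af) ev' d (fun a b => by
    rw [hev', hev', hd])
  obtain ⟨ψ, h2, h3, h4⟩ := exists_lift (B := B) (A := Af) ψB ev' (fun b => by
      rw [h0, IsScalarTower.algebraMap_apply B A Af, hev']
      rfl) d' hd' (fun b => by
      rw [h1, IsScalarTower.algebraMap_apply B A Af, hdd']
      rfl)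
  refine ⟨ψ.comp (IsScalarTower.toAlgHom ℂ A Af), fun a => ⟨?_, ?_⟩, fun b => ?_⟩
  · change constantCoeff (ψ (algebraMap A Af a)) = ev a
    rw [h3, hev']
  · change coeff 1 (ψ (algebraMap A Af a)) = d a
    rw [h4, hdd']
  · exact h2 b

/-- LIFT (389's form): the curve is constant along `B` -/
theorem exists_lift_sub {A B : Type*} [CommRing A] [IsDomain A] [Algebra ℂ A]
    [Algebra.FiniteType ℂ A] [CommRing B] [Algebra ℂ B] [Algebra.FiniteType ℂ B]
    (iB : B →ₐ[ℂ] A) (hinj : Function.Injective iB) :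
    ∃ f : A, f ≠ 0 ∧ ∀ ev : A →ₐ[ℂ] ℂ, ev f ≠ 0 → ∀ d : A →ₗ[ℂ] ℂ,
      (∀ a b, d (a * b) = ev a * d b + ev b * d a) → (∀ b, d (iB b) = 0) →
      ∃ ψ : A →ₐ[ℂ] PowerSeries ℂ, (∀ a, constantCoeff (ψ a) = ev a ∧ coeff 1 (ψ a) = d a) ∧
        ∀ b, ψ (iB b) = C (ev (iB b)) := by
  obtain ⟨f, hf, h⟩ := exists_lift_gen iB hinj
  refine ⟨f, hf, ?_⟩
  intro ev hev d hd hdB
  let ψB : B →ₐ[ℂ] PowerSeries ℂ := (Algebra.ofId ℂ (PowerSeries ℂ)).comp (ev.comp iB)
  have hψB : ∀ b, ψB b = C (ev (iB b)) := fun b => rfl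
  obtain ⟨ψ, h1, h2⟩ := h ev hev d hd ψB (fun b => by rw [hψB]; simp) (fun b => by
    rw [hψB, hdB]
    simp)
  exact ⟨ψ, h1, fun b => by rw [h2, hψB]⟩

/-- LIFT over the polynomial ring in two algebraically independent elements (PSI, first half) -/
theorem exists_lift_pair {A : Type*} [CommRing A] [IsDomain A] [Algebra ℂ A]
    [Algebra.FiniteType ℂ A] {ι : Type*} [Finite ι] (x : ι → A)
    (hx : AlgebraicIndependent ℂ x) :
    ∃ f : A, f ≠ 0 ∧ ∀ ev : A →ₐ[ℂ] ℂ, ev f ≠ 0 → ∀ d : A →ₗ[ℂ] ℂ,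
      (∀ a b, d (a * b) = ev a * d b + ev b * d a) → (∀ i, d (x i) = 0) →
      ∃ ψ : A →ₐ[ℂ] PowerSeries ℂ, (∀ a, constantCoeff (ψ a) = ev a ∧ coeff 1 (ψ a) = d a) ∧
        ∀ i, ψ (x i) = C (ev (x i)) := by
  obtain ⟨f, hf, h⟩ := exists_lift_sub (MvPolynomial.aeval x : MvPolynomial ι ℂ →ₐ[ℂ] A) hx
  refine ⟨f, hf, ?_⟩
  intro ev hev d hd hdx
  have hd1 : d 1 = 0 := by
    have := hd 1 1
    simp at this
    exact this
  have hdB : ∀ b : MvPolynomial ι ℂ, d (MvPolynomial.aeval x b) = 0 := by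
    intro b
    induction b using MvPolynomial.induction_on with
    | C c =>
      rw [MvPolynomial.aeval_C, Algebra.algebraMap_eq_smul_one, map_smul, hd1, smul_zero]
    | add p q hp hq => rw [map_add, map_add, hp, hq, add_zero]
    | mul_X p i hp => rw [map_mul, hd, hp, MvPolynomial.aeval_X, hdx, mul_zero, mul_zero, add_zero]
  obtain ⟨ψ, h1, h2⟩ := h ev hev d hd hdB
  refine ⟨ψ, h1, fun i => ?_⟩
  have := h2 (MvPolynomial.X i)
  rw [MvPolynomial.aeval_X] at this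
  exact this

end Crest.Agent.R102.F5
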