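import Mathlib

/-!
# Row 102, T1-B, EDGE: Liouville leaves (helper203)

* `const_of_re_le`, `const_of_im_le` : entire, one sided bound `≤ C (1 + ‖s‖)^θ`, `θ < 1` ⟹ constant;
* `const_of_norm_le` : entire, `‖f s‖ ≤ C (1 + ‖s‖)^θ`, `θ < 1` ⟹ constant;
* `const_of_zero_free` : entire, zero free, `log ‖f s‖ ≤ C (1 + ‖s‖)^θ`, `θ < 1` ⟹ constant;
* `exists_entire` : `F` holomorphic on `{0 < Im ζ, Im T < (a + c) Im ζ}`, `c > 0`, which on a
  nonempty open subset depends on `s = T - a ζ` only, is `g (T - a ζ)` with `g` entire;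
* `pt_mem`, `pt_norm` : the point over `s` in the cone of level `a + c / 2` (transfer of growth).
-/

set_option autoImplicit false

open Set Filter Topology Metric Complex

namespace Crest.Agent.R102.Liou203

/-- one sided Liouville theorem with sublinear growth -/
theorem const_of_re_le {f : ℂ → ℂ} (hf : Differentiable ℂ f) {C θ : ℝ} (hθ : θ < 1)
    (h : ∀ s, (f s).re ≤ C * (1 + ‖s‖) ^ θ) (z : ℂ) : f z = f 0 := by
  obtain ⟨t, ht⟩ : ∃ t, t = max θ 0 := ⟨_, rfl⟩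
  have ht0 : 0 ≤ t := by rw [ht]; exact le_max_right _ _
  have htθ : θ ≤ t := by rw [ht]; exact le_max_left _ _
  have ht1 : t < 1 := by rw [ht]; exact max_lt hθ one_pos
  obtain ⟨B, hB⟩ : ∃ B, B = |(f 0).re| + 1 := ⟨_, rfl⟩
  have hB0 : 0 < B := by rw [hB]; positivity
  have key : ∀ᶠ u : ℝ in atTop, ‖f z - f 0‖ ≤
      4 * ‖z‖ * (|C| * u ^ (-(1 - t)) + B * u⁻¹) := by
    filter_upwards [eventually_ge_atTop (2 * (1 + ‖z‖)), eventually_ge_atTop (2 : ℝ)]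
      with u hu hu2
    have hu0 : 0 < u := by linarith
    have hR : 0 < u - 1 := by linarith
    have hzR : ‖z‖ < u - 1 := by linarith [norm_nonneg z]
    have hM : 0 < |C| * u ^ t + B := by positivity
    have h1 := borelCaratheodory_zero (f := fun s => f s - f 0) (M := |C| * u ^ t + B)
      (R := u - 1) (z := z) hM (hf.sub_const (f 0)).differentiableOn ?_ hR
      (mem_ball_zero_iff.2 hzR) (by simp)
    · refine h1.trans ?_
      have h2 : u / 2 ≤ u - 1 - ‖z‖ := by linarith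
      have h3 : 2 * (|C| * u ^ t + B) * ‖z‖ / (u - 1 - ‖z‖) ≤
          2 * (|C| * u ^ t + B) * ‖z‖ / (u / 2) :=
        div_le_div_of_nonneg_left (by positivity) (by positivity) h2
      refine h3.trans (le_of_eq ?_)
      have h4 : u ^ (-(1 - t)) = u ^ t * u⁻¹ := by
        rw [← Real.rpow_neg_one u, ← Real.rpow_add hu0]
        congr 1
        ring
      rw [h4]
      field_simp
      ring
    · intro s hs
      have hs' : ‖s‖ < u - 1 := mem_ball_zero_iff.1 hs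
      have h5 : (1 + ‖s‖) ^ θ ≤ u ^ t := by
        have h6 : (1 + ‖s‖) ^ θ ≤ (1 + ‖s‖) ^ t :=
          Real.rpow_le_rpow_of_exponent_le (by linarith [norm_nonneg s]) htθ
        have h7 : (1 + ‖s‖) ^ t ≤ u ^ t :=
          Real.rpow_le_rpow (by positivity) (by linarith) ht0
        exact h6.trans h7
      have h8 : C * (1 + ‖s‖) ^ θ ≤ |C| * u ^ t := by
        have h9 : C * (1 + ‖s‖) ^ θ ≤ |C| * (1 + ‖s‖) ^ θ :=
          mul_le_mul_of_nonneg_right (le_abs_self C) (by positivity)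
        exact h9.trans (mul_le_mul_of_nonneg_left h5 (abs_nonneg C))
      show (f s - f 0).re ≤ |C| * u ^ t + B
      rw [sub_re]
      have := h s
      have := neg_abs_le (f 0).re
      rw [hB]
      linarith
  have hlim : Tendsto (fun u : ℝ => 4 * ‖z‖ * (|C| * u ^ (-(1 - t)) + B * u⁻¹)) atTop
      (𝓝 (4 * ‖z‖ * (|C| * 0 + B * 0))) := by
    refine Tendsto.const_mul _ ((Tendsto.const_mul _ ?_).add (Tendsto.const_mul _ ?_))
    · exact tendsto_rpow_neg_atTop (by linarith)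
    · exact tendsto_inv_atTop_zero
  have h0 : ‖f z - f 0‖ ≤ 4 * ‖z‖ * (|C| * 0 + B * 0) := ge_of_tendsto hlim key
  simp only [mul_zero, add_zero] at h0
  exact sub_eq_zero.1 (norm_le_zero_iff.1 h0)

theorem const_of_re_ge {f : ℂ → ℂ} (hf : Differentiable ℂ f) {C θ : ℝ} (hθ : θ < 1)
    (h : ∀ s, -(C * (1 + ‖s‖) ^ θ) ≤ (f s).re) (z : ℂ) : f z = f 0 := by
  have := const_of_re_le (f := fun s => -f s) (C := C) hf.neg hθ (fun s => by
    show (-f s).re ≤ _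
    rw [neg_re]; linarith [h s]) z
  exact neg_injective this

theorem const_of_im_le {f : ℂ → ℂ} (hf : Differentiable ℂ f) {C θ : ℝ} (hθ : θ < 1)
    (h : ∀ s, (f s).im ≤ C * (1 + ‖s‖) ^ θ) (z : ℂ) : f z = f 0 := by
  have := const_of_re_le (f := fun s => (-I) * f s) (hf.const_mul (-I)) hθ (fun s => by
    show ((-I) * f s).re ≤ _
    have : ((-I) * f s).re = (f s).im := by simp
    rw [this]; exact h s) z
  simpa using this

theorem const_of_im_ge {f : ℂ → ℂ} (hf : Differentiable ℂ f) {C θ : ℝ} (hθ : θ < 1)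
    (h : ∀ s, -(C * (1 + ‖s‖) ^ θ) ≤ (f s).im) (z : ℂ) : f z = f 0 := by
  have := const_of_im_le (f := fun s => -f s) (C := C) hf.neg hθ (fun s => by
    show (-f s).im ≤ _
    rw [neg_im]; linarith [h s]) z
  exact neg_injective this

theorem const_of_norm_le {f : ℂ → ℂ} (hf : Differentiable ℂ f) {C θ : ℝ} (hθ : θ < 1)
    (h : ∀ s, ‖f s‖ ≤ C * (1 + ‖s‖) ^ θ) (z : ℂ) : f z = f 0 :=
  const_of_re_le hf hθ (fun s => (re_le_norm _).trans (h s)) z

/-- logarithm of a zero free entire function -/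
theorem exists_log {f : ℂ → ℂ} (hf : Differentiable ℂ f) (h0 : ∀ z, f z ≠ 0) :
    ∃ g : ℂ → ℂ, Differentiable ℂ g ∧ ∀ z, exp (g z) = f z := by
  have hq : Differentiable ℂ (fun z => deriv f z / f z) := by
    intro z
    have h1 : DifferentiableAt ℂ (deriv f) z :=
      (hf.analyticAt z).deriv.differentiableAt
    exact h1.div (hf z) (h0 z)
  obtain ⟨g, hgc, hg⟩ := hq.isExactOn_univ.with_val_at 0 (Complex.log (f 0))
  have hg' : ∀ z, HasDerivAt g (deriv f z / f z) z := fun z => hg z (mem_univ z)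
  refine ⟨g, fun z => (hg' z).differentiableAt, ?_⟩
  have hE : ∀ z, HasDerivAt (fun z => f z * exp (-g z)) 0 z := by
    intro z
    have h2 : HasDerivAt (fun z => exp (-g z)) (exp (-g z) * (-(deriv f z / f z))) z :=
      (hg' z).neg.cexp
    have h3 : HasDerivAt (fun z => f z * exp (-g z))
        (deriv f z * exp (-g z) + f z * (exp (-g z) * (-(deriv f z / f z)))) z :=
      (hf z).hasDerivAt.mul h2
    have e : deriv f z * exp (-g z) + f z * (exp (-g z) * (-(deriv f z / f z))) = 0 := by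
      field_simp [h0 z]
      ring
    rw [e] at h3
    exact h3
  intro z
  have hconst : f z * exp (-g z) = f 0 * exp (-g 0) :=
    is_const_of_deriv_eq_zero (fun z => (hE z).differentiableAt) (fun z => (hE z).deriv) z 0
  rw [hgc, exp_neg (Complex.log (f 0)), exp_log (h0 0), mul_inv_cancel₀ (h0 0), exp_neg] at hconst
  have hne := exp_ne_zero (g z)
  field_simp at hconst
  exact hconst.symm

/-- zero free entire functions of order `< 1` are constant -/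
theorem const_of_zero_free {f : ℂ → ℂ} (hf : Differentiable ℂ f) (h0 : ∀ z, f z ≠ 0) {C θ : ℝ}
    (hθ : θ < 1) (h : ∀ s, Real.log ‖f s‖ ≤ C * (1 + ‖s‖) ^ θ) (z : ℂ) : f z = f 0 := by
  obtain ⟨g, hg, hgf⟩ := exists_log hf h0
  have hre : ∀ s, (g s).re = Real.log ‖f s‖ := by
    intro s
    rw [← hgf s, norm_exp, Real.log_exp]
  have := const_of_re_le hg hθ (fun s => by rw [hre]; exact h s) z
  rw [← hgf z, ← hgf 0, this]

/-- the blow-up of `Om_c` -/
def Gam (l : ℝ) : Set (ℂ × ℂ) := {q | 0 < q.2.im ∧ q.1.im < l * q.2.im}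

theorem isOpen_Gam (l : ℝ) : IsOpen (Gam l) := by
  refine IsOpen.and ?_ ?_
  · exact isOpen_lt continuous_const (continuous_im.comp continuous_snd)
  · exact isOpen_lt (continuous_im.comp continuous_fst)
      (continuous_const.mul (continuous_im.comp continuous_snd))

/-- the point over `s` -/
noncomputable def pt (a c : ℝ) (s : ℂ) : ℂ × ℂ :=
  (s + (a : ℂ) * (((1 + 2 * ‖s‖ / c : ℝ) : ℂ) * I), ((1 + 2 * ‖s‖ / c : ℝ) : ℂ) * I)

theorem pt_s (a c : ℝ) (s : ℂ) : (pt a c s).1 - (a : ℂ) * (pt a c s).2 = s := by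
  simp [pt]

theorem pt_im (a c : ℝ) (s : ℂ) : (pt a c s).2.im = 1 + 2 * ‖s‖ / c := by
  simp [pt]

theorem pt_im1 (a c : ℝ) (s : ℂ) : (pt a c s).1.im = s.im + a * (1 + 2 * ‖s‖ / c) := by
  have : (pt a c s).1 = s + ((a * (1 + 2 * ‖s‖ / c) : ℝ) : ℂ) * I := by
    simp only [pt]; push_cast; ring
  rw [this]
  simp [-ofReal_mul, -ofReal_add]

/-- the point over `s` lies in the cone of level `a + c / 2` -/
theorem pt_mem {a c : ℝ} (hc : 0 < c) (s : ℂ) : pt a c s ∈ Gam (a + c / 2) := by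
  refine ⟨?_, ?_⟩
  · rw [pt_im]; positivity
  · rw [pt_im, pt_im1]
    have h1 : s.im ≤ ‖s‖ := (le_abs_self _).trans (abs_im_le_norm s)
    have h2 : (a + c / 2) * (1 + 2 * ‖s‖ / c) = a * (1 + 2 * ‖s‖ / c) + c / 2 + ‖s‖ := by
      field_simp
      ring
    rw [h2]
    linarith

theorem pt_norm {a c : ℝ} (hc : 0 < c) (s : ℂ) :
    ‖(pt a c s).1‖ ≤ (1 + |a| + (1 + |a|) * (2 / c)) * (1 + ‖s‖) ∧
      ‖(pt a c s).2‖ ≤ (1 + |a| + (1 + |a|) * (2 / c)) * (1 + ‖s‖) := by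
  have h2 : ‖(pt a c s).2‖ = 1 + 2 * ‖s‖ / c := by
    have : ‖(((1 + 2 * ‖s‖ / c : ℝ) : ℂ) * I)‖ = |1 + 2 * ‖s‖ / c| := by
      rw [norm_mul, norm_I, mul_one, norm_real, Real.norm_eq_abs]
    show ‖(((1 + 2 * ‖s‖ / c : ℝ) : ℂ) * I)‖ = _
    rw [this, abs_of_nonneg (by positivity)]
  have h1 : ‖(pt a c s).1‖ ≤ ‖s‖ + |a| * (1 + 2 * ‖s‖ / c) := by
    have : (pt a c s).1 = s + (a : ℂ) * (pt a c s).2 := by simp [pt]
    rw [this]
    refine (norm_add_le _ _).trans ?_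
    rw [norm_mul, h2, norm_real, Real.norm_eq_abs]
  have hs := norm_nonneg s
  have ha := abs_nonneg a
  have hc' : 0 ≤ 2 / c := by positivity
  have e : 2 * ‖s‖ / c = 2 / c * ‖s‖ := by ring
  rw [e] at h1 h2
  constructor
  · refine h1.trans ?_
    nlinarith [mul_nonneg hc' hs, mul_nonneg ha hs, mul_nonneg ha (mul_nonneg hc' hs),
      mul_nonneg ha hc']
  · rw [h2]
    nlinarith [mul_nonneg hc' hs, mul_nonneg ha hs, mul_nonneg ha (mul_nonneg hc' hs),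
      mul_nonneg ha hc']

/-- `F` is a function of `s = T - a ζ` on the whole cone if it is one on an open subset -/
theorem const_on_leaves {a c : ℝ} (hc : 0 < c) {F : ℂ × ℂ → ℂ}
    (hF : DifferentiableOn ℂ F (Gam (a + c))) {O : Set (ℂ × ℂ)} (hO : IsOpen O)
    (hne : O.Nonempty) (hsub : O ⊆ Gam (a + c))
    (h : ∀ q ∈ O, ∀ q' ∈ O, q.1 - (a : ℂ) * q.2 = q'.1 - (a : ℂ) * q'.2 → F q = F q') :
    ∀ q ∈ Gam (a + c), ∀ q' ∈ Gam (a + c),
      q.1 - (a : ℂ) * q.2 = q'.1 - (a : ℂ) * q'.2 → F q = F q' := by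
  -- the coordinates `(s, ζ)`
  have hlev : ∀ s ζ : ℂ, ((s + (a : ℂ) * ζ, ζ) : ℂ × ℂ) ∈ Gam (a + c) ↔
      0 < ζ.im ∧ s.im < c * ζ.im := by
    intro s ζ
    show (0 < ζ.im ∧ (s + (a : ℂ) * ζ).im < (a + c) * ζ.im) ↔ _
    have : (s + (a : ℂ) * ζ).im = s.im + a * ζ.im := by simp
    rw [this]
    constructor
    · rintro ⟨h1, h2⟩; exact ⟨h1, by linarith⟩
    · rintro ⟨h1, h2⟩; exact ⟨h1, by linarith⟩
  -- slices in `ζ`
  have hζ : ∀ s : ℂ, DifferentiableOn ℂ (fun ζ => F (s + (a : ℂ) * ζ, ζ))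
      {ζ | 0 < ζ.im ∧ s.im < c * ζ.im} := by
    intro s
    refine hF.comp (t := Gam (a + c)) ?_ (fun ζ hζ => (hlev s ζ).2 hζ)
    exact (((differentiable_const s).add (differentiable_id.const_mul (a : ℂ))).prodMk
      differentiable_id).differentiableOn
  have hs : ∀ ζ : ℂ, 0 < ζ.im → DifferentiableOn ℂ (fun s => F (s + (a : ℂ) * ζ, ζ))
      {s | s.im < c * ζ.im} := by
    intro ζ hζ0
    refine hF.comp (t := Gam (a + c)) ?_ (fun s hs => (hlev s ζ).2 ⟨hζ0, hs⟩)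
    exact (((differentiable_id (𝕜 := ℂ) (E := ℂ)).add_const _).prodMk
      (differentiable_const ζ)).differentiableOn
  have hoζ : ∀ s : ℂ, IsOpen {ζ : ℂ | 0 < ζ.im ∧ s.im < c * ζ.im} := fun s =>
    (isOpen_lt continuous_const continuous_im).inter
      (isOpen_lt continuous_const (continuous_const.mul continuous_im))
  have hcζ : ∀ s : ℂ, Convex ℝ {ζ : ℂ | 0 < ζ.im ∧ s.im < c * ζ.im} := by
    intro s
    refine (convex_halfSpace_im_gt 0).inter ?_
    intro x hx y hy p r hp hr hpr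
    show s.im < c * (p • x + r • y).im
    have hx' : s.im < c * x.im := hx
    have hy' : s.im < c * y.im := hy
    have e : (p • x + r • y).im = p * x.im + r * y.im := by simp
    rw [e]
    have e2 : c * (p * x.im + r * y.im) = p * (c * x.im) + r * (c * y.im) := by ring
    rw [e2]
    have e3 : s.im = p * s.im + r * s.im := by rw [← add_mul, hpr, one_mul]
    rcases eq_or_lt_of_le hp with h0 | h0
    · have hr1 : r = 1 := by linarith
      rw [← h0, hr1]; simpa using hy'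
    · have h1 := mul_lt_mul_of_pos_left hx' h0
      have h2 := mul_le_mul_of_nonneg_left hy'.le hr
      linarith
  -- base point
  obtain ⟨q0, hq0⟩ := hne
  obtain ⟨s0, hs0⟩ : ∃ s0 : ℂ, s0 = q0.1 - (a : ℂ) * q0.2 := ⟨_, rfl⟩
  have hq0e : ((s0 + (a : ℂ) * q0.2, q0.2) : ℂ × ℂ) = q0 := by
    rw [hs0]; ext <;> simp
  have hq0G := (hlev s0 q0.2).1 (by rw [hq0e]; exact hsub hq0)
  -- (1) for `s` near `s0` the slice is constant
  have hev : ∀ᶠ p : ℂ × ℂ in 𝓝 (s0, q0.2), ((p.1 + (a : ℂ) * p.2, p.2) : ℂ × ℂ) ∈ O := by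
    have hcont : Continuous fun p : ℂ × ℂ => ((p.1 + (a : ℂ) * p.2, p.2) : ℂ × ℂ) := by fun_prop
    have := hcont.continuousAt (x := (s0, q0.2))
    refine this.eventually ?_
    show ∀ᶠ y in 𝓝 ((s0 + (a : ℂ) * q0.2, q0.2) : ℂ × ℂ), y ∈ O
    rw [hq0e]
    exact hO.mem_nhds hq0
  obtain ⟨U, hU, W, hW, hUW⟩ := Filter.eventually_prod_iff.1 (by rw [nhds_prod_eq] at hev; exact hev)
  have hnear : ∀ᶠ s in 𝓝 s0, ∀ ζ ζ' : ℂ, 0 < ζ.im → s.im < c * ζ.im → 0 < ζ'.im →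
      s.im < c * ζ'.im → F (s + (a : ℂ) * ζ, ζ) = F (s + (a : ℂ) * ζ', ζ') := by
    have hin : ∀ᶠ s : ℂ in 𝓝 s0, s.im < c * q0.2.im :=
      (isOpen_lt continuous_im continuous_const).mem_nhds hq0G.2
    filter_upwards [hU, hin] with s hsU hsin
    have hz0 : q0.2 ∈ {ζ : ℂ | 0 < ζ.im ∧ s.im < c * ζ.im} := ⟨hq0G.1, hsin⟩
    have heq : (fun ζ => F (s + (a : ℂ) * ζ, ζ)) =ᶠ[𝓝 q0.2]
        fun _ => F (s + (a : ℂ) * q0.2, q0.2) := by
      filter_upwards [hW] with ζ hζW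
      refine h _ (hUW hsU hζW) _ (hUW hsU (mem_of_mem_nhds hW)) ?_
      simp
    have hid := ((hζ s).analyticOnNhd (hoζ s)).eqOn_of_preconnected_of_eventuallyEq
      (analyticOnNhd_const) (hcζ s).isPreconnected hz0 heq
    intro ζ ζ' h1 h2 h3 h4
    have e1 := hid (show ζ ∈ {ζ : ℂ | 0 < ζ.im ∧ s.im < c * ζ.im} from ⟨h1, h2⟩)
    have e2 := hid (show ζ' ∈ {ζ : ℂ | 0 < ζ.im ∧ s.im < c * ζ.im} from ⟨h3, h4⟩)
    exact e1.trans e2.symm
  -- (2) for `ζ, ζ'` high all `s`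
  have hhigh : ∀ ζ ζ' : ℂ, 0 < ζ.im → 0 < ζ'.im → s0.im < c * ζ.im → s0.im < c * ζ'.im →
      ∀ s : ℂ, s.im < c * ζ.im → s.im < c * ζ'.im →
        F (s + (a : ℂ) * ζ, ζ) = F (s + (a : ℂ) * ζ', ζ') := by
    intro ζ ζ' h1 h2 h3 h4
    have ho : IsOpen ({s : ℂ | s.im < c * ζ.im} ∩ {s : ℂ | s.im < c * ζ'.im}) :=
      (isOpen_lt continuous_im continuous_const).inter
        (isOpen_lt continuous_im continuous_const)
    have hcv : Convex ℝ ({s : ℂ | s.im < c * ζ.im} ∩ {s : ℂ | s.im < c * ζ'.im}) :=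
      (convex_halfSpace_im_lt _).inter (convex_halfSpace_im_lt _)
    have heq : (fun s => F (s + (a : ℂ) * ζ, ζ)) =ᶠ[𝓝 s0]
        fun s => F (s + (a : ℂ) * ζ', ζ') := by
      have i1 : ∀ᶠ s : ℂ in 𝓝 s0, s.im < c * ζ.im :=
        (isOpen_lt continuous_im continuous_const).mem_nhds h3
      have i2 : ∀ᶠ s : ℂ in 𝓝 s0, s.im < c * ζ'.im :=
        (isOpen_lt continuous_im continuous_const).mem_nhds h4
      filter_upwards [hnear, i1, i2] with s hs1 hs2 hs3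
      exact hs1 ζ ζ' h1 hs2 h2 hs3
    have hid := (((hs ζ h1).mono inter_subset_left).analyticOnNhd ho).eqOn_of_preconnected_of_eventuallyEq
      (((hs ζ' h2).mono inter_subset_right).analyticOnNhd ho) hcv.isPreconnected ⟨h3, h4⟩ heq
    intro s h5 h6
    exact hid ⟨h5, h6⟩
  -- (3) all
  intro q hq q' hq' hqq
  obtain ⟨s, hs'⟩ : ∃ s : ℂ, s = q.1 - (a : ℂ) * q.2 := ⟨_, rfl⟩
  have hqe : ((s + (a : ℂ) * q.2, q.2) : ℂ × ℂ) = q := by
    rw [hs']; ext <;> simp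
  have hqe' : ((s + (a : ℂ) * q'.2, q'.2) : ℂ × ℂ) = q' := by
    rw [hs', hqq]; ext <;> simp
  have g1 := (hlev s q.2).1 (by rw [hqe]; exact hq)
  have g2 := (hlev s q'.2).1 (by rw [hqe']; exact hq')
  -- a high point
  obtain ⟨Y, hY⟩ : ∃ Y : ℝ, Y = 1 + (|s0.im| + |s.im|) / c := ⟨_, rfl⟩
  have hY0 : 0 < Y := by rw [hY]; positivity
  have hcY : c * Y = c + (|s0.im| + |s.im|) := by rw [hY]; field_simp
  have hYs0 : s0.im < c * Y := by
    rw [hcY]; linarith [le_abs_self s0.im, abs_nonneg s.im]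
  have hYs : s.im < c * Y := by
    rw [hcY]; linarith [le_abs_self s.im, abs_nonneg s0.im]
  obtain ⟨ζ1, hζ1⟩ : ∃ ζ1 : ℂ, ζ1 = ((Y : ℝ) : ℂ) * I := ⟨_, rfl⟩
  have hζ1i : ζ1.im = Y := by rw [hζ1]; simp
  have hz1 : ζ1 ∈ {ζ : ℂ | 0 < ζ.im ∧ s.im < c * ζ.im} := by
    refine ⟨?_, ?_⟩
    · rw [hζ1i]; exact hY0
    · rw [hζ1i]; exact hYs
  have heq : (fun ζ => F (s + (a : ℂ) * ζ, ζ)) =ᶠ[𝓝 ζ1]
      fun _ => F (s + (a : ℂ) * ζ1, ζ1) := by
    have i1 : ∀ᶠ ζ : ℂ in 𝓝 ζ1, 0 < ζ.im :=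
      (isOpen_lt continuous_const continuous_im).mem_nhds hz1.1
    have i2 : ∀ᶠ ζ : ℂ in 𝓝 ζ1, s.im < c * ζ.im :=
      (isOpen_lt continuous_const (continuous_const.mul continuous_im)).mem_nhds hz1.2
    have i3 : ∀ᶠ ζ : ℂ in 𝓝 ζ1, s0.im < c * ζ.im :=
      (isOpen_lt continuous_const (continuous_const.mul continuous_im)).mem_nhds
        (show s0.im < c * ζ1.im by rw [hζ1i]; exact hYs0)
    filter_upwards [i1, i2, i3] with ζ j1 j2 j3
    exact hhigh ζ ζ1 j1 hz1.1 j3 (by rw [hζ1i]; exact hYs0) s j2 hz1.2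
  have hid := ((hζ s).analyticOnNhd (hoζ s)).eqOn_of_preconnected_of_eventuallyEq
    (analyticOnNhd_const) (hcζ s).isPreconnected hz1 heq
  have e1 := hid (show q.2 ∈ {ζ : ℂ | 0 < ζ.im ∧ s.im < c * ζ.im} from g1)
  have e2 := hid (show q'.2 ∈ {ζ : ℂ | 0 < ζ.im ∧ s.im < c * ζ.im} from g2)
  have e3 : F (s + (a : ℂ) * q.2, q.2) = F (s + (a : ℂ) * q'.2, q'.2) := e1.trans e2.symm
  rwa [hqe, hqe'] at e3

/-- a function of `s` only is entire -/
theorem exists_entire {a c : ℝ} (hc : 0 < c) {F : ℂ × ℂ → ℂ}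
    (hF : DifferentiableOn ℂ F (Gam (a + c))) {O : Set (ℂ × ℂ)} (hO : IsOpen O)
    (hne : O.Nonempty) (hsub : O ⊆ Gam (a + c))
    (h : ∀ q ∈ O, ∀ q' ∈ O, q.1 - (a : ℂ) * q.2 = q'.1 - (a : ℂ) * q'.2 → F q = F q') :
    ∃ g : ℂ → ℂ, Differentiable ℂ g ∧ (∀ q ∈ Gam (a + c), F q = g (q.1 - (a : ℂ) * q.2)) ∧
      ∀ s, g s = F (pt a c s) := by
  have hall := const_on_leaves hc hF hO hne hsub h
  have hpt : ∀ s, pt a c s ∈ Gam (a + c) := by
    intro s
    have := pt_mem (a := a) hc s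
    refine ⟨this.1, this.2.trans ?_⟩
    have := mul_pos hc this.1
    nlinarith
  refine ⟨fun s => F (pt a c s), ?_, ?_, fun s => rfl⟩
  · intro s
    obtain ⟨ζ, hζ⟩ : ∃ ζ : ℂ, ζ = (pt a c s).2 := ⟨_, rfl⟩
    have hmem : ((s + (a : ℂ) * ζ, ζ) : ℂ × ℂ) ∈ Gam (a + c) := by
      have : ((s + (a : ℂ) * ζ, ζ) : ℂ × ℂ) = pt a c s := by
        rw [hζ]; ext <;> simp [pt]
      rw [this]; exact hpt s
    have hcont : Continuous fun s' : ℂ => ((s' + (a : ℂ) * ζ, ζ) : ℂ × ℂ) := by fun_prop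
    have hev : ∀ᶠ s' in 𝓝 s, ((s' + (a : ℂ) * ζ, ζ) : ℂ × ℂ) ∈ Gam (a + c) :=
      hcont.continuousAt.eventually ((isOpen_Gam _).mem_nhds hmem)
    have heq : (fun s => F (pt a c s)) =ᶠ[𝓝 s] fun s' => F (s' + (a : ℂ) * ζ, ζ) := by
      filter_upwards [hev] with s' hs'
      refine hall _ (hpt s') _ hs' ?_
      rw [pt_s]; simp
    refine DifferentiableAt.congr_of_eventuallyEq ?_ heq
    have hd : DifferentiableAt ℂ F (s + (a : ℂ) * ζ, ζ) :=
      hF.differentiableAt ((isOpen_Gam _).mem_nhds hmem)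
    have hi : DifferentiableAt ℂ (fun s' : ℂ => ((s' + (a : ℂ) * ζ, ζ) : ℂ × ℂ)) s :=
      (((differentiable_id (𝕜 := ℂ) (E := ℂ)).add_const _).prodMk (differentiable_const ζ)) s
    exact DifferentiableAt.comp s hd hi
  · intro q hq
    refine hall q hq _ (hpt _) ?_
    rw [pt_s]

end Crest.Agent.R102.Liou203
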