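import Crest.Agent.R102.End2_613
import Crest.Agent.R102.Liou_203

/-!
Row 102, T1-B, EDGE, slow regime, leaf SL5 (909 #28960 (S4)-(S5)): the limit.

`slow_limit` : midpoints `T i` (normalised), offsets `Q i`; locally bounded `T i`, growth `θ < 1`,
unit jacobian after normalisation, `Q i` zero free below the face, zeros dense on the face,
oscillation of `T i` below the face `≥ 1/2` : contradiction.
-/

set_option autoImplicit false
set_option linter.unusedSectionVars false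
set_option linter.unusedVariables false

open Set Filter Topology Metric Complex

noncomputable section

namespace Crest.Agent.R102.Slow575

open Crest.Agent.R102.Liou203 Crest.Agent.R102.End613

variable {ι : Type}

/-- **Lemma X**, along the filter `l`; coordinates `(s, ζ)`, face `{im s = 0}` -/
def LemX (l : Filter ι) : Prop :=
  ∀ (s0 : ℝ) (z0 : ℂ) (r : ℝ), 0 < r → ∀ (m D k : ι → ℂ × ℂ → ℂ) (mu kap : ℂ × ℂ → ℂ),
    (∀ᶠ i in l, DifferentiableOn ℂ (m i) (ball (s0 : ℂ) r ×ˢ ball z0 r) ∧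
      DifferentiableOn ℂ (D i) (ball (s0 : ℂ) r ×ˢ ball z0 r)) →
    TendstoLocallyUniformlyOn m mu l (ball (s0 : ℂ) r ×ˢ ball z0 r) →
    (∀ᶠ i in l, ∀ q ∈ ball (s0 : ℂ) r ×ˢ ball z0 r,
      fderiv ℂ (m i) q (1, 0) * fderiv ℂ (D i) q (0, 1) -
        fderiv ℂ (m i) q (0, 1) * fderiv ℂ (D i) q (1, 0) = k i q) →
    TendstoLocallyUniformlyOn k kap l (ball (s0 : ℂ) r ×ˢ ball z0 r) →
    (∀ q ∈ ball (s0 : ℂ) r ×ˢ ball z0 r, kap q ≠ 0) →
    (∀ K ⊆ (ball (s0 : ℂ) r ×ˢ ball z0 r) ∩ {q : ℂ × ℂ | q.1.im < 0}, IsCompact K →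
      ∀ᶠ i in l, ∀ q ∈ K, D i q ≠ 0) →
    (∀ q ∈ ball (s0 : ℂ) r ×ˢ ball z0 r, q.1.im = 0 → ∀ e > 0, ∀ᶠ i in l,
      ∃ q' ∈ ball q e, D i q' = 0) →
    ∀ q ∈ ball (s0 : ℂ) r ×ˢ ball z0 r, q.1.im = 0 → fderiv ℂ mu q (0, 1) = 0

/-- the shear `(s, ζ) ↦ (s + a ζ, ζ)` -/
def sh (a : ℝ) : (ℂ × ℂ) →L[ℂ] (ℂ × ℂ) :=
  ((ContinuousLinearMap.fst ℂ ℂ ℂ) + (a : ℂ) • ContinuousLinearMap.snd ℂ ℂ ℂ).prod
    (ContinuousLinearMap.snd ℂ ℂ ℂ)

@[simp] theorem sh_apply (a : ℝ) (q : ℂ × ℂ) : sh a q = (q.1 + (a : ℂ) * q.2, q.2) := by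
  simp [sh]

theorem sh_dist (a : ℝ) (q q' : ℂ × ℂ) : dist (sh a q) (sh a q') ≤ (1 + |a|) * dist q q' := by
  have h1 : dist q.1 q'.1 ≤ dist q q' := by rw [Prod.dist_eq]; exact le_max_left _ _
  have h2 : dist q.2 q'.2 ≤ dist q q' := by rw [Prod.dist_eq]; exact le_max_right _ _
  have ha := abs_nonneg a
  rw [sh_apply, sh_apply, Prod.dist_eq]
  refine max_le ?_ ?_
  · show dist (q.1 + (a : ℂ) * q.2) (q'.1 + (a : ℂ) * q'.2) ≤ _
    rw [dist_eq_norm]
    have e : q.1 + (a : ℂ) * q.2 - (q'.1 + (a : ℂ) * q'.2) = (q.1 - q'.1) + (a : ℂ) * (q.2 - q'.2) := by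
      ring
    rw [e]
    refine (norm_add_le _ _).trans ?_
    rw [norm_mul, norm_real, Real.norm_eq_abs, ← dist_eq_norm, ← dist_eq_norm]
    nlinarith [dist_nonneg (x := q) (y := q')]
  · show dist q.2 q'.2 ≤ _
    nlinarith [dist_nonneg (x := q) (y := q')]

/-- `f ∘ sh`, partial derivatives -/
theorem fderiv_sh {a : ℝ} {f : ℂ × ℂ → ℂ} {q : ℂ × ℂ} (hf : DifferentiableAt ℂ f (sh a q))
    (v : ℂ × ℂ) : fderiv ℂ (fun x => f (sh a x)) q v = fderiv ℂ f (sh a q) (sh a v) := by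
  have h := hf.hasFDerivAt.comp q (sh a).hasFDerivAt
  have h' : fderiv ℂ (fun x => f (sh a x)) q = (fderiv ℂ f (sh a q)).comp (sh a) := h.fderiv
  rw [h']
  rfl

theorem isPreconnected_Gam (l : ℝ) : IsPreconnected (Gam l) := by
  apply Convex.isPreconnected
  intro x hx y hy s t hs ht hst
  have hx1 := hx.1
  have hx2 := hx.2
  have hy1 := hy.1
  have hy2 := hy.2
  have e1 : (s • x + t • y).1.im = s * x.1.im + t * y.1.im := by simp
  have e2 : (s • x + t • y).2.im = s * x.2.im + t * y.2.im := by simp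
  refine ⟨?_, ?_⟩
  · show 0 < (s • x + t • y).2.im
    rw [e2]
    rcases eq_or_lt_of_le hs with h | h
    · have : t = 1 := by linarith
      rw [← h, this]; linarith
    · have := mul_pos h hx1
      have := mul_nonneg ht hy1.le
      linarith
  · show (s • x + t • y).1.im < l * (s • x + t • y).2.im
    rw [e1, e2]
    rcases eq_or_lt_of_le hs with h | h
    · have : t = 1 := by linarith
      rw [← h, this]; linarith
    · have h1 := mul_pos h (sub_pos.2 hx2)
      have h2 := mul_nonneg ht (sub_pos.2 hy2).le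
      nlinarith

/-- **SL5** -/
theorem slow_limit (l : Filter ι) [l.NeBot] (hX : ∀ u : Ultrafilter ι, (u : Filter ι) ≤ l → LemX (u : Filter ι))
    {a c : ℝ} (hc : 0 < c) {T Q k : ι → ℂ × ℂ → ℂ} {J : ι → ℂ} {kap : ℂ × ℂ → ℂ}
    (hloc : ∀ x ∈ Gam (a + c), ∃ r > 0, ∃ M : ℝ, ball x r ⊆ Gam (a + c) ∧ ∀ᶠ i in l,
      DifferentiableOn ℂ (T i) (ball x r) ∧ DifferentiableOn ℂ (Q i) (ball x r) ∧
      (∀ w ∈ ball x r, ‖T i w‖ ≤ M) ∧
      ∀ w ∈ ball x r, fderiv ℂ (Q i) w (1, 0) * fderiv ℂ (T i) w (0, 1) -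
        fderiv ℂ (Q i) w (0, 1) * fderiv ℂ (T i) w (1, 0) = J i * k i w)
    {th : ℝ} (hth0 : 0 ≤ th) (hth : th < 1) {C : ℝ}
    (hgrow : ∀ q : ℂ × ℂ, 1 ≤ q.2.im → q.1.im ≤ (a + c / 2) * q.2.im →
      ‖q.1‖ ≤ (|a| + c) * q.2.im → ‖q.2‖ ≤ q.2.im → ∀ᶠ i in l, ‖T i q‖ ≤ C * q.2.im ^ th)
    {K0 : Set (ℂ × ℂ)} (hK0 : IsCompact K0) (hK0s : K0 ⊆ Gam a)
    (hosc : ∀ᶠ i in l, ∃ q ∈ K0, ∃ q' ∈ K0, 1 / 2 ≤ ‖T i q - T i q'‖)
    (hJ : ∀ᶠ i in l, J i ≠ 0) (hk : TendstoLocallyUniformlyOn k kap l (Gam (a + c)))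
    (hkap : ∀ q ∈ Gam (a + c), kap q ≠ 0)
    (hfree : ∀ K ⊆ Gam a, IsCompact K → ∀ᶠ i in l, ∀ q ∈ K, Q i q ≠ 0)
    (hdense : ∀ q : ℂ × ℂ, 0 < q.2.im → q.1.im = a * q.2.im → ∀ e > 0, ∀ᶠ i in l,
      ∃ q' ∈ ball q e, Q i q' = 0) : False := by
  classical
  set u : Ultrafilter ι := Ultrafilter.of l with hu
  have hul : (u : Filter ι) ≤ l := Ultrafilter.of_le l
  have hne : (u : Filter ι).NeBot := u.neBot
  have hGo := isOpen_Gam (a + c)
  have hGc := isPreconnected_Gam (a + c)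
  have hsubG : Gam a ⊆ Gam (a + c) := fun q hq => ⟨hq.1, by
    have := mul_pos hc hq.1
    have := hq.2
    nlinarith⟩
  obtain ⟨F, hF, hFl⟩ := montel_ev u hGo (f := T) (fun x hx => by
    obtain ⟨r, hr, M, hs, h⟩ := hloc x hx
    exact ⟨r, hr, M, hs, (h.filter_mono hul).mono fun i hi => ⟨hi.1, hi.2.2.1⟩⟩)
  have hku : TendstoLocallyUniformlyOn k kap u (Gam (a + c)) := by
    rw [Metric.tendstoLocallyUniformlyOn_iff] at hk ⊢
    intro ε hε x hx
    obtain ⟨t, ht, h⟩ := hk ε hε x hx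
    exact ⟨t, ht, hul h⟩
  -- the derivative along the leaves vanishes on the face
  have hface : ∀ q ∈ Gam (a + c), q.1.im = a * q.2.im → fderiv ℂ F q ((a : ℂ), 1) = 0 := by
    intro q hq hqf
    obtain ⟨r, hr, M, hs, h⟩ := hloc q hq
    set s0 : ℂ := q.1 - a * q.2 with hs0
    have hs0r : s0 = (s0.re : ℂ) := by
      apply Complex.ext
      · simp
      · rw [Complex.ofReal_im, hs0, Complex.sub_im, hqf]; simp
    set r' : ℝ := r / (1 + |a|) with hr'
    have hr'0 : 0 < r' := by positivity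
    have hshq : sh a (s0, q.2) = q := by
      rw [sh_apply]
      ext <;> simp [hs0]
    have hmem : ∀ x ∈ ball ((s0.re : ℝ) : ℂ) r' ×ˢ ball q.2 r', sh a x ∈ ball q r := by
      intro x hx
      have h1 : dist x (s0, q.2) < r' := by
        rw [Prod.dist_eq]
        refine max_lt ?_ hx.2
        have := hx.1
        rwa [← hs0r] at this
      have h2 := sh_dist a x (s0, q.2)
      rw [hshq] at h2
      rw [mem_ball]
      refine lt_of_le_of_lt h2 ?_
      have h3 : (1 + |a|) * dist x (s0, q.2) < (1 + |a|) * r' :=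
        mul_lt_mul_of_pos_left h1 (by positivity)
      rw [hr'] at h3
      rwa [mul_div_cancel₀ _ (by positivity : (1 + |a|) ≠ 0)] at h3
    set P : Set (ℂ × ℂ) := ball ((s0.re : ℝ) : ℂ) r' ×ˢ ball q.2 r' with hP
    have hmt : MapsTo (sh a) P (ball q r) := hmem
    have hx0 : ((s0, q.2) : ℂ × ℂ) ∈ P := by
      refine ⟨?_, mem_ball_self hr'0⟩
      show s0 ∈ ball ((s0.re : ℝ) : ℂ) r'
      rw [← hs0r]; exact mem_ball_self hr'0
    have hcs : ContinuousOn (sh a) P := (sh a).continuous.continuousOn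
    have hu1 := hul h
    have key := hX u hul s0.re q.2 r' hr'0 (fun i x => T i (sh a x))
      (fun i x => Q i (sh a x) / J i) (fun i x => -(k i (sh a x))) (fun x => F (sh a x))
      (fun x => -(kap (sh a x))) ?_ ?_ ?_ ?_ ?_ ?_ ?_ (s0, q.2) hx0 ?_
    · have hd : DifferentiableAt ℂ F (sh a (s0, q.2)) := by
        rw [hshq]; exact hF.differentiableAt (hGo.mem_nhds hq)
      rw [fderiv_sh hd, hshq] at key
      have e : sh a ((0, 1) : ℂ × ℂ) = ((a : ℂ), 1) := by rw [sh_apply]; simp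
      rwa [e] at key
    · filter_upwards [hu1] with i hi
      refine ⟨hi.1.comp (sh a).differentiable.differentiableOn hmt, ?_⟩
      have h2 : DifferentiableOn ℂ (fun x => Q i (sh a x)) P :=
        hi.2.1.comp (sh a).differentiable.differentiableOn hmt
      simpa only [div_eq_mul_inv] using h2.mul_const (J i)⁻¹
    · exact (hFl.mono hs).comp (sh a) hmt hcs
    · filter_upwards [hu1, hul hJ] with i hi hJi x hx
      have hT : DifferentiableAt ℂ (T i) (sh a x) :=
        hi.1.differentiableAt (isOpen_ball.mem_nhds (hmem x hx))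
      have hQ : DifferentiableAt ℂ (Q i) (sh a x) :=
        hi.2.1.differentiableAt (isOpen_ball.mem_nhds (hmem x hx))
      have hQ' : ∀ v, fderiv ℂ (fun y => Q i (sh a y) / J i) x v =
          fderiv ℂ (Q i) (sh a x) (sh a v) / J i := by
        intro v
        have h1 : DifferentiableAt ℂ (fun y => Q i (sh a y)) x :=
          hQ.comp x (sh a).differentiableAt
        have h2 : (fun y => Q i (sh a y) / J i) = fun y => (J i)⁻¹ • Q i (sh a y) := by
          funext y; rw [smul_eq_mul, div_eq_inv_mul]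
        rw [h2, fderiv_fun_const_smul h1]
        simp only [FunLike.coe_smul, Pi.smul_apply, smul_eq_mul]
        rw [fderiv_sh hQ, div_eq_inv_mul]
      have e10 : sh a ((1, 0) : ℂ × ℂ) = (1, 0) := by rw [sh_apply]; simp
      have e01 : sh a ((0, 1) : ℂ × ℂ) = (a : ℂ) • ((1, 0) : ℂ × ℂ) + (0, 1) := by
        rw [sh_apply]; simp
      rw [hQ', hQ', fderiv_sh hT, fderiv_sh hT, e10, e01]
      simp only [map_add, map_smul, smul_eq_mul]
      have h3 := hi.2.2.2 (sh a x) (hmem x hx)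
      field_simp
      linear_combination -h3
    · have h1 := (hku.mono hs).comp (sh a) hmt hcs
      exact h1.neg
    · intro x hx
      exact neg_ne_zero.2 (hkap _ (hs (hmem x hx)))
    · intro K hK hKc
      have h1 : sh a '' K ⊆ Gam a := by
        rintro _ ⟨x, hx, rfl⟩
        have hx1 := hK hx
        have h2 : (sh a x) ∈ Gam (a + c) := hs (hmem x hx1.1)
        refine ⟨h2.1, ?_⟩
        have h3 : x.1.im < 0 := hx1.2
        show (sh a x).1.im < a * (sh a x).2.im
        rw [sh_apply]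
        simp
        exact h3
      filter_upwards [hul (hfree _ h1 (hKc.image (sh a).continuous)), hul hJ] with i hi hJi x hx
      exact div_ne_zero (hi _ (mem_image_of_mem _ hx)) hJi
    · intro x hx hx0' e he
      have h2 : (sh a x) ∈ Gam (a + c) := hs (hmem x hx)
      have h3 : (sh a x).1.im = a * (sh a x).2.im := by
        rw [sh_apply]; simp [hx0']
      -- the inverse shear
      have h4 := hdense (sh a x) h2.1 h3 (e / (1 + |a|)) (by positivity)
      filter_upwards [hul h4, hul hJ] with i hi hJi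
      obtain ⟨y, hy, hy0⟩ := hi
      refine ⟨(y.1 - (a : ℂ) * y.2, y.2), ?_, ?_⟩
      · have h5 : sh (-a) y = (y.1 - (a : ℂ) * y.2, y.2) := by
          rw [sh_apply]; push_cast; ring_nf
        have h6 : sh (-a) (sh a x) = x := by
          rw [sh_apply, sh_apply]; ext <;> simp
        have h7 := sh_dist (-a) y (sh a x)
        rw [h5, h6, abs_neg] at h7
        rw [mem_ball]
        refine lt_of_le_of_lt h7 ?_
        rw [mem_ball] at hy
        have h8 : (1 + |a|) * dist y (sh a x) < (1 + |a|) * (e / (1 + |a|)) :=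
          mul_lt_mul_of_pos_left hy (by positivity)
        rwa [mul_div_cancel₀ _ (by positivity : (1 + |a|) ≠ 0)] at h8
      · have h5 : sh a (y.1 - (a : ℂ) * y.2, y.2) = y := by
          rw [sh_apply]; ext <;> simp
        show Q i (sh a (y.1 - (a : ℂ) * y.2, y.2)) / J i = 0
        rw [h5, hy0, zero_div]
    · show s0.im = 0
      rw [hs0r, Complex.ofReal_im]
  -- the derivative along the leaves vanishes everywhere
  have hFan : AnalyticOnNhd ℂ F (Gam (a + c)) :=
    Crest.Agent.R266.SCV.analyticOnNhd_of_differentiableOn hGo hF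
  have hdiff : DifferentiableOn ℂ (fun q => fderiv ℂ F q ((a : ℂ), 1)) (Gam (a + c)) := by
    intro q hq
    have h1 : AnalyticAt ℂ (fderiv ℂ F) q := (hFan q hq).fderiv
    exact (h1.differentiableAt.clm_apply (differentiableAt_const _)).differentiableWithinAt
  obtain ⟨q₀, hq₀, hq₀f⟩ : ∃ q₀ ∈ Gam (a + c), q₀.1.im = a * q₀.2.im := by
    refine ⟨((a : ℂ) * I, I), ⟨by simp, ?_⟩, by simp⟩
    show ((a : ℂ) * I).im < (a + c) * (I : ℂ).im
    simp [hc]
  have hall := face_unique hGo hGc (μ := (a : ℂ)) hdiff hq₀ (by rw [hq₀f]; simp) (by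
    filter_upwards [hGo.mem_nhds hq₀] with q hq hqf
    exact hface q hq (by rw [hqf]; simp))
  -- constant on leaves in a ball
  obtain ⟨r, hr, hball⟩ := Metric.isOpen_iff.1 hGo q₀ hq₀
  have hleaf : ∀ q ∈ ball q₀ r, ∀ q' ∈ ball q₀ r,
      q.1 - (a : ℂ) * q.2 = q'.1 - (a : ℂ) * q'.2 → F q = F q' := by
    intro q hq q' hq' hs
    have hseg : ∀ t : ℝ, t ∈ Icc (0 : ℝ) 1 → q + (t : ℂ) • (q' - q) ∈ ball q₀ r := by
      intro t ht
      have := (convex_ball q₀ r) hq hq' (sub_nonneg.2 ht.2) ht.1 (by ring)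
      have e : (1 - t) • q + t • q' = q + (t : ℂ) • (q' - q) := by
        ext <;> simp <;> ring
      rwa [e] at this
    have hv : q' - q = (q'.2 - q.2) • (((a : ℂ), 1) : ℂ × ℂ) := by
      ext
      · simp
        linear_combination -hs
      · simp
    have hder : ∀ t ∈ Icc (0 : ℝ) 1, HasDerivWithinAt (fun t : ℝ => F (q + (t : ℂ) • (q' - q))) 0
        (Icc 0 1) t := by
      intro t ht
      have h1 : HasFDerivAt F (fderiv ℂ F (q + (t : ℂ) • (q' - q))) (q + (t : ℂ) • (q' - q)) :=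
        (hF.differentiableAt (hGo.mem_nhds (hball (hseg t ht)))).hasFDerivAt
      have h2 : HasDerivAt (fun t : ℝ => q + (t : ℂ) • (q' - q)) (q' - q) t := by
        have h3 : HasDerivAt (fun t : ℝ => (t : ℂ)) 1 t := Complex.ofRealCLM.hasDerivAt
        have h4 := (h3.smul_const (q' - q)).const_add q
        simpa using h4
      have h5' : HasDerivAt (F ∘ fun t : ℝ => q + (t : ℂ) • (q' - q))
          (((fderiv ℂ F (q + (t : ℂ) • (q' - q))).restrictScalars ℝ) (q' - q)) t :=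
        HasFDerivAt.comp_hasDerivAt (l := F) (f := fun t : ℝ => q + (t : ℂ) • (q' - q)) t
          (h1.restrictScalars ℝ) h2
      have h5 : HasDerivAt (fun t : ℝ => F (q + (t : ℂ) • (q' - q)))
          ((fderiv ℂ F (q + (t : ℂ) • (q' - q))) (q' - q)) t := h5'
      have h6 : (fderiv ℂ F (q + (t : ℂ) • (q' - q))) (q' - q) = 0 := by
        rw [hv, map_smul]
        have := hall _ (hball (hseg t ht))
        rw [hv] at this
        rw [this, smul_zero]
      rw [h6] at h5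
      exact h5.hasDerivWithinAt
    have h0 : (0 : ℝ) ∈ Icc (0 : ℝ) 1 := by simp
    have h1 : (1 : ℝ) ∈ Icc (0 : ℝ) 1 := by simp
    have hconst := (convex_Icc (0 : ℝ) 1).is_const_of_fderivWithin_eq_zero (𝕜 := ℝ)
      (f := fun t : ℝ => F (q + (t : ℂ) • (q' - q)))
      (fun t ht => (hder t ht).differentiableWithinAt) (fun t ht => by
        have hud : UniqueDiffWithinAt ℝ (Icc (0 : ℝ) 1) t :=
          (uniqueDiffOn_Icc zero_lt_one) t ht
        have := (hder t ht).hasFDerivWithinAt.fderivWithin hud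
        rw [this]
        ext
        simp) h0 h1
    simpa using hconst
  obtain ⟨G, hG, hGF, hGpt⟩ := exists_entire hc hF isOpen_ball ⟨q₀, mem_ball_self hr⟩ hball hleaf
  -- growth
  have hGgrow : ∀ s, ‖G s‖ ≤ |C| * (1 + 2 / c) ^ th * (1 + ‖s‖) ^ th := by
    intro s
    have h1 : (pt a c s).2.im = 1 + 2 * ‖s‖ / c := pt_im a c s
    have h2 : 1 ≤ (pt a c s).2.im := by
      rw [h1]
      have : 0 ≤ 2 * ‖s‖ / c := by positivity
      linarith
    have h3 : ‖(pt a c s).2‖ = 1 + 2 * ‖s‖ / c := by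
      have : ‖(((1 + 2 * ‖s‖ / c : ℝ) : ℂ) * I)‖ = |1 + 2 * ‖s‖ / c| := by
        rw [norm_mul, norm_I, mul_one, norm_real, Real.norm_eq_abs]
      show ‖(((1 + 2 * ‖s‖ / c : ℝ) : ℂ) * I)‖ = _
      rw [this, abs_of_nonneg (by positivity)]
    have h4 : ‖(pt a c s).1‖ ≤ (|a| + c) * (pt a c s).2.im := by
      have e : (pt a c s).1 = s + (a : ℂ) * (pt a c s).2 := by simp [pt]
      rw [e]
      refine (norm_add_le _ _).trans ?_
      rw [norm_mul, h3, norm_real, Real.norm_eq_abs, h1]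
      have h5 : ‖s‖ ≤ c * (1 + 2 * ‖s‖ / c) := by
        have : c * (1 + 2 * ‖s‖ / c) = c + 2 * ‖s‖ := by field_simp
        rw [this]
        linarith [norm_nonneg s]
      nlinarith [abs_nonneg a]
    have h5 := hgrow (pt a c s) h2 (pt_mem hc s).2.le h4 (by rw [h3, h1])
    have h6 : Tendsto (fun i => ‖T i (pt a c s)‖) u (𝓝 ‖F (pt a c s)‖) :=
      (hFl.tendsto_at (by
        have := pt_mem (a := a) hc s
        refine ⟨this.1, this.2.trans ?_⟩
        have := mul_pos hc this.1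
        nlinarith)).norm
    have h7 : ‖F (pt a c s)‖ ≤ C * (pt a c s).2.im ^ th := le_of_tendsto h6 (hul h5)
    rw [hGpt]
    refine h7.trans ?_
    have h8 : (pt a c s).2.im ≤ (1 + 2 / c) * (1 + ‖s‖) := by
      rw [h1]
      have h9 : 2 * ‖s‖ / c = 2 / c * ‖s‖ := by ring
      rw [h9]
      have : 0 < 2 / c := by positivity
      nlinarith [norm_nonneg s]
    have h9 : (pt a c s).2.im ^ th ≤ ((1 + 2 / c) * (1 + ‖s‖)) ^ th :=
      Real.rpow_le_rpow (by linarith) h8 hth0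
    rw [Real.mul_rpow (by positivity) (by positivity)] at h9
    calc C * (pt a c s).2.im ^ th ≤ |C| * (pt a c s).2.im ^ th :=
          mul_le_mul_of_nonneg_right (le_abs_self C) (Real.rpow_nonneg (by linarith) _)
      _ ≤ |C| * ((1 + 2 / c) ^ th * (1 + ‖s‖) ^ th) :=
          mul_le_mul_of_nonneg_left h9 (abs_nonneg C)
      _ = _ := by ring
  have hconst := const_of_norm_le hG hth hGgrow
  -- the oscillation
  have hunif : TendstoUniformlyOn T F u K0 :=
    (tendstoLocallyUniformlyOn_iff_tendstoUniformlyOn_of_compact hK0).1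
      (hFl.mono (hK0s.trans hsubG))
  have h1 := Metric.tendstoUniformlyOn_iff.1 hunif (1 / 8) (by norm_num)
  obtain ⟨i, hi, q, hq, q', hq', ho⟩ := (h1.and (hul hosc)).exists
  have e1 := hi q hq
  have e2 := hi q' hq'
  have e3 : F q = F q' := by
    rw [hGF q (hsubG (hK0s hq)), hGF q' (hsubG (hK0s hq')), hconst, ← hconst (q'.1 - a * q'.2)]
  rw [dist_eq_norm] at e1 e2
  have e4 : T i q - T i q' = -(F q - T i q) + (F q' - T i q') := by rw [e3]; ring
  rw [e4] at ho
  have e5 := norm_add_le (-(F q - T i q)) (F q' - T i q')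
  rw [norm_neg] at e5
  linarith

end Crest.Agent.R102.Slow575
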