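import Crest.Agent.R102.EdgeDefs_255
import Crest.Agent.R102.SlowLim_575
import Crest.Agent.R102.LemX_262
import Crest.Agent.R102.Tang_654

/-!
Row 102, T1-B, EDGE / SLOW (helper654): the tangent chart on the worlds of `EdgeDefs_255`.

* `offs`  : in a world whose labels tend to `b₀` (`ψ' b₀ ≠ 0`) and whose lines tend to the tangent at
  `b₀`, the offsets `Q n = ± p n - hs (φ n - j π)` are zero free below the face, and their zeros are
  dense at the face; `dφ ∧ dQ = ± dφ ∧ dp`;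
* `limK`  : the end of the slow regime (with `Slow575.slow_limit` and `LemX262`).
-/

set_option autoImplicit false

open Set Filter Topology Metric Complex

noncomputable section

namespace Crest.Agent.R102.LimK654

open Crest.Agent.R102.Edge255
open Crest.Agent.R102.T5 (Str isOpen_Str)
open Crest.Agent.R102.B821 (q1 q2)
open Crest.Agent.R102.F300 (ZZ ZZc Sreg)
open Crest.Agent.R102.Tang654

/-! ### geometry of the wedges -/

theorem isOpen_Wg (m : ℝ) : IsOpen (Wg m) := by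
  have h1 : IsOpen {q : ℂ × ℂ | 0 < q.2.im} := isOpen_lt (by fun_prop) (by fun_prop)
  have h2 : IsOpen {q : ℂ × ℂ | q.1.im < m * q.2.im} := isOpen_lt (by fun_prop) (by fun_prop)
  exact h1.inter h2

theorem convex_Wg (m : ℝ) : Convex ℝ (Wg m) := by
  intro x hx y hy s t hs ht hst
  have e1 : (s • x + t • y).1.im = s * x.1.im + t * y.1.im := by simp
  have e2 : (s • x + t • y).2.im = s * x.2.im + t * y.2.im := by simp
  obtain ⟨hx1, hx2⟩ := hx
  obtain ⟨hy1, hy2⟩ := hy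
  refine ⟨?_, ?_⟩
  · rw [e2]
    rcases eq_or_lt_of_le hs with h | h
    · have : t = 1 := by linarith
      rw [← h, this]
      linarith
    · have := mul_pos h hx1
      have := mul_nonneg ht hy1.le
      linarith
  · rw [e1, e2]
    rcases eq_or_lt_of_le hs with h | h
    · have : t = 1 := by linarith
      rw [← h, this]
      linarith
    · nlinarith [mul_lt_mul_of_pos_left hx2 h, mul_le_mul_of_nonneg_left hy2.le ht]

theorem Wg_mono {a g : ℝ} (hg : 0 < g) : Wg a ⊆ Wg (a + g) := by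
  rintro q ⟨h1, h2⟩
  refine ⟨h1, ?_⟩
  nlinarith [mul_pos hg h1]

theorem face_mem {a g : ℝ} (hg : 0 < g) {q : ℂ × ℂ} (h1 : 0 < q.2.im) (h2 : q.1.im = a * q.2.im) :
    q ∈ Wg (a + g) := by
  refine ⟨h1, ?_⟩
  rw [h2]
  nlinarith [mul_pos hg h1]

theorem z0_mem {a : ℝ} (ha : 0 ≤ a) : z0 ∈ Wg a := by
  refine ⟨?_, ?_⟩
  · simp [z0]
  · simp [z0]
    have : (0 : ℝ) ≤ a * 4⁻¹ := by positivity
    linarith

/-- a compact convex set between a compact set and an open convex set -/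
theorem hull {K U : Set (ℂ × ℂ)} (hK : IsCompact K) (hU : IsOpen U) (hUc : Convex ℝ U)
    (hKU : K ⊆ U) : ∃ K' : Set (ℂ × ℂ), K ⊆ K' ∧ K' ⊆ U ∧ IsCompact K' ∧ Convex ℝ K' := by
  obtain ⟨F, hF, hFU, hKF⟩ : ∃ F : Set (ℂ × ℂ), F.Finite ∧ F ⊆ U ∧ K ⊆ convexHull ℝ F := by
    refine hK.induction_on (p := fun s => ∃ F : Set (ℂ × ℂ), F.Finite ∧ F ⊆ U ∧
      s ⊆ convexHull ℝ F) ⟨∅, finite_empty, empty_subset _, empty_subset _⟩ ?_ ?_ ?_
    · rintro s t hst ⟨F, h1, h2, h3⟩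
      exact ⟨F, h1, h2, hst.trans h3⟩
    · rintro s t ⟨F, h1, h2, h3⟩ ⟨F', h1', h2', h3'⟩
      exact ⟨F ∪ F', h1.union h1', union_subset h2 h2',
        union_subset (h3.trans (convexHull_mono subset_union_left))
          (h3'.trans (convexHull_mono subset_union_right))⟩
    · intro x hx
      obtain ⟨b, hb1, hb2⟩ := exists_mem_interior_convexHull_affineBasis
        (hU.mem_nhds (hKU hx))
      exact ⟨interior (convexHull ℝ (range b)),
        mem_nhdsWithin_of_mem_nhds (isOpen_interior.mem_nhds hb1), range b, finite_range b,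
        (subset_convexHull ℝ (range b)).trans hb2, interior_subset⟩
  exact ⟨convexHull ℝ F, hKF, convexHull_min hFU hUc, hF.isCompact_convexHull ℝ,
    convex_convexHull ℝ F⟩

/-! ### the chart at a regular label -/

theorem chart_of {h : ℝ} {ψ H : ℂ → ℂ} (hC : Curve h ψ H) {b₀ : ℂ} (hb₀ : |b₀.im| < h)
    (hy : deriv ψ b₀ ≠ 0) {r0 : ℝ} (hr0 : 0 < r0) :
    ∃ r > 0, r ≤ r0 ∧ closedBall b₀ r ⊆ Sreg (Str h) ψ ∧ ∃ δ > 0, δ ≤ r0 ∧ ∃ (τ : ℂ → ℂ) (k₀ : ℂ),
      Chart (ZZ ψ H) (ZZc ψ H) ψ (fun z => 1 / deriv ψ z ^ 2) b₀ r δ τ k₀ := by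
  have hS : IsOpen (Sreg (Str h) ψ) := F300.isOpen_Sreg (isOpen_Str h) hC.ψ_diff
  have hbS : b₀ ∈ Sreg (Str h) ψ := ⟨hb₀, hy⟩
  refine exists_chart hS hbS ?_ ?_ (hC.ψ_diff.mono fun z hz => hz.1) ?_ ?_ hy hr0
  · intro z hz
    have h1 := (F300.hasDerivAt_ZZ (isOpen_Str h) hC.ψ_diff hC.H_diff hC.rel hz.1 hz.2).1
    rwa [neg_neg] at h1
  · intro z hz
    have h1 := (F300.hasDerivAt_ZZ (isOpen_Str h) hC.ψ_diff hC.H_diff hC.rel hz.1 hz.2).2
    rwa [neg_neg] at h1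
  · have h1 : ContinuousAt (deriv ψ) b₀ :=
      (hC.ψ_diff.analyticAt ((isOpen_Str h).mem_nhds hb₀)).deriv.continuousAt
    exact continuousAt_const.div (h1.pow 2) (pow_ne_zero 2 hy)
  · exact one_div_ne_zero (pow_ne_zero 2 hy)

/-! ### half turns of a line -/

theorem cos_sq (j : ℤ) : Complex.cos (j * Real.pi) * Complex.cos (j * Real.pi) = 1 := by
  have h1 := Complex.sin_sq_add_cos_sq ((j : ℂ) * Real.pi)
  rw [Complex.sin_int_mul_pi] at h1
  linear_combination h1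

theorem cos_ne (j : ℤ) : Complex.cos (j * Real.pi) ≠ 0 := by
  intro h
  have := cos_sq j
  rw [h] at this
  simp at this

theorem inc_shift {ψ H : ℂ → ℂ} {φ p b : ℂ} (j : ℤ) (h : F300.Inc ψ H φ p b) :
    F300.Inc ψ H (φ - j * Real.pi) (Complex.cos (j * Real.pi) * p) b := by
  unfold F300.Inc at h ⊢
  have e : φ - j * Real.pi - ψ b = (φ - ψ b) - j * Real.pi := by ring
  rw [e, Complex.cos_sub (φ - ψ b) (j * Real.pi), Complex.sin_sub (φ - ψ b) (j * Real.pi),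
    Complex.sin_int_mul_pi]
  linear_combination (Complex.cos (j * Real.pi)) * h

theorem sin_shift {ψ : ℂ → ℂ} {φ b : ℂ} (j : ℤ) :
    Complex.sin (φ - j * Real.pi - ψ b) = Complex.sin (φ - ψ b) * Complex.cos (j * Real.pi) := by
  have e : φ - j * Real.pi - ψ b = (φ - ψ b) - j * Real.pi := by ring
  rw [e, Complex.sin_sub, Complex.sin_int_mul_pi]
  ring

theorem inc613 {ψ H : ℂ → ℂ} {φ p b : ℂ} (hb : deriv ψ b ≠ 0) (h : F300.Inc ψ H φ p b) :
    End613.Inc φ p (ZZ ψ H b) (ZZc ψ H b) = 0 := by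
  have h1 := (F300.onLine_iff ψ H hb).2 h
  unfold C0.OnLine at h1
  unfold End613.Inc
  linear_combination h1

theorem hsf_val {ψ H c τ : ℂ → ℂ} {b₀ k₀ : ℂ} {r δ : ℝ}
    (hch : Chart (ZZ ψ H) (ZZc ψ H) ψ c b₀ r δ τ k₀) (hy : deriv ψ b₀ ≠ 0) :
    hsf (ZZ ψ H) (ZZc ψ H) τ (ψ b₀) = H b₀ := by
  rw [hch.hsf_b₀]
  refine inc_iff.1 (inc613 hy ?_)
  unfold F300.Inc
  rw [sub_self]
  simp

/-! ### offsets in a world -/

variable {h a g : ℝ} {ψ H : ℂ → ℂ} {A0 : ℂ} {φ p B : ℕ → ℂ × ℂ → ℂ}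

theorem offs (W : World h a g ψ H A0 φ p B) {l : Filter ℕ} (hl : l ≤ atTop) {b₀ : ℂ}
    (hb₀ : |b₀.im| < h) (hy : deriv ψ b₀ ≠ 0) (j : ℤ)
    (hB : ∀ K ⊆ Wg a, IsCompact K → ∀ ε > 0, ∀ᶠ n in l, ∀ q ∈ K, ‖B n q - b₀‖ < ε)
    (hφ : ∀ K ⊆ Wg (a + g), IsCompact K → ∀ ε > 0, ∀ᶠ n in l, ∀ q ∈ K,
      ‖φ n q - j * Real.pi - ψ b₀‖ < ε)
    (hp : ∀ K ⊆ Wg (a + g), IsCompact K → ∀ ε > 0, ∀ᶠ n in l, ∀ q ∈ K,
      ‖Complex.cos (j * Real.pi) * p n q - H b₀‖ < ε) :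
    ∃ hs : ℂ → ℂ,
      (∀ K ⊆ Wg (a + g), IsCompact K → ∀ᶠ n in l, ∃ U : Set (ℂ × ℂ), IsOpen U ∧ K ⊆ U ∧
        DifferentiableOn ℂ (φ n) U ∧
        DifferentiableOn ℂ
          (fun q => Complex.cos (j * Real.pi) * p n q - hs (φ n q - j * Real.pi)) U ∧
        ∀ q ∈ U, q1 (φ n) q *
            q2 (fun q => Complex.cos (j * Real.pi) * p n q - hs (φ n q - j * Real.pi)) q -
          q2 (φ n) q *
            q1 (fun q => Complex.cos (j * Real.pi) * p n q - hs (φ n q - j * Real.pi)) q =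
          Complex.cos (j * Real.pi) * (q1 (φ n) q * q2 (p n) q - q2 (φ n) q * q1 (p n) q)) ∧
      (∀ K ⊆ Wg a, IsCompact K → ∀ᶠ n in l, ∀ q ∈ K,
        Complex.cos (j * Real.pi) * p n q - hs (φ n q - j * Real.pi) ≠ 0) ∧
      ∀ q : ℂ × ℂ, 0 < q.2.im → q.1.im = a * q.2.im → ∀ e > 0, ∀ᶠ n in l, ∃ q' ∈ ball q e,
        Complex.cos (j * Real.pi) * p n q' - hs (φ n q' - j * Real.pi) = 0 := by
  obtain ⟨r, hr, -, hrS, δ, hδ, -, τ, k₀, hch⟩ := chart_of W.curve hb₀ hy one_pos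
  have hHb := hsf_val hch hy
  have hgp := W.g_pos
  refine ⟨hsf (ZZ ψ H) (ZZc ψ H) τ, ?_, ?_, ?_⟩
  · intro K hK hKc
    filter_upwards [hl (W.regL K hK hKc), hφ K hK hKc δ hδ] with n hn hφn
    obtain ⟨U, hU, hKU, h1, h2⟩ := hn
    have hopen : IsOpen (U ∩ (fun q => φ n q - j * Real.pi) ⁻¹' ball (ψ b₀) δ) :=
      (h1.continuousOn.sub continuousOn_const).isOpen_inter_preimage hU isOpen_ball
    refine ⟨_, hopen, fun q hq => ⟨hKU hq, mem_ball_iff_norm.2 (hφn q hq)⟩,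
      h1.mono inter_subset_left, ?_, ?_⟩
    · intro q hq
      have d1 : DifferentiableAt ℂ (φ n) q := h1.differentiableAt (hU.mem_nhds hq.1)
      have d2 : DifferentiableAt ℂ (p n) q := h2.differentiableAt (hU.mem_nhds hq.1)
      have d3 : DifferentiableAt ℂ (hsf (ZZ ψ H) (ZZc ψ H) τ) (φ n q - j * Real.pi) :=
        hch.hsf_diff.differentiableAt (isOpen_ball.mem_nhds hq.2)
      exact ((d2.const_mul _).sub
        (DifferentiableAt.comp q d3 (d1.sub_const _))).differentiableWithinAt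
    · intro q hq
      have d1 : DifferentiableAt ℂ (φ n) q := h1.differentiableAt (hU.mem_nhds hq.1)
      have d2 : DifferentiableAt ℂ (p n) q := h2.differentiableAt (hU.mem_nhds hq.1)
      obtain ⟨Q', hQ', harea⟩ := hch.area (d1.sub_const (j * Real.pi : ℂ)).hasFDerivAt
        (d2.const_mul (Complex.cos (j * Real.pi))).hasFDerivAt hq.2
      have e1 : fderiv ℂ (fun q => φ n q - (j * Real.pi : ℂ)) q = fderiv ℂ (φ n) q := by
        rw [fderiv_sub_const]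
      have e2 : fderiv ℂ (fun q => Complex.cos (j * Real.pi) * p n q) q =
          Complex.cos (j * Real.pi) • fderiv ℂ (p n) q := fderiv_const_mul d2 _
      have h3 := harea (1, 0) (0, 1)
      rw [e1, e2] at h3
      simp only [q1, q2]
      rw [hQ'.fderiv, h3]
      simp only [_root_.smul_apply, smul_eq_mul]
      ring
  · intro K hK hKc
    filter_upwards [hl (W.regX K hK hKc), hB K hK hKc r hr,
      hφ K (hK.trans (Wg_mono hgp)) hKc δ hδ] with n hn hBn hφn q hq hQ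
    obtain ⟨U, hU, hKU, h1, h2⟩ := hn
    obtain ⟨-, h3, h4⟩ := h2 q (hKU hq)
    have hbm : B n q ∈ closedBall b₀ r := mem_closedBall_iff_norm.2 (hBn q hq).le
    have hyB : deriv ψ (B n q) ≠ 0 := (hrS hbm).2
    have h5 := inc613 hyB (inc_shift j h3)
    have hφm : φ n q - j * Real.pi ∈ ball (ψ b₀) δ := mem_ball_iff_norm.2 (hφn q hq)
    have h6 := hch.size_le hφm hbm h5
    rw [hQ, norm_zero] at h6
    have hμ := hch.mu_pos
    have h7 : ‖B n q - τ (φ n q - j * Real.pi)‖ = 0 := by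
      by_contra hne
      have h8 : 0 < ‖B n q - τ (φ n q - j * Real.pi)‖ := lt_of_le_of_ne (norm_nonneg _) (Ne.symm hne)
      have : 0 < 15 / 32 * ‖1 / deriv ψ b₀ ^ 2 * deriv ψ b₀‖ *
        ‖B n q - τ (φ n q - j * Real.pi)‖ ^ 2 := by positivity
      linarith
    have h8 : B n q = τ (φ n q - j * Real.pi) := sub_eq_zero.1 (norm_eq_zero.1 h7)
    have h9 : ψ (B n q) = φ n q - j * Real.pi := by
      rw [h8]
      exact hch.τ_eq _ hφm
    apply h4 hyB
    have h10 := sin_shift (ψ := ψ) (φ := φ n q) (b := B n q) j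
    rw [h9, sub_self, Complex.sin_zero] at h10
    rcases mul_eq_zero.1 h10.symm with h11 | h11
    · rw [h9]
      exact h11
    · exact absurd h11 (cos_ne j)
  · intro q hq1 hq2 e he
    -- radii
    obtain ⟨r0, hr0, hr0s⟩ := Metric.isOpen_iff.1 (isOpen_Wg (a + g)) q (face_mem hgp hq1 hq2)
    let r1 : ℝ := min (r0 / 2) (e / 2)
    have hr1 : 0 < r1 := by
      simp only [r1]
      positivity
    have hr1r0 : r1 < r0 := (min_le_left _ _).trans_lt (by linarith)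
    have hr1e : r1 < e := (min_le_right _ _).trans_lt (by linarith)
    have hcb : closedBall q r1 ⊆ Wg (a + g) := (closedBall_subset_ball hr1r0).trans hr0s
    obtain ⟨K, hK, hKc, hbirth⟩ := W.births q hq1 hq2 (r1 / 2) (by positivity)
      ((closedBall_subset_closedBall (by linarith)).trans hcb)
    -- the compact convex set
    let K1 : Set (ℂ × ℂ) := K ∩ closedBall q (3 / 4 * r1)
    have hK1c : IsCompact K1 := hKc.inter_right isClosed_closedBall
    obtain ⟨K2, hK12, hK2, hK2c, hK2v⟩ := hull hK1c ((isOpen_Wg a).inter isOpen_ball)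
      ((convex_Wg a).inter (convex_ball q r1)) (subset_inter (inter_subset_left.trans hK)
        (inter_subset_right.trans (closedBall_subset_ball (by linarith))))
    have hK2a : K2 ⊆ Wg a := hK2.trans inter_subset_left
    have hK2b : K2 ⊆ ball q r1 := hK2.trans inter_subset_right
    filter_upwards [hl hbirth, hl (W.regX _ hK2a hK2c), hl (W.regL _ hcb (isCompact_closedBall _ _)),
      hB _ hK2a hK2c r hr, hφ _ hcb (isCompact_closedBall _ _) δ hδ,
      hp _ hcb (isCompact_closedBall _ _) δ hδ] with n hnb hX hL hBn hφn hpn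
    by_contra hcon
    push Not at hcon
    apply hnb
    obtain ⟨U, hU, hKU, hBd, hBU⟩ := hX
    obtain ⟨U', hU', hKU', hφd, hpd⟩ := hL
    have hV : ball q r1 ⊆ U' := ball_subset_closedBall.trans hKU'
    have hφ' : DifferentiableOn ℂ (fun x => φ n x - j * Real.pi) (ball q r1) :=
      (hφd.mono hV).sub_const _
    have hp' : DifferentiableOn ℂ (fun x => Complex.cos (j * Real.pi) * p n x) (ball q r1) :=
      (hpd.mono hV).const_mul _
    obtain ⟨G, g1, g2, g3⟩ := hch.extend isOpen_ball (convex_ball q r1) hφ' hp'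
      (fun x hx => mem_ball_iff_norm.2 (hφn x (ball_subset_closedBall hx)))
      (fun x hx => by
        rw [hHb]
        exact mem_ball_iff_norm.2 (hpn x (ball_subset_closedBall hx)))
      (fun x hx h0 => hcon x (ball_subset_ball hr1e.le hx) (sub_eq_zero.2 h0))
      (W := K2) hK2b hK2v.isPreconnected (hBd.continuousOn.mono hKU)
      (fun x hx => by
        have hbm : B n x ∈ closedBall b₀ r := mem_closedBall_iff_norm.2 (hBn x hx).le
        exact ⟨hbm, inc613 (hrS hbm).2 (inc_shift j (hBU x (hKU hx)).2.1)⟩)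
    refine ⟨G, ball q (3 / 4 * r1), isOpen_ball, closedBall_subset_ball (by linarith),
      g1.mono (ball_subset_ball (by linarith)), ?_, ?_⟩
    · intro x hx
      have h1 := (g3 x (ball_subset_ball (by linarith) hx)).1
      exact (hrS (closedBall_subset_closedBall (by linarith) (ball_subset_closedBall h1))).1
    · intro x hx
      exact (g2 (hK12 ⟨hx.1, ball_subset_closedBall hx.2⟩)).symm

/-! ### integers -/

theorem near_int {z : ℂ} {ε : ℝ} (hε : ε ≤ 1 / 2) (hz : ‖cexp (2 * I * z) - 1‖ ≤ ε) :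
    ∃ m : ℤ, ‖z - m * Real.pi‖ ≤ ε := by
  set w : ℂ := cexp (2 * I * z) - 1 with hw
  have h1 : ‖Complex.log (1 + w)‖ ≤ 3 / 2 * ‖w‖ := Complex.norm_log_one_add_half_le_self
    (hz.trans hε)
  have h2 : cexp (2 * I * z) = 1 + w := by rw [hw]; ring
  have h0 : 1 + w ≠ 0 := by
    rw [← h2]
    exact Complex.exp_ne_zero _
  have h3 : cexp (2 * I * z - Complex.log (1 + w)) = 1 := by
    rw [Complex.exp_sub, Complex.exp_log h0, h2, div_self h0]
  obtain ⟨n, hn⟩ := Complex.exp_eq_one_iff.1 h3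
  refine ⟨n, ?_⟩
  have hI : (2 * I : ℂ) ≠ 0 := by simp
  have h4 : z - n * Real.pi = Complex.log (1 + w) / (2 * I) := by
    rw [eq_div_iff hI]
    linear_combination hn
  rw [h4, norm_div]
  have h5 : ‖(2 * I : ℂ)‖ = 2 := by simp
  rw [h5, div_le_iff₀ two_pos]
  have := norm_nonneg w
  linarith

theorem int_unique {z : ℂ} {m m' : ℤ} (h1 : ‖z - m * Real.pi‖ ≤ 1) (h2 : ‖z - m' * Real.pi‖ ≤ 1) :
    m = m' := by
  by_contra hne
  have h3 : ‖((m : ℂ) - m') * Real.pi‖ ≤ 2 := by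
    have e : ((m : ℂ) - m') * Real.pi = (z - m' * Real.pi) - (z - m * Real.pi) := by ring
    rw [e]
    refine (norm_sub_le _ _).trans ?_
    linarith
  have h4 : (1 : ℝ) ≤ |((m - m' : ℤ) : ℝ)| := by
    exact_mod_cast Int.one_le_abs (sub_ne_zero.2 hne)
  have h5 : ‖((m : ℂ) - m') * Real.pi‖ = |((m - m' : ℤ) : ℝ)| * Real.pi := by
    rw [norm_mul, Complex.norm_real, Real.norm_eq_abs, abs_of_pos Real.pi_pos]
    congr 1
    rw [← Int.cast_sub, Complex.norm_intCast]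
  rw [h5] at h3
  nlinarith [Real.pi_gt_three]

theorem int_const {K : Set (ℂ × ℂ)} (hK : IsPreconnected K) {f : ℂ × ℂ → ℂ}
    (hf : ContinuousOn f K) {ε : ℝ} (hε : ε ≤ 1 / 4)
    (hexp : ∀ q ∈ K, ‖cexp (2 * I * f q) - 1‖ ≤ ε) {q₀ : ℂ × ℂ} (hq₀ : q₀ ∈ K) :
    ∃ m : ℤ, ∀ q ∈ K, ‖f q - m * Real.pi‖ ≤ ε := by
  have h1 : ∀ q ∈ K, ∃ m : ℤ, ‖f q - m * Real.pi‖ ≤ ε := fun q hq =>
    near_int (by linarith) (hexp q hq)
  choose! m hm using h1
  have hc : ContinuousOn m K := by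
    intro q hq
    have h2 : ∀ᶠ x in 𝓝[K] q, ‖f x - f q‖ < 1 / 4 := by
      have := (Metric.tendsto_nhds.1 (hf q hq)) (1 / 4) (by norm_num)
      simpa [dist_eq_norm] using this
    have h3 : ∀ᶠ x in 𝓝[K] q, m x = m q := by
      filter_upwards [h2, self_mem_nhdsWithin] with x hx hxK
      refine int_unique (z := f x) ((hm x hxK).trans (by linarith)) ?_
      have e : f x - m q * Real.pi = (f x - f q) + (f q - m q * Real.pi) := by ring
      rw [e]
      refine (norm_add_le _ _).trans ?_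
      have := hm q hq
      linarith
    exact tendsto_const_nhds.congr' (h3.mono fun x hx => hx.symm)
  refine ⟨m q₀, fun q hq => ?_⟩
  rw [← hK.constant hc hq hq₀]
  exact hm q hq

theorem lemX_inst (u : Ultrafilter ℕ) : Slow575.LemX (u : Filter ℕ) := by
  intro s0 z0 r hr m D k mu kap h1 h2 h3 h4 h5 h6 h7 q hq hq0
  exact LemX262.lemX_ball (h1.mono fun _ h => h.1) (h1.mono fun _ h => h.2) h2 h3 h4 h5 h6 h7 q hq
    hq0

/-! ### the limits along an ultrafilter -/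

/-- normalised slow world along an ultrafilter: the labels tend to `b₀`, the lines to the tangent -/
theorem limits (W : World h a g ψ H A0 φ p B) {κ : ℝ} (hκ : 0 < κ) (hI : IntrW h κ ψ B)
    (hre : ∀ n, 0 ≤ (B n z0).re ∧ (B n z0).re ≤ 1)
    (hslow : ∀ ε > 0, ∀ K ⊆ Wg (a + g), IsCompact K → ∀ K' ⊆ Wg a, IsCompact K' →
      ∀ᶠ n in atTop, SlowAt ε K K' ψ (φ n) (p n) (B n))
    (hφ0 : ∃ C : ℝ, ∀ᶠ n in atTop, |(φ n z0).re| ≤ C)
    {u : Ultrafilter ℕ} (hu : (u : Filter ℕ) ≤ atTop) :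
    ∃ (b₀ : ℂ) (j : ℤ), |b₀.im| < h ∧ deriv ψ b₀ ≠ 0 ∧
      (∀ K ⊆ Wg a, IsCompact K → ∀ ε > 0, ∀ᶠ n in (u : Filter ℕ), ∀ q ∈ K, ‖B n q - b₀‖ < ε) ∧
      (∀ K ⊆ Wg (a + g), IsCompact K → ∀ ε > 0, ∀ᶠ n in (u : Filter ℕ), ∀ q ∈ K,
        ‖φ n q - j * Real.pi - ψ b₀‖ < ε) ∧
      (∀ K ⊆ Wg (a + g), IsCompact K → ∀ ε > 0, ∀ᶠ n in (u : Filter ℕ), ∀ q ∈ K,
        ‖Complex.cos (j * Real.pi) * p n q - H b₀‖ < ε) := by
  have ha := W.a_nonneg
  have hg := W.g_pos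
  have hC := W.curve
  have hz0 : z0 ∈ Wg a := z0_mem ha
  have hz0' : z0 ∈ Wg (a + g) := Wg_mono hg hz0
  -- the label
  have hR : IsCompact (Icc (0 : ℝ) 1 ×ℂ Icc (-(h - κ)) (h - κ)) := isCompact_Icc.reProdIm isCompact_Icc
  have hBR : ((u.map fun n => B n z0 : Ultrafilter ℂ) : Filter ℂ) ≤
      𝓟 (Icc (0 : ℝ) 1 ×ℂ Icc (-(h - κ)) (h - κ)) := by
    rw [le_principal_iff]
    show ∀ᶠ n in (u : Filter ℕ), B n z0 ∈ Icc (0 : ℝ) 1 ×ℂ Icc (-(h - κ)) (h - κ)
    exact Eventually.of_forall fun n => ⟨⟨(hre n).1, (hre n).2⟩, abs_le.1 (hI n).1⟩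
  obtain ⟨b₀, hb₀R, hb₀⟩ := hR.ultrafilter_le_nhds _ hBR
  have hBt : Tendsto (fun n => B n z0) u (𝓝 b₀) := hb₀
  have hb₀h : |b₀.im| < h := (abs_le.2 hb₀R.2).trans_lt (by linarith)
  have hdψ : ContinuousAt (deriv ψ) b₀ :=
    (hC.ψ_diff.analyticAt ((isOpen_Str h).mem_nhds hb₀h)).deriv.continuousAt
  have hψc : ContinuousAt ψ b₀ :=
    (hC.ψ_diff.differentiableAt ((isOpen_Str h).mem_nhds hb₀h)).continuousAt
  have hBl : ∀ K ⊆ Wg a, IsCompact K → ∀ ε > 0, ∀ᶠ n in (u : Filter ℕ), ∀ q ∈ K,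
      ‖B n q - b₀‖ < ε := by
    intro K hK hKc ε hε
    have h2 := (Metric.tendsto_nhds.1 hBt) (ε / 2) (by positivity)
    filter_upwards [hu (hslow (ε / 2) (by positivity) ∅ (empty_subset _) isCompact_empty K hK hKc),
      h2] with n h3 h4 q hq
    have h5 := h3.2 q hq
    rw [dist_eq_norm] at h4
    have e : B n q - b₀ = (B n q - B n z0) + (B n z0 - b₀) := by ring
    rw [e]
    refine (norm_add_le _ _).trans_lt ?_
    linarith
  have hcz : closedBall z0 (1 / 10) ⊆ Wg a := by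
    intro q hq
    rw [mem_closedBall, Prod.dist_eq, max_le_iff, dist_eq_norm, dist_eq_norm] at hq
    have h1 := (Complex.abs_im_le_norm _).trans hq.1
    have h2 := (Complex.abs_im_le_norm _).trans hq.2
    rw [abs_le] at h1 h2
    simp [z0] at h1 h2
    refine ⟨by linarith, ?_⟩
    have : 0 ≤ a * q.2.im := mul_nonneg ha (by linarith)
    linarith
  have hy : deriv ψ b₀ ≠ 0 := by
    intro h0
    have h1 := (Metric.continuousAt_iff.1 hdψ) κ hκ
    obtain ⟨ε, hε, h2⟩ := h1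
    obtain ⟨n, hn⟩ := (hBl _ hcz (isCompact_closedBall _ _) ε hε).exists
    obtain ⟨q, hq, h3⟩ := (hI n).2
    have h4 := h2 (x := B n q) (by rw [dist_eq_norm]; exact hn q hq)
    rw [dist_eq_norm, h0, sub_zero] at h4
    linarith
  have hψt : Tendsto (fun n => ψ (B n z0)) u (𝓝 (ψ b₀)) := hψc.tendsto.comp hBt
  -- the angle at the base point
  obtain ⟨C, hC0⟩ := hφ0
  have hexp : ∀ ε > 0, ∀ᶠ n in (u : Filter ℕ),
      ‖cexp (2 * I * (φ n z0 - ψ (B n z0))) - 1‖ ≤ ε := by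
    intro ε hε
    filter_upwards [hu (hslow ε hε {z0} (singleton_subset_iff.2 hz0') isCompact_singleton ∅
      (empty_subset _) isCompact_empty)] with n hn
    exact (hn.1 z0 rfl).1
  have hψb : ∀ᶠ n in (u : Filter ℕ), ‖ψ (B n z0) - ψ b₀‖ < 1 := by
    have := (Metric.tendsto_nhds.1 hψt) 1 one_pos
    simpa [dist_eq_norm] using this
  have hφR : ((u.map fun n => φ n z0 : Ultrafilter ℂ) : Filter ℂ) ≤
      𝓟 (Icc (-C) C ×ℂ Icc (-(‖ψ b₀‖ + 2)) (‖ψ b₀‖ + 2)) := by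
    rw [le_principal_iff]
    show ∀ᶠ n in (u : Filter ℕ), φ n z0 ∈ Icc (-C) C ×ℂ Icc (-(‖ψ b₀‖ + 2)) (‖ψ b₀‖ + 2)
    filter_upwards [hu hC0, hexp (1 / 2) (by norm_num), hψb] with n h1 h2 h3
    refine ⟨abs_le.1 h1, abs_le.1 ?_⟩
    obtain ⟨m, hm⟩ := near_int le_rfl h2
    have e1 : (φ n z0).im = (φ n z0 - ψ (B n z0) - m * Real.pi).im + (ψ (B n z0) - ψ b₀).im +
        (ψ b₀).im := by
      simp
    rw [e1]
    have a1 := (Complex.abs_im_le_norm (φ n z0 - ψ (B n z0) - m * Real.pi)).trans hm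
    have a2 := (Complex.abs_im_le_norm (ψ (B n z0) - ψ b₀)).trans h3.le
    have a3 := Complex.abs_im_le_norm (ψ b₀)
    refine (abs_add_three _ _ _).trans ?_
    linarith
  obtain ⟨φ₀, -, hφ₀⟩ := (isCompact_Icc.reProdIm isCompact_Icc).ultrafilter_le_nhds _ hφR
  have hφt : Tendsto (fun n => φ n z0) u (𝓝 φ₀) := hφ₀
  have h1 : cexp (2 * I * (φ₀ - ψ b₀)) = 1 := by
    have h2 : Tendsto (fun n => cexp (2 * I * (φ n z0 - ψ (B n z0)))) u
        (𝓝 (cexp (2 * I * (φ₀ - ψ b₀)))) :=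
      (Complex.continuous_exp.tendsto _).comp ((hφt.sub hψt).const_mul (2 * I))
    have h3 : Tendsto (fun n => cexp (2 * I * (φ n z0 - ψ (B n z0)))) u (𝓝 1) := by
      rw [Metric.tendsto_nhds]
      intro ε hε
      filter_upwards [hexp (ε / 2) (by positivity)] with n hn
      rw [dist_eq_norm]
      linarith
    exact tendsto_nhds_unique h2 h3
  obtain ⟨j, hj⟩ := Complex.exp_eq_one_iff.1 h1
  have hj' : φ₀ - ψ b₀ = j * Real.pi := by
    have hI : (2 * I : ℂ) ≠ 0 := by simp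
    refine mul_left_cancel₀ hI ?_
    rw [hj]
    ring
  have hφl : ∀ K ⊆ Wg (a + g), IsCompact K → ∀ ε > 0, ∀ᶠ n in (u : Filter ℕ), ∀ q ∈ K,
      ‖φ n q - j * Real.pi - ψ b₀‖ < ε := by
    intro K hK hKc ε hε
    obtain ⟨K', hKK', hK', hK'c, hK'v⟩ := hull (hKc.insert z0) (isOpen_Wg (a + g)) (convex_Wg _)
      (insert_subset hz0' hK)
    let ε1 : ℝ := min (ε / 4) (1 / 4)
    have hε1 : 0 < ε1 := by
      simp only [ε1]
      positivity
    have hε1a : ε1 ≤ ε / 4 := min_le_left _ _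
    have hε1b : ε1 ≤ 1 / 4 := min_le_right _ _
    have h2 := (Metric.tendsto_nhds.1 hψt) (min (ε / 4) (1 / 4)) (by positivity)
    have h3 := (Metric.tendsto_nhds.1 hφt) (1 / 4) (by positivity)
    filter_upwards [hu (hslow ε1 hε1 _ hK' hK'c ∅ (empty_subset _) isCompact_empty), h2, h3,
      hu (W.regL _ hK' hK'c)] with n h4 h5 h6 h7 q hq
    obtain ⟨U, hU, hKU, hφd, -⟩ := h7
    have hz0K : z0 ∈ K' := hKK' (mem_insert _ _)
    obtain ⟨m, hm⟩ := int_const hK'v.isPreconnected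
      (f := fun q => φ n q - ψ (B n z0)) ((hφd.continuousOn.mono hKU).sub continuousOn_const)
      hε1b (fun q hq => (h4.1 q hq).1) hz0K
    rw [dist_eq_norm] at h5 h6
    have h5a : ‖ψ (B n z0) - ψ b₀‖ < ε / 4 := h5.trans_le (min_le_left _ _)
    have h5b : ‖ψ (B n z0) - ψ b₀‖ < 1 / 4 := h5.trans_le (min_le_right _ _)
    have hmj : m = j := by
      refine int_unique (z := φ n z0 - ψ (B n z0)) ((hm z0 hz0K).trans (by linarith)) ?_
      have e : φ n z0 - ψ (B n z0) - j * Real.pi = (φ n z0 - φ₀) - (ψ (B n z0) - ψ b₀) := by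
        rw [← hj']
        ring
      rw [e]
      refine (norm_sub_le _ _).trans ?_
      linarith
    have h8 := hm q (hKK' (mem_insert_of_mem _ hq))
    rw [hmj] at h8
    have e : φ n q - j * Real.pi - ψ b₀ = (φ n q - ψ (B n z0) - j * Real.pi) +
      (ψ (B n z0) - ψ b₀) := by ring
    rw [e]
    refine (norm_add_le _ _).trans_lt ?_
    have h9 : ‖φ n q - ψ (B n z0) - j * Real.pi‖ ≤ ε1 := h8
    linarith
  refine ⟨b₀, j, hb₀h, hy, hBl, hφl, ?_⟩
  -- the support function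
  have hHc : ContinuousAt H b₀ :=
    (hC.H_diff.differentiableAt ((isOpen_Str h).mem_nhds hb₀h)).continuousAt
  have hdH : ContinuousAt (deriv H) b₀ :=
    (hC.H_diff.analyticAt ((isOpen_Str h).mem_nhds hb₀h)).deriv.continuousAt
  have hP0 : Tendsto (fun n => Complex.cos (j * Real.pi) * p n z0) u (𝓝 (H b₀)) := by
    have t3 : Tendsto (fun n => φ n z0 - j * Real.pi) u (𝓝 (ψ b₀)) := by
      rw [Metric.tendsto_nhds]
      intro ε hε
      filter_upwards [hφl {z0} (singleton_subset_iff.2 hz0') isCompact_singleton ε hε] with n hn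
      rw [dist_eq_norm]
      exact hn z0 rfl
    have t4 : Tendsto (fun n => deriv ψ (B n z0)) u (𝓝 (deriv ψ b₀)) := hdψ.tendsto.comp hBt
    have t5 : Tendsto (fun n => φ n z0 - j * Real.pi - ψ (B n z0)) u (𝓝 0) := by
      have := t3.sub hψt
      rw [sub_self] at this
      exact this
    have t6 : Tendsto (fun n => (deriv ψ (B n z0) * H (B n z0) *
        Complex.cos (φ n z0 - j * Real.pi - ψ (B n z0)) +
        deriv H (B n z0) * Complex.sin (φ n z0 - j * Real.pi - ψ (B n z0))) / deriv ψ (B n z0)) u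
        (𝓝 ((deriv ψ b₀ * H b₀ * Complex.cos 0 + deriv H b₀ * Complex.sin 0) / deriv ψ b₀)) :=
      (((t4.mul (hHc.tendsto.comp hBt)).mul
        ((Complex.continuous_cos.tendsto 0).comp t5)).add
        ((hdH.tendsto.comp hBt).mul ((Complex.continuous_sin.tendsto 0).comp t5))).div t4 hy
    have e1 : (deriv ψ b₀ * H b₀ * Complex.cos 0 + deriv H b₀ * Complex.sin 0) / deriv ψ b₀ =
        H b₀ := by
      rw [Complex.cos_zero, Complex.sin_zero, mul_one, mul_zero, add_zero,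
        mul_div_cancel_left₀ _ hy]
    rw [e1] at t6
    refine t6.congr' ?_
    filter_upwards [hu (W.regX {z0} (singleton_subset_iff.2 hz0) isCompact_singleton),
      t4.eventually_ne hy] with n hn hne
    obtain ⟨U, hU, hKU, -, h2⟩ := hn
    have h3 := inc_shift j (h2 z0 (hKU rfl)).2.1
    unfold F300.Inc at h3
    rw [← h3, mul_div_cancel_left₀ _ hne]
  intro K hK hKc ε hε
  have hcn : 0 < ‖Complex.cos (j * Real.pi)‖ := norm_pos_iff.2 (cos_ne j)
  have h2 := (Metric.tendsto_nhds.1 hP0) (ε / 2) (by positivity)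
  filter_upwards [hu (hslow (ε / 4 / ‖Complex.cos (j * Real.pi)‖) (by positivity) K hK hKc ∅
    (empty_subset _) isCompact_empty), h2] with n h3 h4 q hq
  rw [dist_eq_norm] at h4
  have h5 := (h3.1 q hq).2
  have e : Complex.cos (j * Real.pi) * p n q - H b₀ = Complex.cos (j * Real.pi) * (p n q - p n z0) +
    (Complex.cos (j * Real.pi) * p n z0 - H b₀) := by ring
  rw [e]
  refine (norm_add_le _ _).trans_lt ?_
  rw [norm_mul]
  have h6 : ‖Complex.cos (j * Real.pi)‖ * ‖p n q - p n z0‖ ≤ ε / 4 := by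
    calc ‖Complex.cos (j * Real.pi)‖ * ‖p n q - p n z0‖
        ≤ ‖Complex.cos (j * Real.pi)‖ * (ε / 4 / ‖Complex.cos (j * Real.pi)‖) := by gcongr
      _ = ε / 4 := by field_simp
  linarith

/-! ### the end of the slow regime -/

/-- **(N4)** in a slow world the angle, normalised by its oscillation, cannot be locally bounded on
the big wedge with growth `θ < 1` -/
theorem limK (W : World h a g ψ H A0 φ p B) {κ : ℝ} (hκ : 0 < κ) (hI : IntrW h κ ψ B)
    (hre : ∀ n, 0 ≤ (B n z0).re ∧ (B n z0).re ≤ 1)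
    (hslow : ∀ ε > 0, ∀ K ⊆ Wg (a + g), IsCompact K → ∀ K' ⊆ Wg a, IsCompact K' →
      ∀ᶠ n in atTop, SlowAt ε K K' ψ (φ n) (p n) (B n))
    (hφ0 : ∃ C : ℝ, ∀ᶠ n in atTop, |(φ n z0).re| ≤ C)
    {E : ℕ → ℝ} (hE : ∀ n, 0 < E n) (c : ℕ → ℂ)
    (hloc : ∀ K ⊆ Wg (a + g), IsCompact K → ∃ M : ℝ, ∀ᶠ n in atTop, ∀ q ∈ K,
      ‖φ n q - c n‖ ≤ M * E n)
    {θ : ℝ} (hθ0 : 0 ≤ θ) (hθ : θ < 1) {C : ℝ}
    (hgrow : ∀ q : ℂ × ℂ, 1 ≤ q.2.im → q.1.im ≤ (a + g / 2) * q.2.im →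
      ‖q.1‖ ≤ (|a| + g) * q.2.im → ‖q.2‖ ≤ q.2.im →
      ∀ᶠ n in atTop, ‖φ n q - c n‖ ≤ C * E n * q.2.im ^ θ)
    {K0 : Set (ℂ × ℂ)} (hK0 : IsCompact K0) (hK0s : K0 ⊆ Wg a)
    (hosc : ∀ᶠ n in atTop, ∃ q ∈ K0, ∃ q' ∈ K0, E n / 2 ≤ ‖φ n q - φ n q'‖) : False := by
  have hg := W.g_pos
  let u : Ultrafilter ℕ := Ultrafilter.of atTop
  have hu : (u : Filter ℕ) ≤ atTop := Ultrafilter.of_le atTop
  obtain ⟨b₀, j, hb₀, hy, hBl, hφl, hpl⟩ := limits W hκ hI hre hslow hφ0 hu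
  obtain ⟨hs, o1, o2, o3⟩ := offs W hu hb₀ hy j hBl hφl hpl
  obtain ⟨J, k, hJ, -, hk, harea⟩ := W.area
  have hGam : ∀ l : ℝ, Liou203.Gam l = Wg l := fun _ => rfl
  have hEc : ∀ n, (E n : ℂ) ≠ 0 := fun n => by exact_mod_cast (hE n).ne'
  refine Slow575.slow_limit (u : Filter ℕ) (fun v hv => lemX_inst v) (a := a) (c := g) hg
    (T := fun n q => (φ n q - c n) / E n)
    (Q := fun n q => Complex.cos (j * Real.pi) * p n q - hs (φ n q - j * Real.pi))
    (k := fun n q => k n q.2) (J := fun n => -(Complex.cos (j * Real.pi) * J n / E n))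
    (kap := fun _ => A0) ?_ hθ0 hθ (C := C) ?_ (K0 := K0) hK0 hK0s ?_ ?_ ?_ ?_ ?_ ?_
  · intro x hx
    obtain ⟨r0, hr0, hr0s⟩ := Metric.isOpen_iff.1 (isOpen_Wg (a + g)) x hx
    have hcb : closedBall x (r0 / 2) ⊆ Wg (a + g) :=
      (closedBall_subset_ball (by linarith)).trans hr0s
    obtain ⟨M, hM⟩ := hloc _ hcb (isCompact_closedBall _ _)
    refine ⟨r0 / 2, by positivity, M, ball_subset_closedBall.trans hcb, ?_⟩
    filter_upwards [hu hM, o1 _ hcb (isCompact_closedBall _ _),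
      hu (harea _ hcb (isCompact_closedBall _ _))] with n h2 h3 h4
    obtain ⟨U, hU, hKU, hφd, hQd, hQa⟩ := h3
    have hbU : ball x (r0 / 2) ⊆ U := ball_subset_closedBall.trans hKU
    have hTd : DifferentiableOn ℂ (fun q => (φ n q - c n) / (E n : ℂ)) (ball x (r0 / 2)) := by
      have h7 := ((hφd.mono hbU).sub_const (c n)).mul_const ((E n : ℂ)⁻¹)
      simpa only [div_eq_mul_inv] using h7
    refine ⟨hTd, hQd.mono hbU, fun w hw => ?_, fun w hw => ?_⟩
    · rw [norm_div, Complex.norm_real, Real.norm_eq_abs, abs_of_pos (hE n),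
        div_le_iff₀ (hE n)]
      exact h2 w (ball_subset_closedBall hw)
    · have h5 := hQa w (hbU hw)
      rw [h4 w (ball_subset_closedBall hw)] at h5
      have hφw : DifferentiableAt ℂ (φ n) w := hφd.differentiableAt (hU.mem_nhds (hbU hw))
      have h6 : HasFDerivAt (fun q => (φ n q - c n) / (E n : ℂ))
          ((E n : ℂ)⁻¹ • fderiv ℂ (φ n) w) w := by
        have h7 := (hφw.hasFDerivAt.sub_const (c n)).mul_const ((E n : ℂ)⁻¹)
        simpa only [div_eq_mul_inv] using h7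
      rw [h6.fderiv]
      simp only [_root_.smul_apply, smul_eq_mul]
      simp only [q1, q2] at h5
      have hEn := hEc n
      field_simp
      linear_combination (-1 : ℂ) * h5
  · intro q h1 h2 h3 h4
    filter_upwards [hu (hgrow q h1 h2 h3 h4)] with n hn
    rw [norm_div, Complex.norm_real, Real.norm_eq_abs, abs_of_pos (hE n), div_le_iff₀ (hE n)]
    linarith
  · filter_upwards [hu hosc] with n hn
    obtain ⟨q, hq, q', hq', h1⟩ := hn
    refine ⟨q, hq, q', hq', ?_⟩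
    have e : (φ n q - c n) / (E n : ℂ) - (φ n q' - c n) / (E n : ℂ) = (φ n q - φ n q') / E n := by
      ring
    rw [e, norm_div, Complex.norm_real, Real.norm_eq_abs, abs_of_pos (hE n), le_div_iff₀ (hE n)]
    linarith
  · refine Eventually.of_forall fun n => ?_
    rw [neg_ne_zero]
    refine div_ne_zero (mul_ne_zero (cos_ne j) ?_) (hEc n)
    exact_mod_cast (hJ n).ne'
  · rw [hGam, tendstoLocallyUniformlyOn_iff_forall_isCompact (isOpen_Wg (a + g))]
    intro K hK hKc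
    have hc2 : IsCompact (Prod.snd '' K) := hKc.image continuous_snd
    have h1 := Metric.tendstoUniformlyOn_iff.1 (hk _ hc2)
    rw [Metric.tendstoUniformlyOn_iff]
    intro ε hε
    filter_upwards [hu (h1 ε hε)] with n hn q hq
    exact hn q.2 (mem_image_of_mem _ hq)
  · intro q _
    exact W.A0_ne
  · exact o2
  · exact o3

/-- a world with a smaller gap -/
theorem world_mono (W : World h a g ψ H A0 φ p B) {g' : ℝ} (hg' : 0 < g') (hgg : g' ≤ g) :
    World h a g' ψ H A0 φ p B := by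
  have hsub : Wg (a + g') ⊆ Wg (a + g) := by
    rintro q ⟨h1, h2⟩
    refine ⟨h1, h2.trans_le ?_⟩
    nlinarith [mul_le_mul_of_nonneg_right hgg h1.le]
  obtain ⟨J, k, hJ, hJ0, hk, harea⟩ := W.area
  exact ⟨W.a_nonneg, hg', W.A0_ne, W.curve, fun K hK hKc => W.regL K (hK.trans hsub) hKc, W.regX,
    ⟨J, k, hJ, hJ0, hk, fun K hK hKc => harea K (hK.trans hsub) hKc⟩,
    fun q h1 h2 r hr hb => W.births q h1 h2 r hr (hb.trans hsub)⟩

/-- the form of helper575's `slowWorld` (one more hypothesis `hφ0`, trivial for `ToWorld`) -/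
theorem slowWorld (W : World h a g ψ H A0 φ p B) {κ : ℝ} (hκ : 0 < κ) (hI : IntrW h κ ψ B)
    (hre : ∀ n, 0 ≤ (B n z0).re ∧ (B n z0).re ≤ 1)
    (hslow : ∀ ε > 0, ∀ K ⊆ Wg (a + g), IsCompact K → ∀ K' ⊆ Wg a, IsCompact K' →
      ∀ᶠ n in atTop, SlowAt ε K K' ψ (φ n) (p n) (B n))
    (hφ0 : ∃ C : ℝ, ∀ᶠ n in atTop, |(φ n z0).re| ≤ C)
    {om : ℕ → ℝ} (hom : ∀ n, 0 < om n) {g' : ℝ} (hg' : 0 < g') (hgg : g' ≤ g)
    (hloc : ∀ K ⊆ Wg (a + g'), IsCompact K → ∃ M : ℝ, ∀ᶠ n in atTop, ∀ q ∈ K,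
      ‖φ n q - φ n z0‖ ≤ M * om n)
    {θ C : ℝ} (hθ0 : 0 ≤ θ) (hθ : θ < 1)
    (hgrow : ∀ q : ℂ × ℂ, 1 ≤ q.2.im → q.1.im ≤ (a + g' / 2) * q.2.im →
      ‖q.1‖ ≤ (|a| + g') * q.2.im → ‖q.2‖ ≤ q.2.im →
      ∀ᶠ n in atTop, ‖φ n q - φ n z0‖ ≤ C * om n * q.2.im ^ θ)
    {K0 : Set (ℂ × ℂ)} (hK0 : IsCompact K0) (hK0s : K0 ⊆ Wg a)
    (hosc : ∃ c > 0, ∀ᶠ n in atTop, ∃ q ∈ K0, ∃ q' ∈ K0, c * om n ≤ ‖φ n q - φ n q'‖) : False := by
  obtain ⟨c, hc, hosc⟩ := hosc
  have hsub : Wg (a + g') ⊆ Wg (a + g) := by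
    rintro q ⟨h1, h2⟩
    refine ⟨h1, h2.trans_le ?_⟩
    nlinarith [mul_le_mul_of_nonneg_right hgg h1.le]
  refine limK (world_mono W hg' hgg) hκ hI hre
    (fun ε hε K hK hKc K' hK' hKc' => hslow ε hε K (hK.trans hsub) hKc K' hK' hKc') hφ0
    (E := fun n => 2 * c * om n) (fun n => by have := hom n; positivity) (fun n => φ n z0) ?_ hθ0 hθ
    (C := C / (2 * c)) ?_ hK0 hK0s ?_
  · intro K hK hKc
    obtain ⟨M, hM⟩ := hloc K hK hKc
    refine ⟨M / (2 * c), ?_⟩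
    filter_upwards [hM] with n hn q hq
    refine (hn q hq).trans (le_of_eq ?_)
    field_simp
  · intro q h1 h2 h3 h4
    filter_upwards [hgrow q h1 h2 h3 h4] with n hn
    refine hn.trans (le_of_eq ?_)
    field_simp
  · filter_upwards [hosc] with n hn
    obtain ⟨q, hq, q', hq', h1⟩ := hn
    refine ⟨q, hq, q', hq', ?_⟩
    linarith

end Crest.Agent.R102.LimK654
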