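import Crest.Agent.R102.EdgeRig_255
import Crest.Agent.R102.ToWorld_150

/-!
Row 102, T1-B, EDGE, slow regime (helper203): the WORLD END of `NoRec`.

* `SlowWorld`  : literal of 575's `slowWorld` (LimW_575) as a `Prop`;
* `norec_raw`  : `SlowWorld` for the raw blow-ups `φ (bl (e n) (s n) q)` of the objects;
* `norec_end`  : the same with the bounds given at a record centre `c n`,
                 `e n = c n + (0, r n s n)`, `|r n| ≤ 1`, and with local bounds and growth in ONE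
                 hypothesis.
-/

set_option autoImplicit false

open Set Filter Topology Metric Complex

noncomputable section

namespace Crest.Agent.R102.NoRecW203

open Crest.Agent.R102.Sup115 (HDu Dp E2 MaxiX GoodU)
open Crest.Agent.R102.S5 (Half bl ray Cn)
open Crest.Agent.R102.Edge255

/-- literal of 575's `slowWorld` -/
def SlowWorld : Prop :=
  ∀ (h a g κ : ℝ) (ψ H : ℂ → ℂ) (A0 : ℂ) (φ p B : ℕ → ℂ × ℂ → ℂ), 0 < κ →
    World h a g ψ H A0 φ p B → IntrW h κ ψ B → (∀ n, 0 ≤ (B n z0).re ∧ (B n z0).re ≤ 1) →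
    (∀ ε > 0, ∀ K ⊆ Wg (a + g), IsCompact K → ∀ K' ⊆ Wg a, IsCompact K' →
      ∀ᶠ n in atTop, SlowAt ε K K' ψ (φ n) (p n) (B n)) →
    ∀ om : ℕ → ℝ, (∀ n, 0 < om n) → ∀ g' : ℝ, 0 < g' → g' ≤ g →
    (∀ K ⊆ Wg (a + g'), IsCompact K → ∃ M : ℝ, ∀ᶠ n in atTop, ∀ q ∈ K,
      ‖φ n q - φ n z0‖ ≤ M * om n) →
    ∀ th C : ℝ, 0 ≤ th → th < 1 →
    (∀ q : ℂ × ℂ, 1 ≤ q.2.im → q.1.im ≤ (a + g' / 2) * q.2.im →
      ‖q.1‖ ≤ (|a| + g') * q.2.im → ‖q.2‖ ≤ q.2.im →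
      ∀ᶠ n in atTop, ‖φ n q - φ n z0‖ ≤ C * om n * q.2.im ^ th) →
    ∀ K0 : Set (ℂ × ℂ), IsCompact K0 → K0 ⊆ Wg a →
    (∃ c > 0, ∀ᶠ n in atTop, ∃ q ∈ K0, ∃ q' ∈ K0, c * om n ≤ ‖φ n q - φ n q'‖) → False

variable {u0 R d h a g κ : ℝ} {ψ H A : ℂ → ℂ} {φ p B : ℂ × ℂ → ℂ} {X L : Set (ℂ × ℂ)}
  {u s₀ : ℝ} {e : ℕ → ℝ × ℝ} {s ρ η : ℕ → ℝ}

lemma intrW' (hE : ED u0 R d h ψ H A φ p B X L)
    (hm : ∀ n, ∀ q ∈ closedBall z0 (1 / 10 : ℝ), bl (e n) (s n) q ∈ Dp u0 R d)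
    (hI : ∀ n, Intr h κ ψ B (e n) (s n)) : IntrW h κ ψ (BN B e s) := by
  intro n
  obtain ⟨h1, q, hq, h2⟩ := hI n
  refine ⟨by rw [BN_im]; exact h1, q, hq, ?_⟩
  have h3 : B (bl (e n) (s n) q) ∈ T5.Str h := hE.B_im _ (hE.Dp_X (hm n q hq))
  have h4 : deriv ψ (BN B e s n q) = deriv ψ (B (bl (e n) (s n) q)) := by
    unfold BN nB
    exact dψ_sub_int hE.curve h3 _
  rw [h4]; exact h2

/-- `SlowAt` is invariant under the normalisation -/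
lemma slowAt_norm (hE : ED u0 R d h ψ H A φ p B X L) (n : ℕ)
    (hm : bl (e n) (s n) z0 ∈ Dp u0 R d) {ε : ℝ} {K K' : Set (ℂ × ℂ)}
    (hS : SlowAt ε K K' ψ (fun q => φ (bl (e n) (s n) q)) (fun q => p (bl (e n) (s n) q))
        (fun q => B (bl (e n) (s n) q))) :
    SlowAt ε K K' ψ (φN φ e s n) (fun q => p (bl (e n) (s n) q)) (BN B e s n) := by
  have h3 : B (bl (e n) (s n) z0) ∈ T5.Str h := hE.B_im _ (hE.Dp_X hm)
  have e1 : ∀ q, cexp (2 * I * (φN φ e s n q - ψ (BN B e s n z0))) =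
      cexp (2 * I * (φ (bl (e n) (s n) q) - ψ (B (bl (e n) (s n) z0)))) := by
    intro q
    have h4 : ψ (BN B e s n z0) = ψ (B (bl (e n) (s n) z0)) -
        2 * Real.pi * ((⌊(B (bl (e n) (s n) z0)).re⌋ : ℤ) : ℂ) := by
      unfold BN nB
      exact ψ_sub_int hE.curve h3 _
    rw [h4]
    unfold φN nφ
    set m1 : ℤ := ⌊(B (bl (e n) (s n) z0)).re⌋
    set m2 : ℤ := ⌊(φ (bl (e n) (s n) z0)).re / (2 * Real.pi)⌋
    have h5 : 2 * I * (φ (bl (e n) (s n) q) - 2 * Real.pi * (m2 : ℂ) -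
        (ψ (B (bl (e n) (s n) z0)) - 2 * Real.pi * (m1 : ℂ))) =
        2 * I * (φ (bl (e n) (s n) q) - ψ (B (bl (e n) (s n) z0))) +
          ((2 * m1 - 2 * m2 : ℤ) : ℂ) * (2 * Real.pi * I) := by
      push_cast; ring
    rw [h5, Complex.exp_periodic.int_mul]
  have e2 : ∀ q, BN B e s n q - BN B e s n z0 =
      B (bl (e n) (s n) q) - B (bl (e n) (s n) z0) := by
    intro q; unfold BN; ring
  obtain ⟨h1, h2⟩ := hS
  exact ⟨fun q hq => ⟨by rw [e1]; exact (h1 q hq).1, (h1 q hq).2⟩,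
    fun q hq => by rw [e2]; exact h2 q hq⟩

lemma φN_sub (n : ℕ) (q q' : ℂ × ℂ) :
    φN φ e s n q - φN φ e s n q' = φ (bl (e n) (s n) q) - φ (bl (e n) (s n) q') := by
  unfold φN; ring

/-- the windows near `z0` are eventually in the product domain -/
lemma ev_Dp (hd : 0 < d) (hu : u ∈ Ioo (u0 - R) (u0 + R))
    (he : Tendsto e atTop (𝓝 (s₀, u))) (hs : ∀ n, 0 < s n) (hs0 : Tendsto s atTop (𝓝 0)) :
    ∀ᶠ n in atTop, ∀ q ∈ closedBall z0 (1 / 10 : ℝ), bl (e n) (s n) q ∈ Dp u0 R d := by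
  have he2 : Tendsto (fun n => (e n).2) atTop (𝓝 u) :=
    (continuous_snd.tendsto _).comp he
  set m : ℝ := R - |u - u0| with hm
  have hm0 : 0 < m := by
    have : |u - u0| < R := abs_lt.2 ⟨by linarith [hu.1], by linarith [hu.2]⟩
    rw [hm]; linarith
  have h1 : ∀ᶠ n in atTop, |(e n).2 - u| < m / 2 := by
    have := (Metric.tendsto_nhds.1 he2) (m / 2) (by positivity)
    simpa [Real.dist_eq] using this
  have h2 : ∀ᶠ n in atTop, s n < min (d / 2) (m / 4) :=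
    hs0.eventually_lt_const (by positivity)
  filter_upwards [h1, h2] with n h1 h2 q hq
  obtain ⟨g1, g2, g3, g4⟩ := z0_ball hq
  have hsn := hs n
  have h3 := h2.trans_le (min_le_left _ _)
  have h4 := h2.trans_le (min_le_right _ _)
  refine bl_mem_Dp (by nlinarith) (by nlinarith) (by positivity) ?_
  rw [mem_ball, dist_eq_norm]
  have e1 : ((e n).2 : ℂ) + s n * q.2 - (u0 : ℂ) = (((e n).2 - u0 : ℝ) : ℂ) + s n * q.2 := by
    push_cast; ring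
  rw [e1]
  refine (norm_add_le _ _).trans_lt ?_
  rw [Complex.norm_real, norm_mul, Complex.norm_real, Real.norm_eq_abs, Real.norm_eq_abs,
    abs_of_pos hsn]
  have h5 : |(e n).2 - u0| ≤ |(e n).2 - u| + |u - u0| := abs_sub_le _ _ _
  have h6 : s n * ‖q.2‖ ≤ s n := by nlinarith [norm_nonneg q.2]
  rw [hm] at h1 h4
  linarith

/-- **raw blow-ups**: `SlowWorld` on the objects -/
theorem norec_raw (SW : SlowWorld) (hE : ED u0 R d h ψ H A φ p B X L)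
    (hu : u ∈ Ioo (u0 - R) (u0 + R)) (hu0 : u ≠ 0) (ha : 0 ≤ a) (hg : 0 < g) (hκ : 0 < κ)
    (he : Tendsto e atTop (𝓝 (s₀, u))) (hs : ∀ n, 0 < s n) (hs0 : Tendsto s atTop (𝓝 0))
    (hρ : ∀ n, 0 < ρ n) (hρ0 : Tendsto ρ atTop (𝓝 0)) (hη : ∀ n, 0 < η n)
    (hsη : Tendsto (fun n => s n / η n) atTop (𝓝 0))
    (hE2 : ∀ n, E2 X L a g (ρ n) (η n) (e n)) (hI : ∀ n, Intr h κ ψ B (e n) (s n))
    (hS : ∀ ε > 0, ∀ K ⊆ Wg (a + g), IsCompact K → ∀ K' ⊆ Wg a, IsCompact K' →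
      ∀ᶠ n in atTop, SlowAt ε K K' ψ (fun q => φ (bl (e n) (s n) q))
        (fun q => p (bl (e n) (s n) q)) (fun q => B (bl (e n) (s n) q)))
    {om : ℕ → ℝ} (hom : ∀ n, 0 < om n) {g' : ℝ} (hg' : 0 < g') (hgg : g' ≤ g)
    (hloc : ∀ K ⊆ Wg (a + g'), IsCompact K → ∃ M : ℝ, ∀ᶠ n in atTop, ∀ q ∈ K,
      ‖φ (bl (e n) (s n) q) - φ (bl (e n) (s n) z0)‖ ≤ M * om n)
    {th C : ℝ} (hth : 0 ≤ th) (hth1 : th < 1)
    (hgrow : ∀ q : ℂ × ℂ, 1 ≤ q.2.im → q.1.im ≤ (a + g' / 2) * q.2.im →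
      ‖q.1‖ ≤ (|a| + g') * q.2.im → ‖q.2‖ ≤ q.2.im →
      ∀ᶠ n in atTop, ‖φ (bl (e n) (s n) q) - φ (bl (e n) (s n) z0)‖ ≤ C * om n * q.2.im ^ th)
    {K0 : Set (ℂ × ℂ)} (hK0 : IsCompact K0) (hK0s : K0 ⊆ Wg a)
    (hosc : ∃ c > 0, ∀ᶠ n in atTop, ∃ q ∈ K0, ∃ q' ∈ K0,
      c * om n ≤ ‖φ (bl (e n) (s n) q) - φ (bl (e n) (s n) q')‖) : False := by
  obtain ⟨N, hN⟩ := eventually_atTop.1 (ev_Dp (s₀ := s₀) hE.d_pos hu he hs hs0)
  have hT : Tendsto (fun n : ℕ => n + N) atTop atTop := tendsto_add_atTop_nat N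
  set e' : ℕ → ℝ × ℝ := fun n => e (n + N) with he'
  set s' : ℕ → ℝ := fun n => s (n + N) with hs'
  have hm : ∀ n, ∀ q ∈ closedBall z0 (1 / 10 : ℝ), bl (e' n) (s' n) q ∈ Dp u0 R d :=
    fun n => hN (n + N) (Nat.le_add_left _ _)
  have hz : z0 ∈ closedBall z0 (1 / 10 : ℝ) := mem_closedBall_self (by norm_num)
  have hW : World h a g ψ H (A u) (φN φ e' s') (fun n q => p (bl (e' n) (s' n) q))
      (BN B e' s') :=
    World150.toWorld u0 R d h ψ H A φ p B X L hE u s₀ a g e' s' (fun n => ρ (n + N))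
      (fun n => η (n + N)) hu hu0 ha hg (he.comp hT) (fun n => hs _) (hs0.comp hT)
      (fun n => hρ _) (hρ0.comp hT) (fun n => hη _) (hsη.comp hT) (fun n => hE2 _)
  refine SW h a g κ ψ H (A u) (φN φ e' s') (fun n q => p (bl (e' n) (s' n) q)) (BN B e' s') hκ hW
    (intrW' hE hm fun n => hI _) (fun n => BN_bd n) ?_ (fun n => om (n + N)) (fun n => hom _)
    g' hg' hgg ?_ th C hth hth1 ?_ K0 hK0 hK0s ?_
  · intro ε hε K hK hKc K' hK' hKc'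
    have h1 := hT.eventually (hS ε hε K hK hKc K' hK' hKc')
    filter_upwards [h1] with n hn
    exact slowAt_norm hE n (hm n z0 hz) hn
  · intro K hK hKc
    obtain ⟨M, hM⟩ := hloc K hK hKc
    refine ⟨M, ?_⟩
    filter_upwards [hT.eventually hM] with n hn q hq
    rw [φN_sub]
    exact hn q hq
  · intro q h1 h2 h3 h4
    filter_upwards [hT.eventually (hgrow q h1 h2 h3 h4)] with n hn
    rw [φN_sub]
    exact hn
  · obtain ⟨c, hc, h1⟩ := hosc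
    refine ⟨c, hc, ?_⟩
    filter_upwards [hT.eventually h1] with n hn
    obtain ⟨q, hq, q', hq', h2⟩ := hn
    refine ⟨q, hq, q', hq', ?_⟩
    rw [φN_sub]
    exact h2

/-! ### base shift -/

/-- real lateral translates of a compact set -/
def Tr (K : Set (ℂ × ℂ)) : Set (ℂ × ℂ) :=
  (fun x : (ℂ × ℂ) × ℝ => (x.1.1, x.1.2 + (x.2 : ℂ))) '' (K ×ˢ Icc (-1 : ℝ) 1)

lemma Tr_compact {K : Set (ℂ × ℂ)} (hK : IsCompact K) : IsCompact (Tr K) := by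
  refine (hK.prod isCompact_Icc).image ?_
  fun_prop

lemma mem_Tr {K : Set (ℂ × ℂ)} {q : ℂ × ℂ} {t : ℝ} (hq : q ∈ K) (ht : |t| ≤ 1) :
    (q.1, q.2 + (t : ℂ)) ∈ Tr K :=
  ⟨(q, t), ⟨hq, abs_le.1 ht⟩, rfl⟩

lemma Tr_sub {m : ℝ} {K : Set (ℂ × ℂ)} (hK : K ⊆ Wg m) : Tr K ⊆ Wg m := by
  rintro _ ⟨⟨q, t⟩, ⟨hq, -⟩, rfl⟩
  obtain ⟨h1, h2⟩ := hK hq
  refine ⟨?_, ?_⟩
  · simpa using h1
  · simpa using h2

lemma z0_Wg {m : ℝ} (hm : 0 ≤ m) : z0 ∈ Wg m := by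
  refine ⟨by simp [z0], ?_⟩
  have : z0.1.im = -1 := by simp [z0]
  rw [this]
  have h2 : z0.2.im = 1 / 4 := by simp [z0]
  rw [h2]
  nlinarith

/-- **THE WORLD END OF NoRec**: record centres `c n`, bases `e n = c n + (0, r n s n)` -/
theorem norec_end (SW : SlowWorld) (hE : ED u0 R d h ψ H A φ p B X L)
    (hu : u ∈ Ioo (u0 - R) (u0 + R)) (hu0 : u ≠ 0) (ha : 0 ≤ a) (hg : 0 < g) (hκ : 0 < κ)
    (he : Tendsto e atTop (𝓝 (s₀, u))) (hs : ∀ n, 0 < s n) (hs0 : Tendsto s atTop (𝓝 0))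
    (hρ : ∀ n, 0 < ρ n) (hρ0 : Tendsto ρ atTop (𝓝 0)) (hη : ∀ n, 0 < η n)
    (hsη : Tendsto (fun n => s n / η n) atTop (𝓝 0))
    (hE2 : ∀ n, E2 X L a g (ρ n) (η n) (e n)) (hI : ∀ n, Intr h κ ψ B (e n) (s n))
    (hS : ∀ ε > 0, ∀ K ⊆ Wg (a + g), IsCompact K → ∀ K' ⊆ Wg a, IsCompact K' →
      ∀ᶠ n in atTop, SlowAt ε K K' ψ (fun q => φ (bl (e n) (s n) q))
        (fun q => p (bl (e n) (s n) q)) (fun q => B (bl (e n) (s n) q)))
    {c : ℕ → ℝ × ℝ} {r : ℕ → ℝ} (hr : ∀ n, |r n| ≤ 1)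
    (hec : ∀ n, e n = ((c n).1, (c n).2 + r n * s n))
    {om : ℕ → ℝ} (hom : ∀ n, 0 < om n) {g' : ℝ} (hg' : 0 < g') (hgg : g' ≤ g)
    {th : ℝ} (hth : 0 ≤ th) (hth1 : th < 1)
    (hgrow : ∀ K ⊆ Wg (a + g'), IsCompact K → ∃ M : ℝ, ∀ y : ℝ, 1 ≤ y → ∀ᶠ n in atTop,
      ∀ q ∈ K, ‖φ (bl (c n) (s n) ((y : ℂ) * q.1, (y : ℂ) * q.2)) - φ (ray (c n) (s n))‖ ≤
        M * om n * y ^ th)
    {K0 : Set (ℂ × ℂ)} (hK0 : IsCompact K0) (hK0s : K0 ⊆ Wg a)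
    (hosc : ∃ c0 > 0, ∀ᶠ n in atTop, ∃ q ∈ K0,
      c0 * om n ≤ ‖φ (bl (c n) (s n) q) - φ (ray (c n) (s n))‖) : False := by
  have hray : ∀ n, ray (c n) (s n) = bl (c n) (s n) z0 := by
    intro n
    simp [ray, bl, z0]
  have hbl : ∀ n (q : ℂ × ℂ), bl (e n) (s n) q = bl (c n) (s n) (q.1, q.2 + (r n : ℂ)) := by
    intro n q
    rw [hec n]
    simp only [bl]
    push_cast
    ring_nf
  have hbl' : ∀ n (q : ℂ × ℂ), bl (c n) (s n) q = bl (e n) (s n) (q.1, q.2 + ((-r n : ℝ) : ℂ)) := by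
    intro n q
    rw [hbl]
    congr 1
    simp
  have hz0 : z0 ∈ Wg (a + g') := z0_Wg (by linarith)
  have hKz : ∀ K ⊆ Wg (a + g'), K ∪ {z0} ⊆ Wg (a + g') := fun K hK =>
    union_subset hK (singleton_subset_iff.2 hz0)
  -- one estimate
  have hone : ∀ K ⊆ Wg (a + g'), IsCompact K → ∃ M : ℝ, 0 ≤ M ∧ ∀ y : ℝ, 1 ≤ y →
      ∀ᶠ n in atTop, ∀ q ∈ K, ‖φ (bl (e n) (s n) ((y : ℂ) * q.1, (y : ℂ) * q.2)) -
        φ (bl (e n) (s n) z0)‖ ≤ M * om n * y ^ th := by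
    intro K hK hKc
    obtain ⟨M, hM⟩ := hgrow (Tr (K ∪ {z0})) (Tr_sub (hKz K hK))
      (Tr_compact (hKc.union isCompact_singleton))
    refine ⟨2 * max M 0, by positivity, fun y hy => ?_⟩
    filter_upwards [hM y hy, hM 1 le_rfl] with n hn hn1 q hq
    have hy0 : 0 < y := by linarith
    have hyc : (y : ℂ) ≠ 0 := by exact_mod_cast hy0.ne'
    have hyth : 1 ≤ y ^ th := Real.one_le_rpow hy hth
    have h1 := hn (q.1, q.2 + ((r n / y : ℝ) : ℂ)) (mem_Tr (Or.inl hq) (by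
      rw [abs_div, abs_of_pos hy0]
      exact (div_le_one hy0).2 ((hr n).trans hy)))
    have e1 : ((y : ℂ) * (q.1, q.2 + ((r n / y : ℝ) : ℂ)).1,
        (y : ℂ) * (q.1, q.2 + ((r n / y : ℝ) : ℂ)).2) =
        (((y : ℂ) * q.1, (y : ℂ) * q.2).1, ((y : ℂ) * q.1, (y : ℂ) * q.2).2 + (r n : ℂ)) := by
      refine Prod.ext rfl ?_
      show (y : ℂ) * (q.2 + ((r n / y : ℝ) : ℂ)) = (y : ℂ) * q.2 + r n
      push_cast
      field_simp
    rw [e1, ← hbl] at h1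
    have h2 := hn1 (z0.1, z0.2 + ((r n : ℝ) : ℂ)) (mem_Tr (Or.inr rfl) (hr n))
    have e2 : (((1 : ℝ) : ℂ) * (z0.1, z0.2 + ((r n : ℝ) : ℂ)).1,
        ((1 : ℝ) : ℂ) * (z0.1, z0.2 + ((r n : ℝ) : ℂ)).2) = (z0.1, z0.2 + (r n : ℂ)) := by
      simp
    rw [e2, ← hbl, Real.one_rpow, mul_one] at h2
    have h3 : φ (bl (e n) (s n) ((y : ℂ) * q.1, (y : ℂ) * q.2)) - φ (bl (e n) (s n) z0) =
        (φ (bl (e n) (s n) ((y : ℂ) * q.1, (y : ℂ) * q.2)) - φ (ray (c n) (s n))) -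
          (φ (bl (e n) (s n) z0) - φ (ray (c n) (s n))) := by ring
    rw [h3]
    refine (norm_sub_le _ _).trans ((add_le_add h1 h2).trans ?_)
    have h4 : M * om n * y ^ th ≤ max M 0 * om n * y ^ th := by
      have := hom n
      gcongr
      exact le_max_left _ _
    have h5 : M * om n ≤ max M 0 * om n * y ^ th := by
      have := hom n
      calc M * om n ≤ max M 0 * om n := by gcongr; exact le_max_left _ _
        _ ≤ max M 0 * om n * y ^ th := le_mul_of_one_le_right (by positivity) hyth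
    linarith
  -- the compact set of growth directions
  set KG : Set (ℂ × ℂ) := {q | q.2.im = 1 ∧ q.1.im ≤ a + g' / 2 ∧ ‖q.1‖ ≤ |a| + g' ∧ ‖q.2‖ ≤ 1}
    with hKG
  have hKGc : IsCompact KG := by
    refine (isCompact_closedBall (0 : ℂ × ℂ) (|a| + g' + 1)).of_isClosed_subset ?_ ?_
    · have c1 : Continuous fun q : ℂ × ℂ => q.2.im := by fun_prop
      have c2 : Continuous fun q : ℂ × ℂ => q.1.im := by fun_prop
      have c3 : Continuous fun q : ℂ × ℂ => ‖q.1‖ := by fun_prop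
      have c4 : Continuous fun q : ℂ × ℂ => ‖q.2‖ := by fun_prop
      exact (isClosed_eq c1 continuous_const).inter ((isClosed_le c2 continuous_const).inter
        ((isClosed_le c3 continuous_const).inter (isClosed_le c4 continuous_const)))
    · rintro q ⟨-, -, h3, h4⟩
      rw [mem_closedBall, dist_zero_right, Prod.norm_def]
      have := abs_nonneg a
      exact max_le (by linarith) (by linarith)
  have hKGs : KG ⊆ Wg (a + g') := by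
    rintro q ⟨h1, h2, -, -⟩
    refine ⟨by rw [h1]; norm_num, by rw [h1]; linarith⟩
  obtain ⟨MG, hMG0, hMG⟩ := hone KG hKGs hKGc
  refine norec_raw SW hE hu hu0 ha hg hκ he hs hs0 hρ hρ0 hη hsη hE2 hI hS hom hg' hgg
    (th := th) (C := MG) ?_ hth hth1 ?_ (K0 := Tr (K0 ∪ {z0}))
    (Tr_compact (hK0.union isCompact_singleton))
    (Tr_sub (union_subset hK0s (singleton_subset_iff.2 (z0_Wg ha)))) ?_
  · intro K hK hKc
    obtain ⟨M, -, hM⟩ := hone K hK hKc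
    refine ⟨M, ?_⟩
    filter_upwards [hM 1 le_rfl] with n hn q hq
    have h1 := hn q hq
    simpa using h1
  · intro q h1 h2 h3 h4
    have hy0 : 0 < q.2.im := by linarith
    have hyc : (q.2.im : ℂ) ≠ 0 := by exact_mod_cast hy0.ne'
    filter_upwards [hMG q.2.im h1] with n hn
    have hq' : (q.1 / (q.2.im : ℂ), q.2 / (q.2.im : ℂ)) ∈ KG := by
      refine ⟨?_, ?_, ?_, ?_⟩
      · show (q.2 / (q.2.im : ℂ)).im = 1
        rw [Complex.div_ofReal_im, div_self hy0.ne']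
      · show (q.1 / (q.2.im : ℂ)).im ≤ a + g' / 2
        rw [Complex.div_ofReal_im, div_le_iff₀ hy0]
        exact h2
      · show ‖q.1 / (q.2.im : ℂ)‖ ≤ |a| + g'
        rw [norm_div, Complex.norm_real, Real.norm_eq_abs, abs_of_pos hy0, div_le_iff₀ hy0]
        exact h3
      · show ‖q.2 / (q.2.im : ℂ)‖ ≤ 1
        rw [norm_div, Complex.norm_real, Real.norm_eq_abs, abs_of_pos hy0, div_le_one hy0]
        exact h4
    have h5 := hn _ hq'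
    have e1 : ((q.2.im : ℂ) * (q.1 / (q.2.im : ℂ), q.2 / (q.2.im : ℂ)).1,
        (q.2.im : ℂ) * (q.1 / (q.2.im : ℂ), q.2 / (q.2.im : ℂ)).2) = q := by
      refine Prod.ext ?_ ?_
      · exact mul_div_cancel₀ _ hyc
      · exact mul_div_cancel₀ _ hyc
    rw [e1] at h5
    exact h5
  · obtain ⟨c0, hc0, h1⟩ := hosc
    refine ⟨c0, hc0, ?_⟩
    filter_upwards [h1] with n hn
    obtain ⟨q, hq, h2⟩ := hn
    refine ⟨(q.1, q.2 + ((-r n : ℝ) : ℂ)), mem_Tr (Or.inl hq) (by rw [abs_neg]; exact hr n),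
      (z0.1, z0.2 + ((-r n : ℝ) : ℂ)), mem_Tr (Or.inr rfl) (by rw [abs_neg]; exact hr n), ?_⟩
    rw [← hbl', ← hbl', ← hray]
    exact h2

end Crest.Agent.R102.NoRecW203
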