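import Crest.Agent.R102.LimK_654
import Crest.Agent.R102.NoRecW_203

/-!
Row 102, T1-B, EDGE / SLOW (helper654): `NoRecW203.SlowWorld` (= helper575's `slowWorld`) is a theorem.
-/

set_option autoImplicit false

open Set Filter Topology Metric Complex

noncomputable section

namespace Crest.Agent.R102.LimK654

open Crest.Agent.R102.Edge255
open Crest.Agent.R102.T5 (Str isOpen_Str)
open Crest.Agent.R102.B821 (q1 q2)

variable {h a g : ℝ} {ψ H : ℂ → ℂ} {A0 : ℂ} {φ p B : ℕ → ℂ × ℂ → ℂ}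

theorem cos_turn (x : ℂ) (m : ℤ) : Complex.cos (x - 2 * Real.pi * m) = Complex.cos x := by
  have e : x - 2 * Real.pi * m = x - m * (2 * Real.pi) := by ring
  rw [e, Complex.cos_sub_int_mul_two_pi]

theorem sin_turn (x : ℂ) (m : ℤ) : Complex.sin (x - 2 * Real.pi * m) = Complex.sin x := by
  have e : x - 2 * Real.pi * m = x - m * (2 * Real.pi) := by ring
  rw [e, Complex.sin_sub_int_mul_two_pi]

/-- full turns of the lines -/
theorem world_turn (W : World h a g ψ H A0 φ p B) (m : ℕ → ℤ) :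
    World h a g ψ H A0 (fun n q => φ n q - 2 * Real.pi * m n) p B := by
  obtain ⟨J, k, hJ, hJ0, hk, harea⟩ := W.area
  refine ⟨W.a_nonneg, W.g_pos, W.A0_ne, W.curve, ?_, ?_, ⟨J, k, hJ, hJ0, hk, ?_⟩, W.births⟩
  · intro K hK hKc
    filter_upwards [W.regL K hK hKc] with n hn
    obtain ⟨U, hU, hKU, h1, h2⟩ := hn
    exact ⟨U, hU, hKU, h1.sub_const _, h2⟩
  · intro K hK hKc
    filter_upwards [W.regX K hK hKc] with n hn
    obtain ⟨U, hU, hKU, h1, h2⟩ := hn
    refine ⟨U, hU, hKU, h1, fun q hq => ?_⟩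
    obtain ⟨h3, h4, h5⟩ := h2 q hq
    have e : φ n q - 2 * Real.pi * m n - ψ (B n q) = (φ n q - ψ (B n q)) - 2 * Real.pi * m n := by
      ring
    refine ⟨h3, ?_, fun hy => ?_⟩
    · unfold F300.Inc at h4 ⊢
      rw [e, cos_turn, sin_turn]
      exact h4
    · rw [e, sin_turn]
      exact h5 hy
  · intro K hK hKc
    filter_upwards [harea K hK hKc] with n hn q hq
    have h1 := hn q hq
    have e : fderiv ℂ (fun q => φ n q - 2 * Real.pi * (m n : ℂ)) q = fderiv ℂ (φ n) q := by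
      rw [fderiv_sub_const]
    simp only [q1, q2] at h1 ⊢
    rw [e]
    exact h1

/-- **`SlowWorld`** -/
theorem slowWorldP : NoRecW203.SlowWorld := by
  intro h a g κ ψ H A0 φ p B hκ W hI hre hslow om hom g' hg' hgg hloc th C hth0 hth hgrow K0 hK0
    hK0s hosc
  let m : ℕ → ℤ := fun n => ⌊(φ n z0).re / (2 * Real.pi)⌋
  have hdiff : ∀ n q q', (φ n q - 2 * Real.pi * m n) - (φ n q' - 2 * Real.pi * m n) =
      φ n q - φ n q' := fun n q q' => by ring
  refine slowWorld (C := C) (world_turn W m) hκ hI hre ?_ ?_ hom hg' hgg ?_ hth0 hth ?_ hK0 hK0s ?_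
  · intro ε hε K hK hKc K' hK' hKc'
    filter_upwards [hslow ε hε K hK hKc K' hK' hKc'] with n hn
    refine ⟨fun q hq => ⟨?_, (hn.1 q hq).2⟩, hn.2⟩
    have e : 2 * I * (φ n q - 2 * Real.pi * m n - ψ (B n z0)) =
        2 * I * (φ n q - ψ (B n z0)) + ((-2 * m n : ℤ) : ℂ) * (2 * Real.pi * I) := by
      push_cast
      ring
    rw [e, Complex.exp_periodic.int_mul]
    exact (hn.1 q hq).1
  · refine ⟨2 * Real.pi, Eventually.of_forall fun n => ?_⟩
    have hpi : 0 < 2 * Real.pi := by positivity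
    have e : (φ n z0 - 2 * Real.pi * m n).re = (φ n z0).re - 2 * Real.pi * m n := by
      simp
    have h1 := Int.floor_le ((φ n z0).re / (2 * Real.pi))
    have h2 := Int.lt_floor_add_one ((φ n z0).re / (2 * Real.pi))
    rw [le_div_iff₀ hpi] at h1
    rw [div_lt_iff₀ hpi] at h2
    rw [e, abs_le]
    refine ⟨?_, ?_⟩
    · have : (m n : ℝ) * (2 * Real.pi) ≤ (φ n z0).re := h1
      linarith
    · have : (φ n z0).re < ((m n : ℝ) + 1) * (2 * Real.pi) := h2
      linarith
  · intro K hK hKc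
    obtain ⟨M, hM⟩ := hloc K hK hKc
    refine ⟨M, ?_⟩
    filter_upwards [hM] with n hn q hq
    rw [hdiff]
    exact hn q hq
  · intro q h1 h2 h3 h4
    filter_upwards [hgrow q h1 h2 h3 h4] with n hn
    rw [hdiff]
    exact hn
  · obtain ⟨c, hc, h1⟩ := hosc
    refine ⟨c, hc, ?_⟩
    filter_upwards [h1] with n hn
    obtain ⟨q, hq, q', hq', h2⟩ := hn
    refine ⟨q, hq, q', hq', ?_⟩
    rw [hdiff]
    exact h2

end Crest.Agent.R102.LimK654
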