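import Crest.Agent.R102.EdgeC4_300
import Crest.Agent.R102.SlowS_486
import Crest.Agent.R102.SlowLim_575

/-!
Row 102, T1-B, EDGE, slow regime (helper575): the END of the record theorem (N), on worlds.

`slowWorld` : a world which collapses (`SlowAt`, all `ε`, all compacts), whose angles, normalised by
`om n`, are bounded on compacts of a wedge `Wg (a + g')`, have growth `th < 1`, and oscillate below
the face: impossible. (Lemma X for `m = (φ - φ(z0)) / om`, `D = p - hs(φ)`, then Liouville.)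
-/

set_option autoImplicit false
set_option linter.unusedVariables false

open Set Filter Topology Metric Complex

noncomputable section

namespace Crest.Agent.R102.Slow575

open Crest.Agent.R102.Edge255
open Crest.Agent.R102.EdgeLim196 (Lo Fc Sp isOpen_Lo isOpen_Sp)
open Crest.Agent.R102.Tang654 (Chart hsf Ef)
open Crest.Agent.R102.EdgeC300
open Crest.Agent.R102.Liou203 (Gam)
open Crest.Agent.R102.B821 (q1 q2)

/-- Lemma X (262) in the form of `slow_limit` -/
theorem lemX_holds {ι : Type} (l : Filter ι) [l.NeBot] : LemX l := by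
  intro s0 z0 r hr m D k mu kap h1 h2 h3 h4 h5 h6 h7
  exact LemX262.lemX_ball (h1.mono fun _ h => h.1) (h1.mono fun _ h => h.2) h2 h3 h4 h5 h6 h7

theorem exists_lim {s : Set ℂ} (hs : IsCompact s) {f : ℕ → ℂ} (u : Ultrafilter ℕ)
    (hf : ∀ᶠ n in (u : Filter ℕ), f n ∈ s) : ∃ x ∈ s, Tendsto f (u : Filter ℕ) (𝓝 x) := by
  obtain ⟨x, hx, h⟩ := hs.ultrafilter_le_nhds' (u.map f) hf
  exact ⟨x, hx, h⟩

theorem lu_const {O : Set (ℂ × ℂ)} (hO : IsOpen O) {f : ℕ → ℂ × ℂ → ℂ} {c : ℂ} {l : Filter ℕ}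
    (h1 : Tendsto (fun n => f n z0) l (𝓝 c))
    (h2 : ∀ K ⊆ O, IsCompact K → ∀ ε > 0, ∀ᶠ n in l, ∀ q ∈ K, ‖f n q - f n z0‖ ≤ ε) :
    TendstoLocallyUniformlyOn f (fun _ => c) l O := by
  refine (tendstoLocallyUniformlyOn_iff_forall_isCompact hO).2 fun K hK hKc => ?_
  rw [Metric.tendstoUniformlyOn_iff]
  intro ε hε
  have h3 := (Metric.tendsto_nhds.1 h1) (ε / 2) (by positivity)
  filter_upwards [h3, h2 K hK hKc (ε / 4) (by positivity)] with n hn1 hn2 q hq
  have h4 := hn2 q hq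
  rw [dist_comm]
  calc dist (f n q) c ≤ dist (f n q) (f n z0) + dist (f n z0) c := dist_triangle _ _ _
    _ < ε := by
      rw [dist_eq_norm (f n q)]
      linarith

theorem convex_Wg (m : ℝ) : Convex ℝ (Wg m) := by
  intro x hx y hy s t hs ht hst
  have hx1 := hx.1
  have hx2 := hx.2
  have hy1 := hy.1
  have hy2 := hy.2
  have e1 : (s • x + t • y).2.im = s * x.2.im + t * y.2.im := by simp
  have e2 : (s • x + t • y).1.im = s * x.1.im + t * y.1.im := by simp
  refine ⟨?_, ?_⟩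
  · rw [e1]
    rcases eq_or_lt_of_le hs with h | h
    · have : t = 1 := by linarith
      rw [← h, this]; linarith
    · have := mul_pos h hx1
      have := mul_nonneg ht hy1.le
      linarith
  · show (s • x + t • y).1.im < m * (s • x + t • y).2.im
    rw [e1, e2]
    rcases eq_or_lt_of_le hs with h | h
    · have : t = 1 := by linarith
      rw [← h, this]; linarith
    · have h1 := mul_pos h (sub_pos.2 hx2)
      have h2 := mul_nonneg ht (sub_pos.2 hy2).le
      nlinarith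

theorem ball_z0_sub {a : ℝ} (ha : 0 ≤ a) : closedBall z0 (1 / 10) ⊆ Wg a := by
  intro q hq
  rw [mem_closedBall, Prod.dist_eq] at hq
  have h1 := (le_max_left _ _).trans hq
  have h2 := (le_max_right _ _).trans hq
  rw [dist_eq_norm] at h1 h2
  have h3 := (abs_im_le_norm _).trans h1
  have h4 := (abs_im_le_norm _).trans h2
  have e3 : (q.1 - z0.1).im = q.1.im + 1 := by simp [z0]
  have e4 : (q.2 - z0.2).im = q.2.im - 1 / 4 := by
    have : (I / 4 : ℂ).im = 1 / 4 := by norm_num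
    simp [z0, this]
  rw [e3] at h3
  rw [e4] at h4
  have h5 := abs_le.1 h3
  have h6 := abs_le.1 h4
  have h7 : 0 < q.2.im := by linarith
  have h8 : 0 ≤ a * q.2.im := mul_nonneg ha h7.le
  exact ⟨h7, by linarith⟩

theorem z0_mem_Wg {a : ℝ} (ha : 0 ≤ a) : z0 ∈ Wg a :=
  ball_z0_sub ha (mem_closedBall_self (by norm_num))

/-- change of the normalisation of the angle -/
theorem world_shift {h a g : ℝ} {ψ H : ℂ → ℂ} {A0 : ℂ} {φ p B : ℕ → ℂ × ℂ → ℂ}
    (W : World h a g ψ H A0 φ p B) (m : ℕ → ℤ) :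
    World h a g ψ H A0 (fun n q => φ n q - 2 * Real.pi * m n) p B where
  a_nonneg := W.a_nonneg
  g_pos := W.g_pos
  A0_ne := W.A0_ne
  curve := W.curve
  regL := by
    intro K hK hKc
    filter_upwards [W.regL K hK hKc] with n hn
    obtain ⟨U, hU, hKU, h1, h2⟩ := hn
    exact ⟨U, hU, hKU, h1.sub_const _, h2⟩
  regX := by
    intro K hK hKc
    filter_upwards [W.regX K hK hKc] with n hn
    obtain ⟨U, hU, hKU, h1, h2⟩ := hn
    refine ⟨U, hU, hKU, h1, fun q hq => ?_⟩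
    obtain ⟨h3, h4, h5⟩ := h2 q hq
    have e : φ n q - 2 * Real.pi * m n - ψ (B n q) =
        (φ n q - ψ (B n q)) - (m n : ℂ) * (2 * Real.pi) := by ring
    refine ⟨h3, ?_, ?_⟩
    · unfold F300.Inc at h4 ⊢
      rw [e, Complex.cos_sub_int_mul_two_pi, Complex.sin_sub_int_mul_two_pi]
      exact h4
    · intro h6
      rw [e, Complex.sin_sub_int_mul_two_pi]
      exact h5 h6
  area := by
    obtain ⟨J, k, h1, h2, h3, h4⟩ := W.area
    refine ⟨J, k, h1, h2, h3, fun K hK hKc => ?_⟩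
    filter_upwards [h4 K hK hKc] with n hn q hq
    have e1 : q1 (fun q => φ n q - 2 * Real.pi * m n) q = q1 (φ n) q := by
      unfold q1
      rw [fderiv_sub_const]
    have e2 : q2 (fun q => φ n q - 2 * Real.pi * m n) q = q2 (φ n) q := by
      unfold q2
      rw [fderiv_sub_const]
    rw [e1, e2]
    exact hn q hq
  births := W.births

/-- the theorem for normalised angles -/
theorem slowWorld_norm {h a g κ : ℝ} {ψ H : ℂ → ℂ} {A0 : ℂ} {φ p B : ℕ → ℂ × ℂ → ℂ} (hκ : 0 < κ)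
    (W : World h a g ψ H A0 φ p B) (hI : IntrW h κ ψ B)
    (hre : ∀ n, 0 ≤ (B n z0).re ∧ (B n z0).re ≤ 1) (hφre : ∀ n, |(φ n z0).re| ≤ 2 * Real.pi)
    (hS : ∀ ε > 0, ∀ K ⊆ Wg (a + g), IsCompact K → ∀ K' ⊆ Wg a, IsCompact K' →
      ∀ᶠ n in atTop, SlowAt ε K K' ψ (φ n) (p n) (B n))
    {om : ℕ → ℝ} (hom : ∀ n, 0 < om n) {g' : ℝ} (hg' : 0 < g') (hg'g : g' ≤ g)
    (hloc : ∀ K ⊆ Wg (a + g'), IsCompact K → ∃ M : ℝ, ∀ᶠ n in atTop, ∀ q ∈ K,
      ‖φ n q - φ n z0‖ ≤ M * om n)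
    {th C : ℝ} (hth0 : 0 ≤ th) (hth : th < 1)
    (hgrow : ∀ q : ℂ × ℂ, 1 ≤ q.2.im → q.1.im ≤ (a + g' / 2) * q.2.im →
      ‖q.1‖ ≤ (|a| + g') * q.2.im → ‖q.2‖ ≤ q.2.im →
      ∀ᶠ n in atTop, ‖φ n q - φ n z0‖ ≤ C * om n * q.2.im ^ th)
    {K0 : Set (ℂ × ℂ)} (hK0 : IsCompact K0) (hK0s : K0 ⊆ Wg a)
    (hosc : ∃ c > 0, ∀ᶠ n in atTop, ∃ q ∈ K0, ∃ q' ∈ K0, c * om n ≤ ‖φ n q - φ n q'‖) : False := by
  have ha := W.a_nonneg
  have hg := W.g_pos
  have hψd : DifferentiableOn ℂ ψ (Sp h) := W.curve.ψ_diff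
  have hHd : DifferentiableOn ℂ H (Sp h) := W.curve.H_diff
  have hrel : F300.Rel (Sp h) ψ H (-1) := W.curve.rel
  have hψp : ∀ b ∈ Sp h, ψ (b + 1) = ψ b + 2 * Real.pi * ((1 : ℤ) : ℂ) := by
    intro b hb
    rw [W.curve.ψ_per b hb]; simp
  have hz0a : z0 ∈ Wg a := z0_mem_Wg ha
  have hsub : Wg a ⊆ Wg (a + g) := Lo_sub hg
  have hsub' : Wg (a + g') ⊆ Wg (a + g) := by
    intro q hq
    refine ⟨hq.1, hq.2.trans_le ?_⟩
    have := hq.1
    nlinarith
  have hz0g : z0 ∈ Wg (a + g) := hsub hz0a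
  set u : Ultrafilter ℕ := Ultrafilter.of (atTop : Filter ℕ) with hudef
  have hu : (u : Filter ℕ) ≤ atTop := Ultrafilter.of_le _
  -- the three collapses
  have cφ : ∀ K ⊆ Wg (a + g), IsCompact K → ∀ ε > 0, ∀ᶠ n in atTop, ∀ q ∈ K,
      ‖φ n q - φ n z0‖ ≤ ε := by
    intro K hK hKc ε hε
    obtain ⟨T, hT, hKT, hTc, hTp⟩ := exists_star (convex_Wg (a + g)) (K := K ∪ {z0})
      (union_subset hK (singleton_subset_iff.2 hz0g)) (hKc.union isCompact_singleton)
    have hε' : 0 < min (ε / 2) (1 / 2) := lt_min (by positivity) (by norm_num)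
    filter_upwards [hS _ hε' T hT hTc ∅ (empty_subset _) isCompact_empty,
      W.regL T hT hTc] with n hn hr q hq
    obtain ⟨U, hU, hTU, h1, -⟩ := hr
    have hc : ContinuousOn (fun q => φ n q - ψ (B n z0)) T :=
      ((h1.mono hTU).continuousOn).sub continuousOn_const
    obtain ⟨m, hm⟩ := SlowS.branch hTp hc (min_le_right _ _) (fun q hq => (hn.1 q hq).1)
    have h2 := hm q (hKT (Or.inl hq))
    have h3 := hm z0 (hKT (Or.inr rfl))
    have e : φ n q - φ n z0 = (φ n q - ψ (B n z0) - m * Real.pi) -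
        (φ n z0 - ψ (B n z0) - m * Real.pi) := by ring
    rw [e]
    have h4 := norm_sub_le (φ n q - ψ (B n z0) - m * Real.pi) (φ n z0 - ψ (B n z0) - m * Real.pi)
    have h5 := min_le_left (ε / 2) (1 / 2 : ℝ)
    linarith
  have cp : ∀ K ⊆ Wg (a + g), IsCompact K → ∀ ε > 0, ∀ᶠ n in atTop, ∀ q ∈ K,
      ‖p n q - p n z0‖ ≤ ε := by
    intro K hK hKc ε hε
    filter_upwards [hS ε hε K hK hKc ∅ (empty_subset _) isCompact_empty] with n hn q hq
    exact (hn.1 q hq).2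
  have cB : ∀ K ⊆ Wg a, IsCompact K → ∀ ε > 0, ∀ᶠ n in atTop, ∀ q ∈ K,
      ‖B n q - B n z0‖ ≤ ε := by
    intro K hK hKc ε hε
    filter_upwards [hS ε hε ∅ (empty_subset _) isCompact_empty K hK hKc] with n hn q hq
    exact hn.2 q hq
  -- the label
  obtain ⟨b1, hb1, hbt⟩ := exists_lim (s := Icc (0 : ℝ) 1 ×ℂ Icc (-(h - κ)) (h - κ))
    (isCompact_Icc.reProdIm isCompact_Icc) (f := fun n => B n z0) u (Eventually.of_forall fun n =>
      ⟨⟨(hre n).1, (hre n).2⟩, abs_le.1 (hI n).1⟩)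
  have hb1im : |b1.im| < h := by
    have := abs_le.2 hb1.2
    exact lt_of_le_of_lt this (by linarith)
  have hSo := (isOpen_Sp h).mem_nhds (show b1 ∈ Sp h from hb1im)
  have cψ : ContinuousAt ψ b1 := (hψd.differentiableAt hSo).continuousAt
  have cH : ContinuousAt H b1 := (hHd.differentiableAt hSo).continuousAt
  have cψ' : ContinuousAt (deriv ψ) b1 :=
    ((hψd.deriv (isOpen_Sp h)).differentiableAt hSo).continuousAt
  have cH' : ContinuousAt (deriv H) b1 :=
    ((hHd.deriv (isOpen_Sp h)).differentiableAt hSo).continuousAt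
  have hy : deriv ψ b1 ≠ 0 := by
    intro h0
    have h1 : ∀ᶠ b in 𝓝 b1, ‖deriv ψ b‖ < κ := by
      have h2 := cψ'.norm
      rw [ContinuousAt, h0, norm_zero] at h2
      exact h2.eventually (gt_mem_nhds hκ)
    obtain ⟨η, hη, h2⟩ := Metric.eventually_nhds_iff.1 h1
    have h3 := (Metric.tendsto_nhds.1 hbt) (η / 2) (by positivity)
    have h4 := hu (cB _ (ball_z0_sub ha) (isCompact_closedBall _ _) (η / 4) (by positivity))
    obtain ⟨n, hn3, hn4⟩ := (h3.and h4).exists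
    obtain ⟨q, hq, hq2⟩ := (hI n).2
    have h5 := hn4 q hq
    have h6 : dist (B n q) b1 < η := by
      refine (dist_triangle _ (B n z0) _).trans_lt ?_
      rw [dist_eq_norm (B n q)]
      linarith
    exact absurd hq2 (not_le.2 (h2 h6))
  -- the angle
  have hψt : Tendsto (fun n => ψ (B n z0)) (u : Filter ℕ) (𝓝 (ψ b1)) := cψ.tendsto.comp hbt
  have hexp : Tendsto (fun n => cexp (2 * I * (φ n z0 - ψ (B n z0)))) (u : Filter ℕ) (𝓝 1) := by
    rw [Metric.tendsto_nhds]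
    intro ε hε
    refine hu ?_
    filter_upwards [hS (ε / 2) (by positivity) {z0} (singleton_subset_iff.2 hz0g)
      isCompact_singleton ∅ (empty_subset _) isCompact_empty] with n hn
    rw [dist_eq_norm]
    have := (hn.1 z0 rfl).1
    linarith
  obtain ⟨φ1, hφ1, hφt0⟩ := exists_lim (isCompact_closedBall (0 : ℂ) (2 * Real.pi + 1 + (‖ψ b1‖ + 1)))
    (f := fun n => φ n z0) u (by
      have h3 := (Metric.tendsto_nhds.1 hψt) 1 one_pos
      have h4 := (Metric.tendsto_nhds.1 hexp) (1 / 2) (by norm_num)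
      filter_upwards [h3, h4] with n hn3 hn4
      rw [dist_eq_norm] at hn3 hn4
      obtain ⟨m, hm⟩ := SlowS.near_int le_rfl hn4.le
      have h5 : |(φ n z0).im| ≤ ‖ψ b1‖ + 1 + 1 / 2 := by
        have h6 := (abs_im_le_norm _).trans hm
        have h7 : (φ n z0 - ψ (B n z0) - m * Real.pi).im = (φ n z0).im - (ψ (B n z0)).im := by
          simp
        rw [h7] at h6
        have h8 := abs_im_le_norm (ψ (B n z0))
        have h9 : ‖ψ (B n z0)‖ ≤ ‖ψ b1‖ + 1 := by
          have := norm_le_norm_add_norm_sub (ψ b1) (ψ (B n z0))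
          rw [norm_sub_rev] at this
          linarith
        have h10 : |(φ n z0).im| ≤ |(φ n z0).im - (ψ (B n z0)).im| + |(ψ (B n z0)).im| := by
          have := abs_add_le ((φ n z0).im - (ψ (B n z0)).im) (ψ (B n z0)).im
          rwa [sub_add_cancel] at this
        linarith
      rw [mem_closedBall_zero_iff]
      have h6 := Complex.norm_le_abs_re_add_abs_im (φ n z0)
      have h7 := hφre n
      linarith)
  have hexp1 : cexp (2 * I * (φ1 - ψ b1)) = 1 := by
    have h1 : Tendsto (fun n => cexp (2 * I * (φ n z0 - ψ (B n z0)))) (u : Filter ℕ)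
        (𝓝 (cexp (2 * I * (φ1 - ψ b1)))) := ((hφt0.sub hψt).const_mul (2 * I)).cexp
    exact tendsto_nhds_unique h1 hexp
  obtain ⟨j, hj⟩ := Complex.exp_eq_one_iff.1 hexp1
  have hjT : Tj ψ j b1 = φ1 := by
    have h2I : (2 : ℂ) * I ≠ 0 := by simp
    have h1 : φ1 - ψ b1 = j * Real.pi := by
      refine mul_left_cancel₀ h2I ?_
      linear_combination hj
    unfold Tj
    linear_combination -h1
  -- the other coordinate of the line
  have hInc : ∀ᶠ n in (u : Filter ℕ), p n z0 = H (B n z0) * Complex.cos (φ n z0 - ψ (B n z0)) +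
      deriv H (B n z0) / deriv ψ (B n z0) * Complex.sin (φ n z0 - ψ (B n z0)) := by
    have h1 : ∀ᶠ n in (u : Filter ℕ), deriv ψ (B n z0) ≠ 0 :=
      (cψ'.tendsto.comp hbt).eventually_ne hy
    have h2 := hu (W.regX {z0} (singleton_subset_iff.2 hz0a) isCompact_singleton)
    filter_upwards [h1, h2] with n hn1 hn2
    obtain ⟨U, hU, hKU, -, h3⟩ := hn2
    obtain ⟨-, h4, -⟩ := h3 z0 (hKU rfl)
    unfold F300.Inc at h4
    refine mul_left_cancel₀ hn1 ?_
    rw [h4]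
    field_simp
  obtain ⟨p1, hpt0⟩ : ∃ p1, Tendsto (fun n => p n z0) (u : Filter ℕ) (𝓝 p1) := by
    have hd := hφt0.sub hψt
    have h1 := (Complex.continuous_cos.tendsto _).comp hd
    have h2 := (Complex.continuous_sin.tendsto _).comp hd
    have h3 := ((cH.tendsto.comp hbt).mul h1).add
      (((cH'.tendsto.comp hbt).div (cψ'.tendsto.comp hbt) hy).mul h2)
    exact ⟨_, h3.congr' (hInc.mono fun n hn => hn.symm)⟩
  have hφt : TendstoLocallyUniformlyOn φ (fun _ => φ1) (u : Filter ℕ) (Wg (a + g)) :=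
    lu_const (isOpen_Lo _) hφt0 fun K hK hKc ε hε => hu (cφ K hK hKc ε hε)
  have hpt : TendstoLocallyUniformlyOn p (fun _ => p1) (u : Filter ℕ) (Wg (a + g)) :=
    lu_const (isOpen_Lo _) hpt0 fun K hK hKc ε hε => hu (cp K hK hKc ε hε)
  have hBt : TendstoLocallyUniformlyOn B (fun _ => b1) (u : Filter ℕ) (Wg a) :=
    lu_const (isOpen_Lo _) hbt fun K hK hKc ε hε => hu (cB K hK hKc ε hε)
  have S := world_seq W hu hφt hpt hBt (differentiableOn_const _) (differentiableOn_const _)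
    (differentiableOn_const _) (fun _ _ => hb1im)
  obtain ⟨σ, J, hσ, hJ, hJt⟩ := world_area W hu
  obtain ⟨r, hr, -, hrb, δ, hδ, -, τ, κ', hC⟩ :=
    exists_chart' hψd hHd hrel (by norm_num) hb1im hy j (r0 := 1) one_pos
  set hs : ℂ → ℂ := hsf (F300.ZZ ψ H) (F300.ZZc ψ H) τ with hsdef
  have hp1 : p1 = hs (Tj ψ j b1) := by
    have h1 := S.inc_lim hg hψd hHd hψp W.curve.H_per z0 hz0a
    have h2 := Tang654.inc_iff.1 ((inc_iff' hy).2 h1)
    have h3 := hC.hsf_b₀
    rw [hsdef, h3, hjT]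
    exact h2.symm
  obtain ⟨c, hc, hoc⟩ := hosc
  have hc2 : ∀ n, (0 : ℝ) < 2 * c * om n := fun n => by
    have := hom n
    positivity
  have hnT : ∀ n (z : ℂ), ‖z / ((2 * c * om n : ℝ) : ℂ)‖ = ‖z‖ / (2 * c * om n) := by
    intro n z
    rw [norm_div, Complex.norm_real, Real.norm_eq_abs, abs_of_pos (hc2 n)]
  refine slow_limit (u : Filter ℕ) (fun v _ => lemX_holds _) (a := a) (c := g') hg'
    (T := fun n q => (φ n q - φ n z0) / ((2 * c * om n : ℝ) : ℂ))
    (Q := fun n q => p n q - hs (φ n q)) (k := J)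
    (J := fun n => -(σ n) / ((2 * c * om n : ℝ) : ℂ)) (kap := fun _ => A0) ?_ hth0 hth
    (C := C / (2 * c)) ?_ hK0 hK0s ?_ ?_ (hJt.mono hsub') (fun _ _ => W.A0_ne) ?_ ?_
  · -- local bounds
    intro x hx
    obtain ⟨r1, hr1, hr1s⟩ := Metric.nhds_basis_closedBall.mem_iff.1
      ((isOpen_Lo (a + g')).mem_nhds (show x ∈ Lo (a + g') from hx))
    obtain ⟨M, hM⟩ := hloc (closedBall x r1) hr1s (isCompact_closedBall _ _)
    have hKg : closedBall x r1 ⊆ Wg (a + g) := hr1s.trans hsub'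
    refine ⟨r1, hr1, M / (2 * c), ball_subset_closedBall.trans hr1s, ?_⟩
    have hmt : ∀ᶠ n in (u : Filter ℕ), ∀ x' ∈ closedBall x r1, φ n x' ∈ ball (Tj ψ j b1) δ :=
      ev_mapsTo (isOpen_Lo (a + g)) hφt continuousOn_const hKg (isCompact_closedBall _ _) isOpen_ball
        (fun _ _ => by rw [hjT]; exact mem_ball_self hδ)
    filter_upwards [hu hM, hu (W.regL _ hKg (isCompact_closedBall _ _)), hmt,
      hJ _ hKg (isCompact_closedBall _ _)] with n hnM hnr hnm hnJ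
    obtain ⟨U, hU, hKU, h1, h2⟩ := hnr
    have hbU : ball x r1 ⊆ U := ball_subset_closedBall.trans hKU
    have hn0 : ((2 * c * om n : ℝ) : ℂ) ≠ 0 := by exact_mod_cast (hc2 n).ne'
    have hTd : DifferentiableOn ℂ (fun q => (φ n q - φ n z0) / ((2 * c * om n : ℝ) : ℂ))
        (ball x r1) := by
      have h3 := ((h1.mono hbU).sub_const (φ n z0)).mul_const ((((2 * c * om n : ℝ) : ℂ))⁻¹)
      refine h3.congr fun q _ => ?_
      rw [div_eq_mul_inv]
    refine ⟨hTd, ?_, ?_, ?_⟩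
    · intro w hw
      have hw' := ball_subset_closedBall hw
      have h3 := ((h1.differentiableAt (hU.mem_nhds (hKU hw'))).hasFDerivAt)
      have h4 := ((h2.differentiableAt (hU.mem_nhds (hKU hw'))).hasFDerivAt)
      obtain ⟨Q', hQ', -⟩ := hC.area h3 h4 (hnm w hw')
      exact hQ'.differentiableAt.differentiableWithinAt
    · intro w hw
      rw [hnT, div_le_iff₀ (hc2 n)]
      have h3 := hnM w (ball_subset_closedBall hw)
      have e : M / (2 * c) * (2 * c * om n) = M * om n := by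
        field_simp
      rw [e]
      exact h3
    · intro w hw
      have hw' := ball_subset_closedBall hw
      have h3 := ((h1.differentiableAt (hU.mem_nhds (hKU hw'))).hasFDerivAt)
      have h4 := ((h2.differentiableAt (hU.mem_nhds (hKU hw'))).hasFDerivAt)
      obtain ⟨Q', hQ', hQa⟩ := hC.area h3 h4 (hnm w hw')
      have h5 : HasFDerivAt (fun q => (φ n q - φ n z0) / ((2 * c * om n : ℝ) : ℂ))
          (((2 * c * om n : ℝ) : ℂ)⁻¹ • fderiv ℂ (φ n) w) w := by
        have h6 := (h3.sub_const (φ n z0)).const_smul (((2 * c * om n : ℝ) : ℂ)⁻¹)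
        refine h6.congr_of_eventuallyEq (Eventually.of_forall fun q => ?_)
        simp only [Pi.smul_apply, smul_eq_mul]
        rw [div_eq_inv_mul]
      have h7 := hQa (1, 0) (0, 1)
      have h8 : fderiv ℂ (φ n) w (1, 0) * fderiv ℂ (p n) w (0, 1) -
          fderiv ℂ (φ n) w (0, 1) * fderiv ℂ (p n) w (1, 0) = σ n * J n w := hnJ w hw'
      rw [hQ'.fderiv, h5.fderiv]
      simp only [FunLike.coe_smul, Pi.smul_apply, smul_eq_mul]
      rw [div_mul_eq_mul_div, eq_div_iff hn0]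
      have e : (Q' (1, 0) * ((((2 * c * om n : ℝ) : ℂ))⁻¹ * (fderiv ℂ (φ n) w) (0, 1)) -
          Q' (0, 1) * ((((2 * c * om n : ℝ) : ℂ))⁻¹ * (fderiv ℂ (φ n) w) (1, 0))) *
          ((2 * c * om n : ℝ) : ℂ) = -(fderiv ℂ (φ n) w (1, 0) * Q' (0, 1) -
            fderiv ℂ (φ n) w (0, 1) * Q' (1, 0)) := by
        field_simp
        ring
      rw [e, h7, h8]
      ring
  · intro q h1 h2 h3 h4
    refine hu ?_
    filter_upwards [hgrow q h1 h2 h3 h4] with n hn
    rw [hnT, div_le_iff₀ (hc2 n)]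
    have e : C / (2 * c) * q.2.im ^ th * (2 * c * om n) = C * om n * q.2.im ^ th := by
      field_simp
    rw [e]
    exact hn
  · refine hu ?_
    filter_upwards [hoc] with n hn
    obtain ⟨q, hq, q', hq', h1⟩ := hn
    refine ⟨q, hq, q', hq', ?_⟩
    rw [← sub_div, hnT, le_div_iff₀ (hc2 n)]
    have e : φ n q - φ n z0 - (φ n q' - φ n z0) = φ n q - φ n q' := by ring
    rw [e]
    linarith
  · refine Eventually.of_forall fun n => div_ne_zero (neg_ne_zero.2 (hσ n)) ?_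
    exact_mod_cast (hc2 n).ne'
  · intro K hK hKc
    have h1 := S.free hψp W.curve.H_per hC hrb (K := K) hK (Subset.trans hK hsub) hKc
      (fun _ _ => by rw [hjT]; exact mem_ball_self hδ) (fun _ _ => mem_ball_self hr)
    filter_upwards [h1] with n hn q hq
    exact sub_ne_zero.2 (hn q hq)
  · intro q hq1 hq2 ε hε
    have hqF : q ∈ Fc a := ⟨hq1, hq2⟩
    have hqg : q ∈ Lo (a + g) := Fc_sub hg hqF
    obtain ⟨r1, hr1, hr1s⟩ := Metric.nhds_basis_closedBall.mem_iff.1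
      ((isOpen_Lo (a + g)).mem_nhds hqg)
    set r2 : ℝ := min r1 ε with hr2
    have hr2p : 0 < r2 := lt_min hr1 hε
    have hx0 : ∃ x ∈ Lo a ∩ ball q r2, b1 ∈ ball b1 r := by
      refine ⟨(q.1 - ((r2 / 2 : ℝ) : ℂ) * I, q.2), ⟨⟨hq1, ?_⟩, ?_⟩, mem_ball_self hr⟩
      · show (q.1 - ((r2 / 2 : ℝ) : ℂ) * I).im < a * q.2.im
        have : (q.1 - ((r2 / 2 : ℝ) : ℂ) * I).im = q.1.im - r2 / 2 := by simp
        rw [this]
        linarith
      · rw [mem_ball, Prod.dist_eq]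
        refine max_lt ?_ ?_
        · show dist (q.1 - ((r2 / 2 : ℝ) : ℂ) * I) q.1 < r2
          rw [dist_eq_norm]
          have e : q.1 - ((r2 / 2 : ℝ) : ℂ) * I - q.1 = -(((r2 / 2 : ℝ) : ℂ) * I) := by ring
          rw [e, norm_neg, norm_mul, norm_I, mul_one, Complex.norm_real, Real.norm_eq_abs,
            abs_of_pos (by positivity)]
          linarith
        · show dist q.2 q.2 < r2
          rw [dist_self]
          exact hr2p
    have h1 := S.births hψp W.curve.H_per hC hrb hqF hr2p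
      ((closedBall_subset_closedBall (min_le_left _ _)).trans hr1s)
      (fun _ _ => by rw [hjT]; exact mem_ball_self hδ)
      (fun _ _ => by rw [hp1]; exact mem_ball_self hδ) hx0
    filter_upwards [h1] with n hn
    obtain ⟨x, hx, hx2⟩ := hn
    exact ⟨x, ball_subset_ball (min_le_right _ _) hx, sub_eq_zero.2 hx2⟩

/-- **the END of (N)**: no slow world with bounded normalised angles, growth `th < 1` and
oscillation below the face -/
theorem slowWorld {h a g κ : ℝ} {ψ H : ℂ → ℂ} {A0 : ℂ} {φ p B : ℕ → ℂ × ℂ → ℂ} (hκ : 0 < κ)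
    (hW : World h a g ψ H A0 φ p B) (hI : IntrW h κ ψ B)
    (hre : ∀ n, 0 ≤ (B n z0).re ∧ (B n z0).re ≤ 1)
    (hS : ∀ ε > 0, ∀ K ⊆ Wg (a + g), IsCompact K → ∀ K' ⊆ Wg a, IsCompact K' →
      ∀ᶠ n in atTop, SlowAt ε K K' ψ (φ n) (p n) (B n))
    {om : ℕ → ℝ} (hom : ∀ n, 0 < om n) {g' : ℝ} (hg' : 0 < g') (hg'g : g' ≤ g)
    (hloc : ∀ K ⊆ Wg (a + g'), IsCompact K → ∃ M : ℝ, ∀ᶠ n in atTop, ∀ q ∈ K,
      ‖φ n q - φ n z0‖ ≤ M * om n)
    {th C : ℝ} (hth0 : 0 ≤ th) (hth : th < 1)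
    (hgrow : ∀ q : ℂ × ℂ, 1 ≤ q.2.im → q.1.im ≤ (a + g' / 2) * q.2.im →
      ‖q.1‖ ≤ (|a| + g') * q.2.im → ‖q.2‖ ≤ q.2.im →
      ∀ᶠ n in atTop, ‖φ n q - φ n z0‖ ≤ C * om n * q.2.im ^ th)
    {K0 : Set (ℂ × ℂ)} (hK0 : IsCompact K0) (hK0s : K0 ⊆ Wg a)
    (hosc : ∃ c > 0, ∀ᶠ n in atTop, ∃ q ∈ K0, ∃ q' ∈ K0, c * om n ≤ ‖φ n q - φ n q'‖) : False := by
  have hπ : 0 < 2 * Real.pi := by positivity
  set m : ℕ → ℤ := fun n => ⌊(φ n z0).re / (2 * Real.pi)⌋ with hm
  have e : ∀ n q, (φ n q - 2 * Real.pi * m n) - (φ n z0 - 2 * Real.pi * m n) =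
      φ n q - φ n z0 := fun n q => by ring
  refine slowWorld_norm hκ (world_shift hW m) hI hre ?_ ?_ hom hg' hg'g ?_ hth0 hth (C := C) ?_
    hK0 hK0s ?_
  · intro n
    have e1 : (φ n z0 - 2 * Real.pi * m n).re = (φ n z0).re - 2 * Real.pi * m n := by
      simp
    show |(φ n z0 - 2 * Real.pi * m n).re| ≤ 2 * Real.pi
    rw [e1]
    have h1 := Int.floor_le ((φ n z0).re / (2 * Real.pi))
    have h2 := Int.lt_floor_add_one ((φ n z0).re / (2 * Real.pi))
    have h3 : (m n : ℝ) * (2 * Real.pi) ≤ (φ n z0).re := (le_div_iff₀ hπ).1 h1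
    have h4 : (φ n z0).re < ((m n : ℝ) + 1) * (2 * Real.pi) := (div_lt_iff₀ hπ).1 h2
    rw [abs_le]
    constructor <;> nlinarith
  · intro ε hε K hK hKc K' hK' hKc'
    filter_upwards [hS ε hε K hK hKc K' hK' hKc'] with n hn
    refine ⟨fun q hq => ⟨?_, (hn.1 q hq).2⟩, hn.2⟩
    have h1 := (hn.1 q hq).1
    have e1 : cexp (2 * I * (φ n q - 2 * Real.pi * m n - ψ (B n z0))) =
        cexp (2 * I * (φ n q - ψ (B n z0))) := by
      have e2 : 2 * I * (φ n q - 2 * Real.pi * m n - ψ (B n z0)) =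
          2 * I * (φ n q - ψ (B n z0)) - ((2 * m n : ℤ) : ℂ) * (2 * Real.pi * I) := by
        push_cast
        ring
      rw [e2, Complex.exp_periodic.sub_int_mul_eq (2 * m n)]
    rw [e1]
    exact h1
  · intro K hK hKc
    obtain ⟨M, hM⟩ := hloc K hK hKc
    refine ⟨M, ?_⟩
    filter_upwards [hM] with n hn q hq
    rw [e]
    exact hn q hq
  · intro q h1 h2 h3 h4
    filter_upwards [hgrow q h1 h2 h3 h4] with n hn
    rw [e]
    exact hn
  · obtain ⟨c, hc, h1⟩ := hosc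
    refine ⟨c, hc, ?_⟩
    filter_upwards [h1] with n hn
    obtain ⟨q, hq, q', hq', h2⟩ := hn
    refine ⟨q, hq, q', hq', ?_⟩
    have e1 : (φ n q - 2 * Real.pi * m n) - (φ n q' - 2 * Real.pi * m n) = φ n q - φ n q' := by ring
    rw [e1]
    exact h2

end Crest.Agent.R102.Slow575
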