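import Crest.Agent.R102.IfaceA_929
import Crest.Agent.R102.Four_821

/-!
Row 102, part (A), leaf LIN (helper682), tools: holomorphy of `(x, e) ↦ dq q x e` for entire `q`
(Nemytskii operator), the exponentials `eeA c : r ↦ e(c r)` in `AA`, contour shift bound.
-/

set_option autoImplicit false

open Set Filter Topology Metric Complex MeasureTheory
open scoped Real ContDiff

noncomputable section

namespace Crest.Agent.R102.LinA682

open Crest.Agent.R102.A929

/-! ### Nemytskii operator -/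

lemma differentiable_deriv {f : ℂ → ℂ} (hf : Differentiable ℂ f) : Differentiable ℂ (deriv f) :=
  fun _ => ((hf.differentiableOn (s := univ)).deriv isOpen_univ).differentiableAt univ_mem

lemma taylor_bound {f : ℂ → ℂ} (hf : Differentiable ℂ f) (R : ℝ) :
    ∃ M : ℝ, 0 ≤ M ∧ ∀ z h : ℂ, ‖z‖ ≤ R → ‖h‖ ≤ 1 →
      ‖f (z + h) - f z - deriv f z * h‖ ≤ M * ‖h‖ ^ 2 := by
  have hf1 := differentiable_deriv hf
  have hf2 := differentiable_deriv hf1
  obtain ⟨M, hM⟩ := (isCompact_closedBall (0 : ℂ) (R + 1)).exists_bound_of_continuousOn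
    hf2.continuous.continuousOn
  refine ⟨max M 0, le_max_right _ _, fun z h hz hh => ?_⟩
  have hsub : closedBall z ‖h‖ ⊆ closedBall (0 : ℂ) (R + 1) := by
    intro w hw
    rw [mem_closedBall_zero_iff]
    rw [mem_closedBall, dist_eq_norm] at hw
    calc ‖w‖ = ‖(w - z) + z‖ := by rw [sub_add_cancel]
      _ ≤ ‖w - z‖ + ‖z‖ := norm_add_le _ _
      _ ≤ R + 1 := by linarith
  have hzz : z ∈ closedBall z ‖h‖ := mem_closedBall_self (norm_nonneg _)
  have hzh : z + h ∈ closedBall z ‖h‖ := by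
    rw [mem_closedBall, dist_eq_norm, add_sub_cancel_left]
  have hlip : ∀ w ∈ closedBall z ‖h‖, ‖deriv f w - deriv f z‖ ≤ max M 0 * ‖h‖ := by
    intro w hw
    have h1 := (convex_closedBall z ‖h‖).norm_image_sub_le_of_norm_hasDerivWithin_le
      (f := deriv f) (f' := deriv (deriv f)) (C := max M 0)
      (fun u _ => (hf1 u).hasDerivAt.hasDerivWithinAt)
      (fun u hu => (hM u (hsub hu)).trans (le_max_left _ _)) hzz hw
    refine h1.trans (mul_le_mul_of_nonneg_left ?_ (le_max_right _ _))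
    rwa [mem_closedBall, dist_eq_norm] at hw
  have h2 := (convex_closedBall z ‖h‖).norm_image_sub_le_of_norm_hasDerivWithin_le
    (f := fun w => f w - deriv f z * w) (f' := fun w => deriv f w - deriv f z)
    (C := max M 0 * ‖h‖)
    (fun u _ => by
      have h3 := ((hf u).hasDerivAt).sub ((hasDerivAt_id u).const_mul (deriv f z))
      rw [mul_one] at h3
      exact h3.hasDerivWithinAt) hlip hzz hzh
  have e1 : f (z + h) - f z - deriv f z * h =
      (f (z + h) - deriv f z * (z + h)) - (f z - deriv f z * z) := by ring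
  rw [e1]
  refine h2.trans (le_of_eq ?_)
  rw [add_sub_cancel_left]; ring

/-- composition of an element of `AA` with a continuous function -/
def cmp (f : C(ℂ, ℂ)) (g : AA) : AA := (f.comp (g : C(unitInterval, ℂ)) : C(unitInterval, ℂ))

@[simp] lemma cmp_apply (f : C(ℂ, ℂ)) (g : AA) (r : unitInterval) : cmp f g r = f (g r) := rfl

lemma differentiableAt_cmp {f : C(ℂ, ℂ)} (hf : Differentiable ℂ f) (g : AA) :
    DifferentiableAt ℂ (cmp f) g := by
  set f1 : C(ℂ, ℂ) := ⟨deriv f, (differentiable_deriv hf).continuous⟩ with hf1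
  have hD : HasFDerivAt (cmp f) (ContinuousLinearMap.mul ℂ AA (cmp f1 g)) g := by
    rw [hasFDerivAt_iff_isLittleO_nhds_zero]
    obtain ⟨M, hM0, hM⟩ := taylor_bound hf ‖g‖
    have h1 : (fun h : AA => cmp f (g + h) - cmp f g - ContinuousLinearMap.mul ℂ AA (cmp f1 g) h)
        =O[𝓝 0] fun h => ‖h‖ ^ 2 := by
      refine Asymptotics.IsBigO.of_bound M ?_
      filter_upwards [ball_mem_nhds (0 : AA) one_pos] with h hh
      rw [mem_ball_zero_iff] at hh
      rw [norm_pow, norm_norm]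
      refine (AA.norm_le (by positivity)).2 fun r => ?_
      have h2 := hM (g r) (h r) (g.norm_coe_le_norm r) ((h.norm_coe_le_norm r).trans hh.le)
      refine h2.trans (mul_le_mul_of_nonneg_left ?_ hM0)
      exact pow_le_pow_left₀ (norm_nonneg _) (h.norm_coe_le_norm r) 2
    exact h1.trans_isLittleO (Asymptotics.isLittleO_norm_pow_id one_lt_two)
  exact hD.differentiableAt

lemma dq_eq (q : C(ℂ, ℂ)) (x e : ℂ) :
    dq q x e = cmp q (x • (1 : AA) + e • iot) - q x • (1 : AA) := by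
  refine AA.ext' fun r => ?_
  rw [dq_apply, AA.sub_apply, cmp_apply, AA.add_apply, AA.smul_apply, AA.smul_apply, AA.smul_apply,
    AA.one_apply, iot_apply, mul_one, mul_one]

lemma differentiableAt_dq {q : C(ℂ, ℂ)} (hq : Differentiable ℂ q) {b e : ℂ → ℂ} {z : ℂ}
    (hb : DifferentiableAt ℂ b z) (he : DifferentiableAt ℂ e z) :
    DifferentiableAt ℂ (fun z => dq q (b z) (e z)) z := by
  have e1 : (fun z => dq q (b z) (e z)) =
      fun z => cmp q (b z • (1 : AA) + e z • iot) - q (b z) • (1 : AA) :=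
    funext fun z => dq_eq _ _ _
  rw [e1]
  have h1 : DifferentiableAt ℂ (fun z => b z • (1 : AA) + e z • iot) z :=
    (hb.smul_const (1 : AA)).add (he.smul_const iot)
  have h2 : DifferentiableAt ℂ (fun z => cmp q (b z • (1 : AA) + e z • iot)) z :=
    DifferentiableAt.comp (g := cmp q) z (differentiableAt_cmp hq _) h1
  have h3 : DifferentiableAt ℂ (fun z => q (b z)) z :=
    DifferentiableAt.comp (g := q) z (hq _) hb
  exact h2.sub (h3.smul_const (1 : AA))

lemma differentiableAt_Xq {q : C(ℂ, ℂ)} (hq : Differentiable ℂ q) {b e : ℂ → ℂ} {z : ℂ}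
    (hb : DifferentiableAt ℂ b z) (he : DifferentiableAt ℂ e z) :
    DifferentiableAt ℂ (fun z => Xq q (b z) (e z)) z := by
  have h3 : DifferentiableAt ℂ (fun z => q (b z)) z :=
    DifferentiableAt.comp (g := q) z (hq _) hb
  exact (differentiableAt_dq hq hb he).prodMk (he.mul h3.cexp)

/-- joint continuity of `dq` for continuous `q` -/
lemma continuous_dq (q : C(ℂ, ℂ)) {X : Type*} [TopologicalSpace X] {b e : X → ℂ}
    (hb : Continuous b) (he : Continuous e) : Continuous fun x => dq q (b x) (e x) := by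
  have h1 : Continuous fun p : X × unitInterval =>
      q (b p.1 + e p.1 * ((p.2 : ℝ) : ℂ)) - q (b p.1) := by fun_prop
  exact (ContinuousMap.curry (⟨_, h1⟩ : C(X × unitInterval, ℂ))).continuous

lemma continuous_Xq (q : C(ℂ, ℂ)) {X : Type*} [TopologicalSpace X] {b e : X → ℂ}
    (hb : Continuous b) (he : Continuous e) : Continuous fun x => Xq q (b x) (e x) :=
  (continuous_dq q hb he).prodMk (by fun_prop)

/-! ### exponentials -/

lemma ee_add (a b : ℂ) : ee (a + b) = ee a * ee b := by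
  unfold ee; rw [← Complex.exp_add]; ring_nf

lemma ee_zero : ee 0 = 1 := by simp [ee]

lemma ee_int (n : ℤ) : ee (n : ℂ) = 1 := by
  unfold ee
  rw [Complex.exp_eq_one_iff]
  exact ⟨n, by ring⟩

lemma norm_ee (z : ℂ) : ‖ee z‖ = Real.exp (-(2 * π * z.im)) := by
  unfold ee
  rw [Complex.norm_exp]
  congr 1
  simp [Complex.mul_re, Complex.mul_im]

lemma norm_ee_le {z : ℂ} {M : ℝ} (h : |z.im| ≤ M) : ‖ee z‖ ≤ Real.exp (2 * π * M) := by
  rw [norm_ee]
  refine Real.exp_le_exp.2 ?_
  have h1 := (abs_le.1 h).1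
  have := Real.pi_pos
  nlinarith

lemma norm_ee_real (x : ℝ) : ‖ee x‖ = 1 := by rw [norm_ee]; simp

lemma hasDerivAt_ee (z : ℂ) : HasDerivAt ee (2 * π * I * ee z) z := by
  have h1 := ((hasDerivAt_id z).const_mul (2 * π * I)).cexp
  refine h1.congr_deriv ?_
  simp only [ee, id]; ring

lemma differentiable_ee : Differentiable ℂ ee := fun z => (hasDerivAt_ee z).differentiableAt

lemma continuous_ee : Continuous ee := differentiable_ee.continuous

lemma convex_St (M : ℝ) : Convex ℝ (St M) := by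
  have e : St M = {z : ℂ | z.im ≤ M} ∩ {z : ℂ | -M ≤ z.im} := by
    ext z
    simp only [St, mem_inter_iff, abs_le]
    exact ⟨fun h => ⟨h.2, h.1⟩, fun h => ⟨h.2, h.1⟩⟩
  rw [e]
  have l1 : IsLinearMap ℝ fun z : ℂ => z.im := ⟨fun _ _ => rfl, fun c z => by simp⟩
  exact (convex_halfSpace_le l1 _).inter (convex_halfSpace_ge l1 _)

lemma norm_ee_sub_le {a b : ℂ} {M : ℝ} (ha : |a.im| ≤ M) (hb : |b.im| ≤ M) :
    ‖ee b - ee a‖ ≤ 2 * π * Real.exp (2 * π * M) * ‖b - a‖ := by
  refine (convex_St M).norm_image_sub_le_of_norm_hasDerivWithin_le (f := ee)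
    (f' := fun z => 2 * π * I * ee z) (fun z _ => (hasDerivAt_ee z).hasDerivWithinAt)
    (fun z hz => ?_) ha hb
  rw [norm_mul]
  have h1 : ‖(2 * π * I : ℂ)‖ = 2 * π := by
    rw [norm_mul, norm_mul, Complex.norm_I, Complex.norm_real, Real.norm_of_nonneg Real.pi_pos.le]
    norm_num
  rw [h1]
  exact mul_le_mul_of_nonneg_left (norm_ee_le hz) (by have := Real.pi_pos; positivity)

/-- `r ↦ e(c r)` -/
def eeA (c : ℂ) : AA := (⟨fun r => ee (c * ((r : ℝ) : ℂ)), by
  exact continuous_ee.comp (by fun_prop)⟩ : C(unitInterval, ℂ))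

@[simp] lemma eeA_apply (c : ℂ) (r : unitInterval) : eeA c r = ee (c * ((r : ℝ) : ℂ)) := rfl

lemma eeA_eq (c : ℂ) : eeA c = NormedSpace.exp ((2 * π * I * c) • iot) := by
  refine AA.ext' fun r => ?_
  rw [exp_apply, AA.smul_apply, iot_apply, eeA_apply, ee]
  ring_nf

lemma differentiableAt_eeA {f : ℂ → ℂ} {z : ℂ} (hf : DifferentiableAt ℂ f z) :
    DifferentiableAt ℂ (fun z => eeA (f z)) z := by
  have e1 : (fun z => eeA (f z)) = fun z => NormedSpace.exp ((2 * π * I * f z) • iot) :=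
    funext fun z => eeA_eq _
  rw [e1]
  exact DifferentiableAt.comp (g := (NormedSpace.exp : AA → AA)) z
    (analyticAt_expA _).differentiableAt ((hf.const_mul _).smul_const iot)

lemma abs_im_mul_le (c : ℂ) (r : unitInterval) : |(c * ((r : ℝ) : ℂ)).im| ≤ |c.im| := by
  rw [Complex.im_mul_ofReal, abs_mul, abs_of_nonneg r.2.1]
  exact mul_le_of_le_one_right (abs_nonneg _) r.2.2

lemma norm_eeA_le {c : ℂ} {M : ℝ} (h : |c.im| ≤ M) : ‖eeA c‖ ≤ Real.exp (2 * π * M) :=
  (AA.norm_le (Real.exp_pos _).le).2 fun r => norm_ee_le ((abs_im_mul_le c r).trans h)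

lemma norm_eeA_sub_le {a b : ℂ} {M : ℝ} (ha : |a.im| ≤ M) (hb : |b.im| ≤ M) :
    ‖eeA b - eeA a‖ ≤ 2 * π * Real.exp (2 * π * M) * ‖b - a‖ := by
  have hπ := Real.pi_pos
  refine (AA.norm_le (by positivity)).2 fun r => ?_
  rw [AA.sub_apply, eeA_apply, eeA_apply]
  refine (norm_ee_sub_le ((abs_im_mul_le a r).trans ha) ((abs_im_mul_le b r).trans hb)).trans ?_
  refine mul_le_mul_of_nonneg_left ?_ (by positivity)
  rw [← sub_mul]
  exact norm_mul_r_le _ r

/-! ### contour shift -/

lemma ee_mul_int_periodic (k : ℤ) (z : ℂ) : ee (k * (z + 1)) = ee (k * z) := by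
  rw [mul_add, mul_one, ee_add, ee_int, mul_one]

theorem fourier_bound {f : ℂ → ℂ} {η M : ℝ} (hη : 0 ≤ η)
    (hf : DifferentiableOn ℂ f {z | |z.im| < η}) (hper : ∀ z : ℂ, |z.im| < η → f (z + 1) = f z)
    (hb : ∀ z ∈ St η, ‖f z‖ ≤ M) (k : ℤ) :
    ‖∫ x in (0 : ℝ)..1, ee (k * x) * f x‖ ≤ M * Real.exp (-(2 * π * η * |(k : ℝ)|)) := by
  have hπ := Real.pi_pos
  have hM : 0 ≤ M := (norm_nonneg _).trans (hb 0 (by simp [St, hη]))
  -- the bound for smaller shifts
  have key : ∀ t : ℝ, 0 ≤ t → (t = 0 ∨ t < η) →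
      ‖∫ x in (0 : ℝ)..1, ee (k * x) * f x‖ ≤ M * Real.exp (-(2 * π * t * |(k : ℝ)|)) := by
    intro t ht0 ht
    -- the shift
    obtain ⟨s, hs1, hs2⟩ : ∃ s : ℝ, |s| = t ∧ (k : ℝ) * s = |(k : ℝ)| * t := by
      rcases le_total 0 (k : ℝ) with hk | hk
      · exact ⟨t, abs_of_nonneg ht0, by rw [abs_of_nonneg hk]⟩
      · exact ⟨-t, by rw [abs_neg, abs_of_nonneg ht0], by rw [abs_of_nonpos hk]; ring⟩
    have hshift : ∫ x in (0 : ℝ)..1, ee (k * x) * f x =
        ∫ x in (0 : ℝ)..1, ee (k * (x + s * I)) * f (x + s * I) := by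
      rcases ht with rfl | ht
      · rw [abs_eq_zero.1 hs1]
        simp
      · refine (B821.strip_shift (g := fun z => ee (k * z) * f z) (σ := η) (s := s * I) ?_ ?_
          (by simpa [hs1] using ht)).symm
        · exact (differentiable_ee.comp (differentiable_id.const_mul _)).differentiableOn.mul hf
        · intro z hz
          change ee (k * (z + 1)) * f (z + 1) = ee (k * z) * f z
          rw [hper z hz, ee_mul_int_periodic]
    rw [hshift]
    have h1 : ∀ x ∈ uIoc (0 : ℝ) 1, ‖ee (k * (x + s * I)) * f (x + s * I)‖ ≤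
        M * Real.exp (-(2 * π * t * |(k : ℝ)|)) := by
      intro x _
      have him : ((x : ℂ) + s * I).im = s := by simp
      rw [norm_mul, norm_ee]
      have e1 : ((k : ℂ) * ((x : ℂ) + s * I)).im = (k : ℝ) * s := by
        simp [Complex.mul_im]
      rw [e1, hs2, mul_comm]
      refine mul_le_mul (hb _ ?_) (le_of_eq ?_) (Real.exp_pos _).le hM
      · change |((x : ℂ) + s * I).im| ≤ η
        rw [him, hs1]
        rcases ht with rfl | ht
        · exact hη
        · exact ht.le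
      · congr 1; ring
    have h2 := intervalIntegral.norm_integral_le_of_norm_le_const h1
    rw [sub_zero, abs_one, mul_one] at h2
    exact h2
  rcases hη.eq_or_lt with h0 | h0
  · have := key 0 le_rfl (Or.inl rfl)
    rwa [← h0]
  · have htend : Tendsto (fun t : ℝ => M * Real.exp (-(2 * π * t * |(k : ℝ)|))) (𝓝[<] η)
        (𝓝 (M * Real.exp (-(2 * π * η * |(k : ℝ)|)))) := by
      have : Continuous fun t : ℝ => M * Real.exp (-(2 * π * t * |(k : ℝ)|)) := by fun_prop
      exact this.continuousAt.tendsto.mono_left nhdsWithin_le_nhds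
    refine ge_of_tendsto htend ?_
    filter_upwards [Ioo_mem_nhdsLT h0] with t ht
    exact key t ht.1.le (Or.inr ht.2)

end Crest.Agent.R102.LinA682

end
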