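import Crest.Agent.R102.LinA_682

/-!
Row 102, part (A), leaf LIN (helper682): one-sided estimates.
-/

set_option autoImplicit false

open Set Filter Topology Metric Complex MeasureTheory
open scoped Real ContDiff

noncomputable section

namespace Crest.Agent.R102.LinA682

open Crest.Agent.R102.A929

/-- the point `S(z) = z + v(z)` -/
def bp (v : ℂ → ℂ) (z : ℂ) : ℂ := z + v z

/-- the step `S(z + s) - S(z)` -/
def ep (v : ℂ → ℂ) (s z : ℂ) : ℂ := s + v (z + s) - v z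

/-- derivative of `Qf` at the base configuration -/
def DD (qL : C(ℂ, ℂ)) (v : ℂ → ℂ) (s z : ℂ) : AA × ℂ →L[ℂ] ℂ :=
  fderiv ℂ Qf (Xq qL (bp v z) (ep v s z))

/-- the direction belonging to `e(l x)` -/
def WW (qL : C(ℂ, ℂ)) (v : ℂ → ℂ) (s : ℂ) (l : ℤ) (z : ℂ) : AA × ℂ :=
  (eeA (l * ep v s z) - 1, ep v s z * Complex.exp (qL (bp v z)))

/-- the amplitude -/
def HH (qL : C(ℂ, ℂ)) (v : ℂ → ℂ) (s : ℂ) (l : ℤ) (z : ℂ) : ℂ :=
  ee (l * v z) * (1 + deriv v z) * (ep v s z) ^ 2 * DD qL v s z (WW qL v s l z)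

/-- hypotheses, one side -/
structure Dat (ρ C B A : ℝ) (n : ℕ) (σ : ℝ) (qL : C(ℂ, ℂ)) (q1 q2 : ℂ → ℂ) (η : ℝ)
    (v : ℂ → ℂ) : Prop where
  hL : LocQ ρ C
  hA : 0 ≤ A
  hσ : |σ| = 1
  hη : 0 ≤ η
  n2 : 2 ≤ n
  nA : A ≤ n
  nρ : (2 * CX B + 2 + 2 * Real.exp B) / n < ρ
  dqL : Differentiable ℂ qL
  per : ∀ z, qL (z + 1) = qL z
  sm : Sm qL q1 q2 (St (η + 2 / n)) B
  dv : Differentiable ℂ v
  vper : ∀ z, v (z + 1) = v z
  vre : ∀ x : ℝ, (v x).im = 0
  v0 : ∀ z ∈ St η, ‖v z‖ ≤ A / n ^ 2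
  v1 : ∀ z ∈ St η, ‖v (z + (σ / n : ℂ)) - v z‖ ≤ A / n ^ 2
  v2 : ∀ z ∈ St η, ‖deriv v z‖ ≤ A / n

namespace Dat

variable {ρ C B A : ℝ} {n : ℕ} {σ : ℝ} {qL : C(ℂ, ℂ)} {q1 q2 : ℂ → ℂ} {η : ℝ} {v : ℂ → ℂ}

section

variable (d : Dat ρ C B A n σ qL q1 q2 η v)
include d

lemma n2' : (2 : ℝ) ≤ n := by exact_mod_cast d.n2

lemma n_pos : (0 : ℝ) < n := by linarith [d.n2']

lemma A_div : A / n ^ 2 ≤ 1 / n := by
  have h := d.n_pos
  rw [div_le_div_iff₀ (by positivity) h]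
  have := mul_le_mul_of_nonneg_right d.nA h.le
  nlinarith

lemma norm_s : ‖(σ / n : ℂ)‖ = 1 / n := by
  rw [norm_div, Complex.norm_real, Real.norm_eq_abs, d.hσ]
  simp

omit d in
lemma s_im : (σ / n : ℂ).im = 0 := by
  have : (σ / n : ℂ) = ((σ / n : ℝ) : ℂ) := by push_cast; rfl
  rw [this, Complex.ofReal_im]

lemma s_sq : (σ / n : ℂ) ^ 2 = 1 / n ^ 2 := by
  have h1 : σ ^ 2 = 1 := by rw [← sq_abs, d.hσ]; norm_num
  have h2 : ((σ : ℝ) : ℂ) ^ 2 = 1 := by rw [← Complex.ofReal_pow, h1]; simp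
  rw [div_pow, h2]

lemma ep_sub {z : ℂ} (hz : z ∈ St η) : ‖ep v (σ / n) z - σ / n‖ ≤ A / n ^ 2 := by
  have : ep v (σ / n) z - σ / n = v (z + (σ / n : ℂ)) - v z := by unfold ep; ring
  rw [this]
  exact d.v1 z hz

lemma ep_im {z : ℂ} (hz : z ∈ St η) : |(ep v (σ / n) z).im| ≤ A / n ^ 2 := by
  have h1 : (ep v (σ / n) z).im = (ep v (σ / n) z - σ / n).im := by
    rw [Complex.sub_im, s_im, sub_zero]
  rw [h1]
  exact (Complex.abs_im_le_norm _).trans (d.ep_sub hz)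

lemma ep_norm {z : ℂ} (hz : z ∈ St η) : ‖ep v (σ / n) z‖ ≤ 2 / n := by
  calc ‖ep v (σ / n) z‖ = ‖(ep v (σ / n) z - σ / n) + σ / n‖ := by rw [sub_add_cancel]
    _ ≤ A / n ^ 2 + 1 / n := (norm_add_le _ _).trans (add_le_add (d.ep_sub hz) d.norm_s.le)
    _ ≤ 1 / n + 1 / n := by linarith [d.A_div]
    _ = 2 / n := by ring

lemma one_div_pos' : 0 < 1 / (n : ℝ) := by have := d.n_pos; positivity

lemma bp_mem {z : ℂ} (hz : z ∈ St η) : bp v z ∈ St (η + 2 / n) := by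
  have h1 : |z.im| ≤ η := hz
  have h2 := (Complex.abs_im_le_norm (v z)).trans (d.v0 z hz)
  change |(z + v z).im| ≤ _
  rw [Complex.add_im]
  have h3 := d.A_div
  have h4 := d.one_div_pos'
  calc |z.im + (v z).im| ≤ |z.im| + |(v z).im| := abs_add_le _ _
    _ ≤ η + 1 / n := by linarith
    _ ≤ η + 2 / n := by
        have : 2 / (n : ℝ) = 1 / n + 1 / n := by ring
        linarith

omit d in
lemma add_s_mem {z : ℂ} (hz : z ∈ St η) : z + (σ / n : ℂ) ∈ St η := by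
  change |(z + (σ / n : ℂ)).im| ≤ η
  rw [Complex.add_im, s_im, add_zero]
  exact hz

lemma bp_ep_mem {z : ℂ} (hz : z ∈ St η) : bp v z + ep v (σ / n) z ∈ St (η + 2 / n) := by
  have : bp v z + ep v (σ / n) z = bp v (z + (σ / n : ℂ)) := by unfold bp ep; ring
  rw [this]
  exact d.bp_mem (add_s_mem hz)

lemma two_div_le : 2 / (n : ℝ) ≤ 1 := by
  rw [div_le_one d.n_pos]; exact d.n2'

lemma CXρ : CX B * (2 / n) < ρ := by
  refine lt_of_le_of_lt ?_ d.nρ
  have h := d.n_pos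
  have := Real.exp_pos B
  rw [mul_div_assoc', div_le_div_iff_of_pos_right h]
  linarith

lemma X_norm {z : ℂ} (hz : z ∈ St η) :
    ‖Xq qL (bp v z) (ep v (σ / n) z)‖ ≤ CX B * (2 / n) := by
  have h1 := d.sm.norm_Xq (d.bp_mem hz) (d.bp_ep_mem hz) (d.ep_norm hz) d.two_div_le
  refine h1.trans (mul_le_mul_of_nonneg_left (d.ep_norm hz) ?_)
  linarith [CX_ge d.sm.B_ge]

lemma X_lt {z : ℂ} (hz : z ∈ St η) : ‖Xq qL (bp v z) (ep v (σ / n) z)‖ < ρ :=
  (d.X_norm hz).trans_lt d.CXρ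

lemma DD_sub {z : ℂ} (hz : z ∈ St η) : ‖DD qL v (σ / n) z - DQ0‖ ≤ C * (CX B * (2 / n)) := by
  refine (d.hL.d0 _ (d.X_lt hz)).trans (mul_le_mul_of_nonneg_left (d.X_norm hz) ?_)
  linarith [d.hL.C_ge]

lemma C_pos : 0 < C := by linarith [d.hL.C_ge]

lemma DD_apply {z : ℂ} (hz : z ∈ St η) (Y : AA × ℂ) :
    ‖DD qL v (σ / n) z Y‖ ≤ (C + 5 / 2) * ‖Y‖ := by
  have h1 : ‖DD qL v (σ / n) z - DQ0‖ ≤ C := by
    refine (d.DD_sub hz).trans ?_
    have := d.CXρ
    have h2 := d.hL.ρ_le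
    have := d.C_pos
    nlinarith
  have h2 : DD qL v (σ / n) z Y = (DD qL v (σ / n) z - DQ0) Y + DQ0 Y := by
    rw [_root_.sub_apply, sub_add_cancel]
  rw [h2]
  refine (norm_add_le _ _).trans ?_
  have h3 := ((DD qL v (σ / n) z - DQ0).le_opNorm Y).trans
    (mul_le_mul_of_nonneg_right h1 (norm_nonneg _))
  have h4 : ‖DQ0 Y‖ ≤ 5 / 2 * ‖Y‖ := by
    rw [DQ0_apply, norm_mul]
    have h5 : ‖(1 / 2 : ℂ)‖ = 1 / 2 := by norm_num
    rw [h5]
    have h6 := norm_Lf_le Y.1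
    have h7 := norm_fst_le Y
    linarith
  linarith

lemma exp_b {z : ℂ} (hz : z ∈ St η) : ‖Complex.exp (qL (bp v z))‖ ≤ Real.exp B := by
  rw [Complex.norm_exp]
  exact Real.exp_le_exp.2 ((Complex.re_le_norm _).trans (d.sm.b0 _ (d.bp_mem hz)))

lemma WW_le {l : ℤ} {z : ℂ} (hz : z ∈ St η) {E : ℝ}
    (h2 : ‖eeA (l * ep v (σ / n) z)‖ ≤ E) : ‖WW qL v (σ / n) l z‖ ≤ E + 1 + Real.exp B := by
  have hE : 0 ≤ E := (norm_nonneg _).trans h2
  have hB := Real.exp_pos B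
  refine max_le ?_ ?_
  · refine (norm_sub_le _ _).trans ?_
    rw [norm_one]
    linarith
  · change ‖ep v (σ / n) z * Complex.exp (qL (bp v z))‖ ≤ _
    rw [norm_mul]
    have h3 := mul_le_mul ((d.ep_norm hz).trans d.two_div_le) (d.exp_b hz) (norm_nonneg _)
      zero_le_one
    linarith

lemma v2' {z : ℂ} (hz : z ∈ St η) : ‖1 + deriv v z‖ ≤ 2 := by
  refine (norm_add_le _ _).trans ?_
  rw [norm_one]
  have h1 := d.v2 z hz
  have h2 : A / n ≤ 1 := by rw [div_le_one d.n_pos]; exact d.nA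
  linarith

lemma HH_le {l : ℤ} {z : ℂ} (hz : z ∈ St η) {E : ℝ} (h1 : ‖ee (l * v z)‖ ≤ E)
    (h2 : ‖eeA (l * ep v (σ / n) z)‖ ≤ E) :
    ‖HH qL v (σ / n) l z‖ ≤ 8 * E * ((C + 5 / 2) * (E + 1 + Real.exp B)) / n ^ 2 := by
  have hE : 0 ≤ E := (norm_nonneg _).trans h2
  have hn := d.n_pos
  have hC := d.C_pos
  have hB := Real.exp_pos B
  have h3 := (d.DD_apply hz (WW qL v (σ / n) l z)).trans
    (mul_le_mul_of_nonneg_left (d.WW_le hz h2) (by positivity))
  have h4 : ‖(ep v (σ / n) z) ^ 2‖ ≤ (2 / n) ^ 2 := by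
    rw [norm_pow]; exact pow_le_pow_left₀ (norm_nonneg _) (d.ep_norm hz) 2
  unfold HH
  rw [norm_mul, norm_mul, norm_mul]
  calc ‖ee (l * v z)‖ * ‖1 + deriv v z‖ * ‖ep v (σ / n) z ^ 2‖ *
        ‖DD qL v (σ / n) z (WW qL v (σ / n) l z)‖
      ≤ E * 2 * (2 / n) ^ 2 * ((C + 5 / 2) * (E + 1 + Real.exp B)) := by
        refine mul_le_mul (mul_le_mul (mul_le_mul h1 (d.v2' hz) (norm_nonneg _) hE) h4
          (norm_nonneg _) (by positivity)) h3 (norm_nonneg _) (by positivity)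
    _ = _ := by ring

/-- the exponential constant -/
lemma ee_bound {l : ℤ} {z : ℂ} (hz : z ∈ St η) (hl : |(l : ℝ)| ≤ n ^ 2) :
    ‖ee (l * v z)‖ ≤ Real.exp (2 * π * A) := by
  refine norm_ee_le ?_
  have h1 : ((l : ℂ) * v z).im = l * (v z).im := by simp [Complex.mul_im]
  rw [h1, abs_mul]
  have h2 := (Complex.abs_im_le_norm (v z)).trans (d.v0 z hz)
  have hn := d.n_pos
  calc |(l : ℝ)| * |(v z).im| ≤ n ^ 2 * (A / n ^ 2) :=
        mul_le_mul hl h2 (abs_nonneg _) (by positivity)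
    _ = A := by field_simp

lemma im_le_A {l : ℤ} {z : ℂ} (hz : z ∈ St η) (hl : |(l : ℝ)| ≤ n ^ 2) :
    |((l : ℂ) * ep v (σ / n) z).im| ≤ A := by
  have h1 : ((l : ℂ) * ep v (σ / n) z).im = l * (ep v (σ / n) z).im := by simp [Complex.mul_im]
  rw [h1, abs_mul]
  have h2 := d.ep_im hz
  have hn := d.n_pos
  calc |(l : ℝ)| * |(ep v (σ / n) z).im| ≤ n ^ 2 * (A / n ^ 2) :=
        mul_le_mul hl h2 (abs_nonneg _) (by positivity)
    _ = A := by field_simp

/-- (a): the bound in the strip for `|l| ≤ n²` -/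
lemma HH_le_strip {l : ℤ} {z : ℂ} (hz : z ∈ St η) (hl : |(l : ℝ)| ≤ n ^ 2) :
    ‖HH qL v (σ / n) l z‖ ≤ 8 * Real.exp (2 * π * A) *
      ((C + 5 / 2) * (Real.exp (2 * π * A) + 1 + Real.exp B)) / n ^ 2 :=
  d.HH_le hz (d.ee_bound hz hl) (norm_eeA_le (d.im_le_A hz hl))

lemma real_mem (x : ℝ) : (x : ℂ) ∈ St η := by
  change |(x : ℂ).im| ≤ η
  simpa using d.hη

lemma ep_im_real (x : ℝ) : (ep v (σ / n) x).im = 0 := by
  unfold ep
  have h1 : (x : ℂ) + (σ / n : ℂ) = ((x + σ / n : ℝ) : ℂ) := by push_cast; ring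
  rw [h1, Complex.sub_im, Complex.add_im, s_im, d.vre, d.vre]
  ring

/-- (b): the bound on the real line -/
lemma HH_le_real (l : ℤ) (x : ℝ) :
    ‖HH qL v (σ / n) l x‖ ≤ 8 * Real.exp (2 * π * A) *
      ((C + 5 / 2) * (Real.exp (2 * π * A) + 1 + Real.exp B)) / n ^ 2 := by
  have hA := d.hA
  refine d.HH_le (d.real_mem x) (norm_ee_le ?_) (norm_eeA_le ?_)
  · have h1 : ((l : ℂ) * v x).im = l * (v x).im := by simp [Complex.mul_im]
    rw [h1, d.vre, mul_zero, abs_zero]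
    exact hA
  · have h1 : ((l : ℂ) * ep v (σ / n) x).im = l * (ep v (σ / n) x).im := by simp [Complex.mul_im]
    rw [h1, d.ep_im_real, mul_zero, abs_zero]
    exact hA

end

/-- the leading constant -/
def cc (n : ℕ) (σ : ℝ) (l : ℤ) : ℂ := 1 / n ^ 2 * (1 / 2 * Lf (eeA (l * (σ / n)) - 1))

/-- the constant of (c) -/
def K3 (C B A : ℝ) : ℝ :=
  (8 * π * A * Real.exp (2 * π * A) + A) *
      (4 * ((C + 5 / 2) * (Real.exp (2 * π * A) + 1 + Real.exp B))) +
    3 * A * ((C + 5 / 2) * (Real.exp (2 * π * A) + 1 + Real.exp B)) +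
    (2 * C * CX B * (Real.exp (2 * π * A) + 1 + Real.exp B) + 10 * π * A * Real.exp (2 * π * A))

section

variable (d : Dat ρ C B A n σ qL q1 q2 η v)
include d

/-- (c): `H_l` is almost constant for `|l| ≤ 2n` -/
lemma HH_sub {l : ℤ} {z : ℂ} (hz : z ∈ St η) (hl : |(l : ℝ)| ≤ 2 * n) :
    ‖HH qL v (σ / n) l z - cc n σ l‖ ≤ K3 C B A / n ^ 3 := by
  have hn := d.n_pos
  have hn2 := d.n2'
  have hC := d.C_pos
  have hA := d.hA
  have hB := Real.exp_pos B
  have hπ := Real.pi_pos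
  set E : ℝ := Real.exp (2 * π * A) with hE
  have hE0 : 0 < E := Real.exp_pos _
  set KW : ℝ := E + 1 + Real.exp B with hKW
  have hKW0 : 0 < KW := by positivity
  have hlsq : |(l : ℝ)| ≤ n ^ 2 := by nlinarith
  have hCX := CX_ge d.sm.B_ge
  -- pieces
  have hW := d.WW_le (l := l) hz (norm_eeA_le (d.im_le_A hz hlsq))
  set W := WW qL v (σ / n) l z with hWd
  set P := DD qL v (σ / n) z W with hP
  have hP1 : ‖P‖ ≤ (C + 5 / 2) * KW :=
    (d.DD_apply hz W).trans (mul_le_mul_of_nonneg_left hW (by positivity))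
  have hlv : ‖(l : ℂ) * v z‖ ≤ 2 * A / n := by
    rw [norm_mul]
    have h1 : ‖(l : ℂ)‖ = |(l : ℝ)| := by
      rw [← Complex.ofReal_intCast, Complex.norm_real, Real.norm_eq_abs]
    rw [h1]
    calc |(l : ℝ)| * ‖v z‖ ≤ 2 * n * (A / n ^ 2) :=
          mul_le_mul hl (d.v0 z hz) (norm_nonneg _) (by positivity)
      _ = 2 * A / n := by field_simp
  have hlvA : 2 * A / n ≤ A := by
    rw [div_le_iff₀ hn]; nlinarith
  have hee : ‖ee (l * v z) - 1‖ ≤ 2 * π * E * (2 * A / n) := by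
    have h1 := norm_ee_sub_le (a := 0) (b := l * v z) (M := A) (by simpa using hA)
      ((Complex.abs_im_le_norm _).trans (hlv.trans hlvA))
    rw [ee_zero, sub_zero] at h1
    exact h1.trans (mul_le_mul_of_nonneg_left hlv (by positivity))
  have hp1 : ‖ee (l * v z) * (1 + deriv v z) - 1‖ ≤ (8 * π * A * E + A) / n := by
    have e1 : ee (l * v z) * (1 + deriv v z) - 1 =
        (ee (l * v z) - 1) * (1 + deriv v z) + deriv v z := by ring
    rw [e1]
    refine (norm_add_le _ _).trans ?_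
    rw [norm_mul]
    calc ‖ee (l * v z) - 1‖ * ‖1 + deriv v z‖ + ‖deriv v z‖
        ≤ 2 * π * E * (2 * A / n) * 2 + A / n :=
          add_le_add (mul_le_mul hee (d.v2' hz) (norm_nonneg _) (by positivity)) (d.v2 z hz)
      _ = _ := by ring
  have he2 : ‖(ep v (σ / n) z) ^ 2‖ ≤ 4 / n ^ 2 := by
    rw [norm_pow]
    refine (pow_le_pow_left₀ (norm_nonneg _) (d.ep_norm hz) 2).trans (le_of_eq ?_)
    ring
  have he3 : ‖(ep v (σ / n) z) ^ 2 - 1 / n ^ 2‖ ≤ 3 * A / n ^ 3 := by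
    rw [← d.s_sq]
    have e1 : (ep v (σ / n) z) ^ 2 - (σ / n : ℂ) ^ 2 =
        (ep v (σ / n) z - σ / n) * (ep v (σ / n) z + σ / n) := by ring
    rw [e1, norm_mul]
    have h1 : ‖ep v (σ / n) z + σ / n‖ ≤ 3 / n := by
      refine (norm_add_le _ _).trans ?_
      rw [d.norm_s]
      have := d.ep_norm hz
      have e2 : 3 / (n : ℝ) = 2 / n + 1 / n := by ring
      linarith
    calc ‖ep v (σ / n) z - σ / n‖ * ‖ep v (σ / n) z + σ / n‖ ≤ A / n ^ 2 * (3 / n) :=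
          mul_le_mul (d.ep_sub hz) h1 (norm_nonneg _) (by positivity)
      _ = _ := by ring
  -- the functional
  have hPP : ‖P - 1 / 2 * Lf (eeA (l * (σ / n)) - 1)‖ ≤
      (2 * C * CX B * KW + 10 * π * A * E) / n := by
    have e1 : P - 1 / 2 * Lf (eeA (l * (σ / n)) - 1) =
        (DD qL v (σ / n) z - DQ0) W + 1 / 2 * Lf (eeA (l * ep v (σ / n) z) - eeA (l * (σ / n))) := by
      rw [_root_.sub_apply, DQ0_apply]
      have e2 : W.1 = eeA (l * ep v (σ / n) z) - 1 := rfl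
      rw [e2, hP, map_sub Lf, map_sub Lf, map_sub Lf]
      ring
    rw [e1]
    refine (norm_add_le _ _).trans ?_
    have h1 : ‖(DD qL v (σ / n) z - DQ0) W‖ ≤ C * (CX B * (2 / n)) * KW :=
      ((DD qL v (σ / n) z - DQ0).le_opNorm W).trans
        (mul_le_mul (d.DD_sub hz) hW (norm_nonneg _) (by positivity))
    have h2 : ‖eeA (l * ep v (σ / n) z) - eeA (l * (σ / n))‖ ≤ 2 * π * E * (2 * A / n) := by
      have him : |((l : ℂ) * (σ / n)).im| ≤ A := by
        have h1 : ((l : ℂ) * (σ / n)).im = l * (σ / n : ℂ).im := by simp [Complex.mul_im]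
        rw [h1, s_im, mul_zero, abs_zero]
        exact hA
      refine (norm_eeA_sub_le him (d.im_le_A hz hlsq)).trans
        (mul_le_mul_of_nonneg_left ?_ (by positivity))
      rw [← mul_sub, norm_mul]
      have h1 : ‖(l : ℂ)‖ = |(l : ℝ)| := by
        rw [← Complex.ofReal_intCast, Complex.norm_real, Real.norm_eq_abs]
      rw [h1]
      calc |(l : ℝ)| * ‖ep v (σ / n) z - σ / n‖ ≤ 2 * n * (A / n ^ 2) :=
            mul_le_mul hl (d.ep_sub hz) (norm_nonneg _) (by positivity)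
        _ = 2 * A / n := by field_simp
    have h3 : ‖(1 / 2 : ℂ) * Lf (eeA (l * ep v (σ / n) z) - eeA (l * (σ / n)))‖ ≤
        5 / 2 * (2 * π * E * (2 * A / n)) := by
      rw [norm_mul]
      have h5 : ‖(1 / 2 : ℂ)‖ = 1 / 2 := by norm_num
      rw [h5]
      have h6 := norm_Lf_le (eeA (l * ep v (σ / n) z) - eeA (l * (σ / n)))
      linarith
    refine (add_le_add h1 h3).trans (le_of_eq ?_)
    ring
  -- assembly
  have e0 : HH qL v (σ / n) l z - cc n σ l =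
      (ee (l * v z) * (1 + deriv v z) - 1) * ((ep v (σ / n) z) ^ 2 * P) +
      ((ep v (σ / n) z) ^ 2 - 1 / n ^ 2) * P +
      1 / n ^ 2 * (P - 1 / 2 * Lf (eeA (l * (σ / n)) - 1)) := by
    unfold HH cc
    rw [← hWd, ← hP]
    ring
  rw [e0]
  have n1 : ‖(1 / n ^ 2 : ℂ)‖ = 1 / n ^ 2 := by
    rw [norm_div, norm_pow, norm_one, Complex.norm_natCast]
  have b1 : ‖(ee (l * v z) * (1 + deriv v z) - 1) * ((ep v (σ / n) z) ^ 2 * P)‖ ≤
      (8 * π * A * E + A) / n * (4 / n ^ 2 * ((C + 5 / 2) * KW)) := by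
    rw [norm_mul, norm_mul]
    exact mul_le_mul hp1 (mul_le_mul he2 hP1 (norm_nonneg _) (by positivity)) (by positivity)
      (by positivity)
  have b2 : ‖((ep v (σ / n) z) ^ 2 - 1 / n ^ 2) * P‖ ≤ 3 * A / n ^ 3 * ((C + 5 / 2) * KW) := by
    rw [norm_mul]
    exact mul_le_mul he3 hP1 (norm_nonneg _) (by positivity)
  have b3 : ‖(1 / n ^ 2 : ℂ) * (P - 1 / 2 * Lf (eeA (l * (σ / n)) - 1))‖ ≤
      1 / n ^ 2 * ((2 * C * CX B * KW + 10 * π * A * E) / n) := by
    rw [norm_mul, n1]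
    exact mul_le_mul_of_nonneg_left hPP (by positivity)
  refine (norm_add_le _ _).trans ((add_le_add ((norm_add_le _ _).trans (add_le_add b1 b2))
    b3).trans (le_of_eq ?_))
  unfold K3
  rw [← hE, ← hKW]
  field_simp

/-- differentiability of the amplitude -/
lemma HH_diff (l : ℤ) {z : ℂ} (hz : z ∈ St η) :
    DifferentiableAt ℂ (HH qL v (σ / n) l) z := by
  have hv := d.dv
  have hb : DifferentiableAt ℂ (bp v) z := by
    unfold bp; exact differentiableAt_id.add (hv z)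
  have he : DifferentiableAt ℂ (ep v (σ / n)) z := by
    unfold ep
    have h1 : DifferentiableAt ℂ (fun z : ℂ => v (z + (σ / n : ℂ))) z :=
      DifferentiableAt.comp (g := v) z (hv _) (differentiableAt_id.add_const _)
    exact ((differentiableAt_const _).add h1).sub (hv z)
  have hX := differentiableAt_Xq d.dqL hb he
  have hD : DifferentiableAt ℂ (fun z => DD qL v (σ / n) z) z := by
    unfold DD
    exact DifferentiableAt.comp (g := fderiv ℂ Qf) z
      (d.hL.an _ (d.X_lt hz)).fderiv.differentiableAt hX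
  have hW : DifferentiableAt ℂ (fun z => WW qL v (σ / n) l z) z := by
    unfold WW
    have h1 : DifferentiableAt ℂ (fun z => eeA (l * ep v (σ / n) z) - 1) z :=
      (differentiableAt_eeA (he.const_mul _)).sub_const _
    have h2 : DifferentiableAt ℂ (fun z => qL (bp v z)) z :=
      DifferentiableAt.comp (g := qL) z (d.dqL _) hb
    exact h1.prodMk (he.mul h2.cexp)
  have h3 : DifferentiableAt ℂ (fun z => ee (l * v z)) z :=
    DifferentiableAt.comp (g := ee) z (differentiable_ee _) ((hv z).const_mul _)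
  have h4 : DifferentiableAt ℂ (fun z => 1 + deriv v z) z :=
    (differentiableAt_const _).add (differentiable_deriv hv z)
  exact ((h3.mul h4).mul (he.pow 2)).mul (hD.clm_apply hW)

lemma HH_per (l : ℤ) (z : ℂ) : HH qL v (σ / n) l (z + 1) = HH qL v (σ / n) l z := by
  have hd : deriv v (z + 1) = deriv v z := by
    have h1 : (fun w => v (w + 1)) = v := funext d.vper
    rw [← deriv_comp_add_const, h1]
  have hb : bp v (z + 1) = bp v z + 1 := by unfold bp; rw [d.vper]; ring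
  have he : ep v (σ / n) (z + 1) = ep v (σ / n) z := by
    unfold ep
    rw [d.vper, show z + 1 + (σ / n : ℂ) = z + (σ / n : ℂ) + 1 by ring, d.vper]
  have hX : Xq qL (bp v z + 1) (ep v (σ / n) z) = Xq qL (bp v z) (ep v (σ / n) z) := by
    unfold Xq
    have h1 : dq qL (bp v z + 1) (ep v (σ / n) z) = dq qL (bp v z) (ep v (σ / n) z) := by
      refine AA.ext' fun r => ?_
      rw [dq_apply, dq_apply, d.per,
        show bp v z + 1 + ep v (σ / n) z * ((r : ℝ) : ℂ) =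
          bp v z + ep v (σ / n) z * ((r : ℝ) : ℂ) + 1 by ring, d.per]
    rw [h1, d.per]
  unfold HH DD WW
  rw [hd, hb, he, hX, d.vper, d.per]

lemma HH_cont (l : ℤ) : Continuous fun x : ℝ => HH qL v (σ / n) l x :=
  continuous_iff_continuousAt.2 fun x =>
    ContinuousAt.comp (f := fun x : ℝ => (x : ℂ)) (d.HH_diff l (d.real_mem x)).continuousAt
      Complex.continuous_ofReal.continuousAt

end

lemma int_ee (m : ℤ) : ∫ x in (0 : ℝ)..1, ee (m * x) = if m = 0 then 1 else 0 := by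
  split_ifs with h
  · subst h
    simp [ee_zero]
  · have hc : (2 * π * I * m : ℂ) ≠ 0 := by
      have h1 : (m : ℂ) ≠ 0 := by exact_mod_cast h
      have h2 : (π : ℂ) ≠ 0 := by exact_mod_cast Real.pi_ne_zero
      exact mul_ne_zero (mul_ne_zero (mul_ne_zero two_ne_zero h2) I_ne_zero) h1
    have h3 := integral_exp_mul_complex (a := 0) (b := 1) hc
    have h4 : ∫ x in (0 : ℝ)..1, ee (m * x) = ∫ x in (0 : ℝ)..1, Complex.exp (2 * π * I * m * x) := by
      refine intervalIntegral.integral_congr fun x _ => ?_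
      simp only [ee]
      ring_nf
    rw [h4, h3]
    have h5 : Complex.exp (2 * π * I * m * ((1 : ℝ) : ℂ)) = 1 := by
      rw [Complex.exp_eq_one_iff]
      exact ⟨m, by push_cast; ring⟩
    rw [h5]
    simp

lemma lt_St {η : ℝ} {z : ℂ} (h : z ∈ {z : ℂ | |z.im| < η}) : z ∈ St η :=
  le_of_lt (show |z.im| < η from h)

/-- the Fourier coefficient of the amplitude -/
def FI (qL : C(ℂ, ℂ)) (v : ℂ → ℂ) (s : ℂ) (n : ℕ) (k : ℤ) : ℂ :=
  ∫ x in (0 : ℝ)..1, ee (((k - n : ℤ) : ℂ) * x) * HH qL v s k x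

/-- the constant of (a), (b) -/
def K2 (C B A : ℝ) : ℝ :=
  8 * Real.exp (2 * π * A) * ((C + 5 / 2) * (Real.exp (2 * π * A) + 1 + Real.exp B))

section

variable (d : Dat ρ C B A n σ qL q1 q2 η v)
include d

lemma K2_nonneg : 0 ≤ K2 C B A := by
  have := d.C_pos
  unfold K2; positivity

lemma K3_nonneg : 0 ≤ K3 C B A := by
  have := d.C_pos
  have := d.hA
  have := CX_ge d.sm.B_ge
  unfold K3; positivity

lemma FI_near {k : ℤ} (hk : |(k : ℝ)| ≤ 2 * n) :
    ‖FI qL v (σ / n) n k - (if k = n then cc n σ k else 0)‖ ≤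
      K3 C B A / n ^ 3 * Real.exp (-(2 * π * η * |(n : ℝ) - k|)) := by
  have h1 := fourier_bound (f := fun z => HH qL v (σ / n) k z - cc n σ k) d.hη
    (fun z hz => ((d.HH_diff k (lt_St hz)).sub_const _).differentiableWithinAt)
    (fun z _ => by rw [d.HH_per]) (fun z hz => d.HH_sub hz hk) (k - n)
  have h2 : |((k - n : ℤ) : ℝ)| = |(n : ℝ) - k| := by
    push_cast; exact abs_sub_comm _ _
  rw [h2] at h1
  refine le_trans (le_of_eq ?_) h1
  congr 1
  have hc1 : Continuous fun x : ℝ => ee (((k - n : ℤ) : ℂ) * x) :=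
    continuous_ee.comp (by fun_prop)
  have h3 : ∫ x in (0 : ℝ)..1, ee (((k - n : ℤ) : ℂ) * x) * (HH qL v (σ / n) k x - cc n σ k) =
      FI qL v (σ / n) n k - (∫ x in (0 : ℝ)..1, ee (((k - n : ℤ) : ℂ) * x)) * cc n σ k := by
    unfold FI
    rw [← intervalIntegral.integral_mul_const, ← intervalIntegral.integral_sub]
    · refine intervalIntegral.integral_congr fun x _ => ?_
      ring
    · exact (hc1.mul (d.HH_cont k)).intervalIntegrable _ _
    · exact (hc1.mul continuous_const).intervalIntegrable _ _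
  rw [h3, int_ee]
  congr 1
  by_cases hkn : k = n
  · rw [if_pos hkn, if_pos (by omega), one_mul]
  · rw [if_neg hkn, if_neg (by omega), zero_mul]

lemma FI_mid {k : ℤ} (hk : |(k : ℝ)| ≤ n ^ 2) :
    ‖FI qL v (σ / n) n k‖ ≤ K2 C B A / n ^ 2 * Real.exp (-(2 * π * η * |(n : ℝ) - k|)) := by
  have h1 := fourier_bound (f := HH qL v (σ / n) k) d.hη
    (fun z hz => (d.HH_diff k (lt_St hz)).differentiableWithinAt)
    (fun z _ => d.HH_per k z) (fun z hz => d.HH_le_strip hz hk) (k - n)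
  have h2 : |((k - n : ℤ) : ℝ)| = |(n : ℝ) - k| := by
    push_cast; exact abs_sub_comm _ _
  rwa [h2] at h1

lemma FI_far (k : ℤ) : ‖FI qL v (σ / n) n k‖ ≤ K2 C B A / n ^ 2 := by
  have h1 := intervalIntegral.norm_integral_le_of_norm_le_const (a := 0) (b := 1)
    (f := fun x : ℝ => ee (((k - n : ℤ) : ℂ) * x) * HH qL v (σ / n) k x)
    (C := K2 C B A / n ^ 2) (fun x _ => by
      have h2 : ((k - n : ℤ) : ℂ) * x = (((k - n : ℤ) * x : ℝ) : ℂ) := by push_cast; ring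
      rw [norm_mul, h2, norm_ee_real, one_mul]
      exact d.HH_le_real k x)
  rw [sub_zero, abs_one, mul_one] at h1
  exact h1

end

end Dat

/-! ### the perturbation on the real line -/

section pert

variable {q qL : C(ℂ, ℂ)} {a : ℤ → ℂ}

lemma norm_ee_int_mul (k : ℤ) (x : ℝ) : ‖ee (k * x)‖ = 1 := by
  have h2 : (k : ℂ) * x = ((k * x : ℝ) : ℂ) := by push_cast; ring
  rw [h2, norm_ee_real]

variable (hs : Summable fun k => ‖a k‖)
  (hq : ∀ x : ℝ, q x = qL x + ∑' k : ℤ, a k * ee (k * x))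
include hs hq

lemma h_hasSum (x : ℝ) : HasSum (fun k : ℤ => a k * ee (k * x)) (q x - qL x) := by
  have h1 : Summable fun k : ℤ => a k * ee (k * x) :=
    Summable.of_norm_bounded hs fun k => by rw [norm_mul, norm_ee_int_mul, mul_one]
  have h2 : q x - qL x = ∑' k : ℤ, a k * ee (k * x) := by rw [hq x]; ring
  rw [h2]
  exact h1.hasSum

lemma h_norm (x : ℝ) : ‖q x - qL x‖ ≤ ∑' k, ‖a k‖ :=
  (h_hasSum hs hq x).norm_le_of_bounded hs.hasSum fun k => by
    rw [norm_mul, norm_ee_int_mul, mul_one]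

lemma dq_norm (b e : ℝ) : ‖dq q b e - dq qL b e‖ ≤ 2 * ∑' k, ‖a k‖ := by
  have h0 : 0 ≤ ∑' k, ‖a k‖ := tsum_nonneg fun _ => norm_nonneg _
  refine (AA.norm_le (by positivity)).2 fun r => ?_
  rw [AA.sub_apply, dq_apply, dq_apply]
  have h1 : (b : ℂ) + (e : ℂ) * ((r : ℝ) : ℂ) = ((b + e * r : ℝ) : ℂ) := by push_cast; ring
  rw [h1]
  have e1 : q ((b + e * r : ℝ) : ℂ) - q b - (qL ((b + e * r : ℝ) : ℂ) - qL b) =
      (q ((b + e * r : ℝ) : ℂ) - qL ((b + e * r : ℝ) : ℂ)) - (q b - qL b) := by ring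
  rw [e1]
  refine (norm_sub_le _ _).trans ?_
  have := h_norm hs hq (b + e * r)
  have := h_norm hs hq b
  linarith

lemma dq_hasSum (b e : ℝ) : HasSum (fun k : ℤ => (a k * ee (k * b)) • (eeA (k * e) - 1))
    (dq q b e - dq qL b e) := by
  have hsum : Summable fun k : ℤ => (a k * ee (k * b)) • (eeA (k * e) - 1) := by
    refine Summable.of_norm_bounded (hs.mul_right 2) fun k => ?_
    rw [norm_smul, norm_mul, norm_ee_int_mul, mul_one]
    refine mul_le_mul_of_nonneg_left ?_ (norm_nonneg _)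
    refine (norm_sub_le _ _).trans ?_
    rw [norm_one]
    have h1 : ‖eeA (k * e)‖ ≤ Real.exp (2 * π * 0) := norm_eeA_le (by simp [Complex.mul_im])
    rw [mul_zero, Real.exp_zero] at h1
    linarith
  have h1 := hsum.hasSum
  have h2 : (∑' k : ℤ, (a k * ee (k * b)) • (eeA (k * e) - 1)) = dq q b e - dq qL b e := by
    refine AA.ext' fun r => ?_
    have h3 := (AA.evalL r).hasSum h1
    have h4 := (h_hasSum hs hq (b + e * r)).sub (h_hasSum hs hq b)
    have h5 : (fun k : ℤ => a k * ee (k * ((b + e * r : ℝ) : ℂ)) - a k * ee (k * b)) =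
        fun k : ℤ => (AA.evalL r) ((a k * ee (k * b)) • (eeA (k * e) - 1)) := by
      funext k
      rw [AA.evalL_apply, AA.smul_apply, AA.sub_apply, eeA_apply, AA.one_apply]
      have h6 : (k : ℂ) * ((b + e * r : ℝ) : ℂ) = k * b + k * e * ((r : ℝ) : ℂ) := by
        push_cast; ring
      rw [h6, ee_add]
      ring
    rw [h5] at h4
    have h7 := h3.unique h4
    rw [AA.evalL_apply] at h7
    rw [h7, AA.sub_apply, dq_apply, dq_apply]
    have h8 : (b : ℂ) + (e : ℂ) * ((r : ℝ) : ℂ) = ((b + e * r : ℝ) : ℂ) := by push_cast; ring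
    rw [h8]
    ring
  rwa [h2] at h1

end pert

end Crest.Agent.R102.LinA682

end
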