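import Crest.Agent.R102.LinB_682

/-!
Row 102, part (A), leaf LIN (helper682): the theorem `leafLIN : LeafLIN`.
-/

set_option autoImplicit false

open Set Filter Topology Metric Complex MeasureTheory
open scoped Real ContDiff

noncomputable section

namespace Crest.Agent.R102.LinA682

open Crest.Agent.R102.A929

/-- the constant of the quadratic remainder -/
def KT (C B : ℝ) : ℝ := 4 * (C * (2 + 2 * Real.exp B) ^ 2 + (C + 5 / 2) * Real.exp B)

namespace Dat

variable {ρ C B A : ℝ} {n : ℕ} {σ : ℝ} {qL : C(ℂ, ℂ)} {q1 q2 : ℂ → ℂ} {η : ℝ} {v : ℂ → ℂ}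
  {q : C(ℂ, ℂ)} {a : ℤ → ℂ}

section

variable (d : Dat ρ C B A n σ qL q1 q2 η v)
include d

lemma bp_real (x : ℝ) : ∃ b : ℝ, bp v x = b := by
  refine ⟨x + (v x).re, ?_⟩
  unfold bp
  apply Complex.ext
  · simp
  · simp [d.vre x]

lemma ep_real (x : ℝ) : ∃ e : ℝ, ep v (σ / n) x = e := by
  refine ⟨(ep v (σ / n) x).re, ?_⟩
  apply Complex.ext
  · simp
  · simp [d.ep_im_real x]

variable (hs : Summable fun k => ‖a k‖) (hs1 : ∑' k, ‖a k‖ ≤ 1 / n)
  (hq : ∀ x : ℝ, q x = qL x + ∑' k : ℤ, a k * ee (k * x))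
include hs hs1 hq

omit hs hq in
lemma s_le : ∑' k, ‖a k‖ ≤ 1 := by
  have h1 := d.two_div_le
  have h2 := d.one_div_pos'
  have e : 2 / (n : ℝ) = 1 / n + 1 / n := by ring
  linarith

/-- the increment of the configuration -/
lemma dX_le (x : ℝ) : ‖Xq q (bp v x) (ep v (σ / n) x) - Xq qL (bp v x) (ep v (σ / n) x)‖ ≤
    (2 + 2 * Real.exp B) * ∑' k, ‖a k‖ := by
  have hz := d.real_mem x
  have hB := Real.exp_pos B
  have h0 : 0 ≤ ∑' k, ‖a k‖ := tsum_nonneg fun _ => norm_nonneg _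
  have h1 := d.s_le hs1
  obtain ⟨b, hb⟩ := d.bp_real x
  obtain ⟨e, he⟩ := d.ep_real x
  have hexp := d.exp_b hz
  have hen := (d.ep_norm hz).trans d.two_div_le
  rw [hb] at hexp
  rw [he] at hen
  rw [hb, he]
  refine max_le ?_ ?_
  · refine (dq_norm hs hq b e).trans ?_
    nlinarith
  · change ‖(e : ℂ) * Complex.exp (q b) - e * Complex.exp (qL b)‖ ≤ _
    have hh := h_norm hs hq b
    have e1 : (e : ℂ) * Complex.exp (q b) - e * Complex.exp (qL b) =
        e * (Complex.exp (qL b) * (Complex.exp (q b - qL b) - 1)) := by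
      rw [mul_sub, ← Complex.exp_add]; ring_nf
    rw [e1, norm_mul, norm_mul]
    have h2 := Complex.norm_exp_sub_one_le (hh.trans h1)
    have h3 : ‖Complex.exp (q b - qL b) - 1‖ ≤ 2 * ∑' k, ‖a k‖ := h2.trans (by linarith)
    have h4 := mul_le_mul hen (mul_le_mul hexp h3 (norm_nonneg _) hB.le)
      (by positivity) zero_le_one
    linarith

lemma Xq_lt (x : ℝ) : ‖Xq q (bp v x) (ep v (σ / n) x)‖ < ρ := by
  have h1 := d.dX_le hs hs1 hq x
  have h2 := d.X_norm (d.real_mem x)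
  have hB := Real.exp_pos B
  have h3 : (2 + 2 * Real.exp B) * ∑' k, ‖a k‖ ≤ (2 + 2 * Real.exp B) * (1 / n) :=
    mul_le_mul_of_nonneg_left hs1 (by positivity)
  calc ‖Xq q (bp v x) (ep v (σ / n) x)‖
      = ‖(Xq q (bp v x) (ep v (σ / n) x) - Xq qL (bp v x) (ep v (σ / n) x)) +
          Xq qL (bp v x) (ep v (σ / n) x)‖ := by rw [sub_add_cancel]
    _ ≤ (2 + 2 * Real.exp B) * (1 / n) + CX B * (2 / n) :=
        (norm_add_le _ _).trans (add_le_add (h1.trans h3) h2)
    _ = (2 * CX B + 2 + 2 * Real.exp B) / n := by ring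
    _ < ρ := d.nρ

/-- the linearised increment -/
lemma T_est (x : ℝ) :
    ‖Pq q (bp v x) (ep v (σ / n) x) - Pq qL (bp v x) (ep v (σ / n) x) -
      (ep v (σ / n) x) ^ 2 * DD qL v (σ / n) x
        (dq q (bp v x) (ep v (σ / n) x) - dq qL (bp v x) (ep v (σ / n) x),
          ep v (σ / n) x * Complex.exp (qL (bp v x)) * (q (bp v x) - qL (bp v x)))‖ ≤
      KT C B * (∑' k, ‖a k‖) ^ 2 / n ^ 2 := by
  have hz := d.real_mem x
  have hB := Real.exp_pos B
  have hC := d.C_pos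
  have hn := d.n_pos
  have h0 : 0 ≤ ∑' k, ‖a k‖ := tsum_nonneg fun _ => norm_nonneg _
  have h1 := d.s_le hs1
  have hX := d.dX_le hs hs1 hq x
  have hlt := d.Xq_lt hs hs1 hq x
  have hlt0 := d.X_lt hz
  have hexp := d.exp_b hz
  have hen := (d.ep_norm hz).trans d.two_div_le
  have hen2 := d.ep_norm hz
  set b := bp v x with hb
  set e := ep v (σ / n) x with he
  set s := ∑' k, ‖a k‖ with hsd
  have hc2 := d.hL.c2 _ _ hlt0 hlt
  have hD : fderiv ℂ Qf (Xq qL b e) = DD qL v (σ / n) x := rfl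
  rw [hD] at hc2
  have hh : ‖q b - qL b‖ ≤ s := by
    obtain ⟨b', hb'⟩ := d.bp_real x
    rw [hb, hb']; exact h_norm hs hq b'
  -- second component
  have e2 : DD qL v (σ / n) x (Xq q b e - Xq qL b e) -
      DD qL v (σ / n) x (dq q b e - dq qL b e, e * Complex.exp (qL b) * (q b - qL b)) =
      DD qL v (σ / n) x
        (0, e * (Complex.exp (qL b) * (Complex.exp (q b - qL b) - 1 - (q b - qL b)))) := by
    rw [← map_sub]
    congr 1
    refine Prod.ext ?_ ?_
    · change dq q b e - dq qL b e - (dq q b e - dq qL b e) = 0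
      rw [sub_self]
    · change e * Complex.exp (q b) - e * Complex.exp (qL b) -
        e * Complex.exp (qL b) * (q b - qL b) = _
      have e3 : Complex.exp (q b) = Complex.exp (qL b) * Complex.exp (q b - qL b) := by
        rw [← Complex.exp_add]; ring_nf
      rw [e3]; ring
  have h5 : ‖DD qL v (σ / n) x
        (0, e * (Complex.exp (qL b) * (Complex.exp (q b - qL b) - 1 - (q b - qL b))))‖ ≤
      (C + 5 / 2) * (Real.exp B * s ^ 2) := by
    refine (d.DD_apply hz _).trans (mul_le_mul_of_nonneg_left ?_ (by positivity))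
    rw [Prod.norm_mk, norm_zero]
    refine max_le (by positivity) ?_
    rw [norm_mul, norm_mul]
    have h6 := Complex.norm_exp_sub_one_sub_id_le (hh.trans h1)
    have h7 : ‖Complex.exp (q b - qL b) - 1 - (q b - qL b)‖ ≤ s ^ 2 :=
      h6.trans (pow_le_pow_left₀ (norm_nonneg _) hh 2)
    have h8 := mul_le_mul hen (mul_le_mul hexp h7 (norm_nonneg _) hB.le)
      (by positivity) zero_le_one
    linarith
  have h9 : C * ‖Xq q b e - Xq qL b e‖ ^ 2 ≤ C * ((2 + 2 * Real.exp B) * s) ^ 2 :=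
    mul_le_mul_of_nonneg_left (pow_le_pow_left₀ (norm_nonneg _) hX 2) hC.le
  have e0 : Pq q b e - Pq qL b e - e ^ 2 * DD qL v (σ / n) x
        (dq q b e - dq qL b e, e * Complex.exp (qL b) * (q b - qL b)) =
      e ^ 2 * ((Qf (Xq q b e) - Qf (Xq qL b e) - DD qL v (σ / n) x (Xq q b e - Xq qL b e)) +
        (DD qL v (σ / n) x (Xq q b e - Xq qL b e) -
          DD qL v (σ / n) x (dq q b e - dq qL b e, e * Complex.exp (qL b) * (q b - qL b)))) := by
    unfold Pq; ring
  rw [e0, e2, norm_mul]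
  have h10 : ‖e ^ 2‖ ≤ 4 / n ^ 2 := by
    rw [norm_pow]
    refine (pow_le_pow_left₀ (norm_nonneg _) hen2 2).trans (le_of_eq ?_)
    ring
  have h11 := (norm_add_le (Qf (Xq q b e) - Qf (Xq qL b e) -
      DD qL v (σ / n) x (Xq q b e - Xq qL b e)) (DD qL v (σ / n) x
        (0, e * (Complex.exp (qL b) * (Complex.exp (q b - qL b) - 1 - (q b - qL b)))))).trans
    (add_le_add (hc2.trans h9) h5)
  refine (mul_le_mul h10 h11 (norm_nonneg _) (by positivity)).trans (le_of_eq ?_)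
  unfold KT
  ring

omit hs1 in
/-- the series of the linearised integrand -/
lemma main_hasSum (x : ℝ) :
    HasSum (fun k : ℤ => a k * (ee (((k - n : ℤ) : ℂ) * x) * HH qL v (σ / n) k x))
      ((ep v (σ / n) x) ^ 2 * DD qL v (σ / n) x
        (dq q (bp v x) (ep v (σ / n) x) - dq qL (bp v x) (ep v (σ / n) x),
          ep v (σ / n) x * Complex.exp (qL (bp v x)) * (q (bp v x) - qL (bp v x))) *
        (1 + deriv v x) * ee (-(n * x))) := by
  obtain ⟨b, hb⟩ := d.bp_real x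
  obtain ⟨e, he⟩ := d.ep_real x
  have h1 := dq_hasSum hs hq b e
  have h2 := (h_hasSum hs hq b).mul_left ((e : ℂ) * Complex.exp (qL b))
  have h3 := (DD qL v (σ / n) x).hasSum (h1.prodMk h2)
  have h4 := ((h3.mul_left ((e : ℂ) ^ 2)).mul_right (1 + deriv v x)).mul_right (ee (-(n * x)))
  rw [hb, he]
  suffices h5 : (fun k : ℤ => a k * (ee (((k - n : ℤ) : ℂ) * x) * HH qL v (σ / n) k x)) =
      fun k : ℤ => (e : ℂ) ^ 2 * DD qL v (σ / n) x ((a k * ee (k * b)) • (eeA (k * e) - 1),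
        (e : ℂ) * Complex.exp (qL b) * (a k * ee (k * b))) * (1 + deriv v x) * ee (-(n * x)) by
    rw [h5]; exact h4
  funext k
  have e1 : ((a k * ee (k * b)) • (eeA (k * e) - 1),
      (e : ℂ) * Complex.exp (qL b) * (a k * ee (k * b))) =
      (a k * ee (k * b)) • (WW qL v (σ / n) k x) := by
    unfold WW
    rw [hb, he]
    refine Prod.ext rfl ?_
    change _ = (a k * ee (k * b)) * (e * Complex.exp (qL b))
    ring
  have e2 : (b : ℂ) = x + v x := by rw [← hb]; rfl
  have e3 : ee (k * b) = ee (k * x) * ee (k * v x) := by rw [e2, mul_add, ee_add]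
  have e4 : ee (((k - n : ℤ) : ℂ) * x) = ee (k * x) * ee (-(n * x)) := by
    rw [← ee_add]; congr 1; push_cast; ring
  rw [e1, map_smul, smul_eq_mul]
  unfold HH
  rw [he, e3, e4]
  ring

/-! ### continuity -/

omit hs hs1 hq in
lemma cont_bp : Continuous fun x : ℝ => bp v x := by
  unfold bp
  have := d.dv.continuous
  fun_prop

omit hs hs1 hq in
lemma cont_ep : Continuous fun x : ℝ => ep v (σ / n) x := by
  unfold ep
  have := d.dv.continuous
  fun_prop

omit hs hs1 hq in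
lemma cont_Pq (q : C(ℂ, ℂ)) (h : ∀ x : ℝ, ‖Xq q (bp v x) (ep v (σ / n) x)‖ < ρ) :
    Continuous fun x : ℝ => Pq q (bp v x) (ep v (σ / n) x) := by
  unfold Pq
  refine (d.cont_ep.pow 2).mul (continuous_iff_continuousAt.2 fun x => ?_)
  exact ContinuousAt.comp (f := fun x : ℝ => Xq q (bp v x) (ep v (σ / n) x))
    (d.hL.an _ (h x)).continuousAt (continuous_Xq q d.cont_bp d.cont_ep).continuousAt

omit hs hs1 hq in
lemma cont_dv : Continuous fun x : ℝ => 1 + deriv v x :=
  continuous_const.add ((differentiable_deriv d.dv).continuous.comp Complex.continuous_ofReal)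

omit d hs hs1 hq in
lemma cont_een : Continuous fun x : ℝ => ee (-(n * x)) := continuous_ee.comp (by fun_prop)

lemma cont_T : Continuous fun x : ℝ =>
    (Pq q (bp v x) (ep v (σ / n) x) - Pq qL (bp v x) (ep v (σ / n) x)) * (1 + deriv v x) *
      ee (-(n * x)) :=
  (((d.cont_Pq q (d.Xq_lt hs hs1 hq)).sub (d.cont_Pq qL fun x => d.X_lt (d.real_mem x))).mul
    d.cont_dv).mul cont_een

omit hs hs1 hq in
lemma cont_main : Continuous fun x : ℝ => (ep v (σ / n) x) ^ 2 * DD qL v (σ / n) x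
        (dq q (bp v x) (ep v (σ / n) x) - dq qL (bp v x) (ep v (σ / n) x),
          ep v (σ / n) x * Complex.exp (qL (bp v x)) * (q (bp v x) - qL (bp v x))) *
        (1 + deriv v x) * ee (-(n * x)) := by
  have hDD : Continuous fun x : ℝ => DD qL v (σ / n) x := by
    unfold DD
    refine continuous_iff_continuousAt.2 fun x => ?_
    exact ContinuousAt.comp (f := fun x : ℝ => Xq qL (bp v x) (ep v (σ / n) x))
      (d.hL.an _ (d.X_lt (d.real_mem x))).fderiv.continuousAt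
      (continuous_Xq qL d.cont_bp d.cont_ep).continuousAt
  have hb := d.cont_bp
  have he := d.cont_ep
  have h1 : Continuous fun x : ℝ => dq q (bp v x) (ep v (σ / n) x) :=
    continuous_dq q d.cont_bp d.cont_ep
  have h2 : Continuous fun x : ℝ => dq qL (bp v x) (ep v (σ / n) x) :=
    continuous_dq qL d.cont_bp d.cont_ep
  have h3 : Continuous fun x : ℝ =>
      ep v (σ / n) x * Complex.exp (qL (bp v x)) * (q (bp v x) - qL (bp v x)) := by fun_prop
  exact (((he.pow 2).mul (hDD.clm_apply ((h1.sub h2).prodMk h3))).mul d.cont_dv).mul cont_een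

/-! ### the one-sided theorem -/

omit hs1 in
lemma int_main : HasSum (fun k : ℤ => a k * FI qL v (σ / n) n k)
    (∫ x in (0 : ℝ)..1, (ep v (σ / n) x) ^ 2 * DD qL v (σ / n) x
        (dq q (bp v x) (ep v (σ / n) x) - dq qL (bp v x) (ep v (σ / n) x),
          ep v (σ / n) x * Complex.exp (qL (bp v x)) * (q (bp v x) - qL (bp v x))) *
        (1 + deriv v x) * ee (-(n * x))) := by
  have h1 := intervalIntegral.hasSum_integral_of_dominated_convergence (μ := volume) (a := 0)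
    (b := 1) (F := fun (k : ℤ) (x : ℝ) =>
      a k * (ee (((k - n : ℤ) : ℂ) * x) * HH qL v (σ / n) k x))
    (fun (k : ℤ) (_ : ℝ) => ‖a k‖ * (K2 C B A / n ^ 2))
    (fun k => by
      have hc1 : Continuous fun x : ℝ => ee (((k - n : ℤ) : ℂ) * x) :=
        continuous_ee.comp (by fun_prop)
      exact (continuous_const.mul (hc1.mul (d.HH_cont k))).aestronglyMeasurable)
    (fun k => Eventually.of_forall fun x _ => by
      rw [norm_mul, norm_mul, norm_ee_int_mul, one_mul]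
      exact mul_le_mul_of_nonneg_left (d.HH_le_real k x) (norm_nonneg _))
    (Eventually.of_forall fun x _ => hs.mul_right _)
    intervalIntegrable_const
    (Eventually.of_forall fun x _ => d.main_hasSum hs hq x)
  have h2 : (fun k : ℤ => a k * FI qL v (σ / n) n k) = fun k : ℤ => ∫ x in (0 : ℝ)..1,
      a k * (ee (((k - n : ℤ) : ℂ) * x) * HH qL v (σ / n) k x) := by
    funext k
    unfold FI
    rw [intervalIntegral.integral_const_mul]
  rw [h2]
  exact h1

/-- the right hand side of the estimate -/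
def RHS (n : ℕ) (η : ℝ) (a : ℤ → ℂ) : ℝ :=
  (∑' k : ℤ, if |k| ≤ 2 * n then ‖a k‖ * Real.exp (-(2 * π * η * |(n : ℝ) - k|)) else 0) / n ^ 3 +
    (∑' k : ℤ, if 2 * n < |k| ∧ |k| ≤ n ^ 2 then
      ‖a k‖ * Real.exp (-(2 * π * η * |(n : ℝ) - k|)) else 0) / n ^ 2 +
    (∑' k : ℤ, if (n : ℤ) ^ 2 < |k| then ‖a k‖ else 0) / n ^ 2 +
    (∑' k, ‖a k‖) ^ 2 / n ^ 2

theorem one_side :
    ‖(∫ x in (0 : ℝ)..1, (Pq q (bp v x) (ep v (σ / n) x) - Pq qL (bp v x) (ep v (σ / n) x)) *
        (1 + deriv v x) * ee (-(n * x))) - a n * cc n σ n‖ ≤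
      (K2 C B A + K3 C B A + 2 * KT C B) * RHS n η a := by
  have hπ := Real.pi_pos
  have hn := d.n_pos
  have hn2 := d.n2'
  have hη := d.hη
  have hK2 := d.K2_nonneg
  have hK3 := d.K3_nonneg
  have hC := d.C_pos
  have hKT : 0 ≤ KT C B := by
    have := Real.exp_pos B
    unfold KT; positivity
  -- quadratic part
  have q1 := intervalIntegral.norm_integral_le_of_norm_le_const (a := 0) (b := 1)
    (f := fun x : ℝ => (Pq q (bp v x) (ep v (σ / n) x) - Pq qL (bp v x) (ep v (σ / n) x)) *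
        (1 + deriv v x) * ee (-(n * x)) - (ep v (σ / n) x) ^ 2 * DD qL v (σ / n) x
        (dq q (bp v x) (ep v (σ / n) x) - dq qL (bp v x) (ep v (σ / n) x),
          ep v (σ / n) x * Complex.exp (qL (bp v x)) * (q (bp v x) - qL (bp v x))) *
        (1 + deriv v x) * ee (-(n * x)))
    (C := KT C B * (∑' k, ‖a k‖) ^ 2 / n ^ 2 * 2) (fun x _ => by
      rw [← sub_mul, ← sub_mul, norm_mul, norm_mul]
      have h1 : ‖ee (-(n * x))‖ = 1 := by
        have h2 : (-(n * x) : ℂ) = ((-(n * x) : ℝ) : ℂ) := by push_cast; ring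
        rw [h2, norm_ee_real]
      rw [h1, mul_one]
      exact mul_le_mul (d.T_est hs hs1 hq x) (d.v2' (d.real_mem x)) (norm_nonneg _)
        (by positivity))
  rw [sub_zero, abs_one, mul_one, intervalIntegral.integral_sub
    ((d.cont_T hs hs1 hq).intervalIntegrable _ _) (d.cont_main.intervalIntegrable _ _)] at q1
  -- linear part
  have l1 := d.int_main hs hq
  have l2 : HasSum (fun k : ℤ => a k * (if k = n then cc n σ k else 0)) (a n * cc n σ n) := by
    have h1 := hasSum_single (f := fun k : ℤ => a k * (if k = n then cc n σ k else 0)) (n : ℤ)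
      (fun k hk => by rw [if_neg hk, mul_zero])
    rwa [if_pos rfl] at h1
  have l3 := l1.sub l2
  set f1 : ℤ → ℝ := fun k =>
    if |k| ≤ 2 * n then ‖a k‖ * Real.exp (-(2 * π * η * |(n : ℝ) - k|)) else 0 with hf1
  set f2 : ℤ → ℝ := fun k => if 2 * n < |k| ∧ |k| ≤ n ^ 2 then
      ‖a k‖ * Real.exp (-(2 * π * η * |(n : ℝ) - k|)) else 0 with hf2
  set f3 : ℤ → ℝ := fun k => if (n : ℤ) ^ 2 < |k| then ‖a k‖ else 0 with hf3
  have hexp : ∀ k : ℤ, Real.exp (-(2 * π * η * |(n : ℝ) - k|)) ≤ 1 := fun k => by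
    rw [Real.exp_le_one_iff]
    have := abs_nonneg ((n : ℝ) - k)
    have : 0 ≤ 2 * π * η * |(n : ℝ) - k| := by positivity
    linarith
  have p1 : ∀ k, 0 ≤ f1 k := fun k => by
    simp only [hf1]; split_ifs <;> positivity
  have p2 : ∀ k, 0 ≤ f2 k := fun k => by
    simp only [hf2]; split_ifs <;> positivity
  have p3 : ∀ k, 0 ≤ f3 k := fun k => by
    simp only [hf3]; split_ifs <;> positivity
  have s1 : Summable f1 := Summable.of_nonneg_of_le p1 (fun k => by
    simp only [hf1]; split_ifs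
    · exact mul_le_of_le_one_right (norm_nonneg _) (hexp k)
    · exact norm_nonneg _) hs
  have s2 : Summable f2 := Summable.of_nonneg_of_le p2 (fun k => by
    simp only [hf2]; split_ifs
    · exact mul_le_of_le_one_right (norm_nonneg _) (hexp k)
    · exact norm_nonneg _) hs
  have s3 : Summable f3 := Summable.of_nonneg_of_le p3 (fun k => by
    simp only [hf3]; split_ifs
    · exact le_rfl
    · exact norm_nonneg _) hs
  have hg := (((s1.hasSum.div_const ((n : ℝ) ^ 3)).add (s2.hasSum.div_const ((n : ℝ) ^ 2))).add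
    (s3.hasSum.div_const ((n : ℝ) ^ 2))).mul_left (K2 C B A + K3 C B A)
  have l4 := l3.norm_le_of_bounded hg (fun k => by
    rw [← mul_sub, norm_mul]
    have hak := norm_nonneg (a k)
    have h1 := p1 k
    have h2 := p2 k
    have h3 := p3 k
    have hcast : ((|k| : ℤ) : ℝ) = |(k : ℝ)| := Int.cast_abs
    by_cases c1 : |k| ≤ 2 * n
    · have hk : |(k : ℝ)| ≤ 2 * n := by
        rw [← hcast]; exact_mod_cast c1
      have e1 : f1 k = ‖a k‖ * Real.exp (-(2 * π * η * |(n : ℝ) - k|)) := by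
        simp only [hf1]; rw [if_pos c1]
      calc ‖a k‖ * ‖FI qL v (σ / n) n k - (if k = n then cc n σ k else 0)‖
          ≤ ‖a k‖ * (K3 C B A / n ^ 3 * Real.exp (-(2 * π * η * |(n : ℝ) - k|))) :=
            mul_le_mul_of_nonneg_left (d.FI_near hk) hak
        _ = K3 C B A * (f1 k / n ^ 3) := by rw [e1]; ring
        _ ≤ (K2 C B A + K3 C B A) * (f1 k / n ^ 3 + f2 k / n ^ 2 + f3 k / n ^ 2) := by
            refine mul_le_mul (by linarith) ?_ (by positivity) (by positivity)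
            have : 0 ≤ f2 k / (n : ℝ) ^ 2 := by positivity
            have : 0 ≤ f3 k / (n : ℝ) ^ 2 := by positivity
            linarith
    · have hkn : k ≠ n := by
        rintro rfl
        apply c1
        rw [abs_of_nonneg (by positivity)]
        omega
      rw [if_neg hkn, sub_zero]
      push Not at c1
      by_cases c2 : |k| ≤ (n : ℤ) ^ 2
      · have hk : |(k : ℝ)| ≤ n ^ 2 := by
          rw [← hcast]; exact_mod_cast c2
        have e1 : f2 k = ‖a k‖ * Real.exp (-(2 * π * η * |(n : ℝ) - k|)) := by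
          simp only [hf2]; rw [if_pos ⟨c1, c2⟩]
        calc ‖a k‖ * ‖FI qL v (σ / n) n k‖
            ≤ ‖a k‖ * (K2 C B A / n ^ 2 * Real.exp (-(2 * π * η * |(n : ℝ) - k|))) :=
              mul_le_mul_of_nonneg_left (d.FI_mid hk) hak
          _ = K2 C B A * (f2 k / n ^ 2) := by rw [e1]; ring
          _ ≤ (K2 C B A + K3 C B A) * (f1 k / n ^ 3 + f2 k / n ^ 2 + f3 k / n ^ 2) := by
              refine mul_le_mul (by linarith) ?_ (by positivity) (by positivity)
              have : 0 ≤ f1 k / (n : ℝ) ^ 3 := by positivity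
              have : 0 ≤ f3 k / (n : ℝ) ^ 2 := by positivity
              linarith
      · have e1 : f3 k = ‖a k‖ := by
          simp only [hf3]; rw [if_pos (not_le.1 c2)]
        calc ‖a k‖ * ‖FI qL v (σ / n) n k‖ ≤ ‖a k‖ * (K2 C B A / n ^ 2) :=
              mul_le_mul_of_nonneg_left (d.FI_far k) hak
          _ = K2 C B A * (f3 k / n ^ 2) := by rw [e1]; ring
          _ ≤ (K2 C B A + K3 C B A) * (f1 k / n ^ 3 + f2 k / n ^ 2 + f3 k / n ^ 2) := by
              refine mul_le_mul (by linarith) ?_ (by positivity) (by positivity)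
              have : 0 ≤ f1 k / (n : ℝ) ^ 3 := by positivity
              have : 0 ≤ f2 k / (n : ℝ) ^ 2 := by positivity
              linarith)
  -- conclusion
  have t1 : 0 ≤ (∑' k, f1 k) / (n : ℝ) ^ 3 := div_nonneg (tsum_nonneg p1) (by positivity)
  have t2 : 0 ≤ (∑' k, f2 k) / (n : ℝ) ^ 2 := div_nonneg (tsum_nonneg p2) (by positivity)
  have t3 : 0 ≤ (∑' k, f3 k) / (n : ℝ) ^ 2 := div_nonneg (tsum_nonneg p3) (by positivity)
  have t4 : 0 ≤ (∑' k, ‖a k‖) ^ 2 / (n : ℝ) ^ 2 := by positivity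
  have hR : RHS n η a = (∑' k, f1 k) / (n : ℝ) ^ 3 + (∑' k, f2 k) / (n : ℝ) ^ 2 +
      (∑' k, f3 k) / (n : ℝ) ^ 2 + (∑' k, ‖a k‖) ^ 2 / n ^ 2 := rfl
  rw [hR]
  set T1 := (∑' k, f1 k) / (n : ℝ) ^ 3
  set T2 := (∑' k, f2 k) / (n : ℝ) ^ 2
  set T3 := (∑' k, f3 k) / (n : ℝ) ^ 2
  set T4 := (∑' k, ‖a k‖) ^ 2 / (n : ℝ) ^ 2 with hT4
  have q2 : KT C B * (∑' k, ‖a k‖) ^ 2 / n ^ 2 * 2 = 2 * KT C B * T4 := by rw [hT4]; ring
  rw [q2] at q1
  have tri : ∀ X Y Z : ℂ, ‖X - Z‖ ≤ ‖X - Y‖ + ‖Y - Z‖ := fun X Y Z => by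
    have : X - Z = (X - Y) + (Y - Z) := by ring
    rw [this]; exact norm_add_le _ _
  refine (tri _ _ _).trans ((add_le_add q1 l4).trans ?_)
  nlinarith [mul_nonneg hK2 t4, mul_nonneg hK3 t4, mul_nonneg hKT t1, mul_nonneg hKT t2,
    mul_nonneg hKT t3]

end

end Dat

/-! ### the leading constant -/

lemma Lf_eeA {m : ℤ} (hm : m ≠ 0) : Lf (eeA m) = -3 / (2 * π * I * m) := by
  have hc : (2 * π * I * m : ℂ) ≠ 0 := by
    have h1 : (m : ℂ) ≠ 0 := by exact_mod_cast hm
    have h2 : (π : ℂ) ≠ 0 := by exact_mod_cast Real.pi_ne_zero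
    exact mul_ne_zero (mul_ne_zero (mul_ne_zero two_ne_zero h2) I_ne_zero) h1
  set c : ℂ := 2 * π * I * m with hcd
  have h1 : Lam (eeA m) = 0 := by
    rw [Lam_apply]
    have h2 := Dat.int_ee m
    rw [if_neg hm] at h2
    rw [← h2]
    refine intervalIntegral.integral_congr fun x hx => ?_
    rw [uIcc_of_le zero_le_one] at hx
    exact ext_apply (eeA m) ⟨x, hx⟩
  have h2 : Lam (iot * eeA m) = 1 / c := by
    rw [Lam_apply]
    have e1 : ∫ x in (0 : ℝ)..1, ext (iot * eeA m) x =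
        ∫ x in (0 : ℝ)..1, (x : ℂ) * Complex.exp (c * x) := by
      refine intervalIntegral.integral_congr fun x hx => ?_
      rw [uIcc_of_le zero_le_one] at hx
      have h3 := ext_apply (eeA m) ⟨x, hx⟩
      simp only at h3
      simp only [ext_mul, ext_iot hx, h3]
      rw [eeA_apply, ee]
      congr 2
      rw [hcd]; ring
    rw [e1]
    have hF : ∀ x : ℝ, HasDerivAt (fun x : ℝ => ((x : ℂ) / c - 1 / c ^ 2) * Complex.exp (c * x))
        ((x : ℂ) * Complex.exp (c * x)) x := by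
      intro x
      have h3 : HasDerivAt (fun x : ℝ => (x : ℂ)) 1 x := Complex.ofRealCLM.hasDerivAt
      have h4 := ((h3.div_const c).sub_const (1 / c ^ 2)).mul ((h3.const_mul c).cexp)
      refine h4.congr_deriv ?_
      field_simp
      ring
    rw [intervalIntegral.integral_eq_sub_of_hasDerivAt (fun x _ => hF x)]
    · have h5 : Complex.exp (c * ((1 : ℝ) : ℂ)) = 1 := by
        rw [Complex.exp_eq_one_iff]
        exact ⟨m, by rw [hcd]; push_cast; ring⟩
      rw [h5]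
      simp
    · refine Continuous.intervalIntegrable ?_ _ _
      fun_prop
  rw [Lf_eq, h1, h2]
  ring

lemma cc_diff (n : ℕ) (hn : 0 < n) :
    Dat.cc n (-1) n - Dat.cc n 1 n = -(I * (3 / (2 * π)) * (1 / n ^ 2)) := by
  have hn' : (n : ℂ) ≠ 0 := by exact_mod_cast hn.ne'
  have h2 : (π : ℂ) ≠ 0 := by exact_mod_cast Real.pi_ne_zero
  unfold Dat.cc
  have e1 : (((n : ℕ) : ℤ) : ℂ) * (((-1 : ℝ) : ℂ) / n) = ((-1 : ℤ) : ℂ) := by
    push_cast; field_simp
  have e2 : (((n : ℕ) : ℤ) : ℂ) * (((1 : ℝ) : ℂ) / n) = ((1 : ℤ) : ℂ) := by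
    push_cast; field_simp
  rw [e1, e2, map_sub, map_sub, Lf_eeA (by norm_num), Lf_eeA (by norm_num)]
  push_cast
  field_simp
  rw [I_sq]
  ring

/-! ### the leaf -/

lemma EP_eq (q : C(ℂ, ℂ)) (v : ℂ → ℂ) (n : ℕ) (x : ℝ) :
    EP q (x - 1 / n + v (x - 1 / n)) (x + v x) (x + 1 / n + v (x + 1 / n)) =
      Pq q (bp v x) (ep v (((-1 : ℝ) : ℂ) / n) x) - Pq q (bp v x) (ep v (((1 : ℝ) : ℂ) / n) x) := by
  have e1 : -((x : ℂ) + v x - (x - 1 / n + v (x - 1 / n))) = ep v (((-1 : ℝ) : ℂ) / n) x := by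
    unfold ep
    have : (x : ℂ) + ((-1 : ℝ) : ℂ) / n = x - 1 / n := by push_cast; ring
    rw [this]; push_cast; ring
  have e2 : (x : ℂ) + 1 / n + v (x + 1 / n) - (x + v x) = ep v (((1 : ℝ) : ℂ) / n) x := by
    unfold ep
    have : (x : ℂ) + ((1 : ℝ) : ℂ) / n = x + 1 / n := by push_cast; ring
    rw [this]; push_cast; ring
  unfold EP
  rw [e1, e2]
  rfl

theorem leafLIN : LeafLIN := by
  intro ρ C hL B A hB hA
  obtain ⟨N, hN⟩ := exists_nat_gt (max A ((2 * CX B + 2 + 2 * Real.exp B) / ρ))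
  have hC : 0 < C := by linarith [hL.C_ge]
  have hρ := hL.ρ_pos
  have hCX := CX_ge hB
  have hKT : 0 ≤ KT C B := by
    have := Real.exp_pos B
    unfold KT; positivity
  have hK2 : 0 ≤ Dat.K2 C B A := by unfold Dat.K2; positivity
  have hK3 : 0 ≤ Dat.K3 C B A := by
    have := Real.pi_pos
    unfold Dat.K3; positivity
  refine ⟨2 * (Dat.K2 C B A + Dat.K3 C B A + 2 * KT C B) + 1, max N 2, by positivity, ?_⟩
  intro n q qL q1 q2 η a v hn hη dqL per _ sm hs hs1 hq _ dv vper vre v0 v1 v2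
  have hn2 : 2 ≤ n := (le_max_right _ _).trans hn
  have hn2' : (2 : ℝ) ≤ n := by exact_mod_cast hn2
  have hnN : (N : ℝ) ≤ n := by exact_mod_cast (le_max_left _ _).trans hn
  have hn0 : (0 : ℝ) < n := by linarith
  have hpow : (n : ℝ) ^ 2 ≤ (n : ℝ) ^ (5 / 2 : ℝ) := by
    rw [← Real.rpow_natCast]
    exact Real.rpow_le_rpow_of_exponent_le (by linarith) (by norm_num)
  have hnA : A ≤ n := ((le_max_left _ _).trans hN.le).trans hnN
  have hnρ : (2 * CX B + 2 + 2 * Real.exp B) / n < ρ := by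
    have h1 := ((le_max_right A ((2 * CX B + 2 + 2 * Real.exp B) / ρ)).trans_lt hN).trans_le hnN
    rw [div_lt_iff₀ hρ] at h1
    rw [div_lt_iff₀ hn0]
    linarith
  have hv1 : ∀ z ∈ St η, ‖v (z + 1 / n) - v z‖ ≤ A / n ^ 2 := fun z hz =>
    (v1 z hz).trans (div_le_div_of_nonneg_left hA (by positivity) hpow)
  have d1 : Dat ρ C B A n 1 qL q1 q2 η v :=
    ⟨hL, hA, by simp, hη, hn2, hnA, hnρ, dqL, per, sm, dv, vper, vre, v0, fun z hz => by
      have h1 := hv1 z hz
      have e : (((1 : ℝ) : ℂ) / n) = 1 / n := by push_cast; rfl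
      rw [e]; exact h1, v2⟩
  have d2 : Dat ρ C B A n (-1) qL q1 q2 η v :=
    ⟨hL, hA, by simp, hη, hn2, hnA, hnρ, dqL, per, sm, dv, vper, vre, v0, fun z hz => by
      have hz' : z + (((-1 : ℝ) : ℂ) / n) ∈ St η := Dat.add_s_mem hz
      have h1 := hv1 _ hz'
      have e : z + (((-1 : ℝ) : ℂ) / n) + 1 / n = z := by push_cast; ring
      rw [e, norm_sub_rev] at h1
      exact h1, v2⟩
  have o1 := d1.one_side hs hs1 hq
  have o2 := d2.one_side hs hs1 hq
  have hR : 0 ≤ Dat.RHS n η a := by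
    unfold Dat.RHS
    have h1 : ∀ (p : ℤ → Prop) [DecidablePred p], 0 ≤ ∑' k : ℤ, if p k then
        ‖a k‖ * Real.exp (-(2 * π * η * |(n : ℝ) - k|)) else 0 := fun p _ =>
      tsum_nonneg fun k => by split_ifs <;> positivity
    have h2 : 0 ≤ ∑' k : ℤ, if (n : ℤ) ^ 2 < |k| then ‖a k‖ else 0 :=
      tsum_nonneg fun k => by split_ifs <;> positivity
    have h3 := h1 fun k => |k| ≤ 2 * n
    have h4 := h1 fun k => 2 * n < |k| ∧ |k| ≤ n ^ 2
    positivity
  have e0 : (∫ x in (0 : ℝ)..1,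
        (EP q (x - 1 / n + v (x - 1 / n)) (x + v x) (x + 1 / n + v (x + 1 / n)) -
          EP qL (x - 1 / n + v (x - 1 / n)) (x + v x) (x + 1 / n + v (x + 1 / n))) *
        (1 + deriv v x) * ee (-(n * x))) =
      (∫ x in (0 : ℝ)..1, (Pq q (bp v x) (ep v (((-1 : ℝ) : ℂ) / n) x) -
        Pq qL (bp v x) (ep v (((-1 : ℝ) : ℂ) / n) x)) * (1 + deriv v x) * ee (-(n * x))) -
      ∫ x in (0 : ℝ)..1, (Pq q (bp v x) (ep v (((1 : ℝ) : ℂ) / n) x) -
        Pq qL (bp v x) (ep v (((1 : ℝ) : ℂ) / n) x)) * (1 + deriv v x) * ee (-(n * x)) := by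
    rw [← intervalIntegral.integral_sub ((d2.cont_T hs hs1 hq).intervalIntegrable _ _)
      ((d1.cont_T hs hs1 hq).intervalIntegrable _ _)]
    refine intervalIntegral.integral_congr fun x _ => ?_
    simp only [EP_eq]
    ring
  rw [e0]
  have hcc := cc_diff n (by omega)
  set I1 := ∫ x in (0 : ℝ)..1, (Pq q (bp v x) (ep v (((1 : ℝ) : ℂ) / n) x) -
        Pq qL (bp v x) (ep v (((1 : ℝ) : ℂ) / n) x)) * (1 + deriv v x) * ee (-(n * x)) with hI1
  set I2 := ∫ x in (0 : ℝ)..1, (Pq q (bp v x) (ep v (((-1 : ℝ) : ℂ) / n) x) -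
        Pq qL (bp v x) (ep v (((-1 : ℝ) : ℂ) / n) x)) * (1 + deriv v x) * ee (-(n * x)) with hI2
  have e1 : I2 - I1 + I * (3 / (2 * π)) * (1 / n ^ 2) * a n =
      (I2 - a n * Dat.cc n (-1) n) - (I1 - a n * Dat.cc n 1 n) := by
    linear_combination (a n) * hcc
  rw [e1]
  refine (norm_sub_le _ _).trans ((add_le_add o2 o1).trans ?_)
  have h5 : (2 * (Dat.K2 C B A + Dat.K3 C B A + 2 * KT C B) + 1) * Dat.RHS n η a ≥
      (Dat.K2 C B A + Dat.K3 C B A + 2 * KT C B) * Dat.RHS n η a +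
      (Dat.K2 C B A + Dat.K3 C B A + 2 * KT C B) * Dat.RHS n η a := by nlinarith
  exact h5

end Crest.Agent.R102.LinA682

end
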