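import Mathlib
import Crest.Agent.R102.SheetA_982
import Crest.Agent.R102.CCa_350

/-!
Row 102, T1-E, **LINK (up)**: a label chain with short steps gives lines (`ph`, `pp` of `StepL_599`);
if they agree with the extended lines at one height, the vertical segment above it lies in the main
sheet `SL` of the lines (982), and the extended lines are these lines.
-/

set_option autoImplicit false
set_option linter.unusedVariables false

open Set Filter Topology Metric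

noncomputable section

namespace Crest.Agent.R102.LinkU599

open Crest.Agent.R102.StepE599 Crest.Agent.R102.ColE350 Crest.Agent.R102.Sh982
open Crest.Agent.R102.VH982 (pt pt_eta pt_snd pt_re pt_im continuous_pt_y)
open Crest.Agent.R102.K669 (Slab IsReg isReg_of_slab isOpen_isReg ext_differentiableAt isReg_of_local)

/-! ### gluing along a vertical segment, for 982's sheets -/

section General

variable {E : Type*} [NormedAddCommGroup E] [NormedSpace ℂ E] [CompleteSpace E]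
  {F : ℂ × ℂ → E} {C : Set E} {y1 y0 : ℝ} {W : Set ℂ}

/-- **gluing upwards** -/
theorem sht_glue (h10 : y1 < y0) (hW : IsOpen W) (hF : DifferentiableOn ℂ F (Slab y1 y0 W))
    (hC : ∀ q ∈ Slab y1 y0 W, F q ∈ C) {x₁ y₂ y₃ : ℝ} {w₁ : ℂ} (hy : y₂ ≤ y₃)
    (h2 : pt x₁ y₂ w₁ ∈ Sht F C y1 y0 W) {N : Set (ℂ × ℂ)} (hN : IsOpen N)
    (hseg : ∀ y ∈ Icc y₂ y₃, pt x₁ y w₁ ∈ N) {G : ℂ × ℂ → E} (hG : DifferentiableOn ℂ G N)
    (hGC : ∀ q ∈ N, G q ∈ C) (hGe : K669.ext F C y1 y0 W =ᶠ[𝓝 (pt x₁ y₂ w₁)] G) :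
    pt x₁ y₃ w₁ ∈ Sht F C y1 y0 W ∧ K669.ext F C y1 y0 W =ᶠ[𝓝 (pt x₁ y₃ w₁)] G := by
  have hw : w₁ ∈ W := h2.1
  have hy1 : y1 < y₂ := by simpa using h2.2.1
  have hext := ext_an (F := F) (C := C) h10 hW
  have hGa : AnalyticOnNhd ℂ G N :=
    Crest.Agent.R266.SCV.analyticOnNhd_of_differentiableOn hN hG
  -- agreement on regular segments
  have hag : ∀ y, y₂ ≤ y → y ≤ y₃ → (∀ y' ∈ Icc y₂ y, IsReg F C y1 y0 W (pt x₁ y' w₁)) →
      K669.ext F C y1 y0 W =ᶠ[𝓝 (pt x₁ y w₁)] G := by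
    intro y h3 h4 h5
    refine ev_along (Ω := Sht F C y1 y0 W ∩ N) ((isOpen_Sht hW).inter hN)
      (hext.mono inter_subset_left) (hGa.mono inter_subset_right) (y₁ := y₂) ?_ hGe
    intro y' hy'
    rw [uIcc_of_le h3] at hy'
    refine ⟨⟨hw, ?_, h5 y' hy'⟩, hseg y' ⟨hy'.1, hy'.2.trans h4⟩⟩
    rw [pt_im]
    linarith [hy'.1]
  have hreg : IsReg F C y1 y0 W (pt x₁ y₃ w₁) := by
    refine reg_up hW hF hC (x := pt x₁ y₃ w₁) hw ?_
    intro y hy0 hyx hlow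
    rw [pt_im] at hyx
    rw [pt_re, pt_snd] at hlow ⊢
    rcases le_or_gt y y₂ with h3 | h3
    · exact h2.2.2.below (by simp) rfl (by simpa using h3)
    · refine isReg_of_local h10 hW hF hC (by rw [pt_im]; linarith) hN (hseg y ⟨h3.le, hyx⟩) hG hGC
        (by rw [pt_snd]; exact hw) ?_
      intro η' hη'
      rw [pt_im]
      set y' := max ((y + y₂) / 2) (y - η' / 2) with hy'
      have k1 : y₂ ≤ y' := le_trans (by linarith) (le_max_left _ _)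
      have k2 : y' < y := max_lt (by linarith) (by linarith)
      have k3 : y - η' < y' := lt_of_lt_of_le (by linarith) (le_max_right _ _)
      refine ⟨y', k3, k2, ?_⟩
      have k4 := hag y' k1 (k2.le.trans hyx) (fun y'' hy'' => hlow y'' (lt_of_le_of_lt hy''.2 k2))
      have k5 : ((⟨(pt x₁ y w₁).1.re, y'⟩ : ℂ), (pt x₁ y w₁).2) = pt x₁ y' w₁ := by
        rw [pt_mk x₁ y', pt_re, pt_snd]
      rw [k5]
      have k6 : ∀ᶠ q in 𝓝 (pt x₁ y' w₁), IsReg F C y1 y0 W q :=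
        isOpen_isReg.mem_nhds (hlow y' k2)
      filter_upwards [k4, k6] with q hq1 hq2
      exact ⟨hq2, hq1.symm⟩
  refine ⟨⟨hw, by rw [pt_im]; linarith, hreg⟩, hag y₃ hy le_rfl ?_⟩
  intro y' hy'
  exact hreg.below (by simp) rfl (by simpa using hy'.2)

end General

/-! ### the lines of a label function -/

/-- the line through the labels `X (t ∓ w/2, w)` -/
def lnX (θ H : ℂ → ℂ) (X : ℂ × ℂ → ℂ) (q : ℂ × ℂ) : ℂ × ℂ :=
  (ph θ H (X (q.1 - q.2 / 2, q.2)) (X (q.1 + q.2 / 2, q.2) - X (q.1 - q.2 / 2, q.2)),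
    pp θ H (X (q.1 - q.2 / 2, q.2)) (X (q.1 + q.2 / 2, q.2) - X (q.1 - q.2 / 2, q.2)))

/-- the domain of `lnX` -/
def NX (O : Set (ℂ × ℂ)) : Set (ℂ × ℂ) := {q | (q.1 - q.2 / 2, q.2) ∈ O ∧ (q.1 + q.2 / 2, q.2) ∈ O}

lemma isOpen_NX {O : Set (ℂ × ℂ)} (hO : IsOpen O) : IsOpen (NX O) := by
  have c1 : Continuous fun q : ℂ × ℂ => ((q.1 - q.2 / 2, q.2) : ℂ × ℂ) := by fun_prop
  have c2 : Continuous fun q : ℂ × ℂ => ((q.1 + q.2 / 2, q.2) : ℂ × ℂ) := by fun_prop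
  exact (hO.preimage c1).inter (hO.preimage c2)

variable {θ H K : ℂ → ℂ}

theorem lnX_diff (h : Ent θ H K) {O : Set (ℂ × ℂ)} (hO : IsOpen O) {X : ℂ × ℂ → ℂ}
    (hX : DifferentiableOn ℂ X O) {τ : ℂ × ℂ → ℝ}
    (hgood : ∀ q ∈ NX O, Good θ K (X (q.1 - q.2 / 2, q.2)) (τ q) ∧
      X (q.1 + q.2 / 2, q.2) ≠ X (q.1 - q.2 / 2, q.2) ∧
      ‖X (q.1 + q.2 / 2, q.2) - X (q.1 - q.2 / 2, q.2)‖ ≤ τ q) :
    DifferentiableOn ℂ (lnX θ H X) (NX O) := by
  intro q hq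
  obtain ⟨g, hne, hle⟩ := hgood q hq
  have d1 : DifferentiableAt ℂ (fun q : ℂ × ℂ => X (q.1 - q.2 / 2, q.2)) q :=
    DifferentiableAt.comp q (g := X) (f := fun q : ℂ × ℂ => ((q.1 - q.2 / 2, q.2) : ℂ × ℂ))
      (hX.differentiableAt (hO.mem_nhds hq.1)) (by fun_prop)
  have d2 : DifferentiableAt ℂ (fun q : ℂ × ℂ => X (q.1 + q.2 / 2, q.2)) q :=
    DifferentiableAt.comp q (g := X) (f := fun q : ℂ × ℂ => ((q.1 + q.2 / 2, q.2) : ℂ × ℂ))
      (hX.differentiableAt (hO.mem_nhds hq.2)) (by fun_prop)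
  have d3 : DifferentiableAt ℂ (fun q : ℂ × ℂ =>
      ((X (q.1 - q.2 / 2, q.2), X (q.1 + q.2 / 2, q.2) - X (q.1 - q.2 / 2, q.2)) : ℂ × ℂ)) q :=
    d1.prodMk (d2.sub d1)
  have e1 : DifferentiableAt ℂ (fun q : ℂ × ℂ =>
      ph θ H (X (q.1 - q.2 / 2, q.2)) (X (q.1 + q.2 / 2, q.2) - X (q.1 - q.2 / 2, q.2))) q :=
    DifferentiableAt.comp q (g := fun z : ℂ × ℂ => ph θ H z.1 z.2)
      (f := fun q : ℂ × ℂ => ((X (q.1 - q.2 / 2, q.2),
        X (q.1 + q.2 / 2, q.2) - X (q.1 - q.2 / 2, q.2)) : ℂ × ℂ))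
      (ph_differentiableAt h g (sub_ne_zero.2 hne) hle) d3
  have e2 : DifferentiableAt ℂ (fun q : ℂ × ℂ =>
      pp θ H (X (q.1 - q.2 / 2, q.2)) (X (q.1 + q.2 / 2, q.2) - X (q.1 - q.2 / 2, q.2))) q :=
    DifferentiableAt.comp q (g := fun z : ℂ × ℂ => pp θ H z.1 z.2)
      (f := fun q : ℂ × ℂ => ((X (q.1 - q.2 / 2, q.2),
        X (q.1 + q.2 / 2, q.2) - X (q.1 - q.2 / 2, q.2)) : ℂ × ℂ))
      (pp_differentiableAt h g (sub_ne_zero.2 hne) hle) d3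
  exact (e1.prodMk e2).differentiableWithinAt

/-! ### the sheet of the lines -/

variable {φ p : ℂ × ℂ → ℂ} {ρ r : ℝ}

/-- **LINK (up)**, general form -/
theorem link_up (h : Ent θ H K) (hρ : 0 < ρ)
    (hF : DifferentiableOn ℂ (Fl φ p) (Slab (-(ρ / 2)) (ρ / 2) (ball 0 r)))
    {O : Set (ℂ × ℂ)} (hO : IsOpen O) {X : ℂ × ℂ → ℂ}
    (hX : DifferentiableOn ℂ X O) {τ : ℂ × ℂ → ℝ}
    (hgood : ∀ q ∈ NX O, Good θ K (X (q.1 - q.2 / 2, q.2)) (τ q) ∧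
      X (q.1 + q.2 / 2, q.2) ≠ X (q.1 - q.2 / 2, q.2) ∧
      ‖X (q.1 + q.2 / 2, q.2) - X (q.1 - q.2 / 2, q.2)‖ ≤ τ q)
    {x₁ y₂ y₃ : ℝ} {w₁ : ℂ} (hy : y₂ ≤ y₃) (h2 : pt x₁ y₂ w₁ ∈ SL φ p ρ r)
    (hseg : ∀ y ∈ Icc y₂ y₃, pt x₁ y w₁ ∈ NX O)
    (hGe : LE φ p ρ r =ᶠ[𝓝 (pt x₁ y₂ w₁)] lnX θ H X) :
    pt x₁ y₃ w₁ ∈ SL φ p ρ r ∧ LE φ p ρ r =ᶠ[𝓝 (pt x₁ y₃ w₁)] lnX θ H X :=
  sht_glue (by linarith) isOpen_ball hF Fl_maps hy h2 (isOpen_NX hO) hseg
    (lnX_diff h hO hX hgood) (fun _ _ => mem_univ _) hGe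

variable {c : ℂ} {R s b : ℝ}

/-- **LINK (up), column version**: the output of `CC350.BaseL.column` puts the column into `SL` -/
theorem link_column (h : Ent θ H K) (hρ : 0 < ρ)
    (hF : DifferentiableOn ℂ (Fl φ p) (Slab (-(ρ / 2)) (ρ / 2) (ball 0 r)))
    (hs : 0 < s) (hsR : 10 ^ 4 * s ≤ R) (hb : |b - c.im| ≤ R / 400)
    (hbase : ∀ t w : ℂ, w ∈ Wd s → b - 4 * s < t.im → t.im < b → (t, w) ∈ SL φ p ρ r)
    {X : ℂ × ℂ → ℂ} (hX : DifferentiableOn ℂ X (Col c R s b))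
    (hgood : ∀ t w : ℂ, (t, w) ∈ Col c R s b → Good θ K (X (t, w)) (10 * s))
    (hstep : ∀ t w : ℂ, (t, w) ∈ Col c R s b → (t + w, w) ∈ Col c R s b →
      X (t + w, w) ≠ X (t, w) ∧ ‖X (t + w, w) - X (t, w)‖ < 5 * s)
    (hline : ∀ t w : ℂ, (t, w) ∈ Col c R s b → (t + w, w) ∈ Col c R s b → (t + w).im < b →
      φe φ p ρ r (t + w / 2, w) = ph θ H (X (t, w)) (X (t + w, w) - X (t, w)) ∧
      pe φ p ρ r (t + w / 2, w) = pp θ H (X (t, w)) (X (t + w, w) - X (t, w)))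
    {t w : ℂ} (hw : w ∈ Wd s) (ht1 : b - 4 * s < t.im) (ht2 : t.im < c.im + R / 100)
    (htx : |t.re - c.re| < R / 20) : (t, w) ∈ SL φ p ρ r := by
  have hR : 0 < R := by
    have : (0 : ℝ) < 10 ^ 4 * s := by positivity
    linarith
  rcases lt_or_ge t.im b with hlt | hge
  · exact hbase t w hw ht1 hlt
  have hv := Wd.im_pos hw
  have hw1 : ‖w‖ < 2 * s := hw.1
  have hwi := Complex.abs_im_le_norm w
  have hwr := Complex.abs_re_le_norm w
  have hwi' := abs_le.1 hwi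
  have hwr' := abs_le.1 hwr
  have hb' := abs_le.1 hb
  obtain ⟨htx1, htx2⟩ := abs_lt.1 htx
  have hO : IsOpen (Col c R s b) := isOpen_Col
  have eim : ∀ y : ℝ, (pt t.re y w).1.im = y := fun y => by simp
  -- the segment is in the domain of the lines
  have hcol : ∀ (x y : ℝ), b - 4 * s < y → |x - c.re| + 32 * (y - b) < R / 2 →
      ∀ z : ℂ, z.re = x → z.im = y → (z, w) ∈ Col c R s b := by
    intro x y h1 h2 z e1 e2
    refine ⟨hw, ?_, ?_⟩
    · show b - 4 * s < z.im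
      rw [e2]; exact h1
    · show |z.re - c.re| + 32 * (z.im - b) < R / 2
      rw [e1, e2]; exact h2
  have hseg : ∀ y ∈ Icc (b - 2 * s) t.im, pt t.re y w ∈ NX (Col c R s b) := by
    intro y hy
    have hy1 := hy.1
    have hy2 := hy.2
    have k0 : ((w / 2).im) = w.im / 2 := by simp
    have k0' : ((w / 2).re) = w.re / 2 := by simp
    refine ⟨?_, ?_⟩
    · refine hcol ((pt t.re y w).1 - w / 2).re (y - w.im / 2) (by linarith) ?_
        ((pt t.re y w).1 - w / 2) rfl (by rw [Complex.sub_im, eim, k0])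
      rw [Complex.sub_re, pt_re, k0']
      have : |t.re - w.re / 2 - c.re| ≤ |t.re - c.re| + s := by
        rw [abs_le]
        constructor
        · linarith [neg_abs_le (t.re - c.re)]
        · linarith [le_abs_self (t.re - c.re)]
      linarith
    · refine hcol ((pt t.re y w).1 + w / 2).re (y + w.im / 2) (by linarith) ?_
        ((pt t.re y w).1 + w / 2) rfl (by rw [Complex.add_im, eim, k0])
      rw [Complex.add_re, pt_re, k0']
      have : |t.re + w.re / 2 - c.re| ≤ |t.re - c.re| + s := by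
        rw [abs_le]
        constructor
        · linarith [neg_abs_le (t.re - c.re)]
        · linarith [le_abs_self (t.re - c.re)]
      linarith
  have hstart : pt t.re (b - 2 * s) w ∈ SL φ p ρ r := by
    have e : pt t.re (b - 2 * s) w = ((pt t.re (b - 2 * s) w).1, w) := rfl
    rw [e]
    exact hbase _ w hw (by rw [eim]; linarith) (by rw [eim]; linarith)
  have hgood' : ∀ q ∈ NX (Col c R s b), Good θ K (X (q.1 - q.2 / 2, q.2)) (10 * s) ∧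
      X (q.1 + q.2 / 2, q.2) ≠ X (q.1 - q.2 / 2, q.2) ∧
      ‖X (q.1 + q.2 / 2, q.2) - X (q.1 - q.2 / 2, q.2)‖ ≤ 10 * s := by
    intro q hq
    have e : q.1 - q.2 / 2 + q.2 = q.1 + q.2 / 2 := by ring
    have k := hstep (q.1 - q.2 / 2) q.2 hq.1 (by rw [e]; exact hq.2)
    rw [e] at k
    exact ⟨hgood _ _ hq.1, k.1, by linarith [k.2]⟩
  have hGe : LE φ p ρ r =ᶠ[𝓝 (pt t.re (b - 2 * s) w)] lnX θ H X := by
    have o1 : ∀ᶠ q in 𝓝 (pt t.re (b - 2 * s) w), q ∈ NX (Col c R s b) :=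
      (isOpen_NX hO).mem_nhds (hseg (b - 2 * s) ⟨le_rfl, by linarith⟩)
    have o2 : ∀ᶠ q : ℂ × ℂ in 𝓝 (pt t.re (b - 2 * s) w), (q.1 + q.2 / 2).im < b := by
      have cc : Continuous fun q : ℂ × ℂ => (q.1 + q.2 / 2).im := by fun_prop
      refine (cc.tendsto _).eventually (Iio_mem_nhds ?_)
      rw [pt_snd, Complex.add_im, eim]
      have k0 : ((w / 2).im) = w.im / 2 := by simp
      rw [k0]
      linarith
    filter_upwards [o1, o2] with q hq1 hq2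
    have e : q.1 - q.2 / 2 + q.2 = q.1 + q.2 / 2 := by ring
    have e' : q.1 - q.2 / 2 + q.2 / 2 = q.1 := by ring
    obtain ⟨k1, k2⟩ := hline (q.1 - q.2 / 2) q.2 hq1.1 (by rw [e]; exact hq1.2) (by rw [e]; exact hq2)
    rw [e, e'] at k1 k2
    have e3 : LE φ p ρ r q = (φe φ p ρ r (q.1, q.2), pe φ p ρ r (q.1, q.2)) := rfl
    rw [e3, k1, k2]
    rfl
  have hmain := (link_up h hρ hF hO hX (τ := fun _ => 10 * s) hgood' (x₁ := t.re)
    (y₂ := b - 2 * s) (y₃ := t.im) (w₁ := w) (by linarith) hstart hseg hGe).1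
  have e4 : pt t.re t.im w = (t, w) := pt_eta (t, w)
  rwa [e4] at hmain

/-- **(CC), part b**: `BaseL` with the extended lines, `SmallD` ⇒ the column is in the sheet -/
theorem column_SL {B : ℂ × ℂ → ℂ} {b1 κ : ℝ} (h : Ent θ H K) (hρ : 0 < ρ)
    (hF : DifferentiableOn ℂ (Fl φ p) (Slab (-(ρ / 2)) (ρ / 2) (ball 0 r)))
    (D : CC350.BaseL θ H K (φe φ p ρ r) (pe φ p ρ r) B s b1 R) (S : SmallD θ K c R s κ)
    (hb : |b - c.im| ≤ R / 400) (hb0 : 0 ≤ b) (hb1 : b ≤ b1)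
    (hbase : ∀ t w : ℂ, w ∈ Wd s → -(4 * s) < t.im → t.im < b1 → (t, w) ∈ SL φ p ρ r)
    {t w : ℂ} (hw : w ∈ Wd s) (ht1 : -(4 * s) < t.im) (ht2 : t.im < c.im + R / 100)
    (htx : |t.re - c.re| < R / 20) : (t, w) ∈ SL φ p ρ r := by
  have hs := D.s_pos
  rcases lt_or_ge t.im b1 with hlt | hge
  · exact hbase t w hw ht1 hlt
  obtain ⟨X, x1, x2, x3, x4, x5, x6⟩ := D.column h S hb hb0 hb1
  refine link_column h hρ hF hs S.sR hb ?_ x1 x4 x5 x6 hw (by linarith) ht2 htx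
  intro t' w' hw' h1 h2
  exact hbase t' w' hw' (by linarith) (by linarith)

end Crest.Agent.R102.LinkU599
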