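import Crest.Agent.R102.FuncA_929

/-!
Row 102, part (A) (helper929): local estimates (PL), (P0) for `Pq`.
-/

set_option autoImplicit false

open Set Filter Topology Metric Complex MeasureTheory
open scoped Real ContDiff

noncomputable section

namespace Crest.Agent.R102.A929

lemma schwarz_step {f : ℂ → ℂ} {R M : ℝ} (hR : 0 < R) (hf : DifferentiableOn ℂ f (ball 0 R))
    (hb : ∀ s ∈ ball (0 : ℂ) R, ‖f s‖ ≤ M) (h0 : f 0 = 0) :
    DifferentiableOn ℂ (dslope f 0) (ball 0 R) ∧ (∀ s ∈ ball (0 : ℂ) R, ‖dslope f 0 s‖ ≤ M / R) ∧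
      ∀ s, f s = s * dslope f 0 s := by
  refine ⟨(Complex.differentiableOn_dslope (isOpen_ball.mem_nhds (mem_ball_self hR))).2 hf,
    fun s hs => ?_, fun s => ?_⟩
  · exact Complex.norm_dslope_le_div_of_mapsTo_ball hf (fun z hz => by
      rw [h0, mem_closedBall_zero_iff]; exact hb z hz) hs
  · have := sub_smul_dslope f 0 s
    rw [h0, sub_zero, sub_zero, smul_eq_mul] at this
    exact this.symm

lemma schwarz3 {f : ℂ → ℂ} {R M : ℝ} (hR : 0 < R) (hf : DifferentiableOn ℂ f (ball 0 R))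
    (hb : ∀ s ∈ ball (0 : ℂ) R, ‖f s‖ ≤ M) (hodd : ∀ s, f (-s) = - f s) (hd : deriv f 0 = 0) :
    ∀ s ∈ ball (0 : ℂ) R, ‖f s‖ ≤ M / R ^ 3 * ‖s‖ ^ 3 := by
  have h0 : f 0 = 0 := by
    have := hodd 0
    rw [neg_zero] at this
    have h2 : (2 : ℂ) * f 0 = 0 := by linear_combination this
    simpa using h2
  obtain ⟨d1, b1, e1⟩ := schwarz_step hR hf hb h0
  have z1 : dslope f 0 0 = 0 := by rw [dslope_same]; exact hd
  obtain ⟨d2, b2, e2⟩ := schwarz_step hR d1 b1 z1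
  have heven : ∀ s, dslope f 0 (-s) = dslope f 0 s := by
    intro s
    rcases eq_or_ne s 0 with rfl | hs
    · rw [neg_zero]
    · have h3 := e1 s
      have h4 := e1 (-s)
      rw [hodd s, h3] at h4
      have h5 : s * dslope f 0 (-s) = s * dslope f 0 s := by linear_combination h4
      exact mul_left_cancel₀ hs h5
  have z2 : dslope (dslope f 0) 0 0 = 0 := by
    rw [dslope_same]
    have hD : HasDerivAt (dslope f 0) (deriv (dslope f 0) 0) 0 :=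
      (d1.differentiableAt (isOpen_ball.mem_nhds (mem_ball_self hR))).hasDerivAt
    have hN : HasDerivAt (fun s : ℂ => dslope f 0 (-s)) (-(deriv (dslope f 0) 0)) 0 := by
      have hD' : HasDerivAt (dslope f 0) (deriv (dslope f 0) 0) (-(0 : ℂ)) := by rwa [neg_zero]
      have := HasDerivAt.comp (0 : ℂ) hD' (hasDerivAt_neg (0 : ℂ))
      rw [mul_neg, mul_one] at this
      exact this
    have hE : (fun s : ℂ => dslope f 0 (-s)) = dslope f 0 := funext heven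
    rw [hE] at hN
    have h6 := hD.unique hN
    have h2 : (2 : ℂ) * deriv (dslope f 0) 0 = 0 := by linear_combination h6
    simpa using h2
  obtain ⟨d3, b3, e3⟩ := schwarz_step hR d2 b2 z2
  intro s hs
  have h7 := b3 s hs
  have h8 : f s = s ^ 3 * dslope (dslope (dslope f 0) 0) 0 s := by
    rw [e1 s, e2 s, e3 s]; ring
  rw [h8, norm_mul, norm_pow, mul_comm]
  refine mul_le_mul_of_nonneg_right (h7.trans (le_of_eq ?_)) (by positivity)
  field_simp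

/-- `q` is `C^3` with bounds on the convex set `D` (real line or complex strip) -/
structure Sm (q : C(ℂ, ℂ)) (q1 q2 : ℂ → ℂ) (D : Set ℂ) (B : ℝ) : Prop where
  B_ge : 1 ≤ B
  cv : Convex ℝ D
  b0 : ∀ x ∈ D, ‖q x‖ ≤ B
  b1 : ∀ x ∈ D, ‖q1 x‖ ≤ B
  b2 : ∀ x ∈ D, ‖q2 x‖ ≤ B
  l0 : ∀ x ∈ D, ∀ y ∈ D, ‖q y - q x‖ ≤ B * ‖y - x‖
  l1 : ∀ x ∈ D, ∀ y ∈ D, ‖q1 y - q1 x‖ ≤ B * ‖y - x‖
  t1 : ∀ x e x' e' : ℂ, x ∈ D → x + e ∈ D → x' ∈ D → x' + e' ∈ D → ∀ m : ℝ, ‖e‖ ≤ m → ‖e'‖ ≤ m →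
    ‖(q (x' + e') - q x' - e' * q1 x') - (q (x + e) - q x - e * q1 x)‖ ≤
      B * (m * ‖e' - e‖ + m ^ 2 * ‖x' - x‖)
  t2 : ∀ x e : ℂ, x ∈ D → x + e ∈ D →
    ‖q (x + e) - q x - e * q1 x - e ^ 2 * q2 x / 2‖ ≤ B * ‖e‖ ^ 3

section

variable {q : C(ℂ, ℂ)} {q1 q2 : ℂ → ℂ} {D : Set ℂ} {B ρ C m : ℝ} {x x' e e' : ℂ}

lemma Sm.seg (h : Sm q q1 q2 D B) (hx : x ∈ D) (hxe : x + e ∈ D) (r : unitInterval) :
    x + e * ((r : ℝ) : ℂ) ∈ D := by
  have h1 := h.cv hx hxe (a := 1 - (r : ℝ)) (b := (r : ℝ)) (by linarith [r.2.2]) r.2.1 (by ring)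
  have h2 : (1 - (r : ℝ)) • x + (r : ℝ) • (x + e) = x + e * ((r : ℝ) : ℂ) := by
    rw [Complex.real_smul, Complex.real_smul]
    push_cast
    ring
  rwa [h2] at h1

/-- the part of `dq` of second order -/
def rhoA (q : C(ℂ, ℂ)) (q1 : ℂ → ℂ) (x e : ℂ) : AA := dq q x e - (e * q1 x) • iot

lemma rhoA_apply (r : unitInterval) : rhoA q q1 x e r =
    q (x + e * ((r : ℝ) : ℂ)) - q x - (e * ((r : ℝ) : ℂ)) * q1 x := by
  unfold rhoA
  rw [AA.sub_apply, AA.smul_apply, dq_apply, iot_apply]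
  ring

lemma norm_mul_r_le (e : ℂ) (r : unitInterval) : ‖e * ((r : ℝ) : ℂ)‖ ≤ ‖e‖ := by
  rw [norm_mul, Complex.norm_real, Real.norm_of_nonneg r.2.1]
  exact mul_le_of_le_one_right (norm_nonneg _) r.2.2

lemma Sm.rho_sub (h : Sm q q1 q2 D B) (hx : x ∈ D) (hxe : x + e ∈ D) (hx' : x' ∈ D)
    (hxe' : x' + e' ∈ D) (he : ‖e‖ ≤ m) (he' : ‖e'‖ ≤ m) :
    ‖rhoA q q1 x' e' - rhoA q q1 x e‖ ≤ B * (m * ‖e' - e‖ + m ^ 2 * ‖x' - x‖) := by
  have hB := h.B_ge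
  have hm : 0 ≤ m := (norm_nonneg _).trans he
  refine (AA.norm_le (by positivity)).2 (fun r => ?_)
  rw [AA.sub_apply, rhoA_apply, rhoA_apply]
  have h1 := h.t1 x (e * ((r : ℝ) : ℂ)) x' (e' * ((r : ℝ) : ℂ)) hx (h.seg hx hxe r) hx'
    (h.seg hx' hxe' r) m ((norm_mul_r_le e r).trans he) ((norm_mul_r_le e' r).trans he')
  refine h1.trans (mul_le_mul_of_nonneg_left ?_ (by linarith))
  have h2 : ‖e' * ((r : ℝ) : ℂ) - e * ((r : ℝ) : ℂ)‖ ≤ ‖e' - e‖ := by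
    rw [← sub_mul]; exact norm_mul_r_le _ r
  have := mul_le_mul_of_nonneg_left h2 hm
  linarith

lemma dq_zero : dq q x 0 = 0 := AA.ext' (fun r => by simp)

lemma Xq_zero : Xq q x 0 = 0 := by
  unfold Xq
  rw [dq_zero, zero_mul]; rfl

lemma rhoA_zero : rhoA q q1 x 0 = 0 := by
  unfold rhoA
  rw [dq_zero, zero_mul, zero_smul, sub_zero]

lemma Sm.Lf_dq_sub (h : Sm q q1 q2 D B) (hx : x ∈ D) (hxe : x + e ∈ D) (hx' : x' ∈ D)
    (hxe' : x' + e' ∈ D) (he : ‖e‖ ≤ m) (he' : ‖e'‖ ≤ m) :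
    ‖Lf (dq q x' e' - dq q x e)‖ ≤ 5 * (B * (m * ‖e' - e‖ + m ^ 2 * ‖x' - x‖)) := by
  have h1 : dq q x' e' - dq q x e = (rhoA q q1 x' e' - rhoA q q1 x e) +
      (e' * q1 x' - e * q1 x) • iot := by
    unfold rhoA
    rw [sub_smul]; abel
  rw [h1, map_add, map_smul, Lf_iot, smul_zero, add_zero]
  exact (norm_Lf_le _).trans (mul_le_mul_of_nonneg_left (h.rho_sub hx hxe hx' hxe' he he')
    (by norm_num))

lemma norm_cexp_sub_le {a b : ℂ} (ha : ‖a‖ ≤ B) (hb : ‖b‖ ≤ B) :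
    ‖Complex.exp b - Complex.exp a‖ ≤ Real.exp B * ‖b - a‖ := by
  refine Convex.norm_image_sub_le_of_norm_hasDerivWithin_le (𝕜 := ℂ) (f := Complex.exp)
    (f' := Complex.exp) (s := closedBall 0 B) (fun y _ => (Complex.hasDerivAt_exp y).hasDerivWithinAt)
    (fun y hy => ?_) (convex_closedBall _ _) (mem_closedBall_zero_iff.2 ha)
    (mem_closedBall_zero_iff.2 hb)
  rw [Complex.norm_exp]
  exact Real.exp_le_exp.2 ((Complex.re_le_norm y).trans (mem_closedBall_zero_iff.1 hy))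

/-- the constant in the estimates of `Xq` -/
def CX (B : ℝ) : ℝ := 2 * B + B * Real.exp B

lemma CX_ge (hB : 1 ≤ B) : 2 ≤ CX B := by
  unfold CX
  have : 0 < Real.exp B := Real.exp_pos B
  nlinarith

lemma Sm.Xq_sub (h : Sm q q1 q2 D B) (hx : x ∈ D) (hxe : x + e ∈ D) (hx' : x' ∈ D)
    (hxe' : x' + e' ∈ D) (he : ‖e‖ ≤ m) (he' : ‖e'‖ ≤ m) (hm1 : m ≤ 1) :
    ‖Xq q x' e' - Xq q x e‖ ≤ CX B * (‖e' - e‖ + m * ‖x' - x‖) := by
  have hB := h.B_ge
  have hm : 0 ≤ m := (norm_nonneg _).trans he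
  have hexp : 1 ≤ Real.exp B := Real.one_le_exp (by linarith)
  have hΔe := norm_nonneg (e' - e)
  have hΔx := norm_nonneg (x' - x)
  have a1 : ‖dq q x' e' - dq q x e‖ ≤ 2 * B * (‖e' - e‖ + m * ‖x' - x‖) := by
    have h1 : dq q x' e' - dq q x e = (rhoA q q1 x' e' - rhoA q q1 x e) +
        (e' * q1 x' - e * q1 x) • iot := by
      unfold rhoA
      rw [sub_smul]; abel
    have h2 : ‖e' * q1 x' - e * q1 x‖ ≤ B * ‖e' - e‖ + m * (B * ‖x' - x‖) := by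
      have : e' * q1 x' - e * q1 x = (e' - e) * q1 x' + e * (q1 x' - q1 x) := by ring
      rw [this]
      refine (norm_add_le _ _).trans (add_le_add ?_ ?_)
      · rw [norm_mul, mul_comm]
        exact mul_le_mul_of_nonneg_right (h.b1 x' hx') hΔe
      · rw [norm_mul]
        exact mul_le_mul he (h.l1 x hx x' hx') (norm_nonneg _) hm
    have h3 : ‖(e' * q1 x' - e * q1 x) • iot‖ ≤ B * ‖e' - e‖ + m * (B * ‖x' - x‖) := by
      rw [norm_smul]
      calc ‖e' * q1 x' - e * q1 x‖ * ‖iot‖ ≤ ‖e' * q1 x' - e * q1 x‖ * 1 :=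
            mul_le_mul_of_nonneg_left norm_iot_le (norm_nonneg _)
        _ ≤ _ := by rw [mul_one]; exact h2
    rw [h1]
    refine (norm_add_le _ _).trans ?_
    have h4 := h.rho_sub hx hxe hx' hxe' he he'
    have h5 : m * ‖e' - e‖ ≤ ‖e' - e‖ := mul_le_of_le_one_left hΔe hm1
    have h6 : m ^ 2 * ‖x' - x‖ ≤ m * ‖x' - x‖ := by
      have : m ^ 2 ≤ m := by nlinarith
      exact mul_le_mul_of_nonneg_right this hΔx
    have h7 : B * (m * ‖e' - e‖ + m ^ 2 * ‖x' - x‖) ≤ B * (‖e' - e‖ + m * ‖x' - x‖) :=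
      mul_le_mul_of_nonneg_left (add_le_add h5 h6) (by linarith)
    calc ‖rhoA q q1 x' e' - rhoA q q1 x e‖ + ‖(e' * q1 x' - e * q1 x) • iot‖
        ≤ B * (‖e' - e‖ + m * ‖x' - x‖) + (B * ‖e' - e‖ + m * (B * ‖x' - x‖)) :=
          add_le_add (h4.trans h7) h3
      _ = 2 * B * (‖e' - e‖ + m * ‖x' - x‖) := by ring
  have a2 : ‖e' * Complex.exp (q x') - e * Complex.exp (q x)‖ ≤
      B * Real.exp B * (‖e' - e‖ + m * ‖x' - x‖) := by
    have : e' * Complex.exp (q x') - e * Complex.exp (q x) =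
        (e' - e) * Complex.exp (q x') + e * (Complex.exp (q x') - Complex.exp (q x)) := by ring
    rw [this]
    have h1 : ‖Complex.exp (q x')‖ ≤ Real.exp B := by
      rw [Complex.norm_exp]
      exact Real.exp_le_exp.2 ((Complex.re_le_norm _).trans (h.b0 x' hx'))
    have h2 : ‖Complex.exp (q x') - Complex.exp (q x)‖ ≤ Real.exp B * (B * ‖x' - x‖) :=
      (norm_cexp_sub_le (h.b0 x hx) (h.b0 x' hx')).trans
        (mul_le_mul_of_nonneg_left (h.l0 x hx x' hx') (Real.exp_nonneg _))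
    calc ‖(e' - e) * Complex.exp (q x') + e * (Complex.exp (q x') - Complex.exp (q x))‖
        ≤ ‖e' - e‖ * ‖Complex.exp (q x')‖ + ‖e‖ * ‖Complex.exp (q x') - Complex.exp (q x)‖ := by
          refine (norm_add_le _ _).trans ?_
          rw [norm_mul, norm_mul]
      _ ≤ ‖e' - e‖ * Real.exp B + m * (Real.exp B * (B * ‖x' - x‖)) :=
          add_le_add (mul_le_mul_of_nonneg_left h1 hΔe) (mul_le_mul he h2 (norm_nonneg _) hm)
      _ ≤ B * (‖e' - e‖ * Real.exp B) + m * (Real.exp B * (B * ‖x' - x‖)) := by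
          have : 0 ≤ ‖e' - e‖ * Real.exp B := by positivity
          nlinarith
      _ = B * Real.exp B * (‖e' - e‖ + m * ‖x' - x‖) := by ring
  have hs : 0 ≤ ‖e' - e‖ + m * ‖x' - x‖ := by positivity
  have a3 : ‖Xq q x' e' - Xq q x e‖ =
      max ‖dq q x' e' - dq q x e‖ ‖e' * Complex.exp (q x') - e * Complex.exp (q x)‖ := rfl
  rw [a3]
  refine max_le ?_ ?_
  · refine a1.trans (mul_le_mul_of_nonneg_right ?_ hs)
    unfold CX; nlinarith
  · refine a2.trans (mul_le_mul_of_nonneg_right ?_ hs)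
    unfold CX; nlinarith

lemma Sm.norm_Xq (h : Sm q q1 q2 D B) (hx : x ∈ D) (hxe : x + e ∈ D) (he : ‖e‖ ≤ m)
    (hm1 : m ≤ 1) : ‖Xq q x e‖ ≤ CX B * ‖e‖ := by
  have hm : 0 ≤ m := (norm_nonneg _).trans he
  have h1 := h.Xq_sub (x := x) (e := 0) (x' := x) (e' := e) hx (by simpa using hx) hx hxe
    (m := m) (by simpa using hm) he hm1
  rw [Xq_zero, sub_zero, sub_zero, sub_self, norm_zero, mul_zero, add_zero] at h1
  exact h1

/-- the constant of (PL) -/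
def CP (C B : ℝ) : ℝ := 2 * (5 * B + C * CX B ^ 2) + (5 * B + C * CX B ^ 2)

/-- (PL), first part: `Qf ≈ 1/8` -/
lemma Sm.Qf_sub (hL : LocQ ρ C) (h : Sm q q1 q2 D B) (hx : x ∈ D) (hxe : x + e ∈ D) (he : ‖e‖ ≤ m)
    (hm1 : m ≤ 1) (hmρ : CX B * m < ρ) :
    ‖Qf (Xq q x e) - 1 / 8‖ ≤ (5 * B + C * CX B ^ 2) * m ^ 2 := by
  have hm : 0 ≤ m := (norm_nonneg _).trans he
  have hB := h.B_ge
  have hC := hL.C_ge
  have hCX := CX_ge hB
  have hX : ‖Xq q x e‖ ≤ CX B * m :=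
    (h.norm_Xq hx hxe he hm1).trans (mul_le_mul_of_nonneg_left he (by linarith))
  have h1 := hL.c11 (CX B * m) 0 (Xq q x e) hmρ (by rw [norm_zero]; positivity) hX
  rw [Qf_zero, sub_zero] at h1
  have h2 := h.Lf_dq_sub (x := x) (e := 0) (x' := x) (e' := e) hx (by simpa using hx) hx hxe
    (m := m) (by simpa using hm) he
  rw [sub_zero, sub_self, norm_zero, mul_zero, add_zero] at h2
  have h3 : (Xq q x e).1 - (0 : AA × ℂ).1 = dq q x e - dq q x 0 := by rw [dq_zero]; rfl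
  rw [h3] at h1
  have h4 : Qf (Xq q x e) - 1 / 8 = (Qf (Xq q x e) - 1 / 8 - 1 / 2 * Lf (dq q x e - dq q x 0)) +
      1 / 2 * Lf (dq q x e - dq q x 0) := by ring
  rw [h4]
  refine (norm_add_le _ _).trans ?_
  have h5 : ‖(1 / 2 : ℂ) * Lf (dq q x e - dq q x 0)‖ ≤ 5 * B * m ^ 2 := by
    rw [norm_mul]
    have h6 : ‖(1 / 2 : ℂ)‖ = 1 / 2 := by norm_num
    rw [h6]
    have h7 : m * ‖e‖ ≤ m ^ 2 := by nlinarith
    have h8 : 5 * (B * (m * ‖e‖)) ≤ 5 * (B * m ^ 2) := by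
      have := mul_le_mul_of_nonneg_left h7 (by linarith : (0 : ℝ) ≤ B)
      linarith
    nlinarith [norm_nonneg (Lf (dq q x e - dq q x 0))]
  have h9 : C * (CX B * m) * ‖Xq q x e‖ ≤ C * CX B ^ 2 * m ^ 2 := by
    calc C * (CX B * m) * ‖Xq q x e‖ ≤ C * (CX B * m) * (CX B * m) :=
          mul_le_mul_of_nonneg_left hX (by positivity)
      _ = _ := by ring
  linarith

/-- (PL), second part: Lipschitz estimate of `Qf` -/
lemma Sm.Qf_lip (hL : LocQ ρ C) (h : Sm q q1 q2 D B) (hx : x ∈ D) (hxe : x + e ∈ D) (hx' : x' ∈ D)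
    (hxe' : x' + e' ∈ D) (he : ‖e‖ ≤ m) (he' : ‖e'‖ ≤ m)
    (hm1 : m ≤ 1) (hmρ : CX B * m < ρ) :
    ‖Qf (Xq q x' e') - Qf (Xq q x e)‖ ≤
      (5 * B + C * CX B ^ 2) * (m * ‖e' - e‖ + m ^ 2 * ‖x' - x‖) := by
  have hm : 0 ≤ m := (norm_nonneg _).trans he
  have hB := h.B_ge
  have hC := hL.C_ge
  have hCX := CX_ge hB
  have hX : ‖Xq q x e‖ ≤ CX B * m :=
    (h.norm_Xq hx hxe he hm1).trans (mul_le_mul_of_nonneg_left he (by linarith))
  have hX' : ‖Xq q x' e'‖ ≤ CX B * m :=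
    (h.norm_Xq hx' hxe' he' hm1).trans (mul_le_mul_of_nonneg_left he' (by linarith))
  have h1 := hL.c11 (CX B * m) (Xq q x e) (Xq q x' e') hmρ hX hX'
  have h3 : (Xq q x' e').1 - (Xq q x e).1 = dq q x' e' - dq q x e := rfl
  rw [h3] at h1
  have h2 := h.Lf_dq_sub hx hxe hx' hxe' he he'
  have h4 : Qf (Xq q x' e') - Qf (Xq q x e) =
      (Qf (Xq q x' e') - Qf (Xq q x e) - 1 / 2 * Lf (dq q x' e' - dq q x e)) +
      1 / 2 * Lf (dq q x' e' - dq q x e) := by ring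
  rw [h4]
  refine (norm_add_le _ _).trans ?_
  have hΔ := h.Xq_sub hx hxe hx' hxe' he he' hm1
  have h5 : ‖(1 / 2 : ℂ) * Lf (dq q x' e' - dq q x e)‖ ≤
      5 * B * (m * ‖e' - e‖ + m ^ 2 * ‖x' - x‖) := by
    rw [norm_mul]
    have h6 : ‖(1 / 2 : ℂ)‖ = 1 / 2 := by norm_num
    rw [h6]
    have h7 : 0 ≤ B * (m * ‖e' - e‖ + m ^ 2 * ‖x' - x‖) := by positivity
    linarith
  have h9 : C * (CX B * m) * ‖Xq q x' e' - Xq q x e‖ ≤
      C * CX B ^ 2 * (m * ‖e' - e‖ + m ^ 2 * ‖x' - x‖) := by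
    calc C * (CX B * m) * ‖Xq q x' e' - Xq q x e‖
        ≤ C * (CX B * m) * (CX B * (‖e' - e‖ + m * ‖x' - x‖)) :=
          mul_le_mul_of_nonneg_left hΔ (by positivity)
      _ = _ := by ring
  linarith

/-- (PL) -/
theorem Sm.PL (hL : LocQ ρ C) (h : Sm q q1 q2 D B) (hx : x ∈ D) (hxe : x + e ∈ D) (hx' : x' ∈ D)
    (hxe' : x' + e' ∈ D) (he : ‖e‖ ≤ m) (he' : ‖e'‖ ≤ m) (hm1 : m ≤ 1) (hmρ : CX B * m < ρ) :
    ‖Pq q x' e' - Pq q x e - (e' ^ 2 - e ^ 2) / 8‖ ≤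
      CP C B * (m ^ 3 * ‖e' - e‖ + m ^ 4 * ‖x' - x‖) := by
  have hm : 0 ≤ m := (norm_nonneg _).trans he
  have hB := h.B_ge
  have hC := hL.C_ge
  have hCX := CX_ge hB
  set K : ℝ := 5 * B + C * CX B ^ 2 with hK
  have hK0 : 0 ≤ K := by positivity
  have h1 := h.Qf_sub hL hx' hxe' he' hm1 hmρ
  have h2 := h.Qf_lip hL hx hxe hx' hxe' he he' hm1 hmρ
  have e1 : Pq q x' e' - Pq q x e - (e' ^ 2 - e ^ 2) / 8 =
      (e' ^ 2 - e ^ 2) * (Qf (Xq q x' e') - 1 / 8) + e ^ 2 * (Qf (Xq q x' e') - Qf (Xq q x e)) := by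
    unfold Pq; ring
  rw [e1]
  have h3 : ‖e' ^ 2 - e ^ 2‖ ≤ 2 * m * ‖e' - e‖ := by
    have : e' ^ 2 - e ^ 2 = (e' + e) * (e' - e) := by ring
    rw [this, norm_mul]
    refine mul_le_mul_of_nonneg_right ?_ (norm_nonneg _)
    exact (norm_add_le _ _).trans (by linarith)
  have h4 : ‖e ^ 2‖ ≤ m ^ 2 := by
    rw [norm_pow]; exact pow_le_pow_left₀ (norm_nonneg _) he 2
  calc ‖(e' ^ 2 - e ^ 2) * (Qf (Xq q x' e') - 1 / 8) +
        e ^ 2 * (Qf (Xq q x' e') - Qf (Xq q x e))‖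
      ≤ ‖e' ^ 2 - e ^ 2‖ * ‖Qf (Xq q x' e') - 1 / 8‖ +
        ‖e ^ 2‖ * ‖Qf (Xq q x' e') - Qf (Xq q x e)‖ := by
        refine (norm_add_le _ _).trans ?_
        rw [norm_mul, norm_mul]
    _ ≤ (2 * m * ‖e' - e‖) * (K * m ^ 2) + m ^ 2 * (K * (m * ‖e' - e‖ + m ^ 2 * ‖x' - x‖)) :=
        add_le_add (mul_le_mul h3 h1 (norm_nonneg _) (by positivity))
          (mul_le_mul h4 h2 (norm_nonneg _) (by positivity))
    _ ≤ (2 * K + K) * (m ^ 3 * ‖e' - e‖ + m ^ 4 * ‖x' - x‖) := by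
        have : 0 ≤ K * (m ^ 4 * ‖x' - x‖) := by positivity
        nlinarith
    _ = _ := by rw [hK]; rfl

/-- the constant of (P0) -/
def CP0 (ρ C B : ℝ) : ℝ := (5 + 2 * C) * B + 2 * C / (ρ / (2 * CX B)) ^ 3

/-- (P0): the Lazutkin cancellation of third order -/
theorem Sm.P0 (hL : LocQ ρ C) (h : Sm q q1 q2 D B) (hx : x ∈ D) (hxe : x + e ∈ D)
    (hxe' : x - e ∈ D) (hmρ : 2 * CX B * ‖e‖ < ρ) :
    ‖Pq q x (-e) - Pq q x e‖ ≤ CP0 ρ C B * ‖e‖ ^ 5 := by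
  have hB := h.B_ge
  have hC := hL.C_ge
  have hCX := CX_ge hB
  have hρ := hL.ρ_pos
  have hρ1 := hL.ρ_le
  have he0 := norm_nonneg e
  have he1 : ‖e‖ ≤ 1 := by nlinarith
  set R : ℝ := ρ / (2 * CX B) with hR
  have hR0 : 0 < R := by positivity
  have hR1 : R ≤ 1 := by
    rw [hR, div_le_one (by positivity)]; linarith
  set X1 : AA × ℂ := (q1 x • iot, Complex.exp (q x)) with hX1
  set X2 : AA × ℂ := ((q2 x / 2) • (iot * iot), 0) with hX2
  have hexp : ‖Complex.exp (q x)‖ ≤ Real.exp B := by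
    rw [Complex.norm_exp]
    exact Real.exp_le_exp.2 ((Complex.re_le_norm _).trans (h.b0 x hx))
  have nX1 : ‖X1‖ ≤ CX B := by
    rw [hX1, Prod.norm_mk]
    refine max_le ?_ ?_
    · rw [norm_smul]
      have := mul_le_mul (h.b1 x hx) norm_iot_le (norm_nonneg _) (by linarith)
      unfold CX
      have : 0 < Real.exp B := Real.exp_pos B
      nlinarith
    · unfold CX
      have : 0 < Real.exp B := Real.exp_pos B
      nlinarith
  have niot2 : ‖iot * iot‖ ≤ 1 := by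
    refine (norm_mul_le _ _).trans ?_
    have := norm_iot_le
    nlinarith [norm_nonneg iot]
  have nX2 : ‖X2‖ ≤ CX B := by
    rw [hX2, Prod.norm_mk]
    refine max_le ?_ (by rw [norm_zero]; linarith)
    rw [norm_smul]
    have h1 : ‖q2 x / 2‖ ≤ B := by
      rw [norm_div]
      have := h.b2 x hx
      have h2 : ‖(2 : ℂ)‖ = 2 := by norm_num
      rw [h2]
      linarith
    have := mul_le_mul h1 niot2 (norm_nonneg _) (by linarith)
    unfold CX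
    have : 0 < Real.exp B := Real.exp_pos B
    nlinarith
  have nY : ∀ s : ℂ, ‖s‖ ≤ 1 → ‖s • X1 + s ^ 2 • X2‖ ≤ 2 * CX B * ‖s‖ := by
    intro s hs
    refine (norm_add_le _ _).trans ?_
    rw [norm_smul, norm_smul, norm_pow]
    have h1 : ‖s‖ * ‖X1‖ ≤ ‖s‖ * CX B := mul_le_mul_of_nonneg_left nX1 (norm_nonneg _)
    have h2 : ‖s‖ ^ 2 * ‖X2‖ ≤ ‖s‖ * CX B := by
      have : ‖s‖ ^ 2 ≤ ‖s‖ := by nlinarith [norm_nonneg s]
      exact mul_le_mul this nX2 (norm_nonneg _) (norm_nonneg _)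
    linarith
  have hball : ∀ s ∈ ball (0 : ℂ) R, ‖s • X1 + s ^ 2 • X2‖ < ρ := by
    intro s hs
    rw [mem_ball_zero_iff] at hs
    refine (nY s (hs.le.trans hR1)).trans_lt ?_
    rw [hR, lt_div_iff₀ (by positivity)] at hs
    linarith
  set g : ℂ → ℂ := fun s => Qf (s • X1 + s ^ 2 • X2) with hg
  have hin : ∀ s : ℂ, HasDerivAt (fun s : ℂ => s • X1 + s ^ 2 • X2) (X1 + (2 * s) • X2) s := by
    intro s
    have h1 : HasDerivAt (fun s : ℂ => s • X1) ((1 : ℂ) • X1) s := (hasDerivAt_id s).smul_const X1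
    have h2 : HasDerivAt (fun s : ℂ => s ^ 2 • X2) ((2 * s) • X2) s := by
      have := (hasDerivAt_pow 2 s).smul_const X2
      simpa using this
    have h3 := h1.add h2
    rw [one_smul] at h3
    exact h3
  have gdiff : ∀ s ∈ ball (0 : ℂ) R, DifferentiableAt ℂ g s := by
    intro s hs
    exact ((hL.an _ (hball s hs)).differentiableAt).comp s (hin s).differentiableAt
  have g0 : deriv g 0 = 0 := by
    have h1 : HasFDerivAt Qf DQ0 ((0 : ℂ) • X1 + (0 : ℂ) ^ 2 • X2) := by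
      have : (0 : ℂ) • X1 + (0 : ℂ) ^ 2 • X2 = 0 := by
        rw [zero_smul, zero_pow two_ne_zero, zero_smul, add_zero]
      rw [this]
      exact hasFDerivAt_Qf_zero
    have h2 := h1.comp_hasDerivAt (0 : ℂ) (hin 0)
    have h3 : DQ0 (X1 + (2 * (0 : ℂ)) • X2) = 0 := by
      rw [mul_zero, zero_smul, add_zero, DQ0_apply, hX1]
      simp only [map_smul, Lf_iot, smul_zero, mul_zero]
    rw [h3] at h2
    exact h2.deriv
  set f : ℂ → ℂ := fun s => g (-s) - g s with hf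
  have hneg : ∀ s ∈ ball (0 : ℂ) R, -s ∈ ball (0 : ℂ) R := fun s hs => by
    rw [mem_ball_zero_iff] at hs ⊢; rwa [norm_neg]
  have fdiff : DifferentiableOn ℂ f (ball 0 R) := by
    intro s hs
    have h1 : DifferentiableAt ℂ (fun s : ℂ => g (-s)) s :=
      DifferentiableAt.comp (g := g) (f := fun s : ℂ => -s) s (gdiff _ (hneg s hs))
        differentiableAt_id.neg
    exact (h1.sub (gdiff s hs)).differentiableWithinAt
  have fb : ∀ s ∈ ball (0 : ℂ) R, ‖f s‖ ≤ 2 * C := by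
    intro s hs
    refine (norm_sub_le _ _).trans ?_
    have h1 := hL.bd _ (hball s hs)
    have h2 := hL.bd _ (hball _ (hneg s hs))
    simp only [hg]
    linarith
  have fodd : ∀ s, f (-s) = - f s := by
    intro s
    simp only [hf, neg_neg]; ring
  have fd : deriv f 0 = 0 := by
    have hm0 : (0 : ℂ) ∈ ball (0 : ℂ) R := mem_ball_self hR0
    have h1 : HasDerivAt g 0 0 := by
      have := (gdiff 0 hm0).hasDerivAt
      rwa [g0] at this
    have h2 : HasDerivAt (fun s : ℂ => g (-s)) 0 0 := by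
      have h1' : HasDerivAt g 0 (-(0 : ℂ)) := by rwa [neg_zero]
      have := HasDerivAt.comp (0 : ℂ) h1' (hasDerivAt_neg (0 : ℂ))
      rw [zero_mul] at this
      exact this
    have := (h2.sub h1).deriv
    rw [sub_zero] at this
    exact this
  have hs3 := schwarz3 hR0 fdiff fb fodd fd
  -- comparison of `Xq` with its Taylor polynomial
  have cmp : ∀ e : ℂ, x + e ∈ D → 2 * CX B * ‖e‖ < ρ →
      ‖Qf (Xq q x e) - g e‖ ≤ (5 / 2 + C) * B * ‖e‖ ^ 3 := by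
    intro e hxe he
    have he0 := norm_nonneg e
    have he1 : ‖e‖ ≤ 1 := by nlinarith
    have nd : ‖(Xq q x e - (e • X1 + e ^ 2 • X2))‖ ≤ B * ‖e‖ ^ 3 := by
      have c2 : (Xq q x e - (e • X1 + e ^ 2 • X2)).2 = 0 := by
        simp [Xq, hX1, hX2]
      have c1 : ‖(Xq q x e - (e • X1 + e ^ 2 • X2)).1‖ ≤ B * ‖e‖ ^ 3 := by
        refine (AA.norm_le (by positivity)).2 (fun r => ?_)
        have h1 : (Xq q x e - (e • X1 + e ^ 2 • X2)).1 r =
            q (x + e * ((r : ℝ) : ℂ)) - q x - (e * ((r : ℝ) : ℂ)) * q1 x -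
              (e * ((r : ℝ) : ℂ)) ^ 2 * q2 x / 2 := by
          simp only [Xq, hX1, hX2, Prod.fst_sub, Prod.fst_add, Prod.smul_fst, AA.sub_apply,
            AA.add_apply, AA.smul_apply, AA.mul_apply, dq_apply, iot_apply]
          ring
        rw [h1]
        refine (h.t2 x _ hx (h.seg hx hxe r)).trans ?_
        exact mul_le_mul_of_nonneg_left (pow_le_pow_left₀ (norm_nonneg _) (norm_mul_r_le e r) 3)
          (by linarith)
      rw [Prod.norm_def, c2, norm_zero]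
      exact max_le c1 (by positivity)
    have h1 : ‖Xq q x e‖ ≤ 2 * CX B * ‖e‖ := by
      have := h.norm_Xq hx hxe (m := 1) he1 le_rfl
      nlinarith
    have h2 := nY e he1
    have h3 := hL.c11 (2 * CX B * ‖e‖) (e • X1 + e ^ 2 • X2) (Xq q x e) he h2 h1
    have h4 : ‖(1 / 2 : ℂ) * Lf ((Xq q x e).1 - (e • X1 + e ^ 2 • X2).1)‖ ≤
        5 / 2 * (B * ‖e‖ ^ 3) := by
      rw [norm_mul]
      have h5 : ‖(1 / 2 : ℂ)‖ = 1 / 2 := by norm_num
      have h6 := norm_Lf_le ((Xq q x e).1 - (e • X1 + e ^ 2 • X2).1)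
      have h7 : ‖(Xq q x e).1 - (e • X1 + e ^ 2 • X2).1‖ ≤ B * ‖e‖ ^ 3 :=
        (norm_fst_le (Xq q x e - (e • X1 + e ^ 2 • X2))).trans nd
      rw [h5]
      linarith
    have h8 : C * (2 * CX B * ‖e‖) * ‖Xq q x e - (e • X1 + e ^ 2 • X2)‖ ≤ C * (B * ‖e‖ ^ 3) := by
      have h9 : C * (2 * CX B * ‖e‖) ≤ C := by
        have : 2 * CX B * ‖e‖ ≤ 1 := by linarith
        nlinarith
      exact mul_le_mul h9 nd (norm_nonneg _) (by linarith)
    have h10 : Qf (Xq q x e) - g e = (Qf (Xq q x e) - g e -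
        1 / 2 * Lf ((Xq q x e).1 - (e • X1 + e ^ 2 • X2).1)) +
        1 / 2 * Lf ((Xq q x e).1 - (e • X1 + e ^ 2 • X2).1) := by ring
    rw [h10]
    refine (norm_add_le _ _).trans ?_
    refine (add_le_add (h3.trans h8) h4).trans (le_of_eq ?_)
    ring
  have m1 := cmp e hxe hmρ
  have m2 := cmp (-e) (by rwa [← sub_eq_add_neg]) (by rwa [norm_neg])
  rw [norm_neg] at m2
  have hes : e ∈ ball (0 : ℂ) R := by
    rw [mem_ball_zero_iff, hR, lt_div_iff₀ (by positivity)]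
    linarith
  have m3 := hs3 e hes
  have e1 : Pq q x (-e) - Pq q x e = e ^ 2 * ((Qf (Xq q x (-e)) - g (-e)) -
      (Qf (Xq q x e) - g e) + f e) := by
    unfold Pq
    simp only [hf]
    ring
  rw [e1, norm_mul, norm_pow]
  have m4 : ‖(Qf (Xq q x (-e)) - g (-e)) - (Qf (Xq q x e) - g e) + f e‖ ≤
      CP0 ρ C B * ‖e‖ ^ 3 := by
    refine (norm_add_le _ _).trans ?_
    refine (add_le_add (norm_sub_le _ _) le_rfl).trans ?_
    refine (add_le_add (add_le_add m2 m1) m3).trans (le_of_eq ?_)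
    unfold CP0
    ring
  calc ‖e‖ ^ 2 * ‖(Qf (Xq q x (-e)) - g (-e)) - (Qf (Xq q x e) - g e) + f e‖
      ≤ ‖e‖ ^ 2 * (CP0 ρ C B * ‖e‖ ^ 3) := mul_le_mul_of_nonneg_left m4 (by positivity)
    _ = _ := by ring

end

end Crest.Agent.R102.A929
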