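import Crest.Agent.R102.Blow_362
import Crest.Agent.R102.Step5Defs_613

/-!
Row 102, T1-B III.5 (helper362): LOWLIM.  A family of holomorphic functions with bounded imaginary
part which converges to a constant near one point converges to it locally uniformly; application to
the blow-ups of `S5.In5`.
-/

set_option autoImplicit false

open Set Filter Topology Metric Complex MeasureTheory Interval

noncomputable section

namespace Crest.Agent.R102.LowLim362

open Crest.Agent.R102.Blow362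

/-- passing from `exp (i B)` to `B` on a preconnected set (any filter) -/
theorem unif_of_exp' {ι X : Type*} [TopologicalSpace X] {l : Filter ι} {K : Set X}
    (hK : IsPreconnected K) {B : ι → X → ℂ} (hB : ∀ᶠ η in l, ContinuousOn (B η) K) {b : ℂ}
    (he : TendstoUniformlyOn (fun η x => exp (I * B η x)) (fun _ => exp (I * b)) l K)
    {x0 : X} (hx0 : x0 ∈ K) (h0 : Tendsto (fun η => B η x0) l (𝓝 b)) :
    TendstoUniformlyOn B (fun _ => b) l K := by
  rw [Metric.tendstoUniformlyOn_iff] at he ⊢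
  intro ε hε
  have hcn : 0 < ‖exp (I * b)‖ := norm_pos_iff.2 (Complex.exp_ne_zero _)
  have hm : 0 < min (1 / 2) (ε / 2) * ‖exp (I * b)‖ := by positivity
  have h1 : ∀ᶠ η in l, ‖B η x0 - b‖ < 1 := by
    have := (h0.sub_const b).norm
    rw [sub_self, norm_zero] at this
    exact this.eventually (gt_mem_nhds one_pos)
  filter_upwards [he _ hm, hB, h1] with η h2 h3 h4 x hx
  set w : X → ℂ := fun x => I * B η x - I * b with hw
  have hwe : ∀ x ∈ K, ‖exp (w x) - 1‖ < min (1 / 2) (ε / 2) := by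
    intro x hx
    have h5 := h2 x hx
    rw [dist_eq_norm, norm_sub_rev] at h5
    have h6 : exp (w x) - 1 = (exp (I * B η x) - exp (I * b)) / exp (I * b) := by
      simp only [hw]
      rw [Complex.exp_sub, sub_div, div_self (Complex.exp_ne_zero _)]
    rw [h6, norm_div, div_lt_iff₀ hcn]
    exact h5
  have hwn : ∀ x, ‖w x‖ = ‖B η x - b‖ := by
    intro x
    simp only [hw]
    rw [← mul_sub, norm_mul, Complex.norm_I, one_mul]
  have hwc : ContinuousOn w K := by fun_prop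
  have h7 := log_stay hK hwc (fun x hx => (hwe x hx).le.trans (min_le_left _ _)) hx0
    (by rw [hwn]; exact h4.le) x hx
  rw [hwn] at h7
  rw [dist_eq_norm, norm_sub_rev]
  have h8 := (hwe x hx).trans_le (min_le_right _ _)
  have h9 : 0 ≤ ‖exp (w x) - 1‖ := norm_nonneg _
  linarith

variable {E : Type*} [NormedAddCommGroup E] [NormedSpace ℂ E] [FiniteDimensional ℂ E]

/-- propagation of the convergence of `B` over `Ω` (any filter) -/
theorem clopen {ι : Type*} {l : Filter ι} {Bn : ι → E → ℂ} {b : ℂ} {Ω : Set E}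
    (hΩ : IsOpen Ω) (hΩc : IsPreconnected Ω) {q : E} (hmem : q ∈ Ω)
    (hloc : ∀ z ∈ Ω, ∃ r > 0, ∀ᶠ n in l, ContinuousOn (Bn n) (ball z r))
    (hbase : Tendsto (fun n => Bn n q) l (𝓝 b))
    (he : TendstoLocallyUniformlyOn (fun n x => exp (I * Bn n x)) (fun _ => exp (I * b)) l Ω) :
    TendstoLocallyUniformlyOn Bn (fun _ => b) l Ω := by
  have : ProperSpace E := FiniteDimensional.proper ℂ E
  have key : ∀ z ∈ Ω, ∃ r > 0, closedBall z r ⊆ Ω ∧ ∀ p ∈ closedBall z r,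
      Tendsto (fun n => Bn n p) l (𝓝 b) →
      TendstoUniformlyOn Bn (fun _ => b) l (closedBall z r) := by
    intro z hz
    obtain ⟨r, hr, hrΩ⟩ := Metric.isOpen_iff.1 hΩ z hz
    obtain ⟨r', hr', hc⟩ := hloc z hz
    set m : ℝ := min r r' / 2 with hm
    have hmin : 0 < min r r' := lt_min hr hr'
    have hm0 : 0 < m := by rw [hm]; positivity
    have hmr : m < r := by
      rw [hm]; have := min_le_left r r'; linarith
    have hmr' : m < r' := by
      rw [hm]; have := min_le_right r r'; linarith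
    have hsub : closedBall z m ⊆ Ω := (closedBall_subset_ball hmr).trans hrΩ
    refine ⟨m, hm0, hsub, fun p hp hpt => ?_⟩
    have hun := (tendstoLocallyUniformlyOn_iff_forall_isCompact hΩ).1 he _ hsub
      (isCompact_closedBall _ _)
    have hpc : IsPreconnected (closedBall z m) := by
      let _ : NormedSpace ℝ E := NormedSpace.restrictScalars ℝ ℂ E
      exact (convex_closedBall z m).isPreconnected
    refine unif_of_exp' hpc ?_ hun hp hpt
    filter_upwards [hc] with n hn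
    exact hn.mono (closedBall_subset_ball hmr')
  set A : Set E := {p | p ∈ Ω ∧ Tendsto (fun n => Bn n p) l (𝓝 b)} with hA
  have hAo : IsOpen A := by
    rw [Metric.isOpen_iff]
    intro p hp
    obtain ⟨r, hr, hrΩ, h⟩ := key p hp.1
    have hu := h p (mem_closedBall_self hr.le) hp.2
    refine ⟨r, hr, fun p' hp' => ?_⟩
    exact ⟨hrΩ (ball_subset_closedBall hp'), hu.tendsto_at (ball_subset_closedBall hp')⟩
  have hAc : closure A ∩ Ω ⊆ A := by
    rintro p ⟨hp, hpΩ⟩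
    obtain ⟨r, hr, hrΩ, h⟩ := key p hpΩ
    obtain ⟨p', hp'A, hp'⟩ := Metric.mem_closure_iff.1 hp r hr
    have hu := h p' (by rw [mem_closedBall, dist_comm]; exact hp'.le) hp'A.2
    exact ⟨hpΩ, hu.tendsto_at (mem_closedBall_self hr.le)⟩
  have hall : Ω ⊆ A := hΩc.subset_of_closure_inter_subset hAo ⟨q, hmem, hmem, hbase⟩ hAc
  rw [Metric.tendstoLocallyUniformlyOn_iff]
  intro ε hε z hz
  obtain ⟨r, hr, hrΩ, h⟩ := key z hz
  have hu := h z (mem_closedBall_self hr.le) (hall hz).2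
  exact ⟨closedBall z r, mem_nhdsWithin_of_mem_nhds (closedBall_mem_nhds z hr),
    Metric.tendstoUniformlyOn_iff.1 hu ε hε⟩

/-- **LOWLIM**, general form -/
theorem lowlim {ι : Type*} {l : Filter ι} {Bn : ι → E → ℂ} {b : ℂ} {h : ℝ} {Ω W : Set E}
    (hΩ : IsOpen Ω) (hΩc : IsPreconnected Ω)
    (hloc : ∀ z ∈ Ω, ∃ r > 0, ∀ᶠ n in l, DifferentiableOn ℂ (Bn n) (ball z r) ∧
      ∀ x ∈ ball z r, |(Bn n x).im| ≤ h)
    (hW : IsOpen W) (hWne : W.Nonempty) (hWΩ : W ⊆ Ω)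
    (hlim : ∀ x ∈ W, Tendsto (fun n => Bn n x) l (𝓝 b)) :
    TendstoLocallyUniformlyOn Bn (fun _ => b) l Ω := by
  obtain ⟨q, hq⟩ := hWne
  have hqΩ := hWΩ hq
  have hlimG : ∀ x ∈ W, Tendsto (fun n => exp (I * Bn n x)) l (𝓝 (exp (I * b))) :=
    fun x hx => ((hlim x hx).const_mul I).cexp
  have hG : TendstoLocallyUniformlyOn (fun n x => exp (I * Bn n x)) (fun _ => exp (I * b)) l Ω := by
    refine M948.tlu_of_ultra hΩ fun 𝒰 h𝒰 => ?_
    have hloc' : ∀ z ∈ Ω, ∃ r > 0, ∀ᶠ n in (𝒰 : Filter ι),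
        DifferentiableOn ℂ (fun x => exp (I * Bn n x)) (ball z r) ∧
          ∀ x ∈ ball z r, ‖exp (I * Bn n x)‖ ≤ Real.exp h := by
      intro z hz
      obtain ⟨r, hr, hn⟩ := hloc z hz
      refine ⟨r, hr, ?_⟩
      filter_upwards [h𝒰 hn] with n hn
      refine ⟨(hn.1.const_mul I).cexp, fun x hx => ?_⟩
      rw [Complex.norm_exp]
      refine Real.exp_le_exp.2 ?_
      have h1 := (abs_le.1 (hn.2 x hx)).1
      simp
      linarith
    obtain ⟨g, hg, hgu⟩ := montel_exh 𝒰 hΩ hloc'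
    have heq : EqOn g (fun _ => exp (I * b)) Ω := by
      have han : AnalyticOnNhd ℂ g Ω := by
        have h1 : TendstoLocallyUniformlyOn (fun _ : ι => g) g 𝒰 Ω := fun v hv x hx =>
          ⟨univ, univ_mem, Eventually.of_forall fun _ y _ => refl_mem_uniformity hv⟩
        exact R266.SCV.analyticOnNhd_of_tendstoLocallyUniformlyOn hΩ h1
          (Eventually.of_forall fun _ => hg)
      refine han.eqOn_of_preconnected_of_eventuallyEq analyticOnNhd_const hΩc hqΩ ?_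
      filter_upwards [hW.mem_nhds hq] with x hx
      exact tendsto_nhds_unique (hgu.tendsto_at (hWΩ hx)) ((hlimG x hx).mono_left h𝒰)
    exact hgu.congr_right heq
  refine clopen hΩ hΩc hqΩ (fun z hz => ?_) (hlim q hq) hG
  obtain ⟨r, hr, hn⟩ := hloc z hz
  exact ⟨r, hr, hn.mono fun n hn => hn.1.continuousOn⟩

/-! ### application to the blow-ups of step 5 -/

open Crest.Agent.R102.S5

theorem isOpen_Gam (a g : ℝ) : IsOpen (Gam a g) := by
  have h1 : IsOpen {x : ℂ × ℂ | ‖x.1‖ < a + 4} := isOpen_lt (by fun_prop) continuous_const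
  have h2 : IsOpen {x : ℂ × ℂ | ‖x.2‖ < a + 4} := isOpen_lt (by fun_prop) continuous_const
  have h3 : IsOpen {x : ℂ × ℂ | 1 / 8 < x.2.im} := isOpen_lt continuous_const (by fun_prop)
  have h4 : IsOpen {x : ℂ × ℂ | x.1.im < (a + g / 2) * x.2.im} :=
    isOpen_lt (by fun_prop) (by fun_prop)
  exact h1.inter (h2.inter (h3.inter h4))

theorem isOpen_Low (a g ρ : ℝ) : IsOpen (Low a g ρ) := by
  have h : IsOpen {x : ℂ × ℂ | x.1.im < (a - ρ) * x.2.im} := isOpen_lt (by fun_prop) (by fun_prop)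
  exact (isOpen_Gam a g).inter h

theorem convex_Low (a g ρ : ℝ) : Convex ℝ (Low a g ρ) := by
  have h1 : Convex ℝ {x : ℂ × ℂ | ‖x.1‖ < a + 4} := by
    have : {x : ℂ × ℂ | ‖x.1‖ < a + 4} = Prod.fst ⁻¹' ball (0 : ℂ) (a + 4) := by
      ext x; simp
    rw [this]
    exact (convex_ball (0 : ℂ) (a + 4)).linear_preimage (LinearMap.fst ℝ ℂ ℂ)
  have h2 : Convex ℝ {x : ℂ × ℂ | ‖x.2‖ < a + 4} := by
    have : {x : ℂ × ℂ | ‖x.2‖ < a + 4} = Prod.snd ⁻¹' ball (0 : ℂ) (a + 4) := by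
      ext x; simp
    rw [this]
    exact (convex_ball (0 : ℂ) (a + 4)).linear_preimage (LinearMap.snd ℝ ℂ ℂ)
  have h3 : Convex ℝ {x : ℂ × ℂ | 1 / 8 < x.2.im} :=
    convex_halfSpace_gt (f := fun x : ℂ × ℂ => x.2.im) ⟨fun _ _ => by simp, fun _ _ => by simp⟩ _
  have h4 : ∀ m : ℝ, Convex ℝ {x : ℂ × ℂ | x.1.im < m * x.2.im} := by
    intro m
    have : {x : ℂ × ℂ | x.1.im < m * x.2.im} = {x : ℂ × ℂ | x.1.im - m * x.2.im < 0} := by
      ext x; simp
    rw [this]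
    exact convex_halfSpace_lt (f := fun x : ℂ × ℂ => x.1.im - m * x.2.im)
      ⟨fun _ _ => by simp; ring, fun _ _ => by simp; ring⟩ _
  exact (h1.inter (h2.inter (h3.inter (h4 _)))).inter (h4 _)

/-- the blow-ups of a point of `Low` eventually lie in `Half e η (a - ρ)`, uniformly near it -/
theorem bl_mem_Half {a g ρ : ℝ} (e : ℝ × ℝ) {η : ℝ} (hη : 0 < η) {z : ℂ × ℂ}
    (hz : z ∈ Low a g ρ) :
    ∃ r > 0, ∀ᶠ s : ℝ in 𝓝[>] 0, ∀ x ∈ ball z r, bl e s x ∈ Half e η (a - ρ) := by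
  obtain ⟨r, hr, hsub⟩ := Metric.isOpen_iff.1 (isOpen_Low a g ρ) z hz
  refine ⟨r, hr, ?_⟩
  have hA : 0 < a + 4 := (norm_nonneg z.1).trans_lt hz.1.1
  have h1 : ∀ᶠ s : ℝ in 𝓝[>] 0, s * (a + 4) < η := by
    have : Continuous (fun s : ℝ => s * (a + 4)) := by fun_prop
    have h3 := (this.tendsto 0).mono_left (nhdsWithin_le_nhds (s := Ioi 0))
    simp only [zero_mul] at h3
    exact h3.eventually (gt_mem_nhds hη)
  filter_upwards [h1, self_mem_nhdsWithin] with s hs hs0 x hx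
  have hs0' : (0 : ℝ) < s := hs0
  obtain ⟨⟨hx1, hx2, hx3, hx4⟩, hx5⟩ := hsub hx
  have e1 : (bl e s x).1.re - e.1 = s * x.1.re := by simp [bl]
  have e2 : (bl e s x).1.im = s * x.1.im := by simp [bl]
  have e3 : (bl e s x).2 - (e.2 : ℂ) = s * x.2 := by simp [bl]
  have e4 : (bl e s x).2.im = s * x.2.im := by simp [bl]
  have hre : |x.1.re| < a + 4 := (Complex.abs_re_le_norm _).trans_lt hx1
  have him : |x.1.im| < a + 4 := (Complex.abs_im_le_norm _).trans_lt hx1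
  refine ⟨?_, ?_, ?_, ?_, ?_⟩
  · rw [e1, abs_mul, abs_of_pos hs0']
    exact (mul_lt_mul_of_pos_left hre hs0').trans hs
  · rw [e2]
    have := mul_lt_mul_of_pos_left (abs_lt.1 him).1 hs0'
    linarith
  · rw [e3, norm_mul, Complex.norm_real, Real.norm_eq_abs, abs_of_pos hs0']
    exact (mul_lt_mul_of_pos_left hx2 hs0').trans hs
  · rw [e4]
    positivity
  · rw [e2, e4]
    have := mul_lt_mul_of_pos_left hx5 hs0'
    linarith

/-- blow-ups at a fixed point of the lower part stay in a cone -/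
theorem tendsto_bl_Cn (e : ℝ × ℝ) {z : ℂ × ℂ} (h1 : z.1.im < 0) (h2 : 0 < z.2.im) :
    ∃ M : ℝ, Tendsto (fun s : ℝ => bl e s z) (𝓝[>] 0) (𝓝[Cn e M] ((e.1 : ℂ), (e.2 : ℂ))) := by
  set M : ℝ := max ((-z.1.im) / z.2.im) ((|z.1.re| + ‖z.2‖) / (-z.1.im)) with hM
  have h1' : 0 < -z.1.im := by linarith
  refine ⟨M, ?_⟩
  rw [tendsto_nhdsWithin_iff]
  constructor
  · have hc : Continuous (fun s : ℝ => bl e s z) := by unfold bl; fun_prop
    have := (hc.tendsto 0).mono_left (nhdsWithin_le_nhds (s := Ioi 0))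
    simpa [bl] using this
  · filter_upwards [self_mem_nhdsWithin] with s hs
    have hs0 : (0 : ℝ) < s := hs
    have e1 : (bl e s z).1.re - e.1 = s * z.1.re := by simp [bl]
    have e2 : (bl e s z).1.im = s * z.1.im := by simp [bl]
    have e3 : (bl e s z).2 - (e.2 : ℂ) = s * z.2 := by simp [bl]
    have e4 : (bl e s z).2.im = s * z.2.im := by simp [bl]
    refine ⟨?_, ?_, ?_⟩
    · rw [e2]; exact mul_neg_of_pos_of_neg hs0 h1
    · rw [e2, e4]
      have h3 : (-z.1.im) / z.2.im ≤ M := le_max_left _ _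
      rw [div_le_iff₀ h2] at h3
      nlinarith
    · rw [e1, e2, e3, abs_mul, abs_of_pos hs0, norm_mul, Complex.norm_real, Real.norm_eq_abs,
        abs_of_pos hs0]
      have h3 : (|z.1.re| + ‖z.2‖) / (-z.1.im) ≤ M := le_max_right _ _
      rw [div_le_iff₀ h1'] at h3
      nlinarith

theorem exists_Low {a g ρ : ℝ} (h : (Low a g ρ).Nonempty) : ∃ x ∈ Low a g ρ, x.1.im < 0 := by
  obtain ⟨x, hx⟩ := h
  rcases lt_or_ge x.1.im 0 with h0 | h0
  · exact ⟨x, hx, h0⟩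
  · obtain ⟨⟨h1, h2, h3, h4⟩, h5⟩ := hx
    have hA : 0 < a + 4 := (norm_nonneg x.1).trans_lt h1
    have him : (-(((a + 4) / 2 : ℝ) : ℂ) * I).im = -((a + 4) / 2) := by simp
    refine ⟨(-(((a + 4) / 2 : ℝ) : ℂ) * I, x.2), ⟨⟨?_, h2, h3, ?_⟩, ?_⟩, ?_⟩
    · change ‖-(((a + 4) / 2 : ℝ) : ℂ) * I‖ < a + 4
      rw [norm_mul, norm_neg, Complex.norm_real, Real.norm_eq_abs, Complex.norm_I, mul_one,
        abs_of_pos (by positivity)]
      linarith
    · change (-(((a + 4) / 2 : ℝ) : ℂ) * I).im < _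
      rw [him]
      dsimp only
      linarith
    · change (-(((a + 4) / 2 : ℝ) : ℂ) * I).im < _
      rw [him]
      dsimp only
      linarith
    · change (-(((a + 4) / 2 : ℝ) : ℂ) * I).im < _
      rw [him]
      linarith

/-- **LOWLIM for `In5`**: from `low` and `lim` at one point `e` -/
theorem lowlim5 {B : ℂ × ℂ → ℂ} {h a g ρ η : ℝ} {e : ℝ × ℝ} {b₀ : ℂ} (hη : 0 < η)
    (hlow : ∀ q ∈ Half e η (a - ρ), DifferentiableAt ℂ B q ∧ |(B q).im| ≤ h)
    (hlim : ∀ M : ℝ, Tendsto B (𝓝[Cn e M] ((e.1 : ℂ), (e.2 : ℂ))) (𝓝 b₀)) :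
    TendstoLocallyUniformlyOn (fun (s : ℝ) (x : ℂ × ℂ) => B (bl e s x)) (fun _ => b₀)
      (𝓝[>] 0) (Low a g ρ) := by
  rcases (Low a g ρ).eq_empty_or_nonempty with hem | hnon
  · rw [hem]
    intro u _ x hx
    exact absurd hx (notMem_empty x)
  have hne := exists_Low hnon
  have hW : IsOpen (Low a g ρ ∩ {x : ℂ × ℂ | x.1.im < 0}) :=
    (isOpen_Low a g ρ).inter (isOpen_lt (by fun_prop) continuous_const)
  refine lowlim (h := h) (W := Low a g ρ ∩ {x : ℂ × ℂ | x.1.im < 0}) (isOpen_Low a g ρ)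
    (convex_Low a g ρ).isPreconnected (fun z hz => ?_) hW ?_ inter_subset_left ?_
  · obtain ⟨r, hr, hev⟩ := bl_mem_Half e hη hz
    refine ⟨r, hr, ?_⟩
    filter_upwards [hev] with s hs
    refine ⟨fun x hx => ?_, fun x hx => (hlow _ (hs x hx)).2⟩
    have h1 : DifferentiableAt ℂ B (bl e s x) := (hlow _ (hs x hx)).1
    have h2 : DifferentiableAt ℂ (fun x : ℂ × ℂ => bl e s x) x := by unfold bl; fun_prop
    exact (DifferentiableAt.comp x h1 h2).differentiableWithinAt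
  · obtain ⟨x, hx, hx'⟩ := hne
    exact ⟨x, hx, hx'⟩
  · rintro x ⟨hx, hx'⟩
    obtain ⟨M, hM⟩ := tendsto_bl_Cn e (z := x) hx' (by linarith [hx.1.2.2.1])
    exact (hlim M).comp hM

/-- the same, straight from `In5` -/
theorem In5.lowlim {S : Set ℂ} {Z Zc T c : ℂ → ℂ} {φ p B : ℂ × ℂ → ℂ} {h a g T0 e0 Cs : ℝ}
    {lam r ρ : ℝ} {P : Set (ℝ × ℝ)} {z₀ : ℂ} {r₀ : ℝ}
    (H : In5 S Z Zc T c φ p B h a g T0 e0 Cs lam r ρ P z₀ r₀) {e : ℝ × ℝ} (he : e ∈ P) :
    ∃ b₀ ∈ closedBall z₀ r₀,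
      (∀ M : ℝ, Tendsto B (𝓝[Cn e M] ((e.1 : ℂ), (e.2 : ℂ))) (𝓝 b₀)) ∧
      TendstoLocallyUniformlyOn (fun (s : ℝ) (x : ℂ × ℂ) => B (bl e s x)) (fun _ => b₀)
        (𝓝[>] 0) (Low a g ρ) := by
  obtain ⟨b₀, hb₀, hlim⟩ := H.lim e he
  obtain ⟨η, hη, hlow⟩ := H.low e he
  exact ⟨b₀, hb₀, hlim, lowlim5 (h := h) hη (fun q hq =>
    ⟨(hlow q hq).2.2.1, (hlow q hq).2.2.2.1⟩) hlim⟩

end Crest.Agent.R102.LowLim362
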