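import Mathlib
import Crest.Agent.R102.T7K_416

/-!
# Row 102, T5-MEL, (ML-Z): single valued + Puiseux => analytic / Nice  (helper519)
-/

set_option autoImplicit false

open Complex Metric Set Filter Topology

namespace Crest.Agent.R102.MLZ519

/-- a function of `x` near `0` invariant under a primitive `n`-th root of unity is a function of
`x ^ n` -/
theorem inv_root {n : ℕ} (hn : 0 < n) {ζ : ℂ} (hζ : IsPrimitiveRoot ζ n) {r : ℝ} (hr : 0 < r)
    {g : ℂ → ℂ} (hg : DifferentiableOn ℂ g (ball 0 r))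
    (hinv : ∀ x ∈ ball (0 : ℂ) r, g (ζ * x) = g x) :
    ∃ h : ℂ → ℂ, DifferentiableOn ℂ h (ball 0 (r ^ n)) ∧
      ∀ x ∈ ball (0 : ℂ) r, g x = h (x ^ n) := by
  have : NeZero n := ⟨hn.ne'⟩
  have hζ1 : ‖ζ‖ = 1 := hζ.norm'_eq_one hn.ne'
  have hn0 : (n : ℂ) ≠ 0 := by exact_mod_cast hn.ne'
  -- invariance under all powers
  have hpow : ∀ j : ℕ, ∀ x ∈ ball (0 : ℂ) r, g (ζ ^ j * x) = g x := by
    intro j
    induction j with
    | zero => intro x _; simp
    | succ j ih =>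
      intro x hx
      have hx' : ζ ^ j * x ∈ ball (0 : ℂ) r := by
        rw [mem_ball_zero_iff] at hx ⊢
        rw [norm_mul, norm_pow, hζ1, one_pow, one_mul]; exact hx
      rw [pow_succ', mul_assoc, hinv _ hx', ih x hx]
  -- two roots of the same number
  have hroot : ∀ x ∈ ball (0 : ℂ) r, ∀ y : ℂ, y ^ n = x ^ n → g y = g x := by
    intro x hx y hy
    rcases eq_or_ne x 0 with rfl | hx0
    · have : y = 0 := by
        rw [zero_pow hn.ne'] at hy
        exact pow_eq_zero_iff hn.ne' |>.1 hy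
      rw [this]
    · have h1 : (y / x) ^ n = 1 := by
        rw [div_pow, hy, div_self (pow_ne_zero _ hx0)]
      obtain ⟨j, _, hj⟩ := hζ.eq_pow_of_pow_eq_one h1
      have : y = ζ ^ j * x := by
        rw [hj]; field_simp
      rw [this, hpow j x hx]
  let h : ℂ → ℂ := fun τ => g (τ ^ ((1 : ℂ) / n))
  have hpn : ∀ τ : ℂ, (τ ^ ((1 : ℂ) / n)) ^ n = τ := by
    intro τ
    rw [one_div]
    exact cpow_nat_inv_pow τ hn.ne'
  have hh : ∀ x ∈ ball (0 : ℂ) r, g x = h (x ^ n) := by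
    intro x hx
    exact (hroot x hx _ (hpn _)).symm
  refine ⟨h, ?_, hh⟩
  have hnorm : ∀ τ ∈ ball (0 : ℂ) (r ^ n), τ ^ ((1 : ℂ) / n) ∈ ball (0 : ℂ) r := by
    intro τ hτ
    rw [mem_ball_zero_iff] at hτ ⊢
    by_contra hcon
    push Not at hcon
    have : r ^ n ≤ ‖τ ^ ((1 : ℂ) / n)‖ ^ n := pow_le_pow_left₀ hr.le hcon n
    rw [← norm_pow, hpn] at this
    linarith
  rw [← Complex.differentiableOn_compl_singleton_and_continuousAt_iff
    (isOpen_ball.mem_nhds (mem_ball_self (pow_pos hr n)))]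
  constructor
  · intro τ₀ hτ₀
    obtain ⟨hτb, hτ0⟩ := hτ₀
    rw [mem_singleton_iff] at hτ0
    refine DifferentiableAt.differentiableWithinAt ?_
    set x₀ : ℂ := τ₀ ^ ((1 : ℂ) / n) with hx₀
    have hx₀b : x₀ ∈ ball (0 : ℂ) r := hnorm τ₀ hτb
    have hx₀n : x₀ ^ n = τ₀ := hpn τ₀
    have hx₀0 : x₀ ≠ 0 := by
      intro h0
      rw [h0, zero_pow hn.ne'] at hx₀n
      exact hτ0 hx₀n.symm
    -- the local inverse of `x ↦ x ^ n`
    have hsd : HasStrictDerivAt (fun x : ℂ => x ^ n) ((n : ℂ) * x₀ ^ (n - 1)) x₀ :=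
      hasStrictDerivAt_pow n x₀
    have hne : (n : ℂ) * x₀ ^ (n - 1) ≠ 0 := mul_ne_zero hn0 (pow_ne_zero _ hx₀0)
    set φ := hsd.localInverse (fun x : ℂ => x ^ n) _ x₀ hne with hφ
    have hφd : HasStrictDerivAt φ ((n : ℂ) * x₀ ^ (n - 1))⁻¹ (x₀ ^ n) := hsd.to_localInverse hne
    have hφx : φ (x₀ ^ n) = x₀ := (hsd.hasStrictFDerivAt_equiv hne).localInverse_apply_image
    have hφr : ∀ᶠ τ in 𝓝 (x₀ ^ n), (φ τ) ^ n = τ := hsd.eventually_right_inverse hne
    rw [hx₀n] at hφd hφx hφr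
    have hgd : DifferentiableAt ℂ g x₀ := (hg x₀ hx₀b).differentiableAt (isOpen_ball.mem_nhds hx₀b)
    have hcomp : DifferentiableAt ℂ (fun τ => g (φ τ)) τ₀ := by
      have h1 : DifferentiableAt ℂ g (φ τ₀) := by rw [hφx]; exact hgd
      exact h1.comp τ₀ hφd.hasDerivAt.differentiableAt
    refine hcomp.congr_of_eventuallyEq ?_
    have hφb : ∀ᶠ τ in 𝓝 τ₀, φ τ ∈ ball (0 : ℂ) r := by
      have hc : ContinuousAt φ τ₀ := hφd.hasDerivAt.continuousAt
      exact hc.eventually (by rw [hφx]; exact isOpen_ball.mem_nhds hx₀b)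
    filter_upwards [hφr, hφb] with τ h1 h2
    exact hroot _ h2 _ (by rw [hpn, h1])
  · -- continuity at `0`
    have hg0 : ContinuousAt g 0 :=
      (hg.differentiableAt (isOpen_ball.mem_nhds (mem_ball_self hr))).continuousAt
    have hr0 : Tendsto (fun τ : ℂ => τ ^ ((1 : ℂ) / n)) (𝓝 0) (𝓝 0) := by
      rw [tendsto_zero_iff_norm_tendsto_zero]
      have h1 : (fun τ : ℂ => ‖τ ^ ((1 : ℂ) / n)‖) = fun τ => ‖τ‖ ^ ((1 : ℝ) / n) := by
        funext τ
        have h2 : (‖τ ^ ((1 : ℂ) / n)‖) ^ n = ‖τ‖ := by rw [← norm_pow, hpn]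
        have h3 : (‖τ‖ ^ ((1 : ℝ) / n)) ^ n = ‖τ‖ := by
          rw [one_div]; exact Real.rpow_inv_natCast_pow (norm_nonneg _) hn.ne'
        exact (pow_left_inj₀ (norm_nonneg _) (Real.rpow_nonneg (norm_nonneg _) _) hn.ne').1
          (h2.trans h3.symm)
      rw [h1]
      have h4 : Tendsto (fun τ : ℂ => ‖τ‖) (𝓝 0) (𝓝 0) := by
        simpa using (continuous_norm (E := ℂ)).tendsto 0
      have h5 : Tendsto (fun x : ℝ => x ^ ((1 : ℝ) / n)) (𝓝 0) (𝓝 0) := by
        have := (Real.continuous_rpow_const (q := (1 : ℝ) / n) (by positivity)).tendsto 0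
        rwa [Real.zero_rpow (by positivity)] at this
      exact h5.comp h4
    have h00 : h 0 = g 0 := by
      simp only [h]
      congr 1
      exact Complex.zero_cpow (by simp [hn0])
    have : Tendsto h (𝓝 0) (𝓝 (g 0)) := hg0.tendsto.comp hr0
    rw [ContinuousAt, h00]
    exact this

/-! ### Nice from an even slope -/

open Crest.Agent.R102.T7M

/-- the slope `M = e^{2iθ}` is `τ^{±2} h(τ^2)` near the end: nice point -/
theorem nice_of_even {h0 : ℝ} (h0p : 0 < h0) {y M : ℂ → ℂ} {s : ℂ} (hs : s.im = h0) {r : ℝ}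
    (hr : 0 < r) {ε : ℤ} (hε : ε = 1 ∨ ε = -1) {h : ℂ → ℂ} (hh : AnalyticAt ℂ h 0) (hh0 : h 0 ≠ 0)
    (hM : ∀ z ∈ ball s r, |z.im| < h0 → M z = (z - s) ^ (2 * ε) * h ((z - s) ^ 2))
    (hder : ∀ z ∈ ball s r, |z.im| < h0 → deriv M z = 2 * I * y z * M z) :
    ∃ (r' : ℝ) (a : ℂ) (F : ℂ → ℂ), Nice h0 y s r' a F := by
  -- `u` with `u^2 = h^ε` near `0`
  have hlog : ∃ u : ℂ → ℂ, AnalyticAt ℂ u 0 ∧ u 0 ≠ 0 ∧ ∀ᶠ b in 𝓝 (0 : ℂ), u b ^ 2 = h b ^ ε := by
    have h1 : AnalyticAt ℂ (fun b => h b / h 0) 0 := hh.div_const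
    have h2 : h 0 / h 0 ∈ slitPlane := by rw [div_self hh0]; exact one_mem_slitPlane
    refine ⟨fun b => (h 0 ^ ((ε : ℂ) / 2)) * exp ((ε : ℂ) / 2 * log (h b / h 0)), ?_, ?_, ?_⟩
    · exact analyticAt_const.mul ((analyticAt_const.mul (h1.clog h2)).cexp)
    · exact mul_ne_zero (by simp [Complex.cpow_eq_zero_iff, hh0]) (exp_ne_zero _)
    · have h3 : ∀ᶠ b in 𝓝 (0 : ℂ), h b / h 0 ≠ 0 := by
        refine h1.continuousAt.eventually_ne ?_
        simp [hh0]
      filter_upwards [h3] with b hb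
      have e1 : (h 0 ^ ((ε : ℂ) / 2)) ^ 2 = h 0 ^ ε := by
        rw [← Complex.cpow_nat_mul]
        have : ((2 : ℕ) : ℂ) * ((ε : ℂ) / 2) = ε := by push_cast; ring
        rw [this, Complex.cpow_intCast]
      have e2 : exp ((ε : ℂ) / 2 * log (h b / h 0)) ^ 2 = (h b / h 0) ^ ε := by
        rw [← Complex.exp_nat_mul]
        have : ((2 : ℕ) : ℂ) * ((ε : ℂ) / 2 * log (h b / h 0)) = (ε : ℂ) * log (h b / h 0) := by
          push_cast; ring
        rw [this, Complex.exp_int_mul, Complex.exp_log hb]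
      rw [mul_pow, e1, e2, div_zpow]
      field_simp
  obtain ⟨u, hu, hu0, hu2⟩ := hlog
  have hhne : ∀ᶠ b in 𝓝 (0 : ℂ), h b ≠ 0 := hh.continuousAt.eventually_ne hh0
  obtain ⟨ρ, hρ, hρb⟩ := Metric.eventually_nhds_iff_ball.1
    ((hu.eventually_analyticAt.and hu2).and (hh.eventually_analyticAt.and hhne))
  -- the radius
  obtain ⟨r', hr', hr'r, hr'ρ⟩ : ∃ r' : ℝ, 0 < r' ∧ r' ≤ r ∧ r' ^ 2 ≤ ρ := by
    refine ⟨min r (Real.sqrt ρ), lt_min hr (Real.sqrt_pos.2 hρ), min_le_left _ _, ?_⟩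
    calc (min r (Real.sqrt ρ)) ^ 2 ≤ (Real.sqrt ρ) ^ 2 :=
          pow_le_pow_left₀ (le_min hr.le (Real.sqrt_nonneg _)) (min_le_right _ _) 2
      _ = ρ := Real.sq_sqrt hρ.le
  have hsq : ∀ ζ : ℂ, ‖ζ‖ < r' → ζ ^ 2 ∈ ball (0 : ℂ) ρ := by
    intro ζ hζ
    rw [mem_ball_zero_iff, norm_pow]
    calc ‖ζ‖ ^ 2 < r' ^ 2 := pow_lt_pow_left₀ hζ (norm_nonneg _) two_ne_zero
      _ ≤ ρ := hr'ρ
  let F : ℂ → ℂ := fun z => (z - s) * u ((z - s) ^ 2)
  have hFd : ∀ z ∈ ball s r', DifferentiableAt ℂ F z := by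
    intro z hz
    have hz' : ‖z - s‖ < r' := by rwa [← dist_eq_norm]
    have h1 : DifferentiableAt ℂ u ((z - s) ^ 2) := (hρb _ (hsq _ hz')).1.1.differentiableAt
    have h2 : DifferentiableAt ℂ (fun z : ℂ => (z - s) ^ 2) z :=
      (differentiableAt_id.sub_const s).pow 2
    exact (differentiableAt_id.sub_const s).mul (h1.comp z h2)
  refine ⟨r', -I * ε, F, hr', ?_, fun z hz => (hFd z hz).differentiableWithinAt, ?_, ?_, ?_⟩
  · rcases hε with rfl | rfl <;> simp
  · intro ζ _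
    simp only [F]
    ring_nf
  · have h1 : HasDerivAt (fun z : ℂ => z - s) 1 s := (hasDerivAt_id s).sub_const s
    have h2 : HasDerivAt (fun z : ℂ => (z - s) ^ 2) (2 * (s - s) ^ 1 * 1) s := by
      simpa using h1.fun_pow 2
    have h3 : HasDerivAt u (deriv u 0) ((s - s) ^ 2) := by
      simpa using hu.differentiableAt.hasDerivAt
    have h4 := h1.mul (h3.comp s h2)
    have h5 : deriv F s = u 0 := by
      have : HasDerivAt F _ s := h4
      rw [this.deriv]; simp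
    rw [h5]; exact hu0
  · intro z hz hzi
    have hz' : ‖z - s‖ < r' := by rwa [← dist_eq_norm]
    have hzs : z - s ≠ 0 := by
      intro h0'
      rw [sub_eq_zero] at h0'
      rw [h0', hs, abs_of_pos h0p] at hzi
      exact lt_irrefl _ hzi
    -- the open set
    set Ω : Set ℂ := ball s r' ∩ {z | |z.im| < h0} with hΩ
    have hΩo : IsOpen Ω := isOpen_ball.inter
      (isOpen_lt (continuous_abs.comp continuous_im) continuous_const)
    have hzΩ : z ∈ Ω := ⟨hz, hzi⟩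
    have hsub : ∀ x ∈ Ω, x ∈ ball s r := fun x hx => ball_subset_ball hr'r hx.1
    have hFM : ∀ x ∈ Ω, F x ^ 2 = M x ^ ε := by
      intro x hx
      have hx' : ‖x - s‖ < r' := by rw [← dist_eq_norm]; exact hx.1
      have e1 := (hρb _ (hsq _ hx')).1.2
      rw [hM x (hsub x hx) hx.2]
      simp only [F]
      rw [mul_pow, e1, mul_zpow, ← zpow_mul]
      have : (2 * ε) * ε = 2 := by rcases hε with rfl | rfl <;> norm_num
      rw [this]
      norm_cast
    have hFne : F z ≠ 0 := by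
      intro h0'
      simp only [F, mul_eq_zero] at h0'
      rcases h0' with h0' | h0'
      · exact hzs h0'
      · have e1 := (hρb _ (hsq _ hz')).1.2
        have e2 := (hρb _ (hsq _ hz')).2.2
        have e3 : h ((z - s) ^ 2) = 0 := by
          rw [h0'] at e1
          rcases hε with rfl | rfl
          · simpa using e1.symm
          · simpa using e1.symm
        exact e2 e3
    have hMne : M z ≠ 0 := by
      intro h0'
      have := hFM z hzΩ
      rw [h0'] at this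
      rcases hε with rfl | rfl
      · simp at this; exact hFne this
      · simp at this; exact hFne this
    -- derivative of `M`
    have hMd : HasDerivAt M (2 * I * y z * M z) z := by
      rw [← hder z (hsub z hzΩ) hzi]
      refine DifferentiableAt.hasDerivAt ?_
      have h1 : DifferentiableAt ℂ h ((z - s) ^ 2) := (hρb _ (hsq _ hz')).2.1.differentiableAt
      have h2 : DifferentiableAt ℂ (fun z : ℂ => (z - s) ^ 2) z :=
        (differentiableAt_id.sub_const s).pow 2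
      have h3 : DifferentiableAt ℂ (fun z : ℂ => (z - s) ^ (2 * ε)) z :=
        (differentiableAt_id.sub_const s).zpow (Or.inl hzs)
      refine (h3.mul (h1.comp z h2)).congr_of_eventuallyEq ?_
      filter_upwards [hΩo.mem_nhds hzΩ] with x hx
      exact hM x (hsub x hx) hx.2
    have e1 : HasDerivAt (fun x => F x ^ 2) (2 * F z * deriv F z) z := by
      have := (hFd z hz).hasDerivAt.fun_pow 2
      simpa using this
    have e2 : HasDerivAt (fun x => M x ^ ε) ((ε : ℂ) * M z ^ (ε - 1) * (2 * I * y z * M z)) z :=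
      (hasDerivAt_zpow ε (M z) (Or.inl hMne)).comp z hMd
    have e3 : (fun x => F x ^ 2) =ᶠ[𝓝 z] fun x => M x ^ ε := by
      filter_upwards [hΩo.mem_nhds hzΩ] with x hx
      exact hFM x hx
    have e4 := (e2.congr_of_eventuallyEq e3).unique e1
    have e5 : M z ^ (ε - 1) * M z = F z ^ 2 := by
      rw [hFM z hzΩ, zpow_sub_one₀ hMne]
      field_simp
    have e6 : 2 * F z * deriv F z = (ε : ℂ) * (2 * I * y z) * F z ^ 2 := by
      rw [← e4, ← e5]; ring
    have e7 : deriv F z = (ε : ℂ) * I * y z * F z := by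
      have h2F : (2 * F z) ≠ 0 := mul_ne_zero two_ne_zero hFne
      apply mul_left_cancel₀ h2F
      rw [e6]; ring
    rw [e7]
    have hεε : (ε : ℂ) * ε = 1 := by rcases hε with rfl | rfl <;> simp
    linear_combination (-(y z * F z)) * hεε + (y z * F z * ε * ε) * I_sq

/-! ### Regular from meromorphic `H` -/

lemma der_form {Ω : Set ℂ} (hΩ : IsOpen Ω) {f g : ℂ → ℂ} {s : ℂ} {m : ℤ}
    (h : ∀ z ∈ Ω, z - s ≠ 0 ∧ AnalyticAt ℂ g (z - s) ∧ f z = (z - s) ^ m * g (z - s)) :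
    ∀ z ∈ Ω, deriv f z = (z - s) ^ (m - 1) * (m * g (z - s) + (z - s) * deriv g (z - s)) := by
  intro z hz
  obtain ⟨hzs, hg, _⟩ := h z hz
  have h1 : HasDerivAt (fun z : ℂ => z - s) 1 z := (hasDerivAt_id z).sub_const s
  have h2 : HasDerivAt (fun z : ℂ => (z - s) ^ m) ((m : ℂ) * (z - s) ^ (m - 1) * 1) z := by
    have h2' := hasDerivAt_zpow (𝕜 := ℂ) m (z - s) (Or.inl hzs)
    exact h2'.comp z h1
  have h3 : HasDerivAt (fun z : ℂ => g (z - s)) (deriv g (z - s) * 1) z :=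
    (hg.differentiableAt.hasDerivAt).comp z h1
  have h4 := h2.mul h3
  have h5 : f =ᶠ[𝓝 z] fun z => (z - s) ^ m * g (z - s) := by
    filter_upwards [hΩ.mem_nhds hz] with x hx
    exact (h x hx).2.2
  rw [(h4.congr_of_eventuallyEq h5).deriv]
  have h6 : (z - s) ^ m = (z - s) ^ (m - 1) * (z - s) := by
    rw [zpow_sub_one₀ hzs]; field_simp
  rw [h6]; ring

/-- `y` analytic with a zero of order `j ≤ 2`, `H` meromorphic: `H` is analytic -/
theorem reg_of_mero {h0 : ℝ} (h0p : 0 < h0) {y H : ℂ → ℂ} {c : ℂ} {s : ℂ}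
    (hs : s.im = h0) {r : ℝ} (hr : 0 < r) {j : ℕ} (hj : j ≤ 2) {u : ℂ → ℂ}
    (hu : AnalyticAt ℂ u 0) (hu0 : u 0 ≠ 0)
    (hy : ∀ z ∈ ball s r, |z.im| < h0 → y z = (z - s) ^ j * u (z - s))
    {m : ℤ} {g : ℂ → ℂ} (hg : AnalyticAt ℂ g 0) (hg0 : g 0 ≠ 0)
    (hH : ∀ z ∈ ball s r, |z.im| < h0 → H z = (z - s) ^ m * g (z - s))
    (hrel : ∀ z ∈ ball s r, |z.im| < h0 →
      y z * d2 H z - deriv y z * deriv H z + y z ^ 3 * H z = c) :
    Reg h0 y H s := by
  obtain ⟨ρ, hρ, hρb⟩ := Metric.eventually_nhds_iff_ball.1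
    (hu.eventually_analyticAt.and hg.eventually_analyticAt)
  set r' : ℝ := min r ρ with hr'
  have hr'p : 0 < r' := lt_min hr hρ
  set Ω : Set ℂ := ball s r' ∩ {z | |z.im| < h0} with hΩ
  have hΩo : IsOpen Ω := isOpen_ball.inter
    (isOpen_lt (continuous_abs.comp continuous_im) continuous_const)
  have hΩs : ∀ z ∈ Ω, z - s ≠ 0 := by
    intro z hz h0'
    have := hz.2
    rw [sub_eq_zero] at h0'
    simp only [mem_ofPred_eq, h0', hs, abs_of_pos h0p] at this
    exact lt_irrefl _ this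
  have hΩb : ∀ z ∈ Ω, z ∈ ball s r := fun z hz => ball_subset_ball (min_le_left _ _) hz.1
  have hΩρ : ∀ z ∈ Ω, z - s ∈ ball (0 : ℂ) ρ := by
    intro z hz
    rw [mem_ball_zero_iff, ← dist_eq_norm]
    exact lt_of_lt_of_le hz.1 (min_le_right _ _)
  have hm : 0 ≤ m := by
    by_contra hm
    push Not at hm
    -- the three derivatives
    have y0 : ∀ z ∈ Ω, z - s ≠ 0 ∧ AnalyticAt ℂ u (z - s) ∧ y z = (z - s) ^ (j : ℤ) * u (z - s) :=
      fun z hz => ⟨hΩs z hz, (hρb _ (hΩρ z hz)).1, by rw [hy z (hΩb z hz) hz.2, zpow_natCast]⟩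
    have H0 : ∀ z ∈ Ω, z - s ≠ 0 ∧ AnalyticAt ℂ g (z - s) ∧ H z = (z - s) ^ m * g (z - s) :=
      fun z hz => ⟨hΩs z hz, (hρb _ (hΩρ z hz)).2, hH z (hΩb z hz) hz.2⟩
    have y1 := der_form hΩo y0
    have H1 := der_form hΩo H0
    set g1 : ℂ → ℂ := fun τ => m * g τ + τ * deriv g τ with hg1
    have hg1a : ∀ τ ∈ ball (0 : ℂ) ρ, AnalyticAt ℂ g1 τ := by
      intro τ hτ
      have := (hρb τ hτ).2
      exact (analyticAt_const.mul this).add (analyticAt_id.mul this.deriv)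
    have H1' : ∀ z ∈ Ω, z - s ≠ 0 ∧ AnalyticAt ℂ g1 (z - s) ∧
        deriv H z = (z - s) ^ (m - 1) * g1 (z - s) :=
      fun z hz => ⟨hΩs z hz, hg1a _ (hΩρ z hz), H1 z hz⟩
    have H2 := der_form hΩo H1'
    set g2 : ℂ → ℂ := fun τ => ((m - 1 : ℤ) : ℂ) * g1 τ + τ * deriv g1 τ with hg2
    have hg2a : AnalyticAt ℂ g2 0 := by
      have := hg1a 0 (mem_ball_self hρ)
      exact (analyticAt_const.mul this).add (analyticAt_id.mul this.deriv)
    -- the bracket
    let Q : ℂ → ℂ := fun τ => u τ * g2 τ - (j * u τ + τ * deriv u τ) * g1 τ +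
      τ ^ (2 * j + 2) * u τ ^ 3 * g τ
    have hQc : ContinuousAt Q 0 := by
      have a1 := hu.continuousAt
      have a2 := hg2a.continuousAt
      have a3 := hu.deriv.continuousAt
      have a4 := (hg1a 0 (mem_ball_self hρ)).continuousAt
      have a5 := hg.continuousAt
      have a6 : ContinuousAt (fun τ : ℂ => τ) 0 := continuousAt_id
      exact ((a1.mul a2).sub (((continuousAt_const.mul a1).add (a6.mul a3)).mul a4)).add
        (((a6.pow _).mul (a1.pow 3)).mul a5)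
    have hQ0 : Q 0 ≠ 0 := by
      have e1 : Q 0 = u 0 * g 0 * ((m : ℂ) * (((m - 1 - j : ℤ)) : ℂ)) := by
        simp only [Q, hg2, hg1]
        push_cast
        simp
        ring
      rw [e1]
      have h1 : (m : ℂ) ≠ 0 := by exact_mod_cast hm.ne
      have h2 : (((m - 1 - j : ℤ)) : ℂ) ≠ 0 := by
        have : (m - 1 - j : ℤ) ≠ 0 := by omega
        exact_mod_cast this
      exact mul_ne_zero (mul_ne_zero hu0 hg0) (mul_ne_zero h1 h2)
    obtain ⟨n, hn, hnm⟩ : ∃ n : ℕ, 0 < n ∧ (j : ℤ) + m - 2 = -(n : ℤ) := by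
      refine ⟨(2 - m - j).toNat, by omega, by omega⟩
    have hQeq : ∀ z ∈ Ω, Q (z - s) = c * (z - s) ^ n := by
      intro z hz
      have hzs := hΩs z hz
      have e1 := hrel z (hΩb z hz) hz.2
      have e2 : d2 H z = (z - s) ^ (m - 1 - 1) * g2 (z - s) := H2 z hz
      have e3 := y1 z hz
      have e4 : deriv H z = (z - s) ^ (m - 1) * g1 (z - s) := H1 z hz
      rw [e2, e3, e4, (y0 z hz).2.2, (H0 z hz).2.2] at e1
      have z1 : (z - s) ^ (m - 1 - 1) = (z - s) ^ (-(n : ℤ)) * ((z - s) ^ (j : ℤ))⁻¹ := by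
        rw [← zpow_neg, ← zpow_add₀ hzs]; congr 1; omega
      have z2 : (z - s) ^ ((j : ℤ) - 1) * (z - s) ^ (m - 1) = (z - s) ^ (-(n : ℤ)) := by
        rw [← zpow_add₀ hzs]; congr 1; omega
      have z3 : ((z - s) ^ (j : ℤ)) ^ 3 * (z - s) ^ m =
          (z - s) ^ (-(n : ℤ)) * (z - s) ^ (2 * j + 2) := by
        rw [← zpow_natCast (z - s) (2 * j + 2), ← zpow_natCast ((z - s) ^ (j : ℤ)) 3, ← zpow_mul,
          ← zpow_add₀ hzs, ← zpow_add₀ hzs]
        congr 1; push_cast; omega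
      have hj0 : (z - s) ^ (j : ℤ) ≠ 0 := zpow_ne_zero _ hzs
      have e5 : (z - s) ^ (-(n : ℤ)) * Q (z - s) = c := by
        rw [← e1]
        simp only [Q]
        have t1 : (z - s) ^ (j : ℤ) * u (z - s) * ((z - s) ^ (m - 1 - 1) * g2 (z - s)) =
            (z - s) ^ (-(n : ℤ)) * (u (z - s) * g2 (z - s)) := by
          rw [z1]; field_simp
        have t2 : (z - s) ^ ((j : ℤ) - 1) *
            (((j : ℤ) : ℂ) * u (z - s) + (z - s) * deriv u (z - s)) *
            ((z - s) ^ (m - 1) * g1 (z - s)) = (z - s) ^ (-(n : ℤ)) *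
            ((j * u (z - s) + (z - s) * deriv u (z - s)) * g1 (z - s)) := by
          rw [← z2]; push_cast; ring
        have t3 : ((z - s) ^ (j : ℤ) * u (z - s)) ^ 3 * ((z - s) ^ m * g (z - s)) =
            (z - s) ^ (-(n : ℤ)) * ((z - s) ^ (2 * j + 2) * u (z - s) ^ 3 * g (z - s)) := by
          rw [mul_pow]
          linear_combination (u (z - s) ^ 3 * g (z - s)) * z3
        rw [t1, t2, t3]; ring
      have hzn : (z - s) ^ n ≠ 0 := pow_ne_zero _ hzs
      rw [← e5, zpow_neg, zpow_natCast]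
      field_simp
    -- limit along the vertical ray
    have hlim : Tendsto (fun t : ℝ => (-(t : ℂ) * I)) (𝓝[>] 0) (𝓝 0) := by
      have : Tendsto (fun t : ℝ => (-(t : ℂ) * I)) (𝓝 0) (𝓝 (-((0 : ℝ) : ℂ) * I)) := by
        apply Continuous.tendsto
        fun_prop
      simp only [ofReal_zero, neg_zero, zero_mul] at this
      exact this.mono_left nhdsWithin_le_nhds
    have h1 : Tendsto (fun t : ℝ => Q (-(t : ℂ) * I)) (𝓝[>] 0) (𝓝 (Q 0)) := hQc.tendsto.comp hlim
    have h2 : Tendsto (fun t : ℝ => c * (-(t : ℂ) * I) ^ n) (𝓝[>] 0) (𝓝 0) := by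
      have := (hlim.pow n).const_mul c
      rwa [zero_pow hn.ne', mul_zero] at this
    have h3 : (fun t : ℝ => Q (-(t : ℂ) * I)) =ᶠ[𝓝[>] 0] fun t : ℝ => c * (-(t : ℂ) * I) ^ n := by
      have hmem : Ioo (0 : ℝ) (min r' h0) ∈ 𝓝[>] (0 : ℝ) :=
        Ioo_mem_nhdsGT (lt_min hr'p h0p)
      filter_upwards [hmem] with t ht
      have hz : s + (-(t : ℂ) * I) ∈ Ω := by
        constructor
        · rw [mem_ball, dist_eq_norm]
          simp only [add_sub_cancel_left, norm_mul, norm_neg, norm_I, mul_one, norm_real,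
            Real.norm_eq_abs, abs_of_pos ht.1]
          exact lt_of_lt_of_le ht.2 (min_le_left _ _)
        · have : (s + (-(t : ℂ) * I)).im = h0 - t := by
            simp [hs]; ring
          simp only [mem_ofPred_eq, this]
          have ht2 : t < h0 := lt_of_lt_of_le ht.2 (min_le_right _ _)
          rw [abs_of_pos (by linarith)]
          linarith [ht.1]
      have := hQeq _ hz
      simpa using this
    exact hQ0 (tendsto_nhds_unique h1 ((tendsto_congr' h3).2 h2))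
  obtain ⟨n, rfl⟩ := Int.eq_ofNat_of_zero_le hm
  refine ⟨r', hr'p, fun z => (z - s) ^ j * u (z - s), fun z => (z - s) ^ n * g (z - s), ?_, ?_, ?_⟩
  · intro z hz
    have hz' : z - s ∈ ball (0 : ℂ) ρ := by
      rw [mem_ball_zero_iff, ← dist_eq_norm]; exact lt_of_lt_of_le hz (min_le_right _ _)
    have h1 : DifferentiableAt ℂ (fun z : ℂ => z - s) z := differentiableAt_id.sub_const s
    exact ((h1.pow j).mul ((hρb _ hz').1.differentiableAt.comp z h1)).differentiableWithinAt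
  · intro z hz
    have hz' : z - s ∈ ball (0 : ℂ) ρ := by
      rw [mem_ball_zero_iff, ← dist_eq_norm]; exact lt_of_lt_of_le hz (min_le_right _ _)
    have h1 : DifferentiableAt ℂ (fun z : ℂ => z - s) z := differentiableAt_id.sub_const s
    exact ((h1.pow n).mul ((hρb _ hz').2.differentiableAt.comp z h1)).differentiableWithinAt
  · intro z hz hzi
    have hzb : z ∈ ball s r := ball_subset_ball (min_le_left _ _) hz
    refine ⟨(hy z hzb hzi).symm, ?_⟩
    rw [hH z hzb hzi]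
    simp

end Crest.Agent.R102.MLZ519
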