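import Mathlib
import Crest.Agent.R102.MLZ_519
import Crest.Agent.R102.SpineDefs_478

/-!
# Row 102, T5-MEL, (ML-Z), second part (helper519)

`nice_of_curve`: an isotropic end whose curve is `a = h (b)`, `h` analytic, `h = κ b^2 + ..`, is nice.
-/

set_option autoImplicit false

open Complex Metric Set Filter Topology

namespace Crest.Agent.R102.MLZ519

/-- analytic `n`-th root near a point where the function does not vanish -/
lemma exists_root {n : ℕ} (hn : 0 < n) {k : ℂ → ℂ} (hk : AnalyticAt ℂ k 0) (hk0 : k 0 ≠ 0) :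
    ∃ w : ℂ → ℂ, AnalyticAt ℂ w 0 ∧ w 0 ≠ 0 ∧ ∀ᶠ b in 𝓝 (0 : ℂ), w b ^ n = k b := by
  have hn0 : (n : ℂ) ≠ 0 := by exact_mod_cast hn.ne'
  have h1 : AnalyticAt ℂ (fun b => k b / k 0) 0 := hk.div_const
  have h2 : k 0 / k 0 ∈ slitPlane := by rw [div_self hk0]; exact one_mem_slitPlane
  refine ⟨fun b => (k 0 ^ ((1 : ℂ) / n)) * exp ((1 : ℂ) / n * log (k b / k 0)), ?_, ?_, ?_⟩
  · exact analyticAt_const.mul ((analyticAt_const.mul (h1.clog h2)).cexp)
  · exact mul_ne_zero (by simp [Complex.cpow_eq_zero_iff, hk0]) (exp_ne_zero _)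
  · have h3 : ∀ᶠ b in 𝓝 (0 : ℂ), k b / k 0 ≠ 0 := by
      refine h1.continuousAt.eventually_ne ?_
      simp [hk0]
    filter_upwards [h3] with b hb
    have e1 : (k 0 ^ ((1 : ℂ) / n)) ^ n = k 0 := by
      rw [one_div]; exact cpow_nat_inv_pow _ hn.ne'
    have e2 : exp ((1 : ℂ) / n * log (k b / k 0)) ^ n = k b / k 0 := by
      rw [← Complex.exp_nat_mul]
      have : (n : ℂ) * ((1 : ℂ) / n * log (k b / k 0)) = log (k b / k 0) := by
        field_simp
      rw [this, Complex.exp_log hb]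
    rw [mul_pow, e1, e2]
    field_simp

/-- divide by the variable -/
lemma exists_div {f : ℂ → ℂ} (hf : AnalyticAt ℂ f 0) (hf0 : f 0 = 0) :
    ∃ k : ℂ → ℂ, AnalyticAt ℂ k 0 ∧ k 0 = deriv f 0 ∧ ∀ᶠ b in 𝓝 (0 : ℂ), f b = b * k b := by
  have h1 : ((1 : ℕ) : ℕ∞) ≤ analyticOrderAt f 0 := by
    have := (hf.analyticOrderAt_ne_zero).2 hf0
    exact_mod_cast Order.one_le_iff_ne_zero.2 this
  obtain ⟨k, hk, hkf⟩ := (natCast_le_analyticOrderAt hf).1 h1
  have hkf' : ∀ᶠ b in 𝓝 (0 : ℂ), f b = b * k b := by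
    filter_upwards [hkf] with b hb
    simpa using hb
  refine ⟨k, hk, ?_, hkf'⟩
  have h2 : HasDerivAt (fun b => b * k b) (1 * k 0 + 0 * deriv k 0) 0 :=
    (hasDerivAt_id (0 : ℂ)).mul hk.differentiableAt.hasDerivAt
  have h3 := h2.congr_of_eventuallyEq hkf'
  rw [h3.deriv]; ring

/-- primitive of an even analytic germ: odd -/
lemma exists_prim {f : ℂ → ℂ} (hf : AnalyticAt ℂ f 0) (hev : ∀ᶠ u in 𝓝 (0 : ℂ), f (-u) = f u) :
    ∃ P : ℂ → ℂ, AnalyticAt ℂ P 0 ∧ P 0 = 0 ∧ (∀ᶠ u in 𝓝 (0 : ℂ), HasDerivAt P (f u) u) ∧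
      ∀ᶠ u in 𝓝 (0 : ℂ), P (-u) = -P u := by
  obtain ⟨r, hr, hrb⟩ := Metric.eventually_nhds_iff_ball.1 (hf.eventually_analyticAt.and hev)
  have hd : DifferentiableOn ℂ f (ball 0 r) := fun z hz =>
    (hrb z hz).1.differentiableAt.differentiableWithinAt
  obtain ⟨P, hP0, hP⟩ := hd.isExactOn_ball.with_val_at (0 : ℂ) 0
  have hPd : DifferentiableOn ℂ P (ball 0 r) := fun z hz =>
    (hP z hz).differentiableAt.differentiableWithinAt
  have hPa : AnalyticAt ℂ P 0 := hPd.analyticAt (isOpen_ball.mem_nhds (mem_ball_self hr))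
  refine ⟨P, hPa, hP0, ?_, ?_⟩
  · filter_upwards [ball_mem_nhds (0 : ℂ) hr] with u hu
    exact hP u hu
  · have hneg : ∀ u ∈ ball (0 : ℂ) r, -u ∈ ball (0 : ℂ) r := by
      intro u hu
      rw [mem_ball_zero_iff] at hu ⊢
      rwa [norm_neg]
    have key : ∀ u ∈ ball (0 : ℂ) r, HasDerivAt (fun u => P (-u) + P u) 0 u := by
      intro u hu
      have h1 : HasDerivAt (fun u => P (-u)) (f (-u) * (-1)) u :=
        (hP (-u) (hneg u hu)).comp u (hasDerivAt_neg u)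
      have h2 := h1.add (hP u hu)
      rw [(hrb u hu).2] at h2
      have : f u * -1 + f u = 0 := by ring
      rwa [this] at h2
    filter_upwards [ball_mem_nhds (0 : ℂ) hr] with u hu
    have h3 : P (-u) + P u = P (-0) + P 0 :=
      IsOpen.is_const_of_deriv_eq_zero (𝕜 := ℂ) (f := fun u => P (-u) + P u) isOpen_ball
        (convex_ball (0 : ℂ) r).isPreconnected
        (fun z hz => (key z hz).differentiableAt.differentiableWithinAt)
        (fun z hz => (key z hz).deriv) hu (mem_ball_self hr)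
    simp only [neg_zero, hP0, add_zero] at h3
    linear_combination h3

/-- local inverse of an odd germ -/
lemma exists_inv_odd {P : ℂ → ℂ} (hP : AnalyticAt ℂ P 0) (hP0 : P 0 = 0) (hP1 : deriv P 0 ≠ 0)
    (hodd : ∀ᶠ u in 𝓝 (0 : ℂ), P (-u) = -P u) :
    ∃ Q : ℂ → ℂ, AnalyticAt ℂ Q 0 ∧ Q 0 = 0 ∧ deriv Q 0 ≠ 0 ∧
      (∀ᶠ u in 𝓝 (0 : ℂ), Q (P u) = u) ∧ ∀ᶠ τ in 𝓝 (0 : ℂ), Q (-τ) = -Q τ := by
  set Q : ℂ → ℂ := hP.hasStrictDerivAt.localInverse _ _ _ hP1 with hQ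
  have hQa : AnalyticAt ℂ Q 0 := by
    have := hP.analyticAt_localInverse hP1
    rwa [hP0] at this
  have hQ0 : Q 0 = 0 := by
    have : Q (P 0) = 0 := (hP.hasStrictDerivAt.hasStrictFDerivAt_equiv hP1).localInverse_apply_image
    rwa [hP0] at this
  have hl : ∀ᶠ u in 𝓝 (0 : ℂ), Q (P u) = u := hP.hasStrictDerivAt.eventually_left_inverse hP1
  have hr : ∀ᶠ τ in 𝓝 (0 : ℂ), P (Q τ) = τ := by
    have := hP.hasStrictDerivAt.eventually_right_inverse hP1
    rwa [hP0] at this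
  have hd : HasDerivAt Q (deriv P 0)⁻¹ 0 := by
    have := (hP.hasStrictDerivAt.to_localInverse hP1).hasDerivAt
    rwa [hP0] at this
  refine ⟨Q, hQa, hQ0, ?_, hl, ?_⟩
  · rw [hd.deriv]; exact inv_ne_zero hP1
  · have hQc : Tendsto Q (𝓝 0) (𝓝 0) := by
      have := hQa.continuousAt.tendsto
      rwa [hQ0] at this
    have hQn : Tendsto (fun τ => -Q τ) (𝓝 0) (𝓝 0) := by simpa using hQc.neg
    filter_upwards [hQc.eventually hodd, hQn.eventually hl, hr] with τ h1 h2 h3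
    rw [h1, h3] at h2
    exact h2

lemma prim_neg_one : IsPrimitiveRoot (-1 : ℂ) 2 := IsPrimitiveRoot.neg_one 0 (by norm_num)

/-- even germs -/
lemma exists_even {f : ℂ → ℂ} (hf : AnalyticAt ℂ f 0) (hev : ∀ᶠ u in 𝓝 (0 : ℂ), f (-u) = f u) :
    ∃ h : ℂ → ℂ, AnalyticAt ℂ h 0 ∧ h 0 = f 0 ∧ ∀ᶠ u in 𝓝 (0 : ℂ), f u = h (u ^ 2) := by
  obtain ⟨r, hr, hrb⟩ := Metric.eventually_nhds_iff_ball.1 (hf.eventually_analyticAt.and hev)
  have hd : DifferentiableOn ℂ f (ball 0 r) := fun z hz =>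
    (hrb z hz).1.differentiableAt.differentiableWithinAt
  obtain ⟨h, hh, hh2⟩ := inv_root two_pos prim_neg_one hr hd (by
    intro x hx; rw [neg_one_mul]; exact (hrb x hx).2)
  refine ⟨h, hh.analyticAt (isOpen_ball.mem_nhds (mem_ball_self (pow_pos hr 2))), ?_, ?_⟩
  · have := hh2 0 (mem_ball_self hr)
    simpa using this.symm
  · filter_upwards [ball_mem_nhds (0 : ℂ) hr] with u hu
    exact hh2 u hu

/-- odd germs -/
lemma exists_odd {Q : ℂ → ℂ} (hQ : AnalyticAt ℂ Q 0) (hQ0 : Q 0 = 0)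
    (hodd : ∀ᶠ u in 𝓝 (0 : ℂ), Q (-u) = -Q u) :
    ∃ h : ℂ → ℂ, AnalyticAt ℂ h 0 ∧ h 0 = deriv Q 0 ∧ ∀ᶠ u in 𝓝 (0 : ℂ), Q u = u * h (u ^ 2) := by
  obtain ⟨k, hk, hk0, hkf⟩ := exists_div hQ hQ0
  have hneg : Tendsto (fun u : ℂ => -u) (𝓝 0) (𝓝 0) := by
    simpa using (continuous_neg (G := ℂ)).tendsto 0
  have hev' : ∀ᶠ u in 𝓝[≠] (0 : ℂ), k (-u) = k u := by
    filter_upwards [hkf.filter_mono nhdsWithin_le_nhds,
      (hneg.eventually hkf).filter_mono nhdsWithin_le_nhds, hodd.filter_mono nhdsWithin_le_nhds,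
      self_mem_nhdsWithin] with u h1 h2 h3 h4
    have hu : u ≠ 0 := h4
    rw [h2, h1] at h3
    have : -u * k (-u) = -u * k u := by rw [h3]; ring
    exact mul_left_cancel₀ (neg_ne_zero.2 hu) this
  have hev : ∀ᶠ u in 𝓝 (0 : ℂ), k (-u) = k u := by
    have hk' : AnalyticAt ℂ (fun u => k (-u)) 0 := by
      have : AnalyticAt ℂ k (-0) := by simpa using hk
      exact this.comp analyticAt_id.neg
    exact (hk'.frequently_eq_iff_eventually_eq hk).1 hev'.frequently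
  obtain ⟨h, hh, hh0, hh2⟩ := exists_even hk hev
  refine ⟨h, hh, by rw [hh0, hk0], ?_⟩
  filter_upwards [hkf, hh2] with u h1 h2
  rw [h1, h2]

open Crest.Agent.R102.T7M

/-- **the isotropic end with `a = h (b)` is nice** -/
theorem nice_of_curve {h0 : ℝ} (h0p : 0 < h0) {θ bb : ℂ → ℂ} {s : ℂ} (hs : s.im = h0) {r : ℝ}
    (hr : 0 < r) {σ : ℤ} (hσ : σ = 1 ∨ σ = -1) {h : ℂ → ℂ} (hh : AnalyticAt ℂ h 0)
    (h1 : deriv h 0 = 0) (h2 : deriv (deriv h) 0 ≠ 0)
    (hθ : ∀ z ∈ ball s r, |z.im| < h0 → DifferentiableAt ℂ θ z)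
    (hy : ∀ z ∈ ball s r, |z.im| < h0 → deriv θ z ≠ 0)
    (hb : ∀ z ∈ ball s r, |z.im| < h0 → HasDerivAt bb (exp (I * σ * θ z) / deriv θ z ^ 2) z)
    (hlim : Tendsto bb (𝓝[{z | |z.im| < h0}] s) (𝓝 0))
    (hc : ∀ z ∈ ball s r, |z.im| < h0 → exp (-2 * (I * σ * θ z)) = deriv h (bb z)) :
    ∃ (r' : ℝ) (a : ℂ) (F : ℂ → ℂ), Nice h0 (deriv θ) s r' a F := by
  have hσ2 : (σ : ℂ) ^ 2 = 1 := by rcases hσ with rfl | rfl <;> simp
  obtain ⟨k, hk, hk0, hkf⟩ := exists_div hh.deriv h1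
  have hk0' : k 0 ≠ 0 := by rw [hk0]; exact h2
  obtain ⟨κ, hκ, hκ0, hκ2⟩ := exists_root two_pos hk hk0'
  set W : ℂ → ℂ := fun b => -(κ b) ^ 3 / (2 * (deriv (deriv h) b) ^ 2) with hW
  have hWa : AnalyticAt ℂ W 0 := by
    refine (hκ.pow 3).neg.div (analyticAt_const.mul (hh.deriv.deriv.pow 2)) ?_
    exact mul_ne_zero two_ne_zero (pow_ne_zero 2 h2)
  have hW0 : W 0 ≠ 0 := by
    simp only [hW]
    exact div_ne_zero (neg_ne_zero.2 (pow_ne_zero 3 hκ0))
      (mul_ne_zero two_ne_zero (pow_ne_zero 2 h2))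
  obtain ⟨ω, hω, hω0, hω3⟩ := exists_root (n := 3) (by norm_num) hWa hW0
  -- the ball in the `b` plane
  have hev := (((hkf.and hκ2).and (hκ.eventually_analyticAt.and
    (hκ.continuousAt.eventually_ne hκ0))).and
    ((hh.deriv.eventually_analyticAt).and (hh.deriv.deriv.continuousAt.eventually_ne h2))).and
    ((hω.eventually_analyticAt.and (hω.continuousAt.eventually_ne hω0)).and hω3)
  obtain ⟨δ, hδ, hδb⟩ := Metric.eventually_nhds_iff_ball.1 hev
  -- shrink `r`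
  obtain ⟨r1, hr1, hr1r, hbδ⟩ : ∃ r1 : ℝ, 0 < r1 ∧ r1 ≤ r ∧
      ∀ z ∈ ball s r1, |z.im| < h0 → bb z ∈ ball (0 : ℂ) δ := by
    have := hlim.eventually (ball_mem_nhds (0 : ℂ) hδ)
    rw [eventually_nhdsWithin_iff] at this
    obtain ⟨r1, hr1, h⟩ := Metric.eventually_nhds_iff_ball.1 this
    exact ⟨min r r1, lt_min hr hr1, min_le_left _ _, fun z hz hzi =>
      h z (ball_subset_ball (min_le_right _ _) hz) hzi⟩
  have hVo : ∀ ρ : ℝ, IsOpen (ball s ρ ∩ {z : ℂ | |z.im| < h0}) := fun ρ => isOpen_ball.inter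
    (isOpen_lt (continuous_abs.comp continuous_im) continuous_const)
  have hVc : ∀ ρ : ℝ, IsPreconnected (ball s ρ ∩ {z : ℂ | |z.im| < h0}) := by
    intro ρ
    have hconv : Convex ℝ {z : ℂ | |z.im| < h0} := by
      have : {z : ℂ | |z.im| < h0} = Complex.imLm ⁻¹' (Ioo (-h0) h0) := by
        ext z; simp [abs_lt]
      rw [this]
      exact (convex_Ioo _ _).linear_preimage _
    exact ((convex_ball s ρ).inter hconv).isPreconnected
  set V : Set ℂ := ball s r1 ∩ {z : ℂ | |z.im| < h0} with hV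
  have hVr : ∀ z ∈ V, z ∈ ball s r := fun z hz => ball_subset_ball hr1r hz.1
  have hVδ : ∀ z ∈ V, bb z ∈ ball (0 : ℂ) δ := fun z hz => hbδ z hz.1 hz.2
  -- the points `s - i t`
  have hpt : ∀ ρ : ℝ, 0 < ρ → (ball s ρ ∩ {z : ℂ | |z.im| < h0}).Nonempty := by
    intro ρ hρ
    have ht : 0 < min (ρ / 2) h0 := lt_min (half_pos hρ) h0p
    refine ⟨s - (min (ρ / 2) h0 : ℝ) * I, ?_, ?_⟩
    · rw [mem_ball, dist_eq_norm]
      simp only [sub_sub_cancel_left, norm_neg, norm_mul, norm_real, norm_I, mul_one,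
        Real.norm_eq_abs, abs_of_pos ht]
      linarith [min_le_left (ρ / 2) h0]
    · have : (s - (min (ρ / 2) h0 : ℝ) * I).im = h0 - min (ρ / 2) h0 := by
        simp [hs]
      simp only [mem_ofPred_eq, this]
      rw [abs_of_nonneg (by linarith [min_le_right (ρ / 2) h0])]
      linarith
  let x : ℂ → ℂ := fun z => exp (-(I * σ * θ z)) / κ (bb z)
  have hκne : ∀ z ∈ V, κ (bb z) ≠ 0 := fun z hz => (hδb _ (hVδ z hz)).1.1.2.2
  have hx2 : ∀ z ∈ V, x z ^ 2 = bb z := by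
    intro z hz
    have e1 := (hδb _ (hVδ z hz)).1.1.1.1
    have e2 := (hδb _ (hVδ z hz)).1.1.1.2
    have e3 := hc z (hVr z hz) hz.2
    have e4 : exp (-(I * σ * θ z)) ^ 2 = exp (-2 * (I * σ * θ z)) := by
      rw [← Complex.exp_nat_mul]; congr 1; push_cast; ring
    simp only [x]
    rw [div_pow, e4, e3, e1, ← e2]
    have := hκne z hz
    field_simp
  have hxne : ∀ z ∈ V, x z ≠ 0 := fun z hz => div_ne_zero (exp_ne_zero _) (hκne z hz)
  have hbd : ∀ z ∈ V, HasDerivAt bb (exp (I * σ * θ z) / deriv θ z ^ 2) z :=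
    fun z hz => hb z (hVr z hz) hz.2
  have hxd : ∀ z ∈ V, DifferentiableAt ℂ x z := by
    intro z hz
    have e1 : DifferentiableAt ℂ θ z := hθ z (hVr z hz) hz.2
    have e2 : DifferentiableAt ℂ κ (bb z) := (hδb _ (hVδ z hz)).1.1.2.1.differentiableAt
    have e3 : DifferentiableAt ℂ (fun z => κ (bb z)) z := e2.comp z (hbd z hz).differentiableAt
    exact ((e1.const_mul (I * σ)).neg.cexp).div e3 (hκne z hz)
  have hb2 : ∀ z ∈ V, exp (I * σ * θ z) / deriv θ z ^ 2 = 2 * x z * deriv x z := by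
    intro z hz
    have e1 := (hxd z hz).hasDerivAt.fun_pow 2
    have e2 : (fun z => x z ^ 2) =ᶠ[𝓝 z] bb := by
      filter_upwards [(hVo r1).mem_nhds hz] with w hw
      exact hx2 w hw
    have e3 := (hbd z hz).unique (e1.congr_of_eventuallyEq e2.symm)
    rw [e3]; norm_num
  have hx3 : ∀ z ∈ V, deriv x z ^ 3 = W (bb z) := by
    intro z hz
    have e1 : DifferentiableAt ℂ θ z := hθ z (hVr z hz) hz.2
    have f1 : HasDerivAt (fun z => exp (-2 * (I * σ * θ z)))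
        (exp (-2 * (I * σ * θ z)) * (-2 * (I * σ * deriv θ z))) z :=
      ((e1.hasDerivAt.const_mul (I * (σ : ℂ))).const_mul (-2 : ℂ)).cexp
    have f2 : HasDerivAt (deriv h) (deriv (deriv h) (bb z)) (bb z) :=
      (hδb _ (hVδ z hz)).1.2.1.differentiableAt.hasDerivAt
    have f3 := f2.comp z (hbd z hz)
    have f4 : (fun z => exp (-2 * (I * σ * θ z))) =ᶠ[𝓝 z] deriv h ∘ bb := by
      filter_upwards [(hVo r1).mem_nhds hz] with w hw
      exact hc w (hVr w hw) hw.2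
    have f5 := f1.unique (f3.congr_of_eventuallyEq f4)
    have hyz := hy z (hVr z hz) hz.2
    have hh2 : deriv (deriv h) (bb z) ≠ 0 := (hδb _ (hVδ z hz)).1.2.2
    have hK := hκne z hz
    have hX := hxne z hz
    have g1 := hb2 z hz
    -- abbreviations
    set E : ℂ := exp (I * σ * θ z) with hE
    have hE0 : E ≠ 0 := exp_ne_zero _
    have hE2 : exp (-2 * (I * σ * θ z)) = (E ^ 2)⁻¹ := by
      rw [hE, ← Complex.exp_nat_mul, ← Complex.exp_neg]; congr 1; push_cast; ring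
    have hXE : x z * κ (bb z) * E = 1 := by
      simp only [x]
      rw [div_mul_cancel₀ _ hK, hE, ← Complex.exp_add]
      simp
    rw [hE2, g1] at f5
    have hB : 2 * x z * deriv x z * deriv θ z ^ 2 = E := by
      rw [← g1]; field_simp
    have f6 : deriv (deriv h) (bb z) * (2 * x z * deriv x z) * E ^ 2 =
        -2 * (I * σ * deriv θ z) := by
      rw [← f5]; field_simp
    have f7 : (deriv (deriv h) (bb z) * (2 * x z * deriv x z) * E ^ 2) ^ 2 =
        -4 * deriv θ z ^ 2 := by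
      rw [f6]
      have : (-2 * (I * σ * deriv θ z)) ^ 2 = 4 * (I ^ 2) * (σ : ℂ) ^ 2 * deriv θ z ^ 2 := by ring
      rw [this, I_sq, hσ2]; ring
    have f8 : deriv (deriv h) (bb z) ^ 2 * (2 * x z * deriv x z) ^ 3 * E ^ 4 = -4 * E := by
      calc deriv (deriv h) (bb z) ^ 2 * (2 * x z * deriv x z) ^ 3 * E ^ 4
          = (deriv (deriv h) (bb z) * (2 * x z * deriv x z) * E ^ 2) ^ 2 *
            (2 * x z * deriv x z) := by ring
        _ = -4 * deriv θ z ^ 2 * (2 * x z * deriv x z) := by rw [f7]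
        _ = -4 * (2 * x z * deriv x z * deriv θ z ^ 2) := by ring
        _ = -4 * E := by rw [hB]
    have f9 : deriv (deriv h) (bb z) ^ 2 * (2 * x z * deriv x z) ^ 3 * E ^ 3 = -4 := by
      apply mul_left_cancel₀ hE0
      linear_combination f8
    have f10 : 2 * deriv (deriv h) (bb z) ^ 2 * deriv x z ^ 3 = -(κ (bb z)) ^ 3 := by
      have h3 : (x z * κ (bb z) * E) ^ 3 = 1 := by rw [hXE]; ring
      have hXE3 : x z ^ 3 * E ^ 3 ≠ 0 := mul_ne_zero (pow_ne_zero 3 hX) (pow_ne_zero 3 hE0)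
      apply mul_left_cancel₀ hXE3
      linear_combination (1 / 4 : ℂ) * f9 + h3
    simp only [hW]
    rw [eq_div_iff (mul_ne_zero two_ne_zero (pow_ne_zero 2 hh2))]
    linear_combination f10
  -- the ratio is constant
  have hωne : ∀ z ∈ V, ω (bb z) ≠ 0 := fun z hz => (hδb _ (hVδ z hz)).2.1.2
  let R : ℂ → ℂ := fun z => deriv x z / ω (bb z)
  have hxdO : DifferentiableOn ℂ x V := fun z hz => (hxd z hz).differentiableWithinAt
  have hRd : ∀ z ∈ V, DifferentiableAt ℂ R z := by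
    intro z hz
    have e1 : DifferentiableAt ℂ (deriv x) z :=
      ((hxdO.deriv (hVo r1)) z hz).differentiableAt ((hVo r1).mem_nhds hz)
    have e2 : DifferentiableAt ℂ ω (bb z) := (hδb _ (hVδ z hz)).2.1.1.differentiableAt
    exact e1.div (e2.comp z (hbd z hz).differentiableAt) (hωne z hz)
  have hR3 : ∀ z ∈ V, R z ^ 3 = 1 := by
    intro z hz
    simp only [R]
    rw [div_pow, hx3 z hz, (hδb _ (hVδ z hz)).2.2]
    have : W (bb z) ≠ 0 := by
      rw [← (hδb _ (hVδ z hz)).2.2]; exact pow_ne_zero 3 (hωne z hz)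
    exact div_self this
  have hRder : ∀ z ∈ V, deriv R z = 0 := by
    intro z hz
    have e1 := (hRd z hz).hasDerivAt.fun_pow 3
    have e2 : (fun z => R z ^ 3) =ᶠ[𝓝 z] fun _ => (1 : ℂ) := by
      filter_upwards [(hVo r1).mem_nhds hz] with w hw
      exact hR3 w hw
    have e3 := ((hasDerivAt_const z (1 : ℂ)).congr_of_eventuallyEq e2).unique e1
    have e4 : R z ≠ 0 := by
      intro h0'
      have := hR3 z hz
      rw [h0'] at this; norm_num at this
    have e5 : (3 : ℂ) * R z ^ 2 ≠ 0 := mul_ne_zero (by norm_num) (pow_ne_zero 2 e4)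
    have e6 : (3 : ℂ) * R z ^ 2 * deriv R z = 0 := by
      rw [e3]; norm_num
    exact (mul_eq_zero.1 e6).resolve_left e5
  obtain ⟨z0, hz0⟩ := hpt r1 hr1
  have hRc : ∀ z ∈ V, R z = R z0 := fun z hz =>
    IsOpen.is_const_of_deriv_eq_zero (hVo r1) (hVc r1)
      (fun w hw => (hRd w hw).differentiableWithinAt) hRder hz hz0
  set ρ : ℂ := R z0 with hρ
  have hρ0 : ρ ≠ 0 := by
    intro h0'
    have := hR3 z0 hz0
    rw [← hρ, h0'] at this; norm_num at this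
  have hxder : ∀ z ∈ V, deriv x z = ρ * ω (x z ^ 2) := by
    intro z hz
    have := hRc z hz
    rw [hx2 z hz, ← this]
    simp only [R]
    rw [div_mul_cancel₀ _ (hωne z hz)]
  -- the primitive
  let f : ℂ → ℂ := fun u => 1 / (ρ * ω (u ^ 2))
  have hfa : AnalyticAt ℂ f 0 := by
    have e1 : AnalyticAt ℂ (fun u : ℂ => u ^ 2) 0 := analyticAt_id.pow 2
    have e2 : AnalyticAt ℂ (fun u : ℂ => ω (u ^ 2)) 0 := hω.comp_of_eq e1 (by simp)
    refine analyticAt_const.div (analyticAt_const.mul e2) ?_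
    simpa using ⟨hρ0, hω0⟩
  obtain ⟨P, hPa, hP0, hPd, hPo⟩ := exists_prim hfa (Eventually.of_forall (by
    intro u; simp only [f, neg_sq]))
  have hP1 : deriv P 0 ≠ 0 := by
    rw [hPd.self_of_nhds.deriv]
    simp only [f]
    simpa using ⟨hω0, hρ0⟩
  obtain ⟨Q, hQa, hQ0, hQ1, hQP, hQo⟩ := exists_inv_odd hPa hP0 hP1 hPo
  obtain ⟨q, hqa, hq0, hqf⟩ := exists_odd hQa hQ0 hQo
  have hq0' : q 0 ≠ 0 := by rw [hq0]; exact hQ1
  -- `x → 0`
  have hxlim : Tendsto x (𝓝[V] s) (𝓝 0) := by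
    have e1 : Tendsto bb (𝓝[V] s) (𝓝 0) := hlim.mono_left (nhdsWithin_mono _ fun z hz => hz.2)
    have e2 : Tendsto (fun z => x z ^ 2) (𝓝[V] s) (𝓝 0) := by
      refine (tendsto_congr' ?_).2 e1
      filter_upwards [self_mem_nhdsWithin] with z hz
      exact hx2 z hz
    rw [tendsto_zero_iff_norm_tendsto_zero] at e2 ⊢
    have e3 : Tendsto (fun z => Real.sqrt (‖x z ^ 2‖)) (𝓝[V] s) (𝓝 (Real.sqrt 0)) :=
      (Real.continuous_sqrt.tendsto 0).comp e2
    rw [Real.sqrt_zero] at e3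
    refine e3.congr fun z => ?_
    rw [norm_pow, Real.sqrt_sq (norm_nonneg _)]
  obtain ⟨r2, hr2, hr2r, hx2b⟩ : ∃ r2 : ℝ, 0 < r2 ∧ r2 ≤ r1 ∧
      ∀ z ∈ ball s r2 ∩ {z : ℂ | |z.im| < h0}, HasDerivAt P (f (x z)) (x z) ∧ Q (P (x z)) = x z ∧
        Q (z - s) = (z - s) * q ((z - s) ^ 2) := by
    have hsub : Tendsto (fun z : ℂ => z - s) (𝓝 s) (𝓝 0) := by
      have : Tendsto (fun z : ℂ => z - s) (𝓝 s) (𝓝 (s - s)) :=
        (continuous_id.sub continuous_const).tendsto s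
      simpa using this
    have := (hxlim.eventually (hPd.and hQP)).and
      ((hsub.eventually hqf).filter_mono nhdsWithin_le_nhds)
    rw [eventually_nhdsWithin_iff] at this
    obtain ⟨r2, hr2, h⟩ := Metric.eventually_nhds_iff_ball.1 this
    refine ⟨min r1 r2, lt_min hr1 hr2, min_le_left _ _, fun z hz => ?_⟩
    have := h z (ball_subset_ball (min_le_right _ _) hz.1)
      ⟨ball_subset_ball (min_le_left _ _) hz.1, hz.2⟩
    exact ⟨this.1.1, this.1.2, this.2⟩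
  set V2 : Set ℂ := ball s r2 ∩ {z : ℂ | |z.im| < h0} with hV2
  have hV21 : V2 ⊆ V := fun z hz => ⟨ball_subset_ball hr2r hz.1, hz.2⟩
  have hPx : ∀ z ∈ V2, HasDerivAt (fun z => P (x z) - z) 0 z := by
    intro z hz
    have e1 := (hx2b z hz).1.comp z (hxd z (hV21 hz)).hasDerivAt
    rw [hxder z (hV21 hz)] at e1
    have e2 : f (x z) * (ρ * ω (x z ^ 2)) = 1 := by
      simp only [f]
      have : ω (x z ^ 2) ≠ 0 := by rw [hx2 z (hV21 hz)]; exact hωne z (hV21 hz)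
      field_simp
    rw [e2] at e1
    have e3 := e1.sub (hasDerivAt_id z)
    rw [sub_self] at e3
    exact e3
  have hPc : ∀ z ∈ V2, ∀ w ∈ V2, P (x z) - z = P (x w) - w := fun z hz w hw =>
    IsOpen.is_const_of_deriv_eq_zero (f := fun z => P (x z) - z) (hVo r2) (hVc r2)
      (fun w hw => (hPx w hw).differentiableAt.differentiableWithinAt)
      (fun w hw => (hPx w hw).deriv) hz hw
  have hne : (𝓝[V2] s).NeBot := by
    rw [← mem_closure_iff_nhdsWithin_neBot, Metric.mem_closure_iff]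
    intro ε hε
    obtain ⟨w, hw⟩ := hpt (min ε r2) (lt_min hε hr2)
    refine ⟨w, ⟨ball_subset_ball (min_le_right _ _) hw.1, hw.2⟩, ?_⟩
    have := hw.1
    rw [mem_ball, dist_comm] at this
    exact lt_of_lt_of_le this (min_le_left _ _)
  have hPs : ∀ z ∈ V2, P (x z) = z - s := by
    intro z hz
    have e1 : Tendsto (fun w => P (x w) - w) (𝓝[V2] s) (𝓝 (P 0 - s)) := by
      have t1 : Tendsto (fun w => P (x w)) (𝓝[V2] s) (𝓝 (P 0)) :=
        hPa.continuousAt.tendsto.comp (hxlim.mono_left (nhdsWithin_mono _ hV21))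
      have t2 : Tendsto (fun w : ℂ => w) (𝓝[V2] s) (𝓝 s) := nhdsWithin_le_nhds
      exact t1.sub t2
    have e2 : Tendsto (fun w => P (x w) - w) (𝓝[V2] s) (𝓝 (P (x z) - z)) := by
      refine tendsto_const_nhds.congr' ?_
      filter_upwards [self_mem_nhdsWithin] with w hw
      exact hPc z hz w hw
    have e3 := tendsto_nhds_unique e1 e2
    rw [hP0] at e3
    linear_combination -e3
  -- the slope
  let g : ℂ → ℂ := fun c => q c ^ 2 * k (c * q c ^ 2)
  have hga : AnalyticAt ℂ g 0 := by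
    have e1 : AnalyticAt ℂ (fun c => c * q c ^ 2) 0 := analyticAt_id.mul (hqa.pow 2)
    have e2 : AnalyticAt ℂ (fun c => k (c * q c ^ 2)) 0 := hk.comp_of_eq e1 (by simp)
    exact (hqa.pow 2).mul e2
  have hg0 : g 0 ≠ 0 := by
    simp only [g, zero_mul]
    exact mul_ne_zero (pow_ne_zero 2 hq0') hk0'
  have hM : ∀ z ∈ V2, exp (-2 * (I * σ * θ z)) = (z - s) ^ 2 * g ((z - s) ^ 2) := by
    intro z hz
    have e1 : x z = (z - s) * q ((z - s) ^ 2) := by
      rw [← (hx2b z hz).2.2, ← hPs z hz]; exact (hx2b z hz).2.1.symm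
    have e2 := hx2 z (hV21 hz)
    have e3 : bb z = (z - s) ^ 2 * q ((z - s) ^ 2) ^ 2 := by rw [← e2, e1]; ring
    rw [hc z (hVr z (hV21 hz)) hz.2, (hδb _ (hVδ z (hV21 hz))).1.1.1.1, e3]
    simp only [g]
    ring
  have hder : ∀ z ∈ ball s r2, |z.im| < h0 →
      deriv (fun z => exp (2 * I * θ z)) z = 2 * I * deriv θ z * exp (2 * I * θ z) := by
    intro z hz hzi
    have e1 := ((hθ z (hVr z (hV21 ⟨hz, hzi⟩)) hzi).hasDerivAt.const_mul (2 * I)).cexp
    rw [e1.deriv]; ring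
  rcases hσ with rfl | rfl
  · refine nice_of_even h0p hs hr2 (ε := -1) (Or.inr rfl) (h := fun c => (g c)⁻¹)
      (M := fun z => exp (2 * I * θ z)) (hga.inv hg0) (inv_ne_zero hg0) ?_ hder
    intro z hz hzi
    have e1 := hM z ⟨hz, hzi⟩
    have e2 : exp (2 * I * θ z) = (exp (-2 * (I * ((1 : ℤ) : ℂ) * θ z)))⁻¹ := by
      rw [← Complex.exp_neg]; congr 1; push_cast; ring
    rw [e2, e1, mul_inv]
    norm_num [zpow_neg]
  · refine nice_of_even h0p hs hr2 (ε := 1) (Or.inl rfl) (h := g)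
      (M := fun z => exp (2 * I * θ z)) hga hg0 ?_ hder
    intro z hz hzi
    have e1 := hM z ⟨hz, hzi⟩
    have e2 : exp (2 * I * θ z) = exp (-2 * (I * ((-1 : ℤ) : ℂ) * θ z)) := by
      congr 1; push_cast; ring
    rw [e2, e1]
    norm_cast

end Crest.Agent.R102.MLZ519
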