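import Mathlib
import Crest.Agent.R102.MLZ2_519
import Crest.Agent.R102.EndA_416

/-!
# Row 102, T5-MEL, (ML-Z), end (helper519)

In the `σ` chart of a Puiseux end (`End416.EndS`):
* `regB_of_single`: flat end `k = 0` or `k = n`, `e^{2iθ}` single valued ==> `RegB`;
* `niceB_of_odd`: isotropic end `k = -n`, `a = ± n`, `y` changes sign under the half turn
  ==> `NiceB`.
-/

set_option autoImplicit false

open Complex Metric Set Filter Topology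

namespace Crest.Agent.R102.MLZ519

open Crest.Agent.R102.End416 Crest.Agent.R102.Pain416

/-! ### germs at `0` -/

/-- a meromorphic germ with derivative `0` is constant -/
lemma const_of_deriv {D : ℂ → ℂ} (hD : MeromorphicAt D 0)
    (h : ∀ᶠ σ in 𝓝[≠] (0 : ℂ), deriv D σ = 0) : ∃ A : ℂ, ∀ᶠ σ in 𝓝[≠] (0 : ℂ), D σ = A := by
  rcases hD.eventually_eq_zero_or_eventually_ne_zero with h0 | h0
  · exact ⟨0, h0⟩
  obtain ⟨m, g, hg, hg0, hgf⟩ := factor hD h0.frequently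
  -- derivative of `σ^m g σ`
  have h1 : ∀ᶠ σ in 𝓝[≠] (0 : ℂ), (m : ℂ) * g σ + σ * deriv g σ = 0 := by
    have h2 : ∀ᶠ σ in 𝓝[≠] (0 : ℂ), ∀ᶠ σ' in 𝓝 σ, D σ' = Es m g σ' := by
      rw [eventually_nhdsWithin_iff] at hgf
      rw [eventually_nhdsWithin_iff]
      filter_upwards [eventually_eventually_nhds.2 hgf] with σ hσ hσ0
      have : ∀ᶠ σ' in 𝓝 σ, σ' ∈ ({0}ᶜ : Set ℂ) := isOpen_compl_singleton.mem_nhds hσ0
      filter_upwards [hσ, this] with σ' h1 h2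
      exact h1 h2
    filter_upwards [h, h2, self_mem_nhdsWithin,
      (hg.eventually_analyticAt).filter_mono nhdsWithin_le_nhds] with σ h3 h4 h5 h6
    have hσ : σ ≠ 0 := h5
    have h7 : HasDerivAt (Es m g) ((m : ℂ) * σ ^ (m - 1) * g σ + σ ^ m * deriv g σ) σ := by
      have := (hasDerivAt_zpow (𝕜 := ℂ) m σ (Or.inl hσ)).mul h6.differentiableAt.hasDerivAt
      exact this
    have h8 : deriv D σ = (m : ℂ) * σ ^ (m - 1) * g σ + σ ^ m * deriv g σ := by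
      have : D =ᶠ[𝓝 σ] Es m g := h4
      rw [this.deriv_eq, h7.deriv]
    rw [h3] at h8
    have h9 : σ ^ m = σ ^ (m - 1) * σ := by rw [zpow_sub_one₀ hσ]; field_simp
    rw [h9] at h8
    have h10 : σ ^ (m - 1) ≠ 0 := zpow_ne_zero _ hσ
    apply mul_left_cancel₀ h10
    rw [mul_zero, h8]; ring
  have hc : Tendsto (fun σ : ℂ => (m : ℂ) * g σ + σ * deriv g σ) (𝓝[≠] 0)
      (𝓝 ((m : ℂ) * g 0 + 0 * deriv g 0)) :=
    (((continuousAt_const.mul hg.continuousAt).add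
      (continuousAt_id.mul hg.deriv.continuousAt)).tendsto).mono_left nhdsWithin_le_nhds
  have hm : (m : ℂ) * g 0 = 0 := by
    have h2 : Tendsto (fun σ : ℂ => (m : ℂ) * g σ + σ * deriv g σ) (𝓝[≠] 0) (𝓝 0) :=
      tendsto_const_nhds.congr' (by filter_upwards [h1] with σ hσ; exact hσ.symm)
    have := tendsto_nhds_unique hc h2
    rwa [zero_mul, add_zero] at this
  have hm0 : m = 0 := by
    have := (mul_eq_zero.1 hm).resolve_right hg0
    exact_mod_cast this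
  subst hm0
  -- `g' = 0`
  have h2 : ∀ᶠ σ in 𝓝[≠] (0 : ℂ), deriv g σ = 0 := by
    filter_upwards [h1, self_mem_nhdsWithin] with σ h3 h4
    simp only [Int.cast_zero, zero_mul, zero_add] at h3
    exact (mul_eq_zero.1 h3).resolve_left h4
  have h3 : ∀ᶠ σ in 𝓝 (0 : ℂ), deriv g σ = 0 :=
    (hg.deriv.frequently_zero_iff_eventually_zero).1 h2.frequently
  obtain ⟨r, hr, hb⟩ := Metric.eventually_nhds_iff_ball.1 (h3.and hg.eventually_analyticAt)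
  refine ⟨g 0, ?_⟩
  filter_upwards [hgf, (ball_mem_nhds (0 : ℂ) hr : ball (0 : ℂ) r ∈ 𝓝 0) |>
    mem_nhdsWithin_of_mem_nhds] with σ h4 h5
  rw [h4]
  unfold Es
  rw [zpow_zero, one_mul]
  exact IsOpen.is_const_of_deriv_eq_zero isOpen_ball (convex_ball (0 : ℂ) r).isPreconnected
    (fun w hw => (hb w hw).2.differentiableAt.differentiableWithinAt)
    (fun w hw => (hb w hw).1) h5 (mem_ball_self hr)

lemma rot_tendsto {ω : ℂ} (hω : ω ≠ 0) : Tendsto (fun σ : ℂ => ω * σ) (𝓝[≠] 0) (𝓝[≠] 0) := by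
  refine tendsto_nhdsWithin_iff.2 ⟨?_, ?_⟩
  · have : Tendsto (fun σ : ℂ => ω * σ) (𝓝 0) (𝓝 (ω * 0)) :=
      (continuous_const.mul continuous_id).tendsto 0
    rw [mul_zero] at this
    exact this.mono_left nhdsWithin_le_nhds
  · filter_upwards [self_mem_nhdsWithin] with σ hσ
    exact mul_ne_zero hω hσ

lemma rot_tendsto' (ω : ℂ) : Tendsto (fun σ : ℂ => ω * σ) (𝓝 0) (𝓝 0) := by
  have : Tendsto (fun σ : ℂ => ω * σ) (𝓝 0) (𝓝 (ω * 0)) :=
    (continuous_const.mul continuous_id).tendsto 0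
  rwa [mul_zero] at this

lemma mer_rot {P : ℂ → ℂ} (hP : MeromorphicAt P 0) (ω : ℂ) :
    MeromorphicAt (fun σ => P (ω * σ)) 0 := by
  have h1 : MeromorphicAt P (ω * 0) := by rwa [mul_zero]
  have h2 : AnalyticAt ℂ (fun σ : ℂ => ω * σ) 0 := analyticAt_const.mul analyticAt_id
  exact h1.comp_analyticAt h2

/-- a germ whose increment under the rotation is constant is invariant -/
lemma iter_zero {Z : ℂ → ℂ} {A ω : ℂ} {n : ℕ} (hn : 0 < n) (hω : ω ^ n = 1)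
    (h : ∀ᶠ σ in 𝓝[≠] (0 : ℂ), Z (ω * σ) - Z σ = A) : A = 0 := by
  have hω0 : ω ≠ 0 := by
    rintro rfl
    rw [zero_pow hn.ne'] at hω
    exact zero_ne_one hω
  have key : ∀ j : ℕ, ∀ᶠ σ in 𝓝[≠] (0 : ℂ), Z (ω ^ j * σ) - Z σ = j * A := by
    intro j
    induction j with
    | zero => exact Eventually.of_forall fun σ => by simp
    | succ j ih =>
      filter_upwards [ih, (rot_tendsto (pow_ne_zero j hω0)).eventually h] with σ h1 h2
      have e1 : ω ^ (j + 1) * σ = ω * (ω ^ j * σ) := by ring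
      rw [e1]
      push_cast
      linear_combination h1 + h2
  have h1 := (key n).exists
  obtain ⟨σ, hσ⟩ := h1
  rw [hω, one_mul, sub_self] at hσ
  have hnC : (n : ℂ) ≠ 0 := by exact_mod_cast hn.ne'
  exact (mul_eq_zero.1 hσ.symm).resolve_left hnC

/-- an analytic germ invariant under a primitive root of unity -/
lemma exists_root_form {n : ℕ} (hn : 0 < n) {ω : ℂ} (hω : IsPrimitiveRoot ω n) {g : ℂ → ℂ}
    (hg : AnalyticAt ℂ g 0) (h : ∀ᶠ σ in 𝓝[≠] (0 : ℂ), g (ω * σ) = g σ) :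
    ∃ G : ℂ → ℂ, AnalyticAt ℂ G 0 ∧ G 0 = g 0 ∧ ∀ᶠ σ in 𝓝 (0 : ℂ), g σ = G (σ ^ n) := by
  have h' : ∀ᶠ σ in 𝓝 (0 : ℂ), g (ω * σ) = g σ := by
    rw [eventually_nhdsWithin_iff] at h
    filter_upwards [h] with σ hσ
    by_cases h0 : σ = 0
    · rw [h0, mul_zero]
    · exact hσ h0
  obtain ⟨r, hr, hb⟩ := Metric.eventually_nhds_iff_ball.1 (h'.and hg.eventually_analyticAt)
  obtain ⟨G, hG, hGg⟩ := inv_root hn hω hr
    (fun z hz => (hb z hz).2.differentiableAt.differentiableWithinAt) (fun x hx => (hb x hx).1)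
  refine ⟨G, hG.analyticAt (isOpen_ball.mem_nhds (mem_ball_self (pow_pos hr n))), ?_, ?_⟩
  · have := hGg 0 (mem_ball_self hr)
    rw [zero_pow hn.ne'] at this
    exact this.symm
  · filter_upwards [ball_mem_nhds (0 : ℂ) hr] with σ hσ
    exact hGg σ hσ

/-- a meromorphic germ invariant under a primitive root of unity -/
lemma mer_inv {n : ℕ} (hn : 0 < n) {ω : ℂ} (hω : IsPrimitiveRoot ω n) {P : ℂ → ℂ}
    (hP : MeromorphicAt P 0) (h0 : ∃ᶠ σ in 𝓝[≠] (0 : ℂ), P σ ≠ 0)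
    (h : ∀ᶠ σ in 𝓝[≠] (0 : ℂ), P (ω * σ) = P σ) :
    ∃ (m : ℤ) (G : ℂ → ℂ), AnalyticAt ℂ G 0 ∧ G 0 ≠ 0 ∧
      ∀ᶠ σ in 𝓝[≠] (0 : ℂ), P σ = (σ ^ n) ^ m * G (σ ^ n) := by
  obtain ⟨m0, g, hg, hg0, hgf⟩ := factor hP h0
  have hω0 : ω ≠ 0 := hω.ne_zero hn.ne'
  have h1 : ∀ᶠ σ in 𝓝[≠] (0 : ℂ), ω ^ m0 * g (ω * σ) = g σ := by
    filter_upwards [h, hgf, (rot_tendsto hω0).eventually hgf, self_mem_nhdsWithin] with σ a1 a2 a3 a4
    rw [a3, a2] at a1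
    unfold Es at a1
    rw [mul_zpow] at a1
    have a5 : σ ^ m0 ≠ 0 := zpow_ne_zero _ a4
    apply mul_left_cancel₀ a5
    rw [← a1]; ring
  have hc : Tendsto (fun σ : ℂ => ω ^ m0 * g (ω * σ)) (𝓝[≠] 0) (𝓝 (ω ^ m0 * g 0)) := by
    have : Tendsto (fun σ : ℂ => g (ω * σ)) (𝓝 0) (𝓝 (g 0)) :=
      hg.continuousAt.tendsto.comp (rot_tendsto' ω)
    exact (this.const_mul _).mono_left nhdsWithin_le_nhds
  have hc2 : Tendsto g (𝓝[≠] 0) (𝓝 (g 0)) := hg.continuousAt.tendsto.mono_left nhdsWithin_le_nhds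
  have h2 : ω ^ m0 = 1 := by
    have := tendsto_nhds_unique (hc.congr' h1) hc2
    exact mul_right_cancel₀ hg0 (by rw [this, one_mul])
  obtain ⟨m, rfl⟩ := (hω.zpow_eq_one_iff_dvd m0).1 h2
  have h3 : ∀ᶠ σ in 𝓝[≠] (0 : ℂ), g (ω * σ) = g σ := by
    filter_upwards [h1] with σ hσ
    rwa [h2, one_mul] at hσ
  obtain ⟨G, hG, hG0, hGg⟩ := exists_root_form hn hω hg h3
  refine ⟨m, G, hG, by rwa [hG0], ?_⟩
  filter_upwards [hgf, hGg.filter_mono nhdsWithin_le_nhds] with σ a1 a2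
  rw [a1]
  unfold Es
  rw [a2, zpow_mul, zpow_natCast]

/-! ### the isotropic coordinates in the chart -/

/-- `Z_+` (`b = I`, `e = e^{iθ}`), `Z_-` (`b = -I`, `e = e^{-iθ}`) -/
noncomputable def Zc (n : ℕ) (b : ℂ) (E Y f : ℂ → ℂ) (σ : ℂ) : ℂ :=
  E σ * (b * f σ - Hd n f σ / Y σ)

lemma Zc_deriv {n : ℕ} (hn : 0 < n) {b : ℂ} (hb : b ^ 2 = -1) {E Y f : ℂ → ℂ} {σ : ℂ}
    (hσ : σ ≠ 0) (hY0 : Y σ ≠ 0) (hE : HasDerivAt E (-(b * I) * (n * σ ^ (n - 1) * Y σ * E σ)) σ)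
    (hY : DifferentiableAt ℂ Y σ) (hf : AnalyticAt ℂ f σ)
    (hlz : Y σ * (deriv (Hd n f) σ * Dz n σ) - deriv Y σ * Dz n σ * Hd n f σ + Y σ ^ 3 * f σ = -1) :
    HasDerivAt (Zc n b E Y f) (-I * n * σ ^ (n - 1) * E σ / Y σ ^ 2) σ := by
  have hnC : (n : ℂ) ≠ 0 := by exact_mod_cast hn.ne'
  have hp : σ ^ (n - 1) ≠ 0 := pow_ne_zero _ hσ
  have hDz : DifferentiableAt ℂ (Dz n) σ := by
    unfold Dz
    exact (differentiableAt_const _).div ((differentiableAt_const _).mul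
      (differentiableAt_id.pow _)) (mul_ne_zero hnC hp)
  have hHd : DifferentiableAt ℂ (Hd n f) σ := by
    have : DifferentiableAt ℂ (fun σ => deriv f σ * Dz n σ) σ :=
      hf.deriv.differentiableAt.mul hDz
    exact this
  have h1 := hE.mul (((hf.differentiableAt.hasDerivAt).const_mul b).sub
    (hHd.hasDerivAt.div hY.hasDerivAt hY0))
  refine h1.congr_deriv ?_
  simp only [Pi.div_apply, Pi.sub_apply]
  have e1 : Dz n σ = I / (n * σ ^ (n - 1)) := rfl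
  have e2 : deriv f σ = -I * n * σ ^ (n - 1) * Hd n f σ := by
    unfold Hd
    rw [e1]
    field_simp
    linear_combination (deriv f σ) * I_sq
  rw [e2]
  rw [e1] at hlz
  have e3 : deriv (Hd n f) σ * Y σ - deriv Y σ * Hd n f σ =
      I * n * σ ^ (n - 1) * (1 + Y σ ^ 3 * f σ) := by
    have hne : I / (n * σ ^ (n - 1)) ≠ 0 := div_ne_zero I_ne_zero (mul_ne_zero hnC hp)
    apply mul_left_cancel₀ hne
    have : I / (n * σ ^ (n - 1)) * (I * n * σ ^ (n - 1) * (1 + Y σ ^ 3 * f σ)) =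
        -(1 + Y σ ^ 3 * f σ) := by
      field_simp
      linear_combination (1 + Y σ ^ 3 * f σ) * I_sq
    rw [this]
    linear_combination hlz
  have e4 : (deriv (Hd n f) σ * Y σ - Hd n f σ * deriv Y σ) =
      I * n * σ ^ (n - 1) * (1 + Y σ ^ 3 * f σ) := by rw [← e3]; ring
  rw [e4]
  have e5 : (-(b * I) * (↑n * σ ^ (n - 1) * Y σ * E σ) * (b * f σ - Hd n f σ / Y σ) +
      E σ * (b * (-I * ↑n * σ ^ (n - 1) * Hd n f σ) -
      I * ↑n * σ ^ (n - 1) * (1 + Y σ ^ 3 * f σ) / Y σ ^ 2)) * Y σ ^ 2 =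
      -I * ↑n * σ ^ (n - 1) * E σ := by
    field_simp
    linear_combination (-E σ * f σ * Y σ ^ 3) * hb
  rw [eq_div_iff (pow_ne_zero 2 hY0)]
  exact e5

lemma ev_ev {p : ℂ → Prop} (h : ∀ᶠ σ in 𝓝[≠] (0 : ℂ), p σ) :
    ∀ᶠ σ in 𝓝[≠] (0 : ℂ), ∀ᶠ σ' in 𝓝 σ, p σ' := by
  rw [eventually_nhdsWithin_iff] at h
  rw [eventually_nhdsWithin_iff]
  filter_upwards [eventually_eventually_nhds.2 h] with σ hσ hσ0
  have : ∀ᶠ σ' in 𝓝 σ, σ' ∈ ({0}ᶜ : Set ℂ) := isOpen_compl_singleton.mem_nhds hσ0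
  filter_upwards [hσ, this] with σ' h1 h2
  exact h1 h2

lemma rot_deriv {P : ℂ → ℂ} {P' ω σ : ℂ} (h : HasDerivAt P P' (ω * σ)) :
    HasDerivAt (fun σ => P (ω * σ)) (P' * ω) σ := by
  have h1 : HasDerivAt (fun σ : ℂ => ω * σ) ω σ := by
    simpa using (hasDerivAt_id σ).const_mul ω
  exact HasDerivAt.comp (h := fun σ : ℂ => ω * σ) σ h h1

lemma pow_rot {n : ℕ} (hn : 0 < n) {ω : ℂ} (hω : ω ^ n = 1) (σ : ℂ) :
    (ω * σ) ^ (n - 1) * ω = σ ^ (n - 1) := by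
  obtain ⟨m, rfl⟩ : ∃ m, n = m + 1 := ⟨n - 1, by omega⟩
  simp only [Nat.add_sub_cancel]
  rw [mul_pow]
  have : ω ^ m * σ ^ m * ω = ω ^ (m + 1) * σ ^ m := by ring
  rw [this, hω, one_mul]

/-- invariance passes from `E` to `Y` -/
lemma y_inv {n : ℕ} (hn : 0 < n) {ω : ℂ} (hω : ω ^ n = 1) (hω0 : ω ≠ 0) {E Y : ℂ → ℂ}
    (hE : ∀ᶠ σ in 𝓝[≠] (0 : ℂ), DifferentiableAt ℂ E σ ∧ E σ ≠ 0 ∧
      deriv E σ = n * σ ^ (n - 1) * Y σ * E σ)
    (hinv : ∀ᶠ σ in 𝓝[≠] (0 : ℂ), E (ω * σ) = E σ) :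
    ∀ᶠ σ in 𝓝[≠] (0 : ℂ), Y (ω * σ) = Y σ := by
  have hnC : (n : ℂ) ≠ 0 := by exact_mod_cast hn.ne'
  filter_upwards [hE, (rot_tendsto hω0).eventually hE, ev_ev hinv, hinv, self_mem_nhdsWithin]
    with σ h1 h2 h3 h4 h5
  have hσ : σ ≠ 0 := h5
  have e1 := rot_deriv h2.1.hasDerivAt
  have e2 := e1.unique (h1.1.hasDerivAt.congr_of_eventuallyEq h3)
  rw [h2.2.2, h1.2.2, h4] at e2
  have e3 := pow_rot hn hω σ
  have e4 : (n : ℂ) * σ ^ (n - 1) * E σ ≠ 0 :=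
    mul_ne_zero (mul_ne_zero hnC (pow_ne_zero _ hσ)) h1.2.1
  apply mul_left_cancel₀ e4
  linear_combination e2 - (n : ℂ) * Y (ω * σ) * E σ * e3

/-- one isotropic coordinate is invariant -/
lemma Zc_inv {n : ℕ} (hn : 0 < n) {ω : ℂ} (hω : ω ^ n = 1) (hω0 : ω ≠ 0) {b : ℂ}
    (hb : b ^ 2 = -1) {E Y f : ℂ → ℂ} (hEm : MeromorphicAt E 0) (hYm : MeromorphicAt Y 0)
    (hfm : MeromorphicAt f 0)
    (hE : ∀ᶠ σ in 𝓝[≠] (0 : ℂ), HasDerivAt E (-(b * I) * (n * σ ^ (n - 1) * Y σ * E σ)) σ)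
    (hY : ∀ᶠ σ in 𝓝[≠] (0 : ℂ), DifferentiableAt ℂ Y σ ∧ Y σ ≠ 0)
    (hf : ∀ᶠ σ in 𝓝[≠] (0 : ℂ), AnalyticAt ℂ f σ)
    (hlz : ∀ᶠ σ in 𝓝[≠] (0 : ℂ), Y σ * (deriv (Hd n f) σ * Dz n σ) -
      deriv Y σ * Dz n σ * Hd n f σ + Y σ ^ 3 * f σ = -1)
    (hEi : ∀ᶠ σ in 𝓝[≠] (0 : ℂ), E (ω * σ) = E σ) (hYi : ∀ᶠ σ in 𝓝[≠] (0 : ℂ), Y (ω * σ) = Y σ) :
    ∀ᶠ σ in 𝓝[≠] (0 : ℂ), Zc n b E Y f (ω * σ) = Zc n b E Y f σ := by
  have hZm : MeromorphicAt (Zc n b E Y f) 0 :=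
    hEm.mul (((MeromorphicAt.const b 0).mul hfm).sub ((hfm.deriv.mul Dz_mer).div hYm))
  have hd : ∀ᶠ σ in 𝓝[≠] (0 : ℂ),
      HasDerivAt (Zc n b E Y f) (-I * n * σ ^ (n - 1) * E σ / Y σ ^ 2) σ := by
    filter_upwards [hE, hY, hf, hlz, self_mem_nhdsWithin] with σ h1 h2 h3 h4 h5
    exact Zc_deriv hn hb h5 h2.2 h1 h2.1 h3 h4
  have hD : ∀ᶠ σ in 𝓝[≠] (0 : ℂ),
      deriv (fun σ => Zc n b E Y f (ω * σ) - Zc n b E Y f σ) σ = 0 := by
    filter_upwards [hd, (rot_tendsto hω0).eventually hd, hEi, hYi] with σ h1 h2 h3 h4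
    have e0 : deriv (fun σ => Zc n b E Y f (ω * σ) - Zc n b E Y f σ) σ = _ :=
      ((rot_deriv h2).sub h1).deriv
    rw [e0, h3, h4]
    have e3 := pow_rot hn hω σ
    rw [← e3]
    ring
  obtain ⟨A, hA⟩ := const_of_deriv ((mer_rot hZm ω).sub hZm) hD
  have hA0 : A = 0 := iter_zero hn hω hA
  filter_upwards [hA] with σ hσ
  rw [hA0] at hσ
  exact sub_eq_zero.1 hσ

/-- invariance passes to `H` -/
lemma f_inv {θ H : ℂ → ℂ} {s : ℂ} {n : ℕ} {r : ℝ} {a k : ℤ} {e g f : ℂ → ℂ}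
    (hS : EndS θ H s n r a k e g f) {ω : ℂ} (hω : ω ^ n = 1) (hω0 : ω ≠ 0)
    (hi : ∀ᶠ σ in 𝓝[≠] (0 : ℂ), Es a e (ω * σ) = Es a e σ) :
    (∀ᶠ σ in 𝓝[≠] (0 : ℂ), Es k g (ω * σ) = Es k g σ) ∧
      ∀ᶠ σ in 𝓝[≠] (0 : ℂ), f (ω * σ) = f σ := by
  have hb0 : ball (0 : ℂ) r ∈ 𝓝 (0 : ℂ) := ball_mem_nhds 0 hS.r_pos
  have hball : ∀ᶠ σ in 𝓝[≠] (0 : ℂ), σ ∈ ball (0 : ℂ) r ∧ σ ≠ 0 :=
    (Filter.Eventually.filter_mono nhdsWithin_le_nhds hb0).and self_mem_nhdsWithin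
  have e0 : AnalyticAt ℂ e 0 := hS.e_an 0 (mem_ball_self hS.r_pos)
  have g0 : AnalyticAt ℂ g 0 := hS.g_an 0 (mem_ball_self hS.r_pos)
  have hEm : MeromorphicAt (Es a e) 0 := Es_mer e0
  have hYm : MeromorphicAt (Es k g) 0 := Es_mer g0
  have hEd : ∀ σ ∈ ball (0 : ℂ) r, σ ≠ 0 → ∀ (m : ℤ) (u : ℂ → ℂ), AnalyticAt ℂ u σ →
      DifferentiableAt ℂ (Es m u) σ := by
    intro σ _ h2 m u hu
    exact (differentiableAt_id.zpow (Or.inl h2)).mul hu.differentiableAt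
  have hE : ∀ᶠ σ in 𝓝[≠] (0 : ℂ), DifferentiableAt ℂ (Es a e) σ ∧ Es a e σ ≠ 0 ∧
      deriv (Es a e) σ = n * σ ^ (n - 1) * Es k g σ * Es a e σ := by
    filter_upwards [hball] with σ h1
    exact ⟨hEd σ h1.1 h1.2 a e (hS.e_an σ h1.1), Es_ne h1.2 (hS.e_ne σ h1.1), hS.dE σ h1.1 h1.2⟩
  have hY : ∀ᶠ σ in 𝓝[≠] (0 : ℂ), DifferentiableAt ℂ (Es k g) σ ∧ Es k g σ ≠ 0 := by
    filter_upwards [hball] with σ h1
    exact ⟨hEd σ h1.1 h1.2 k g (hS.g_an σ h1.1), Es_ne h1.2 (hS.g_ne σ h1.1)⟩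
  have hf : ∀ᶠ σ in 𝓝[≠] (0 : ℂ), AnalyticAt ℂ f σ := by
    filter_upwards [hball] with σ h1 using hS.f_an σ h1.1 h1.2
  have hlz : ∀ᶠ σ in 𝓝[≠] (0 : ℂ), Es k g σ * (deriv (Hd n f) σ * Dz n σ) -
      deriv (Es k g) σ * Dz n σ * Hd n f σ + Es k g σ ^ 3 * f σ = -1 := by
    filter_upwards [hball] with σ h1 using hS.lz σ h1.1 h1.2
  have hYi := y_inv hS.n_pos hω hω0 hE hi
  refine ⟨hYi, ?_⟩
  have hp := Zc_inv hS.n_pos hω hω0 (b := I) I_sq hEm hYm hS.f_mer (by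
    filter_upwards [hE] with σ h1
    have := h1.1.hasDerivAt
    rw [h1.2.2] at this
    rwa [I_mul_I, neg_neg, one_mul]) hY hf hlz hi hYi
  have hm := Zc_inv hS.n_pos hω hω0 (b := -I) (E := fun σ => (Es a e σ)⁻¹)
    (by rw [neg_sq, I_sq]) hEm.inv hYm hS.f_mer (by
    filter_upwards [hE] with σ h1
    have := h1.1.hasDerivAt.inv h1.2.1
    refine this.congr_deriv ?_
    have e1 : -(-I * I) * (↑n * σ ^ (n - 1) * Es k g σ * (Es a e σ)⁻¹) =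
        (I * I) * (↑n * σ ^ (n - 1) * Es k g σ * (Es a e σ)⁻¹) := by ring
    rw [h1.2.2, e1, I_mul_I]
    have := h1.2.1
    field_simp) hY hf hlz (by
      filter_upwards [hi] with σ h1
      rw [h1]) hYi
  filter_upwards [hp, hm, hi, hE] with σ h1 h2 h3 h4
  have key : ∀ x : ℂ, Es a e x ≠ 0 → 2 * I * f x = (Es a e x)⁻¹ * Zc n I (Es a e) (Es k g) f x -
      Es a e x * Zc n (-I) (fun σ => (Es a e σ)⁻¹) (Es k g) f x := by
    intro x hx
    unfold Zc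
    field_simp
    ring
  have h2I : (2 : ℂ) * I ≠ 0 := mul_ne_zero two_ne_zero I_ne_zero
  apply mul_left_cancel₀ h2I
  rw [key σ h4.2.1, key (ω * σ) (by rw [h3]; exact h4.2.1), h1, h2, h3]

/-! ### the flat end -/

/-- a flat end has `a = 0` -/
lemma a_zero {θ H : ℂ → ℂ} {s : ℂ} {n : ℕ} {r : ℝ} {a k : ℤ} {e g f : ℂ → ℂ}
    (hS : EndS θ H s n r a k e g f) (hk : 0 < (n : ℤ) + k) : a = 0 := by
  have e0 : AnalyticAt ℂ e 0 := hS.e_an 0 (mem_ball_self hS.r_pos)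
  have g0 : AnalyticAt ℂ g 0 := hS.g_an 0 (mem_ball_self hS.r_pos)
  obtain ⟨N, hN⟩ := Int.eq_ofNat_of_zero_le hk.le
  have hN0 : N ≠ 0 := by
    rintro rfl
    rw [hN] at hk
    simp at hk
  have hball : ∀ᶠ σ in 𝓝[≠] (0 : ℂ), σ ∈ ball (0 : ℂ) r ∧ σ ≠ 0 :=
    (Filter.Eventually.filter_mono nhdsWithin_le_nhds (ball_mem_nhds 0 hS.r_pos)).and
      self_mem_nhdsWithin
  have h1 : ∀ᶠ σ in 𝓝[≠] (0 : ℂ), (a : ℂ) * e σ + σ * deriv e σ = n * σ ^ N * g σ * e σ := by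
    filter_upwards [hball] with σ h1
    have hσ := h1.2
    have h2 := hS.dE σ h1.1 h1.2
    have h3 : HasDerivAt (Es a e) ((a : ℂ) * σ ^ (a - 1) * e σ + σ ^ a * deriv e σ) σ :=
      (hasDerivAt_zpow (𝕜 := ℂ) a σ (Or.inl hσ)).mul (hS.e_an σ h1.1).differentiableAt.hasDerivAt
    rw [h3.deriv] at h2
    unfold Es at h2
    have h4 : σ ^ a = σ ^ (a - 1) * σ := by rw [zpow_sub_one₀ hσ]; field_simp
    have h5 : σ ^ (a - 1) ≠ 0 := zpow_ne_zero _ hσ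
    have h6 : σ ^ (n - 1) * σ ^ k * σ = σ ^ N := by
      have : σ ^ (n - 1) * σ = σ ^ n := by
        rw [← pow_succ]; congr 1; have := hS.n_pos; omega
      calc σ ^ (n - 1) * σ ^ k * σ = (σ ^ (n - 1) * σ) * σ ^ k := by ring
        _ = σ ^ (n : ℤ) * σ ^ k := by rw [this, zpow_natCast]
        _ = σ ^ N := by
          rw [← zpow_add₀ hσ, hN]
          exact zpow_natCast σ N
    apply mul_left_cancel₀ h5
    rw [h4] at h2
    rw [← h6]
    linear_combination h2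
  have hc : Tendsto (fun σ : ℂ => (a : ℂ) * e σ + σ * deriv e σ) (𝓝[≠] 0)
      (𝓝 ((a : ℂ) * e 0 + 0 * deriv e 0)) :=
    (((continuousAt_const.mul e0.continuousAt).add
      (continuousAt_id.mul e0.deriv.continuousAt)).tendsto).mono_left nhdsWithin_le_nhds
  have hc2 : Tendsto (fun σ : ℂ => (n : ℂ) * σ ^ N * g σ * e σ) (𝓝[≠] 0)
      (𝓝 ((n : ℂ) * 0 ^ N * g 0 * e 0)) :=
    (((continuousAt_const.mul (continuousAt_id.pow N)).mul g0.continuousAt).mul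
      e0.continuousAt).tendsto.mono_left nhdsWithin_le_nhds
  have h2 := tendsto_nhds_unique (hc.congr' h1) hc2
  rw [zero_pow hN0, mul_zero, zero_mul, zero_mul, zero_mul, add_zero] at h2
  have := (mul_eq_zero.1 h2).resolve_right (hS.e_ne 0 (mem_ball_self hS.r_pos))
  exact_mod_cast this

open Crest.Agent.R102.T7M Crest.Agent.R102.Spine

/-- primitive: regular `(θ', H)` gives regular `(θ, H)` -/
lemma regB_of_reg {h0 : ℝ} {θ H : ℂ → ℂ} {s : ℂ} (hs : s.im = h0)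
    (hθ : ∀ᶠ z in bl s, DifferentiableAt ℂ θ z) (hR : Reg h0 (deriv θ) H s) (h0p : 0 < h0) :
    RegB h0 θ H s := by
  obtain ⟨r1, hr1, y1, H1, hy1, hH1, heq⟩ := hR
  obtain ⟨r2, hr2, hd⟩ := bl_basis.1 hθ
  obtain ⟨T, -, hT⟩ := hy1.isExactOn_ball.with_val_at s 0
  set c : ℝ := min r1 (min r2 h0) with hc
  have hc0 : 0 < c := lt_min hr1 (lt_min hr2 h0p)
  have hHD : ∀ z ∈ HD s c, z ∈ ball s r1 ∧ |z.im| < h0 ∧ z ∈ HD s r2 := by
    intro z hz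
    have h1 : ‖z - s‖ < c := by rw [← dist_eq_norm]; exact hz.1
    have h2 : |(z - s).im| ≤ ‖z - s‖ := abs_im_le_norm _
    have h3 : (z - s).im = z.im - h0 := by rw [sub_im, hs]
    have h4 : z.im < h0 := by rw [← hs]; exact hz.2
    have h5 : c ≤ h0 := (min_le_right _ _).trans (min_le_right _ _)
    refine ⟨ball_subset_ball (min_le_left _ _) hz.1, ?_,
      HD_mono ((min_le_right _ _).trans (min_le_left _ _)) hz⟩
    rw [h3] at h2
    rw [abs_lt]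
    have := (abs_le.1 (h2.trans h1.le)).1
    constructor <;> linarith
  have hder : ∀ z ∈ HD s c, HasDerivAt (fun z => θ z - T z) 0 z := by
    intro z hz
    obtain ⟨h1, h2, h3⟩ := hHD z hz
    have h4 := (hd z h3).hasDerivAt.sub (hT z h1)
    rw [(heq z h1 h2).1, sub_self] at h4
    exact h4
  have hconst : ∀ z ∈ HD s c, ∀ w ∈ HD s c, θ z - T z = θ w - T w := fun z hz w hw =>
    IsOpen.is_const_of_deriv_eq_zero (f := fun z => θ z - T z) (isOpen_HD s c)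
      (convex_HD s c).isPreconnected
      (fun w hw => (hder w hw).differentiableAt.differentiableWithinAt)
      (fun w hw => (hder w hw).deriv) hz hw
  obtain ⟨w0, hw0⟩ : (HD s c).Nonempty :=
    ⟨s + (c / 2 : ℝ) * (-I), path_mem (by simp) (by simp) (by linarith) (by linarith)⟩
  refine ⟨c, hc0, fun z => T z + (θ w0 - T w0), H1, ?_, ?_, ?_⟩
  · intro z hz
    exact ((hT z (ball_subset_ball (min_le_left _ _) hz)).differentiableAt.add_const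
      _).differentiableWithinAt
  · exact hH1.mono (ball_subset_ball (min_le_left _ _))
  · intro z hz hzi
    have hzH : z ∈ HD s c := ⟨hz, by
      have := (abs_lt.1 hzi).2
      simp only [mem_ofPred_eq, hs]; exact this⟩
    refine ⟨?_, (heq z (ball_subset_ball (min_le_left _ _) hz) hzi).2⟩
    simp only
    rw [← hconst z hzH w0 hw0]
    ring

/-- **flat end, `e^{2iθ}` single valued ==> regular** -/
theorem regB_of_single {h0 : ℝ} (h0p : 0 < h0) {θ H : ℂ → ℂ} {s : ℂ} (hs : s.im = h0)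
    (hθ : ∀ᶠ z in bl s, DifferentiableAt ℂ θ z)
    (hLZ : ∀ᶠ z in bl s, deriv θ z * deriv (deriv H) z - deriv (deriv θ) z * deriv H z +
      deriv θ z ^ 3 * H z = -1)
    {n : ℕ} {r : ℝ} {a k : ℤ} {e g f : ℂ → ℂ} (hS : EndS θ H s n r a k e g f)
    (hk : k = 0 ∨ k = n)
    (hinv : ∃ᶠ σ in 𝓝[≠] (0 : ℂ), Es a e (exp (2 * Real.pi * I / n) * σ) ^ 2 = Es a e σ ^ 2) :
    RegB h0 θ H s := by
  have hn := hS.n_pos
  have hω : IsPrimitiveRoot (exp (2 * Real.pi * I / n)) n := isPrimitiveRoot_exp n hn.ne'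
  set ω : ℂ := exp (2 * Real.pi * I / n) with hωdef
  have hω0 : ω ≠ 0 := exp_ne_zero _
  have ha : a = 0 := a_zero hS (by rcases hk with rfl | rfl <;> omega)
  have e0 : AnalyticAt ℂ e 0 := hS.e_an 0 (mem_ball_self hS.r_pos)
  have g0 : AnalyticAt ℂ g 0 := hS.g_an 0 (mem_ball_self hS.r_pos)
  have e00 : e 0 ≠ 0 := hS.e_ne 0 (mem_ball_self hS.r_pos)
  have hEse : ∀ σ, Es a e σ = e σ := by intro σ; unfold Es; rw [ha, zpow_zero, one_mul]
  have hEm : MeromorphicAt (Es a e) 0 := Es_mer e0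
  -- `e` is invariant
  have h1 : ∀ᶠ σ in 𝓝[≠] (0 : ℂ), Es a e (ω * σ) ^ 2 = Es a e σ ^ 2 :=
    (((mer_rot hEm ω).pow 2).frequently_eq_iff_eventuallyEq (hEm.pow 2)).1 hinv
  have hsum : ∀ᶠ σ in 𝓝[≠] (0 : ℂ), e (ω * σ) + e σ ≠ 0 := by
    have t1 : Tendsto (fun σ : ℂ => e (ω * σ) + e σ) (𝓝 0) (𝓝 (e 0 + e 0)) :=
      (e0.continuousAt.tendsto.comp (rot_tendsto' ω)).add e0.continuousAt.tendsto
    have t2 : e 0 + e 0 ≠ 0 := by rw [← two_mul]; exact mul_ne_zero two_ne_zero e00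
    exact (t1.eventually_ne t2).filter_mono nhdsWithin_le_nhds
  have h2 : ∀ᶠ σ in 𝓝[≠] (0 : ℂ), Es a e (ω * σ) = Es a e σ := by
    filter_upwards [h1, hsum] with σ a1 a2
    rw [hEse, hEse] at a1 ⊢
    have : (e (ω * σ) - e σ) * (e (ω * σ) + e σ) = 0 := by linear_combination a1
    exact sub_eq_zero.1 ((mul_eq_zero.1 this).resolve_right a2)
  obtain ⟨hYi, hfi⟩ := f_inv hS hω.pow_eq_one hω0 h2
  -- `g`
  have hgi : ∀ᶠ σ in 𝓝[≠] (0 : ℂ), g (ω * σ) = g σ := by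
    filter_upwards [hYi, self_mem_nhdsWithin] with σ a1 a2
    unfold Es at a1
    have hωk : ω ^ k = 1 := by
      rcases hk with rfl | rfl
      · rw [zpow_zero]
      · rw [zpow_natCast]; exact hω.pow_eq_one
    rw [mul_zpow, hωk, one_mul] at a1
    exact mul_left_cancel₀ (zpow_ne_zero k a2) a1
  obtain ⟨G, hG, hG0, hGg⟩ := exists_root_form hn hω g0 hgi
  -- `f`
  have hf0 : ∃ᶠ σ in 𝓝[≠] (0 : ℂ), f σ ≠ 0 := by
    intro hcon
    simp only [ne_eq, not_not] at hcon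
    have hball : ∀ᶠ σ in 𝓝[≠] (0 : ℂ), σ ∈ ball (0 : ℂ) r ∧ σ ≠ 0 :=
      (Filter.Eventually.filter_mono nhdsWithin_le_nhds (ball_mem_nhds 0 hS.r_pos)).and
        self_mem_nhdsWithin
    have hHd : ∀ᶠ σ in 𝓝[≠] (0 : ℂ), Hd n f σ = 0 := by
      filter_upwards [ev_ev hcon] with σ a1
      have : f =ᶠ[𝓝 σ] fun _ => 0 := a1
      unfold Hd
      rw [this.deriv_eq]
      simp
    obtain ⟨σ, a1, a2, a3, a4⟩ := ((ev_ev hHd).and (hHd.and (hcon.and hball))).exists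
    have := hS.lz σ a4.1 a4.2
    have a5 : Hd n f =ᶠ[𝓝 σ] fun _ => 0 := a1
    rw [a5.deriv_eq, a2, a3] at this
    simp at this
  obtain ⟨m, F, hF, hF0, hFf⟩ := mer_inv hn hω hS.f_mer hf0 hfi
  -- in `z`
  have hsg := sg_tendsto (s := s) hn
  have hsg0 : Tendsto (sg n s) (bl s) (𝓝 0) := hsg.mono_right nhdsWithin_le_nhds
  have hHD : ∀ᶠ z in bl s, z ∈ HD s (r ^ n) := HD_mem (pow_pos hS.r_pos n)
  have hyz : ∀ᶠ z in bl s, deriv θ z = sg n s z ^ k * G (I * (z - s)) := by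
    filter_upwards [hHD, hsg0.eventually hGg] with z a1 a2
    rw [hS.y_eq z a1]
    unfold Es
    rw [a2, sg_pow hn]
  have hHz : ∀ᶠ z in bl s, H z = (I * (z - s)) ^ m * F (I * (z - s)) := by
    filter_upwards [hHD, hsg.eventually hFf] with z a1 a2
    rw [hS.H_eq z a1, a2, sg_pow hn]
  obtain ⟨j, hj, hjk⟩ : ∃ j : ℕ, j ≤ 2 ∧ ∀ᶠ z in bl s, sg n s z ^ k = (I * (z - s)) ^ j := by
    rcases hk with rfl | rfl
    · exact ⟨0, by norm_num, Eventually.of_forall fun z => by simp⟩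
    · exact ⟨1, by norm_num, Eventually.of_forall fun z => by
        rw [zpow_natCast, sg_pow hn, pow_one]⟩
  obtain ⟨R, hR, hall⟩ := bl_basis.1 ((hyz.and hHz).and (hjk.and hLZ))
  have hIa : AnalyticAt ℂ (fun τ : ℂ => I * τ) 0 := analyticAt_const.mul analyticAt_id
  have hball : ∀ z ∈ ball s R, |z.im| < h0 → z ∈ HD s R := by
    intro z hz hzi
    refine ⟨hz, ?_⟩
    have := (abs_lt.1 hzi).2
    simp only [mem_ofPred_eq, hs]; exact this
  refine regB_of_reg hs hθ ?_ h0p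
  refine reg_of_mero h0p (c := -1) hs hR hj (u := fun τ => I ^ j * G (I * τ))
    (analyticAt_const.mul (hG.comp_of_eq hIa (by simp))) ?_ ?_ (m := m)
    (g := fun τ => I ^ m * F (I * τ)) (analyticAt_const.mul (hF.comp_of_eq hIa (by simp))) ?_ ?_ ?_
  · simp only [mul_zero]
    exact mul_ne_zero (pow_ne_zero _ I_ne_zero) (by
      rw [hG0]; exact hS.g_ne 0 (mem_ball_self hS.r_pos))
  · intro z hz hzi
    obtain ⟨⟨a1, a2⟩, a3, a4⟩ := hall z (hball z hz hzi)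
    rw [a1, a3, mul_pow]; ring
  · simp only [mul_zero]
    exact mul_ne_zero (zpow_ne_zero _ I_ne_zero) hF0
  · intro z hz hzi
    obtain ⟨⟨a1, a2⟩, a3, a4⟩ := hall z (hball z hz hzi)
    rw [a2, mul_zpow]; ring
  · intro z hz hzi
    obtain ⟨⟨a1, a2⟩, a3, a4⟩ := hall z (hball z hz hzi)
    exact a4

/-! ### the isotropic end -/

/-- **isotropic end, `m = 1`, `y` odd under the half turn ==> nice** -/
theorem niceB_of_odd {h0 : ℝ} (h0p : 0 < h0) {θ H : ℂ → ℂ} {s : ℂ} (hs : s.im = h0)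
    (hθ : ∀ᶠ z in bl s, DifferentiableAt ℂ θ z)
    {n : ℕ} {r : ℝ} {a k : ℤ} {e g f : ℂ → ℂ} (hS : EndS θ H s n r a k e g f)
    (hk : k = -n) (ha : a = n ∨ a = -n)
    (hinv : ∃ᶠ σ in 𝓝[≠] (0 : ℂ), Es k g (exp (Real.pi * I / n) * σ) = -Es k g σ) :
    NiceB h0 θ s := by
  have hn := hS.n_pos
  have hnC : (n : ℂ) ≠ 0 := by exact_mod_cast hn.ne'
  have hω : IsPrimitiveRoot (exp (Real.pi * I / n)) (2 * n) := by
    have := isPrimitiveRoot_exp (2 * n) (by omega)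
    have e1 : 2 * (Real.pi : ℂ) * I / ((2 * n : ℕ) : ℂ) = Real.pi * I / n := by
      push_cast
      field_simp
    rwa [e1] at this
  set ω : ℂ := exp (Real.pi * I / n) with hωdef
  have hω0 : ω ≠ 0 := exp_ne_zero _
  have hωn : ω ^ n = -1 := by
    rw [hωdef, ← Complex.exp_nat_mul, mul_div_cancel₀ _ hnC, Complex.exp_pi_mul_I]
  have e0 : AnalyticAt ℂ e 0 := hS.e_an 0 (mem_ball_self hS.r_pos)
  have g0 : AnalyticAt ℂ g 0 := hS.g_an 0 (mem_ball_self hS.r_pos)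
  have e00 : e 0 ≠ 0 := hS.e_ne 0 (mem_ball_self hS.r_pos)
  have hYm : MeromorphicAt (Es k g) 0 := Es_mer g0
  have hball : ∀ᶠ σ in 𝓝[≠] (0 : ℂ), σ ∈ ball (0 : ℂ) r ∧ σ ≠ 0 :=
    (Filter.Eventually.filter_mono nhdsWithin_le_nhds (ball_mem_nhds 0 hS.r_pos)).and
      self_mem_nhdsWithin
  -- `g` is invariant
  have h1 : ∀ᶠ σ in 𝓝[≠] (0 : ℂ), Es k g (ω * σ) = -Es k g σ :=
    ((mer_rot hYm ω).frequently_eq_iff_eventuallyEq hYm.neg).1 hinv
  have hωk : ω ^ k = -1 := by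
    rw [hk, zpow_neg, zpow_natCast, hωn]; norm_num
  have hgi : ∀ᶠ σ in 𝓝[≠] (0 : ℂ), g (ω * σ) = g σ := by
    filter_upwards [h1, self_mem_nhdsWithin] with σ a1 a2
    unfold Es at a1
    rw [mul_zpow, hωk] at a1
    apply mul_left_cancel₀ (zpow_ne_zero k a2 : σ ^ k ≠ 0)
    linear_combination -a1
  -- equation for `e`
  have he1 : ∀ᶠ σ in 𝓝[≠] (0 : ℂ), deriv e σ = (n * g σ - a) / σ * e σ := by
    filter_upwards [hball] with σ h1
    have hσ := h1.2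
    have h2 := hS.dE σ h1.1 h1.2
    have h3 : HasDerivAt (Es a e) ((a : ℂ) * σ ^ (a - 1) * e σ + σ ^ a * deriv e σ) σ :=
      (hasDerivAt_zpow (𝕜 := ℂ) a σ (Or.inl hσ)).mul (hS.e_an σ h1.1).differentiableAt.hasDerivAt
    rw [h3.deriv] at h2
    unfold Es at h2
    have h4 : σ ^ a = σ ^ (a - 1) * σ := by rw [zpow_sub_one₀ hσ]; field_simp
    have h5 : σ ^ (a - 1) ≠ 0 := zpow_ne_zero _ hσ
    have h6 : σ ^ (n - 1) * σ ^ k * σ = 1 := by
      have : σ ^ (n - 1) * σ = σ ^ n := by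
        rw [← pow_succ]; congr 1; omega
      calc σ ^ (n - 1) * σ ^ k * σ = (σ ^ (n - 1) * σ) * σ ^ k := by ring
        _ = 1 := by
          rw [this, hk, zpow_neg, zpow_natCast]
          exact mul_inv_cancel₀ (pow_ne_zero n hσ)
    rw [div_mul_eq_mul_div, eq_div_iff hσ]
    apply mul_left_cancel₀ h5
    rw [h4] at h2
    linear_combination h2 + (σ ^ (a - 1) * n * g σ * e σ) * h6
  -- the ratio `e (ω σ) / e σ` is constant
  have hene : ∀ᶠ σ in 𝓝 (0 : ℂ), e (ω * σ) ≠ 0 ∧ e σ ≠ 0 :=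
    ((rot_tendsto' ω).eventually (e0.continuousAt.eventually_ne e00)).and
      (e0.continuousAt.eventually_ne e00)
  have hrot0 : AnalyticAt ℂ (fun σ => e (ω * σ)) 0 :=
    e0.comp_of_eq (analyticAt_const.mul analyticAt_id) (by simp)
  have hean : ∀ᶠ σ in 𝓝 (0 : ℂ), AnalyticAt ℂ e (ω * σ) ∧ AnalyticAt ℂ e σ :=
    ((rot_tendsto' ω).eventually e0.eventually_analyticAt).and e0.eventually_analyticAt
  have hratm : MeromorphicAt (fun σ => e (ω * σ) / e σ) 0 :=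
    hrot0.meromorphicAt.div e0.meromorphicAt
  obtain ⟨A, hA⟩ := const_of_deriv hratm (by
    filter_upwards [he1, (rot_tendsto hω0).eventually he1, hene.filter_mono nhdsWithin_le_nhds,
      hean.filter_mono nhdsWithin_le_nhds, hgi, self_mem_nhdsWithin] with σ a1 a2 a3 a4 a5 a6
    have hσ : σ ≠ 0 := a6
    have b1 := rot_deriv a4.1.differentiableAt.hasDerivAt
    have b2 : HasDerivAt (fun σ => e (ω * σ) / e σ) _ σ :=
      b1.div a4.2.differentiableAt.hasDerivAt a3.2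
    rw [b2.deriv, a1, a2, a5]
    have := a3.2
    field_simp
    ring)
  have hA1 : A = 1 := by
    have t1 : Tendsto (fun σ => e (ω * σ) / e σ) (𝓝[≠] 0) (𝓝 (e 0 / e 0)) :=
      ((e0.continuousAt.tendsto.comp (rot_tendsto' ω)).div e0.continuousAt.tendsto
        e00).mono_left nhdsWithin_le_nhds
    rw [div_self e00] at t1
    exact tendsto_nhds_unique (tendsto_const_nhds.congr' (by
      filter_upwards [hA] with σ hσ; exact hσ.symm)) t1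
  have hei : ∀ᶠ σ in 𝓝[≠] (0 : ℂ), e (ω * σ) = e σ := by
    filter_upwards [hA, hene.filter_mono nhdsWithin_le_nhds] with σ a1 a2
    rw [hA1, div_eq_one_iff_eq a2.2] at a1
    exact a1
  obtain ⟨G, hG, hG0, hGe⟩ := exists_root_form (by omega) hω e0 hei
  have hG00 : G 0 ≠ 0 := by rwa [hG0]
  -- in `z`
  have hsg := sg_tendsto (s := s) hn
  have hsg0 : Tendsto (sg n s) (bl s) (𝓝 0) := hsg.mono_right nhdsWithin_le_nhds
  have hHD : ∀ᶠ z in bl s, z ∈ HD s (r ^ n) := HD_mem (pow_pos hS.r_pos n)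
  have hEz : ∀ᶠ z in bl s, exp (I * θ z) = sg n s z ^ a * G (-(z - s) ^ 2) := by
    filter_upwards [hHD, hsg0.eventually hGe] with z a1 a2
    rw [hS.E_eq z a1]
    unfold Es
    rw [a2, mul_comm 2 n, pow_mul, sg_pow hn, mul_pow, I_sq]
    ring_nf
  have hlow : ∀ᶠ z in bl s, z.im < s.im := self_mem_nhdsWithin
  obtain ⟨R, hR, hall⟩ := bl_basis.1 ((hEz.and hθ).and hlow)
  have hball' : ∀ z ∈ ball s R, |z.im| < h0 → z ∈ HD s R := by
    intro z hz hzi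
    refine ⟨hz, ?_⟩
    have := (abs_lt.1 hzi).2
    simp only [mem_ofPred_eq, hs]; exact this
  have hder : ∀ z ∈ ball s R, |z.im| < h0 →
      deriv (fun z => exp (2 * I * θ z)) z = 2 * I * deriv θ z * exp (2 * I * θ z) := by
    intro z hz hzi
    have e1 := ((hall z (hball' z hz hzi)).1.2.hasDerivAt.const_mul (2 * I)).cexp
    rw [e1.deriv]; ring
  have hGs : AnalyticAt ℂ (fun c : ℂ => G (-c)) 0 :=
    hG.comp_of_eq (analyticAt_id.neg) (by simp)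
  have hexp2 : ∀ z : ℂ, exp (2 * I * θ z) = exp (I * θ z) ^ 2 := by
    intro z
    rw [← Complex.exp_nat_mul]; congr 1; push_cast; ring
  rcases ha with rfl | rfl
  · refine nice_of_even h0p hs hR (ε := 1) (Or.inl rfl) (h := fun c => -(G (-c)) ^ 2)
      (M := fun z => exp (2 * I * θ z)) (hGs.pow 2).neg ?_ ?_ hder
    · simp only [neg_zero]
      exact neg_ne_zero.2 (pow_ne_zero 2 hG00)
    · intro z hz hzi
      have a1 := (hall z (hball' z hz hzi)).1.1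
      rw [hexp2, a1, zpow_natCast, sg_pow hn]
      have : (z - s) ^ (2 * (1 : ℤ)) = (z - s) ^ 2 := by norm_cast
      rw [this]
      linear_combination ((z - s) ^ 2 * G (-(z - s) ^ 2) ^ 2) * I_sq
  · refine nice_of_even h0p hs hR (ε := -1) (Or.inr rfl) (h := fun c => -(G (-c)) ^ 2)
      (M := fun z => exp (2 * I * θ z)) (hGs.pow 2).neg ?_ ?_ hder
    · simp only [neg_zero]
      exact neg_ne_zero.2 (pow_ne_zero 2 hG00)
    · intro z hz hzi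
      obtain ⟨⟨a1, -⟩, a2⟩ := hall z (hball' z hz hzi)
      rw [hexp2, a1, zpow_neg, zpow_natCast, sg_pow hn]
      have hz0 : z - s ≠ 0 := by
        intro h
        rw [sub_eq_zero] at h
        rw [h] at a2
        exact lt_irrefl _ a2
      have : (z - s) ^ (2 * (-1 : ℤ)) = ((z - s) ^ 2)⁻¹ := by
        rw [show (2 * (-1 : ℤ)) = -((2 : ℕ) : ℤ) by norm_num, zpow_neg, zpow_natCast]
      rw [this, mul_pow, inv_pow, mul_pow, I_sq]
      field_simp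

end Crest.Agent.R102.MLZ519
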