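import Crest.Agent.R102.SupDefs_115

/-!
Row 102, T1-B, EDGE-MARC, generic in the notion `Mc U u` ("`U` is thick at `u`"): if for every set `U`
almost every point of `U` is a `Mc`-point, then for a.e. `u`: `GoodU → GoodPP`.
-/

set_option autoImplicit false

open Set Filter Topology Metric MeasureTheory Complex

noncomputable section

namespace Crest.Agent.R102.MarcP472

open Crest.Agent.R102.Sup115 (E2 GoodU)
open Crest.Agent.R102.S5 (Half)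

theorem Half.mono {e : ℝ × ℝ} {η η' m m' : ℝ} (hη : η' ≤ η) (hm : m' ≤ m) :
    Half e η' m' ⊆ Half e η m := by
  rintro q ⟨h1, h2, h3, h4, h5⟩
  refine ⟨by linarith, by linarith, by linarith, h4, ?_⟩
  have := mul_le_mul_of_nonneg_right hm h4.le
  linarith

/-- `E2` is monotone -/
theorem E2.mono {X L : Set (ℂ × ℂ)} {a g ρ η a' g' ρ' η' : ℝ} {e : ℝ × ℝ} (hρ : 0 < ρ)
    (h : E2 X L a g ρ η e) (ha : |a - a'| ≤ ρ' - ρ) (hg : a' + g' ≤ a + g) (hη : η' ≤ η) :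
    E2 X L a' g' ρ' η' e := by
  have ha' := abs_le.1 ha
  refine ⟨?_, ?_, ?_⟩
  · exact (Half.mono hη (by linarith [ha'.1])).trans h.low
  · exact (Half.mono hη hg).trans h.line
  · intro x hx z hz hz0 hρz
    have hn : 0 ≤ ‖z‖ := norm_nonneg z
    have hρρ : ρ ≤ ρ' := by linarith [abs_nonneg (a - a')]
    obtain ⟨q, hqX, hq1, hq2, hq3, hq4⟩ := h.dense x (by linarith) z (by linarith) hz0
      (le_trans (mul_le_mul_of_nonneg_right hρρ hn) hρz)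
    have hqim : 0 ≤ q.2.im := by
      have h2 : 0 ≤ ρ * q.2.im := by nlinarith
      by_contra hc
      push Not at hc
      nlinarith
    refine ⟨q, hqX, ?_, ?_, ?_, ?_⟩
    · have hre : |z.re| ≤ ‖z‖ := Complex.abs_re_le_norm z
      calc |q.1.re - (x + a' * z.re)| = |(q.1.re - (x + a * z.re)) + (a - a') * z.re| := by
            congr 1; ring
        _ ≤ |q.1.re - (x + a * z.re)| + |(a - a') * z.re| := abs_add_le _ _
        _ ≤ ρ * ‖z‖ + (ρ' - ρ) * ‖z‖ := by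
            rw [abs_mul]
            exact add_le_add hq1 (mul_le_mul ha hre (abs_nonneg _) (by linarith))
        _ = ρ' * ‖z‖ := by ring
    · exact hq2.trans (mul_le_mul_of_nonneg_right hρρ hn)
    · have := mul_le_mul_of_nonneg_right (show a' - ρ' ≤ a - ρ by linarith [ha'.1]) hqim
      linarith
    · have := mul_le_mul_of_nonneg_right (show a + ρ ≤ a' + ρ' by linarith [ha'.2]) hqim
      linarith

/-- **EDGE-MARC**, generic form -/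
theorem marcP_gen (Mc : Set ℝ → ℝ → Prop) (hMc : ∀ U : Set ℝ, ∀ᵐ u : ℝ, u ∈ U → Mc U u)
    (X L : Set (ℂ × ℂ)) :
    ∀ᵐ u : ℝ, ∀ s₀ a₀ g₀ : ℝ, GoodU X L u s₀ a₀ g₀ → ∀ g : ℝ, 0 < g → g < g₀ →
      0 ≤ a₀ ∧ 0 < g ∧ ∀ ρ > 0, ∃ δ > 0, ∃ U : Set ℝ, u ∈ U ∧ Mc U u ∧
        ∀ u' ∈ U, ∀ s : ℝ, |s - s₀| < δ → E2 X L a₀ g ρ δ (s, u') := by
  have key : ∀ q : ℚ × ℚ × ℚ × ℚ × ℚ × ℚ, ∀ᵐ u : ℝ,
      u ∈ {u : ℝ | ∀ s : ℝ, |s - q.1| < q.2.1 →
        E2 X L q.2.2.1 q.2.2.2.1 q.2.2.2.2.1 q.2.2.2.2.2 (s, u)} →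
      Mc {u : ℝ | ∀ s : ℝ, |s - q.1| < q.2.1 →
        E2 X L q.2.2.1 q.2.2.2.1 q.2.2.2.2.1 q.2.2.2.2.2 (s, u)} u := fun q => hMc _
  filter_upwards [ae_all_iff.2 key] with u hu s₀ a₀ g₀ hG g hg hgg
  refine ⟨hG.1, hg, fun ρ hρ => ?_⟩
  set ρ₁ : ℝ := min (ρ / 4) ((g₀ - g) / 4) with hρ₁
  have hρ₁0 : 0 < ρ₁ := lt_min (by linarith) (by linarith)
  have hρ₁a : ρ₁ ≤ ρ / 4 := min_le_left _ _
  have hρ₁b : ρ₁ ≤ (g₀ - g) / 4 := min_le_right _ _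
  obtain ⟨δ₁, hδ₁, hE⟩ := hG.2.2 ρ₁ hρ₁0
  obtain ⟨q1, hq1, hq1'⟩ := exists_rat_btwn (show s₀ - δ₁ / 4 < s₀ by linarith)
  obtain ⟨q2, hq2, hq2'⟩ := exists_rat_btwn (show δ₁ / 4 < δ₁ / 2 by linarith)
  obtain ⟨q3, hq3, hq3'⟩ := exists_rat_btwn (show a₀ - ρ₁ < a₀ by linarith)
  obtain ⟨q4, hq4, hq4'⟩ := exists_rat_btwn (show g + 2 * ρ₁ < g₀ - ρ₁ by linarith)
  obtain ⟨q5, hq5, hq5'⟩ := exists_rat_btwn (show 2 * ρ₁ < 3 * ρ₁ by linarith)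
  obtain ⟨q6, hq6, hq6'⟩ := exists_rat_btwn (show (0 : ℝ) < δ₁ by linarith)
  set U : Set ℝ := {u : ℝ | ∀ s : ℝ, |s - q1| < q2 → E2 X L q3 q4 q5 q6 (s, u)} with hU
  have huU : u ∈ U := by
    intro s hs
    have hs' := abs_lt.1 hs
    refine E2.mono hρ₁0 (hE s (abs_lt.2 ⟨by linarith [hs'.1], by linarith [hs'.2]⟩)) ?_ ?_ ?_
    · rw [abs_le]; constructor <;> linarith
    · linarith
    · linarith
  have hMU : Mc U u := hu (q1, q2, q3, q4, q5, q6) huU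
  refine ⟨min q6 (q2 - |(q1 : ℝ) - s₀|), lt_min hq6 ?_, U, huU, hMU, ?_⟩
  · have : |(q1 : ℝ) - s₀| < δ₁ / 4 := abs_lt.2 ⟨by linarith, by linarith⟩
    linarith
  · intro u' hu' s hs
    have h1 : |s - q1| < q2 := by
      have h2 := lt_of_lt_of_le hs (min_le_right _ _)
      have h3 : |s - (q1 : ℝ)| ≤ |s - s₀| + |(q1 : ℝ) - s₀| := by
        have := abs_sub_le s s₀ (q1 : ℝ)
        rwa [abs_sub_comm s₀ (q1 : ℝ)] at this
      linarith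
    refine E2.mono (by linarith : (0 : ℝ) < q5) (hu' s h1) ?_ ?_ (min_le_left _ _)
    · rw [abs_le]; constructor <;> linarith
    · linarith

end Crest.Agent.R102.MarcP472
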