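import Crest.Agent.R102.Marc_295

/-!
Row 102, EDGE (slow regime), helper722: the self-consistent depth function `Y` (LEMMA Y).

`F` closed, `|I \ F|` small ==> `Y ≥ 0`, 1-Lipschitz, `Y ≥ dist (·, F)` (in the middle of `I`),
`∫_{|t| > s} Y (u + t) / t² ≤ 48` for ALL `u` and all `s > Y u`, and `|{Y > 0}| ≤ 2 |I \ F|`.
-/

set_option autoImplicit false
set_option linter.unusedVariables false

open Set Filter Topology Metric MeasureTheory
open scoped ENNReal

noncomputable section

namespace Crest.Agent.R102.MarcY722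

open Crest.Agent.R102.Marc295 (tail_int tail_int')

/-- the tail integral -/
def MY (Y : ℝ → ℝ) (u s : ℝ) : ℝ≥0∞ :=
  ∫⁻ t in {t : ℝ | s < |t|}, ENNReal.ofReal (Y (u + t) / t ^ 2)

lemma meas_tail (c : ℝ) : MeasurableSet {t : ℝ | c < |t|} :=
  measurableSet_lt measurable_const continuous_abs.measurable

lemma tail_le {c k : ℝ} (hc : 0 < c) (hk : 0 ≤ k) :
    ∫⁻ t in {t : ℝ | c < |t|}, ENNReal.ofReal (k / t ^ 2) ≤ ENNReal.ofReal (2 * k / c) := by
  have h1 : ∫⁻ t in {t : ℝ | c < |t|}, ENNReal.ofReal (c / t ^ 2) ≤ 2 := by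
    have hs : {t : ℝ | c < |t|} ⊆ Iio (-c) ∪ Ioi c := by
      intro t ht
      rcases lt_abs.1 (show c < |t| from ht) with h | h
      · exact Or.inr h
      · exact Or.inl (show t < -c by linarith)
    calc ∫⁻ t in {t : ℝ | c < |t|}, ENNReal.ofReal (c / t ^ 2)
        ≤ ∫⁻ t in Iio (-c) ∪ Ioi c, ENNReal.ofReal (c / t ^ 2) := lintegral_mono_set hs
      _ ≤ (∫⁻ t in Iio (-c), ENNReal.ofReal (c / t ^ 2)) +
          ∫⁻ t in Ioi c, ENNReal.ofReal (c / t ^ 2) := lintegral_union_le _ _ _
      _ = 2 := by rw [tail_int hc, tail_int' hc]; norm_num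
  have h2 : ∀ t : ℝ, ENNReal.ofReal (k / t ^ 2) =
      ENNReal.ofReal (k / c) * ENNReal.ofReal (c / t ^ 2) := by
    intro t
    rw [← ENNReal.ofReal_mul (by positivity)]
    congr 1
    field_simp
  calc ∫⁻ t in {t : ℝ | c < |t|}, ENNReal.ofReal (k / t ^ 2)
      = ∫⁻ t in {t : ℝ | c < |t|}, ENNReal.ofReal (k / c) * ENNReal.ofReal (c / t ^ 2) :=
        lintegral_congr fun t => h2 t
    _ = ENNReal.ofReal (k / c) * ∫⁻ t in {t : ℝ | c < |t|}, ENNReal.ofReal (c / t ^ 2) :=
        lintegral_const_mul' _ _ ENNReal.ofReal_ne_top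
    _ ≤ ENNReal.ofReal (k / c) * 2 := by gcongr
    _ = ENNReal.ofReal (2 * k / c) := by
        rw [show (2 : ℝ≥0∞) = ENNReal.ofReal 2 by norm_num,
          ← ENNReal.ofReal_mul (by positivity)]
        congr 1
        ring

/-- the admissible depth functions -/
def Sf (d : ℝ → ℝ) : Set (ℝ → ℝ) :=
  {Y | (∀ u v, |Y u - Y v| ≤ |u - v|) ∧ (∀ u, d u ≤ Y u) ∧
    ∀ u s, 0 < s → Y u < s → MY Y u s ≤ 48}

lemma MY_mono {Y Y' : ℝ → ℝ} (h : ∀ u, Y u ≤ Y' u) (u s : ℝ) : MY Y u s ≤ MY Y' u s := by
  unfold MY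
  refine lintegral_mono fun t => ENNReal.ofReal_le_ofReal ?_
  have : 0 ≤ t ^ 2 := sq_nonneg t
  gcongr
  exact h _

/-! ### a compactly supported member -/

/-- the model -/
def Y0 (l R : ℝ) (u : ℝ) : ℝ := 4 * l * (max 0 (1 - |u| / R)) ^ 2

lemma Y0_nonneg {l R : ℝ} (hl : 0 ≤ l) (u : ℝ) : 0 ≤ Y0 l R u := by unfold Y0; positivity

lemma Y0_mem {d : ℝ → ℝ} {l R ρ₀ : ℝ} (hl : 0 < l) (hR : 8 * l ≤ R) (hρ : 2 * ρ₀ ≤ R)
    (hd : ∀ u, d u ≤ l) (hd0 : ∀ u, ρ₀ ≤ |u| → d u ≤ 0) : Y0 l R ∈ Sf d := by
  have hR0 : 0 < R := by linarith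
  have hm0 : ∀ u : ℝ, 0 ≤ max 0 (1 - |u| / R) := fun u => le_max_left _ _
  have hm1 : ∀ u : ℝ, max 0 (1 - |u| / R) ≤ 1 := fun u =>
    max_le zero_le_one (by have : 0 ≤ |u| / R := by positivity
                           linarith)
  have hmL : ∀ u v : ℝ, max 0 (1 - |v| / R) ≤ max 0 (1 - |u| / R) + |u - v| / R := by
    intro u v
    refine max_le (add_nonneg (hm0 u) (by positivity)) ?_
    have h1 : |u| ≤ |v| + |u - v| := by
      have := abs_sub_abs_le_abs_sub u v
      linarith
    have h2 : |u| / R ≤ |v| / R + |u - v| / R := by rw [← add_div]; gcongr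
    have h3 := le_max_right 0 (1 - |u| / R)
    linarith
  refine ⟨?_, ?_, ?_⟩
  · have key : ∀ u v : ℝ, Y0 l R v - Y0 l R u ≤ |u - v| := by
      intro u v
      unfold Y0
      have h1 := hmL u v
      set a := max 0 (1 - |u| / R)
      set b := max 0 (1 - |v| / R)
      have h2 : b - a ≤ |u - v| / R := by linarith
      have ha := hm0 u
      have hb := hm0 v
      have ha1 := hm1 u
      have hb1 := hm1 v
      rcases le_total b a with hba | hba
      · have : b ^ 2 ≤ a ^ 2 := pow_le_pow_left₀ hb hba 2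
        have h0 : 0 ≤ |u - v| := abs_nonneg _
        nlinarith
      · have h3 : b ^ 2 - a ^ 2 ≤ 2 * (|u - v| / R) := by
          have e : b ^ 2 - a ^ 2 = (b - a) * (b + a) := by ring
          rw [e]
          calc (b - a) * (b + a) ≤ (b - a) * 2 :=
                mul_le_mul_of_nonneg_left (by linarith) (by linarith)
            _ ≤ 2 * (|u - v| / R) := by linarith
        have h4 : 4 * l * b ^ 2 - 4 * l * a ^ 2 ≤ 4 * l * (2 * (|u - v| / R)) := by
          have := mul_le_mul_of_nonneg_left h3 (by positivity : 0 ≤ 4 * l)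
          linarith
        refine h4.trans ?_
        have h5 : 4 * l * (2 * (|u - v| / R)) = (8 * l / R) * |u - v| := by ring
        rw [h5]
        have h6 : 8 * l / R ≤ 1 := (div_le_one hR0).2 hR
        have h0 : 0 ≤ |u - v| := abs_nonneg _
        nlinarith
    intro u v
    rw [abs_le]
    constructor
    · have := key u v
      linarith
    · have := key v u
      rw [abs_sub_comm] at this
      linarith
  · intro u
    rcases le_or_gt ρ₀ |u| with h | h
    · exact (hd0 u h).trans (Y0_nonneg hl.le u)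
    · refine (hd u).trans ?_
      unfold Y0
      have h1 : |u| / R ≤ 1 / 2 := by rw [div_le_iff₀ hR0]; linarith
      have h2 : 1 / 2 ≤ max 0 (1 - |u| / R) := le_trans (by linarith) (le_max_right _ _)
      have h3 : (1 / 2 : ℝ) ^ 2 ≤ (max 0 (1 - |u| / R)) ^ 2 := pow_le_pow_left₀ (by norm_num) h2 2
      nlinarith
  · intro u s hs hus
    have hpt : ∀ t : ℝ, s < |t| → ENNReal.ofReal (Y0 l R (u + t) / t ^ 2) ≤
        ENNReal.ofReal (2 * s / t ^ 2) + ((Icc (-R) R).indicator
          (fun _ => ENNReal.ofReal (8 * l / R ^ 2)) t +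
          ({t : ℝ | R < |t|}).indicator (fun t => ENNReal.ofReal (4 * l / t ^ 2)) t) := by
      intro t ht
      have ht0 : 0 < |t| := hs.trans ht
      have ht2 : 0 < t ^ 2 := by rw [← sq_abs]; positivity
      rcases le_or_gt |t| R with h | h
      · have hmem : t ∈ Icc (-R) R := abs_le.1 h
        have hmem2 : t ∉ {t : ℝ | R < |t|} := by simp [h]
        rw [indicator_of_mem hmem, indicator_of_notMem hmem2, add_zero,
          ← ENNReal.ofReal_add (by positivity) (by positivity)]
        refine ENNReal.ofReal_le_ofReal ?_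
        rw [div_add_div _ _ ht2.ne' (by positivity), div_le_div_iff₀ ht2 (by positivity)]
        have h1 := hmL u (u + t)
        have e1 : |u - (u + t)| = |t| := by rw [show u - (u + t) = -t by ring, abs_neg]
        rw [e1] at h1
        have h2 : Y0 l R (u + t) ≤ 2 * Y0 l R u + 8 * l * (t ^ 2 / R ^ 2) := by
          unfold Y0
          set a := max 0 (1 - |u| / R)
          set b := max 0 (1 - |u + t| / R)
          have ha := hm0 u
          have hb := hm0 (u + t)
          have h3 : b ^ 2 ≤ (a + |t| / R) ^ 2 := pow_le_pow_left₀ hb h1 2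
          have h4 : (a + |t| / R) ^ 2 ≤ 2 * a ^ 2 + 2 * (|t| / R) ^ 2 := by
            nlinarith [sq_nonneg (a - |t| / R)]
          have h5 : (|t| / R) ^ 2 = t ^ 2 / R ^ 2 := by rw [div_pow, sq_abs]
          rw [h5] at h4
          have h6 := mul_le_mul_of_nonneg_left (h3.trans h4) (by positivity : 0 ≤ 4 * l)
          linarith
        have h7 : Y0 l R (u + t) ≤ 2 * s + 8 * l * (t ^ 2 / R ^ 2) := by linarith
        have h8 : Y0 l R (u + t) * R ^ 2 ≤ 2 * s * R ^ 2 + 8 * l * t ^ 2 := by
          have h9 := mul_le_mul_of_nonneg_right h7 (by positivity : 0 ≤ R ^ 2)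
          have e9 : (2 * s + 8 * l * (t ^ 2 / R ^ 2)) * R ^ 2 = 2 * s * R ^ 2 + 8 * l * t ^ 2 := by
            field_simp
          linarith
        nlinarith
      · have hmem : t ∉ Icc (-R) R := fun hh => absurd (abs_le.2 hh) (not_le.2 h)
        have hmem2 : t ∈ {t : ℝ | R < |t|} := h
        rw [indicator_of_notMem hmem, indicator_of_mem hmem2, zero_add]
        refine le_trans (ENNReal.ofReal_le_ofReal ?_) le_add_self
        have h1 : Y0 l R (u + t) ≤ 4 * l := by
          unfold Y0
          have h2 : (max 0 (1 - |u + t| / R)) ^ 2 ≤ 1 := pow_le_one₀ (hm0 _) (hm1 _)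
          nlinarith
        gcongr
    unfold MY
    calc ∫⁻ t in {t : ℝ | s < |t|}, ENNReal.ofReal (Y0 l R (u + t) / t ^ 2)
        ≤ ∫⁻ t in {t : ℝ | s < |t|}, (ENNReal.ofReal (2 * s / t ^ 2) +
          ((Icc (-R) R).indicator (fun _ => ENNReal.ofReal (8 * l / R ^ 2)) t +
          ({t : ℝ | R < |t|}).indicator (fun t => ENNReal.ofReal (4 * l / t ^ 2)) t)) :=
          setLIntegral_mono' (meas_tail s) hpt
      _ = (∫⁻ t in {t : ℝ | s < |t|}, ENNReal.ofReal (2 * s / t ^ 2)) +
          ∫⁻ t in {t : ℝ | s < |t|},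
          ((Icc (-R) R).indicator (fun _ => ENNReal.ofReal (8 * l / R ^ 2)) t +
          ({t : ℝ | R < |t|}).indicator (fun t => ENNReal.ofReal (4 * l / t ^ 2)) t) := by
          refine lintegral_add_left ?_ _
          exact ENNReal.measurable_ofReal.comp (measurable_const.div (measurable_id.pow_const 2))
      _ = (∫⁻ t in {t : ℝ | s < |t|}, ENNReal.ofReal (2 * s / t ^ 2)) +
          ((∫⁻ t in {t : ℝ | s < |t|},
          (Icc (-R) R).indicator (fun _ => ENNReal.ofReal (8 * l / R ^ 2)) t) +
          ∫⁻ t in {t : ℝ | s < |t|},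
          ({t : ℝ | R < |t|}).indicator (fun t => ENNReal.ofReal (4 * l / t ^ 2)) t) := by
          congr 1
          refine lintegral_add_left ?_ _
          exact measurable_const.indicator measurableSet_Icc
      _ ≤ ENNReal.ofReal (2 * (2 * s) / s) + (ENNReal.ofReal (8 * l / R ^ 2) *
          ENNReal.ofReal (2 * R) + ENNReal.ofReal (2 * (4 * l) / R)) := by
          refine add_le_add (tail_le hs (by positivity)) (add_le_add ?_ ?_)
          · refine (setLIntegral_le_lintegral _ _).trans ?_
            rw [lintegral_indicator measurableSet_Icc,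
              setLIntegral_const, Real.volume_Icc]
            exact le_of_eq (by congr 2; ring)
          · refine (setLIntegral_le_lintegral _ _).trans ?_
            rw [lintegral_indicator (meas_tail R)]
            exact tail_le hR0 (by positivity)
      _ ≤ 48 := by
          rw [← ENNReal.ofReal_mul (by positivity), ← ENNReal.ofReal_add (by positivity)
            (by positivity), ← ENNReal.ofReal_add (by positivity) (by positivity)]
          rw [show (48 : ℝ≥0∞) = ENNReal.ofReal 48 by norm_num]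
          refine ENNReal.ofReal_le_ofReal ?_
          have e1 : 2 * (2 * s) / s = 4 := by field_simp; norm_num
          have e2 : 8 * l / R ^ 2 * (2 * R) = 2 * (8 * l / R) := by field_simp
          have e3 : 2 * (4 * l) / R = 8 * l / R := by ring
          have h6 : 8 * l / R ≤ 1 := (div_le_one hR0).2 hR
          rw [e1, e2, e3]
          linarith

/-! ### the minimal member -/

/-- the infimum -/
def Ym (d : ℝ → ℝ) (u : ℝ) : ℝ := sInf ((fun Y : ℝ → ℝ => Y u) '' Sf d)

section min

variable {d : ℝ → ℝ} (hd : ∀ u, 0 ≤ d u) (hne : (Sf d).Nonempty)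
include hd hne

lemma bdd (u : ℝ) : BddBelow ((fun Y : ℝ → ℝ => Y u) '' Sf d) :=
  ⟨0, by rintro _ ⟨Y, hY, rfl⟩; exact (hd u).trans (hY.2.1 u)⟩

lemma Ym_le {Y : ℝ → ℝ} (hY : Y ∈ Sf d) (u : ℝ) : Ym d u ≤ Y u :=
  csInf_le (bdd hd hne u) ⟨Y, hY, rfl⟩

lemma le_Ym {u x : ℝ} (h : ∀ Y ∈ Sf d, x ≤ Y u) : x ≤ Ym d u :=
  le_csInf (hne.image _) (by rintro _ ⟨Y, hY, rfl⟩; exact h Y hY)

lemma Ym_mem : Ym d ∈ Sf d := by
  have key : ∀ u v, Ym d u ≤ Ym d v + |u - v| := by
    intro u v
    have : Ym d u - |u - v| ≤ Ym d v := by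
      refine le_Ym hd hne fun Y hY => ?_
      have h1 := Ym_le hd hne hY u
      have h2 := (abs_le.1 (hY.1 u v)).2
      linarith
    linarith
  refine ⟨fun u v => ?_, fun u => le_Ym hd hne fun Y hY => hY.2.1 u, fun u s hs hus => ?_⟩
  · rw [abs_le]
    have h1 := key u v
    have h2 := key v u
    rw [abs_sub_comm] at h2
    constructor <;> linarith
  · obtain ⟨_, ⟨Y, hY, rfl⟩, hlt⟩ := (csInf_lt_iff (bdd hd hne u) (hne.image _)).1 hus
    exact (MY_mono (fun v => Ym_le hd hne hY v) u s).trans (hY.2.2 u s hs hlt)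

lemma Ym_nonneg (u : ℝ) : 0 ≤ Ym d u := (hd u).trans ((Ym_mem hd hne).2.1 u)

/-- minimality -/
lemma MY_gt (hdL : ∀ u v, |d u - d v| ≤ |u - v|) {u₀ : ℝ} (h0 : 0 < Ym d u₀)
    (hd0 : d u₀ ≤ Ym d u₀ / 2) : 12 < MY (Ym d) u₀ (Ym d u₀ / 2) := by
  by_contra hcon
  push Not at hcon
  obtain ⟨m1, m2, m3⟩ := Ym_mem hd hne
  set y : ℝ := Ym d u₀ with hy
  set Y' : ℝ → ℝ := fun u => min (Ym d u) (y / 2 + |u - u₀|) with hY'
  have hmem : Y' ∈ Sf d := by
    refine ⟨fun u v => ?_, fun u => ?_, fun u s hs hus => ?_⟩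
    · have key : ∀ u v, Y' u ≤ Y' v + |u - v| := by
        intro u v
        simp only [hY']
        rcases min_choice (Ym d v) (y / 2 + |v - u₀|) with h | h
        · rw [h]
          refine (min_le_left _ _).trans ?_
          have := (abs_le.1 (m1 u v)).2
          linarith
        · rw [h]
          refine (min_le_right _ _).trans ?_
          have : |u - u₀| ≤ |v - u₀| + |u - v| := by
            have := abs_sub_le u v u₀
            linarith
          linarith
      rw [abs_le]
      have h1 := key u v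
      have h2 := key v u
      rw [abs_sub_comm] at h2
      constructor <;> linarith
    · refine le_min (m2 u) ?_
      have := (abs_le.1 (hdL u u₀)).2
      linarith
    · have hle : MY Y' u s ≤ MY (Ym d) u s := MY_mono (fun v => min_le_left _ _) u s
      rcases min_lt_iff.1 hus with h | h
      · exact hle.trans (m3 u s hs h)
      · refine hle.trans ?_
        -- compare with the window at `u₀`
        have hpt : ∀ t : ℝ, s < |t| → ENNReal.ofReal (Ym d (u + t) / t ^ 2) ≤
            4 * ({x : ℝ | y / 2 < |x|}).indicator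
              (fun x => ENNReal.ofReal (Ym d (u₀ + x) / x ^ 2)) (t + (u - u₀)) := by
          intro t ht
          have hr : 0 ≤ |u - u₀| := abs_nonneg _
          have ht0 : 0 < |t| := hs.trans ht
          have h1 : |t| - |u - u₀| ≤ |t + (u - u₀)| := by
            have := abs_sub_abs_le_abs_sub t (-(u - u₀))
            rw [abs_neg, sub_neg_eq_add] at this
            linarith
          have h2 : |t + (u - u₀)| ≤ 2 * |t| := by
            have := abs_add_le t (u - u₀)
            linarith
          have h3 : y / 2 < |t + (u - u₀)| := by linarith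
          have h3' : 0 < |t + (u - u₀)| := by linarith
          have hmem : t + (u - u₀) ∈ {x : ℝ | y / 2 < |x|} := h3
          rw [indicator_of_mem hmem, show (4 : ℝ≥0∞) = ENNReal.ofReal 4 by norm_num,
            ← ENNReal.ofReal_mul (by norm_num)]
          refine ENNReal.ofReal_le_ofReal ?_
          rw [show u₀ + (t + (u - u₀)) = u + t by ring]
          have h4 : 0 ≤ Ym d (u + t) := Ym_nonneg hd hne _
          have h5 : 0 < t ^ 2 := by rw [← sq_abs]; positivity
          have h6 : 0 < (t + (u - u₀)) ^ 2 := by rw [← sq_abs (t + (u - u₀))]; positivity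
          have h7 : (t + (u - u₀)) ^ 2 ≤ 4 * t ^ 2 := by
            rw [← sq_abs (t + (u - u₀)), ← sq_abs t]
            nlinarith
          rw [← mul_div_assoc, div_le_div_iff₀ h5 h6]
          nlinarith
        unfold MY
        calc ∫⁻ t in {t : ℝ | s < |t|}, ENNReal.ofReal (Ym d (u + t) / t ^ 2)
            ≤ ∫⁻ t in {t : ℝ | s < |t|}, 4 * ({x : ℝ | y / 2 < |x|}).indicator
              (fun x => ENNReal.ofReal (Ym d (u₀ + x) / x ^ 2)) (t + (u - u₀)) :=
              setLIntegral_mono' (meas_tail s) hpt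
          _ ≤ ∫⁻ t : ℝ, 4 * ({x : ℝ | y / 2 < |x|}).indicator
              (fun x => ENNReal.ofReal (Ym d (u₀ + x) / x ^ 2)) (t + (u - u₀)) :=
              setLIntegral_le_lintegral _ _
          _ = ∫⁻ x : ℝ, 4 * ({x : ℝ | y / 2 < |x|}).indicator
              (fun x => ENNReal.ofReal (Ym d (u₀ + x) / x ^ 2)) x :=
              lintegral_add_right_eq_self (fun x => 4 * ({x : ℝ | y / 2 < |x|}).indicator
              (fun x => ENNReal.ofReal (Ym d (u₀ + x) / x ^ 2)) x) (u - u₀)
          _ = 4 * ∫⁻ x : ℝ, ({x : ℝ | y / 2 < |x|}).indicator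
              (fun x => ENNReal.ofReal (Ym d (u₀ + x) / x ^ 2)) x :=
              lintegral_const_mul' _ _ (by norm_num)
          _ = 4 * MY (Ym d) u₀ (y / 2) := by
              rw [lintegral_indicator (meas_tail _)]; rfl
          _ ≤ 4 * 12 := by gcongr
          _ = 48 := by norm_num
  have h1 := Ym_le hd hne hmem u₀
  have h2 : Y' u₀ ≤ y / 2 := by
    simp only [hY']
    refine (min_le_right _ _).trans ?_
    simp
  linarith

end min

/-- Tonelli -/
lemma total {Y : ℝ → ℝ} (hc : Continuous Y) (h0 : ∀ u, 0 ≤ Y u)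
    (hL : ∀ u v, |Y u - Y v| ≤ |u - v|) {A : Set ℝ} (hA : MeasurableSet A) :
    ∫⁻ u in A, MY Y u (Y u / 2) ≤ 6 * volume {u | 0 < Y u} := by
  set K : ℝ → ℝ → ℝ≥0∞ := fun u v =>
    ({p : ℝ × ℝ | Y p.1 / 2 < |p.2 - p.1|}).indicator
      (fun p => ENNReal.ofReal (Y p.2 / (p.2 - p.1) ^ 2)) (u, v) with hK
  have hSm : MeasurableSet {p : ℝ × ℝ | Y p.1 / 2 < |p.2 - p.1|} :=
    measurableSet_lt ((hc.measurable.comp measurable_fst).div_const 2)
      (continuous_abs.measurable.comp (measurable_snd.sub measurable_fst))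
  have hKm : Measurable (Function.uncurry K) := by
    have e : Function.uncurry K = ({p : ℝ × ℝ | Y p.1 / 2 < |p.2 - p.1|}).indicator
      (fun p => ENNReal.ofReal (Y p.2 / (p.2 - p.1) ^ 2)) := by
      funext p; rfl
    rw [e]
    refine Measurable.indicator ?_ hSm
    exact ENNReal.measurable_ofReal.comp ((hc.measurable.comp measurable_snd).div
      ((measurable_snd.sub measurable_fst).pow_const 2))
  have h1 : ∀ u, MY Y u (Y u / 2) = ∫⁻ v, K u v := by
    intro u
    unfold MY
    rw [← lintegral_indicator (meas_tail _)]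
    rw [← lintegral_sub_right_eq_self _ u]
    refine lintegral_congr fun v => ?_
    simp only [hK, indicator, mem_setOf_eq]
    rw [show u + (v - u) = v by ring]
  have h2 : ∫⁻ u in A, MY Y u (Y u / 2) = ∫⁻ v, ∫⁻ u in A, K u v := by
    rw [← lintegral_lintegral_swap (hKm.aemeasurable)]
    exact lintegral_congr fun u => h1 u
  rw [h2]
  have h3 : ∀ v, ∫⁻ u in A, K u v ≤ ({u | 0 < Y u}).indicator (fun _ => (6 : ℝ≥0∞)) v := by
    intro v
    rcases eq_or_lt_of_le (h0 v) with hv | hv
    · have : ∀ u, K u v = 0 := by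
        intro u
        simp only [hK, indicator]
        split_ifs with h
        · rw [← hv]; simp
        · rfl
      simp [this]
    · have hmem : v ∈ {u | 0 < Y u} := hv
      rw [indicator_of_mem hmem]
      have h4 : ∀ u, K u v ≤ ({x : ℝ | Y v / 3 < |x|}).indicator
          (fun x => ENNReal.ofReal (Y v / x ^ 2)) (v - u) := by
        intro u
        simp only [hK, indicator, mem_setOf_eq]
        split_ifs with ha hb
        · exact le_rfl
        · exfalso
          apply hb
          have := (abs_le.1 (hL v u)).2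
          linarith
        · exact bot_le
        · exact le_rfl
      calc ∫⁻ u in A, K u v ≤ ∫⁻ u, K u v := setLIntegral_le_lintegral _ _
        _ ≤ ∫⁻ u, ({x : ℝ | Y v / 3 < |x|}).indicator
          (fun x => ENNReal.ofReal (Y v / x ^ 2)) (v - u) := lintegral_mono h4
        _ = ∫⁻ x, ({x : ℝ | Y v / 3 < |x|}).indicator
          (fun x => ENNReal.ofReal (Y v / x ^ 2)) x := lintegral_sub_left_eq_self _ v
        _ = ∫⁻ x in {x : ℝ | Y v / 3 < |x|}, ENNReal.ofReal (Y v / x ^ 2) :=
          lintegral_indicator (meas_tail _) _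
        _ ≤ ENNReal.ofReal (2 * Y v / (Y v / 3)) := tail_le (by positivity) hv.le
        _ = 6 := by
          rw [show 2 * Y v / (Y v / 3) = 6 by field_simp; norm_num]
          norm_num
  calc ∫⁻ v, ∫⁻ u in A, K u v
      ≤ ∫⁻ v, ({u | 0 < Y u}).indicator (fun _ => (6 : ℝ≥0∞)) v := lintegral_mono h3
    _ = 6 * volume {u | 0 < Y u} := by
      rw [lintegral_indicator (measurableSet_lt measurable_const hc.measurable),
        setLIntegral_const]

/-- **LEMMA Y**, abstract form. -/
theorem lemY {d : ℝ → ℝ} {l ρ₀ : ℝ} (hl : 0 < l) (hd : ∀ u, 0 ≤ d u) (hdl : ∀ u, d u ≤ l)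
    (hd0 : ∀ u, ρ₀ ≤ |u| → d u ≤ 0) (hdL : ∀ u v, |d u - d v| ≤ |u - v|) :
    ∃ Y : ℝ → ℝ, (∀ u, 0 ≤ Y u) ∧ (∀ u v, |Y u - Y v| ≤ |u - v|) ∧ (∀ u, d u ≤ Y u) ∧
      (∀ u s, 0 < s → Y u < s → MY Y u s ≤ 48) ∧
      volume {u | 0 < Y u} ≤ 2 * volume {u | 0 < d u} := by
  set R : ℝ := max (8 * l) (2 * ρ₀) with hR
  have hR0 : 0 < R := lt_of_lt_of_le (by linarith) (le_max_left _ _)
  have hY0 : Y0 l R ∈ Sf d := Y0_mem hl (le_max_left _ _) (le_max_right _ _) hdl hd0
  have hne : (Sf d).Nonempty := ⟨_, hY0⟩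
  obtain ⟨m1, m2, m3⟩ := Ym_mem hd hne
  have hn := Ym_nonneg hd hne
  have hcont : Continuous (Ym d) := by
    have : LipschitzWith 1 (Ym d) := LipschitzWith.of_dist_le_mul fun u v => by
      rw [Real.dist_eq, Real.dist_eq]; simpa using m1 u v
    exact this.continuous
  have hcd : Continuous d := by
    have : LipschitzWith 1 d := LipschitzWith.of_dist_le_mul fun u v => by
      rw [Real.dist_eq, Real.dist_eq]; simpa using hdL u v
    exact this.continuous
  refine ⟨Ym d, hn, m1, m2, m3, ?_⟩
  set S : Set ℝ := {u | 0 < Ym d u} with hS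
  set G : Set ℝ := {u | 0 < d u} with hG
  have hSm : MeasurableSet S := measurableSet_lt measurable_const hcont.measurable
  have hGm : MeasurableSet G := measurableSet_lt measurable_const hcd.measurable
  have hSfin : volume S < ⊤ := by
    have hsub : S ⊆ Icc (-R) R := by
      intro u hu
      by_contra hcon
      have h1 : R < |u| := by
        by_contra h2
        exact hcon (abs_le.1 (not_lt.1 h2))
      have h2 := Ym_le hd hne hY0 u
      have h3 : Y0 l R u = 0 := by
        unfold Y0
        have : 1 - |u| / R ≤ 0 := by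
          have : 1 ≤ |u| / R := (one_le_div hR0).2 h1.le
          linarith
        rw [max_eq_left this]; ring
      have h4 : 0 < Ym d u := hu
      linarith
    exact lt_of_le_of_lt (measure_mono hsub) (by rw [Real.volume_Icc]; exact ENNReal.ofReal_lt_top)
  have h12 : 12 * volume (S \ G) ≤ 6 * volume S := by
    calc 12 * volume (S \ G) = ∫⁻ u in S \ G, (12 : ℝ≥0∞) := by rw [setLIntegral_const]
      _ ≤ ∫⁻ u in S \ G, MY (Ym d) u (Ym d u / 2) := by
          refine setLIntegral_mono' (hSm.diff hGm) fun u hu => ?_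
          have hu1 : 0 < Ym d u := hu.1
          have hu2 : d u ≤ 0 := not_lt.1 hu.2
          exact (MY_gt hd hne hdL hu1 (by linarith)).le
      _ ≤ 6 * volume S := total hcont hn m1 (hSm.diff hGm)
  have hsplit : volume S ≤ volume (S \ G) + volume G := by
    calc volume S ≤ volume ((S \ G) ∪ G) := measure_mono (by
            intro u hu
            by_cases h : u ∈ G
            · exact Or.inr h
            · exact Or.inl ⟨hu, h⟩)
      _ ≤ _ := measure_union_le _ _
  have hfin : volume (S \ G) < ⊤ := lt_of_le_of_lt (measure_mono sdiff_subset) hSfin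
  have hle : volume (S \ G) ≤ volume G := by
    have h6 : 6 * volume (S \ G) + 6 * volume (S \ G) ≤ 6 * volume (S \ G) + 6 * volume G := by
      calc 6 * volume (S \ G) + 6 * volume (S \ G) = 12 * volume (S \ G) := by
            rw [← add_mul]; norm_num
        _ ≤ 6 * volume S := h12
        _ ≤ 6 * (volume (S \ G) + volume G) := by gcongr
        _ = 6 * volume (S \ G) + 6 * volume G := mul_add _ _ _
    have hne' : 6 * volume (S \ G) ≠ ⊤ := ENNReal.mul_ne_top (by norm_num) hfin.ne
    have h7 := (ENNReal.add_le_add_iff_left hne').1 h6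
    exact (ENNReal.mul_le_mul_iff_right (by norm_num) (by norm_num)).1 h7
  calc volume S ≤ volume (S \ G) + volume G := hsplit
    _ ≤ volume G + volume G := by gcongr
    _ = 2 * volume G := by rw [two_mul]

end Crest.Agent.R102.MarcY722
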