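import Mathlib

/-!
Row 102, T1-B, EDGE: the Marcinkiewicz integral (exponent one) for an arbitrary subset `U` of the
line: at a.e. point `u` of `U`, `∫_{|y-u|<1} dist(y,U)/(y-u)² dy < ∞`.
-/

set_option autoImplicit false

open Set Filter Topology Metric MeasureTheory

noncomputable section

namespace Crest.Agent.R102.Marc472

/-- the kernel `δ / v²` on `[δ, ∞)` -/
def hker (δ : ℝ) (v : ℝ) : ENNReal := (Ici δ).indicator (fun v => ENNReal.ofReal (δ / v ^ 2)) v

theorem hker_meas (δ : ℝ) : Measurable (hker δ) := by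
  unfold hker
  refine Measurable.indicator ?_ measurableSet_Ici
  fun_prop

theorem lint_hker {δ : ℝ} (hδ : 0 < δ) : ∫⁻ v, hker δ v = 1 := by
  unfold hker
  rw [lintegral_indicator measurableSet_Ici, ← setLIntegral_congr Ioi_ae_eq_Ici]
  have hi : IntegrableOn (fun v : ℝ => v ^ (-2 : ℝ)) (Ioi δ) :=
    integrableOn_Ioi_rpow_of_lt (by norm_num) hδ
  have he : ∫⁻ v in Ioi δ, ENNReal.ofReal (δ / v ^ 2) = ∫⁻ v in Ioi δ, ENNReal.ofReal (δ * v ^ (-2 : ℝ)) := by
    refine setLIntegral_congr_fun measurableSet_Ioi fun v hv => ?_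
    have hv0 : 0 < v := hδ.trans hv
    show ENNReal.ofReal (δ / v ^ 2) = ENNReal.ofReal (δ * v ^ (-2 : ℝ))
    rw [Real.rpow_neg hv0.le, show (2 : ℝ) = ((2 : ℕ) : ℝ) by norm_num, Real.rpow_natCast, div_eq_mul_inv]
  rw [he, ← ofReal_integral_eq_lintegral_ofReal (hi.const_mul δ)]
  · rw [integral_const_mul, integral_Ioi_rpow_of_lt (by norm_num) hδ]
    have : δ * (-δ ^ (-2 + 1 : ℝ) / (-2 + 1)) = 1 := by
      rw [show (-2 + 1 : ℝ) = -1 by norm_num, Real.rpow_neg_one]
      field_simp
    rw [this, ENNReal.ofReal_one]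
  · refine (ae_restrict_iff' measurableSet_Ioi).2 (Eventually.of_forall fun v hv => ?_)
    have hv0 : 0 < v := hδ.trans hv
    show (0 : ℝ) ≤ δ * v ^ (-2 : ℝ)
    positivity


/-- Fubini bound -/
theorem inner_le (F : Set ℝ) (δ : ℝ → ℝ) (hδ0 : ∀ y, 0 ≤ δ y) (hδF : ∀ y, ∀ u ∈ F, δ y ≤ |y - u|)
    (N : ℝ) (y : ℝ) :
    ∫⁻ u, (({p : ℝ × ℝ | p.1 ∈ F ∧ |p.1| ≤ N ∧ |p.2 - p.1| < 1}).indicator
      (fun p => ENNReal.ofReal (δ p.2 / (p.2 - p.1) ^ 2)) (u, y)) ≤
      (Icc (-(N + 1)) (N + 1)).indicator (fun _ => 2) y := by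
  by_cases hy : y ∈ Icc (-(N + 1)) (N + 1)
  · rw [indicator_of_mem hy]
    rcases (hδ0 y).eq_or_lt with h0 | hpos
    · have : ∀ u, (({p : ℝ × ℝ | p.1 ∈ F ∧ |p.1| ≤ N ∧ |p.2 - p.1| < 1}).indicator
          (fun p => ENNReal.ofReal (δ p.2 / (p.2 - p.1) ^ 2)) (u, y)) = 0 := by
        intro u
        by_cases hu : (u, y) ∈ {p : ℝ × ℝ | p.1 ∈ F ∧ |p.1| ≤ N ∧ |p.2 - p.1| < 1}
        · rw [indicator_of_mem hu]
          show ENNReal.ofReal (δ y / (y - u) ^ 2) = 0
          rw [← h0, zero_div, ENNReal.ofReal_zero]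
        · rw [indicator_of_notMem hu]
      simp only [this, lintegral_zero]
      exact bot_le
    · calc ∫⁻ u, (({p : ℝ × ℝ | p.1 ∈ F ∧ |p.1| ≤ N ∧ |p.2 - p.1| < 1}).indicator
            (fun p => ENNReal.ofReal (δ p.2 / (p.2 - p.1) ^ 2)) (u, y))
          ≤ ∫⁻ u, (hker (δ y) (u - y) + hker (δ y) (y - u)) := by
            refine lintegral_mono fun u => ?_
            by_cases hu : (u, y) ∈ {p : ℝ × ℝ | p.1 ∈ F ∧ |p.1| ≤ N ∧ |p.2 - p.1| < 1}
            · rw [indicator_of_mem hu]
              have hF := hδF y u hu.1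
              show ENNReal.ofReal (δ y / (y - u) ^ 2) ≤ _
              rcases le_total u y with h | h
              · rw [abs_of_nonneg (by linarith)] at hF
                refine le_add_left ?_
                unfold hker
                rw [indicator_of_mem (show y - u ∈ Ici (δ y) from hF)]
              · rw [abs_of_nonpos (by linarith)] at hF
                refine le_add_right ?_
                unfold hker
                rw [indicator_of_mem (show u - y ∈ Ici (δ y) from by rw [mem_Ici]; linarith)]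
                rw [show (y - u) ^ 2 = (u - y) ^ 2 by ring]
            · rw [indicator_of_notMem hu]
              exact bot_le
        _ = (∫⁻ u, hker (δ y) (u - y)) + ∫⁻ u, hker (δ y) (y - u) := by
            have hm : Measurable fun u : ℝ => hker (δ y) (u - y) :=
              (hker_meas _).comp (measurable_id.sub_const y)
            exact lintegral_add_left hm _
        _ = 1 + 1 := by
            have e1 : ∫⁻ u, hker (δ y) (u - y) = ∫⁻ u, hker (δ y) u :=
              lintegral_sub_right_eq_self (μ := (volume : Measure ℝ)) (hker (δ y)) y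
            have e2 : ∫⁻ u, hker (δ y) (y - u) = ∫⁻ u, hker (δ y) u :=
              lintegral_sub_left_eq_self (μ := (volume : Measure ℝ)) (hker (δ y)) y
            rw [e1, e2, lint_hker hpos]
        _ = 2 := one_add_one_eq_two
  · have : ∀ u, (({p : ℝ × ℝ | p.1 ∈ F ∧ |p.1| ≤ N ∧ |p.2 - p.1| < 1}).indicator
        (fun p => ENNReal.ofReal (δ p.2 / (p.2 - p.1) ^ 2)) (u, y)) = 0 := by
      intro u
      refine indicator_of_notMem ?_ _
      rintro ⟨-, h1, h2⟩
      apply hy
      simp only at h1 h2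
      rw [abs_le] at h1
      rw [abs_lt] at h2
      exact ⟨by linarith, by linarith⟩
    simp only [this, lintegral_zero]
    exact bot_le

theorem marcN {F : Set ℝ} (hF : MeasurableSet F) (δ : ℝ → ℝ) (hδc : Continuous δ)
    (hδ0 : ∀ y, 0 ≤ δ y) (hδF : ∀ y, ∀ u ∈ F, δ y ≤ |y - u|) (N : ℝ) :
    ∀ᵐ u : ℝ, u ∈ F → |u| ≤ N → IntegrableOn (fun y => δ y / (y - u) ^ 2) (ball u 1) := by
  set S : Set (ℝ × ℝ) := {p : ℝ × ℝ | p.1 ∈ F ∧ |p.1| ≤ N ∧ |p.2 - p.1| < 1} with hS
  have hSm : MeasurableSet S := by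
    have h1 : MeasurableSet {p : ℝ × ℝ | p.1 ∈ F} := measurable_fst hF
    have h2 : MeasurableSet {p : ℝ × ℝ | |p.1| ≤ N} :=
      measurableSet_le (by fun_prop) (by fun_prop)
    have h3 : MeasurableSet {p : ℝ × ℝ | |p.2 - p.1| < 1} :=
      measurableSet_lt (by fun_prop) (by fun_prop)
    exact h1.inter (h2.inter h3)
  set f : ℝ → ℝ → ENNReal := fun u y => S.indicator
    (fun p => ENNReal.ofReal (δ p.2 / (p.2 - p.1) ^ 2)) (u, y) with hf
  have hfm : Measurable (Function.uncurry f) := by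
    have : Function.uncurry f = S.indicator (fun p => ENNReal.ofReal (δ p.2 / (p.2 - p.1) ^ 2)) := by
      ext ⟨u, y⟩; rfl
    rw [this]
    refine Measurable.indicator ?_ hSm
    have := hδc.measurable
    fun_prop
  have hfin : ∫⁻ u, ∫⁻ y, f u y ≠ ⊤ := by
    rw [lintegral_lintegral_swap hfm.aemeasurable]
    refine ne_top_of_le_ne_top ?_ (lintegral_mono fun y => inner_le F δ hδ0 hδF N y)
    rw [lintegral_indicator measurableSet_Icc, lintegral_const]
    simp only [MeasurableSet.univ, Measure.restrict_apply, univ_inter, Real.volume_Icc]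
    exact ENNReal.mul_ne_top (by simp) ENNReal.ofReal_ne_top
  have hae := ae_lt_top (Measurable.lintegral_prod_right' hfm) hfin
  filter_upwards [hae] with u hu huF huN
  have hu' : ∫⁻ y, f u y < ⊤ := hu
  refine ⟨?_, ?_⟩
  · have hm : Measurable fun y => δ y / (y - u) ^ 2 := by
      have := hδc.measurable
      fun_prop
    exact hm.aestronglyMeasurable
  · rw [hasFiniteIntegral_iff_ofReal (Eventually.of_forall fun y => div_nonneg (hδ0 y) (sq_nonneg _))]
    refine lt_of_le_of_lt (le_of_eq ?_) hu'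
    rw [← lintegral_indicator measurableSet_ball]
    refine lintegral_congr fun y => ?_
    by_cases hy : y ∈ ball u 1
    · have : (u, y) ∈ S := ⟨huF, huN, by rwa [mem_ball, Real.dist_eq] at hy⟩
      rw [indicator_of_mem hy, hf]
      simp only [indicator_of_mem this]
    · have : (u, y) ∉ S := fun h => hy (by rw [mem_ball, Real.dist_eq]; exact h.2.2)
      rw [indicator_of_notMem hy, hf]
      simp only [indicator_of_notMem this]

/-- **Marcinkiewicz integral** for an arbitrary set. -/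
theorem marc (U : Set ℝ) :
    ∀ᵐ u : ℝ, u ∈ U → IntegrableOn (fun y => infDist y U / (y - u) ^ 2) (ball u 1) := by
  have h : ∀ n : ℕ, ∀ᵐ u : ℝ, u ∈ closure U → |u| ≤ n →
      IntegrableOn (fun y => infDist y U / (y - u) ^ 2) (ball u 1) := fun n =>
    marcN isClosed_closure.measurableSet (fun y => infDist y U) (continuous_infDist_pt U)
      (fun y => infDist_nonneg) (fun y u hu => by
        rw [← Real.dist_eq, ← infDist_closure]
        exact infDist_le_dist_of_mem hu) n
  filter_upwards [ae_all_iff.2 h] with u hu huU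
  obtain ⟨n, hn⟩ := exists_nat_ge |u|
  exact hu n (subset_closure huU) hn

end Crest.Agent.R102.Marc472
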