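import Crest.Agent.R102.F7_389

/-!
# Row 102, [H3], THEOREM (RAT), leaf R5 = RUN (helper58)

Near a grazing line every line close to the tangent meets the curve in exactly two points; hence a
second chain of reflections with the same first and the same last line runs back along the main
chain until it leaves the curve.
-/

set_option autoImplicit false

open Set Filter Topology Metric

noncomputable section

namespace Crest.Agent.R102.Run58

open Crest.Agent.R102.F7389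

/-! ### two points on a line -/

/-- a line through two different points of the curve near `c₀` meets it in no third point -/
theorem twopt {g : ℂ → ℂ} {c₀ : ℂ} (hg : AnalyticAt ℂ g c₀) (hg2 : deriv (deriv g) c₀ ≠ 0) :
    ∃ r > 0, AnalyticOnNhd ℂ g (ball c₀ r) ∧ ∀ u ∈ ball c₀ r, ∀ v ∈ ball c₀ r, ∀ z ∈ ball c₀ r,
      ∀ m k : ℂ, u ≠ v → g u = m * u + k → g v = m * v + k → g z = m * z + k → z = u ∨ z = v := by
  obtain ⟨S, h, hSa, hha, hS, hh, -, hd⟩ := divided hg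
  have h2 : 2 * h (c₀, 0) = deriv (deriv g) c₀ := hd.self_of_nhds
  have hh0 : h (c₀, 0) ≠ 0 := by
    intro h0
    rw [h0, mul_zero] at h2
    exact hg2 h2.symm
  have hst := hSa.hasStrictFDerivAt
  -- the derivative of `S` in the second direction
  have hS2 : fderiv ℂ S (c₀, 0) (0, 1) = h (c₀, 0) := by
    have e1 : HasDerivAt (fun d : ℂ => ((c₀, d) : ℂ × ℂ)) (0, 1) 0 :=
      (hasDerivAt_const _ _).prodMk (hasDerivAt_id _)
    have e2 : HasDerivAt (fun d : ℂ => S (c₀, d)) (fderiv ℂ S (c₀, 0) (0, 1)) 0 :=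
      hst.hasFDerivAt.comp_hasDerivAt (0 : ℂ) e1
    have e3 : Tendsto (fun d : ℂ => ((c₀, d) : ℂ × ℂ)) (𝓝 0) (𝓝 (c₀, 0)) :=
      Continuous.tendsto (by fun_prop) _
    have e4 : (fun d : ℂ => S (c₀, d)) =ᶠ[𝓝 0] fun d => deriv g c₀ + d * h (c₀, d) :=
      e3.eventually hh
    have e5 : DifferentiableAt ℂ (fun d : ℂ => h (c₀, d)) 0 :=
      DifferentiableAt.comp (0 : ℂ) (f := fun d : ℂ => ((c₀, d) : ℂ × ℂ)) (g := h)
        hha.differentiableAt (by fun_prop)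
    have e6 : HasDerivAt (fun d : ℂ => deriv g c₀ + d * h (c₀, d))
        (1 * h (c₀, 0) + 0 * deriv (fun d => h (c₀, d)) 0) 0 :=
      ((hasDerivAt_id (0 : ℂ)).mul e5.hasDerivAt).const_add _
    rw [e2.unique (e6.congr_of_eventuallyEq e4)]
    ring
  have hε : 0 < ‖h (c₀, 0)‖ / 2 := by positivity
  have hlo := hst.isLittleO.def hε
  have hev : ∀ᶠ x in 𝓝 ((c₀, 0) : ℂ × ℂ), g (x.1 + x.2) - g x.1 = x.2 * S x := hS
  obtain ⟨R₁, hR₁, hb₁⟩ := Metric.eventually_nhds_iff.1 hev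
  obtain ⟨R₂, hR₂, hb₂⟩ := Metric.eventually_nhds_iff.1 hlo
  obtain ⟨R₃, hR₃, hb₃⟩ := Metric.eventually_nhds_iff.1 hg.eventually_analyticAt
  set r : ℝ := min R₃ (min R₁ R₂ / 2) with hr
  have hr0 : 0 < r := by positivity
  have key : ∀ u ∈ ball c₀ r, ∀ v ∈ ball c₀ r,
      dist ((u, v - u) : ℂ × ℂ) (c₀, 0) < min R₁ R₂ := by
    intro u hu v hv
    rw [mem_ball] at hu hv
    have hu' : dist u c₀ < min R₁ R₂ / 2 := lt_of_lt_of_le hu (min_le_right _ _)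
    have hv' : dist v c₀ < min R₁ R₂ / 2 := lt_of_lt_of_le hv (min_le_right _ _)
    have hpos : 0 < min R₁ R₂ := by positivity
    rw [Prod.dist_eq]
    refine max_lt (by linarith) ?_
    simp only [dist_zero_right]
    rw [← dist_eq_norm]
    have := dist_triangle_right v u c₀
    linarith
  refine ⟨r, hr0, fun z hz => hb₃ (lt_of_lt_of_le hz (min_le_left _ _)), ?_⟩
  intro u hu v hv z hz m k huv hgu hgv hgz
  by_contra hne
  push Not at hne
  obtain ⟨hzu, hzv⟩ := hne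
  have k1 := hb₁ (lt_of_lt_of_le (key u hu v hv) (min_le_left _ _))
  have k2 := hb₁ (lt_of_lt_of_le (key u hu z hz) (min_le_left _ _))
  simp only [add_sub_cancel] at k1 k2
  have hSv : S (u, v - u) = m := by
    refine mul_left_cancel₀ (sub_ne_zero.2 (Ne.symm huv)) ?_
    rw [← k1, hgv, hgu]; ring
  have hSz : S (u, z - u) = m := by
    refine mul_left_cancel₀ (sub_ne_zero.2 hzu) ?_
    rw [← k2, hgz, hgu]; ring
  have hdist : dist (((u, v - u), (u, z - u)) : (ℂ × ℂ) × (ℂ × ℂ)) ((c₀, 0), (c₀, 0)) < R₂ := by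
    rw [Prod.dist_eq]
    exact max_lt (lt_of_lt_of_le (key u hu v hv) (min_le_right _ _))
      (lt_of_lt_of_le (key u hu z hz) (min_le_right _ _))
  have k3 := hb₂ hdist
  simp only [hSv, hSz, sub_self, zero_sub, norm_neg] at k3
  have e7 : ((u, v - u) : ℂ × ℂ) - (u, z - u) = (v - z) • ((0, 1) : ℂ × ℂ) := by
    ext <;> simp
  rw [e7, map_smul, hS2, smul_eq_mul, norm_mul, norm_smul] at k3
  have hvz : 0 < ‖v - z‖ := norm_pos_iff.2 (sub_ne_zero.2 (Ne.symm hzv))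
  have n1 : ‖((0, 1) : ℂ × ℂ)‖ = 1 := by simp [Prod.norm_def]
  rw [n1, mul_one] at k3
  have hh0' : 0 < ‖h (c₀, 0)‖ := norm_pos_iff.2 hh0
  nlinarith

/-! ### vertices and lines of the main chain, both directions -/

/-- mirror image of a parameter -/
def fl (p : ℂ × ℂ) : ℂ × ℂ := (p.1, -p.2)

/-- vertex `b i` -/
def bp (β : ℕ → ℂ × ℂ → ℂ) (i : ℕ) (p : ℂ × ℂ) : ℂ := p.1 + p.2 * β i p

/-- vertex `b (-1-i)` -/
def bm (β : ℕ → ℂ × ℂ → ℂ) (i : ℕ) (p : ℂ × ℂ) : ℂ := bp β i (fl p)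

/-- lines `-i` -/
def lm (m : ℕ → ℂ × ℂ → ℂ) (i : ℕ) (p : ℂ × ℂ) : ℂ := m i (fl p)

/-- `r` is a good radius of the label disc, `ρ₀` of the parameter domain. -/
structure Good (g : ℂ → ℂ) (c₀ : ℂ) (N : ℕ) (β m k : ℕ → ℂ × ℂ → ℂ) (r ρ₀ : ℝ) : Prop where
  r_pos : 0 < r
  ρ_pos : 0 < ρ₀
  an : AnalyticOnNhd ℂ g (ball c₀ r)
  /-- the vertices are in the label disc -/
  mem : ∀ i ≤ N, ∀ p ∈ ball c₀ ρ₀ ×ˢ ball 0 ρ₀, bp β i p ∈ ball c₀ r
  mem' : ∀ i ≤ N, ∀ p ∈ ball c₀ ρ₀ ×ˢ ball 0 ρ₀, bm β i p ∈ ball c₀ r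
  /-- two points on each line -/
  two : ∀ i ≤ N, ∀ p ∈ ball c₀ ρ₀ ×ˢ ball 0 ρ₀, p.2 ≠ 0 → ∀ z ∈ ball c₀ r,
    g z = m i p * z + k i p → z = bp β i p ∨ z = if i = 0 then bm β 0 p else bp β (i - 1) p
  two' : ∀ i ≤ N, ∀ p ∈ ball c₀ ρ₀ ×ˢ ball 0 ρ₀, p.2 ≠ 0 → ∀ z ∈ ball c₀ r,
    g z = lm m i p * z + lm k i p → z = bm β i p ∨ z = if i = 0 then bp β 0 p else bm β (i - 1) p
  /-- all vertices are different -/
  ne : ∀ i ≤ N, ∀ j ≤ N, ∀ p ∈ ball c₀ ρ₀ ×ˢ ball 0 ρ₀, p.2 ≠ 0 → i ≠ j → bp β i p ≠ bp β j p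
  ne' : ∀ i ≤ N, ∀ j ≤ N, ∀ p ∈ ball c₀ ρ₀ ×ˢ ball 0 ρ₀, p.2 ≠ 0 → bp β i p ≠ bm β j p

theorem fl_mem {c₀ : ℂ} {ρ₀ : ℝ} {p : ℂ × ℂ} (hp : p ∈ ball c₀ ρ₀ ×ˢ ball (0 : ℂ) ρ₀) :
    fl p ∈ ball c₀ ρ₀ ×ˢ ball (0 : ℂ) ρ₀ :=
  ⟨hp.1, by simpa [fl, mem_ball_zero_iff] using hp.2⟩

theorem fl_fl (p : ℂ × ℂ) : fl (fl p) = p := by simp [fl]

theorem exists_good {g : ℂ → ℂ} {c₀ : ℂ} (hg : AnalyticAt ℂ g c₀)
    (hg2 : deriv (deriv g) c₀ ≠ 0) {N : ℕ} {ρ : ℝ} {β m k q q' : ℕ → ℂ × ℂ → ℂ}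
    (C : Chain g c₀ N ρ β m k q q') :
    ∃ r > 0, ∃ R > 0, R ≤ ρ ∧ ∀ ρ₀, 0 < ρ₀ → ρ₀ ≤ R → Good g c₀ N β m k r ρ₀ := by
  obtain ⟨r, hr, han, htwo⟩ := twopt hg hg2
  have hU : IsOpen (ball c₀ ρ ×ˢ ball (0 : ℂ) ρ) := isOpen_ball.prod isOpen_ball
  have hc : ((c₀, 0) : ℂ × ℂ) ∈ ball c₀ ρ ×ˢ ball (0 : ℂ) ρ :=
    ⟨mem_ball_self C.ρ_pos, mem_ball_self C.ρ_pos⟩
  have h1 : ∀ i ≤ N, ∀ᶠ p in 𝓝 ((c₀, 0) : ℂ × ℂ), ‖β i p - (2 * i + 1)‖ < 1 / 2 := by
    intro i hi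
    have hcont : ContinuousAt (fun p => ‖β i p - (2 * i + 1)‖) ((c₀, 0) : ℂ × ℂ) :=
      ((C.an_β i hi _ hc).continuousAt.sub continuousAt_const).norm
    refine hcont.eventually_lt continuousAt_const ?_
    rw [C.β_c i hi c₀ (mem_ball_self C.ρ_pos)]
    norm_num
  have h2 : ∀ i ≤ N, ∀ᶠ p in 𝓝 ((c₀, 0) : ℂ × ℂ), bp β i p ∈ ball c₀ r := by
    intro i hi
    have hcont : ContinuousAt (bp β i) ((c₀, 0) : ℂ × ℂ) :=
      continuousAt_fst.add (continuousAt_snd.mul (C.an_β i hi _ hc).continuousAt)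
    have e0 : bp β i ((c₀, 0) : ℂ × ℂ) ∈ ball c₀ r := by
      simpa [bp] using hr
    exact hcont.eventually (isOpen_ball.mem_nhds e0)
  have h3 : ∀ᶠ p in 𝓝 ((c₀, 0) : ℂ × ℂ), ∀ i ∈ Finset.range (N + 1),
      ‖β i p - (2 * i + 1)‖ < 1 / 2 ∧ bp β i p ∈ ball c₀ r := by
    rw [Filter.eventually_all_finset]
    intro i hi
    exact (h1 i (Nat.lt_succ_iff.1 (Finset.mem_range.1 hi))).and
      (h2 i (Nat.lt_succ_iff.1 (Finset.mem_range.1 hi)))
  obtain ⟨R, hR, hball⟩ := Metric.eventually_nhds_iff.1 h3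
  refine ⟨r, hr, min R ρ, lt_min hR C.ρ_pos, min_le_right _ _, fun ρ₀ hρ₀ hρR => ?_⟩
  have hin : ∀ p ∈ ball c₀ ρ₀ ×ˢ ball (0 : ℂ) ρ₀, p ∈ ball c₀ ρ ×ˢ ball (0 : ℂ) ρ := fun p hp =>
    ⟨ball_subset_ball (hρR.trans (min_le_right _ _)) hp.1,
      ball_subset_ball (hρR.trans (min_le_right _ _)) hp.2⟩
  have H : ∀ p ∈ ball c₀ ρ₀ ×ˢ ball (0 : ℂ) ρ₀, ∀ i ≤ N,
      ‖β i p - (2 * i + 1)‖ < 1 / 2 ∧ bp β i p ∈ ball c₀ r := by
    intro p hp i hi
    refine hball ?_ i (Finset.mem_range.2 (Nat.lt_succ_iff.2 hi))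
    refine lt_of_lt_of_le ?_ (hρR.trans (min_le_left _ _))
    rw [Prod.dist_eq]
    exact max_lt hp.1 hp.2
  have hne : ∀ i ≤ N, ∀ j ≤ N, ∀ p ∈ ball c₀ ρ₀ ×ˢ ball (0 : ℂ) ρ₀, p.2 ≠ 0 → i ≠ j →
      bp β i p ≠ bp β j p := by
    intro i hi j hj p hp h0 hij heq
    have e1 : β i p = β j p := by
      refine mul_left_cancel₀ h0 ?_
      simpa [bp] using heq
    have a1 := (H p hp i hi).1
    have a2 := (H p hp j hj).1
    rw [e1] at a1
    have e2 : ((2 * (i : ℤ) - 2 * j : ℤ) : ℂ) =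
        (β j p - (2 * j + 1)) - (β j p - (2 * i + 1)) := by push_cast; ring
    have e3 : ‖((2 * (i : ℤ) - 2 * j : ℤ) : ℂ)‖ < 1 := by
      rw [e2]
      refine lt_of_le_of_lt (norm_sub_le _ _) ?_
      linarith
    rw [Complex.norm_intCast] at e3
    have e4 : |(2 * (i : ℤ) - 2 * j)| < 1 := by exact_mod_cast e3
    rw [Int.abs_lt_one_iff] at e4
    omega
  have hne' : ∀ i ≤ N, ∀ j ≤ N, ∀ p ∈ ball c₀ ρ₀ ×ˢ ball (0 : ℂ) ρ₀, p.2 ≠ 0 →
      bp β i p ≠ bm β j p := by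
    intro i hi j hj p hp h0 heq
    have e1 : β i p + β j (fl p) = 0 := by
      refine (mul_eq_zero.1 ?_).resolve_left h0
      have : p.1 + p.2 * β i p = p.1 + -p.2 * β j (fl p) := heq
      linear_combination this
    have a1 := (H p hp i hi).1
    have a2 := (H _ (fl_mem hp) j hj).1
    have e2 : ((2 * (i : ℤ) + 2 * j + 2 : ℤ) : ℂ) =
        -(β i p - (2 * i + 1)) - (β j (fl p) - (2 * j + 1)) := by
      push_cast
      linear_combination e1
    have e3 : ‖((2 * (i : ℤ) + 2 * j + 2 : ℤ) : ℂ)‖ < 1 := by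
      rw [e2]
      refine lt_of_le_of_lt (norm_sub_le _ _) ?_
      rw [norm_neg]
      linarith
    rw [Complex.norm_intCast] at e3
    have e4 : |(2 * (i : ℤ) + 2 * j + 2)| < 1 := by exact_mod_cast e3
    rw [Int.abs_lt_one_iff] at e4
    omega
  have htw : ∀ i ≤ N, ∀ p ∈ ball c₀ ρ₀ ×ˢ ball (0 : ℂ) ρ₀, p.2 ≠ 0 → ∀ z ∈ ball c₀ r,
      g z = m i p * z + k i p → z = bp β i p ∨ z = if i = 0 then bm β 0 p else bp β (i - 1) p := by
    intro i hi p hp h0 z hz hgz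
    rcases Nat.eq_zero_or_pos i with rfl | hpos
    · simp only [if_true]
      refine htwo _ (H p hp 0 hi).2 _ (H _ (fl_mem hp) 0 hi).2 z hz (m 0 p) (k 0 p)
        (hne' 0 hi 0 hi p hp h0) (C.inc 0 hi p (hin p hp)) ?_ hgz
      have e5 : bp β 0 (fl p) = p.1 - p.2 := by
        simp [bp, fl, C.β_zero, sub_eq_add_neg]
      rw [e5]
      exact C.chord p (hin p hp)
    · obtain ⟨j, rfl⟩ : ∃ j, i = j + 1 := ⟨i - 1, by omega⟩
      simp only [Nat.succ_ne_zero, if_false, Nat.add_sub_cancel]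
      exact htwo _ (H p hp (j + 1) hi).2 _ (H p hp j (by omega)).2 z hz _ _
        (hne _ hi _ (by omega) p hp h0 (by omega)) (C.inc _ hi p (hin p hp))
        (C.inc' j (by omega) p (hin p hp)) hgz
  refine ⟨hr, hρ₀, han, fun i hi p hp => (H p hp i hi).2, fun i hi p hp =>
    (H _ (fl_mem hp) i hi).2, htw, ?_, hne, hne'⟩
  intro i hi p hp h0 z hz hgz
  have h0' : (fl p).2 ≠ 0 := by simpa [fl] using h0
  have := htw i hi (fl p) (fl_mem hp) h0' z hz hgz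
  rcases this with h | h
  · exact Or.inl h
  · right
    rw [h]
    split_ifs with hi0
    · rw [bm, fl_fl]
    · rfl

/-! ### the second chain -/

/-- a second chain of reflections on `W` with the same end lines and a different first vertex -/
structure Sec (g : ℂ → ℂ) (N : ℕ) (β m k : ℕ → ℂ × ℂ → ℂ) (W : Set (ℂ × ℂ))
    (b' : ℕ → ℂ × ℂ → ℂ) (x' : ℕ → ℕ → ℂ × ℂ → ℂ) (m' k' : ℕ → ℂ × ℂ → ℂ) : Prop where
  an_b : ∀ j < N, AnalyticOnNhd ℂ (b' j) W
  an_x0 : ∀ j < N, AnalyticOnNhd ℂ (x' j 0) W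
  an_x1 : ∀ j < N, AnalyticOnNhd ℂ (x' j 1) W
  inc : ∀ j < N, ∀ p ∈ W, x' j 0 p = m' j p * b' j p + k' j p
  inc' : ∀ j < N, ∀ p ∈ W, x' j 0 p = m' (j + 1) p * b' j p + k' (j + 1) p
  refl : ∀ j < N, ∀ p ∈ W, m' (j + 1) p * m' j p = x' j 1 p ^ 2
  m_ne : ∀ j < N, ∀ p ∈ W, m' j p ≠ 0
  dx : ∀ j < N, ∀ p ∈ W, fderiv ℂ (x' j 0) p = x' j 1 p • fderiv ℂ (b' j) p
  db : ∀ j < N, ∃ p ∈ W, fderiv ℂ (b' j) p ≠ 0
  ne : ∀ j, j + 1 < N → ∃ p ∈ W, b' (j + 1) p ≠ b' j p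
  start_m : ∀ p ∈ W, m' 0 p = m 0 p
  start_k : ∀ p ∈ W, k' 0 p = k 0 p
  end_m : ∀ p ∈ W, m' N p = m N p
  end_k : ∀ p ∈ W, k' N p = k N p
  ne₀ : ∃ p ∈ W, b' 0 p ≠ bp β 0 p

/-- the state of the run after `a` steps on the ball `B` -/
def Ran (g : ℂ → ℂ) (β m k : ℕ → ℂ × ℂ → ℂ) (b' : ℕ → ℂ × ℂ → ℂ) (x' : ℕ → ℕ → ℂ × ℂ → ℂ)
    (m' k' : ℕ → ℂ × ℂ → ℂ) (a : ℕ) (B : Set (ℂ × ℂ)) : Prop :=
  (∀ i < a, ∀ p ∈ B, b' i p = bm β i p ∧ x' i 0 p = g (bm β i p) ∧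
    x' i 1 p = deriv g (bm β i p)) ∧
  ∀ p ∈ B, m' a p = lm m a p ∧ k' a p = lm k a p

/-- two analytic functions on a preconnected open set which agree near one point -/
theorem eqOn_of_eventually {f h : ℂ × ℂ → ℂ} {W : Set (ℂ × ℂ)} (hW : IsPreconnected W)
    (hf : AnalyticOnNhd ℂ f W) (hh : AnalyticOnNhd ℂ h W) {p : ℂ × ℂ} (hp : p ∈ W)
    (he : ∀ᶠ q in 𝓝 p, f q = h q) : ∀ q ∈ W, f q = h q :=
  hf.eqOn_of_preconnected_of_eventuallyEq hh hW hp he

/-- product of two analytic functions zero on a ball ⇒ one factor is zero -/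
theorem factor {f h : ℂ × ℂ → ℂ} {p₀ : ℂ × ℂ} {ε : ℝ}
    (hf : AnalyticOnNhd ℂ f (ball p₀ ε)) (hh : AnalyticOnNhd ℂ h (ball p₀ ε))
    (h0 : ∀ q ∈ ball p₀ ε, f q = 0 ∨ h q = 0) :
    (∀ q ∈ ball p₀ ε, f q = 0) ∨ ∀ q ∈ ball p₀ ε, h q = 0 := by
  by_cases hall : ∀ q ∈ ball p₀ ε, f q = 0
  · exact Or.inl hall
  push Not at hall
  obtain ⟨q, hq, hfq⟩ := hall
  right
  have hpre : IsPreconnected (ball p₀ ε) := (convex_ball p₀ ε).isPreconnected
  refine eqOn_of_eventually (h := fun _ => 0) hpre hh analyticOnNhd_const hq ?_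
  filter_upwards [isOpen_ball.mem_nhds hq, (hf q hq).continuousAt.eventually_ne hfq] with x hx hx1
  exact (h0 x hx).resolve_left hx1

theorem run {g : ℂ → ℂ} {c₀ : ℂ} {N : ℕ} {ρ : ℝ} {β m k q q' : ℕ → ℂ × ℂ → ℂ}
    (C : Chain g c₀ N ρ β m k q q') {r ρ₀ : ℝ} (hρ : ρ₀ ≤ ρ) (G : Good g c₀ N β m k r ρ₀)
    (hN : 0 < N) {W : Set (ℂ × ℂ)} (hWo : IsOpen W) (hWn : W.Nonempty) (hWc : IsPreconnected W)
    (hWU : W ⊆ ball c₀ ρ₀ ×ˢ ball (0 : ℂ) ρ₀) (hW0 : ∀ p ∈ W, p.2 ≠ 0)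
    {b' : ℕ → ℂ × ℂ → ℂ} {x' : ℕ → ℕ → ℂ × ℂ → ℂ} {m' k' : ℕ → ℂ × ℂ → ℂ}
    (S : Sec g N β m k W b' x' m' k') :
    ∃ a < N, ∃ p₀ ∈ W, ∃ ε > 0, ball p₀ ε ⊆ W ∧ Ran g β m k b' x' m' k' a (ball p₀ ε) ∧
      ∀ p ∈ ball p₀ ε, ¬ (b' a p ∈ ball c₀ r ∧ x' a 0 p = g (b' a p)) := by
  by_contra hcon
  push Not at hcon
  have hin : ∀ p ∈ ball c₀ ρ₀ ×ˢ ball (0 : ℂ) ρ₀, p ∈ ball c₀ ρ ×ˢ ball (0 : ℂ) ρ := fun p hp =>
    ⟨ball_subset_ball hρ hp.1, ball_subset_ball hρ hp.2⟩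
  have han_fl : ∀ p, AnalyticAt ℂ fl p := fun p => analyticAt_fst.prod analyticAt_snd.neg
  have han_bp : ∀ i ≤ N, ∀ p ∈ ball c₀ ρ₀ ×ˢ ball (0 : ℂ) ρ₀, AnalyticAt ℂ (bp β i) p :=
    fun i hi p hp => analyticAt_fst.add (analyticAt_snd.mul (C.an_β i hi p (hin p hp)))
  have han_bm : ∀ i ≤ N, ∀ p ∈ ball c₀ ρ₀ ×ˢ ball (0 : ℂ) ρ₀, AnalyticAt ℂ (bm β i) p :=
    fun i hi p hp => AnalyticAt.fun_comp (g := bp β i) (f := fl)
      (han_bp i hi _ (fl_mem hp)) (han_fl p)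
  -- induction
  have step : ∀ a, a ≤ N → ∃ p₀ ∈ W, ∃ ε > 0, ball p₀ ε ⊆ W ∧
      Ran g β m k b' x' m' k' a (ball p₀ ε) := by
    intro a
    induction a with
    | zero =>
      intro _
      obtain ⟨p₀, hp₀⟩ := hWn
      obtain ⟨ε, hε, hb⟩ := Metric.isOpen_iff.1 hWo p₀ hp₀
      refine ⟨p₀, hp₀, ε, hε, hb, fun i hi => absurd hi (Nat.not_lt_zero i), fun p hp => ?_⟩
      have hpW := hb hp
      have hpU := hin p (hWU hpW)
      rw [S.start_m p hpW, S.start_k p hpW]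
      exact ⟨(C.even_m p hpU).symm, (C.even_k p hpU).symm⟩
    | succ a ih =>
      intro ha
      obtain ⟨p₀, hp₀, ε, hε, hb, hR⟩ := ih (by omega)
      obtain ⟨p₁, hp₁, hV, hG⟩ := hcon a (by omega) p₀ hp₀ ε hε hb hR
      have hp₁W := hb hp₁
      -- a ball on which `b' a` has values in the label disc
      have hcV : ∀ᶠ p in 𝓝 p₁, b' a p ∈ ball c₀ r :=
        (S.an_b a (by omega) p₁ hp₁W).continuousAt.eventually (isOpen_ball.mem_nhds hV)
      obtain ⟨δ, hδ, hbδ⟩ := Metric.eventually_nhds_iff_ball.1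
        (hcV.and (isOpen_ball.mem_nhds hp₁))
      have hBW : ball p₁ δ ⊆ W := fun p hp => hb (hbδ p hp).2
      have hRδ : Ran g β m k b' x' m' k' a (ball p₁ δ) :=
        ⟨fun i hi p hp => hR.1 i hi p (hbδ p hp).2, fun p hp => hR.2 p (hbδ p hp).2⟩
      -- on gamma identically
      have hid : ∀ p ∈ ball p₁ δ, x' a 0 p = g (b' a p) := by
        by_contra hne
        push Not at hne
        obtain ⟨p₂, hp₂, hne₂⟩ := hne
        have hcont : ContinuousAt (fun p => x' a 0 p - g (b' a p)) p₂ :=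
          (S.an_x0 a (by omega) p₂ (hBW hp₂)).continuousAt.sub
            (ContinuousAt.comp (f := b' a) (g := g)
              (G.an _ (hbδ p₂ hp₂).1).continuousAt
              (S.an_b a (by omega) p₂ (hBW hp₂)).continuousAt)
        have hev := hcont.eventually_ne (sub_ne_zero.2 hne₂)
        obtain ⟨δ', hδ', hbδ'⟩ := Metric.eventually_nhds_iff_ball.1
          (hev.and (isOpen_ball.mem_nhds hp₂))
        obtain ⟨p₃, hp₃, -, h₃⟩ := hcon a (by omega) p₂ (hBW hp₂) δ' hδ'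
          (fun p hp => hBW (hbδ' p hp).2)
          ⟨fun i hi p hp => hRδ.1 i hi p (hbδ' p hp).2, fun p hp => hRδ.2 p (hbδ' p hp).2⟩
        exact (hbδ' p₃ hp₃).1 (sub_eq_zero.2 h₃)
      -- the two points
      have htwo : ∀ p ∈ ball p₁ δ, b' a p = bm β a p ∨
          b' a p = if a = 0 then bp β 0 p else bm β (a - 1) p := by
        intro p hp
        refine G.two' a (by omega) p (hWU (hBW hp)) (hW0 p (hBW hp)) _ (hbδ p hp).1 ?_
        rw [← hid p hp, S.inc a (by omega) p (hBW hp), (hRδ.2 p hp).1, (hRδ.2 p hp).2]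
      have hbid : ∀ p ∈ ball p₁ δ, b' a p = bm β a p := by
        have h1 : AnalyticOnNhd ℂ (fun p => b' a p - bm β a p) (ball p₁ δ) := fun p hp =>
          (S.an_b a (by omega) p (hBW hp)).sub (han_bm a (by omega) p (hWU (hBW hp)))
        rcases Nat.eq_zero_or_pos a with rfl | hpos
        · have h2 : AnalyticOnNhd ℂ (fun p => b' 0 p - bp β 0 p) (ball p₁ δ) := fun p hp =>
            (S.an_b 0 (by omega) p (hBW hp)).sub (han_bp 0 (by omega) p (hWU (hBW hp)))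
          rcases factor h1 h2 (fun p hp => by
            rcases htwo p hp with h | h
            · left; rw [h, sub_self]
            · right; rw [h, if_pos rfl, sub_self]) with h | h
          · exact fun p hp => sub_eq_zero.1 (h p hp)
          · exfalso
            obtain ⟨p₅, hp₅, hne₅⟩ := S.ne₀
            refine hne₅ (eqOn_of_eventually hWc (S.an_b 0 (by omega))
              (fun p hp => han_bp 0 (by omega) p (hWU hp)) (p := p₁) hp₁W ?_ p₅ hp₅)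
            filter_upwards [ball_mem_nhds p₁ hδ] with p hp
            exact sub_eq_zero.1 (h p hp)
        · obtain ⟨j, rfl⟩ : ∃ j, a = j + 1 := ⟨a - 1, by omega⟩
          have h2 : AnalyticOnNhd ℂ (fun p => b' (j + 1) p - b' j p) (ball p₁ δ) := fun p hp =>
            (S.an_b (j + 1) (by omega) p (hBW hp)).sub (S.an_b j (by omega) p (hBW hp))
          rcases factor h1 h2 (fun p hp => by
            rcases htwo p hp with h | h
            · left; rw [h, sub_self]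
            · right
              rw [h, if_neg (Nat.succ_ne_zero j), Nat.add_sub_cancel,
                (hRδ.1 j (Nat.lt_succ_self j) p hp).1, sub_self]) with h | h
          · exact fun p hp => sub_eq_zero.1 (h p hp)
          · exfalso
            obtain ⟨p₅, hp₅, hne₅⟩ := S.ne j (by omega)
            refine hne₅ (eqOn_of_eventually hWc (S.an_b (j + 1) (by omega))
              (S.an_b j (by omega)) (p := p₁) hp₁W ?_ p₅ hp₅)
            filter_upwards [ball_mem_nhds p₁ hδ] with p hp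
            exact sub_eq_zero.1 (h p hp)
      -- slopes
      have hx1 : ∀ p ∈ ball p₁ δ, x' a 1 p = deriv g (b' a p) := by
        have hpre : IsPreconnected (ball p₁ δ) := (convex_ball p₁ δ).isPreconnected
        have hmain : ∀ p ∈ ball p₁ δ,
            (x' a 1 p - deriv g (b' a p)) • fderiv ℂ (b' a) p = 0 := by
          intro p hp
          have e1 : fderiv ℂ (x' a 0) p = deriv g (b' a p) • fderiv ℂ (b' a) p := by
            have e2 : x' a 0 =ᶠ[𝓝 p] fun y => g (b' a y) := by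
              filter_upwards [isOpen_ball.mem_nhds hp] with y hy using hid y hy
            rw [e2.fderiv_eq]
            have e3 : HasFDerivAt (fun y => g (b' a y)) (deriv g (b' a p) • fderiv ℂ (b' a) p) p :=
              (G.an _ (hbδ p hp).1).differentiableAt.hasDerivAt.comp_hasFDerivAt p
                (S.an_b a (by omega) p (hBW hp)).differentiableAt.hasFDerivAt
            exact e3.fderiv
          have e6 := (S.dx a (by omega) p (hBW hp)).symm.trans e1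
          refine ContinuousLinearMap.ext fun v => ?_
          have e7 : x' a 1 p * fderiv ℂ (b' a) p v = deriv g (b' a p) * fderiv ℂ (b' a) p v :=
            congrArg (fun L : ℂ × ℂ →L[ℂ] ℂ => L v) e6
          change (x' a 1 p - deriv g (b' a p)) * fderiv ℂ (b' a) p v = 0
          rw [sub_mul, e7, sub_self]
        -- a direction in which `b' a` moves
        obtain ⟨p₅, hp₅, hne₅⟩ := S.db a (by omega)
        obtain ⟨v, hv⟩ : ∃ v, fderiv ℂ (b' a) p₅ v ≠ 0 := by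
          by_contra hall
          push Not at hall
          exact hne₅ (by ext <;> simp [hall])
        have hanv : AnalyticOnNhd ℂ (fun p => fderiv ℂ (b' a) p v) W := fun p hp =>
          (ContinuousLinearMap.apply ℂ ℂ v).analyticAt _ |>.comp
            (S.an_b a (by omega) p hp).fderiv
        have hx : AnalyticOnNhd ℂ (fun p => x' a 1 p - deriv g (b' a p)) (ball p₁ δ) := fun p hp =>
          (S.an_x1 a (by omega) p (hBW hp)).sub
            (AnalyticAt.fun_comp (g := deriv g) (f := b' a) (G.an _ (hbδ p hp).1).deriv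
              (S.an_b a (by omega) p (hBW hp)))
        rcases factor hx (fun p hp => hanv p (hBW hp)) (fun p hp => by
          have := congrArg (fun L : ℂ × ℂ →L[ℂ] ℂ => L v) (hmain p hp)
          simpa [mul_eq_zero] using this) with h | h
        · exact fun p hp => sub_eq_zero.1 (h p hp)
        · exfalso
          refine hv (eqOn_of_eventually (h := fun _ => 0) hWc hanv analyticOnNhd_const
            (p := p₁) hp₁W ?_ p₅ hp₅)
          filter_upwards [ball_mem_nhds p₁ hδ] with p hp using h p hp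
      refine ⟨p₁, hp₁W, δ, hδ, hBW, ⟨fun i hi p hp => ?_, fun p hp => ?_⟩⟩
      · rcases Nat.lt_succ_iff_lt_or_eq.1 hi with hlt | rfl
        · exact hRδ.1 i hlt p hp
        · refine ⟨hbid p hp, ?_, ?_⟩
          · rw [hid p hp, hbid p hp]
          · rw [hx1 p hp, hbid p hp]
      · have hpW := hBW hp
        have hpU := hin _ (fl_mem (hWU hpW))
        have e1 := S.refl a (by omega) p hpW
        have e2 := C.refl a (by omega) (fl p) hpU
        have e3 := C.inc' a (by omega) (fl p) hpU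
        have e4 := S.inc' a (by omega) p hpW
        have hm0 := S.m_ne a (by omega) p hpW
        rw [hx1 p hp, hbid p hp] at e1
        have hm1 : m' (a + 1) p = lm m (a + 1) p := by
          refine mul_right_cancel₀ hm0 ?_
          rw [e1, (hRδ.2 p hp).1]
          exact e2.symm
        refine ⟨hm1, ?_⟩
        rw [hid p hp, hbid p hp, hm1] at e4
        have e5 : g (bm β a p) = lm m (a + 1) p * bm β a p + lm k (a + 1) p := e3
        linear_combination e5 - e4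
  obtain ⟨p₀, hp₀, ε, hε, hb, hR⟩ := step N le_rfl
  have hpU := hWU hp₀
  have hz := G.mem N le_rfl p₀ hpU
  have hR2 := hR.2 p₀ (mem_ball_self hε)
  rw [S.end_m p₀ hp₀, S.end_k p₀ hp₀] at hR2
  have := G.two' N le_rfl p₀ hpU (hW0 p₀ hp₀) _ hz (by
    rw [← hR2.1, ← hR2.2]
    exact C.inc N le_rfl p₀ (hin p₀ hpU))
  rcases this with h | h
  · exact G.ne' N le_rfl N le_rfl p₀ hpU (hW0 p₀ hp₀) h
  · rw [if_neg (by omega)] at h
    exact G.ne' N le_rfl (N - 1) (by omega) p₀ hpU (hW0 p₀ hp₀) h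

end Crest.Agent.R102.Run58
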