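import Mathlib
import Crest.Agent.R102.C0Defs_821
import Crest.Agent.R102.F7_389
import Crest.Agent.R102.Run_58
import Crest.Agent.R102.Mer_88
import Crest.Agent.R266.Osgood

/-!
Row 102, (RAT), R7, MATCH (literal of helper217 #25885): the chain of the family of lines
`LineFam` (coordinates `(t, w)`, base point `t = 0`) is the chain of F7 (coordinates `(c, ω)` = half
sum, half difference of the isotropic coordinate `Zs q (-1)` of the two vertices of the first line).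

* `exists_g` : the mirror as a graph `Zs q 1 = g (Zs q (-1))` near `0`;
* `match_chain` : equality of the two chains;
* `phi_inv` : `Phi q b` is a local biholomorphism at `(0, 0)`.
-/

set_option autoImplicit false

open Set Filter Topology Metric
open Crest.Agent.R266

noncomputable section

namespace Crest.Agent.R102.Match337

open Crest.Agent.R102.T5 Crest.Agent.R102.G576 Crest.Agent.R102.A929 Crest.Agent.R102.B821
open Crest.Agent.R102.C0

/-! ### the mirror as a graph -/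

section curve

variable {q : C(ℂ, ℂ)} {η : ℝ}

lemma zero_mem (hd : Datum q η) : (0 : ℂ) ∈ Str η := by
  change |(0 : ℂ).im| < η
  simpa using hd.η_pos

lemma Tc_zero : Tc q 0 = 0 := prim_zero _

lemma Zs_zero (s : ℂ) : Zs q s 0 = 0 := prim_zero _

lemma an_Zs (hd : Datum q η) (s : ℂ) {z : ℂ} (hz : z ∈ Str η) : AnalyticAt ℂ (Zs q s) z :=
  (hd.Zs_diff s).analyticAt ((isOpen_Str η).mem_nhds hz)

lemma an_Tc (hd : Datum q η) {z : ℂ} (hz : z ∈ Str η) : AnalyticAt ℂ (Tc q) z :=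
  hd.Tc_diff.analyticAt ((isOpen_Str η).mem_nhds hz)

lemma vel_ne (s z : ℂ) : C0.vel q s z ≠ 0 := Complex.exp_ne_zero _

lemma vel_eq (z : ℂ) :
    C0.vel q 1 z = Complex.exp (2 * Complex.I * Tc q z) * C0.vel q (-1) z := by
  unfold C0.vel
  rw [← Complex.exp_add]
  congr 1
  ring

lemma local_inv {f : ℂ → ℂ} {c : ℂ} (hf : AnalyticAt ℂ f c) {a : ℂ} (ha : a ≠ 0)
    (hd : HasDerivAt f a c) :
    ∃ ψ : ℂ → ℂ, AnalyticAt ℂ ψ (f c) ∧ ψ (f c) = c ∧ ∀ᶠ z in 𝓝 c, ψ (f z) = z := by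
  obtain ⟨e, he1, -, he2, -, he3⟩ := SCV.exists_analytic_openPartialHomeomorph hf
    (ContinuousLinearEquiv.unitsEquivAut ℂ (Units.mk0 a ha)) (hd.hasFDerivAt_equiv ha) univ_mem
  have htar : f c ∈ e.target := by rw [← he2]; exact e.map_source he1
  refine ⟨e.symm, he3 _ htar, ?_, ?_⟩
  · rw [← he2, e.left_inv he1]
  · filter_upwards [e.open_source.mem_nhds he1] with z hz
    rw [← he2, e.left_inv hz]

/-- slope of the mirror -/
lemma deriv_g (hd : Datum q η) {g : ℂ → ℂ} (hg : AnalyticAt ℂ g 0)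
    (hgZ : ∀ᶠ z in 𝓝 (0 : ℂ), g (Zs q (-1) z) = Zs q 1 z) :
    ∀ᶠ z in 𝓝 (0 : ℂ), deriv g (Zs q (-1) z) = Complex.exp (2 * Complex.I * Tc q z) := by
  have h0 : Tendsto (Zs q (-1)) (𝓝 0) (𝓝 0) := by
    have := (an_Zs hd (-1) (zero_mem hd)).continuousAt.tendsto
    rwa [Zs_zero] at this
  filter_upwards [hgZ.eventually_nhds, h0.eventually hg.eventually_analyticAt,
    (isOpen_Str η).mem_nhds (zero_mem hd)] with z h1 h2 h3
  have e1 : HasDerivAt (fun z => g (Zs q (-1) z)) (deriv g (Zs q (-1) z) * C0.vel q (-1) z) z :=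
    h2.differentiableAt.hasDerivAt.comp z (hd.hasDerivAt_Zs (-1) h3)
  have e2 : HasDerivAt (fun z => g (Zs q (-1) z)) (C0.vel q 1 z) z :=
    (hd.hasDerivAt_Zs 1 h3).congr_of_eventuallyEq h1
  have e3 := e1.unique e2
  rw [vel_eq] at e3
  exact mul_right_cancel₀ (vel_ne _ _) e3

/-- **(M1)** the mirror is a graph near `0` -/
theorem exists_g (hd : Datum q η) : ∃ g : ℂ → ℂ, AnalyticAt ℂ g 0 ∧ deriv g 0 ≠ 0 ∧
    deriv (deriv g) 0 ≠ 0 ∧ ∀ᶠ z in 𝓝 (0 : ℂ), g (Zs q (-1) z) = Zs q 1 z := by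
  have h0 := zero_mem hd
  obtain ⟨ψ, h1, h2, h3⟩ := local_inv (an_Zs hd (-1) h0) (vel_ne (-1) 0) (hd.hasDerivAt_Zs (-1) h0)
  rw [Zs_zero] at h1 h2
  have hg : AnalyticAt ℂ (fun y => Zs q 1 (ψ y)) 0 := by
    refine AnalyticAt.fun_comp (g := Zs q 1) ?_ h1
    rw [h2]; exact an_Zs hd 1 h0
  have hgZ : ∀ᶠ z in 𝓝 (0 : ℂ), (fun y => Zs q 1 (ψ y)) (Zs q (-1) z) = Zs q 1 z := by
    filter_upwards [h3] with z hz
    simp only [hz]
  set g : ℂ → ℂ := fun y => Zs q 1 (ψ y) with hgdef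
  have h4 := deriv_g hd hg hgZ
  have h5 : deriv g 0 = 1 := by
    have := h4.self_of_nhds
    rwa [Zs_zero, Tc_zero, mul_zero, Complex.exp_zero] at this
  refine ⟨g, hg, by rw [h5]; exact one_ne_zero, ?_, hgZ⟩
  intro h6
  have hg' : HasDerivAt (deriv g) (deriv (deriv g) 0) (Zs q (-1) 0) := by
    rw [Zs_zero]; exact hg.deriv.differentiableAt.hasDerivAt
  have e1 : HasDerivAt (fun z => deriv g (Zs q (-1) z)) (deriv (deriv g) 0 * C0.vel q (-1) 0) 0 :=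
    hg'.comp (0 : ℂ) (hd.hasDerivAt_Zs (-1) h0)
  have e2 : HasDerivAt (fun z => Complex.exp (2 * Complex.I * Tc q z))
      (Complex.exp (2 * Complex.I * Tc q 0) * (2 * Complex.I * Complex.exp (q 0))) 0 :=
    ((hd.hasDerivAt_Tc h0).const_mul (2 * Complex.I)).cexp
  have e3 := e1.unique (e2.congr_of_eventuallyEq h4)
  rw [h6, zero_mul] at e3
  have e4 : Complex.exp (2 * Complex.I * Tc q 0) * (2 * Complex.I * Complex.exp (q 0)) ≠ 0 :=
    mul_ne_zero (Complex.exp_ne_zero _) (mul_ne_zero (mul_ne_zero two_ne_zero Complex.I_ne_zero)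
      (Complex.exp_ne_zero _))
  exact e4 e3.symm

end curve

/-! ### the change of coordinates -/

section phi

variable {q : C(ℂ, ℂ)} {η ρ r B : ℝ} {b φ p : ℂ × ℂ → ℂ} {m₀ : ℂ → ℂ}

/-- isotropic coordinate of the vertex with label `b x` -/
def Fv (q : C(ℂ, ℂ)) (b : ℂ × ℂ → ℂ) (x : ℂ × ℂ) : ℂ := Zs q (-1) (b x)

def Bp (q : C(ℂ, ℂ)) (b : ℂ × ℂ → ℂ) (x : ℂ × ℂ) : ℂ := Zs q (-1) (b (x.1 + x.2 / 2, x.2))

def Bm (q : C(ℂ, ℂ)) (b : ℂ × ℂ → ℂ) (x : ℂ × ℂ) : ℂ := Zs q (-1) (b (x.1 - x.2 / 2, x.2))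

def Phi (q : C(ℂ, ℂ)) (b : ℂ × ℂ → ℂ) (x : ℂ × ℂ) : ℂ × ℂ :=
  ((Bp q b x + Bm q b x) / 2, (Bp q b x - Bm q b x) / 2)

lemma isOpen_PD (ρ r : ℝ) : IsOpen (PD ρ r) := by
  have h1 : IsOpen {p : ℂ × ℂ | |p.1.im| < ρ} :=
    isOpen_lt (by fun_prop) continuous_const
  have h2 : IsOpen {p : ℂ × ℂ | ‖p.2‖ < r} := isOpen_lt (by fun_prop) continuous_const
  exact h1.inter h2

variable (hF : LineFam q η ρ r B b φ p m₀)

include hF

lemma zero_PD : ((0, 0) : ℂ × ℂ) ∈ PD ρ r := by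
  refine ⟨?_, ?_⟩
  · simpa using hF.ρ_pos
  · simpa using hF.r_pos

lemma b_zero (t : ℂ) (ht : |t.im| < ρ) : b (t, 0) = t := by
  have h1 := hF.b_near (t, 0) ⟨ht, by simpa using hF.r_pos⟩
  simp only [norm_zero, ne_eq, OfNat.ofNat_ne_zero, not_false_eq_true, zero_pow, mul_zero] at h1
  have h2 := norm_le_zero_iff.1 h1
  exact sub_eq_zero.1 h2

lemma b_zero' : b (0, 0) = 0 := b_zero hF 0 (by simpa using hF.ρ_pos)

lemma an_b {x : ℂ × ℂ} (hx : x ∈ PD ρ r) : AnalyticAt ℂ b x :=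
  SCV.analyticOnNhd_of_differentiableOn (isOpen_PD ρ r) hF.b_diff x hx

lemma hasFDerivAt_b : HasFDerivAt b (ContinuousLinearMap.fst ℂ ℂ ℂ) (0, 0) := by
  have h0 := zero_PD hF
  rw [hasFDerivAt_iff_isLittleO_nhds_zero]
  have h1 : (fun h : ℂ × ℂ => b ((0, 0) + h) - b (0, 0) - (ContinuousLinearMap.fst ℂ ℂ ℂ) h)
      =O[𝓝 0] fun h => ‖h‖ ^ 2 := by
    refine Asymptotics.IsBigO.of_bound |B| ?_
    have h2 : PD ρ r ∈ 𝓝 (0 : ℂ × ℂ) := (isOpen_PD ρ r).mem_nhds h0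
    filter_upwards [h2] with h hh
    have h3 := hF.b_near h hh
    have e1 : ((0, 0) : ℂ × ℂ) + h = h := by
      rw [show ((0, 0) : ℂ × ℂ) = 0 from rfl, zero_add]
    rw [e1, b_zero' hF, sub_zero, ContinuousLinearMap.coe_fst', norm_pow, norm_norm]
    calc ‖b h - h.1‖ ≤ B * ‖h.2‖ ^ 2 := h3
      _ ≤ |B| * ‖h.2‖ ^ 2 := by gcongr; exact le_abs_self B
      _ ≤ |B| * ‖h‖ ^ 2 := by gcongr; exact norm_snd_le h
  refine h1.trans_isLittleO ?_
  have h4 : (fun h : ℂ × ℂ => ‖h‖ ^ 2) =o[𝓝 0] fun h => h := by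
    have := Asymptotics.isLittleO_norm_pow_id (E' := ℂ × ℂ) (n := 2) one_lt_two
    exact this
  exact h4

lemma an_Fv {x : ℂ × ℂ} (hx : x ∈ PD ρ r) (hb : b x ∈ Str η) : AnalyticAt ℂ (Fv q b) x :=
  AnalyticAt.fun_comp (g := Zs q (-1)) (an_Zs hF.dat (-1) hb) (an_b hF hx)

lemma an_Fv0 : AnalyticAt ℂ (Fv q b) (0, 0) :=
  an_Fv hF (zero_PD hF) (by rw [b_zero' hF]; exact zero_mem hF.dat)

lemma hasFDerivAt_Fv : HasFDerivAt (Fv q b)
    (C0.vel q (-1) 0 • ContinuousLinearMap.fst ℂ ℂ ℂ) (0, 0) := by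
  have h1 : HasDerivAt (Zs q (-1)) (C0.vel q (-1) 0) (b (0, 0)) := by
    rw [b_zero' hF]; exact hF.dat.hasDerivAt_Zs (-1) (zero_mem hF.dat)
  exact h1.comp_hasFDerivAt (0, 0) (hasFDerivAt_b hF)

lemma hasStrictFDerivAt_Fv : HasStrictFDerivAt (Fv q b)
    (C0.vel q (-1) 0 • ContinuousLinearMap.fst ℂ ℂ ℂ) (0, 0) := by
  have h1 := (an_Fv0 hF).hasStrictFDerivAt
  rwa [(hasFDerivAt_Fv hF).fderiv] at h1

lemma Fv_zero : Fv q b (0, 0) = 0 := by
  unfold Fv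
  rw [b_zero' hF, Zs_zero]

/-- the shear `(t, w) ↦ (t + a w, w)` -/
def sh (a : ℂ) : ℂ × ℂ →L[ℂ] ℂ × ℂ :=
  (ContinuousLinearMap.fst ℂ ℂ ℂ + a • ContinuousLinearMap.snd ℂ ℂ ℂ).prod
    (ContinuousLinearMap.snd ℂ ℂ ℂ)

omit hF in
@[simp] lemma sh_apply (a : ℂ) (x : ℂ × ℂ) : sh a x = (x.1 + a * x.2, x.2) := rfl

omit hF in
lemma sh_zero (a : ℂ) : sh a (0, 0) = (0, 0) := by simp

omit hF in
lemma tendsto_sh (a : ℂ) : Tendsto (sh a) (𝓝 (0, 0)) (𝓝 (0, 0)) := by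
  have := (sh a).continuous.tendsto (0, 0)
  rwa [sh_zero] at this

omit hF in
lemma Bp_eq : Bp q b = fun x => Fv q b (sh (1 / 2) x) := by
  funext x
  simp only [Bp, Fv, sh_apply]
  congr 3
  ring

omit hF in
lemma Bm_eq : Bm q b = fun x => Fv q b (sh (-1 / 2) x) := by
  funext x
  simp only [Bm, Fv, sh_apply]
  congr 3
  ring

lemma an_sh (a : ℂ) : AnalyticAt ℂ (fun x => Fv q b (sh a x)) (0, 0) := by
  refine AnalyticAt.fun_comp (g := Fv q b) (f := fun x => sh a x) ?_ ((sh a).analyticAt _)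
  rw [sh_zero]; exact an_Fv0 hF

lemma hasFDerivAt_sh (a : ℂ) : HasFDerivAt (fun x => Fv q b (sh a x))
    ((C0.vel q (-1) 0 • ContinuousLinearMap.fst ℂ ℂ ℂ).comp (sh a)) (0, 0) := by
  have h1 : HasFDerivAt (Fv q b) (C0.vel q (-1) 0 • ContinuousLinearMap.fst ℂ ℂ ℂ)
      (sh a (0, 0)) := by rw [sh_zero]; exact hasFDerivAt_Fv hF
  exact h1.comp (0, 0) (sh a).hasFDerivAt

lemma an_Phi : AnalyticAt ℂ (Phi q b) (0, 0) := by
  have h1 := an_sh hF (1 / 2)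
  have h2 := an_sh hF (-1 / 2)
  rw [← Bp_eq] at h1
  rw [← Bm_eq] at h2
  have h3 : AnalyticAt ℂ (fun x => ((Bp q b x + Bm q b x) * (1 / 2 : ℂ),
      (Bp q b x - Bm q b x) * (1 / 2 : ℂ))) (0, 0) :=
    ((h1.add h2).mul analyticAt_const).prod ((h1.sub h2).mul analyticAt_const)
  refine h3.congr (Eventually.of_forall fun x => ?_)
  simp only [Phi]
  ext <;> simp <;> ring

lemma Phi_zero : Phi q b (0, 0) = (0, 0) := by
  have h1 : Bp q b (0, 0) = 0 := by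
    rw [Bp_eq]; simp only [sh_zero]; exact Fv_zero hF
  have h2 : Bm q b (0, 0) = 0 := by
    rw [Bm_eq]; simp only [sh_zero]; exact Fv_zero hF
  simp [Phi, h1, h2]

/-- the derivative of `Phi` at `(0, 0)` -/
def dPhi (a : ℂ) (ha : a ≠ 0) : (ℂ × ℂ) ≃L[ℂ] (ℂ × ℂ) :=
  ContinuousLinearEquiv.equivOfInverse
    ((a • ContinuousLinearMap.fst ℂ ℂ ℂ).prod ((a / 2) • ContinuousLinearMap.snd ℂ ℂ ℂ))
    ((a⁻¹ • ContinuousLinearMap.fst ℂ ℂ ℂ).prod ((a⁻¹ * 2) • ContinuousLinearMap.snd ℂ ℂ ℂ))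
    (by
      rintro ⟨x, y⟩
      ext
      · simp only [ContinuousLinearMap.prod_apply, FunLike.coe_smul, Pi.smul_apply,
          ContinuousLinearMap.coe_fst', smul_eq_mul]
        field_simp
      · simp only [ContinuousLinearMap.prod_apply, FunLike.coe_smul, Pi.smul_apply,
          ContinuousLinearMap.coe_snd', smul_eq_mul]
        field_simp)
    (by
      rintro ⟨x, y⟩
      ext
      · simp only [ContinuousLinearMap.prod_apply, FunLike.coe_smul, Pi.smul_apply,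
          ContinuousLinearMap.coe_fst', smul_eq_mul]
        field_simp
      · simp only [ContinuousLinearMap.prod_apply, FunLike.coe_smul, Pi.smul_apply,
          ContinuousLinearMap.coe_snd', smul_eq_mul]
        field_simp)

lemma hasFDerivAt_Phi :
    HasFDerivAt (Phi q b) (dPhi (C0.vel q (-1) 0) (vel_ne _ _) : (ℂ × ℂ) →L[ℂ] (ℂ × ℂ)) (0, 0) := by
  have h1 := hasFDerivAt_sh hF (1 / 2)
  have h2 := hasFDerivAt_sh hF (-1 / 2)
  rw [← Bp_eq] at h1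
  rw [← Bm_eq] at h2
  have h3 := ((h1.add h2).const_smul (1 / 2 : ℂ)).prodMk ((h1.sub h2).const_smul (1 / 2 : ℂ))
  have e1 : Phi q b = fun x => ((1 / 2 : ℂ) • (Bp q b x + Bm q b x),
      (1 / 2 : ℂ) • (Bp q b x - Bm q b x)) := by
    funext x
    simp only [Phi, smul_eq_mul]
    ext <;> simp <;> ring
  rw [e1]
  refine h3.congr_fderiv ?_
  ext <;> simp [dPhi] <;> ring

/-- **(M3)** `Phi` is a local biholomorphism at `(0, 0)` -/
theorem phi_inv : ∃ Ψ : ℂ × ℂ → ℂ × ℂ, AnalyticAt ℂ Ψ (0, 0) ∧ Mer88.LBih (Phi q b) Ψ (0, 0) ∧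
    Mer88.LBih Ψ (Phi q b) (0, 0) := by
  obtain ⟨e, he1, -, he2, he3, he4⟩ := SCV.exists_analytic_openPartialHomeomorph (an_Phi hF)
    _ (hasFDerivAt_Phi hF) univ_mem
  have h0 : e (0, 0) = (0, 0) := by rw [he2]; exact Phi_zero hF
  have htar : ((0, 0) : ℂ × ℂ) ∈ e.target := by rw [← h0]; exact e.map_source he1
  have hs0 : e.symm (0, 0) = (0, 0) := by
    have := e.left_inv he1
    rwa [h0] at this
  have han : AnalyticAt ℂ e.symm (0, 0) := he4 _ htar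
  refine ⟨e.symm, han, ⟨an_Phi hF, ?_, ?_, ?_⟩, ⟨han, ?_, ?_, ?_⟩⟩
  · rw [Phi_zero hF]; exact han.continuousAt
  · rw [Phi_zero hF, hs0]
  · rw [Phi_zero hF]
    filter_upwards [e.open_target.mem_nhds htar] with y hy
    rw [← he2, e.right_inv hy]
  · rw [hs0]; exact (an_Phi hF).continuousAt
  · rw [hs0, Phi_zero hF]
  · rw [hs0]
    filter_upwards [e.open_source.mem_nhds he1] with y hy
    rw [← he2, e.left_inv hy]

/-- consecutive vertices are different -/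
lemma Fv_ne (a : ℂ) : ∀ᶠ x in 𝓝 ((0, 0) : ℂ × ℂ), x.2 ≠ 0 →
    Fv q b (sh (a + 1) x) ≠ Fv q b (sh a x) := by
  have h1 := (hasStrictFDerivAt_Fv hF).isLittleO
  have h2 : Tendsto (fun x : ℂ × ℂ => (sh (a + 1) x, sh a x)) (𝓝 (0, 0))
      (𝓝 (((0, 0) : ℂ × ℂ), ((0, 0) : ℂ × ℂ))) := by
    exact (tendsto_sh (a + 1)).prodMk_nhds (tendsto_sh a)
  set A : ℂ := C0.vel q (-1) 0 with hA
  have hA0 : A ≠ 0 := vel_ne _ _
  have h3 := (h1.comp_tendsto h2).def (c := ‖A‖ / 2) (by positivity)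
  filter_upwards [h3] with x hx hx2 he
  simp only [Function.comp_apply] at hx
  have e1 : sh (a + 1) x - sh a x = (x.2, 0) := by
    simp only [sh_apply]
    ext <;> simp <;> ring
  rw [e1, he, sub_self, zero_sub, norm_neg] at hx
  have e2 : ‖((x.2, 0) : ℂ × ℂ)‖ = ‖x.2‖ := by simp [Prod.norm_def]
  rw [e2] at hx
  have e3 : ‖(A • ContinuousLinearMap.fst ℂ ℂ ℂ) ((x.2, 0) : ℂ × ℂ)‖ = ‖A‖ * ‖x.2‖ := by
    simp
  rw [e3] at hx
  have h4 : 0 < ‖x.2‖ := norm_pos_iff.2 hx2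
  have h5 : 0 < ‖A‖ := norm_pos_iff.2 hA0
  nlinarith [mul_pos h4 h5]

lemma tendsto_Fv : Tendsto (Fv q b) (𝓝 (0, 0)) (𝓝 0) := by
  have := (an_Fv0 hF).continuousAt.tendsto
  rwa [Fv_zero hF] at this

lemma tendsto_b : Tendsto b (𝓝 (0, 0)) (𝓝 0) := by
  have := (an_b hF (zero_PD hF)).continuousAt.tendsto
  rwa [b_zero' hF] at this

lemma tendsto_Phi : Tendsto (Phi q b) (𝓝 (0, 0)) (𝓝 (0, 0)) := by
  have := (an_Phi hF).continuousAt.tendsto
  rwa [Phi_zero hF] at this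

end phi

/-! ### the two chains -/

section chain

variable {q : C(ℂ, ℂ)} {η ρ r B : ℝ} {b φ p : ℂ × ℂ → ℂ} {m₀ : ℂ → ℂ}

/-- isotropic slope and height of the line `(φ, p)` -/
def Ml (φ : ℂ) : ℂ := Complex.exp (2 * Complex.I * φ)

def Kl (φ p : ℂ) : ℂ := 2 * Complex.I * p * Complex.exp (Complex.I * φ)

lemma onLine_eq {φ p Z Zc : ℂ} (h : OnLine φ p Z Zc) : Z = Ml φ * Zc + Kl φ p := by
  unfold OnLine at h
  unfold Ml Kl
  have h1 : Complex.exp (2 * Complex.I * φ) = Complex.exp (Complex.I * φ) *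
      Complex.exp (Complex.I * φ) := by
    rw [← Complex.exp_add]; congr 1; ring
  have h2 : Complex.exp (Complex.I * φ) * Complex.exp (-(Complex.I * φ)) = 1 := by
    rw [← Complex.exp_add, add_neg_cancel, Complex.exp_zero]
  rw [h1]
  linear_combination Complex.exp (Complex.I * φ) * h - Z * h2

lemma Ml_ne (φ : ℂ) : Ml φ ≠ 0 := Complex.exp_ne_zero _

/-- everything about one vertex `b (sh a x)` -/
structure VOk (q : C(ℂ, ℂ)) (ρ r : ℝ) (b : ℂ × ℂ → ℂ) (g : ℂ → ℂ) (r₂ : ℝ) (a : ℂ) (x : ℂ × ℂ) :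
    Prop where
  mem : sh a x ∈ PD ρ r
  gv : g (Fv q b (sh a x)) = Zs q 1 (b (sh a x))
  dg : deriv g (Fv q b (sh a x)) = Complex.exp (2 * Complex.I * Tc q (b (sh a x)))
  near : Fv q b (sh a x) ∈ ball (0 : ℂ) r₂

lemma vOk (hF : LineFam q η ρ r B b φ p m₀) {g : ℂ → ℂ} (hg : AnalyticAt ℂ g 0)
    (hgZ : ∀ᶠ z in 𝓝 (0 : ℂ), g (Zs q (-1) z) = Zs q 1 z) {r₂ : ℝ} (hr₂ : 0 < r₂) (a : ℂ) :
    ∀ᶠ x in 𝓝 ((0, 0) : ℂ × ℂ), VOk q ρ r b g r₂ a x := by
  have h1 := tendsto_sh a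
  have h2 := (tendsto_b hF).comp h1
  have h3 := (tendsto_Fv hF).comp h1
  filter_upwards [h1.eventually ((isOpen_PD ρ r).mem_nhds (zero_PD hF)), h2.eventually hgZ,
    h2.eventually (deriv_g hF.dat hg hgZ), h3.eventually (ball_mem_nhds (0 : ℂ) hr₂)] with x e1 e2
      e3 e4
  exact ⟨e1, e2, e3, e4⟩

/-- the line `j` passes through the vertex `j` -/
lemma line_inc (hF : LineFam q η ρ r B b φ p m₀) {g : ℂ → ℂ} {r₂ : ℝ} {a : ℂ} {x : ℂ × ℂ}
    (h0 : sh a x ∈ PD ρ r) (h1 : VOk q ρ r b g r₂ (a + 1 / 2) x) :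
    g (Fv q b (sh (a + 1 / 2) x)) = Ml (φ (sh a x)) * Fv q b (sh (a + 1 / 2) x) +
      Kl (φ (sh a x)) (p (sh a x)) := by
  have e1 : sh (a + 1 / 2) x = ((sh a x).1 + (sh a x).2 / 2, (sh a x).2) := by
    simp only [sh_apply]
    congr 1
    ring
  rw [h1.gv]
  refine onLine_eq ?_
  have h2 := h1.mem
  unfold Fv
  rw [e1] at h2 ⊢
  exact hF.inc (sh a x).1 (sh a x).2 h0 h2

/-- the line `j` passes through the vertex `j - 1` -/
lemma line_inc' (hF : LineFam q η ρ r B b φ p m₀) {g : ℂ → ℂ} {r₂ : ℝ} {a : ℂ} {x : ℂ × ℂ}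
    (h0 : sh a x ∈ PD ρ r) (h1 : VOk q ρ r b g r₂ (a - 1 / 2) x) :
    g (Fv q b (sh (a - 1 / 2) x)) = Ml (φ (sh a x)) * Fv q b (sh (a - 1 / 2) x) +
      Kl (φ (sh a x)) (p (sh a x)) := by
  have e1 : sh (a - 1 / 2) x = ((sh a x).1 - (sh a x).2 / 2, (sh a x).2) := by
    simp only [sh_apply]
    congr 1
    ring
  rw [h1.gv]
  refine onLine_eq ?_
  have h2 := h1.mem
  unfold Fv
  rw [e1] at h2 ⊢
  exact hF.inc' (sh a x).1 (sh a x).2 h0 h2

/-- law of reflection -/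
lemma line_refl (hF : LineFam q η ρ r B b φ p m₀) {g : ℂ → ℂ} {r₂ : ℝ} {a : ℂ} {x : ℂ × ℂ}
    (h0 : sh a x ∈ PD ρ r) (h0' : sh (a + 1) x ∈ PD ρ r) (h1 : VOk q ρ r b g r₂ (a + 1 / 2) x) :
    Ml (φ (sh (a + 1) x)) * Ml (φ (sh a x)) = deriv g (Fv q b (sh (a + 1 / 2) x)) ^ 2 := by
  have e1 : sh a x = ((sh (a + 1 / 2) x).1 - (sh (a + 1 / 2) x).2 / 2, (sh (a + 1 / 2) x).2) := by
    simp only [sh_apply]
    congr 1
    ring
  have e2 : sh (a + 1) x =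
      ((sh (a + 1 / 2) x).1 + (sh (a + 1 / 2) x).2 / 2, (sh (a + 1 / 2) x).2) := by
    simp only [sh_apply]
    congr 1
    ring
  have h2 := hF.refl (sh (a + 1 / 2) x).1 (sh (a + 1 / 2) x).2 h1.mem (by rw [← e1]; exact h0)
    (by rw [← e2]; exact h0')
  rw [← e1, ← e2] at h2
  rw [h1.dg, ← Complex.exp_nat_mul]
  unfold Ml
  rw [← Complex.exp_add]
  congr 1
  have e3 : b ((sh (a + 1 / 2) x).1, (sh (a + 1 / 2) x).2) = b (sh (a + 1 / 2) x) := rfl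
  rw [e3] at h2
  push_cast
  linear_combination 2 * Complex.I * h2

/-- **(M2)** the two chains coincide -/
theorem match_chain (hF : LineFam q η ρ r B b φ p m₀) {g : ℂ → ℂ} (hg : AnalyticAt ℂ g 0)
    (hg2 : deriv (deriv g) 0 ≠ 0) (hgZ : ∀ᶠ z in 𝓝 (0 : ℂ), g (Zs q (-1) z) = Zs q 1 z)
    {N : ℕ} {ρ' : ℝ} {β m k q₁ q₁' : ℕ → ℂ × ℂ → ℂ}
    (hC : F7389.Chain g 0 N ρ' β m k q₁ q₁') :
    ∀ᶠ x in 𝓝 ((0, 0) : ℂ × ℂ), x.2 ≠ 0 →
      Phi q b x ∈ ball (0 : ℂ) ρ' ×ˢ ball (0 : ℂ) ρ' ∧ (Phi q b x).2 ≠ 0 ∧ ∀ j : ℕ, j ≤ N →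
        m j (Phi q b x) = Complex.exp (2 * Complex.I * φ (x.1 + j * x.2, x.2)) ∧
        k j (Phi q b x) = 2 * Complex.I * p (x.1 + j * x.2, x.2) *
          Complex.exp (Complex.I * φ (x.1 + j * x.2, x.2)) ∧
        (Phi q b x).1 + (Phi q b x).2 * β j (Phi q b x) =
          Zs q (-1) (b (x.1 + (j + 1 / 2) * x.2, x.2)) := by
  obtain ⟨r₂, hr₂, -, h2p⟩ := Run58.twopt hg hg2
  have hρ' := hC.ρ_pos
  have hU : ball (0 : ℂ) ρ' ×ˢ ball (0 : ℂ) ρ' ∈ 𝓝 ((0, 0) : ℂ × ℂ) :=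
    (isOpen_ball.prod isOpen_ball).mem_nhds ⟨mem_ball_self hρ', mem_ball_self hρ'⟩
  have h0U : ((0, 0) : ℂ × ℂ) ∈ ball (0 : ℂ) ρ' ×ˢ ball (0 : ℂ) ρ' :=
    ⟨mem_ball_self hρ', mem_ball_self hρ'⟩
  -- vertices of the chain
  have hv : ∀ j ∈ Finset.range (N + 1), ∀ᶠ x in 𝓝 ((0, 0) : ℂ × ℂ),
      (Phi q b x).1 + (Phi q b x).2 * β j (Phi q b x) ∈ ball (0 : ℂ) r₂ := by
    intro j hj
    have hj' : j ≤ N := by simpa [Nat.lt_succ_iff] using hj
    have h1 : ContinuousAt (fun P : ℂ × ℂ => P.1 + P.2 * β j P) (0, 0) :=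
      continuousAt_fst.add (continuousAt_snd.mul (hC.an_β j hj' _ h0U).continuousAt)
    have h2 := h1.tendsto.comp (tendsto_Phi hF)
    refine h2.eventually (isOpen_ball.mem_nhds ?_)
    simpa using hr₂
  have hb : ∀ j ∈ Finset.range N, ∀ᶠ x in 𝓝 ((0, 0) : ℂ × ℂ),
      β (j + 1) (Phi q b x) ≠ β j (Phi q b x) := by
    intro j hj
    have hj' : j + 1 ≤ N := by simpa [Nat.succ_le_iff] using hj
    have h1 : ContinuousAt (fun P : ℂ × ℂ => β (j + 1) P - β j P) (0, 0) :=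
      (hC.an_β (j + 1) hj' _ h0U).continuousAt.sub (hC.an_β j (by omega) _ h0U).continuousAt
    have h3 : β (j + 1) (0, 0) - β j (0, 0) ≠ 0 := by
      rw [hC.β_c (j + 1) hj' 0 (mem_ball_self hρ'), hC.β_c j (by omega) 0 (mem_ball_self hρ')]
      push_cast
      ring_nf
      norm_num
    have h4 := (h1.tendsto.comp (tendsto_Phi hF)).eventually_ne h3
    filter_upwards [h4] with x hx he
    exact hx (by simp [he])
  have hvert : ∀ j ∈ Finset.range (N + 1), ∀ᶠ x in 𝓝 ((0, 0) : ℂ × ℂ),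
      VOk q ρ r b g r₂ ((j : ℂ) + 1 / 2) x := fun j _ => vOk hF hg hgZ hr₂ _
  have hsh : ∀ j ∈ Finset.range (N + 1), ∀ᶠ x in 𝓝 ((0, 0) : ℂ × ℂ), sh (j : ℂ) x ∈ PD ρ r :=
    fun j _ => (tendsto_sh (j : ℂ)).eventually ((isOpen_PD ρ r).mem_nhds (zero_PD hF))
  have hne : ∀ j ∈ Finset.range (N + 1), ∀ᶠ x in 𝓝 ((0, 0) : ℂ × ℂ), x.2 ≠ 0 →
      Fv q b (sh ((j : ℂ) + 1 / 2 + 1) x) ≠ Fv q b (sh ((j : ℂ) + 1 / 2) x) :=
    fun j _ => Fv_ne hF _
  filter_upwards [(Filter.eventually_all_finset _).2 hv, (Filter.eventually_all_finset _).2 hb,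
    (Filter.eventually_all_finset _).2 hvert, (Filter.eventually_all_finset _).2 hsh,
    (Filter.eventually_all_finset _).2 hne, (tendsto_Phi hF).eventually hU,
    vOk hF hg hgZ hr₂ (0 - 1 / 2), Fv_ne hF (0 - 1 / 2)] with x a1 a2 a3 a4 a5 a6 a7 a8 hx2
  have eBp : Bp q b x = Fv q b (sh (0 + 1 / 2) x) := by
    rw [Bp_eq, zero_add]
  have eBm : Bm q b x = Fv q b (sh (0 - 1 / 2) x) := by
    rw [Bm_eq]
    norm_num
  set P : ℂ × ℂ := Phi q b x with hP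
  have hP1 : P.1 + P.2 = Fv q b (sh (0 + 1 / 2) x) := by
    rw [← eBp, hP]; simp only [Phi]; ring
  have hP2 : P.1 - P.2 = Fv q b (sh (0 - 1 / 2) x) := by
    rw [← eBm, hP]; simp only [Phi]; ring
  have hPne : P.2 ≠ 0 := by
    intro h0
    have h1 := a8 hx2
    rw [show (0 - 1 / 2 + 1 : ℂ) = 0 + 1 / 2 by norm_num, ← hP1, ← hP2, h0] at h1
    exact h1 (by ring)
  refine ⟨a6, hPne, ?_⟩
  -- the induction
  have key : ∀ j : ℕ, j ≤ N → m j P = Ml (φ (sh (j : ℂ) x)) ∧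
      k j P = Kl (φ (sh (j : ℂ) x)) (p (sh (j : ℂ) x)) ∧
      P.1 + P.2 * β j P = Fv q b (sh ((j : ℂ) + 1 / 2) x) := by
    intro j
    induction j with
    | zero =>
      intro _
      have hz : sh (0 : ℂ) x ∈ PD ρ r := by
        have := a4 0 (by simp)
        simpa using this
      have hv0 : VOk q ρ r b g r₂ (0 + 1 / 2) x := by
        have := a3 0 (by simp)
        simpa using this
      have c1 := line_inc hF hz hv0
      have c2 := line_inc' hF hz a7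
      rw [← hP1] at c1
      rw [← hP2] at c2
      have c3 := hC.inc 0 (Nat.zero_le _) P a6
      have c4 := hC.chord P a6
      rw [hC.β_zero, mul_one] at c3
      have c5 : (m 0 P - Ml (φ (sh (0 : ℂ) x))) * (2 * P.2) = 0 := by
        linear_combination c1 - c2 - c3 + c4
      have c6 : m 0 P = Ml (φ (sh (0 : ℂ) x)) := by
        rcases mul_eq_zero.1 c5 with h | h
        · exact sub_eq_zero.1 h
        · exact absurd h (mul_ne_zero two_ne_zero hPne)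
      have c7 : k 0 P = Kl (φ (sh (0 : ℂ) x)) (p (sh (0 : ℂ) x)) := by
        rw [c6] at c3
        linear_combination c1 - c3
      refine ⟨by simpa using c6, by simpa using c7, ?_⟩
      rw [hC.β_zero, mul_one, hP1]
      simp
    | succ j ih =>
      intro hj
      have hj1 : j ≤ N := by omega
      obtain ⟨i1, i2, i3⟩ := ih hj1
      have hc : ((j + 1 : ℕ) : ℂ) = (j : ℂ) + 1 := by push_cast; ring
      have s0 : sh (j : ℂ) x ∈ PD ρ r := a4 j (by simp; omega)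
      have s1 : sh ((j : ℂ) + 1) x ∈ PD ρ r := by
        rw [← hc]; exact a4 (j + 1) (by simp; omega)
      have v0 : VOk q ρ r b g r₂ ((j : ℂ) + 1 / 2) x := a3 j (by simp; omega)
      have v1 : VOk q ρ r b g r₂ (((j : ℂ) + 1) + 1 / 2) x := by
        rw [← hc]; exact a3 (j + 1) (by simp; omega)
      have d1 := line_refl hF s0 s1 v0
      have d2 := hC.refl j (by omega) P a6
      rw [i3, i1, ← d1] at d2
      have d3 : m (j + 1) P = Ml (φ (sh ((j : ℂ) + 1) x)) :=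
        mul_right_cancel₀ (Ml_ne _) d2
      have v0' : VOk q ρ r b g r₂ (((j : ℂ) + 1) - 1 / 2) x := by
        have : ((j : ℂ) + 1) - 1 / 2 = (j : ℂ) + 1 / 2 := by ring
        rw [this]; exact v0
      have d4 := line_inc' hF s1 v0'
      have e5 : ((j : ℂ) + 1) - 1 / 2 = (j : ℂ) + 1 / 2 := by ring
      rw [e5] at d4
      have d5 := hC.inc' j (by omega) P a6
      rw [i3, d3] at d5
      have d6 : k (j + 1) P = Kl (φ (sh ((j : ℂ) + 1) x)) (p (sh ((j : ℂ) + 1) x)) := by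
        linear_combination d4 - d5
      refine ⟨by rw [hc]; exact d3, by rw [hc]; exact d6, ?_⟩
      -- the next vertex
      have d7 := line_inc hF s1 v1
      have d8 := hC.inc (j + 1) hj P a6
      rw [d3, d6] at d8
      have hne1 : Fv q b (sh (((j : ℂ) + 1) + 1 / 2) x) ≠ Fv q b (sh ((j : ℂ) + 1 / 2) x) := by
        have := a5 j (by simp; omega) hx2
        rwa [show (j : ℂ) + 1 / 2 + 1 = ((j : ℂ) + 1) + 1 / 2 by ring] at this
      have hne2 : P.1 + P.2 * β (j + 1) P ≠ Fv q b (sh ((j : ℂ) + 1 / 2) x) := by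
        rw [← i3]
        intro h
        have h9 : P.2 * (β (j + 1) P - β j P) = 0 := by linear_combination h
        rcases mul_eq_zero.1 h9 with h | h
        · exact hPne h
        · exact a2 j (by simp; omega) (sub_eq_zero.1 h)
      rw [hc]
      rcases h2p _ v0.near _ v1.near _ (a1 (j + 1) (by simp; omega)) _ _ hne1.symm d4 d7 d8 with
        h | h
      · exact absurd h hne2
      · exact h
  intro j hj
  obtain ⟨k1, k2, k3⟩ := key j hj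
  exact ⟨k1, k2, k3⟩

end chain

end Crest.Agent.R102.Match337
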