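import Mathlib

/-!
# Row 102, (RAT), helper554: Taylor map of two commuting derivations, displacement series

`k` a field of characteristic `0`, `RR = k⟦u₀, u₁⟧`.

* `vanish` : a family of series without constant term, stable under `∂₀, ∂₁` up to combinations,
  is `0`.
* `sig_pderiv` : chain rule for an arbitrary algebra homomorphism `k⟦X⟧ → RR`.
* `expl` : `∂ᵢ f_r = f_{r+1} ∂ᵢ z` implies `f_0 = ν(z)` with explicit `ν`.
* `Tay D`, `tay`, `TDer` : the Taylor map `T f = ∑ D₀^i D₁^j f u^(i,j) / (i! j!)`, and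
  `∆ f = ∑ δ (D₀^i D₁^j f) u^(i,j) / (i! j!)` for a derivation `δ`.
-/

set_option autoImplicit false
set_option linter.unusedSectionVars false

open MvPowerSeries

noncomputable section

namespace Crest.Agent.R102.RAT554

variable {k : Type*} [Field k]

local notation "RR" => MvPowerSeries (Fin 2) k

/-- coefficients of degree `< n` vanish -/
def Low (n : ℕ) (f : MvPowerSeries (Fin 2) k) : Prop :=
  ∀ d : Fin 2 →₀ ℕ, d.degree < n → MvPowerSeries.coeff d f = 0

theorem Low.add {n : ℕ} {f g : RR} (hf : Low n f) (hg : Low n g) : Low n (f + g) := by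
  intro d hd
  rw [map_add, hf d hd, hg d hd, add_zero]

theorem Low.mul_left {n : ℕ} {f : RR} (hf : Low n f) (g : RR) : Low n (g * f) := by
  classical
  intro d hd
  rw [MvPowerSeries.coeff_mul]
  refine Finset.sum_eq_zero fun p hp => ?_
  have hp' := Finset.HasAntidiagonal.mem_antidiagonal.mp hp
  have h : p.2.degree ≤ d.degree := by
    rw [← hp', map_add]
    omega
  rw [hf p.2 (lt_of_le_of_lt h hd), mul_zero]

theorem Low.zero (n : ℕ) : Low n (0 : RR) := fun d _ => by rw [map_zero]

theorem low_span {α : Type*} {h : α → RR} {n : ℕ} (H : ∀ a, Low n (h a)) {f : RR}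
    (hf : f ∈ Ideal.span (Set.range h)) : Low n f := by
  refine Submodule.span_induction (p := fun x _ => Low n x) ?_ (Low.zero n)
    (fun x y _ _ hx hy => hx.add hy) (fun a x _ hx => ?_) hf
  · rintro _ ⟨a, rfl⟩
    exact H a
  · rw [smul_eq_mul]
    exact hx.mul_left a

theorem low_succ [CharZero k] {f : RR} {n : ℕ} (h0 : MvPowerSeries.constantCoeff f = 0)
    (h : ∀ i : Fin 2, Low n (MvPowerSeries.pderiv k i f)) : Low (n + 1) f := by
  intro d hd
  by_cases hd0 : d = 0
  · rw [hd0, MvPowerSeries.coeff_zero_eq_constantCoeff_apply, h0]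
  · obtain ⟨i, hi⟩ := Finsupp.ne_iff.mp hd0
    have hle : Finsupp.single i 1 ≤ d := by
      rw [Finsupp.single_le_iff]
      exact Nat.one_le_iff_ne_zero.mpr hi
    have hde : d - Finsupp.single i 1 + Finsupp.single i 1 = d := tsub_add_cancel_of_le hle
    have hdeg : (d - Finsupp.single i 1).degree < n := by
      have : d.degree = (d - Finsupp.single i 1).degree + 1 := by
        conv_lhs => rw [← hde]
        rw [map_add, Finsupp.degree_single]
      omega
    have h1 := h i _ hdeg
    rw [MvPowerSeries.coeff_pderiv, hde] at h1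
    exact (mul_eq_zero.mp h1).resolve_right (Nat.cast_add_one_ne_zero _)

theorem vanish [CharZero k] {α : Type*} {h : α → RR}
    (h0 : ∀ a, MvPowerSeries.constantCoeff (h a) = 0)
    (hd : ∀ a, ∀ i : Fin 2, MvPowerSeries.pderiv k i (h a) ∈ Ideal.span (Set.range h)) (a : α) :
    h a = 0 := by
  have key : ∀ n : ℕ, ∀ a, Low n (h a) := by
    intro n
    induction n with
    | zero => intro a d hd; exact absurd hd (Nat.not_lt_zero _)
    | succ n ih => exact fun a => low_succ (h0 a) fun i => low_span ih (hd a i)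
  ext d
  rw [map_zero]
  exact key (d.degree + 1) a d (Nat.lt_succ_self _)

/-- a series with vanishing derivatives is constant -/
theorem eq_C_of_pderiv [CharZero k] {f : RR} (h : ∀ i : Fin 2, MvPowerSeries.pderiv k i f = 0) :
    f = MvPowerSeries.C (MvPowerSeries.constantCoeff f) := by
  have := vanish (k := k) (α := Unit)
    (h := fun _ => f - MvPowerSeries.C (MvPowerSeries.constantCoeff f))
    (fun _ => by simp) (fun _ i => by
      rw [map_sub, h i, MvPowerSeries.pderiv_C, sub_zero]
      exact Submodule.zero_mem _) ()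
  exact sub_eq_zero.mp this

/-! ## homomorphisms `k⟦X⟧ → RR` -/

theorem split (m : PowerSeries k) :
    ∃ m' : PowerSeries k, m = PowerSeries.C (PowerSeries.constantCoeff m) + PowerSeries.X * m' := by
  have h1 : (PowerSeries.X : PowerSeries k) ∣ m - PowerSeries.C (PowerSeries.constantCoeff m) := by
    rw [PowerSeries.X_dvd_iff]
    simp
  obtain ⟨m', hm'⟩ := h1
  exact ⟨m', by rw [← hm']; ring⟩

theorem sig_C (σ : PowerSeries k →ₐ[k] RR) (c : k) : σ (PowerSeries.C c) = MvPowerSeries.C c := by
  have h3 : (PowerSeries.C c : PowerSeries k) = algebraMap k (PowerSeries k) c := by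
    rw [PowerSeries.algebraMap_apply]; rfl
  rw [h3, AlgHom.commutes, MvPowerSeries.algebraMap_apply]
  rfl

theorem sig_const {z : RR} (hz : MvPowerSeries.constantCoeff z = 0)
    {σ : PowerSeries k →ₐ[k] RR} (hσ : σ PowerSeries.X = z) (m : PowerSeries k) :
    MvPowerSeries.constantCoeff (σ m) = PowerSeries.constantCoeff m := by
  obtain ⟨m', hm'⟩ := split m
  conv_lhs => rw [hm']
  rw [map_add, sig_C, map_mul, hσ, map_add, map_mul, hz, zero_mul, add_zero,
    MvPowerSeries.constantCoeff_C]

theorem low_pow {z : RR} (hz : MvPowerSeries.constantCoeff z = 0) (n : ℕ) : Low n (z ^ n) := by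
  intro d hd
  apply MvPowerSeries.coeff_of_lt_order
  exact lt_of_lt_of_le (by exact_mod_cast hd)
    (MvPowerSeries.le_order_pow_of_constantCoeff_eq_zero n hz)

/-- chain rule -/
theorem sig_pderiv {z : RR} (hz : MvPowerSeries.constantCoeff z = 0)
    {σ : PowerSeries k →ₐ[k] RR} (hσ : σ PowerSeries.X = z) (i : Fin 2) (m : PowerSeries k) :
    MvPowerSeries.pderiv k i (σ m) =
      σ (PowerSeries.derivative k m) * MvPowerSeries.pderiv k i z := by
  have key : ∀ n : ℕ, ∀ m : PowerSeries k, ∃ r : RR,
      MvPowerSeries.pderiv k i (σ m) -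
        σ (PowerSeries.derivative k m) * MvPowerSeries.pderiv k i z = z ^ n * r := by
    intro n
    induction n with
    | zero => exact fun m => ⟨_, by rw [pow_zero, one_mul]⟩
    | succ n ih =>
      intro m
      obtain ⟨m', hm'⟩ := split m
      obtain ⟨r, hr⟩ := ih m'
      refine ⟨r, ?_⟩
      have h1 : σ m = MvPowerSeries.C (PowerSeries.constantCoeff m) + z * σ m' := by
        conv_lhs => rw [hm']
        rw [map_add, sig_C, map_mul, hσ]
      have h2 : PowerSeries.derivative k m = m' + PowerSeries.X * PowerSeries.derivative k m' := by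
        conv_lhs => rw [hm']
        rw [map_add, PowerSeries.derivative_C, zero_add, Derivation.leibniz,
          PowerSeries.derivative_X]
        simp only [smul_eq_mul, mul_one]
        ring
      rw [h1, h2, map_add, map_add, MvPowerSeries.pderiv_C, zero_add, Derivation.leibniz, map_mul,
        hσ, pow_succ]
      simp only [smul_eq_mul]
      linear_combination z * hr
  rw [← sub_eq_zero]
  ext d
  obtain ⟨r, hr⟩ := key (d.degree + 1) m
  rw [hr, mul_comm, map_zero]
  exact (low_pow hz (d.degree + 1)).mul_left r d (Nat.lt_succ_self _)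

/-- `∑ c n / n! X^n` -/
def egf (c : ℕ → k) : PowerSeries k := PowerSeries.mk fun n => c n * ((n.factorial : ℕ) : k)⁻¹

theorem egf_const (c : ℕ → k) : PowerSeries.constantCoeff (egf c) = c 0 := by
  rw [← PowerSeries.coeff_zero_eq_constantCoeff_apply, egf, PowerSeries.coeff_mk]
  simp

theorem egf_derivative [CharZero k] (c : ℕ → k) :
    PowerSeries.derivative k (egf c) = egf fun n => c (n + 1) := by
  ext n
  rw [PowerSeries.coeff_derivative, egf, egf, PowerSeries.coeff_mk, PowerSeries.coeff_mk,
    Nat.factorial_succ]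
  have h1 : ((n.factorial : ℕ) : k) ≠ 0 := Nat.cast_ne_zero.mpr n.factorial_ne_zero
  have h2 : ((n : k) + 1) ≠ 0 := by exact_mod_cast Nat.succ_ne_zero n
  push_cast
  field_simp

/-- explicit form of a series with `∂ᵢ f_r = f_{r+1} ∂ᵢ z` -/
theorem expl [CharZero k] {z : RR} (hz : MvPowerSeries.constantCoeff z = 0)
    {σ : PowerSeries k →ₐ[k] RR} (hσ : σ PowerSeries.X = z) (f : ℕ → RR)
    (hf : ∀ r, ∀ i : Fin 2, MvPowerSeries.pderiv k i (f r) = f (r + 1) * MvPowerSeries.pderiv k i z) :
    f 0 = σ (egf fun r => MvPowerSeries.constantCoeff (f r)) := by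
  have h := vanish (k := k) (α := ℕ)
    (h := fun r => f r - σ (egf fun n => MvPowerSeries.constantCoeff (f (r + n))))
    (fun r => by
      rw [map_sub, sig_const hz hσ, egf_const, add_zero, sub_self])
    (fun r i => by
      have h1 : MvPowerSeries.pderiv k i
          (f r - σ (egf fun n => MvPowerSeries.constantCoeff (f (r + n)))) =
          MvPowerSeries.pderiv k i z *
            (f (r + 1) - σ (egf fun n => MvPowerSeries.constantCoeff (f (r + 1 + n)))) := by
        rw [map_sub, hf, sig_pderiv hz hσ, egf_derivative]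
        have : (fun n => MvPowerSeries.constantCoeff (f (r + (n + 1)))) =
            fun n => MvPowerSeries.constantCoeff (f (r + 1 + n)) := by
          funext n
          rw [show r + (n + 1) = r + 1 + n by ring]
        rw [this]
        ring
      rw [h1]
      exact Ideal.mul_mem_left _ _ (Ideal.subset_span ⟨r + 1, rfl⟩)) 0
  simp only [zero_add] at h
  exact sub_eq_zero.mp h

/-! ## the Taylor map -/

section Taylor

variable (D : Fin 2 → k → k)

/-- `∑ g (D₀^i D₁^j f) u^(i,j) / (i! j!)` -/
def Tf (g : k → k) (f : k) : RR := fun d : Fin 2 →₀ ℕ =>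
  g ((D 0)^[d 0] ((D 1)^[d 1] f)) * (((d 0).factorial * (d 1).factorial : ℕ) : k)⁻¹

theorem coeff_Tf (g : k → k) (f : k) (d : Fin 2 →₀ ℕ) : MvPowerSeries.coeff d (Tf D g f) =
    g ((D 0)^[d 0] ((D 1)^[d 1] f)) * (((d 0).factorial * (d 1).factorial : ℕ) : k)⁻¹ := rfl

theorem Tf_const (g : k → k) (f : k) : MvPowerSeries.constantCoeff (Tf D g f) = g f := by
  rw [← MvPowerSeries.coeff_zero_eq_constantCoeff_apply, coeff_Tf]
  simp

theorem Tf_pderiv [CharZero k] (hc : ∀ f, D 0 (D 1 f) = D 1 (D 0 f)) (g : k → k) (f : k)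
    (i : Fin 2) : MvPowerSeries.pderiv k i (Tf D g f) = Tf D g (D i f) := by
  have hc' : ∀ n f, (D 1)^[n] (D 0 f) = D 0 ((D 1)^[n] f) := by
    intro n
    induction n with
    | zero => intro f; rfl
    | succ n ih =>
      intro f
      rw [Function.iterate_succ_apply, Function.iterate_succ_apply, ← hc, ih]
  ext d
  rw [MvPowerSeries.coeff_pderiv, coeff_Tf, coeff_Tf]
  have hfac : ∀ n : ℕ, ((n.factorial : ℕ) : k) ≠ 0 := fun n =>
    Nat.cast_ne_zero.mpr n.factorial_ne_zero
  fin_cases i
  · have e0 : (d + Finsupp.single (0 : Fin 2) 1 : Fin 2 →₀ ℕ) 0 = d 0 + 1 := by simp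
    have e1 : (d + Finsupp.single (0 : Fin 2) 1 : Fin 2 →₀ ℕ) 1 = d 1 := by simp
    simp only [Fin.zero_eta, Fin.isValue]
    rw [e0, e1, hc', Function.iterate_succ_apply, Nat.factorial_succ]
    have h1 := hfac (d 0)
    have h2 := hfac (d 1)
    have h3 : ((d 0 : k) + 1) ≠ 0 := by exact_mod_cast Nat.succ_ne_zero (d 0)
    push_cast
    field_simp
  · have e0 : (d + Finsupp.single (1 : Fin 2) 1 : Fin 2 →₀ ℕ) 0 = d 0 := by simp
    have e1 : (d + Finsupp.single (1 : Fin 2) 1 : Fin 2 →₀ ℕ) 1 = d 1 + 1 := by simp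
    simp only [Fin.mk_one, Fin.isValue]
    rw [e0, e1, Function.iterate_succ_apply, Nat.factorial_succ]
    have h1 := hfac (d 0)
    have h2 := hfac (d 1)
    have h3 : ((d 1 : k) + 1) ≠ 0 := by exact_mod_cast Nat.succ_ne_zero (d 1)
    push_cast
    field_simp

end Taylor

section TaylorHom

variable [CharZero k] {A : Type*} [CommRing A] [Algebra A k] (D : Fin 2 → Derivation A k k)

/-- the Taylor map -/
def tay (f : k) : RR := Tf (fun i => D i) id f

/-- the Taylor series of a derivation -/
def tdel (δ : Derivation A k k) (f : k) : RR := Tf (fun i => D i) δ f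

theorem tay_const (f : k) : MvPowerSeries.constantCoeff (tay D f) = f := Tf_const _ _ f

theorem tdel_const (δ : Derivation A k k) (f : k) :
    MvPowerSeries.constantCoeff (tdel D δ f) = δ f := Tf_const _ _ f

theorem tay_pderiv (hc : ∀ f, D 0 (D 1 f) = D 1 (D 0 f)) (f : k) (i : Fin 2) :
    MvPowerSeries.pderiv k i (tay D f) = tay D (D i f) := Tf_pderiv (fun i => D i) hc _ f i

theorem tdel_pderiv (hc : ∀ f, D 0 (D 1 f) = D 1 (D 0 f)) (δ : Derivation A k k) (f : k)
    (i : Fin 2) : MvPowerSeries.pderiv k i (tdel D δ f) = tdel D δ (D i f) :=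
  Tf_pderiv (fun i => D i) hc _ f i

omit [CharZero k] in
theorem iter_add (D : Derivation A k k) (n : ℕ) (f g : k) :
    D^[n] (f + g) = D^[n] f + D^[n] g := iterate_map_add D n f g

omit [CharZero k] in
theorem Tf_add (g : k → k) (hg : ∀ a b, g (a + b) = g a + g b) (f f' : k) :
    Tf (fun i => D i) g (f + f') = Tf (fun i => D i) g f + Tf (fun i => D i) g f' := by
  ext d
  rw [map_add, coeff_Tf, coeff_Tf, coeff_Tf, iter_add, iter_add, hg, add_mul]

theorem tay_add (f g : k) : tay D (f + g) = tay D f + tay D g :=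
  Tf_add D id (fun _ _ => rfl) f g

theorem tdel_add (δ : Derivation A k k) (f g : k) : tdel D δ (f + g) = tdel D δ f + tdel D δ g :=
  Tf_add D δ (fun a b => map_add δ a b) f g

theorem tay_mul (hc : ∀ f, D 0 (D 1 f) = D 1 (D 0 f)) (f g : k) :
    tay D (f * g) = tay D f * tay D g := by
  have h := vanish (k := k) (α := k × k)
    (h := fun p => tay D (p.1 * p.2) - tay D p.1 * tay D p.2)
    (fun p => by rw [map_sub, map_mul, tay_const, tay_const, tay_const, sub_self])
    (fun p i => by
      have h1 : MvPowerSeries.pderiv k i (tay D (p.1 * p.2) - tay D p.1 * tay D p.2) =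
          (tay D (D i p.1 * p.2) - tay D (D i p.1) * tay D p.2) +
          (tay D (p.1 * D i p.2) - tay D p.1 * tay D (D i p.2)) := by
        rw [map_sub, tay_pderiv D hc, Derivation.leibniz, Derivation.leibniz, tay_pderiv D hc,
          tay_pderiv D hc]
        simp only [smul_eq_mul]
        rw [tay_add, mul_comm p.2 (D i p.1)]
        ring
      rw [h1]
      exact Ideal.add_mem _ (Ideal.subset_span ⟨(D i p.1, p.2), rfl⟩)
        (Ideal.subset_span ⟨(p.1, D i p.2), rfl⟩)) (f, g)
  exact sub_eq_zero.mp h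

theorem tay_one (hc : ∀ f, D 0 (D 1 f) = D 1 (D 0 f)) : tay D (1 : k) = 1 := by
  have h1 : tay D (1 : k) * tay D 1 = tay D 1 := by rw [← tay_mul D hc, mul_one]
  have h2 : tay D (1 : k) ≠ 0 := by
    intro h
    have := tay_const D (1 : k)
    rw [h, map_zero] at this
    exact zero_ne_one this
  exact mul_left_cancel₀ h2 (by rw [h1, mul_one])

theorem tdel_mul (hc : ∀ f, D 0 (D 1 f) = D 1 (D 0 f)) (δ : Derivation A k k) (f g : k) :
    tdel D δ (f * g) = tay D f * tdel D δ g + tay D g * tdel D δ f := by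
  have h := vanish (k := k) (α := k × k)
    (h := fun p => tdel D δ (p.1 * p.2) - (tay D p.1 * tdel D δ p.2 + tay D p.2 * tdel D δ p.1))
    (fun p => by
      rw [map_sub, map_add, map_mul, map_mul, tay_const, tay_const, tdel_const, tdel_const,
        tdel_const, Derivation.leibniz, smul_eq_mul, smul_eq_mul, sub_self])
    (fun p i => by
      have h1 : MvPowerSeries.pderiv k i
          (tdel D δ (p.1 * p.2) - (tay D p.1 * tdel D δ p.2 + tay D p.2 * tdel D δ p.1)) =
          (tdel D δ (D i p.1 * p.2) -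
            (tay D (D i p.1) * tdel D δ p.2 + tay D p.2 * tdel D δ (D i p.1))) +
          (tdel D δ (p.1 * D i p.2) -
            (tay D p.1 * tdel D δ (D i p.2) + tay D (D i p.2) * tdel D δ p.1)) := by
        rw [map_sub, map_add, tdel_pderiv D hc, Derivation.leibniz, Derivation.leibniz,
          Derivation.leibniz, tdel_pderiv D hc, tdel_pderiv D hc, tay_pderiv D hc,
          tay_pderiv D hc]
        simp only [smul_eq_mul]
        rw [tdel_add, mul_comm p.2 (D i p.1)]
        ring
      rw [h1]
      exact Ideal.add_mem _ (Ideal.subset_span ⟨(D i p.1, p.2), rfl⟩)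
        (Ideal.subset_span ⟨(p.1, D i p.2), rfl⟩)) (f, g)
  exact sub_eq_zero.mp h

end TaylorHom

end Crest.Agent.R102.RAT554
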