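import Mathlib
import Crest.Agent.R102.L1g_201
import Crest.Agent.R102.Tay_554

/-!
# Row 102, (RAT-2b), helper554: two chains with the same end lines have matching mirrors

* `vf_step` : variation formula at one mirror (commutative ring).
* `Chain` : a formal chain of lines and mirrors in a differential field.
* `two_chain` : two chains with the same first and last line: `∑ n_i S_i - ∑ n'_i S'_i` is constant.
* `match_mirror` : if mirror `j` of the first chain can be displaced arbitrarily, some mirror of the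
  second chain has the same foliation.
-/

set_option autoImplicit false
set_option linter.unusedSectionVars false

open MvPowerSeries

noncomputable section

namespace Crest.Agent.R102.RAT554

theorem vf_step {R : Type*} [CommRing R]
    {E F e f k l b x0' x1 dE dF dk dl db dx1 δE δF δk δl δb δx0 δx1 n dn : R}
    (hE : E * e = 1) (hF : F * f = 1) (hx1 : E * F = x1)
    (hdk : x1 * db = 2 * E * dE * b + E ^ 2 * db + dk)
    (hdl : x1 * db = 2 * F * dF * b + F ^ 2 * db + dl)
    (hδk : δx0 = 2 * E * δE * b + E ^ 2 * δb + δk)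
    (hδl : δx0 = 2 * F * δF * b + F ^ 2 * δb + δl)
    (hdx1 : dx1 = E * dF + F * dE) (hδx1 : δx1 = E * δF + F * δE)
    (hn : n = δx0 - x1 * δb) (hdn : dn = δx1 * db - dx1 * δb) :
    2 * E * (δE * dk - δk * dE) * e ^ 3 - 2 * F * (δF * dl - δl * dF) * f ^ 3 =
      2 * (dn * (e - f) + n * (f ^ 2 * dF - e ^ 2 * dE)) := by
  subst hx1
  have h1 : dk = E * F * db - 2 * E * dE * b - E ^ 2 * db := by linear_combination -hdk
  have h2 : dl = E * F * db - 2 * F * dF * b - F ^ 2 * db := by linear_combination -hdl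
  have h3 : δk = n + E * F * δb - 2 * E * δE * b - E ^ 2 * δb := by
    linear_combination -hδk - hn
  have h4 : δl = n + E * F * δb - 2 * F * δF * b - F ^ 2 * δb := by
    linear_combination -hδl - hn
  have h5 : 2 * E * (δE * dk - δk * dE) * e ^ 3 =
      2 * (e * (F - E) * (δE * db - δb * dE) - e ^ 2 * n * dE) := by
    rw [h1, h3]
    linear_combination (2 * (F - E) * (δE * db - δb * dE) * e * (E * e + 1) -
      2 * n * dE * e ^ 2) * hE
  have h6 : 2 * F * (δF * dl - δl * dF) * f ^ 3 =
      2 * (f * (E - F) * (δF * db - δb * dF) - f ^ 2 * n * dF) := by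
    rw [h2, h4]
    linear_combination (2 * (E - F) * (δF * db - δb * dF) * f * (F * f + 1) -
      2 * n * dF * f ^ 2) * hF
  rw [h5, h6, hdn, hdx1, hδx1]
  linear_combination -2 * (δE * db - δb * dE + (δF * db - δb * dF)) * hE +
    2 * (δE * db - δb * dE + (δF * db - δb * dF)) * hF

variable {A k : Type*} [CommRing A] [Field k] [Algebra A k]

local notation "RR" => MvPowerSeries (Fin 2) k

/-- a formal chain: mirrors `(b j, x j 0)`, `j < N`, jets `x j r`, lines `(E j ^ 2, l j)`,
`j ≤ N`. -/
structure Chain (D : Fin 2 → Derivation A k k) (N : ℕ) (b : ℕ → k) (x : ℕ → ℕ → k)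
    (E l : ℕ → k) : Prop where
  dx : ∀ j < N, ∀ r, ∀ i : Fin 2, D i (x j r) = x j (r + 1) * D i (b j)
  l0 : ∀ j < N, x j 0 = E j ^ 2 * b j + l j
  l1 : ∀ j < N, x j 0 = E (j + 1) ^ 2 * b j + l (j + 1)
  re : ∀ j < N, E j * E (j + 1) = x j 1
  ne : ∀ j ≤ N, E j ≠ 0

variable [CharZero k] {D : Fin 2 → Derivation A k k} {N : ℕ} {b : ℕ → k} {x : ℕ → ℕ → k}
  {E l : ℕ → k}

/-- jets of the displacement of mirror `j` -/
def nn (D : Fin 2 → Derivation A k k) (b : ℕ → k) (x : ℕ → ℕ → k) (δ : Derivation A k k)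
    (j r : ℕ) : RR := tdel D δ (x j r) - tay D (x j (r + 1)) * tdel D δ (b j)

/-- the weight of mirror `j` -/
def SS (D : Fin 2 → Derivation A k k) (E : ℕ → k) (j : ℕ) : RR :=
  tay D (E j)⁻¹ - tay D (E (j + 1))⁻¹

/-- the symplectic pairing on line `j` -/
def om (D : Fin 2 → Derivation A k k) (E l : ℕ → k) (δ : Derivation A k k) (i : Fin 2) (j : ℕ) :
    RR :=
  2 * tay D (E j) * (tdel D δ (E j) * tay D (D i (l j)) - tdel D δ (l j) * tay D (D i (E j))) *
    tay D (E j)⁻¹ ^ 3

theorem nn_pderiv (hc : ∀ f, D 0 (D 1 f) = D 1 (D 0 f)) (h : Chain D N b x E l)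
    (δ : Derivation A k k) {j : ℕ} (hj : j < N) (r : ℕ) (i : Fin 2) :
    MvPowerSeries.pderiv k i (nn D b x δ j r) = nn D b x δ j (r + 1) * tay D (D i (b j)) := by
  rw [nn, nn, map_sub, tdel_pderiv D hc, Derivation.leibniz, tay_pderiv D hc, tdel_pderiv D hc,
    h.dx j hj, h.dx j hj, tdel_mul D hc, tay_mul D hc]
  simp only [smul_eq_mul]
  ring

theorem tay_inv (hc : ∀ f, D 0 (D 1 f) = D 1 (D 0 f)) {a : k} (ha : a ≠ 0) :
    tay D a * tay D a⁻¹ = 1 := by
  rw [← tay_mul D hc, mul_inv_cancel₀ ha, tay_one D hc]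

theorem tay_sq (hc : ∀ f, D 0 (D 1 f) = D 1 (D 0 f)) (a : k) :
    tay D (a ^ 2) = tay D a ^ 2 := by
  rw [pow_two, pow_two, tay_mul D hc]

theorem tdel_sq (hc : ∀ f, D 0 (D 1 f) = D 1 (D 0 f)) (δ : Derivation A k k) (a : k) :
    tdel D δ (a ^ 2) = 2 * tay D a * tdel D δ a := by
  rw [pow_two, tdel_mul D hc]
  ring

theorem der_inv (i : Fin 2) {a : k} (ha : a ≠ 0) : D i a⁻¹ = -(a⁻¹ ^ 2 * D i a) := by
  have h : D i (a * a⁻¹) = 0 := by
    rw [mul_inv_cancel₀ ha, Derivation.map_one_eq_zero]
  rw [Derivation.leibniz, smul_eq_mul, smul_eq_mul] at h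
  field_simp at h ⊢
  linear_combination h

/-- the variation formula at one mirror -/
theorem vf_mirror (hc : ∀ f, D 0 (D 1 f) = D 1 (D 0 f)) (h : Chain D N b x E l)
    (δ : Derivation A k k) (i : Fin 2) {j : ℕ} (hj : j < N) :
    om D E l δ i j - om D E l δ i (j + 1) =
      2 * MvPowerSeries.pderiv k i (nn D b x δ j 0 * SS D E j) := by
  have hE := h.ne j hj.le
  have hF := h.ne (j + 1) hj
  have hd1 : D i (x j 0) = 2 * E j * D i (E j) * b j + E j ^ 2 * D i (b j) + D i (l j) := by
    conv_lhs => rw [h.l0 j hj]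
    rw [map_add, Derivation.leibniz, pow_two, Derivation.leibniz]
    simp only [smul_eq_mul]
    ring
  have hd2 : D i (x j 0) = 2 * E (j + 1) * D i (E (j + 1)) * b j + E (j + 1) ^ 2 * D i (b j) +
      D i (l (j + 1)) := by
    conv_lhs => rw [h.l1 j hj]
    rw [map_add, Derivation.leibniz, pow_two, Derivation.leibniz]
    simp only [smul_eq_mul]
    ring
  have hd3 : D i (x j 1) = E j * D i (E (j + 1)) + E (j + 1) * D i (E j) := by
    rw [← h.re j hj, Derivation.leibniz, smul_eq_mul, smul_eq_mul]
  have two_tay : tay D (2 : k) = 2 := by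
    have : (2 : k) = 1 + 1 := by norm_num
    rw [this, tay_add, tay_one D hc]
    norm_num
  have key := vf_step (E := tay D (E j)) (F := tay D (E (j + 1))) (e := tay D (E j)⁻¹)
    (f := tay D (E (j + 1))⁻¹) (k := tay D (l j)) (l := tay D (l (j + 1))) (b := tay D (b j))
    (x0' := tay D (x j 0)) (x1 := tay D (x j 1))
    (dE := tay D (D i (E j))) (dF := tay D (D i (E (j + 1)))) (dk := tay D (D i (l j)))
    (dl := tay D (D i (l (j + 1)))) (db := tay D (D i (b j))) (dx1 := tay D (D i (x j 1)))
    (δE := tdel D δ (E j)) (δF := tdel D δ (E (j + 1))) (δk := tdel D δ (l j))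
    (δl := tdel D δ (l (j + 1))) (δb := tdel D δ (b j)) (δx0 := tdel D δ (x j 0))
    (δx1 := tdel D δ (x j 1)) (n := nn D b x δ j 0)
    (dn := MvPowerSeries.pderiv k i (nn D b x δ j 0))
    (tay_inv hc hE) (tay_inv hc hF) (by rw [← tay_mul D hc, h.re j hj])
    (by
      rw [← tay_mul D hc, ← h.dx j hj 0 i, hd1, tay_add, tay_add, tay_mul D hc, tay_mul D hc,
        tay_mul D hc, tay_mul D hc, tay_sq hc, two_tay])
    (by
      rw [← tay_mul D hc, ← h.dx j hj 0 i, hd2, tay_add, tay_add, tay_mul D hc, tay_mul D hc,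
        tay_mul D hc, tay_mul D hc, tay_sq hc, two_tay])
    (by
      conv_lhs => rw [h.l0 j hj]
      rw [tdel_add, tdel_mul D hc, tay_sq hc, tdel_sq hc]
      ring)
    (by
      conv_lhs => rw [h.l1 j hj]
      rw [tdel_add, tdel_mul D hc, tay_sq hc, tdel_sq hc]
      ring)
    (by rw [hd3, tay_add, tay_mul D hc, tay_mul D hc])
    (by rw [← h.re j hj, tdel_mul D hc])
    (by rw [nn])
    (by
      rw [nn_pderiv hc h δ hj, nn, h.dx j hj, tay_mul D hc]
      ring)
  have hS : MvPowerSeries.pderiv k i (SS D E j) =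
      tay D (E (j + 1))⁻¹ ^ 2 * tay D (D i (E (j + 1))) -
        tay D (E j)⁻¹ ^ 2 * tay D (D i (E j)) := by
    have h0 : ∀ a : k, tay D (-a) = -tay D a := by
      intro a
      have := tay_add D (-a) a
      rw [neg_add_cancel] at this
      have h00 : tay D (0 : k) = 0 := by
        have := tay_add D (0 : k) 0
        rw [add_zero] at this
        simpa using this
      rw [h00] at this
      exact eq_neg_of_add_eq_zero_left this.symm
    rw [SS, map_sub, tay_pderiv D hc, tay_pderiv D hc, der_inv i hE, der_inv i hF, h0, h0,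
      tay_mul D hc, tay_mul D hc, tay_sq hc, tay_sq hc]
    ring
  rw [om, om, key, Derivation.leibniz, hS, smul_eq_mul, smul_eq_mul, SS]
  ring

/-- telescoping -/
theorem vf_sum (hc : ∀ f, D 0 (D 1 f) = D 1 (D 0 f)) (h : Chain D N b x E l)
    (δ : Derivation A k k) (i : Fin 2) :
    om D E l δ i 0 - om D E l δ i N =
      2 * MvPowerSeries.pderiv k i (∑ j ∈ Finset.range N, nn D b x δ j 0 * SS D E j) := by
  rw [map_sum, Finset.mul_sum, ← Finset.sum_range_sub' (om D E l δ i) N]
  refine Finset.sum_congr rfl fun j hj => ?_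
  exact vf_mirror hc h δ i (Finset.mem_range.mp hj)

variable {b' : ℕ → k} {x' : ℕ → ℕ → k} {E' l' : ℕ → k} {N' : ℕ}

/-- two chains with the same end lines -/
theorem two_chain (hc : ∀ f, D 0 (D 1 f) = D 1 (D 0 f)) (h : Chain D N b x E l)
    (h' : Chain D N' b' x' E' l') (hE0 : E' 0 = E 0) (hl0 : l' 0 = l 0) (hEN : E' N' = E N)
    (hlN : l' N' = l N) (δ : Derivation A k k) :
    ∃ c : k, (∑ j ∈ Finset.range N, nn D b x δ j 0 * SS D E j) -
      (∑ j ∈ Finset.range N', nn D b' x' δ j 0 * SS D E' j) = MvPowerSeries.C c := by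
  refine ⟨_, eq_C_of_pderiv fun i => ?_⟩
  have h1 := vf_sum hc h δ i
  have h2 := vf_sum hc h' δ i
  have h3 : om D E' l' δ i 0 = om D E l δ i 0 := by rw [om, om, hE0, hl0]
  have h4 : om D E' l' δ i N' = om D E l δ i N := by rw [om, om, hEN, hlN]
  rw [h3, h4, h1] at h2
  rw [map_sub]
  have h5 : (2 : RR) ≠ 0 := by
    intro h
    have h6 := congrArg MvPowerSeries.constantCoeff h
    rw [map_ofNat, map_zero] at h6
    exact two_ne_zero h6
  rw [sub_eq_zero]
  exact mul_left_cancel₀ h5 h2

/-! ## matching of mirrors -/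

/-- two foliations coincide -/
def jac (D : Fin 2 → Derivation A k k) (f g : k) : k := D 0 f * D 1 g - D 1 f * D 0 g

theorem jac_swap (f g : k) : jac D f g = -jac D g f := by
  rw [jac, jac]; ring

/-- recentred Taylor series -/
def zz (D : Fin 2 → Derivation A k k) (f : k) : RR := tay D f - MvPowerSeries.C f

theorem zz_const (f : k) : MvPowerSeries.constantCoeff (zz D f) = 0 := by
  rw [zz, map_sub, tay_const, MvPowerSeries.constantCoeff_C, sub_self]

theorem zz_pderiv (hc : ∀ f, D 0 (D 1 f) = D 1 (D 0 f)) (f : k) (i : Fin 2) :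
    MvPowerSeries.pderiv k i (zz D f) = tay D (D i f) := by
  rw [zz, map_sub, tay_pderiv D hc, MvPowerSeries.pderiv_C, sub_zero]

theorem zz_lin (hc : ∀ f, D 0 (D 1 f) = D 1 (D 0 f)) (f : k) (i : Fin 2) :
    L1g201.lin i (zz D f) = D i f := by
  have h := congrArg MvPowerSeries.constantCoeff (zz_pderiv hc f i)
  rw [tay_const, ← MvPowerSeries.coeff_zero_eq_constantCoeff_apply, MvPowerSeries.coeff_pderiv,
    zero_add] at h
  have h2 : (((0 : Fin 2 →₀ ℕ) i : ℕ) : k) + 1 = 1 := by simp
  rw [h2, mul_one] at h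
  exact h

/-- the substitution homomorphism -/
def sg (D : Fin 2 → Derivation A k k) (f : k) : PowerSeries k →ₐ[k] RR :=
  PowerSeries.substAlgHom (PowerSeries.HasSubst.of_constantCoeff_zero (zz_const (D := D) f))

theorem sg_X (f : k) : sg D f PowerSeries.X = zz D f := PowerSeries.substAlgHom_X _

/-- displacement series -/
def ds (b : ℕ → k) (x : ℕ → ℕ → k) (δ : Derivation A k k) (j : ℕ) : PowerSeries k :=
  egf fun r => δ (x j r) - x j (r + 1) * δ (b j)

theorem nn_eq (hc : ∀ f, D 0 (D 1 f) = D 1 (D 0 f)) (h : Chain D N b x E l)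
    (δ : Derivation A k k) {j : ℕ} (hj : j < N) :
    nn D b x δ j 0 = sg D (b j) (ds b x δ j) := by
  have := expl (zz_const (D := D) (b j)) (sg_X (D := D) (b j)) (fun r => nn D b x δ j r)
    (fun r i => by rw [nn_pderiv hc h δ hj, zz_pderiv hc])
  rw [this, ds]
  congr 2
  funext r
  rw [nn, map_sub, map_mul, tdel_const, tdel_const, tay_const]

/-- a linear map from finitely supported sequences whose composite with a linear map to a space is
"constant valued" cannot be injective into a finite dimensional space -/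
theorem no_finite {V : Type*} [AddCommGroup V] [Module k V] (S : Submodule k V)
    [Module.Finite k S] (Ψ : (ℕ →₀ k) →ₗ[k] V) (hΨ : Function.Injective Ψ)
    (κ : (ℕ →₀ k) →ₗ[k] k) (h : ∀ a, κ a = 0 → Ψ a ∈ S) : False := by
  have h1 : Module.Finite k (LinearMap.ker κ) := by
    let f : LinearMap.ker κ →ₗ[k] S :=
      LinearMap.codRestrict S (Ψ.comp (LinearMap.ker κ).subtype) fun a => h a.1 a.2
    refine Module.Finite.of_injective f ?_
    intro a a' haa
    apply Subtype.ext
    apply hΨ
    exact congrArg Subtype.val haa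
  have h2 : (⊤ : Submodule k (ℕ →₀ k)).FG := by
    refine Submodule.fg_of_fg_map_of_fg_inf_ker κ ?_ ?_
    · exact IsNoetherian.noetherian _
    · rw [top_inf_eq]
      exact Module.Finite.iff_fg.mp h1
  have h3 : Module.Finite k (ℕ →₀ k) := ⟨h2⟩
  have h4 := Module.Finite.finite_basis (Finsupp.basisSingleOne (R := k) (ι := ℕ))
  exact not_finite ℕ

theorem egf_zero : egf (k := k) (fun _ => 0) = 0 := by
  ext n
  rw [egf, PowerSeries.coeff_mk, zero_mul, map_zero]

/-- **matching**: if mirror `j` of the first chain can be displaced alone by every monomial, some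
mirror of the second chain has the same foliation. -/
theorem match_mirror (hc : ∀ f, D 0 (D 1 f) = D 1 (D 0 f)) (h : Chain D N b x E l)
    (h' : Chain D N' b' x' E' l') (hE0 : E' 0 = E 0) (hl0 : l' 0 = l 0) (hEN : E' N' = E N)
    (hlN : l' N' = l N) (hS : ∀ j < N, E j ≠ E (j + 1)) (hS' : ∀ j < N', E' j ≠ E' (j + 1))
    (hjac' : ∀ i < N', ∀ j < N', i ≠ j → jac D (b' i) (b' j) ≠ 0) (hN' : 0 < N')
    {j : ℕ} (hj : j < N) (δ : ℕ → Derivation A k k)
    (hδ : ∀ p, ∀ i < N, ∀ r, δ p (x i r) - x i (r + 1) * δ p (b i) =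
      if i = j ∧ r = p then 1 else 0) :
    ∃ i < N', jac D (b j) (b' i) = 0 := by
  classical
  by_contra hno
  push Not at hno
  let f : Option (Fin N') → k := fun o => o.elim (b j) fun i => b' i
  have hf : ∀ o o' : Option (Fin N'), o ≠ o' → jac D (f o) (f o') ≠ 0 := by
    intro o o' hoo
    cases o with
    | none =>
      cases o' with
      | none => exact absurd rfl hoo
      | some i => exact hno i i.2
    | some i =>
      cases o' with
      | none =>
        rw [jac_swap]
        exact neg_ne_zero.mpr (hno i i.2)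
      | some i' =>
        exact hjac' i i.2 i' i'.2 fun hii => hoo (congrArg some (Fin.ext hii))
  have hcc : ∀ c : k, (MvPowerSeries.constantCoeff (algebraMap k RR c)) = c := by
    intro c
    rw [MvPowerSeries.algebraMap_apply]
    exact MvPowerSeries.constantCoeff_C c
  let cc : RR →ₐ[k] k := { (MvPowerSeries.constantCoeff : RR →+* k) with
    commutes' := fun c => hcc c }
  let lam : RR →ₐ[k] PowerSeries k := (Algebra.ofId k (PowerSeries k)).comp cc
  have hlam : ∀ g : RR, lam g = algebraMap k (PowerSeries k) (MvPowerSeries.constantCoeff g) :=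
    fun g => rfl
  let g : (o : Option (Fin N')) → Unit → RR := fun o _ => o.elim (SS D E j) fun i => -SS D E' i
  have hg : ∀ o, MvPowerSeries.constantCoeff (g o ()) ≠ 0 := by
    intro o
    cases o with
    | none =>
      show MvPowerSeries.constantCoeff (SS D E j) ≠ 0
      rw [SS, map_sub, tay_const, tay_const, sub_ne_zero]
      exact fun he => hS j hj (inv_injective he)
    | some i =>
      show MvPowerSeries.constantCoeff (-SS D E' i) ≠ 0
      rw [map_neg, SS, map_sub, tay_const, tay_const, neg_ne_zero, sub_ne_zero]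
      exact fun he => hS' i i.2 (inv_injective he)
  have hfin : Module.Finite k (L1g201.Sol (fun o => sg D (f o)) g) := by
    refine L1g201.web_finite (z := fun o => zz D (f o)) (fun o => zz_const _) ?_ ?_
      (fun o => sg_X _) (lam := fun _ => lam) (fun o => ?_) (fun o => ?_)
    · intro o o' hoo
      rw [zz_lin hc, zz_lin hc, zz_lin hc, zz_lin hc]
      have := hf o o' hoo
      rw [jac] at this
      intro h0
      apply this
      linear_combination -h0
    · intro o
      rw [zz_lin hc, zz_lin hc]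
      by_contra h0
      push Not at h0
      obtain ⟨o', ho'⟩ : ∃ o' : Option (Fin N'), o ≠ o' := by
        cases o with
        | none => exact ⟨some ⟨0, hN'⟩, by simp⟩
        | some i => exact ⟨none, by simp⟩
      apply hf o o' ho'
      rw [jac, h0.1, h0.2, zero_mul, zero_mul, sub_zero]
    · rw [hlam, zz_const, map_zero]
    · rw [linearIndependent_unique_iff]
      rw [hlam]
      intro h0
      apply hg o
      have h1 : (algebraMap k (PowerSeries k)) (MvPowerSeries.constantCoeff (g o ())) = 0 := h0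
      exact (map_eq_zero_iff _ (algebraMap k (PowerSeries k)).injective).mp h1
  let v : ℕ → ((o : Option (Fin N')) → Unit → PowerSeries k) := fun p o _ =>
    o.elim (ds b x (δ p) j) fun i => ds b' x' (δ p) i
  let Ψ : (ℕ →₀ k) →ₗ[k] ((o : Option (Fin N')) → Unit → PowerSeries k) :=
    Finsupp.linearCombination k v
  let Φ : ((o : Option (Fin N')) → Unit → PowerSeries k) →ₗ[k] RR :=
    { toFun := fun n => ∑ o, ∑ i, sg D (f o) (n o i) * g o i
      map_add' := fun n n' => by
        simp only [Pi.add_apply, map_add, add_mul, Finset.sum_add_distrib]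
      map_smul' := fun c n => by
        simp only [Pi.smul_apply, map_smul, smul_mul_assoc, ← Finset.smul_sum, RingHom.id_apply] }
  let κ : (ℕ →₀ k) →ₗ[k] k := cc.toLinearMap.comp (Φ.comp Ψ)
  have hds : ∀ p, ds b x (δ p) j = egf fun r => if r = p then 1 else 0 := by
    intro p
    rw [ds]
    congr 1
    funext r
    rw [hδ p j hj r]
    simp
  have hds0 : ∀ p, ∀ i < N, i ≠ j → ds b x (δ p) i = 0 := by
    intro p i hi hij
    rw [ds, ← egf_zero]
    congr 1
    funext r
    rw [hδ p i hi r]
    simp [hij]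
  have hΦv : ∀ p, Φ (v p) = MvPowerSeries.C (cc (Φ (v p))) := by
    intro p
    obtain ⟨c, hcv⟩ := two_chain hc h h' hE0 hl0 hEN hlN (δ p)
    have h1 : Φ (v p) = MvPowerSeries.C c := by
      rw [← hcv]
      show (∑ o, ∑ i, sg D (f o) (v p o i) * g o i) = _
      rw [Fintype.sum_option]
      have h2 : ∑ i ∈ Finset.range N, nn D b x (δ p) i 0 * SS D E i =
          nn D b x (δ p) j 0 * SS D E j := by
        refine Finset.sum_eq_single j (fun i hi hij => ?_) fun hj' => ?_
        · rw [nn_eq hc h (δ p) (Finset.mem_range.mp hi), hds0 p i (Finset.mem_range.mp hi) hij,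
            map_zero, zero_mul]
        · exact absurd (Finset.mem_range.mpr hj) hj'
      have h3 : ∑ i ∈ Finset.range N', nn D b' x' (δ p) i 0 * SS D E' i =
          ∑ i : Fin N', nn D b' x' (δ p) i 0 * SS D E' i :=
        (Fin.sum_univ_eq_sum_range (fun i => nn D b' x' (δ p) i 0 * SS D E' i) N').symm
      rw [h2, h3, sub_eq_add_neg, ← Finset.sum_neg_distrib]
      congr 1
      · rw [nn_eq hc h (δ p) hj]
        simp [f, v, g]
      · refine Finset.sum_congr rfl fun i _ => ?_
        rw [nn_eq hc h' (δ p) i.2]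
        simp [f, v, g]
    rw [h1]
    congr 1
  have hΦΨ : ∀ a, Φ (Ψ a) = MvPowerSeries.C (κ a) := by
    intro a
    show Φ (Finsupp.linearCombination k v a) =
      MvPowerSeries.C (cc (Φ (Finsupp.linearCombination k v a)))
    rw [Finsupp.linearCombination_apply, Finsupp.sum, map_sum, map_sum, map_sum]
    refine Finset.sum_congr rfl fun p _ => ?_
    rw [map_smul, map_smul, smul_eq_mul, map_mul, ← hΦv p, MvPowerSeries.smul_eq_C_mul]
  refine no_finite (L1g201.Sol (fun o => sg D (f o)) g) Ψ ?_ κ fun a ha => ?_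
  · intro a a' haa
    have h1 := congrArg (fun n : (o : Option (Fin N')) → Unit → PowerSeries k => n none ()) haa
    have h2 : ∀ a : ℕ →₀ k, Ψ a none () = egf fun r => a r := by
      intro a
      show (Finsupp.linearCombination k v a) none () = _
      rw [Finsupp.linearCombination_apply, Finsupp.sum]
      simp only [Finset.sum_apply, Pi.smul_apply]
      ext r
      rw [map_sum]
      have h3 : ∀ p, PowerSeries.coeff r (a p • v p none ()) =
          if r = p then a p * ((r.factorial : ℕ) : k)⁻¹ else 0 := by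
        intro p
        have h4 : v p none () = egf fun r => if r = p then 1 else 0 := hds p
        rw [map_smul, h4, egf, PowerSeries.coeff_mk]
        split_ifs <;> simp
      rw [Finset.sum_congr rfl fun p _ => h3 p, Finset.sum_ite_eq, egf, PowerSeries.coeff_mk]
      split_ifs with h5
      · rfl
      · rw [Finsupp.notMem_support_iff.mp h5, zero_mul]
    have h6 : (egf fun r => a r) = egf fun r => a' r := by
      rw [← h2, ← h2]
      exact h1
    ext r
    have h7 := congrArg (PowerSeries.coeff r) h6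
    rw [egf, egf, PowerSeries.coeff_mk, PowerSeries.coeff_mk] at h7
    exact mul_right_cancel₀ (inv_ne_zero (Nat.cast_ne_zero.mpr r.factorial_ne_zero)) h7
  · show Φ (Ψ a) = 0
    rw [hΦΨ, ha, map_zero]

end Crest.Agent.R102.RAT554
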