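import Mathlib

/-!
Row 102, T1-E, COL (D): mean of `G = y''/y` over a period.
-/

set_option autoImplicit false

open Set Filter Topology Metric MeasureTheory
open scoped ComplexConjugate Interval

noncomputable section

namespace Crest.Agent.R102.MeanG329

variable {y G : ℂ → ℂ}

lemma deriv_per (hper : ∀ z, y (z + 1) = y z) (z : ℂ) : deriv y (z + 1) = deriv y z := by
  have h1 : (fun w => y (w + 1)) = y := funext hper
  have h2 := deriv_comp_add_const y 1 z
  rw [h1] at h2
  exact h2.symm

/-- `G` is 1-periodic -/
theorem G_per (hy : Differentiable ℂ y) (hG : Differentiable ℂ G)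
    (hyG : ∀ z, deriv (deriv y) z = G z * y z) (hper : ∀ z, y (z + 1) = y z) (h0 : y 0 ≠ 0) :
    ∀ z, G (z + 1) = G z := by
  have hG1 : Differentiable ℂ fun z => G (z + 1) := hG.comp (differentiable_id.add_const 1)
  have h1 : ∀ z, y z ≠ 0 → G (z + 1) = G z := by
    intro z hz
    have e1 := hyG (z + 1)
    rw [deriv_per (deriv_per hper), hyG z, hper z] at e1
    exact (mul_right_cancel₀ hz e1).symm
  have h2 : (fun z => G (z + 1)) =ᶠ[𝓝 0] G := by
    filter_upwards [hy.continuous.continuousAt.eventually_ne h0] with z hz using h1 z hz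
  have h3 := AnalyticOnNhd.eq_of_eventuallyEq (f := fun z => G (z + 1)) (g := G) (z₀ := 0)
    (hG1.differentiableOn.analyticOnNhd isOpen_univ)
    (hG.differentiableOn.analyticOnNhd isOpen_univ) h2
  exact fun z => congrFun h3 z

/-- the mean over a period of an entire 1-periodic function does not depend on the height -/
theorem mean_indep (hG : Differentiable ℂ G) (hper : ∀ z, G (z + 1) = G z) (h : ℝ) :
    ∫ x in (0 : ℝ)..1, G (x + h * Complex.I) = ∫ x in (0 : ℝ)..1, G x := by
  have key := Complex.integral_boundary_rect_eq_zero_of_differentiableOn G 0 (1 + h * Complex.I)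
    hG.differentiableOn
  simp only [Complex.zero_re, Complex.zero_im, Complex.add_re, Complex.one_re, Complex.mul_re,
    Complex.ofReal_re, Complex.I_re, mul_zero, Complex.ofReal_im, Complex.I_im, mul_one, sub_self,
    add_zero, Complex.add_im, Complex.one_im, Complex.mul_im, zero_add, Complex.ofReal_zero,
    zero_mul, Complex.ofReal_one] at key
  have e : ∀ t : ℝ, G (1 + t * Complex.I) = G (t * Complex.I) := by
    intro t
    rw [add_comm]
    exact hper _
  simp only [e] at key
  rw [add_sub_cancel_right, sub_eq_zero] at key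
  exact key.symm

/-- **COL (D)** -/
theorem mean_nonneg (hy : Differentiable ℂ y) (hG : Differentiable ℂ G)
    (hyG : ∀ z, deriv (deriv y) z = G z * y z) (hper : ∀ z, y (z + 1) = y z)
    (hreal : ∀ x : ℝ, (y x).im = 0 ∧ 0 < (y x).re) (h : ℝ) :
    0 ≤ (∫ x in (0 : ℝ)..1, G (x + h * Complex.I)).re := by
  have hne : ∀ x : ℝ, y x ≠ 0 := by
    intro x hx
    have := (hreal x).2
    rw [hx] at this
    simp at this
  rw [mean_indep hG (G_per hy hG hyG hper (by simpa using hne 0)) h]
  have hyd : Differentiable ℂ (deriv y) := hy.deriv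
  set u : ℝ → ℂ := fun x => deriv y x / y x with hu
  have hcu : Continuous u :=
    (hyd.continuous.comp Complex.continuous_ofReal).div
      (hy.continuous.comp Complex.continuous_ofReal) hne
  have hcG : Continuous fun x : ℝ => G x := hG.continuous.comp Complex.continuous_ofReal
  have hcu2 : Continuous fun x : ℝ => u x ^ 2 := hcu.pow 2
  have hud : ∀ x : ℝ, HasDerivAt u (G x - u x ^ 2) x := by
    intro x
    have h1 : HasDerivAt (fun z => deriv y z / y z)
        ((deriv (deriv y) x * y x - deriv y x * deriv y x) / y x ^ 2) (x : ℂ) :=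
      (hyd x).hasDerivAt.div (hy x).hasDerivAt (hne x)
    refine h1.comp_ofReal.congr_deriv ?_
    rw [hyG]
    simp only [hu]
    have := hne x
    field_simp
  have hFTC : ∫ x in (0 : ℝ)..1, (G x - u x ^ 2) = u 1 - u 0 :=
    intervalIntegral.integral_eq_sub_of_hasDerivAt (fun x _ => hud x)
      ((hcG.sub hcu2).intervalIntegrable _ _)
  have hu01 : u 1 = u 0 := by
    simp only [hu]
    have h1 := hper 0
    have h2 := deriv_per hper 0
    rw [zero_add] at h1 h2
    simp only [Complex.ofReal_one, Complex.ofReal_zero]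
    rw [h1, h2]
  rw [hu01, sub_self, intervalIntegral.integral_sub (hcG.intervalIntegrable _ _)
    (hcu2.intervalIntegrable _ _), sub_eq_zero] at hFTC
  rw [hFTC]
  -- `u` is real
  have him : ∀ x : ℝ, (deriv y x).im = 0 := by
    intro x
    have h1 : HasDerivAt (fun t : ℝ => y t) (deriv y x) x := (hy x).hasDerivAt.comp_ofReal
    have h2 : HasDerivAt (fun t : ℝ => (y t).im) (deriv y x).im x :=
      (Complex.imCLM.hasFDerivAt.comp_hasDerivAt x h1)
    have h3 : (fun t : ℝ => (y t).im) = fun _ => 0 := funext fun t => (hreal t).1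
    rw [h3] at h2
    exact h2.unique (hasDerivAt_const x (0 : ℝ))
  have hre : ∀ x : ℝ, u x ^ 2 = (((u x).re ^ 2 : ℝ) : ℂ) := by
    intro x
    have h1 : (u x).im = 0 := by
      simp only [hu]
      rw [Complex.div_im, him x, (hreal x).1]
      simp
    have h2 : u x = ((u x).re : ℂ) := Complex.ext (by simp) (by simp [h1])
    rw [h2]
    push_cast
    simp
  simp only [hre]
  rw [intervalIntegral.integral_ofReal, Complex.ofReal_re]
  exact intervalIntegral.integral_nonneg (by norm_num) fun x _ => by positivity

end Crest.Agent.R102.MeanG329
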