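import Mathlib
import Crest.Agent.R102.MLZ3_519
import Crest.Agent.R102.MelData_490

/-!
# Row 102, T5-MEL: `FlatEnd` and `IsoEnd` of `MelData_490` (helper519)
-/

set_option autoImplicit false

open Complex Metric Set Filter Topology

namespace Crest.Agent.R102.MelEnd519

open Crest.Agent.R102.Mel Crest.Agent.R102.MLZ519 Crest.Agent.R102.Spine
open Crest.Agent.R102.Pain416 Crest.Agent.R102.C1 Crest.Agent.R102.C0
open Crest.Agent.R102.T5 Crest.Agent.R102.G576 Crest.Agent.R102.A929 Crest.Agent.R102.B821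

/-- the analytic data below the top line -/
lemma below {q : C(ℂ, ℂ)} {η ρ r B : ℝ} {b φ p : ℂ × ℂ → ℂ} {m₀ θ H : ℂ → ℂ} {h0 : ℝ}
    (hD : DataS q η ρ r B b φ p m₀ θ H h0) {s : ℂ} (hs : s.im = h0) :
    0 < h0 ∧ (∀ᶠ z in bl s, DifferentiableAt ℂ θ z) ∧
      ∀ᶠ z in bl s, deriv θ z * deriv (deriv H) z - deriv (deriv θ) z * deriv H z +
        deriv θ z ^ 3 * H z = -1 := by
  have hh0 : 0 < h0 := lt_of_lt_of_le hD.fam.dat.η_pos hD.le
  have hV := hD.ext
  have hLZ := (zeroY q η (Str h0) θ H hD.fam.dat hV).1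
  have hsub : ∀ z ∈ HD s h0, z ∈ Str h0 := by
    intro z hz
    have h1 := hz.1
    have h2 : z.im < s.im := hz.2
    rw [mem_ball, dist_eq_norm] at h1
    have h3 := (Complex.abs_im_le_norm (z - s)).trans_lt h1
    rw [Complex.sub_im, abs_lt] at h3
    change |z.im| < h0
    rw [abs_lt]
    constructor
    · linarith [h3.1]
    · linarith
  have hHDm : HD s h0 ∈ bl s := HD_mem hh0
  refine ⟨hh0, ?_, ?_⟩
  · filter_upwards [hHDm] with z hz using
      hV.θ_diff.differentiableAt (hV.open'.mem_nhds (hsub z hz))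
  · filter_upwards [hHDm] with z hz using hLZ z (hsub z hz)

/-- **(FLAT-END)** -/
theorem flatEnd : FlatEnd := by
  intro q η ρ r B b φ p m₀ θ H h0 hD s n r₁ a k e g f hs _ hS hk hinv
  obtain ⟨h1, h2, h3⟩ := below hD hs
  exact regB_of_single h1 hs h2 h3 hS hk hinv.frequently

/-- **(ISO-END)** -/
theorem isoEnd : IsoEnd := by
  intro q η ρ r B b φ p m₀ θ H h0 hD s n r₁ a k e g f hs _ hS ha hinv
  obtain ⟨h1, h2, h3⟩ := below hD hs
  have hn := hS.n_pos
  have ha0 : a ≠ 0 := by rcases ha with rfl | rfl <;> omega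
  exact niceB_of_odd h1 hs h2 hS (hS.iso ha0).1 ha hinv.frequently

end Crest.Agent.R102.MelEnd519
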