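import Mathlib

/-!
Row 102, [T5] MELNIKOV (helper490's strip proof), abstract analytic core (helper39).

`ext`   : backward extension of a family of orbits that is close to a model orbit.
`strip` : identity theorem on a vertical strip.
-/

namespace Crest.Agent.R102.Strip39

open Complex Set Filter Topology

noncomputable section

/-- open rectangle `a < Re s < b`, `|Im s| < S`. -/
def Rc (a b S : ℝ) : Set ℂ := {s | a < s.re ∧ s.re < b ∧ |s.im| < S}

theorem isOpen_Rc (a b S : ℝ) : IsOpen (Rc a b S) := by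
  have h1 : IsOpen {s : ℂ | a < s.re} := isOpen_lt continuous_const continuous_re
  have h2 : IsOpen {s : ℂ | s.re < b} := isOpen_lt continuous_re continuous_const
  have h3 : IsOpen {s : ℂ | |s.im| < S} := isOpen_lt continuous_im.abs continuous_const
  exact (h1.inter (h2.inter h3))

theorem convex_Rc (a b S : ℝ) : Convex ℝ (Rc a b S) := by
  have h1 : Convex ℝ {s : ℂ | a < s.re} := convex_halfSpace_re_gt _
  have h2 : Convex ℝ {s : ℂ | s.re < b} := convex_halfSpace_re_lt _
  have h3 : Convex ℝ {s : ℂ | s.im < S} := convex_halfSpace_im_lt _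
  have h4 : Convex ℝ {s : ℂ | -S < s.im} := convex_halfSpace_im_gt _
  have h : Rc a b S = {s : ℂ | a < s.re} ∩ ({s : ℂ | s.re < b} ∩ ({s : ℂ | -S < s.im} ∩
      {s : ℂ | s.im < S})) := by
    ext s
    constructor
    · rintro ⟨h1, h2, h3⟩
      exact ⟨h1, h2, (abs_lt.mp h3).1, (abs_lt.mp h3).2⟩
    · rintro ⟨h1, h2, h3, h4⟩
      exact ⟨h1, h2, abs_lt.mpr ⟨h3, h4⟩⟩
  rw [h]
  exact h1.inter (h2.inter (h4.inter h3))

theorem add_one_mem_Rc {a b S : ℝ} {s : ℂ} (hs : s ∈ Rc a b S) : s + 1 ∈ Rc (a + 1) (b + 1) S := by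
  obtain ⟨h1, h2, h3⟩ := hs
  refine ⟨?_, ?_, ?_⟩
  · simpa using h1
  · simpa using h2
  · simpa using h3

theorem sub_one_mem_Rc {a b S : ℝ} {s : ℂ} (hs : s ∈ Rc a b S) : s - 1 ∈ Rc (a - 1) (b - 1) S := by
  obtain ⟨h1, h2, h3⟩ := hs
  refine ⟨?_, ?_, ?_⟩
  · simpa using h1
  · simpa using h2
  · simpa using h3

/-- **EXT** (backward, i.e. from the right to the left). -/
theorem ext {V : Type*} [NormedAddCommGroup V] [NormedSpace ℂ V] {ι : Type*} {F : Filter ι}
    {l0 : ℂ → V} {E : ι → V → V} {lA : ι → ℂ → V} {S R : ℝ} (n : ℕ) :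
    ∀ {a b : ℝ},
    (∀ e : ℝ, 0 < e → ∃ d : ℝ, 0 < d ∧ ∀ᶠ w in F, ∀ j : ℕ, 1 ≤ j → j ≤ n →
      ∀ s ∈ Rc (a + j) (b + j) S, ∀ v : V, ‖v - l0 s‖ < d →
        DifferentiableAt ℂ (E w) v ∧ ‖E w v - l0 (s - 1)‖ < e) →
    (∀ e : ℝ, 0 < e → ∀ᶠ w in F, ∀ s ∈ Rc (a + n) (b + n) S,
      DifferentiableAt ℂ (lA w) s ∧ ‖lA w s - l0 s‖ < e) →
    (∀ᶠ w in F, ∀ j : ℕ, j < n → ∀ s ∈ Rc (a + j) (b + j) S, R < |s.im| →
      E w (lA w (s + 1)) = lA w s) →
    ∀ e : ℝ, 0 < e → ∀ᶠ w in F, ∃ P : ℂ → V, DifferentiableOn ℂ P (Rc a b S) ∧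
      (∀ s ∈ Rc a b S, ‖P s - l0 s‖ < e) ∧ (∀ s ∈ Rc a b S, R < |s.im| → P s = lA w s) := by
  induction n with
  | zero =>
    intro a b _ hl _ e he
    filter_upwards [hl e he] with w hw
    simp only [Nat.cast_zero, add_zero] at hw
    refine ⟨lA w, fun s hs => (hw s hs).1.differentiableWithinAt, fun s hs => (hw s hs).2,
      fun s _ _ => rfl⟩
  | succ n ih =>
    intro a b hE hl he e hpos
    obtain ⟨d, hd, hdE⟩ := hE e hpos
    have ih' := ih (a := a + 1) (b := b + 1) ?_ ?_ ?_ d hd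
    · filter_upwards [ih', hdE, he] with w h1 h2 h3
      obtain ⟨P, hP1, hP2, hP3⟩ := h1
      refine ⟨fun s => E w (P (s + 1)), ?_, ?_, ?_⟩
      · intro s hs
        have hs1 := add_one_mem_Rc hs
        have h4 := (h2 1 le_rfl (by omega) (s + 1) (by simpa using hs1) (P (s + 1)) (hP2 _ hs1)).1
        have h5 : DifferentiableAt ℂ P (s + 1) :=
          (hP1 (s + 1) hs1).differentiableAt ((isOpen_Rc _ _ _).mem_nhds hs1)
        have h6 : DifferentiableAt ℂ (fun s : ℂ => s + 1) s := differentiableAt_id.add_const 1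
        exact (DifferentiableAt.comp s h4 (DifferentiableAt.comp s h5 h6)).differentiableWithinAt
      · intro s hs
        have hs1 := add_one_mem_Rc hs
        have h4 := (h2 1 le_rfl (by omega) (s + 1) (by simpa using hs1) (P (s + 1)) (hP2 _ hs1)).2
        simpa using h4
      · intro s hs hR
        have hs1 := add_one_mem_Rc hs
        have h4 := h3 0 (by omega) s (by simpa using hs) hR
        simp only
        rw [hP3 _ hs1 (by simpa using hR), h4]
    · intro e' he'
      obtain ⟨d', hd', h'⟩ := hE e' he'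
      refine ⟨d', hd', ?_⟩
      filter_upwards [h'] with w hw j hj1 hj2 s hs v hv
      apply hw (j + 1) (by omega) (by omega) s ?_ v hv
      have e1 : a + ((j + 1 : ℕ) : ℝ) = a + 1 + j := by push_cast; ring
      have e2 : b + ((j + 1 : ℕ) : ℝ) = b + 1 + j := by push_cast; ring
      rw [e1, e2]
      exact hs
    · intro e' he'
      filter_upwards [hl e' he'] with w hw s hs
      apply hw s
      have e1 : a + ((n + 1 : ℕ) : ℝ) = a + 1 + n := by push_cast; ring
      have e2 : b + ((n + 1 : ℕ) : ℝ) = b + 1 + n := by push_cast; ring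
      rw [e1, e2]
      exact hs
    · filter_upwards [he] with w hw j hj s hs hR
      apply hw (j + 1) (by omega) s ?_ hR
      have e1 : a + ((j + 1 : ℕ) : ℝ) = a + 1 + j := by push_cast; ring
      have e2 : b + ((j + 1 : ℕ) : ℝ) = b + 1 + j := by push_cast; ring
      rw [e1, e2]
      exact hs

/-- **EXT', forward (from the left to the right)**: mirror image of `ext`. -/
theorem ext' {V : Type*} [NormedAddCommGroup V] [NormedSpace ℂ V] {ι : Type*} {F : Filter ι}
    {l0 : ℂ → V} {E : ι → V → V} {lA : ι → ℂ → V} {S R : ℝ} (n : ℕ) :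
    ∀ {a b : ℝ},
    (∀ e : ℝ, 0 < e → ∃ d : ℝ, 0 < d ∧ ∀ᶠ w in F, ∀ j : ℕ, 1 ≤ j → j ≤ n →
      ∀ s ∈ Rc (a - j) (b - j) S, ∀ v : V, ‖v - l0 s‖ < d →
        DifferentiableAt ℂ (E w) v ∧ ‖E w v - l0 (s + 1)‖ < e) →
    (∀ e : ℝ, 0 < e → ∀ᶠ w in F, ∀ s ∈ Rc (a - n) (b - n) S,
      DifferentiableAt ℂ (lA w) s ∧ ‖lA w s - l0 s‖ < e) →
    (∀ᶠ w in F, ∀ j : ℕ, j < n → ∀ s ∈ Rc (a - j) (b - j) S, R < |s.im| →
      E w (lA w (s - 1)) = lA w s) →
    ∀ e : ℝ, 0 < e → ∀ᶠ w in F, ∃ P : ℂ → V, DifferentiableOn ℂ P (Rc a b S) ∧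
      (∀ s ∈ Rc a b S, ‖P s - l0 s‖ < e) ∧ (∀ s ∈ Rc a b S, R < |s.im| → P s = lA w s) := by
  induction n with
  | zero =>
    intro a b _ hl _ e he
    filter_upwards [hl e he] with w hw
    simp only [Nat.cast_zero, sub_zero] at hw
    refine ⟨lA w, fun s hs => (hw s hs).1.differentiableWithinAt, fun s hs => (hw s hs).2,
      fun s _ _ => rfl⟩
  | succ n ih =>
    intro a b hE hl he e hpos
    obtain ⟨d, hd, hdE⟩ := hE e hpos
    have ih' := ih (a := a - 1) (b := b - 1) ?_ ?_ ?_ d hd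
    · filter_upwards [ih', hdE, he] with w h1 h2 h3
      obtain ⟨P, hP1, hP2, hP3⟩ := h1
      refine ⟨fun s => E w (P (s - 1)), ?_, ?_, ?_⟩
      · intro s hs
        have hs1 := sub_one_mem_Rc hs
        have h4 := (h2 1 le_rfl (by omega) (s - 1) (by simpa using hs1) (P (s - 1)) (hP2 _ hs1)).1
        have h5 : DifferentiableAt ℂ P (s - 1) :=
          (hP1 (s - 1) hs1).differentiableAt ((isOpen_Rc _ _ _).mem_nhds hs1)
        have h6 : DifferentiableAt ℂ (fun s : ℂ => s - 1) s := differentiableAt_id.sub_const 1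
        exact (DifferentiableAt.comp s h4 (DifferentiableAt.comp s h5 h6)).differentiableWithinAt
      · intro s hs
        have hs1 := sub_one_mem_Rc hs
        have h4 := (h2 1 le_rfl (by omega) (s - 1) (by simpa using hs1) (P (s - 1)) (hP2 _ hs1)).2
        simpa using h4
      · intro s hs hR
        have hs1 := sub_one_mem_Rc hs
        have h4 := h3 0 (by omega) s (by simpa using hs) hR
        simp only
        rw [hP3 _ hs1 (by simpa using hR), h4]
    · intro e' he'
      obtain ⟨d', hd', h'⟩ := hE e' he'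
      refine ⟨d', hd', ?_⟩
      filter_upwards [h'] with w hw j hj1 hj2 s hs v hv
      apply hw (j + 1) (by omega) (by omega) s ?_ v hv
      have e1 : a - ((j + 1 : ℕ) : ℝ) = a - 1 - j := by push_cast; ring
      have e2 : b - ((j + 1 : ℕ) : ℝ) = b - 1 - j := by push_cast; ring
      rw [e1, e2]
      exact hs
    · intro e' he'
      filter_upwards [hl e' he'] with w hw s hs
      apply hw s
      have e1 : a - ((n + 1 : ℕ) : ℝ) = a - 1 - n := by push_cast; ring
      have e2 : b - ((n + 1 : ℕ) : ℝ) = b - 1 - n := by push_cast; ring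
      rw [e1, e2]
      exact hs
    · filter_upwards [he] with w hw j hj s hs hR
      apply hw (j + 1) (by omega) s ?_ hR
      have e1 : a - ((j + 1 : ℕ) : ℝ) = a - 1 - j := by push_cast; ring
      have e2 : b - ((j + 1 : ℕ) : ℝ) = b - 1 - j := by push_cast; ring
      rw [e1, e2]
      exact hs

/-- **STRIP.** -/
theorem strip {V : Type*} [NormedAddCommGroup V] [NormedSpace ℂ V] [CompleteSpace V]
    {f g : ℂ → V} {a b S R : ℝ}
    (hab : a < b) (hRS : R < S) (hf : DifferentiableOn ℂ f (Rc a b S))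
    (hg : DifferentiableOn ℂ g (Rc a b S)) (h : ∀ s ∈ Rc a b S, R < s.im → f s = g s)
    (hR : 0 ≤ R) :
    ∀ s ∈ Rc a b S, f s = g s := by
  set z : ℂ := ⟨(a + b) / 2, (R + S) / 2⟩ with hz
  have hzm : z ∈ Rc a b S := by
    refine ⟨?_, ?_, ?_⟩
    · simp only [hz]; linarith
    · simp only [hz]; linarith
    · simp only [hz]
      rw [abs_of_nonneg (by linarith)]
      linarith
  apply AnalyticOnNhd.eqOn_of_preconnected_of_eventuallyEq
    (hf.analyticOnNhd (isOpen_Rc _ _ _)) (hg.analyticOnNhd (isOpen_Rc _ _ _))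
    (convex_Rc a b S).isPreconnected hzm
  have hO : IsOpen ({s : ℂ | R < s.im} ∩ Rc a b S) :=
    (isOpen_lt continuous_const continuous_im).inter (isOpen_Rc _ _ _)
  have hm : z ∈ ({s : ℂ | R < s.im} ∩ Rc a b S) := by
    refine ⟨?_, hzm⟩
    change R < z.im
    simp only [hz]
    linarith
  filter_upwards [hO.mem_nhds hm] with s hs
  exact h s hs.2 hs.1

end

end Crest.Agent.R102.Strip39
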