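import Crest.Agent.R102.MelDefs_490
import Crest.Agent.R102.ExtF_39
import Crest.Agent.R102.Strip_39

/-!
Row 102, [T5] MEL (helper490's strip proof), MEL-F: `MelF` from `ExtF`, `PAn`, `RSym`, `RRot`,
`RLimF` (helper39).
-/

set_option autoImplicit false

namespace Crest.Agent.R102.MelF39

open Complex Set Filter Topology Metric
open Crest.Agent.R102.T5R Crest.Agent.R102.Mel Crest.Agent.R102.ExtF39 Crest.Agent.R102.Strip39

noncomputable section

/-- joint holomorphy of `Rj` -/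
theorem Rj_diff (hP : PAn) {κ : ℝ} {q : ℂ → ℂ} (hq : DifferentiableOn ℂ q (Sg κ)) {j x y : ℂ}
    (hseg : ∀ u ∈ Icc (0 : ℝ) 1, x + u * (y - x) ∈ Sg κ) (hne : Pj q (-j) x y ≠ 0) :
    DifferentiableAt ℂ (fun p : ℂ × ℂ => Rj q j p.1 p.2) (x, y) := by
  have h1 := (hP κ q j x y hq (isOpen_Sg κ) hseg).differentiableAt
  have h2 := (hP κ q (-j) x y hq (isOpen_Sg κ) hseg).differentiableAt
  exact dAt_div h1 h2 hne

theorem comp2 {g : ℂ × ℂ → ℂ} {f₁ f₂ : ℂ → ℂ} {s : ℂ} (h : DifferentiableAt ℂ g (f₁ s, f₂ s))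
    (h1 : DifferentiableAt ℂ f₁ s) (h2 : DifferentiableAt ℂ f₂ s) :
    DifferentiableAt ℂ (fun s => g (f₁ s, f₂ s)) s :=
  DifferentiableAt.comp s (g := g) h (h1.prodMk h2)

/-- good times: near the real axis, far from `0` at the scale `l` -/
structure Good (κ' cc l : ℝ) (t : ℂ) : Prop where
  im : |t.im| < κ' / 2 * ‖t‖
  k : 8 * l < κ' * ‖t‖
  c : 8 * l < cc * ‖t‖
  s : ‖t‖ < 1 / 16

theorem Good.neg {κ' cc l : ℝ} {t : ℂ} (h : Good κ' cc l t) : Good κ' cc l (-t) := by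
  refine ⟨?_, ?_, ?_, ?_⟩
  · rw [neg_im, abs_neg, norm_neg]; exact h.im
  · rw [norm_neg]; exact h.k
  · rw [norm_neg]; exact h.c
  · rw [norm_neg]; exact h.s

theorem Good.l3 {κ' cc l : ℝ} {t : ℂ} (h : Good κ' cc l t) (hκ : κ' < 1) : 8 * l < ‖t‖ := by
  have := h.k
  have h2 := norm_nonneg t
  nlinarith

/-- the ball of radius `l` around a good time -/
theorem Good.ball {κ κ' cc l : ℝ} {t : ℂ} (h : Good κ' cc l t) (hl : 0 < l) (hκ' : 0 < κ')
    (hκ1 : κ' < 1) (hκ : κ' < κ) {ζ : ℂ} (hζ : ‖ζ - t‖ ≤ l) :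
    ζ ≠ 0 ∧ ‖ζ‖ < 1 ∧ |ζ.im| < κ * ‖ζ‖ ∧ 2 / 3 * ‖t‖ ≤ ‖ζ‖ ∧ ‖ζ‖ ≤ 4 / 3 * ‖t‖ := by
  have h8 := h.l3 hκ1
  have n1 : ‖t‖ ≤ ‖ζ‖ + l := by
    have := norm_sub_norm_le t (t - ζ)
    rw [sub_sub_cancel] at this
    rw [norm_sub_rev] at hζ
    linarith
  have n2 : ‖ζ‖ ≤ ‖t‖ + l := by
    calc ‖ζ‖ = ‖(ζ - t) + t‖ := by ring_nf
      _ ≤ ‖ζ - t‖ + ‖t‖ := norm_add_le _ _
      _ ≤ _ := by linarith
  have hs := h.s
  refine ⟨?_, ?_, ?_, ?_, ?_⟩
  · rw [← norm_pos_iff]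
    linarith
  · linarith
  · have r1 := abs_im_le_norm (ζ - t)
    have r2 : |ζ.im| ≤ |t.im| + l := by
      have : ζ.im = t.im + (ζ - t).im := by simp
      rw [this]
      calc |t.im + (ζ - t).im| ≤ |t.im| + |(ζ - t).im| := abs_add_le _ _
        _ ≤ _ := by linarith
    have := h.im
    have := h.k
    have h5 : κ' * (‖t‖ - l) ≤ κ * ‖ζ‖ := by
      have : ‖t‖ - l ≤ ‖ζ‖ := by linarith
      have h0 : 0 ≤ ‖t‖ - l := by linarith
      nlinarith
    nlinarith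
  · linarith
  · linarith

theorem Good.mem_Sg {κ κ' cc l : ℝ} {t : ℂ} (h : Good κ' cc l t) (hl : 0 < l) (hκ' : 0 < κ')
    (hκ1 : κ' < 1) (hκ : κ' < κ) {ζ : ℂ} (hζ : ‖ζ - t‖ ≤ l) : ζ ∈ Sg κ := by
  obtain ⟨a, b, c, _, _⟩ := h.ball hl hκ' hκ1 hκ hζ
  exact ⟨a, b, (le_abs_self _).trans_lt c⟩

theorem seg_ball {t x y : ℂ} {l : ℝ} (hx : ‖x - t‖ ≤ l) (hy : ‖y - t‖ ≤ l) {u : ℝ}
    (hu : u ∈ Icc (0 : ℝ) 1) : ‖x + u * (y - x) - t‖ ≤ l := by
  have e : x + u * (y - x) - t = ((1 - u : ℝ) : ℂ) * (x - t) + (u : ℂ) * (y - t) := by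
    push_cast
    ring
  rw [e]
  refine (norm_add_le _ _).trans ?_
  rw [norm_mul, norm_mul, norm_real, norm_real, Real.norm_eq_abs, Real.norm_eq_abs,
    abs_of_nonneg (by linarith [hu.2]), abs_of_nonneg hu.1]
  nlinarith [hu.1, hu.2]

theorem Good.adm {κ κ' cc l : ℝ} {t : ℂ} (h : Good κ' cc l t) (hl : 0 < l) (hκ' : 0 < κ')
    (hκ1 : κ' < 1) (hκ : κ' < κ) {x y : ℂ} (hx : ‖x - t‖ ≤ l) (hy : ‖y - t‖ ≤ l) :
    Adm κ 2 x y := by
  intro u hu
  have hζ := seg_ball hx hy hu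
  obtain ⟨_, _, _, a1, a2⟩ := h.ball hl hκ' hκ1 hκ hζ
  obtain ⟨_, _, _, b1, b2⟩ := h.ball hl hκ' hκ1 hκ hx
  refine ⟨h.mem_Sg hl hκ' hκ1 hκ hζ, ?_, ?_⟩
  · linarith
  · linarith

theorem Good.half {κ' cc l : ℝ} {t : ℂ} (h : Good κ' cc l t) (hl : 0 < l) (hκ' : 0 < κ')
    (hκ1 : κ' < 1) (hcc : 0 < cc) (hc1 : cc < 1) {ζ : ℂ} (hζ : ‖ζ - t‖ ≤ l / 2) :
    ζ ∈ Dl κ' cc l := by
  have h8 := h.l3 hκ1
  have n1 : ‖t‖ ≤ ‖ζ‖ + l / 2 := by
    have := norm_sub_norm_le t (t - ζ)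
    rw [sub_sub_cancel] at this
    rw [norm_sub_rev] at hζ
    linarith
  have n2 : ‖ζ‖ ≤ ‖t‖ + l / 2 := by
    calc ‖ζ‖ = ‖(ζ - t) + t‖ := by ring_nf
      _ ≤ ‖ζ - t‖ + ‖t‖ := norm_add_le _ _
      _ ≤ _ := by linarith
  have hs := h.s
  refine ⟨?_, ?_, ?_, ?_⟩
  · rw [← norm_pos_iff]
    linarith
  · linarith
  · have r1 := abs_im_le_norm (ζ - t)
    have r2 : |ζ.im| ≤ |t.im| + l / 2 := by
      have : ζ.im = t.im + (ζ - t).im := by simp
      rw [this]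
      calc |t.im + (ζ - t).im| ≤ |t.im| + |(ζ - t).im| := abs_add_le _ _
        _ ≤ _ := by linarith
    have := h.im
    have := h.k
    have r3 := le_abs_self ζ.im
    nlinarith
  · have := h.c
    nlinarith

section

variable {κ κ' c β C cc CC l₀ : ℝ} {q : ℂ → ℂ} {j : ℂ} {M : ℂ → ℂ} {x : ℝ → ℂ → ℂ}

/-- basic constants of a side -/
theorem side_consts (hS : Side κ κ' c β C cc CC l₀ q j M x) :
    0 < κ' ∧ κ' < 1 ∧ κ' < κ ∧ 0 < cc ∧ cc < 1 :=
  ⟨hS.κ'_pos, hS.κ'_lt.trans hS.endq.κ_lt, hS.κ'_lt, hS.cone.c_pos, by linarith [hS.cone.c_lt]⟩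

theorem near8 (hS : Side κ κ' c β C cc CC l₀ q j M x) {l : ℝ} (hl : 0 < l) (hl0 : l < l₀) {t : ℂ}
    (ht : t ∈ Dl κ' cc l) : ‖x l t - t‖ ≤ l / 8 := by
  refine (hS.cone.near l hl hl0 t ht).trans ?_
  have h1 := norm_pos_iff.mpr ht.1
  have h2 := ht.2.2.2
  have h3 := hS.cone.Cc
  have hc := hS.cone.c_pos
  rw [div_le_iff₀ h1]
  rcases le_or_gt CC 0 with h | h
  · have : CC * l ^ 2 ≤ 0 := mul_nonpos_of_nonpos_of_nonneg h (by positivity)
    have : 0 ≤ l / 8 * ‖t‖ := by positivity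
    linarith
  · -- CC l^2 ≤ CC cc ‖t‖ l ≤ ‖t‖ l / 8
    have h5 : CC * l ^ 2 ≤ CC * (cc * ‖t‖) * l := by
      have : CC * l ≤ CC * (cc * ‖t‖) := by gcongr
      nlinarith
    have h6 : CC * (cc * ‖t‖) * l ≤ l / 8 * ‖t‖ := by
      have : CC * cc * (‖t‖ * l) ≤ 1 / 8 * (‖t‖ * l) := by gcongr
      linarith
    linarith

/-- the two labels around a good time -/
theorem lab (hS : Side κ κ' c β C cc CC l₀ q j M x) {l : ℝ} (hl : 0 < l) (hl0 : l < l₀) {t : ℂ}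
    (ht : Good κ' cc l t) {σ : ℂ} (hσ : ‖σ‖ ≤ l / 2) :
    t + σ ∈ Dl κ' cc l ∧ ‖x l (t + σ) - t‖ ≤ l := by
  obtain ⟨a1, a2, a3, a4, a5⟩ := side_consts hS
  have h1 : t + σ ∈ Dl κ' cc l := ht.half hl a1 a2 a4 a5 (by simpa using hσ)
  refine ⟨h1, ?_⟩
  have h2 := near8 hS hl hl0 h1
  have e : x l (t + σ) - t = (x l (t + σ) - (t + σ)) + σ := by ring
  rw [e]
  refine (norm_add_le _ _).trans ?_
  linarith

theorem nhalf {l : ℝ} (hl : 0 < l) : ‖(Complex.I * l / 2 : ℂ)‖ ≤ l / 2 ∧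
    ‖(-(Complex.I * l / 2) : ℂ)‖ ≤ l / 2 := by
  have : ‖(Complex.I * l / 2 : ℂ)‖ = l / 2 := by
    rw [norm_div, norm_mul, norm_I, one_mul, norm_real, Real.norm_eq_abs, abs_of_pos hl]
    norm_num
  rw [norm_neg, this]
  exact ⟨le_rfl, le_rfl⟩

/-- non vanishing threshold of a side -/
def Thr (κ : ℝ) (q : ℂ → ℂ) (j : ℂ) (δ : ℝ) : Prop :=
  ∀ x y : ℂ, Adm κ 2 x y → ‖x‖ < δ → Pj q j x y ≠ 0 ∧ Pj q (-j) x y ≠ 0

theorem exists_thr (hR : RLimF) (hc : c = 0 ∨ c = 1) (hS : Side κ κ' c β C cc CC l₀ q j M x) :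
    ∃ δ : ℝ, 0 < δ ∧ Thr κ q j δ := by
  have hj' : -j = Complex.I ∨ -j = -Complex.I := by
    rcases hS.hj with h | h
    · right; rw [h]
    · left; rw [h, neg_neg]
  obtain ⟨δ₁, hδ₁, h₁⟩ := hR κ c β C q j hc hS.hj hS.endq 2 1 (by norm_num) one_pos
  obtain ⟨δ₂, hδ₂, h₂⟩ := hR κ c β C q (-j) hc hj' hS.endq 2 1 (by norm_num) one_pos
  refine ⟨min δ₁ δ₂, lt_min hδ₁ hδ₂, ?_⟩
  intro x y hxy hx
  exact ⟨(h₁ x y hxy (hx.trans_le (min_le_left _ _))).1,
    (h₂ x y hxy (hx.trans_le (min_le_right _ _))).1⟩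

/-- slope of the chord at a good time -/
def CS (q : ℂ → ℂ) (j : ℂ) (M : ℂ → ℂ) (x : ℝ → ℂ → ℂ) (l : ℝ) (t : ℂ) : ℂ :=
  M (x l (t + Complex.I * l / 2)) *
    Rj q j (x l (t + Complex.I * l / 2)) (x l (t + -(Complex.I * l / 2)))

theorem CS_symm (hSy : RSym) (hS : Side κ κ' c β C cc CC l₀ q j M x) {δ : ℝ} (hδ : Thr κ q j δ)
    {l : ℝ} (hl : 0 < l) (hl0 : l < l₀) {t : ℂ} (ht : Good κ' cc l t) (htδ : 4 / 3 * ‖t‖ < δ) :
    M (x l (t + -(Complex.I * l / 2))) *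
      Rj q j (x l (t + -(Complex.I * l / 2))) (x l (t + Complex.I * l / 2)) = CS q j M x l t := by
  obtain ⟨a1, a2, a3, a4, a5⟩ := side_consts hS
  obtain ⟨_, h1⟩ := lab hS hl hl0 ht (nhalf hl).1
  obtain ⟨_, h2⟩ := lab hS hl hl0 ht (nhalf hl).2
  have hadm := ht.adm hl a1 a2 a3 h2 h1
  obtain ⟨_, _, _, _, b2⟩ := ht.ball hl a1 a2 a3 h2
  obtain ⟨p1, p2⟩ := hδ _ _ hadm (b2.trans_lt htδ)
  exact hSy κ q j M _ _ hS.endq.diff hS.slope (fun u hu => (hadm u hu).1) p1 p2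

theorem CS_diff (hP : PAn) (hS : Side κ κ' c β C cc CC l₀ q j M x) {δ : ℝ} (hδ : Thr κ q j δ)
    {l : ℝ} (hl : 0 < l) (hl0 : l < l₀) {t : ℂ} (ht : Good κ' cc l t) (htδ : 4 / 3 * ‖t‖ < δ) :
    DifferentiableAt ℂ (CS q j M x l) t := by
  obtain ⟨a1, a2, a3, a4, a5⟩ := side_consts hS
  obtain ⟨m1, h1⟩ := lab hS hl hl0 ht (nhalf hl).1
  obtain ⟨m2, h2⟩ := lab hS hl hl0 ht (nhalf hl).2
  have hadm := ht.adm hl a1 a2 a3 h1 h2
  obtain ⟨_, _, _, _, b2⟩ := ht.ball hl a1 a2 a3 h1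
  obtain ⟨p1, p2⟩ := hδ _ _ hadm (b2.trans_lt htδ)
  have d1 : DifferentiableAt ℂ (fun t : ℂ => x l (t + Complex.I * l / 2)) t := by
    have g := (hS.cone.diff l hl hl0).differentiableAt ((isOpen_Dl κ' cc l).mem_nhds m1)
    exact DifferentiableAt.comp t (g := x l) g (differentiableAt_id.add_const _)
  have d2 : DifferentiableAt ℂ (fun t : ℂ => x l (t + -(Complex.I * l / 2))) t := by
    have g := (hS.cone.diff l hl hl0).differentiableAt ((isOpen_Dl κ' cc l).mem_nhds m2)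
    exact DifferentiableAt.comp t (g := x l) g (differentiableAt_id.add_const _)
  have d3 : DifferentiableAt ℂ (fun t : ℂ => M (x l (t + Complex.I * l / 2))) t := by
    have g : DifferentiableAt ℂ M (x l (t + Complex.I * l / 2)) :=
      hS.slope.diff.differentiableAt ((isOpen_Sg κ).mem_nhds (ht.mem_Sg hl a1 a2 a3 h1))
    exact DifferentiableAt.comp t (g := M) g d1
  have d0 := Rj_diff hP hS.endq.diff (fun u hu => (hadm u hu).1) p2
  have e : CS q j M x l = fun t => M (x l (t + Complex.I * l / 2)) *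
    (fun p : ℂ × ℂ => Rj q j p.1 p.2)
      (x l (t + Complex.I * l / 2), x l (t + -(Complex.I * l / 2))) := rfl
  rw [e]
  generalize (fun p : ℂ × ℂ => Rj q j p.1 p.2) = g at d0 ⊢
  exact d3.mul (comp2 d0 d1 d2)

/-- law with `j = ± I` -/
theorem rlaw_j (hRo : RRot) (hS : Side κ κ' c β C cc CC l₀ q j M x) {l : ℝ} (hl : 0 < l)
    (hl0 : l < l₀) {t : ℂ} (h1 : t + Complex.I * l ∈ Dl κ' cc l) (h2 : t ∈ Dl κ' cc l)
    (h3 : t - Complex.I * l ∈ Dl κ' cc l) :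
    Rj q j (x l t) (x l (t + Complex.I * l)) * Rj q j (x l t) (x l (t - Complex.I * l)) = 1 := by
  have h := hS.rlaw l hl hl0 t h1 h2 h3
  rcases hS.hj with hj | hj
  · rw [hj]; exact h
  · rw [hj, hRo.1, hRo.1, ← mul_inv, h, inv_one]

set_option maxHeartbeats 1000000 in
/-- the line of side `q` on the strip -/
theorem sideP (hE : ExtF) (hP : PAn) (hR : RLimF) (hRo : RRot) (hSy : RSym) (hc : c = 0 ∨ c = 1)
    (hS : Side κ κ' c β C cc CC l₀ q j M x) :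
    ∃ R₀ : ℝ, 8 ≤ R₀ ∧ 8 ≤ cc * R₀ ∧ 8 ≤ κ' * R₀ ∧ ∀ R : ℝ, R₀ ≤ R →
      ∃ l₁ : ℝ, 0 < l₁ ∧ l₁ ≤ l₀ ∧ l₁ * (100 * R) < 1 ∧ ∀ l : ℝ, 0 < l → l < l₁ →
        ∃ P : ℂ → ℂ, DifferentiableOn ℂ P (Rc (-(1 / 4)) (1 / 4) (2 * R)) ∧
          ∀ s ∈ Rc (-(1 / 4)) (1 / 4) (2 * R), R + 1 < |s.im| →
            Good κ' cc l (lam l * s) ∧ P s = CS q j M x l (lam l * s) := by
  obtain ⟨a1, a2, a3, a4, a5⟩ := side_consts hS
  obtain ⟨δ, hδ, hT⟩ := exists_thr hR hc hS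
  obtain ⟨R₀, r1, r2, r3, hE'⟩ := hE κ κ' c β C cc CC l₀ q j M x hc hS
  refine ⟨R₀, r1, r2, r3, ?_⟩
  intro R hRR
  have hR8 : 8 ≤ R := r1.trans hRR
  have hRc : 8 ≤ cc * R := r2.trans (by gcongr)
  have hRk : 8 ≤ κ' * R := r3.trans (by gcongr)
  obtain ⟨l₁, hl₁, hl₁0, hl₁R, hY⟩ := hE' R (1 / 1024) hRR (by norm_num)
  set N : ℝ := 4 * R + 2 with hN
  obtain ⟨l₂, hl₂, hl₂N, hρ⟩ := rho_close hR hc hS.endq (N := N) (by linarith) (ε := 1) one_pos
  refine ⟨min l₁ (min l₂ (δ / (8 * R))), by positivity, (min_le_left _ _).trans hl₁0, ?_, ?_⟩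
  · refine lt_of_le_of_lt ?_ hl₁R
    gcongr
    exact min_le_left _ _
  intro l hl hll
  have b1 : l < l₁ := hll.trans_le (min_le_left _ _)
  have b2 : l < l₂ := hll.trans_le ((min_le_right _ _).trans (min_le_left _ _))
  have b3 : l < δ / (8 * R) := hll.trans_le ((min_le_right _ _).trans (min_le_right _ _))
  have hl0 : l < l₀ := b1.trans_le hl₁0
  have hlN : l * N < 1 := by
    have : l * N < l₂ * N := by gcongr
    linarith
  have hlR : l * (100 * R) < 1 := by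
    have : l * (100 * R) ≤ l₁ * (100 * R) := by gcongr
    linarith
  have hlδ : l * (8 * R) < δ := by
    rw [lt_div_iff₀ (by linarith)] at b3
    exact b3
  obtain ⟨Y, hYd, hYn, hYx⟩ := hY l hl b1
  have hPne : ∀ ξ ∈ Hp N, ∀ η ∈ Hp N, Pj q j (lam l * ξ) (lam l * η) ≠ 0 ∧
      Pj q (-j) (lam l * ξ) (lam l * η) ≠ 0 := by
    intro ξ hξ η hη
    obtain ⟨p1, p2, _⟩ := hρ l hl b2 ξ hξ η hη
    rcases hS.hj with h | h
    · rw [h]; exact ⟨p1, p2⟩
    · rw [h, neg_neg]; exact ⟨p2, p1⟩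
  -- geometry of the two vertex times
  have hgeo : ∀ s ∈ Rc (-(1 / 4)) (1 / 4) (2 * R), ∀ a : ℝ, 1 / 2 ≤ a → a ≤ 3 / 2 →
      1 / 8 < (s + a).re ∧ ‖s + a‖ < 4 * R ∧ |s.im| ≤ ‖s + a‖ := by
    rintro s ⟨h1, h2, h3⟩ a ha1 ha2
    have e1 : (s + a).re = s.re + a := by simp
    have e2 : (s + a).im = s.im := by simp
    refine ⟨by rw [e1]; linarith, ?_, ?_⟩
    · have := Complex.norm_le_abs_re_add_abs_im (s + a)
      rw [e1, e2, abs_of_nonneg (by linarith)] at this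
      linarith
    · have := abs_im_le_norm (s + a)
      rwa [e2] at this
  have hxi : ∀ s ∈ Rc (-(1 / 4)) (1 / 4) (2 * R), ∀ a : ℝ, 1 / 2 ≤ a → a ≤ 3 / 2 →
      ∃ ξ ∈ Hp N, Y (s + a) = lam l * ξ := by
    intro s hs a ha1 ha2
    obtain ⟨g1, g2, _⟩ := hgeo s hs a ha1 ha2
    refine ⟨Y (s + a) / lam l, ?_, by rw [mul_div_cancel₀ _ (lam_ne hl)]⟩
    apply mem_Hp (s := s + a) g1 (by linarith)
    have h := hYn (s + a) g1 g2
    have e : Y (s + a) / lam l - (s + a) = (Y (s + a) - (-Complex.I * l) * (s + a)) / lam l := by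
      rw [sub_div]
      congr 1
      rw [lam, mul_div_cancel_left₀]
      exact lam_ne hl
    rw [e, norm_div, norm_lam hl, div_le_iff₀ hl]
    exact h
  set P : ℂ → ℂ := fun s => M (Y (s + (1 / 2 : ℝ))) /
    Rj q j (Y (s + (1 / 2 : ℝ))) (Y (s + (3 / 2 : ℝ))) with hPdef
  refine ⟨P, ?_, ?_⟩
  · intro s hs
    apply DifferentiableAt.differentiableWithinAt
    obtain ⟨ξ, hξ, eξ⟩ := hxi s hs (1 / 2) le_rfl (by norm_num)
    obtain ⟨η, hη, eη⟩ := hxi s hs (3 / 2) (by norm_num) le_rfl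
    obtain ⟨g1, g2, _⟩ := hgeo s hs (1 / 2) le_rfl (by norm_num)
    obtain ⟨g3, g4, _⟩ := hgeo s hs (3 / 2) (by norm_num) le_rfl
    obtain ⟨p1, p2⟩ := hPne ξ hξ η hη
    have hopen : IsOpen {s : ℂ | 1 / 8 < s.re ∧ ‖s‖ < 4 * R} :=
      (isOpen_lt continuous_const continuous_re).inter (isOpen_lt continuous_norm continuous_const)
    have d1 : DifferentiableAt ℂ (fun s : ℂ => Y (s + (1 / 2 : ℝ))) s := by
      have g := hYd.differentiableAt (hopen.mem_nhds ⟨g1, g2⟩)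
      exact DifferentiableAt.comp s (g := Y) g (differentiableAt_id.add_const _)
    have d2 : DifferentiableAt ℂ (fun s : ℂ => Y (s + (3 / 2 : ℝ))) s := by
      have g := hYd.differentiableAt (hopen.mem_nhds ⟨g3, g4⟩)
      exact DifferentiableAt.comp s (g := Y) g (differentiableAt_id.add_const _)
    have hadm := adm_of hS.endq.κ_pos hl hlN hξ hη
    rw [← eξ, ← eη] at hadm p1 p2
    have d3 : DifferentiableAt ℂ (fun s : ℂ => M (Y (s + (1 / 2 : ℝ)))) s := by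
      have hm : Y (s + (1 / 2 : ℝ)) ∈ Sg κ := by
        rw [eξ]
        exact lam_mem hS.endq.κ_pos hl hlN (by linarith [hξ.1]) hξ.2.le
      have g : DifferentiableAt ℂ M (Y (s + (1 / 2 : ℝ))) :=
        hS.slope.diff.differentiableAt ((isOpen_Sg κ).mem_nhds hm)
      exact DifferentiableAt.comp s (g := M) g d1
    have d0 := Rj_diff hP hS.endq.diff (fun u hu => (hadm u hu).1) p2
    have hne : Rj q j (Y (s + (1 / 2 : ℝ))) (Y (s + (3 / 2 : ℝ))) ≠ 0 := div_ne_zero p1 p2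
    have e : P = fun s => M (Y (s + (1 / 2 : ℝ))) /
      (fun p : ℂ × ℂ => Rj q j p.1 p.2) (Y (s + (1 / 2 : ℝ)), Y (s + (3 / 2 : ℝ))) := rfl
    rw [e]
    have hne' : (fun p : ℂ × ℂ => Rj q j p.1 p.2) (Y (s + (1 / 2 : ℝ)), Y (s + (3 / 2 : ℝ))) ≠ 0 := hne
    generalize (fun p : ℂ × ℂ => Rj q j p.1 p.2) = g at d0 hne' ⊢
    exact dAt_div d3 (comp2 d0 d1 d2) hne'
  · intro s hs hsim
    obtain ⟨g1, g2, g2'⟩ := hgeo s hs (1 / 2) le_rfl (by norm_num)
    obtain ⟨g3, g4, g4'⟩ := hgeo s hs (3 / 2) (by norm_num) le_rfl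
    obtain ⟨s1, s2, s3⟩ := hs
    have hsn1 : R + 1 < ‖s‖ := hsim.trans_le (abs_im_le_norm s)
    have hsn2 : ‖s‖ ≤ 2 * R + 1 / 4 := by
      have := Complex.norm_le_abs_re_add_abs_im s
      have h5 : |s.re| ≤ 1 / 4 := abs_le.mpr ⟨by linarith, by linarith⟩
      linarith
    have hGood : Good κ' cc l (lam l * s) := by
      refine ⟨?_, ?_, ?_, ?_⟩
      · rw [lam_im, abs_neg, abs_mul, abs_of_pos hl, norm_mul, norm_lam hl]
        have h5 : |s.re| ≤ 1 / 4 := abs_le.mpr ⟨by linarith, by linarith⟩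
        have h6 : l * |s.re| ≤ l * (1 / 4) := by gcongr
        have h7 : κ' / 2 * (l * ‖s‖) = l * (κ' * ‖s‖) / 2 := by ring
        have h8 : 8 < κ' * ‖s‖ := by nlinarith
        rw [h7]
        nlinarith
      · rw [norm_mul, norm_lam hl]
        have h8 : 8 < κ' * ‖s‖ := by nlinarith
        nlinarith
      · rw [norm_mul, norm_lam hl]
        have h8 : 8 < cc * ‖s‖ := by nlinarith
        nlinarith
      · rw [norm_mul, norm_lam hl]
        nlinarith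
    refine ⟨hGood, ?_⟩
    have hY1 := hYx _ g1 (by linarith) g2
    have hY3 := hYx _ g3 (by linarith) g4
    -- rewrite in terms of t = lam l * s
    set t : ℂ := lam l * s with ht
    have e1 : (-Complex.I * l) * (s + (1 / 2 : ℝ)) = t + -(Complex.I * l / 2) := by
      rw [ht, lam]; push_cast; ring
    have e3 : (-Complex.I * l) * (s + (3 / 2 : ℝ)) = (t + -(Complex.I * l / 2)) - Complex.I * l := by
      rw [ht, lam]; push_cast; ring
    have e0 : t + Complex.I * l / 2 = (t + -(Complex.I * l / 2)) + Complex.I * l := by ring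
    rw [e1] at hY1
    rw [e3] at hY3
    obtain ⟨m0, _⟩ := lab hS hl hl0 hGood (nhalf hl).1
    obtain ⟨m1, _⟩ := lab hS hl hl0 hGood (nhalf hl).2
    have m3 : (t + -(Complex.I * l / 2)) - Complex.I * l ∈ Dl κ' cc l := by
      rw [← e3]
      have := mem_WC a1 a4 hl (s := s + (3 / 2 : ℝ)) (by linarith) ?_ ?_
      · exact this
      · rw [div_lt_iff₀ a4]
        nlinarith
      · nlinarith
    have hlaw := rlaw_j hRo hS hl hl0 (by rw [← e0]; exact m0) m1 m3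
    rw [← e0] at hlaw
    have hsy := CS_symm hSy hS hT hl hl0 hGood ?_
    · rw [hPdef]
      simp only
      rw [hY1, hY3, ← hsy]
      have hne : Rj q j (x l (t + -(Complex.I * l / 2)))
          (x l ((t + -(Complex.I * l / 2)) - Complex.I * l)) ≠ 0 := right_ne_zero_of_mul_eq_one hlaw
      rw [div_eq_iff hne, mul_assoc, hlaw, mul_one]
    · rw [ht, norm_mul, norm_lam hl]
      nlinarith

end

/-- at the top (positive real axis) the two chord slopes agree -/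
theorem match_top (hRo : RRot) (hSy : RSym) {κ κ' c β C cc CC l₀ : ℝ} {qA : ℂ → ℂ} {jA : ℂ}
    {MA : ℂ → ℂ} {xA : ℝ → ℂ → ℂ} {qB : ℂ → ℂ} {jB : ℂ} {MB : ℂ → ℂ} {xB : ℝ → ℂ → ℂ}
    (hA : Side κ κ' c β C cc CC l₀ qA jA MA xA) (hB : Side κ κ' c β C cc CC l₀ qB jB MB xB)
    (hM : Match κ κ' cc l₀ qA jA MA xA qB jB MB xB) {δ : ℝ} (hδ : Thr κ qA jA δ)
    {l : ℝ} (hl : 0 < l) (hl0 : l < l₀) {t : ℂ} (ht : Good κ' cc l t) (hre : 0 < t.re)
    (htδ : 4 / 3 * ‖t‖ < δ) :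
    CS qB jB MB xB l (-t) = CS qA jA MA xA l t := by
  obtain ⟨a1, a2, a3, a4, a5⟩ := side_consts hA
  obtain ⟨m1, h1⟩ := lab hA hl hl0 ht (nhalf hl).1
  obtain ⟨m2, h2⟩ := lab hA hl hl0 ht (nhalf hl).2
  obtain ⟨k1, _⟩ := lab hB hl hl0 ht.neg (nhalf hl).1
  obtain ⟨k2, _⟩ := lab hB hl hl0 ht.neg (nhalf hl).2
  have e1 : -t + Complex.I * l / 2 = -(t + -(Complex.I * l / 2)) := by ring
  have e2 : -t + -(Complex.I * l / 2) = -(t + Complex.I * l / 2) := by ring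
  rw [e1] at k1
  rw [e2] at k2
  have hX1 := hM.X l hl hl0 _ m2 k1 (by simpa using hre)
  have hX2 := hM.X l hl hl0 _ m1 k2 (by simpa using hre)
  rw [CS, e1, e2, hX1, hX2, ← CS_symm hSy hA hδ hl hl0 ht htδ]
  have h8 := ht.l3 a2
  -- positions in OvR
  have hov : ∀ ζ : ℂ, ‖ζ - t‖ ≤ l → ζ ∈ OvR κ := by
    intro ζ hζ
    obtain ⟨b1, b2, b3, _, _⟩ := ht.ball hl a1 a2 a3 hζ
    refine ⟨b1, b2, b3, ?_⟩
    have r1 := abs_le.mp ((abs_re_le_norm (ζ - t)).trans hζ)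
    rw [sub_re] at r1
    have r2 := Complex.norm_le_abs_re_add_abs_im t
    rw [abs_of_pos hre] at r2
    have r3 := ht.im
    have r4 : κ' / 2 * ‖t‖ ≤ 1 / 2 * ‖t‖ := by
      have := norm_nonneg t
      gcongr
    linarith [r1.1]
  have hMx := hM.M _ (hov _ h2)
  have hseg : ∀ u ∈ Icc (0 : ℝ) 1, xA l (t + -(Complex.I * l / 2)) +
      u * (xA l (t + Complex.I * l / 2) - xA l (t + -(Complex.I * l / 2))) ∈ OvR κ :=
    fun u hu => hov _ (seg_ball h2 h1 hu)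
  have hR := hRo.2 κ qA qB jB _ _ hA.endq.diff hB.endq.diff hM.q hseg
  rw [hMx, hR, hM.j, neg_neg]

/-- trapezoid at the bottom (negative real axis) -/
def Tz (b δ' R l : ℝ) : Set ℂ := {t | -δ' < t.re ∧ t.re < -(R + 2) * l ∧ |t.im| < -b * t.re}

theorem convex_cone (b : ℝ) : Convex ℝ {t : ℂ | |t.im| < -b * t.re} := by
  have h1 : Convex ℝ {t : ℂ | t.im + b * t.re < 0} :=
    convex_halfSpace_lt (f := fun t : ℂ => t.im + b * t.re)
      ⟨fun x y => by simp; ring, fun a x => by simp; ring⟩ 0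
  have h2 : Convex ℝ {t : ℂ | -t.im + b * t.re < 0} :=
    convex_halfSpace_lt (f := fun t : ℂ => -t.im + b * t.re)
      ⟨fun x y => by simp; ring, fun a x => by simp; ring⟩ 0
  have h : {t : ℂ | |t.im| < -b * t.re} = {t : ℂ | t.im + b * t.re < 0} ∩
      {t : ℂ | -t.im + b * t.re < 0} := by
    ext t
    constructor
    · intro h
      have h' := abs_lt.mp (show |t.im| < -b * t.re from h)
      exact ⟨show t.im + b * t.re < 0 by linarith [h'.2],
        show -t.im + b * t.re < 0 by linarith [h'.1]⟩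
    · rintro ⟨h1, h2⟩
      have h1' : t.im + b * t.re < 0 := h1
      have h2' : -t.im + b * t.re < 0 := h2
      change |t.im| < -b * t.re
      exact abs_lt.mpr ⟨by linarith, by linarith⟩
  rw [h]
  exact h1.inter h2

theorem convex_Tz (b δ' R l : ℝ) : Convex ℝ (Tz b δ' R l) :=
  (convex_halfSpace_re_gt _).inter ((convex_halfSpace_re_lt _).inter (convex_cone b))

theorem isOpen_Tz (b δ' R l : ℝ) : IsOpen (Tz b δ' R l) :=
  (isOpen_lt continuous_const continuous_re).inter ((isOpen_lt continuous_re continuous_const).inter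
    (isOpen_lt continuous_im.abs (by fun_prop)))

theorem good_Tz {κ' cc δ' R l : ℝ} (hl : 0 < l) (hκ' : 0 < κ') (hκ1 : κ' < 1) (hcc : 0 < cc)
    (hRk : 8 ≤ κ' * R) (hRc : 8 ≤ cc * R) (hδ' : δ' ≤ 1 / 32) {t : ℂ}
    (ht : t ∈ Tz (κ' / 2) δ' R l) : Good κ' cc l t ∧ t.re < 0 ∧ ‖t‖ ≤ 3 / 2 * δ' := by
  obtain ⟨h1, h2, h3⟩ := ht
  have hR : 0 < R := by
    by_contra h
    push Not at h
    nlinarith
  have hre : t.re < 0 := by nlinarith
  have hn1 : -t.re ≤ ‖t‖ := (neg_le_abs _).trans (abs_re_le_norm t)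
  have hn2 := Complex.norm_le_abs_re_add_abs_im t
  rw [abs_of_neg hre] at hn2
  have hn3 : |t.im| < 1 / 2 * (-t.re) := by nlinarith
  refine ⟨⟨?_, ?_, ?_, ?_⟩, hre, ?_⟩
  · nlinarith
  · have : (R + 2) * l < ‖t‖ := by linarith
    have h5 : 8 * l ≤ κ' * R * l := by nlinarith
    have h6 : κ' * ((R + 2) * l) < κ' * ‖t‖ := by gcongr
    nlinarith [mul_pos hκ' hl]
  · have : (R + 2) * l < ‖t‖ := by linarith
    have h5 : 8 * l ≤ cc * R * l := by nlinarith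
    have h6 : cc * ((R + 2) * l) < cc * ‖t‖ := by gcongr
    nlinarith [mul_pos hcc hl]
  · linarith
  · linarith

theorem Pj_self (q : ℂ → ℂ) (j t : ℂ) : Pj q j t t = 1 := by
  simp [Pj]

theorem Rj_self (q : ℂ → ℂ) (j t : ℂ) : Rj q j t t = 1 := by
  rw [Rj, Pj_self, Pj_self, div_one]

/-- limit `l → 0` of the chord slope -/
theorem CS_tendsto (hP : PAn) {κ κ' c β C cc CC l₀ : ℝ} {q : ℂ → ℂ} {j : ℂ}
    {M : ℂ → ℂ} {x : ℝ → ℂ → ℂ} (hS : Side κ κ' c β C cc CC l₀ q j M x) {t : ℂ}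
    (ht : ∀ᶠ l in 𝓝[>] (0 : ℝ), Good κ' cc l t) :
    Tendsto (fun l => CS q j M x l t) (𝓝[>] 0) (𝓝 (M t)) := by
  obtain ⟨a1, a2, a3, a4, a5⟩ := side_consts hS
  have hpos : ∀ᶠ l in 𝓝[>] (0 : ℝ), 0 < l := self_mem_nhdsWithin
  have hl0 : ∀ᶠ l in 𝓝[>] (0 : ℝ), l < l₀ :=
    mem_nhdsWithin_of_mem_nhds (Iio_mem_nhds hS.cone.l₀_pos)
  have hid : Tendsto (fun l : ℝ => l) (𝓝[>] (0 : ℝ)) (𝓝 0) := tendsto_id.mono_left nhdsWithin_le_nhds
  have T1 : Tendsto (fun l : ℝ => x l (t + Complex.I * l / 2)) (𝓝[>] (0 : ℝ)) (𝓝 t) := by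
    rw [tendsto_iff_norm_sub_tendsto_zero]
    apply squeeze_zero' (g := fun l : ℝ => l) (Eventually.of_forall (fun _ => norm_nonneg _)) _ hid
    filter_upwards [ht, hpos, hl0] with l h1 h2 h3
    exact (lab hS h2 h3 h1 (nhalf h2).1).2
  have T2 : Tendsto (fun l : ℝ => x l (t + -(Complex.I * l / 2))) (𝓝[>] (0 : ℝ)) (𝓝 t) := by
    rw [tendsto_iff_norm_sub_tendsto_zero]
    apply squeeze_zero' (g := fun l : ℝ => l) (Eventually.of_forall (fun _ => norm_nonneg _)) _ hid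
    filter_upwards [ht, hpos, hl0] with l h1 h2 h3
    exact (lab hS h2 h3 h1 (nhalf h2).2).2
  obtain ⟨l, hg, hlp, _⟩ := (ht.and (hpos.and hl0)).exists
  have htS : t ∈ Sg κ := hg.mem_Sg hlp a1 a2 a3 (by simpa using hlp.le)
  have hMc : ContinuousAt M t :=
    (hS.slope.diff.differentiableAt ((isOpen_Sg κ).mem_nhds htS)).continuousAt
  have hRc : ContinuousAt (fun p : ℂ × ℂ => Rj q j p.1 p.2) (t, t) := by
    apply (Rj_diff hP hS.endq.diff _ _).continuousAt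
    · intro u _
      simpa using htS
    · rw [Pj_self]
      exact one_ne_zero
  have h1 := (hMc.tendsto.comp T1).mul (hRc.tendsto.comp (T1.prodMk_nhds T2))
  rw [Rj_self, mul_one] at h1
  exact h1

set_option maxHeartbeats 1000000 in
/-- **MEL-F.** -/
theorem melF_of (hE : ExtF) (hP : PAn) (hR : RLimF) (hRo : RRot) (hSy : RSym) : MelF := by
  intro κ κ' c β C cc CC l₀ qA jA MA xA qB jB MB xB hc hA hB hM
  obtain ⟨a1, a2, a3, a4, a5⟩ := side_consts hA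
  obtain ⟨δA, hδA, hTA⟩ := exists_thr hR hc hA
  obtain ⟨δB, hδB, hTB⟩ := exists_thr hR hc hB
  obtain ⟨RA, rA1, rA2, rA3, hPA⟩ := sideP hE hP hR hRo hSy hc hA
  obtain ⟨RB, rB1, rB2, rB3, hPB⟩ := sideP hE hP hR hRo hSy hc hB
  set R : ℝ := max RA RB with hRdef
  have hRA : RA ≤ R := le_max_left _ _
  have hRB : RB ≤ R := le_max_right _ _
  have hR8 : 8 ≤ R := rA1.trans hRA
  have hRc : 8 ≤ cc * R := rA2.trans (by gcongr)
  have hRk : 8 ≤ κ' * R := rA3.trans (by gcongr)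
  obtain ⟨lA, hlA, hlA0, hlAR, hPA'⟩ := hPA R hRA
  obtain ⟨lB, hlB, hlB0, hlBR, hPB'⟩ := hPB R hRB
  set δ' : ℝ := min (1 / 64) (min (δA / 4) (δB / 4)) with hδ'
  have hδ'0 : 0 < δ' := by positivity
  have hδ'1 : δ' ≤ 1 / 64 := min_le_left _ _
  have hδ'A : 4 * δ' ≤ δA := by
    have : δ' ≤ δA / 4 := (min_le_right _ _).trans (min_le_left _ _)
    linarith
  have hδ'B : 4 * δ' ≤ δB := by
    have : δ' ≤ δB / 4 := (min_le_right _ _).trans (min_le_right _ _)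
    linarith
  -- smallness
  set l₁ : ℝ := min (min lA lB) (δ' / (8 * R)) with hl₁
  have hl₁0 : 0 < l₁ := by positivity
  -- equality on the trapezoid
  have key : ∀ l : ℝ, 0 < l → l < l₁ → ∀ t ∈ Tz (κ' / 2) δ' R l,
      CS qA jA MA xA l t = CS qB jB MB xB l (-t) := by
    intro l hl hll
    have b1 : l < lA := hll.trans_le ((min_le_left _ _).trans (min_le_left _ _))
    have b2 : l < lB := hll.trans_le ((min_le_left _ _).trans (min_le_right _ _))
    have b3 : l < δ' / (8 * R) := hll.trans_le (min_le_right _ _)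
    rw [lt_div_iff₀ (by linarith)] at b3
    have hl0 : l < l₀ := b1.trans_le hlA0
    obtain ⟨PA, hPAd, hPAe⟩ := hPA' l hl b1
    obtain ⟨PB, hPBd, hPBe⟩ := hPB' l hl b2
    -- strip
    have hneg : ∀ s ∈ Rc (-(1 / 4)) (1 / 4) (2 * R), -s ∈ Rc (-(1 / 4)) (1 / 4) (2 * R) := by
      rintro s ⟨h1, h2, h3⟩
      refine ⟨?_, ?_, ?_⟩
      · rw [neg_re]; linarith
      · rw [neg_re]; linarith
      · rw [neg_im, abs_neg]; exact h3
    have hstrip := strip (f := PA) (g := fun s => PB (-s)) (a := -(1 / 4)) (b := 1 / 4)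
      (S := 2 * R) (R := R + 1) (by norm_num) (by linarith) hPAd
      (hPBd.comp (differentiableOn_neg _) hneg) ?_ (by linarith)
    swap
    · intro s hs him
      have him' : R + 1 < |s.im| := him.trans_le (le_abs_self _)
      obtain ⟨g1, e1⟩ := hPAe s hs him'
      obtain ⟨_, e2⟩ := hPBe (-s) (hneg s hs) (by rw [neg_im, abs_neg]; exact him')
      rw [e1, e2, mul_neg]
      symm
      apply match_top hRo hSy hA hB hM hTA hl hl0 g1
      · have : (lam l * s).re = l * s.im := by simp [lam, mul_re]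
        rw [this]
        have : 0 < s.im := by linarith
        positivity
      · have hsn2 : ‖s‖ ≤ 2 * R + 1 / 4 := by
          have h6 := Complex.norm_le_abs_re_add_abs_im s
          have h5 : |s.re| ≤ 1 / 4 := abs_le.mpr ⟨by linarith [hs.1], by linarith [hs.2.1]⟩
          linarith [hs.2.2]
        rw [norm_mul, norm_lam hl]
        nlinarith
    -- bottom
    have hbot : ∀ s ∈ Rc (-(1 / 4)) (1 / 4) (2 * R), s.im < -(R + 1) →
        CS qA jA MA xA l (lam l * s) = CS qB jB MB xB l (-(lam l * s)) := by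
      intro s hs him
      have him' : R + 1 < |s.im| := by
        have := neg_le_abs s.im
        linarith
      obtain ⟨_, e1⟩ := hPAe s hs him'
      obtain ⟨_, e2⟩ := hPBe (-s) (hneg s hs) (by rw [neg_im, abs_neg]; exact him')
      have := hstrip s hs
      rw [e1, e2, mul_neg] at this
      exact this
    -- identity theorem on the trapezoid
    set t₀ : ℂ := ((-(3 * R / 2 * l) : ℝ) : ℂ) with ht₀
    have ht₀re : t₀.re = -(3 * R / 2 * l) := by rw [ht₀, ofReal_re]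
    have ht₀im : t₀.im = 0 := by rw [ht₀, ofReal_im]
    have ht₀m : t₀ ∈ Tz (κ' / 2) δ' R l := by
      refine ⟨?_, ?_, ?_⟩
      · rw [ht₀re]; nlinarith
      · rw [ht₀re]; nlinarith
      · rw [ht₀re, ht₀im, abs_zero]
        have : 0 < κ' / 2 * (3 * R / 2 * l) := by positivity
        linarith
    have dA : DifferentiableOn ℂ (CS qA jA MA xA l) (Tz (κ' / 2) δ' R l) := by
      intro t ht
      obtain ⟨g1, g2, g3⟩ := good_Tz hl a1 a2 a4 hRk hRc (by linarith) ht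
      exact (CS_diff hP hA hTA hl hl0 g1 (by linarith)).differentiableWithinAt
    have dB : DifferentiableOn ℂ (fun t => CS qB jB MB xB l (-t)) (Tz (κ' / 2) δ' R l) := by
      intro t ht
      obtain ⟨g1, g2, g3⟩ := good_Tz hl a1 a2 a4 hRk hRc (by linarith) ht
      have d1 := CS_diff hP hB hTB hl hl0 g1.neg (by rw [norm_neg]; linarith)
      have d2 : DifferentiableAt ℂ (fun t : ℂ => -t) t := differentiableAt_id.neg
      exact (DifferentiableAt.comp t (g := CS qB jB MB xB l) d1 d2).differentiableWithinAt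
    have heq := AnalyticOnNhd.eqOn_of_preconnected_of_eventuallyEq
      (dA.analyticOnNhd (isOpen_Tz _ _ _ _)) (dB.analyticOnNhd (isOpen_Tz _ _ _ _))
      (convex_Tz _ _ _ _).isPreconnected ht₀m ?_
    · exact heq
    · -- near t₀
      have hball : ball t₀ (l / 8) ∈ 𝓝 t₀ := ball_mem_nhds _ (by linarith)
      filter_upwards [hball] with t ht
      rw [mem_ball, dist_eq_norm] at ht
      have hs : lam l * (t / lam l) = t := by rw [mul_div_cancel₀ _ (lam_ne hl)]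
      have hdiv : t / lam l = Complex.I * t / l := by
        have hlc : (l : ℂ) ≠ 0 := by exact_mod_cast hl.ne'
        rw [lam]
        field_simp
        rw [I_sq]
        ring
      have hre : (t / lam l).re = -t.im / l := by
        rw [hdiv, div_ofReal_re]
        simp
      have him : (t / lam l).im = t.re / l := by
        rw [hdiv, div_ofReal_im]
        simp
      have r1 := abs_lt.mp ((abs_re_le_norm (t - t₀)).trans_lt ht)
      have r2 := abs_lt.mp ((abs_im_le_norm (t - t₀)).trans_lt ht)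
      rw [sub_re, ht₀re] at r1
      rw [sub_im, ht₀im] at r2
      have hlow : -(2 * R) < t.re / l := by
        rw [lt_div_iff₀ hl]
        nlinarith [r1.1]
      have hhigh : t.re / l < -(R + 1) := by
        rw [div_lt_iff₀ hl]
        nlinarith [r1.2]
      have := hbot (t / lam l) ⟨?_, ?_, ?_⟩ ?_
      · rw [hs] at this
        exact this
      · rw [hre, lt_div_iff₀ hl]
        linarith [r2.2]
      · rw [hre, div_lt_iff₀ hl]
        linarith [r2.1]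
      · rw [him, abs_lt]
        constructor
        · exact hlow
        · linarith
      · rw [him]
        exact hhigh
  -- the limit
  have hlim : ∀ t : ℂ, -δ' < t.re → t.re < 0 → |t.im| < -(κ' / 2) * t.re → MB (-t) = MA t := by
    intro t h1 h2 h3
    have hTz : ∀ᶠ l in 𝓝[>] (0 : ℝ), t ∈ Tz (κ' / 2) δ' R l := by
      have : Iio (-t.re / (R + 2)) ∈ 𝓝[>] (0 : ℝ) :=
        mem_nhdsWithin_of_mem_nhds (Iio_mem_nhds (by
          apply div_pos <;> linarith))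
      filter_upwards [this] with l hl
      refine ⟨h1, ?_, h3⟩
      simp only [mem_Iio] at hl
      rw [lt_div_iff₀ (by linarith)] at hl
      linarith
    have hpos : ∀ᶠ l in 𝓝[>] (0 : ℝ), 0 < l := self_mem_nhdsWithin
    have hsm : ∀ᶠ l in 𝓝[>] (0 : ℝ), l < l₁ := mem_nhdsWithin_of_mem_nhds (Iio_mem_nhds hl₁0)
    have hgood : ∀ᶠ l in 𝓝[>] (0 : ℝ), Good κ' cc l t := by
      filter_upwards [hTz, hpos] with l q1 q2
      exact (good_Tz q2 a1 a2 a4 hRk hRc (by linarith) q1).1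
    have hgood' : ∀ᶠ l in 𝓝[>] (0 : ℝ), Good κ' cc l (-t) := by
      filter_upwards [hgood] with l q1
      exact q1.neg
    have TA := CS_tendsto hP hA hgood
    have TB := CS_tendsto hP hB hgood'
    apply tendsto_nhds_unique_of_eventuallyEq TB TA
    filter_upwards [hTz, hpos, hsm] with l q1 q2 q3
    exact (key l q2 q3 t q1).symm
  -- extension to the full overlap
  have hk2 : 0 < 1 - κ' ^ 2 := by nlinarith
  set k : ℝ := κ' / Real.sqrt (1 - κ' ^ 2) with hk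
  have hsq : 0 < Real.sqrt (1 - κ' ^ 2) := Real.sqrt_pos.mpr hk2
  set W : Set ℂ := {t : ℂ | |t.im| < -k * t.re} ∩ ({t : ℂ | t.re < 0} ∩ Metric.ball 0 δ') with hW
  have hWc : Convex ℝ W := (convex_cone k).inter ((convex_halfSpace_re_lt _).inter (convex_ball _ _))
  have hWo : IsOpen W := (isOpen_lt continuous_im.abs (by fun_prop)).inter
    ((isOpen_lt continuous_re continuous_const).inter isOpen_ball)
  have hcone : ∀ t : ℂ, t.re < 0 → (|t.im| < -k * t.re ↔ |t.im| < κ' * ‖t‖) := by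
    intro t hre
    have hn : ‖t‖ ^ 2 = t.re ^ 2 + t.im ^ 2 := by
      rw [Complex.sq_norm, normSq_apply]; ring
    have hs2 : Real.sqrt (1 - κ' ^ 2) ^ 2 = 1 - κ' ^ 2 := Real.sq_sqrt hk2.le
    have hnt := norm_nonneg t
    have e1 : (|t.im| < -k * t.re) ↔ (Real.sqrt (1 - κ' ^ 2) * |t.im|) ^ 2 < (κ' * (-t.re)) ^ 2 := by
      rw [sq_lt_sq₀ (by positivity) (by nlinarith)]
      have : -k * t.re = κ' * (-t.re) / Real.sqrt (1 - κ' ^ 2) := by
        rw [hk]; ring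
      rw [this, lt_div_iff₀ hsq, mul_comm]
    have e2 : (|t.im| < κ' * ‖t‖) ↔ |t.im| ^ 2 < (κ' * ‖t‖) ^ 2 := by
      rw [sq_lt_sq₀ (abs_nonneg _) (by positivity)]
    rw [e1, e2, mul_pow, mul_pow, mul_pow, hs2, hn, sq_abs]
    constructor <;> intro h <;> nlinarith
  have hWS : ∀ t ∈ W, t ∈ Sg κ ∧ -t ∈ Sg κ := by
    rintro t ⟨h1, h2, h3⟩
    have h2' : t.re < 0 := h2
    have h1' := (hcone t h2').mp h1
    rw [mem_ball_zero_iff] at h3
    have hne : t ≠ 0 := by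
      rintro rfl
      simp at h2'
    have hn0 : 0 < ‖t‖ := norm_pos_iff.mpr hne
    have h4 : |t.im| < κ * ‖t‖ := by
      have : κ' * ‖t‖ ≤ κ * ‖t‖ := by gcongr
      linarith
    refine ⟨⟨hne, by linarith, (le_abs_self _).trans_lt h4⟩, ⟨neg_ne_zero.mpr hne, ?_, ?_⟩⟩
    · rw [norm_neg]; linarith
    · rw [norm_neg, neg_im]
      exact (neg_le_abs _).trans_lt h4
  have fA : DifferentiableOn ℂ MA W := hA.slope.diff.mono (fun t ht => (hWS t ht).1)
  have fB : DifferentiableOn ℂ (fun t => MB (-t)) W :=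
    hB.slope.diff.comp (differentiableOn_neg _) (fun t ht => (hWS t ht).2)
  set p : ℂ := ((-(δ' / 2) : ℝ) : ℂ) with hp
  have hpre : p.re = -(δ' / 2) := by rw [hp, ofReal_re]
  have hpim : p.im = 0 := by rw [hp, ofReal_im]
  have hk0 : 0 < k := by positivity
  have hpW : p ∈ W := by
    refine ⟨?_, ?_, ?_⟩
    · change |p.im| < -k * p.re
      rw [hpre, hpim, abs_zero]
      have : 0 < k * (δ' / 2) := by positivity
      linarith
    · change p.re < 0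
      rw [hpre]; linarith
    · rw [mem_ball_zero_iff, hp, norm_real, Real.norm_eq_abs, abs_neg, abs_of_pos (by linarith)]
      linarith
  have hEq := AnalyticOnNhd.eqOn_of_preconnected_of_eventuallyEq
    (fB.analyticOnNhd hWo) (fA.analyticOnNhd hWo) hWc.isPreconnected hpW ?_
  · refine ⟨δ', hδ'0, ?_⟩
    rintro τ ⟨_, _, h3, h4⟩ h5
    exact hEq ⟨(hcone τ h4).mpr h3, h4, by rwa [mem_ball_zero_iff]⟩
  · have hV : IsOpen {t : ℂ | -δ' < t.re ∧ t.re < 0 ∧ |t.im| < -(κ' / 2) * t.re} :=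
      (isOpen_lt continuous_const continuous_re).inter
        ((isOpen_lt continuous_re continuous_const).inter
          (isOpen_lt continuous_im.abs (by fun_prop)))
    have hpV : p ∈ {t : ℂ | -δ' < t.re ∧ t.re < 0 ∧ |t.im| < -(κ' / 2) * t.re} := by
      refine ⟨?_, ?_, ?_⟩
      · rw [hpre]; linarith
      · rw [hpre]; linarith
      · rw [hpre, hpim, abs_zero]
        have : 0 < κ' / 2 * (δ' / 2) := by positivity
        linarith
    filter_upwards [hV.mem_nhds hpV] with t ht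
    exact hlim t ht.1 ht.2.1 ht.2.2

end

end Crest.Agent.R102.MelF39
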