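import Crest.Agent.R102.MelF_231

/-!
# T5 MEL-RED, M3-FLAT, Part B: the functional `PsiG` and its analyticity (helper231)
-/

set_option autoImplicit false

open Set Filter Topology Metric Complex MeasureTheory

noncomputable section

namespace Crest.Agent.R102.Mel231

/-- `(1 - cos t)/t²` as an entire function -/
def C2 (t : ℂ) : ℂ := ∫ r in (0 : ℝ)..1, (1 - (r : ℂ)) * Complex.cos (t * r)

theorem C2_analytic (t : ℂ) : AnalyticAt ℂ C2 t := by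
  apply anInt (f := fun p : ℂ × ℂ => (1 - p.2) * Complex.cos (p.1 * p.2))
  intro r _
  have : AnalyticAt ℂ (fun p : ℂ × ℂ => p.1 * p.2) (t, (r : ℂ)) :=
    analyticAt_fst.mul analyticAt_snd
  exact (analyticAt_const.sub analyticAt_snd).mul (Complex.analyticAt_cos.comp this)

theorem C2_zero : C2 0 = 1 / 2 := by
  unfold C2
  simp only [zero_mul, Complex.cos_zero, mul_one]
  have h : ∀ r ∈ uIcc (0 : ℝ) 1, HasDerivAt (fun r : ℝ => (r : ℂ) - (r : ℂ) ^ 2 / 2)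
      (1 - (r : ℂ)) r := by
    intro r _
    have h1 : HasDerivAt (fun r : ℝ => (r : ℂ)) 1 r := by
      simpa using (hasDerivAt_id r).ofReal_comp
    have h2 := (h1.pow 2).div_const 2
    refine (h1.sub h2).congr_deriv ?_
    simp
  rw [intervalIntegral.integral_eq_sub_of_hasDerivAt h (by
    apply Continuous.intervalIntegrable; fun_prop)]
  norm_num

theorem C2_spec (t : ℂ) : t ^ 2 * C2 t = 1 - Complex.cos t := by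
  unfold C2
  have h : ∀ r ∈ uIcc (0 : ℝ) 1, HasDerivAt
      (fun r : ℝ => t * (1 - (r : ℂ)) * Complex.sin (t * r) - Complex.cos (t * r))
      (t ^ 2 * ((1 - (r : ℂ)) * Complex.cos (t * r))) r := by
    intro r _
    have h1 : HasDerivAt (fun r : ℝ => (r : ℂ)) 1 r := by
      simpa using (hasDerivAt_id r).ofReal_comp
    have h20 : HasDerivAt (fun z : ℂ => t * z) t (r : ℂ) := by
      simpa using (hasDerivAt_id (r : ℂ)).const_mul t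
    have h3 : HasDerivAt (fun r : ℝ => Complex.sin (t * r)) (Complex.cos (t * r) * t) r :=
      ((Complex.hasDerivAt_sin (t * r)).comp (r : ℂ) h20).comp_ofReal
    have h4 : HasDerivAt (fun r : ℝ => Complex.cos (t * r)) (-Complex.sin (t * r) * t) r :=
      ((Complex.hasDerivAt_cos (t * r)).comp (r : ℂ) h20).comp_ofReal
    have h5 : HasDerivAt (fun r : ℝ => t * (1 - (r : ℂ))) (t * (-1)) r := by
      simpa using (h1.const_sub 1).const_mul t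
    refine ((h5.mul h3).sub h4).congr_deriv ?_
    ring
  rw [← intervalIntegral.integral_const_mul,
    intervalIntegral.integral_eq_sub_of_hasDerivAt h (by
      apply Continuous.intervalIntegrable; fun_prop)]
  simp
  ring

section Psi

variable {E : Type} [NormedAddCommGroup E] [NormedSpace ℂ E] [FiniteDimensional ℂ E]

/-- the point of the segment -/
def zz (x y σ : ℂ) : ℂ := x + σ * (y - x)

/-- weight `(Y z / Y x)^(-2)` -/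
def wf (Y : E × ℂ → ℂ) (p : E) (x y σ : ℂ) : ℂ := Y (p, x) ^ 2 / Y (p, zz x y σ) ^ 2

/-- `(y - x)⁻¹ ∫_x^z Y` -/
def th (Y : E × ℂ → ℂ) (p : E) (x y σ : ℂ) : ℂ :=
  σ * ∫ r in (0 : ℝ)..1, Y (p, zz x y (σ * r))

def Pz (Y : E × ℂ → ℂ) (p : E) (x y : ℂ) : ℂ := ∫ σ in (0 : ℝ)..1, wf Y p x y σ

def Kf (Y : E × ℂ → ℂ) (p : E) (ε x y : ℂ) : ℂ :=
  ∫ σ in (0 : ℝ)..1, ∫ σ' in (0 : ℝ)..1, wf Y p x y σ * wf Y p x y σ' *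
    (th Y p x y σ - th Y p x y σ') ^ 2 * C2 (ε * (y - x) * (th Y p x y σ - th Y p x y σ'))

/-- the scaled Lagrangian density -/
def PsiG (Y : E × ℂ → ℂ) (p : E) (ε x y : ℂ) : ℂ :=
  4 * Kf Y p ε x y / (Y (p, x) ^ 2 *
    (Pz Y p x y + (Pz Y p x y ^ 2 - (ε * (y - x)) ^ 2 * Kf Y p ε x y) ^ (1 / 2 : ℂ)))

variable {Y : E × ℂ → ℂ} {p0 : E}

/-- the parameter vectors `(p, x, y, σ)` -/
theorem th_analytic (hY : AnalyticAt ℂ Y (p0, 1)) (σ : ℂ) :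
    AnalyticAt ℂ (fun v : (E × ℂ × ℂ) × ℂ => th Y v.1.1 v.1.2.1 v.1.2.2 v.2) ((p0, 1, 1), σ) := by
  unfold th
  refine analyticAt_snd.mul ?_
  apply anInt (f := fun v : ((E × ℂ × ℂ) × ℂ) × ℂ =>
    Y (v.1.1.1, zz v.1.1.2.1 v.1.1.2.2 (v.1.2 * v.2)))
  intro r _
  have hb : ((p0, zz 1 1 (σ * (r : ℂ))) : E × ℂ) = (p0, 1) := by simp [zz]
  have h1 : AnalyticAt ℂ Y (p0, zz 1 1 (σ * (r : ℂ))) := by rw [hb]; exact hY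
  have l1 : AnalyticAt ℂ (fun v : ((E × ℂ × ℂ) × ℂ) × ℂ => v.1.1.1) (((p0, 1, 1), σ), (r : ℂ)) :=
    ((ContinuousLinearMap.fst ℂ E (ℂ × ℂ)).comp ((ContinuousLinearMap.fst ℂ (E × ℂ × ℂ) ℂ).comp
      (ContinuousLinearMap.fst ℂ ((E × ℂ × ℂ) × ℂ) ℂ))).analyticAt _
  have l2 : AnalyticAt ℂ (fun v : ((E × ℂ × ℂ) × ℂ) × ℂ => v.1.1.2.1) (((p0, 1, 1), σ), (r : ℂ)) :=
    ((ContinuousLinearMap.fst ℂ ℂ ℂ).comp ((ContinuousLinearMap.snd ℂ E (ℂ × ℂ)).comp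
      ((ContinuousLinearMap.fst ℂ (E × ℂ × ℂ) ℂ).comp
      (ContinuousLinearMap.fst ℂ ((E × ℂ × ℂ) × ℂ) ℂ)))).analyticAt _
  have l3 : AnalyticAt ℂ (fun v : ((E × ℂ × ℂ) × ℂ) × ℂ => v.1.1.2.2) (((p0, 1, 1), σ), (r : ℂ)) :=
    ((ContinuousLinearMap.snd ℂ ℂ ℂ).comp ((ContinuousLinearMap.snd ℂ E (ℂ × ℂ)).comp
      ((ContinuousLinearMap.fst ℂ (E × ℂ × ℂ) ℂ).comp
      (ContinuousLinearMap.fst ℂ ((E × ℂ × ℂ) × ℂ) ℂ)))).analyticAt _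
  have l4 : AnalyticAt ℂ (fun v : ((E × ℂ × ℂ) × ℂ) × ℂ => v.1.2) (((p0, 1, 1), σ), (r : ℂ)) :=
    ((ContinuousLinearMap.snd ℂ (E × ℂ × ℂ) ℂ).comp
      (ContinuousLinearMap.fst ℂ ((E × ℂ × ℂ) × ℂ) ℂ)).analyticAt _
  have l5 : AnalyticAt ℂ (fun v : ((E × ℂ × ℂ) × ℂ) × ℂ => v.2) (((p0, 1, 1), σ), (r : ℂ)) :=
    analyticAt_snd
  have h2 : AnalyticAt ℂ (fun v : ((E × ℂ × ℂ) × ℂ) × ℂ =>
      ((v.1.1.1, zz v.1.1.2.1 v.1.1.2.2 (v.1.2 * v.2)) : E × ℂ)) (((p0, 1, 1), σ), (r : ℂ)) := by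
    unfold zz
    exact l1.prod (l2.add ((l4.mul l5).mul (l3.sub l2)))
  exact AnalyticAt.fun_comp (g := Y) (f := fun v : ((E × ℂ × ℂ) × ℂ) × ℂ =>
      ((v.1.1.1, zz v.1.1.2.1 v.1.1.2.2 (v.1.2 * v.2)) : E × ℂ)) h1 h2

omit [FiniteDimensional ℂ E] in
theorem wf_analytic (hY : AnalyticAt ℂ Y (p0, 1)) (hY0 : Y (p0, 1) ≠ 0) (σ : ℂ) :
    AnalyticAt ℂ (fun v : (E × ℂ × ℂ) × ℂ => wf Y v.1.1 v.1.2.1 v.1.2.2 v.2) ((p0, 1, 1), σ) := by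
  have l1 : AnalyticAt ℂ (fun v : (E × ℂ × ℂ) × ℂ => v.1.1) ((p0, 1, 1), σ) :=
    ((ContinuousLinearMap.fst ℂ E (ℂ × ℂ)).comp (ContinuousLinearMap.fst ℂ (E × ℂ × ℂ) ℂ)).analyticAt _
  have l2 : AnalyticAt ℂ (fun v : (E × ℂ × ℂ) × ℂ => v.1.2.1) ((p0, 1, 1), σ) :=
    ((ContinuousLinearMap.fst ℂ ℂ ℂ).comp ((ContinuousLinearMap.snd ℂ E (ℂ × ℂ)).comp
      (ContinuousLinearMap.fst ℂ (E × ℂ × ℂ) ℂ))).analyticAt _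
  have l3 : AnalyticAt ℂ (fun v : (E × ℂ × ℂ) × ℂ => v.1.2.2) ((p0, 1, 1), σ) :=
    ((ContinuousLinearMap.snd ℂ ℂ ℂ).comp ((ContinuousLinearMap.snd ℂ E (ℂ × ℂ)).comp
      (ContinuousLinearMap.fst ℂ (E × ℂ × ℂ) ℂ))).analyticAt _
  have l5 : AnalyticAt ℂ (fun v : (E × ℂ × ℂ) × ℂ => v.2) ((p0, 1, 1), σ) := analyticAt_snd
  have hb : zz 1 1 σ = 1 := by simp [zz]
  have g1 : AnalyticAt ℂ (fun v : (E × ℂ × ℂ) × ℂ => Y (v.1.1, v.1.2.1)) ((p0, 1, 1), σ) :=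
    AnalyticAt.fun_comp (g := Y) (f := fun v : (E × ℂ × ℂ) × ℂ => ((v.1.1, v.1.2.1) : E × ℂ)) hY
      (l1.prod l2)
  have g2 : AnalyticAt ℂ (fun v : (E × ℂ × ℂ) × ℂ => Y (v.1.1, zz v.1.2.1 v.1.2.2 v.2))
      ((p0, 1, 1), σ) := by
    refine AnalyticAt.fun_comp (g := Y)
      (f := fun v : (E × ℂ × ℂ) × ℂ => ((v.1.1, zz v.1.2.1 v.1.2.2 v.2) : E × ℂ)) ?_ ?_
    · change AnalyticAt ℂ Y (p0, zz 1 1 σ)
      rw [hb]; exact hY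
    · unfold zz
      exact l1.prod (l2.add (l5.mul (l3.sub l2)))
  unfold wf
  refine (g1.pow 2).div (g2.pow 2) ?_
  change Y (p0, zz 1 1 σ) ^ 2 ≠ 0
  rw [hb]
  exact pow_ne_zero 2 hY0

theorem Pz_analytic (hY : AnalyticAt ℂ Y (p0, 1)) (hY0 : Y (p0, 1) ≠ 0) :
    AnalyticAt ℂ (fun v : E × ℂ × ℂ => Pz Y v.1 v.2.1 v.2.2) (p0, 1, 1) :=
  anInt (f := fun v : (E × ℂ × ℂ) × ℂ => wf Y v.1.1 v.1.2.1 v.1.2.2 v.2)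
    fun t _ => wf_analytic hY hY0 t

theorem Kf_analytic (hY : AnalyticAt ℂ Y (p0, 1)) (hY0 : Y (p0, 1) ≠ 0) (ε0 : ℂ) :
    AnalyticAt ℂ (fun v : (E × ℂ × ℂ) × ℂ => Kf Y v.1.1 v.2 v.1.2.1 v.1.2.2) ((p0, 1, 1), ε0) := by
  unfold Kf
  -- outer integral: parameters `((v, ε), σ)`
  apply anInt (E := (E × ℂ × ℂ) × ℂ) (f := fun u : ((E × ℂ × ℂ) × ℂ) × ℂ =>
    ∫ σ' in (0 : ℝ)..1, wf Y u.1.1.1 u.1.1.2.1 u.1.1.2.2 u.2 * wf Y u.1.1.1 u.1.1.2.1 u.1.1.2.2 σ' *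
    (th Y u.1.1.1 u.1.1.2.1 u.1.1.2.2 u.2 - th Y u.1.1.1 u.1.1.2.1 u.1.1.2.2 σ') ^ 2 *
    C2 (u.1.2 * (u.1.1.2.2 - u.1.1.2.1) *
      (th Y u.1.1.1 u.1.1.2.1 u.1.1.2.2 u.2 - th Y u.1.1.1 u.1.1.2.1 u.1.1.2.2 σ')))
  intro σ _
  apply anInt (E := ((E × ℂ × ℂ) × ℂ) × ℂ) (f := fun q : (((E × ℂ × ℂ) × ℂ) × ℂ) × ℂ =>
    wf Y q.1.1.1.1 q.1.1.1.2.1 q.1.1.1.2.2 q.1.2 * wf Y q.1.1.1.1 q.1.1.1.2.1 q.1.1.1.2.2 q.2 *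
    (th Y q.1.1.1.1 q.1.1.1.2.1 q.1.1.1.2.2 q.1.2 -
      th Y q.1.1.1.1 q.1.1.1.2.1 q.1.1.1.2.2 q.2) ^ 2 *
    C2 (q.1.1.2 * (q.1.1.1.2.2 - q.1.1.1.2.1) *
      (th Y q.1.1.1.1 q.1.1.1.2.1 q.1.1.1.2.2 q.1.2 -
        th Y q.1.1.1.1 q.1.1.1.2.1 q.1.1.1.2.2 q.2)))
  intro σ' _
  -- linear coordinate maps
  have a0 : AnalyticAt ℂ (fun q : (((E × ℂ × ℂ) × ℂ) × ℂ) × ℂ => q.1.1.1)
      ((((p0, 1, 1), ε0), (σ : ℂ)), (σ' : ℂ)) :=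
    ((ContinuousLinearMap.fst ℂ (E × ℂ × ℂ) ℂ).comp
      ((ContinuousLinearMap.fst ℂ ((E × ℂ × ℂ) × ℂ) ℂ).comp
      (ContinuousLinearMap.fst ℂ (((E × ℂ × ℂ) × ℂ) × ℂ) ℂ))).analyticAt _
  have aε : AnalyticAt ℂ (fun q : (((E × ℂ × ℂ) × ℂ) × ℂ) × ℂ => q.1.1.2)
      ((((p0, 1, 1), ε0), (σ : ℂ)), (σ' : ℂ)) :=
    ((ContinuousLinearMap.snd ℂ (E × ℂ × ℂ) ℂ).comp
      ((ContinuousLinearMap.fst ℂ ((E × ℂ × ℂ) × ℂ) ℂ).comp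
      (ContinuousLinearMap.fst ℂ (((E × ℂ × ℂ) × ℂ) × ℂ) ℂ))).analyticAt _
  have aσ : AnalyticAt ℂ (fun q : (((E × ℂ × ℂ) × ℂ) × ℂ) × ℂ => q.1.2)
      ((((p0, 1, 1), ε0), (σ : ℂ)), (σ' : ℂ)) :=
    ((ContinuousLinearMap.snd ℂ ((E × ℂ × ℂ) × ℂ) ℂ).comp
      (ContinuousLinearMap.fst ℂ (((E × ℂ × ℂ) × ℂ) × ℂ) ℂ)).analyticAt _
  have aσ' : AnalyticAt ℂ (fun q : (((E × ℂ × ℂ) × ℂ) × ℂ) × ℂ => q.2)
      ((((p0, 1, 1), ε0), (σ : ℂ)), (σ' : ℂ)) := analyticAt_snd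
  have ax : AnalyticAt ℂ (fun q : (((E × ℂ × ℂ) × ℂ) × ℂ) × ℂ => q.1.1.1.2.1)
      ((((p0, 1, 1), ε0), (σ : ℂ)), (σ' : ℂ)) :=
    (((ContinuousLinearMap.fst ℂ ℂ ℂ).comp (ContinuousLinearMap.snd ℂ E (ℂ × ℂ))).analyticAt
      _).comp a0
  have ay : AnalyticAt ℂ (fun q : (((E × ℂ × ℂ) × ℂ) × ℂ) × ℂ => q.1.1.1.2.2)
      ((((p0, 1, 1), ε0), (σ : ℂ)), (σ' : ℂ)) :=
    (((ContinuousLinearMap.snd ℂ ℂ ℂ).comp (ContinuousLinearMap.snd ℂ E (ℂ × ℂ))).analyticAt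
      _).comp a0
  have w1 : AnalyticAt ℂ (fun q : (((E × ℂ × ℂ) × ℂ) × ℂ) × ℂ =>
      wf Y q.1.1.1.1 q.1.1.1.2.1 q.1.1.1.2.2 q.1.2) ((((p0, 1, 1), ε0), (σ : ℂ)), (σ' : ℂ)) :=
    AnalyticAt.fun_comp (g := fun v : (E × ℂ × ℂ) × ℂ => wf Y v.1.1 v.1.2.1 v.1.2.2 v.2)
      (f := fun q : (((E × ℂ × ℂ) × ℂ) × ℂ) × ℂ => ((q.1.1.1, q.1.2) : (E × ℂ × ℂ) × ℂ))
      (wf_analytic hY hY0 σ) (a0.prod aσ)
  have w2 : AnalyticAt ℂ (fun q : (((E × ℂ × ℂ) × ℂ) × ℂ) × ℂ =>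
      wf Y q.1.1.1.1 q.1.1.1.2.1 q.1.1.1.2.2 q.2) ((((p0, 1, 1), ε0), (σ : ℂ)), (σ' : ℂ)) :=
    AnalyticAt.fun_comp (g := fun v : (E × ℂ × ℂ) × ℂ => wf Y v.1.1 v.1.2.1 v.1.2.2 v.2)
      (f := fun q : (((E × ℂ × ℂ) × ℂ) × ℂ) × ℂ => ((q.1.1.1, q.2) : (E × ℂ × ℂ) × ℂ))
      (wf_analytic hY hY0 σ') (a0.prod aσ')
  have t1 : AnalyticAt ℂ (fun q : (((E × ℂ × ℂ) × ℂ) × ℂ) × ℂ =>
      th Y q.1.1.1.1 q.1.1.1.2.1 q.1.1.1.2.2 q.1.2) ((((p0, 1, 1), ε0), (σ : ℂ)), (σ' : ℂ)) :=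
    AnalyticAt.fun_comp (g := fun v : (E × ℂ × ℂ) × ℂ => th Y v.1.1 v.1.2.1 v.1.2.2 v.2)
      (f := fun q : (((E × ℂ × ℂ) × ℂ) × ℂ) × ℂ => ((q.1.1.1, q.1.2) : (E × ℂ × ℂ) × ℂ))
      (th_analytic hY σ) (a0.prod aσ)
  have t2 : AnalyticAt ℂ (fun q : (((E × ℂ × ℂ) × ℂ) × ℂ) × ℂ =>
      th Y q.1.1.1.1 q.1.1.1.2.1 q.1.1.1.2.2 q.2) ((((p0, 1, 1), ε0), (σ : ℂ)), (σ' : ℂ)) :=
    AnalyticAt.fun_comp (g := fun v : (E × ℂ × ℂ) × ℂ => th Y v.1.1 v.1.2.1 v.1.2.2 v.2)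
      (f := fun q : (((E × ℂ × ℂ) × ℂ) × ℂ) × ℂ => ((q.1.1.1, q.2) : (E × ℂ × ℂ) × ℂ))
      (th_analytic hY σ') (a0.prod aσ')
  refine ((w1.mul w2).mul ((t1.sub t2).pow 2)).mul ?_
  exact AnalyticAt.fun_comp (g := C2) (f := fun q : (((E × ℂ × ℂ) × ℂ) × ℂ) × ℂ =>
    q.1.1.2 * (q.1.1.1.2.2 - q.1.1.1.2.1) *
      (th Y q.1.1.1.1 q.1.1.1.2.1 q.1.1.1.2.2 q.1.2 -
        th Y q.1.1.1.1 q.1.1.1.2.1 q.1.1.1.2.2 q.2)) (C2_analytic _)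
    ((aε.mul (ay.sub ax)).mul (t1.sub t2))

/-! values on the diagonal -/

omit [NormedAddCommGroup E] [NormedSpace ℂ E] [FiniteDimensional ℂ E] in
theorem wf_diag (p : E) (x σ : ℂ) (h : Y (p, x) ≠ 0) : wf Y p x x σ = 1 := by
  simp [wf, zz, h]

omit [NormedAddCommGroup E] [NormedSpace ℂ E] [FiniteDimensional ℂ E] in
theorem th_diag (p : E) (x σ : ℂ) : th Y p x x σ = σ * Y (p, x) := by
  simp [th, zz]

omit [NormedAddCommGroup E] [NormedSpace ℂ E] [FiniteDimensional ℂ E] in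
theorem Pz_diag (p : E) (x : ℂ) (h : Y (p, x) ≠ 0) : Pz Y p x x = 1 := by
  simp [Pz, wf_diag p x _ h]

omit [NormedAddCommGroup E] [NormedSpace ℂ E] [FiniteDimensional ℂ E] in
theorem Kf_diag (p : E) (ε x : ℂ) (h : Y (p, x) ≠ 0) : Kf Y p ε x x = Y (p, x) ^ 2 / 12 := by
  unfold Kf
  simp only [wf_diag p x _ h, th_diag, sub_self, mul_zero, zero_mul, C2_zero, one_mul]
  have h1 : ∀ σ : ℝ, (∫ σ' in (0 : ℝ)..1, ((σ : ℂ) * Y (p, x) - σ' * Y (p, x)) ^ 2 * (1 / 2)) =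
      Y (p, x) ^ 2 / 2 * ((σ : ℂ) ^ 2 - σ + 1 / 3) := by
    intro σ
    have e : (fun σ' : ℝ => ((σ : ℂ) * Y (p, x) - σ' * Y (p, x)) ^ 2 * (1 / 2)) =
        fun σ' : ℝ => Y (p, x) ^ 2 / 2 * ((σ : ℂ) ^ 2 - 2 * σ * σ' + (σ' : ℂ) ^ 2) := by
      ext σ'; ring
    rw [e, intervalIntegral.integral_const_mul]
    congr 1
    have hd : ∀ r ∈ uIcc (0 : ℝ) 1, HasDerivAt
        (fun r : ℝ => (σ : ℂ) ^ 2 * r - σ * (r : ℂ) ^ 2 + (r : ℂ) ^ 3 / 3)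
        ((σ : ℂ) ^ 2 - 2 * σ * r + (r : ℂ) ^ 2) r := by
      intro r _
      have h1 : HasDerivAt (fun r : ℝ => (r : ℂ)) 1 r := by
        simpa using (hasDerivAt_id r).ofReal_comp
      refine (((h1.const_mul ((σ : ℂ) ^ 2)).sub ((h1.pow 2).const_mul (σ : ℂ))).add
        ((h1.pow 3).div_const 3)).congr_deriv ?_
      push_cast
      ring
    rw [intervalIntegral.integral_eq_sub_of_hasDerivAt hd (by
      apply Continuous.intervalIntegrable; fun_prop)]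
    simp
  simp only [h1]
  rw [intervalIntegral.integral_const_mul]
  have hd : ∀ r ∈ uIcc (0 : ℝ) 1, HasDerivAt
      (fun r : ℝ => (r : ℂ) ^ 3 / 3 - (r : ℂ) ^ 2 / 2 + (r : ℂ) / 3)
      ((r : ℂ) ^ 2 - r + 1 / 3) r := by
    intro r _
    have h1 : HasDerivAt (fun r : ℝ => (r : ℂ)) 1 r := by
      simpa using (hasDerivAt_id r).ofReal_comp
    refine ((((h1.pow 3).div_const 3).sub ((h1.pow 2).div_const 2)).add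
      (h1.div_const 3)).congr_deriv ?_
    push_cast
    ring
  rw [intervalIntegral.integral_eq_sub_of_hasDerivAt hd (by
    apply Continuous.intervalIntegrable; fun_prop)]
  simp
  ring

omit [FiniteDimensional ℂ E] in
theorem PsiG_diag (p : E) (ε x : ℂ) (h : Y (p, x) ≠ 0) : PsiG Y p ε x x = 1 / 6 := by
  unfold PsiG
  rw [Kf_diag p ε x h, Pz_diag p x h]
  simp
  field_simp
  norm_num

/-- joint analyticity of `PsiG` -/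
theorem PsiG_analytic (hY : AnalyticAt ℂ Y (p0, 1)) (hY0 : Y (p0, 1) ≠ 0) (ε0 : ℂ) :
    AnalyticAt ℂ (fun v : (E × ℂ × ℂ) × ℂ => PsiG Y v.1.1 v.2 v.1.2.1 v.1.2.2)
      ((p0, 1, 1), ε0) := by
  have l1 : AnalyticAt ℂ (fun v : (E × ℂ × ℂ) × ℂ => v.1) ((p0, 1, 1), ε0) := analyticAt_fst
  have lx : AnalyticAt ℂ (fun v : (E × ℂ × ℂ) × ℂ => v.1.2.1) ((p0, 1, 1), ε0) :=
    ((ContinuousLinearMap.fst ℂ ℂ ℂ).comp ((ContinuousLinearMap.snd ℂ E (ℂ × ℂ)).comp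
      (ContinuousLinearMap.fst ℂ (E × ℂ × ℂ) ℂ))).analyticAt _
  have ly : AnalyticAt ℂ (fun v : (E × ℂ × ℂ) × ℂ => v.1.2.2) ((p0, 1, 1), ε0) :=
    ((ContinuousLinearMap.snd ℂ ℂ ℂ).comp ((ContinuousLinearMap.snd ℂ E (ℂ × ℂ)).comp
      (ContinuousLinearMap.fst ℂ (E × ℂ × ℂ) ℂ))).analyticAt _
  have lp : AnalyticAt ℂ (fun v : (E × ℂ × ℂ) × ℂ => v.1.1) ((p0, 1, 1), ε0) :=
    ((ContinuousLinearMap.fst ℂ E (ℂ × ℂ)).comp (ContinuousLinearMap.fst ℂ (E × ℂ × ℂ) ℂ)).analyticAt _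
  have le : AnalyticAt ℂ (fun v : (E × ℂ × ℂ) × ℂ => v.2) ((p0, 1, 1), ε0) := analyticAt_snd
  have hK := Kf_analytic hY hY0 ε0
  have hP : AnalyticAt ℂ (fun v : (E × ℂ × ℂ) × ℂ => Pz Y v.1.1 v.1.2.1 v.1.2.2)
      ((p0, 1, 1), ε0) :=
    AnalyticAt.fun_comp (g := fun v : E × ℂ × ℂ => Pz Y v.1 v.2.1 v.2.2)
      (f := fun v : (E × ℂ × ℂ) × ℂ => v.1) (Pz_analytic hY hY0) l1
  have hYx : AnalyticAt ℂ (fun v : (E × ℂ × ℂ) × ℂ => Y (v.1.1, v.1.2.1)) ((p0, 1, 1), ε0) :=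
    AnalyticAt.fun_comp (g := Y) (f := fun v : (E × ℂ × ℂ) × ℂ => ((v.1.1, v.1.2.1) : E × ℂ)) hY
      (lp.prod lx)
  have hin : AnalyticAt ℂ (fun v : (E × ℂ × ℂ) × ℂ => Pz Y v.1.1 v.1.2.1 v.1.2.2 ^ 2 -
      (v.2 * (v.1.2.2 - v.1.2.1)) ^ 2 * Kf Y v.1.1 v.2 v.1.2.1 v.1.2.2) ((p0, 1, 1), ε0) :=
    (hP.pow 2).sub (((le.mul (ly.sub lx)).pow 2).mul hK)
  have hS := hin.cpow (analyticAt_const (v := (1 / 2 : ℂ))) (by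
    change Pz Y p0 1 1 ^ 2 - (ε0 * (1 - 1)) ^ 2 * Kf Y p0 ε0 1 1 ∈ slitPlane
    rw [Pz_diag p0 1 hY0]
    simp)
  unfold PsiG
  refine (analyticAt_const.mul hK).div ((hYx.pow 2).mul (hP.add hS)) ?_
  change Y (p0, 1) ^ 2 * (Pz Y p0 1 1 + (Pz Y p0 1 1 ^ 2 - (ε0 * (1 - 1)) ^ 2 *
    Kf Y p0 ε0 1 1) ^ (1 / 2 : ℂ)) ≠ 0
  rw [Pz_diag p0 1 hY0]
  simp [hY0]

end Psi

end Crest.Agent.R102.Mel231
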