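import Crest.Agent.R102.MelG_231

/-!
# T5 MEL-RED, M3-FLAT, Part C: `PsiQ` of T5Defs_160 in scaled coordinates is `PsiG` (helper231)
-/

set_option autoImplicit false

open Set Filter Topology Metric Complex MeasureTheory
open Crest.Agent.R102.T5R

noncomputable section

namespace Crest.Agent.R102.Mel231

variable {E : Type} [NormedAddCommGroup E] [NormedSpace ℂ E] [FiniteDimensional ℂ E]
variable {Y : E × ℂ → ℂ} {p0 : E}

/-- `∫ w exp (j ε (y-x) th)` -/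
def Pe (Y : E × ℂ → ℂ) (j : ℂ) (p : E) (ε x y : ℂ) : ℂ :=
  ∫ σ in (0 : ℝ)..1, wf Y p x y σ * Complex.exp (j * (ε * (y - x) * th Y p x y σ))

theorem Pe_analytic (hY : AnalyticAt ℂ Y (p0, 1)) (hY0 : Y (p0, 1) ≠ 0) (j ε0 : ℂ) :
    AnalyticAt ℂ (fun v : (E × ℂ × ℂ) × ℂ => Pe Y j v.1.1 v.2 v.1.2.1 v.1.2.2)
      ((p0, 1, 1), ε0) := by
  apply anInt (E := (E × ℂ × ℂ) × ℂ) (f := fun u : ((E × ℂ × ℂ) × ℂ) × ℂ =>
    wf Y u.1.1.1 u.1.1.2.1 u.1.1.2.2 u.2 *
      Complex.exp (j * (u.1.2 * (u.1.1.2.2 - u.1.1.2.1) * th Y u.1.1.1 u.1.1.2.1 u.1.1.2.2 u.2)))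
  intro σ _
  have a0 : AnalyticAt ℂ (fun q : ((E × ℂ × ℂ) × ℂ) × ℂ => q.1.1)
      (((p0, 1, 1), ε0), (σ : ℂ)) :=
    ((ContinuousLinearMap.fst ℂ (E × ℂ × ℂ) ℂ).comp
      (ContinuousLinearMap.fst ℂ ((E × ℂ × ℂ) × ℂ) ℂ)).analyticAt _
  have aε : AnalyticAt ℂ (fun q : ((E × ℂ × ℂ) × ℂ) × ℂ => q.1.2)
      (((p0, 1, 1), ε0), (σ : ℂ)) :=
    ((ContinuousLinearMap.snd ℂ (E × ℂ × ℂ) ℂ).comp
      (ContinuousLinearMap.fst ℂ ((E × ℂ × ℂ) × ℂ) ℂ)).analyticAt _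
  have aσ : AnalyticAt ℂ (fun q : ((E × ℂ × ℂ) × ℂ) × ℂ => q.2)
      (((p0, 1, 1), ε0), (σ : ℂ)) := analyticAt_snd
  have ax : AnalyticAt ℂ (fun q : ((E × ℂ × ℂ) × ℂ) × ℂ => q.1.1.2.1)
      (((p0, 1, 1), ε0), (σ : ℂ)) :=
    (((ContinuousLinearMap.fst ℂ ℂ ℂ).comp (ContinuousLinearMap.snd ℂ E (ℂ × ℂ))).analyticAt
      _).comp a0
  have ay : AnalyticAt ℂ (fun q : ((E × ℂ × ℂ) × ℂ) × ℂ => q.1.1.2.2)
      (((p0, 1, 1), ε0), (σ : ℂ)) :=
    (((ContinuousLinearMap.snd ℂ ℂ ℂ).comp (ContinuousLinearMap.snd ℂ E (ℂ × ℂ))).analyticAt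
      _).comp a0
  have w1 : AnalyticAt ℂ (fun q : ((E × ℂ × ℂ) × ℂ) × ℂ =>
      wf Y q.1.1.1 q.1.1.2.1 q.1.1.2.2 q.2) (((p0, 1, 1), ε0), (σ : ℂ)) :=
    AnalyticAt.fun_comp (g := fun v : (E × ℂ × ℂ) × ℂ => wf Y v.1.1 v.1.2.1 v.1.2.2 v.2)
      (f := fun q : ((E × ℂ × ℂ) × ℂ) × ℂ => ((q.1.1, q.2) : (E × ℂ × ℂ) × ℂ))
      (wf_analytic hY hY0 σ) (a0.prod aσ)
  have t1 : AnalyticAt ℂ (fun q : ((E × ℂ × ℂ) × ℂ) × ℂ =>
      th Y q.1.1.1 q.1.1.2.1 q.1.1.2.2 q.2) (((p0, 1, 1), ε0), (σ : ℂ)) :=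
    AnalyticAt.fun_comp (g := fun v : (E × ℂ × ℂ) × ℂ => th Y v.1.1 v.1.2.1 v.1.2.2 v.2)
      (f := fun q : ((E × ℂ × ℂ) × ℂ) × ℂ => ((q.1.1, q.2) : (E × ℂ × ℂ) × ℂ))
      (th_analytic hY σ) (a0.prod aσ)
  exact w1.mul ((analyticAt_const.mul ((aε.mul (ay.sub ax)).mul t1)).cexp)

omit [NormedAddCommGroup E] [NormedSpace ℂ E] [FiniteDimensional ℂ E] in
theorem Pe_diag (j : ℂ) (p : E) (ε x : ℂ) (h : Y (p, x) ≠ 0) : Pe Y j p ε x x = 1 := by
  simp [Pe, wf_diag p x _ h]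

omit [NormedAddCommGroup E] [NormedSpace ℂ E] [FiniteDimensional ℂ E] in
theorem Pe_zero (p : E) (ε x y : ℂ) : Pe Y 0 p ε x y = Pz Y p x y := by
  simp [Pe, Pz]

omit [NormedAddCommGroup E] [NormedSpace ℂ E] [FiniteDimensional ℂ E] in
/-- the product identity -/
theorem Pe_mul (p : E) (ε x y : ℂ)
    (hw : ContinuousOn (fun t : ℝ => wf Y p x y t) (Icc 0 1))
    (ht : ContinuousOn (fun t : ℝ => th Y p x y t) (Icc 0 1)) :
    Pe Y I p ε x y * Pe Y (-I) p ε x y = Pz Y p x y ^ 2 - (ε * (y - x)) ^ 2 * Kf Y p ε x y := by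
  set A : ℝ → ℂ := fun t => ε * (y - x) * th Y p x y t with hA
  have hAc : ContinuousOn A (Icc 0 1) := continuousOn_const.mul ht
  have hI : uIcc (0 : ℝ) 1 = Icc 0 1 := uIcc_of_le zero_le_one
  have hcosc : ContinuousOn (fun t => Complex.cos (A t)) (Icc 0 1) :=
    Complex.continuous_cos.comp_continuousOn hAc
  have hsinc : ContinuousOn (fun t => Complex.sin (A t)) (Icc 0 1) :=
    Complex.continuous_sin.comp_continuousOn hAc
  have i1 : IntervalIntegrable (fun t : ℝ => wf Y p x y t * Complex.cos (A t)) volume 0 1 := by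
    apply ContinuousOn.intervalIntegrable; rw [hI]; exact hw.mul hcosc
  have i2 : IntervalIntegrable (fun t : ℝ => wf Y p x y t * Complex.sin (A t)) volume 0 1 := by
    apply ContinuousOn.intervalIntegrable; rw [hI]; exact hw.mul hsinc
  have i0 : IntervalIntegrable (fun t : ℝ => wf Y p x y t) volume 0 1 := by
    apply ContinuousOn.intervalIntegrable; rw [hI]; exact hw
  set Cc : ℂ := ∫ t in (0 : ℝ)..1, wf Y p x y t * Complex.cos (A t) with hCc
  set Ss : ℂ := ∫ t in (0 : ℝ)..1, wf Y p x y t * Complex.sin (A t) with hSs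
  have e1 : Pe Y I p ε x y = Cc + I * Ss := by
    rw [hCc, hSs, ← intervalIntegral.integral_const_mul, ← intervalIntegral.integral_add i1
      (i2.const_mul I)]
    unfold Pe
    congr 1
    ext t
    have : I * (ε * (y - x) * th Y p x y t) = A t * I := by rw [hA]; ring
    rw [this, Complex.exp_mul_I]
    ring
  have e2 : Pe Y (-I) p ε x y = Cc - I * Ss := by
    rw [hCc, hSs, ← intervalIntegral.integral_const_mul, ← intervalIntegral.integral_sub i1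
      (i2.const_mul I)]
    unfold Pe
    congr 1
    ext t
    have : -I * (ε * (y - x) * th Y p x y t) = (-A t) * I := by rw [hA]; ring
    rw [this, Complex.exp_mul_I, Complex.cos_neg, Complex.sin_neg]
    ring
  -- the double integral
  have e3 : (ε * (y - x)) ^ 2 * Kf Y p ε x y = Pz Y p x y ^ 2 - (Cc ^ 2 + Ss ^ 2) := by
    have hin : ∀ σ ∈ uIcc (0 : ℝ) 1, (ε * (y - x)) ^ 2 * (∫ σ' in (0 : ℝ)..1, wf Y p x y σ *
        wf Y p x y σ' * (th Y p x y σ - th Y p x y σ') ^ 2 *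
        C2 (ε * (y - x) * (th Y p x y σ - th Y p x y σ'))) =
        wf Y p x y σ * Pz Y p x y - (wf Y p x y σ * Complex.cos (A σ) * Cc +
          wf Y p x y σ * Complex.sin (A σ) * Ss) := by
      intro σ _
      rw [← intervalIntegral.integral_const_mul, hCc, hSs]
      unfold Pz
      rw [← intervalIntegral.integral_const_mul, ← intervalIntegral.integral_const_mul,
        ← intervalIntegral.integral_const_mul, ← intervalIntegral.integral_add (i1.const_mul _)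
          (i2.const_mul _), ← intervalIntegral.integral_sub (i0.const_mul _)
          ((i1.const_mul _).add (i2.const_mul _))]
      congr 1
      ext σ'
      have h1 := C2_spec (ε * (y - x) * (th Y p x y σ - th Y p x y σ'))
      have h2 : ε * (y - x) * (th Y p x y σ - th Y p x y σ') = A σ - A σ' := by rw [hA]; ring
      rw [h2] at h1 ⊢
      rw [Complex.cos_sub] at h1
      have h3 : (A σ - A σ') ^ 2 = (ε * (y - x)) ^ 2 * (th Y p x y σ - th Y p x y σ') ^ 2 := by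
        rw [hA]; ring
      rw [h3] at h1
      linear_combination (wf Y p x y σ * wf Y p x y σ') * h1
    unfold Kf
    rw [← intervalIntegral.integral_const_mul, intervalIntegral.integral_congr hin,
      intervalIntegral.integral_sub (i0.mul_const _) ((i1.mul_const _).add (i2.mul_const _)),
      intervalIntegral.integral_add (i1.mul_const _) (i2.mul_const _),
      intervalIntegral.integral_mul_const, intervalIntegral.integral_mul_const,
      intervalIntegral.integral_mul_const, ← hCc, ← hSs]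
    unfold Pz
    ring
  rw [e1, e2, e3]
  have hI2 : I ^ 2 = -1 := Complex.I_sq
  linear_combination (-Ss ^ 2) * hI2

omit [NormedAddCommGroup E] [NormedSpace ℂ E] [FiniteDimensional ℂ E] in
theorem th_eq (p : E) (x y : ℂ) (t : ℝ) :
    th Y p x y t = ∫ s in (0 : ℝ)..t, Y (p, zz x y s) := by
  unfold th
  have := intervalIntegral.smul_integral_comp_mul_left (a := 0) (b := 1)
    (fun s : ℝ => Y (p, zz x y (s : ℂ))) t
  simp only [mul_zero, mul_one] at this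
  rw [← this, Complex.real_smul]
  congr 2
  ext r
  push_cast
  rfl

omit [NormedAddCommGroup E] [NormedSpace ℂ E] [FiniteDimensional ℂ E] in
/-- `Pj` in scaled coordinates -/
theorem Pj_eq (q : ℂ → ℂ) (j : ℂ) (p : E) (ε x y lam : ℂ) (hε : ε ≠ 0) (hlam : lam ≠ 0)
    (hq : ∀ t ∈ Icc (0 : ℝ) 1, Complex.exp (q (lam * zz x y t)) * lam = ε * Y (p, zz x y t))
    (hY : ∀ t ∈ Icc (0 : ℝ) 1, Y (p, zz x y t) ≠ 0) :
    Pj q j (lam * x) (lam * y) = Pe Y j p ε x y := by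
  unfold Pj Pe
  apply intervalIntegral.integral_congr
  intro t ht
  rw [uIcc_of_le zero_le_one] at ht
  simp only
  have hz : ∀ s : ℂ, lam * x + s * (lam * y - lam * x) = lam * zz x y s := by
    intro s; unfold zz; ring
  have hz0 : zz x y ((0 : ℝ) : ℂ) = x := by simp [zz]
  have hx := hq 0 ⟨le_rfl, zero_le_one⟩
  rw [hz0] at hx
  have hYx := hY 0 ⟨le_rfl, zero_le_one⟩
  rw [hz0] at hYx
  have hexp : ∀ s ∈ Icc (0 : ℝ) 1, Complex.exp (q (lam * zz x y s)) = ε * Y (p, zz x y s) / lam := by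
    intro s hs
    rw [eq_div_iff hlam, hq s hs]
  have hexpx : Complex.exp (q (lam * x)) = ε * Y (p, x) / lam := by
    rw [eq_div_iff hlam, hx]
  congr 1
  · -- weight
    rw [hz]
    have e1 : Complex.exp (-2 * (q (lam * zz x y t) - q (lam * x))) =
        Complex.exp (q (lam * x)) ^ 2 / Complex.exp (q (lam * zz x y t)) ^ 2 := by
      rw [← Complex.exp_nat_mul, ← Complex.exp_nat_mul, ← Complex.exp_sub]
      congr 1
      push_cast
      ring
    rw [e1, hexp t ht, hexpx]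
    unfold wf
    have := hY t ht
    field_simp
  · -- phase
    congr 2
    have e2 : (∫ s' in (0 : ℝ)..t, Complex.exp (q (lam * x + s' * (lam * y - lam * x)))) =
        ∫ s' in (0 : ℝ)..t, (ε / lam) * Y (p, zz x y s') := by
      apply intervalIntegral.integral_congr
      intro s hs
      rw [uIcc_of_le ht.1] at hs
      simp only
      rw [hz, hexp s ⟨hs.1, hs.2.trans ht.2⟩]
      ring
    rw [e2, intervalIntegral.integral_const_mul, ← th_eq]
    field_simp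

/-- **(F1)** `PsiQ q (lam x) (lam y) = PsiG Y p ε x y` -/
theorem PsiQ_eq (hY : AnalyticAt ℂ Y (p0, 1)) (hY0 : Y (p0, 1) ≠ 0) :
    ∀ᶠ v : (E × ℂ × ℂ) × ℂ in 𝓝 ((p0, 1, 1), 0), ∀ (q : ℂ → ℂ) (lam : ℂ), v.2 ≠ 0 → lam ≠ 0 →
      (∀ t ∈ Icc (0 : ℝ) 1, Complex.exp (q (lam * zz v.1.2.1 v.1.2.2 t)) * lam =
        v.2 * Y (v.1.1, zz v.1.2.1 v.1.2.2 t)) →
      PsiQ q (lam * v.1.2.1) (lam * v.1.2.2) = PsiG Y v.1.1 v.2 v.1.2.1 v.1.2.2 := by
  -- tubes
  obtain ⟨U1, hU1, hb1, h1⟩ := tube (x0 := ((p0, 1, 1) : E × ℂ × ℂ))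
    (f := fun v : (E × ℂ × ℂ) × ℂ => wf Y v.1.1 v.1.2.1 v.1.2.2 v.2)
    fun t _ => wf_analytic hY hY0 t
  obtain ⟨U2, hU2, hb2, h2⟩ := tube (x0 := ((p0, 1, 1) : E × ℂ × ℂ))
    (f := fun v : (E × ℂ × ℂ) × ℂ => th Y v.1.1 v.1.2.1 v.1.2.2 v.2)
    fun t _ => th_analytic hY t
  -- nonvanishing of `Y` along the segment
  have hYne : ∀ᶠ v : E × ℂ × ℂ in 𝓝 (p0, 1, 1), ∀ t ∈ Icc (0 : ℝ) 1,
      Y (v.1, zz v.2.1 v.2.2 t) ≠ 0 := by
    have hopen : {q : E × ℂ | Y q ≠ 0} ∈ 𝓝 ((p0, 1) : E × ℂ) := hY.continuousAt.eventually_ne hY0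
    obtain ⟨O, hOs, hO, hOb⟩ := _root_.mem_nhds_iff.1 hopen
    have hc : Continuous fun w : (E × ℂ × ℂ) × ℝ => ((w.1.1, zz w.1.2.1 w.1.2.2 w.2) : E × ℂ) := by
      unfold zz; fun_prop
    have hsub : ({((p0, 1, 1) : E × ℂ × ℂ)} : Set _) ×ˢ (Icc (0 : ℝ) 1) ⊆
        (fun w : (E × ℂ × ℂ) × ℝ => ((w.1.1, zz w.1.2.1 w.1.2.2 w.2) : E × ℂ)) ⁻¹' O := by
      rintro ⟨v, t⟩ ⟨hv, _⟩
      rw [mem_singleton_iff] at hv
      simp only at hv
      subst hv
      simpa [zz] using hOb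
    obtain ⟨A, B, hA, hB, hxA, hIB, hAB⟩ := generalized_tube_lemma isCompact_singleton
      isCompact_Icc (hO.preimage hc) hsub
    filter_upwards [hA.mem_nhds (hxA (mem_singleton _))] with v hv t ht
    exact hOs (hAB (mk_mem_prod hv (hIB ht)))
  have hfst : Tendsto (fun v : (E × ℂ × ℂ) × ℂ => v.1) (𝓝 (((p0, 1, 1) : E × ℂ × ℂ), (0 : ℂ)))
      (𝓝 (p0, 1, 1)) := continuous_fst.tendsto _
  have hPe : ∀ j : ℂ, ∀ᶠ v : (E × ℂ × ℂ) × ℂ in 𝓝 ((p0, 1, 1), 0),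
      0 < (Pe Y j v.1.1 v.2 v.1.2.1 v.1.2.2).re := by
    intro j
    have hc := (Pe_analytic hY hY0 j 0).continuousAt
    have h3 : (fun v : (E × ℂ × ℂ) × ℂ => Pe Y j v.1.1 v.2 v.1.2.1 v.1.2.2)
        (((p0, 1, 1) : E × ℂ × ℂ), (0 : ℂ)) = 1 := Pe_diag j p0 0 1 hY0
    have h4 : ContinuousAt (fun v : (E × ℂ × ℂ) × ℂ => (Pe Y j v.1.1 v.2 v.1.2.1 v.1.2.2).re)
        (((p0, 1, 1) : E × ℂ × ℂ), (0 : ℂ)) := Complex.continuous_re.continuousAt.comp hc
    refine h4.eventually (lt_mem_nhds ?_)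
    change 0 < (Pe Y j p0 0 1 1).re
    rw [Pe_diag j p0 0 1 hY0]; simp
  filter_upwards [hfst (hU1.mem_nhds hb1), hfst (hU2.mem_nhds hb2), hfst.eventually hYne,
    hPe I, hPe (-I), hPe 0] with v hv1 hv2 hv3 hv4 hv5 hv6
  rcases v with ⟨⟨p, x, y⟩, ε⟩
  simp only at hv1 hv2 hv3 hv4 hv5 hv6 ⊢
  intro q lam hε hlam hq
  have hYx : Y (p, x) ≠ 0 := by
    have := hv3 0 ⟨le_rfl, zero_le_one⟩
    simpa [zz] using this
  by_cases hxy : y = x
  · subst hxy
    rw [PsiG_diag p ε y hYx]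
    simp [PsiQ]
  have hne : lam * y ≠ lam * x := fun h => hxy (mul_left_cancel₀ hlam h)
  have hlin : Continuous fun t : ℝ => ((((p, x, y) : E × ℂ × ℂ), (t : ℂ)) : (E × ℂ × ℂ) × ℂ) := by
    fun_prop
  have cw : ContinuousOn (fun t : ℝ => wf Y p x y t) (Icc 0 1) := by
    intro t ht
    have := (h1 (p, x, y) hv1 t ht).continuousAt
    exact (this.comp (f := fun t : ℝ => ((((p, x, y) : E × ℂ × ℂ), (t : ℂ)) : (E × ℂ × ℂ) × ℂ))
      hlin.continuousAt).continuousWithinAt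
  have ct : ContinuousOn (fun t : ℝ => th Y p x y t) (Icc 0 1) := by
    intro t ht
    have := (h2 (p, x, y) hv2 t ht).continuousAt
    exact (this.comp (f := fun t : ℝ => ((((p, x, y) : E × ℂ × ℂ), (t : ℂ)) : (E × ℂ × ℂ) × ℂ))
      hlin.continuousAt).continuousWithinAt
  have hmul := Pe_mul (Y := Y) p ε x y cw ct
  have hneI : Pe Y I p ε x y ≠ 0 := fun h => by rw [h] at hv4; simp at hv4
  have hneI' : Pe Y (-I) p ε x y ≠ 0 := fun h => by rw [h] at hv5; simp at hv5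
  have harg1 := Complex.abs_arg_lt_pi_div_two_iff.2 (Or.inl hv4)
  have harg2 := Complex.abs_arg_lt_pi_div_two_iff.2 (Or.inl hv5)
  have hlog : Complex.log (Pe Y I p ε x y * Pe Y (-I) p ε x y) =
      Complex.log (Pe Y I p ε x y) + Complex.log (Pe Y (-I) p ε x y) := by
    apply Complex.log_mul hneI hneI'
    have a1 := abs_lt.1 harg1
    have a2 := abs_lt.1 harg2
    constructor <;> linarith
  set S : ℂ := (Pz Y p x y ^ 2 - (ε * (y - x)) ^ 2 * Kf Y p ε x y) ^ (1 / 2 : ℂ) with hS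
  have hSeq : Pe Y I p ε x y ^ (1 / 2 : ℂ) * Pe Y (-I) p ε x y ^ (1 / 2 : ℂ) = S := by
    rw [hS, ← hmul, Complex.cpow_def_of_ne_zero hneI, Complex.cpow_def_of_ne_zero hneI',
      Complex.cpow_def_of_ne_zero (mul_ne_zero hneI hneI'), hlog, ← Complex.exp_add]
    congr 1; ring
  have hS2 : S ^ 2 = Pz Y p x y ^ 2 - (ε * (y - x)) ^ 2 * Kf Y p ε x y := by
    rw [hS, ← Complex.cpow_nat_mul]
    simp
  have hSre : 0 < S.re := by
    rw [← hSeq, Complex.cpow_def_of_ne_zero hneI, Complex.cpow_def_of_ne_zero hneI',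
      ← Complex.exp_add, Complex.exp_re]
    apply mul_pos (Real.exp_pos _)
    apply Real.cos_pos_of_mem_Ioo
    have e1 : (Complex.log (Pe Y I p ε x y) * (1 / 2) + Complex.log (Pe Y (-I) p ε x y) *
        (1 / 2)).im = (Complex.arg (Pe Y I p ε x y) + Complex.arg (Pe Y (-I) p ε x y)) / 2 := by
      have : Complex.log (Pe Y I p ε x y) * (1 / 2) + Complex.log (Pe Y (-I) p ε x y) * (1 / 2) =
          (((1 / 2 : ℝ)) : ℂ) * (Complex.log (Pe Y I p ε x y) + Complex.log (Pe Y (-I) p ε x y)) := by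
        push_cast; ring
      rw [this, Complex.im_ofReal_mul]
      rw [Complex.add_im, Complex.log_im, Complex.log_im]
      ring
    rw [e1]
    have a1 := abs_lt.1 harg1
    have a2 := abs_lt.1 harg2
    constructor <;> linarith
  rw [Pe_zero] at hv6
  have hsum : Pz Y p x y + S ≠ 0 := by
    intro h
    have := congrArg Complex.re h
    rw [Complex.add_re] at this
    simp at this
    linarith
  have hPj : ∀ j, Pj q j (lam * x) (lam * y) = Pe Y j p ε x y := fun j =>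
    Pj_eq q j p ε x y lam hε hlam hq hv3
  have hx : Complex.exp (q (lam * x)) * lam = ε * Y (p, x) := by
    have := hq 0 ⟨le_rfl, zero_le_one⟩
    simpa [zz] using this
  have hden : (lam * y - lam * x) ^ 2 * Complex.exp (2 * q (lam * x)) =
      (ε * (y - x)) ^ 2 * Y (p, x) ^ 2 := by
    have e1 : Complex.exp (2 * q (lam * x)) = Complex.exp (q (lam * x)) ^ 2 := by
      rw [← Complex.exp_nat_mul]; push_cast; rfl
    rw [e1]
    linear_combination ((y - x) ^ 2 * (Complex.exp (q (lam * x)) * lam + ε * Y (p, x))) * hx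
  unfold PsiQ PsiG
  rw [if_neg hne, hPj, hPj, hPj, hSeq, hden, Pe_zero, ← hS]
  have hεy : (ε * (y - x)) ≠ 0 := mul_ne_zero hε (sub_ne_zero.2 hxy)
  rw [div_eq_div_iff (mul_ne_zero (pow_ne_zero 2 hεy) (pow_ne_zero 2 hYx))
    (mul_ne_zero (pow_ne_zero 2 hYx) hsum)]
  linear_combination (-4 * Y (p, x) ^ 2) * hS2

end Crest.Agent.R102.Mel231
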