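import Crest.Agent.R102.MelIDefs_963
import Crest.Agent.R102.MelI1_231
import Crest.Agent.R102.MelI3_490
import Crest.Agent.R102.MelI5_519
import Crest.Agent.R102.MelI6_217

/-!
# Row 102, [T5]/MEL-I: `TrapL → MelI` (helper490)
-/

set_option autoImplicit false

open Set Filter Topology Metric
open scoped ComplexConjugate

noncomputable section

namespace Crest.Agent.R102.MelIAsm490

open Crest.Agent.R102.T5R Crest.Agent.R102.Mel Crest.Agent.R102.MelI963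

theorem melI_of_trap (hT : TrapL) : MelI := by
  intro κ κ' β C cc CC l₀ qA jA MA EA ZA ZcA xA XA qB jB MB EB ZB ZcB xB XB sA sB mt nA nB
    limA limB pA pB mp
  obtain ⟨C₀, hC₀, hEA, hEA'⟩ := eLim κ β C qA jA 1 MA EA ZA ZcA sA.hj sA.endq limA sA.slope pA
  obtain ⟨CB, hCB, hEB, -⟩ := eLim κ β C qB jB (-1) MB EB ZB ZcB sB.hj sB.endq limB sB.slope pB
  have hκ' := sA.κ'_pos
  have hκ := sA.κ'_lt
  have hκ1 : κ < 1 := sA.endq.κ_lt
  -- `C_B = - C₀`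
  have hpos : ∀ᶠ ρ : ℝ in 𝓝[>] 0, (ρ : ℂ) ∈ OvR κ := by
    have h1 : ∀ᶠ ρ : ℝ in 𝓝[>] 0, ρ < 1 := nhdsWithin_le_nhds (Iio_mem_nhds one_pos)
    filter_upwards [h1, self_mem_nhdsWithin] with ρ h2 h3
    have h3' : (0 : ℝ) < ρ := h3
    refine ⟨by exact_mod_cast h3'.ne', ?_, ?_, by simpa using h3'⟩
    · rw [Complex.norm_real, Real.norm_of_nonneg h3'.le]; exact h2
    · rw [Complex.norm_real, Real.norm_of_nonneg h3'.le, Complex.ofReal_im, abs_zero]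
      have : 0 < κ := by linarith
      positivity
  have hT0 : Tendsto (fun ρ : ℝ => (ρ : ℂ)) (𝓝[>] 0) (𝓝 0) := by
    have := (Complex.continuous_ofReal.tendsto 0).mono_left
      (nhdsWithin_le_nhds (s := Ioi (0 : ℝ)))
    simpa using this
  have hTA : Tendsto (fun ρ : ℝ => (ρ : ℂ)) (𝓝[>] 0) (𝓝[Sg κ] 0) := by
    refine tendsto_nhdsWithin_iff.2 ⟨hT0, ?_⟩
    filter_upwards [hpos] with ρ h
    exact ⟨h.1, h.2.1, (le_abs_self _).trans_lt h.2.2.1⟩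
  have hTB : Tendsto (fun ρ : ℝ => -(ρ : ℂ)) (𝓝[>] 0) (𝓝[Sg κ] 0) := by
    refine tendsto_nhdsWithin_iff.2 ⟨by simpa using hT0.neg, ?_⟩
    filter_upwards [hpos] with ρ h
    refine ⟨neg_ne_zero.2 h.1, by rw [norm_neg]; exact h.2.1, ?_⟩
    rw [norm_neg, Complex.neg_im]
    exact (neg_le_abs _).trans_lt h.2.2.1
  have hl1 := hEA.comp hTA
  have hl2 := hEB.comp hTB
  have hl3 : Tendsto (fun ρ : ℝ => -((fun τ => EA τ / τ) ∘ fun ρ : ℝ => (ρ : ℂ)) ρ) (𝓝[>] 0)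
      (𝓝 CB) := by
    refine hl2.congr' ?_
    filter_upwards [hpos] with ρ h
    simp only [Function.comp_apply]
    rw [(mp _ h).1, div_neg]
  have hCB' : CB = -C₀ := tendsto_nhds_unique hl3 hl1.neg
  rw [hCB'] at hEB
  obtain ⟨δ, G, hG⟩ := MelI3490.eInv κ κ' EA C₀ hκ' hκ hκ1 pA.E_diff hC₀ hEA hEA'
  have D : DatI κ κ' β C cc CC l₀ qA jA MA EA ZA ZcA xA qB jB MB EB ZB ZcB xB C₀ δ G :=
    ⟨sA, sB, mt, limA, limB, pA, pB, mp, hC₀, hEA, hEB, hG⟩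
  obtain ⟨ρ, R₁, l₂, T⟩ := hT κ κ' β C cc CC l₀ qA jA MA EA ZA ZcA xA qB jB MB EB ZB ZcB xB C₀ δ G D
  obtain ⟨ρ', J⟩ := MelI519.jointL κ κ' β C cc CC l₀ qA jA MA EA ZA ZcA xA XA qB jB MB EB ZB ZcB
    xB XB C₀ δ G ρ R₁ l₂ D nA nB T
  exact MelI6217.finL κ κ' β C cc CC l₀ qA jA MA EA ZA ZcA xA qB jB MB EB ZB ZcB xB C₀ δ G ρ' D J

end Crest.Agent.R102.MelIAsm490
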