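import Crest.Agent.R102.KPsi_490
import Crest.Agent.R102.Law_519
import Crest.Agent.R266.SCV

/-!
# Row 102, [T5]/MEL: from the two families to `Side`, `Match`, `Near0` (helper490)
-/

set_option autoImplicit false

open Set Filter Topology Metric
open scoped ComplexConjugate

noncomputable section

namespace Crest.Agent.R102.Mel

open Crest.Agent.R102.T5R

/-! ### scaling -/

lemma Sg_scale {κ l : ℝ} (hl : 0 < l) (hl1 : l ≤ 1) {τ : ℂ} (h : τ ∈ Sg κ) :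
    (l : ℂ) * τ ∈ Sg κ := by
  refine Wl_scale hl ⟨h.1, ?_, h.2.2⟩
  have := h.2.1
  nlinarith [norm_nonneg τ]

lemma OvR_scale {κ l : ℝ} (hl : 0 < l) (hl1 : l ≤ 1) {τ : ℂ} (h : τ ∈ OvR κ) :
    (l : ℂ) * τ ∈ OvR κ := by
  obtain ⟨h1, h2, h3, h4⟩ := h
  have hlc : (l : ℂ) ≠ 0 := by exact_mod_cast hl.ne'
  have hn : ‖(l : ℂ) * τ‖ = l * ‖τ‖ := by
    rw [norm_mul, Complex.norm_real, Real.norm_of_nonneg hl.le]
  refine ⟨mul_ne_zero hlc h1, ?_, ?_, ?_⟩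
  · rw [hn]; nlinarith [norm_nonneg τ]
  · rw [hn, Complex.im_ofReal_mul, abs_mul, abs_of_pos hl]
    nlinarith
  · rw [Complex.re_ofReal_mul]; positivity

lemma OvL_scale {κ l : ℝ} (hl : 0 < l) (hl1 : l ≤ 1) {τ : ℂ} (h : τ ∈ OvL κ) :
    (l : ℂ) * τ ∈ OvL κ := by
  obtain ⟨h1, h2, h3, h4⟩ := h
  have hlc : (l : ℂ) ≠ 0 := by exact_mod_cast hl.ne'
  have hn : ‖(l : ℂ) * τ‖ = l * ‖τ‖ := by
    rw [norm_mul, Complex.norm_real, Real.norm_of_nonneg hl.le]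
  refine ⟨mul_ne_zero hlc h1, ?_, ?_, ?_⟩
  · rw [hn]; nlinarith [norm_nonneg τ]
  · rw [hn, Complex.im_ofReal_mul, abs_mul, abs_of_pos hl]
    nlinarith
  · rw [Complex.re_ofReal_mul]; nlinarith

lemma exp_scq {l : ℝ} (hl : 0 < l) (q : ℂ → ℂ) (τ : ℂ) :
    Complex.exp (scq l q τ) = l * Complex.exp (q (l * τ)) := by
  unfold scq
  rw [Complex.exp_add, ← Complex.ofReal_exp, Real.exp_log hl]; ring

lemma Sg_isOpen (κ : ℝ) : IsOpen (Sg κ) := by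
  refine IsOpen.inter isOpen_ne (IsOpen.inter ?_ ?_)
  · exact isOpen_lt continuous_norm continuous_const
  · exact isOpen_lt Complex.continuous_im (continuous_const.mul continuous_norm)

lemma deriv_scale (f : ℂ → ℂ) (l : ℝ) (τ : ℂ) :
    deriv (fun τ : ℂ => f ((l : ℂ) * τ)) τ = l * deriv f ((l : ℂ) * τ) := by
  have := deriv_comp_mul_left (l : ℂ) f τ
  simpa [smul_eq_mul] using this

lemma EndQ_scale {κ c β C l : ℝ} {q : ℂ → ℂ} (h : EndQ κ c β C q) (hl : 0 < l) (hl1 : l ≤ 1) :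
    EndQ κ c β (C * l ^ β) (scq l q) := by
  refine ⟨h.κ_pos, h.κ_lt, h.β_pos, ?_, ?_⟩
  · have h0 : DifferentiableOn ℂ (fun τ : ℂ => q ((l : ℂ) * τ)) (Sg κ) :=
      h.diff.comp (f := fun τ : ℂ => (l : ℂ) * τ) (by fun_prop) (fun τ hτ => Sg_scale hl hl1 hτ)
    exact h0.add_const ((Real.log l : ℝ) : ℂ)
  · intro τ hτ
    have hne : τ ≠ 0 := hτ.1
    have hlc : (l : ℂ) ≠ 0 := by exact_mod_cast hl.ne'
    have e1 : deriv (scq l q) τ = l * deriv q (l * τ) := by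
      unfold scq
      rw [deriv_add_const, deriv_scale]
    rw [e1]
    have e2 : (l : ℂ) * deriv q (l * τ) - c / τ = l * (deriv q (l * τ) - c / (l * τ)) := by
      field_simp
    rw [e2, norm_mul, Complex.norm_real, Real.norm_of_nonneg hl.le]
    have h3 := h.asym _ (Sg_scale hl hl1 hτ)
    rw [norm_mul, Complex.norm_real, Real.norm_of_nonneg hl.le] at h3
    calc l * ‖deriv q (l * τ) - c / (l * τ)‖ ≤ l * (C * (l * ‖τ‖) ^ (β - 1)) := by gcongr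
      _ = C * l ^ β * ‖τ‖ ^ (β - 1) := by
        rw [Real.mul_rpow hl.le (norm_nonneg _)]
        have : l ^ β = l * l ^ (β - 1) := by
          rw [← Real.rpow_one_add' hl.le (by simpa using h.β_pos.ne')]
          congr 1; ring
        rw [this]; ring

lemma diff_scale {κ l : ℝ} (hl : 0 < l) (hl1 : l ≤ 1) {f : ℂ → ℂ}
    (hf : DifferentiableOn ℂ f (Sg κ)) :
    DifferentiableOn ℂ (fun τ : ℂ => f ((l : ℂ) * τ)) (Sg κ) :=
  hf.comp (f := fun τ : ℂ => (l : ℂ) * τ) (by fun_prop) (fun τ hτ => Sg_scale hl hl1 hτ)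

lemma Slope_scale {κ l : ℝ} {q : ℂ → ℂ} {j : ℂ} {M : ℂ → ℂ} (h : Slope κ q j M) (hl : 0 < l)
    (hl1 : l ≤ 1) : Slope κ (scq l q) j (fun τ => M ((l : ℂ) * τ)) := by
  refine ⟨diff_scale hl hl1 h.diff, fun τ hτ => h.ne _ (Sg_scale hl hl1 hτ), ?_⟩
  intro τ hτ
  rw [deriv_scale, h.der _ (Sg_scale hl hl1 hτ), exp_scq hl]
  ring

lemma Pos_scale {κ l : ℝ} {q : ℂ → ℂ} {j σ : ℂ} {M E Z Zc : ℂ → ℂ} (h : Pos κ q j σ M E Z Zc)
    (hl : 0 < l) (hl1 : l ≤ 1) : Pos κ (scq l q) j σ (fun τ => M ((l : ℂ) * τ))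
      (fun τ => E ((l : ℂ) * τ)) (fun τ => Z ((l : ℂ) * τ) / l ^ 3)
      (fun τ => Zc ((l : ℂ) * τ) / l ^ 3) := by
  have hlc : (l : ℂ) ≠ 0 := by exact_mod_cast hl.ne'
  have hexp : ∀ τ : ℂ, Complex.exp (-2 * scq l q τ) =
      Complex.exp (-2 * q ((l : ℂ) * τ)) / l ^ 2 := by
    intro τ
    have e : (-2 : ℂ) * scq l q τ = -(scq l q τ + scq l q τ) := by ring
    have e' : (-2 : ℂ) * q ((l : ℂ) * τ) = -(q ((l : ℂ) * τ) + q ((l : ℂ) * τ)) := by ring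
    rw [e, e', Complex.exp_neg, Complex.exp_neg, Complex.exp_add, Complex.exp_add, exp_scq hl]
    have := Complex.exp_ne_zero (q ((l : ℂ) * τ))
    field_simp
  have hT : Tendsto (fun τ : ℂ => (l : ℂ) * τ) (𝓝[Sg κ] 0) (𝓝[Sg κ] 0) := by
    refine tendsto_nhdsWithin_iff.2 ⟨?_, ?_⟩
    · have : Tendsto (fun τ : ℂ => (l : ℂ) * τ) (𝓝 0) (𝓝 (l * 0)) :=
        (continuous_const.mul continuous_id).tendsto 0
      rw [mul_zero] at this
      exact this.mono_left nhdsWithin_le_nhds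
    · filter_upwards [self_mem_nhdsWithin] with τ hτ
      exact Sg_scale hl hl1 hτ
  refine ⟨h.hσ, diff_scale hl hl1 h.E_diff, fun τ hτ => h.E_sq _ (Sg_scale hl hl1 hτ),
    (diff_scale hl hl1 h.Z_diff).div_const _, (diff_scale hl hl1 h.Zc_diff).div_const _,
    ?_, ?_, ?_, ?_⟩
  · intro τ hτ
    rw [deriv_div_const, deriv_scale, h.Z_der _ (Sg_scale hl hl1 hτ), hexp]
    field_simp
  · intro τ hτ
    rw [deriv_div_const, deriv_scale, h.Zc_der _ (Sg_scale hl hl1 hτ), hexp]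
    field_simp
  · have := (h.Z_lim.comp hT).div_const ((l : ℂ) ^ 3)
    simpa using this
  · have := (h.Zc_lim.comp hT).div_const ((l : ℂ) ^ 3)
    simpa using this

lemma lim_scale {κ l : ℝ} (hl : 0 < l) (hl1 : l ≤ 1) {q : ℂ → ℂ} {j L : ℂ}
    (h : Tendsto (fun τ => τ * (j * Complex.exp (q τ))) (𝓝[Sg κ] 0) (𝓝 L)) :
    Tendsto (fun τ => τ * (j * Complex.exp (scq l q τ))) (𝓝[Sg κ] 0) (𝓝 L) := by
  have hT : Tendsto (fun τ : ℂ => (l : ℂ) * τ) (𝓝[Sg κ] 0) (𝓝[Sg κ] 0) := by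
    refine tendsto_nhdsWithin_iff.2 ⟨?_, ?_⟩
    · have : Tendsto (fun τ : ℂ => (l : ℂ) * τ) (𝓝 0) (𝓝 (l * 0)) :=
        (continuous_const.mul continuous_id).tendsto 0
      rw [mul_zero] at this
      exact this.mono_left nhdsWithin_le_nhds
    · filter_upwards [self_mem_nhdsWithin] with τ hτ
      exact Sg_scale hl hl1 hτ
  refine (h.comp hT).congr (fun τ => ?_)
  simp only [Function.comp_apply]
  rw [exp_scq hl]
  ring

/-! ### cones -/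

lemma Dl_mono {κ c c' l : ℝ} (h : c' ≤ c) : Dl κ c' l ⊆ Dl κ c l := by
  rintro t ⟨h1, h2, h3, h4⟩
  exact ⟨h1, h2, h3, h4.trans_le (mul_le_mul_of_nonneg_right h (norm_nonneg t))⟩

lemma DCone.mono {κ c C l₀ c' C' l₀' : ℝ} {Ψ : ℂ → ℂ → ℂ} {x : ℝ → ℂ → ℂ}
    (D : DCone κ c C l₀ Ψ x) (hc' : 0 < c') (hc : c' ≤ c) (hC : C ≤ C') (hcC : C' * c' ≤ 1 / 8)
    (hl₀' : 0 < l₀') (hl₀ : l₀' ≤ l₀) : DCone κ c' C' l₀' Ψ x := by
  refine ⟨D.κ_pos, hc', hc.trans_lt D.c_lt, hcC, hl₀', ?_, ?_, ?_⟩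
  · intro l hl hl'
    exact (D.diff l hl (hl'.trans_le hl₀)).mono (Dl_mono hc)
  · intro l hl hl' t ht
    refine (D.near l hl (hl'.trans_le hl₀) t (Dl_mono hc ht)).trans ?_
    gcongr
  · intro l hl hl' t h1 h2 h3
    exact D.el l hl (hl'.trans_le hl₀) t (Dl_mono hc h1) (Dl_mono hc h2) (Dl_mono hc h3)

lemma DCone.near8 {κ c C l₀ : ℝ} {Ψ : ℂ → ℂ → ℂ} {x : ℝ → ℂ → ℂ}
    (D : DCone κ c C l₀ Ψ x) (hC : 0 ≤ C) {l : ℝ} (hl : 0 < l) (hl' : l < l₀) {t : ℂ}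
    (ht : t ∈ Dl κ c l) : ‖x l t - t‖ ≤ l / 8 := by
  refine (D.near l hl hl' t ht).trans ?_
  have hn : 0 < ‖t‖ := norm_pos_iff.2 ht.1
  rw [div_le_iff₀ hn]
  have h1 : l < c * ‖t‖ := ht.2.2.2
  have h2 := D.Cc
  calc C * l ^ 2 = C * l * l := by ring
    _ ≤ C * l * (c * ‖t‖) := by gcongr
    _ = (C * c) * (l * ‖t‖) := by ring
    _ ≤ 1 / 8 * (l * ‖t‖) := by gcongr
    _ = l / 8 * ‖t‖ := by ring

lemma rlaw_of {κ κ' c C l₀ c₁ : ℝ} {q : ℂ → ℂ} {x : ℝ → ℂ → ℂ}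
    (D : DCone κ' c C l₀ (PsiQ q) x) (hC : 0 ≤ C) (hκ' : κ' * 2 ≤ κ) (hκ1 : κ ≤ 1)
    (hcκ : c ≤ κ') (hc1 : c ≤ c₁ / 2)
    (law : ∀ x w x₁ x₂ : ℂ, x ∈ Sg κ → ‖x‖ < 1 / 2 → w ≠ 0 → ‖w‖ < c₁ * ‖x‖ →
      ‖x₁ - (x - w)‖ ≤ ‖w‖ / 3 → ‖x₂ - (x + w)‖ ≤ ‖w‖ / 3 → EL (PsiQ q) x₁ x x₂ = 0 →
      Rj q Complex.I x x₁ * Rj q Complex.I x x₂ = 1) :
    ∀ l : ℝ, 0 < l → l < l₀ → ∀ t : ℂ, t + Complex.I * l ∈ Dl κ' c l → t ∈ Dl κ' c l →
    t - Complex.I * l ∈ Dl κ' c l →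
    Rj q Complex.I (x l t) (x l (t + Complex.I * l)) *
      Rj q Complex.I (x l t) (x l (t - Complex.I * l)) = 1 := by
  intro l hl hl' t h1 h2 h3
  have n0 := D.near8 hC hl hl' h2
  have n1 := D.near8 hC hl hl' h1
  have n2 := D.near8 hC hl hl' h3
  have hn : 0 < ‖t‖ := norm_pos_iff.2 h2.1
  have hlt : l < c * ‖t‖ := h2.2.2.2
  have ht8 : ‖t‖ < 1 / 8 := h2.2.1
  have him : t.im < κ' * ‖t‖ := h2.2.2.1
  have hc8 := D.c_lt
  have hκp := D.κ_pos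
  have hxt : ‖t‖ - l / 8 ≤ ‖x l t‖ := by
    have := norm_sub_norm_le t (x l t)
    rw [norm_sub_rev] at this
    linarith
  have hxt' : ‖x l t‖ ≤ ‖t‖ + l / 8 := by
    have := norm_sub_norm_le (x l t) t
    linarith
  have hx63 : 63 / 64 * ‖t‖ ≤ ‖x l t‖ := by nlinarith
  have hxpos : 0 < ‖x l t‖ := by nlinarith
  have hw : ‖-(Complex.I * (l : ℂ))‖ = l := by
    rw [norm_neg, norm_mul, Complex.norm_I, one_mul, Complex.norm_real, Real.norm_of_nonneg hl.le]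
  have hlc : (l : ℂ) ≠ 0 := by exact_mod_cast hl.ne'
  refine law (x l t) (-(Complex.I * l)) _ _ ⟨norm_pos_iff.1 hxpos, by nlinarith, ?_⟩
    (by nlinarith) (neg_ne_zero.2 (mul_ne_zero Complex.I_ne_zero hlc)) ?_ ?_ ?_
    (D.el l hl hl' t h1 h2 h3)
  · have h4 : (x l t).im ≤ t.im + l / 8 := by
      have := (Complex.abs_im_le_norm (x l t - t)).trans n0
      rw [Complex.sub_im] at this
      have := (abs_le.1 this).2
      linarith
    have h5 : c * ‖t‖ ≤ κ' * ‖t‖ := by gcongr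
    have h6 : (x l t).im ≤ κ' * ‖t‖ * (9 / 8) := by nlinarith
    have h7 : κ' * ‖t‖ * (9 / 8) < κ * ‖x l t‖ := by
      have h8 : κ' * 2 * ‖x l t‖ ≤ κ * ‖x l t‖ := by gcongr
      have h9 : κ' * 2 * (63 / 64 * ‖t‖) ≤ κ' * 2 * ‖x l t‖ := by gcongr
      nlinarith [mul_pos hκp hn]
    linarith
  · rw [hw]
    have h5 : c * ‖t‖ ≤ c₁ / 2 * ‖t‖ := by gcongr
    have hc₁ : 0 < c₁ := by linarith [D.c_pos]
    nlinarith [mul_pos hc₁ hn]
  · rw [hw]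
    have e : x l (t + Complex.I * l) - (x l t - -(Complex.I * l)) =
        (x l (t + Complex.I * l) - (t + Complex.I * l)) - (x l t - t) := by ring
    rw [e]
    refine (norm_sub_le _ _).trans ?_
    linarith
  · rw [hw]
    have e : x l (t - Complex.I * l) - (x l t + -(Complex.I * l)) =
        (x l (t - Complex.I * l) - (t - Complex.I * l)) - (x l t - t) := by ring
    rw [e]
    refine (norm_sub_le _ _).trans ?_
    linarith

/-! ### `Near0` -/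

lemma Fam_open (κ a r : ℝ) : IsOpen {p : ℂ × ℂ | p.1 ∈ Sg κ ∧ a < ‖p.1‖ ∧ ‖p.2‖ < r} := by
  refine IsOpen.inter ((Sg_isOpen κ).preimage continuous_fst) (IsOpen.inter ?_ ?_)
  · exact isOpen_lt continuous_const continuous_fst.norm
  · exact isOpen_lt continuous_snd.norm continuous_const

lemma near0_of {κ₁ κ' cA c l₀ l₁ : ℝ} {Ψ : ℂ → ℂ → ℂ} {r B : ℝ → ℝ} {X : ℂ × ℂ → ℂ}
    {x : ℝ → ℂ → ℂ} {S : Set ℂ} (F : Fam κ₁ Ψ r B X) (hS : S ⊆ Sg κ') (hκ : κ' ≤ κ₁)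
    (hc : 0 < c) (hcA : c ≤ cA) (hl₀ : 0 < l₀) (hl₁ : l₀ ≤ l₁)
    (link : ∀ a l : ℝ, 0 < a → 0 < l → l < l₁ → l < r a → ∀ t ∈ Dl κ' cA l, a < ‖t‖ →
      x l t = X (t, -Complex.I * l)) : Near0 S κ' c l₀ x X := by
  have hSg : ∀ t ∈ Sg κ', t ∈ Sg κ₁ := by
    rintro t ⟨h1, h2, h3⟩
    exact ⟨h1, h2, h3.trans_le (by gcongr)⟩
  have hmem : ∀ t ∈ Sg κ', ((t, (0 : ℂ)) : ℂ × ℂ) ∈
      {p : ℂ × ℂ | p.1 ∈ Sg κ₁ ∧ ‖t‖ / 2 < ‖p.1‖ ∧ ‖p.2‖ < r (‖t‖ / 2)} := by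
    intro t ht
    have hn : 0 < ‖t‖ := norm_pos_iff.2 ht.1
    refine ⟨hSg t ht, ?_, ?_⟩
    · change ‖t‖ / 2 < ‖t‖
      linarith
    · change ‖(0 : ℂ)‖ < _
      rw [norm_zero]
      exact F.r_pos _ (by linarith)
  refine ⟨?_, ?_, ?_, ?_⟩
  · intro t ht
    have hn : 0 < ‖t‖ := norm_pos_iff.2 (hS ht).1
    exact Crest.Agent.R266.SCV.analyticOnNhd_of_differentiableOn (Fam_open κ₁ (‖t‖ / 2) _)
      (F.diff (‖t‖ / 2) (by linarith)) _ (hmem t (hS ht))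
  · intro t ht
    have hn : 0 < ‖t‖ := norm_pos_iff.2 (hS ht).1
    have := F.near (‖t‖ / 2) (by linarith) t 0 (hSg t (hS ht)) (by linarith)
      (by rw [norm_zero]; exact F.r_pos _ (by linarith))
    rw [norm_zero, zero_pow two_ne_zero, mul_zero] at this
    exact sub_eq_zero.1 (norm_le_zero_iff.1 this)
  · intro t ht
    have hn : 0 < ‖t‖ := norm_pos_iff.2 (hS ht).1
    filter_upwards [(Fam_open κ₁ (‖t‖ / 2) (r (‖t‖ / 2))).mem_nhds (hmem t (hS ht))] with p hp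
    exact F.even (‖t‖ / 2) (by linarith) p.1 p.2 hp.1 hp.2.1 hp.2.2
  · intro t ht ht8
    have hn : 0 < ‖t‖ := norm_pos_iff.2 (hS ht).1
    have hO : IsOpen {t' : ℂ | t' ∈ Sg κ' ∧ ‖t'‖ < 1 / 8 ∧ ‖t‖ / 2 < ‖t'‖} := by
      refine IsOpen.inter (Sg_isOpen κ') (IsOpen.inter ?_ ?_)
      · exact isOpen_lt continuous_norm continuous_const
      · exact isOpen_lt continuous_const continuous_norm
    obtain ⟨e, he, heO⟩ := Metric.isOpen_iff.1 hO t ⟨hS ht, ht8, by linarith⟩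
    refine ⟨min e (min l₀ (min (r (‖t‖ / 2)) (c * (‖t‖ / 2)))), ?_, ?_⟩
    · refine lt_min he (lt_min hl₀ (lt_min (F.r_pos _ (by linarith)) (by positivity)))
    · intro t' ht' l hl hle
      obtain ⟨h1, h2, h3⟩ := heO (ball_subset_ball (min_le_left _ _) ht')
      have hl1 : l < l₀ := hle.trans_le ((min_le_right _ _).trans (min_le_left _ _))
      have hl2 : l < r (‖t‖ / 2) := hle.trans_le
        ((min_le_right _ _).trans ((min_le_right _ _).trans (min_le_left _ _)))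
      have hl3 : l < c * (‖t‖ / 2) := hle.trans_le
        ((min_le_right _ _).trans ((min_le_right _ _).trans (min_le_right _ _)))
      have hD : t' ∈ Dl κ' c l := ⟨h1.1, h2, h1.2.2, hl3.trans (by gcongr)⟩
      exact ⟨hl1, hD, (link (‖t‖ / 2) l (by linarith) hl (hl1.trans_le hl₁) hl2 t'
        (Dl_mono hcA hD) h3).symm⟩

/-! ### `Match` -/

lemma wext {κ₁ : ℝ} {ΨA ΨB : ℂ → ℂ → ℂ} {rA BA rB BB : ℝ → ℝ} {XA XB : ℂ × ℂ → ℂ}
    (FA : Fam κ₁ ΨA rA BA XA) (FB : Fam κ₁ ΨB rB BB XB)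
    (hX : ∀ t ∈ OvR κ₁, ∀ᶠ w in 𝓝 (0 : ℂ), XB (-t, w) = -XA (t, w)) {a : ℝ} (ha : 0 < a) {t w : ℂ}
    (ht : t ∈ OvR κ₁) (hta : a < ‖t‖) (hwA : ‖w‖ < rA a) (hwB : ‖w‖ < rB a) :
    XB (-t, w) = -XA (t, w) := by
  set R : ℝ := min (rA a) (rB a) with hR
  have hR0 : 0 < R := lt_min (FA.r_pos a ha) (FB.r_pos a ha)
  have htA : t ∈ Sg κ₁ := ⟨ht.1, ht.2.1, (le_abs_self _).trans_lt ht.2.2.1⟩
  have htB : -t ∈ Sg κ₁ := by
    refine ⟨neg_ne_zero.2 ht.1, by rw [norm_neg]; exact ht.2.1, ?_⟩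
    rw [norm_neg, Complex.neg_im]
    exact (neg_le_abs _).trans_lt ht.2.2.1
  have hd1 : DifferentiableOn ℂ (fun w : ℂ => XB (-t, w)) (ball 0 R) := by
    refine (FB.diff a ha).comp (f := fun w : ℂ => ((-t, w) : ℂ × ℂ)) (by fun_prop) ?_
    intro w hw
    rw [mem_ball_zero_iff] at hw
    exact ⟨htB, by rw [norm_neg]; exact hta, hw.trans_le (min_le_right _ _)⟩
  have hd2 : DifferentiableOn ℂ (fun w : ℂ => -XA (t, w)) (ball 0 R) := by
    refine DifferentiableOn.neg ?_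
    refine (FA.diff a ha).comp (f := fun w : ℂ => ((t, w) : ℂ × ℂ)) (by fun_prop) ?_
    intro w hw
    rw [mem_ball_zero_iff] at hw
    exact ⟨htA, hta, hw.trans_le (min_le_left _ _)⟩
  have heq := (hd1.analyticOnNhd isOpen_ball).eqOn_of_preconnected_of_eventuallyEq
    (hd2.analyticOnNhd isOpen_ball) (convex_ball (0 : ℂ) R).isPreconnected
    (mem_ball_self hR0) (hX t ht)
  exact heq (mem_ball_zero_iff.2 (lt_min hwA hwB))

lemma match_of {κ₁ κ' c C l₀ : ℝ} {ΨA ΨB : ℂ → ℂ → ℂ} {rA BA rB BB : ℝ → ℝ}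
    {XA XB : ℂ × ℂ → ℂ} {xA xB : ℝ → ℂ → ℂ}
    (FA : Fam κ₁ ΨA rA BA XA) (FB : Fam κ₁ ΨB rB BB XB) (hκ : κ' ≤ κ₁)
    (hX : ∀ t ∈ OvR κ₁, ∀ᶠ w in 𝓝 (0 : ℂ), XB (-t, w) = -XA (t, w))
    (DA : DCone κ' c C l₀ ΨA xA) (DB : DCone κ' c C l₀ ΨB xB)
    (linkA : ∀ l : ℝ, 0 < l → l < l₀ → ∀ t ∈ Dl κ' c l, 1 / 16 < ‖t‖ →
      xA l t = XA (t, -Complex.I * l))
    (linkB : ∀ l : ℝ, 0 < l → l < l₀ → ∀ t ∈ Dl κ' c l, 1 / 16 < ‖t‖ →
      xB l t = XB (t, -Complex.I * l))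
    (hlA : l₀ ≤ rA (1 / 16)) (hlB : l₀ ≤ rB (1 / 16)) :
    ∀ l : ℝ, 0 < l → l < l₀ → ∀ t ∈ Dl κ' c l, -t ∈ Dl κ' c l → 0 < t.re →
      xB l (-t) = -xA l t := by
  intro l hl hl' t₀ ht hnt hre
  have hn₀ : 0 < ‖t₀‖ := norm_pos_iff.2 ht.1
  set n₀ : ℝ := ‖t₀‖ with hn₀def
  have h8 : n₀ < 1 / 8 := ht.2.1
  have him1 : t₀.im < κ' * n₀ := ht.2.2.1
  have him2 : -t₀.im < κ' * n₀ := by
    have := hnt.2.2.1
    rwa [norm_neg, Complex.neg_im] at this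
  have him : |t₀.im| < κ' * n₀ := abs_lt.2 ⟨by linarith, him1⟩
  have hlc : l < c * n₀ := ht.2.2.2
  have hc := DA.c_pos
  have hκp := DA.κ_pos
  obtain ⟨δ, hδ, hδ1, hδ2, hδ3, hδ4⟩ : ∃ δ : ℝ, 0 < δ ∧ δ < 1 ∧ n₀ * δ + |t₀.im| < κ' * n₀ ∧
      l < c * (n₀ * (1 - δ)) ∧ n₀ * δ < t₀.re := by
    have hgap1 : 0 < κ' * n₀ - |t₀.im| := by linarith
    have hgap2 : 0 < c * n₀ - l := by linarith
    refine ⟨min (1 / 2) (min ((κ' * n₀ - |t₀.im|) / (2 * n₀)) (min ((c * n₀ - l) / (2 * c * n₀))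
      (t₀.re / (2 * n₀)))), ?_, ?_, ?_, ?_, ?_⟩
    · refine lt_min (by norm_num) (lt_min (by positivity) (lt_min (by positivity) (by positivity)))
    · exact lt_of_le_of_lt (min_le_left _ _) (by norm_num)
    · have h1 : min (1 / 2) (min ((κ' * n₀ - |t₀.im|) / (2 * n₀)) (min ((c * n₀ - l) / (2 * c * n₀))
        (t₀.re / (2 * n₀)))) ≤ (κ' * n₀ - |t₀.im|) / (2 * n₀) :=
        (min_le_right _ _).trans (min_le_left _ _)
      rw [le_div_iff₀ (by positivity)] at h1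
      nlinarith
    · have h1 : min (1 / 2) (min ((κ' * n₀ - |t₀.im|) / (2 * n₀)) (min ((c * n₀ - l) / (2 * c * n₀))
        (t₀.re / (2 * n₀)))) ≤ (c * n₀ - l) / (2 * c * n₀) :=
        (min_le_right _ _).trans ((min_le_right _ _).trans (min_le_left _ _))
      rw [le_div_iff₀ (by positivity)] at h1
      nlinarith
    · have h1 : min (1 / 2) (min ((κ' * n₀ - |t₀.im|) / (2 * n₀)) (min ((c * n₀ - l) / (2 * c * n₀))
        (t₀.re / (2 * n₀)))) ≤ t₀.re / (2 * n₀) :=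
        (min_le_right _ _).trans ((min_le_right _ _).trans (min_le_right _ _))
      rw [le_div_iff₀ (by positivity)] at h1
      nlinarith
  -- the convex set
  set Z : Set ℂ := {z | 1 - δ < z.re ∧ |z.im| < δ * z.re ∧ n₀ * ‖z‖ < 1 / 8} with hZ
  have hZo : IsOpen Z := by
    refine IsOpen.inter (isOpen_lt continuous_const Complex.continuous_re)
      (IsOpen.inter (isOpen_lt Complex.continuous_im.abs
        (continuous_const.mul Complex.continuous_re))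
        (isOpen_lt (continuous_const.mul continuous_norm) continuous_const))
  have hZc : Convex ℝ Z := by
    rintro x ⟨x1, x2, x3⟩ y ⟨y1, y2, y3⟩ p q' hp hq hpq
    have e1 : (p • x + q' • y).re = p * x.re + q' * y.re := by simp
    have e2 : (p • x + q' • y).im = p * x.im + q' * y.im := by simp
    refine ⟨?_, ?_, ?_⟩
    · rw [e1]
      rcases hp.eq_or_lt with h | h
      · have : q' = 1 := by linarith
        rw [← h, this]; linarith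
      · nlinarith
    · rw [e1, e2]
      have f1 : |p * x.im + q' * y.im| ≤ p * |x.im| + q' * |y.im| := by
        refine (abs_add_le _ _).trans ?_
        rw [abs_mul, abs_mul, abs_of_nonneg hp, abs_of_nonneg hq]
      have f2 : p * |x.im| ≤ p * (δ * x.re) := by gcongr
      have f3 : q' * |y.im| ≤ q' * (δ * y.re) := by gcongr
      rcases hp.eq_or_lt with h | h
      · have hq1 : q' = 1 := by linarith
        rw [← h, hq1] at f1 ⊢
        linarith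
      · have f4 : p * |x.im| < p * (δ * x.re) := by gcongr
        linarith
    · have f1 : ‖p • x + q' • y‖ ≤ p * ‖x‖ + q' * ‖y‖ := by
        refine (norm_add_le _ _).trans ?_
        rw [norm_smul, norm_smul, Real.norm_of_nonneg hp, Real.norm_of_nonneg hq]
      have f2 : n₀ * ‖p • x + q' • y‖ ≤ n₀ * (p * ‖x‖ + q' * ‖y‖) := by gcongr
      rcases hp.eq_or_lt with h | h
      · have hq1 : q' = 1 := by linarith
        rw [← h, hq1] at f2 ⊢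
        linarith
      · have f4 : p * (n₀ * ‖x‖) < p * (1 / 8) := by gcongr
        have f5 : q' * (n₀ * ‖y‖) ≤ q' * (1 / 8) := by gcongr
        nlinarith
  -- points
  have hpt : ∀ z ∈ Z, t₀ * z ∈ Dl κ' c l ∧ -(t₀ * z) ∈ Dl κ' c l ∧ 0 < (t₀ * z).re ∧
      |(t₀ * z).im| < κ' * ‖t₀ * z‖ := by
    rintro z ⟨z1, z2, z3⟩
    have hzre : 0 < z.re := by linarith
    have hzn : z.re ≤ ‖z‖ := (le_abs_self _).trans (Complex.abs_re_le_norm z)
    have hzn0 : 0 < ‖z‖ := by linarith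
    have hnorm : ‖t₀ * z‖ = n₀ * ‖z‖ := by rw [norm_mul]
    have hre0 : |t₀.re| ≤ n₀ := Complex.abs_re_le_norm t₀
    have him0 : |t₀.im| ≤ n₀ := Complex.abs_im_le_norm t₀
    have h1 : |(t₀ * z).im| < κ' * ‖t₀ * z‖ := by
      rw [Complex.mul_im, hnorm]
      have f1 : |t₀.re * z.im + t₀.im * z.re| ≤ n₀ * (δ * z.re) + |t₀.im| * z.re := by
        refine (abs_add_le _ _).trans ?_
        rw [abs_mul, abs_mul, abs_of_pos hzre]
        gcongr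
      have f2 : n₀ * (δ * z.re) + |t₀.im| * z.re = (n₀ * δ + |t₀.im|) * z.re := by ring
      have f3 : (n₀ * δ + |t₀.im|) * z.re < κ' * n₀ * z.re := by gcongr
      have f4 : κ' * n₀ * z.re ≤ κ' * n₀ * ‖z‖ := by gcongr
      rw [f2] at f1
      calc _ ≤ _ := f1
        _ < _ := f3
        _ ≤ _ := f4
        _ = κ' * (n₀ * ‖z‖) := by ring
    have h2 : l < c * ‖t₀ * z‖ := by
      rw [hnorm]
      have : 1 - δ < ‖z‖ := by linarith
      refine hδ3.trans ?_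
      gcongr
    have hz0 : t₀ * z ≠ 0 := mul_ne_zero ht.1 (norm_pos_iff.1 hzn0)
    refine ⟨⟨hz0, by rw [hnorm]; exact z3, (le_abs_self _).trans_lt h1, h2⟩,
      ⟨neg_ne_zero.2 hz0, by rw [norm_neg, hnorm]; exact z3, ?_, by rw [norm_neg]; exact h2⟩, ?_, h1⟩
    · rw [Complex.neg_im, norm_neg]
      exact (neg_le_abs _).trans_lt h1
    · rw [Complex.mul_re]
      have f1 : t₀.im * z.im ≤ |t₀.im| * |z.im| := (le_abs_self _).trans (abs_mul _ _).le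
      have f2 : |t₀.im| * |z.im| ≤ n₀ * (δ * z.re) := by gcongr
      have f3 : n₀ * δ * z.re < t₀.re * z.re := by gcongr
      nlinarith
  have hdA : DifferentiableOn ℂ (fun z : ℂ => -xA l (t₀ * z)) Z := by
    refine DifferentiableOn.neg ?_
    exact (DA.diff l hl hl').comp (f := fun z : ℂ => t₀ * z) (by fun_prop)
      (fun z hz => (hpt z hz).1)
  have hdB : DifferentiableOn ℂ (fun z : ℂ => xB l (-(t₀ * z))) Z :=
    (DB.diff l hl hl').comp (f := fun z : ℂ => -(t₀ * z)) (by fun_prop)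
      (fun z hz => (hpt z hz).2.1)
  set z₁ : ℝ := (n₀ + 1 / 8) / (2 * n₀) with hz₁
  have hz₁n : n₀ * z₁ = (n₀ + 1 / 8) / 2 := by rw [hz₁]; field_simp
  have hz₁1 : 1 < z₁ := by
    rw [hz₁, lt_div_iff₀ (by positivity)]; linarith
  have hz₁Z : (z₁ : ℂ) ∈ Z := by
    refine ⟨?_, ?_, ?_⟩
    · rw [Complex.ofReal_re]; linarith
    · rw [Complex.ofReal_im, Complex.ofReal_re, abs_zero]; positivity
    · rw [Complex.norm_real, Real.norm_of_nonneg (by linarith), hz₁n]; linarith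
  have h1Z : (1 : ℂ) ∈ Z := by
    refine ⟨?_, ?_, ?_⟩
    · rw [Complex.one_re]; linarith
    · rw [Complex.one_im, Complex.one_re, abs_zero]; linarith
    · rw [norm_one]; linarith
  have hev : (fun z : ℂ => xB l (-(t₀ * z))) =ᶠ[𝓝 (z₁ : ℂ)] fun z => -xA l (t₀ * z) := by
    have hO : IsOpen {z : ℂ | 1 / 16 < n₀ * ‖z‖} :=
      isOpen_lt continuous_const (continuous_const.mul continuous_norm)
    have hm : (z₁ : ℂ) ∈ {z : ℂ | 1 / 16 < n₀ * ‖z‖} := by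
      change 1 / 16 < n₀ * ‖(z₁ : ℂ)‖
      rw [Complex.norm_real, Real.norm_of_nonneg (by linarith), hz₁n]; linarith
    filter_upwards [hZo.mem_nhds hz₁Z, hO.mem_nhds hm] with z hz hz16
    obtain ⟨p1, p2, p3, p4⟩ := hpt z hz
    have hn16 : 1 / 16 < ‖t₀ * z‖ := by rw [norm_mul]; exact hz16
    rw [linkA l hl hl' _ p1 hn16, linkB l hl hl' _ p2 (by rw [norm_neg]; exact hn16)]
    have hw : ‖-Complex.I * (l : ℂ)‖ = l := by
      rw [norm_mul, norm_neg, Complex.norm_I, one_mul, Complex.norm_real, Real.norm_of_nonneg hl.le]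
    refine wext FA FB hX (a := 1 / 16) (by norm_num) ⟨p1.1, by linarith [p1.2.1], ?_, p3⟩ hn16
      (by rw [hw]; linarith) (by rw [hw]; linarith)
    exact p4.trans_le (by gcongr)
  have heq := (hdB.analyticOnNhd hZo).eqOn_of_preconnected_of_eventuallyEq
    (hdA.analyticOnNhd hZo) hZc.isPreconnected hz₁Z hev
  have := heq h1Z
  simpa using this

end Crest.Agent.R102.Mel
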