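import Mathlib

/-!
Row 102, [T5] MELNIKOV, linear one-dimensional part (helper39).

`one_step`: the equation `ψ (s+1) - ψ s = C s^(ρ-1)` has no solution `s^ρ P(1/s)` with `P` analytic
at `0`, for `ρ` not an integer, unless `C = 0`.
-/

namespace Crest.Agent.R102.Mel39

open Complex Set Filter Topology

noncomputable section

/-- principal branches: `(s+1)^ρ = s^ρ (1+1/s)^ρ` off the negative axis, `|s| > 1`. -/
theorem cpow_succ {s : ℂ} (hs : s ∈ slitPlane) (h1 : 1 < ‖s‖) (ρ : ℂ) :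
    (s + 1) ^ ρ = s ^ ρ * (1 + s⁻¹) ^ ρ := by
  have hs0 : s ≠ 0 := slitPlane_ne_zero hs
  have hv : ‖s⁻¹‖ < 1 := by
    rw [norm_inv]
    exact inv_lt_one_of_one_lt₀ h1
  have hre : 0 < (1 + s⁻¹).re := by
    have := abs_re_le_norm s⁻¹
    have h2 := abs_le.mp this
    simp only [add_re, one_re]
    linarith [h2.1]
  have hne : (1 + s⁻¹) ≠ 0 := by
    intro h
    rw [h] at hre
    simp at hre
  have hs1 : s + 1 = s * (1 + s⁻¹) := by field_simp
  have harg2 := abs_arg_lt_pi_div_two_iff.mpr (Or.inl hre)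
  have harg2' := abs_lt.mp harg2
  have himinv : (1 + s⁻¹).im = - s.im / normSq s := by
    simp [inv_im]
  have hns : 0 < normSq s := normSq_pos.mpr hs0
  have hmem : arg s + arg (1 + s⁻¹) ∈ Ioc (-Real.pi) Real.pi := by
    have hp := Real.pi_pos
    rcases lt_trichotomy s.im 0 with h | h | h
    · have e1 : arg s < 0 := arg_neg_iff.mpr h
      have e2 : 0 ≤ arg (1 + s⁻¹) := by
        rw [arg_nonneg_iff, himinv]
        exact div_nonneg (by linarith) hns.le
      have e3 := neg_pi_lt_arg s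
      constructor <;> linarith [harg2'.1, harg2'.2]
    · have e0 : arg s = 0 := by
        rw [arg_eq_zero_iff]
        rw [mem_slitPlane_iff] at hs
        rcases hs with h' | h'
        · exact ⟨h'.le, h⟩
        · exact absurd h h'
      rw [e0]
      constructor <;> linarith [harg2'.1, harg2'.2]
    · have e1 : 0 ≤ arg s := arg_nonneg_iff.mpr h.le
      have e2 : arg (1 + s⁻¹) < 0 := by
        rw [arg_neg_iff, himinv]
        exact div_neg_of_neg_of_pos (by linarith) hns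
      have e3 := arg_le_pi s
      constructor <;> linarith [harg2'.1, harg2'.2]
  rw [hs1, cpow_def_of_ne_zero (mul_ne_zero hs0 hne), cpow_def_of_ne_zero hs0,
    cpow_def_of_ne_zero hne, log_mul hs0 hne hmem, add_mul, exp_add]

/-- `(-s)^ρ e^{iπρ} = s^ρ` in the upper half plane. -/
theorem cpow_neg_up {s : ℂ} (hs : 0 < s.im) (ρ : ℂ) :
    (-s) ^ ρ * exp (Real.pi * I * ρ) = s ^ ρ := by
  have hs0 : s ≠ 0 := by rintro rfl; simp at hs
  rw [cpow_def_of_ne_zero (neg_ne_zero.mpr hs0), cpow_def_of_ne_zero hs0, ← exp_add]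
  congr 1
  have : log (-s) = log s - Real.pi * I := by
    rw [log, log, norm_neg, arg_neg_eq_arg_sub_pi_of_im_pos hs]
    push_cast
    ring
  rw [this]
  ring

/-- `(-s)^ρ e^{iπρ} = s^ρ e^{2πiρ}` in the lower half plane. -/
theorem cpow_neg_low {s : ℂ} (hs : s.im < 0) (ρ : ℂ) :
    (-s) ^ ρ * exp (Real.pi * I * ρ) = s ^ ρ * exp (2 * Real.pi * I * ρ) := by
  have hs0 : s ≠ 0 := by rintro rfl; simp at hs
  rw [cpow_def_of_ne_zero (neg_ne_zero.mpr hs0), cpow_def_of_ne_zero hs0, ← exp_add, ← exp_add]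
  congr 1
  have : log (-s) = log s + Real.pi * I := by
    rw [log, log, norm_neg, arg_neg_eq_arg_add_pi_of_im_neg hs]
    push_cast
    ring
  rw [this]
  ring

/-- right branch of `s^ρ P(1/s)`. -/
def psR (ρ : ℂ) (P : ℂ → ℂ) (s : ℂ) : ℂ := s ^ ρ * P s⁻¹

/-- left branch of `s^ρ P(1/s)`. -/
def psL (ρ : ℂ) (P : ℂ → ℂ) (s : ℂ) : ℂ := (-s) ^ ρ * exp (Real.pi * I * ρ) * P s⁻¹

/-- continuation from the right. -/
def AA (ρ C : ℂ) (P : ℂ → ℂ) (n : ℕ) (s : ℂ) : ℂ :=
  psR ρ P (s + n) - C * ∑ k ∈ Finset.range n, (s + k) ^ (ρ - 1)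

/-- continuation from the left. -/
def BB (ρ C : ℂ) (P : ℂ → ℂ) (n : ℕ) (s : ℂ) : ℂ :=
  psL ρ P (s - n) + C * ∑ k ∈ Finset.range n,
    (-(s - ((k : ℂ) + 1))) ^ (ρ - 1) * exp (Real.pi * I * (ρ - 1))

theorem psL_up {ρ : ℂ} {P : ℂ → ℂ} {s : ℂ} (hs : 0 < s.im) : psL ρ P s = psR ρ P s := by
  rw [psL, psR, cpow_neg_up hs]

theorem psL_low {ρ : ℂ} {P : ℂ → ℂ} {s : ℂ} (hs : s.im < 0) :
    psL ρ P s = exp (2 * Real.pi * I * ρ) * psR ρ P s := by
  rw [psL, psR, cpow_neg_low hs]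
  ring

theorem eqR {ρ C : ℂ} {P : ℂ → ℂ} {r : ℝ} (hr : 0 < r) (hr1 : r ≤ 1)
    (h : ∀ v : ℂ, ‖v‖ < r → (1 + v) ^ ρ * P (v / (1 + v)) - P v = C * v)
    {s : ℂ} (hs : s ∈ slitPlane) (hsr : r⁻¹ < ‖s‖) :
    psR ρ P (s + 1) = psR ρ P s + C * s ^ (ρ - 1) := by
  have hs0 : s ≠ 0 := slitPlane_ne_zero hs
  have h1 : 1 < ‖s‖ := lt_of_le_of_lt (one_le_inv_iff₀.mpr ⟨hr, hr1⟩) hsr
  have hv : ‖s⁻¹‖ < r := by
    rw [norm_inv]
    exact inv_lt_of_inv_lt₀ hr hsr
  have e := h _ hv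
  have e2 : s⁻¹ / (1 + s⁻¹) = (s + 1)⁻¹ := by
    by_cases hz : s + 1 = 0
    · have : 1 + s⁻¹ = 0 := by
        have : s = -1 := by linear_combination hz
        rw [this]; norm_num
      rw [hz, this]; simp
    · have : 1 + s⁻¹ ≠ 0 := by
        intro h'
        apply hz
        field_simp at h'
        linear_combination h'
      field_simp
  rw [e2] at e
  rw [psR, psR, cpow_succ hs h1, cpow_sub _ _ hs0, cpow_one]
  have : (1 + s⁻¹) ^ ρ * P (s + 1)⁻¹ = P s⁻¹ + C * s⁻¹ := by linear_combination e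
  rw [mul_assoc, this]
  field_simp

theorem telR {ρ C : ℂ} {P : ℂ → ℂ} {r : ℝ} (hr : 0 < r) (hr1 : r ≤ 1)
    (h : ∀ v : ℂ, ‖v‖ < r → (1 + v) ^ ρ * P (v / (1 + v)) - P v = C * v)
    {s : ℂ} (n : ℕ) (hs : ∀ k : ℕ, k < n → s + k ∈ slitPlane ∧ r⁻¹ < ‖s + k‖) :
    AA ρ C P n s = psR ρ P s := by
  induction n with
  | zero => simp [AA]
  | succ n ih =>
    have ih' := ih (fun k hk => hs k (by omega))
    have e := eqR hr hr1 h (hs n (by omega)).1 (hs n (by omega)).2
    rw [AA] at ih' ⊢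
    rw [Finset.sum_range_succ]
    push_cast
    rw [← add_assoc, e, ← ih']
    ring

theorem telL {ρ C : ℂ} {P : ℂ → ℂ} {r : ℝ} (hr : 0 < r) (hr1 : r ≤ 1)
    (h : ∀ v : ℂ, ‖v‖ < r → (1 + v) ^ ρ * P (v / (1 + v)) - P v = C * v)
    {s : ℂ} (n : ℕ)
    (hs : ∀ k : ℕ, k < n → s - ((k : ℂ) + 1) ∈ slitPlane ∧ r⁻¹ < ‖s - ((k : ℂ) + 1)‖) :
    psR ρ P (s - n) + C * ∑ k ∈ Finset.range n, (s - ((k : ℂ) + 1)) ^ (ρ - 1) = psR ρ P s := by
  induction n with
  | zero => simp
  | succ n ih =>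
    have ih' := ih (fun k hk => hs k (by omega))
    have e := eqR hr hr1 h (hs n (by omega)).1 (hs n (by omega)).2
    have e3 : s - ((n : ℂ) + 1) + 1 = s - n := by ring
    rw [e3] at e
    rw [Finset.sum_range_succ]
    push_cast
    rw [← ih', e]
    ring

theorem BB_up {ρ C : ℂ} {P : ℂ → ℂ} {r : ℝ} (hr : 0 < r) (hr1 : r ≤ 1)
    (h : ∀ v : ℂ, ‖v‖ < r → (1 + v) ^ ρ * P (v / (1 + v)) - P v = C * v)
    {s : ℂ} (n : ℕ) (hs : r⁻¹ < s.im) : BB ρ C P n s = psR ρ P s := by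
  have hr' : 0 < r⁻¹ := inv_pos.mpr hr
  rw [BB, psL_up (by simpa using hr'.trans hs), ← telL (s := s) hr hr1 h n ?_]
  · congr 2
    apply Finset.sum_congr rfl
    intro k _
    rw [cpow_neg_up]
    simpa using hr'.trans hs
  · intro k _
    have him : (s - ((k : ℂ) + 1)).im = s.im := by simp
    refine ⟨?_, ?_⟩
    · rw [mem_slitPlane_iff, him]
      right
      linarith
    · have := abs_im_le_norm (s - ((k : ℂ) + 1))
      rw [him, abs_of_pos (by linarith)] at this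
      linarith

theorem exp_two_pi_sub_one (ρ : ℂ) :
    exp (2 * Real.pi * I * (ρ - 1)) = exp (2 * Real.pi * I * ρ) := by
  rw [mul_sub, mul_one, exp_sub, exp_two_pi_mul_I, div_one]

theorem BB_low {ρ C : ℂ} {P : ℂ → ℂ} {r : ℝ} (hr : 0 < r) (hr1 : r ≤ 1)
    (h : ∀ v : ℂ, ‖v‖ < r → (1 + v) ^ ρ * P (v / (1 + v)) - P v = C * v)
    {s : ℂ} (n : ℕ) (hs : s.im < -r⁻¹) :
    BB ρ C P n s = exp (2 * Real.pi * I * ρ) * psR ρ P s := by
  have hr' : 0 < r⁻¹ := inv_pos.mpr hr
  have hs0 : s.im < 0 := by linarith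
  rw [BB, psL_low (by simpa using hs0), ← telL (s := s) hr hr1 h n ?_]
  · rw [mul_add]
    congr 1
    rw [mul_left_comm]
    congr 1
    rw [Finset.mul_sum]
    apply Finset.sum_congr rfl
    intro k _
    rw [cpow_neg_low (by simpa using hs0), exp_two_pi_sub_one]
    ring
  · intro k _
    have him : (s - ((k : ℂ) + 1)).im = s.im := by simp
    refine ⟨?_, ?_⟩
    · rw [mem_slitPlane_iff, him]
      right
      linarith
    · have := abs_im_le_norm (s - ((k : ℂ) + 1))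
      rw [him, abs_of_neg (by linarith)] at this
      linarith

theorem AA_far {ρ C : ℂ} {P : ℂ → ℂ} {r : ℝ} (hr : 0 < r) (hr1 : r ≤ 1)
    (h : ∀ v : ℂ, ‖v‖ < r → (1 + v) ^ ρ * P (v / (1 + v)) - P v = C * v)
    {s : ℂ} (n : ℕ) (hs : r⁻¹ < |s.im|) : AA ρ C P n s = psR ρ P s := by
  have hr' : 0 < r⁻¹ := inv_pos.mpr hr
  apply telR hr hr1 h
  intro k _
  have him : (s + k).im = s.im := by simp
  refine ⟨?_, ?_⟩
  · rw [mem_slitPlane_iff, him]
    right
    intro h0
    rw [h0] at hs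
    simp at hs
    linarith
  · have := abs_im_le_norm (s + k)
    rw [him] at this
    linarith

theorem AA_diff {ρ C : ℂ} {P : ℂ → ℂ} {r : ℝ} (hr : 0 < r)
    (hP : DifferentiableOn ℂ P (Metric.ball 0 r)) {n : ℕ} (hn : r⁻¹ + 3 < n) :
    DifferentiableOn ℂ (AA ρ C P n) ({s : ℂ | -1 < s.re} ∩ slitPlane) := by
  have hr' : 0 < r⁻¹ := inv_pos.mpr hr
  intro s hs
  obtain ⟨hs1, hs2⟩ := hs
  change -1 < s.re at hs1
  apply DifferentiableAt.differentiableWithinAt
  have hk : ∀ k : ℕ, s + k ∈ slitPlane := by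
    intro k
    rw [mem_slitPlane_iff] at hs2 ⊢
    rcases hs2 with h | h
    · left
      simp only [add_re, natCast_re]
      positivity
    · right
      simpa using h
  have hnorm : r⁻¹ < ‖s + n‖ := by
    have := abs_re_le_norm (s + n)
    have h2 := le_abs_self (s + n).re
    simp only [add_re, natCast_re] at this h2
    linarith
  have hinv : (s + n)⁻¹ ∈ Metric.ball (0 : ℂ) r := by
    rw [mem_ball_zero_iff, norm_inv]
    exact inv_lt_of_inv_lt₀ hr hnorm
  have hPd : DifferentiableAt ℂ P (s + n)⁻¹ :=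
    hP.differentiableAt (Metric.isOpen_ball.mem_nhds hinv)
  have hne : s + (n : ℂ) ≠ 0 := slitPlane_ne_zero (hk n)
  unfold AA psR
  apply DifferentiableAt.sub
  · apply DifferentiableAt.mul
    · exact ((differentiableAt_id.add_const _).cpow_const (hk n))
    · exact DifferentiableAt.comp s hPd ((differentiableAt_id.add_const _).inv hne)
  · apply DifferentiableAt.const_mul
    apply DifferentiableAt.fun_sum
    intro k _
    exact ((differentiableAt_id.add_const _).cpow_const (hk k))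

theorem BB_diff {ρ C : ℂ} {P : ℂ → ℂ} {r : ℝ} (hr : 0 < r)
    (hP : DifferentiableOn ℂ P (Metric.ball 0 r)) {n : ℕ} (hn : r⁻¹ + 3 < n) :
    DifferentiableOn ℂ (BB ρ C P n) {s : ℂ | s.re < 2 ∧ 1 - s ∈ slitPlane} := by
  have hr' : 0 < r⁻¹ := inv_pos.mpr hr
  intro s hs
  obtain ⟨hs1, hs2⟩ := hs
  apply DifferentiableAt.differentiableWithinAt
  have hk : ∀ k : ℕ, -(s - ((k : ℂ) + 1)) ∈ slitPlane := by
    intro k
    rw [mem_slitPlane_iff] at hs2 ⊢
    rcases hs2 with h | h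
    · left
      simp only [sub_re, one_re, neg_re, add_re, natCast_re] at h ⊢
      have : (0 : ℝ) ≤ k := Nat.cast_nonneg k
      linarith
    · right
      simpa using h
  have hkn : -(s - (n : ℂ)) ∈ slitPlane := by
    rw [mem_slitPlane_iff] at hs2 ⊢
    rcases hs2 with h | h
    · left
      simp only [sub_re, one_re, neg_re, natCast_re] at h ⊢
      linarith
    · right
      simpa using h
  have hnorm : r⁻¹ < ‖s - n‖ := by
    have := abs_re_le_norm (s - n)
    have h2 := neg_abs_le (s - n).re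
    simp only [sub_re, natCast_re] at this h2
    linarith
  have hinv : (s - n)⁻¹ ∈ Metric.ball (0 : ℂ) r := by
    rw [mem_ball_zero_iff, norm_inv]
    exact inv_lt_of_inv_lt₀ hr hnorm
  have hPd : DifferentiableAt ℂ P (s - n)⁻¹ :=
    hP.differentiableAt (Metric.isOpen_ball.mem_nhds hinv)
  have hne : s - (n : ℂ) ≠ 0 := by
    intro h0
    rw [h0] at hkn
    simp at hkn
  unfold BB psL
  apply DifferentiableAt.add
  · apply DifferentiableAt.mul
    · exact ((differentiableAt_id.sub_const _).neg.cpow_const hkn).mul_const _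
    · exact DifferentiableAt.comp s hPd ((differentiableAt_id.sub_const _).inv hne)
  · apply DifferentiableAt.const_mul
    apply DifferentiableAt.fun_sum
    intro k _
    exact ((differentiableAt_id.sub_const _).neg.cpow_const (hk k)).mul_const _

/-- **one step, value.**  If `ρ` is not an integer then the equation
`ψ (s+1) - ψ s = C s^(ρ-1)` for `ψ s = s^ρ P(1/s)` forces `ψ = 0` on the far positive axis. -/
theorem one_step_aux {ρ C : ℂ} (hρ : ∀ n : ℤ, ρ ≠ n) {P : ℂ → ℂ} {r : ℝ} (hr : 0 < r) (hr1 : r ≤ 1)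
    (hP : DifferentiableOn ℂ P (Metric.ball 0 r))
    (h : ∀ v : ℂ, ‖v‖ < r → (1 + v) ^ ρ * P (v / (1 + v)) - P v = C * v) :
    ∀ x : ℝ, r⁻¹ < x → psR ρ P x = 0 := by
  have hr' : 0 < r⁻¹ := inv_pos.mpr hr
  obtain ⟨n, hn⟩ := exists_nat_gt (r⁻¹ + 3)
  set μ : ℂ := exp (2 * Real.pi * I * ρ) with hμ
  have hμ1 : μ ≠ 1 := by
    intro h1
    rw [hμ, exp_eq_one_iff] at h1
    obtain ⟨m, hm⟩ := h1
    apply hρ m
    have : (2 * Real.pi * I : ℂ) ≠ 0 := two_pi_I_ne_zero
    have h2 : (2 * Real.pi * I : ℂ) * ρ = 2 * Real.pi * I * m := by linear_combination hm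
    exact mul_left_cancel₀ this h2
  set V : Set ℂ := {s : ℂ | -1 < s.re} ∩ slitPlane with hV
  set W : Set ℂ := {s : ℂ | s.re < 2 ∧ 1 - s ∈ slitPlane} with hW
  have hVo : IsOpen V := (isOpen_lt continuous_const continuous_re).inter isOpen_slitPlane
  have hWo : IsOpen W := (isOpen_lt continuous_re continuous_const).inter
    (isOpen_slitPlane.preimage (continuous_const.sub continuous_id))
  have hA : AnalyticOnNhd ℂ (AA ρ C P n) V := (AA_diff hr hP hn).analyticOnNhd hVo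
  have hB : AnalyticOnNhd ℂ (BB ρ C P n) W := (BB_diff hr hP hn).analyticOnNhd hWo
  -- upper strip
  set Up : Set ℂ := {s : ℂ | -1 < s.re} ∩ {s : ℂ | s.re < 2} ∩ {s : ℂ | 0 < s.im} with hUp
  set Lo : Set ℂ := {s : ℂ | -1 < s.re} ∩ {s : ℂ | s.re < 2} ∩ {s : ℂ | s.im < 0} with hLo
  have hUpc : Convex ℝ Up := ((convex_halfSpace_re_gt _).inter (convex_halfSpace_re_lt _)).inter
    (convex_halfSpace_im_gt _)
  have hLoc : Convex ℝ Lo := ((convex_halfSpace_re_gt _).inter (convex_halfSpace_re_lt _)).inter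
    (convex_halfSpace_im_lt _)
  have hUpV : Up ⊆ V := by
    rintro s ⟨⟨h1, h2⟩, h3⟩
    refine ⟨h1, ?_⟩
    rw [mem_slitPlane_iff]
    right
    exact ne_of_gt h3
  have hLoV : Lo ⊆ V := by
    rintro s ⟨⟨h1, h2⟩, h3⟩
    refine ⟨h1, ?_⟩
    rw [mem_slitPlane_iff]
    right
    exact ne_of_lt h3
  have hUpW : Up ⊆ W := by
    rintro s ⟨⟨h1, h2⟩, h3⟩
    refine ⟨h2, ?_⟩
    rw [mem_slitPlane_iff]
    right
    simpa using ne_of_gt h3
  have hLoW : Lo ⊆ W := by
    rintro s ⟨⟨h1, h2⟩, h3⟩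
    refine ⟨h2, ?_⟩
    rw [mem_slitPlane_iff]
    right
    simpa using ne_of_lt h3
  have eqUp : EqOn (AA ρ C P n) (BB ρ C P n) Up := by
    have hz : ((r⁻¹ + 1 : ℝ) * I : ℂ) ∈ Up := by
      refine ⟨⟨?_, ?_⟩, ?_⟩ <;> simp
      linarith
    apply AnalyticOnNhd.eqOn_of_preconnected_of_eventuallyEq (hA.mono hUpV) (hB.mono hUpW)
      hUpc.isPreconnected hz
    have hO : IsOpen {s : ℂ | r⁻¹ < s.im} := isOpen_lt continuous_const continuous_im
    filter_upwards [hO.mem_nhds (show ((r⁻¹ + 1 : ℝ) * I : ℂ) ∈ {s : ℂ | r⁻¹ < s.im} by simp)]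
      with s hs
    change r⁻¹ < s.im at hs
    rw [AA_far hr hr1 h n (by rw [abs_of_pos (by linarith)]; exact hs), BB_up hr hr1 h n hs]
  have eqLo : EqOn (fun s => μ * AA ρ C P n s) (BB ρ C P n) Lo := by
    have hz : (-(r⁻¹ + 1 : ℝ) * I : ℂ) ∈ Lo := by
      refine ⟨⟨?_, ?_⟩, ?_⟩ <;> simp
      linarith
    apply AnalyticOnNhd.eqOn_of_preconnected_of_eventuallyEq
      (analyticOnNhd_const.mul (hA.mono hLoV)) (hB.mono hLoW)
      hLoc.isPreconnected hz
    have hO : IsOpen {s : ℂ | s.im < -r⁻¹} := isOpen_lt continuous_im continuous_const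
    filter_upwards [hO.mem_nhds (show (-(r⁻¹ + 1 : ℝ) * I : ℂ) ∈ {s : ℂ | s.im < -r⁻¹} by simp)]
      with s hs
    change s.im < -r⁻¹ at hs
    rw [AA_far hr hr1 h n (by rw [abs_of_neg (by linarith)]; linarith), BB_low hr hr1 h n hs]
  -- the interval (0,1)
  have hzero : ∀ x : ℝ, 0 < x → x < 1 → AA ρ C P n x = 0 := by
    intro x hx0 hx1
    have hxV : (x : ℂ) ∈ V := by
      refine ⟨?_, ?_⟩
      · simp; linarith
      · rw [mem_slitPlane_iff]; left; simpa using hx0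
    have hxW : (x : ℂ) ∈ W := by
      refine ⟨?_, ?_⟩
      · simp; linarith
      · rw [mem_slitPlane_iff]; left; simpa using hx1
    have cA := (hA x hxV).continuousAt
    have cB := (hB x hxW).continuousAt
    have tU : Tendsto (fun e : ℝ => (x : ℂ) + e * I) (𝓝[>] 0) (𝓝 (x : ℂ)) := by
      have : Tendsto (fun e : ℝ => (x : ℂ) + e * I) (𝓝 0) (𝓝 ((x : ℂ) + (0 : ℝ) * I)) :=
        (by fun_prop : Continuous (fun e : ℝ => (x : ℂ) + e * I)).tendsto 0
      simp only [ofReal_zero, zero_mul, add_zero] at this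
      exact this.mono_left nhdsWithin_le_nhds
    have tL : Tendsto (fun e : ℝ => (x : ℂ) - e * I) (𝓝[>] 0) (𝓝 (x : ℂ)) := by
      have : Tendsto (fun e : ℝ => (x : ℂ) - e * I) (𝓝 0) (𝓝 ((x : ℂ) - (0 : ℝ) * I)) :=
        (by fun_prop : Continuous (fun e : ℝ => (x : ℂ) - e * I)).tendsto 0
      simp only [ofReal_zero, zero_mul, sub_zero] at this
      exact this.mono_left nhdsWithin_le_nhds
    have e1 : AA ρ C P n x = BB ρ C P n x := by
      apply tendsto_nhds_unique_of_eventuallyEq (cA.tendsto.comp tU) (cB.tendsto.comp tU)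
      filter_upwards [self_mem_nhdsWithin] with e he
      simp only [mem_Ioi] at he
      apply eqUp
      refine ⟨⟨?_, ?_⟩, ?_⟩ <;> simp <;> linarith
    have e2 : μ * AA ρ C P n x = BB ρ C P n x := by
      apply tendsto_nhds_unique_of_eventuallyEq ((cA.tendsto.comp tL).const_mul μ)
        (cB.tendsto.comp tL)
      filter_upwards [self_mem_nhdsWithin] with e he
      simp only [mem_Ioi] at he
      apply eqLo
      refine ⟨⟨?_, ?_⟩, ?_⟩ <;> simp <;> linarith
    have e3 : (μ - 1) * AA ρ C P n x = 0 := by linear_combination e2 - e1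
    rcases mul_eq_zero.mp e3 with h' | h'
    · exact absurd (sub_eq_zero.mp h') hμ1
    · exact h'
  -- identity theorem on V
  have hVc : IsPreconnected V := by
    have hst : StarConvex ℝ (1 : ℂ) V := by
      apply StarConvex.inter
      · exact (convex_halfSpace_re_gt (-1)).starConvex (by simp)
      · exact starConvex_one_slitPlane
    have h1V : (1 : ℂ) ∈ V := by
      refine ⟨?_, ?_⟩
      · simp
      · exact one_mem_slitPlane
    exact (hst.isPathConnected h1V).isConnected.isPreconnected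
  have hAz : EqOn (AA ρ C P n) 0 V := by
    have hz : ((1 / 2 : ℝ) : ℂ) ∈ V := by
      refine ⟨?_, ?_⟩
      · simp; norm_num
      · rw [mem_slitPlane_iff]; left; simp
    apply AnalyticOnNhd.eqOn_of_preconnected_of_frequently_eq hA analyticOnNhd_const hVc hz
    have tR : Tendsto (fun e : ℝ => (e : ℂ)) (𝓝[>] (1 / 2 : ℝ)) (𝓝[≠] ((1 / 2 : ℝ) : ℂ)) := by
      apply tendsto_nhdsWithin_of_tendsto_nhds_of_eventually_within
      · exact (continuous_ofReal.tendsto _).mono_left nhdsWithin_le_nhds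
      · filter_upwards [self_mem_nhdsWithin] with e he
        simp only [mem_Ioi] at he
        simp only [mem_compl_iff, mem_singleton_iff, ofReal_inj]
        exact ne_of_gt he
    apply tR.frequently
    apply Eventually.frequently
    have : Iio (1 : ℝ) ∈ 𝓝[>] (1 / 2 : ℝ) :=
      mem_nhdsWithin_of_mem_nhds (Iio_mem_nhds (by norm_num))
    filter_upwards [self_mem_nhdsWithin, this] with e he he1
    simp only [mem_Ioi, mem_Iio] at he he1
    exact hzero e (by linarith) he1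
  intro x hx
  have hx0 : 0 < x := by linarith
  rw [← telR hr hr1 h n ?_]
  · apply hAz
    refine ⟨?_, ?_⟩
    · simp; linarith
    · rw [mem_slitPlane_iff]; left; simpa using hx0
  · intro k _
    have hk0 : (0 : ℝ) ≤ k := Nat.cast_nonneg k
    refine ⟨?_, ?_⟩
    · rw [mem_slitPlane_iff]; left; simp; linarith
    · have := abs_re_le_norm ((x : ℂ) + k)
      have h2 := le_abs_self ((x : ℂ) + k).re
      simp only [add_re, natCast_re, ofReal_re] at this h2
      linarith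

/-- **one step.**  `ρ ∉ ℤ`, `P` analytic at `0`,
`(1+v)^ρ P(v/(1+v)) - P(v) = C v` near `0`  ⟹  `C = 0` and `P = 0` near `0`. -/
theorem one_step {ρ C : ℂ} (hρ : ∀ n : ℤ, ρ ≠ n) {P : ℂ → ℂ} (hP : AnalyticAt ℂ P 0)
    (h : ∀ᶠ v in 𝓝 (0 : ℂ), (1 + v) ^ ρ * P (v / (1 + v)) - P v = C * v) :
    C = 0 ∧ P =ᶠ[𝓝 0] 0 := by
  obtain ⟨r0, hr0, hr0'⟩ := Metric.eventually_nhds_iff_ball.mp
    (hP.eventually_analyticAt.and h)
  set r : ℝ := min r0 1 with hrdef
  have hr : 0 < r := lt_min hr0 one_pos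
  have hr1 : r ≤ 1 := min_le_right _ _
  have hPd : DifferentiableOn ℂ P (Metric.ball 0 r) := by
    intro v hv
    exact ((hr0' v (Metric.ball_subset_ball (min_le_left _ _) hv)).1.differentiableAt).differentiableWithinAt
  have h' : ∀ v : ℂ, ‖v‖ < r → (1 + v) ^ ρ * P (v / (1 + v)) - P v = C * v := by
    intro v hv
    exact (hr0' v (by
      rw [mem_ball_zero_iff]
      exact lt_of_lt_of_le hv (min_le_left _ _))).2
  have hz := one_step_aux hρ hr hr1 hPd h'
  have hPz : P =ᶠ[𝓝 0] 0 := by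
    have hfreq : ∃ᶠ v in 𝓝[≠] (0 : ℂ), P v = 0 := by
      have tR : Tendsto (fun e : ℝ => (e : ℂ)) (𝓝[>] (0 : ℝ)) (𝓝[≠] (0 : ℂ)) := by
        apply tendsto_nhdsWithin_of_tendsto_nhds_of_eventually_within
        · have := (continuous_ofReal.tendsto (0 : ℝ))
          simp only [ofReal_zero] at this
          exact this.mono_left nhdsWithin_le_nhds
        · filter_upwards [self_mem_nhdsWithin] with e he
          simp only [mem_Ioi] at he
          simp only [mem_compl_iff, mem_singleton_iff, ofReal_eq_zero]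
          exact ne_of_gt he
      apply tR.frequently
      apply Eventually.frequently
      have : Iio r ∈ 𝓝[>] (0 : ℝ) := mem_nhdsWithin_of_mem_nhds (Iio_mem_nhds hr)
      filter_upwards [self_mem_nhdsWithin, this] with e he he1
      simp only [mem_Ioi, mem_Iio] at he he1
      have := hz e⁻¹ (by exact (inv_lt_inv₀ hr he).mpr he1)
      rw [psR] at this
      rcases mul_eq_zero.mp this with h1 | h1
      · exfalso
        rw [cpow_eq_zero_iff] at h1
        have : (e : ℂ) = 0 := by simpa using h1.1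
        rw [ofReal_eq_zero] at this
        linarith
      · simpa using h1
    exact hP.frequently_zero_iff_eventually_zero.mp hfreq
  refine ⟨?_, hPz⟩
  have hv : Tendsto (fun v : ℂ => v / (1 + v)) (𝓝 0) (𝓝 0) := by
    have : ContinuousAt (fun v : ℂ => v / (1 + v)) 0 := by
      apply ContinuousAt.div continuousAt_id (by fun_prop) (by simp)
    simpa [ContinuousAt] using this
  have h2 := (h.and (hPz.and (hv.eventually hPz)))
  have h3 : ∀ᶠ v in 𝓝 (0 : ℂ), C * v = 0 := by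
    filter_upwards [h2] with v hv
    obtain ⟨a, b, c⟩ := hv
    rw [b, c] at a
    simpa using a.symm
  obtain ⟨ε, hε, hε'⟩ := Metric.eventually_nhds_iff_ball.mp h3
  have := hε' ((ε / 2 : ℝ) : ℂ) (by
    rw [mem_ball_zero_iff, norm_real, Real.norm_eq_abs, abs_of_pos (by linarith)]
    linarith)
  rcases mul_eq_zero.mp this with h4 | h4
  · exact h4
  · exfalso
    rw [ofReal_eq_zero] at h4
    linarith

/-- `a_n = 1/((β+1)...(β+n))` for `n = 3, 4`, `n = 2`. -/
def a2 (β : ℂ) : ℂ := ((β + 1) * (β + 2))⁻¹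
/-- see `a2` -/
def a3 (β : ℂ) : ℂ := ((β + 1) * (β + 2) * (β + 3))⁻¹
/-- see `a2` -/
def a4 (β : ℂ) : ℂ := ((β + 1) * (β + 2) * (β + 3) * (β + 4))⁻¹

/-- the first order source of the FLAT equation, closed form
(`= Int_0^v u (v-u)^2 [(1+u)^β - (1-u)^β] du`, see `EE_eq_integral`). -/
def EE (β v : ℂ) : ℂ :=
  2 * v * a3 β * ((1 + v) ^ (β + 3) + (1 - v) ^ (β + 3)) + 8 * v * a3 β
    - 6 * a4 β * ((1 + v) ^ (β + 4) - (1 - v) ^ (β + 4))

theorem tendsto_div_add : Tendsto (fun v : ℂ => v / (1 + v)) (𝓝 0) (𝓝 0) := by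
  have : ContinuousAt (fun v : ℂ => v / (1 + v)) 0 := by
    apply ContinuousAt.div continuousAt_id (by fun_prop) (by simp)
  simpa [ContinuousAt] using this

theorem tendsto_div_sub : Tendsto (fun v : ℂ => v / (1 - v)) (𝓝 0) (𝓝 0) := by
  have : ContinuousAt (fun v : ℂ => v / (1 - v)) 0 := by
    apply ContinuousAt.div continuousAt_id (by fun_prop) (by simp)
  simpa [ContinuousAt] using this

theorem eventually_re_pos : ∀ᶠ v in 𝓝 (0 : ℂ), 0 < (1 + v).re ∧ 0 < (1 - v).re := by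
  have h1 : ∀ᶠ v in 𝓝 (0 : ℂ), ‖v‖ < 1 := by
    have := Metric.ball_mem_nhds (0 : ℂ) one_pos
    filter_upwards [this] with v hv
    simpa using hv
  filter_upwards [h1] with v hv
  have := abs_le.mp (abs_re_le_norm v)
  constructor <;> simp <;> linarith [this.1, this.2]

/-- `(1/z)^c = 1/z^c` for `Re z > 0`. -/
theorem inv_cpow' {z : ℂ} (hz : 0 < z.re) (c : ℂ) : (z⁻¹) ^ c = (z ^ c)⁻¹ := by
  apply inv_cpow
  have h := abs_arg_lt_pi_div_two_iff.mpr (Or.inl hz)
  intro h'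
  rw [h', abs_of_pos Real.pi_pos] at h
  linarith [Real.pi_pos]

theorem analyticAt_one_sub_cpow (c : ℂ) : AnalyticAt ℂ (fun v : ℂ => (1 - v) ^ c) 0 := by
  apply AnalyticAt.cpow
  · fun_prop
  · exact analyticAt_const
  · simp [one_mem_slitPlane]

/-- **MELNIKOV, FLAT (both `c = 0` and `c = 1`).**  `β ∉ ℤ`, `ζ` analytic at `0`; the linearised
Euler-Lagrange equation for the deviation `ξ(t,w) = t^(β+3) ζ(w/t)` with source `κ z^β`
(divided by `t^(β+4)`, `v = w/t`) forces `κ = 0` and `ζ = 0`. -/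
theorem flat {β κ : ℂ} (hβ : ∀ n : ℤ, β ≠ n) {ζ : ℂ → ℂ} (hζ : AnalyticAt ℂ ζ 0)
    (h : ∀ᶠ v in 𝓝 (0 : ℂ), v * (2 * ζ v - (1 + v) ^ (β + 3) * ζ (v / (1 + v))
      - (1 - v) ^ (β + 3) * ζ (v / (1 - v))) + κ * EE β v = 0) :
    κ = 0 ∧ ζ =ᶠ[𝓝 0] 0 := by
  have hn1 : β + 1 ≠ 0 := fun h => hβ (-1) (by push_cast; linear_combination h)
  have hn2 : β + 2 ≠ 0 := fun h => hβ (-2) (by push_cast; linear_combination h)
  have hn3 : β + 3 ≠ 0 := fun h => hβ (-3) (by push_cast; linear_combination h)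
  have hn4 : β + 4 ≠ 0 := fun h => hβ (-4) (by push_cast; linear_combination h)
  have ha3 : a3 β ≠ 0 := by
    unfold a3
    exact inv_ne_zero (mul_ne_zero (mul_ne_zero hn1 hn2) hn3)
  have hρ : ∀ n : ℤ, β + 4 ≠ n := by
    intro n hn
    exact hβ (n - 4) (by push_cast; linear_combination hn)
  have hρ' : ∀ n : ℤ, β + 3 ≠ n := by
    intro n hn
    exact hβ (n - 3) (by push_cast; linear_combination hn)
  set ζ1 : ℂ → ℂ := fun v => ζ v - 2 * κ * a3 β with hζ1
  have hζ1a : AnalyticAt ℂ ζ1 0 := hζ.sub analyticAt_const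
  set P : ℂ → ℂ := fun v => v * (ζ1 v - (1 - v) ^ (β + 3) * ζ1 (v / (1 - v)))
    + 6 * κ * a4 β * (1 + (1 - v) ^ (β + 4)) with hPdef
  have hdiv : AnalyticAt ℂ (fun v : ℂ => v / (1 - v)) 0 := by
    apply AnalyticAt.div analyticAt_id (by fun_prop) (by simp)
  have hcomp : AnalyticAt ℂ (fun v : ℂ => ζ1 (v / (1 - v))) 0 := by
    exact AnalyticAt.fun_comp_of_eq hζ1a hdiv (by simp)
  have hP : AnalyticAt ℂ P 0 := by
    apply AnalyticAt.add
    · exact analyticAt_id.mul (hζ1a.sub ((analyticAt_one_sub_cpow _).mul hcomp))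
    · exact analyticAt_const.mul (analyticAt_const.add (analyticAt_one_sub_cpow _))
  have hstep : ∀ᶠ v in 𝓝 (0 : ℂ), (1 + v) ^ (β + 4) * P (v / (1 + v)) - P v
      = (12 * κ * a3 β) * v := by
    filter_upwards [h, eventually_re_pos] with v hv hre
    obtain ⟨hre1, hre2⟩ := hre
    have hne1 : (1 + v) ≠ 0 := by
      intro h0
      rw [h0] at hre1
      simp at hre1
    have hne2 : (1 - v) ≠ 0 := by
      intro h0
      rw [h0] at hre2
      simp at hre2
    have e1 : 1 - v / (1 + v) = (1 + v)⁻¹ := by field_simp; ring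
    have e2 : v / (1 + v) / (1 + v)⁻¹ = v := by field_simp
    have e3 : (1 + v) ^ (β + 3) ≠ 0 := by
      rw [Ne, cpow_eq_zero_iff]
      tauto
    have e4 : (1 + v) ^ (β + 4) = (1 + v) ^ (β + 3) * (1 + v) := by
      have : β + 4 = (β + 3) + 1 := by ring
      rw [this, cpow_add _ _ hne1, cpow_one]
    rw [hPdef]
    simp only
    rw [e1, e2, inv_cpow' hre1, inv_cpow' hre1]
    unfold EE at hv
    rw [hζ1]
    simp only
    rw [e4] at hv ⊢
    field_simp
    linear_combination (-1 : ℂ) * hv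
  obtain ⟨hC, hP0⟩ := one_step hρ hP hstep
  have hκ : κ = 0 := by
    rcases mul_eq_zero.mp hC with h1 | h1
    · simpa using h1
    · exact absurd h1 ha3
  refine ⟨hκ, ?_⟩
  have hstep2 : ∀ᶠ v in 𝓝 (0 : ℂ), (1 + v) ^ (β + 3) * ζ (v / (1 + v)) - ζ v = 0 * v := by
    filter_upwards [tendsto_div_add.eventually hP0, eventually_re_pos] with v hv hre
    obtain ⟨hre1, hre2⟩ := hre
    have hne1 : (1 + v) ≠ 0 := by
      intro h0
      rw [h0] at hre1
      simp at hre1
    by_cases hv0 : v = 0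
    · subst hv0
      simp
    have e1 : 1 - v / (1 + v) = (1 + v)⁻¹ := by field_simp; ring
    have e2 : v / (1 + v) / (1 + v)⁻¹ = v := by field_simp
    have e3 : (1 + v) ^ (β + 3) ≠ 0 := by
      rw [Ne, cpow_eq_zero_iff]
      tauto
    rw [hPdef, hζ1] at hv
    simp only [hκ, Pi.zero_apply] at hv
    rw [e1, e2, inv_cpow' hre1] at hv
    have h5 : v / (1 + v) ≠ 0 := div_ne_zero hv0 hne1
    have h6 : ζ (v / (1 + v)) - ((1 + v) ^ (β + 3))⁻¹ * ζ v = 0 := by
      have : v / (1 + v) * (ζ (v / (1 + v)) - ((1 + v) ^ (β + 3))⁻¹ * ζ v) = 0 := by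
        linear_combination hv
      rcases mul_eq_zero.mp this with h7 | h7
      · exact absurd h7 h5
      · exact h7
    field_simp at h6
    linear_combination h6
  exact (one_step hρ' hζ hstep2).2

/-! ### the ISO case -/

/-- principal branches: `(s+a)^c = s^c (1+a/s)^c` for `a > 0`, `|s| > a`. -/
theorem cpow_add_real {s : ℂ} (hs : s ∈ slitPlane) {a : ℝ} (ha : 0 < a) (h1 : a < ‖s‖) (c : ℂ) :
    (s + a) ^ c = s ^ c * (1 + a * s⁻¹) ^ c := by
  have hs0 : s ≠ 0 := slitPlane_ne_zero hs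
  have hsn : 0 < ‖s‖ := by linarith
  have hv : ‖(a : ℂ) * s⁻¹‖ < 1 := by
    rw [norm_mul, norm_inv, norm_real, Real.norm_eq_abs, abs_of_pos ha, ← div_eq_mul_inv,
      div_lt_one hsn]
    exact h1
  have hre : 0 < (1 + (a : ℂ) * s⁻¹).re := by
    have := abs_re_le_norm ((a : ℂ) * s⁻¹)
    have h2 := abs_le.mp this
    rw [add_re, one_re]
    linarith [h2.1]
  have hne : (1 + (a : ℂ) * s⁻¹) ≠ 0 := by
    intro h
    rw [h] at hre
    simp at hre
  have hs1 : s + a = s * (1 + a * s⁻¹) := by field_simp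
  have harg2 := abs_arg_lt_pi_div_two_iff.mpr (Or.inl hre)
  have harg2' := abs_lt.mp harg2
  have himinv : (1 + (a : ℂ) * s⁻¹).im = - (a * s.im) / normSq s := by
    rw [add_im, one_im, mul_im, ofReal_re, ofReal_im, inv_im]
    ring
  have hns : 0 < normSq s := normSq_pos.mpr hs0
  have hmem : arg s + arg (1 + (a : ℂ) * s⁻¹) ∈ Ioc (-Real.pi) Real.pi := by
    have hp := Real.pi_pos
    rcases lt_trichotomy s.im 0 with h | h | h
    · have e1 : arg s < 0 := arg_neg_iff.mpr h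
      have e2 : 0 ≤ arg (1 + (a : ℂ) * s⁻¹) := by
        rw [arg_nonneg_iff, himinv]
        exact div_nonneg (by nlinarith) hns.le
      have e3 := neg_pi_lt_arg s
      constructor <;> linarith [harg2'.1, harg2'.2]
    · have e0 : arg s = 0 := by
        rw [arg_eq_zero_iff]
        rw [mem_slitPlane_iff] at hs
        rcases hs with h' | h'
        · exact ⟨h'.le, h⟩
        · exact absurd h h'
      rw [e0]
      constructor <;> linarith [harg2'.1, harg2'.2]
    · have e1 : 0 ≤ arg s := arg_nonneg_iff.mpr h.le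
      have e2 : arg (1 + (a : ℂ) * s⁻¹) < 0 := by
        rw [arg_neg_iff, himinv]
        exact div_neg_of_neg_of_pos (by nlinarith) hns
      have e3 := arg_le_pi s
      constructor <;> linarith [harg2'.1, harg2'.2]
  rw [hs1, cpow_def_of_ne_zero (mul_ne_zero hs0 hne), cpow_def_of_ne_zero hs0,
    cpow_def_of_ne_zero hne, log_mul hs0 hne hmem, add_mul, exp_add]

/-- multiplicativity of `cpow` on the right half plane. -/
theorem mul_cpow_re_pos {x y : ℂ} (hx : 0 < x.re) (hy : 0 < y.re) (c : ℂ) :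
    (x * y) ^ c = x ^ c * y ^ c := by
  have hx0 : x ≠ 0 := by rintro rfl; simp at hx
  have hy0 : y ≠ 0 := by rintro rfl; simp at hy
  have h1 := abs_lt.mp (abs_arg_lt_pi_div_two_iff.mpr (Or.inl hx))
  have h2 := abs_lt.mp (abs_arg_lt_pi_div_two_iff.mpr (Or.inl hy))
  rw [cpow_def_of_ne_zero (mul_ne_zero hx0 hy0), cpow_def_of_ne_zero hx0,
    cpow_def_of_ne_zero hy0, log_mul hx0 hy0 ⟨by linarith [h1.1, h2.1], by linarith [h1.2, h2.2]⟩,
    add_mul, exp_add]

/-- `B(s)^c` far out: `(s-1/2)^c (s+1/2)^c = s^c s^c (1-1/(4s^2))^c`. -/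
theorem B_cpow {s : ℂ} (hs : s ∈ slitPlane) (h1 : 1 < ‖s‖) (c : ℂ) :
    (s - 1 / 2) ^ c * (s + 1 / 2) ^ c = s ^ c * s ^ c * (1 - (s⁻¹) ^ 2 / 4) ^ c := by
  have hs0 : s ≠ 0 := slitPlane_ne_zero hs
  have hv : ‖s⁻¹‖ < 1 := by
    rw [norm_inv]
    exact inv_lt_one_of_one_lt₀ h1
  have hvr := abs_le.mp (abs_re_le_norm s⁻¹)
  have hre1 : 0 < (1 + ((1 / 2 : ℝ) : ℂ) * s⁻¹).re := by
    rw [add_re, one_re, re_ofReal_mul]
    linarith [hvr.1]
  have hre2 : 0 < (1 - ((1 / 2 : ℝ) : ℂ) * s⁻¹).re := by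
    rw [sub_re, one_re, re_ofReal_mul]
    linarith [hvr.2]
  -- plus
  have ep := cpow_add_real hs (a := 1 / 2) (by norm_num) (by linarith) c
  -- minus
  have hs' : s - ((1 / 2 : ℝ) : ℂ) ∈ slitPlane := by
    rw [mem_slitPlane_iff] at hs ⊢
    by_cases him : s.im = 0
    · left
      rcases hs with h | h
      · have : ‖s‖ = s.re := by
          rw [← re_add_im s, him]
          simp [abs_of_pos h]
        rw [sub_re, ofReal_re]
        linarith
      · exact absurd him h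
    · right
      simpa using him
  have hn' : (1 / 2 : ℝ) < ‖s - ((1 / 2 : ℝ) : ℂ)‖ := by
    have := norm_sub_norm_le s ((1 / 2 : ℝ) : ℂ)
    rw [norm_real, Real.norm_eq_abs, abs_of_pos (by norm_num : (0 : ℝ) < 1 / 2)] at this
    linarith
  have em := cpow_add_real hs' (a := 1 / 2) (by norm_num) hn' c
  have hsm0 : s - ((1 / 2 : ℝ) : ℂ) ≠ 0 := slitPlane_ne_zero hs'
  have e1 : (1 + ((1 / 2 : ℝ) : ℂ) * (s - ((1 / 2 : ℝ) : ℂ))⁻¹)
      = (1 - ((1 / 2 : ℝ) : ℂ) * s⁻¹)⁻¹ := by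
    have : (1 - ((1 / 2 : ℝ) : ℂ) * s⁻¹) = (s - ((1 / 2 : ℝ) : ℂ)) * s⁻¹ := by
      field_simp
    rw [this]
    field_simp
    ring
  rw [e1, inv_cpow' hre2, sub_add_cancel] at em
  have hne2 : (1 - ((1 / 2 : ℝ) : ℂ) * s⁻¹) ^ c ≠ 0 := by
    rw [Ne, cpow_eq_zero_iff]
    rintro ⟨h0, _⟩
    rw [h0] at hre2
    simp at hre2
  have em' : (s - ((1 / 2 : ℝ) : ℂ)) ^ c = s ^ c * (1 - ((1 / 2 : ℝ) : ℂ) * s⁻¹) ^ c := by
    rw [em, mul_assoc, inv_mul_cancel₀ hne2, mul_one]
  have e3 : (1 - (s⁻¹) ^ 2 / 4) = (1 - ((1 / 2 : ℝ) : ℂ) * s⁻¹) * (1 + ((1 / 2 : ℝ) : ℂ) * s⁻¹) := by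
    push_cast
    ring
  rw [e3, mul_cpow_re_pos hre2 hre1]
  have h12 : ((1 / 2 : ℝ) : ℂ) = 1 / 2 := by push_cast; rfl
  rw [h12] at em' ep ⊢
  rw [em', ep]
  ring

/-- right branch of the ISO source. -/
def gR (γ C : ℂ) (s : ℂ) : ℂ := C * s * ((s - 1 / 2) ^ (γ - 2) * (s + 1 / 2) ^ (γ - 2))

/-- left branch of the ISO source. -/
def gL (γ C : ℂ) (s : ℂ) : ℂ := C * s * ((1 / 2 - s) ^ (γ - 2) * (-1 / 2 - s) ^ (γ - 2)) *
  exp (2 * Real.pi * I * (γ - 2))

/-- middle branch of the ISO source. -/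
def gM (γ C : ℂ) (s : ℂ) : ℂ := C * s * ((1 / 2 - s) ^ (γ - 2) * (s + 1 / 2) ^ (γ - 2))

theorem gR_up {γ C s : ℂ} (hs : 0 < s.im) :
    gR γ C s = exp (Real.pi * I * (γ - 2)) * gM γ C s := by
  have := cpow_neg_up (s := s - 1 / 2) (by simpa using hs) (γ - 2)
  rw [neg_sub] at this
  rw [gR, gM, ← this]
  ring

theorem gR_low {γ C s : ℂ} (hs : s.im < 0) :
    exp (Real.pi * I * (γ - 2)) * gR γ C s = gM γ C s := by
  have := cpow_neg_low (s := s - 1 / 2) (by simpa using hs) (γ - 2)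
  rw [neg_sub] at this
  have e : exp (2 * Real.pi * I * (γ - 2)) = exp (Real.pi * I * (γ - 2)) *
      exp (Real.pi * I * (γ - 2)) := by
    rw [← exp_add]; congr 1; ring
  have h0 := exp_ne_zero (Real.pi * I * (γ - 2))
  have : (1 / 2 - s) ^ (γ - 2) = (s - 1 / 2) ^ (γ - 2) * exp (Real.pi * I * (γ - 2)) := by
    apply mul_right_cancel₀ h0
    rw [this, e]
    ring
  rw [gR, gM, this]
  ring

theorem gL_up {γ C s : ℂ} (hs : 0 < s.im) : gL γ C s = gR γ C s := by
  have h1 := cpow_neg_up (s := s - 1 / 2) (by simpa using hs) (γ - 2)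
  have h2 := cpow_neg_up (s := s + 1 / 2) (by simpa using hs) (γ - 2)
  rw [neg_sub] at h1
  rw [show -(s + 1 / 2) = -1 / 2 - s by ring] at h2
  have e : exp (2 * Real.pi * I * (γ - 2)) = exp (Real.pi * I * (γ - 2)) *
      exp (Real.pi * I * (γ - 2)) := by
    rw [← exp_add]; congr 1; ring
  rw [gL, gR, ← h1, ← h2, e]
  ring

theorem gL_low {γ C s : ℂ} (hs : s.im < 0) :
    gL γ C s = exp (2 * Real.pi * I * (2 * γ - 2)) * gR γ C s := by
  have h1 := cpow_neg_low (s := s - 1 / 2) (by simpa using hs) (γ - 2)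
  have h2 := cpow_neg_low (s := s + 1 / 2) (by simpa using hs) (γ - 2)
  rw [neg_sub] at h1
  rw [show -(s + 1 / 2) = -1 / 2 - s by ring] at h2
  have e : exp (2 * Real.pi * I * (γ - 2)) = exp (Real.pi * I * (γ - 2)) *
      exp (Real.pi * I * (γ - 2)) := by
    rw [← exp_add]; congr 1; ring
  have e2 : exp (2 * Real.pi * I * (2 * γ - 2)) = exp (2 * Real.pi * I * (γ - 2)) *
      exp (2 * Real.pi * I * (γ - 2)) := by
    rw [← exp_add]
    rw [show (2 * Real.pi * I * (2 * γ - 2) : ℂ) = 2 * Real.pi * I * (γ - 2)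
      + 2 * Real.pi * I * (γ - 2) + 2 * Real.pi * I + 2 * Real.pi * I by ring]
    rw [exp_add, exp_add, exp_two_pi_mul_I, mul_one, mul_one]
  have : gL γ C s = C * s * (((1 / 2 - s) ^ (γ - 2) * exp (Real.pi * I * (γ - 2))) *
      ((-1 / 2 - s) ^ (γ - 2) * exp (Real.pi * I * (γ - 2)))) := by
    rw [gL, e]; ring
  rw [this, h1, h2, gR, e2]
  ring

/-- ISO: the one step equation far out. -/
theorem eqI {γ C : ℂ} {P : ℂ → ℂ} {r : ℝ} (hr : 0 < r) (hr1 : r ≤ 1)
    (h : ∀ v : ℂ, ‖v‖ < r → (1 + v) ^ (2 * γ - 2) * P (v / (1 + v)) - P v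
      = C * v * (1 - v ^ 2 / 4) ^ (γ - 2))
    {s : ℂ} (hs : s ∈ slitPlane) (hsr : r⁻¹ < ‖s‖) :
    psR (2 * γ - 2) P (s + 1) = psR (2 * γ - 2) P s + gR γ C s := by
  have hs0 : s ≠ 0 := slitPlane_ne_zero hs
  have h1 : 1 < ‖s‖ := lt_of_le_of_lt (one_le_inv_iff₀.mpr ⟨hr, hr1⟩) hsr
  have hv : ‖s⁻¹‖ < r := by
    rw [norm_inv]
    exact inv_lt_of_inv_lt₀ hr hsr
  have e := h _ hv
  have e2 : s⁻¹ / (1 + s⁻¹) = (s + 1)⁻¹ := by
    by_cases hz : s + 1 = 0
    · have : 1 + s⁻¹ = 0 := by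
        have : s = -1 := by linear_combination hz
        rw [this]; norm_num
      rw [hz, this]; simp
    · have : 1 + s⁻¹ ≠ 0 := by
        intro h'
        apply hz
        field_simp at h'
        linear_combination h'
      field_simp
  rw [e2] at e
  rw [psR, psR, cpow_succ hs h1, gR, B_cpow hs h1]
  have : (1 + s⁻¹) ^ (2 * γ - 2) * P (s + 1)⁻¹ = P s⁻¹ + C * s⁻¹ * (1 - s⁻¹ ^ 2 / 4) ^ (γ - 2) := by
    linear_combination e
  rw [mul_assoc, this]
  have e3 : s ^ (2 * γ - 2) = s ^ (γ - 2) * s ^ (γ - 2) * s ^ 2 := by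
    rw [← cpow_add _ _ hs0, ← cpow_ofNat, ← cpow_add _ _ hs0]
    congr 1
    ring
  rw [mul_add, e3]
  field_simp

/-- ISO continuation from the right, shifted by one. -/
def PhiI (γ C : ℂ) (P : ℂ → ℂ) (n : ℕ) (s : ℂ) : ℂ :=
  psR (2 * γ - 2) P (s + (n + 1)) - ∑ k ∈ Finset.range n, gR γ C (s + (k + 1))

/-- ISO continuation from the left. -/
def PsiI (γ C : ℂ) (P : ℂ → ℂ) (n : ℕ) (s : ℂ) : ℂ :=
  psL (2 * γ - 2) P (s - n) + ∑ k ∈ Finset.range n, gL γ C (s - (k + 1))

theorem telIR {γ C : ℂ} {P : ℂ → ℂ} {r : ℝ} (hr : 0 < r) (hr1 : r ≤ 1)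
    (h : ∀ v : ℂ, ‖v‖ < r → (1 + v) ^ (2 * γ - 2) * P (v / (1 + v)) - P v
      = C * v * (1 - v ^ 2 / 4) ^ (γ - 2))
    {s : ℂ} (n : ℕ) (hs : ∀ k : ℕ, k < n → s + (k + 1) ∈ slitPlane ∧ r⁻¹ < ‖s + (k + 1)‖) :
    PhiI γ C P n s = psR (2 * γ - 2) P (s + 1) := by
  induction n with
  | zero => simp [PhiI]
  | succ n ih =>
    have ih' := ih (fun k hk => hs k (by omega))
    have e := eqI hr hr1 h (hs n (by omega)).1 (hs n (by omega)).2
    rw [PhiI] at ih' ⊢
    rw [Finset.sum_range_succ]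
    push_cast
    rw [← add_assoc s ((n : ℂ) + 1) 1, e, ← ih']
    ring

theorem telIL {γ C : ℂ} {P : ℂ → ℂ} {r : ℝ} (hr : 0 < r) (hr1 : r ≤ 1)
    (h : ∀ v : ℂ, ‖v‖ < r → (1 + v) ^ (2 * γ - 2) * P (v / (1 + v)) - P v
      = C * v * (1 - v ^ 2 / 4) ^ (γ - 2))
    {s : ℂ} (n : ℕ)
    (hs : ∀ k : ℕ, k < n → s - ((k : ℂ) + 1) ∈ slitPlane ∧ r⁻¹ < ‖s - ((k : ℂ) + 1)‖) :
    psR (2 * γ - 2) P (s - n) + ∑ k ∈ Finset.range n, gR γ C (s - ((k : ℂ) + 1))
      = psR (2 * γ - 2) P s := by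
  induction n with
  | zero => simp
  | succ n ih =>
    have ih' := ih (fun k hk => hs k (by omega))
    have e := eqI hr hr1 h (hs n (by omega)).1 (hs n (by omega)).2
    have e3 : s - ((n : ℂ) + 1) + 1 = s - n := by ring
    rw [e3] at e
    rw [Finset.sum_range_succ]
    push_cast
    rw [← ih', e]
    ring

theorem PsiI_up {γ C : ℂ} {P : ℂ → ℂ} {r : ℝ} (hr : 0 < r) (hr1 : r ≤ 1)
    (h : ∀ v : ℂ, ‖v‖ < r → (1 + v) ^ (2 * γ - 2) * P (v / (1 + v)) - P v
      = C * v * (1 - v ^ 2 / 4) ^ (γ - 2))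
    {s : ℂ} (n : ℕ) (hs : r⁻¹ < s.im) : PsiI γ C P n s = psR (2 * γ - 2) P s := by
  have hr' : 0 < r⁻¹ := inv_pos.mpr hr
  rw [PsiI, psL_up (by simpa using hr'.trans hs), ← telIL (s := s) hr hr1 h n ?_]
  · congr 1
    apply Finset.sum_congr rfl
    intro k _
    rw [gL_up]
    simpa using hr'.trans hs
  · intro k _
    have him : (s - ((k : ℂ) + 1)).im = s.im := by simp
    refine ⟨?_, ?_⟩
    · rw [mem_slitPlane_iff, him]
      right
      linarith
    · have := abs_im_le_norm (s - ((k : ℂ) + 1))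
      rw [him, abs_of_pos (by linarith)] at this
      linarith

theorem PsiI_low {γ C : ℂ} {P : ℂ → ℂ} {r : ℝ} (hr : 0 < r) (hr1 : r ≤ 1)
    (h : ∀ v : ℂ, ‖v‖ < r → (1 + v) ^ (2 * γ - 2) * P (v / (1 + v)) - P v
      = C * v * (1 - v ^ 2 / 4) ^ (γ - 2))
    {s : ℂ} (n : ℕ) (hs : s.im < -r⁻¹) :
    PsiI γ C P n s = exp (2 * Real.pi * I * (2 * γ - 2)) * psR (2 * γ - 2) P s := by
  have hr' : 0 < r⁻¹ := inv_pos.mpr hr
  have hs0 : s.im < 0 := by linarith
  rw [PsiI, psL_low (by simpa using hs0), ← telIL (s := s) hr hr1 h n ?_]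
  · rw [mul_add]
    congr 1
    rw [Finset.mul_sum]
    apply Finset.sum_congr rfl
    intro k _
    rw [gL_low]
    simpa using hs0
  · intro k _
    have him : (s - ((k : ℂ) + 1)).im = s.im := by simp
    refine ⟨?_, ?_⟩
    · rw [mem_slitPlane_iff, him]
      right
      linarith
    · have := abs_im_le_norm (s - ((k : ℂ) + 1))
      rw [him, abs_of_neg (by linarith)] at this
      linarith

theorem PhiI_far {γ C : ℂ} {P : ℂ → ℂ} {r : ℝ} (hr : 0 < r) (hr1 : r ≤ 1)
    (h : ∀ v : ℂ, ‖v‖ < r → (1 + v) ^ (2 * γ - 2) * P (v / (1 + v)) - P v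
      = C * v * (1 - v ^ 2 / 4) ^ (γ - 2))
    {s : ℂ} (n : ℕ) (hs : r⁻¹ < |s.im|) :
    PhiI γ C P n s - gR γ C s = psR (2 * γ - 2) P s := by
  have hr' : 0 < r⁻¹ := inv_pos.mpr hr
  have hgen : ∀ k : ℕ, s + k ∈ slitPlane ∧ r⁻¹ < ‖s + k‖ := by
    intro k
    have him : (s + k).im = s.im := by simp
    refine ⟨?_, ?_⟩
    · rw [mem_slitPlane_iff, him]
      right
      intro h0
      rw [h0] at hs
      simp at hs
      linarith
    · have := abs_im_le_norm (s + k)
      rw [him] at this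
      linarith
  rw [telIR hr hr1 h n]
  · have h0 := hgen 0
    simp only [Nat.cast_zero, add_zero] at h0
    rw [eqI hr hr1 h h0.1 h0.2]
    ring
  · intro k _
    have := hgen (k + 1)
    push_cast at this
    exact this

theorem PhiI_diff {γ C : ℂ} {P : ℂ → ℂ} {r : ℝ} (hr : 0 < r)
    (hP : DifferentiableOn ℂ P (Metric.ball 0 r)) {n : ℕ} (hn : r⁻¹ + 3 < n) :
    DifferentiableOn ℂ (PhiI γ C P n) {s : ℂ | -1 < s.re ∧ s + 1 / 2 ∈ slitPlane} := by
  have hr' : 0 < r⁻¹ := inv_pos.mpr hr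
  intro s hs
  obtain ⟨hs1, hs2⟩ := hs
  apply DifferentiableAt.differentiableWithinAt
  have hk : ∀ k : ℕ, s + (k + 1) - 1 / 2 ∈ slitPlane := by
    intro k
    rw [mem_slitPlane_iff] at hs2 ⊢
    rcases hs2 with h | h
    · left
      have : (s + (k + 1) - 1 / 2).re = s.re + k + 1 / 2 := by
        simp; ring
      rw [this]
      have h2 : (s + 1 / 2).re = s.re + 1 / 2 := by simp
      rw [h2] at h
      have : (0 : ℝ) ≤ k := Nat.cast_nonneg k
      linarith
    · right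
      simpa using h
  have hk2 : ∀ k : ℕ, s + (k + 1) + 1 / 2 ∈ slitPlane := by
    intro k
    rw [mem_slitPlane_iff] at hs2 ⊢
    rcases hs2 with h | h
    · left
      have : (s + (k + 1) + 1 / 2).re = s.re + k + 3 / 2 := by
        simp; ring
      rw [this]
      have h2 : (s + 1 / 2).re = s.re + 1 / 2 := by simp
      rw [h2] at h
      have : (0 : ℝ) ≤ k := Nat.cast_nonneg k
      linarith
    · right
      simpa using h
  have hkn : s + ((n : ℂ) + 1) ∈ slitPlane := by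
    rw [mem_slitPlane_iff] at hs2 ⊢
    rcases hs2 with h | h
    · left
      simp only [add_re, natCast_re, one_re]
      linarith
    · right
      simpa using h
  have hnorm : r⁻¹ < ‖s + ((n : ℂ) + 1)‖ := by
    have := abs_re_le_norm (s + ((n : ℂ) + 1))
    have h2 := le_abs_self (s + ((n : ℂ) + 1)).re
    simp only [add_re, natCast_re, one_re] at this h2
    linarith
  have hinv : (s + ((n : ℂ) + 1))⁻¹ ∈ Metric.ball (0 : ℂ) r := by
    rw [mem_ball_zero_iff, norm_inv]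
    exact inv_lt_of_inv_lt₀ hr hnorm
  have hPd : DifferentiableAt ℂ P (s + ((n : ℂ) + 1))⁻¹ :=
    hP.differentiableAt (Metric.isOpen_ball.mem_nhds hinv)
  have hne : s + ((n : ℂ) + 1) ≠ 0 := slitPlane_ne_zero hkn
  unfold PhiI psR gR
  apply DifferentiableAt.sub
  · apply DifferentiableAt.mul
    · exact ((differentiableAt_id.add_const _).cpow_const hkn)
    · exact DifferentiableAt.comp s hPd ((differentiableAt_id.add_const _).inv hne)
  · apply DifferentiableAt.fun_sum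
    intro k _
    apply DifferentiableAt.mul
    · exact (differentiableAt_id.add_const _).const_mul C
    · apply DifferentiableAt.mul
      · exact (((differentiableAt_id.add_const _).sub_const _).cpow_const (hk k))
      · exact (((differentiableAt_id.add_const _).add_const _).cpow_const (hk2 k))

theorem PsiI_diff {γ C : ℂ} {P : ℂ → ℂ} {r : ℝ} (hr : 0 < r)
    (hP : DifferentiableOn ℂ P (Metric.ball 0 r)) {n : ℕ} (hn : r⁻¹ + 3 < n) :
    DifferentiableOn ℂ (PsiI γ C P n) {s : ℂ | s.re < 2 ∧ 1 / 2 - s ∈ slitPlane} := by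
  have hr' : 0 < r⁻¹ := inv_pos.mpr hr
  intro s hs
  obtain ⟨hs1, hs2⟩ := hs
  apply DifferentiableAt.differentiableWithinAt
  have hk : ∀ k : ℕ, 1 / 2 - (s - ((k : ℂ) + 1)) ∈ slitPlane := by
    intro k
    rw [mem_slitPlane_iff] at hs2 ⊢
    rcases hs2 with h | h
    · left
      have : (1 / 2 - (s - ((k : ℂ) + 1))).re = 1 / 2 - s.re + k + 1 := by
        simp; ring
      rw [this]
      have h2 : (1 / 2 - s).re = 1 / 2 - s.re := by simp
      rw [h2] at h
      have : (0 : ℝ) ≤ k := Nat.cast_nonneg k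
      linarith
    · right
      simpa using h
  have hk2 : ∀ k : ℕ, -1 / 2 - (s - ((k : ℂ) + 1)) ∈ slitPlane := by
    intro k
    rw [mem_slitPlane_iff] at hs2 ⊢
    rcases hs2 with h | h
    · left
      have : (-1 / 2 - (s - ((k : ℂ) + 1))).re = 1 / 2 - s.re + k := by
        simp; ring
      rw [this]
      have h2 : (1 / 2 - s).re = 1 / 2 - s.re := by simp
      rw [h2] at h
      have : (0 : ℝ) ≤ k := Nat.cast_nonneg k
      linarith
    · right
      simpa using h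
  have hkn : -(s - (n : ℂ)) ∈ slitPlane := by
    rw [mem_slitPlane_iff] at hs2 ⊢
    rcases hs2 with h | h
    · left
      simp only [sub_re, neg_re, natCast_re]
      linarith
    · right
      simpa using h
  have hnorm : r⁻¹ < ‖s - n‖ := by
    have := abs_re_le_norm (s - n)
    have h2 := neg_abs_le (s - n).re
    simp only [sub_re, natCast_re] at this h2
    linarith
  have hinv : (s - n)⁻¹ ∈ Metric.ball (0 : ℂ) r := by
    rw [mem_ball_zero_iff, norm_inv]
    exact inv_lt_of_inv_lt₀ hr hnorm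
  have hPd : DifferentiableAt ℂ P (s - n)⁻¹ :=
    hP.differentiableAt (Metric.isOpen_ball.mem_nhds hinv)
  have hne : s - (n : ℂ) ≠ 0 := by
    intro h0
    rw [h0] at hkn
    simp at hkn
  unfold PsiI psL gL
  apply DifferentiableAt.add
  · apply DifferentiableAt.mul
    · exact ((differentiableAt_id.sub_const _).neg.cpow_const hkn).mul_const _
    · exact DifferentiableAt.comp s hPd ((differentiableAt_id.sub_const _).inv hne)
  · apply DifferentiableAt.fun_sum
    intro k _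
    apply DifferentiableAt.mul_const
    apply DifferentiableAt.mul
    · exact (differentiableAt_id.sub_const _).const_mul C
    · apply DifferentiableAt.mul
      · exact (((differentiableAt_id.sub_const _).const_sub _).cpow_const (hk k))
      · exact (((differentiableAt_id.sub_const _).const_sub _).cpow_const (hk2 k))

theorem tends_up (x : ℝ) : Tendsto (fun e : ℝ => (x : ℂ) + e * I) (𝓝[>] 0) (𝓝 (x : ℂ)) := by
  have : Tendsto (fun e : ℝ => (x : ℂ) + e * I) (𝓝 0) (𝓝 ((x : ℂ) + (0 : ℝ) * I)) :=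
    (by fun_prop : Continuous (fun e : ℝ => (x : ℂ) + e * I)).tendsto 0
  simp only [ofReal_zero, zero_mul, add_zero] at this
  exact this.mono_left nhdsWithin_le_nhds

theorem tends_low (x : ℝ) : Tendsto (fun e : ℝ => (x : ℂ) - e * I) (𝓝[>] 0) (𝓝 (x : ℂ)) := by
  have : Tendsto (fun e : ℝ => (x : ℂ) - e * I) (𝓝 0) (𝓝 ((x : ℂ) - (0 : ℝ) * I)) :=
    (by fun_prop : Continuous (fun e : ℝ => (x : ℂ) - e * I)).tendsto 0
  simp only [ofReal_zero, zero_mul, sub_zero] at this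
  exact this.mono_left nhdsWithin_le_nhds

/-- **ISO one step.**  `γ ∉ ℤ`, `P` analytic at `0`, `ρ = 2γ-2`,
`(1+v)^ρ P(v/(1+v)) - P(v) = C v (1-v²/4)^(γ-2)` near `0`  ⟹  `C = 0`. -/
theorem iso_step {γ C : ℂ} (hγ : ∀ n : ℤ, γ ≠ n) {P : ℂ → ℂ} (hPa : AnalyticAt ℂ P 0)
    (h0 : ∀ᶠ v in 𝓝 (0 : ℂ), (1 + v) ^ (2 * γ - 2) * P (v / (1 + v)) - P v
      = C * v * (1 - v ^ 2 / 4) ^ (γ - 2)) : C = 0 := by
  obtain ⟨r0, hr0, hr0'⟩ := Metric.eventually_nhds_iff_ball.mp
    (hPa.eventually_analyticAt.and h0)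
  set r : ℝ := min r0 1 with hrdef
  have hr : 0 < r := lt_min hr0 one_pos
  have hr1 : r ≤ 1 := min_le_right _ _
  have hP : DifferentiableOn ℂ P (Metric.ball 0 r) := by
    intro v hv
    exact ((hr0' v (Metric.ball_subset_ball (min_le_left _ _) hv)).1.differentiableAt).differentiableWithinAt
  have h : ∀ v : ℂ, ‖v‖ < r → (1 + v) ^ (2 * γ - 2) * P (v / (1 + v)) - P v
      = C * v * (1 - v ^ 2 / 4) ^ (γ - 2) := by
    intro v hv
    exact (hr0' v (by
      rw [mem_ball_zero_iff]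
      exact lt_of_lt_of_le hv (min_le_left _ _))).2
  have hr' : 0 < r⁻¹ := inv_pos.mpr hr
  obtain ⟨n, hn⟩ := exists_nat_gt (r⁻¹ + 3)
  set ω : ℂ := exp (Real.pi * I * (γ - 2)) with hω
  set μ : ℂ := exp (2 * Real.pi * I * (2 * γ - 2)) with hμ
  have hω0 : ω ≠ 0 := exp_ne_zero _
  have hω2 : ω ^ 2 ≠ 1 := by
    intro h1
    have : ω ^ 2 = exp (2 * Real.pi * I * (γ - 2)) := by
      rw [hω, ← exp_nat_mul]; congr 1; push_cast; ring
    rw [this, exp_eq_one_iff] at h1
    obtain ⟨m, hm⟩ := h1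
    apply hγ (m + 2)
    have h3 : (2 * Real.pi * I : ℂ) ≠ 0 := two_pi_I_ne_zero
    have h2 : (2 * Real.pi * I : ℂ) * (γ - 2) = 2 * Real.pi * I * m := by linear_combination hm
    have := mul_left_cancel₀ h3 h2
    push_cast
    linear_combination this
  have hμω : μ = ω ^ 4 := by
    rw [hμ, hω, ← exp_nat_mul]
    rw [show (2 * Real.pi * I * (2 * γ - 2) : ℂ) = ((4 : ℕ) : ℂ) * (Real.pi * I * (γ - 2))
      + 2 * Real.pi * I + 2 * Real.pi * I by push_cast; ring]
    rw [exp_add, exp_add, exp_two_pi_mul_I, mul_one, mul_one]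
  set V : Set ℂ := {s : ℂ | -1 < s.re ∧ s + 1 / 2 ∈ slitPlane} with hV
  set W : Set ℂ := {s : ℂ | s.re < 2 ∧ 1 / 2 - s ∈ slitPlane} with hW
  have hVo : IsOpen V := (isOpen_lt continuous_const continuous_re).inter
    (isOpen_slitPlane.preimage (continuous_id.add continuous_const))
  have hWo : IsOpen W := (isOpen_lt continuous_re continuous_const).inter
    (isOpen_slitPlane.preimage (continuous_const.sub continuous_id))
  set Up : Set ℂ := {s : ℂ | -1 < s.re} ∩ {s : ℂ | s.re < 2} ∩ {s : ℂ | 0 < s.im} with hUp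
  set Lo : Set ℂ := {s : ℂ | -1 < s.re} ∩ {s : ℂ | s.re < 2} ∩ {s : ℂ | s.im < 0} with hLo
  have hUpo : IsOpen Up := ((isOpen_lt continuous_const continuous_re).inter
    (isOpen_lt continuous_re continuous_const)).inter (isOpen_lt continuous_const continuous_im)
  have hLoo : IsOpen Lo := ((isOpen_lt continuous_const continuous_re).inter
    (isOpen_lt continuous_re continuous_const)).inter (isOpen_lt continuous_im continuous_const)
  have hUpc : Convex ℝ Up := ((convex_halfSpace_re_gt _).inter (convex_halfSpace_re_lt _)).inter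
    (convex_halfSpace_im_gt _)
  have hLoc : Convex ℝ Lo := ((convex_halfSpace_re_gt _).inter (convex_halfSpace_re_lt _)).inter
    (convex_halfSpace_im_lt _)
  have hUpV : Up ⊆ V := by
    rintro s ⟨⟨h1, h2⟩, h3⟩
    refine ⟨h1, ?_⟩
    rw [mem_slitPlane_iff]
    right
    simpa using ne_of_gt h3
  have hLoV : Lo ⊆ V := by
    rintro s ⟨⟨h1, h2⟩, h3⟩
    refine ⟨h1, ?_⟩
    rw [mem_slitPlane_iff]
    right
    simpa using ne_of_lt h3
  have hUpW : Up ⊆ W := by
    rintro s ⟨⟨h1, h2⟩, h3⟩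
    refine ⟨h2, ?_⟩
    rw [mem_slitPlane_iff]
    right
    simpa using ne_of_gt h3
  have hLoW : Lo ⊆ W := by
    rintro s ⟨⟨h1, h2⟩, h3⟩
    refine ⟨h2, ?_⟩
    rw [mem_slitPlane_iff]
    right
    simpa using ne_of_lt h3
  have hF : AnalyticOnNhd ℂ (PhiI γ C P n) V := (PhiI_diff hr hP hn).analyticOnNhd hVo
  have hB : AnalyticOnNhd ℂ (PsiI γ C P n) W := (PsiI_diff hr hP hn).analyticOnNhd hWo
  have hMd : DifferentiableOn ℂ (gM γ C) (V ∩ W) := by
    rintro s ⟨⟨_, h1⟩, ⟨_, h2⟩⟩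
    apply DifferentiableAt.differentiableWithinAt
    unfold gM
    apply DifferentiableAt.mul
    · exact differentiableAt_id.const_mul C
    · exact ((differentiableAt_id.const_sub _).cpow_const h2).mul
        ((differentiableAt_id.add_const _).cpow_const h1)
  have hM : AnalyticOnNhd ℂ (gM γ C) (V ∩ W) := hMd.analyticOnNhd (hVo.inter hWo)
  have eqUp : EqOn (fun s => PhiI γ C P n s - ω * gM γ C s) (PsiI γ C P n) Up := by
    have hz : ((r⁻¹ + 1 : ℝ) * I : ℂ) ∈ Up := by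
      refine ⟨⟨?_, ?_⟩, ?_⟩ <;> simp
      linarith
    apply AnalyticOnNhd.eqOn_of_preconnected_of_eventuallyEq
      ((hF.mono hUpV).sub (analyticOnNhd_const.mul (hM.mono (subset_inter hUpV hUpW))))
      (hB.mono hUpW) hUpc.isPreconnected hz
    have hO : IsOpen {s : ℂ | r⁻¹ < s.im} := isOpen_lt continuous_const continuous_im
    filter_upwards [hO.mem_nhds (show ((r⁻¹ + 1 : ℝ) * I : ℂ) ∈ {s : ℂ | r⁻¹ < s.im} by simp)]
      with s hs
    change r⁻¹ < s.im at hs
    have e1 := PhiI_far hr hr1 h n (s := s) (by rw [abs_of_pos (by linarith)]; exact hs)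
    have e2 := gR_up (γ := γ) (C := C) (s := s) (by linarith)
    rw [PsiI_up hr hr1 h n hs, ← e1, e2]
    rfl
  have eqLo : EqOn (fun s => μ * (PhiI γ C P n s - ω⁻¹ * gM γ C s)) (PsiI γ C P n) Lo := by
    have hz : (-(r⁻¹ + 1 : ℝ) * I : ℂ) ∈ Lo := by
      refine ⟨⟨?_, ?_⟩, ?_⟩ <;> simp
      linarith
    apply AnalyticOnNhd.eqOn_of_preconnected_of_eventuallyEq
      (analyticOnNhd_const.mul ((hF.mono hLoV).sub
        (analyticOnNhd_const.mul (hM.mono (subset_inter hLoV hLoW)))))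
      (hB.mono hLoW) hLoc.isPreconnected hz
    have hO : IsOpen {s : ℂ | s.im < -r⁻¹} := isOpen_lt continuous_im continuous_const
    filter_upwards [hO.mem_nhds (show (-(r⁻¹ + 1 : ℝ) * I : ℂ) ∈ {s : ℂ | s.im < -r⁻¹} by simp)]
      with s hs
    change s.im < -r⁻¹ at hs
    have e1 := PhiI_far hr hr1 h n (s := s) (by rw [abs_of_neg (by linarith)]; linarith)
    have e2 := gR_low (γ := γ) (C := C) (s := s) (by linarith)
    have e3 : gR γ C s = ω⁻¹ * gM γ C s := by
      rw [← e2, hω]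
      field_simp
    rw [PsiI_low hr hr1 h n hs, ← e1, e3]
    rfl
  -- the interval (-1/2,1/2)
  have hmid : ∀ x : ℝ, -(1 / 2) < x → x < 1 / 2 →
      (1 + ω ^ 2) * PhiI γ C P n x - ω * gM γ C x = 0 := by
    intro x hx0 hx1
    have hxV : (x : ℂ) ∈ V := by
      refine ⟨?_, ?_⟩
      · simp; linarith
      · rw [mem_slitPlane_iff]; left
        have : ((x : ℂ) + 1 / 2).re = x + 1 / 2 := by simp
        rw [this]; linarith
    have hxW : (x : ℂ) ∈ W := by
      refine ⟨?_, ?_⟩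
      · simp; linarith
      · rw [mem_slitPlane_iff]; left
        have : (1 / 2 - (x : ℂ)).re = 1 / 2 - x := by simp
        rw [this]; linarith
    have cF := (hF x hxV).continuousAt
    have cB := (hB x hxW).continuousAt
    have cM := (hM x ⟨hxV, hxW⟩).continuousAt
    have e1 : PhiI γ C P n x - ω * gM γ C x = PsiI γ C P n x := by
      apply tendsto_nhds_unique_of_eventuallyEq
        ((cF.tendsto.comp (tends_up x)).sub ((cM.tendsto.comp (tends_up x)).const_mul ω))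
        (cB.tendsto.comp (tends_up x))
      filter_upwards [self_mem_nhdsWithin] with e he
      simp only [mem_Ioi] at he
      apply eqUp
      refine ⟨⟨?_, ?_⟩, ?_⟩ <;> simp <;> linarith
    have e2 : μ * (PhiI γ C P n x - ω⁻¹ * gM γ C x) = PsiI γ C P n x := by
      apply tendsto_nhds_unique_of_eventuallyEq
        (((cF.tendsto.comp (tends_low x)).sub
          ((cM.tendsto.comp (tends_low x)).const_mul ω⁻¹)).const_mul μ)
        (cB.tendsto.comp (tends_low x))
      filter_upwards [self_mem_nhdsWithin] with e he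
      simp only [mem_Ioi] at he
      apply eqLo
      refine ⟨⟨?_, ?_⟩, ?_⟩ <;> simp <;> linarith
    rw [hμω] at e2
    have e3 : (1 - ω ^ 2) * ((1 + ω ^ 2) * PhiI γ C P n x - ω * gM γ C x) = 0 := by
      have : ω ^ 4 * (PhiI γ C P n x - ω⁻¹ * gM γ C x)
          = ω ^ 4 * PhiI γ C P n x - ω ^ 3 * gM γ C x := by
        field_simp
      rw [this] at e2
      linear_combination e1 - e2
    rcases mul_eq_zero.mp e3 with h' | h'
    · exact absurd (by linear_combination -h') hω2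
    · exact h'
  -- identity theorem on V ∩ W
  have hVWc : IsPreconnected (V ∩ W) := by
    have hst : StarConvex ℝ (0 : ℂ) (V ∩ W) := by
      intro s hs a b ha hb hab
      obtain ⟨⟨h1, h2⟩, ⟨h3, h4⟩⟩ := hs
      have hb1 : b ≤ 1 := by linarith
      have hre : (a • (0 : ℂ) + b • s).re = b * s.re := by simp
      have him : (a • (0 : ℂ) + b • s).im = b * s.im := by simp
      rw [mem_slitPlane_iff] at h2 h4
      have q1 : (s + 1 / 2).re = s.re + 1 / 2 := by simp
      have q2 : (s + 1 / 2).im = s.im := by simp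
      have q3 : (1 / 2 - s).re = 1 / 2 - s.re := by simp
      have q4 : (1 / 2 - s).im = -s.im := by simp
      rw [q1, q2] at h2
      rw [q3, q4] at h4
      have p1 : (a • (0 : ℂ) + b • s + 1 / 2).re = b * s.re + 1 / 2 := by simp
      have p2 : (a • (0 : ℂ) + b • s + 1 / 2).im = b * s.im := by simp
      have p3 : (1 / 2 - (a • (0 : ℂ) + b • s)).re = 1 / 2 - b * s.re := by simp
      have p4 : (1 / 2 - (a • (0 : ℂ) + b • s)).im = -(b * s.im) := by simp
      rcases hb.eq_or_lt with hb0 | hb0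
      · subst hb0
        refine ⟨⟨?_, ?_⟩, ⟨?_, ?_⟩⟩
        · rw [hre]; simp
        · rw [mem_slitPlane_iff, p1]; left; simp
        · rw [hre]; simp
        · rw [mem_slitPlane_iff, p3]; left; simp
      · refine ⟨⟨?_, ?_⟩, ⟨?_, ?_⟩⟩
        · rw [hre]; nlinarith
        · rw [mem_slitPlane_iff, p1, p2]
          rcases h2 with h | h
          · left; nlinarith
          · right; exact mul_ne_zero hb0.ne' h
        · rw [hre]; nlinarith
        · rw [mem_slitPlane_iff, p3, p4]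
          rcases h4 with h | h
          · left; nlinarith
          · right
            rw [neg_ne_zero] at h ⊢
            exact mul_ne_zero hb0.ne' h
    have h0VW : (0 : ℂ) ∈ V ∩ W := by
      refine ⟨⟨?_, ?_⟩, ⟨?_, ?_⟩⟩
      · simp
      · rw [mem_slitPlane_iff]; left; norm_num
      · simp
      · rw [mem_slitPlane_iff]; left; norm_num
    exact (hst.isPathConnected h0VW).isConnected.isPreconnected
  have hz0 : EqOn (fun s => (1 + ω ^ 2) * PhiI γ C P n s - ω * gM γ C s) 0 (V ∩ W) := by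
    have h0VW : (0 : ℂ) ∈ V ∩ W := by
      refine ⟨⟨?_, ?_⟩, ⟨?_, ?_⟩⟩
      · simp
      · rw [mem_slitPlane_iff]; left; norm_num
      · simp
      · rw [mem_slitPlane_iff]; left; norm_num
    apply AnalyticOnNhd.eqOn_of_preconnected_of_frequently_eq
      ((analyticOnNhd_const.mul (hF.mono inter_subset_left)).sub (analyticOnNhd_const.mul hM))
      analyticOnNhd_const hVWc h0VW
    have tR : Tendsto (fun e : ℝ => (e : ℂ)) (𝓝[>] (0 : ℝ)) (𝓝[≠] (0 : ℂ)) := by
      apply tendsto_nhdsWithin_of_tendsto_nhds_of_eventually_within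
      · have := (continuous_ofReal.tendsto (0 : ℝ))
        simp only [ofReal_zero] at this
        exact this.mono_left nhdsWithin_le_nhds
      · filter_upwards [self_mem_nhdsWithin] with e he
        simp only [mem_Ioi] at he
        simp only [mem_compl_iff, mem_singleton_iff, ofReal_eq_zero]
        exact ne_of_gt he
    apply tR.frequently
    apply Eventually.frequently
    have : Iio (1 / 2 : ℝ) ∈ 𝓝[>] (0 : ℝ) :=
      mem_nhdsWithin_of_mem_nhds (Iio_mem_nhds (by norm_num))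
    filter_upwards [self_mem_nhdsWithin, this] with e he he1
    simp only [mem_Ioi, mem_Iio] at he he1
    exact hmid e (by linarith) he1
  -- at the point 1: from above and from below
  have h1V : (1 : ℂ) ∈ V := by
    refine ⟨?_, ?_⟩
    · simp
    · rw [mem_slitPlane_iff]; left; norm_num
  have cF1 := (hF 1 h1V).continuousAt
  have cg1 : ContinuousAt (gR γ C) 1 := by
    unfold gR
    apply ContinuousAt.mul (by fun_prop)
    apply ContinuousAt.mul
    · apply ContinuousAt.cpow (by fun_prop) continuousAt_const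
      rw [mem_slitPlane_iff]; left; norm_num
    · apply ContinuousAt.cpow (by fun_prop) continuousAt_const
      rw [mem_slitPlane_iff]; left; norm_num
  have t1 := tends_up 1
  have t2 := tends_low 1
  simp only [ofReal_one] at t1 t2
  have eA : (1 + ω ^ 2) * PhiI γ C P n 1 - gR γ C 1 = 0 := by
    apply tendsto_nhds_unique_of_eventuallyEq
      (((cF1.tendsto.comp t1).const_mul (1 + ω ^ 2)).sub (cg1.tendsto.comp t1))
      tendsto_const_nhds
    filter_upwards [self_mem_nhdsWithin] with e he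
    simp only [mem_Ioi] at he
    have hmem : (1 + (e : ℂ) * I) ∈ Up := by
      refine ⟨⟨?_, ?_⟩, ?_⟩ <;> simp <;> linarith
    have := hz0 ⟨hUpV hmem, hUpW hmem⟩
    simp only [Pi.zero_apply] at this
    rw [Function.comp_apply, Function.comp_apply, gR_up (by simpa using he)]
    exact this
  have eB : (1 + ω ^ 2) * PhiI γ C P n 1 - ω ^ 2 * gR γ C 1 = 0 := by
    apply tendsto_nhds_unique_of_eventuallyEq
      (((cF1.tendsto.comp t2).const_mul (1 + ω ^ 2)).sub ((cg1.tendsto.comp t2).const_mul (ω ^ 2)))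
      tendsto_const_nhds
    filter_upwards [self_mem_nhdsWithin] with e he
    simp only [mem_Ioi] at he
    have hmem : (1 - (e : ℂ) * I) ∈ Lo := by
      refine ⟨⟨?_, ?_⟩, ?_⟩ <;> simp <;> linarith
    have := hz0 ⟨hLoV hmem, hLoW hmem⟩
    simp only [Pi.zero_apply] at this
    have e5 := gR_low (γ := γ) (C := C) (s := 1 - (e : ℂ) * I) (by simpa using he)
    rw [← e5] at this
    rw [Function.comp_apply, Function.comp_apply]
    linear_combination this
  have eC : (1 - ω ^ 2) * gR γ C 1 = 0 := by linear_combination eB - eA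
  rcases mul_eq_zero.mp eC with h' | h'
  · exact absurd (by linear_combination -h') hω2
  · rw [gR] at h'
    have h3 : ((1 : ℂ) - 1 / 2) ^ (γ - 2) ≠ 0 := by
      rw [Ne, cpow_eq_zero_iff]; norm_num
    have h4 : ((1 : ℂ) + 1 / 2) ^ (γ - 2) ≠ 0 := by
      rw [Ne, cpow_eq_zero_iff]; norm_num
    rcases mul_eq_zero.mp h' with h5 | h5
    · simpa using h5
    · exact absurd h5 (mul_ne_zero h3 h4)

/-- linear part of the ISO equation at the conic `a = b^2`, orbit `b = t^2 - w^2/4`, deviation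
`η(t,w) = t^e θ(w/t)`, `v = w/t`, times `v`. -/
def isoL (e : ℂ) (θ : ℂ → ℂ) (v : ℂ) : ℂ :=
  v * (((1 - v) ^ e * θ (v / (1 - v)) + θ v) / (2 * (1 - v / 2) ^ 2)
    + (θ v + (1 + v) ^ e * θ (v / (1 + v))) / (2 * (1 + v / 2) ^ 2)
    - 2 * θ v / (1 - v ^ 2 / 4))

/-- source of the ISO equation for `a = b^2 + ε b^γ`. -/
def isoE (γ v : ℂ) : ℂ :=
  v * γ * (1 - v ^ 2 / 4) ^ (γ - 2)
    + (((1 - v) ^ 2 - v ^ 2 / 4) ^ γ - (1 - v ^ 2 / 4) ^ γ) / (4 * (1 - v / 2) ^ 3)
    + ((1 - v ^ 2 / 4) ^ γ - ((1 + v) ^ 2 - v ^ 2 / 4) ^ γ) / (4 * (1 + v / 2) ^ 3)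

theorem eventually_small (δ : ℝ) (hδ : 0 < δ) : ∀ᶠ v in 𝓝 (0 : ℂ), ‖v‖ < δ := by
  have := Metric.ball_mem_nhds (0 : ℂ) hδ
  filter_upwards [this] with v hv
  simpa using hv

theorem re_pos_of_close {z : ℂ} (h : ‖z - 1‖ < 1) : 0 < z.re := by
  have h1 := abs_le.mp (abs_re_le_norm (z - 1))
  have h2 : (z - 1).re = z.re - 1 := by simp
  rw [h2] at h1
  linarith [h1.1]

/-- **MELNIKOV, ISO `m = 1`.** -/
theorem iso {γ κ : ℂ} (hγ : ∀ n : ℤ, γ ≠ n) {θ : ℂ → ℂ} (hθ : AnalyticAt ℂ θ 0)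
    (h : ∀ᶠ v in 𝓝 (0 : ℂ), isoL (2 * γ - 2) θ v = κ * isoE γ v) : κ = 0 := by
  set P : ℂ → ℂ := fun v =>
    v * ((1 - v) * θ v - (1 - v) ^ (2 * γ - 2) * θ (v / (1 - v))) / (1 - v / 2) ^ 2
    - κ * (((1 - v ^ 2 / 4) ^ γ - ((1 - v) ^ 2 - v ^ 2 / 4) ^ γ) * v / (4 * (1 - v / 2) ^ 3)
      - ((1 - v ^ 2 / 4) ^ γ - ((1 - v) ^ 2 - v ^ 2 / 4) ^ γ) / (2 * (1 - v / 2) ^ 2)
      - ((1 - v) ^ 2 - v ^ 2 / 4) ^ γ / (1 - v / 2) ^ 2) with hPdef
  have hdiv : AnalyticAt ℂ (fun v : ℂ => v / (1 - v)) 0 := by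
    apply AnalyticAt.div analyticAt_id (by fun_prop) (by simp)
  have hcomp : AnalyticAt ℂ (fun v : ℂ => θ (v / (1 - v))) 0 :=
    AnalyticAt.fun_comp_of_eq hθ hdiv (by simp)
  have hp1 : AnalyticAt ℂ (fun v : ℂ => (1 - v ^ 2 / 4) ^ γ) 0 := by
    apply AnalyticAt.cpow
    · fun_prop
    · exact analyticAt_const
    · simp [one_mem_slitPlane]
  have hp2 : AnalyticAt ℂ (fun v : ℂ => ((1 - v) ^ 2 - v ^ 2 / 4) ^ γ) 0 := by
    apply AnalyticAt.cpow
    · fun_prop
    · exact analyticAt_const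
    · simp [one_mem_slitPlane]
  have hP : AnalyticAt ℂ P 0 := by
    apply AnalyticAt.sub
    · apply AnalyticAt.div
      · exact analyticAt_id.mul (((by fun_prop : AnalyticAt ℂ (fun v : ℂ => 1 - v) 0).mul hθ).sub
          ((analyticAt_one_sub_cpow _).mul hcomp))
      · fun_prop
      · simp
    · apply analyticAt_const.mul
      apply AnalyticAt.sub
      · apply AnalyticAt.sub
        · apply AnalyticAt.div
          · exact (hp1.sub hp2).mul analyticAt_id
          · fun_prop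
          · simp
        · apply AnalyticAt.div
          · exact hp1.sub hp2
          · fun_prop
          · simp
      · apply AnalyticAt.div
        · exact hp2
        · fun_prop
        · simp
  have hstep : ∀ᶠ v in 𝓝 (0 : ℂ), (1 + v) ^ (2 * γ - 2) * P (v / (1 + v)) - P v
      = (2 * κ * (γ - 1)) * v * (1 - v ^ 2 / 4) ^ (γ - 2) := by
    filter_upwards [h, eventually_small (1 / 8) (by norm_num)] with v hv hsm
    have hv2 : ‖v ^ 2 / 4‖ < 1 / 8 := by
      rw [norm_div, norm_pow]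
      have : ‖(4 : ℂ)‖ = 4 := by norm_num
      rw [this]
      have := norm_nonneg v
      nlinarith
    have hre1 : 0 < (1 + v).re := re_pos_of_close (by
      rw [add_sub_cancel_left]; linarith)
    have hre2 : 0 < (1 - v).re := re_pos_of_close (by
      rw [sub_sub_cancel_left, norm_neg]; linarith)
    have hreA : 0 < (1 + v / 2).re := re_pos_of_close (by
      rw [add_sub_cancel_left, norm_div]; norm_num; linarith)
    have hreB : 0 < (1 - v / 2).re := re_pos_of_close (by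
      rw [sub_sub_cancel_left, norm_neg, norm_div]; norm_num; linarith)
    have hre0 : 0 < (1 - v ^ 2 / 4).re := re_pos_of_close (by
      rw [sub_sub_cancel_left, norm_neg]; linarith)
    have hreP : 0 < ((1 + v) ^ 2 - v ^ 2 / 4).re := re_pos_of_close (by
      have : ((1 + v) ^ 2 - v ^ 2 / 4) - 1 = 2 * v + (v ^ 2 - v ^ 2 / 4) := by ring
      rw [this]
      have h3 : ‖v ^ 2 - v ^ 2 / 4‖ ≤ 1 / 4 := by
        have h4 := norm_sub_le (v ^ 2) (v ^ 2 / 4)
        have h5 : ‖v ^ 2‖ ≤ 1 / 8 := by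
          rw [norm_pow]
          have := norm_nonneg v
          nlinarith
        linarith
      have h6 := norm_add_le (2 * v) (v ^ 2 - v ^ 2 / 4)
      have h7 : ‖2 * v‖ = 2 * ‖v‖ := by rw [norm_mul]; norm_num
      linarith)
    have hne : ∀ {z : ℂ}, 0 < z.re → z ≠ 0 := by
      rintro z hz rfl
      simp at hz
    have hne1 := hne hre1
    have hne2 := hne hre2
    have hneA := hne hreA
    have hneB := hne hreB
    have hne0 := hne hre0
    have hcp : ∀ {z c : ℂ}, 0 < z.re → z ^ c ≠ 0 := by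
      intro z c hz
      rw [Ne, cpow_eq_zero_iff]
      rintro ⟨h0, _⟩
      exact hne hz h0
    -- powers of (1+v)
    have e1 : 1 - v / (1 + v) = (1 + v)⁻¹ := by field_simp; ring
    have e2 : v / (1 + v) / (1 + v)⁻¹ = v := by field_simp
    have e3 : 1 - v / (1 + v) / 2 = (1 + v / 2) / (1 + v) := by field_simp; ring
    have hinvre : 0 < ((1 + v)⁻¹).re := by
      rw [inv_re]
      exact div_pos hre1 (normSq_pos.mpr hne1)
    have hq : (1 + v) ^ (2 * γ - 2) * ((1 + v)⁻¹ ^ γ * (1 + v)⁻¹ ^ γ) = ((1 + v) ^ 2)⁻¹ := by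
      rw [inv_cpow' hre1, cpow_sub _ _ hne1, two_mul, cpow_add _ _ hne1, cpow_ofNat]
      have := hcp (c := γ) hre1
      field_simp
    have e4 : (1 - (v / (1 + v)) ^ 2 / 4) ^ γ
        = ((1 + v) ^ 2 - v ^ 2 / 4) ^ γ * ((1 + v)⁻¹ ^ γ * (1 + v)⁻¹ ^ γ) := by
      have h1 : (1 - (v / (1 + v)) ^ 2 / 4) = (((1 + v) ^ 2 - v ^ 2 / 4) * (1 + v)⁻¹) * (1 + v)⁻¹ := by
        field_simp
      have h2 : (((1 + v) ^ 2 - v ^ 2 / 4) * (1 + v)⁻¹).re > 0 := by
        apply re_pos_of_close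
        have h3 : ((1 + v) ^ 2 - v ^ 2 / 4) * (1 + v)⁻¹ - 1 = v - (v ^ 2 / 4) * (1 + v)⁻¹ := by
          field_simp
          ring
        rw [h3]
        have h4 : ‖(1 + v)⁻¹‖ ≤ 2 := by
          rw [norm_inv]
          apply inv_le_of_inv_le₀ (by norm_num)
          have := norm_sub_norm_le (1 : ℂ) (-v)
          rw [norm_neg, norm_one, sub_neg_eq_add] at this
          linarith
        have h5 : ‖(v ^ 2 / 4) * (1 + v)⁻¹‖ ≤ 1 / 4 := by
          rw [norm_mul]
          have := norm_nonneg (v ^ 2 / 4)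
          nlinarith
        have := norm_sub_le v ((v ^ 2 / 4) * (1 + v)⁻¹)
        linarith
      rw [h1, mul_cpow_re_pos h2 hinvre, mul_cpow_re_pos hreP hinvre]
      ring
    have e5 : ((1 + v)⁻¹ ^ 2 - (v / (1 + v)) ^ 2 / 4) ^ γ
        = (1 - v ^ 2 / 4) ^ γ * ((1 + v)⁻¹ ^ γ * (1 + v)⁻¹ ^ γ) := by
      have h1 : ((1 + v)⁻¹ ^ 2 - (v / (1 + v)) ^ 2 / 4) = ((1 - v ^ 2 / 4) * (1 + v)⁻¹) * (1 + v)⁻¹ := by
        field_simp
      have h2 : ((1 - v ^ 2 / 4) * (1 + v)⁻¹).re > 0 := by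
        apply re_pos_of_close
        have h3 : (1 - v ^ 2 / 4) * (1 + v)⁻¹ - 1 = -((v + v ^ 2 / 4) * (1 + v)⁻¹) := by
          field_simp
          ring
        rw [h3, norm_neg, norm_mul]
        have h4 : ‖(1 + v)⁻¹‖ ≤ 2 := by
          rw [norm_inv]
          apply inv_le_of_inv_le₀ (by norm_num)
          have := norm_sub_norm_le (1 : ℂ) (-v)
          rw [norm_neg, norm_one, sub_neg_eq_add] at this
          linarith
        have h6 := norm_add_le v (v ^ 2 / 4)
        have h7 := norm_nonneg (v + v ^ 2 / 4)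
        nlinarith
      rw [h1, mul_cpow_re_pos h2 hinvre, mul_cpow_re_pos hre0 hinvre]
      ring
    have e6 : (1 - v ^ 2 / 4) ^ γ = (1 - v ^ 2 / 4) ^ (γ - 2) * (1 - v ^ 2 / 4) ^ 2 := by
      rw [cpow_sub _ _ hne0, cpow_ofNat, div_mul_cancel₀ _ (pow_ne_zero 2 hne0)]
    have hA2 : 2 + v ≠ 0 := fun h => hneA (by linear_combination (1 / 2 : ℂ) * h)
    have hB2 : 2 - v ≠ 0 := fun h => hneB (by linear_combination (1 / 2 : ℂ) * h)
    have hAB : 1 - v ^ 2 / 4 = (1 - v / 2) * (1 + v / 2) := by ring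
    have e7 : (1 + v) ^ (2 * γ - 2) ≠ 0 := hcp hre1
    -- the value of (1+v)^e P(v/(1+v))
    have hval : (1 + v) ^ (2 * γ - 2) * P (v / (1 + v)) =
        v * ((1 + v) ^ (2 * γ - 2) * θ (v / (1 + v)) - (1 + v) * θ v) / (1 + v / 2) ^ 2
        - κ * ((((1 + v) ^ 2 - v ^ 2 / 4) ^ γ - (1 - v ^ 2 / 4) ^ γ) * v / (4 * (1 + v / 2) ^ 3)
          - (((1 + v) ^ 2 - v ^ 2 / 4) ^ γ - (1 - v ^ 2 / 4) ^ γ) / (2 * (1 + v / 2) ^ 2)
          - (1 - v ^ 2 / 4) ^ γ / (1 + v / 2) ^ 2) := by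
      rw [hPdef]
      simp only
      rw [e1, e2, e3, e4, e5, inv_cpow' hre1 (2 * γ - 2)]
      generalize hX : (1 + v)⁻¹ ^ γ * (1 + v)⁻¹ ^ γ = X at hq ⊢
      have hX' : X = ((1 + v) ^ (2 * γ - 2))⁻¹ * ((1 + v) ^ 2)⁻¹ := by
        rw [← hq, ← mul_assoc, inv_mul_cancel₀ e7, one_mul]
      rw [hX']
      generalize (1 + v) ^ (2 * γ - 2) = Y at e7 ⊢
      generalize ((1 + v) ^ 2 - v ^ 2 / 4) ^ γ = FP
      generalize (1 - v ^ 2 / 4) ^ γ = F0
      field_simp
    rw [hval, hPdef]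
    simp only
    unfold isoL isoE at hv
    rw [hAB] at hv e6 hne0 ⊢
    rw [e6] at hv ⊢
    generalize ((1 - v / 2) * (1 + v / 2)) ^ (γ - 2) = F0 at hv ⊢
    generalize ((1 + v) ^ 2 - v ^ 2 / 4) ^ γ = FP at hv ⊢
    generalize ((1 - v) ^ 2 - v ^ 2 / 4) ^ γ = FM at hv ⊢
    generalize (1 + v) ^ (2 * γ - 2) = Y at hv ⊢
    generalize (1 - v) ^ (2 * γ - 2) = Z at hv ⊢
    generalize θ v = T0 at hv ⊢
    generalize θ (v / (1 + v)) = TP at hv ⊢
    generalize θ (v / (1 - v)) = TM at hv ⊢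
    rw [← sub_eq_zero] at hv ⊢
    have hgoal : ∀ X Y : ℂ, X = 0 → Y = 2 * X → Y = 0 := by
      intro X Y h1 h2
      rw [h2, h1, mul_zero]
    refine hgoal _ _ hv ?_
    field_simp
    ring
  have hC := iso_step hγ hP hstep
  have hγ1 : γ - 1 ≠ 0 := fun h => hγ 1 (by push_cast; linear_combination h)
  rcases mul_eq_zero.mp hC with h1 | h1
  · simpa using h1
  · exact absurd h1 hγ1

/-- the integral form of the FLAT source. -/
theorem EE_eq_integral {β v : ℂ} (hβ : ∀ n : ℤ, β ≠ n) (hv : ‖v‖ < 1) :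
    EE β v = v ^ 4 * ∫ x in (0 : ℝ)..1, (x : ℂ) * (1 - x) ^ 2 *
      ((1 + v * x) ^ β - (1 - v * x) ^ β) := by
  have hn1 : β + 1 ≠ 0 := fun h => hβ (-1) (by push_cast; linear_combination h)
  have hn2 : β + 2 ≠ 0 := fun h => hβ (-2) (by push_cast; linear_combination h)
  have hn3 : β + 3 ≠ 0 := fun h => hβ (-3) (by push_cast; linear_combination h)
  have hn4 : β + 4 ≠ 0 := fun h => hβ (-4) (by push_cast; linear_combination h)
  -- primitive of v^4 x (1-x)^2 (1+vx)^β
  have key : ∀ w : ℂ, ‖w‖ < 1 → w ^ 4 * ∫ x in (0 : ℝ)..1, (x : ℂ) * (1 - x) ^ 2 * (1 + w * x) ^ β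
      = 2 * w * a3 β * (1 + w) ^ (β + 3) - 6 * a4 β * (1 + w) ^ (β + 4)
        + a2 β * w ^ 2 + 4 * w * a3 β + 6 * a4 β := by
    intro w hw
    set G : ℝ → ℂ := fun x =>
      w ^ 3 * (x * (1 - x) ^ 2) * ((β + 1)⁻¹ * (1 + w * x) ^ (β + 1))
      - w ^ 2 * (1 - 4 * x + 3 * x ^ 2) * (a2 β * (1 + w * x) ^ (β + 2))
      + w * (-4 + 6 * x) * (a3 β * (1 + w * x) ^ (β + 3))
      - 6 * (a4 β * (1 + w * x) ^ (β + 4)) with hG
    have hsl : ∀ x ∈ Set.uIcc (0 : ℝ) 1, (1 + w * x) ∈ slitPlane := by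
      intro x hx
      rw [Set.uIcc_of_le zero_le_one] at hx
      rw [mem_slitPlane_iff]
      left
      have h1 : ‖w * x‖ < 1 := by
        rw [norm_mul, norm_real, Real.norm_eq_abs, abs_of_nonneg hx.1]
        have := norm_nonneg w
        nlinarith [hx.1, hx.2]
      have h2 := abs_le.mp (abs_re_le_norm (w * x))
      rw [add_re, one_re]
      linarith [h2.1]
    have hder : ∀ x ∈ Set.uIcc (0 : ℝ) 1,
        HasDerivAt G (w ^ 4 * ((x : ℂ) * (1 - x) ^ 2 * (1 + w * x) ^ β)) x := by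
      intro x hx
      have hs := hsl x hx
      have hne : (1 + w * x) ≠ 0 := slitPlane_ne_zero hs
      have hx1 : HasDerivAt (fun x : ℝ => (x : ℂ)) 1 x := by
        simpa using (hasDerivAt_id x).ofReal_comp
      have hb : HasDerivAt (fun x : ℝ => 1 + w * (x : ℂ)) w x := by
        simpa using (hx1.const_mul w).const_add 1
      have hp : ∀ c : ℂ, HasDerivAt (fun x : ℝ => (1 + w * (x : ℂ)) ^ (c + 1))
          ((c + 1) * (1 + w * x) ^ c * w) x := by
        intro c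
        have h3 : HasDerivAt (fun z : ℂ => z ^ (c + 1)) ((c + 1) * (1 + w * x) ^ c) (1 + w * x) := by
          have := (hasDerivAt_id (1 + w * (x : ℂ))).cpow_const (c := c + 1) hs
          simpa using this
        exact h3.comp x hb
      have q1 := hp β
      have q2 := hp (β + 1)
      have q3 := hp (β + 2)
      have q4 := hp (β + 3)
      rw [show β + 1 + 1 = β + 2 by ring] at q2
      rw [show β + 2 + 1 = β + 3 by ring] at q3
      rw [show β + 3 + 1 = β + 4 by ring] at q4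
      have r1 : HasDerivAt (fun x : ℝ => (x : ℂ) * (1 - (x : ℂ)) ^ 2)
          ((1 : ℂ) * (1 - (x : ℂ)) ^ 2 + (x : ℂ) * (2 * (1 - (x : ℂ)) * (-1))) x := by
        have h4 : HasDerivAt (fun x : ℝ => (1 - (x : ℂ)) ^ 2) (2 * (1 - (x : ℂ)) * (-1)) x := by
          have := (hx1.const_sub 1).pow 2
          exact this.congr_deriv (by push_cast; ring)
        exact hx1.mul h4
      have r2 : HasDerivAt (fun x : ℝ => (1 - 4 * (x : ℂ) + 3 * (x : ℂ) ^ 2))
          ((-4 : ℂ) + 3 * (2 * (x : ℂ))) x := by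
        have h4 : HasDerivAt (fun x : ℝ => 3 * (x : ℂ) ^ 2) (3 * (2 * (x : ℂ))) x := by
          have := (hx1.pow 2).const_mul 3
          exact this.congr_deriv (by push_cast; ring)
        have h5 : HasDerivAt (fun x : ℝ => (1 - 4 * (x : ℂ))) (-4 : ℂ) x := by
          have := (hx1.const_mul 4).const_sub 1
          exact this.congr_deriv (by ring)
        exact h5.add h4
      have r3 : HasDerivAt (fun x : ℝ => (-4 + 6 * (x : ℂ))) (6 : ℂ) x := by
        have := (hx1.const_mul 6).const_add (-4)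
        exact this.congr_deriv (by ring)
      have := ((((r1.const_mul (w ^ 3)).mul (q1.const_mul (β + 1)⁻¹)).sub
        ((r2.const_mul (w ^ 2)).mul (q2.const_mul (a2 β)))).add
        ((r3.const_mul w).mul (q3.const_mul (a3 β)))).sub
        ((q4.const_mul (a4 β)).const_mul 6)
      refine this.congr_deriv ?_
      have c2 : (1 + w * x) ^ (β + 1) = (1 + w * x) ^ β * (1 + w * x) := by
        rw [cpow_add _ _ hne, cpow_one]
      have c3 : (1 + w * x) ^ (β + 2) = (1 + w * x) ^ β * (1 + w * x) ^ 2 := by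
        rw [cpow_add _ _ hne, cpow_ofNat]
      have c4 : (1 + w * x) ^ (β + 3) = (1 + w * x) ^ β * (1 + w * x) ^ 3 := by
        rw [cpow_add _ _ hne, cpow_ofNat]
      rw [c2, c3, c4]
      unfold a2 a3 a4
      field_simp
      ring
    have hcont : ContinuousOn (fun x : ℝ => w ^ 4 * ((x : ℂ) * (1 - x) ^ 2 * (1 + w * x) ^ β))
        (Set.uIcc (0 : ℝ) 1) := by
      apply ContinuousOn.mul continuousOn_const
      apply ContinuousOn.mul (by fun_prop)
      apply ContinuousOn.cpow (by fun_prop) continuousOn_const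
      intro x hx
      exact hsl x hx
    have := intervalIntegral.integral_eq_sub_of_hasDerivAt hder hcont.intervalIntegrable
    rw [intervalIntegral.integral_const_mul] at this
    rw [this, hG]
    simp
    ring
  have hint : ∀ w : ℂ, ‖w‖ < 1 → IntervalIntegrable
      (fun x : ℝ => (x : ℂ) * (1 - x) ^ 2 * (1 + w * x) ^ β) MeasureTheory.volume 0 1 := by
    intro w hw
    apply ContinuousOn.intervalIntegrable
    apply ContinuousOn.mul (by fun_prop)
    apply ContinuousOn.cpow (by fun_prop) continuousOn_const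
    intro x hx
    rw [Set.uIcc_of_le zero_le_one] at hx
    rw [mem_slitPlane_iff]
    left
    have h1 : ‖w * x‖ < 1 := by
      rw [norm_mul, norm_real, Real.norm_eq_abs, abs_of_nonneg hx.1]
      have := norm_nonneg w
      nlinarith [hx.1, hx.2]
    have h2 := abs_le.mp (abs_re_le_norm (w * x))
    rw [add_re, one_re]
    linarith [h2.1]
  have k1 := key v hv
  have k2 := key (-v) (by rwa [norm_neg])
  have i1 := hint v hv
  have i2 := hint (-v) (by rwa [norm_neg])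
  have : (fun x : ℝ => (x : ℂ) * (1 - x) ^ 2 * ((1 + v * x) ^ β - (1 - v * x) ^ β))
      = fun x : ℝ => (x : ℂ) * (1 - x) ^ 2 * (1 + v * x) ^ β
        - (x : ℂ) * (1 - x) ^ 2 * (1 + (-v) * x) ^ β := by
    funext x
    rw [show 1 + (-v) * (x : ℂ) = 1 - v * x by ring]
    ring
  rw [this, intervalIntegral.integral_sub i1 i2, mul_sub, k1]
  have k2' : v ^ 4 * ∫ x in (0 : ℝ)..1, (x : ℂ) * (1 - x) ^ 2 * (1 + (-v) * x) ^ β
      = 2 * (-v) * a3 β * (1 - v) ^ (β + 3) - 6 * a4 β * (1 - v) ^ (β + 4)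
        + a2 β * v ^ 2 + 4 * (-v) * a3 β + 6 * a4 β := by
    rw [show (1 : ℂ) - v = 1 + -v by ring]
    linear_combination k2
  rw [k2', EE]
  ring

end

end Crest.Agent.R102.Mel39
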