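import Mathlib

/-! Row 102, EDGE / SLOW v2 (909 #30674): (MOV) movement/exit: almost every point leaves the
dyadic tree by a movement of the label, hence the mean of the oscillations over the tree is
bounded below.  helper486. -/

namespace Crest.Agent.R102.Mov486

open MeasureTheory

/-- the dyadic parent -/
def par (z : ℤ × ℤ) : ℤ × ℤ := (z.1 / 2, z.2 / 2)

section Abstract

variable {Ω : Type*} [MeasurableSpace Ω] (μ : Measure Ω) (Z : ℕ → Ω → ℤ × ℤ)
  (Tr G : ℕ → ℤ × ℤ → Prop) (E : ℕ → ℤ × ℤ → ℝ) (b : ℕ → ℤ × ℤ → ℂ)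

/-- telescoping along one branch -/
theorem tele {Z : ℕ → ℤ × ℤ} (hZ : ∀ k, par (Z (k + 1)) = Z k)
    (hTG : ∀ k z, Tr k z → G k z)
    (hmove : ∀ k z, Tr k (par z) → G (k + 1) z → ‖b (k + 1) z - b k (par z)‖ ≤ E k (par z))
    (n : ℕ) (hn : ∀ k < n, Tr k (Z k)) (hG : G n (Z n)) :
    ‖b n (Z n) - b 0 (Z 0)‖ ≤ ∑ k ∈ Finset.range n, E k (Z k) := by
  induction n with
  | zero => simp
  | succ n ih =>
    rw [Finset.sum_range_succ]
    have h1 := ih (fun k hk => hn k (by omega)) (hTG _ _ (hn n (by omega)))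
    have h2 := hmove n (Z (n + 1)) (by rw [hZ]; exact hn n (by omega)) hG
    rw [hZ] at h2
    calc ‖b (n + 1) (Z (n + 1)) - b 0 (Z 0)‖
        = ‖(b n (Z n) - b 0 (Z 0)) + (b (n + 1) (Z (n + 1)) - b n (Z n))‖ := by congr 1; ring
      _ ≤ _ := (norm_add_le _ _).trans (add_le_add h1 h2)

/-- **(MOV), abstract form.** -/
theorem mov [IsProbabilityMeasure μ]
    (hZm : ∀ k, Measurable (Z k)) (hZ : ∀ k ω, par (Z (k + 1) ω) = Z k ω)
    (hμ : ∀ k z, μ {ω | Z k ω = z} ≤ ENNReal.ofReal ((1 / 4 : ℝ) ^ k))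
    (hfin : ∀ k, {z | Tr k z}.Finite)
    (hE : ∀ k z, 0 ≤ E k z) (k0 : ℝ) (hk0 : 0 ≤ k0) (Bad : Set Ω)
    (hTG : ∀ k z, Tr k z → G k z)
    (hmove : ∀ k z, Tr k (par z) → G (k + 1) z → ‖b (k + 1) z - b k (par z)‖ ≤ E k (par z))
    (hstop : ∀ᵐ ω ∂μ, ω ∈ Bad ∨ ∃ n, (∀ k < n, Tr k (Z k ω)) ∧ G n (Z n ω) ∧
      k0 ≤ ‖b n (Z n ω) - b 0 (Z 0 ω)‖)
    (hbad : μ Bad ≤ 1 / 4) :
    ∃ K : ℕ, k0 / 2 ≤ ∑ k ∈ Finset.range K, (1 / 4 : ℝ) ^ k *
      ∑ z ∈ (hfin k).toFinset, E k z := by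
  classical
  by_contra hcon
  push Not at hcon
  have hk0' : 0 < k0 := by
    rcases hk0.lt_or_eq with h | h
    · exact h
    · exfalso
      have := hcon 0
      simp [← h] at this
  set f : ℕ → Ω → ENNReal := fun k ω =>
    ∑ z ∈ (hfin k).toFinset, Set.indicator {ω | Z k ω = z} (fun _ => ENNReal.ofReal (E k z)) ω
    with hf
  have hms : ∀ k z, MeasurableSet {ω | Z k ω = z} := fun k z =>
    (hZm k) (measurableSet_singleton z)
  have hfm : ∀ k, Measurable (f k) := by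
    intro k
    refine Finset.measurable_sum _ (fun z _ => ?_)
    exact measurable_const.indicator (hms k z)
  -- upper bound for the integral
  have hup : ∀ k, ∫⁻ ω, f k ω ∂μ ≤ ENNReal.ofReal ((1 / 4 : ℝ) ^ k *
      ∑ z ∈ (hfin k).toFinset, E k z) := by
    intro k
    have h1 : ∫⁻ ω, f k ω ∂μ = ∑ z ∈ (hfin k).toFinset,
        ENNReal.ofReal (E k z) * μ {ω | Z k ω = z} := by
      rw [hf]
      simp only
      rw [lintegral_finsetSum _ (fun z _ => measurable_const.indicator (hms k z))]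
      refine Finset.sum_congr rfl (fun z _ => ?_)
      rw [lintegral_indicator (hms k z), setLIntegral_const]
    rw [h1, Finset.mul_sum, ENNReal.ofReal_sum_of_nonneg
      (fun z _ => mul_nonneg (by positivity) (hE k z))]
    refine Finset.sum_le_sum (fun z _ => ?_)
    rw [mul_comm ((1 / 4 : ℝ) ^ k), ENNReal.ofReal_mul (hE k z)]
    gcongr
    exact hμ k z
  -- the total integral
  have htot : ∫⁻ ω, ∑' k, f k ω ∂μ ≤ ENNReal.ofReal (k0 / 2) := by
    rw [lintegral_tsum (fun k => (hfm k).aemeasurable)]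
    refine ENNReal.tsum_le_of_sum_range_le (fun K => ?_)
    calc ∑ k ∈ Finset.range K, ∫⁻ ω, f k ω ∂μ
        ≤ ∑ k ∈ Finset.range K, ENNReal.ofReal ((1 / 4 : ℝ) ^ k *
      ∑ z ∈ (hfin k).toFinset, E k z) := Finset.sum_le_sum (fun k _ => hup k)
      _ = ENNReal.ofReal (∑ k ∈ Finset.range K, (1 / 4 : ℝ) ^ k *
      ∑ z ∈ (hfin k).toFinset, E k z) := by
          rw [ENNReal.ofReal_sum_of_nonneg]
          intro k _
          exact mul_nonneg (by positivity) (Finset.sum_nonneg (fun z _ => hE k z))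
      _ ≤ _ := ENNReal.ofReal_le_ofReal (hcon K).le
  -- the exit estimate
  have hF : Measurable (fun ω => ∑' k, f k ω) := Measurable.tsum hfm
  have hex : ∀ᵐ ω ∂μ, ω ∈ Bad ∨ ENNReal.ofReal k0 ≤ ∑' k, f k ω := by
    filter_upwards [hstop] with ω hω
    rcases hω with hω | ⟨n, hn, hG, hk⟩
    · exact Or.inl hω
    · right
      have h1 := tele Tr G E b (Z := fun k => Z k ω) (fun k => hZ k ω) hTG hmove n hn hG
      have h2 : k0 ≤ ∑ k ∈ Finset.range n, E k (Z k ω) := hk.trans h1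
      calc ENNReal.ofReal k0 ≤ ENNReal.ofReal (∑ k ∈ Finset.range n, E k (Z k ω)) :=
            ENNReal.ofReal_le_ofReal h2
        _ = ∑ k ∈ Finset.range n, ENNReal.ofReal (E k (Z k ω)) :=
            ENNReal.ofReal_sum_of_nonneg (fun k _ => hE k _)
        _ ≤ ∑ k ∈ Finset.range n, f k ω := by
            refine Finset.sum_le_sum (fun k hk' => ?_)
            have hmem : Z k ω ∈ (hfin k).toFinset := by
              rw [Set.Finite.mem_toFinset]
              exact hn k (Finset.mem_range.1 hk')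
            have h3 := Finset.single_le_sum (s := (hfin k).toFinset)
              (f := fun z => Set.indicator {ω | Z k ω = z}
                (fun _ => ENNReal.ofReal (E k z)) ω) (fun _ _ => by positivity) hmem
            refine le_trans (le_of_eq ?_) h3
            simp
        _ ≤ _ := ENNReal.sum_le_tsum _
  set S : Set Ω := {ω | ENNReal.ofReal k0 ≤ ∑' k, f k ω} with hS
  have hm1 : 1 ≤ μ Bad + μ S := by
    have h1 : μ Set.univ ≤ μ (Bad ∪ S) := by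
      refine measure_mono_ae ?_
      filter_upwards [hex] with ω hω _
      exact hω
    rw [measure_univ] at h1
    exact h1.trans (measure_union_le _ _)
  have hmk := mul_meas_ge_le_lintegral (μ := μ) hF (ENNReal.ofReal k0)
  have hSt : μ S ≠ ⊤ := measure_ne_top _ _
  have hm2 : (3 / 4 : ℝ) ≤ (μ S).toReal := by
    have h2 : (1 : ENNReal) ≤ 1 / 4 + μ S := hm1.trans (by gcongr)
    have h3 := ENNReal.toReal_mono (by simp [hSt]) h2
    rw [ENNReal.toReal_add (by simp) hSt] at h3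
    simp at h3
    linarith
  have hfinal : ENNReal.ofReal k0 * μ S ≤ ENNReal.ofReal (k0 / 2) := hmk.trans htot
  have h4 := ENNReal.toReal_mono (by simp) hfinal
  rw [ENNReal.toReal_mul, ENNReal.toReal_ofReal hk0, ENNReal.toReal_ofReal (by linarith)] at h4
  nlinarith

end Abstract

section Concrete

/-- the dyadic cell of generation `k` of a point, root square `[x0,x0+s0) × [u0,u0+s0)` -/
noncomputable def cell (x0 u0 s0 : ℝ) (k : ℕ) (p : ℝ × ℝ) : ℤ × ℤ :=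
  (⌊2 ^ k * ((p.1 - x0) / s0)⌋, ⌊2 ^ k * ((p.2 - u0) / s0)⌋)

theorem floor_half (t : ℝ) (k : ℕ) : ⌊(2 : ℝ) ^ (k + 1) * t⌋ / 2 = ⌊(2 : ℝ) ^ k * t⌋ := by
  have h := Int.floor_div_natCast ((2 : ℝ) ^ (k + 1) * t) 2
  have h2 : (2 : ℝ) ^ (k + 1) * t / ((2 : ℕ) : ℝ) = (2 : ℝ) ^ k * t := by
    rw [pow_succ]; push_cast; ring
  rw [h2] at h
  rw [h]; rfl

theorem par_cell (x0 u0 s0 : ℝ) (k : ℕ) (p : ℝ × ℝ) :
    par (cell x0 u0 s0 (k + 1) p) = cell x0 u0 s0 k p := by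
  unfold par cell
  simp only [floor_half]

theorem measurable_cell (x0 u0 s0 : ℝ) (k : ℕ) : Measurable (cell x0 u0 s0 k) := by
  unfold cell
  refine Measurable.prodMk ?_ ?_
  · exact Int.measurable_floor.comp (by fun_prop)
  · exact Int.measurable_floor.comp (by fun_prop)

/-- the dyadic interval -/
def Jv (u0 s0 : ℝ) (k : ℕ) (z : ℤ) : Set ℝ :=
  Set.Ico (u0 + z * (s0 / 2 ^ k)) (u0 + (z + 1) * (s0 / 2 ^ k))

theorem mem_Jv {u0 s0 : ℝ} (hs0 : 0 < s0) (k : ℕ) (z : ℤ) (t : ℝ) :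
    ⌊2 ^ k * ((t - u0) / s0)⌋ = z ↔ t ∈ Jv u0 s0 k z := by
  have hp : (0 : ℝ) < s0 / 2 ^ k := by positivity
  have e : (2 : ℝ) ^ k * ((t - u0) / s0) = (t - u0) / (s0 / 2 ^ k) := by field_simp
  rw [Int.floor_eq_iff, e, Jv, Set.mem_Ico, le_div_iff₀ hp, div_lt_iff₀ hp]
  constructor
  · rintro ⟨h1, h2⟩; constructor <;> linarith
  · rintro ⟨h1, h2⟩; constructor <;> linarith

theorem cell_eq_iff {x0 u0 s0 : ℝ} (hs0 : 0 < s0) (k : ℕ) (z : ℤ × ℤ) (p : ℝ × ℝ) :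
    cell x0 u0 s0 k p = z ↔ p ∈ Jv x0 s0 k z.1 ×ˢ Jv u0 s0 k z.2 := by
  unfold cell
  rw [Prod.ext_iff, Set.mem_prod, ← mem_Jv hs0, ← mem_Jv hs0]

theorem volume_Jv (u0 s0 : ℝ) (k : ℕ) (z : ℤ) :
    volume (Jv u0 s0 k z) = ENNReal.ofReal (s0 / 2 ^ k) := by
  unfold Jv
  rw [Real.volume_Ico]
  congr 1
  ring

theorem volume_cell {x0 u0 s0 : ℝ} (hs0 : 0 < s0) (k : ℕ) (z : ℤ × ℤ) :
    volume {p | cell x0 u0 s0 k p = z} = ENNReal.ofReal (s0 ^ 2 * (1 / 4) ^ k) := by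
  have h : {p | cell x0 u0 s0 k p = z} = Jv x0 s0 k z.1 ×ˢ Jv u0 s0 k z.2 := by
    ext p; exact cell_eq_iff hs0 k z p
  rw [h, Measure.volume_eq_prod, Measure.prod_prod, volume_Jv, volume_Jv,
    ← ENNReal.ofReal_mul (by positivity)]
  congr 1
  have : (1 / 4 : ℝ) ^ k = 1 / 2 ^ k * (1 / 2 ^ k) := by
    rw [← one_div_pow, ← mul_pow]; norm_num
  rw [this]; ring

/-- the root square -/
def Rt (x0 u0 s0 : ℝ) : Set (ℝ × ℝ) := Set.Ico x0 (x0 + s0) ×ˢ Set.Ico u0 (u0 + s0)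

theorem volume_Rt {s0 : ℝ} (hs0 : 0 < s0) (x0 u0 : ℝ) :
    volume (Rt x0 u0 s0) = ENNReal.ofReal (s0 ^ 2) := by
  unfold Rt
  rw [Measure.volume_eq_prod, Measure.prod_prod, Real.volume_Ico, Real.volume_Ico,
    ← ENNReal.ofReal_mul (by linarith)]
  congr 1; ring

theorem cell_zero {x0 u0 s0 : ℝ} (hs0 : 0 < s0) {p : ℝ × ℝ} (hp : p ∈ Rt x0 u0 s0) :
    cell x0 u0 s0 0 p = 0 := by
  rw [cell_eq_iff hs0]
  obtain ⟨h1, h2⟩ := hp
  rw [Set.mem_Ico] at h1 h2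
  constructor
  · simp only [Jv, Set.mem_Ico, pow_zero]
    constructor <;> simp <;> linarith
  · simp only [Jv, Set.mem_Ico, pow_zero]
    constructor <;> simp <;> linarith

theorem fin_tree {Tr : ℕ → ℤ × ℤ → Prop} (h0 : ∀ z, Tr 0 z → z = 0)
    (hs : ∀ k z, Tr (k + 1) z → Tr k (par z)) (k : ℕ) : {z | Tr k z}.Finite := by
  induction k with
  | zero =>
    refine (Set.finite_singleton (0 : ℤ × ℤ)).subset ?_
    intro z hz
    exact h0 z hz
  | succ k ih =>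
    have hsub : {z | Tr (k + 1) z} ⊆ ⋃ w ∈ {w | Tr k w},
        (Set.Icc (2 * w.1) (2 * w.1 + 1) ×ˢ Set.Icc (2 * w.2) (2 * w.2 + 1)) := by
      intro z hz
      simp only [Set.mem_iUnion]
      refine ⟨par z, hs k z hz, ?_⟩
      simp only [par, Set.mem_prod, Set.mem_Icc]
      omega
    refine Set.Finite.subset (ih.biUnion (fun w _ => ?_)) hsub
    exact (Set.finite_Icc _ _).prod (Set.finite_Icc _ _)

/-- **(MOV), concrete form**: dyadic squares of `[x0,x0+s0) × [u0,u0+s0)`; the tree is stopped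
by the label, or because the `u`-interval does not meet `F`. -/
theorem mov_F (x0 u0 s0 : ℝ) (hs0 : 0 < s0) (F : Set ℝ)
    (hF : volume (Set.Ico u0 (u0 + s0) \ F) ≤ ENNReal.ofReal (s0 / 4))
    (Tr : ℕ → ℤ × ℤ → Prop) (E : ℕ → ℤ × ℤ → ℝ) (b : ℕ → ℤ × ℤ → ℂ)
    (h0 : ∀ z, Tr 0 z → z = 0) (hroot : Tr 0 0)
    (hs : ∀ k z, Tr (k + 1) z → Tr k (par z))
    (hE : ∀ k z, 0 ≤ E k z) (k0 : ℝ) (hk0 : 0 ≤ k0)
    (hTF : ∀ k z, Tr k z → (Jv u0 s0 k z.2 ∩ F).Nonempty)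
    (hmove : ∀ k z, Tr k (par z) → (Jv u0 s0 (k + 1) z.2 ∩ F).Nonempty →
      ‖b (k + 1) z - b k (par z)‖ ≤ E k (par z))
    (hlab : ∀ k z, Tr k (par z) → (Jv u0 s0 (k + 1) z.2 ∩ F).Nonempty → ¬ Tr (k + 1) z →
      k0 ≤ ‖b (k + 1) z - b 0 0‖)
    (hnever : ∀ᵐ p ∂(volume.restrict (Rt x0 u0 s0)), p.2 ∈ F →
      ∃ n, ¬ Tr n (cell x0 u0 s0 n p)) :
    ∃ K : ℕ, k0 / 2 ≤ ∑ k ∈ Finset.range K, (1 / 4 : ℝ) ^ k *
      ∑ z ∈ (fin_tree h0 hs k).toFinset, E k z := by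
  classical
  have hRm : MeasurableSet (Rt x0 u0 s0) := measurableSet_Ico.prod measurableSet_Ico
  have hR0 : volume (Rt x0 u0 s0) ≠ 0 := by
    rw [volume_Rt hs0]; simp; positivity
  have hRt : volume (Rt x0 u0 s0) ≠ ⊤ := by
    rw [volume_Rt hs0]; simp
  have : IsProbabilityMeasure (ProbabilityTheory.cond volume (Rt x0 u0 s0)) :=
    ProbabilityTheory.cond_isProbabilityMeasure_of_finite hR0 hRt
  have hac : ∀ {P : ℝ × ℝ → Prop}, (∀ᵐ p ∂(volume.restrict (Rt x0 u0 s0)), P p) →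
      ∀ᵐ p ∂(ProbabilityTheory.cond volume (Rt x0 u0 s0)), P p := by
    intro P hP
    unfold ProbabilityTheory.cond
    exact Measure.ae_smul_measure hP _
  have hle : ∀ (S : Set (ℝ × ℝ)) (c : ℝ), 0 ≤ c → volume (Rt x0 u0 s0 ∩ S) ≤
      ENNReal.ofReal (s0 ^ 2 * c) →
      ProbabilityTheory.cond volume (Rt x0 u0 s0) S ≤ ENNReal.ofReal c := by
    intro S c hc h
    rw [ProbabilityTheory.cond_apply hRm, volume_Rt hs0]
    calc (ENNReal.ofReal (s0 ^ 2))⁻¹ * volume (Rt x0 u0 s0 ∩ S)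
        ≤ (ENNReal.ofReal (s0 ^ 2))⁻¹ * ENNReal.ofReal (s0 ^ 2 * c) := by gcongr
      _ = ENNReal.ofReal c := by
          rw [ENNReal.ofReal_mul (by positivity), ← mul_assoc, ENNReal.inv_mul_cancel, one_mul]
          · simp; positivity
          · simp
  refine mov (ProbabilityTheory.cond volume (Rt x0 u0 s0)) (cell x0 u0 s0) Tr
    (fun k z => (Jv u0 s0 k z.2 ∩ F).Nonempty) E b (measurable_cell x0 u0 s0)
    (par_cell x0 u0 s0) ?_ (fin_tree h0 hs) hE k0 hk0 {p | p.2 ∉ F} hTF hmove ?_ ?_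
  · intro k z
    refine hle _ _ (by positivity) ?_
    refine (measure_mono Set.inter_subset_right).trans (volume_cell hs0 k z).le
  · refine hac ?_
    filter_upwards [hnever, ae_restrict_mem hRm] with p hp hpR
    by_cases hpF : p.2 ∈ F
    · right
      obtain ⟨n, hn, hmin⟩ : ∃ n, (¬ Tr n (cell x0 u0 s0 n p)) ∧
          ∀ k < n, Tr k (cell x0 u0 s0 k p) := by
        refine ⟨Nat.find (hp hpF), Nat.find_spec (hp hpF), ?_⟩
        intro k hk
        have := Nat.find_min (hp hpF) hk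
        push Not at this
        exact this
      have hG : ∀ k, (Jv u0 s0 k (cell x0 u0 s0 k p).2 ∩ F).Nonempty := by
        intro k
        exact ⟨p.2, ((cell_eq_iff hs0 k _ p).1 rfl).2, hpF⟩
      refine ⟨n, hmin, hG n, ?_⟩
      rw [cell_zero hs0 hpR]
      cases n with
      | zero => rw [cell_zero hs0 hpR] at hn; exact absurd hroot hn
      | succ n =>
        refine hlab n _ ?_ (hG _) hn
        rw [par_cell]
        exact hmin n (by omega)
    · exact Or.inl hpF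
  · have h1 : (1 / 4 : ENNReal) = ENNReal.ofReal (1 / 4) := by
      rw [ENNReal.ofReal_div_of_pos (by norm_num)]; simp
    rw [h1]
    refine hle _ _ (by norm_num) ?_
    have h2 : Rt x0 u0 s0 ∩ {p | p.2 ∉ F} ⊆
        Set.Ico x0 (x0 + s0) ×ˢ (Set.Ico u0 (u0 + s0) \ F) := by
      rintro p ⟨⟨hp1, hp2⟩, hp3⟩
      exact ⟨hp1, hp2, hp3⟩
    refine (measure_mono h2).trans ?_
    rw [Measure.volume_eq_prod, Measure.prod_prod, Real.volume_Ico]
    calc ENNReal.ofReal (x0 + s0 - x0) * volume (Set.Ico u0 (u0 + s0) \ F)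
        ≤ ENNReal.ofReal (x0 + s0 - x0) * ENNReal.ofReal (s0 / 4) := by gcongr
      _ = ENNReal.ofReal (s0 ^ 2 * (1 / 4)) := by
          rw [← ENNReal.ofReal_mul (by linarith)]
          congr 1; ring

end Concrete

end Crest.Agent.R102.Mov486
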