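import Mathlib

/-!
# Row 102, T1-B EDGE, SLOW v2 (helper909), leaf MOV (helper963)

Movement on the dyadic tree of the unit square: if almost every point leaves the tree, the
bad exits have measure `≤ 1/4`, and every other exit moves `b` by `k0`, then
`k0 / 2 ≤ ∑_{k<K} 4^{-k} ∑_{Tr k z} E k z` for some `K`.
-/

set_option autoImplicit false

open Set Filter Topology MeasureTheory

noncomputable section

namespace Crest.Agent.R102.Mov963

/-- the dyadic square of generation `k` containing `P` -/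
def sq (k : ℕ) (P : ℝ × ℝ) : ℤ × ℤ := (⌊(2 : ℝ) ^ k * P.1⌋, ⌊(2 : ℝ) ^ k * P.2⌋)

/-- the unit square -/
def Q0 : Set (ℝ × ℝ) := Ico 0 1 ×ˢ Ico 0 1

/-- the squares of generation `k` of the unit square -/
def Zk (k : ℕ) : Finset (ℤ × ℤ) := Finset.Ico 0 (2 ^ k) ×ˢ Finset.Ico 0 (2 ^ k)

/-- parent -/
def par (z : ℤ × ℤ) : ℤ × ℤ := (z.1 / 2, z.2 / 2)

lemma floor_par (y : ℝ) : ⌊2 * y⌋ / 2 = ⌊y⌋ := by
  symm
  rw [Int.floor_eq_iff]
  have h1 := Int.floor_le (2 * y)
  have h2 := Int.lt_floor_add_one (2 * y)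
  have h3 : 2 * (⌊2 * y⌋ / 2) ≤ ⌊2 * y⌋ := by omega
  have h4 : ⌊2 * y⌋ + 1 ≤ 2 * (⌊2 * y⌋ / 2) + 2 := by omega
  have h3' : (2 : ℝ) * ((⌊2 * y⌋ / 2 : ℤ) : ℝ) ≤ (⌊2 * y⌋ : ℝ) := by exact_mod_cast h3
  have h4' : (⌊2 * y⌋ : ℝ) + 1 ≤ 2 * ((⌊2 * y⌋ / 2 : ℤ) : ℝ) + 2 := by exact_mod_cast h4
  constructor <;> linarith

lemma sq_par (k : ℕ) (P : ℝ × ℝ) : par (sq (k + 1) P) = sq k P := by
  simp only [par, sq, pow_succ']
  rw [mul_assoc, mul_assoc, floor_par, floor_par]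

lemma sq_zero {P : ℝ × ℝ} (hP : P ∈ Q0) : sq 0 P = (0, 0) := by
  obtain ⟨⟨h1, h2⟩, h3, h4⟩ := hP
  simp only [sq, pow_zero, one_mul, Prod.mk.injEq]
  constructor <;> rw [Int.floor_eq_iff] <;> constructor <;> norm_num <;> assumption

lemma sq_meas (k : ℕ) : Measurable (sq k) := by
  unfold sq
  refine Measurable.prodMk ?_ ?_
  · exact (measurable_fst.const_mul _).floor
  · exact (measurable_snd.const_mul _).floor

lemma floor_mem {k : ℕ} {x : ℝ} {n : ℤ} : ⌊(2 : ℝ) ^ k * x⌋ = n ↔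
    x ∈ Ico ((n : ℝ) / 2 ^ k) ((n + 1 : ℝ) / 2 ^ k) := by
  have h : (0 : ℝ) < 2 ^ k := by positivity
  rw [Int.floor_eq_iff, mem_Ico, div_le_iff₀ h, lt_div_iff₀ h, mul_comm x]

lemma sq_mem {k : ℕ} {P : ℝ × ℝ} (hP : P ∈ Q0) : sq k P ∈ Zk k := by
  obtain ⟨⟨h1, h2⟩, h3, h4⟩ := hP
  have h : (0 : ℝ) < 2 ^ k := by positivity
  simp only [Zk, sq, Finset.mem_product, Finset.mem_Ico]
  refine ⟨⟨Int.floor_nonneg.2 (by positivity), ?_⟩, Int.floor_nonneg.2 (by positivity), ?_⟩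
  · rw [Int.floor_lt]
    push_cast
    nlinarith
  · rw [Int.floor_lt]
    push_cast
    nlinarith

lemma sq_fiber (k : ℕ) (z : ℤ × ℤ) : {P : ℝ × ℝ | sq k P = z} =
    Ico ((z.1 : ℝ) / 2 ^ k) ((z.1 + 1 : ℝ) / 2 ^ k) ×ˢ
      Ico ((z.2 : ℝ) / 2 ^ k) ((z.2 + 1 : ℝ) / 2 ^ k) := by
  ext P
  simp only [mem_ofPred_eq, sq, Prod.ext_iff, mem_prod, floor_mem]

lemma vol_fiber (k : ℕ) (z : ℤ × ℤ) : volume.real {P : ℝ × ℝ | sq k P = z} = (1 / 4 : ℝ) ^ k := by
  rw [sq_fiber, Measure.real, Measure.volume_eq_prod, Measure.prod_prod, Real.volume_Ico,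
    Real.volume_Ico]
  have h : (0 : ℝ) < 2 ^ k := by positivity
  have e : ∀ n : ℤ, (n + 1 : ℝ) / 2 ^ k - (n : ℝ) / 2 ^ k = 1 / 2 ^ k := fun n => by
    field_simp
    ring
  rw [e, e, ENNReal.toReal_mul, ENNReal.toReal_ofReal (by positivity), one_div_mul_one_div,
    ← mul_pow, one_div, one_div, inv_pow]
  norm_num

lemma fiber_sub {k : ℕ} {z : ℤ × ℤ} (hz : z ∈ Zk k) : {P : ℝ × ℝ | sq k P = z} ⊆ Q0 := by
  rw [sq_fiber]
  simp only [Zk, Finset.mem_product, Finset.mem_Ico] at hz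
  have h : (0 : ℝ) < 2 ^ k := by positivity
  have key : ∀ n : ℤ, 0 ≤ n → n < 2 ^ k →
      Ico ((n : ℝ) / 2 ^ k) ((n + 1 : ℝ) / 2 ^ k) ⊆ Ico (0 : ℝ) 1 := by
    intro n h1 h2
    refine Ico_subset_Ico ?_ ?_
    · have : (0 : ℝ) ≤ n := by exact_mod_cast h1
      positivity
    · rw [div_le_one h]
      have : n + 1 ≤ 2 ^ k := by omega
      exact_mod_cast this
  exact prod_mono (key _ hz.1.1 hz.1.2) (key _ hz.2.1 hz.2.2)

lemma Q0_meas : MeasurableSet Q0 := measurableSet_Ico.prod measurableSet_Ico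

lemma Q0_vol : volume Q0 = 1 := by
  rw [Q0, Measure.volume_eq_prod, Measure.prod_prod]
  simp

/-- integral of a function of the square -/
lemma int_sq (k : ℕ) (F : ℤ × ℤ → ℝ) :
    IntegrableOn (fun P => F (sq k P)) Q0 ∧
      ∫ P in Q0, F (sq k P) = (1 / 4 : ℝ) ^ k * ∑ z ∈ Zk k, F z := by
  have hfm : ∀ z, MeasurableSet {P : ℝ × ℝ | sq k P = z} := fun z => by
    rw [sq_fiber]
    exact measurableSet_Ico.prod measurableSet_Ico
  have heq : EqOn (fun P => F (sq k P))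
      (fun P => ∑ z ∈ Zk k, {P : ℝ × ℝ | sq k P = z}.indicator (fun _ => F z) P) Q0 := by
    intro P hP
    simp only
    rw [Finset.sum_eq_single (sq k P)]
    · rw [indicator_of_mem]
      rfl
    · intro z _ hz
      rw [indicator_of_notMem]
      intro h
      exact hz h.symm
    · intro h
      exact absurd (sq_mem hP) h
  have hint : ∀ z ∈ Zk k, IntegrableOn
      ({P : ℝ × ℝ | sq k P = z}.indicator (fun _ => F z)) Q0 := by
    intro z hz
    have hfin : volume Q0 ≠ ⊤ := by rw [Q0_vol]; exact ENNReal.one_ne_top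
    exact (integrableOn_const hfin).indicator (hfm z)
  constructor
  · refine IntegrableOn.congr_fun ?_ (fun P hP => (heq hP).symm) Q0_meas
    exact integrable_finsetSum _ hint
  · rw [setIntegral_congr_fun Q0_meas heq, integral_finsetSum _ hint, Finset.mul_sum]
    refine Finset.sum_congr rfl fun z hz => ?_
    rw [setIntegral_indicator (hfm z), inter_eq_self_of_subset_right (fiber_sub hz),
      setIntegral_const, vol_fiber, smul_eq_mul]

/-- **MOV** -/
theorem mov {Tr : ℕ → ℤ × ℤ → Prop} {Bad : ℕ → ℤ × ℤ → Prop} {E : ℕ → ℤ × ℤ → ℝ}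
    {b : ℕ → ℤ × ℤ → ℂ} {k0 : ℝ} (hk0 : 0 < k0) (h0 : Tr 0 (0, 0))
    (hE0 : ∀ k z, Tr k z → 0 ≤ E k z)
    (hchild : ∀ k z, Tr k (par z) → ‖b (k + 1) z - b k (par z)‖ ≤ E k (par z))
    (hexit : ∀ k z, Tr k (par z) → ¬ Tr (k + 1) z →
      k0 ≤ ‖b (k + 1) z - b 0 (0, 0)‖ ∨ Bad (k + 1) z)
    (hall : ∀ᵐ P : ℝ × ℝ, P ∈ Q0 → ∃ k, ¬ Tr k (sq k P))
    (hbad : volume {P ∈ Q0 | ∃ k, Tr k (sq k P) ∧ ¬ Tr (k + 1) (sq (k + 1) P) ∧
      Bad (k + 1) (sq (k + 1) P)} ≤ ENNReal.ofReal (1 / 4)) [∀ k z, Decidable (Tr k z)] :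
    ∃ K : ℕ, k0 / 2 ≤ ∑ k ∈ Finset.range K, (1 / 4 : ℝ) ^ k *
      ∑ z ∈ (Zk k).filter (Tr k), E k z := by
  set F : ℕ → ℤ × ℤ → ℝ := fun k z => if Tr k z then E k z else 0 with hF
  have hF0 : ∀ k z, 0 ≤ F k z := fun k z => by
    simp only [hF]
    split_ifs with h
    · exact hE0 k z h
    · exact le_rfl
  set B : Set (ℝ × ℝ) := {P ∈ Q0 | ∃ k, Tr k (sq k P) ∧ ¬ Tr (k + 1) (sq (k + 1) P) ∧
      Bad (k + 1) (sq (k + 1) P)} with hB
  set f : ℕ → ℝ × ℝ → ℝ := fun K P => ∑ k ∈ Finset.range K, F k (sq k P) with hf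
  set G : ℕ → Set (ℝ × ℝ) := fun K => {P ∈ Q0 | k0 ≤ f K P} with hG
  -- the pointwise bound
  have key : ∀ P ∈ Q0, (∃ k, ¬ Tr k (sq k P)) → P ∉ B → ∃ K, P ∈ G K := by
    intro P hP hex hPB
    classical
    set K := Nat.find hex with hK
    have hKn : ¬ Tr K (sq K P) := Nat.find_spec hex
    have hlt : ∀ k < K, Tr k (sq k P) := fun k hk => not_not.1 (Nat.find_min hex hk)
    have hK0 : K ≠ 0 := by
      intro h
      rw [h, sq_zero hP] at hKn
      exact hKn h0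
    obtain ⟨m, hm⟩ := Nat.exists_eq_succ_of_ne_zero hK0
    have hm' : K = m + 1 := hm
    have htr := hlt m (by omega)
    rw [hm'] at hKn
    have hpar : par (sq (m + 1) P) = sq m P := sq_par m P
    rcases hexit m (sq (m + 1) P) (by rw [hpar]; exact htr) hKn with h1 | h1
    · refine ⟨m + 1, hP, h1.trans ?_⟩
      have h2 : ∀ j ≤ m + 1, ‖b j (sq j P) - b 0 (0, 0)‖ ≤ f j P := by
        intro j
        induction j with
        | zero =>
          intro _
          simp [hf, sq_zero hP]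
        | succ j ih =>
          intro hj
          have hj' := hlt j (by omega)
          have h3 := hchild j (sq (j + 1) P) (by rw [sq_par]; exact hj')
          rw [sq_par] at h3
          have h4 : f (j + 1) P = f j P + E j (sq j P) := by
            simp only [hf, Finset.sum_range_succ, hF, if_pos hj']
          rw [h4]
          have e : b (j + 1) (sq (j + 1) P) - b 0 (0, 0) =
              (b j (sq j P) - b 0 (0, 0)) + (b (j + 1) (sq (j + 1) P) - b j (sq j P)) := by ring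
          rw [e]
          exact (norm_add_le _ _).trans (add_le_add (ih (by omega)) h3)
      exact h2 (m + 1) le_rfl
    · exact absurd ⟨hP, m, htr, hKn, h1⟩ hPB
  -- measure of the union
  have hfm : ∀ K, Measurable (f K) := fun K => by
    refine Finset.measurable_sum _ fun k _ => ?_
    exact (measurable_of_countable (F k)).comp (sq_meas k)
  have hGm : ∀ K, MeasurableSet (G K) := fun K =>
    Q0_meas.inter (measurableSet_le measurable_const (hfm K))
  have hmono : Monotone G := by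
    intro K K' hKK P hP
    refine ⟨hP.1, hP.2.trans ?_⟩
    exact Finset.sum_le_sum_of_subset_of_nonneg (Finset.range_mono hKK) fun k _ _ => hF0 k _
  have hcover : volume Q0 ≤ volume (⋃ K, G K) + volume B := by
    have h1 : volume Q0 ≤ volume ((⋃ K, G K) ∪ B) := by
      refine measure_mono_ae ?_
      filter_upwards [hall] with P hP hPQ
      by_cases hPB : P ∈ B
      · exact Or.inr hPB
      · obtain ⟨K, hK⟩ := key P hPQ (hP hPQ) hPB
        exact Or.inl (mem_iUnion.2 ⟨K, hK⟩)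
    exact h1.trans (measure_union_le _ _)
  have hbig : ENNReal.ofReal (1 / 2) < volume (⋃ K, G K) := by
    by_contra hcon
    push Not at hcon
    have h1 : volume Q0 ≤ ENNReal.ofReal (1 / 2) + ENNReal.ofReal (1 / 4) :=
      hcover.trans (add_le_add hcon hbad)
    rw [Q0_vol, ← ENNReal.ofReal_add (by norm_num) (by norm_num), ← ENNReal.ofReal_one,
      ENNReal.ofReal_le_ofReal_iff (by norm_num)] at h1
    norm_num at h1
  have hlim := tendsto_measure_iUnion_atTop (μ := volume) hmono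
  obtain ⟨K, hK⟩ := (hlim.eventually (lt_mem_nhds hbig)).exists
  refine ⟨K, ?_⟩
  -- the integral
  have hint : IntegrableOn (f K) Q0 :=
    integrable_finsetSum _ fun k _ => (int_sq k (F k)).1
  have hval : ∫ P in Q0, f K P = ∑ k ∈ Finset.range K, (1 / 4 : ℝ) ^ k *
      ∑ z ∈ (Zk k).filter (Tr k), E k z := by
    simp only [hf]
    rw [integral_finsetSum _ fun k _ => (int_sq k (F k)).1]
    refine Finset.sum_congr rfl fun k _ => ?_
    rw [(int_sq k (F k)).2, Finset.sum_filter]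
  rw [← hval]
  have hGsub : G K ⊆ Q0 := fun P hP => hP.1
  have hf0 : ∀ P, 0 ≤ f K P := fun P => Finset.sum_nonneg fun k _ => hF0 k _
  have h1 : ∫ P in G K, f K P ≤ ∫ P in Q0, f K P :=
    setIntegral_mono_set hint (Eventually.of_forall fun P => hf0 P) hGsub.eventuallyLE
  have hGfin : volume (G K) ≠ ⊤ :=
    ((measure_mono hGsub).trans_lt (by rw [Q0_vol]; exact ENNReal.one_lt_top)).ne
  have h2 : ∫ _ in G K, k0 ≤ ∫ P in G K, f K P :=
    setIntegral_mono_on (integrableOn_const hGfin) (hint.mono_set hGsub) (hGm K)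
      fun P hP => hP.2
  rw [setIntegral_const, smul_eq_mul] at h2
  have h3 : 1 / 2 ≤ volume.real (G K) := by
    rw [Measure.real, ← ENNReal.ofReal_le_iff_le_toReal hGfin]
    exact hK.le
  nlinarith

end Crest.Agent.R102.Mov963
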