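import Crest.Agent.R102.Chain_859

/-!
Row 102, T1-B, EDGE / SLOW (helper314): **near range** of the side bound, from the record inequality
(859's kernel), pure real analysis.
-/

set_option autoImplicit false

open Set Metric

namespace Crest.Agent.R102.NearN314

open Crest.Agent.R102.Chain859

variable {E : Type*} [NormedAddCommGroup E]

lemma two_rpow_neg_lt {th : ℝ} (hth : 0 < th) : (2 : ℝ) ^ (-th) < 1 :=
  Real.rpow_lt_one_of_one_lt_of_neg (by norm_num) (by linarith)

/-- `(T / t) * (t / s)^th ≤ (T / s)^th` for `s ≤ T ≤ t` -/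
lemma lat_factor {th T t s : ℝ} (hth1 : th < 1) (hs : 0 < s) (hT : s ≤ T) (ht : T ≤ t) :
    (T / t) * (t / s) ^ th ≤ (T / s) ^ th := by
  have hTp : 0 < T := by linarith
  have htp : 0 < t := by linarith
  have e1 : (t / s) ^ th = (t / T) ^ th * (T / s) ^ th := by
    rw [← Real.mul_rpow (by positivity) (by positivity)]
    congr 1
    field_simp
  have e2 : (t / T) ^ th ≤ t / T := by
    have h1 : 1 ≤ t / T := by rw [le_div_iff₀ hTp]; linarith
    calc (t / T) ^ th ≤ (t / T) ^ (1 : ℝ) := Real.rpow_le_rpow_of_exponent_le h1 hth1.le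
      _ = t / T := Real.rpow_one _
  rw [e1]
  have h3 : 0 ≤ (T / s) ^ th := by positivity
  calc (T / t) * ((t / T) ^ th * (T / s) ^ th) ≤ (T / t) * ((t / T) * (T / s) ^ th) := by
        gcongr
    _ = (T / s) ^ th := by field_simp

/-- the constant of `near` -/
noncomputable def KN (th A Cl : ℝ) : ℝ := 16 * Cl * A * (1 + 1 / (1 - (2 : ℝ) ^ (-th)))

lemma KN_ge {th A Cl : ℝ} (hth : 0 < th) (hA : 1 ≤ A) (hCl : 1 ≤ Cl) : 16 * (Cl * A) ≤ KN th A Cl := by
  have h := two_rpow_neg_lt hth
  have h1 : 0 < 1 / (1 - (2 : ℝ) ^ (-th)) := by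
    have : 0 < 1 - (2 : ℝ) ^ (-th) := by linarith
    positivity
  have h2 : 0 < Cl * A := by positivity
  unfold KN
  nlinarith

set_option maxHeartbeats 4000000 in
/-- **NEAR RANGE** -/
theorem near {b : ℝ × ℝ → ℝ → E} {e : ℝ × ℝ → ℝ → ℝ} {b0 : E} {p0 p : ℝ × ℝ}
    {th A Cl k s1 s om : ℝ} (hth : 0 < th) (hth1 : th < 1) (hA : 1 ≤ A) (hCl : 1 ≤ Cl)
    (hom : 0 ≤ om)
    (he0 : ∀ p s, 0 ≤ e p s)
    (hvert : ∀ p s s', dist p p0 ≤ s1 → 0 < s → s ≤ s1 → e p s < 1 → s / 2 ≤ s' → s' ≤ s →
      ‖b p s - b p s'‖ ≤ Cl * e p s)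
    (hlat : ∀ p p' s, dist p p0 ≤ s1 → 0 < s → s ≤ s1 → e p s < 1 → dist p p' ≤ s →
      ‖b p s - b p' s‖ ≤ Cl * (dist p p' / s) * e p s)
    (hcol : ∀ t, s ≤ t → t ≤ s1 → e p t < 1)
    (hW : V b b0 s1 p0 (3 * k / 4) p s) (hd : dist p p0 ≤ s1 / 2)
    (hrec : ∀ p' s', V b b0 s1 p0 k p' s' → rho th p s p' s' * e p' s' ≤ A * om) :
    ∀ (p' : ℝ × ℝ) (T s' : ℝ), dist p' p ≤ T → s ≤ T → T ≤ s1 / 2 → 0 < s' → s' ≤ T →
      KN th A Cl * ((T / s) ^ th * (T / s') ^ 2) * om ≤ k / 4 →
      KN th A Cl * ((T / s) ^ th * (T / s') ^ 2) * om ≤ 1 / 2 →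
      V b b0 s1 p0 k p' s' ∧
        ‖b p' s' - b p s‖ ≤ KN th A Cl * ((T / s) ^ th * (T / s') ^ 2) * om := by
  intro p' T s' hdT hsT hT1 hs' hsT' hk1 hk2
  have hs : 0 < s := hW.1
  have hT : 0 < T := hs.trans_le hsT
  have hs1 : 0 < s1 := by linarith
  have hTs1 : T ≤ s1 := by linarith
  have hK16 := KN_ge hth hA hCl
  have hCA : 1 ≤ Cl * A := by nlinarith
  have h2th := two_rpow_neg_lt hth
  -- the basic quantity
  set M : ℝ := (T / s) ^ th * om with hM
  have hM0 : 0 ≤ M := by positivity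
  have hTs'1 : 1 ≤ (T / s') ^ 2 := by
    apply one_le_pow₀
    rw [le_div_iff₀ hs']
    linarith
  have hfac : KN th A Cl * ((T / s) ^ th * (T / s') ^ 2) * om = KN th A Cl * (T / s') ^ 2 * M := by
    rw [hM]; ring
  rw [hfac] at hk1 hk2 ⊢
  have hbig : 16 * (Cl * A) * (T / s') ^ 2 * M ≤ KN th A Cl * (T / s') ^ 2 * M := by
    gcongr
  have hTM : Cl * A * M ≤ Cl * A * (T / s') ^ 2 * M := by
    have : 0 ≤ Cl * A * M := by positivity
    nlinarith
  have hTMk : Cl * A * M ≤ k / 64 := by nlinarith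
  have hTM1 : Cl * A * (T / s') ^ 2 * M ≤ k / 64 := by nlinarith
  have hTM2 : Cl * A * (T / s') ^ 2 * M ≤ 1 / 32 := by nlinarith
  have hAM2 : A * (T / s') ^ 2 * M ≤ 1 / 32 := by
    refine le_trans ?_ hTM2
    have : 0 ≤ A * (T / s') ^ 2 * M := by positivity
    nlinarith
  have hk0 : 0 ≤ k := by
    have : 0 ≤ KN th A Cl * (T / s') ^ 2 * M := le_trans (by positivity) hbig
    linarith
  -- own column
  have own_e : ∀ t, s ≤ t → t ≤ s1 → e p t ≤ A * ((t / s) ^ th * om) := by
    intro t ht1 ht2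
    have ht : 0 < t := hs.trans_le ht1
    have hV : V b b0 s1 p0 k p t := V_up hW (by linarith) ht1 ht2
    have h1 := hrec p t hV
    have h2 : rr p s p t ≤ t := by
      unfold rr
      rw [dist_self]
      exact max_le (max_le ht1 le_rfl) ht.le
    have h3 := le_rho (p := p) (p' := p) hth.le hs ht h2
    rw [div_self ht.ne', one_pow, mul_one] at h3
    have h4 : (s / t) ^ th * e p t ≤ A * om := le_trans (by gcongr; exact he0 _ _) h1
    have h5 : (t / s) ^ th * (s / t) ^ th = 1 := by
      rw [← Real.mul_rpow (by positivity) (by positivity)]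
      have : t / s * (s / t) = 1 := by field_simp
      rw [this, Real.one_rpow]
    calc e p t = (t / s) ^ th * ((s / t) ^ th * e p t) := by rw [← mul_assoc, h5, one_mul]
      _ ≤ (t / s) ^ th * (A * om) := by gcongr
      _ = A * ((t / s) ^ th * om) := by ring
  -- descending the own column
  have own_sum : ∀ n : ℕ, ∀ t, s ≤ t → t ≤ s1 → t ≤ 2 ^ n * s →
      ‖b p t - b p s‖ ≤ Cl * A * (1 / (1 - (2 : ℝ) ^ (-th))) * ((t / s) ^ th * om) := by
    intro n
    induction n with
    | zero =>
      intro t h1 h2 h3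
      have : t = s := le_antisymm (by simpa using h3) h1
      rw [this, sub_self, norm_zero]
      have : 0 < 1 - (2 : ℝ) ^ (-th) := by linarith
      positivity
    | succ n ih =>
      intro t h1 h2 h3
      have ht : 0 < t := hs.trans_le h1
      have hq : 0 < 1 - (2 : ℝ) ^ (-th) := by linarith
      have hstep : ∀ t', s ≤ t' → t / 2 ≤ t' → t' ≤ t → ‖b p t - b p t'‖ ≤
          Cl * A * ((t / s) ^ th * om) := by
        intro t' _ h5 h6
        refine (hvert p t t' (by linarith) ht h2 (hcol t h1 h2) h5 h6).trans ?_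
        calc Cl * e p t ≤ Cl * (A * ((t / s) ^ th * om)) := by
              gcongr
              exact own_e t h1 h2
          _ = Cl * A * ((t / s) ^ th * om) := by ring
      have hge1 : 1 ≤ 1 / (1 - (2 : ℝ) ^ (-th)) := by
        rw [le_div_iff₀ hq]
        have : 0 < (2 : ℝ) ^ (-th) := by positivity
        linarith
      rcases le_or_gt (t / 2) s with h4 | h4
      · refine (hstep s le_rfl h4 h1).trans ?_
        have : 0 ≤ Cl * A * ((t / s) ^ th * om) := by positivity
        calc Cl * A * ((t / s) ^ th * om) = Cl * A * ((t / s) ^ th * om) * 1 := by ring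
          _ ≤ Cl * A * ((t / s) ^ th * om) * (1 / (1 - (2 : ℝ) ^ (-th))) := by gcongr
          _ = _ := by ring
      · have h5 := ih (t / 2) h4.le (by linarith) (by rw [pow_succ] at h3; linarith)
        have h6 := hstep (t / 2) h4.le le_rfl (by linarith)
        have h7 : (t / 2 / s) ^ th = (2 : ℝ) ^ (-th) * (t / s) ^ th := by
          rw [show t / 2 / s = 2⁻¹ * (t / s) by field_simp, Real.mul_rpow (by norm_num)
            (by positivity), Real.inv_rpow (by norm_num), Real.rpow_neg (by norm_num)]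
        rw [h7] at h5
        have h8 : ‖b p t - b p s‖ ≤ ‖b p t - b p (t / 2)‖ + ‖b p (t / 2) - b p s‖ := by
          have := norm_add_le (b p t - b p (t / 2)) (b p (t / 2) - b p s)
          simpa using this
        have h9 : 1 + 1 / (1 - (2 : ℝ) ^ (-th)) * (2 : ℝ) ^ (-th) = 1 / (1 - (2 : ℝ) ^ (-th)) := by
          field_simp
          ring
        calc ‖b p t - b p s‖ ≤ Cl * A * ((t / s) ^ th * om) + Cl * A *
              (1 / (1 - (2 : ℝ) ^ (-th))) * ((2 : ℝ) ^ (-th) * (t / s) ^ th * om) := by linarith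
          _ = Cl * A * (1 + 1 / (1 - (2 : ℝ) ^ (-th)) * (2 : ℝ) ^ (-th)) *
              ((t / s) ^ th * om) := by ring
          _ = _ := by rw [h9]
  have hdp' : dist p' p0 ≤ s1 := by
    calc dist p' p0 ≤ dist p' p + dist p p0 := dist_triangle _ _ _
      _ ≤ s1 := by linarith
  have hdpp' : dist p p' ≤ T := by rw [dist_comm]; exact hdT
  -- lateral moves above `T`
  have lateral : ∀ t, T ≤ t → t ≤ s1 → ‖b p t - b p' t‖ ≤ Cl * A * M := by
    intro t h1 h2
    have ht : 0 < t := hT.trans_le h1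
    have h3 := hlat p p' t (by linarith) ht h2 (hcol t (hsT.trans h1) h2) (hdpp'.trans h1)
    refine h3.trans ?_
    have h4 : dist p p' / t ≤ T / t := by gcongr
    have h5 := lat_factor hth1 hs hsT h1
    calc Cl * (dist p p' / t) * e p t ≤ Cl * (T / t) * (A * ((t / s) ^ th * om)) := by
          gcongr
          · exact he0 _ _
          · exact own_e t (hsT.trans h1) h2
      _ = Cl * A * ((T / t * (t / s) ^ th) * om) := by ring
      _ ≤ Cl * A * ((T / s) ^ th * om) := by gcongr
      _ = Cl * A * M := by rw [hM]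
  have above : ∀ t, T ≤ t → t ≤ s1 → ‖b p' t - b0‖ ≤ 3 * k / 4 + k / 64 := by
    intro t h1 h2
    have h3 := lateral t h1 h2
    have h4 := hW.2.2.2 t (hsT.trans h1) h2
    have h5 : ‖b p' t - b0‖ ≤ ‖b p t - b0‖ + ‖b p t - b p' t‖ := by
      have := norm_sub_le (b p t - b0) (b p t - b p' t)
      have e : b p t - b0 - (b p t - b p' t) = b p' t - b0 := by abel
      rwa [e] at this
    linarith
  -- descending the column of `p'`
  have key : ∀ n : ℕ, ∀ t, s' ≤ t → t ≤ T → T ≤ 2 ^ n * t →
      ‖b p' t - b p' T‖ ≤ 2 * (Cl * A) * (T / t) ^ 2 * M := by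
    intro n
    induction n with
    | zero =>
      intro t h1 h2 h3
      have : t = T := le_antisymm h2 (by simpa using h3)
      rw [this, sub_self, norm_zero]
      positivity
    | succ n ih =>
      intro t h1 h2 h3
      have ht : 0 < t := hs'.trans_le h1
      -- all larger scales are fine
      have hVk : ∀ t2, t ≤ t2 / 2 ∨ t2 = T → t2 ≤ T → t < t2 ∨ t2 = T → V b b0 s1 p0 k p' t2 := by
        intro t2 h4 h5 _
        have ht2 : 0 < t2 := by
          rcases h4 with h4 | h4
          · linarith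
          · rw [h4]; exact hT
        refine ⟨ht2, by linarith, hdp', fun t3 h6 h7 => ?_⟩
        rcases le_or_gt T t3 with h8 | h8
        · exact (above t3 h8 h7).trans (by linarith)
        · have ht3 : t ≤ t3 / 2 := by
            rcases h4 with h4 | h4
            · linarith
            · exfalso; linarith
          have h9 := ih t3 (by linarith) h8.le (by
            have e : (2 : ℝ) ^ (n + 1) * t = 2 ^ n * (2 * t) := by ring
            rw [e] at h3
            refine h3.trans ?_
            gcongr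
            linarith)
          have h10 : (T / t3) ^ 2 ≤ (T / s') ^ 2 := by
            have h13 : s' ≤ t3 := by linarith
            have h14 : 0 < t3 := by linarith
            gcongr
          have h11 : 2 * (Cl * A) * (T / t3) ^ 2 * M ≤ 2 * (Cl * A) * (T / s') ^ 2 * M := by
            gcongr
          have h12 : ‖b p' t3 - b0‖ ≤ ‖b p' t3 - b p' T‖ + ‖b p' T - b0‖ := by
            have := norm_add_le (b p' t3 - b p' T) (b p' T - b0)
            simpa using this
          have h13 := above T le_rfl hTs1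
          linarith
      -- the bound of `e`
      have hE : ∀ t2, s' ≤ t2 → t2 ≤ T → V b b0 s1 p0 k p' t2 →
          e p' t2 ≤ A * (T / t2) ^ 2 * M := by
        intro t2 h4 h5 hV
        have ht2 : 0 < t2 := hs'.trans_le h4
        have h6 : rr p s p' t2 ≤ T := max_le (max_le hsT h5) hdpp'
        have h7 := le_rho (p := p) (p' := p') hth.le hs ht2 h6
        have h8 := hrec p' t2 hV
        have h9 : (s / T) ^ th * (t2 / T) ^ 2 * e p' t2 ≤ A * om :=
          le_trans (by gcongr; exact he0 _ _) h8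
        have h10 : (T / s) ^ th * (s / T) ^ th = 1 := by
          rw [← Real.mul_rpow (by positivity) (by positivity)]
          have : T / s * (s / T) = 1 := by field_simp
          rw [this, Real.one_rpow]
        have h11 : (T / t2) ^ 2 * (t2 / T) ^ 2 = 1 := by
          rw [← mul_pow]
          have : T / t2 * (t2 / T) = 1 := by field_simp
          rw [this, one_pow]
        calc e p' t2 = ((T / s) ^ th * (T / t2) ^ 2) *
              ((s / T) ^ th * (t2 / T) ^ 2 * e p' t2) := by
              have : ((T / s) ^ th * (T / t2) ^ 2) * ((s / T) ^ th * (t2 / T) ^ 2 * e p' t2) =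
                ((T / s) ^ th * (s / T) ^ th) * ((T / t2) ^ 2 * (t2 / T) ^ 2) * e p' t2 := by ring
              rw [this, h10, h11, one_mul, one_mul]
          _ ≤ ((T / s) ^ th * (T / t2) ^ 2) * (A * om) := by gcongr
          _ = A * (T / t2) ^ 2 * M := by rw [hM]; ring
      have hstep : ∀ t2, s' ≤ t2 → t2 ≤ T → V b b0 s1 p0 k p' t2 → t2 / 2 ≤ t → t ≤ t2 →
          ‖b p' t2 - b p' t‖ ≤ Cl * A * (T / t2) ^ 2 * M := by
        intro t2 h4 h5 hV h6 h7
        have ht2 : 0 < t2 := hs'.trans_le h4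
        have h8 := hE t2 h4 h5 hV
        have h9 : A * (T / t2) ^ 2 * M ≤ A * (T / s') ^ 2 * M := by gcongr
        refine (hvert p' t2 t hdp' ht2 (by linarith) (by linarith) h6 h7).trans ?_
        calc Cl * e p' t2 ≤ Cl * (A * (T / t2) ^ 2 * M) := by gcongr
          _ = _ := by ring
      rcases le_or_gt (T / 2) t with h4 | h4
      · have hV := hVk T (Or.inr rfl) le_rfl (Or.inr rfl)
        have h5 := hstep T hsT' le_rfl hV h4 h2
        rw [norm_sub_rev] at h5
        refine h5.trans ?_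
        have h6 : (T / T) ^ 2 ≤ (T / t) ^ 2 := by gcongr
        have h7 : Cl * A * (T / T) ^ 2 * M ≤ Cl * A * (T / t) ^ 2 * M := by gcongr
        have h8 : 0 ≤ Cl * A * (T / t) ^ 2 * M := by positivity
        linarith
      · have hV := hVk (2 * t) (Or.inl (by linarith)) (by linarith) (Or.inl (by linarith))
        have h5 := hstep (2 * t) (by linarith) (by linarith) hV (by linarith) (by linarith)
        have h6 := ih (2 * t) (by linarith) (by linarith) (by
          have e : (2 : ℝ) ^ (n + 1) * t = 2 ^ n * (2 * t) := by ring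
          rwa [e] at h3)
        have h7 : (T / (2 * t)) ^ 2 = (T / t) ^ 2 / 4 := by
          field_simp
          ring
        rw [h7] at h5 h6
        have h8 : ‖b p' t - b p' T‖ ≤ ‖b p' (2 * t) - b p' t‖ + ‖b p' (2 * t) - b p' T‖ := by
          have := norm_sub_le (b p' (2 * t) - b p' T) (b p' (2 * t) - b p' t)
          have e : b p' (2 * t) - b p' T - (b p' (2 * t) - b p' t) = b p' t - b p' T := by abel
          rw [e] at this
          linarith
        have h9 : 0 ≤ Cl * A * (T / t) ^ 2 * M := by positivity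
        have e5 : Cl * A * ((T / t) ^ 2 / 4) * M = Cl * A * (T / t) ^ 2 * M / 4 := by ring
        have e6 : 2 * (Cl * A) * ((T / t) ^ 2 / 4) * M = Cl * A * (T / t) ^ 2 * M / 2 := by ring
        have e7 : 2 * (Cl * A) * (T / t) ^ 2 * M = 2 * (Cl * A * (T / t) ^ 2 * M) := by ring
        rw [e5] at h5
        rw [e6] at h6
        rw [e7]
        linarith only [h5, h6, h8, h9]
  -- conclusion
  obtain ⟨n, hn⟩ : ∃ n : ℕ, T ≤ 2 ^ n * s' := by
    obtain ⟨n, hn⟩ := pow_unbounded_of_one_lt (T / s') (show (1 : ℝ) < 2 by norm_num)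
    exact ⟨n, by rw [div_lt_iff₀ hs'] at hn; exact hn.le⟩
  have hkey : ∀ t, s' ≤ t → t ≤ T → ‖b p' t - b p' T‖ ≤ 2 * (Cl * A) * (T / t) ^ 2 * M := by
    intro t h1 h2
    refine key n t h1 h2 (hn.trans ?_)
    gcongr
  have hmon : ∀ t, s' ≤ t → t ≤ T →
      2 * (Cl * A) * (T / t) ^ 2 * M ≤ 2 * (Cl * A) * (T / s') ^ 2 * M := by
    intro t h1 h2
    have ht : 0 < t := hs'.trans_le h1
    gcongr
  refine ⟨⟨hs', by linarith, hdp', fun t h1 h2 => ?_⟩, ?_⟩
  · rcases le_or_gt T t with h3 | h3
    · exact (above t h3 h2).trans (by linarith)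
    · have h4 := hkey t h1 h3.le
      have h5 := hmon t h1 h3.le
      have h6 : ‖b p' t - b0‖ ≤ ‖b p' t - b p' T‖ + ‖b p' T - b0‖ := by
        have := norm_add_le (b p' t - b p' T) (b p' T - b0)
        simpa using this
      have h7 := above T le_rfl hTs1
      linarith
  · have h1 := hkey s' le_rfl hsT'
    have h2 := lateral T le_rfl hTs1
    obtain ⟨m, hm⟩ := pow_unbounded_of_one_lt (T / s) (show (1 : ℝ) < 2 by norm_num)
    rw [div_lt_iff₀ hs] at hm
    have h3 := own_sum m T hsT hTs1 hm.le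
    rw [← hM] at h3
    have h4 : ‖b p' s' - b p s‖ ≤ ‖b p' s' - b p' T‖ + ‖b p T - b p' T‖ + ‖b p T - b p s‖ := by
      have e : b p' s' - b p s = (b p' s' - b p' T) - (b p T - b p' T) + (b p T - b p s) := by abel
      rw [e]
      refine (norm_add_le _ _).trans ?_
      gcongr
      exact norm_sub_le _ _
    have hq : 0 < 1 - (2 : ℝ) ^ (-th) := by linarith
    have h5 : Cl * A * (1 / (1 - (2 : ℝ) ^ (-th))) * M ≤
        Cl * A * (1 / (1 - (2 : ℝ) ^ (-th))) * (T / s') ^ 2 * M := by
      have : 0 ≤ Cl * A * (1 / (1 - (2 : ℝ) ^ (-th))) * M := by positivity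
      nlinarith
    have h6 : 0 ≤ Cl * A * (T / s') ^ 2 * M := by positivity
    have h7 : 0 ≤ Cl * A * (1 / (1 - (2 : ℝ) ^ (-th))) * (T / s') ^ 2 * M := by positivity
    have h8 : KN th A Cl * (T / s') ^ 2 * M = 16 * (Cl * A * (T / s') ^ 2 * M) +
        16 * (Cl * A * (1 / (1 - (2 : ℝ) ^ (-th))) * (T / s') ^ 2 * M) := by
      unfold KN
      ring
    rw [h8]
    linarith

end Crest.Agent.R102.NearN314
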