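import Crest.Agent.R102.Res_821

/-!
Row 102, part (B) (helper821): first half of the Newton step: the functions `S, R, Hh`.
-/

set_option autoImplicit false

open Set Filter Topology Metric Complex MeasureTheory
open scoped Real ContDiff ComplexConjugate

noncomputable section

namespace Crest.Agent.R102.B821

open Crest.Agent.R266.SCV

variable {ρ₀ ε₀ k ρ r d A B : ℝ} {L Ψ U V f g : ℂ × ℂ → ℂ} {M : ℕ}

section Tools

/-- division by `w` with bounds -/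
lemma IsH.exists_div_one (hk : 0 ≤ k) (hf : IsH k ρ r f) (hb : Bdd k ρ r (M + 1) A f) :
    ∃ g, IsH k ρ r g ∧ Bdd k ρ r M A g ∧ ∀ p ∈ Dom k ρ r, f p = p.2 * g p := by
  obtain ⟨g, hg, hfg⟩ := hf.exists_div_w hk (fun t ht => by
    have := hb _ ht
    simp only [norm_zero] at this
    rw [zero_pow (Nat.succ_ne_zero M), mul_zero] at this
    exact norm_le_zero_iff.1 this)
  refine ⟨g, hg, bdd_of_ne hk hg.continuousOn (fun t w hp hw => ?_), fun p hp => hfg p.1 p.2 hp⟩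
  have h1 := hb _ hp
  rw [hfg t w hp, norm_mul] at h1
  simp only at h1
  have hw' : 0 < ‖w‖ := norm_pos_iff.2 hw
  have h2 : ‖w‖ * ‖g (t, w)‖ ≤ ‖w‖ * (A * ‖w‖ ^ M) := by
    calc ‖w‖ * ‖g (t, w)‖ ≤ A * ‖w‖ ^ (M + 1) := h1
      _ = ‖w‖ * (A * ‖w‖ ^ M) := by ring
  exact le_of_mul_le_mul_left h2 hw'

/-- a function in `H_k` vanishing off `w = 0` vanishes -/
lemma IsH.eq_zero_of_ne (hk : 0 ≤ k) (hf : IsH k ρ r f)
    (h : ∀ t w : ℂ, (t, w) ∈ Dom k ρ r → w ≠ 0 → f (t, w) = 0) : ∀ p ∈ Dom k ρ r, f p = 0 := by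
  intro p hp
  have := bdd_of_ne (A := 0) (M := 0) hk hf.continuousOn
    (fun t w hp hw => by rw [h t w hp hw]; simp) p hp
  simp only [zero_mul] at this
  exact norm_le_zero_iff.1 this

lemma IsRe.of_mul_w (hk : 0 ≤ k) (hg : IsH k ρ r g) (h : IsRe k ρ r (fun p => p.2 * g p)) :
    IsRe k ρ r g := by
  have h1 := (hg.cj.sub hg).eq_zero_of_ne hk (fun t w hp hw => by
    have h2 := h _ hp
    unfold cj at h2
    simp only [map_mul, Complex.conj_conj] at h2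
    have h3 := mul_left_cancel₀ hw h2
    unfold cj
    rw [h3, sub_self])
  intro p hp
  exact sub_eq_zero.1 (h1 p hp)

lemma IsPar.of_mul_w (hk : 0 ≤ k) {s : ℂ} (hg : IsH k ρ r g)
    (h : IsPar k ρ r s (fun p => p.2 * g p)) : IsPar k ρ r (-s) g := by
  have h1 := (hg.rf.sub ((IsH.const (-s)).mul hg)).eq_zero_of_ne hk (fun t w hp hw => by
    have h2 := h _ hp
    unfold rf at h2
    simp only at h2
    have h3 : w * (g (t, -w)) = w * (-s * g (t, w)) := by linear_combination -h2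
    have h4 := mul_left_cancel₀ hw h3
    unfold rf
    simp only
    rw [h4, sub_self])
  intro p hp
  exact sub_eq_zero.1 (h1 p hp)

lemma IsRe.congr (h : IsRe k ρ r f) (hfg : ∀ p ∈ Dom k ρ r, g p = f p) : IsRe k ρ r g := by
  rintro ⟨t, w⟩ hp
  have h1 := h _ hp
  unfold cj at h1 ⊢
  rw [hfg _ hp, hfg _ (mem_Dom_conj.2 hp)]
  exact h1

lemma IsPar.congr {s : ℂ} (h : IsPar k ρ r s f) (hfg : ∀ p ∈ Dom k ρ r, g p = f p) :
    IsPar k ρ r s g := by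
  rintro ⟨t, w⟩ hp
  have h1 := h _ hp
  unfold rf at h1 ⊢
  rw [hfg _ hp, hfg _ (mem_Dom_neg.2 hp)]
  exact h1

lemma IsRe.mono {k' ρ' r' : ℝ} (h : IsRe k ρ r f) (hk : k ≤ k') (hρ : ρ' ≤ ρ) (hr : r' ≤ r) :
    IsRe k' ρ' r' f := fun p hp => h p (Dom_mono hk hρ hr hp)

lemma IsPar.mono {k' ρ' r' : ℝ} {s : ℂ} (h : IsPar k ρ r s f) (hk : k ≤ k') (hρ : ρ' ≤ ρ)
    (hr : r' ≤ r) : IsPar k' ρ' r' s f := fun p hp => h p (Dom_mono hk hρ hr hp)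

lemma IsRe.mul (hf : IsRe k ρ r f) (hg : IsRe k ρ r g) : IsRe k ρ r (fun p => f p * g p) := by
  intro p hp
  have h1 := hf p hp
  have h2 := hg p hp
  unfold cj at *
  rw [map_mul, h1, h2]

lemma IsPar.mul {s s' : ℂ} (hf : IsPar k ρ r s f) (hg : IsPar k ρ r s' g) :
    IsPar k ρ r (s * s') (fun p => f p * g p) := by
  intro p hp
  have h1 := hf p hp
  have h2 := hg p hp
  unfold rf at *
  simp only at h1 h2 ⊢
  rw [h1, h2]
  ring

lemma IsRe.sub (hf : IsRe k ρ r f) (hg : IsRe k ρ r g) : IsRe k ρ r (fun p => f p - g p) := by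
  intro p hp
  have h1 := hf p hp
  have h2 := hg p hp
  unfold cj at *
  rw [map_sub, h1, h2]

lemma IsPar.sub {s : ℂ} (hf : IsPar k ρ r s f) (hg : IsPar k ρ r s g) :
    IsPar k ρ r s (fun p => f p - g p) := by
  intro p hp
  have h1 := hf p hp
  have h2 := hg p hp
  unfold rf at *
  simp only at h1 h2 ⊢
  rw [h1, h2]
  ring

lemma IsRe.add (hf : IsRe k ρ r f) (hg : IsRe k ρ r g) : IsRe k ρ r (fun p => f p + g p) := by
  intro p hp
  have h1 := hf p hp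
  have h2 := hg p hp
  unfold cj at *
  rw [map_add, h1, h2]

lemma IsPar.add {s : ℂ} (hf : IsPar k ρ r s f) (hg : IsPar k ρ r s g) :
    IsPar k ρ r s (fun p => f p + g p) := by
  intro p hp
  have h1 := hf p hp
  have h2 := hg p hp
  unfold rf at *
  simp only at h1 h2 ⊢
  rw [h1, h2]
  ring

lemma IsRe.inv (hf : IsRe k ρ r f) : IsRe k ρ r (fun p => (f p)⁻¹) := by
  intro p hp
  have h1 := hf p hp
  unfold cj at *
  rw [map_inv₀, h1]

lemma IsPar.inv_one (hf : IsPar k ρ r 1 f) : IsPar k ρ r 1 (fun p => (f p)⁻¹) := by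
  intro p hp
  have h1 := hf p hp
  unfold rf at *
  simp only at h1 ⊢
  rw [h1, one_mul, one_mul]

/-- zeroth Fourier coefficient of real / even functions, as functions on the domain -/
lemma fc_zero_re (hf : IsRe k ρ r f) {w : ℂ} (hw : ‖w‖ < r) (hk : k * |w.im| < ρ) :
    fc f 0 (conj w) = conj (fc f 0 w) := by
  have hw' : ‖conj w‖ < r := by rwa [Complex.norm_conj]
  have hk' : k * |(conj w).im| < ρ := by simpa using hk
  have h1 : fc (cj f) 0 (conj w) = fc f 0 (conj w) :=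
    fc_congr (fun x => hf _ (real_mem_Dom.2 ⟨hk', hw'⟩)) 0
  rw [← h1, fc_cj, neg_zero, Complex.conj_conj]

lemma fc_zero_par {s : ℂ} (hf : IsPar k ρ r s f) {w : ℂ} (hw : ‖w‖ < r) (hk : k * |w.im| < ρ) :
    fc f 0 (-w) = s * fc f 0 w := by
  have h1 : fc (rf f) 0 w = fc (fun p => (fun _ : ℂ => s) p.2 * f p) 0 w :=
    fc_congr (fun x => hf _ (real_mem_Dom.2 ⟨hk, hw⟩)) 0
  have h5 := fc_mul_w (fun _ : ℂ => s) f 0 w
  rw [← fc_rf, h1, h5]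

lemma norm_fc_zero_le (hf : IsH k ρ r f) {M : ℕ} (hb : Bdd k ρ r M A f) {w : ℂ} (hw : ‖w‖ < r)
    (hk : k * |w.im| < ρ) : ‖fc f 0 w‖ ≤ A * ‖w‖ ^ M := by
  have := norm_fc_le hf hb 0 hw hk
  simpa using this

lemma Bdd.mul {A' : ℝ} {M' : ℕ} (hf : Bdd k ρ r M A f) (hg : Bdd k ρ r M' A' g) :
    Bdd k ρ r (M + M') (A * A') (fun p => f p * g p) := by
  intro p hp
  have h1 := hf p hp
  have h2 := hg p hp
  have h3 : 0 ≤ A * ‖p.2‖ ^ M := (norm_nonneg _).trans h1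
  rw [norm_mul]
  calc ‖f p‖ * ‖g p‖ ≤ (A * ‖p.2‖ ^ M) * (A' * ‖p.2‖ ^ M') :=
        mul_le_mul h1 h2 (norm_nonneg _) h3
    _ = A * A' * ‖p.2‖ ^ (M + M') := by rw [pow_add]; ring

lemma Bdd.neg (hf : Bdd k ρ r M A f) : Bdd k ρ r M A (fun p => - f p) := by
  intro p hp
  rw [norm_neg]
  exact hf p hp

/-- lowering the weight -/
lemma Bdd.lower (hA : 0 ≤ A) (hr : r ≤ 1) {M' : ℕ} (hM : M' ≤ M) (hf : Bdd k ρ r M A f) :
    Bdd k ρ r M' A f := by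
  intro p hp
  refine (hf p hp).trans (mul_le_mul_of_nonneg_left ?_ hA)
  exact pow_le_pow_of_le_one (norm_nonneg _) (hp.2.le.trans hr) hM

end Tools

/-- First half of the Newton step.  `P = del S + R`, `S = w s₁`, `a = w α`,
`Hh = (c₁(w) - s₁) / α` with zero mean. -/
structure Half (L U : ℂ × ℂ → ℂ) (ρ r e β s : ℝ) (α S R s₁ Hh : ℂ × ℂ → ℂ) (c₁ : ℂ → ℂ) : Prop where
  hα : IsH 1 ρ r α
  α_bd : ∀ p ∈ Dom 1 ρ r, ‖α p + 1‖ ≤ 1 / 10
  aα : ∀ p ∈ Dom 1 ρ r, af L U p = p.2 * α p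
  hS : IsH 1 ρ r S
  hR : IsH (3 / 2) ρ r R
  PSR : ∀ p ∈ Dom (3 / 2) ρ r, Pf L U p = del S p + R p
  S_bd : Bdd 1 ρ r 7 s S
  R_bd : Bdd (3 / 2) ρ r 8 β R
  hs₁ : IsH 1 ρ r s₁
  s₁_bd : Bdd 1 ρ r 6 s s₁
  S_eq : ∀ p ∈ Dom 1 ρ r, S p = p.2 * s₁ p
  hc₁ : DifferentiableOn ℂ c₁ (ball 0 r)
  c₁_bd : ∀ w : ℂ, ‖w‖ < r → ‖c₁ w‖ ≤ 5 / 4 * s * ‖w‖ ^ 6
  hHh : IsH 1 ρ r Hh
  Hh_eq : ∀ p ∈ Dom 1 ρ r, Hh p = (c₁ p.2 - s₁ p) * (α p)⁻¹
  Hh_bd : Bdd 1 ρ r 6 (5 / 2 * s) Hh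
  Hh_mean : ∀ w : ℂ, ‖w‖ < r → fc Hh 0 w = 0
  Hh_re : IsRe 1 ρ r Hh
  Hh_par : IsPar 1 ρ r (-1) Hh

lemma norm_inv_bd {z : ℂ} (h : ‖z + 1‖ ≤ 1 / 10) : z ≠ 0 ∧ ‖z⁻¹‖ ≤ 10 / 9 ∧ ‖z⁻¹ + 1‖ ≤ 1 / 9 := by
  have h1 : 9 / 10 ≤ ‖z‖ := by
    have h2 : ‖(1 : ℂ)‖ ≤ ‖z + 1‖ + ‖z‖ := by
      have := norm_sub_le (z + 1) z
      rw [add_sub_cancel_left] at this
      exact this
    rw [norm_one] at h2
    linarith
  have h0 : 0 < ‖z‖ := by linarith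
  have hz : z ≠ 0 := norm_pos_iff.1 h0
  refine ⟨hz, ?_, ?_⟩
  · rw [norm_inv]
    rw [inv_le_comm₀ h0 (by norm_num)]
    norm_num
    linarith
  · have e : z⁻¹ + 1 = (z + 1) * z⁻¹ := by field_simp; ring
    rw [e, norm_mul, norm_inv]
    calc ‖z + 1‖ * ‖z‖⁻¹ ≤ 1 / 10 * (10 / 9) := by
          refine mul_le_mul h ?_ (by positivity) (by norm_num)
          rw [inv_le_comm₀ h0 (by norm_num)]
          norm_num
          linarith
      _ = 1 / 9 := by norm_num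

theorem Adm.exists_half (hL : IsLag ρ₀ ε₀ L Ψ) {r₂ : ℝ}
    (hr₂ : ∀ x y : ℂ, (x, y) ∈ Dg (3 / 4 * ρ₀) (ε₀ / 2) → ‖y - x‖ ≤ r₂ →
        ‖q2 (q1 L) (x, y) + (y - x)‖ ≤ 1 / 100 * ‖y - x‖)
    {C c r₁ e : ℝ} (hC : 0 ≤ C) (hB4 : B4Const ρ₀ L C c r₁)
    (h : Adm ρ₀ ε₀ ρ r U) (hr₁ : r ≤ r₁) (hrr₂ : 2 * r ≤ r₂) (he : 0 ≤ e)
    (hP : Bdd (3 / 2) ρ r 8 e (Pf L U)) (hd : 0 < d) (hdr : 100 * d ≤ r)
    {N : ℕ} (hNc : (N : ℝ) ^ 6 * e ≤ c * d) :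
    ∃ (α S R s₁ Hh : ℂ × ℂ → ℂ) (c₁ : ℂ → ℂ), Half L U (ρ - 2 * d) (r - d) e
      (10 / d ^ 2 * (7 * C * N ^ 5 * e ^ 2) + 3 / d * (e * Real.exp (-(π * d * N))))
      (10000 / d ^ 3 * (e + 7 * C * N ^ 5 * e ^ 2)) α S R s₁ Hh c₁ := by
  have hr := h.r_pos
  have hr1 := h.r_le
  have hrρ := h.r_le_ρ
  have hρ := h.ρ_pos
  set η : ℝ := 7 * C * N ^ 5 * e ^ 2 with hη
  have hη0 : 0 ≤ η := by positivity
  set β : ℝ := 10 / d ^ 2 * η + 3 / d * (e * Real.exp (-(π * d * N))) with hβ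
  set s : ℝ := 10000 / d ^ 3 * (e + η) with hs
  have hs0 : 0 ≤ s := by positivity
  -- first division
  have h32 : (1 : ℝ) + 1 / 2 = 3 / 2 := by norm_num
  have hPd : IsH (1 + 1 / 2) (ρ - d) r (Pf L U) := by
    rw [h32]; exact (h.hPf hL).mono le_rfl (by linarith) le_rfl
  have hPb : Bdd (1 + 1 / 2) (ρ - d) r (7 + 1) e (Pf L U) := by
    rw [h32]; exact hP.mono le_rfl (by linarith) le_rfl
  have hPre : IsRe (1 + 1 / 2) (ρ - d) r (Pf L U) := by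
    rw [h32]; exact (h.Pf_re hL).mono le_rfl (by linarith) le_rfl
  have hPpar : IsPar (1 + 1 / 2) (ρ - d) r (-1) (Pf L U) := by
    rw [h32]; exact (h.Pf_par hL).mono le_rfl (by linarith) le_rfl
  obtain ⟨S, R, hS, hR, hSR, hSb, hRb, hS0, hSre, hSpar, hRre, hRpar⟩ :=
    divisor_sym (k := 1) (ρ := ρ - d) (r := r) (d := d) (B := e) (η := η) (N := N) (M := 7)
      (s := -1) (F := Pf L U) (by norm_num) le_rfl hr hr1 (by linarith) hd (by linarith) he hη0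
      (Or.inr rfl) hPd hPb hPre hPpar (fun w hw => h.mean hL hw)
      (fun n hn hnN j hj hjr => by
        have := h.res_all hL hC hB4 hr₁ he hP hd (by linarith) (by linarith) hNc hn hnN hj hjr
        exact this)
  rw [neg_neg] at hSpar
  rw [h32] at hSR hRb hR
  have e2d : ρ - d - d = ρ - 2 * d := by ring
  rw [e2d] at hS hR hSR hSb hRb hSre hSpar
  -- α
  obtain ⟨α, hα, hαb, hαe⟩ := h.exists_at hL hr₂ hrr₂
  have sub1 : Dom 1 (ρ - 2 * d) (r - d) ⊆ Dom 1 ρ r :=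
    Dom_mono le_rfl (by linarith) (by linarith)
  have hα' : IsH 1 (ρ - 2 * d) (r - d) α := hα.mono le_rfl (by linarith) (by linarith)
  have hαre : IsRe 1 (ρ - 2 * d) (r - d) α := by
    have h1 : IsRe 1 ρ r (fun p => p.2 * α p) :=
      (h.af_re hL).congr (fun p hp => (hαe p hp).symm)
    exact (h1.of_mul_w (by norm_num) hα).mono le_rfl (by linarith) (by linarith)
  have hαpar : IsPar 1 (ρ - 2 * d) (r - d) 1 α := by
    have h1 : IsPar 1 ρ r (-1) (fun p => p.2 * α p) :=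
      (h.af_par hL).congr (fun p hp => (hαe p hp).symm)
    have h2 := h1.of_mul_w (by norm_num) hα
    rw [neg_neg] at h2
    exact h2.mono le_rfl (by linarith) (by linarith)
  have hαne : ∀ p ∈ Dom 1 (ρ - 2 * d) (r - d), α p ≠ 0 := fun p hp => (norm_inv_bd (hαb p (sub1 hp))).1
  -- s₁
  obtain ⟨s₁, hs₁, hs₁b, hs₁e⟩ := hS.exists_div_one (M := 6) (by norm_num) hSb
  have hs₁re : IsRe 1 (ρ - 2 * d) (r - d) s₁ :=
    (hSre.congr (g := fun p => p.2 * s₁ p) (fun p hp => (hs₁e p hp).symm)).of_mul_w (by norm_num) hs₁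
  have hs₁par : IsPar 1 (ρ - 2 * d) (r - d) (-1) s₁ :=
    (hSpar.congr (g := fun p => p.2 * s₁ p) (fun p hp => (hs₁e p hp).symm)).of_mul_w (by norm_num) hs₁
  -- means
  set ia : ℂ × ℂ → ℂ := fun p => (α p)⁻¹ with hia
  have hiaH : IsH 1 (ρ - 2 * d) (r - d) ia := hα'.inv hαne
  have hiab : Bdd 1 (ρ - 2 * d) (r - d) 0 (10 / 9) ia := by
    intro p hp
    rw [pow_zero, mul_one]
    exact (norm_inv_bd (hαb p (sub1 hp))).2.1
  have hia1 : Bdd 1 (ρ - 2 * d) (r - d) 0 (1 / 9) (fun p => ia p + 1) := by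
    intro p hp
    rw [pow_zero, mul_one]
    exact (norm_inv_bd (hαb p (sub1 hp))).2.2
  have hkw : ∀ w : ℂ, ‖w‖ < r - d → 1 * |w.im| < ρ - 2 * d := fun w hw =>
    k_im_lt (by norm_num) (by linarith) (by linarith) hw
  set m : ℂ → ℂ := fc ia 0 with hm
  have hmd : DifferentiableOn ℂ m (ball 0 (r - d)) :=
    differentiableOn_fc hiaH 0 isOpen_ball (fun w hw => by
      rw [mem_ball_zero_iff] at hw; exact ⟨hw, hkw w hw⟩)
  have hm1 : ∀ w : ℂ, ‖w‖ < r - d → ‖m w + 1‖ ≤ 1 / 9 := by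
    intro w hw
    have h1 : fc (fun p => ia p + 1) 0 w = m w + 1 := by
      rw [fc_add hiaH (IsH.const 1) 0 hw (hkw w hw)]
      congr 1
      unfold fc
      simp [ee_zero]
    rw [← h1]
    have := norm_fc_zero_le (hiaH.add (IsH.const 1)) hia1 hw (hkw w hw)
    simpa using this
  have hmne : ∀ w : ℂ, ‖w‖ < r - d → m w ≠ 0 ∧ ‖(m w)⁻¹‖ ≤ 9 / 8 := by
    intro w hw
    have h1 : 8 / 9 ≤ ‖m w‖ := by
      have h2 : ‖(1 : ℂ)‖ ≤ ‖m w + 1‖ + ‖m w‖ := by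
        have := norm_sub_le (m w + 1) (m w)
        rw [add_sub_cancel_left] at this
        exact this
      rw [norm_one] at h2
      have := hm1 w hw
      linarith
    have h0 : 0 < ‖m w‖ := by linarith
    refine ⟨norm_pos_iff.1 h0, ?_⟩
    rw [norm_inv, inv_le_comm₀ h0 (by norm_num)]
    norm_num
    linarith
  set sa : ℂ × ℂ → ℂ := fun p => s₁ p * ia p with hsa
  have hsaH : IsH 1 (ρ - 2 * d) (r - d) sa := hs₁.mul hiaH
  have hsab : Bdd 1 (ρ - 2 * d) (r - d) 6 (s * (10 / 9)) sa := by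
    have := hs₁b.mul hiab
    simpa using this
  have hsad : DifferentiableOn ℂ (fc sa 0) (ball 0 (r - d)) :=
    differentiableOn_fc hsaH 0 isOpen_ball (fun w hw => by
      rw [mem_ball_zero_iff] at hw; exact ⟨hw, hkw w hw⟩)
  set c₁ : ℂ → ℂ := fun w => fc sa 0 w * (m w)⁻¹ with hc₁
  have hc₁d : DifferentiableOn ℂ c₁ (ball 0 (r - d)) :=
    hsad.mul (hmd.inv (fun w hw => (hmne w (by simpa using hw)).1))
  have hc₁b : ∀ w : ℂ, ‖w‖ < r - d → ‖c₁ w‖ ≤ 5 / 4 * s * ‖w‖ ^ 6 := by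
    intro w hw
    rw [hc₁, norm_mul]
    have h1 := norm_fc_zero_le hsaH hsab hw (hkw w hw)
    have h2 := (hmne w hw).2
    calc ‖fc sa 0 w‖ * ‖(m w)⁻¹‖ ≤ (s * (10 / 9) * ‖w‖ ^ 6) * (9 / 8) :=
          mul_le_mul h1 h2 (norm_nonneg _) (by positivity)
      _ = 5 / 4 * s * ‖w‖ ^ 6 := by ring
  set Hh : ℂ × ℂ → ℂ := fun p => (c₁ p.2 - s₁ p) * ia p with hHh
  have hc₁H : IsH 1 (ρ - 2 * d) (r - d) (fun p => c₁ p.2) := IsH.ofW hc₁d
  have hHhH : IsH 1 (ρ - 2 * d) (r - d) Hh := (hc₁H.sub hs₁).mul hiaH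
  have hc₁B : Bdd 1 (ρ - 2 * d) (r - d) 6 (5 / 4 * s) (fun p => c₁ p.2) :=
    fun p hp => hc₁b p.2 hp.2
  have hHhb : Bdd 1 (ρ - 2 * d) (r - d) 6 (5 / 2 * s) Hh := by
    have := (hc₁B.sub hs₁b).mul hiab
    have h2 : (5 / 4 * s + s) * (10 / 9) = 5 / 2 * s := by ring
    rw [h2] at this
    simpa using this
  have hmean : ∀ w : ℂ, ‖w‖ < r - d → fc Hh 0 w = 0 := by
    intro w hw
    have e1 : fc Hh 0 w = fc (fun p => c₁ p.2 * ia p - sa p) 0 w :=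
      fc_congr (fun x => by simp only [hHh, hsa]; ring) 0
    rw [e1, fc_sub (hc₁H.mul hiaH) hsaH 0 hw (hkw w hw), fc_mul_w c₁ ia 0 w]
    simp only [hc₁]
    rw [mul_assoc, ← hm, inv_mul_cancel₀ (hmne w hw).1, mul_one, sub_self]
  -- symmetries of c₁
  have hiare : IsRe 1 (ρ - 2 * d) (r - d) ia := hαre.inv
  have hiapar : IsPar 1 (ρ - 2 * d) (r - d) 1 ia := hαpar.inv_one
  have hsare : IsRe 1 (ρ - 2 * d) (r - d) sa := hs₁re.mul hiare
  have hsapar : IsPar 1 (ρ - 2 * d) (r - d) (-1) sa := by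
    have := hs₁par.mul hiapar
    rw [mul_one] at this
    exact this
  have hc₁re : IsRe 1 (ρ - 2 * d) (r - d) (fun p => c₁ p.2) := by
    rintro ⟨t, w⟩ hp
    have hw : ‖w‖ < r - d := hp.2
    unfold cj
    simp only [hc₁]
    rw [fc_zero_re hsare hw (hkw w hw), hm, fc_zero_re hiare hw (hkw w hw)]
    simp
  have hc₁par : IsPar 1 (ρ - 2 * d) (r - d) (-1) (fun p => c₁ p.2) := by
    rintro ⟨t, w⟩ hp
    have hw : ‖w‖ < r - d := hp.2
    unfold rf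
    simp only [hc₁]
    rw [fc_zero_par hsapar hw (hkw w hw), hm, fc_zero_par hiapar hw (hkw w hw)]
    ring
  refine ⟨α, S, R, s₁, Hh, c₁, ?_⟩
  refine { hα := hα', α_bd := fun p hp => hαb p (sub1 hp), aα := fun p hp => hαe p (sub1 hp),
           hS := hS, hR := hR, PSR := hSR, S_bd := hSb, R_bd := hRb, hs₁ := hs₁, s₁_bd := hs₁b,
           S_eq := hs₁e, hc₁ := hc₁d, c₁_bd := hc₁b, hHh := hHhH, Hh_eq := fun p hp => rfl,
           Hh_bd := hHhb, Hh_mean := hmean, Hh_re := (hc₁re.sub hs₁re).mul hiare, Hh_par := ?_ }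
  have := (hc₁par.sub hs₁par).mul hiapar
  rw [mul_one] at this
  exact this

end Crest.Agent.R102.B821
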