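import Crest.Agent.R102.NewtA_821

/-!
Row 102, part (B) (helper821): the second resonance lemma (N3): the function `Hh` of the first half
of the Newton step has small resonant Fourier coefficients.
-/

set_option autoImplicit false

open Set Filter Topology Metric Complex MeasureTheory
open scoped Real ContDiff ComplexConjugate

noncomputable section

namespace Crest.Agent.R102.B821

open Crest.Agent.R266.SCV

variable {ρ₀ ε₀ k ρ r d A B : ℝ} {L Ψ U V f g : ℂ × ℂ → ℂ} {M : ℕ}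

section Resonant

/-- the sign `(-1)^j` -/
lemma sigma_spec {n j : ℤ} (hn : n ≠ 0) {w : ℂ} (hw : w = (j : ℂ) / n) :
    ∃ σ : ℂ, σ * σ = 1 ∧ ‖σ‖ = 1 ∧ ee (n * (((1 / 2 : ℝ) : ℂ) * w)) = σ ∧
      ee (n * (((-(1 / 2) : ℝ) : ℂ) * w)) = σ := by
  have hn' : (n : ℂ) ≠ 0 := by exact_mod_cast hn
  set σ := ee (n * (((1 / 2 : ℝ) : ℂ) * w)) with hσ
  have h1 : σ * σ = 1 := by
    rw [hσ, ← ee_add]
    have : (n * (((1 / 2 : ℝ) : ℂ) * w) + n * (((1 / 2 : ℝ) : ℂ) * w) : ℂ) = (j : ℂ) := by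
      rw [hw]; push_cast; field_simp; ring
    rw [this]
    exact ee_int j
  have h2 : σ * ee (n * (((-(1 / 2) : ℝ) : ℂ) * w)) = 1 := by
    rw [hσ, ← ee_add]
    have : (n * (((1 / 2 : ℝ) : ℂ) * w) + n * (((-(1 / 2) : ℝ) : ℂ) * w) : ℂ) = 0 := by
      push_cast; ring
    rw [this]
    exact ee_zero
  refine ⟨σ, h1, ?_, rfl, ?_⟩
  · have h3 : ‖σ‖ * ‖σ‖ = 1 := by rw [← norm_mul, h1, norm_one]
    have h4 := norm_nonneg σ
    nlinarith
  · have h0 : σ ≠ 0 := by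
      intro h; rw [h, zero_mul] at h1; exact zero_ne_one h1
    exact mul_left_cancel₀ h0 (h2.trans h1.symm)

lemma q2_del (hf : IsH k ρ r f) {p : ℂ × ℂ} (hp : p ∈ Dom (k + 1 / 2) ρ r) :
    q2 (B821.del f) p = B821.del (q2 f) p +
      (1 / 2 : ℂ) * (tr (1 / 2) (q1 f) p + tr (-(1 / 2)) (q1 f) p) := by
  obtain ⟨t, w⟩ := p
  have e12 : |(1 / 2 : ℝ)| = 1 / 2 := by norm_num
  have m1 : (t + ((1 / 2 : ℝ) : ℂ) * w, w) ∈ Dom k ρ r :=
    tr_mem (k := k) (1 / 2) (p := (t, w)) (by rw [e12]; exact hp)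
  have m2 : (t + ((-(1 / 2) : ℝ) : ℂ) * w, w) ∈ Dom k ρ r :=
    tr_mem (k := k) (-(1 / 2)) (p := (t, w)) (by rw [abs_neg, e12]; exact hp)
  have h1 := hasDerivAt_tr_w (hf.differentiableAt m1)
  have h2 := hasDerivAt_tr_w (hf.differentiableAt m2)
  have h3 := hasDerivAt_snd (hf.del.differentiableAt hp)
  have h4 := h3.unique (h1.sub h2)
  rw [h4]
  unfold del tr
  simp only
  push_cast
  ring

variable {n j : ℤ} {w : ℂ}

lemma fc_del_res (hn : n ≠ 0) (hw : w = (j : ℂ) / n) (hf : IsH k ρ r f) (hwr : ‖w‖ < r)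
    (hk : (k + 1 / 2) * |w.im| < ρ) : fc (del f) n w = 0 := by
  obtain ⟨σ, -, -, h1, h2⟩ := sigma_spec hn hw
  have e1 : |(1 / 2 : ℝ)| = 1 / 2 := by norm_num
  have e2 : |(-(1 / 2) : ℝ)| = 1 / 2 := by norm_num
  have h3 := hf.tr (1 / 2)
  have h4 := hf.tr (-(1 / 2))
  rw [e1] at h3
  rw [e2] at h4
  unfold del
  rw [fc_sub h3 h4 n hwr hk, fc_tr hf _ n hwr (by rw [e1]; exact hk),
    fc_tr hf _ n hwr (by rw [e2]; exact hk), h1, h2, sub_self]

/-- `[(del S) u]_n = - (-1)^j [S del u]_n` at `w = j / n` -/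
lemma fc_del_mul {σ : ℂ}
    (hσ1 : ee (n * (((1 / 2 : ℝ) : ℂ) * w)) = σ) (hσ2 : ee (n * (((-(1 / 2) : ℝ) : ℂ) * w)) = σ)
    {S u : ℂ × ℂ → ℂ} (hS : IsH 1 ρ r S) (hu : IsH (1 / 2) ρ r u) (hwr : ‖w‖ < r)
    (hk : 3 / 2 * |w.im| < ρ) :
    fc (fun p => del S p * u p) n w = - σ * fc (fun p => S p * del u p) n w := by
  have e1 : |(1 / 2 : ℝ)| = 1 / 2 := by norm_num
  have e2 : |(-(1 / 2) : ℝ)| = 1 / 2 := by norm_num
  have hu1 : IsH 1 ρ r (tr (1 / 2) u) := by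
    have := hu.tr (1 / 2)
    rw [e1] at this
    exact this.mono (by norm_num) le_rfl le_rfl
  have hu2 : IsH 1 ρ r (tr (-(1 / 2)) u) := by
    have := hu.tr (-(1 / 2))
    rw [e2] at this
    exact this.mono (by norm_num) le_rfl le_rfl
  have hk1 : 1 * |w.im| < ρ := by
    have := abs_nonneg w.im
    linarith
  have hA := hS.mul hu2
  have hB := hS.mul hu1
  have hA' := hA.tr (1 / 2)
  have hB' := hB.tr (-(1 / 2))
  rw [e1] at hA'
  rw [e2] at hB'
  have h1 : fc (fun p => del S p * u p) n w =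
      fc (fun p => tr (1 / 2) (fun p => S p * tr (-(1 / 2)) u p) p -
        tr (-(1 / 2)) (fun p => S p * tr (1 / 2) u p) p) n w := by
    refine fc_congr (fun x => ?_) n
    unfold del tr
    simp only
    have e3 : (x : ℂ) + ((1 / 2 : ℝ) : ℂ) * w + ((-(1 / 2) : ℝ) : ℂ) * w = x := by push_cast; ring
    have e4 : (x : ℂ) + ((-(1 / 2) : ℝ) : ℂ) * w + ((1 / 2 : ℝ) : ℂ) * w = x := by push_cast; ring
    rw [e3, e4]
    ring
  have hk32 : (1 + 1 / 2 : ℝ) * |w.im| < ρ := by linarith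
  have h2 : fc (fun p => S p * del u p) n w =
      fc (fun p => S p * tr (1 / 2) u p) n w - fc (fun p => S p * tr (-(1 / 2)) u p) n w := by
    rw [← fc_sub hB hA n hwr hk1]
    refine fc_congr (fun x => ?_) n
    unfold del
    ring
  rw [h1, fc_sub hA' hB' n hwr hk32, fc_tr hA _ n hwr (by rw [e1]; exact hk32),
    fc_tr hB _ n hwr (by rw [e2]; exact hk32), hσ1, hσ2, h2]
  ring

/-- the resonance identity behind (N3) -/
theorem res_identity (hn : n ≠ 0) (hw : w = (j : ℂ) / n) {σ : ℂ} (hσ : σ * σ = 1)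
    (hσ1 : ee (n * (((1 / 2 : ℝ) : ℂ) * w)) = σ) (hσ2 : ee (n * (((-(1 / 2) : ℝ) : ℂ) * w)) = σ)
    {P S R u mu : ℂ × ℂ → ℂ} (hP : IsH (3 / 2) ρ r P) (hS : IsH 1 ρ r S) (hR : IsH (3 / 2) ρ r R)
    (hu : IsH (1 / 2) ρ r u) (hmu : IsH 1 ρ r mu)
    (hPS : ∀ p ∈ Dom (3 / 2) ρ r, P p = del S p + R p)
    (hid : ∀ p ∈ Dom (3 / 2) ρ r, del mu p = - q2 P p + q1 (fun q => P q * u q) p)
    (hwr : ‖w‖ < r) (hk : 3 / 2 * |w.im| < ρ) :
    2 * π * I * n * fc (fun p => S p * (1 + del u p)) n w =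
      σ * (2 * π * I * n * fc (fun p => R p * u p) n w - fc (q2 R) n w) := by
  have e1 : |(1 / 2 : ℝ)| = 1 / 2 := by norm_num
  have e2 : |(-(1 / 2) : ℝ)| = 1 / 2 := by norm_num
  have hk1 : 1 * |w.im| < ρ := by
    have := abs_nonneg w.im
    linarith
  have hk32 : (1 + 1 / 2 : ℝ) * |w.im| < ρ := by linarith
  have e32 : (1 + 1 / 2 : ℝ) = 3 / 2 := by norm_num
  have hmem : ∀ x : ℝ, ((x : ℂ), w) ∈ Dom (3 / 2) ρ r := fun x => real_mem_Dom.2 ⟨hk, hwr⟩
  have hu32 : IsH (3 / 2) ρ r u := hu.mono (by norm_num) le_rfl le_rfl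
  have hdu : IsH 1 ρ r (del u) := by
    have := hu.del
    norm_num at this
    exact this
  have hPu := hP.mul hu32
  -- the identity
  have a1 : fc (del mu) n w = 0 := fc_del_res hn hw hmu hwr hk32
  have hdS : IsH (3 / 2) ρ r (del S) := by
    have := hS.del
    rw [e32] at this
    exact this
  have hq2S := hS.q2
  have hdq2S : IsH (3 / 2) ρ r (del (q2 S)) := by
    have := hq2S.del
    rw [e32] at this
    exact this
  have ht1 : IsH (3 / 2) ρ r (tr (1 / 2) (q1 S)) := by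
    have := hS.q1.tr (1 / 2)
    rw [e1, e32] at this
    exact this
  have ht2 : IsH (3 / 2) ρ r (tr (-(1 / 2)) (q1 S)) := by
    have := hS.q1.tr (-(1 / 2))
    rw [e2, e32] at this
    exact this
  -- q2 P = del (q2 S) + 1/2 (...) + q2 R
  have a2 : fc (q2 P) n w = σ * (2 * π * I * n * fc S n w) + fc (q2 R) n w := by
    have b1 : fc (q2 P) n w = fc (fun p => (del (q2 S) p + (fun _ : ℂ => (1 / 2 : ℂ)) p.2 *
        (tr (1 / 2) (q1 S) p + tr (-(1 / 2)) (q1 S) p)) + q2 R p) n w := by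
      refine fc_congr (fun x => ?_) n
      have c1 : q2 P ((x : ℂ), w) = q2 (fun p => del S p + R p) ((x : ℂ), w) := by
        unfold q2
        congr 1
        refine Filter.EventuallyEq.fderiv_eq ?_
        filter_upwards [(isOpen_Dom (3 / 2) ρ r).mem_nhds (hmem x)] with q hq
        exact hPS q hq
      rw [c1]
      have c2 : q2 (fun p => del S p + R p) ((x : ℂ), w) = q2 (del S) ((x : ℂ), w) + q2 R ((x : ℂ), w) := by
        have d1 := hasDerivAt_snd ((hdS.add hR).differentiableAt (hmem x))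
        have d2 := hasDerivAt_snd (hdS.differentiableAt (hmem x))
        have d3 := hasDerivAt_snd (hR.differentiableAt (hmem x))
        exact d1.unique (d2.add d3)
      rw [c2, q2_del hS (by rw [e32]; exact hmem x)]
    have hhalf : IsH (3 / 2) ρ r (fun p => (fun _ : ℂ => (1 / 2 : ℂ)) p.2 *
        (tr (1 / 2) (q1 S) p + tr (-(1 / 2)) (q1 S) p)) := (IsH.const (1 / 2)).mul (ht1.add ht2)
    rw [b1, fc_add (hdq2S.add hhalf) hR.q2 n hwr hk, fc_add hdq2S hhalf n hwr hk,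
      fc_del_res hn hw hq2S hwr hk32, fc_mul_w (fun _ : ℂ => (1 / 2 : ℂ)), fc_add ht1 ht2 n hwr hk,
      fc_tr hS.q1 _ n hwr (by rw [e1]; exact hk32), fc_tr hS.q1 _ n hwr (by rw [e2]; exact hk32),
      hσ1, hσ2, fc_q1 hS n hwr hk1]
    ring
  have a3 : fc (q1 (fun q => P q * u q)) n w = 2 * π * I * n * fc (fun q => P q * u q) n w :=
    fc_q1 hPu n hwr hk
  have a4 : fc (fun q => P q * u q) n w = - σ * fc (fun p => S p * del u p) n w +
      fc (fun p => R p * u p) n w := by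
    rw [← fc_del_mul hσ1 hσ2 hS hu hwr hk, ← fc_add (hdS.mul hu32) (hR.mul hu32) n hwr hk]
    refine fc_congr (fun x => ?_) n
    rw [hPS _ (hmem x)]
    ring
  have a5 : fc (del mu) n w = - fc (q2 P) n w + fc (q1 (fun q => P q * u q)) n w := by
    have b1 : fc (del mu) n w = fc (fun p => q1 (fun q => P q * u q) p - q2 P p) n w := by
      refine fc_congr (fun x => ?_) n
      rw [hid _ (hmem x)]
      ring
    rw [b1, fc_sub hPu.q1 hP.q2 n hwr hk]
    ring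
  have a6 : fc (fun p => S p * (1 + del u p)) n w = fc S n w + fc (fun p => S p * del u p) n w := by
    rw [← fc_add hS (hS.mul hdu) n hwr hk1]
    refine fc_congr (fun x => ?_) n
    ring
  rw [a1, a2, a3, a4] at a5
  rw [a6]
  have hσ0 : σ ≠ 0 := by
    intro h; rw [h, zero_mul] at hσ; exact zero_ne_one hσ
  refine mul_left_cancel₀ hσ0 ?_
  linear_combination a5 - (2 * π * I * n * fc (fun p => R p * u p) n w - fc (q2 R) n w) * hσ

end Resonant

section Twist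

lemma Adm.uf_bd (h : Adm ρ₀ ε₀ ρ r U) : Bdd (1 / 2) ρ r 0 (1 / 99) (uf U) := by
  intro p hp
  have h1 := h.Ut_bd p hp
  have h2 : 99 / 100 ≤ ‖Xt U p‖ := by
    have : ‖(1 : ℂ)‖ ≤ ‖Xt U p‖ + ‖q1 U p‖ := by
      have := norm_sub_le (Xt U p) (q1 U p)
      unfold Xt at this ⊢
      rw [add_sub_cancel_right] at this
      exact this
    rw [norm_one] at this
    linarith
  have h3 : ‖Xw U p‖ ≤ 1 / 100 := h.Uw_bd p hp
  have h0 : 0 < ‖Xt U p‖ := by linarith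
  unfold uf
  rw [norm_mul, norm_inv, pow_zero, mul_one]
  calc ‖Xw U p‖ * ‖Xt U p‖⁻¹ ≤ 1 / 100 * (100 / 99) := by
        refine mul_le_mul h3 ?_ (by positivity) (by norm_num)
        rw [inv_le_comm₀ h0 (by norm_num)]
        norm_num
        linarith
    _ = 1 / 99 := by norm_num

lemma Adm.huf1 (h : Adm ρ₀ ε₀ ρ r U) : IsH 1 ρ r (del (uf U)) := by
  have := h.huf.del
  norm_num at this
  exact this

lemma Adm.deluf_bd (h : Adm ρ₀ ε₀ ρ r U) : Bdd 1 ρ r 0 (2 / 99) (del (uf U)) := by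
  have := h.uf_bd.del
  norm_num at this
  exact this

/-- `μ / w` -/
def mmf (α U : ℂ × ℂ → ℂ) (p : ℂ × ℂ) : ℂ := - (α p * (1 + del (uf U) p))

variable {α : ℂ × ℂ → ℂ}

lemma mmf_bd (h : Adm ρ₀ ε₀ ρ r U) {p : ℂ × ℂ} (hp : p ∈ Dom 1 ρ r) (hα : ‖α p + 1‖ ≤ 1 / 10) :
    ‖mmf α U p - 1‖ ≤ 1 / 8 := by
  have h1 := h.deluf_bd p hp
  rw [pow_zero, mul_one] at h1
  have h2 : ‖α p‖ ≤ 11 / 10 := by
    have := norm_sub_le (α p + 1) 1
    rw [add_sub_cancel_right, norm_one] at this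
    linarith
  have e : mmf α U p - 1 = -(α p + 1) - α p * del (uf U) p := by
    unfold mmf; ring
  rw [e]
  calc ‖-(α p + 1) - α p * del (uf U) p‖ ≤ ‖-(α p + 1)‖ + ‖α p * del (uf U) p‖ := norm_sub_le _ _
    _ ≤ 1 / 10 + 11 / 10 * (2 / 99) := by
        rw [norm_neg, norm_mul]
        refine add_le_add hα (mul_le_mul h2 h1 (norm_nonneg _) (by norm_num))
    _ ≤ 1 / 8 := by norm_num

lemma norm_ge_of_near {z : ℂ} (h : ‖z - 1‖ ≤ 1 / 8) : 7 / 8 ≤ ‖z‖ ∧ z ≠ 0 ∧ ‖z⁻¹‖ ≤ 8 / 7 := by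
  have h1 : 7 / 8 ≤ ‖z‖ := by
    have h2 : ‖(1 : ℂ)‖ ≤ ‖z - 1‖ + ‖z‖ := by
      have := norm_sub_le z (z - 1)
      rw [sub_sub_cancel] at this
      linarith
    rw [norm_one] at h2
    linarith
  have h0 : 0 < ‖z‖ := by linarith
  refine ⟨h1, norm_pos_iff.1 h0, ?_⟩
  rw [norm_inv, inv_le_comm₀ h0 (by norm_num)]
  norm_num
  linarith

/-- `mm` is close to its mean -/
theorem Adm.mmf_near (hL : IsLag ρ₀ ε₀ L Ψ) (h : Adm ρ₀ ε₀ ρ r U) {e : ℝ} (he : 0 ≤ e)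
    (hP : Bdd (3 / 2) ρ r 8 e (Pf L U)) (hd : 0 < d) (hdr : 100 * d ≤ r)
    (hα : IsH 1 (ρ - 2 * d) (r - d) α)
    (hα1 : ∀ p ∈ Dom 1 (ρ - 2 * d) (r - d), ‖α p + 1‖ ≤ 1 / 10)
    (hαe : ∀ p ∈ Dom 1 (ρ - 2 * d) (r - d), af L U p = p.2 * α p) :
    Bdd 1 (ρ - 3 * d) (r - 2 * d) 0 (3000000 * e / d ^ 3)
      (fun p => mmf α U p - fc (mmf α U) 0 p.2) := by
  have hr := h.r_pos
  have hr1 := h.r_le
  have hrρ := h.r_le_ρ
  have hρ := h.ρ_pos
  have hd1 : d ≤ 1 := by linarith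
  have hPH := h.hPf hL
  have hu32 : IsH (3 / 2) ρ r (uf U) := h.huf.mono (by norm_num) le_rfl le_rfl
  have hPu : IsH (3 / 2) ρ r (fun q => Pf L U q * uf U q) := hPH.mul hu32
  have hub : Bdd (3 / 2) ρ r 0 (1 / 99) (uf U) := h.uf_bd.mono (by norm_num) le_rfl le_rfl
  have hPub : Bdd (3 / 2) ρ r 8 (e * (1 / 99)) (fun q => Pf L U q * uf U q) := hP.mul hub
  have hm : IsH 1 (ρ - 2 * d) (r - d) (mmf α U) := by
    have h1 : IsH 1 (ρ - 2 * d) (r - d) (del (uf U)) :=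
      h.huf1.mono le_rfl (by linarith) (by linarith)
    exact (hα.mul ((IsH.const 1).add h1)).neg
  have hdm : IsH (3 / 2) (ρ - 2 * d) (r - d) (del (mmf α U)) := by
    have := hm.del
    norm_num at this
    exact this
  set F : ℂ × ℂ → ℂ := fun p => q1 (fun q => Pf L U q * uf U q) p - q2 (Pf L U) p with hF
  have hFH : IsH (3 / 2) (ρ - 2 * d) (r - d) F :=
    (hPu.q1.sub hPH.q2).mono le_rfl (by linarith) (by linarith)
  have hFb : Bdd (3 / 2) (ρ - 2 * d) (r - d) 7 (300 * e / d) F := by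
    have h1 : Bdd (3 / 2) (ρ - d) r 8 (e * (1 / 99) / d) (q1 (fun q => Pf L U q * uf U q)) :=
      hPub.q1 hPu hd
    have h2 : Bdd (3 / 2) (ρ - 3 / 2 * d) (r - d) 7 (2 ^ (7 + 1) * e / d) (q2 (Pf L U)) :=
      Bdd.q2 (by norm_num) hr1 he hPH hP hd hd1
    have h1' : Bdd (3 / 2) (ρ - 2 * d) (r - d) 7 (e * (1 / 99) / d)
        (q1 (fun q => Pf L U q * uf U q)) :=
      (h1.lower (by positivity) hr1 (by norm_num)).mono le_rfl (by linarith) (by linarith)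
    have h2' := h2.mono (k' := 3 / 2) (ρ' := ρ - 2 * d) (r' := r - d) le_rfl (by linarith) le_rfl
    refine (h1'.sub h2').le ?_
    rw [← add_div]
    refine div_le_div_of_nonneg_right ?_ hd.le
    norm_num
    linarith
  -- F = w * F₁, F₁ = del mm
  obtain ⟨F₁, hF₁, hF₁b, hFF₁⟩ := hFH.exists_div_one (M := 6) (by norm_num) hFb
  have hdelmu : ∀ p ∈ Dom (3 / 2) (ρ - 2 * d) (r - d), F p = p.2 * del (mmf α U) p := by
    rintro ⟨t, w⟩ hp
    have hp' : (t, w) ∈ Dom (3 / 2) ρ r := Dom_mono le_rfl (by linarith) (by linarith) hp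
    have h1 := h.ident3' hL hp'
    have h2 : del (muf L U) (t, w) = w * del (mmf α U) (t, w) := by
      have m1 : (t + ((1 / 2 : ℝ) : ℂ) * w, w) ∈ Dom 1 (ρ - 2 * d) (r - d) :=
        tr_mem_half (1 / 2) (by norm_num) hp
      have m2 : (t + ((-(1 / 2) : ℝ) : ℂ) * w, w) ∈ Dom 1 (ρ - 2 * d) (r - d) :=
        tr_mem_half (-(1 / 2)) (by rw [abs_neg]; norm_num) hp
      unfold del tr
      simp only
      unfold muf mmf
      rw [hαe _ m1, hαe _ m2]
      ring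
    rw [hF]
    simp only
    rw [← h2, h1]
    ring
  have hF₁e : ∀ p ∈ Dom (3 / 2) (ρ - 2 * d) (r - d), del (mmf α U) p = F₁ p := by
    intro p hp
    have := (hdm.sub hF₁).eq_zero_of_ne (by norm_num) (fun t w hq hw => by
      have h1 := hdelmu _ hq
      rw [hFF₁ _ hq] at h1
      have h2 := mul_left_cancel₀ hw h1
      rw [h2, sub_self]) p hp
    exact sub_eq_zero.1 this
  obtain ⟨g, hg, hgb, hgF⟩ := hF₁.exists_div_one (M := 5) (by norm_num) hF₁b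
  have hC0 : 0 ≤ 300 * e / d := by positivity
  have hg0 : Bdd (3 / 2) (ρ - 2 * d) (r - d) 0 (300 * e / d) g :=
    hgb.lower hC0 (by linarith) (by norm_num)
  have hmb : Bdd 1 (ρ - 2 * d) (r - d) 0 (9 / 8) (mmf α U) := by
    intro p hp
    have hp' : p ∈ Dom 1 ρ r := Dom_mono le_rfl (by linarith) (by linarith) hp
    have h1 := mmf_bd (α := α) h hp' (hα1 p hp)
    rw [pow_zero, mul_one]
    have := norm_add_le (mmf α U p - 1) 1
    rw [sub_add_cancel, norm_one] at this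
    linarith
  have e32 : (1 : ℝ) + 1 / 2 = 3 / 2 := by norm_num
  have key := del_bound (k := 1) (ρ := ρ - 2 * d) (r := r - d) (d := d) (B := 300 * e / d)
    (A := 9 / 8) (by norm_num) le_rfl (by linarith) (by linarith) (by linarith) hd (by linarith) hC0
    (g := g) (μ := mmf α U) (by rw [e32]; exact hg) (by rw [e32]; exact hg0) hm hmb
    (by
      rw [e32]
      intro p hp
      rw [hF₁e p hp, hgF p hp])
  have e1 : ρ - 2 * d - d = ρ - 3 * d := by ring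
  have e2 : r - d - d = r - 2 * d := by ring
  rw [e1, e2] at key
  refine key.le (le_of_eq ?_)
  field_simp
  ring

set_option maxHeartbeats 2000000 in
/-- (N3): second resonance lemma -/
theorem Adm.res_half (hL : IsLag ρ₀ ε₀ L Ψ) (h : Adm ρ₀ ε₀ ρ r U) {e β s : ℝ} (he : 0 ≤ e)
    (hβ : 0 ≤ β) (hs : 0 ≤ s)
    (hP : Bdd (3 / 2) ρ r 8 e (Pf L U)) (hd : 0 < d) (hdr : 100 * d ≤ r)
    {S R s₁ Hh : ℂ × ℂ → ℂ} {c₁ : ℂ → ℂ}
    (hH : Half L U (ρ - 2 * d) (r - d) e β s α S R s₁ Hh c₁)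
    {n j : ℤ} (hn : n ≠ 0) (hj : j ≠ 0) (hjr : |(j : ℝ) / n| < r - 2 * d) :
    ‖fc Hh n ((j : ℂ) / n)‖ ≤ (58 * β / d + 12000000 * (s * e) / d ^ 3) * |(j : ℝ) / n| ^ 6 *
      Real.exp (-(2 * π * |(n : ℝ)| * (ρ - 4 * d))) := by
  have hr := h.r_pos
  have hr1 := h.r_le
  have hrρ := h.r_le_ρ
  have hρ := h.ρ_pos
  have hd1 : d ≤ 1 := by linarith
  have hnC : (n : ℂ) ≠ 0 := by exact_mod_cast hn
  have hnR : (n : ℝ) ≠ 0 := by exact_mod_cast hn
  have hjR : (j : ℝ) ≠ 0 := by exact_mod_cast hj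
  set x : ℝ := (j : ℝ) / n with hx
  have hx0 : 0 < |x| := abs_pos.2 (div_ne_zero hjR hnR)
  set w : ℂ := (j : ℂ) / n with hw
  have hwx : w = (x : ℂ) := by rw [hw, hx]; push_cast; rfl
  have hwn : ‖w‖ = |x| := by rw [hwx, Complex.norm_real, Real.norm_eq_abs]
  have hwim : w.im = 0 := by rw [hwx, Complex.ofReal_im]
  have hw0 : w ≠ 0 := by rw [← norm_pos_iff, hwn]; exact hx0
  have hwr : ‖w‖ < r - 2 * d := by rw [hwn]; exact hjr
  have hwr1 : ‖w‖ < r - d := by linarith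
  have hkk : ∀ k' : ℝ, k' * |w.im| = 0 := fun k' => by rw [hwim, abs_zero, mul_zero]
  have hn1 : 1 ≤ |(n : ℝ)| := by
    have : 1 ≤ |n| := Int.one_le_abs hn
    exact_mod_cast this
  have hπ := Real.pi_gt_three
  set E4 : ℝ := Real.exp (-(2 * π * |(n : ℝ)| * (ρ - 4 * d))) with hE4
  have hE4pos : 0 < E4 := Real.exp_pos _
  have hexp : ∀ σ' : ℝ, ρ - 4 * d ≤ σ' → Real.exp (-(2 * π * |(n : ℝ)| * σ')) ≤ E4 := by
    intro σ' hσ'
    refine Real.exp_le_exp.2 (neg_le_neg ?_)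
    exact mul_le_mul_of_nonneg_left hσ' (by positivity)
  obtain ⟨σ, hσ, hσn, hσ1, hσ2⟩ := sigma_spec hn hw
  have hmem1 : ∀ y : ℝ, ((y : ℂ), w) ∈ Dom 1 (ρ - 2 * d) (r - d) := fun y =>
    real_mem_Dom.2 ⟨by rw [hkk]; linarith, hwr1⟩
  have hu : IsH (1 / 2) (ρ - 2 * d) (r - d) (uf U) := h.huf.mono le_rfl (by linarith) (by linarith)
  have hdu : IsH 1 (ρ - 2 * d) (r - d) (del (uf U)) := h.huf1.mono le_rfl (by linarith) (by linarith)
  have hu32 : IsH (3 / 2) (ρ - 2 * d) (r - d) (uf U) := hu.mono (by norm_num) le_rfl le_rfl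
  have hone : IsH 1 (ρ - 2 * d) (r - d) (fun p => 1 + del (uf U) p) := (IsH.const 1).add hdu
  -- resonance identity
  have hid := res_identity hn hw hσ hσ1 hσ2 (P := Pf L U) (S := S) (R := R) (u := uf U)
    (mu := muf L U) (ρ := ρ - 2 * d) (r := r - d)
    ((h.hPf hL).mono le_rfl (by linarith) (by linarith)) hH.hS hH.hR hu
    ((h.hmuf hL).mono le_rfl (by linarith) (by linarith)) hH.PSR
    (fun p hp => h.ident3' hL (Dom_mono le_rfl (by linarith) (by linarith) hp))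
    hwr1 (by rw [hkk]; linarith)
  -- bounds of the right side
  have hRu : Bdd (3 / 2) (ρ - 2 * d) (r - d) 8 (β * (1 / 99)) (fun p => R p * uf U p) :=
    hH.R_bd.mul (h.uf_bd.mono (by norm_num) (by linarith) (by linarith))
  have b1 : ‖fc (fun p => R p * uf U p) n w‖ ≤ β * (1 / 99) * |x| ^ 8 * E4 := by
    have h1 := norm_fc_le (hH.hR.mul hu32) hRu n hwr1 (by rw [hkk]; linarith)
    rw [hkk, sub_zero, hwn] at h1
    exact h1.trans (mul_le_mul_of_nonneg_left (hexp _ (by linarith)) (by positivity))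
  have hq2R : Bdd (3 / 2) (ρ - 2 * d - 3 / 2 * d) (r - d - d) 7 (2 ^ (7 + 1) * β / d) (q2 R) :=
    Bdd.q2 (by norm_num) (by linarith) hβ hH.hR hH.R_bd hd hd1
  have b2 : ‖fc (q2 R) n w‖ ≤ 2 ^ (7 + 1) * β / d * |x| ^ 7 * E4 := by
    have hq : IsH (3 / 2) (ρ - 2 * d - 3 / 2 * d) (r - d - d) (q2 R) :=
      hH.hR.q2.mono le_rfl (by linarith) (by linarith)
    have h1 := norm_fc_le (w := w) hq hq2R n (by linarith) (by rw [hkk]; linarith)
    rw [hkk, sub_zero, hwn] at h1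
    exact h1.trans (mul_le_mul_of_nonneg_left (hexp _ (by linarith)) (by positivity))
  have hx1 : |x| ≤ 1 := by linarith
  have hx87 : |x| ^ 8 ≤ |x| ^ 7 := pow_le_pow_of_le_one hx0.le hx1 (by norm_num)
  have b3 : ‖fc (fun p => S p * (1 + del (uf U) p)) n w‖ ≤ 50 * β / d * |x| ^ 7 * E4 := by
    have hnn : ‖(2 * π * I * n : ℂ)‖ = 2 * π * |(n : ℝ)| := by
      rw [norm_mul, norm_mul, norm_mul, Complex.norm_I, Complex.norm_ofNat, Complex.norm_real,
        Real.norm_eq_abs, abs_of_pos Real.pi_pos, Complex.norm_intCast, mul_one]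
    have h1 : 2 * π * |(n : ℝ)| * ‖fc (fun p => S p * (1 + del (uf U) p)) n w‖ ≤
        2 * π * |(n : ℝ)| * (β * (1 / 99) * |x| ^ 8 * E4) + 2 ^ (7 + 1) * β / d * |x| ^ 7 * E4 := by
      rw [← hnn, ← norm_mul, hid, norm_mul, hσn, one_mul]
      refine (norm_sub_le _ _).trans (add_le_add ?_ b2)
      rw [norm_mul]
      exact mul_le_mul_of_nonneg_left b1 (norm_nonneg _)
    have hpos : 0 < 2 * π * |(n : ℝ)| := by positivity
    have h6 : 6 ≤ 2 * π * |(n : ℝ)| := by nlinarith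
    refine le_of_mul_le_mul_left (h1.trans ?_) hpos
    have hy : 0 ≤ β * |x| ^ 7 * E4 := by positivity
    have hdd : 1 ≤ 1 / d := by rw [le_div_iff₀ hd]; linarith
    have h3 : β * (1 / 99) * |x| ^ 8 * E4 ≤ 1 / 99 * (β * |x| ^ 7 * E4) * (1 / d) := by
      have : β * (1 / 99) * |x| ^ 8 * E4 ≤ β * (1 / 99) * |x| ^ 7 * E4 := by gcongr
      nlinarith
    have h4 : (2 : ℝ) ^ (7 + 1) * β / d * |x| ^ 7 * E4 = 256 * (β * |x| ^ 7 * E4) * (1 / d) := by
      norm_num; ring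
    have h5 : 50 * β / d * |x| ^ 7 * E4 = 50 * (β * |x| ^ 7 * E4) * (1 / d) := by ring
    rw [h4, h5]
    have hyd : 0 ≤ (β * |x| ^ 7 * E4) * (1 / d) := by positivity
    have h7 : 2 * π * |(n : ℝ)| * (β * (1 / 99) * |x| ^ 8 * E4) ≤
        2 * π * |(n : ℝ)| * (1 / 99 * (β * |x| ^ 7 * E4) * (1 / d)) :=
      mul_le_mul_of_nonneg_left h3 hpos.le
    nlinarith
  -- T
  set T : ℂ × ℂ → ℂ := fun p => (c₁ p.2 - s₁ p) * (1 + del (uf U) p) with hT
  have hc₁H : IsH 1 (ρ - 2 * d) (r - d) (fun p => c₁ p.2) := IsH.ofW hH.hc₁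
  have hTH : IsH 1 (ρ - 2 * d) (r - d) T := (hc₁H.sub hH.hs₁).mul hone
  have hc₁B : Bdd 1 (ρ - 2 * d) (r - d) 6 (5 / 4 * s) (fun p => c₁ p.2) :=
    fun p hp => hH.c₁_bd p.2 hp.2
  have honeB : Bdd 1 (ρ - 2 * d) (r - d) 0 (101 / 99) (fun p => 1 + del (uf U) p) := by
    intro p hp
    have h1 := h.deluf_bd p (Dom_mono le_rfl (by linarith) (by linarith) hp)
    rw [pow_zero, mul_one] at h1 ⊢
    have := norm_add_le (1 : ℂ) (del (uf U) p)
    rw [norm_one] at this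
    linarith
  have hTB : Bdd 1 (ρ - 2 * d) (r - d) 6 ((5 / 4 * s + s) * (101 / 99)) T := by
    have := (hc₁B.sub hH.s₁_bd).mul honeB
    simpa using this
  -- Fourier coefficient of T
  have t1 : w * fc T n w = - fc (fun p => S p * (1 + del (uf U) p)) n w := by
    have h1 : w * fc T n w = fc (fun p => (fun z : ℂ => z) p.2 * T p) n w := by
      rw [fc_mul_w (fun z : ℂ => z) T n w]
    have h2 : fc (fun p => (fun z : ℂ => z) p.2 * T p) n w =
        fc (fun p => (fun z : ℂ => z * c₁ z) p.2 * (1 + del (uf U) p) -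
          S p * (1 + del (uf U) p)) n w := by
      refine fc_congr (fun y => ?_) n
      rw [hH.S_eq _ (hmem1 y)]
      simp only [hT]
      ring
    have hcH : IsH 1 (ρ - 2 * d) (r - d) (fun p => (fun z : ℂ => z * c₁ z) p.2) :=
      IsH.ofW (differentiableOn_id.mul hH.hc₁)
    rw [h1, h2, fc_sub (hcH.mul hone) (hH.hS.mul hone) n hwr1 (by rw [hkk]; linarith),
      fc_mul_w (fun z : ℂ => z * c₁ z), fc_add (IsH.const 1) hdu n hwr1 (by rw [hkk]; linarith),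
      fc_del_res hn hw hu hwr1 (by rw [hkk]; linarith)]
    have h3 : fc (fun _ : ℂ × ℂ => (1 : ℂ)) n w = 0 := by
      unfold fc
      have h4 := integral_ee (-n)
      rw [if_neg (neg_ne_zero.2 hn)] at h4
      have h5 : ∫ x in (0 : ℝ)..1, (1 : ℂ) * ee (-(n * x)) = ∫ x in (0 : ℝ)..1, ee ((-n : ℤ) * x) := by
        refine intervalIntegral.integral_congr (fun x _ => ?_)
        simp only [one_mul]
        congr 1
        push_cast
        ring
      rw [h5, h4]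
    rw [h3]
    ring
  have b4 : ‖fc T n w‖ ≤ 50 * β / d * |x| ^ 6 * E4 := by
    have h1 : ‖w‖ * ‖fc T n w‖ ≤ ‖w‖ * (50 * β / d * |x| ^ 6 * E4) := by
      rw [← norm_mul, t1, norm_neg, hwn]
      refine b3.trans (le_of_eq ?_)
      ring
    exact le_of_mul_le_mul_left h1 (norm_pos_iff.2 hw0)
  -- mm
  have hmmb : ∀ p ∈ Dom 1 (ρ - 2 * d) (r - d), ‖mmf α U p - 1‖ ≤ 1 / 8 := fun p hp =>
    mmf_bd h (Dom_mono le_rfl (by linarith) (by linarith) hp) (hH.α_bd p hp)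
  have hm : IsH 1 (ρ - 2 * d) (r - d) (mmf α U) := (hH.hα.mul hone).neg
  have hkw : ∀ w : ℂ, ‖w‖ < r - d → 1 * |w.im| < ρ - 2 * d := fun w hw =>
    k_im_lt (by norm_num) (by linarith) (by linarith) hw
  have hm0b : ∀ z : ℂ, ‖z‖ < r - d → ‖fc (mmf α U) 0 z - 1‖ ≤ 1 / 8 := by
    intro z hz
    have h1 : fc (fun p => mmf α U p - (1 : ℂ)) 0 z = fc (mmf α U) 0 z - 1 := by
      rw [fc_sub hm (IsH.const 1) 0 hz (hkw z hz)]
      congr 1
      unfold fc
      simp [ee_zero]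
    rw [← h1]
    have := norm_fc_zero_le (A := 1 / 8) (M := 0) (hm.sub (IsH.const 1))
      (fun p hp => by simpa using hmmb p hp) hz (hkw z hz)
    simpa using this
  have hm0d : DifferentiableOn ℂ (fc (mmf α U) 0) (ball 0 (r - d)) :=
    differentiableOn_fc hm 0 isOpen_ball (fun w hw => by
      rw [mem_ball_zero_iff] at hw; exact ⟨hw, hkw w hw⟩)
  have hm0H : IsH 1 (ρ - 2 * d) (r - d) (fun p => fc (mmf α U) 0 p.2) := IsH.ofW hm0d
  have hminv : IsH 1 (ρ - 2 * d) (r - d) (fun p => (mmf α U p)⁻¹) :=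
    hm.inv (fun p hp => (norm_ge_of_near (hmmb p hp)).2.1)
  have hm0inv : IsH 1 (ρ - 2 * d) (r - d) (fun p => (fc (mmf α U) 0 p.2)⁻¹) :=
    hm0H.inv (fun p hp => (norm_ge_of_near (hm0b p.2 hp.2)).2.1)
  set D : ℂ × ℂ → ℂ := fun p => mmf α U p - fc (mmf α U) 0 p.2 with hD
  have hDb : Bdd 1 (ρ - 3 * d) (r - 2 * d) 0 (3000000 * e / d ^ 3) D :=
    h.mmf_near hL he hP hd hdr hH.hα hH.α_bd hH.aα
  set err : ℂ × ℂ → ℂ := fun p => T p * D p * (mmf α U p)⁻¹ * (fc (mmf α U) 0 p.2)⁻¹ with herr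
  have herrH : IsH 1 (ρ - 2 * d) (r - d) err :=
    ((hTH.mul (hm.sub hm0H)).mul hminv).mul hm0inv
  have hsub3 : Dom 1 (ρ - 3 * d) (r - 2 * d) ⊆ Dom 1 (ρ - 2 * d) (r - d) :=
    Dom_mono le_rfl (by linarith) (by linarith)
  have herrB : Bdd 1 (ρ - 3 * d) (r - 2 * d) 6 (12000000 * (s * e) / d ^ 3) err := by
    have hTB' : Bdd 1 (ρ - 3 * d) (r - 2 * d) 6 ((5 / 4 * s + s) * (101 / 99)) T :=
      fun p hp => hTB p (hsub3 hp)
    have h1 : Bdd 1 (ρ - 3 * d) (r - 2 * d) 0 (8 / 7) (fun p => (mmf α U p)⁻¹) := fun p hp => by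
      rw [pow_zero, mul_one]; exact (norm_ge_of_near (hmmb p (hsub3 hp))).2.2
    have h2 : Bdd 1 (ρ - 3 * d) (r - 2 * d) 0 (8 / 7) (fun p => (fc (mmf α U) 0 p.2)⁻¹) :=
      fun p hp => by
        rw [pow_zero, mul_one]; exact (norm_ge_of_near (hm0b p.2 (by
          have : ‖p.2‖ < r - 2 * d := hp.2
          linarith))).2.2
    have h3 := ((hTB'.mul hDb).mul h1).mul h2
    refine (show Bdd 1 (ρ - 3 * d) (r - 2 * d) 6
      ((5 / 4 * s + s) * (101 / 99) * (3000000 * e / d ^ 3) * (8 / 7) * (8 / 7)) err from h3).le ?_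
    have hse : 0 ≤ s * e / d ^ 3 := by positivity
    have e1 : (5 / 4 * s + s) * (101 / 99) * (3000000 * e / d ^ 3) * (8 / 7) * (8 / 7) =
        (9 / 4 * (101 / 99) * 3000000 * (64 / 49)) * (s * e / d ^ 3) := by ring
    have e2 : 12000000 * (s * e) / d ^ 3 = 12000000 * (s * e / d ^ 3) := by ring
    rw [e1, e2]
    refine mul_le_mul_of_nonneg_right ?_ hse
    norm_num
  -- decomposition of Hh
  have hdec : fc Hh n w = - ((fc (mmf α U) 0 w)⁻¹ * fc T n w) + fc err n w := by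
    have h1 : fc Hh n w = fc (fun p => err p - (fun z : ℂ => (fc (mmf α U) 0 z)⁻¹) p.2 * T p) n w := by
      refine fc_congr (fun y => ?_) n
      have hy := hmem1 y
      have hα0 : α ((y : ℂ), w) ≠ 0 := (norm_inv_bd (hH.α_bd _ hy)).1
      have hmm0 : mmf α U ((y : ℂ), w) ≠ 0 := (norm_ge_of_near (hmmb _ hy)).2.1
      have hm00 : fc (mmf α U) 0 w ≠ 0 := (norm_ge_of_near (hm0b w hwr1)).2.1
      have hone0 : 1 + del (uf U) ((y : ℂ), w) ≠ 0 := by
        intro h0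
        apply hmm0
        unfold mmf
        rw [h0, mul_zero, neg_zero]
      have h2 : Hh ((y : ℂ), w) = - T ((y : ℂ), w) * (mmf α U ((y : ℂ), w))⁻¹ := by
        rw [hH.Hh_eq _ hy]
        simp only [hT]
        unfold mmf
        field_simp
      rw [h2]
      simp only [herr, hD]
      field_simp
      ring
    rw [h1, fc_sub herrH (hm0inv.mul hTH) n hwr1 (by rw [hkk]; linarith),
      fc_mul_w (fun z : ℂ => (fc (mmf α U) 0 z)⁻¹)]
    ring
  have b5 : ‖fc err n w‖ ≤ 12000000 * (s * e) / d ^ 3 * |x| ^ 6 * E4 := by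
    have herrH' : IsH 1 (ρ - 3 * d) (r - 2 * d) err := herrH.mono le_rfl (by linarith) (by linarith)
    have h1 := norm_fc_le herrH' herrB n hwr (by rw [hkk]; linarith)
    rw [hkk, sub_zero, hwn] at h1
    exact h1.trans (mul_le_mul_of_nonneg_left (hexp _ (by linarith)) (by positivity))
  have b6 : ‖(fc (mmf α U) 0 w)⁻¹ * fc T n w‖ ≤ 8 / 7 * (50 * β / d * |x| ^ 6 * E4) := by
    rw [norm_mul]
    exact mul_le_mul (norm_ge_of_near (hm0b w hwr1)).2.2 b4 (norm_nonneg _) (by norm_num)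
  rw [hdec]
  refine (norm_add_le _ _).trans ?_
  rw [norm_neg]
  refine (add_le_add b6 b5).trans ?_
  have hy : 0 ≤ β / d * |x| ^ 6 * E4 := by positivity
  have e1 : 8 / 7 * (50 * β / d * |x| ^ 6 * E4) = 400 / 7 * (β / d * |x| ^ 6 * E4) := by ring
  have e2 : (58 * β / d + 12000000 * (s * e) / d ^ 3) * |x| ^ 6 * E4 =
      58 * (β / d * |x| ^ 6 * E4) + 12000000 * (s * e) / d ^ 3 * |x| ^ 6 * E4 := by ring
  rw [e1, e2]
  linarith

end Twist

end Crest.Agent.R102.B821
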