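import Crest.Agent.R102.NewtB_821

/-!
Row 102, part (B) (helper821): second half of the Newton step: `V`, the new leaf function
`U' = U + X_t V`, and its defect.
-/

set_option autoImplicit false

open Set Filter Topology Metric Complex MeasureTheory
open scoped Real ContDiff ComplexConjugate

noncomputable section

namespace Crest.Agent.R102.B821

open Crest.Agent.R266.SCV

variable {ρ₀ ε₀ k ρ r d A B : ℝ} {L Ψ U V f g : ℂ × ℂ → ℂ} {M : ℕ}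

section Second

/-- the second divisor step (N4) -/
theorem Adm.exists_V (hL : IsLag ρ₀ ε₀ L Ψ) (h : Adm ρ₀ ε₀ ρ r U) {e β s : ℝ} (he : 0 ≤ e)
    (hβ : 0 ≤ β) (hs : 0 ≤ s)
    (hP : Bdd (3 / 2) ρ r 8 e (Pf L U)) (hd : 0 < d) (hdr : 100 * d ≤ r)
    {α S R s₁ Hh : ℂ × ℂ → ℂ} {c₁ : ℂ → ℂ}
    (hH : Half L U (ρ - 2 * d) (r - d) e β s α S R s₁ Hh c₁) {η₂ : ℝ}
    (hη₂ : η₂ = 58 * β / d + 12000000 * (s * e) / d ^ 3) (N : ℕ) :
    ∃ V R₂ : ℂ × ℂ → ℂ, IsH (1 / 2) (ρ - 5 * d) (r - 3 * d) V ∧ IsH 1 (ρ - 5 * d) (r - 3 * d) R₂ ∧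
      (∀ p ∈ Dom 1 (ρ - 5 * d) (r - 3 * d), Hh p = del V p + R₂ p) ∧
      Bdd (1 / 2) (ρ - 5 * d) (r - 3 * d) 5 (10000 / d ^ 3 * (5 / 2 * s + η₂)) V ∧
      Bdd 1 (ρ - 5 * d) (r - 3 * d) 6
        (10 / d ^ 2 * η₂ + 3 / d * (5 / 2 * s * Real.exp (-(π * d * N)))) R₂ ∧
      IsRe (1 / 2) (ρ - 5 * d) (r - 3 * d) V ∧ IsPar (1 / 2) (ρ - 5 * d) (r - 3 * d) 1 V := by
  have hr := h.r_pos
  have hr1 := h.r_le
  have hrρ := h.r_le_ρ
  have hρ := h.ρ_pos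
  have hη0 : 0 ≤ η₂ := by rw [hη₂]; positivity
  have e1 : (1 / 2 : ℝ) + 1 / 2 = 1 := by norm_num
  have hsub : Dom 1 (ρ - 4 * d) (r - 2 * d) ⊆ Dom 1 (ρ - 2 * d) (r - d) :=
    Dom_mono le_rfl (by linarith) (by linarith)
  obtain ⟨V, R₂, hV, hR₂, hVR, hVb, hR₂b, -, hVre, hVpar, -, -⟩ :=
    divisor_sym (k := 1 / 2) (ρ := ρ - 4 * d) (r := r - 2 * d) (d := d) (B := 5 / 2 * s) (η := η₂)
      (N := N) (M := 5) (s := -1) (F := Hh) (by norm_num) (by norm_num) (by linarith) (by linarith)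
      (by linarith) hd (by linarith) (by positivity) hη0 (Or.inr rfl)
      (by rw [e1]; exact hH.hHh.mono le_rfl (by linarith) (by linarith))
      (by rw [e1]; exact fun p hp => hH.Hh_bd p (hsub hp))
      (by rw [e1]; exact fun p hp => hH.Hh_re p (hsub hp))
      (by rw [e1]; exact fun p hp => hH.Hh_par p (hsub hp))
      (fun w hw => hH.Hh_mean w (by linarith))
      (fun n hn _ j hj hjr => by
        rw [hη₂]
        exact h.res_half hL he hβ hs hP hd hdr hH hn hj hjr)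
  rw [e1] at hR₂ hVR hR₂b
  rw [neg_neg] at hVpar
  have e2 : ρ - 4 * d - d = ρ - 5 * d := by ring
  have e3 : r - 2 * d - d = r - 3 * d := by ring
  rw [e2, e3] at hV hR₂ hVR hVb hR₂b hVre hVpar
  exact ⟨V, R₂, hV, hR₂, hVR, hVb, hR₂b, hVre, hVpar⟩

/-- admissible with slack `2 x` -/
structure AdmS (ρ₀ ε₀ ρ r x : ℝ) (U : ℂ × ℂ → ℂ) : Prop where
  adm : Adm ρ₀ ε₀ ρ r U
  U_s : ∀ p ∈ Dom (1 / 2) ρ r, ‖U p‖ ≤ ρ₀ / 8 - x
  Ut_s : ∀ p ∈ Dom (1 / 2) ρ r, ‖q1 U p‖ ≤ 1 / 100 - x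
  Uw_s : ∀ p ∈ Dom (1 / 2) ρ r, ‖q2 U p‖ ≤ 1 / 100 - x

/-- the new leaf function -/
def Un (U V : ℂ × ℂ → ℂ) (p : ℂ × ℂ) : ℂ := U p + Xt U p * V p

lemma Xf_Un (U V : ℂ × ℂ → ℂ) (p : ℂ × ℂ) : Xf (Un U V) p = Xf U p + Xt U p * V p := by
  unfold Xf Un; ring

/-- exact formula for the new Euler-Lagrange defect, up to the quadratic Taylor remainder -/
theorem Adm.new_defect (hL : IsLag ρ₀ ε₀ L Ψ) {K δ₀ : ℝ}
    (hK : ∀ x y z x' y' z' : ℂ, ∀ m : ℝ, (x, y) ∈ Dg (3 / 4 * ρ₀) (ε₀ / 2) →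
        (y, z) ∈ Dg (3 / 4 * ρ₀) (ε₀ / 2) → ‖x'‖ ≤ m → ‖y'‖ ≤ m → ‖z'‖ ≤ m → m ≤ δ₀ →
        ‖EL L (x + x') (y + y') (z + z') - EL L x y z - dEL L x y z x' y' z'‖ ≤ K * m ^ 2)
    (hK0 : 0 ≤ K)
    (h : Adm ρ₀ ε₀ ρ r U) {e β s b₂ v : ℝ} (he : 0 ≤ e) (hv : 0 ≤ v) (hb₂ : 0 ≤ b₂)
    (hP : Bdd (3 / 2) ρ r 8 e (Pf L U)) (hd : 0 < d) (hdr : 100 * d ≤ r)
    {α S R s₁ Hh : ℂ × ℂ → ℂ} {c₁ : ℂ → ℂ}
    (hH : Half L U (ρ - 2 * d) (r - d) e β s α S R s₁ Hh c₁)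
    {V R₂ : ℂ × ℂ → ℂ} (_hV : IsH (1 / 2) (ρ - 5 * d) (r - 3 * d) V)
    (hR₂ : IsH 1 (ρ - 5 * d) (r - 3 * d) R₂)
    (hVR : ∀ p ∈ Dom 1 (ρ - 5 * d) (r - 3 * d), Hh p = del V p + R₂ p)
    (hVb : Bdd (1 / 2) (ρ - 5 * d) (r - 3 * d) 5 v V)
    (hR₂b : Bdd 1 (ρ - 5 * d) (r - 3 * d) 6 b₂ R₂)
    (hvδ : 101 / 100 * v ≤ δ₀) :
    Bdd (3 / 2) (ρ - 6 * d) (r - 3 * d) 8
      (β + 11 / 10 * b₂ / d + 11 / 10 * e * v / d + 11 / 10 * K * v ^ 2)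
      (fun p => Xt U p * Ef L (Un U V) p) := by
  have hr := h.r_pos
  have hr1 := h.r_le
  have hrρ := h.r_le_ρ
  have hρ := h.ρ_pos
  have hd1 : d ≤ 1 := by linarith
  have hXtb : ∀ p ∈ Dom (1 / 2) ρ r, ‖Xt U p‖ ≤ 101 / 100 := by
    intro p hp
    have := norm_add_le (1 : ℂ) (q1 U p)
    have h1 := h.Ut_bd p hp
    rw [norm_one] at this
    unfold Xt
    linarith
  have hXtl : ∀ p ∈ Dom (1 / 2) ρ r, 99 / 100 ≤ ‖Xt U p‖ := by
    intro p hp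
    have h1 := h.Ut_bd p hp
    have : ‖(1 : ℂ)‖ ≤ ‖Xt U p‖ + ‖q1 U p‖ := by
      have := norm_sub_le (Xt U p) (q1 U p)
      unfold Xt at this ⊢
      rw [add_sub_cancel_right] at this
      exact this
    rw [norm_one] at this
    linarith
  -- the error `a R₂`
  have hαR : IsH 1 (ρ - 5 * d) (r - 3 * d) (fun p => p.2 * (α p * R₂ p)) :=
    IsH.snd.mul ((hH.hα.mono le_rfl (by linarith) (by linarith)).mul hR₂)
  have hαRb : Bdd 1 (ρ - 5 * d) (r - 3 * d) 7 (11 / 10 * b₂) (fun p => p.2 * (α p * R₂ p)) := by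
    intro p hp
    have hp' : p ∈ Dom 1 (ρ - 2 * d) (r - d) := Dom_mono le_rfl (by linarith) (by linarith) hp
    have h1 := hR₂b p hp
    have h2 := hH.α_bd p hp'
    have h3 : ‖α p‖ ≤ 11 / 10 := by
      have := norm_sub_le (α p + 1) 1
      rw [add_sub_cancel_right, norm_one] at this
      linarith
    rw [norm_mul, norm_mul]
    calc ‖p.2‖ * (‖α p‖ * ‖R₂ p‖) ≤ ‖p.2‖ * (11 / 10 * (b₂ * ‖p.2‖ ^ 6)) := by
          refine mul_le_mul_of_nonneg_left ?_ (norm_nonneg _)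
          exact mul_le_mul h3 h1 (norm_nonneg _) (by norm_num)
      _ = 11 / 10 * b₂ * ‖p.2‖ ^ 7 := by ring
  have hdαR : Bdd (3 / 2) (ρ - 6 * d) (r - 3 * d) 8 (11 / 10 * b₂ / d)
      (del (fun p => p.2 * (α p * R₂ p))) := by
    have h1 := Bdd.del_gain (by positivity) hαR hαRb hd
    have e1 : (1 : ℝ) + 1 / 2 = 3 / 2 := by norm_num
    have e2 : ρ - 5 * d - d = ρ - 6 * d := by ring
    rw [e1, e2] at h1
    exact h1
  -- derivative of the defect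
  have hEfb : Bdd (3 / 2) ρ r 8 (100 / 99 * e) (Ef L U) := by
    intro p hp
    have h1 := hP p hp
    have h2 := hXtl p (Dom_mono (by norm_num) le_rfl le_rfl hp)
    unfold Pf at h1
    rw [norm_mul] at h1
    have h3 : 99 / 100 * ‖Ef L U p‖ ≤ e * ‖p.2‖ ^ 8 :=
      (mul_le_mul_of_nonneg_right h2 (norm_nonneg _)).trans h1
    linarith
  have hq1E : Bdd (3 / 2) (ρ - d) r 8 (100 / 99 * e / d) (q1 (Ef L U)) := hEfb.q1 (h.hEf hL) hd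
  rintro ⟨t, w⟩ hp
  have hw : ‖w‖ < r - 3 * d := hp.2
  have hw1 : ‖w‖ ≤ 1 := by linarith
  have hp0 : (t, w) ∈ Dom (3 / 2) ρ r := Dom_mono le_rfl (by linarith) (by linarith) hp
  have hp5 : (t, w) ∈ Dom (3 / 2) (ρ - 5 * d) (r - 3 * d) :=
    Dom_mono le_rfl (by linarith) le_rfl hp
  have hpd : (t, w) ∈ Dom (3 / 2) (ρ - d) r := Dom_mono le_rfl (by linarith) (by linarith) hp
  have hp12 : (t, w) ∈ Dom (3 / 2) (ρ - 2 * d) (r - d) :=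
    Dom_mono le_rfl (by linarith) (by linarith) hp
  have hmm : (t + ((-1 : ℝ) : ℂ) * w, w) ∈ Dom (1 / 2) (ρ - 5 * d) (r - 3 * d) :=
    tr_mem_half (-1) (by norm_num) hp5
  have hm0 : (t, w) ∈ Dom (1 / 2) (ρ - 5 * d) (r - 3 * d) := Dom_mono (by norm_num) le_rfl le_rfl hp5
  have hmp : (t + ((1 : ℝ) : ℂ) * w, w) ∈ Dom (1 / 2) (ρ - 5 * d) (r - 3 * d) :=
    tr_mem_half 1 (by norm_num) hp5
  have sub5 : Dom (1 / 2) (ρ - 5 * d) (r - 3 * d) ⊆ Dom (1 / 2) ρ r :=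
    Dom_mono le_rfl (by linarith) (by linarith)
  set m : ℝ := 101 / 100 * v * ‖w‖ ^ 5 with hm
  have hXV : ∀ q ∈ Dom (1 / 2) (ρ - 5 * d) (r - 3 * d), q.2 = w → ‖Xt U q * V q‖ ≤ m := by
    intro q hq hqw
    have h1 := hVb q hq
    rw [hqw] at h1
    rw [norm_mul, hm, mul_assoc]
    exact mul_le_mul (hXtb q (sub5 hq)) h1 (norm_nonneg _) (by norm_num)
  have hmδ : m ≤ δ₀ := by
    refine le_trans ?_ hvδ
    rw [hm]
    have : ‖w‖ ^ 5 ≤ 1 := pow_le_one₀ (norm_nonneg _) hw1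
    have h2 : 0 ≤ 101 / 100 * v := by positivity
    nlinarith
  -- Taylor
  have hpair1 := h.pair_tr (c₁ := -1) (c₂ := 0) (k := 3 / 2) (by norm_num) (by norm_num)
    (by norm_num) hp0
  have hpair2 := h.pair_tr (c₁ := 0) (c₂ := 1) (k := 3 / 2) (by norm_num) (by norm_num)
    (by norm_num) hp0
  rw [tr_zero] at hpair1 hpair2
  have hT := hK (tr (-1) (Xf U) (t, w)) (Xf U (t, w)) (tr 1 (Xf U) (t, w))
    (tr (-1) (Xt U) (t, w) * tr (-1) V (t, w)) (Xt U (t, w) * V (t, w))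
    (tr 1 (Xt U) (t, w) * tr 1 V (t, w)) m hpair1 hpair2 (hXV _ hmm rfl) (hXV _ hm0 rfl)
    (hXV _ hmp rfl) hmδ
  set Q : ℂ := EL L (tr (-1) (Xf U) (t, w) + tr (-1) (Xt U) (t, w) * tr (-1) V (t, w))
    (Xf U (t, w) + Xt U (t, w) * V (t, w)) (tr 1 (Xf U) (t, w) + tr 1 (Xt U) (t, w) * tr 1 V (t, w)) -
    EL L (tr (-1) (Xf U) (t, w)) (Xf U (t, w)) (tr 1 (Xf U) (t, w)) -
    dEL L (tr (-1) (Xf U) (t, w)) (Xf U (t, w)) (tr 1 (Xf U) (t, w))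
      (tr (-1) (Xt U) (t, w) * tr (-1) V (t, w)) (Xt U (t, w) * V (t, w))
      (tr 1 (Xt U) (t, w) * tr 1 V (t, w)) with hQ
  have hEn : Ef L (Un U V) (t, w) = EL L (tr (-1) (Xf U) (t, w) + tr (-1) (Xt U) (t, w) * tr (-1) V (t, w))
    (Xf U (t, w) + Xt U (t, w) * V (t, w))
    (tr 1 (Xf U) (t, w) + tr 1 (Xt U) (t, w) * tr 1 V (t, w)) := by
    unfold Ef
    have e1 : tr (-1) (Xf (Un U V)) (t, w) =
        tr (-1) (Xf U) (t, w) + tr (-1) (Xt U) (t, w) * tr (-1) V (t, w) := Xf_Un U V _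
    have e2 : tr 1 (Xf (Un U V)) (t, w) =
        tr 1 (Xf U) (t, w) + tr 1 (Xt U) (t, w) * tr 1 V (t, w) := Xf_Un U V _
    rw [e1, e2, Xf_Un]
  have hid2 := h.ident2 hL V hp0
  -- del (a del V) = - del S - del (a R₂)
  have hdel : del (fun q => af L U q * del V q) (t, w) =
      - del S (t, w) - del (fun p => p.2 * (α p * R₂ p)) (t, w) := by
    have key : ∀ q ∈ Dom 1 (ρ - 5 * d) (r - 3 * d), af L U q * del V q =
        q.2 * c₁ q.2 - S q - q.2 * (α q * R₂ q) := by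
      intro q hq
      have hq' : q ∈ Dom 1 (ρ - 2 * d) (r - d) := Dom_mono le_rfl (by linarith) (by linarith) hq
      have h1 := hVR q hq
      have h2 := hH.Hh_eq q hq'
      have h3 := hH.S_eq q hq'
      have h4 := hH.aα q hq'
      have hα0 : α q ≠ 0 := (norm_inv_bd (hH.α_bd q hq')).1
      have h5 : del V q = (c₁ q.2 - s₁ q) * (α q)⁻¹ - R₂ q := by rw [← h2, h1]; ring
      rw [h4, h5, h3]
      field_simp
    have m1 : (t + ((1 / 2 : ℝ) : ℂ) * w, w) ∈ Dom 1 (ρ - 5 * d) (r - 3 * d) :=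
      tr_mem_half (1 / 2) (by norm_num) hp5
    have m2 : (t + ((-(1 / 2) : ℝ) : ℂ) * w, w) ∈ Dom 1 (ρ - 5 * d) (r - 3 * d) :=
      tr_mem_half (-(1 / 2)) (by rw [abs_neg]; norm_num) hp5
    have k1 := key _ m1
    have k2 := key _ m2
    unfold del tr at k1 k2 ⊢
    simp only at k1 k2 ⊢
    rw [k1, k2]
    ring
  have hPSR := hH.PSR _ hp12
  have hmain : Xt U (t, w) * Ef L (Un U V) (t, w) = R (t, w) -
      del (fun p => p.2 * (α p * R₂ p)) (t, w) + Xt U (t, w) * q1 (Ef L U) (t, w) * V (t, w) +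
      Xt U (t, w) * Q := by
    rw [hdel] at hid2
    have e1 : EL L (tr (-1) (Xf U) (t, w)) (Xf U (t, w)) (tr 1 (Xf U) (t, w)) = Ef L U (t, w) := rfl
    have e2 : Pf L U (t, w) = Xt U (t, w) * Ef L U (t, w) := rfl
    rw [hEn, hQ, e1]
    rw [e2] at hPSR
    linear_combination hPSR + hid2
  simp only
  rw [hmain]
  -- bounds
  have b1 := hH.R_bd _ hp12
  have b2 := hdαR _ hp
  have b3 : ‖Xt U (t, w) * q1 (Ef L U) (t, w) * V (t, w)‖ ≤ 11 / 10 * e * v / d * ‖w‖ ^ 8 := by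
    have c1 := hXtb _ (sub5 hm0)
    have c2 := hq1E _ hpd
    have c3 := hVb _ hm0
    simp only at c2 c3
    rw [norm_mul, norm_mul]
    have hw5 : ‖w‖ ^ 5 ≤ 1 := pow_le_one₀ (norm_nonneg _) hw1
    calc ‖Xt U (t, w)‖ * ‖q1 (Ef L U) (t, w)‖ * ‖V (t, w)‖
        ≤ (101 / 100 * (100 / 99 * e / d * ‖w‖ ^ 8)) * (v * ‖w‖ ^ 5) := by
          refine mul_le_mul (mul_le_mul c1 c2 (norm_nonneg _) (by norm_num)) c3 (norm_nonneg _)
            (by positivity)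
      _ = (101 / 99 * (e * v / d * ‖w‖ ^ 8)) * ‖w‖ ^ 5 := by ring
      _ ≤ (101 / 99 * (e * v / d * ‖w‖ ^ 8)) * 1 := by
          refine mul_le_mul_of_nonneg_left hw5 (by positivity)
      _ ≤ 11 / 10 * e * v / d * ‖w‖ ^ 8 := by
          have : 0 ≤ e * v / d * ‖w‖ ^ 8 := by positivity
          have e3 : 11 / 10 * e * v / d * ‖w‖ ^ 8 = 11 / 10 * (e * v / d * ‖w‖ ^ 8) := by ring
          rw [e3, mul_one]
          nlinarith
  have b4 : ‖Xt U (t, w) * Q‖ ≤ 11 / 10 * K * v ^ 2 * ‖w‖ ^ 8 := by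
    rw [norm_mul]
    have hw2 : ‖w‖ ^ 2 ≤ 1 := pow_le_one₀ (norm_nonneg _) hw1
    calc ‖Xt U (t, w)‖ * ‖Q‖ ≤ 101 / 100 * (K * m ^ 2) :=
          mul_le_mul (hXtb _ (sub5 hm0)) hT (norm_nonneg _) (by norm_num)
      _ = (101 / 100) ^ 3 * (K * v ^ 2 * ‖w‖ ^ 8) * ‖w‖ ^ 2 := by rw [hm]; ring
      _ ≤ (101 / 100) ^ 3 * (K * v ^ 2 * ‖w‖ ^ 8) * 1 :=
          mul_le_mul_of_nonneg_left hw2 (by positivity)
      _ ≤ 11 / 10 * K * v ^ 2 * ‖w‖ ^ 8 := by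
          have : 0 ≤ K * v ^ 2 * ‖w‖ ^ 8 := by positivity
          have e3 : 11 / 10 * K * v ^ 2 * ‖w‖ ^ 8 = 11 / 10 * (K * v ^ 2 * ‖w‖ ^ 8) := by ring
          rw [e3, mul_one]
          refine mul_le_mul_of_nonneg_right (by norm_num) this
  simp only at b1 b2
  refine (norm_add_le _ _).trans ?_
  refine (add_le_add ((norm_add_le _ _).trans (add_le_add ((norm_sub_le _ _).trans
    (add_le_add b1 b2)) b3)) b4).trans (le_of_eq ?_)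
  ring

/-- the new function is admissible and its defect is small -/
theorem AdmS.next (hL : IsLag ρ₀ ε₀ L Ψ) {K δ₀ : ℝ}
    (hK : ∀ x y z x' y' z' : ℂ, ∀ m : ℝ, (x, y) ∈ Dg (3 / 4 * ρ₀) (ε₀ / 2) →
        (y, z) ∈ Dg (3 / 4 * ρ₀) (ε₀ / 2) → ‖x'‖ ≤ m → ‖y'‖ ≤ m → ‖z'‖ ≤ m → m ≤ δ₀ →
        ‖EL L (x + x') (y + y') (z + z') - EL L x y z - dEL L x y z x' y' z'‖ ≤ K * m ^ 2)
    (hK0 : 0 ≤ K) {x : ℝ} (hx : 0 < x)
    (hA : AdmS ρ₀ ε₀ ρ r (2 * x) U) {e β s b₂ v : ℝ} (he : 0 ≤ e) (hβ : 0 ≤ β) (hv : 0 ≤ v)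
    (hb₂ : 0 ≤ b₂)
    (hP : Bdd (3 / 2) ρ r 8 e (Pf L U)) (hd : 0 < d) (hdr : 100 * d ≤ r)
    {α S R s₁ Hh : ℂ × ℂ → ℂ} {c₁ : ℂ → ℂ}
    (hH : Half L U (ρ - 2 * d) (r - d) e β s α S R s₁ Hh c₁)
    {V R₂ : ℂ × ℂ → ℂ} (hV : IsH (1 / 2) (ρ - 5 * d) (r - 3 * d) V)
    (hR₂ : IsH 1 (ρ - 5 * d) (r - 3 * d) R₂)
    (hVR : ∀ p ∈ Dom 1 (ρ - 5 * d) (r - 3 * d), Hh p = del V p + R₂ p)
    (hVb : Bdd (1 / 2) (ρ - 5 * d) (r - 3 * d) 5 v V)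
    (hR₂b : Bdd 1 (ρ - 5 * d) (r - 3 * d) 6 b₂ R₂)
    (hVre : IsRe (1 / 2) (ρ - 5 * d) (r - 3 * d) V)
    (hVpar : IsPar (1 / 2) (ρ - 5 * d) (r - 3 * d) 1 V)
    (hvδ : 101 / 100 * v ≤ δ₀) (hvx : 101 / 100 * v / d ≤ x) :
    AdmS ρ₀ ε₀ (ρ - 6 * d) (r - 4 * d) x (Un U V) ∧
    Bdd (3 / 2) (ρ - 6 * d) (r - 4 * d) 8
      (104 / 100 * (β + 11 / 10 * b₂ / d + 11 / 10 * e * v / d + 11 / 10 * K * v ^ 2))
      (Pf L (Un U V)) ∧
    (∀ p ∈ Dom (1 / 2) (ρ - 6 * d) (r - 4 * d), ‖Un U V p - U p‖ ≤ x * ‖p.2‖ ^ 5 ∧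
      ‖q1 (Un U V) p - q1 U p‖ ≤ x ∧ ‖q2 (Un U V) p - q2 U p‖ ≤ x) := by
  have h := hA.adm
  have hr := h.r_pos
  have hr1 := h.r_le
  have hrρ := h.r_le_ρ
  have hρ := h.ρ_pos
  have hd1 : d ≤ 1 := by linarith
  have sub5 : Dom (1 / 2) (ρ - 5 * d) (r - 3 * d) ⊆ Dom (1 / 2) ρ r :=
    Dom_mono le_rfl (by linarith) (by linarith)
  have sub6 : Dom (1 / 2) (ρ - 6 * d) (r - 4 * d) ⊆ Dom (1 / 2) (ρ - 5 * d) (r - 3 * d) :=
    Dom_mono le_rfl (by linarith) (by linarith)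
  have sub06 : Dom (1 / 2) (ρ - 6 * d) (r - 4 * d) ⊆ Dom (1 / 2) ρ r := sub6.trans sub5
  have hXtH : IsH (1 / 2) (ρ - 5 * d) (r - 3 * d) (Xt U) :=
    h.hXt.mono le_rfl (by linarith) (by linarith)
  have hW : IsH (1 / 2) (ρ - 5 * d) (r - 3 * d) (fun p => Xt U p * V p) := hXtH.mul hV
  have hWb : Bdd (1 / 2) (ρ - 5 * d) (r - 3 * d) 5 (101 / 100 * v) (fun p => Xt U p * V p) := by
    have h1 : Bdd (1 / 2) (ρ - 5 * d) (r - 3 * d) 0 (101 / 100) (Xt U) := by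
      intro p hp
      have := norm_add_le (1 : ℂ) (q1 U p)
      have h1 := h.Ut_bd p (sub5 hp)
      rw [norm_one] at this
      rw [pow_zero, mul_one]
      unfold Xt
      linarith
    have h2 := h1.mul hVb
    rw [zero_add] at h2
    exact h2
  have hv1 : 0 ≤ 101 / 100 * v := by positivity
  have hWb0 : Bdd (1 / 2) (ρ - 5 * d) (r - 3 * d) 0 (101 / 100 * v) (fun p => Xt U p * V p) :=
    hWb.lower hv1 (by linarith) (by norm_num)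
  have hvx' : 101 / 100 * v ≤ x := by
    refine le_trans ?_ hvx
    rw [le_div_iff₀ hd]
    nlinarith
  have hU' : IsH (1 / 2) (ρ - 5 * d) (r - 3 * d) (Un U V) :=
    (h.hU.mono le_rfl (by linarith) (by linarith)).add hW
  have hd5 : ∀ p ∈ Dom (1 / 2) (ρ - 6 * d) (r - 4 * d), ‖Un U V p - U p‖ ≤ x * ‖p.2‖ ^ 5 := by
    intro p hp
    have := hWb p (sub6 hp)
    have e1 : Un U V p - U p = Xt U p * V p := by unfold Un; ring
    rw [e1]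
    exact this.trans (mul_le_mul_of_nonneg_right hvx' (by positivity))
  have hd0 : ∀ p ∈ Dom (1 / 2) (ρ - 6 * d) (r - 4 * d), ‖Un U V p - U p‖ ≤ x := by
    intro p hp
    have := hWb0 p (sub6 hp)
    rw [pow_zero, mul_one] at this
    have e1 : Un U V p - U p = Xt U p * V p := by unfold Un; ring
    rw [e1]
    linarith
  have hq : ∀ p ∈ Dom (1 / 2) (ρ - 6 * d) (r - 4 * d),
      q1 (Un U V) p - q1 U p = q1 (fun p => Xt U p * V p) p ∧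
      q2 (Un U V) p - q2 U p = q2 (fun p => Xt U p * V p) p := by
    rintro ⟨t, w⟩ hp
    have a1 := h.hU.differentiableAt (sub06 hp)
    have a2 := hW.differentiableAt (sub6 hp)
    have a3 := hU'.differentiableAt (sub6 hp)
    constructor
    · have := (hasDerivAt_fst a3).unique ((hasDerivAt_fst a1).add (hasDerivAt_fst a2))
      rw [this]; ring
    · have := (hasDerivAt_snd a3).unique ((hasDerivAt_snd a1).add (hasDerivAt_snd a2))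
      rw [this]; ring
  have hd1' : ∀ p ∈ Dom (1 / 2) (ρ - 6 * d) (r - 4 * d), ‖q1 (Un U V) p - q1 U p‖ ≤ x := by
    intro p hp
    rw [(hq p hp).1]
    have h1 := hWb0.q1 hW hd p (Dom_mono le_rfl (by linarith) (by linarith) hp)
    rw [pow_zero, mul_one] at h1
    exact h1.trans hvx
  have hd2' : ∀ p ∈ Dom (1 / 2) (ρ - 6 * d) (r - 4 * d), ‖q2 (Un U V) p - q2 U p‖ ≤ x := by
    intro p hp
    rw [(hq p hp).2]
    have h1 := hWb0.q2_zero (by norm_num) hW hd p (Dom_mono le_rfl (by linarith) (by linarith) hp)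
    rw [pow_zero, mul_one] at h1
    exact h1.trans hvx
  have tri : ∀ (a b : ℂ) (c : ℝ), ‖b‖ ≤ c - 2 * x → ‖a - b‖ ≤ x → ‖a‖ ≤ c - x := by
    intro a b c h1 h2
    have := norm_add_le (a - b) b
    rw [sub_add_cancel] at this
    linarith
  have g0 : ∀ p ∈ Dom (1 / 2) (ρ - 6 * d) (r - 4 * d), ‖Un U V p‖ ≤ ρ₀ / 8 - x := fun p hp =>
    tri _ _ _ (hA.U_s p (sub06 hp)) (hd0 p hp)
  have g1 : ∀ p ∈ Dom (1 / 2) (ρ - 6 * d) (r - 4 * d), ‖q1 (Un U V) p‖ ≤ 1 / 100 - x := fun p hp =>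
    tri _ _ _ (hA.Ut_s p (sub06 hp)) (hd1' p hp)
  have g2 : ∀ p ∈ Dom (1 / 2) (ρ - 6 * d) (r - 4 * d), ‖q2 (Un U V) p‖ ≤ 1 / 100 - x := fun p hp =>
    tri _ _ _ (hA.Uw_s p (sub06 hp)) (hd2' p hp)
  have hadm : Adm ρ₀ ε₀ (ρ - 6 * d) (r - 4 * d) (Un U V) := by
    refine { ρ_pos := by linarith, ρ_le := by linarith [h.ρ_le], r_pos := by linarith,
             r_le := by linarith, r_le_ρ := by linarith, r_le_ε := by linarith [h.r_le_ε],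
             hU := hU'.mono le_rfl (by linarith) (by linarith),
             U_bd := fun p hp => (g0 p hp).trans (by linarith),
             Ut_bd := fun p hp => (g1 p hp).trans (by linarith),
             Uw_bd := fun p hp => (g2 p hp).trans (by linarith), re := ?_, par := ?_ }
    · exact (h.re.mono le_rfl (by linarith) (by linarith)).add
        ((h.Xt_re.mono le_rfl (by linarith) (by linarith)).mul
          (hVre.mono le_rfl (by linarith) (by linarith)))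
    · have h1 := (h.Xt_par.mono (k' := 1 / 2) (ρ' := ρ - 6 * d) (r' := r - 4 * d) le_rfl
        (by linarith) (by linarith)).mul (hVpar.mono le_rfl (by linarith) (by linarith))
      rw [one_mul] at h1
      exact (h.par.mono le_rfl (by linarith) (by linarith)).add h1
  refine ⟨⟨hadm, g0, g1, g2⟩, ?_, fun p hp => ⟨hd5 p hp, hd1' p hp, hd2' p hp⟩⟩
  have hnd := h.new_defect hL hK hK0 he hv hb₂ hP hd hdr hH hV hR₂ hVR hVb hR₂b hvδ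
  intro p hp
  have h1 := hnd p (Dom_mono le_rfl le_rfl (by linarith) hp)
  have hp2 : p ∈ Dom (1 / 2) (ρ - 6 * d) (r - 4 * d) := Dom_mono (by norm_num) le_rfl le_rfl hp
  have h2 := h.Ut_bd p (sub06 hp2)
  have h3 := hadm.Ut_bd p hp2
  have h4 : 99 / 100 ≤ ‖Xt U p‖ := by
    have : ‖(1 : ℂ)‖ ≤ ‖Xt U p‖ + ‖q1 U p‖ := by
      have := norm_sub_le (Xt U p) (q1 U p)
      unfold Xt at this ⊢
      rw [add_sub_cancel_right] at this
      exact this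
    rw [norm_one] at this
    linarith
  have h5 : ‖Xt (Un U V) p‖ ≤ 101 / 100 := by
    have := norm_add_le (1 : ℂ) (q1 (Un U V) p)
    rw [norm_one] at this
    unfold Xt
    linarith
  rw [norm_mul] at h1
  unfold Pf
  rw [norm_mul]
  have h6 : 99 / 100 * ‖Ef L (Un U V) p‖ ≤
      (β + 11 / 10 * b₂ / d + 11 / 10 * e * v / d + 11 / 10 * K * v ^ 2) * ‖p.2‖ ^ 8 :=
    (mul_le_mul_of_nonneg_right h4 (norm_nonneg _)).trans h1
  have h7 : ‖Xt (Un U V) p‖ * ‖Ef L (Un U V) p‖ ≤ 101 / 100 * ‖Ef L (Un U V) p‖ :=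
    mul_le_mul_of_nonneg_right h5 (norm_nonneg _)
  have h8 : 0 ≤ (β + 11 / 10 * b₂ / d + 11 / 10 * e * v / d + 11 / 10 * K * v ^ 2) * ‖p.2‖ ^ 8 := by
    positivity
  nlinarith

end Second

end Crest.Agent.R102.B821
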