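import Crest.Agent.R102.NewtC_821

/-!
Row 102, part (B) (helper821): numerical bookkeeping of the Newton step; the step theorem.
-/

set_option autoImplicit false

open Set Filter Topology Metric Complex MeasureTheory
open scoped Real ContDiff ComplexConjugate

noncomputable section

namespace Crest.Agent.R102.B821

open Crest.Agent.R266.SCV

section Numerics

lemma pow_mix {D x : ℝ} (hD : 1 ≤ D) (hx0 : 0 ≤ x) (hx1 : x ≤ 1) (hy : D ^ 3 * x ≤ 1) (a b m : ℕ)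
    (ha : a ≤ 3 * m) (hb : m ≤ b) (hm : 1 ≤ m) : D ^ a * x ^ b ≤ D ^ 3 * x := by
  have h1 : D ^ a ≤ D ^ (3 * m) := pow_le_pow_right₀ hD ha
  have h2 : x ^ b ≤ x ^ m := pow_le_pow_of_le_one hx0 hx1 hb
  have h3 : (D ^ 3 * x) ^ m ≤ D ^ 3 * x := by
    have h0 : 0 ≤ D ^ 3 * x := by positivity
    calc (D ^ 3 * x) ^ m ≤ (D ^ 3 * x) ^ 1 := pow_le_pow_of_le_one h0 hy hm
      _ = D ^ 3 * x := pow_one _
  calc D ^ a * x ^ b ≤ D ^ (3 * m) * x ^ m := mul_le_mul h1 h2 (by positivity) (by positivity)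
    _ = (D ^ 3 * x) ^ m := by rw [mul_pow, ← pow_mul]
    _ ≤ _ := h3

lemma exp_neg_le_pow {x : ℝ} (hx : 0 < x) : Real.exp (-(3 / x)) ≤ 100000 * x ^ 15 := by
  have h1 := Real.pow_div_factorial_le_exp (3 / x) (by positivity) 15
  have h2 : 0 < (3 / x) ^ 15 / (Nat.factorial 15 : ℝ) := by positivity
  rw [Real.exp_neg]
  calc (Real.exp (3 / x))⁻¹ ≤ ((3 / x) ^ 15 / (Nat.factorial 15 : ℝ))⁻¹ := inv_anti₀ h2 h1
    _ = (Nat.factorial 15 : ℝ) / 3 ^ 15 * x ^ 15 := by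
        rw [inv_div, div_pow]
        field_simp
    _ ≤ 100000 * x ^ 15 := by
        refine mul_le_mul_of_nonneg_right ?_ (by positivity)
        have : (Nat.factorial 15 : ℝ) = 1307674368000 := by norm_num [Nat.factorial]
        rw [this]
        norm_num

set_option maxHeartbeats 4000000 in
/-- bookkeeping: everything expressed through `D = 1/d` and `x` -/
theorem numerics {C c K δ₀ : ℝ} (hC : 0 ≤ C) (hc : 0 < c) (hK : 0 ≤ K) (hδ : 0 < δ₀) :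
    ∃ C₀ : ℝ, 1 ≤ C₀ ∧ ∀ d x : ℝ, 0 < d → d ≤ 1 → 0 < x → C₀ * x ≤ d ^ 3 →
      ∃ N : ℕ, ∀ η β s η₂ v b₂ : ℝ,
        η = 7 * C * N ^ 5 * (x ^ 20) ^ 2 →
        β = 10 / d ^ 2 * η + 3 / d * (x ^ 20 * Real.exp (-(π * d * N))) →
        s = 10000 / d ^ 3 * (x ^ 20 + η) →
        η₂ = 58 * β / d + 12000000 * (s * x ^ 20) / d ^ 3 →
        v = 10000 / d ^ 3 * (5 / 2 * s + η₂) →
        b₂ = 10 / d ^ 2 * η₂ + 3 / d * (5 / 2 * s * Real.exp (-(π * d * N))) →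
        (N : ℝ) ^ 6 * x ^ 20 ≤ c * d ∧ 101 / 100 * v ≤ δ₀ ∧ 101 / 100 * v / d ≤ x ∧
        104 / 100 * (β + 11 / 10 * b₂ / d + 11 / 10 * x ^ 20 * v / d + 11 / 10 * K * v ^ 2) ≤
          (x / 16) ^ 20 := by
  set A1 : ℝ := 2240 * C + 300000 with hA1
  set A2 : ℝ := 58 * A1 + 240000000000 with hA2
  set A3 : ℝ := 10 * A2 + 15000000000 with hA3
  set A4 : ℝ := 2 * (A1 + A3 + 600000000 + 360000000000000000 * K) with hA4
  have hA1p : 0 < A1 := by positivity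
  have hA2p : 0 < A2 := by positivity
  have hA3p : 0 < A3 := by positivity
  have hA4p : 0 < A4 := by positivity
  refine ⟨1 + 64 / c + 224 * C + A2 + 700000000 + 700000000 / δ₀ + 16 ^ 20 * A4, ?_, ?_⟩
  · have : 0 ≤ 64 / c + 224 * C + A2 + 700000000 + 700000000 / δ₀ + 16 ^ 20 * A4 := by positivity
    linarith
  intro d x hd hd1 hx hCx
  set D : ℝ := 1 / d with hD
  have hDd : D * d = 1 := by rw [hD]; field_simp
  have hD1 : 1 ≤ D := by rw [hD, le_div_iff₀ hd]; linarith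
  have hD0 : 0 < D := by linarith
  set y : ℝ := D ^ 3 * x with hy
  have hy0 : 0 < y := by positivity
  have hCy : (1 + 64 / c + 224 * C + A2 + 700000000 + 700000000 / δ₀ + 16 ^ 20 * A4) * y ≤ 1 := by
    have h1 := mul_le_mul_of_nonneg_left hCx (by positivity : 0 ≤ D ^ 3)
    have h2 : D ^ 3 * d ^ 3 = 1 := by rw [← mul_pow, hDd, one_pow]
    rw [h2] at h1
    calc _ = D ^ 3 * ((1 + 64 / c + 224 * C + A2 + 700000000 + 700000000 / δ₀ + 16 ^ 20 * A4) * x) := by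
          rw [hy]; ring
      _ ≤ 1 := h1
  have q1 : 0 ≤ 64 / c * y := by positivity
  have q2 : 0 ≤ 224 * C * y := by positivity
  have q3 : 0 ≤ A2 * y := by positivity
  have q4 : 0 ≤ 700000000 / δ₀ * y := by positivity
  have q5 : 0 ≤ 16 ^ 20 * A4 * y := by positivity
  have hy1 : y ≤ 1 := by linarith
  have hCc : 64 / c * y ≤ 1 := by linarith
  have hCC : 224 * C * y ≤ 1 := by linarith
  have hCA2 : A2 * y ≤ 1 := by linarith
  have hC7 : 700000000 * y ≤ 1 := by linarith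
  have hCδ : 700000000 / δ₀ * y ≤ 1 := by linarith
  have hCA4 : 16 ^ 20 * A4 * y ≤ 1 := by linarith
  have hx1 : x ≤ 1 := by
    have : x ≤ y := by
      rw [hy]
      have : 1 ≤ D ^ 3 := one_le_pow₀ hD1
      nlinarith
    linarith
  have hpm := pow_mix hD1 hx.le hx1 hy1
  rw [← hy] at hpm
  refine ⟨⌈D / x⌉₊, ?_⟩
  set N : ℕ := ⌈D / x⌉₊ with hN
  have hNl : D / x ≤ N := Nat.le_ceil _
  have hNu : (N : ℝ) * x ≤ 2 * D := by
    have h1 : (N : ℝ) < D / x + 1 := Nat.ceil_lt_add_one (by positivity)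
    have h2 : (N : ℝ) * x ≤ (D / x + 1) * x := mul_le_mul_of_nonneg_right h1.le hx.le
    have h3 : (D / x + 1) * x = D + x := by field_simp
    linarith
  have hN0 : (0 : ℝ) ≤ N := Nat.cast_nonneg N
  -- exponential
  set E : ℝ := Real.exp (-(π * d * N)) with hE
  have hE0 : 0 ≤ E := Real.exp_nonneg _
  have hEb : E ≤ 100000 * x ^ 15 := by
    refine le_trans (Real.exp_le_exp.2 (neg_le_neg ?_)) (exp_neg_le_pow hx)
    have hπ := Real.pi_gt_three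
    have h1 : 1 / x ≤ d * N := by
      have h2 := mul_le_mul_of_nonneg_left hNl hd.le
      have h3 : d * (D / x) = 1 / x := by rw [hD]; field_simp
      linarith
    calc 3 / x = 3 * (1 / x) := by ring
      _ ≤ π * (1 / x) := mul_le_mul_of_nonneg_right hπ.le (by positivity)
      _ ≤ π * (d * N) := mul_le_mul_of_nonneg_left h1 (by positivity)
      _ = π * d * N := by ring
  intro η β s η₂ v b₂ hη hβ hs hη₂ hv hb₂
  -- rewrite divisions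
  have dv : ∀ (a : ℝ) (k : ℕ), a / d ^ k = a * D ^ k := by
    intro a k
    rw [hD, div_pow, one_pow]
    field_simp
  have dv1 : ∀ a : ℝ, a / d = a * D := by
    intro a
    rw [hD]
    field_simp
  rw [dv, dv1] at hβ
  rw [dv] at hs
  rw [dv1, dv] at hη₂
  rw [dv] at hv
  rw [dv, dv1] at hb₂
  rw [dv1, dv1, dv1]
  -- η
  have hN5 : (N : ℝ) ^ 5 * x ^ 5 ≤ 32 * D ^ 5 := by
    calc (N : ℝ) ^ 5 * x ^ 5 = (N * x) ^ 5 := by ring
      _ ≤ (2 * D) ^ 5 := pow_le_pow_left₀ (by positivity) hNu 5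
      _ = 32 * D ^ 5 := by ring
  have hN6 : (N : ℝ) ^ 6 * x ^ 6 ≤ 64 * D ^ 6 := by
    calc (N : ℝ) ^ 6 * x ^ 6 = (N * x) ^ 6 := by ring
      _ ≤ (2 * D) ^ 6 := pow_le_pow_left₀ (by positivity) hNu 6
      _ = 64 * D ^ 6 := by ring
  have hη0 : 0 ≤ η := by rw [hη]; positivity
  have bη : η ≤ 224 * C * (D ^ 5 * x ^ 35) := by
    rw [hη]
    calc 7 * C * (N : ℝ) ^ 5 * (x ^ 20) ^ 2 = 7 * C * x ^ 35 * ((N : ℝ) ^ 5 * x ^ 5) := by ring
      _ ≤ 7 * C * x ^ 35 * (32 * D ^ 5) := mul_le_mul_of_nonneg_left hN5 (by positivity)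
      _ = 224 * C * (D ^ 5 * x ^ 35) := by ring
  -- monotonicity helpers
  have mono : ∀ a b : ℕ, a ≤ b → D ^ a ≤ D ^ b := fun a b h => pow_le_pow_right₀ hD1 h
  have hβ0 : 0 ≤ β := by rw [hβ]; positivity
  have bβ : β ≤ A1 * (D ^ 7 * x ^ 35) := by
    rw [hβ]
    calc 10 * D ^ 2 * η + 3 * D * (x ^ 20 * E)
        ≤ 10 * D ^ 2 * (224 * C * (D ^ 5 * x ^ 35)) + 3 * D * (x ^ 20 * (100000 * x ^ 15)) := by
          gcongr
      _ = 2240 * C * (D ^ 7 * x ^ 35) + 300000 * (D ^ 1 * x ^ 35) := by ring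
      _ ≤ 2240 * C * (D ^ 7 * x ^ 35) + 300000 * (D ^ 7 * x ^ 35) := by
          have := mono 1 7 (by norm_num)
          gcongr
      _ = A1 * (D ^ 7 * x ^ 35) := by rw [hA1]; ring
  have hs0 : 0 ≤ s := by rw [hs]; positivity
  have bs : s ≤ 20000 * (D ^ 3 * x ^ 20) := by
    rw [hs]
    have h1 : 224 * C * (D ^ 5 * x ^ 15) ≤ 1 :=
      (mul_le_mul_of_nonneg_left (hpm 5 15 2 (by norm_num) (by norm_num) (by norm_num))
        (by positivity)).trans hCC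
    have h2 : η ≤ x ^ 20 := by
      refine bη.trans ?_
      calc 224 * C * (D ^ 5 * x ^ 35) = 224 * C * (D ^ 5 * x ^ 15) * x ^ 20 := by ring
        _ ≤ 1 * x ^ 20 := mul_le_mul_of_nonneg_right h1 (by positivity)
        _ = x ^ 20 := one_mul _
    calc 10000 * D ^ 3 * (x ^ 20 + η) ≤ 10000 * D ^ 3 * (x ^ 20 + x ^ 20) := by gcongr
      _ = 20000 * (D ^ 3 * x ^ 20) := by ring
  have hη₂0 : 0 ≤ η₂ := by rw [hη₂]; positivity
  have bη₂ : η₂ ≤ A2 * (D ^ 8 * x ^ 35) := by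
    rw [hη₂]
    calc 58 * β * D + 12000000 * (s * x ^ 20) * D ^ 3
        ≤ 58 * (A1 * (D ^ 7 * x ^ 35)) * D + 12000000 * (20000 * (D ^ 3 * x ^ 20) * x ^ 20) * D ^ 3 := by
          gcongr
      _ = 58 * A1 * (D ^ 8 * x ^ 35) + 240000000000 * (D ^ 6 * x ^ 35) * x ^ 5 := by ring
      _ ≤ 58 * A1 * (D ^ 8 * x ^ 35) + 240000000000 * (D ^ 8 * x ^ 35) * 1 := by
          have := mono 6 8 (by norm_num)
          have h5 : x ^ 5 ≤ 1 := pow_le_one₀ hx.le hx1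
          gcongr
      _ = A2 * (D ^ 8 * x ^ 35) := by rw [hA2]; ring
  have hv0 : 0 ≤ v := by rw [hv]; positivity
  have bv : v ≤ 600000000 * (D ^ 6 * x ^ 20) := by
    rw [hv]
    have h1 : A2 * (D ^ 5 * x ^ 15) ≤ 1 :=
      (mul_le_mul_of_nonneg_left (hpm 5 15 2 (by norm_num) (by norm_num) (by norm_num))
        (by positivity)).trans hCA2
    calc 10000 * D ^ 3 * (5 / 2 * s + η₂)
        ≤ 10000 * D ^ 3 * (5 / 2 * (20000 * (D ^ 3 * x ^ 20)) + A2 * (D ^ 8 * x ^ 35)) := by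
          gcongr
      _ = 10000 * (D ^ 6 * x ^ 20) * (50000 + A2 * (D ^ 5 * x ^ 15)) := by ring
      _ ≤ 10000 * (D ^ 6 * x ^ 20) * (50000 + 1) := by gcongr
      _ ≤ 600000000 * (D ^ 6 * x ^ 20) := by
          have : 0 ≤ D ^ 6 * x ^ 20 := by positivity
          linarith only [this]
  have hb₂0 : 0 ≤ b₂ := by rw [hb₂]; positivity
  have bb₂ : b₂ ≤ A3 * (D ^ 10 * x ^ 35) := by
    rw [hb₂]
    calc 10 * D ^ 2 * η₂ + 3 * D * (5 / 2 * s * E)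
        ≤ 10 * D ^ 2 * (A2 * (D ^ 8 * x ^ 35)) +
          3 * D * (5 / 2 * (20000 * (D ^ 3 * x ^ 20)) * (100000 * x ^ 15)) := by gcongr
      _ = 10 * A2 * (D ^ 10 * x ^ 35) + 15000000000 * (D ^ 4 * x ^ 35) := by ring
      _ ≤ 10 * A2 * (D ^ 10 * x ^ 35) + 15000000000 * (D ^ 10 * x ^ 35) := by
          have := mono 4 10 (by norm_num)
          gcongr
      _ = A3 * (D ^ 10 * x ^ 35) := by rw [hA3]; ring
  refine ⟨?_, ?_, ?_, ?_⟩
  · -- N^6 x^20 ≤ c d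
    have h1 : D ^ 7 * x ^ 14 ≤ y := hpm 7 14 3 (by norm_num) (by norm_num) (by norm_num)
    have h2 : 64 * y ≤ c := by
      have : 64 / c * y = 64 * y / c := by ring
      rw [this, div_le_one hc] at hCc
      exact hCc
    have h3 : (N : ℝ) ^ 6 * x ^ 20 * D ≤ c := by
      calc (N : ℝ) ^ 6 * x ^ 20 * D = (N : ℝ) ^ 6 * x ^ 6 * (x ^ 14 * D) := by ring
        _ ≤ 64 * D ^ 6 * (x ^ 14 * D) := mul_le_mul_of_nonneg_right hN6 (by positivity)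
        _ = 64 * (D ^ 7 * x ^ 14) := by ring
        _ ≤ 64 * y := by linarith only [h1]
        _ ≤ c := h2
    calc (N : ℝ) ^ 6 * x ^ 20 = (N : ℝ) ^ 6 * x ^ 20 * D * d := by rw [mul_assoc _ D d, hDd, mul_one]
      _ ≤ c * d := mul_le_mul_of_nonneg_right h3 hd.le
  · have h1 : D ^ 6 * x ^ 20 ≤ y := hpm 6 20 2 (by norm_num) (by norm_num) (by norm_num)
    have h2 : 700000000 * y ≤ δ₀ := by
      have : 700000000 / δ₀ * y = 700000000 * y / δ₀ := by ring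
      rw [this, div_le_one hδ] at hCδ
      exact hCδ
    linarith only [h1, h2, bv, hy0]
  · have h1 : D ^ 7 * x ^ 19 ≤ y := hpm 7 19 3 (by norm_num) (by norm_num) (by norm_num)
    calc 101 / 100 * v * D ≤ 101 / 100 * (600000000 * (D ^ 6 * x ^ 20)) * D := by gcongr
      _ = 606000000 * (D ^ 7 * x ^ 19) * x := by ring
      _ ≤ 606000000 * y * x := by gcongr
      _ ≤ 1 * x := by
          refine mul_le_mul_of_nonneg_right ?_ hx.le
          linarith only [hC7, hy0]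
      _ = x := one_mul x
  · have h1 : D ^ 12 * x ^ 15 ≤ y := hpm 12 15 4 (by norm_num) (by norm_num) (by norm_num)
    have hx5 : x ^ 5 ≤ 1 := pow_le_one₀ hx.le hx1
    have t1 : β ≤ A1 * (D ^ 12 * x ^ 35) := by
      refine bβ.trans ?_
      have := mono 7 12 (by norm_num)
      gcongr
    have t2 : 11 / 10 * b₂ * D ≤ 11 / 10 * (A3 * (D ^ 12 * x ^ 35)) := by
      calc 11 / 10 * b₂ * D ≤ 11 / 10 * (A3 * (D ^ 10 * x ^ 35)) * D := by gcongr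
        _ = 11 / 10 * (A3 * (D ^ 11 * x ^ 35)) := by ring
        _ ≤ 11 / 10 * (A3 * (D ^ 12 * x ^ 35)) := by
            have := mono 11 12 (by norm_num)
            gcongr
    have t3 : 11 / 10 * x ^ 20 * v * D ≤ 11 / 10 * (600000000 * (D ^ 12 * x ^ 35)) := by
      calc 11 / 10 * x ^ 20 * v * D ≤ 11 / 10 * x ^ 20 * (600000000 * (D ^ 6 * x ^ 20)) * D := by gcongr
        _ = 11 / 10 * (600000000 * (D ^ 7 * x ^ 35 * x ^ 5)) := by ring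
        _ ≤ 11 / 10 * (600000000 * (D ^ 12 * x ^ 35 * 1)) := by
            have := mono 7 12 (by norm_num)
            gcongr
        _ = _ := by ring
    have t4 : 11 / 10 * K * v ^ 2 ≤ 11 / 10 * (360000000000000000 * K * (D ^ 12 * x ^ 35)) := by
      calc 11 / 10 * K * v ^ 2 ≤ 11 / 10 * K * (600000000 * (D ^ 6 * x ^ 20)) ^ 2 := by gcongr
        _ = 11 / 10 * (360000000000000000 * K * (D ^ 12 * x ^ 35 * x ^ 5)) := by ring
        _ ≤ 11 / 10 * (360000000000000000 * K * (D ^ 12 * x ^ 35 * 1)) := by gcongr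
        _ = _ := by ring
    have hz : 0 ≤ D ^ 12 * x ^ 35 := by positivity
    calc 104 / 100 * (β + 11 / 10 * b₂ * D + 11 / 10 * x ^ 20 * v * D + 11 / 10 * K * v ^ 2)
        ≤ 104 / 100 * (A1 * (D ^ 12 * x ^ 35) + 11 / 10 * (A3 * (D ^ 12 * x ^ 35)) +
          11 / 10 * (600000000 * (D ^ 12 * x ^ 35)) +
          11 / 10 * (360000000000000000 * K * (D ^ 12 * x ^ 35))) := by
          linarith only [t1, t2, t3, t4]
      _ ≤ A4 * (D ^ 12 * x ^ 35) := by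
          have z1 : 0 ≤ A1 * (D ^ 12 * x ^ 35) := by positivity
          have z2 : 0 ≤ A3 * (D ^ 12 * x ^ 35) := by positivity
          have z3 : 0 ≤ K * (D ^ 12 * x ^ 35) := by positivity
          rw [hA4]
          linarith only [z1, z2, z3, hz]
      _ = A4 * (D ^ 12 * x ^ 15) * x ^ 20 := by ring
      _ ≤ A4 * y * x ^ 20 := by gcongr
      _ = 16 ^ 20 * A4 * y * (x / 16) ^ 20 := by ring
      _ ≤ 1 * (x / 16) ^ 20 := mul_le_mul_of_nonneg_right hCA4 (by positivity)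
      _ = (x / 16) ^ 20 := one_mul _

end Numerics

variable {ρ₀ ε₀ ρ r d : ℝ} {L Ψ U : ℂ × ℂ → ℂ}

/-- one Newton step -/
theorem newton_step (hL : IsLag ρ₀ ε₀ L Ψ) {C c r₁ r₂ K δ₀ : ℝ} (hC : 0 ≤ C) (hc : 0 < c)
    (hB4 : B4Const ρ₀ L C c r₁) (hδ : 0 < δ₀) (hK0 : 0 ≤ K)
    (hr₂ : ∀ x y : ℂ, (x, y) ∈ Dg (3 / 4 * ρ₀) (ε₀ / 2) → ‖y - x‖ ≤ r₂ →
        ‖q2 (q1 L) (x, y) + (y - x)‖ ≤ 1 / 100 * ‖y - x‖)
    (hK : ∀ x y z x' y' z' : ℂ, ∀ m : ℝ, (x, y) ∈ Dg (3 / 4 * ρ₀) (ε₀ / 2) →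
        (y, z) ∈ Dg (3 / 4 * ρ₀) (ε₀ / 2) → ‖x'‖ ≤ m → ‖y'‖ ≤ m → ‖z'‖ ≤ m → m ≤ δ₀ →
        ‖EL L (x + x') (y + y') (z + z') - EL L x y z - dEL L x y z x' y' z'‖ ≤ K * m ^ 2) :
    ∃ C₀ : ℝ, 1 ≤ C₀ ∧ ∀ (ρ r d x : ℝ) (U : ℂ × ℂ → ℂ), r ≤ r₁ → 2 * r ≤ r₂ → 0 < d →
      100 * d ≤ r → 0 < x → C₀ * x ≤ d ^ 3 → AdmS ρ₀ ε₀ ρ r (2 * x) U →
      Bdd (3 / 2) ρ r 8 (x ^ 20) (Pf L U) →
      ∃ U' : ℂ × ℂ → ℂ, AdmS ρ₀ ε₀ (ρ - 6 * d) (r - 4 * d) x U' ∧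
        Bdd (3 / 2) (ρ - 6 * d) (r - 4 * d) 8 ((x / 16) ^ 20) (Pf L U') ∧
        (∀ p ∈ Dom (1 / 2) (ρ - 6 * d) (r - 4 * d), ‖U' p - U p‖ ≤ x * ‖p.2‖ ^ 5 ∧
          ‖q1 U' p - q1 U p‖ ≤ x ∧ ‖q2 U' p - q2 U p‖ ≤ x) := by
  obtain ⟨C₀, hC₀, hnum⟩ := numerics hC hc hK0 hδ
  refine ⟨C₀, hC₀, ?_⟩
  intro ρ r d x U hrr₁ hrr₂ hd hdr hx hCx hA hP
  have h := hA.adm
  have hr := h.r_pos
  have hr1 := h.r_le
  have hrρ := h.r_le_ρ
  have hρ := h.ρ_pos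
  have hd1 : d ≤ 1 := by linarith
  obtain ⟨N, hN⟩ := hnum d x hd hd1 hx hCx
  obtain ⟨n1, n2, n3, n4⟩ := hN _ _ _ _ _ _ rfl rfl rfl rfl rfl rfl
  set η : ℝ := 7 * C * N ^ 5 * (x ^ 20) ^ 2 with hη
  set β : ℝ := 10 / d ^ 2 * η + 3 / d * (x ^ 20 * Real.exp (-(π * d * N))) with hβ
  set s : ℝ := 10000 / d ^ 3 * (x ^ 20 + η) with hs
  set η₂ : ℝ := 58 * β / d + 12000000 * (s * x ^ 20) / d ^ 3 with hη₂
  set v : ℝ := 10000 / d ^ 3 * (5 / 2 * s + η₂) with hv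
  set b₂ : ℝ := 10 / d ^ 2 * η₂ + 3 / d * (5 / 2 * s * Real.exp (-(π * d * N))) with hb₂
  have he : 0 ≤ x ^ 20 := by positivity
  have hη0 : 0 ≤ η := by positivity
  have hβ0 : 0 ≤ β := by positivity
  have hs0 : 0 ≤ s := by positivity
  have hη₂0 : 0 ≤ η₂ := by positivity
  have hv0 : 0 ≤ v := by positivity
  have hb₂0 : 0 ≤ b₂ := by positivity
  obtain ⟨α, S, R, s₁, Hh, c₁, hH⟩ := h.exists_half hL hr₂ hC hB4 hrr₁ hrr₂ he hP hd hdr n1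
  obtain ⟨V, R₂, hV, hR₂, hVR, hVb, hR₂b, hVre, hVpar⟩ :=
    h.exists_V hL he hβ0 hs0 hP hd hdr hH hη₂ N
  exact ⟨Un U V, AdmS.next hL hK hK0 hx hA he hβ0 hv0 hb₂0 hP hd hdr hH hV hR₂ hVR hVb hR₂b hVre
    hVpar n2 n3 |>.imp id (fun h => ⟨h.1.le n4, h.2⟩)⟩

end Crest.Agent.R102.B821
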