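import Crest.Agent.R102.SlowQ_486
import Crest.Agent.R102.NoRecW_203

/-!
Row 102, T1-B, EDGE, slow regime (helper203): preparations for `NoRecP`.

* `KE`, `exists_margin`, `KE_exh` : compact exhaustion of the wedge `Wg m`;
* `log4`    : `(1 + log z)^4 ≤ C z^{1/4}`;
* `extract` : sequences from `¬ EvS P` carrying any countable family of `EvS` properties.
-/

set_option autoImplicit false

open Set Filter Topology Metric Complex

noncomputable section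

namespace Crest.Agent.R102.NoRecP203

open Crest.Agent.R102.Sup115 (HDu Dp E2 MaxiX GoodU)
open Crest.Agent.R102.S5 (Half bl ray Cn)
open Crest.Agent.R102.Edge255
open Crest.Agent.R102.SlowJ486

/-! ### compact sets of the wedge -/

lemma exists_margin {m : ℝ} {K : Set (ℂ × ℂ)} (hK : IsCompact K) (hKs : K ⊆ Wg m) :
    ∃ A : ℝ, 1 ≤ A ∧ ∃ c : ℝ, 0 < c ∧ ∀ q ∈ K, ‖q.1‖ ≤ A ∧ ‖q.2‖ ≤ A ∧ c ≤ q.2.im ∧
      q.1.im + c ≤ m * q.2.im := by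
  rcases K.eq_empty_or_nonempty with rfl | hne
  · exact ⟨1, le_rfl, 1, one_pos, fun q hq => absurd hq (notMem_empty q)⟩
  have c1 : Continuous fun q : ℂ × ℂ => q.2.im := by fun_prop
  have c2 : Continuous fun q : ℂ × ℂ => m * q.2.im - q.1.im := by fun_prop
  obtain ⟨q1, hq1, hm1⟩ := hK.exists_isMinOn hne c1.continuousOn
  obtain ⟨q2, hq2, hm2⟩ := hK.exists_isMinOn hne c2.continuousOn
  obtain ⟨A, hA⟩ := hK.isBounded.exists_norm_le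
  have h1 : 0 < q1.2.im := (hKs hq1).1
  have h2 : 0 < m * q2.2.im - q2.1.im := by
    have := (hKs hq2).2
    linarith
  refine ⟨max 1 A, le_max_left _ _, min q1.2.im (m * q2.2.im - q2.1.im), lt_min h1 h2, ?_⟩
  intro q hq
  have h3 : q1.2.im ≤ q.2.im := hm1 hq
  have h4 : m * q2.2.im - q2.1.im ≤ m * q.2.im - q.1.im := hm2 hq
  have h5 := hA q hq
  have h6 : ‖q.1‖ ≤ ‖q‖ := norm_fst_le q
  have h7 : ‖q.2‖ ≤ ‖q‖ := norm_snd_le q
  refine ⟨(h6.trans h5).trans (le_max_right _ _), (h7.trans h5).trans (le_max_right _ _),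
    (min_le_left _ _).trans h3, ?_⟩
  have := min_le_right q1.2.im (m * q2.2.im - q2.1.im)
  linarith

/-- window of size `A` and margin `c` of the wedge -/
def KM (m A c : ℝ) : Set (ℂ × ℂ) :=
  {q | ‖q.1‖ ≤ A ∧ ‖q.2‖ ≤ A ∧ c ≤ q.2.im ∧ q.1.im + c ≤ m * q.2.im}

lemma KM_sub {m A c : ℝ} (hc : 0 < c) : KM m A c ⊆ Wg m := by
  rintro q ⟨-, -, h3, h4⟩
  exact ⟨by linarith, by linarith⟩

lemma KM_compact (m A c : ℝ) : IsCompact (KM m A c) := by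
  refine (isCompact_closedBall (0 : ℂ × ℂ) A).of_isClosed_subset ?_ ?_
  · have c1 : Continuous fun q : ℂ × ℂ => ‖q.1‖ := by fun_prop
    have c2 : Continuous fun q : ℂ × ℂ => ‖q.2‖ := by fun_prop
    have c3 : Continuous fun q : ℂ × ℂ => q.2.im := by fun_prop
    have c4 : Continuous fun q : ℂ × ℂ => q.1.im + c := by fun_prop
    have c5 : Continuous fun q : ℂ × ℂ => m * q.2.im := by fun_prop
    exact (isClosed_le c1 continuous_const).inter ((isClosed_le c2 continuous_const).inter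
      ((isClosed_le continuous_const c3).inter (isClosed_le c4 c5)))
  · rintro q ⟨h1, h2, -, -⟩
    rw [mem_closedBall, dist_zero_right, Prod.norm_def]
    exact max_le h1 h2

lemma KM_convex (m A c : ℝ) : Convex ℝ (KM m A c) := by
  intro x hx y hy a b ha hb hab
  obtain ⟨x1, x2, x3, x4⟩ := hx
  obtain ⟨y1, y2, y3, y4⟩ := hy
  have e1 : (a • x + b • y).1.im = a * x.1.im + b * y.1.im := by simp
  have e2 : (a • x + b • y).2.im = a * x.2.im + b * y.2.im := by simp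
  have hn : ∀ z w : ℂ, ‖z‖ ≤ A → ‖w‖ ≤ A → ‖a • z + b • w‖ ≤ A := by
    intro z w hz hw
    refine (norm_add_le _ _).trans ?_
    rw [norm_smul, norm_smul, Real.norm_of_nonneg ha, Real.norm_of_nonneg hb]
    have c1 := mul_le_mul_of_nonneg_left hz ha
    have c2 := mul_le_mul_of_nonneg_left hw hb
    have c3 : a * A + b * A = A := by rw [← add_mul, hab, one_mul]
    linarith
  refine ⟨hn x.1 y.1 x1 y1, hn x.2 y.2 x2 y2, ?_, ?_⟩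
  · rw [e2]
    have c1 := mul_le_mul_of_nonneg_left x3 ha
    have c2 := mul_le_mul_of_nonneg_left y3 hb
    have c3 : a * c + b * c = c := by rw [← add_mul, hab, one_mul]
    linarith
  · rw [e1, e2]
    have c1 := mul_le_mul_of_nonneg_left x4 ha
    have c2 := mul_le_mul_of_nonneg_left y4 hb
    have c3 : a * c + b * c = c := by rw [← add_mul, hab, one_mul]
    nlinarith

lemma KM_mono {m A A' c c' : ℝ} (hA : A ≤ A') (hc : c' ≤ c) : KM m A c ⊆ KM m A' c' := by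
  rintro q ⟨h1, h2, h3, h4⟩
  exact ⟨h1.trans hA, h2.trans hA, hc.trans h3, by linarith⟩

/-- exhaustion -/
def KE (m : ℝ) (j : ℕ) : Set (ℂ × ℂ) := KM m ((j : ℝ) + 1) (1 / ((j : ℝ) + 1))

lemma KE_exh {m : ℝ} {K : Set (ℂ × ℂ)} (hK : IsCompact K) (hKs : K ⊆ Wg m) :
    ∀ᶠ j : ℕ in atTop, K ⊆ KE m j := by
  obtain ⟨A, hA, c, hc, h⟩ := exists_margin hK hKs
  have h1 : ∀ᶠ j : ℕ in atTop, A ≤ (j : ℝ) :=
    tendsto_natCast_atTop_atTop.eventually_ge_atTop A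
  have h2 : ∀ᶠ j : ℕ in atTop, 1 / c ≤ (j : ℝ) :=
    tendsto_natCast_atTop_atTop.eventually_ge_atTop (1 / c)
  filter_upwards [h1, h2] with j h1 h2 q hq
  have h3 : 1 / ((j : ℝ) + 1) ≤ c := by
    rw [div_le_iff₀ (by positivity)]
    rw [div_le_iff₀ hc] at h2
    nlinarith
  exact KM_mono (by linarith) h3 (h q hq)

lemma slowAt_mono {ε ε' : ℝ} {K K₁ K' K₁' : Set (ℂ × ℂ)} {ψ : ℂ → ℂ} {φ p B : ℂ × ℂ → ℂ}
    (hε : ε ≤ ε') (h1 : K₁ ⊆ K) (h2 : K₁' ⊆ K') (h : SlowAt ε K K' ψ φ p B) :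
    SlowAt ε' K₁ K₁' ψ φ p B :=
  ⟨fun q hq => ⟨(h.1 q (h1 hq)).1.trans hε, (h.1 q (h1 hq)).2.trans hε⟩,
    fun q hq => (h.2 q (h2 hq)).trans hε⟩

/-! ### logarithms -/

lemma log4 {z : ℝ} (hz : 1 ≤ z) : (1 + Real.log z) ^ 4 ≤ 17 ^ 4 * z ^ (1 / 4 : ℝ) := by
  have h0 : 0 ≤ Real.log z := Real.log_nonneg hz
  have h1 : Real.log z ≤ z ^ (1 / 16 : ℝ) / (1 / 16) :=
    Real.log_le_rpow_div (by linarith) (by norm_num)
  have h2 : 1 ≤ z ^ (1 / 16 : ℝ) := Real.one_le_rpow hz (by norm_num)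
  have h3 : 1 + Real.log z ≤ 17 * z ^ (1 / 16 : ℝ) := by
    have : z ^ (1 / 16 : ℝ) / (1 / 16) = 16 * z ^ (1 / 16 : ℝ) := by ring
    linarith
  calc (1 + Real.log z) ^ 4 ≤ (17 * z ^ (1 / 16 : ℝ)) ^ 4 := by gcongr
    _ = 17 ^ 4 * (z ^ (1 / 16 : ℝ)) ^ 4 := by ring
    _ = 17 ^ 4 * z ^ (1 / 4 : ℝ) := by
      congr 1
      rw [← Real.rpow_natCast, ← Real.rpow_mul (by linarith)]
      norm_num

lemma log_half {z : ℝ} (hz : 1 ≤ z) :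
    (1 + Real.log z) ^ 4 * z ^ (1 / 2 : ℝ) ≤ 17 ^ 4 * z ^ (3 / 4 : ℝ) := by
  have h1 := log4 hz
  have h2 : 0 ≤ z ^ (1 / 2 : ℝ) := by positivity
  have h3 : z ^ (3 / 4 : ℝ) = z ^ (1 / 4 : ℝ) * z ^ (1 / 2 : ℝ) := by
    rw [← Real.rpow_add (by linarith)]
    norm_num
  rw [h3]
  nlinarith [mul_le_mul_of_nonneg_right h1 h2]

lemma exp_bd {G t : ℝ} (hG : 1 ≤ G) (ht : 1 ≤ t) :
    G * t ^ (3 / 4 : ℝ) ≤ Real.exp ((Real.log (2 * G) + 1) * t ^ (1 / 2 : ℝ)) := by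
  have h0 : 1 ≤ t ^ (1 / 2 : ℝ) := Real.one_le_rpow ht (by norm_num)
  have h1 : t ^ (3 / 4 : ℝ) ≤ t := by
    calc t ^ (3 / 4 : ℝ) ≤ t ^ (1 : ℝ) := Real.rpow_le_rpow_of_exponent_le ht (by norm_num)
      _ = t := Real.rpow_one t
  have h2 : t = t ^ (1 / 2 : ℝ) * t ^ (1 / 2 : ℝ) := by
    rw [← Real.rpow_add (by linarith)]
    norm_num
  have h3 : t ≤ 2 * Real.exp (t ^ (1 / 2 : ℝ)) := by
    have := Real.quadratic_le_exp_of_nonneg (x := t ^ (1 / 2 : ℝ)) (by linarith)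
    nlinarith
  have hlog : 0 ≤ Real.log (2 * G) := Real.log_nonneg (by linarith)
  have h4 : 2 * G ≤ Real.exp (Real.log (2 * G) * t ^ (1 / 2 : ℝ)) := by
    calc 2 * G = Real.exp (Real.log (2 * G)) := (Real.exp_log (by linarith)).symm
      _ ≤ _ := Real.exp_le_exp.2 (le_mul_of_one_le_right hlog h0)
  rw [add_mul, Real.exp_add, one_mul]
  have h5 : 0 < Real.exp (t ^ (1 / 2 : ℝ)) := Real.exp_pos _
  calc G * t ^ (3 / 4 : ℝ) ≤ G * t := by gcongr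
    _ ≤ G * (2 * Real.exp (t ^ (1 / 2 : ℝ))) := by gcongr
    _ = 2 * G * Real.exp (t ^ (1 / 2 : ℝ)) := by ring
    _ ≤ _ := by gcongr

/-! ### sequences from `¬ EvS P` -/

lemma extract {h a g κ : ℝ} {ψ : ℂ → ℂ} {B : ℂ × ℂ → ℂ} {X L : Set (ℂ × ℂ)} {u s₀ : ℝ}
    {P : Set ℝ → ℝ → ℝ → Prop} (hP : ¬ EvS h a g κ ψ B X L u s₀ P)
    (Q : ℕ → Set ℝ → ℝ → ℝ → Prop) (hQ : ∀ n, EvS h a g κ ψ B X L u s₀ (Q n)) :
    ∃ (ρ δ : ℕ → ℝ) (U : ℕ → Set ℝ) (x s1 : ℕ → ℝ), ∀ n : ℕ,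
      ρ n ≤ 1 / ((n : ℝ) + 1) ∧ Base a g X L u s₀ (ρ n) (δ n) (U n) ∧
      |x n - s₀| ≤ 1 / ((n : ℝ) + 1) ∧ |x n - s₀| < δ n / 4 ∧ 0 < s1 n ∧
      s1 n ≤ δ n / (16 * ((n : ℝ) + 1)) ∧ s1 n ≤ 1 / ((n : ℝ) + 1) ∧
      Q n (U n) (x n) (s1 n) ∧ ¬ P (U n) (x n) (s1 n) := by
  have key : ∀ n : ℕ, ∃ (ρ δ : ℝ) (U : Set ℝ) (x s1 : ℝ),
      ρ ≤ 1 / ((n : ℝ) + 1) ∧ Base a g X L u s₀ ρ δ U ∧
      |x - s₀| ≤ 1 / ((n : ℝ) + 1) ∧ |x - s₀| < δ / 4 ∧ 0 < s1 ∧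
      s1 ≤ δ / (16 * ((n : ℝ) + 1)) ∧ s1 ≤ 1 / ((n : ℝ) + 1) ∧ Q n U x s1 ∧ ¬ P U x s1 := by
    intro n
    by_contra hcon
    apply hP
    obtain ⟨ρQ, hρQ, HQ⟩ := hQ n
    have hn : (0 : ℝ) < 1 / ((n : ℝ) + 1) := by positivity
    refine ⟨min ρQ (1 / ((n : ℝ) + 1)), lt_min hρQ hn, fun ρ δ U hρ hb => ?_⟩
    obtain ⟨δQ, hδQ, HQ⟩ := HQ ρ δ U (hρ.trans (min_le_left _ _)) hb
    have hδ := hb.δ_pos
    refine ⟨min δQ (min (δ / 4) (1 / ((n : ℝ) + 1))),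
      lt_min hδQ (lt_min (by positivity) hn), fun x hx σ hσ hc => ?_⟩
    obtain ⟨s2, hs2, HQ⟩ := HQ x (hx.trans_le (min_le_left _ _)) σ hσ hc
    refine ⟨min s2 (min (δ / (16 * ((n : ℝ) + 1))) (1 / ((n : ℝ) + 1))),
      lt_min hs2 (lt_min (by positivity) hn), fun s1 h1 h2 => ?_⟩
    by_contra hPs
    have hx2 := hx.trans_le (min_le_right _ _)
    have h3 := h2.trans (min_le_right _ _)
    exact hcon ⟨ρ, δ, U, x, s1, hρ.trans (min_le_right _ _), hb,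
      (hx2.trans_le (min_le_right _ _)).le, hx2.trans_le (min_le_left _ _), h1,
      h3.trans (min_le_left _ _), h3.trans (min_le_right _ _),
      HQ s1 h1 (h2.trans (min_le_left _ _)), hPs⟩
  choose ρ δ U x s1 H using key
  exact ⟨ρ, δ, U, x, s1, H⟩

end Crest.Agent.R102.NoRecP203
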