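import Crest.Agent.R102.EdgeDefs_255
import Crest.Agent.R102.IntrShift_198
import Crest.Agent.R102.IntrMove_802
import Crest.Agent.R102.SlowS_486

/-!
Row 102, EDGE / SLOW, NoRec (helper985): TRANSFER from the record window `(p, s)` to the window
`(e, s)` centred over the good base, `e.1 = p.1`, `|e.2 - p.2| ≤ s`.

* `tr K`          : real translates (in the second variable, by `r ∈ [-1,1]`) of `K`;
* `bl_shift`      : `bl e s q = bl p s (q.1, q.2 + r)`;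
* `intr_e`        : `Intr` at `(p,s)` gives `Intr` at `(e,s)`;
* `slow_shift`    : `SlowAt` at `(p,s)` gives `SlowAt` at `(e,s)`;
* `hosc_shift`    : oscillation.
-/

set_option autoImplicit false

open Set Filter Topology Metric Complex

noncomputable section

namespace Crest.Agent.R102.NoRecT985

open Crest.Agent.R102.Edge255
open Crest.Agent.R102.S5 (Half bl ray)
open Crest.Agent.R102.Sup115 (HDu Dp)
open Crest.Agent.R102.SlowE (oe)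
open Crest.Agent.R102.TreeS174 (KD)
open Crest.Agent.R102.SlowS (kd)

/-- translates of `K` by real vectors `(0, r)`, `|r| ≤ 1` -/
def tr (K : Set (ℂ × ℂ)) : Set (ℂ × ℂ) :=
  (fun x : (ℂ × ℂ) × ℝ => (x.1.1, x.1.2 + (x.2 : ℂ))) '' (K ×ˢ Icc (-1 : ℝ) 1)

theorem mem_tr {K : Set (ℂ × ℂ)} {q : ℂ × ℂ} (hq : q ∈ K) {r : ℝ} (hr : |r| ≤ 1) :
    (q.1, q.2 + (r : ℂ)) ∈ tr K :=
  ⟨(q, r), ⟨hq, abs_le.1 hr⟩, rfl⟩

theorem isCompact_tr {K : Set (ℂ × ℂ)} (hK : IsCompact K) : IsCompact (tr K) :=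
  (hK.prod isCompact_Icc).image (by fun_prop)

theorem tr_sub_Wg {K : Set (ℂ × ℂ)} {m : ℝ} (hK : K ⊆ Wg m) : tr K ⊆ Wg m := by
  rintro _ ⟨⟨q, r⟩, ⟨hq, -⟩, rfl⟩
  have h1 := hK hq
  have h2 : (q.2 + (r : ℂ)).im = q.2.im := by simp
  refine ⟨?_, ?_⟩
  · show 0 < (q.2 + (r : ℂ)).im
    rw [h2]; exact h1.1
  · show q.1.im < m * (q.2 + (r : ℂ)).im
    rw [h2]; exact h1.2

theorem z0_mem {m : ℝ} (hm : 0 ≤ m) : z0 ∈ Wg m := by
  refine ⟨?_, ?_⟩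
  · simp [z0]
  · simp only [z0, neg_im, I_im, div_ofNat_im]
    nlinarith

theorem insert_sub_Wg {K : Set (ℂ × ℂ)} {m : ℝ} (hm : 0 ≤ m) (hK : K ⊆ Wg m) :
    insert z0 K ⊆ Wg m := insert_subset (z0_mem hm) hK

/-- the shift of the centre -/
theorem exists_shift {p e : ℝ × ℝ} {s : ℝ} (hs : 0 < s) (h1 : e.1 = p.1) (h2 : |e.2 - p.2| ≤ s) :
    ∃ r : ℝ, |r| ≤ 1 ∧ (∀ q : ℂ × ℂ, bl e s q = bl p s (q.1, q.2 + (r : ℂ))) ∧
      ∀ q : ℂ × ℂ, bl p s q = bl e s (q.1, q.2 + ((-r : ℝ) : ℂ)) := by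
  have hs' : (s : ℂ) ≠ 0 := by exact_mod_cast hs.ne'
  refine ⟨(e.2 - p.2) / s, ?_, fun q => ?_, fun q => ?_⟩
  · rw [abs_div, abs_of_pos hs, div_le_one hs]; exact h2
  · unfold bl
    rw [h1]
    ext1
    · rfl
    · push_cast; field_simp; ring
  · unfold bl
    rw [h1]
    ext1
    · rfl
    · push_cast; field_simp; ring

theorem ray_eq (e : ℝ × ℝ) (s : ℝ) : ray e s = bl e s z0 := rfl

/-- **T1** -/
theorem intr_e {u0 R d h : ℝ} {ψ H A : ℂ → ℂ} {φ p B : ℂ × ℂ → ℂ} {X L : Set (ℂ × ℂ)}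
    (D : ED u0 R d h ψ H A φ p B X L) {κ : ℝ} (hκ : 0 < κ) :
    ∃ κ' > 0, ∀ (c e : ℝ × ℝ) (s : ℝ), 0 < s → 2 * s ≤ d → ball (c.2 : ℂ) (2 * s) ⊆ ball (u0 : ℂ) R →
      e.1 = c.1 → |e.2 - c.2| ≤ s → Intr h κ ψ B c s → Intr h κ' ψ B e s := by
  obtain ⟨κ', hκ', hI⟩ := IntrShift198.intr_shift (R := 1) D.curve hκ le_rfl
  refine ⟨κ', hκ', fun c e s hs hd hb h1 h2 hc => ?_⟩
  have hsub : Half c (2 * 1 * s) 0 ⊆ Dp u0 R d := by
    rintro q ⟨q1, q2, q3, q4, q5⟩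
    refine ⟨by linarith, by linarith, hb ?_, q4⟩
    rw [mem_ball_iff_norm]
    linarith
  refine hI B c e s s hs (by rw [div_one]) (by rw [one_mul]) ?_ (by rw [one_mul]; exact h2)
    (D.B_diff.mono (hsub.trans D.Dp_X)) (fun q hq => D.B_im q (D.Dp_X (hsub hq))) hc
  rw [h1, sub_self, abs_zero, one_mul]
  exact hs.le

/-- uniform continuity of `ψ` -/
theorem unif_psi {h κ : ℝ} {ψ H : ℂ → ℂ} (hC : Curve h ψ H) (hκ : 0 < κ) {ε : ℝ} (hε : 0 < ε) :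
    ∃ δ > 0, ∀ z w : ℂ, |z.im| ≤ h - κ → ‖w - z‖ ≤ δ → ‖ψ w - ψ z‖ ≤ ε := by
  obtain ⟨δ, hδ, hu⟩ := IntrMove802.unif_strip (h := h) (y := fun z => ψ z - 2 * Real.pi * z)
    (hC.ψ_diff.continuousOn.sub (by fun_prop)) (fun z hz => by
      rw [hC.ψ_per z hz]; ring) (h' := h - κ / 2) (by linarith) (ε := ε / 2) (by positivity)
  refine ⟨min δ (min (κ / 2) (ε / (4 * Real.pi))), by positivity, fun z w hz hw => ?_⟩
  have h1 : ‖w - z‖ ≤ δ := hw.trans (min_le_left _ _)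
  have h2 : ‖w - z‖ ≤ κ / 2 := hw.trans ((min_le_right _ _).trans (min_le_left _ _))
  have h3 : ‖w - z‖ ≤ ε / (4 * Real.pi) := hw.trans ((min_le_right _ _).trans (min_le_right _ _))
  have h4 : |w.im| ≤ h - κ / 2 := by
    have := (Complex.abs_im_le_norm (w - z)).trans h2
    rw [sub_im] at this
    have h5 : |w.im| ≤ |z.im| + |w.im - z.im| := by
      calc |w.im| = |z.im + (w.im - z.im)| := by ring_nf
        _ ≤ _ := abs_add_le _ _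
    linarith
  have h5 := hu w z h4 (by linarith) h1
  have h6 : ψ w - ψ z = ((ψ w - 2 * Real.pi * w) - (ψ z - 2 * Real.pi * z)) +
      2 * Real.pi * (w - z) := by ring
  rw [h6]
  refine (norm_add_le _ _).trans ?_
  have h7 : ‖(2 * Real.pi * (w - z) : ℂ)‖ = 2 * Real.pi * ‖w - z‖ := by
    rw [norm_mul, norm_mul, Complex.norm_ofNat, Complex.norm_real, Real.norm_eq_abs,
      abs_of_pos Real.pi_pos]
  have h8 : 2 * Real.pi * ‖w - z‖ ≤ ε / 2 := by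
    calc 2 * Real.pi * ‖w - z‖ ≤ 2 * Real.pi * (ε / (4 * Real.pi)) := by gcongr
      _ = ε / 2 := by field_simp; ring
  rw [h7]
  linarith

/-- **T2** -/
theorem slow_shift {h κ : ℝ} {ψ H : ℂ → ℂ} (hC : Curve h ψ H) (hκ : 0 < κ) {ε : ℝ} (hε : 0 < ε) :
    ∃ ε' > 0, ε' ≤ ε ∧ ∀ (φ p B : ℂ × ℂ → ℂ) (c e : ℝ × ℝ) (s : ℝ) (K K' : Set (ℂ × ℂ)), 0 < s →
      e.1 = c.1 → |e.2 - c.2| ≤ s → |(B (ray c s)).im| ≤ h - κ →
      SlowAt ε' (tr (insert z0 K)) (tr (insert z0 K')) ψ (fun q => φ (bl c s q))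
        (fun q => p (bl c s q)) (fun q => B (bl c s q)) →
      SlowAt ε K K' ψ (fun q => φ (bl e s q)) (fun q => p (bl e s q)) (fun q => B (bl e s q)) := by
  set η : ℝ := min (ε / 8) (1 / 4) with hη
  have hη0 : 0 < η := by positivity
  have hη1 : η ≤ ε / 8 := min_le_left _ _
  have hη2 : η ≤ 1 / 4 := min_le_right _ _
  obtain ⟨δ, hδ, hψ⟩ := unif_psi hC hκ hη0
  refine ⟨min (ε / 8) δ, by positivity, (min_le_left _ _).trans (by linarith), ?_⟩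
  intro φ p B c e s K K' hs h1 h2 hB hS
  obtain ⟨r, hr, hbl, -⟩ := exists_shift hs h1 h2
  obtain ⟨hS1, hS2⟩ := hS
  have hε1 : min (ε / 8) δ ≤ ε / 8 := min_le_left _ _
  have hz : (z0.1, z0.2 + (r : ℂ)) ∈ tr (insert z0 K) := mem_tr (mem_insert _ _) hr
  have hz' : (z0.1, z0.2 + (r : ℂ)) ∈ tr (insert z0 K') := mem_tr (mem_insert _ _) hr
  -- the base label moves little
  have hb := (hS2 _ hz').trans (min_le_right _ _)
  have hps := hψ (B (ray c s)) (B (bl c s (z0.1, z0.2 + (r : ℂ)))) hB hb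
  refine ⟨fun q hq => ⟨?_, ?_⟩, fun q hq => ?_⟩
  · have h3 := (hS1 _ (mem_tr (mem_insert_of_mem z0 hq) hr)).1
    simp only [hbl]
    set b := ψ (B (ray c s)) with hbdef
    set b' := ψ (B (bl c s (z0.1, z0.2 + (r : ℂ)))) with hb'def
    set w := φ (bl c s (q.1, q.2 + (r : ℂ))) with hw
    have h3' : ‖cexp (2 * I * (w - b)) - 1‖ ≤ min (ε / 8) δ := h3
    have e1 : cexp (2 * I * (w - b')) - 1 =
        (cexp (2 * I * (w - b)) - 1) * cexp (2 * I * (b - b')) + (cexp (2 * I * (b - b')) - 1) := by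
      have : cexp (2 * I * (w - b')) = cexp (2 * I * (w - b)) * cexp (2 * I * (b - b')) := by
        rw [← Complex.exp_add]; congr 1; ring
      rw [this]; ring
    have h4 : ‖2 * I * (b - b')‖ ≤ 2 * η := by
      rw [norm_mul, norm_mul, Complex.norm_ofNat, Complex.norm_I, mul_one, norm_sub_rev]
      linarith
    have h5 : ‖cexp (2 * I * (b - b')) - 1‖ ≤ 4 * η := by
      refine (Complex.norm_exp_sub_one_le (by linarith)).trans ?_
      linarith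
    have h6 : ‖cexp (2 * I * (b - b'))‖ ≤ 2 := by
      calc ‖cexp (2 * I * (b - b'))‖ = ‖(cexp (2 * I * (b - b')) - 1) + 1‖ := by ring_nf
        _ ≤ ‖cexp (2 * I * (b - b')) - 1‖ + ‖(1 : ℂ)‖ := norm_add_le _ _
        _ ≤ 4 * η + 1 := by rw [norm_one]; linarith
        _ ≤ 2 := by linarith
    rw [e1]
    refine (norm_add_le _ _).trans ?_
    rw [norm_mul]
    have h7 : ‖cexp (2 * I * (w - b)) - 1‖ * ‖cexp (2 * I * (b - b'))‖ ≤ ε / 8 * 2 :=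
      mul_le_mul (h3'.trans hε1) h6 (norm_nonneg _) (by positivity)
    linarith
  · have h3 := (hS1 _ (mem_tr (mem_insert_of_mem z0 hq) hr)).2
    have h4 := (hS1 _ hz).2
    simp only [hbl]
    have e1 : p (bl c s (q.1, q.2 + (r : ℂ))) - p (bl c s (z0.1, z0.2 + (r : ℂ))) =
        (p (bl c s (q.1, q.2 + (r : ℂ))) - p (bl c s z0)) -
        (p (bl c s (z0.1, z0.2 + (r : ℂ))) - p (bl c s z0)) := by ring
    rw [e1]
    refine (norm_sub_le _ _).trans ?_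
    simp only at h3 h4
    linarith
  · have h3 := hS2 _ (mem_tr (mem_insert_of_mem z0 hq) hr)
    have h4 := hS2 _ hz'
    simp only [hbl]
    have e1 : B (bl c s (q.1, q.2 + (r : ℂ))) - B (bl c s (z0.1, z0.2 + (r : ℂ))) =
        (B (bl c s (q.1, q.2 + (r : ℂ))) - B (bl c s z0)) -
        (B (bl c s (z0.1, z0.2 + (r : ℂ))) - B (bl c s z0)) := by ring
    rw [e1]
    refine (norm_sub_le _ _).trans ?_
    simp only at h3 h4
    linarith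

/-- **T2**, sequences -/
theorem slow_seq {h κ : ℝ} {ψ H : ℂ → ℂ} (hC : Curve h ψ H) (hκ : 0 < κ) {a g : ℝ} (ha : 0 ≤ a)
    (hg : 0 < g) {φ p B : ℂ × ℂ → ℂ} {c e : ℕ → ℝ × ℝ} {s : ℕ → ℝ} (hs : ∀ n, 0 < s n)
    (h1 : ∀ n, (e n).1 = (c n).1) (h2 : ∀ n, |(e n).2 - (c n).2| ≤ s n)
    (hB : ∀ᶠ n in atTop, |(B (ray (c n) (s n))).im| ≤ h - κ)
    (hS : ∀ ε > 0, ∀ K ⊆ Wg (a + g), IsCompact K → ∀ K' ⊆ Wg a, IsCompact K' →
      ∀ᶠ n in atTop, SlowAt ε K K' ψ (fun q => φ (bl (c n) (s n) q))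
        (fun q => p (bl (c n) (s n) q)) (fun q => B (bl (c n) (s n) q))) :
    ∀ ε > 0, ∀ K ⊆ Wg (a + g), IsCompact K → ∀ K' ⊆ Wg a, IsCompact K' →
      ∀ᶠ n in atTop, SlowAt ε K K' ψ (fun q => φ (bl (e n) (s n) q))
        (fun q => p (bl (e n) (s n) q)) (fun q => B (bl (e n) (s n) q)) := by
  intro ε hε K hK hKc K' hK' hKc'
  obtain ⟨ε', hε', -, hsh⟩ := slow_shift hC hκ hε
  filter_upwards [hB, hS ε' hε' (tr (insert z0 K))
    (tr_sub_Wg (insert_sub_Wg (by linarith) hK)) (isCompact_tr (hKc.insert z0))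
    (tr (insert z0 K')) (tr_sub_Wg (insert_sub_Wg ha hK')) (isCompact_tr (hKc'.insert z0))]
    with n hn hn'
  exact hsh φ p B (c n) (e n) (s n) K K' (hs n) (h1 n) (h2 n) hn hn'

/-- **T3**: the oscillation seen from `e` -/
theorem hosc_shift {AK : ℝ} (hAK : 8 ≤ AK) {φ : ℂ × ℂ → ℂ} {c e : ℝ × ℝ} {s : ℝ} (hs : 0 < s)
    (h1 : e.1 = c.1) (h2 : |e.2 - c.2| ≤ s) (ho : 0 < oe AK φ c s) :
    ∃ q ∈ tr (kd AK), ∃ q' ∈ tr (kd AK),
      1 / 2 * oe AK φ c s ≤ ‖φ (bl e s q) - φ (bl e s q')‖ := by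
  obtain ⟨r, hr, -, hbl⟩ := exists_shift hs h1 h2
  have hr' : |-r| ≤ 1 := by rwa [abs_neg]
  obtain ⟨q, hq, hlt⟩ := SlowE.exists_of_lt_oe (ε := 1 / 2 * oe AK φ c s) (by positivity)
    (by linarith : 1 / 2 * oe AK φ c s < oe AK φ c s)
  obtain ⟨x, rfl⟩ := SlowS.exists_bl hs (p := c) q
  have hx : x ∈ kd AK := (SlowS.bl_mem_KD hs).1 hq
  refine ⟨_, mem_tr hx hr', _, mem_tr (SlowS.z0_mem_kd hAK) hr', ?_⟩
  rw [← hbl, ← hbl]
  exact hlt.le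

theorem tr_kd {AK : ℝ} (hAK : 8 ≤ AK) {m : ℝ} (hm : 0 ≤ m) :
    IsCompact (tr (kd AK)) ∧ tr (kd AK) ⊆ Wg m :=
  ⟨isCompact_tr (SlowS.isCompact_kd hAK), tr_sub_Wg (SlowS.kd_sub_Wg hAK hm)⟩

end Crest.Agent.R102.NoRecT985
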