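import Crest.Agent.R102.Chain_859

/-!
# R102/SideK_201: the side columns at a kernel record (slow label regime, N2), pure part

In the abstract objects of `Chain_859` (`V`, `rho`): if the window `(p, s)` is a kernel record
(`rho * e' ≤ A * e`) then at every window `(p', s')` at distance `≤ R` of `(p, s)` the label is
displaced by at most `M * (R / s) ^ th * (R / s') ^ 2 * e p s`, as long as this number is small.
-/

set_option autoImplicit false

open Set Metric

noncomputable section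

namespace Crest.Agent.R102.SideK201

open Crest.Agent.R102.Chain859

variable {E : Type*} [NormedAddCommGroup E]

/-- down a side column -/
lemma down_col {b : ℝ → E} {b0 : E} {e : ℝ → ℝ} {Cl D k0 k r s' : ℝ} (hCl : 0 ≤ Cl) (hD : 0 ≤ D)
    (hs' : 0 < s') (hk0 : ‖b r - b0‖ ≤ k0) (hk : k0 + Cl * D * (r / s') ^ 2 ≤ k)
    (h1 : D * (r / s') ^ 2 < 1)
    (hrec : ∀ t, s' ≤ t → t ≤ r → (∀ t', t ≤ t' → t' ≤ r → ‖b t' - b0‖ ≤ k) →
      e t ≤ D * (r / t) ^ 2)
    (hv : ∀ t t', s' ≤ t' → t' ≤ t → t ≤ r → t / 2 ≤ t' →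
      (∀ τ, t ≤ τ → τ ≤ r → ‖b τ - b0‖ ≤ k) → e t < 1 → ‖b t - b t'‖ ≤ Cl * e t) :
    ∀ n : ℕ, ∀ t, s' ≤ t → t ≤ r → r ≤ 2 ^ n * t → ‖b r - b t‖ ≤ Cl * D * (r / t) ^ 2 := by
  have hmono : ∀ t, s' ≤ t → t ≤ r → D * (r / t) ^ 2 ≤ D * (r / s') ^ 2 := by
    intro t ht htr
    have t0 : 0 < t := lt_of_lt_of_le hs' ht
    have r0 : 0 < r := lt_of_lt_of_le t0 htr
    gcongr
  have hmono' : ∀ t, s' ≤ t → t ≤ r → Cl * D * (r / t) ^ 2 ≤ Cl * D * (r / s') ^ 2 := by
    intro t ht htr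
    have := mul_le_mul_of_nonneg_left (hmono t ht htr) hCl
    linarith
  intro n
  induction n with
  | zero =>
    intro t a1 a2 a3
    have : t = r := le_antisymm a2 (by simpa using a3)
    subst this
    rw [sub_self, norm_zero]
    positivity
  | succ n ih =>
    intro t a1 a2 a3
    have t0 : 0 < t := lt_of_lt_of_le hs' a1
    have r0 : 0 < r := lt_of_lt_of_le t0 a2
    have hkr : ‖b r - b0‖ ≤ k := by
      have : 0 ≤ Cl * D * (r / s') ^ 2 := by positivity
      linarith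
    rcases le_total r (2 * t) with h | h
    · have hin : ∀ τ, r ≤ τ → τ ≤ r → ‖b τ - b0‖ ≤ k := by
        intro τ c1 c2
        rw [le_antisymm c2 c1]; exact hkr
      have h2 := hrec r (a1.trans a2) le_rfl hin
      have h3 : e r < 1 := lt_of_le_of_lt (h2.trans (hmono r (a1.trans a2) le_rfl)) h1
      have h4 := hv r t a1 a2 le_rfl (by linarith) hin h3
      rw [div_self r0.ne', one_pow, mul_one] at h2
      have h5 : (1 : ℝ) ≤ (r / t) ^ 2 := by
        apply one_le_pow₀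
        rw [one_le_div t0]; exact a2
      have h6 : 0 ≤ Cl * D := mul_nonneg hCl hD
      calc ‖b r - b t‖ ≤ Cl * e r := h4
        _ ≤ Cl * D := by gcongr
        _ ≤ Cl * D * (r / t) ^ 2 := by nlinarith
    · have hin : ∀ τ, 2 * t ≤ τ → τ ≤ r → ‖b τ - b0‖ ≤ k := by
        intro τ c1 c2
        have c3 := ih τ (by linarith) c2 (by
          rw [pow_succ] at a3
          have : (0 : ℝ) < 2 ^ n := by positivity
          nlinarith)
        have c4 := hmono' τ (by linarith) c2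
        have c5 : ‖b τ - b0‖ ≤ ‖b τ - b r‖ + ‖b r - b0‖ := norm_sub_le_norm_sub_add_norm_sub _ _ _
        rw [norm_sub_rev] at c3
        linarith
      have h2 := hrec (2 * t) (by linarith) h hin
      have h3 : e (2 * t) < 1 := lt_of_le_of_lt (h2.trans (hmono (2 * t) (by linarith) h)) h1
      have h4 := hv (2 * t) t a1 (by linarith) h (by linarith) hin h3
      have h5 := ih (2 * t) (by linarith) h (by rw [pow_succ] at a3; linarith)
      have h7 : (r / (2 * t)) ^ 2 = (r / t) ^ 2 / 4 := by field_simp; ring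
      rw [h7] at h2 h5
      have h8 : Cl * e (2 * t) ≤ Cl * (D * ((r / t) ^ 2 / 4)) := by gcongr
      have h9 : ‖b r - b t‖ ≤ ‖b r - b (2 * t)‖ + ‖b (2 * t) - b t‖ :=
        norm_sub_le_norm_sub_add_norm_sub _ _ _
      have h10 : 0 ≤ Cl * D * (r / t) ^ 2 := by positivity
      nlinarith

/-- up the column of the record -/
lemma up_col {b : ℝ → E} {e : ℝ → ℝ} {Cl D th s : ℝ} (hth : 0 < th) (hCl : 0 ≤ Cl) (hD : 0 ≤ D)
    (hs : 0 < s) :
    ∀ n : ℕ, ∀ r, s ≤ r → r ≤ 2 ^ n * s → (∀ t, s ≤ t → t ≤ r → e t ≤ D * (t / s) ^ th) →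
      (∀ t t', s ≤ t' → t' ≤ t → t ≤ r → t / 2 ≤ t' → ‖b t - b t'‖ ≤ Cl * e t) →
      ‖b r - b s‖ ≤ 1 / (1 - (1 / 2 : ℝ) ^ th) * (Cl * D * (r / s) ^ th) := by
  set x : ℝ := (1 / 2 : ℝ) ^ th with hx
  have x0 : 0 < x := by rw [hx]; positivity
  have x1 : x < 1 := Real.rpow_lt_one (by norm_num) (by norm_num) hth
  have x2 : 0 < 1 - x := by linarith
  have x3 : 1 ≤ 1 / (1 - x) := by rw [le_div_iff₀ x2]; linarith
  intro n
  induction n with
  | zero =>
    intro r a1 a2 _ _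
    have : r = s := le_antisymm (by simpa using a2) a1
    subst this
    rw [sub_self, norm_zero]
    positivity
  | succ n ih =>
    intro r a1 a2 he hv
    have r0 : 0 < r := lt_of_lt_of_le hs a1
    have hP : 0 ≤ Cl * D * (r / s) ^ th := by positivity
    rcases le_total r (2 * s) with h | h
    · have h4 := hv r s le_rfl a1 le_rfl (by linarith)
      have h5 := he r a1 le_rfl
      calc ‖b r - b s‖ ≤ Cl * e r := h4
        _ ≤ Cl * (D * (r / s) ^ th) := by gcongr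
        _ = 1 * (Cl * D * (r / s) ^ th) := by ring
        _ ≤ _ := by gcongr
    · have h4 := hv r (r / 2) (by linarith) (by linarith) le_rfl le_rfl
      have h5 := he r a1 le_rfl
      have h6 := ih (r / 2) (by linarith) (by rw [pow_succ] at a2; linarith)
        (fun t c1 c2 => he t c1 (by linarith)) (fun t t' c1 c2 c3 c4 => hv t t' c1 c2 (by linarith) c4)
      have h7 : (r / 2 / s) ^ th = x * (r / s) ^ th := by
        rw [show r / 2 / s = (1 / 2) * (r / s) by ring, Real.mul_rpow (by norm_num) (by positivity)]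
      rw [h7] at h6
      have h8 : Cl * e r ≤ Cl * (D * (r / s) ^ th) := by gcongr
      have h9 : ‖b r - b s‖ ≤ ‖b r - b (r / 2)‖ + ‖b (r / 2) - b s‖ :=
        norm_sub_le_norm_sub_add_norm_sub _ _ _
      have h10 : 1 / (1 - x) * (Cl * D * (x * (r / s) ^ th)) + Cl * (D * (r / s) ^ th) =
          1 / (1 - x) * (Cl * D * (r / s) ^ th) := by
        field_simp
        ring
      linarith

set_option maxHeartbeats 4000000 in
/-- **N2**: side columns at a kernel record -/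
theorem sideK {th Cl A : ℝ} (hth : 0 < th) (hCl : 0 ≤ Cl) (hA : 1 ≤ A) :
    ∃ M : ℝ, 1 ≤ M ∧ ∀ (e : ℝ × ℝ → ℝ → ℝ) (b : ℝ × ℝ → ℝ → E) (b0 : E) (k ε s1 : ℝ)
      (p0 p : ℝ × ℝ) (s : ℝ), (∀ p s, 0 ≤ e p s) →
      (∀ p s s', V b b0 s1 p0 k p s → e p s < 1 → s / 2 ≤ s' → s' ≤ s →
        ‖b p s - b p s'‖ ≤ Cl * e p s) →
      (∀ p p' s, V b b0 s1 p0 k p s → e p s < 1 → dist p p' ≤ s →
        ‖b p s - b p' s‖ ≤ Cl * (dist p p' / s) * e p s) →
      0 ≤ k → V b b0 s1 p0 (3 * k / 4) p s → dist p p0 ≤ s1 / 2 →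
      (∀ s'', s ≤ s'' → s'' ≤ s1 → e p s'' ≤ ε) → 8 * Cl * ε ≤ k → ε < 1 →
      (∀ p' s', V b b0 s1 p0 k p' s' → rho th p s p' s' * e p' s' ≤ A * e p s) →
      ∀ (R : ℝ) (p' : ℝ × ℝ) (s' : ℝ), s ≤ R → 2 * R ≤ s1 → dist p p' ≤ R → 0 < s' → s' ≤ R →
        M * (R / s) ^ th * (R / s') ^ 2 * e p s ≤ k / 8 →
        M * (R / s) ^ th * (R / s') ^ 2 * e p s ≤ 1 / 2 →
        V b b0 s1 p0 k p' s' ∧
          ‖b p' s' - b p s‖ ≤ M * (R / s) ^ th * (R / s') ^ 2 * e p s := by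
  set x : ℝ := (1 / 2 : ℝ) ^ th with hx
  have x1 : x < 1 := Real.rpow_lt_one (by norm_num) (by norm_num) hth
  have x2 : 0 < 1 - x := by linarith
  set c : ℝ := 1 / (1 - x) with hc
  have c0 : 0 < c := by rw [hc]; positivity
  refine ⟨(1 + Cl) * A * (2 + c), ?_, ?_⟩
  · have h1 : 1 ≤ (1 + Cl) * A := by nlinarith
    nlinarith
  intro e b b0 k ε s1 p0 p s he hvert hlat hk hW hd hε hεk hε1 hrec R p' s' hsR hRs1 hdp hs' hs'R
    hsm1 hsm2
  set M : ℝ := (1 + Cl) * A * (2 + c) with hM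
  have s0 : 0 < s := hW.1
  have R0 : 0 < R := lt_of_lt_of_le s0 hsR
  have hs1 : 0 < s1 := by linarith
  have he0 := he p s
  set D : ℝ := A * (R / s) ^ th * e p s with hDdef
  have hD0 : 0 ≤ D := by rw [hDdef]; positivity
  have hRs' : 1 ≤ (R / s') ^ 2 := by
    apply one_le_pow₀
    rw [one_le_div hs']; exact hs'R
  set Y : ℝ := D * (R / s') ^ 2 with hY
  have hY0 : 0 ≤ Y := by rw [hY]; positivity
  have hDY : D ≤ Y := by rw [hY]; nlinarith
  have hMY : M * (R / s) ^ th * (R / s') ^ 2 * e p s = (1 + Cl) * (2 + c) * Y := by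
    rw [hM, hY, hDdef]; ring
  rw [hMY] at hsm1 hsm2 ⊢
  have hYa : Y ≤ (1 + Cl) * (2 + c) * Y := by
    have : 1 ≤ (1 + Cl) * (2 + c) := by nlinarith
    nlinarith
  have hYb : Cl * Y ≤ (1 + Cl) * (2 + c) * Y := by
    have : Cl ≤ (1 + Cl) * (2 + c) := by nlinarith
    nlinarith
  have hD1 : D < 1 := by linarith
  -- windows over `p`
  have hWk : ∀ t, s ≤ t → t ≤ s1 → V b b0 s1 p0 k p t := fun t h1 h2 => V_up hW (by linarith) h1 h2
  have hup : ∀ t, s ≤ t → t ≤ s1 → e p t ≤ A * e p s * (t / s) ^ th := by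
    intro t h1 h2
    have t0 : 0 < t := lt_of_lt_of_le s0 h1
    have h3 := hrec p t (hWk t h1 h2)
    have h4 : rr p s p t ≤ t := by
      refine max_le (max_le h1 le_rfl) ?_
      rw [dist_self]; exact t0.le
    have h5 := le_rho (p := p) (p' := p) hth.le s0 t0 h4
    rw [div_self t0.ne', one_pow, mul_one] at h5
    have h6 : (s / t) ^ th * e p t ≤ A * e p s :=
      (mul_le_mul_of_nonneg_right h5 (he p t)).trans h3
    have h7 : (s / t) ^ th * (t / s) ^ th = 1 := by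
      rw [← Real.mul_rpow (by positivity) (by positivity)]
      rw [show s / t * (t / s) = 1 by field_simp, Real.one_rpow]
    have h8 : 0 ≤ (t / s) ^ th := by positivity
    calc e p t = (s / t) ^ th * e p t * (t / s) ^ th := by
          rw [show (s / t) ^ th * e p t * (t / s) ^ th = (s / t) ^ th * (t / s) ^ th * e p t by ring,
            h7, one_mul]
      _ ≤ A * e p s * (t / s) ^ th := by gcongr
  have hupR : ∀ t, s ≤ t → t ≤ R → e p t ≤ D := by
    intro t h1 h2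
    have t0 : 0 < t := lt_of_lt_of_le s0 h1
    calc e p t ≤ A * e p s * (t / s) ^ th := hup t h1 (by linarith)
      _ ≤ A * e p s * (R / s) ^ th := by gcongr
      _ = D := by rw [hDdef]; ring
  -- (b) up the column of `p`
  obtain ⟨n, hn⟩ := pow_unbounded_of_one_lt (R / s) (show (1 : ℝ) < 2 by norm_num)
  have hb1 : ‖b p R - b p s‖ ≤ c * (Cl * (A * e p s) * (R / s) ^ th) := by
    refine up_col (b := b p) (e := e p) hth hCl (by positivity) s0 n R hsR ?_ ?_ ?_
    · rw [div_lt_iff₀ s0] at hn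
      exact hn.le
    · intro t h1 h2
      exact hup t h1 (by linarith)
    · intro t t' h1 h2 h3 h4
      exact hvert p t t' (hWk t (h1.trans h2) (by linarith))
        (lt_of_le_of_lt (hupR t (h1.trans h2) h3) hD1) h4 h2
  have hb1' : ‖b p R - b p s‖ ≤ c * (Cl * D) := by
    refine hb1.trans (le_of_eq ?_)
    rw [hDdef]; ring
  -- (c) lateral move at scale `R`
  have hb2 : ‖b p R - b p' R‖ ≤ Cl * D := by
    have h1 := hlat p p' R (hWk R hsR (by linarith)) (lt_of_le_of_lt (hupR R hsR le_rfl) hD1) hdp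
    have h2 : dist p p' / R ≤ 1 := by rw [div_le_one R0]; exact hdp
    have h3 := hupR R hsR le_rfl
    have h4 := he p R
    calc ‖b p R - b p' R‖ ≤ Cl * (dist p p' / R) * e p R := h1
      _ ≤ Cl * 1 * D := by gcongr
      _ = Cl * D := by ring
  -- (d) ancestors of the side column
  have hanc : ∀ t, R ≤ t → t ≤ s1 → ‖b p' t - b0‖ ≤ 7 * k / 8 := by
    intro t h1 h2
    have t0 : 0 < t := lt_of_lt_of_le R0 h1
    have h3 := hε t (hsR.trans h1) h2
    have h4 := hlat p p' t (hWk t (hsR.trans h1) h2) (lt_of_le_of_lt h3 hε1) (hdp.trans h1)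
    have h5 : dist p p' / t ≤ 1 := by rw [div_le_one t0]; exact hdp.trans h1
    have h6 := he p t
    have h7 : ‖b p t - b p' t‖ ≤ Cl * ε := by
      calc ‖b p t - b p' t‖ ≤ Cl * (dist p p' / t) * e p t := h4
        _ ≤ Cl * 1 * ε := by gcongr
        _ = Cl * ε := by ring
    have h8 := hW.2.2.2 t (hsR.trans h1) h2
    have h9 : ‖b p' t - b0‖ ≤ ‖b p' t - b p t‖ + ‖b p t - b0‖ :=
      norm_sub_le_norm_sub_add_norm_sub _ _ _
    rw [norm_sub_rev] at h7
    linarith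
  have hdist : dist p' p0 ≤ s1 := by
    have := dist_triangle p' p p0
    rw [dist_comm p' p] at this
    linarith
  -- (f) down the side column
  have hVt : ∀ t, 0 < t → t ≤ R → (∀ t', t ≤ t' → t' ≤ R → ‖b p' t' - b0‖ ≤ k) →
      V b b0 s1 p0 k p' t := by
    intro t t0 h1 h2
    refine ⟨t0, by linarith, hdist, fun t' h3 h4 => ?_⟩
    rcases le_total t' R with h5 | h5
    · exact h2 t' h3 h5
    · exact (hanc t' h5 h4).trans (by linarith)
  have hcol := down_col (b := b p') (b0 := b0) (e := e p') (Cl := Cl) (D := D) (k0 := 7 * k / 8)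
    (k := k) (r := R) (s' := s') hCl hD0 hs' (hanc R le_rfl (by linarith))
    (by
      have : Cl * D * (R / s') ^ 2 = Cl * Y := by rw [hY]; ring
      rw [this]; linarith)
    (by rw [← hY]; linarith)
    (fun t h1 h2 h3 => by
      have t0 : 0 < t := lt_of_lt_of_le hs' h1
      have h4 := hrec p' t (hVt t t0 h2 h3)
      have h5 : rr p s p' t ≤ R := max_le (max_le hsR h2) hdp
      have h6 := le_rho (p := p) (p' := p') hth.le s0 t0 h5
      have h7 : (s / R) ^ th * (t / R) ^ 2 * e p' t ≤ A * e p s :=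
        (mul_le_mul_of_nonneg_right h6 (he p' t)).trans h4
      have h8 : (s / R) ^ th * (R / s) ^ th = 1 := by
        rw [← Real.mul_rpow (by positivity) (by positivity)]
        rw [show s / R * (R / s) = 1 by field_simp, Real.one_rpow]
      have h9 : (t / R) ^ 2 * (R / t) ^ 2 = 1 := by field_simp
      calc e p' t = ((s / R) ^ th * (t / R) ^ 2 * e p' t) * ((R / s) ^ th * (R / t) ^ 2) := by
            rw [show ((s / R) ^ th * (t / R) ^ 2 * e p' t) * ((R / s) ^ th * (R / t) ^ 2) =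
              ((s / R) ^ th * (R / s) ^ th) * ((t / R) ^ 2 * (R / t) ^ 2) * e p' t by ring, h8, h9]
            ring
        _ ≤ (A * e p s) * ((R / s) ^ th * (R / t) ^ 2) := by gcongr
        _ = D * (R / t) ^ 2 := by rw [hDdef]; ring)
    (fun t t' h1 h2 h3 h4 h5 h6 =>
      hvert p' t t' (hVt t (lt_of_lt_of_le hs' (h1.trans h2)) h3 h5) h6 h4 h2)
  obtain ⟨m, hm⟩ := pow_unbounded_of_one_lt (R / s') (show (1 : ℝ) < 2 by norm_num)
  have hm' : ∀ t, s' ≤ t → R ≤ 2 ^ m * t := by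
    intro t ht
    rw [div_lt_iff₀ hs'] at hm
    have : (0 : ℝ) < 2 ^ m := by positivity
    nlinarith
  have hfin : ∀ t, s' ≤ t → t ≤ R → ‖b p' R - b p' t‖ ≤ Cl * Y := by
    intro t h1 h2
    have t0 : 0 < t := lt_of_lt_of_le hs' h1
    have h3 := hcol m t h1 h2 (hm' t h1)
    calc ‖b p' R - b p' t‖ ≤ Cl * D * (R / t) ^ 2 := h3
      _ ≤ Cl * D * (R / s') ^ 2 := by gcongr
      _ = Cl * Y := by rw [hY]; ring
  refine ⟨hVt s' hs' hs'R ?_, ?_⟩
  · intro t h1 h2
    have h3 := hfin t h1 h2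
    have h4 := hanc R le_rfl (by linarith)
    have h5 : ‖b p' t - b0‖ ≤ ‖b p' t - b p' R‖ + ‖b p' R - b0‖ :=
      norm_sub_le_norm_sub_add_norm_sub _ _ _
    rw [norm_sub_rev] at h3
    linarith
  · have h3 := hfin s' le_rfl hs'R
    have h4 : ‖b p' s' - b p s‖ ≤ ‖b p' s' - b p' R‖ + ‖b p' R - b p s‖ :=
      norm_sub_le_norm_sub_add_norm_sub _ _ _
    have h5 : ‖b p' R - b p s‖ ≤ ‖b p' R - b p R‖ + ‖b p R - b p s‖ :=
      norm_sub_le_norm_sub_add_norm_sub _ _ _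
    rw [norm_sub_rev] at h3
    rw [norm_sub_rev] at hb2
    have h6 : Cl * D ≤ Cl * Y := by gcongr
    have h7 : c * (Cl * D) ≤ c * (Cl * Y) := by gcongr
    have h8 : (2 + c) * (Cl * Y) ≤ (1 + Cl) * (2 + c) * Y := by
      have : 0 ≤ (2 + c) * Y := by positivity
      nlinarith
    linarith

set_option maxHeartbeats 2000000 in
/-- **N2 in the variables of the disc**: side points at distance `T` and depth
`≥ ν T / (1 + log (T / s)) ^ 2` -/
theorem sideT {th Cl A C ν : ℝ} (hth : 0 < th) (hth1 : th < 1) (hCl : 0 ≤ Cl) (hA : 1 ≤ A)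
    (hC : 1 ≤ C) (hν : 0 < ν) :
    ∃ M : ℝ, 1 ≤ M ∧ ∀ (e : ℝ × ℝ → ℝ → ℝ) (b : ℝ × ℝ → ℝ → E) (b0 : E) (k ε s1 : ℝ)
      (p0 p : ℝ × ℝ) (s : ℝ), (∀ p s, 0 ≤ e p s) →
      (∀ p s s', V b b0 s1 p0 k p s → e p s < 1 → s / 2 ≤ s' → s' ≤ s →
        ‖b p s - b p s'‖ ≤ Cl * e p s) →
      (∀ p p' s, V b b0 s1 p0 k p s → e p s < 1 → dist p p' ≤ s →
        ‖b p s - b p' s‖ ≤ Cl * (dist p p' / s) * e p s) →
      0 ≤ k → V b b0 s1 p0 (3 * k / 4) p s → dist p p0 ≤ s1 / 2 →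
      (∀ s'', s ≤ s'' → s'' ≤ s1 → e p s'' ≤ ε) → 8 * Cl * ε ≤ k → ε < 1 →
      (∀ p' s', V b b0 s1 p0 k p' s' → rho th p s p' s' * e p' s' ≤ A * e p s) →
      ∀ (T : ℝ) (p' : ℝ × ℝ) (s' : ℝ), s ≤ T → 2 * (C * T) ≤ s1 → dist p p' ≤ C * T →
        ν * T / (1 + Real.log (T / s)) ^ 2 ≤ s' → s' ≤ C * T →
        M * (1 + Real.log (T / s)) ^ 4 * (T / s) ^ th * e p s ≤ k / 8 →
        M * (1 + Real.log (T / s)) ^ 4 * (T / s) ^ th * e p s ≤ 1 / 2 →
        V b b0 s1 p0 k p' s' ∧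
          ‖b p' s' - b p s‖ ≤ M * (1 + Real.log (T / s)) ^ 4 * (T / s) ^ th * e p s := by
  obtain ⟨M, hM, H⟩ := sideK (E := E) (th := th) (Cl := Cl) (A := A) hth hCl hA
  have hM0 : 0 < M := by linarith
  refine ⟨max 1 (M * C * (C / ν) ^ 2), le_max_left _ _, ?_⟩
  intro e b b0 k ε s1 p0 p s he hvert hlat hk hW hd hε hεk hε1 hrec T p' s' hsT hTs1 hdp hs'l hs'u
    hsm1 hsm2
  have s0 : 0 < s := hW.1
  have T0 : 0 < T := lt_of_lt_of_le s0 hsT
  have hTs : 1 ≤ T / s := by rw [one_le_div s0]; exact hsT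
  have hlog : 0 ≤ Real.log (T / s) := Real.log_nonneg hTs
  set l : ℝ := 1 + Real.log (T / s) with hl
  have l1 : 1 ≤ l := by linarith
  have l0 : 0 < l := by linarith
  have hs' : 0 < s' := lt_of_lt_of_le (by positivity) hs'l
  have he0 := he p s
  have hTC : T ≤ C * T := by nlinarith
  have h1 : (C * T / s) ^ th ≤ C * (T / s) ^ th := by
    rw [show C * T / s = C * (T / s) by ring, Real.mul_rpow (by positivity) (by positivity)]
    have : C ^ th ≤ C ^ (1 : ℝ) := Real.rpow_le_rpow_of_exponent_le hC hth1.le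
    rw [Real.rpow_one] at this
    gcongr
  have h2 : C * T / s' ≤ C / ν * l ^ 2 := by
    rw [div_le_iff₀ hs']
    have h3 : ν * T ≤ s' * l ^ 2 := by
      rw [div_le_iff₀ (by positivity)] at hs'l
      exact hs'l
    calc C * T = C / ν * (ν * T) := by field_simp
      _ ≤ C / ν * (s' * l ^ 2) := by gcongr
      _ = C / ν * l ^ 2 * s' := by ring
  have h3 : M * (C * T / s) ^ th * (C * T / s') ^ 2 * e p s ≤
      max 1 (M * C * (C / ν) ^ 2) * l ^ 4 * (T / s) ^ th * e p s := by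
    calc M * (C * T / s) ^ th * (C * T / s') ^ 2 * e p s
        ≤ M * (C * (T / s) ^ th) * (C / ν * l ^ 2) ^ 2 * e p s := by gcongr
      _ = (M * C * (C / ν) ^ 2) * l ^ 4 * (T / s) ^ th * e p s := by ring
      _ ≤ _ := by gcongr; exact le_max_right _ _
  obtain ⟨r1, r2⟩ := H e b b0 k ε s1 p0 p s he hvert hlat hk hW hd hε hεk hε1 hrec (C * T) p' s'
    (hsT.trans hTC) hTs1 hdp hs' hs'u (h3.trans hsm1) (h3.trans hsm2)
  exact ⟨r1, r2.trans h3⟩

end Crest.Agent.R102.SideK201
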