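import Crest.Agent.R102.SlowJ_486

/-! Row 102, EDGE / SLOW (helper486): sequence form of `EvS`. -/

set_option autoImplicit false

open Set Filter Topology Metric MeasureTheory Complex

noncomputable section

namespace Crest.Agent.R102.SlowJ486

open Crest.Agent.R102.Edge255

/-- **sequence form of `EvS`**: any smallness conditions `mx` (distance of `x n` to `s₀`) and `ms`
(root scale `s1 n`) may be prescribed -/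
theorem EvS.of_seq {h a g κ : ℝ} {ψ : ℂ → ℂ} {B : ℂ × ℂ → ℂ} {X L : Set (ℂ × ℂ)} {u s₀ : ℝ}
    {P : Set ℝ → ℝ → ℝ → Prop}
    (mx : ℕ → ℝ → ℝ → Set ℝ → ℝ) (hmx : ∀ n ρ δ U, 0 < ρ → 0 < δ → 0 < mx n ρ δ U)
    (ms : ℕ → ℝ → ℝ → Set ℝ → ℝ → ℝ → ℝ)
    (hms : ∀ n ρ δ U x σ, 0 < ρ → 0 < δ → 0 < σ → 0 < ms n ρ δ U x σ)
    (H : ∀ (ρ δ : ℕ → ℝ) (U : ℕ → Set ℝ) (x σ s1 : ℕ → ℝ),
      (∀ n, ρ n ≤ 1 / ((n : ℝ) + 1)) → (∀ n, Base a g X L u s₀ (ρ n) (δ n) (U n)) →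
      (∀ n, |x n - s₀| < mx n (ρ n) (δ n) (U n)) → (∀ n, 0 < σ n) →
      (∀ n, ∀ s ∈ Ioo 0 (σ n), Intr h κ ψ B (x n, u) s) → (∀ n, 0 < s1 n) →
      (∀ n, s1 n ≤ ms n (ρ n) (δ n) (U n) (x n) (σ n)) →
      (∀ n, ¬ P (U n) (x n) (s1 n)) → False) :
    EvS h a g κ ψ B X L u s₀ P := by
  by_contra hE
  unfold EvS at hE
  push Not at hE
  have h1 : ∀ n : ℕ, ∃ (ρ δ : ℝ) (U : Set ℝ) (x σ s1 : ℝ), ρ ≤ 1 / ((n : ℝ) + 1) ∧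
      Base a g X L u s₀ ρ δ U ∧ |x - s₀| < mx n ρ δ U ∧ 0 < σ ∧
      (∀ s ∈ Ioo 0 σ, Intr h κ ψ B (x, u) s) ∧ 0 < s1 ∧ s1 ≤ ms n ρ δ U x σ ∧ ¬ P U x s1 := by
    intro n
    obtain ⟨ρ, δ, U, hρ, hb, h2⟩ := hE (1 / ((n : ℝ) + 1)) (by positivity)
    obtain ⟨x, hx, σ, hσ, hc, h3⟩ := h2 (mx n ρ δ U) (hmx n ρ δ U hb.ρ_pos hb.δ_pos)
    obtain ⟨s1, hs1, hs1', hP⟩ := h3 (ms n ρ δ U x σ) (hms n ρ δ U x σ hb.ρ_pos hb.δ_pos hσ)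
    exact ⟨ρ, δ, U, x, σ, s1, hρ, hb, hx, hσ, hc, hs1, hs1', hP⟩
  choose ρ δ U x σ s1 a1 a2 a3 a4 a5 a6 a7 a8 using h1
  exact H ρ δ U x σ s1 a1 a2 a3 a4 a5 a6 a7 a8

/-- monotonicity -/
theorem EvS.mono {h a g κ : ℝ} {ψ : ℂ → ℂ} {B : ℂ × ℂ → ℂ} {X L : Set (ℂ × ℂ)} {u s₀ : ℝ}
    {P Q : Set ℝ → ℝ → ℝ → Prop} (hP : EvS h a g κ ψ B X L u s₀ P)
    (hPQ : ∀ U x s1, P U x s1 → Q U x s1) : EvS h a g κ ψ B X L u s₀ Q := by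
  obtain ⟨ρ₁, hρ₁, H⟩ := hP
  refine ⟨ρ₁, hρ₁, fun ρ δ U h1 h2 => ?_⟩
  obtain ⟨δ₁, hδ₁, H⟩ := H ρ δ U h1 h2
  refine ⟨δ₁, hδ₁, fun x hx σ hσ hc => ?_⟩
  obtain ⟨s₂, hs₂, H⟩ := H x hx σ hσ hc
  exact ⟨s₂, hs₂, fun s1 h1 h2 => hPQ _ _ _ (H s1 h1 h2)⟩

/-- conjunction -/
theorem EvS.and {h a g κ : ℝ} {ψ : ℂ → ℂ} {B : ℂ × ℂ → ℂ} {X L : Set (ℂ × ℂ)} {u s₀ : ℝ}
    {P Q : Set ℝ → ℝ → ℝ → Prop} (hP : EvS h a g κ ψ B X L u s₀ P)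
    (hQ : EvS h a g κ ψ B X L u s₀ Q) :
    EvS h a g κ ψ B X L u s₀ (fun U x s1 => P U x s1 ∧ Q U x s1) := by
  obtain ⟨ρ₁, hρ₁, H⟩ := hP
  obtain ⟨ρ₂, hρ₂, G⟩ := hQ
  refine ⟨min ρ₁ ρ₂, lt_min hρ₁ hρ₂, fun ρ δ U h1 h2 => ?_⟩
  obtain ⟨δ₁, hδ₁, H⟩ := H ρ δ U (h1.trans (min_le_left _ _)) h2
  obtain ⟨δ₂, hδ₂, G⟩ := G ρ δ U (h1.trans (min_le_right _ _)) h2
  refine ⟨min δ₁ δ₂, lt_min hδ₁ hδ₂, fun x hx σ hσ hc => ?_⟩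
  obtain ⟨s₂, hs₂, H⟩ := H x (hx.trans_le (min_le_left _ _)) σ hσ hc
  obtain ⟨s₃, hs₃, G⟩ := G x (hx.trans_le (min_le_right _ _)) σ hσ hc
  exact ⟨min s₂ s₃, lt_min hs₂ hs₃, fun s1 h1 h2 =>
    ⟨H s1 h1 (h2.trans (min_le_left _ _)), G s1 h1 (h2.trans (min_le_right _ _))⟩⟩

end Crest.Agent.R102.SlowJ486
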