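import Crest.Agent.R102.LocGrow_115
import Crest.Agent.R102.NoRecT_985
import Crest.Agent.R102.NoRecW_203
import Crest.Agent.R102.SideK_201
import Crest.Agent.R102.SlowQ_486

/-! Row 102, EDGE / SLOW (helper971, spare): the joint `NoRecP`. -/

set_option autoImplicit false

open Set Filter Topology Metric Complex

noncomputable section

namespace Crest.Agent.R102.NoRec971

open Crest.Agent.R102.Sup115 (E2)
open Crest.Agent.R102.S5 (ray bl Half)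
open Crest.Agent.R102.TreeS174 (KD)
open Crest.Agent.R102.Edge255
open Crest.Agent.R102.SlowE (oe)
open Crest.Agent.R102.SlowS (kd)
open Crest.Agent.R102.Chain859 (V rho V_up)
open Crest.Agent.R102.SlowJ486
open Crest.Agent.R102.LocGrow115 (HSide HArc)
open Crest.Agent.R102.NoRecW203 (SlowWorld)

/-! ### exhaustion of the wedge -/

def Kx (m : ℝ) (j : ℕ) : Set (ℂ × ℂ) :=
  {x | ‖x.1‖ ≤ j + 1 ∧ ‖x.2‖ ≤ j + 1 ∧ 1 / ((j : ℝ) + 1) ≤ x.2.im ∧
    x.1.im ≤ m * x.2.im - 1 / ((j : ℝ) + 1)}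

/-- generic convex compact region -/
def Kr (m C ν : ℝ) : Set (ℂ × ℂ) :=
  {x | ‖x.1‖ ≤ C ∧ ‖x.2‖ ≤ C ∧ ν ≤ x.2.im ∧ x.1.im ≤ m * x.2.im - ν}

theorem isCompact_Kr (m C ν : ℝ) : IsCompact (Kr m C ν) := by
  refine (isCompact_closedBall (0 : ℂ × ℂ) (max C 0)).of_isClosed_subset ?_ ?_
  · have c1 : Continuous fun q : ℂ × ℂ => q.2.im := by fun_prop
    have c2 : Continuous fun q : ℂ × ℂ => q.1.im := by fun_prop
    have c3 : Continuous fun q : ℂ × ℂ => ‖q.1‖ := by fun_prop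
    have c4 : Continuous fun q : ℂ × ℂ => ‖q.2‖ := by fun_prop
    have c5 : Continuous fun q : ℂ × ℂ => m * q.2.im - ν := by fun_prop
    exact (isClosed_le c3 continuous_const).inter ((isClosed_le c4 continuous_const).inter
      ((isClosed_le continuous_const c1).inter (isClosed_le c2 c5)))
  · rintro q ⟨h1, h2, -, -⟩
    rw [mem_closedBall, dist_zero_right, Prod.norm_def]
    exact max_le (h1.trans (le_max_left _ _)) (h2.trans (le_max_left _ _))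

theorem Kr_sub {m C ν : ℝ} (hν : 0 < ν) : Kr m C ν ⊆ Wg m := by
  rintro q ⟨-, -, h3, h4⟩
  exact ⟨by linarith, by linarith⟩

theorem convex_Kr (m C ν : ℝ) : Convex ℝ (Kr m C ν) := by
  intro x hx y hy a b ha hb hab
  obtain ⟨x1, x2, x3, x4⟩ := hx
  obtain ⟨y1, y2, y3, y4⟩ := hy
  have e2 : (a • x + b • y).1.im = a * x.1.im + b * y.1.im := by simp
  have e4 : (a • x + b • y).2.im = a * x.2.im + b * y.2.im := by simp
  have e1 : (a • x + b • y).1 = a • x.1 + b • y.1 := by simp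
  have e3 : (a • x + b • y).2 = a • x.2 + b • y.2 := by simp
  have n1 : ‖a • x.1 + b • y.1‖ ≤ a * ‖x.1‖ + b * ‖y.1‖ := by
    refine (norm_add_le _ _).trans ?_
    rw [norm_smul, norm_smul, Real.norm_of_nonneg ha, Real.norm_of_nonneg hb]
  have n2 : ‖a • x.2 + b • y.2‖ ≤ a * ‖x.2‖ + b * ‖y.2‖ := by
    refine (norm_add_le _ _).trans ?_
    rw [norm_smul, norm_smul, Real.norm_of_nonneg ha, Real.norm_of_nonneg hb]
  have hb' : b = 1 - a := by linarith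
  subst hb'
  refine ⟨?_, ?_, ?_, ?_⟩
  · rw [e1]
    nlinarith
  · rw [e3]
    nlinarith
  · rw [e4]
    nlinarith
  · rw [e2, e4]
    nlinarith

theorem isCompact_Kx (m : ℝ) (j : ℕ) : IsCompact (Kx m j) := isCompact_Kr m (j + 1) (1 / (j + 1))

theorem Kx_sub (m : ℝ) (j : ℕ) : Kx m j ⊆ Wg m := Kr_sub (C := j + 1) (by positivity)

theorem exists_Kx {m : ℝ} {K : Set (ℂ × ℂ)} (hK : IsCompact K) (hKm : K ⊆ Wg m) :
    ∀ᶠ j : ℕ in atTop, K ⊆ Kx m j := by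
  obtain ⟨A, hA, c₂, hc₂, c, hc, H⟩ := LocGrow115.params hK hKm
  have h1 : ∀ᶠ j : ℕ in atTop, A ≤ (j : ℝ) :=
    tendsto_natCast_atTop_atTop.eventually_ge_atTop A
  have h2 : ∀ᶠ j : ℕ in atTop, 1 / ((j : ℝ) + 1) < min c₂ (c * c₂) :=
    tendsto_one_div_add_atTop_nhds_zero_nat.eventually_lt_const (by positivity)
  filter_upwards [h1, h2] with j hj1 hj2
  intro x hx
  obtain ⟨x1, x2, x3, x4⟩ := H x hx
  refine ⟨by linarith, by linarith, ?_, ?_⟩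
  · exact (hj2.le.trans (min_le_left _ _)).trans x3
  · have h3 := hj2.le.trans (min_le_right _ _)
    nlinarith

theorem slowAt_mono {ε ε' : ℝ} {K K₁ K' K'₁ : Set (ℂ × ℂ)} {ψ : ℂ → ℂ} {φ p B : ℂ × ℂ → ℂ}
    (hε : ε ≤ ε') (hK : K₁ ⊆ K) (hK' : K'₁ ⊆ K') (h : SlowAt ε K K' ψ φ p B) :
    SlowAt ε' K₁ K'₁ ψ φ p B :=
  ⟨fun q hq => ⟨((h.1 q (hK hq)).1).trans hε, ((h.1 q (hK hq)).2).trans hε⟩,
    fun q hq => (h.2 q (hK' hq)).trans hε⟩

/-! ### countable families of eventual properties of the root -/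

open Classical in
theorem ev_family {h a g κ : ℝ} {ψ : ℂ → ℂ} {B : ℂ × ℂ → ℂ} {X L : Set (ℂ × ℂ)} {u s₀ : ℝ}
    {Q : ℕ → Set ℝ → ℝ → ℝ → Prop} (hQ : ∀ j, EvS h a g κ ψ B X L u s₀ (Q j)) :
    ∃ (mx : ℕ → Set ℝ → ℝ) (ms : ℕ → Set ℝ → ℝ → ℝ),
      (∀ n U, 0 < mx n U) ∧ (∀ n U x, 0 < ms n U x) ∧
      ∀ (ρ δ : ℕ → ℝ) (U : ℕ → Set ℝ) (x σ s1 : ℕ → ℝ), (∀ n, ρ n ≤ 1 / ((n : ℝ) + 1)) →
        (∀ n, Base a g X L u s₀ (ρ n) (δ n) (U n)) → (∀ n, |x n - s₀| < mx n (U n)) →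
        (∀ n, 0 < σ n) → (∀ n, ∀ s ∈ Ioo 0 (σ n), Intr h κ ψ B (x n, u) s) → (∀ n, 0 < s1 n) →
        (∀ n, s1 n ≤ ms n (U n) (x n)) → ∀ j, ∀ᶠ n in atTop, Q j (U n) (x n) (s1 n) := by
  choose ρ₁ hρ₁ H using hQ
  set G : ℕ → Set ℝ → ℝ → Prop := fun j U δ₁ => ∀ x : ℝ, |x - s₀| < δ₁ → ∀ σ > 0,
    (∀ s ∈ Ioo 0 σ, Intr h κ ψ B (x, u) s) → ∃ s₂ > 0, ∀ s1 : ℝ, 0 < s1 → s1 ≤ s₂ → Q j U x s1
    with hG
  set δf : ℕ → Set ℝ → ℝ := fun j U =>
    if hh : ∃ δ₁ > 0, G j U δ₁ then hh.choose else 1 with hδf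
  set sf : ℕ → Set ℝ → ℝ → ℝ := fun j U x =>
    if hh : ∃ s₂ > 0, ∀ s1 : ℝ, 0 < s1 → s1 ≤ s₂ → Q j U x s1 then hh.choose else 1 with hsf
  have hδpos : ∀ j U, 0 < δf j U := by
    intro j U
    simp only [hδf]
    split_ifs with hh
    · exact hh.choose_spec.1
    · exact one_pos
  have hspos : ∀ j U x, 0 < sf j U x := by
    intro j U x
    simp only [hsf]
    split_ifs with hh
    · exact hh.choose_spec.1
    · exact one_pos
  have hne : ∀ n : ℕ, (Finset.range (n + 1)).Nonempty := fun n => ⟨0, by simp⟩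
  refine ⟨fun n U => (Finset.range (n + 1)).inf' (hne n) fun j => δf j U,
    fun n U x => (Finset.range (n + 1)).inf' (hne n) fun j => sf j U x, ?_, ?_, ?_⟩
  · intro n U
    rw [Finset.lt_inf'_iff]
    exact fun j _ => hδpos j U
  · intro n U x
    rw [Finset.lt_inf'_iff]
    exact fun j _ => hspos j U x
  intro ρ δ U x σ s1 hρ hb hx hσ hI hs1 hs1m j
  have h2 : ∀ᶠ n : ℕ in atTop, 1 / ((n : ℝ) + 1) < ρ₁ j :=
    tendsto_one_div_add_atTop_nhds_zero_nat.eventually_lt_const (hρ₁ j)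
  filter_upwards [h2, eventually_ge_atTop j] with n hn hjn
  have hmem : j ∈ Finset.range (n + 1) := by
    rw [Finset.mem_range]; omega
  have hex : ∃ δ₁ > 0, G j (U n) δ₁ := H j (ρ n) (δ n) (U n) ((hρ n).trans hn.le) (hb n)
  have hδe : δf j (U n) = hex.choose := by
    simp only [hδf]
    rw [dif_pos hex]
  have h3 : |x n - s₀| < hex.choose := by
    rw [← hδe]
    exact lt_of_lt_of_le (hx n) (Finset.inf'_le _ hmem)
  have hex2 : ∃ s₂ > 0, ∀ s1 : ℝ, 0 < s1 → s1 ≤ s₂ → Q j (U n) (x n) s1 :=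
    hex.choose_spec.2 (x n) h3 (σ n) (hσ n) (hI n)
  have hse : sf j (U n) (x n) = hex2.choose := by
    simp only [hsf]
    rw [dif_pos hex2]
  refine hex2.choose_spec.2 (s1 n) (hs1 n) ?_
  rw [← hse]
  exact (hs1m n).trans (Finset.inf'_le _ hmem)

/-! ### elementary estimates -/

theorem log_le_sqrt {x : ℝ} (hx : 1 ≤ x) : 1 + Real.log x ≤ 2 * x ^ (1 / 2 : ℝ) := by
  have h0 : 0 < x := by linarith
  set t : ℝ := x ^ (1 / 2 : ℝ) with ht
  have ht0 : 0 < t := Real.rpow_pos_of_pos h0 _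
  have hxt : x = t ^ 2 := by
    rw [ht, ← Real.rpow_natCast, ← Real.rpow_mul h0.le]
    norm_num
  have h1 : Real.log x = 2 * Real.log t := by
    rw [hxt, Real.log_pow]
    norm_num
  have h2 := Real.log_le_sub_one_of_pos ht0
  rw [h1]
  linarith

theorem absorb {M' x : ℝ} (hM : 0 ≤ M') (hx : 1 ≤ x) :
    M' * (x ^ (1 / 2 : ℝ) * (1 + Real.log x) ^ 4) ≤
      Real.exp ((16 * M' + 5) * x ^ (1 / 2 : ℝ)) := by
  have h0 : 0 < x := by linarith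
  have h1 := log_le_sqrt hx
  have hl : 0 ≤ Real.log x := Real.log_nonneg hx
  set t : ℝ := x ^ (1 / 2 : ℝ) with ht
  have ht1 : 1 ≤ t := Real.one_le_rpow hx (by norm_num)
  have h2 : (1 + Real.log x) ^ 4 ≤ (2 * t) ^ 4 := by gcongr
  have h3 : t ≤ Real.exp t := by linarith [Real.add_one_le_exp t]
  have h4 : t ^ 5 ≤ Real.exp (5 * t) := by
    calc t ^ 5 ≤ (Real.exp t) ^ 5 := by gcongr
      _ = Real.exp (5 * t) := by rw [← Real.exp_nat_mul]; norm_num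
  have h5 : 16 * M' ≤ Real.exp (16 * M' * t) := by
    have : 16 * M' ≤ 16 * M' * t := by nlinarith
    linarith [Real.add_one_le_exp (16 * M' * t)]
  calc M' * (t * (1 + Real.log x) ^ 4) ≤ M' * (t * (2 * t) ^ 4) := by gcongr
    _ = 16 * M' * t ^ 5 := by ring
    _ ≤ Real.exp (16 * M' * t) * Real.exp (5 * t) := by gcongr
    _ = Real.exp ((16 * M' + 5) * t) := by rw [← Real.exp_add]; ring_nf

theorem small_G {om : ℕ → ℝ} (h0 : ∀ n, 0 < om n) (h1 : ∀ n, om n ≤ 1)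
    (hl : Tendsto om atTop (𝓝 0)) :
    Tendsto (fun n => (2 / om n) ^ (1 / 2 : ℝ) * (1 + Real.log (2 / om n)) ^ 4 * om n) atTop
      (𝓝 0) := by
  have hb : ∀ n, (2 / om n) ^ (1 / 2 : ℝ) * (1 + Real.log (2 / om n)) ^ 4 * om n ≤
      2 * 17 ^ 4 * (om n / 2) ^ (1 / 4 : ℝ) := by
    intro n
    have ho := h0 n
    have ho1 := h1 n
    set z : ℝ := 2 / om n with hz
    have hz1 : 1 ≤ z := by rw [hz, le_div_iff₀ ho]; linarith
    have hz0 : 0 < z := by linarith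
    have hom : om n = 2 * z ^ (-1 : ℝ) := by
      rw [Real.rpow_neg_one, hz]; field_simp
    have h2 : Real.log z ≤ z ^ (1 / 16 : ℝ) / (1 / 16) :=
      Real.log_le_rpow_div hz0.le (by norm_num)
    have h3 : 1 ≤ z ^ (1 / 16 : ℝ) := Real.one_le_rpow hz1 (by norm_num)
    have h4 : 1 + Real.log z ≤ 17 * z ^ (1 / 16 : ℝ) := by
      have : z ^ (1 / 16 : ℝ) / (1 / 16) = 16 * z ^ (1 / 16 : ℝ) := by ring
      linarith
    have h5 : 0 ≤ Real.log z := Real.log_nonneg hz1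
    have h6 : (1 + Real.log z) ^ 4 ≤ 17 ^ 4 * z ^ (1 / 4 : ℝ) := by
      calc (1 + Real.log z) ^ 4 ≤ (17 * z ^ (1 / 16 : ℝ)) ^ 4 := by gcongr
        _ = 17 ^ 4 * (z ^ (1 / 16 : ℝ)) ^ (4 : ℕ) := by ring
        _ = 17 ^ 4 * z ^ (1 / 4 : ℝ) := by
            congr 1
            rw [← Real.rpow_natCast, ← Real.rpow_mul hz0.le]; norm_num
    have h7 : (om n / 2) ^ (1 / 4 : ℝ) = z ^ (-(1 / 4) : ℝ) := by
      have : om n / 2 = z ^ (-1 : ℝ) := by rw [hom]; ring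
      rw [this, ← Real.rpow_mul hz0.le]
      norm_num
    rw [h7]
    calc z ^ (1 / 2 : ℝ) * (1 + Real.log z) ^ 4 * om n
        ≤ z ^ (1 / 2 : ℝ) * (17 ^ 4 * z ^ (1 / 4 : ℝ)) * om n := by gcongr
      _ = 2 * 17 ^ 4 * (z ^ (1 / 2 : ℝ) * z ^ (1 / 4 : ℝ) * z ^ (-1 : ℝ)) := by rw [hom]; ring
      _ = 2 * 17 ^ 4 * z ^ (-(1 / 4) : ℝ) := by
          rw [← Real.rpow_add hz0, ← Real.rpow_add hz0]
          norm_num
  have hlim : Tendsto (fun n => 2 * 17 ^ 4 * (om n / 2) ^ (1 / 4 : ℝ)) atTop (𝓝 0) := by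
    have h2 : Tendsto (fun n => om n / 2) atTop (𝓝 0) := by simpa using hl.div_const 2
    have h3 : Tendsto (fun n => (om n / 2) ^ (1 / 4 : ℝ)) atTop (𝓝 ((0 : ℝ) ^ (1 / 4 : ℝ))) :=
      h2.rpow_const (Or.inr (by norm_num))
    rw [Real.zero_rpow (by norm_num)] at h3
    simpa using h3.const_mul (2 * 17 ^ 4)
  refine squeeze_zero (fun n => ?_) hb hlim
  have ho := h0 n
  have : 0 ≤ (1 + Real.log (2 / om n)) ^ 4 := by positivity
  positivity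

end Crest.Agent.R102.NoRec971
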