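import Crest.Agent.R102.NoRecT_985
import Crest.Agent.R102.NoRecW_203

/-!
Row 102, EDGE / SLOW, NoRec (helper985): the WORLD END of NoRec with every hypothesis at the record
window `(c n, s n)`, `om n = oe AK φ (c n) (s n)`.
-/

set_option autoImplicit false

open Set Filter Topology Metric Complex

noncomputable section

namespace Crest.Agent.R102.NoRecX985

open Crest.Agent.R102.Edge255
open Crest.Agent.R102.S5 (Half bl ray)
open Crest.Agent.R102.Sup115 (HDu Dp E2)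
open Crest.Agent.R102.SlowE (oe)
open Crest.Agent.R102.TreeS174 (KD)
open Crest.Agent.R102.SlowS (kd)
open Crest.Agent.R102.NoRecW203 (SlowWorld)

variable {u0 R d h u s₀ a g κ : ℝ} {ψ H A : ℂ → ℂ} {φ p B : ℂ × ℂ → ℂ} {X L : Set (ℂ × ℂ)}

/-- **world end, hypotheses at the record window** -/
theorem norec_c (SW : SlowWorld) (hE : ED u0 R d h ψ H A φ p B X L)
    (hu : u ∈ Ioo (u0 - R) (u0 + R)) (hu0 : u ≠ 0) (ha : 0 ≤ a) (hg : 0 < g) (hκ : 0 < κ)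
    {c e : ℕ → ℝ × ℝ} {s ρ η : ℕ → ℝ}
    (he : Tendsto e atTop (𝓝 (s₀, u))) (hs : ∀ n, 0 < s n) (hs0 : Tendsto s atTop (𝓝 0))
    (hρ : ∀ n, 0 < ρ n) (hρ0 : Tendsto ρ atTop (𝓝 0)) (hη : ∀ n, 0 < η n)
    (hsη : Tendsto (fun n => s n / η n) atTop (𝓝 0))
    (hE2 : ∀ n, E2 X L a g (ρ n) (η n) (e n))
    (h1 : ∀ n, (e n).1 = (c n).1) (h2 : ∀ n, |(e n).2 - (c n).2| ≤ s n)
    (hI : ∀ᶠ n in atTop, Intr h κ ψ B (c n) (s n))
    (hS : ∀ ε > 0, ∀ K ⊆ Wg (a + g), IsCompact K → ∀ K' ⊆ Wg a, IsCompact K' →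
      ∀ᶠ n in atTop, SlowAt ε K K' ψ (fun q => φ (bl (c n) (s n) q))
        (fun q => p (bl (c n) (s n) q)) (fun q => B (bl (c n) (s n) q)))
    {om : ℕ → ℝ} (hom : ∀ n, 0 < om n) {g' : ℝ} (hg' : 0 < g') (hgg : g' ≤ g)
    {th : ℝ} (hth : 0 ≤ th) (hth1 : th < 1)
    (hgrow : ∀ K ⊆ Wg (a + g'), IsCompact K → ∃ M : ℝ, ∀ y : ℝ, 1 ≤ y → ∀ᶠ n in atTop,
      ∀ q ∈ K, ‖φ (bl (c n) (s n) ((y : ℂ) * q.1, (y : ℂ) * q.2)) - φ (ray (c n) (s n))‖ ≤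
        M * om n * y ^ th)
    {K0 : Set (ℂ × ℂ)} (hK0 : IsCompact K0) (hK0s : K0 ⊆ Wg a)
    (hosc : ∃ c0 > 0, ∀ᶠ n in atTop, ∃ q ∈ K0,
      c0 * om n ≤ ‖φ (bl (c n) (s n) q) - φ (ray (c n) (s n))‖) : False := by
  obtain ⟨κ', hκ', hIe⟩ := NoRecT985.intr_e hE hκ
  -- eventually the small windows are inside
  have hd := hE.d_pos
  have hev1 : ∀ᶠ n in atTop, 2 * s n ≤ d := by
    filter_upwards [hs0.eventually_le_const (show (0 : ℝ) < d / 2 by positivity)] with n hn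
    linarith
  have he2 : Tendsto (fun n => (e n).2) atTop (𝓝 u) := (continuous_snd.tendsto _).comp he
  have hev2 : ∀ᶠ n in atTop, ball (((c n).2 : ℝ) : ℂ) (2 * s n) ⊆ ball (u0 : ℂ) R := by
    have hgap : 0 < R - |u - u0| := by
      have : |u - u0| < R := abs_lt.2 ⟨by linarith [hu.1], by linarith [hu.2]⟩
      linarith
    have e1 : Tendsto (fun n => |(e n).2 - u0| + 3 * s n) atTop (𝓝 (|u - u0| + 3 * 0)) :=
      ((he2.sub_const u0).abs).add (hs0.const_mul 3)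
    rw [mul_zero, add_zero] at e1
    filter_upwards [e1.eventually_lt_const (show |u - u0| < R by linarith)] with n hn
    refine ball_subset_ball' ?_
    rw [Complex.dist_eq, ← Complex.ofReal_sub, Complex.norm_real, Real.norm_eq_abs]
    have h3 : |(c n).2 - u0| ≤ |(e n).2 - u0| + |(e n).2 - (c n).2| := by
      have : (c n).2 - u0 = ((e n).2 - u0) - ((e n).2 - (c n).2) := by ring
      rw [this]; exact abs_sub _ _
    have := h2 n
    linarith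
  obtain ⟨N, hN⟩ := eventually_atTop.1 (hI.and (hev1.and hev2))
  have hsh : Tendsto (fun n : ℕ => n + N) atTop atTop := tendsto_add_atTop_nat N
  have hSe := NoRecT985.slow_seq (φ := φ) (p := p) (B := B) hE.curve hκ ha hg hs h1 h2
    (hI.mono fun n hn => hn.1) hS
  refine NoRecW203.norec_end SW hE hu hu0 ha hg hκ' (e := fun n => e (n + N))
    (s := fun n => s (n + N)) (ρ := fun n => ρ (n + N)) (η := fun n => η (n + N))
    (he.comp hsh) (fun n => hs _) (hs0.comp hsh) (fun n => hρ _) (hρ0.comp hsh) (fun n => hη _)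
    (hsη.comp hsh) (fun n => hE2 _) (fun n => ?_) (fun ε hε K hK hKc K' hK' hKc' =>
      hsh.eventually (hSe ε hε K hK hKc K' hK' hKc')) (c := fun n => c (n + N))
    (r := fun n => ((e (n + N)).2 - (c (n + N)).2) / s (n + N)) (fun n => ?_) (fun n => ?_)
    (om := fun n => om (n + N)) (fun n => hom _) hg' hgg hth hth1
    (fun K hK hKc => ?_) hK0 hK0s ?_
  · obtain ⟨a1, a2, a3⟩ := hN (n + N) (Nat.le_add_left _ _)
    exact hIe (c (n + N)) (e (n + N)) (s (n + N)) (hs _) a2 a3 (h1 _) (h2 _) a1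
  · rw [abs_div, abs_of_pos (hs _), div_le_one (hs _)]
    exact h2 _
  · have h3 := (hs (n + N)).ne'
    refine Prod.ext (h1 _) ?_
    show (e (n + N)).2 = (c (n + N)).2 + ((e (n + N)).2 - (c (n + N)).2) / s (n + N) * s (n + N)
    field_simp
    ring
  · obtain ⟨M, hM⟩ := hgrow K hK hKc
    exact ⟨M, fun y hy => hsh.eventually (hM y hy)⟩
  · obtain ⟨c0, hc0, hc⟩ := hosc
    exact ⟨c0, hc0, hsh.eventually hc⟩

/-- **world end**, `om n = oe AK φ (c n) (s n)` -/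
theorem norec_oe (SW : SlowWorld) (hE : ED u0 R d h ψ H A φ p B X L)
    (hu : u ∈ Ioo (u0 - R) (u0 + R)) (hu0 : u ≠ 0) (ha : 0 ≤ a) (hg : 0 < g) (hκ : 0 < κ)
    {c e : ℕ → ℝ × ℝ} {s ρ η : ℕ → ℝ}
    (he : Tendsto e atTop (𝓝 (s₀, u))) (hs : ∀ n, 0 < s n) (hs0 : Tendsto s atTop (𝓝 0))
    (hρ : ∀ n, 0 < ρ n) (hρ0 : Tendsto ρ atTop (𝓝 0)) (hη : ∀ n, 0 < η n)
    (hsη : Tendsto (fun n => s n / η n) atTop (𝓝 0))
    (hE2 : ∀ n, E2 X L a g (ρ n) (η n) (e n))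
    (h1 : ∀ n, (e n).1 = (c n).1) (h2 : ∀ n, |(e n).2 - (c n).2| ≤ s n)
    (hI : ∀ᶠ n in atTop, Intr h κ ψ B (c n) (s n))
    (hS : ∀ ε > 0, ∀ K ⊆ Wg (a + g), IsCompact K → ∀ K' ⊆ Wg a, IsCompact K' →
      ∀ᶠ n in atTop, SlowAt ε K K' ψ (fun q => φ (bl (c n) (s n) q))
        (fun q => p (bl (c n) (s n) q)) (fun q => B (bl (c n) (s n) q)))
    {AK : ℝ} (hAK : 8 ≤ AK) (hom : ∀ n, 0 < oe AK φ (c n) (s n))
    {g' : ℝ} (hg' : 0 < g') (hgg : g' ≤ g) {th : ℝ} (hth : 0 ≤ th) (hth1 : th < 1)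
    (hgrow : ∀ K ⊆ Wg (a + g'), IsCompact K → ∃ M : ℝ, ∀ y : ℝ, 1 ≤ y → ∀ᶠ n in atTop,
      ∀ q ∈ K, ‖φ (bl (c n) (s n) ((y : ℂ) * q.1, (y : ℂ) * q.2)) - φ (ray (c n) (s n))‖ ≤
        M * oe AK φ (c n) (s n) * y ^ th) : False := by
  refine norec_c SW hE hu hu0 ha hg hκ he hs hs0 hρ hρ0 hη hsη hE2 h1 h2 hI hS
    (om := fun n => oe AK φ (c n) (s n)) hom hg' hgg hth hth1 hgrow (SlowS.isCompact_kd hAK)
    (SlowS.kd_sub_Wg hAK ha) ⟨1 / 2, by norm_num, Eventually.of_forall fun n => ?_⟩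
  have h0 := hom n
  obtain ⟨q, hq, hlt⟩ := SlowE.exists_of_lt_oe (ε := 1 / 2 * oe AK φ (c n) (s n)) (by positivity)
    (by linarith : 1 / 2 * oe AK φ (c n) (s n) < oe AK φ (c n) (s n))
  obtain ⟨x, rfl⟩ := SlowS.exists_bl (hs n) (p := c n) q
  exact ⟨x, (SlowS.bl_mem_KD (hs n)).1 hq, hlt.le⟩

end Crest.Agent.R102.NoRecX985
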