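import Crest.Agent.R102.SlowQ_486
import Crest.Agent.R102.BigMontel_948
import Crest.Agent.R102.ToWorld_150

/-! Row 102, EDGE / SLOW (helper486): the diagonal between `ColPhi` and the sequences of `NoRec`. -/

set_option autoImplicit false

open Set Filter Topology Metric MeasureTheory Complex

noncomputable section

namespace Crest.Agent.R102.SlowJ486

open Crest.Agent.R102.Edge255
open Crest.Agent.R102.S5 (ray bl Half Cn)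
open Crest.Agent.R102.Chain859 (V rho)

/-- compact exhaustion of the wedge -/
theorem exh (m : ℝ) : ∃ K : ℕ → Set (ℂ × ℂ), (∀ j, IsCompact (K j)) ∧ (∀ j, K j ⊆ Wg m) ∧
    ∀ K' ⊆ Wg m, IsCompact K' → ∃ j, ∀ i ≥ j, K' ⊆ K i := by
  obtain ⟨K, h1, h2, h3, h4⟩ := Crest.Agent.R102.M948.exists_exhaustion (World150.isOpen_Wg m)
  refine ⟨K, h1, h2, ?_⟩
  intro K' hK' hKc
  have h5 : ∀ x ∈ K', ∃ n, K n ∈ 𝓝 x := fun x hx => (h4 x (hK' hx)).exists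
  choose! n hn using h5
  obtain ⟨t, ht, hcov⟩ := hKc.elim_nhds_subcover (fun x => K (n x)) hn
  refine ⟨t.sup n, fun i hi x hx => ?_⟩
  have h6 := hcov hx
  simp only [mem_iUnion] at h6
  obtain ⟨y, hy, hxy⟩ := h6
  exact h3 _ _ ((Finset.le_sup hy).trans hi) hxy

theorem slowAt_mono {ε ε' : ℝ} {K K₁ K' K₁' : Set (ℂ × ℂ)} {ψ : ℂ → ℂ} {φ p B : ℂ × ℂ → ℂ}
    (h : SlowAt ε K K' ψ φ p B) (hε : ε ≤ ε') (hK : K₁ ⊆ K) (hK' : K₁' ⊆ K') :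
    SlowAt ε' K₁ K₁' ψ φ p B :=
  ⟨fun q hq => ⟨(h.1 q (hK hq)).1.trans hε, (h.1 q (hK hq)).2.trans hε⟩,
    fun q hq => (h.2 q (hK' hq)).trans hε⟩

/-- **countable families**: along the sequences, each `EvS` statement of the family holds
eventually -/
theorem EvS.seq_of_family {h a g κ : ℝ} {ψ : ℂ → ℂ} {B : ℂ × ℂ → ℂ} {X L : Set (ℂ × ℂ)}
    {u s₀ : ℝ} {P : Set ℝ → ℝ → ℝ → Prop} {Q : ℕ → Set ℝ → ℝ → ℝ → Prop}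
    (hQ : ∀ j, EvS h a g κ ψ B X L u s₀ (Q j))
    (mx : ℕ → ℝ → ℝ → Set ℝ → ℝ) (hmx : ∀ n ρ δ U, 0 < ρ → 0 < δ → 0 < mx n ρ δ U)
    (ms : ℕ → ℝ → ℝ → Set ℝ → ℝ → ℝ → ℝ)
    (hms : ∀ n ρ δ U x σ, 0 < ρ → 0 < δ → 0 < σ → 0 < ms n ρ δ U x σ)
    (H : ∀ (ρ δ : ℕ → ℝ) (U : ℕ → Set ℝ) (x σ s1 : ℕ → ℝ),
      (∀ n, ρ n ≤ 1 / ((n : ℝ) + 1)) → (∀ n, Base a g X L u s₀ (ρ n) (δ n) (U n)) →
      (∀ n, |x n - s₀| < mx n (ρ n) (δ n) (U n)) → (∀ n, 0 < σ n) →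
      (∀ n, ∀ s ∈ Ioo 0 (σ n), Intr h κ ψ B (x n, u) s) → (∀ n, 0 < s1 n) →
      (∀ n, s1 n ≤ ms n (ρ n) (δ n) (U n) (x n) (σ n)) →
      (∀ j, ∀ᶠ n in atTop, Q j (U n) (x n) (s1 n)) →
      (∀ n, ¬ P (U n) (x n) (s1 n)) → False) :
    EvS h a g κ ψ B X L u s₀ P := by
  classical
  choose ρ₁ hρ₁ hQ' using hQ
  have h1 : ∀ (j : ℕ) (ρ δ : ℝ) (U : Set ℝ), ∃ δ₁ > 0, ρ ≤ ρ₁ j → Base a g X L u s₀ ρ δ U →
      ∀ x : ℝ, |x - s₀| < δ₁ → ∀ σ > 0, (∀ s ∈ Ioo 0 σ, Intr h κ ψ B (x, u) s) → ∃ s₂ > 0,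
        ∀ s1 : ℝ, 0 < s1 → s1 ≤ s₂ → Q j U x s1 := by
    intro j ρ δ U
    by_cases hc : ρ ≤ ρ₁ j ∧ Base a g X L u s₀ ρ δ U
    · obtain ⟨d, hd, h2⟩ := hQ' j ρ δ U hc.1 hc.2
      exact ⟨d, hd, fun _ _ => h2⟩
    · exact ⟨1, one_pos, fun h2 h3 => absurd ⟨h2, h3⟩ hc⟩
  choose D hD hD2 using h1
  have h2 : ∀ (j : ℕ) (ρ δ : ℝ) (U : Set ℝ) (x σ : ℝ), ∃ s₂ > 0, ρ ≤ ρ₁ j →
      Base a g X L u s₀ ρ δ U → |x - s₀| < D j ρ δ U → 0 < σ →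
      (∀ s ∈ Ioo 0 σ, Intr h κ ψ B (x, u) s) → ∀ s1 : ℝ, 0 < s1 → s1 ≤ s₂ → Q j U x s1 := by
    intro j ρ δ U x σ
    by_cases hc : ρ ≤ ρ₁ j ∧ Base a g X L u s₀ ρ δ U ∧ |x - s₀| < D j ρ δ U ∧ 0 < σ ∧
        (∀ s ∈ Ioo 0 σ, Intr h κ ψ B (x, u) s)
    · obtain ⟨c1, c2, c3, c4, c5⟩ := hc
      obtain ⟨s₂, hs₂, h3⟩ := hD2 j ρ δ U c1 c2 x c3 σ c4 c5
      exact ⟨s₂, hs₂, fun _ _ _ _ _ => h3⟩
    · exact ⟨1, one_pos, fun a1 a2 a3 a4 a5 => absurd ⟨a1, a2, a3, a4, a5⟩ hc⟩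
  choose S hS hS2 using h2
  have hne : ∀ n : ℕ, (Finset.range (n + 1)).Nonempty := fun n => Finset.nonempty_range_add_one
  refine EvS.of_seq
    (fun n ρ δ U => min (mx n ρ δ U) ((Finset.range (n + 1)).inf' (hne n) (fun j => D j ρ δ U)))
    ?_
    (fun n ρ δ U x σ => min (ms n ρ δ U x σ)
      ((Finset.range (n + 1)).inf' (hne n) (fun j => S j ρ δ U x σ))) ?_ ?_
  · intro n ρ δ U hρ hδ
    refine lt_min (hmx n ρ δ U hρ hδ) ?_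
    rw [Finset.lt_inf'_iff]
    exact fun j _ => hD j ρ δ U
  · intro n ρ δ U x σ hρ hδ hσ
    refine lt_min (hms n ρ δ U x σ hρ hδ hσ) ?_
    rw [Finset.lt_inf'_iff]
    exact fun j _ => hS j ρ δ U x σ
  · intro ρ δ U x σ s1 a1 a2 a3 a4 a5 a6 a7 a8
    refine H ρ δ U x σ s1 a1 a2 (fun n => (a3 n).trans_le (min_le_left _ _)) a4 a5 a6
      (fun n => (a7 n).trans (min_le_left _ _)) ?_ a8
    intro j
    have h3 : ∀ᶠ n : ℕ in atTop, 1 / ((n : ℝ) + 1) ≤ ρ₁ j :=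
      tendsto_one_div_add_atTop_nhds_zero_nat.eventually (eventually_le_nhds (hρ₁ j))
    filter_upwards [h3, eventually_ge_atTop j] with n hn hjn
    have hj : j ∈ Finset.range (n + 1) := Finset.mem_range.2 (by omega)
    have h4 : |x n - s₀| < D j (ρ n) (δ n) (U n) :=
      (a3 n).trans_le ((min_le_right _ _).trans
        (Finset.inf'_le (f := fun j => D j (ρ n) (δ n) (U n)) hj))
    have h5 : s1 n ≤ S j (ρ n) (δ n) (U n) (x n) (σ n) :=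
      (a7 n).trans ((min_le_right _ _).trans
        (Finset.inf'_le (f := fun j => S j (ρ n) (δ n) (U n) (x n) (σ n)) hj))
    exact hS2 j _ _ _ _ _ ((a1 n).trans hn) (a2 n) h4 (a4 n) (a5 n) _ (a6 n) h5

/-- **`ColPhi` along sequences**, all `ε`, all compacts -/
theorem col_seq (hC : ColPhi) {u0 R d h : ℝ} {ψ H A : ℂ → ℂ} {φ p B : ℂ × ℂ → ℂ}
    {X L : Set (ℂ × ℂ)} (hE : ED u0 R d h ψ H A φ p B X L) {u s₀ a g : ℝ}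
    (hu : u ∈ Ioo (u0 - R) (u0 + R)) (hu0 : u ≠ 0) (ha : 0 ≤ a) (hg : 0 < g)
    (hR : Rigid u0 R d h ψ φ p B X L u s₀ a g) {κ : ℝ} (hκ : 0 < κ) :
    ∃ k > 0, ∃ κ' > 0, ∀ (P : Set ℝ → ℝ → ℝ → Prop)
      (mx : ℕ → ℝ → ℝ → Set ℝ → ℝ) (_ : ∀ n ρ δ U, 0 < ρ → 0 < δ → 0 < mx n ρ δ U)
      (ms : ℕ → ℝ → ℝ → Set ℝ → ℝ → ℝ → ℝ)
      (_ : ∀ n ρ δ U x σ, 0 < ρ → 0 < δ → 0 < σ → 0 < ms n ρ δ U x σ)
      (_ : ∀ (ρ δ : ℕ → ℝ) (U : ℕ → Set ℝ) (x σ s1 : ℕ → ℝ),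
        (∀ n, ρ n ≤ 1 / ((n : ℝ) + 1)) → (∀ n, Base a g X L u s₀ (ρ n) (δ n) (U n)) →
        (∀ n, |x n - s₀| < mx n (ρ n) (δ n) (U n)) → (∀ n, 0 < σ n) →
        (∀ n, ∀ s ∈ Ioo 0 (σ n), Intr h κ ψ B (x n, u) s) → (∀ n, 0 < s1 n) →
        (∀ n, s1 n ≤ ms n (ρ n) (δ n) (U n) (x n) (σ n)) →
        (∀ ε > 0, ∀ K ⊆ Wg (a + g), IsCompact K → ∀ K' ⊆ Wg a, IsCompact K' →
          ∀ᶠ n in atTop, ∀ (p' : ℝ × ℝ) (s' : ℝ),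
            V (fun q s => φ (ray q s)) (φ (ray (x n, u) (s1 n))) (s1 n) (x n, u) k p' s' →
            infDist p'.2 (U n) ≤ s' → Intr h κ' ψ B p' s' ∧
            SlowAt ε K K' ψ (fun q => φ (bl p' s' q)) (fun q => p (bl p' s' q))
              (fun q => B (bl p' s' q))) →
        (∀ n, ¬ P (U n) (x n) (s1 n)) → False),
      EvS h a g κ ψ B X L u s₀ P := by
  obtain ⟨k, hk, κ', hκ', hCol⟩ := hC u0 R d h ψ H A φ p B X L hE u s₀ a g hu hu0 ha hg hR κ hκ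
  obtain ⟨K1, hK1c, hK1s, hK1⟩ := exh (a + g)
  obtain ⟨K2, hK2c, hK2s, hK2⟩ := exh a
  refine ⟨k, hk, κ', hκ', ?_⟩
  intro P mx hmx ms hms HH
  refine EvS.seq_of_family (fun j : ℕ => hCol (1 / ((j : ℝ) + 1)) (by positivity) (K1 j) (hK1s j)
    (hK1c j) (K2 j) (hK2s j) (hK2c j)) mx hmx ms hms ?_
  intro ρ δ U x σ s1 a1 a2 a3 a4 a5 a6 a7 a8 a9
  refine HH ρ δ U x σ s1 a1 a2 a3 a4 a5 a6 a7 ?_ a9
  intro ε hε K hK hKc K' hK' hKc'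
  obtain ⟨j1, hj1⟩ := hK1 K hK hKc
  obtain ⟨j2, hj2⟩ := hK2 K' hK' hKc'
  obtain ⟨j3, hj3⟩ := exists_nat_one_div_lt hε
  set j := max (max j1 j2) j3 with hj
  have b1 : j1 ≤ j := (le_max_left _ _).trans (le_max_left _ _)
  have b2 : j2 ≤ j := (le_max_right _ _).trans (le_max_left _ _)
  have b3 : j3 ≤ j := le_max_right _ _
  have b4 : 1 / ((j : ℝ) + 1) ≤ ε := by
    refine le_trans ?_ hj3.le
    have : (j3 : ℝ) ≤ j := by exact_mod_cast b3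
    gcongr
  filter_upwards [a8 j] with n hn p' s' hV hU
  obtain ⟨c1, c2⟩ := hn p' s' hV hU
  exact ⟨c1, slowAt_mono c2 b4 (hj1 j b1) (hj2 j b2)⟩

end Crest.Agent.R102.SlowJ486
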