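import Crest.Agent.R102.NoRecA_971
import Crest.Agent.R102.NoRecX_985
import Crest.Agent.R102.SlowF_486

/-! Row 102, EDGE / SLOW (helper971, spare): the joint `NoRecP` from `ColPhi` and `SlowWorld`. -/

set_option autoImplicit false

open Set Filter Topology Metric Complex

noncomputable section

namespace Crest.Agent.R102.NoRec971

open Crest.Agent.R102.Sup115 (E2)
open Crest.Agent.R102.S5 (ray bl Half)
open Crest.Agent.R102.TreeS174 (KD)
open Crest.Agent.R102.Edge255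
open Crest.Agent.R102.SlowE (oe)
open Crest.Agent.R102.SlowS (kd)
open Crest.Agent.R102.Chain859 (V rho V_up)
open Crest.Agent.R102.SlowJ486
open Crest.Agent.R102.LocGrow115 (HSide HArc)
open Crest.Agent.R102.NoRecW203 (SlowWorld)

theorem r_le {s s1 om : ℝ} (hs : 0 < s) (hs1 : 0 < s1) (hom : 0 < om)
    (h : (s / s1) ^ (1 / 2 : ℝ) ≤ om) : s / om ≤ om * s1 := by
  have h0 : 0 ≤ s / s1 := by positivity
  have h1 : s / s1 = ((s / s1) ^ (1 / 2 : ℝ)) ^ 2 := by
    rw [← Real.rpow_natCast, ← Real.rpow_mul h0]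
    norm_num
  have h2 : 0 ≤ (s / s1) ^ (1 / 2 : ℝ) := Real.rpow_nonneg h0 _
  have h3 : s / s1 ≤ om ^ 2 := by
    rw [h1]
    gcongr
  rw [div_le_iff₀ hs1] at h3
  rw [div_le_iff₀ hom]
  nlinarith

theorem hside_rec {φ : ℂ × ℂ → ℂ} {c p0 : ℕ → ℝ × ℝ} {s s1 om : ℕ → ℝ} {b0 : ℕ → ℂ} {k : ℝ}
    (hk : 0 < k) (hdef : ∀ n, oe 8 φ (c n) (s n) = om n) (hom : ∀ n, 0 < om n)
    (hom1 : ∀ n, om n ≤ 1) (hom0 : Tendsto om atTop (𝓝 0))
    (hs1 : ∀ n, 0 < s1 n) (hoe : ∀ n, (s n / s1 n) ^ (1 / 2 : ℝ) ≤ om n)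
    (hV : ∀ n, V (fun q s => φ (ray q s)) (b0 n) (s1 n) (p0 n) (3 * k / 4) (c n) (s n))
    (hdist : ∀ n, dist (c n) (p0 n) ≤ s1 n / 2)
    (hrec : ∀ n, ∀ (p'' : ℝ × ℝ) (s'' : ℝ), V (fun q s => φ (ray q s)) (b0 n) (s1 n) (p0 n) k p'' s'' →
      rho (1 / 2) (c n) (s n) p'' s'' * oe 8 φ p'' s'' ≤ 16 * oe 8 φ (c n) (s n))
    (hosc : ∀ ε > 0, ∀ᶠ n in atTop, ∀ t, s n ≤ t → t ≤ s1 n → oe 8 φ (c n) t ≤ ε)
    (hφ : ∀ n, ∀ (p : ℝ × ℝ) (t : ℝ), V (fun q s => φ (ray q s)) (b0 n) (s1 n) (p0 n) k p t →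
      DifferentiableOn ℂ φ (KD 8 p.1 p.2 t)) :
    HSide (1 / 2) (1 / 2) φ c s (fun n => s n / om n) om := by
  intro ν hν C hC
  obtain ⟨M, hM, H⟩ := SideK201.sideK (E := ℂ) (th := 1 / 2) (Cl := 16) (A := 16) (by norm_num)
    (by norm_num) (by norm_num)
  have hM0 : 0 < M := by linarith
  have hC0 : 0 < C := by linarith
  set M' : ℝ := M * C * (C / ν) ^ 2 with hM'
  have hM'0 : 0 < M' := by positivity
  refine ⟨16 * M' + 5, by positivity, ?_⟩
  intro y hy
  have y0 : 0 < y := by linarith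
  -- the three smallness conditions
  have e1 : ∀ᶠ n in atTop, ∀ t, s n ≤ t → t ≤ s1 n → oe 8 φ (c n) t ≤ min (1 / 2) (k / 128) :=
    hosc _ (by positivity)
  have e2 : ∀ᶠ n in atTop,
      (2 / om n) ^ (1 / 2 : ℝ) * (1 + Real.log (2 / om n)) ^ 4 * om n < min (k / 8) (1 / 2) / M' :=
    (small_G hom hom1 hom0).eventually_lt_const (by positivity)
  have e3 : ∀ᶠ n in atTop, om n < 1 / (4 * C) := hom0.eventually_lt_const (by positivity)
  filter_upwards [e1, e2, e3] with n h1 h2 h3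
  intro T hyT hT2 x' v' s' hx' hv' hs'l hs'u
  have s0 : 0 < s n := (hV n).1
  have ho := hom n
  have ho1 := hom1 n
  have hs1n := hs1 n
  have hr := r_le s0 hs1n ho (hoe n)
  have ys : 0 < y * s n := by positivity
  have T0 : 0 < T := lt_of_lt_of_le ys hyT
  have hx1 : 1 ≤ T / (y * s n) := by rw [one_le_div ys]; exact hyT
  set x : ℝ := T / (y * s n) with hx
  have x0 : 0 < x := by linarith
  have hl0 : 0 ≤ Real.log x := Real.log_nonneg hx1
  set l : ℝ := 1 + Real.log x with hl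
  have l1 : 1 ≤ l := by linarith
  have l0 : 0 < l := by linarith
  have hs' : 0 < s' := lt_of_lt_of_le (by positivity) hs'l
  have hTC : T ≤ C * T := by nlinarith
  have hsT : s n ≤ T := by nlinarith
  have hTs1 : 2 * (C * T) ≤ s1 n := by
    have h4 : T ≤ 2 * (om n * s1 n) := by linarith
    have h5 : 4 * C * om n ≤ 1 := by
      rw [lt_div_iff₀ (by positivity)] at h3
      linarith
    calc 2 * (C * T) ≤ 2 * (C * (2 * (om n * s1 n))) := by gcongr
      _ = (4 * C * om n) * s1 n := by ring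
      _ ≤ 1 * s1 n := by gcongr
      _ = s1 n := one_mul _
  have hdp : dist (c n) (x', v') ≤ C * T := by
    rw [Prod.dist_eq, Real.dist_eq, Real.dist_eq]
    refine max_le ?_ ?_
    · rw [abs_sub_comm]; exact hx'
    · rw [abs_sub_comm]; exact hv'
  have hTs : T / s n = y * x := by
    rw [hx]; field_simp
  have hz : y * x ≤ 2 / om n := by
    rw [← hTs, div_le_div_iff₀ s0 ho]
    have h4 : T ≤ 2 * (s n / om n) := hT2
    have h5 : T * om n ≤ 2 * (s n / om n) * om n := by gcongr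
    have h6 : 2 * (s n / om n) * om n = 2 * s n := by field_simp
    linarith
  have hxz : x ≤ 2 / om n := by nlinarith
  -- the bound of the kernel quantity
  have g1 : (C * T / s n) ^ (1 / 2 : ℝ) ≤ C * (y * x) ^ (1 / 2 : ℝ) := by
    rw [show C * T / s n = C * (y * x) by rw [← hTs]; ring,
      Real.mul_rpow (by positivity) (by positivity)]
    have : C ^ (1 / 2 : ℝ) ≤ C ^ (1 : ℝ) := Real.rpow_le_rpow_of_exponent_le hC (by norm_num)
    rw [Real.rpow_one] at this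
    gcongr
  have g2 : C * T / s' ≤ C / ν * l ^ 2 := by
    rw [div_le_iff₀ hs']
    have h4 : ν * T ≤ s' * l ^ 2 := by
      rw [div_le_iff₀ (by positivity)] at hs'l
      exact hs'l
    calc C * T = C / ν * (ν * T) := by field_simp
      _ ≤ C / ν * (s' * l ^ 2) := by gcongr
      _ = C / ν * l ^ 2 * s' := by ring
  have g3 : M * (C * T / s n) ^ (1 / 2 : ℝ) * (C * T / s') ^ 2 * om n ≤
      M' * ((y * x) ^ (1 / 2 : ℝ) * l ^ 4) * om n := by
    calc M * (C * T / s n) ^ (1 / 2 : ℝ) * (C * T / s') ^ 2 * om n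
        ≤ M * (C * (y * x) ^ (1 / 2 : ℝ)) * (C / ν * l ^ 2) ^ 2 * om n := by gcongr
      _ = M' * ((y * x) ^ (1 / 2 : ℝ) * l ^ 4) * om n := by rw [hM']; ring
  have g4 : M' * ((y * x) ^ (1 / 2 : ℝ) * l ^ 4) * om n ≤ min (k / 8) (1 / 2) := by
    have h4 : l ≤ 1 + Real.log (2 / om n) := by
      have := Real.log_le_log x0 hxz
      linarith
    calc M' * ((y * x) ^ (1 / 2 : ℝ) * l ^ 4) * om n
        ≤ M' * ((2 / om n) ^ (1 / 2 : ℝ) * (1 + Real.log (2 / om n)) ^ 4) * om n := by gcongr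
      _ = M' * ((2 / om n) ^ (1 / 2 : ℝ) * (1 + Real.log (2 / om n)) ^ 4 * om n) := by ring
      _ ≤ M' * (min (k / 8) (1 / 2) / M') := by gcongr
      _ = min (k / 8) (1 / 2) := by field_simp
  obtain ⟨-, r2⟩ := H (oe 8 φ) (fun q s => φ (ray q s)) (b0 n) k (min (1 / 2) (k / 128)) (s1 n)
    (p0 n) (c n) (s n) (fun p t => SlowE.oe_nonneg _ _ _ _)
    (fun p t t' hv he ht1 ht2 => by
      have h4 := SlowE.hvert (le_refl (8 : ℝ)) (φ := φ) hv.1 he ht1 ht2
      have h5 := SlowE.oe_nonneg 8 φ p t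
      linarith)
    (fun p p' t hv he hd => SlowE.hlat (le_refl (8 : ℝ)) hv.1 (hφ n p t hv) he hd)
    hk.le (hV n) (hdist n) h1
    (by have := min_le_right (1 / 2 : ℝ) (k / 128); linarith)
    (by have := min_le_left (1 / 2 : ℝ) (k / 128); linarith)
    (hrec n) (C * T) (x', v') s' (hsT.trans hTC) hTs1 hdp hs' hs'u
    (by rw [hdef n]; exact (g3.trans g4).trans (min_le_left _ _))
    (by rw [hdef n]; exact (g3.trans g4).trans (min_le_right _ _))
  rw [hdef n] at r2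
  have g5 := absorb hM'0.le hx1
  calc ‖φ (ray (x', v') s') - φ (ray (c n) (s n))‖
      ≤ M * (C * T / s n) ^ (1 / 2 : ℝ) * (C * T / s') ^ 2 * om n := r2
    _ ≤ M' * ((y * x) ^ (1 / 2 : ℝ) * l ^ 4) * om n := g3
    _ = om n * y ^ (1 / 2 : ℝ) * (M' * (x ^ (1 / 2 : ℝ) * l ^ 4)) := by
        rw [Real.mul_rpow y0.le x0.le]; ring
    _ ≤ om n * y ^ (1 / 2 : ℝ) * Real.exp ((16 * M' + 5) * x ^ (1 / 2 : ℝ)) := by gcongr

theorem harc_rec {m : ℝ} (hm : 0 ≤ m) {ψ : ℂ → ℂ} {φ P B : ℂ × ℂ → ℂ} {c : ℕ → ℝ × ℝ}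
    {s s1 om : ℕ → ℝ} {b0 : ℕ → ℂ} {k : ℝ} (_hk : 0 < k) (hk1 : k ≤ 1) (hs : ∀ n, 0 < s n)
    (hom : ∀ n, 0 < om n) (hom1 : ∀ n, om n ≤ 1) (hom0 : Tendsto om atTop (𝓝 0))
    (hs1 : ∀ n, 0 < s1 n) (hoe : ∀ n, (s n / s1 n) ^ (1 / 2 : ℝ) ≤ om n)
    (hV : ∀ n, ∀ t, s n ≤ t → t ≤ s1 n → ‖φ (ray (c n) t) - b0 n‖ ≤ 3 * k / 4)
    (hdiff : ∀ C : ℝ, ∀ᶠ n in atTop, DifferentiableOn ℂ φ (Half (c n) (C * (s n / om n)) m))
    (hS : ∀ K ⊆ Wg m, IsCompact K → ∀ᶠ n in atTop, ∀ t, s n ≤ t → t ≤ s1 n →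
      SlowAt (1 / 2) K ∅ ψ (fun q => φ (bl (c n) t q)) (fun q => P (bl (c n) t q))
        (fun q => B (bl (c n) t q))) :
    HArc m (1 / 2) φ c s (fun n => s n / om n) om := by
  intro ν hν C hC
  refine ⟨fun n => Real.log (3 / om n), fun n => Real.log_nonneg ?_, ?_, ?_⟩
  · rw [le_div_iff₀ (hom n)]
    linarith [hom1 n]
  · have e : (fun n => Real.log (3 / om n) * (s n / (s n / om n)) ^ (1 / 2 : ℝ)) =
        fun n => Real.log 3 * (om n) ^ (1 / 2 : ℝ) - Real.log (om n) * (om n) ^ (1 / 2 : ℝ) := by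
      funext n
      have h1 := hs n
      have h2 := hom n
      have h3 : s n / (s n / om n) = om n := by field_simp
      rw [h3, Real.log_div (by norm_num) h2.ne']
      ring
    rw [e]
    have h1 : Tendsto om atTop (𝓝[>] 0) :=
      tendsto_nhdsWithin_iff.2 ⟨hom0, Eventually.of_forall hom⟩
    have h2 : Tendsto (fun n => Real.log (om n) * (om n) ^ (1 / 2 : ℝ)) atTop (𝓝 0) :=
      (tendsto_log_mul_rpow_nhdsGT_zero (by norm_num)).comp h1
    have h3 : Tendsto (fun n => (om n) ^ (1 / 2 : ℝ)) atTop (𝓝 ((0 : ℝ) ^ (1 / 2 : ℝ))) :=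
      hom0.rpow_const (Or.inr (by norm_num))
    rw [Real.zero_rpow (by norm_num)] at h3
    simpa using (h3.const_mul (Real.log 3)).sub h2
  set ν' : ℝ := min ν (1 / 4) with hν'
  have hν'0 : 0 < ν' := by positivity
  have e3 : ∀ᶠ n in atTop, om n ≤ 1 := Eventually.of_forall hom1
  filter_upwards [hdiff (C + 1 + 1), hS (Kr m (C + 1) ν') (Kr_sub hν'0) (isCompact_Kr _ _ _), e3]
    with n h1 h2 h3
  intro q hq1 hq2 hq3 hq4
  have hsn := hs n
  have ho := hom n
  have hs1n := hs1 n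
  set r : ℝ := s n / om n with hr
  have r0 : 0 < r := by positivity
  have hrs : s n ≤ r := by rw [hr, le_div_iff₀ ho]; nlinarith
  have hrs1 : r ≤ s1 n := by
    have := r_le hsn hs1n ho (hoe n)
    nlinarith
  have hS' := h2 r hrs hrs1
  have hbl : Continuous (bl (c n) r) := by unfold bl; fun_prop
  have hsub : ∀ x ∈ Kr m (C + 1) ν', bl (c n) r x ∈ Half (c n) ((C + 1 + 1) * r) m := by
    rintro x ⟨x1, x2, x3, x4⟩
    have a1 : (bl (c n) r x).1.re - (c n).1 = r * x.1.re := by simp [bl]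
    have a2 : (bl (c n) r x).1.im = r * x.1.im := by simp [bl]
    have a3 : (bl (c n) r x).2 - ((c n).2 : ℂ) = (r : ℂ) * x.2 := by simp [bl]
    have a4 : (bl (c n) r x).2.im = r * x.2.im := by simp [bl]
    have b1 : |x.1.re| ≤ C + 1 := (Complex.abs_re_le_norm _).trans x1
    have b2 : |x.1.im| ≤ C + 1 := (Complex.abs_im_le_norm _).trans x1
    refine ⟨?_, ?_, ?_, ?_, ?_⟩
    · rw [a1, abs_mul, abs_of_pos r0]
      nlinarith
    · rw [a2]
      have := (abs_le.1 b2).1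
      nlinarith
    · rw [a3, norm_mul, Complex.norm_real, Real.norm_of_nonneg r0.le]
      nlinarith
    · rw [a4]
      have : 0 < x.2.im := lt_of_lt_of_le hν'0 x3
      positivity
    · rw [a2, a4]
      have : x.1.im < m * x.2.im := by linarith
      nlinarith
  have hcont : ContinuousOn (fun x => φ (bl (c n) r x)) (Kr m (C + 1) ν') :=
    h1.continuousOn.comp hbl.continuousOn hsub
  obtain ⟨j, hj⟩ := SlowS.branch (convex_Kr m (C + 1) ν').isPreconnected
    (f := fun x => φ (bl (c n) r x) - ψ (B (bl (c n) r z0))) (hcont.sub continuousOn_const) le_rfl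
    (fun x hx => (hS'.1 x hx).1)
  have hz : z0 ∈ Kr m (C + 1) ν' := by
    have z1 : (z0).1 = -I := rfl
    have z2 : (z0).2 = I / 4 := rfl
    have z3 : (I / 4 : ℂ).im = 1 / 4 := by simp
    have z4 : ν' ≤ 1 / 4 := min_le_right _ _
    refine ⟨?_, ?_, ?_, ?_⟩
    · rw [z1]; simp; linarith
    · rw [z2, norm_div, Complex.norm_I]; norm_num; linarith
    · rw [z2, z3]; exact z4
    · rw [z1, z2, z3]; simp only [Complex.neg_im, Complex.I_im]; nlinarith
  obtain ⟨x, rfl⟩ := SlowS.exists_bl r0 (p := c n) q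
  have hx : x ∈ Kr m (C + 1) ν' := by
    have a0 : (bl (c n) r x).1 - ((c n).1 : ℂ) = (r : ℂ) * x.1 := by simp [bl]
    have a2 : (bl (c n) r x).1.im = r * x.1.im := by simp [bl]
    have a3 : (bl (c n) r x).2 - ((c n).2 : ℂ) = (r : ℂ) * x.2 := by simp [bl]
    have a4 : (bl (c n) r x).2.im = r * x.2.im := by simp [bl]
    rw [a0, norm_mul, Complex.norm_real, Real.norm_of_nonneg r0.le] at hq1
    rw [a3, norm_mul, Complex.norm_real, Real.norm_of_nonneg r0.le] at hq2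
    rw [a4] at hq3
    rw [a2, a4] at hq4
    have b1 : ‖x.1‖ ≤ C := by
      have : r * ‖x.1‖ ≤ r * C := by linarith
      exact le_of_mul_le_mul_left this r0
    have b2 : ‖x.2‖ ≤ C := by
      have : r * ‖x.2‖ ≤ r * C := by linarith
      exact le_of_mul_le_mul_left this r0
    have b3 : ν ≤ x.2.im := by
      have : r * ν ≤ r * x.2.im := by linarith
      exact le_of_mul_le_mul_left this r0
    have b4 : x.1.im ≤ m * x.2.im - ν := by
      have : r * x.1.im ≤ r * (m * x.2.im - ν) := by linarith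
      exact le_of_mul_le_mul_left this r0
    have b5 : ν' ≤ ν := min_le_left _ _
    exact ⟨by linarith, by linarith, b5.trans b3, by linarith⟩
  have c1 := hj x hx
  have c2 := hj z0 hz
  have c3 : ‖φ (bl (c n) r x) - φ (bl (c n) r z0)‖ ≤ 1 := by
    have : φ (bl (c n) r x) - φ (bl (c n) r z0) =
        (φ (bl (c n) r x) - ψ (B (bl (c n) r z0)) - j * Real.pi) -
        (φ (bl (c n) r z0) - ψ (B (bl (c n) r z0)) - j * Real.pi) := by ring
    rw [this]
    refine (norm_sub_le _ _).trans ?_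
    linarith
  have hray : ray (c n) r = bl (c n) r z0 := rfl
  have c4 := hV n r hrs hrs1
  have c5 := hV n (s n) le_rfl (hrs.trans hrs1)
  have c6 : ‖φ (bl (c n) r x) - φ (ray (c n) (s n))‖ ≤ 3 := by
    have : φ (bl (c n) r x) - φ (ray (c n) (s n)) =
        (φ (bl (c n) r x) - φ (bl (c n) r z0)) + (φ (ray (c n) r) - b0 n) -
        (φ (ray (c n) (s n)) - b0 n) := by rw [hray]; ring
    rw [this]
    refine (norm_sub_le _ _).trans ?_
    have := norm_add_le (φ (bl (c n) r x) - φ (bl (c n) r z0)) (φ (ray (c n) r) - b0 n)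
    linarith
  refine c6.trans ?_
  rw [Real.exp_log (by positivity)]
  have : om n * (3 / om n) = 3 := by field_simp
  rw [this]

end Crest.Agent.R102.NoRec971
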