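import Crest.Agent.R102.NoRecB_971

/-! Row 102, EDGE / SLOW (helper971): `NoRecP` from `ColPhi` and `SlowWorld`. -/

set_option autoImplicit false

open Set Filter Topology Metric Complex

noncomputable section

namespace Crest.Agent.R102.NoRec971

open Crest.Agent.R102.Sup115 (E2)
open Crest.Agent.R102.S5 (ray bl Half)
open Crest.Agent.R102.TreeS174 (KD)
open Crest.Agent.R102.Edge255
open Crest.Agent.R102.SlowE (oe)
open Crest.Agent.R102.SlowS (kd)
open Crest.Agent.R102.Chain859 (V rho V_up)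
open Crest.Agent.R102.SlowJ486
open Crest.Agent.R102.LocGrow115 (HSide HArc)
open Crest.Agent.R102.NoRecW203 (SlowWorld)

set_option maxHeartbeats 1000000 in
/-- **NoRecP** -/
theorem noRecP_of (hC : ColPhi) (SW : SlowWorld) : NoRecP := by
  intro u0 R d h ψ H Ar φ p B X L D u s₀ a g hu hu0 ha hg hR
  refine ⟨8, le_refl _, fun κ hκ => ?_⟩
  obtain ⟨kc, hkc, κ', hκ', hcs⟩ := col_seq hC D hu hu0 ha hg hR hκ
  refine ⟨min kc 1, lt_min hkc one_pos, fun k hk hk1 => ?_⟩
  have hkkc : k ≤ kc := hk1.trans (min_le_left _ _)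
  have hk1' : k ≤ 1 := hk1.trans (min_le_right _ _)
  refine hcs _ (fun n ρ δ U => min (1 / ((n : ℝ) + 1)) (δ / 4))
    (fun n ρ δ U hρ hδ => by positivity)
    (fun n ρ δ U x σ => min 1 δ * (1 / (100 * ((n : ℝ) + 1))))
    (fun n ρ δ U x σ hρ hδ hσ => by positivity) ?_
  intro ρ δ U x σ s1 hρ hb hx hσ hI hs1 hs1m hS hneg
  push Not at hneg
  choose c s hV hinf hdist hoe hrec using hneg
  -- elementary
  have hδ : ∀ n, 0 < δ n := fun n => (hb n).δ_pos
  have hs : ∀ n, 0 < s n := fun n => (hV n).1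
  have hss1 : ∀ n, s n ≤ s1 n := fun n => (hV n).2.1
  have hn1 : Tendsto (fun n : ℕ => 1 / ((n : ℝ) + 1)) atTop (𝓝 0) :=
    tendsto_one_div_add_atTop_nhds_zero_nat
  have hs1b : ∀ n, s1 n ≤ 1 / ((n : ℝ) + 1) ∧ s1 n ≤ δ n * (1 / ((n : ℝ) + 1)) ∧
      100 * s1 n ≤ δ n := by
    intro n
    have h1 := hs1m n
    have h2 : (0 : ℝ) < (n : ℝ) + 1 := by positivity
    have h2' : (1 : ℝ) ≤ (n : ℝ) + 1 := by
      have : (0 : ℝ) ≤ n := Nat.cast_nonneg n
      linarith
    have h3 : 1 / (100 * ((n : ℝ) + 1)) = 1 / ((n : ℝ) + 1) / 100 := by field_simp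
    have h4 : min 1 (δ n) ≤ 1 := min_le_left _ _
    have h5 : min 1 (δ n) ≤ δ n := min_le_right _ _
    have h6 : 0 < 1 / ((n : ℝ) + 1) := by positivity
    have h7 : 1 / ((n : ℝ) + 1) ≤ 1 := by rw [div_le_one h2]; exact h2'
    have h8 := hδ n
    rw [h3] at h1
    have h9 : min 1 (δ n) * (1 / ((n : ℝ) + 1) / 100) ≤ 1 * (1 / ((n : ℝ) + 1) / 100) := by
      gcongr
    have h10 : min 1 (δ n) * (1 / ((n : ℝ) + 1) / 100) ≤ δ n * (1 / ((n : ℝ) + 1) / 100) := by
      gcongr
    refine ⟨by linarith, ?_, ?_⟩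
    · have : 0 < δ n * (1 / ((n : ℝ) + 1)) := by positivity
      linarith
    · have : δ n * (1 / ((n : ℝ) + 1)) ≤ δ n * 1 := by gcongr
      linarith
  have hs10 : Tendsto s1 atTop (𝓝 0) :=
    squeeze_zero (fun n => (hs1 n).le) (fun n => (hs1b n).1) hn1
  have hs0 : Tendsto s atTop (𝓝 0) := squeeze_zero (fun n => (hs n).le) hss1 hs10
  have hρ0 : Tendsto ρ atTop (𝓝 0) := squeeze_zero (fun n => (hb n).ρ_pos.le) hρ hn1
  have hx1 : ∀ n, |x n - s₀| < 1 / ((n : ℝ) + 1) := fun n => (hx n).trans_le (min_le_left _ _)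
  have hx2 : ∀ n, |x n - s₀| < δ n / 4 := fun n => (hx n).trans_le (min_le_right _ _)
  have hc1 : ∀ n, |(c n).1 - x n| ≤ s1 n / 2 := by
    intro n
    have := hdist n
    rw [Prod.dist_eq, Real.dist_eq, Real.dist_eq] at this
    exact (le_max_left _ _).trans this
  have hc2 : ∀ n, |(c n).2 - u| ≤ s1 n / 2 := by
    intro n
    have := hdist n
    rw [Prod.dist_eq, Real.dist_eq, Real.dist_eq] at this
    exact (le_max_right _ _).trans this
  -- the root
  have hE2r : ∀ n, E2 X L a g (ρ n) (δ n) (x n, u) := fun n =>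
    (hb n).e2 u (hb n).mem (x n) ((hx2 n).trans (by have := hδ n; linarith))
  -- good base
  have hex : ∀ n, ∃ u'' ∈ U n, |u'' - (c n).2| ≤ s n := by
    intro n
    obtain ⟨u'', hu'', h1⟩ := (hb n).closed.exists_infDist_eq_dist ⟨u, (hb n).mem⟩ (c n).2
    refine ⟨u'', hu'', ?_⟩
    have h2 := hinf n
    rw [h1, Real.dist_eq, abs_sub_comm] at h2
    exact h2
  choose u'' hu'' hu''c using hex
  have he : Tendsto (fun n => ((c n).1, u'' n)) atTop (𝓝 (s₀, u)) := by
    refine Tendsto.prodMk_nhds ?_ ?_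
    · rw [tendsto_iff_dist_tendsto_zero]
      refine squeeze_zero (fun n => dist_nonneg) (fun n => ?_) (hs10.add hn1 |>.trans (by simp))
      rw [Real.dist_eq]
      have h1 : |(c n).1 - s₀| ≤ |(c n).1 - x n| + |x n - s₀| := abs_sub_le _ _ _
      have h2 := hc1 n
      have h3 := hx1 n
      have h4 := hs1 n
      linarith
    · rw [tendsto_iff_dist_tendsto_zero]
      refine squeeze_zero (fun n => dist_nonneg) (fun n => ?_) (hs10.const_mul 2 |>.trans (by simp))
      rw [Real.dist_eq]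
      have h1 : |u'' n - u| ≤ |u'' n - (c n).2| + |(c n).2 - u| := abs_sub_le _ _ _
      have h2 := hc2 n
      have h3 := hu''c n
      have h4 := hss1 n
      have h5 := hs1 n
      linarith
  have hE2 : ∀ n, E2 X L a g (ρ n) (δ n) ((c n).1, u'' n) := fun n =>
    (hb n).e2 (u'' n) (hu'' n) (c n).1 (by
      have h1 : |(c n).1 - s₀| ≤ |(c n).1 - x n| + |x n - s₀| := abs_sub_le _ _ _
      have h2 := hc1 n
      have h3 := hx2 n
      have h4 := (hs1b n).2.2
      have h5 := hs1 n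
      linarith)
  have hsδ : Tendsto (fun n => s n / δ n) atTop (𝓝 0) := by
    refine squeeze_zero (fun n => by have := hs n; have := hδ n; positivity) (fun n => ?_) hn1
    have h1 := hδ n
    rw [div_le_iff₀ h1]
    have := (hs1b n).2.1
    have := hss1 n
    linarith
  -- windows of the tree
  have hVk : ∀ n, ∀ t, s n ≤ t → t ≤ s1 n → V (fun q s => φ (ray q s)) (φ (ray (x n, u) (s1 n)))
      (s1 n) (x n, u) kc (c n) t := fun n t h1 h2 =>
    V_up (hV n) (by linarith) h1 h2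
  have hSc : ∀ ε > 0, ∀ K ⊆ Wg (a + g), IsCompact K → ∀ K' ⊆ Wg a, IsCompact K' →
      ∀ᶠ n in atTop, ∀ t, s n ≤ t → t ≤ s1 n → Intr h κ' ψ B (c n) t ∧
        SlowAt ε K K' ψ (fun q => φ (bl (c n) t q)) (fun q => p (bl (c n) t q))
          (fun q => B (bl (c n) t q)) := by
    intro ε hε K hK hKc K' hK' hKc'
    filter_upwards [hS ε hε K hK hKc K' hK' hKc'] with n hn t h1 h2
    exact hn (c n) t (hVk n t h1 h2) ((hinf n).trans h1)
  have hφKD : ∀ n, ∀ (q : ℝ × ℝ) (t : ℝ), V (fun q s => φ (ray q s)) (φ (ray (x n, u) (s1 n)))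
      (s1 n) (x n, u) k q t → DifferentiableOn ℂ φ (KD 8 q.1 q.2 t) := by
    intro n q t hv
    refine D.φ_diff.mono (KD_sub (hE2r n) ha hg le_rfl hv.1 hv.2.1 hv.2.2.1 ?_)
    have h1 := (hs1b n).2.2
    have h2 := hs1 n
    linarith
  set om : ℕ → ℝ := fun n => oe 8 φ (c n) (s n) with hom_def
  have hom : ∀ n, 0 < om n := fun n =>
    lt_of_lt_of_le (Real.rpow_pos_of_pos (div_pos (hs n) (hs1 n)) _) (hoe n)
  have hom1 : ∀ n, om n ≤ 1 := fun n => SlowE.oe_le_one _ _ _ _
  have hosc : ∀ ε > 0, ∀ᶠ n in atTop, ∀ t, s n ≤ t → t ≤ s1 n → oe 8 φ (c n) t ≤ ε := by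
    intro ε hε
    have hε' : 0 < min (1 / 2) (ε / 2) := by positivity
    filter_upwards [hSc _ hε' (kd 8) (SlowS.kd_sub_Wg le_rfl (by linarith))
      (SlowS.isCompact_kd le_rfl) ∅ (empty_subset _) isCompact_empty] with n hn t h1 h2
    have h3 := SlowS.slow_osc (A := 8) le_rfl (min_le_left _ _) subset_rfl
      (lt_of_lt_of_le (hs n) h1)
      (hφKD n (c n) t (V_up (hV n) (by linarith) h1 h2)).continuousOn (hn t h1 h2).2
    have h4 : min (1 / 2) (ε / 2) ≤ ε / 2 := min_le_right _ _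
    linarith
  have hom0 : Tendsto om atTop (𝓝 0) := by
    rw [Metric.tendsto_atTop]
    intro ε hε
    obtain ⟨N, hN⟩ := eventually_atTop.1 (hosc (ε / 2) (by positivity))
    refine ⟨N, fun n hn => ?_⟩
    have h1 := hN n hn (s n) le_rfl (hss1 n)
    rw [Real.dist_eq, sub_zero, abs_of_pos (hom n)]
    exact lt_of_le_of_lt h1 (by linarith)
  have hsr : Tendsto (fun n => s n / (s n / om n)) atTop (𝓝 0) := by
    have e : (fun n => s n / (s n / om n)) = om := by
      funext n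
      have h1 := hs n
      have h2 := hom n
      field_simp
    rw [e]; exact hom0
  have hdiff : ∀ C : ℝ, ∀ᶠ n in atTop,
      DifferentiableOn ℂ φ (Half (c n) (C * (s n / om n)) (a + g)) := by
    intro C
    have h1 : ∀ᶠ n in atTop, om n < 1 / (|C| + 1) := hom0.eventually_lt_const (by positivity)
    filter_upwards [h1] with n hn
    refine D.φ_diff.mono (Subset.trans ?_ (hE2r n).line)
    have hr := r_le (hs n) (hs1 n) (hom n) (hoe n)
    have hCr : C * (s n / om n) ≤ s1 n := by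
      have h2 : 0 < s n / om n := div_pos (hs n) (hom n)
      have h3 : (|C| + 1) * om n ≤ 1 := by
        rw [lt_div_iff₀ (by positivity)] at hn
        linarith
      calc C * (s n / om n) ≤ (|C| + 1) * (s n / om n) := by
            apply mul_le_mul_of_nonneg_right _ h2.le
            linarith [le_abs_self C]
        _ ≤ (|C| + 1) * (om n * s1 n) := by gcongr
        _ = ((|C| + 1) * om n) * s1 n := by ring
        _ ≤ 1 * s1 n := by
            apply mul_le_mul_of_nonneg_right h3 (hs1 n).le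
        _ = s1 n := one_mul _
    rintro q ⟨q1, q2, q3, q4, q5⟩
    have h4 := hc1 n
    have h5 := hc2 n
    have h6 := (hs1b n).2.2
    have h7 := hs1 n
    refine ⟨?_, by linarith, ?_, q4, q5⟩
    · show |q.1.re - x n| < δ n
      have : |q.1.re - x n| ≤ |q.1.re - (c n).1| + |(c n).1 - x n| := abs_sub_le _ _ _
      linarith
    · show ‖q.2 - (u : ℂ)‖ < δ n
      have e : q.2 - (u : ℂ) = (q.2 - ((c n).2 : ℂ)) + (((c n).2 - u : ℝ) : ℂ) := by
        push_cast; ring
      rw [e]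
      refine lt_of_le_of_lt (norm_add_le _ _) ?_
      rw [Complex.norm_real, Real.norm_eq_abs]
      linarith
  have hside : HSide (1 / 2) (1 / 2) φ c s (fun n => s n / om n) om :=
    hside_rec hk (fun n => rfl) hom hom1 hom0 hs1 hoe hV hdist hrec hosc hφKD
  have harc : HArc (a + g) (1 / 2) φ c s (fun n => s n / om n) om := by
    refine harc_rec (by linarith) (ψ := ψ) (P := p) (B := B) hk hk1' hs hom hom1 hom0 hs1 hoe
      (fun n t h1 h2 => (hV n).2.2.2 t h1 h2) hdiff ?_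
    intro K hK hKc
    filter_upwards [hSc (1 / 2) (by norm_num) K hK hKc ∅ (empty_subset _) isCompact_empty]
      with n hn t h1 h2
    exact (hn t h1 h2).2
  have hgrow := LocGrow115.grow_rec (g' := g) ha hg le_rfl (by norm_num : (0 : ℝ) ≤ 1 / 2)
    (by norm_num : (0 : ℝ) < 1 / 2) (by norm_num : (1 / 2 : ℝ) < 1) hs
    (fun n => div_pos (hs n) (hom n)) hom hsr hdiff hside harc
  refine NoRecX985.norec_oe SW D hu hu0 ha hg hκ' (c := c) (e := fun n => ((c n).1, u'' n))
    (s := s) (ρ := ρ) (η := δ) he hs hs0 (fun n => (hb n).ρ_pos) hρ0 hδ hsδ hE2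
    (fun n => rfl) (fun n => hu''c n) ?_ ?_ (AK := 8) le_rfl hom hg le_rfl
    (th := 1 / 2) (by norm_num) (by norm_num) hgrow
  · filter_upwards [hSc 1 one_pos ∅ (empty_subset _) isCompact_empty ∅ (empty_subset _)
      isCompact_empty] with n hn
    exact (hn (s n) le_rfl (hss1 n)).1
  · intro ε hε K hK hKc K' hK' hKc'
    filter_upwards [hSc ε hε K hK hKc K' hK' hKc'] with n hn
    exact (hn (s n) le_rfl (hss1 n)).2

end Crest.Agent.R102.NoRec971
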