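import Crest.Agent.R102.SlowF_486
import Crest.Agent.R102.NoRecX_985
import Crest.Agent.R102.LocGrow_115
import Crest.Agent.R102.SideK_201

/-!
Row 102, T1-B, EDGE / SLOW (helper115): `NoRecP` from `ColPhi` and `SlowWorld`
(assembly of the pieces of 486, 985, 203, 201, 490, 654/575).
-/

set_option autoImplicit false

open Set Filter Topology Metric MeasureTheory Complex

noncomputable section

namespace Crest.Agent.R102.NoRecF115

open Crest.Agent.R102.Sup115 (E2)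
open Crest.Agent.R102.S5 (ray bl Half)
open Crest.Agent.R102.TreeS174 (KD)
open Crest.Agent.R102.Edge255
open Crest.Agent.R102.SlowE (oe)
open Crest.Agent.R102.SlowS (kd)
open Crest.Agent.R102.Chain859 (V rho)
open Crest.Agent.R102.SlowJ486 (Base EvS ColPhi NoRecP)
open Crest.Agent.R102.NoRecW203 (SlowWorld)
open Crest.Agent.R102.LocGrow115 (HSide HArc)

/-! ### real lemmas -/

lemma tech1 {z : ℝ} (hz : 1 ≤ z) : (1 + Real.log z) ^ 4 ≤ 65536 * z ^ (1 / 4 : ℝ) := by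
  have hz0 : 0 < z := lt_of_lt_of_le one_pos hz
  have h1 : Real.log z = 16 * Real.log (z ^ (1 / 16 : ℝ)) := by
    rw [Real.log_rpow hz0]; ring
  have h2 : 0 < z ^ (1 / 16 : ℝ) := Real.rpow_pos_of_pos hz0 _
  have h3 := Real.log_le_sub_one_of_pos h2
  have h4 : 0 ≤ Real.log z := Real.log_nonneg hz
  have h5 : 1 + Real.log z ≤ 16 * z ^ (1 / 16 : ℝ) := by rw [h1]; linarith
  have h6 : (1 + Real.log z) ^ 4 ≤ (16 * z ^ (1 / 16 : ℝ)) ^ 4 :=
    pow_le_pow_left₀ (by linarith) h5 4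
  have h7 : (z ^ (1 / 16 : ℝ)) ^ 4 = z ^ (1 / 4 : ℝ) := by
    rw [← Real.rpow_natCast, ← Real.rpow_mul hz0.le]
    norm_num
  rw [mul_pow, h7] at h6
  norm_num at h6 ⊢
  exact h6

lemma tech2 {Q t : ℝ} (hQ : 0 ≤ Q) (ht : 1 ≤ t) :
    Q * (t ^ (1 / 2 : ℝ) * (1 + Real.log t) ^ 4) ≤
      Real.exp ((65536 * Q + 2) * t ^ (1 / 2 : ℝ)) := by
  have ht0 : 0 < t := lt_of_lt_of_le one_pos ht
  set w : ℝ := t ^ (1 / 2 : ℝ) with hw
  have hw1 : 1 ≤ w := Real.one_le_rpow ht (by norm_num)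
  have h1 : t ^ (1 / 4 : ℝ) ≤ w := Real.rpow_le_rpow_of_exponent_le ht (by norm_num)
  have h2 := tech1 ht
  have h3 : (1 + Real.log t) ^ 4 ≤ 65536 * w := by linarith
  have h4 : Q * (w * (1 + Real.log t) ^ 4) ≤ 65536 * Q * w ^ 2 := by
    have : w * (1 + Real.log t) ^ 4 ≤ w * (65536 * w) := by gcongr
    calc Q * (w * (1 + Real.log t) ^ 4) ≤ Q * (w * (65536 * w)) := by gcongr
      _ = _ := by ring
  have h5 : w ^ 2 ≤ 2 * Real.exp w := by
    have := Real.quadratic_le_exp_of_nonneg (x := w) (by linarith)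
    nlinarith
  have h6 : 65536 * Q ≤ Real.exp (65536 * Q * w) := by
    have h7 := Real.add_one_le_exp (65536 * Q * w)
    have h8 : 65536 * Q ≤ 65536 * Q * w := le_mul_of_one_le_right (by positivity) hw1
    linarith
  have h9 : (2 : ℝ) ≤ Real.exp w := by
    have := Real.add_one_le_exp w
    linarith
  calc Q * (w * (1 + Real.log t) ^ 4) ≤ 65536 * Q * w ^ 2 := h4
    _ ≤ Real.exp (65536 * Q * w) * (Real.exp w * Real.exp w) := by
        apply mul_le_mul h6 _ (by positivity) (Real.exp_pos _).le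
        calc w ^ 2 ≤ 2 * Real.exp w := h5
          _ ≤ Real.exp w * Real.exp w := by gcongr
    _ = Real.exp ((65536 * Q + 2) * w) := by
        rw [← Real.exp_add, ← Real.exp_add]
        congr 1
        ring

/-- smallness of the displacement up to the scale `2 * s / om` -/
lemma tech3 {z o : ℝ} (hz : 1 ≤ z) (ho : 0 < o) (hzo : z ≤ 2 / o) :
    z ^ (1 / 2 : ℝ) * (1 + Real.log z) ^ 4 * o ≤ 131072 * o ^ (1 / 4 : ℝ) := by
  have hz0 : 0 < z := lt_of_lt_of_le one_pos hz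
  have h1 := tech1 hz
  have h2 : z ^ (1 / 2 : ℝ) * z ^ (1 / 4 : ℝ) = z ^ (3 / 4 : ℝ) := by
    rw [← Real.rpow_add hz0]; norm_num
  have h3 : z ^ (3 / 4 : ℝ) ≤ (2 / o) ^ (3 / 4 : ℝ) :=
    Real.rpow_le_rpow hz0.le hzo (by norm_num)
  have h4 : (2 / o) ^ (3 / 4 : ℝ) * o ≤ 2 * o ^ (1 / 4 : ℝ) := by
    rw [Real.div_rpow (by norm_num) ho.le]
    have h5 : (2 : ℝ) ^ (3 / 4 : ℝ) ≤ 2 := by
      calc (2 : ℝ) ^ (3 / 4 : ℝ) ≤ 2 ^ (1 : ℝ) :=
            Real.rpow_le_rpow_of_exponent_le (by norm_num) (by norm_num)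
        _ = 2 := by norm_num
    have h6 : o = o ^ (3 / 4 : ℝ) * o ^ (1 / 4 : ℝ) := by
      rw [← Real.rpow_add ho]; norm_num
    have h7 : 0 < o ^ (3 / 4 : ℝ) := Real.rpow_pos_of_pos ho _
    have h8 : 0 < o ^ (1 / 4 : ℝ) := Real.rpow_pos_of_pos ho _
    calc (2 : ℝ) ^ (3 / 4 : ℝ) / o ^ (3 / 4 : ℝ) * o
        = (2 : ℝ) ^ (3 / 4 : ℝ) / o ^ (3 / 4 : ℝ) * (o ^ (3 / 4 : ℝ) * o ^ (1 / 4 : ℝ)) := by
          rw [← h6]
      _ = (2 : ℝ) ^ (3 / 4 : ℝ) * o ^ (1 / 4 : ℝ) := by field_simp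
      _ ≤ 2 * o ^ (1 / 4 : ℝ) := by gcongr
  calc z ^ (1 / 2 : ℝ) * (1 + Real.log z) ^ 4 * o
      ≤ z ^ (1 / 2 : ℝ) * (65536 * z ^ (1 / 4 : ℝ)) * o := by gcongr
    _ = 65536 * (z ^ (1 / 2 : ℝ) * z ^ (1 / 4 : ℝ)) * o := by ring
    _ = 65536 * z ^ (3 / 4 : ℝ) * o := by rw [h2]
    _ ≤ 65536 * (2 / o) ^ (3 / 4 : ℝ) * o := by gcongr
    _ = 65536 * ((2 / o) ^ (3 / 4 : ℝ) * o) := by ring
    _ ≤ 65536 * (2 * o ^ (1 / 4 : ℝ)) := by gcongr
    _ = _ := by ring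

lemma tend_rpow {o : ℕ → ℝ} (ho : Tendsto o atTop (𝓝 0)) {c : ℝ} (hc : 0 < c) :
    Tendsto (fun n => o n ^ c) atTop (𝓝 0) := by
  have := (Real.continuousAt_rpow_const 0 c (Or.inr hc.le)).tendsto.comp ho
  rw [Real.zero_rpow hc.ne'] at this
  exact this

/-! ### the arc compact -/

def Ka (m C ν : ℝ) : Set (ℂ × ℂ) :=
  {x | ‖x.1‖ ≤ C ∧ ‖x.2‖ ≤ C ∧ ν ≤ x.2.im ∧ x.1.im ≤ m * x.2.im - ν}

lemma Ka_convex (m C ν : ℝ) : Convex ℝ (Ka m C ν) := by
  intro x hx y hy α β hα hβ hαβ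
  obtain ⟨x1, x2, x3, x4⟩ := hx
  obtain ⟨y1, y2, y3, y4⟩ := hy
  have e1 : (α • x + β • y).1.im = α * x.1.im + β * y.1.im := by simp
  have e2 : (α • x + β • y).2.im = α * x.2.im + β * y.2.im := by simp
  have n1 : ‖(α • x + β • y).1‖ ≤ α * ‖x.1‖ + β * ‖y.1‖ := by
    have : (α • x + β • y).1 = α • x.1 + β • y.1 := rfl
    rw [this]
    refine (norm_add_le _ _).trans ?_
    rw [norm_smul, norm_smul, Real.norm_of_nonneg hα, Real.norm_of_nonneg hβ]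
  have n2 : ‖(α • x + β • y).2‖ ≤ α * ‖x.2‖ + β * ‖y.2‖ := by
    have : (α • x + β • y).2 = α • x.2 + β • y.2 := rfl
    rw [this]
    refine (norm_add_le _ _).trans ?_
    rw [norm_smul, norm_smul, Real.norm_of_nonneg hα, Real.norm_of_nonneg hβ]
  have hβ' : β = 1 - α := by linarith
  refine ⟨n1.trans ?_, n2.trans ?_, ?_, ?_⟩
  · subst hβ'; nlinarith
  · subst hβ'; nlinarith
  · rw [e2]; subst hβ'; nlinarith
  · rw [e1, e2]; subst hβ'; nlinarith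

lemma Ka_compact (m C ν : ℝ) : IsCompact (Ka m C ν) := by
  refine Metric.isCompact_of_isClosed_isBounded ?_ ?_
  · have h1 : Continuous (fun x : ℂ × ℂ => ‖x.1‖) := by fun_prop
    have h2 : Continuous (fun x : ℂ × ℂ => ‖x.2‖) := by fun_prop
    have h3 : Continuous (fun x : ℂ × ℂ => x.2.im) := by fun_prop
    have h4 : Continuous (fun x : ℂ × ℂ => x.1.im) := by fun_prop
    have h5 : Continuous (fun x : ℂ × ℂ => m * x.2.im - ν) := by fun_prop
    exact (isClosed_le h1 continuous_const).inter ((isClosed_le h2 continuous_const).inter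
      ((isClosed_le continuous_const h3).inter (isClosed_le h4 h5)))
  · refine (isBounded_closedBall (x := (0 : ℂ × ℂ)) (r := C)).subset ?_
    intro x hx
    rw [mem_closedBall, dist_zero_right, Prod.norm_def]
    exact max_le hx.1 hx.2.1

lemma Ka_sub {m C ν : ℝ} (hν : 0 < ν) : Ka m C ν ⊆ Wg m := fun x hx =>
  ⟨lt_of_lt_of_le hν hx.2.2.1, by linarith [hx.2.2.2]⟩

lemma z0_Ka {m C ν : ℝ} (hm : 0 ≤ m) (hC : 1 ≤ C) (hν : ν ≤ 1 / 4) : z0 ∈ Ka m C ν := by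
  have h1 : (z0).1 = -I := rfl
  have h2 : (z0).2 = I / 4 := rfl
  have h3 : (I / 4 : ℂ) = ((1 / 4 : ℝ) : ℂ) * I := by push_cast; ring
  refine ⟨?_, ?_, ?_, ?_⟩
  · rw [h1, norm_neg, Complex.norm_I]; exact hC
  · rw [h2, norm_div, Complex.norm_I]; norm_num; linarith
  · rw [h2, h3]; simp; linarith
  · rw [h1, h2, h3]; simp; linarith

lemma Ka_Half {c : ℝ × ℝ} {m C ν r : ℝ} (hν : 0 < ν) (hr : 0 < r) :
    ∀ x ∈ Ka m C ν, bl c r x ∈ Half c ((C + 1) * r) m := by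
  intro x hx
  obtain ⟨x1, x2, x3, x4⟩ := hx
  have e1 : (bl c r x).1.re - c.1 = r * x.1.re := by simp [bl]
  have e2 : (bl c r x).1.im = r * x.1.im := by simp [bl]
  have e3 : (bl c r x).2 - (c.2 : ℂ) = (r : ℂ) * x.2 := by simp [bl]
  have e4 : (bl c r x).2.im = r * x.2.im := by simp [bl]
  have a1 : |x.1.re| ≤ C := (Complex.abs_re_le_norm _).trans x1
  have a2 : |x.1.im| ≤ C := (Complex.abs_im_le_norm _).trans x1
  refine ⟨?_, ?_, ?_, ?_, ?_⟩
  · rw [e1, abs_mul, abs_of_pos hr]; nlinarith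
  · rw [e2]; nlinarith [(abs_le.1 a2).1]
  · rw [e3, norm_mul, Complex.norm_real, Real.norm_of_nonneg hr.le]; nlinarith
  · rw [e4]; exact mul_pos hr (lt_of_lt_of_le hν x3)
  · rw [e2, e4]
    have : x.1.im < m * x.2.im := by linarith
    nlinarith

/-! ### the sequences -/

section seqs

variable {u0 R d h u s₀ a g κ k : ℝ} {ψ H Ar : ℂ → ℂ} {φ p B : ℂ × ℂ → ℂ} {X L : Set (ℂ × ℂ)}
  {ρ δ : ℕ → ℝ} {U : ℕ → Set ℝ} {x s1 : ℕ → ℝ} {c : ℕ → ℝ × ℝ} {s : ℕ → ℝ}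

/-- everything known along the sequences -/
structure Sq (u0 R d h u s₀ a g κ' kc k : ℝ) (ψ H Ar : ℂ → ℂ) (φ p B : ℂ × ℂ → ℂ)
    (X L : Set (ℂ × ℂ)) (ρ δ : ℕ → ℝ) (U : ℕ → Set ℝ) (x s1 : ℕ → ℝ) (c : ℕ → ℝ × ℝ)
    (s : ℕ → ℝ) : Prop where
  D : ED u0 R d h ψ H Ar φ p B X L
  hu : u ∈ Ioo (u0 - R) (u0 + R)
  hu0 : u ≠ 0
  ha : 0 ≤ a
  hg : 0 < g
  hκ' : 0 < κ'
  hk : 0 < k
  hkk : k ≤ kc
  hρ : ∀ n, ρ n ≤ 1 / ((n : ℝ) + 1)
  hB : ∀ n, Base a g X L u s₀ (ρ n) (δ n) (U n)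
  hx : ∀ n, |x n - s₀| < min (δ n / 4) (1 / ((n : ℝ) + 1))
  hs1 : ∀ n, 0 < s1 n
  hs1' : ∀ n, s1 n ≤ min (δ n) 1 / (10 * ((n : ℝ) + 1))
  col : ∀ ε > 0, ∀ K ⊆ Wg (a + g), IsCompact K → ∀ K' ⊆ Wg a, IsCompact K' →
    ∀ᶠ n in atTop, ∀ (p' : ℝ × ℝ) (s' : ℝ),
      V (fun q s => φ (ray q s)) (φ (ray (x n, u) (s1 n))) (s1 n) (x n, u) kc p' s' →
      infDist p'.2 (U n) ≤ s' → Intr h κ' ψ B p' s' ∧
      SlowAt ε K K' ψ (fun q => φ (bl p' s' q)) (fun q => p (bl p' s' q))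
        (fun q => B (bl p' s' q))
  h1 : ∀ n, V (fun q s => φ (ray q s)) (φ (ray (x n, u) (s1 n))) (s1 n) (x n, u) (3 * k / 4)
    (c n) (s n)
  h2 : ∀ n, infDist (c n).2 (U n) ≤ s n
  h3 : ∀ n, dist (c n) (x n, u) ≤ s1 n / 2
  h4 : ∀ n, (s n / s1 n) ^ (1 / 2 : ℝ) ≤ oe 8 φ (c n) (s n)
  h5 : ∀ n (p'' : ℝ × ℝ) (s'' : ℝ),
    V (fun q s => φ (ray q s)) (φ (ray (x n, u) (s1 n))) (s1 n) (x n, u) k p'' s'' →
    rho (1 / 2) (c n) (s n) p'' s'' * oe 8 φ p'' s'' ≤ 16 * oe 8 φ (c n) (s n)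

variable {κ' kc : ℝ} (S : Sq u0 R d h u s₀ a g κ' kc k ψ H Ar φ p B X L ρ δ U x s1 c s)

include S

lemma Sq.s_pos (n : ℕ) : 0 < s n := (S.h1 n).1

lemma Sq.s_le (n : ℕ) : s n ≤ s1 n := (S.h1 n).2.1

lemma Sq.δ_pos (n : ℕ) : 0 < δ n := (S.hB n).δ_pos

lemma Sq.s1_δ (n : ℕ) : s1 n ≤ δ n / (10 * ((n : ℝ) + 1)) := by
  refine (S.hs1' n).trans ?_
  gcongr
  exact min_le_left _ _

lemma Sq.s1_δ' (n : ℕ) : 10 * s1 n ≤ δ n := by
  have h1 := S.s1_δ n
  have h2 := S.δ_pos n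
  have h3 : δ n / (10 * ((n : ℝ) + 1)) ≤ δ n / 10 := by
    apply div_le_div_of_nonneg_left h2.le (by norm_num)
    have : (0 : ℝ) ≤ n := Nat.cast_nonneg n
    linarith
  linarith

lemma Sq.s1_one (n : ℕ) : s1 n ≤ 1 / ((n : ℝ) + 1) := by
  refine (S.hs1' n).trans ?_
  have h1 : min (δ n) 1 ≤ 1 := min_le_right _ _
  have h2 : (0 : ℝ) < (n : ℝ) + 1 := by positivity
  rw [div_le_div_iff₀ (by positivity) h2]
  nlinarith

lemma Sq.om_pos (n : ℕ) : 0 < oe 8 φ (c n) (s n) := by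
  refine lt_of_lt_of_le ?_ (S.h4 n)
  exact Real.rpow_pos_of_pos (div_pos (S.s_pos n) (S.hs1 n)) _

lemma Sq.om_le (n : ℕ) : oe 8 φ (c n) (s n) ≤ 1 := SlowE.oe_le_one _ _ _ _

lemma Sq.ratio (n : ℕ) : s n / oe 8 φ (c n) (s n) ≤ s1 n * oe 8 φ (c n) (s n) := by
  have h1 := S.h4 n
  have h2 := S.om_pos n
  have h3 := S.hs1 n
  have h0 : 0 ≤ s n / s1 n := (div_pos (S.s_pos n) h3).le
  have h4 : s n / s1 n ≤ oe 8 φ (c n) (s n) ^ 2 := by
    have h5 : ((s n / s1 n) ^ (1 / 2 : ℝ)) ^ 2 ≤ oe 8 φ (c n) (s n) ^ 2 :=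
      pow_le_pow_left₀ (Real.rpow_nonneg h0 _) h1 2
    have h6 : ((s n / s1 n) ^ (1 / 2 : ℝ)) ^ 2 = s n / s1 n := by
      rw [← Real.rpow_natCast, ← Real.rpow_mul h0]
      norm_num
    rwa [h6] at h5
  rw [div_le_iff₀ h2]
  rw [div_le_iff₀ h3] at h4
  nlinarith

lemma Sq.e2 (n : ℕ) {w : ℝ} (hw : w ∈ U n) {z : ℝ} (hz : |z - x n| ≤ s1 n) :
    E2 X L a g (ρ n) (δ n) (z, w) := by
  refine (S.hB n).e2 w hw z ?_
  have h1 := lt_of_lt_of_le (S.hx n) (min_le_left _ _)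
  have h2 := S.s1_δ' n
  have h3 := S.δ_pos n
  calc |z - s₀| = |(z - x n) + (x n - s₀)| := by ring_nf
    _ ≤ |z - x n| + |x n - s₀| := abs_add_le _ _
    _ < δ n := by linarith

lemma Sq.kd_diff (n : ℕ) {p' : ℝ × ℝ} {s' : ℝ} (hs' : 0 < s') (h1 : s' ≤ s1 n)
    (h2 : dist p' (x n, u) ≤ s1 n) : DifferentiableOn ℂ φ (KD 8 p'.1 p'.2 s') := by
  have hE := S.e2 n (S.hB n).mem (z := x n) (by simpa using (S.hs1 n).le)
  refine S.D.φ_diff.mono (SlowJ486.KD_sub hE S.ha S.hg le_rfl hs' h1 h2 ?_)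
  have h3 := S.s1_δ' n
  have h4 := S.hs1 n
  linarith

/-- slow windows have small oscillation -/
lemma Sq.small {ε : ℝ} (hε : 0 < ε) : ∀ᶠ n in atTop, ∀ (p' : ℝ × ℝ) (s' : ℝ),
    V (fun q s => φ (ray q s)) (φ (ray (x n, u) (s1 n))) (s1 n) (x n, u) kc p' s' →
    infDist p'.2 (U n) ≤ s' → oe 8 φ p' s' ≤ ε := by
  have h8 : (8 : ℝ) ≤ 8 := le_rfl
  have hm : 0 < min (1 / 2) (ε / 2) := lt_min (by norm_num) (by linarith)
  have hkd : kd 8 ⊆ Wg (a + g) := SlowS.kd_sub_Wg h8 (by linarith [S.ha, S.hg])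
  filter_upwards [S.col (min (1 / 2) (ε / 2)) hm (kd 8) hkd (SlowS.isCompact_kd h8) ∅
    (empty_subset _) isCompact_empty] with n hn p' s' hV hU
  have h1 := (hn p' s' hV hU).2
  have h2 := SlowS.slow_osc h8 (min_le_left _ _) Subset.rfl hV.1
    (S.kd_diff n hV.1 hV.2.1 hV.2.2.1).continuousOn h1
  have h3 : min (1 / 2) (ε / 2) ≤ ε / 2 := min_le_right _ _
  linarith

lemma Sq.Vup (n : ℕ) {t : ℝ} (h1 : s n ≤ t) (h2 : t ≤ s1 n) :
    V (fun q s => φ (ray q s)) (φ (ray (x n, u) (s1 n))) (s1 n) (x n, u) kc (c n) t :=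
  Chain859.V_up (S.h1 n) (by linarith [S.hk, S.hkk]) h1 h2

lemma Sq.om_tendsto : Tendsto (fun n => oe 8 φ (c n) (s n)) atTop (𝓝 0) := by
  rw [Metric.tendsto_atTop]
  intro ε hε
  obtain ⟨N, hN⟩ := eventually_atTop.1 (S.small (ε := ε / 2) (by linarith))
  refine ⟨N, fun n hn => ?_⟩
  have h1 := hN n hn (c n) (s n) (S.Vup n le_rfl (S.s_le n)) (S.h2 n)
  rw [Real.dist_eq, sub_zero, abs_of_pos (S.om_pos n)]
  linarith

lemma Sq.r_le (n : ℕ) : s n / oe 8 φ (c n) (s n) ≤ s1 n := by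
  refine (S.ratio n).trans ?_
  have := S.om_le n
  have h1 := S.hs1 n
  nlinarith

lemma Sq.le_r (n : ℕ) : s n ≤ s n / oe 8 φ (c n) (s n) := by
  rw [le_div_iff₀ (S.om_pos n)]
  have := S.om_le n
  have h1 := S.s_pos n
  nlinarith

/-- the good base next to the record window -/
lemma Sq.exists_e (n : ℕ) : ∃ w ∈ U n, |w - (c n).2| ≤ s n := by
  obtain ⟨w, hw, h1⟩ := (S.hB n).closed.exists_infDist_eq_dist ⟨u, (S.hB n).mem⟩ (c n).2
  refine ⟨w, hw, ?_⟩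
  have h2 := S.h2 n
  rw [h1, Real.dist_eq, abs_sub_comm] at h2
  exact h2

lemma Sq.c1 (n : ℕ) : |(c n).1 - x n| ≤ s1 n := by
  have h1 := S.h3 n
  rw [Prod.dist_eq, Real.dist_eq, Real.dist_eq] at h1
  have h2 := (le_max_left _ _).trans h1
  have := S.hs1 n
  simp only at h2
  linarith

lemma Sq.c2 (n : ℕ) : |(c n).2 - u| ≤ s1 n := by
  have h1 := S.h3 n
  rw [Prod.dist_eq, Real.dist_eq, Real.dist_eq] at h1
  have h2 := (le_max_right _ _).trans h1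
  have := S.hs1 n
  simp only at h2
  linarith

/-- the line near the record window -/
lemma Sq.hdiff (C : ℝ) : ∀ᶠ n in atTop, DifferentiableOn ℂ φ
    (Half (c n) (C * (s n / oe 8 φ (c n) (s n))) (a + g)) := by
  have h1 : ∀ᶠ n in atTop, |C| * oe 8 φ (c n) (s n) < 1 := by
    have := S.om_tendsto.const_mul |C|
    rw [mul_zero] at this
    exact this.eventually_lt_const one_pos
  filter_upwards [h1] with n hn
  obtain ⟨w, hw, hw2⟩ := S.exists_e n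
  have hE := S.e2 n hw (S.c1 n)
  refine S.D.φ_diff.mono (Subset.trans ?_ hE.line)
  have hs1 := S.hs1 n
  have hr := S.ratio n
  have hr0 : 0 < s n / oe 8 φ (c n) (s n) := div_pos (S.s_pos n) (S.om_pos n)
  have h2 : C * (s n / oe 8 φ (c n) (s n)) ≤ s1 n := by
    calc C * (s n / oe 8 φ (c n) (s n)) ≤ |C| * (s n / oe 8 φ (c n) (s n)) := by
          gcongr; exact le_abs_self C
      _ ≤ |C| * (s1 n * oe 8 φ (c n) (s n)) := by gcongr
      _ = (|C| * oe 8 φ (c n) (s n)) * s1 n := by ring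
      _ ≤ 1 * s1 n := by gcongr
      _ = s1 n := one_mul _
  have h3 := S.s1_δ' n
  have h4 := S.s_le n
  rintro q ⟨q1, q2, q3, q4, q5⟩
  refine ⟨by simp only; linarith, by linarith, ?_, q4, q5⟩
  have e : q.2 - (w : ℂ) = (q.2 - ((c n).2 : ℂ)) - ((w - (c n).2 : ℝ) : ℂ) := by push_cast; ring
  simp only
  rw [e]
  refine lt_of_le_of_lt (norm_sub_le _ _) ?_
  rw [Complex.norm_real, Real.norm_eq_abs]
  linarith

/-- the arc -/
lemma Sq.harc : HArc (a + g) (1 / 2) φ c s (fun n => s n / oe 8 φ (c n) (s n))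
    (fun n => oe 8 φ (c n) (s n)) := by
  intro ν hν C hC
  set ν' : ℝ := min ν (1 / 4) with hν'
  have hν'0 : 0 < ν' := lt_min hν (by norm_num)
  have hν'1 : ν' ≤ ν := min_le_left _ _
  have hν'2 : ν' ≤ 1 / 4 := min_le_right _ _
  have ham : 0 ≤ a + g := by linarith [S.ha, S.hg]
  set W : ℝ := 1 + 2 * k with hW
  have hW1 : 1 ≤ W := by rw [hW]; linarith [S.hk]
  have hW0 : 0 < W := by linarith
  refine ⟨fun n => 4 * (W / oe 8 φ (c n) (s n)) ^ (1 / 4 : ℝ), fun n => ?_, ?_, ?_⟩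
  · have := S.om_pos n
    positivity
  · have h1 : ∀ n, 4 * (W / oe 8 φ (c n) (s n)) ^ (1 / 4 : ℝ) *
        (s n / (s n / oe 8 φ (c n) (s n))) ^ (1 / 2 : ℝ) =
        4 * W ^ (1 / 4 : ℝ) * (oe 8 φ (c n) (s n)) ^ (1 / 4 : ℝ) := by
      intro n
      have ho := S.om_pos n
      have hs := S.s_pos n
      have e1 : s n / (s n / oe 8 φ (c n) (s n)) = oe 8 φ (c n) (s n) := by field_simp
      rw [e1, Real.div_rpow hW0.le ho.le]
      have e2 : (oe 8 φ (c n) (s n)) ^ (1 / 2 : ℝ) =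
          (oe 8 φ (c n) (s n)) ^ (1 / 4 : ℝ) * (oe 8 φ (c n) (s n)) ^ (1 / 4 : ℝ) := by
        rw [← Real.rpow_add ho]; norm_num
      rw [e2]
      have h7 : 0 < (oe 8 φ (c n) (s n)) ^ (1 / 4 : ℝ) := Real.rpow_pos_of_pos ho _
      field_simp
    simp only [h1]
    have := (tend_rpow S.om_tendsto (c := 1 / 4) (by norm_num)).const_mul (4 * W ^ (1 / 4 : ℝ))
    rwa [mul_zero] at this
  · filter_upwards [S.col (1 / 2) (by norm_num) (Ka (a + g) C ν') (Ka_sub hν'0) (Ka_compact _ _ _)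
      ∅ (empty_subset _) isCompact_empty, S.hdiff (C + 1)] with n hn hd q q1 q2 q3 q4
    set r : ℝ := s n / oe 8 φ (c n) (s n) with hr
    have hs := S.s_pos n
    have ho := S.om_pos n
    have hr0 : 0 < r := div_pos hs ho
    have h1 := (hn (c n) r (S.Vup n (S.le_r n) (S.r_le n)) ((S.h2 n).trans (S.le_r n))).2
    have hbl : Continuous (bl (c n) r) := by unfold bl; fun_prop
    have hcont : ContinuousOn (fun q => φ (bl (c n) r q)) (Ka (a + g) C ν') :=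
      hd.continuousOn.comp hbl.continuousOn (Ka_Half hν'0 hr0)
    obtain ⟨m, hm⟩ := SlowS.branch (Ka_convex (a + g) C ν').isPreconnected
      (f := fun q => φ (bl (c n) r q) - ψ (B (bl (c n) r z0)))
      (hcont.sub continuousOn_const) le_rfl (fun q hq => (h1.1 q hq).1)
    obtain ⟨y, hy⟩ := SlowS.exists_bl hr0 (p := c n) q
    have hy1 : y ∈ Ka (a + g) C ν' := by
      have e1 : (bl (c n) r y).1 - ((c n).1 : ℂ) = (r : ℂ) * y.1 := by simp [bl]
      have e2 : (bl (c n) r y).2 - ((c n).2 : ℂ) = (r : ℂ) * y.2 := by simp [bl]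
      have e3 : (bl (c n) r y).1.im = r * y.1.im := by simp [bl]
      have e4 : (bl (c n) r y).2.im = r * y.2.im := by simp [bl]
      rw [← hy, e1, norm_mul, Complex.norm_real, Real.norm_of_nonneg hr0.le] at q1
      rw [← hy, e2, norm_mul, Complex.norm_real, Real.norm_of_nonneg hr0.le] at q2
      rw [← hy, e4] at q3
      rw [← hy, e3, e4] at q4
      refine ⟨?_, ?_, ?_, ?_⟩
      · by_contra hc; push Not at hc; nlinarith
      · by_contra hc; push Not at hc; nlinarith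
      · by_contra hc; push Not at hc; nlinarith
      · by_contra hc; push Not at hc; nlinarith
    have h6 := hm y hy1
    have h7 := hm z0 (z0_Ka ham hC hν'2)
    have hray : bl (c n) r z0 = ray (c n) r := rfl
    simp only [hy] at h6
    simp only [hray] at h6 h7
    have h8 : ‖φ q - φ (ray (c n) r)‖ ≤ 1 := by
      calc ‖φ q - φ (ray (c n) r)‖ = ‖(φ q - ψ (B (ray (c n) r)) - m * Real.pi) -
            (φ (ray (c n) r) - ψ (B (ray (c n) r)) - m * Real.pi)‖ := by congr 1; ring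
        _ ≤ 1 / 2 + 1 / 2 := (norm_sub_le _ _).trans (add_le_add h6 h7)
        _ = 1 := by norm_num
    have h9 := (S.h1 n).2.2.2 r (S.le_r n) (S.r_le n)
    have h10 := (S.h1 n).2.2.2 (s n) le_rfl (S.s_le n)
    simp only at h9 h10
    have h11 : ‖φ q - φ (ray (c n) (s n))‖ ≤ W := by
      calc ‖φ q - φ (ray (c n) (s n))‖ = ‖(φ q - φ (ray (c n) r)) +
            (φ (ray (c n) r) - φ (ray (x n, u) (s1 n))) -
            (φ (ray (c n) (s n)) - φ (ray (x n, u) (s1 n)))‖ := by congr 1; ring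
        _ ≤ ‖φ q - φ (ray (c n) r)‖ + ‖φ (ray (c n) r) - φ (ray (x n, u) (s1 n))‖ +
            ‖φ (ray (c n) (s n)) - φ (ray (x n, u) (s1 n))‖ :=
            (norm_sub_le _ _).trans (add_le_add (norm_add_le _ _) le_rfl)
        _ ≤ W := by rw [hW]; linarith [S.hk]
    refine h11.trans ?_
    set z : ℝ := W / oe 8 φ (c n) (s n) with hz
    have hz0 : 0 < z := div_pos hW0 ho
    have h12 : z ≤ Real.exp (4 * z ^ (1 / 4 : ℝ)) := by
      have h13 : Real.log z = 4 * Real.log (z ^ (1 / 4 : ℝ)) := by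
        rw [Real.log_rpow hz0]; ring
      have h14 := Real.log_le_sub_one_of_pos (Real.rpow_pos_of_pos hz0 (1 / 4 : ℝ))
      calc z = Real.exp (Real.log z) := (Real.exp_log hz0).symm
        _ ≤ _ := Real.exp_le_exp.2 (by rw [h13]; linarith)
    calc W = oe 8 φ (c n) (s n) * z := by rw [hz]; field_simp
      _ ≤ oe 8 φ (c n) (s n) * Real.exp (4 * z ^ (1 / 4 : ℝ)) := by gcongr

set_option maxHeartbeats 1000000 in
/-- the side -/
lemma Sq.hside : HSide (1 / 2) (1 / 2) φ c s (fun n => s n / oe 8 φ (c n) (s n))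
    (fun n => oe 8 φ (c n) (s n)) := by
  intro ν hν C hC
  have hC0 : 0 < C := by linarith
  obtain ⟨M, hM, HK⟩ := SideK201.sideK (E := ℂ) (th := 1 / 2) (Cl := 16) (A := 16) (by norm_num)
    (by norm_num) (by norm_num)
  set Q : ℝ := M * C ^ (1 / 2 : ℝ) * (C / ν) ^ 2 with hQ
  have hCh : 0 < C ^ (1 / 2 : ℝ) := Real.rpow_pos_of_pos hC0 _
  have hQ0 : 0 < Q := by rw [hQ]; positivity
  refine ⟨65536 * Q + 2, by positivity, fun y hy => ?_⟩
  have hy0 : 0 < y := lt_of_lt_of_le one_pos hy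
  have hk := S.hk
  set ε : ℝ := min (1 / 2) (k / 128) with hε
  have hε0 : 0 < ε := lt_min (by norm_num) (by linarith)
  have hε1 : ε ≤ 1 / 2 := min_le_left _ _
  have hε2 : ε ≤ k / 128 := min_le_right _ _
  set μ : ℝ := min (k / 8) (1 / 2) with hμ
  have hμ0 : 0 < μ := lt_min (by linarith) (by norm_num)
  have ev1 : ∀ᶠ n in atTop, Q * 131072 * (oe 8 φ (c n) (s n)) ^ (1 / 4 : ℝ) < μ := by
    have := (tend_rpow S.om_tendsto (c := 1 / 4) (by norm_num)).const_mul (Q * 131072)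
    rw [mul_zero] at this
    exact this.eventually_lt_const hμ0
  have ev2 : ∀ᶠ n in atTop, 4 * C * oe 8 φ (c n) (s n) < 1 := by
    have := S.om_tendsto.const_mul (4 * C)
    rw [mul_zero] at this
    exact this.eventually_lt_const one_pos
  filter_upwards [ev1, ev2, S.small hε0] with n hn1 hn2 hn3 T hT1 hT2 x' v' s' g1 g2 g3 g4
  have hs := S.s_pos n
  have ho := S.om_pos n
  have ho1 := S.om_le n
  have hs1 := S.hs1 n
  set o : ℝ := oe 8 φ (c n) (s n) with ho'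
  have hT0 : 0 < T := lt_of_lt_of_le (by positivity) hT1
  have hys : 0 < y * s n := by positivity
  set t : ℝ := T / (y * s n) with ht
  have ht1 : 1 ≤ t := by rw [ht, one_le_div hys]; exact hT1
  have ht0 : 0 < t := by linarith
  have hl1 : 1 ≤ 1 + Real.log t := by linarith [Real.log_nonneg ht1]
  have hl0 : 0 < 1 + Real.log t := by linarith
  have hsT : s n ≤ T := by nlinarith
  have hs'0 : 0 < s' := lt_of_lt_of_le (by positivity) g3
  -- the scale `R = C T`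
  have hRs : s n ≤ C * T := by nlinarith
  have hR1 : 2 * (C * T) ≤ s1 n := by
    have h1 := S.ratio n
    rw [← ho'] at h1
    have h2 : 2 * (C * T) ≤ 4 * C * (s n / o) := by nlinarith
    calc 2 * (C * T) ≤ 4 * C * (s n / o) := h2
      _ ≤ 4 * C * (s1 n * o) := by gcongr
      _ = (4 * C * o) * s1 n := by ring
      _ ≤ 1 * s1 n := by gcongr
      _ = s1 n := one_mul _
  have hdist : dist (c n) (x', v') ≤ C * T := by
    rw [Prod.dist_eq, Real.dist_eq, Real.dist_eq]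
    refine max_le ?_ ?_
    · rw [abs_sub_comm]; exact g1
    · rw [abs_sub_comm]; exact g2
  -- the displacement
  have hdisp : M * (C * T / s n) ^ (1 / 2 : ℝ) * (C * T / s') ^ 2 * o ≤
      Q * (y ^ (1 / 2 : ℝ) * (t ^ (1 / 2 : ℝ) * (1 + Real.log t) ^ 4)) * o := by
    have e1 : C * T / s n = C * (y * t) := by rw [ht]; field_simp
    have e2 : (C * T / s n) ^ (1 / 2 : ℝ) = C ^ (1 / 2 : ℝ) * (y ^ (1 / 2 : ℝ) * t ^ (1 / 2 : ℝ)) := by
      rw [e1, Real.mul_rpow hC0.le (by positivity), Real.mul_rpow hy0.le ht0.le]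
    have e3 : C * T / s' ≤ C / ν * (1 + Real.log t) ^ 2 := by
      rw [div_le_iff₀ hs'0]
      have h1 : ν * T ≤ s' * (1 + Real.log t) ^ 2 := by
        rwa [div_le_iff₀ (by positivity)] at g3
      have h2 : C * T = C / ν * (ν * T) := by field_simp
      rw [h2]
      calc C / ν * (ν * T) ≤ C / ν * (s' * (1 + Real.log t) ^ 2) := by gcongr
        _ = _ := by ring
    have e4 : (C * T / s') ^ 2 ≤ (C / ν) ^ 2 * (1 + Real.log t) ^ 4 := by
      calc (C * T / s') ^ 2 ≤ (C / ν * (1 + Real.log t) ^ 2) ^ 2 := by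
            apply pow_le_pow_left₀ (by positivity) e3
        _ = _ := by ring
    rw [e2]
    calc M * (C ^ (1 / 2 : ℝ) * (y ^ (1 / 2 : ℝ) * t ^ (1 / 2 : ℝ))) * (C * T / s') ^ 2 * o
        ≤ M * (C ^ (1 / 2 : ℝ) * (y ^ (1 / 2 : ℝ) * t ^ (1 / 2 : ℝ))) *
          ((C / ν) ^ 2 * (1 + Real.log t) ^ 4) * o := by gcongr
      _ = _ := by rw [hQ]; ring
  -- smallness
  have hsmall : M * (C * T / s n) ^ (1 / 2 : ℝ) * (C * T / s') ^ 2 * o ≤ μ := by
    refine hdisp.trans ?_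
    set z : ℝ := T / s n with hz
    have hz1 : 1 ≤ z := by rw [hz, one_le_div hs]; exact hsT
    have hzt : z = y * t := by rw [hz, ht]; field_simp
    have htz : t ≤ z := by rw [hzt]; nlinarith
    have hz2 : z ≤ 2 / o := by
      rw [hz, div_le_div_iff₀ hs ho]
      have h1 : T ≤ 2 * (s n / o) := hT2
      have h2 : T * o ≤ 2 * (s n / o) * o := by gcongr
      have h3 : 2 * (s n / o) * o = 2 * s n := by field_simp
      linarith
    have h4 : y ^ (1 / 2 : ℝ) * (t ^ (1 / 2 : ℝ) * (1 + Real.log t) ^ 4) ≤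
        z ^ (1 / 2 : ℝ) * (1 + Real.log z) ^ 4 := by
      rw [← mul_assoc, ← Real.mul_rpow hy0.le ht0.le, ← hzt]
      have h5 : Real.log t ≤ Real.log z := Real.log_le_log ht0 htz
      gcongr
    have h6 := tech3 hz1 ho hz2
    calc Q * (y ^ (1 / 2 : ℝ) * (t ^ (1 / 2 : ℝ) * (1 + Real.log t) ^ 4)) * o
        ≤ Q * (z ^ (1 / 2 : ℝ) * (1 + Real.log z) ^ 4) * o := by gcongr
      _ = Q * (z ^ (1 / 2 : ℝ) * (1 + Real.log z) ^ 4 * o) := by ring
      _ ≤ Q * (131072 * o ^ (1 / 4 : ℝ)) := by gcongr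
      _ = Q * 131072 * o ^ (1 / 4 : ℝ) := by ring
      _ ≤ μ := hn1.le
  have key := HK (fun q t => oe 8 φ q t) (fun q t => φ (ray q t)) (φ (ray (x n, u) (s1 n))) k ε
    (s1 n) (x n, u) (c n) (s n) (fun q t => SlowE.oe_nonneg _ _ _ _)
    (fun q t t' hV h1 h2 h3 => by
      have h4 := SlowE.hvert le_rfl hV.1 h1 h2 h3
      have h5 := SlowE.oe_nonneg 8 φ q t
      linarith)
    (fun q q' t hV h1 h2 => SlowE.hlat le_rfl hV.1 (S.kd_diff n hV.1 hV.2.1 hV.2.2.1) h1 h2)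
    hk.le (S.h1 n) (S.h3 n)
    (fun t h1 h2 => hn3 (c n) t (S.Vup n h1 h2) ((S.h2 n).trans h1))
    (by linarith) (by linarith) (fun q t hV => S.h5 n q t hV) (C * T) (x', v') s' hRs hR1 hdist
    hs'0 g4 (hsmall.trans (min_le_left _ _)) (hsmall.trans (min_le_right _ _))
  refine key.2.trans (hdisp.trans ?_)
  have h9 := tech2 hQ0.le ht1
  calc Q * (y ^ (1 / 2 : ℝ) * (t ^ (1 / 2 : ℝ) * (1 + Real.log t) ^ 4)) * o
      = o * y ^ (1 / 2 : ℝ) * (Q * (t ^ (1 / 2 : ℝ) * (1 + Real.log t) ^ 4)) := by ring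
    _ ≤ o * y ^ (1 / 2 : ℝ) * Real.exp ((65536 * Q + 2) * t ^ (1 / 2 : ℝ)) := by gcongr

/-- **the contradiction along the sequences** -/
theorem Sq.absurd (SW : SlowWorld) : False := by
  choose w hw hw2 using S.exists_e
  have hinv : Tendsto (fun n : ℕ => 1 / ((n : ℝ) + 1)) atTop (𝓝 0) :=
    tendsto_one_div_add_atTop_nhds_zero_nat
  have hs10 : Tendsto s1 atTop (𝓝 0) :=
    squeeze_zero (fun n => (S.hs1 n).le) (fun n => S.s1_one n) hinv
  have hs0 : Tendsto s atTop (𝓝 0) :=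
    squeeze_zero (fun n => (S.s_pos n).le) (fun n => S.s_le n) hs10
  have hx0 : Tendsto (fun n => |x n - s₀|) atTop (𝓝 0) :=
    squeeze_zero (fun n => abs_nonneg _)
      (fun n => ((S.hx n).le.trans (min_le_right _ _))) hinv
  have hc1 : Tendsto (fun n => (c n).1) atTop (𝓝 s₀) := by
    rw [tendsto_iff_norm_sub_tendsto_zero]
    refine squeeze_zero (fun n => norm_nonneg _) (g := fun n => s1 n + |x n - s₀|) (fun n => ?_)
      (by simpa using hs10.add hx0)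
    rw [Real.norm_eq_abs]
    calc |(c n).1 - s₀| = |((c n).1 - x n) + (x n - s₀)| := by ring_nf
      _ ≤ |(c n).1 - x n| + |x n - s₀| := abs_add_le _ _
      _ ≤ s1 n + |x n - s₀| := by linarith [S.c1 n]
  have hw0 : Tendsto w atTop (𝓝 u) := by
    rw [tendsto_iff_norm_sub_tendsto_zero]
    refine squeeze_zero (fun n => norm_nonneg _) (g := fun n => s n + s1 n) (fun n => ?_)
      (by simpa using hs0.add hs10)
    rw [Real.norm_eq_abs]
    calc |w n - u| = |(w n - (c n).2) + ((c n).2 - u)| := by ring_nf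
      _ ≤ |w n - (c n).2| + |(c n).2 - u| := abs_add_le _ _
      _ ≤ s n + s1 n := by linarith [S.c2 n, hw2 n]
  have hsδ : Tendsto (fun n => s n / δ n) atTop (𝓝 0) := by
    refine squeeze_zero (fun n => (div_pos (S.s_pos n) (S.δ_pos n)).le) (fun n => ?_) hinv
    rw [div_le_iff₀ (S.δ_pos n)]
    have h1 := S.s1_δ n
    have h2 := S.s_le n
    have h3 := S.δ_pos n
    have h4 : δ n / (10 * ((n : ℝ) + 1)) ≤ 1 / ((n : ℝ) + 1) * δ n := by
      rw [div_mul_eq_mul_div, one_mul]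
      apply div_le_div_of_nonneg_left h3.le (by positivity)
      have : (0 : ℝ) ≤ n := Nat.cast_nonneg n
      linarith
    linarith
  have hsr : Tendsto (fun n => s n / (s n / oe 8 φ (c n) (s n))) atTop (𝓝 0) := by
    have e : (fun n => s n / (s n / oe 8 φ (c n) (s n))) = fun n => oe 8 φ (c n) (s n) := by
      funext n
      have h1 := S.s_pos n
      have h2 := S.om_pos n
      field_simp
    rw [e]
    exact S.om_tendsto
  refine NoRecX985.norec_oe SW S.D S.hu S.hu0 S.ha S.hg S.hκ' (c := c)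
    (e := fun n => ((c n).1, w n)) (s := s) (ρ := ρ) (η := δ) (hc1.prodMk_nhds hw0) S.s_pos hs0
    (fun n => (S.hB n).ρ_pos)
    (squeeze_zero (fun n => (S.hB n).ρ_pos.le) S.hρ hinv) S.δ_pos hsδ
    (fun n => S.e2 n (hw n) (S.c1 n)) (fun n => rfl) hw2 ?_ ?_ (AK := 8) le_rfl S.om_pos
    (g' := g) S.hg le_rfl (th := 1 / 2) (by norm_num) (by norm_num) ?_
  · filter_upwards [S.col 1 one_pos ∅ (empty_subset _) isCompact_empty ∅ (empty_subset _)
      isCompact_empty] with n hn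
    exact (hn (c n) (s n) (S.Vup n le_rfl (S.s_le n)) (S.h2 n)).1
  · intro ε hε K hK hKc K' hK' hKc'
    filter_upwards [S.col ε hε K hK hKc K' hK' hKc'] with n hn
    exact (hn (c n) (s n) (S.Vup n le_rfl (S.s_le n)) (S.h2 n)).2
  · exact LocGrow115.grow_rec S.ha S.hg le_rfl (by norm_num) (by norm_num) (by norm_num) S.s_pos
      (fun n => div_pos (S.s_pos n) (S.om_pos n)) S.om_pos hsr S.hdiff S.hside S.harc

end seqs

/-- **`NoRecP`** -/
theorem noRecP_of (hC : ColPhi) (SW : SlowWorld) : NoRecP := by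
  intro u0 R d h ψ H Ar φ p B X L D u s₀ a g hu hu0 ha hg hR
  refine ⟨8, le_rfl, fun κ hκ => ?_⟩
  obtain ⟨kc, hkc, κ', hκ', hcol⟩ := SlowJ486.col_seq hC D hu hu0 ha hg hR hκ
  refine ⟨kc, hkc, fun k hk hkk => ?_⟩
  refine hcol _ (fun n ρ δ U => min (δ / 4) (1 / ((n : ℝ) + 1)))
    (fun n ρ δ U hρ hδ => lt_min (by linarith) (by positivity))
    (fun n ρ δ U x σ => min δ 1 / (10 * ((n : ℝ) + 1)))
    (fun n ρ δ U x σ hρ hδ hσ => div_pos (lt_min hδ one_pos) (by positivity)) ?_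
  intro ρ δ U x σ s1 a1 a2 a3 a4 a5 a6 a7 a8 a9
  have a10 : ∀ n, ∃ (p' : ℝ × ℝ) (s' : ℝ),
      V (fun q s => φ (ray q s)) (φ (ray (x n, u) (s1 n))) (s1 n) (x n, u) (3 * k / 4) p' s' ∧
      infDist p'.2 (U n) ≤ s' ∧ dist p' (x n, u) ≤ s1 n / 2 ∧
      (s' / s1 n) ^ (1 / 2 : ℝ) ≤ oe 8 φ p' s' ∧ ∀ (p'' : ℝ × ℝ) (s'' : ℝ),
        V (fun q s => φ (ray q s)) (φ (ray (x n, u) (s1 n))) (s1 n) (x n, u) k p'' s'' →
        rho (1 / 2) p' s' p'' s'' * oe 8 φ p'' s'' ≤ 16 * oe 8 φ p' s' := by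
    intro n
    have := a9 n
    push Not at this
    exact this
  choose c s b1 b2 b3 b4 b5 using a10
  exact Sq.absurd (κ' := κ') (kc := kc) (k := k) (h := h) ⟨D, hu, hu0, ha, hg, hκ', hk, hkk, a1,
    a2, a3, a6, a7, a8, b1, b2, b3, b4, b5⟩ SW

end Crest.Agent.R102.NoRecF115
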