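import Crest.Agent.R102.NoRec_314
import Crest.Agent.R102.HSide_201
import Crest.Agent.R102.HArc_362

/-!
Row 102, T1-B, EDGE / SLOW (helper314): **`SlowJ486.NoRecP`** (no hypotheses).
-/

set_option autoImplicit false

open Set Filter Topology Metric MeasureTheory Complex

noncomputable section

namespace Crest.Agent.R102.NoRec314

open Crest.Agent.R102.Sup115 (E2)
open Crest.Agent.R102.S5 (ray bl Half Cn)
open Crest.Agent.R102.TreeS174 (KD)
open Crest.Agent.R102.Edge255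
open Crest.Agent.R102.SlowE (oe)
open Crest.Agent.R102.SlowS (kd)
open Crest.Agent.R102.Chain859 (V rho V_up)
open Crest.Agent.R102.SlowJ486
open Crest.Agent.R102.LocGrow115 (HSide HArc)

variable {a g k kc h κ' : ℝ} {ψ : ℂ → ℂ} {φ p B : ℂ × ℂ → ℂ} {X L : Set (ℂ × ℂ)} {u s₀ : ℝ}
  {ρ δ : ℕ → ℝ} {U : ℕ → Set ℝ} {x s1 : ℕ → ℝ} {c : ℕ → ℝ × ℝ} {s : ℕ → ℝ}

/-- the side bound (201) -/
theorem cnt_side (Z : Cnt a g k kc h κ' ψ φ p B X L u s₀ ρ δ U x s1 c s)
    (hL : DifferentiableOn ℂ φ L) (ha : 0 ≤ a) (hg : 0 < g) (hk : 0 < k) (hkk : k ≤ kc) :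
    HSide (1 / 2) (1 / 2) φ c s (Cnt.rs φ c s) (fun n => oe 8 φ (c n) (s n)) := by
  set ε : ℝ := min (k / 128) (1 / 2) with hε
  have hε0 : 0 < ε := by positivity
  have h1 : 128 * ε ≤ k := by
    have : ε ≤ k / 128 := min_le_left _ _
    linarith
  have h2 : ε < 1 := (min_le_right _ _).trans_lt (by norm_num)
  refine HSide201.hside_rec (AK := 8) (k := k) (ε := ε) le_rfl hk h1 h2
    (p0 := fun n => (x n, u)) (b0 := fun n => φ (ray (x n, u) (s1 n))) (s1 := s1) Z.s_pos Z.s1_pos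
    (fun n => rfl) Z.om_pos (Z.om_zero ha hg hL hk hkk) (fun n => ?_) Z.oe_ge
    (Eventually.of_forall Z.V34) (Eventually.of_forall Z.dist_le)
    (Z.anc_oe ha hg hL hk hkk hε0) (Eventually.of_forall fun n p' s' hV => ?_)
    (Eventually.of_forall fun n p' s' hV => Z.rcd n p' s' hV)
  · rw [Cnt.rs_def]
    norm_num
  · exact hL.mono (Z.hol ha hg hV.1 hV.2.1 hV.2.2.1)

/-- the arc bound (362) -/
theorem cnt_arc (Z : Cnt a g k kc h κ' ψ φ p B X L u s₀ ρ δ U x s1 c s)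
    (hL : DifferentiableOn ℂ φ L) (ha : 0 ≤ a) (hg : 0 < g) (hk : 0 < k) (hkk : k ≤ kc) :
    HArc (a + g) (1 / 2) φ c s (Cnt.rs φ c s) (fun n => oe 8 φ (c n) (s n)) := by
  have hr1 := Z.rs_small ha hg hL hk hkk 1
  refine HArc362.harc' (P := p) (B := B) (ψ := ψ) (β := 4 / 3) (k := 2 * k) ha hg (by norm_num)
    (by norm_num) Z.s_pos Z.rs_pos Z.om_pos (Z.om_zero ha hg hL hk hkk) Z.srs
    (Z.hdiff ha hg hL hk hkk) ?_ ?_
  · intro ε hε K hK hKc K' hK' hKc'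
    filter_upwards [Z.anc hk hkk hε hK hKc hK' hKc', hr1] with n hn hn1
    exact (hn (Cnt.rs φ c s n) (Z.s_le_rs n) (by linarith)).2
  · filter_upwards [hr1] with n hn1
    have h1 := (Z.V34 n).2.2.2 (Cnt.rs φ c s n) (Z.s_le_rs n) (by linarith)
    have h2 := (Z.V34 n).2.2.2 (s n) le_rfl (Z.s_le n)
    simp only at h1 h2
    have h3 : φ (ray (c n) (Cnt.rs φ c s n)) - φ (ray (c n) (s n)) =
        (φ (ray (c n) (Cnt.rs φ c s n)) - φ (ray (x n, u) (s1 n))) -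
        (φ (ray (c n) (s n)) - φ (ray (x n, u) (s1 n))) := by ring
    rw [h3]
    refine (norm_sub_le _ _).trans ?_
    linarith

/-- **NoRecP** -/
theorem noRecP : NoRecP :=
  noRecP_of (fun Z hL ha hg hk hkk => cnt_side Z hL ha hg hk hkk)
    (fun Z hL ha hg hk hkk => cnt_arc Z hL ha hg hk hkk)

/-- **SlowP** -/
theorem slowP : Edge255.SlowP := slowP_of ColPhi841.colPhi noRecP


end Crest.Agent.R102.NoRec314
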