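import Crest.Agent.R102.NoRecF_115
import Crest.Agent.R102.ColPhi_841
import Crest.Agent.R102.LimP_654

/-! Row 102 (helper115): `NoRecP` and `SlowP` are theorems. -/

set_option autoImplicit false

namespace Crest.Agent.R102.NoRecF115

theorem noRecP : SlowJ486.NoRecP := noRecP_of ColPhi841.colPhi LimK654.slowWorldP

theorem slowP : Edge255.SlowP := SlowJ486.slowP_of ColPhi841.colPhi noRecP

end Crest.Agent.R102.NoRecF115
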