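import Crest.Agent.R102.NoRecA_203
import Crest.Agent.R102.SideK_201
import Crest.Agent.R102.DiscRay_490

/-!
Row 102, T1-B, EDGE, slow regime (helper203): **NoRecP** from `ColPhi` and `SlowWorld`.
-/

set_option autoImplicit false

open Set Filter Topology Metric Complex

noncomputable section

namespace Crest.Agent.R102.NoRecP203

open Crest.Agent.R102.Sup115 (HDu Dp E2 MaxiX GoodU)
open Crest.Agent.R102.S5 (Half bl ray Cn)
open Crest.Agent.R102.TreeS174 (KD)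
open Crest.Agent.R102.Edge255
open Crest.Agent.R102.SlowE (oe)
open Crest.Agent.R102.SlowS (kd)
open Crest.Agent.R102.Chain859 (V rho V_up)
open Crest.Agent.R102.SlowJ486
open Crest.Agent.R102.NoRecW203

/-- the data at the records -/
structure Rec (a g k κ' : ℝ) (ψ : ℂ → ℂ) (φ p B : ℂ × ℂ → ℂ) (X L : Set (ℂ × ℂ)) (u s₀ : ℝ)
    (ρ δ : ℕ → ℝ) (U : ℕ → Set ℝ) (x s1 : ℕ → ℝ) (c : ℕ → ℝ × ℝ) (s : ℕ → ℝ) (h : ℝ) : Prop where
  a0 : 0 ≤ a
  g0 : 0 < g
  k0 : 0 < k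
  hρ : ∀ n, ρ n ≤ 1 / ((n : ℝ) + 1)
  base : ∀ n, Base a g X L u s₀ (ρ n) (δ n) (U n)
  x0 : ∀ n, |x n - s₀| ≤ 1 / ((n : ℝ) + 1)
  x1 : ∀ n, |x n - s₀| < δ n / 4
  s1pos : ∀ n, 0 < s1 n
  s1δ : ∀ n, s1 n ≤ δ n / (16 * ((n : ℝ) + 1))
  s1l : ∀ n, s1 n ≤ 1 / ((n : ℝ) + 1)
  φd : DifferentiableOn ℂ φ L
  coll : ∀ n, ∀ (p' : ℝ × ℝ) (s' : ℝ),
    V (fun q s => φ (ray q s)) (φ (ray (x n, u) (s1 n))) (s1 n) (x n, u) k p' s' →
    infDist p'.2 (U n) ≤ s' → Intr h κ' ψ B p' s' ∧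
    SlowAt (1 / ((n : ℝ) + 1)) (KE (a + g) n) (KE a n) ψ (fun q => φ (bl p' s' q))
      (fun q => p (bl p' s' q)) (fun q => B (bl p' s' q))
  win : ∀ n, V (fun q s => φ (ray q s)) (φ (ray (x n, u) (s1 n))) (s1 n) (x n, u) (3 * k / 4)
    (c n) (s n)
  inf : ∀ n, infDist (c n).2 (U n) ≤ s n
  dst : ∀ n, dist (c n) (x n, u) ≤ s1 n / 2
  low : ∀ n, (s n / s1 n) ^ (1 / 2 : ℝ) ≤ oe 8 φ (c n) (s n)
  rcd : ∀ n, ∀ (p'' : ℝ × ℝ) (s'' : ℝ),
    V (fun q s => φ (ray q s)) (φ (ray (x n, u) (s1 n))) (s1 n) (x n, u) k p'' s'' →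
    rho (1 / 2) (c n) (s n) p'' s'' * oe 8 φ p'' s'' ≤ 16 * oe 8 φ (c n) (s n)

section data

variable {a g k κ' : ℝ} {ψ : ℂ → ℂ} {φ p B : ℂ × ℂ → ℂ} {X L : Set (ℂ × ℂ)} {u s₀ : ℝ}
    {ρ δ : ℕ → ℝ} {U : ℕ → Set ℝ} {x s1 : ℕ → ℝ} {c : ℕ → ℝ × ℝ} {s : ℕ → ℝ} {h : ℝ}
    (D : Rec a g k κ' ψ φ p B X L u s₀ ρ δ U x s1 c s h)

include D

lemma spos (n : ℕ) : 0 < s n := (D.win n).1

lemma s_le (n : ℕ) : s n ≤ s1 n := (D.win n).2.1

lemma s1δ' (n : ℕ) : s1 n ≤ δ n / 16 := by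
  refine (D.s1δ n).trans ?_
  have h1 := (D.base n).δ_pos
  apply div_le_div_of_nonneg_left h1.le (by norm_num)
  have : (0 : ℝ) ≤ n := Nat.cast_nonneg n
  linarith

lemma om_pos (n : ℕ) : 0 < oe 8 φ (c n) (s n) := by
  refine lt_of_lt_of_le ?_ (D.low n)
  have := spos D n
  have := D.s1pos n
  positivity

lemma om_le (n : ℕ) : oe 8 φ (c n) (s n) ≤ 1 := SlowE.oe_le_one _ _ _ _

lemma s_le_om (n : ℕ) : s n ≤ s1 n * oe 8 φ (c n) (s n) ^ 2 := by
  have h1 := D.low n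
  have h2 := spos D n
  have h3 := D.s1pos n
  have h4 : 0 ≤ s n / s1 n := by positivity
  have h5 : ((s n / s1 n) ^ (1 / 2 : ℝ)) ^ 2 = s n / s1 n := by
    rw [← Real.rpow_natCast, ← Real.rpow_mul h4]
    norm_num
  have h6 : s n / s1 n ≤ oe 8 φ (c n) (s n) ^ 2 := by
    rw [← h5]
    exact pow_le_pow_left₀ (by positivity) h1 2
  rw [div_le_iff₀ h3] at h6
  linarith

lemma KD_L (n : ℕ) {q : ℝ × ℝ} {t : ℝ} (ht : 0 < t) (ht1 : t ≤ s1 n)
    (hq : dist q (x n, u) ≤ s1 n) : KD 8 q.1 q.2 t ⊆ L := by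
  have hb := D.base n
  have h1 : |x n - s₀| < δ n := (D.x1 n).trans_le (by have := hb.δ_pos; linarith)
  refine KD_sub (hb.e2 u hb.mem (x n) h1) D.a0 D.g0 le_rfl ht ht1 hq ?_
  have := s1δ' D n
  have := hb.δ_pos
  linarith

/-- windows of the tree are slow -/
lemma slow {ε : ℝ} (hε : 0 < ε) {K K' : Set (ℂ × ℂ)} (hK : K ⊆ Wg (a + g)) (hKc : IsCompact K)
    (hK' : K' ⊆ Wg a) (hKc' : IsCompact K') :
    ∀ᶠ n in atTop, ∀ (p' : ℝ × ℝ) (s' : ℝ),
      V (fun q s => φ (ray q s)) (φ (ray (x n, u) (s1 n))) (s1 n) (x n, u) k p' s' →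
      infDist p'.2 (U n) ≤ s' →
      SlowAt ε K K' ψ (fun q => φ (bl p' s' q)) (fun q => p (bl p' s' q))
        (fun q => B (bl p' s' q)) := by
  have h1 : Tendsto (fun n : ℕ => 1 / ((n : ℝ) + 1)) atTop (𝓝 0) :=
    tendsto_one_div_add_atTop_nhds_zero_nat
  filter_upwards [KE_exh hKc hK, KE_exh hKc' hK', h1.eventually_le_const hε] with n a1 a2 a3
  intro p' s' hV hi
  exact slowAt_mono a3 a1 a2 (D.coll n p' s' hV hi).2

/-- windows of the tree have small oscillation -/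
lemma small {ε : ℝ} (hε : 0 < ε) :
    ∀ᶠ n in atTop, ∀ (p' : ℝ × ℝ) (s' : ℝ),
      V (fun q s => φ (ray q s)) (φ (ray (x n, u) (s1 n))) (s1 n) (x n, u) k p' s' →
      infDist p'.2 (U n) ≤ s' → oe 8 φ p' s' ≤ ε := by
  have ha := D.a0
  have hg := D.g0
  have hm : 0 < min (1 / 2) (ε / 2) := lt_min (by norm_num) (by positivity)
  filter_upwards [slow D hm (SlowS.kd_sub_Wg (A := 8) (m := a + g) le_rfl (by linarith))
    (SlowS.isCompact_kd le_rfl) (empty_subset _) isCompact_empty] with n hn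
  intro p' s' hV hi
  have h1 := SlowS.slow_osc (A := 8) le_rfl (min_le_left (1 / 2) (ε / 2)) (Subset.refl _) hV.1
    (D.φd.continuousOn.mono (KD_L D n hV.1 hV.2.1 hV.2.2.1)) (hn p' s' hV hi)
  have h2 := min_le_right (1 / 2) (ε / 2)
  linarith

lemma anc (n : ℕ) {t : ℝ} (h1 : s n ≤ t) (h2 : t ≤ s1 n) :
    V (fun q s => φ (ray q s)) (φ (ray (x n, u) (s1 n))) (s1 n) (x n, u) k (c n) t :=
  V_up (D.win n) (by have := D.k0; linarith) h1 h2

lemma om_lim : Tendsto (fun n => oe 8 φ (c n) (s n)) atTop (𝓝 0) := by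
  rw [Metric.tendsto_nhds]
  intro ε hε
  filter_upwards [small D (half_pos hε)] with n hn
  have h1 := hn (c n) (s n) (anc D n le_rfl (s_le D n)) (D.inf n)
  have h2 := SlowE.oe_nonneg 8 φ (c n) (s n)
  rw [Real.dist_eq, sub_zero, abs_of_nonneg h2]
  linarith

lemma hv (n : ℕ) (q : ℝ × ℝ) (t t' : ℝ)
    (hV : V (fun q s => φ (ray q s)) (φ (ray (x n, u) (s1 n))) (s1 n) (x n, u) k q t)
    (he : oe 8 φ q t < 1) (h1 : t / 2 ≤ t') (h2 : t' ≤ t) :
    ‖(fun q s => φ (ray q s)) q t - (fun q s => φ (ray q s)) q t'‖ ≤ 16 * oe 8 φ q t := by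
  have h3 := SlowE.hvert (A := 8) le_rfl (φ := φ) hV.1 he h1 h2
  have h4 := SlowE.oe_nonneg 8 φ q t
  show ‖φ (ray q t) - φ (ray q t')‖ ≤ _
  linarith

lemma hl (n : ℕ) (q q' : ℝ × ℝ) (t : ℝ)
    (hV : V (fun q s => φ (ray q s)) (φ (ray (x n, u) (s1 n))) (s1 n) (x n, u) k q t)
    (he : oe 8 φ q t < 1) (h1 : dist q q' ≤ t) :
    ‖(fun q s => φ (ray q s)) q t - (fun q s => φ (ray q s)) q' t‖ ≤
      16 * (dist q q' / t) * oe 8 φ q t :=
  SlowE.hlat (A := 8) le_rfl hV.1 (D.φd.mono (KD_L D n hV.1 hV.2.1 hV.2.2.1)) he h1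

/-- **side estimate** -/
lemma side {C ν : ℝ} (hC : 1 ≤ C) (hν : 0 < ν) :
    ∃ G : ℝ, 1 ≤ G ∧ ∀ᶠ n in atTop, ∀ T : ℝ, s n ≤ T → T ≤ 2 * (s n / oe 8 φ (c n) (s n)) →
      ∀ x' v' s' : ℝ, |x' - (c n).1| ≤ C * T → |v' - (c n).2| ≤ C * T →
      ν * T / (1 + Real.log (T / s n)) ^ 2 ≤ s' → s' ≤ C * T →
      ‖φ (ray (x', v') s') - φ (ray (c n) (s n))‖ ≤
        G * (T / s n) ^ (3 / 4 : ℝ) * oe 8 φ (c n) (s n) := by
  obtain ⟨M, hM, H⟩ := SideK201.sideT (E := ℂ) (th := 1 / 2) (Cl := 16) (A := 16) (C := C) (ν := ν)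
    (by norm_num) (by norm_num) (by norm_num) (by norm_num) hC hν
  have hk := D.k0
  have hM0 : 0 < M := by linarith
  refine ⟨M * 17 ^ 4, by nlinarith, ?_⟩
  have hω := om_lim D
  -- smallness
  have hε0 : 0 < min (k / 128) (1 / 2) := lt_min (by positivity) (by norm_num)
  set m0 : ℝ := min (k / 8) (1 / 2) with hm0
  have hm00 : 0 < m0 := lt_min (by positivity) (by norm_num)
  have hlim : Tendsto (fun n => M * 17 ^ 4 * (2 * oe 8 φ (c n) (s n) ^ (1 / 4 : ℝ))) atTop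
      (𝓝 (M * 17 ^ 4 * (2 * (0 : ℝ) ^ (1 / 4 : ℝ)))) :=
    ((hω.rpow_const (Or.inr (by norm_num))).const_mul 2).const_mul (M * 17 ^ 4)
  rw [Real.zero_rpow (by norm_num), mul_zero, mul_zero] at hlim
  have h4C : ∀ᶠ n in atTop, oe 8 φ (c n) (s n) ≤ 1 / (4 * C) :=
    hω.eventually_le_const (by positivity)
  filter_upwards [small D hε0, hlim.eventually_le_const hm00, h4C] with n hsm hlim h4C
  intro T hT1 hT2 x' v' s' hx' hv' hs'1 hs'2
  have hs := spos D n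
  have hω0 := om_pos D n
  have hω1 := om_le D n
  set ω : ℝ := oe 8 φ (c n) (s n) with hωd
  have hT0 : 0 < T := hs.trans_le hT1
  have hz1 : 1 ≤ T / s n := by rw [one_le_div hs]; exact hT1
  have hz2 : T / s n ≤ 2 / ω := by
    rw [div_le_iff₀ hs]
    calc T ≤ 2 * (s n / ω) := hT2
      _ = 2 / ω * s n := by ring
  -- the smallness of the side number
  have hnum : M * (1 + Real.log (T / s n)) ^ 4 * (T / s n) ^ (1 / 2 : ℝ) * ω ≤
      M * 17 ^ 4 * (T / s n) ^ (3 / 4 : ℝ) * ω := by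
    have h1 := log_half hz1
    have h2 : M * ((1 + Real.log (T / s n)) ^ 4 * (T / s n) ^ (1 / 2 : ℝ)) * ω ≤
        M * (17 ^ 4 * (T / s n) ^ (3 / 4 : ℝ)) * ω := by gcongr
    calc _ = M * ((1 + Real.log (T / s n)) ^ 4 * (T / s n) ^ (1 / 2 : ℝ)) * ω := by ring
      _ ≤ _ := h2
      _ = _ := by ring
  have hbig : M * 17 ^ 4 * (T / s n) ^ (3 / 4 : ℝ) * ω ≤ m0 := by
    refine le_trans ?_ hlim
    have h1 : (T / s n) ^ (3 / 4 : ℝ) ≤ (2 / ω) ^ (3 / 4 : ℝ) :=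
      Real.rpow_le_rpow (by positivity) hz2 (by norm_num)
    have h2 : (2 / ω) ^ (3 / 4 : ℝ) ≤ 2 * (1 / ω) ^ (3 / 4 : ℝ) := by
      rw [show 2 / ω = 2 * (1 / ω) by ring, Real.mul_rpow (by norm_num) (by positivity)]
      have : (2 : ℝ) ^ (3 / 4 : ℝ) ≤ 2 ^ (1 : ℝ) :=
        Real.rpow_le_rpow_of_exponent_le (by norm_num) (by norm_num)
      rw [Real.rpow_one] at this
      gcongr
    have h3 : (1 / ω) ^ (3 / 4 : ℝ) * ω = ω ^ (1 / 4 : ℝ) := by
      rw [one_div, Real.inv_rpow hω0.le]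
      have : ω = ω ^ (3 / 4 : ℝ) * ω ^ (1 / 4 : ℝ) := by
        rw [← Real.rpow_add hω0]; norm_num
      have h4 : 0 < ω ^ (3 / 4 : ℝ) := by positivity
      field_simp
      exact this
    calc M * 17 ^ 4 * (T / s n) ^ (3 / 4 : ℝ) * ω
        ≤ M * 17 ^ 4 * (2 * (1 / ω) ^ (3 / 4 : ℝ)) * ω := by gcongr; exact h1.trans h2
      _ = M * 17 ^ 4 * (2 * ((1 / ω) ^ (3 / 4 : ℝ) * ω)) := by ring
      _ = _ := by rw [h3]
  have hb1 : m0 ≤ k / 8 := min_le_left _ _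
  have hb2 : m0 ≤ 1 / 2 := min_le_right _ _
  have hTs1 : 2 * (C * T) ≤ s1 n := by
    have h1 := s_le_om D n
    rw [← hωd] at h1
    have h2 : s n / ω ≤ s1 n * ω := by
      rw [div_le_iff₀ hω0]
      calc s n ≤ s1 n * ω ^ 2 := h1
        _ = s1 n * ω * ω := by ring
    have h3 : 4 * C * ω ≤ 1 := by
      rw [le_div_iff₀ (by positivity)] at h4C
      linarith
    have hs1 := D.s1pos n
    calc 2 * (C * T) ≤ 2 * (C * (2 * (s1 n * ω))) := by
          have := hT2.trans (mul_le_mul_of_nonneg_left h2 (by norm_num : (0 : ℝ) ≤ 2))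
          gcongr
      _ = s1 n * (4 * C * ω) := by ring
      _ ≤ s1 n * 1 := by gcongr
      _ = s1 n := mul_one _
  have hdist : dist (c n) (x', v') ≤ C * T := by
    rw [Prod.dist_eq, Real.dist_eq, Real.dist_eq, abs_sub_comm, abs_sub_comm (c n).2]
    exact max_le hx' hv'
  obtain ⟨-, r2⟩ := H (fun q t => oe 8 φ q t) (fun q t => φ (ray q t))
    (φ (ray (x n, u) (s1 n))) k (min (k / 128) (1 / 2)) (s1 n) (x n, u) (c n) (s n)
    (fun _ _ => SlowE.oe_nonneg _ _ _ _) (hv D n) (hl D n) hk.le (D.win n) (D.dst n)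
    (fun t h1 h2 => hsm (c n) t (anc D n h1 h2) ((D.inf n).trans h1))
    (by have := min_le_left (k / 128) (1 / 2); linarith)
    (lt_of_le_of_lt (min_le_right _ _) (by norm_num)) (D.rcd n) T (x', v') s' hT1 hTs1 hdist hs'1
    hs'2 (hnum.trans (hbig.trans hb1)) (hnum.trans (hbig.trans hb2))
  exact r2.trans hnum

/-! ### the outer scale `r n = s n / om n` -/

lemma r_le (n : ℕ) : s n / oe 8 φ (c n) (s n) ≤ s1 n * oe 8 φ (c n) (s n) := by
  have h0 := om_pos D n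
  rw [div_le_iff₀ h0]
  calc s n ≤ s1 n * oe 8 φ (c n) (s n) ^ 2 := s_le_om D n
    _ = _ := by ring

lemma r_le' (n : ℕ) : s n / oe 8 φ (c n) (s n) ≤ s1 n :=
  (r_le D n).trans (mul_le_of_le_one_right (D.s1pos n).le (SlowE.oe_le_one _ _ _ _))

lemma s_le_r (n : ℕ) : s n ≤ s n / oe 8 φ (c n) (s n) := by
  rw [le_div_iff₀ (om_pos D n)]
  exact mul_le_of_le_one_right (spos D n).le (SlowE.oe_le_one _ _ _ _)

lemma hol {C : ℝ} (hC : 0 ≤ C) :
    ∀ᶠ n in atTop, Half (c n) (C * (s n / oe 8 φ (c n) (s n))) (a + g) ⊆ L := by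
  have h4C : ∀ᶠ n in atTop, oe 8 φ (c n) (s n) ≤ 1 / (2 * (C + 1)) :=
    (om_lim D).eventually_le_const (by positivity)
  filter_upwards [h4C] with n h4C
  have hb := D.base n
  have h1 : |x n - s₀| < δ n := (D.x1 n).trans_le (by have := hb.δ_pos; linarith)
  have hE := hb.e2 u hb.mem (x n) h1
  refine Subset.trans ?_ hE.line
  have hω0 := om_pos D n
  have hs1 := D.s1pos n
  have h2 : C * (s n / oe 8 φ (c n) (s n)) ≤ s1 n / 2 := by
    rw [le_div_iff₀ (by positivity)] at h4C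
    calc C * (s n / oe 8 φ (c n) (s n)) ≤ C * (s1 n * oe 8 φ (c n) (s n)) := by
          have := r_le D n
          gcongr
      _ = s1 n * (C * oe 8 φ (c n) (s n)) := by ring
      _ ≤ s1 n * (1 / 2) := by
          have : C * oe 8 φ (c n) (s n) ≤ 1 / 2 := by nlinarith
          gcongr
      _ = s1 n / 2 := by ring
  have h3 := s1δ' D n
  have hδ := hb.δ_pos
  have h4 := D.dst n
  rw [Prod.dist_eq, Real.dist_eq, Real.dist_eq] at h4
  have h5 : |(c n).1 - x n| ≤ s1 n / 2 := (le_max_left _ _).trans h4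
  have h6 : |(c n).2 - u| ≤ s1 n / 2 := (le_max_right _ _).trans h4
  rintro q ⟨q1, q2, q3, q4, q5⟩
  refine ⟨?_, ?_, ?_, q4, q5⟩
  · show |q.1.re - x n| < δ n
    calc |q.1.re - x n| = |(q.1.re - (c n).1) + ((c n).1 - x n)| := by ring_nf
      _ ≤ |q.1.re - (c n).1| + |(c n).1 - x n| := abs_add_le _ _
      _ < δ n := by linarith
  · linarith
  · show ‖q.2 - (u : ℂ)‖ < δ n
    have e : q.2 - (u : ℂ) = (q.2 - ((c n).2 : ℂ)) + (((c n).2 - u : ℝ) : ℂ) := by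
      push_cast; ring
    rw [e]
    refine lt_of_le_of_lt (norm_add_le _ _) ?_
    rw [Complex.norm_real, Real.norm_eq_abs]
    linarith

omit D in
lemma bl_half {m A cc r : ℝ} {e : ℝ × ℝ} (hr : 0 < r) (hcc : 0 < cc) {q : ℂ × ℂ}
    (hq : q ∈ KM m A cc) : bl e r q ∈ Half e ((A + 1) * r) m := by
  obtain ⟨h1, h2, h3, h4⟩ := hq
  have e1 : (bl e r q).1.re - e.1 = r * q.1.re := by simp [bl]
  have e2 : (bl e r q).1.im = r * q.1.im := by simp [bl]
  have e3 : (bl e r q).2 - (e.2 : ℂ) = (r : ℂ) * q.2 := by simp [bl]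
  have e4 : (bl e r q).2.im = r * q.2.im := by simp [bl]
  have h5 := Complex.abs_re_le_norm q.1
  have h6 := abs_le.1 ((Complex.abs_im_le_norm q.1).trans h1)
  refine ⟨?_, ?_, ?_, ?_, ?_⟩
  · rw [e1, abs_mul, abs_of_pos hr]
    nlinarith
  · rw [e2]
    nlinarith [h6.1]
  · rw [e3, norm_mul, Complex.norm_real, Real.norm_of_nonneg hr.le]
    nlinarith
  · rw [e4]
    have : 0 < q.2.im := hcc.trans_le h3
    positivity
  · rw [e2, e4]
    nlinarith

/-- **arc estimate** -/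
lemma arc {C ν : ℝ} (hC : 1 ≤ C) (hν : 0 < ν) :
    ∀ᶠ n in atTop, ∀ q : ℂ × ℂ, ‖q.1 - (c n).1‖ ≤ C * (s n / oe 8 φ (c n) (s n)) →
      ‖q.2 - (c n).2‖ ≤ C * (s n / oe 8 φ (c n) (s n)) →
      ν * (s n / oe 8 φ (c n) (s n)) ≤ q.2.im →
      q.1.im ≤ (a + g) * q.2.im - ν * (s n / oe 8 φ (c n) (s n)) →
      ‖φ q - φ (ray (c n) (s n))‖ ≤ 1 + 2 * k := by
  have ha := D.a0
  have hg := D.g0
  have hk := D.k0
  set ν' : ℝ := min ν (1 / 4) with hν'
  have hν'0 : 0 < ν' := lt_min hν (by norm_num)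
  have hν'1 : ν' ≤ ν := min_le_left _ _
  have hν'2 : ν' ≤ 1 / 4 := min_le_right _ _
  have hz : z0 ∈ KM (a + g) C ν' := by
    have h1 : (z0).1 = -I := rfl
    have h2 : (z0).2 = I / 4 := rfl
    have h3 : (I / 4 : ℂ).im = 1 / 4 := by simp
    refine ⟨?_, ?_, ?_, ?_⟩
    · rw [h1]; simpa using hC
    · rw [h2, norm_div, Complex.norm_I]; norm_num; linarith
    · rw [h2, h3]; exact hν'2
    · rw [h1, h2, h3]; simp; nlinarith
  filter_upwards [slow D (ε := 1 / 2) (by norm_num) (KM_sub (A := C) hν'0) (KM_compact _ _ _)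
    (empty_subset _) isCompact_empty, hol D (C := C + 1) (by linarith)] with n hs hh
  intro q q1 q2 q3 q4
  set r : ℝ := s n / oe 8 φ (c n) (s n) with hr
  have hs0 := spos D n
  have hr0 : 0 < r := div_pos hs0 (om_pos D n)
  have hsr : s n ≤ r := s_le_r D n
  have hr1 : r ≤ s1 n := r_le' D n
  have hS := hs (c n) r (anc D n hsr hr1) ((D.inf n).trans hsr)
  have hcont : ContinuousOn (fun q => φ (bl (c n) r q) - ψ (B (bl (c n) r z0)))
      (KM (a + g) C ν') := by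
    refine ContinuousOn.sub ?_ continuousOn_const
    refine D.φd.continuousOn.comp ?_ (fun y hy => hh (bl_half hr0 hν'0 hy))
    have : Continuous (bl (c n) r) := by unfold bl; fun_prop
    exact this.continuousOn
  obtain ⟨m, hm⟩ := SlowS.branch (KM_convex (a + g) C ν').isPreconnected hcont le_rfl
    (fun y hy => (hS.1 y hy).1)
  obtain ⟨y, rfl⟩ := SlowS.exists_bl (p := c n) hr0 q
  have e1 : (bl (c n) r y).1 - ((c n).1 : ℂ) = (r : ℂ) * y.1 := by simp [bl]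
  have e2 : (bl (c n) r y).2 - ((c n).2 : ℂ) = (r : ℂ) * y.2 := by simp [bl]
  have e3 : (bl (c n) r y).1.im = r * y.1.im := by simp [bl]
  have e4 : (bl (c n) r y).2.im = r * y.2.im := by simp [bl]
  rw [e1, norm_mul, Complex.norm_real, Real.norm_of_nonneg hr0.le, mul_comm] at q1
  rw [e2, norm_mul, Complex.norm_real, Real.norm_of_nonneg hr0.le, mul_comm] at q2
  rw [e4, mul_comm] at q3
  rw [e3, e4] at q4
  have hy : y ∈ KM (a + g) C ν' := by
    refine ⟨le_of_mul_le_mul_right q1 hr0, le_of_mul_le_mul_right q2 hr0,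
      hν'1.trans (le_of_mul_le_mul_left q3 hr0), ?_⟩
    have : r * (y.1.im + ν) ≤ r * ((a + g) * y.2.im) := by nlinarith
    have := le_of_mul_le_mul_left this hr0
    linarith
  have h1 := hm y hy
  have h2 := hm z0 hz
  have h3 := (D.win n).2.2.2 r hsr hr1
  have h4 := (D.win n).2.2.2 (s n) le_rfl (s_le D n)
  have h5 : ‖φ (bl (c n) r y) - φ (bl (c n) r z0)‖ ≤ 1 := by
    have e : φ (bl (c n) r y) - φ (bl (c n) r z0) =
        (φ (bl (c n) r y) - ψ (B (bl (c n) r z0)) - m * Real.pi)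
          - (φ (bl (c n) r z0) - ψ (B (bl (c n) r z0)) - m * Real.pi) := by ring
    rw [e]
    refine (norm_sub_le _ _).trans ?_
    linarith
  have h6 : φ (bl (c n) r y) - φ (ray (c n) (s n)) =
      (φ (bl (c n) r y) - φ (bl (c n) r z0)) +
      ((φ (ray (c n) r) - φ (ray (x n, u) (s1 n))) -
      (φ (ray (c n) (s n)) - φ (ray (x n, u) (s1 n)))) := by
    have : ray (c n) r = bl (c n) r z0 := rfl
    rw [this]; ring
  rw [h6]
  refine (norm_add_le _ _).trans ?_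
  have h7 := norm_sub_le (φ (ray (c n) r) - φ (ray (x n, u) (s1 n)))
    (φ (ray (c n) (s n)) - φ (ray (x n, u) (s1 n)))
  simp only at h3 h4
  linarith

/-- **growth at the record centre** -/
lemma grow {K : Set (ℂ × ℂ)} (hK : K ⊆ Wg (a + g)) (hKc : IsCompact K) :
    ∃ M : ℝ, ∀ y : ℝ, 1 ≤ y → ∀ᶠ n in atTop, ∀ q ∈ K,
      ‖φ (bl (c n) (s n) ((y : ℂ) * q.1, (y : ℂ) * q.2)) - φ (ray (c n) (s n))‖ ≤
        M * oe 8 φ (c n) (s n) * y ^ (3 / 4 : ℝ) := by
  have ha := D.a0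
  have hg := D.g0
  have hk := D.k0
  obtain ⟨A, hA, cm, hcm, hmar⟩ := exists_margin hKc hK
  have hA0 : 0 < A := by linarith
  obtain ⟨ν, hν, C, hC, Hd⟩ := DiscRay490.discRay (a + g) (cm / A) A cm (1 / 2) (by linarith)
    (by positivity) hA0 hcm (by norm_num) (by norm_num)
  obtain ⟨G, hG, hside⟩ := side D hC hν
  have harc := arc D hC hν
  have hhol := hol D (C := C) (by linarith)
  set Bc : ℝ := Real.log (2 * G) + 1 with hBc
  have hBc0 : 0 ≤ Bc := by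
    have : 0 ≤ Real.log (2 * G) := Real.log_nonneg (by linarith)
    linarith
  refine ⟨Real.exp (C * (Bc + 1)), fun y hy => ?_⟩
  have hy0 : 0 < y := by linarith
  have hω := om_lim D
  have hlim1 : ∀ᶠ n in atTop, oe 8 φ (c n) (s n) ≤ 1 / (C * y) :=
    hω.eventually_le_const (by positivity)
  have hlim2 : Tendsto (fun n => 4 * (1 + 2 * k) ^ (1 / 4 : ℝ) * y ^ (1 / 2 : ℝ) *
      oe 8 φ (c n) (s n) ^ (1 / 4 : ℝ)) atTop
      (𝓝 (4 * (1 + 2 * k) ^ (1 / 4 : ℝ) * y ^ (1 / 2 : ℝ) * (0 : ℝ) ^ (1 / 4 : ℝ))) :=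
    (hω.rpow_const (Or.inr (by norm_num))).const_mul _
  rw [Real.zero_rpow (by norm_num), mul_zero] at hlim2
  filter_upwards [hside, harc, hhol, hlim1, hlim2.eventually_le_const one_pos] with n hside harc
    hhol hlim1 hlim2
  intro q hq
  have hs := spos D n
  have hω0 := om_pos D n
  have hω1 := SlowE.oe_le_one 8 φ (c n) (s n)
  set ω : ℝ := oe 8 φ (c n) (s n) with hωd
  set z : ℂ := φ (ray (c n) (s n)) with hz
  set yy : ℝ := y ^ (3 / 4 : ℝ) with hyy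
  have hyy1 : 1 ≤ yy := Real.one_le_rpow hy (by norm_num)
  have hyy0 : 0 < yy := by linarith
  set N : ℝ := Real.log ((1 + 2 * k) / ω) with hN
  have hNarg : 1 ≤ (1 + 2 * k) / ω := by
    rw [one_le_div hω0]; linarith
  have hN0 : 0 ≤ N := Real.log_nonneg hNarg
  have hNe : Real.exp N = (1 + 2 * k) / ω := Real.exp_log (by linarith)
  have hden : 0 < ω * yy := by positivity
  have hnf : ∀ w : ℂ, ‖(w - z) / ((ω * yy : ℝ) : ℂ)‖ = ‖w - z‖ / (ω * yy) := by
    intro w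
    rw [norm_div, Complex.norm_real, Real.norm_of_nonneg hden.le]
  obtain ⟨m1, m2, m3, m4⟩ := hmar q hq
  have hCy : C * (y * s n) ≤ s n / ω := by
    rw [le_div_iff₀ hω0]
    rw [le_div_iff₀ (by positivity)] at hlim1
    calc C * (y * s n) * ω = s n * (ω * (C * y)) := by ring
      _ ≤ s n * 1 := by gcongr
      _ = s n := mul_one _
  have hfd : DifferentiableOn ℂ (fun w => (φ w - z) / ((ω * yy : ℝ) : ℂ))
      (Half (c n) (C * (s n / ω)) (a + g)) := by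
    have h1 : DifferentiableOn ℂ φ (Half (c n) (C * (s n / ω)) (a + g)) := D.φd.mono hhol
    have h2 := (h1.sub_const z).mul_const (((ω * yy : ℝ) : ℂ)⁻¹)
    simpa only [div_eq_mul_inv] using h2
  have hfin := Hd (c n) (y * s n) (s n / ω) (by positivity) hCy
    (fun w => (φ w - z) / ((ω * yy : ℝ) : ℂ)) hfd Bc N hBc0 hN0 ?_ ?_ q m1 m2 m3 ?_
  · -- conclusion
    rw [hnf, div_le_iff₀ hden] at hfin
    have e1 : bl (c n) (y * s n) q = bl (c n) (s n) ((y : ℂ) * q.1, (y : ℂ) * q.2) := by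
      unfold bl
      ext1
      · push_cast; ring
      · push_cast; ring
    rw [e1] at hfin
    have h1 : N * (y * s n / (s n / ω)) ^ (1 / 2 : ℝ) ≤ 1 := by
      have e2 : y * s n / (s n / ω) = y * ω := by field_simp
      rw [e2]
      have h2 : N ≤ 4 * ((1 + 2 * k) / ω) ^ (1 / 4 : ℝ) := by
        have := Real.log_le_rpow_div (x := (1 + 2 * k) / ω) (ε := 1 / 4) (by positivity)
          (by norm_num)
        rw [← hN] at this
        have e3 : ((1 + 2 * k) / ω) ^ (1 / 4 : ℝ) / (1 / 4) = 4 * ((1 + 2 * k) / ω) ^ (1 / 4 : ℝ) := by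
          ring
        linarith
      have e4 : ((1 + 2 * k) / ω) ^ (1 / 4 : ℝ) * ω ^ (1 / 4 : ℝ) = (1 + 2 * k) ^ (1 / 4 : ℝ) := by
        rw [← Real.mul_rpow (by positivity) hω0.le]
        congr 1
        field_simp
      have e5 : (y * ω) ^ (1 / 2 : ℝ) = y ^ (1 / 2 : ℝ) * (ω ^ (1 / 4 : ℝ) * ω ^ (1 / 4 : ℝ)) := by
        rw [Real.mul_rpow hy0.le hω0.le, ← Real.rpow_add hω0]
        norm_num
      rw [e5]
      calc N * (y ^ (1 / 2 : ℝ) * (ω ^ (1 / 4 : ℝ) * ω ^ (1 / 4 : ℝ)))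
          ≤ 4 * ((1 + 2 * k) / ω) ^ (1 / 4 : ℝ) *
            (y ^ (1 / 2 : ℝ) * (ω ^ (1 / 4 : ℝ) * ω ^ (1 / 4 : ℝ))) := by gcongr
        _ = 4 * (((1 + 2 * k) / ω) ^ (1 / 4 : ℝ) * ω ^ (1 / 4 : ℝ)) * y ^ (1 / 2 : ℝ) *
            ω ^ (1 / 4 : ℝ) := by ring
        _ = 4 * (1 + 2 * k) ^ (1 / 4 : ℝ) * y ^ (1 / 2 : ℝ) * ω ^ (1 / 4 : ℝ) := by rw [e4]
        _ ≤ 1 := hlim2
    have h2 : Real.exp (C * (Bc + N * (y * s n / (s n / ω)) ^ (1 / 2 : ℝ))) ≤
        Real.exp (C * (Bc + 1)) := by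
      apply Real.exp_le_exp.2
      gcongr
    calc ‖φ (bl (c n) (s n) ((y : ℂ) * q.1, (y : ℂ) * q.2)) - z‖
        ≤ Real.exp (C * (Bc + N * (y * s n / (s n / ω)) ^ (1 / 2 : ℝ))) * (ω * yy) := hfin
      _ ≤ Real.exp (C * (Bc + 1)) * (ω * yy) := by gcongr
      _ = _ := by ring
  · -- side
    intro T hT1 hT2 x' v' s' hx' hv' hs'1 hs'2
    have hys : 0 < y * s n := by positivity
    have hT0 : 0 < T := hys.trans_le hT1
    have hsT : s n ≤ T := (le_mul_of_one_le_left hs.le hy).trans hT1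
    have hτ : 1 ≤ T / (y * s n) := by rw [one_le_div hys]; exact hT1
    have hle : T / (y * s n) ≤ T / s n := by
      apply div_le_div_of_nonneg_left hT0.le hs
      exact le_mul_of_one_le_left hs.le hy
    have hl1 : 0 ≤ Real.log (T / (y * s n)) := Real.log_nonneg hτ
    have hl2 : Real.log (T / (y * s n)) ≤ Real.log (T / s n) :=
      Real.log_le_log (by positivity) hle
    have hd : ν * T / (1 + Real.log (T / s n)) ^ 2 ≤ s' := by
      refine le_trans ?_ hs'1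
      apply div_le_div_of_nonneg_left (by positivity) (by positivity)
      gcongr
    have h1 := hside T hsT hT2 x' v' s' hx' hv' hd hs'2
    show ‖(φ (ray (x', v') s') - z) / ((ω * yy : ℝ) : ℂ)‖ ≤ _
    rw [hnf, div_le_iff₀ hden]
    refine h1.trans ?_
    have e1 : (T / s n) ^ (3 / 4 : ℝ) = (T / (y * s n)) ^ (3 / 4 : ℝ) * yy := by
      rw [hyy, ← Real.mul_rpow (by positivity) hy0.le]
      congr 1
      field_simp
    rw [e1]
    have h2 := exp_bd hG hτ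
    calc G * ((T / (y * s n)) ^ (3 / 4 : ℝ) * yy) * ω
        = G * (T / (y * s n)) ^ (3 / 4 : ℝ) * (ω * yy) := by ring
      _ ≤ Real.exp (Bc * (T / (y * s n)) ^ (1 / 2 : ℝ)) * (ω * yy) := by gcongr
  · -- arc
    intro w w1 w2 w3 w4
    show ‖(φ w - z) / ((ω * yy : ℝ) : ℂ)‖ ≤ _
    rw [hnf, hNe, div_le_div_iff₀ hden hω0]
    have h1 := harc w w1 w2 w3 w4
    calc ‖φ w - z‖ * ω ≤ (1 + 2 * k) * ω := by gcongr
      _ ≤ (1 + 2 * k) * (ω * yy) := by
          have : ω ≤ ω * yy := le_mul_of_one_le_right hω0.le hyy1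
          gcongr
  · -- level
    have h1 : cm / A * q.2.im ≤ cm := by
      have h2 : q.2.im ≤ A := (Complex.im_le_norm q.2).trans m2
      rw [div_mul_eq_mul_div, div_le_iff₀ hA0]
      gcongr
    have e : (a + g - cm / A) * q.2.im = (a + g) * q.2.im - cm / A * q.2.im := by ring
    rw [e]
    linarith

/-- the windows over the good bases next to the record are in the tree -/
lemma base_win :
    ∀ᶠ n in atTop, ∀ v : ℝ, |v - (c n).2| ≤ s n →
      V (fun q s => φ (ray q s)) (φ (ray (x n, u) (s1 n))) (s1 n) (x n, u) k ((c n).1, v)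
        (s n) := by
  have hk := D.k0
  have hε0 : 0 < min (k / 64) (1 / 2) := lt_min (by positivity) (by norm_num)
  filter_upwards [small D hε0, (om_lim D).eventually_le_const (show (0 : ℝ) < 1 / 2 by norm_num)]
    with n hsm hω v hv
  have hs := spos D n
  have hs1 := D.s1pos n
  have hω0 := om_pos D n
  have h1 : s n ≤ s1 n / 2 := by
    refine (s_le_om D n).trans ?_
    have : oe 8 φ (c n) (s n) ^ 2 ≤ 1 / 2 := by nlinarith
    calc s1 n * oe 8 φ (c n) (s n) ^ 2 ≤ s1 n * (1 / 2) := by gcongr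
      _ = _ := by ring
  have hd : dist (c n) ((c n).1, v) ≤ s n := by
    rw [Prod.dist_eq, dist_self, Real.dist_eq, abs_sub_comm]
    exact max_le hs.le hv
  refine ⟨hs, s_le D n, ?_, fun t ht ht' => ?_⟩
  · have h2 := dist_triangle ((c n).1, v) (c n) (x n, u)
    rw [dist_comm] at hd
    have h3 := D.dst n
    linarith
  · have ht0 : 0 < t := hs.trans_le ht
    have ha := anc D n ht ht'
    have he := hsm (c n) t ha ((D.inf n).trans ht)
    have he1 := min_le_left (k / 64) (1 / 2)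
    have he2 := min_le_right (k / 64) (1 / 2)
    have h4 := hl D n (c n) ((c n).1, v) t ha (by linarith) (hd.trans ht)
    have h5 : dist (c n) ((c n).1, v) / t ≤ 1 := by
      rw [div_le_one ht0]; exact hd.trans ht
    have h6 : 16 * (dist (c n) ((c n).1, v) / t) * oe 8 φ (c n) t ≤ k / 4 := by
      have h7 := SlowE.oe_nonneg 8 φ (c n) t
      have h8 : 0 ≤ dist (c n) ((c n).1, v) / t := by positivity
      calc 16 * (dist (c n) ((c n).1, v) / t) * oe 8 φ (c n) t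
          ≤ 16 * 1 * oe 8 φ (c n) t := by gcongr
        _ ≤ 16 * 1 * (k / 64) := by
            have : oe 8 φ (c n) t ≤ k / 64 := by linarith
            gcongr
        _ = k / 4 := by ring
    have h9 := (D.win n).2.2.2 t ht ht'
    simp only at h4 h9 ⊢
    have e : φ (ray ((c n).1, v) t) - φ (ray (x n, u) (s1 n)) =
        (φ (ray (c n) t) - φ (ray (x n, u) (s1 n))) -
          (φ (ray (c n) t) - φ (ray ((c n).1, v) t)) := by ring
    rw [e]
    refine (norm_sub_le _ _).trans ?_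
    linarith

end data

/-- **NoRecP** -/
theorem norecP_of (hC : ColPhi) (SW : SlowWorld) : NoRecP := by
  intro u0 R d h ψ H Ar φ p B X L D u s₀ a g hu hu0 ha hg hR
  refine ⟨8, le_rfl, fun κ hκ => ?_⟩
  obtain ⟨kc, hkc, κ', hκ', hCol⟩ := hC u0 R d h ψ H Ar φ p B X L D u s₀ a g hu hu0 ha hg hR κ hκ
  refine ⟨kc, hkc, fun k hk hkk => ?_⟩
  by_contra hP
  have hQ : ∀ n : ℕ, EvS h a g κ ψ B X L u s₀ (fun U x s1 => ∀ (p' : ℝ × ℝ) (s' : ℝ),
      V (fun q s => φ (ray q s)) (φ (ray (x, u) s1)) s1 (x, u) k p' s' →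
      infDist p'.2 U ≤ s' → Intr h κ' ψ B p' s' ∧
      SlowAt (1 / ((n : ℝ) + 1)) (KE (a + g) n) (KE a n) ψ (fun q => φ (bl p' s' q))
        (fun q => p (bl p' s' q)) (fun q => B (bl p' s' q))) := by
    intro n
    have hn : (0 : ℝ) < 1 / ((n : ℝ) + 1) := by positivity
    refine (hCol (1 / ((n : ℝ) + 1)) hn (KE (a + g) n) (KM_sub hn) (KM_compact _ _ _)
      (KE a n) (KM_sub hn) (KM_compact _ _ _)).mono ?_
    intro U x s1 h1 p' s' hV hi
    exact h1 p' s' (V_up hV hkk le_rfl hV.2.1) hi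
  obtain ⟨ρ, δ, U, x, s1, hs⟩ := extract hP _ hQ
  have hrec : ∀ n, ∃ (c : ℝ × ℝ) (s : ℝ),
      V (fun q s => φ (ray q s)) (φ (ray (x n, u) (s1 n))) (s1 n) (x n, u) (3 * k / 4) c s ∧
      infDist c.2 (U n) ≤ s ∧ dist c (x n, u) ≤ s1 n / 2 ∧
      (s / s1 n) ^ (1 / 2 : ℝ) ≤ oe 8 φ c s ∧ ∀ (p'' : ℝ × ℝ) (s'' : ℝ),
        V (fun q s => φ (ray q s)) (φ (ray (x n, u) (s1 n))) (s1 n) (x n, u) k p'' s'' →
        rho (1 / 2) c s p'' s'' * oe 8 φ p'' s'' ≤ 16 * oe 8 φ c s := by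
    intro n
    have h9 := (hs n).2.2.2.2.2.2.2.2
    push Not at h9
    obtain ⟨c, s, h1, h2, h3, h4, h5⟩ := h9
    exact ⟨c, s, h1, h2, h3, h4, h5⟩
  choose c s r1 r2 r3 r4 r5 using hrec
  have DD : Rec a g k κ' ψ φ p B X L u s₀ ρ δ U x s1 c s h :=
    { a0 := ha
      g0 := hg
      k0 := hk
      hρ := fun n => (hs n).1
      base := fun n => (hs n).2.1
      x0 := fun n => (hs n).2.2.1
      x1 := fun n => (hs n).2.2.2.1
      s1pos := fun n => (hs n).2.2.2.2.1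
      s1δ := fun n => (hs n).2.2.2.2.2.1
      s1l := fun n => (hs n).2.2.2.2.2.2.1
      φd := D.φ_diff
      coll := fun n => (hs n).2.2.2.2.2.2.2.1
      win := r1
      inf := r2
      dst := r3
      low := r4
      rcd := r5 }
  clear hs
  -- the good bases
  have hv : ∀ n, ∃ v ∈ U n, |v - (c n).2| ≤ s n := by
    intro n
    obtain ⟨v, hv, he⟩ := (DD.base n).closed.exists_infDist_eq_dist ⟨u, (DD.base n).mem⟩ (c n).2
    refine ⟨v, hv, ?_⟩
    have h1 := r2 n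
    rw [he, Real.dist_eq, abs_sub_comm] at h1
    exact h1
  choose v hvU hvc using hv
  obtain ⟨N, hN⟩ := eventually_atTop.1 (base_win DD)
  have hT : Tendsto (fun n : ℕ => n + N) atTop atTop := tendsto_add_atTop_nat N
  have hspos : ∀ n, 0 < s n := spos DD
  have hn0 : ∀ n : ℕ, (0 : ℝ) < (n : ℝ) + 1 := fun n => by positivity
  have hlim0 : Tendsto (fun n : ℕ => 1 / ((n : ℝ) + 1)) atTop (𝓝 0) :=
    tendsto_one_div_add_atTop_nhds_zero_nat
  have hlim2 : Tendsto (fun n : ℕ => 2 * (1 / ((n : ℝ) + 1))) atTop (𝓝 0) := by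
    have := hlim0.const_mul 2
    simpa using this
  have hdc : ∀ n, |(c n).1 - x n| ≤ s1 n / 2 ∧ |(c n).2 - u| ≤ s1 n / 2 := by
    intro n
    have h1 := r3 n
    rw [Prod.dist_eq, Real.dist_eq, Real.dist_eq] at h1
    exact ⟨(le_max_left _ _).trans h1, (le_max_right _ _).trans h1⟩
  have hsl : ∀ n, s n ≤ 1 / ((n : ℝ) + 1) := fun n => (s_le DD n).trans (DD.s1l n)
  have he : Tendsto (fun n => ((c n).1, v n)) atTop (𝓝 (s₀, u)) := by
    refine Tendsto.prodMk_nhds ?_ ?_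
    · rw [tendsto_iff_dist_tendsto_zero]
      refine squeeze_zero (fun _ => dist_nonneg) (fun n => ?_) hlim2
      rw [Real.dist_eq]
      have h1 := abs_sub_le (c n).1 (x n) s₀
      have h2 := (hdc n).1
      have h3 := DD.x0 n
      have h4 := DD.s1l n
      have h5 := DD.s1pos n
      linarith
    · rw [tendsto_iff_dist_tendsto_zero]
      refine squeeze_zero (fun _ => dist_nonneg) (fun n => ?_) hlim2
      rw [Real.dist_eq]
      have h1 := abs_sub_le (v n) (c n).2 u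
      have h2 := (hdc n).2
      have h3 := hvc n
      have h4 := DD.s1l n
      have h5 := DD.s1pos n
      have h6 := hsl n
      linarith
  have hs0 : Tendsto s atTop (𝓝 0) :=
    squeeze_zero (fun n => (hspos n).le) hsl hlim0
  have hρ0 : Tendsto ρ atTop (𝓝 0) :=
    squeeze_zero (fun n => (DD.base n).ρ_pos.le) DD.hρ hlim0
  have hsδ : Tendsto (fun n => s n / δ n) atTop (𝓝 0) := by
    refine squeeze_zero (fun n => div_nonneg (hspos n).le (DD.base n).δ_pos.le) (fun n => ?_) hlim0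
    have hδ := (DD.base n).δ_pos
    have h1 := (s_le DD n).trans (DD.s1δ n)
    have h2 := hn0 n
    rw [div_le_div_iff₀ hδ h2]
    rw [le_div_iff₀ (by positivity)] at h1
    have := hspos n
    nlinarith
  have hE2 : ∀ n, E2 X L a g (ρ n) (δ n) ((c n).1, v n) := by
    intro n
    refine (DD.base n).e2 (v n) (hvU n) (c n).1 ?_
    have h1 := abs_sub_le (c n).1 (x n) s₀
    have h2 := (hdc n).1
    have h3 := DD.x1 n
    have h4 := s1δ' DD n
    have h5 := (DD.base n).δ_pos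
    linarith
  have hi0 : ∀ n, infDist ((c n).1, v n).2 (U n) ≤ s n := by
    intro n
    show infDist (v n) (U n) ≤ s n
    rw [infDist_zero_of_mem (hvU n)]
    exact (hspos n).le
  refine norec_end SW D hu hu0 ha hg hκ' (e := fun n => ((c (n + N)).1, v (n + N)))
    (s := fun n => s (n + N)) (ρ := fun n => ρ (n + N)) (η := fun n => δ (n + N)) (s₀ := s₀)
    (he.comp hT) (fun n => hspos _) (hs0.comp hT) (fun n => (DD.base _).ρ_pos) (hρ0.comp hT)
    (fun n => (DD.base _).δ_pos) (hsδ.comp hT) (fun n => hE2 _)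
    (fun n => (DD.coll (n + N) _ _ (hN (n + N) (Nat.le_add_left _ _) _ (hvc _)) (hi0 _)).1) ?_
    (c := fun n => c (n + N)) (r := fun n => (v (n + N) - (c (n + N)).2) / s (n + N)) ?_ ?_
    (om := fun n => oe 8 φ (c (n + N)) (s (n + N))) (fun n => om_pos DD _) hg le_rfl
    (th := 3 / 4) (by norm_num) (by norm_num) ?_ (K0 := kd 8) (SlowS.isCompact_kd le_rfl)
    (SlowS.kd_sub_Wg le_rfl ha) ⟨1 / 2, by norm_num, ?_⟩
  · intro ε hε K hK hKc K' hK' hKc'
    filter_upwards [hT.eventually (slow DD hε hK hKc hK' hKc')] with n hn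
    exact hn _ _ (hN (n + N) (Nat.le_add_left _ _) _ (hvc _)) (hi0 _)
  · intro n
    show |(v (n + N) - (c (n + N)).2) / s (n + N)| ≤ 1
    rw [abs_div, abs_of_pos (hspos _)]
    exact (div_le_one (hspos _)).2 (hvc _)
  · intro n
    have h1 := (hspos (n + N)).ne'
    refine Prod.ext rfl ?_
    show v (n + N) = (c (n + N)).2 + (v (n + N) - (c (n + N)).2) / s (n + N) * s (n + N)
    rw [div_mul_cancel₀ _ h1]
    ring
  · intro K hK hKc
    obtain ⟨M, hM⟩ := grow DD hK hKc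
    exact ⟨M, fun y hy => hT.eventually (hM y hy)⟩
  · refine Eventually.of_forall fun n => ?_
    have h0 := om_pos DD (n + N)
    obtain ⟨q, hq, h1⟩ := SlowE.exists_of_lt_oe (A := 8) (φ := φ) (p := c (n + N))
      (s := s (n + N)) (ε := 1 / 2 * oe 8 φ (c (n + N)) (s (n + N))) (by positivity) (by linarith)
    obtain ⟨y, rfl⟩ := SlowS.exists_bl (p := c (n + N)) (hspos (n + N)) q
    exact ⟨y, (SlowS.bl_mem_KD (hspos _)).1 hq, h1.le⟩

end Crest.Agent.R102.NoRecP203
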