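import Crest.Agent.R102.NoRecX_985
import Crest.Agent.R102.SlowF_486
import Crest.Agent.R102.ColPhi_841
import Crest.Agent.R102.LimP_654
import Crest.Agent.R102.LocGrow_115

/-!
Row 102, T1-B, EDGE / SLOW (helper314): the record statement `SlowJ486.NoRecP`.
-/

set_option autoImplicit false

open Set Filter Topology Metric MeasureTheory Complex

noncomputable section

namespace Crest.Agent.R102.NoRec314

open Crest.Agent.R102.Sup115 (E2)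
open Crest.Agent.R102.S5 (ray bl Half Cn)
open Crest.Agent.R102.TreeS174 (KD)
open Crest.Agent.R102.Edge255
open Crest.Agent.R102.SlowE (oe)
open Crest.Agent.R102.SlowS (kd)
open Crest.Agent.R102.Chain859 (V rho V_up)
open Crest.Agent.R102.SlowJ486
open Crest.Agent.R102.LocGrow115 (HSide HArc)

/-- the counter sequences of `NoRecP` -/
structure Cnt (a g k kc h κ' : ℝ) (ψ : ℂ → ℂ) (φ p B : ℂ × ℂ → ℂ) (X L : Set (ℂ × ℂ)) (u s₀ : ℝ)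
    (ρ δ : ℕ → ℝ) (U : ℕ → Set ℝ) (x s1 : ℕ → ℝ) (c : ℕ → ℝ × ℝ) (s : ℕ → ℝ) : Prop where
  ρ_le : ∀ n, ρ n ≤ 1 / ((n : ℝ) + 1)
  base : ∀ n, Base a g X L u s₀ (ρ n) (δ n) (U n)
  x_lt : ∀ n, |x n - s₀| < min (δ n / 4) (1 / ((n : ℝ) + 1))
  s1_pos : ∀ n, 0 < s1 n
  s1_le : ∀ n, s1 n ≤ min (δ n) 1 / (40 * ((n : ℝ) + 1))
  V34 : ∀ n, V (fun q s => φ (ray q s)) (φ (ray (x n, u) (s1 n))) (s1 n) (x n, u) (3 * k / 4)
    (c n) (s n)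
  inf : ∀ n, infDist (c n).2 (U n) ≤ s n
  dist_le : ∀ n, dist (c n) (x n, u) ≤ s1 n / 2
  oe_ge : ∀ n, (s n / s1 n) ^ (1 / 2 : ℝ) ≤ oe 8 φ (c n) (s n)
  rcd : ∀ n (p'' : ℝ × ℝ) (s'' : ℝ),
    V (fun q s => φ (ray q s)) (φ (ray (x n, u) (s1 n))) (s1 n) (x n, u) k p'' s'' →
    rho (1 / 2) (c n) (s n) p'' s'' * oe 8 φ p'' s'' ≤ 16 * oe 8 φ (c n) (s n)
  col : ∀ ε > 0, ∀ K ⊆ Wg (a + g), IsCompact K → ∀ K' ⊆ Wg a, IsCompact K' →
    ∀ᶠ n in atTop, ∀ (p' : ℝ × ℝ) (s' : ℝ),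
      V (fun q s => φ (ray q s)) (φ (ray (x n, u) (s1 n))) (s1 n) (x n, u) kc p' s' →
      infDist p'.2 (U n) ≤ s' → Intr h κ' ψ B p' s' ∧
      SlowAt ε K K' ψ (fun q => φ (bl p' s' q)) (fun q => p (bl p' s' q))
        (fun q => B (bl p' s' q))

section Facts

variable {a g k kc h κ' : ℝ} {ψ : ℂ → ℂ} {φ p B : ℂ × ℂ → ℂ} {X L : Set (ℂ × ℂ)} {u s₀ : ℝ}
  {ρ δ : ℕ → ℝ} {U : ℕ → Set ℝ} {x s1 : ℕ → ℝ} {c : ℕ → ℝ × ℝ} {s : ℕ → ℝ}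

lemma tend_inv : Tendsto (fun n : ℕ => 1 / ((n : ℝ) + 1)) atTop (𝓝 0) :=
  tendsto_one_div_add_atTop_nhds_zero_nat

namespace Cnt

variable (Z : Cnt a g k kc h κ' ψ φ p B X L u s₀ ρ δ U x s1 c s)
include Z

lemma s_pos (n : ℕ) : 0 < s n := (Z.V34 n).1
lemma s_le (n : ℕ) : s n ≤ s1 n := (Z.V34 n).2.1
lemma δ_pos (n : ℕ) : 0 < δ n := (Z.base n).δ_pos

lemma s1_δ (n : ℕ) : 40 * s1 n ≤ δ n := by
  have h1 := Z.s1_le n
  have hn : (0 : ℝ) ≤ n := Nat.cast_nonneg n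
  have h2 : 0 < 40 * ((n : ℝ) + 1) := by positivity
  rw [le_div_iff₀ h2] at h1
  have h3 := min_le_left (δ n) 1
  have h4 := Z.s1_pos n
  nlinarith

lemma s1_δn (n : ℕ) : s1 n / δ n ≤ 1 / ((n : ℝ) + 1) := by
  have h1 := Z.s1_le n
  have hn : (0 : ℝ) ≤ n := Nat.cast_nonneg n
  have h2 : 0 < 40 * ((n : ℝ) + 1) := by positivity
  rw [le_div_iff₀ h2] at h1
  have h3 := min_le_left (δ n) 1
  have h4 := Z.s1_pos n
  rw [div_le_div_iff₀ (Z.δ_pos n) (by positivity)]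
  nlinarith

lemma s1_le1 (n : ℕ) : s1 n ≤ 1 / ((n : ℝ) + 1) := by
  have h1 := Z.s1_le n
  have hn : (0 : ℝ) ≤ n := Nat.cast_nonneg n
  have h2 : 0 < 40 * ((n : ℝ) + 1) := by positivity
  rw [le_div_iff₀ h2] at h1
  have h3 := min_le_right (δ n) 1
  have h4 := Z.s1_pos n
  rw [le_div_iff₀ (by positivity)]
  nlinarith

lemma s1_zero : Tendsto s1 atTop (𝓝 0) :=
  squeeze_zero (fun n => (Z.s1_pos n).le) Z.s1_le1 tend_inv

lemma s_zero : Tendsto s atTop (𝓝 0) :=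
  squeeze_zero (fun n => (Z.s_pos n).le) Z.s_le Z.s1_zero

lemma ρ_zero : Tendsto ρ atTop (𝓝 0) :=
  squeeze_zero (fun n => (Z.base n).ρ_pos.le) Z.ρ_le tend_inv

lemma sδ_zero : Tendsto (fun n => s n / δ n) atTop (𝓝 0) := by
  refine squeeze_zero (fun n => div_nonneg (Z.s_pos n).le (Z.δ_pos n).le) (fun n => ?_) tend_inv
  refine le_trans ?_ (Z.s1_δn n)
  have := Z.δ_pos n
  have := Z.s_le n
  gcongr

lemma dist1 (n : ℕ) : |(c n).1 - x n| ≤ s1 n / 2 := by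
  have h1 := Z.dist_le n
  rw [Prod.dist_eq, Real.dist_eq, Real.dist_eq] at h1
  exact (le_max_left _ _).trans h1

lemma dist2 (n : ℕ) : |(c n).2 - u| ≤ s1 n / 2 := by
  have h1 := Z.dist_le n
  rw [Prod.dist_eq, Real.dist_eq, Real.dist_eq] at h1
  exact (le_max_right _ _).trans h1

lemma om_pos (n : ℕ) : 0 < oe 8 φ (c n) (s n) := by
  refine lt_of_lt_of_le ?_ (Z.oe_ge n)
  have := Z.s_pos n
  have := Z.s1_pos n
  positivity

/-- `φ` is holomorphic on the deep compacts of the windows of the tree -/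
lemma hol {n : ℕ} {q : ℝ × ℝ} {t : ℝ} (ha : 0 ≤ a) (hg : 0 < g) (ht : 0 < t) (ht1 : t ≤ s1 n)
    (hq : dist q (x n, u) ≤ s1 n) : KD 8 q.1 q.2 t ⊆ L := by
  have h1 := Z.s1_δ n
  have h2 := Z.s1_pos n
  refine KD_sub ((Z.base n).e2 u (Z.base n).mem (x n) ?_) ha hg le_rfl ht ht1 hq (by linarith)
  have := (Z.x_lt n).trans_le (min_le_left _ _)
  have := Z.δ_pos n
  linarith

/-- collapse at the ancestors of the record window -/
lemma anc (hk : 0 < k) (hkk : k ≤ kc) {ε : ℝ} (hε : 0 < ε) {K : Set (ℂ × ℂ)}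
    (hK : K ⊆ Wg (a + g)) (hKc : IsCompact K) {K' : Set (ℂ × ℂ)} (hK' : K' ⊆ Wg a)
    (hKc' : IsCompact K') : ∀ᶠ n in atTop, ∀ t, s n ≤ t → t ≤ s1 n →
      Intr h κ' ψ B (c n) t ∧
      SlowAt ε K K' ψ (fun q => φ (bl (c n) t q)) (fun q => p (bl (c n) t q))
        (fun q => B (bl (c n) t q)) := by
  filter_upwards [Z.col ε hε K hK hKc K' hK' hKc'] with n hn t ht1 ht2
  exact hn (c n) t (V_up (Z.V34 n) (by linarith) ht1 ht2) ((Z.inf n).trans ht1)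

lemma anc_oe (ha : 0 ≤ a) (hg : 0 < g) (hL : DifferentiableOn ℂ φ L) (hk : 0 < k)
    (hkk : k ≤ kc) {ε : ℝ} (hε : 0 < ε) : ∀ᶠ n in atTop, ∀ t, s n ≤ t → t ≤ s1 n →
      oe 8 φ (c n) t ≤ ε := by
  set ε' : ℝ := min (ε / 2) (1 / 2) with hε'
  have hε0 : 0 < ε' := by positivity
  filter_upwards [Z.anc hk hkk hε0 (SlowS.kd_sub_Wg (A := 8) le_rfl (by linarith : 0 ≤ a + g))
    (SlowS.isCompact_kd le_rfl) (empty_subset _) isCompact_empty] with n hn t ht1 ht2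
  have ht : 0 < t := (Z.s_pos n).trans_le ht1
  have hd : dist (c n) (x n, u) ≤ s1 n := by
    have := Z.dist_le n
    have := Z.s1_pos n
    linarith
  have h1 := SlowS.slow_osc (A := 8) le_rfl (min_le_right _ _ : ε' ≤ 1 / 2) Subset.rfl ht
    (hL.continuousOn.mono (Z.hol ha hg ht ht2 hd)) (hn t ht1 ht2).2
  have h2 : ε' ≤ ε / 2 := min_le_left _ _
  linarith

lemma om_zero (ha : 0 ≤ a) (hg : 0 < g) (hL : DifferentiableOn ℂ φ L) (hk : 0 < k)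
    (hkk : k ≤ kc) : Tendsto (fun n => oe 8 φ (c n) (s n)) atTop (𝓝 0) := by
  rw [Metric.tendsto_atTop]
  intro ε hε
  obtain ⟨N, hN⟩ := eventually_atTop.1 (Z.anc_oe ha hg hL hk hkk (ε := ε / 2) (by positivity))
  refine ⟨N, fun n hn => ?_⟩
  have h1 := hN n hn (s n) le_rfl (Z.s_le n)
  have h2 := Z.om_pos n
  rw [Real.dist_eq, sub_zero, abs_of_pos h2]
  linarith

/-- the outer scale -/
def rs (φ : ℂ × ℂ → ℂ) (c : ℕ → ℝ × ℝ) (s : ℕ → ℝ) (n : ℕ) : ℝ :=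
  s n * oe 8 φ (c n) (s n) ^ (-(4 / 3) : ℝ)

omit Z in
lemma rs_def (φ : ℂ × ℂ → ℂ) (c : ℕ → ℝ × ℝ) (s : ℕ → ℝ) (n : ℕ) :
    rs φ c s n = s n * oe 8 φ (c n) (s n) ^ (-(4 / 3) : ℝ) := rfl

lemma rs_pos (n : ℕ) : 0 < rs φ c s n := by
  have := Z.s_pos n
  have := Z.om_pos n
  unfold rs
  positivity

lemma s_le_rs (n : ℕ) : s n ≤ rs φ c s n := by
  have h1 := Z.s_pos n
  have h2 := Z.om_pos n
  have h3 := SlowE.oe_le_one 8 φ (c n) (s n)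
  have h4 : 1 ≤ oe 8 φ (c n) (s n) ^ (-(4 / 3) : ℝ) :=
    Real.one_le_rpow_of_pos_of_le_one_of_nonpos h2 h3 (by norm_num)
  unfold rs
  nlinarith

lemma srs (n : ℕ) : s n / rs φ c s n = oe 8 φ (c n) (s n) ^ (4 / 3 : ℝ) := by
  have h1 := Z.s_pos n
  have h2 := Z.om_pos n
  unfold rs
  rw [Real.rpow_neg h2.le]
  field_simp

lemma srs_zero (ha : 0 ≤ a) (hg : 0 < g) (hL : DifferentiableOn ℂ φ L) (hk : 0 < k)
    (hkk : k ≤ kc) : Tendsto (fun n => s n / rs φ c s n) atTop (𝓝 0) := by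
  have h1 := Z.om_zero ha hg hL hk hkk
  have h2 : Tendsto (fun n => oe 8 φ (c n) (s n) ^ (4 / 3 : ℝ)) atTop (𝓝 (0 ^ (4 / 3 : ℝ))) :=
    h1.rpow_const (Or.inr (by norm_num))
  rw [Real.zero_rpow (by norm_num)] at h2
  exact h2.congr fun n => (Z.srs n).symm

/-- `r n ≤ s1 n * om n ^ (2 / 3)` -/
lemma rs_le (n : ℕ) : rs φ c s n ≤ s1 n * oe 8 φ (c n) (s n) ^ (2 / 3 : ℝ) := by
  have h1 := Z.s_pos n
  have h2 := Z.om_pos n
  have h3 := Z.s1_pos n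
  have h4 := Z.oe_ge n
  have h5 : s n / s1 n ≤ oe 8 φ (c n) (s n) ^ (2 : ℝ) := by
    have h6 : ((s n / s1 n) ^ (1 / 2 : ℝ)) ^ (2 : ℝ) ≤ oe 8 φ (c n) (s n) ^ (2 : ℝ) :=
      Real.rpow_le_rpow (by positivity) h4 (by norm_num)
    rw [← Real.rpow_mul (by positivity)] at h6
    norm_num at h6
    convert h6 using 1
    norm_num
  rw [div_le_iff₀ h3] at h5
  have h7 : oe 8 φ (c n) (s n) ^ (2 : ℝ) * oe 8 φ (c n) (s n) ^ (-(4 / 3) : ℝ) =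
      oe 8 φ (c n) (s n) ^ (2 / 3 : ℝ) := by
    rw [← Real.rpow_add h2]
    norm_num
  unfold rs
  calc s n * oe 8 φ (c n) (s n) ^ (-(4 / 3) : ℝ)
      ≤ (oe 8 φ (c n) (s n) ^ (2 : ℝ) * s1 n) * oe 8 φ (c n) (s n) ^ (-(4 / 3) : ℝ) := by gcongr
    _ = s1 n * (oe 8 φ (c n) (s n) ^ (2 : ℝ) * oe 8 φ (c n) (s n) ^ (-(4 / 3) : ℝ)) := by ring
    _ = _ := by rw [h7]

lemma rs_small (ha : 0 ≤ a) (hg : 0 < g) (hL : DifferentiableOn ℂ φ L) (hk : 0 < k)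
    (hkk : k ≤ kc) (C : ℝ) : ∀ᶠ n in atTop, C * rs φ c s n ≤ s1 n := by
  have h1 := Z.om_zero ha hg hL hk hkk
  have h2 : Tendsto (fun n => |C| * oe 8 φ (c n) (s n) ^ (2 / 3 : ℝ)) atTop
      (𝓝 (|C| * 0 ^ (2 / 3 : ℝ))) :=
    (h1.rpow_const (Or.inr (by norm_num))).const_mul _
  rw [Real.zero_rpow (by norm_num), mul_zero] at h2
  filter_upwards [h2.eventually (gt_mem_nhds one_pos)] with n hn
  have h3 := Z.rs_le n
  have h4 := Z.s1_pos n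
  have h5 := Z.rs_pos n
  calc C * rs φ c s n ≤ |C| * rs φ c s n := by
        gcongr
        exact le_abs_self C
    _ ≤ |C| * (s1 n * oe 8 φ (c n) (s n) ^ (2 / 3 : ℝ)) := by gcongr
    _ = s1 n * (|C| * oe 8 φ (c n) (s n) ^ (2 / 3 : ℝ)) := by ring
    _ ≤ s1 n * 1 := by gcongr
    _ = s1 n := mul_one _

/-- the nearest point of `U` -/
lemma exists_e : ∃ e : ℕ → ℝ × ℝ, (∀ n, (e n).1 = (c n).1) ∧ (∀ n, |(e n).2 - (c n).2| ≤ s n) ∧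
    ∀ n, (e n).2 ∈ U n := by
  have h : ∀ n, ∃ v ∈ U n, infDist (c n).2 (U n) = dist (c n).2 v := fun n =>
    (Z.base n).closed.exists_infDist_eq_dist ⟨u, (Z.base n).mem⟩ _
  choose v hv hd using h
  refine ⟨fun n => ((c n).1, v n), fun n => rfl, fun n => ?_, hv⟩
  have h1 := Z.inf n
  rw [hd n, Real.dist_eq] at h1
  rwa [abs_sub_comm]

lemma e2_e {e : ℕ → ℝ × ℝ} (h1 : ∀ n, (e n).1 = (c n).1) (h3 : ∀ n, (e n).2 ∈ U n) (n : ℕ) :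
    E2 X L a g (ρ n) (δ n) (e n) := by
  have h4 := (Z.base n).e2 (e n).2 (h3 n) (e n).1 ?_
  · exact h4
  · rw [h1 n]
    have h5 := Z.dist1 n
    have h6 := (Z.x_lt n).trans_le (min_le_left _ _)
    have h7 := Z.s1_δ n
    have h8 := Z.δ_pos n
    have h9 : |(c n).1 - s₀| ≤ |(c n).1 - x n| + |x n - s₀| := by
      calc |(c n).1 - s₀| = |((c n).1 - x n) + (x n - s₀)| := by ring_nf
        _ ≤ _ := abs_add_le _ _
    linarith [Z.s1_pos n]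

lemma e_lim {e : ℕ → ℝ × ℝ} (h1 : ∀ n, (e n).1 = (c n).1) (h2 : ∀ n, |(e n).2 - (c n).2| ≤ s n) :
    Tendsto e atTop (𝓝 (s₀, u)) := by
  rw [Prod.tendsto_iff]
  constructor
  · rw [tendsto_iff_dist_tendsto_zero]
    have h3 : Tendsto (fun n => s1 n + 1 / ((n : ℝ) + 1)) atTop (𝓝 (0 + 0)) :=
      Z.s1_zero.add tend_inv
    rw [add_zero] at h3
    refine squeeze_zero (fun n => dist_nonneg) (fun n => ?_) h3
    rw [Real.dist_eq, h1 n]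
    have h5 := Z.dist1 n
    have h6 := (Z.x_lt n).trans_le (min_le_right _ _)
    have h9 : |(c n).1 - s₀| ≤ |(c n).1 - x n| + |x n - s₀| := by
      calc |(c n).1 - s₀| = |((c n).1 - x n) + (x n - s₀)| := by ring_nf
        _ ≤ _ := abs_add_le _ _
    linarith [Z.s1_pos n]
  · rw [tendsto_iff_dist_tendsto_zero]
    have h3 : Tendsto (fun n => s n + s1 n) atTop (𝓝 (0 + 0)) := Z.s_zero.add Z.s1_zero
    rw [add_zero] at h3
    refine squeeze_zero (fun n => dist_nonneg) (fun n => ?_) h3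
    rw [Real.dist_eq]
    have h5 := Z.dist2 n
    have h6 := h2 n
    have h9 : |(e n).2 - u| ≤ |(e n).2 - (c n).2| + |(c n).2 - u| := by
      calc |(e n).2 - u| = |((e n).2 - (c n).2) + ((c n).2 - u)| := by ring_nf
        _ ≤ _ := abs_add_le _ _
    linarith [Z.s1_pos n]

/-- `φ` is holomorphic on the half discs of the outer scale -/
lemma hdiff (ha : 0 ≤ a) (hg : 0 < g) (hL : DifferentiableOn ℂ φ L) (hk : 0 < k)
    (hkk : k ≤ kc) (C : ℝ) :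
    ∀ᶠ n in atTop, DifferentiableOn ℂ φ (Half (c n) (C * rs φ c s n) (a + g)) := by
  obtain ⟨e, h1, h2, h3⟩ := Z.exists_e
  filter_upwards [Z.rs_small ha hg hL hk hkk C] with n hn
  refine hL.mono (Subset.trans ?_ (Z.e2_e h1 h3 n).line)
  rintro q ⟨q1, q2, q3, q4, q5⟩
  have h4 := Z.s1_δ n
  have h5 := Z.s1_pos n
  have h6 := Z.s_le n
  refine ⟨?_, ?_, ?_, q4, q5⟩
  · rw [h1 n]; linarith
  · linarith
  · have e1 : q.2 - ((e n).2 : ℂ) = (q.2 - ((c n).2 : ℂ)) - (((e n).2 - (c n).2 : ℝ) : ℂ) := by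
      push_cast; ring
    rw [e1]
    refine lt_of_le_of_lt (norm_sub_le _ _) ?_
    rw [Complex.norm_real, Real.norm_eq_abs]
    linarith [h2 n]

/-- **the end** -/
theorem fin {u0 R d : ℝ} {H A : ℂ → ℂ} (D : ED u0 R d h ψ H A φ p B X L)
    (hu : u ∈ Ioo (u0 - R) (u0 + R)) (hu0 : u ≠ 0) (ha : 0 ≤ a) (hg : 0 < g) (hκ' : 0 < κ')
    (hk : 0 < k) (hkk : k ≤ kc)
    (hside : HSide (1 / 2) (1 / 2) φ c s (rs φ c s) (fun n => oe 8 φ (c n) (s n)))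
    (harc : HArc (a + g) (1 / 2) φ c s (rs φ c s) (fun n => oe 8 φ (c n) (s n))) : False := by
  obtain ⟨e, h1, h2, h3⟩ := Z.exists_e
  refine NoRecX985.norec_oe LimK654.slowWorldP D hu hu0 ha hg hκ' (c := c) (e := e) (s := s)
    (ρ := ρ) (η := δ) (Z.e_lim h1 h2) Z.s_pos Z.s_zero (fun n => (Z.base n).ρ_pos) Z.ρ_zero
    Z.δ_pos Z.sδ_zero (Z.e2_e h1 h3) h1 h2 ?_ ?_ le_rfl Z.om_pos (g' := g) hg le_rfl
    (th := 1 / 2) (by norm_num) (by norm_num) ?_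
  · filter_upwards [Z.anc hk hkk one_pos (empty_subset _) isCompact_empty (empty_subset _)
      isCompact_empty] with n hn
    exact (hn (s n) le_rfl (Z.s_le n)).1
  · intro ε hε K hK hKc K' hK' hKc'
    filter_upwards [Z.anc hk hkk hε hK hKc hK' hKc'] with n hn
    exact (hn (s n) le_rfl (Z.s_le n)).2
  · exact LocGrow115.grow_rec ha hg le_rfl (by norm_num) (by norm_num) (by norm_num) Z.s_pos
      Z.rs_pos Z.om_pos (Z.srs_zero ha hg D.φ_diff hk hkk) (Z.hdiff ha hg D.φ_diff hk hkk) hside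
      harc

end Cnt

end Facts

/-- **NoRecP** from the side and the arc bounds -/
theorem noRecP_of
    (hside : ∀ {a g k kc h κ' : ℝ} {ψ : ℂ → ℂ} {φ p B : ℂ × ℂ → ℂ} {X L : Set (ℂ × ℂ)} {u s₀ : ℝ}
      {ρ δ : ℕ → ℝ} {U : ℕ → Set ℝ} {x s1 : ℕ → ℝ} {c : ℕ → ℝ × ℝ} {s : ℕ → ℝ},
      Cnt a g k kc h κ' ψ φ p B X L u s₀ ρ δ U x s1 c s → DifferentiableOn ℂ φ L → 0 ≤ a → 0 < g →
      0 < k → k ≤ kc → HSide (1 / 2) (1 / 2) φ c s (Cnt.rs φ c s) (fun n => oe 8 φ (c n) (s n)))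
    (harc : ∀ {a g k kc h κ' : ℝ} {ψ : ℂ → ℂ} {φ p B : ℂ × ℂ → ℂ} {X L : Set (ℂ × ℂ)} {u s₀ : ℝ}
      {ρ δ : ℕ → ℝ} {U : ℕ → Set ℝ} {x s1 : ℕ → ℝ} {c : ℕ → ℝ × ℝ} {s : ℕ → ℝ},
      Cnt a g k kc h κ' ψ φ p B X L u s₀ ρ δ U x s1 c s → DifferentiableOn ℂ φ L → 0 ≤ a → 0 < g →
      0 < k → k ≤ kc → HArc (a + g) (1 / 2) φ c s (Cnt.rs φ c s)
        (fun n => oe 8 φ (c n) (s n))) : NoRecP := by
  intro u0 R d h ψ H A φ p B X L D u s₀ a g hu hu0 ha hg hR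
  refine ⟨8, le_rfl, fun κ hκ => ?_⟩
  obtain ⟨kc, hkc, κ', hκ', hcs⟩ := col_seq ColPhi841.colPhi D hu hu0 ha hg hR hκ
  refine ⟨kc, hkc, fun k hk hkk => ?_⟩
  refine hcs _ (fun n _ δ _ => min (δ / 4) (1 / ((n : ℝ) + 1))) ?_
    (fun n _ δ _ _ _ => min δ 1 / (40 * ((n : ℝ) + 1))) ?_ ?_
  · intro n ρ δ U _ hδ
    have : (0 : ℝ) < (n : ℝ) + 1 := by positivity
    positivity
  · intro n ρ δ U x σ _ hδ _
    have : (0 : ℝ) < (n : ℝ) + 1 := by positivity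
    positivity
  · intro ρ δ U x σ s1 hρ hbase hx hσ hcol hs1 hs1' hC hP
    have hP' : ∀ n, ∃ (c : ℝ × ℝ) (s : ℝ),
        V (fun q s => φ (ray q s)) (φ (ray (x n, u) (s1 n))) (s1 n) (x n, u) (3 * k / 4) c s ∧
        infDist c.2 (U n) ≤ s ∧ dist c (x n, u) ≤ s1 n / 2 ∧
        (s / s1 n) ^ (1 / 2 : ℝ) ≤ oe 8 φ c s ∧ ∀ (p'' : ℝ × ℝ) (s'' : ℝ),
          V (fun q s => φ (ray q s)) (φ (ray (x n, u) (s1 n))) (s1 n) (x n, u) k p'' s'' →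
          rho (1 / 2) c s p'' s'' * oe 8 φ p'' s'' ≤ 16 * oe 8 φ c s := by
      intro n
      have h1 := hP n
      push Not at h1
      exact h1
    choose c s b1 b2 b3 b4 b5 using hP'
    have Z : Cnt a g k kc h κ' ψ φ p B X L u s₀ ρ δ U x s1 c s :=
      ⟨hρ, hbase, hx, hs1, hs1', b1, b2, b3, b4, b5, hC⟩
    exact Z.fin D hu hu0 ha hg hκ' hk hkk (hside Z D.φ_diff ha hg hk hkk)
      (harc Z D.φ_diff ha hg hk hkk)

end Crest.Agent.R102.NoRec314
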