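import Crest.Agent.R102.SupDefs_115
import Crest.Agent.R266.Osgood

/-!
Row 102, T1-B, EDGE (helper971): the density end for SEQUENCES OF WINDOWS (moving centres `e n`,
scales `s n`, precision `ρ n → 0`): a holomorphic continuation of the blow-up label to a ball around
a face point does not exist for large `n`.
-/

set_option autoImplicit false

open Set Filter Topology Metric Complex

noncomputable section

namespace Crest.Agent.R102.NoReg971

open Crest.Agent.R102.S5 (Half bl)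
open Crest.Agent.R102.Sup115

/-- windows: centres `e n`, scales `s n`, precision `ρ n → 0` on the (much larger) scale `η n` -/
structure Wins (X L : Set (ℂ × ℂ)) (a g : ℝ) (e : ℕ → ℝ × ℝ) (s ρ η : ℕ → ℝ) : Prop where
  s_pos : ∀ n, 0 < s n
  rho_pos : ∀ n, 0 < ρ n
  eta_pos : ∀ n, 0 < η n
  rho_lim : Tendsto ρ atTop (𝓝 0)
  sc : Tendsto (fun n => s n / η n) atTop (𝓝 0)
  e2 : ∀ n, E2 X L a g (ρ n) (η n) (e n)

/-- below the face -/
def LoW (a : ℝ) : Set (ℂ × ℂ) := {x | 0 < x.2.im ∧ x.1.im < a * x.2.im}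

/-- below the level of the line -/
def GaW (a g : ℝ) : Set (ℂ × ℂ) := LoW (a + g)

/-- inverse blow-up -/
def ib (e : ℝ × ℝ) (s : ℝ) (q : ℂ × ℂ) : ℂ × ℂ := ((q.1 - e.1) / s, (q.2 - e.2) / s)

theorem bl_ib (e : ℝ × ℝ) {s : ℝ} (hs : 0 < s) (q : ℂ × ℂ) : bl e s (ib e s q) = q := by
  have h : (s : ℂ) ≠ 0 := by exact_mod_cast hs.ne'
  unfold bl ib
  ext1
  · simp only; field_simp; ring
  · simp only; field_simp; ring

theorem ib_bl (e : ℝ × ℝ) {s : ℝ} (hs : 0 < s) (q : ℂ × ℂ) : ib e s (bl e s q) = q := by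
  have h : (s : ℂ) ≠ 0 := by exact_mod_cast hs.ne'
  unfold bl ib
  ext1
  · simp only; field_simp; ring
  · simp only; field_simp; ring

theorem analyticAt_bl (e : ℝ × ℝ) (s : ℝ) (x : ℂ × ℂ) : AnalyticAt ℂ (bl e s) x := by
  unfold bl
  exact (analyticAt_const.add (analyticAt_const.mul analyticAt_fst)).prod
    (analyticAt_const.add (analyticAt_const.mul analyticAt_snd))

theorem analyticAt_ib (e : ℝ × ℝ) (s : ℝ) (x : ℂ × ℂ) : AnalyticAt ℂ (ib e s) x := by
  unfold ib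
  exact ((analyticAt_fst.sub analyticAt_const).div_const).prod
    ((analyticAt_snd.sub analyticAt_const).div_const)

theorem continuous_bl (e : ℝ × ℝ) (s : ℝ) : Continuous (bl e s) := by
  unfold bl; fun_prop

theorem continuous_ib (e : ℝ × ℝ) (s : ℝ) : Continuous (ib e s) := by
  unfold ib; fun_prop

theorem bl1_im (e : ℝ × ℝ) (s : ℝ) (x : ℂ × ℂ) : (bl e s x).1.im = s * x.1.im := by
  unfold bl; simp

theorem bl1_re (e : ℝ × ℝ) (s : ℝ) (x : ℂ × ℂ) : (bl e s x).1.re = e.1 + s * x.1.re := by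
  unfold bl; simp

theorem bl2_im (e : ℝ × ℝ) (s : ℝ) (x : ℂ × ℂ) : (bl e s x).2.im = s * x.2.im := by
  unfold bl; simp

theorem bl_mem_half {e : ℝ × ℝ} {s η m : ℝ} (hs : 0 < s) {x : ℂ × ℂ} (h1 : s * ‖x.1‖ < η)
    (h2 : s * ‖x.2‖ < η) (h3 : 0 < x.2.im) (h4 : x.1.im < m * x.2.im) :
    bl e s x ∈ Half e η m := by
  have hr := Complex.abs_re_le_norm x.1
  have hi := Complex.abs_im_le_norm x.1
  refine ⟨?_, ?_, ?_, ?_, ?_⟩
  · rw [bl1_re, add_sub_cancel_left, abs_mul, abs_of_pos hs]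
    exact (mul_le_mul_of_nonneg_left hr hs.le).trans_lt h1
  · rw [bl1_im]
    have h5 : s * |x.1.im| ≤ s * ‖x.1‖ := mul_le_mul_of_nonneg_left hi hs.le
    have h6 : -(s * |x.1.im|) ≤ s * x.1.im := by
      have := neg_abs_le x.1.im
      nlinarith
    linarith
  · have : (bl e s x).2 - (e.2 : ℂ) = s * x.2 := by unfold bl; simp
    rw [this, norm_mul, Complex.norm_real, Real.norm_eq_abs, abs_of_pos hs]
    exact h2
  · rw [bl2_im]; positivity
  · rw [bl1_im, bl2_im]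
    have := mul_lt_mul_of_pos_left h4 hs
    linarith

variable {X L : Set (ℂ × ℂ)} {a g h : ℝ} {e : ℕ → ℝ × ℝ} {s ρ η : ℕ → ℝ} {B : ℂ × ℂ → ℂ}

theorem ev_scale (W : Wins X L a g e s ρ η) (C : ℝ) : ∀ᶠ n in atTop, s n * C < η n := by
  have h1 : Tendsto (fun n => s n / η n * C) atTop (𝓝 (0 * C)) := W.sc.mul_const C
  rw [zero_mul] at h1
  filter_upwards [h1.eventually (gt_mem_nhds (zero_lt_one))] with n hn
  have := W.eta_pos n
  rw [div_mul_eq_mul_div, div_lt_one this] at hn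
  exact hn

/-- a compact subset of `LoW m` has a margin -/
theorem margin {m : ℝ} {K : Set (ℂ × ℂ)} (hK : IsCompact K) (hKm : K ⊆ LoW m) :
    ∃ κ > 0, ∃ C > 0, ∀ x ∈ K, x.1.im < (m - κ) * x.2.im ∧ ‖x.1‖ ≤ C ∧ ‖x.2‖ ≤ C := by
  rcases K.eq_empty_or_nonempty with rfl | hne
  · exact ⟨1, one_pos, 1, one_pos, by simp⟩
  have hc : ContinuousOn (fun x : ℂ × ℂ => (m * x.2.im - x.1.im) / x.2.im) K := by
    refine ContinuousOn.div ?_ ?_ (fun x hx => (hKm hx).1.ne')
    · exact (((continuous_const.mul (Complex.continuous_im.comp continuous_snd))).sub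
        (Complex.continuous_im.comp continuous_fst)).continuousOn
    · exact (Complex.continuous_im.comp continuous_snd).continuousOn
  obtain ⟨x0, hx0, hmin⟩ := hK.exists_isMinOn hne hc
  have hpos : 0 < (m * x0.2.im - x0.1.im) / x0.2.im :=
    div_pos (by linarith [(hKm hx0).2]) (hKm hx0).1
  obtain ⟨C, hC⟩ := hK.isBounded.exists_norm_le
  refine ⟨(m * x0.2.im - x0.1.im) / x0.2.im / 2, by positivity, |C| + 1, by positivity,
    fun x hx => ⟨?_, ?_, ?_⟩⟩
  · have h1 : (m * x0.2.im - x0.1.im) / x0.2.im ≤ (m * x.2.im - x.1.im) / x.2.im := hmin hx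
    have hx2 := (hKm hx).1
    rw [le_div_iff₀ hx2] at h1
    have : 0 < (m * x0.2.im - x0.1.im) / x0.2.im * x.2.im := mul_pos hpos hx2
    linarith
  · exact (norm_fst_le x).trans ((hC x hx).trans ((le_abs_self C).trans (by linarith)))
  · exact (norm_snd_le x).trans ((hC x hx).trans ((le_abs_self C).trans (by linarith)))

theorem ev_half {m : ℝ} (W : Wins X L a g e s ρ η) {K : Set (ℂ × ℂ)} (hK : IsCompact K)
    (hKm : K ⊆ LoW m) : ∀ᶠ n in atTop, ∀ x ∈ K, bl (e n) (s n) x ∈ Half (e n) (η n) (m - ρ n) := by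
  obtain ⟨κ, hκ, C, hC, hb⟩ := margin hK hKm
  filter_upwards [ev_scale W C, W.rho_lim.eventually (gt_mem_nhds hκ)] with n hn hρ x hx
  obtain ⟨h1, h2, h3⟩ := hb x hx
  have hs := W.s_pos n
  have hx2 := (hKm hx).1
  refine bl_mem_half hs ?_ ?_ hx2 ?_
  · exact (mul_le_mul_of_nonneg_left h2 hs.le).trans_lt hn
  · exact (mul_le_mul_of_nonneg_left h3 hs.le).trans_lt hn
  · nlinarith

/-- compacts below the face are in `X` -/
theorem ev_low (W : Wins X L a g e s ρ η) {K : Set (ℂ × ℂ)} (hK : IsCompact K)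
    (hKm : K ⊆ LoW a) : ∀ᶠ n in atTop, ∀ x ∈ K, bl (e n) (s n) x ∈ X := by
  filter_upwards [ev_half W hK hKm] with n hn x hx
  exact (W.e2 n).low (hn x hx)

/-- compacts below the level of the line are in `L` -/
theorem ev_line (W : Wins X L a g e s ρ η) {K : Set (ℂ × ℂ)} (hK : IsCompact K)
    (hKm : K ⊆ GaW a g) : ∀ᶠ n in atTop, ∀ x ∈ K, bl (e n) (s n) x ∈ L := by
  filter_upwards [ev_half (m := a + g) W hK hKm] with n hn x hx
  obtain ⟨h1, h2, h3, h4, h5⟩ := hn x hx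
  refine (W.e2 n).line ⟨h1, h2, h3, h4, h5.trans ?_⟩
  have := W.rho_pos n
  nlinarith

/-- **exit along a vertical segment** -/
theorem exit {V : Set (ℂ × ℂ)} {G : ℂ × ℂ → ℂ} {q : ℂ × ℂ} {ℓ : ℝ} (hX : IsOpen X)
    (hB : DifferentiableOn ℂ B X) (hM : MaxiX h X B) (hV : IsOpen V)
    (hG : DifferentiableOn ℂ G V) (hGh : ∀ y ∈ V, |(G y).im| < h) (hℓ : 0 ≤ ℓ)
    (hseg : ∀ τ ∈ Icc 0 ℓ, (q.1 - (τ : ℂ) * I, q.2) ∈ V)
    (h0 : (q.1 - (ℓ : ℂ) * I, q.2) ∈ X ∧ G =ᶠ[𝓝 (q.1 - (ℓ : ℂ) * I, q.2)] B) : q ∈ X := by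
  -- `d σ = q - (ℓ - σ) i`
  set d : ℝ → ℂ × ℂ := fun σ => (q.1 - ((ℓ - σ : ℝ) : ℂ) * I, q.2) with hd
  have hdc : Continuous d := by rw [hd]; fun_prop
  set P : ℝ → Prop := fun σ => d σ ∈ X ∧ G =ᶠ[𝓝 (d σ)] B with hP
  have hGa : AnalyticOnNhd ℂ G V :=
    Crest.Agent.R266.SCV.analyticOnNhd_of_differentiableOn hV hG
  have hBa : AnalyticOnNhd ℂ B X :=
    Crest.Agent.R266.SCV.analyticOnNhd_of_differentiableOn hX hB
  have hPopen : ∀ σ, P σ → ∀ᶠ σ' in 𝓝 σ, P σ' := by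
    intro σ hσ
    have h00 : ∀ᶠ y in 𝓝 (d σ), y ∈ X := hX.mem_nhds hσ.1
    have h1 : ∀ᶠ y in 𝓝 (d σ), y ∈ X ∧ G =ᶠ[𝓝 y] B := h00.and hσ.2.eventually_nhds
    exact hdc.continuousAt.eventually h1
  set S : Set ℝ := {σ | ∀ σ' ∈ Icc 0 σ, P σ'} with hS
  have hdV : ∀ σ ∈ Icc 0 ℓ, d σ ∈ V := fun σ hσ =>
    hseg (ℓ - σ) ⟨by linarith [hσ.2], by linarith [hσ.1]⟩
  have key : ∀ σ ∈ Icc 0 ℓ, (∀ σ', 0 ≤ σ' → σ' < σ → P σ') → P σ := by
    intro σ hσ hlt
    rcases hσ.1.eq_or_lt with h00 | hpos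
    · rw [← h00, hP]
      simpa [hd] using h0
    have hq : d σ ∈ X := by
      refine hM (d σ) G (hGa _ (hdV σ hσ)) (hGh _ (hdV σ hσ)) ?_
      filter_upwards [Ioo_mem_nhdsGT hpos] with τ hτ
      have h1 : ((d σ).1 - (τ : ℂ) * I, (d σ).2) = d (σ - τ) := by
        rw [hd]
        ext1
        · simp only; push_cast; ring
        · rfl
      rw [h1]
      exact hlt (σ - τ) (by linarith [hτ.2]) (by linarith [hτ.1])
    refine ⟨hq, ?_⟩
    -- both analytic near `d σ`, equal near points `d σ'`, `σ' < σ`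
    obtain ⟨ε, hε, hball⟩ := Metric.isOpen_iff.1 (hX.inter hV) (d σ) ⟨hq, hdV σ hσ⟩
    have hcl : ∀ᶠ σ' in 𝓝[<] σ, d σ' ∈ ball (d σ) ε :=
      (hdc.continuousAt.eventually (ball_mem_nhds _ hε)).filter_mono nhdsWithin_le_nhds
    have hev : ∀ᶠ σ' in 𝓝[<] σ, 0 ≤ σ' ∧ σ' < σ := by
      filter_upwards [Ioo_mem_nhdsLT hpos] with σ' hσ'
      exact ⟨hσ'.1.le, hσ'.2⟩
    obtain ⟨σ', h1, h2, h3⟩ := (hcl.and hev).exists
    have heq : EqOn G B (ball (d σ) ε) :=
      AnalyticOnNhd.eqOn_of_preconnected_of_eventuallyEq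
        (fun y hy => hGa y (hball hy).2) (fun y hy => hBa y (hball hy).1)
        (convex_ball _ _).isPreconnected h1 (hlt σ' h2 h3).2
    exact Filter.eventuallyEq_of_mem (ball_mem_nhds _ hε) heq
  have hsub : Icc (0 : ℝ) ℓ ⊆ S := by
    refine IsClosed.Icc_subset_of_forall_exists_gt ?_ ?_ ?_
    · refine isClosed_of_closure_subset fun σ hσ => ?_
      have hσI : σ ∈ Icc 0 ℓ :=
        (closure_minimal inter_subset_right isClosed_Icc) hσ
      have hlt : ∀ σ', 0 ≤ σ' → σ' < σ → P σ' := by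
        intro σ' h1 h2
        obtain ⟨y, hy1, hy2⟩ := mem_closure_iff_nhds.1 hσ (Ioi σ') (Ioi_mem_nhds h2)
        exact hy2.1 σ' ⟨h1, le_of_lt hy1⟩
      refine ⟨fun σ' hσ' => ?_, hσI⟩
      rcases hσ'.2.eq_or_lt with rfl | h2
      · exact key σ' hσI hlt
      · exact hlt σ' hσ'.1 h2
    · intro σ' hσ'
      have : σ' = 0 := le_antisymm hσ'.2 hσ'.1
      rw [this]
      exact key 0 ⟨le_rfl, hℓ⟩ (fun σ'' h1 h2 => by linarith)
    · intro σ hσ y hy
      have h1 := hPopen σ (hσ.1 σ ⟨hσ.2.1, le_rfl⟩)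
      obtain ⟨δ, hδ, hball⟩ := Metric.eventually_nhds_iff.1 h1
      have hy' : σ < y := hy
      refine ⟨min y (σ + δ / 2), ?_, ?_, min_le_left _ _⟩
      · intro σ' hσ'
        rcases le_or_gt σ' σ with h2 | h2
        · exact hσ.1 σ' ⟨hσ'.1, h2⟩
        · refine hball ?_
          rw [Real.dist_eq, abs_of_pos (by linarith)]
          have := hσ'.2.trans (min_le_right _ _)
          linarith
      · exact lt_min hy' (by linarith)
  have := (hsub ⟨hℓ, le_rfl⟩) ℓ ⟨hℓ, le_rfl⟩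
  have h1 := this.1
  rw [hd] at h1
  simpa using h1

theorem aux1 {a ρ x1 x2 y N : ℝ} (ha : 0 ≤ a) (hρ : 0 ≤ ρ) (hN : 0 ≤ N)
    (d3 : (a - ρ) * x2 ≤ x1) (d4 : x1 ≤ (a + ρ) * x2) (hi : |x2 - y| ≤ ρ * N)
    (hx : x2 ≤ 2 * (N + 1)) : |x1 - a * y| ≤ ρ * ((a + 4) * (N + 1)) := by
  have h1 := abs_le.1 hi
  have h2 : a * (x2 - y) ≤ a * (ρ * N) := mul_le_mul_of_nonneg_left h1.2 ha
  have h3 : a * (-(ρ * N)) ≤ a * (x2 - y) := mul_le_mul_of_nonneg_left h1.1 ha
  have h4 : ρ * x2 ≤ ρ * (2 * (N + 1)) := mul_le_mul_of_nonneg_left hx hρ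
  have h5 : 0 ≤ a * ρ := mul_nonneg ha hρ
  have h6 : 0 ≤ ρ * (N + 1) := mul_nonneg hρ (by linarith)
  rw [abs_le]
  constructor <;> nlinarith

set_option maxHeartbeats 1600000 in
/-- **NO REGULAR CONTINUATION ACROSS THE FACE** along a sequence of windows -/
theorem noReg (ha : 0 ≤ a) (hX : IsOpen X) (hB : DifferentiableOn ℂ B X) (hM : MaxiX h X B)
    (W : Wins X L a g e s ρ η) (q0 : ℂ × ℂ) (hq : q0.1.im = a * q0.2.im) (hq2 : 0 < q0.2.im)
    (r : ℝ) (hr : 0 < r) (K : Set (ℂ × ℂ)) (hK : IsCompact K) (hKb : K ⊆ ball q0 r)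
    (hKl : K ⊆ LoW a) :
    ∀ᶠ n in atTop, ¬ ∃ G : ℂ × ℂ → ℂ, DifferentiableOn ℂ G (ball q0 r) ∧
      (∀ x ∈ ball q0 r, |(G x).im| < h) ∧
      ∃ x1 ∈ K, G =ᶠ[𝓝 x1] fun x => B (bl (e n) (s n) x) := by
  obtain ⟨κ, hκ, C, hC, hb⟩ := margin hK hKl
  set Nz : ℝ := ‖q0.2‖ with hNz
  have hNz0 : 0 < Nz := lt_of_lt_of_le hq2 ((le_abs_self _).trans (Complex.abs_im_le_norm _))
  -- the constant of the distance
  set A : ℝ := (a + 4) * (Nz + 1) with hA
  have hA0 : 0 < A := by positivity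
  have hAN : Nz ≤ A := by rw [hA]; nlinarith
  set D : ℝ := ‖q0.1‖ + ‖q0.2‖ + r + a * ‖q0.2‖ + 1 with hD
  have hD0 : 0 < D := by positivity
  have hε : 0 < min (min κ 1) (min (r / (8 * A)) (min (q0.2.im / (8 * A)) (r / (16 * (Nz + 1))))) := by
    positivity
  filter_upwards [ev_scale W D, W.rho_lim.eventually (gt_mem_nhds hε)] with n hn hρn
  rintro ⟨G, hG, hGh, x1, hx1, hGB⟩
  have hs := W.s_pos n
  have hρ0 := W.rho_pos n
  have hρκ : ρ n < κ := hρn.trans_le ((min_le_left _ _).trans (min_le_left _ _))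
  have hρ1 : ρ n < 1 := hρn.trans_le ((min_le_left _ _).trans (min_le_right _ _))
  have hρr : ρ n * (8 * A) < r := by
    have := hρn.trans_le ((min_le_right _ _).trans (min_le_left _ _))
    rwa [lt_div_iff₀ (by positivity)] at this
  have hρi : ρ n * (8 * A) < q0.2.im := by
    have := hρn.trans_le ((min_le_right _ _).trans ((min_le_right _ _).trans (min_le_left _ _)))
    rwa [lt_div_iff₀ (by positivity)] at this
  have hρN : ρ n * (16 * (Nz + 1)) < r := by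
    have := hρn.trans_le ((min_le_right _ _).trans ((min_le_right _ _).trans (min_le_right _ _)))
    rwa [lt_div_iff₀ (by positivity)] at this
  -- the point outside `X`
  have hre : |q0.2.re| ≤ Nz := Complex.abs_re_le_norm _
  have hre1 : |q0.1.re| ≤ ‖q0.1‖ := Complex.abs_re_le_norm _
  obtain ⟨q, hqX, c1, c2, c3, c4⟩ := (W.e2 n).dense ((e n).1 + s n * (q0.1.re - a * q0.2.re)) (by
      rw [add_sub_cancel_left, abs_mul, abs_of_pos hs]
      refine (mul_le_mul_of_nonneg_left ?_ hs.le).trans_lt hn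
      have h1 : |q0.1.re - a * q0.2.re| ≤ |q0.1.re| + |a * q0.2.re| := abs_sub _ _
      rw [abs_mul, abs_of_nonneg ha] at h1
      have h2 := mul_le_mul_of_nonneg_left hre ha
      rw [hD]
      linarith) (s n * q0.2) (by
      rw [norm_mul, Complex.norm_real, Real.norm_eq_abs, abs_of_pos hs]
      refine (mul_le_mul_of_nonneg_left ?_ hs.le).trans_lt hn
      rw [hD]
      have := norm_nonneg q0.1
      have : 0 ≤ a * ‖q0.2‖ := by positivity
      linarith) (by simp; positivity) (by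
      rw [norm_mul, Complex.norm_real, Real.norm_eq_abs, abs_of_pos hs]
      have h1 : ((s n : ℂ) * q0.2).im = s n * q0.2.im := by simp
      rw [h1]
      have h2 : ρ n * Nz ≤ q0.2.im := by
        have : ρ n * Nz ≤ ρ n * (8 * A) := mul_le_mul_of_nonneg_left (by linarith) hρ0.le
        linarith
      have := mul_le_mul_of_nonneg_left h2 hs.le
      linarith)
  have hn2 : ‖((s n : ℂ) * q0.2)‖ = s n * Nz := by
    rw [norm_mul, Complex.norm_real, Real.norm_eq_abs, abs_of_pos hs]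
  rw [hn2] at c1 c2
  -- in blow-up coordinates
  set x' : ℂ × ℂ := ib (e n) (s n) q with hx'
  have hblx : bl (e n) (s n) x' = q := bl_ib (e n) hs q
  have hq1re : q.1.re = (e n).1 + s n * x'.1.re := by rw [← hblx, bl1_re]
  have hq1im : q.1.im = s n * x'.1.im := by rw [← hblx, bl1_im]
  have hq2im : q.2.im = s n * x'.2.im := by rw [← hblx, bl2_im]
  have hq2e : q.2 - (((e n).2 : ℂ) + s n * q0.2) = s n * (x'.2 - q0.2) := by
    have : q.2 = ((e n).2 : ℂ) + s n * x'.2 := by rw [← hblx]; rfl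
    rw [this]; ring
  have d2 : ‖x'.2 - q0.2‖ ≤ ρ n * Nz := by
    rw [hq2e, norm_mul, Complex.norm_real, Real.norm_eq_abs, abs_of_pos hs] at c2
    have : s n * ‖x'.2 - q0.2‖ ≤ s n * (ρ n * Nz) := by linarith
    exact le_of_mul_le_mul_left this hs
  have hre3 : ((s n : ℂ) * q0.2).re = s n * q0.2.re := by simp
  have d1 : |x'.1.re - q0.1.re| ≤ ρ n * Nz := by
    rw [hq1re, hre3] at c1
    have h1 : (e n).1 + s n * x'.1.re - ((e n).1 + s n * (q0.1.re - a * q0.2.re) +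
        a * (s n * q0.2.re)) = s n * (x'.1.re - q0.1.re) := by ring
    rw [h1, abs_mul, abs_of_pos hs] at c1
    have : s n * |x'.1.re - q0.1.re| ≤ s n * (ρ n * Nz) := by linarith
    exact le_of_mul_le_mul_left this hs
  have d3 : (a - ρ n) * x'.2.im ≤ x'.1.im := by
    rw [hq1im, hq2im] at c3
    have : s n * ((a - ρ n) * x'.2.im) ≤ s n * x'.1.im := by linarith
    exact le_of_mul_le_mul_left this hs
  have d4 : x'.1.im ≤ (a + ρ n) * x'.2.im := by
    rw [hq1im, hq2im] at c4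
    have : s n * x'.1.im ≤ s n * ((a + ρ n) * x'.2.im) := by linarith
    exact le_of_mul_le_mul_left this hs
  have d2i : |x'.2.im - q0.2.im| ≤ ρ n * Nz := by
    have := (Complex.abs_im_le_norm (x'.2 - q0.2)).trans d2
    simpa using this
  have hρNz : ρ n * Nz ≤ ρ n * A := mul_le_mul_of_nonneg_left hAN hρ0.le
  have hρA0 : 0 < ρ n * A := by positivity
  have hi1 := abs_le.1 d2i
  have hx2pos : 0 < x'.2.im := by linarith [hi1.1]
  have hq0N : q0.2.im ≤ Nz := (le_abs_self _).trans (Complex.abs_im_le_norm _)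
  have hx2up2 : x'.2.im ≤ 2 * (Nz + 1) := by
    have : ρ n * Nz ≤ 1 * Nz := mul_le_mul_of_nonneg_right hρ1.le hNz0.le
    linarith [hi1.2]
  -- imaginary part of the first coordinate
  have hρx : ρ n * x'.2.im ≤ ρ n * (2 * (Nz + 1)) := mul_le_mul_of_nonneg_left hx2up2 hρ0.le
  have hdi : |x'.1.im - q0.1.im| ≤ ρ n * A := by
    rw [hq, hA]
    exact aux1 ha hρ0.le hNz0.le d3 d4 d2i hx2up2
  have hdist : ∀ τ : ℝ, 0 ≤ τ → τ ≤ r / 2 → ((x'.1 - (τ : ℂ) * I, x'.2) : ℂ × ℂ) ∈ ball q0 r := by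
    intro τ h1 h2
    rw [mem_ball, Prod.dist_eq, max_lt_iff]
    constructor
    · rw [dist_eq_norm]
      have e1 : (x'.1 - (τ : ℂ) * I - q0.1).re = x'.1.re - q0.1.re := by simp
      have e2 : (x'.1 - (τ : ℂ) * I - q0.1).im = x'.1.im - q0.1.im - τ := by simp; ring
      refine (Complex.norm_le_abs_re_add_abs_im _).trans_lt ?_
      rw [e1, e2]
      have e3 : |x'.1.im - q0.1.im - τ| ≤ |x'.1.im - q0.1.im| + |τ| := abs_sub _ _
      rw [abs_of_nonneg h1] at e3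
      linarith
    · rw [dist_eq_norm]
      simp only
      linarith
  -- the convex good set
  set U : Set (ℂ × ℂ) := {x | x ∈ ball q0 r ∧ 0 < x.2.im ∧ x.1.im - (a - ρ n) * x.2.im < 0} with hU
  have hUX : ∀ x ∈ U, bl (e n) (s n) x ∈ X := by
    rintro x ⟨hx1, hx2, hx3⟩
    rw [mem_ball, Prod.dist_eq, max_lt_iff, dist_eq_norm, dist_eq_norm] at hx1
    refine (W.e2 n).low (bl_mem_half hs ?_ ?_ hx2 (by linarith))
    · refine (mul_le_mul_of_nonneg_left ?_ hs.le).trans_lt hn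
      have h1 : ‖x.1‖ ≤ ‖x.1 - q0.1‖ + ‖q0.1‖ := by
        simpa using norm_add_le (x.1 - q0.1) q0.1
      have h2 : 0 ≤ a * ‖q0.2‖ := by positivity
      have h3 := norm_nonneg q0.2
      rw [hD]; linarith
    · refine (mul_le_mul_of_nonneg_left ?_ hs.le).trans_lt hn
      have h1 : ‖x.2‖ ≤ ‖x.2 - q0.2‖ + ‖q0.2‖ := by
        simpa using norm_add_le (x.2 - q0.2) q0.2
      have h2 : 0 ≤ a * ‖q0.2‖ := by positivity
      have h3 := norm_nonneg q0.1
      rw [hD]; linarith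
  have hUo : IsOpen U := by
    have h1 : IsOpen {x : ℂ × ℂ | 0 < x.2.im} :=
      isOpen_lt continuous_const (Complex.continuous_im.comp continuous_snd)
    have h2 : IsOpen {x : ℂ × ℂ | x.1.im - (a - ρ n) * x.2.im < 0} :=
      isOpen_lt ((Complex.continuous_im.comp continuous_fst).sub
        (continuous_const.mul (Complex.continuous_im.comp continuous_snd))) continuous_const
    exact isOpen_ball.inter (h1.inter h2)
  have hUc : Convex ℝ U := by
    intro x hx y hy α β hα hβ hαβ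
    refine ⟨convex_ball q0 r hx.1 hy.1 hα hβ hαβ, ?_, ?_⟩
    · have e1 : (α • x + β • y).2.im = α * x.2.im + β * y.2.im := by simp
      rw [e1]
      rcases hα.eq_or_lt with h0 | h0
      · have : β = 1 := by linarith
        rw [← h0, this]; simpa using hy.2.1
      · have := mul_pos h0 hx.2.1
        have := mul_nonneg hβ hy.2.1.le
        linarith
    · have e1 : (α • x + β • y).2.im = α * x.2.im + β * y.2.im := by simp
      have e2 : (α • x + β • y).1.im = α * x.1.im + β * y.1.im := by simp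
      rw [e1, e2]
      have h3 : α * x.1.im + β * y.1.im - (a - ρ n) * (α * x.2.im + β * y.2.im) =
        α * (x.1.im - (a - ρ n) * x.2.im) + β * (y.1.im - (a - ρ n) * y.2.im) := by ring
      rw [h3]
      rcases hα.eq_or_lt with h0 | h0
      · have : β = 1 := by linarith
        rw [← h0, this]; simpa using hy.2.2
      · have := mul_neg_of_pos_of_neg h0 hx.2.2
        have := mul_nonpos_of_nonneg_of_nonpos hβ hy.2.2.le
        linarith
  have hx1U : x1 ∈ U := by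
    refine ⟨hKb hx1, (hKl hx1).1, ?_⟩
    have := (hb x1 hx1).1
    have h2 := (hKl hx1).1
    nlinarith
  set x2 : ℂ × ℂ := (x'.1 - ((r / 2 : ℝ) : ℂ) * I, x'.2) with hx2
  have hx2U : x2 ∈ U := by
    refine ⟨hdist (r / 2) (by positivity) le_rfl, hx2pos, ?_⟩
    have e1 : x2.1.im = x'.1.im - r / 2 := by simp [hx2]
    have e2 : x2.2.im = x'.2.im := rfl
    rw [e1, e2]
    nlinarith
  have hXa : AnalyticOnNhd ℂ B X :=
    Crest.Agent.R266.SCV.analyticOnNhd_of_differentiableOn hX hB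
  have hGa : AnalyticOnNhd ℂ G (ball q0 r) :=
    Crest.Agent.R266.SCV.analyticOnNhd_of_differentiableOn isOpen_ball hG
  have hEq : EqOn G (fun x => B (bl (e n) (s n) x)) U := by
    refine AnalyticOnNhd.eqOn_of_preconnected_of_eventuallyEq (fun y hy => hGa y hy.1)
      (fun y hy => ?_) hUc.isPreconnected hx1U hGB
    exact AnalyticAt.comp (g := B) (hXa _ (hUX y hy)) (analyticAt_bl _ _ _)
  -- exit
  set V : Set (ℂ × ℂ) := ib (e n) (s n) ⁻¹' ball q0 r with hV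
  have hVo : IsOpen V := isOpen_ball.preimage (continuous_ib _ _)
  have hib : ∀ τ : ℝ, ib (e n) (s n) (q.1 - ((s n * τ : ℝ) : ℂ) * I, q.2) =
      (x'.1 - (τ : ℂ) * I, x'.2) := by
    intro τ
    have hsc : (s n : ℂ) ≠ 0 := by exact_mod_cast hs.ne'
    rw [hx']
    unfold ib
    ext1
    · simp only; push_cast; field_simp; ring
    · rfl
  refine hqX (exit (G := fun y => G (ib (e n) (s n) y)) (ℓ := s n * (r / 2)) hX hB hM hVo ?_ ?_
    (by positivity) ?_ ?_)
  · exact hG.comp (fun y _ => (analyticAt_ib _ _ _).differentiableAt.differentiableWithinAt)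
      (fun y hy => hy)
  · exact fun y hy => hGh _ hy
  · intro τ hτ
    have h1 : τ = s n * (τ / s n) := by field_simp
    rw [hV, mem_preimage, h1, hib]
    refine hdist _ (div_nonneg hτ.1 hs.le) ?_
    rw [div_le_iff₀ hs]; linarith [hτ.2]
  · have h1 : ib (e n) (s n) (q.1 - ((s n * (r / 2) : ℝ) : ℂ) * I, q.2) = x2 := hib (r / 2)
    have h2 : ((q.1 - ((s n * (r / 2) : ℝ) : ℂ) * I, q.2) : ℂ × ℂ) = bl (e n) (s n) x2 := by
      rw [← h1, bl_ib (e n) hs]
    refine ⟨by rw [h2]; exact hUX x2 hx2U, ?_⟩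
    have h3 : Tendsto (ib (e n) (s n)) (𝓝 (q.1 - ((s n * (r / 2) : ℝ) : ℂ) * I, q.2)) (𝓝 x2) := by
      have := (continuous_ib (e n) (s n)).tendsto (q.1 - ((s n * (r / 2) : ℝ) : ℂ) * I, q.2)
      rwa [h1] at this
    filter_upwards [h3.eventually (hUo.mem_nhds hx2U)] with y hy
    have := hEq hy
    simp only at this
    rw [this, bl_ib (e n) hs]

end Crest.Agent.R102.NoReg971
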