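import Crest.Agent.R102.LimA_985
import Crest.Agent.R102.T5c_576

/-!
R102, T1-B, EDGE / BalP (helper528): the compactness step (non degeneracy for `y` at windows which
are not frozen at a zero of `y`).
-/

set_option autoImplicit false

open Set Filter Topology Metric Complex

noncomputable section

namespace Crest.Agent.R102.NonDeg528

open Crest.Agent.R102.LimA985 (label_lim)

/-- the box in the product domain -/
def D5 : Set (ℂ × ℂ) := {q | ‖q.1‖ < 5 ∧ ‖q.2‖ < 5 ∧ q.1.im < 0 ∧ 0 < q.2.im}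

/-- the base point of the model window -/
def z0 : ℂ × ℂ := (-I, I / 4)

lemma isOpen_D5 : IsOpen D5 := by
  have c1 : Continuous (fun q : ℂ × ℂ => ‖q.1‖) := by fun_prop
  have c2 : Continuous (fun q : ℂ × ℂ => ‖q.2‖) := by fun_prop
  have c3 : Continuous (fun q : ℂ × ℂ => q.1.im) := by fun_prop
  have c4 : Continuous (fun q : ℂ × ℂ => q.2.im) := by fun_prop
  exact (isOpen_lt c1 continuous_const).inter ((isOpen_lt c2 continuous_const).inter
    ((isOpen_lt c3 continuous_const).inter (isOpen_lt continuous_const c4)))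

lemma convex_D5 : Convex ℝ D5 := by
  have h1 : Convex ℝ {q : ℂ × ℂ | ‖q.1‖ < 5} := by
    have : {q : ℂ × ℂ | ‖q.1‖ < 5} = (LinearMap.fst ℝ ℂ ℂ) ⁻¹' (ball (0:ℂ) 5) := by
      ext q; simp
    rw [this]; exact (convex_ball _ _).linear_preimage _
  have h2 : Convex ℝ {q : ℂ × ℂ | ‖q.2‖ < 5} := by
    have : {q : ℂ × ℂ | ‖q.2‖ < 5} = (LinearMap.snd ℝ ℂ ℂ) ⁻¹' (ball (0:ℂ) 5) := by
      ext q; simp
    rw [this]; exact (convex_ball _ _).linear_preimage _
  have h3 : Convex ℝ {q : ℂ × ℂ | q.1.im < 0} :=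
    convex_halfSpace_lt (f := fun q : ℂ × ℂ => q.1.im) ⟨fun x y => by simp, fun c x => by simp⟩ 0
  have h4 : Convex ℝ {q : ℂ × ℂ | 0 < q.2.im} :=
    convex_halfSpace_gt (f := fun q : ℂ × ℂ => q.2.im) ⟨fun x y => by simp, fun c x => by simp⟩ 0
  exact h1.inter (h2.inter (h3.inter h4))

lemma ball_sub : closedBall z0 (1 / 10) ⊆ D5 := by
  intro q hq
  rw [mem_closedBall, Prod.dist_eq, max_le_iff, dist_eq_norm, dist_eq_norm] at hq
  obtain ⟨h1, h2⟩ := hq
  simp only [z0] at h1 h2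
  have n1 : ‖(-I : ℂ)‖ = 1 := by simp
  have n2 : ‖(I / 4 : ℂ)‖ = 1 / 4 := by simp
  have a1 : ‖q.1‖ ≤ 1 / 10 + 1 := by
    have := norm_add_le (q.1 - -I) (-I)
    rw [sub_add_cancel, n1] at this
    linarith
  have a2 : ‖q.2‖ ≤ 1 / 10 + 1 / 4 := by
    have := norm_add_le (q.2 - I / 4) (I / 4)
    rw [sub_add_cancel, n2] at this
    linarith
  have b1 := (abs_le.1 ((Complex.abs_im_le_norm (q.1 - -I)).trans h1)).2
  have b2 := (abs_le.1 ((Complex.abs_im_le_norm (q.2 - I / 4)).trans h2)).1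
  have e1 : (q.1 - -I).im = q.1.im + 1 := by simp
  have e2 : (q.2 - I / 4).im = q.2.im - 1 / 4 := by
    rw [sub_im]
    congr 1
    rw [show (I / 4 : ℂ) = ((1 / 4 : ℝ) : ℂ) * I by push_cast; ring, Complex.im_ofReal_mul, I_im]
    norm_num
  rw [e1] at b1
  rw [e2] at b2
  exact ⟨by linarith, by linarith, by linarith, by linarith⟩

/-- the compact of comparison points -/
def KQ (d : ℝ) : Set (ℂ × ℂ) := {Q | ‖Q.1‖ ≤ 4 ∧ ‖Q.2‖ ≤ 1 ∧ d ≤ Q.2.im ∧ Q.1.im ≤ -d}

lemma KQ_compact (d : ℝ) : IsCompact (KQ d) := by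
  have c1 : Continuous (fun q : ℂ × ℂ => ‖q.1‖) := by fun_prop
  have c2 : Continuous (fun q : ℂ × ℂ => ‖q.2‖) := by fun_prop
  have c3 : Continuous (fun q : ℂ × ℂ => q.1.im) := by fun_prop
  have c4 : Continuous (fun q : ℂ × ℂ => q.2.im) := by fun_prop
  have hcl : IsClosed (KQ d) := (isClosed_le c1 continuous_const).inter
    ((isClosed_le c2 continuous_const).inter ((isClosed_le continuous_const c4).inter
      (isClosed_le c3 continuous_const)))
  refine IsCompact.of_isClosed_subset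
    ((isCompact_closedBall (0 : ℂ) 4).prod (isCompact_closedBall (0 : ℂ) 1)) hcl ?_
  intro q hq
  exact ⟨by simpa using hq.1, by simpa using hq.2.1⟩

lemma KQ_sub {d : ℝ} (hd : 0 < d) : KQ d ⊆ D5 := fun q hq =>
  ⟨by linarith [hq.1], by linarith [hq.2.1], by linarith [hq.2.2.2], by linarith [hq.2.2.1]⟩

lemma per_int {h : ℝ} {y : ℂ → ℂ} (hper : ∀ z ∈ T5.Str h, y (z + 1) = y z) (m : ℤ) :
    ∀ z ∈ T5.Str h, y (z - m) = y z := by
  have hS : ∀ z ∈ T5.Str h, ∀ k : ℤ, z + k ∈ T5.Str h := by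
    intro z hz k
    have hz' : |z.im| < h := hz
    show |(z + k).im| < h
    simpa using hz'
  have hnat : ∀ n : ℕ, ∀ z ∈ T5.Str h, y (z + n) = y z := by
    intro n
    induction n with
    | zero => intro z _; simp
    | succ n ih =>
      intro z hz
      have h1 := hper (z + n) (by simpa using hS z hz n)
      rw [Nat.cast_succ, ← add_assoc, h1, ih z hz]
  intro z hz
  rcases Int.eq_nat_or_neg m with ⟨n, rfl | rfl⟩
  · have h1 := hnat n (z - n) (by simpa [sub_eq_add_neg] using hS z hz (-n))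
    rw [sub_add_cancel] at h1
    simpa using h1.symm
  · have h1 := hnat n z hz
    simpa using h1

/-- **the compactness step** -/
theorem nondeg {h : ℝ} {y : ℂ → ℂ} (hy : DifferentiableOn ℂ y (T5.Str h))
    (hper : ∀ z ∈ T5.Str h, y (z + 1) = y z) (hne : ∃ z ∈ T5.Str h, y z ≠ 0)
    {c d g : ℝ} (hc : 0 < c) (hd : 0 < d) (hg : 0 < g) :
    ∃ κ > 0, ∀ f : ℂ × ℂ → ℂ, DifferentiableOn ℂ f D5 → (∀ q ∈ D5, |(f q).im| < h) →
      |(f z0).im| ≤ h - c →
      (∀ b0 ∈ T5.Str h, y b0 = 0 → ∃ Q : ℂ × ℂ, ‖Q.1‖ ≤ 4 ∧ ‖Q.2‖ ≤ 1 ∧ d ≤ Q.2.im ∧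
        Q.1.im ≤ -d ∧ g ≤ |(f Q).im - b0.im|) →
      ∃ q ∈ closedBall z0 (1 / 10), κ ≤ ‖y (f q)‖ := by
  by_contra hcon
  push Not at hcon
  have hcon' : ∀ n : ℕ, ∃ f : ℂ × ℂ → ℂ, DifferentiableOn ℂ f D5 ∧ (∀ q ∈ D5, |(f q).im| < h) ∧
      |(f z0).im| ≤ h - c ∧
      (∀ b0 ∈ T5.Str h, y b0 = 0 → ∃ Q : ℂ × ℂ, ‖Q.1‖ ≤ 4 ∧ ‖Q.2‖ ≤ 1 ∧ d ≤ Q.2.im ∧
        Q.1.im ≤ -d ∧ g ≤ |(f Q).im - b0.im|) ∧
      ∀ q ∈ closedBall z0 (1 / 10), ‖y (f q)‖ < 1 / ((n : ℝ) + 1) := fun n => by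
    obtain ⟨f, h1, h2, h3, h4, h5⟩ := hcon (1 / ((n : ℝ) + 1)) (by positivity)
    exact ⟨f, h1, h2, h3, h4, h5⟩
  choose f hfd hfh hf0 hfQ hfy using hcon'
  set F : ℕ → ℂ × ℂ → ℂ := fun n q => f n q - (⌊(f n z0).re⌋ : ℂ) with hF
  have hFim : ∀ n q, (F n q).im = (f n q).im := fun n q => by simp [hF]
  have hz0 : z0 ∈ D5 := ball_sub (mem_closedBall_self (by norm_num))
  have hSo : IsOpen (T5.Str h) := by
    have : T5.Str h = {z : ℂ | |z.im| < h} := rfl
    rw [this]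
    exact isOpen_lt (by fun_prop) continuous_const
  have hScv : Convex ℝ (T5.Str h) := by
    have e : T5.Str h = Complex.im ⁻¹' (Ioo (-h) h) := by
      ext z
      show |z.im| < h ↔ _
      rw [abs_lt]; rfl
    rw [e]
    exact (convex_Ioo _ _).linear_preimage Complex.imLm
  obtain ⟨β, hβd, hβu, hβh⟩ := label_lim (hyperfilter ℕ : Ultrafilter ℕ) isOpen_D5
    convex_D5.isPreconnected (B := F) (h := h) (h' := h - c) (R := 1) (by linarith)
    (fun x hx => by
      obtain ⟨r, hr, hrD⟩ := Metric.isOpen_iff.1 isOpen_D5 x hx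
      refine ⟨r, hr, hrD, Eventually.of_forall fun n => ⟨?_, fun q hq => ?_⟩⟩
      · exact ((hfd n).mono hrD).sub (differentiableOn_const _)
      · rw [hFim]; exact (hfh n q (hrD hq)).le)
    hz0 (Eventually.of_forall fun n => ⟨by rw [hFim]; exact hf0 n, by
      have e1 : (F n z0).re = Int.fract (f n z0).re := by
        simp only [hF, sub_re, intCast_re]; rfl
      rw [e1, abs_of_nonneg (Int.fract_nonneg _)]
      exact (Int.fract_lt_one _).le⟩)
  have hpt : ∀ q ∈ D5, Tendsto (fun n => F n q) (hyperfilter ℕ : Ultrafilter ℕ) (𝓝 (β q)) :=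
    fun q hq => hβu.tendsto_at hq
  have hyc : ContinuousOn y (T5.Str h) := hy.continuousOn
  -- `y (β q) = 0` on the ball
  have hzero : ∀ q ∈ closedBall z0 (1 / 10), y (β q) = 0 := by
    intro q hq
    have hqD := ball_sub hq
    have hβS : β q ∈ T5.Str h := hβh q hqD
    have h1 : Tendsto (fun n => y (F n q)) (hyperfilter ℕ : Ultrafilter ℕ) (𝓝 (y (β q))) :=
      ((hyc.continuousAt (hSo.mem_nhds hβS)).tendsto).comp (hpt q hqD)
    have h2 : Tendsto (fun n => y (F n q)) (hyperfilter ℕ : Ultrafilter ℕ) (𝓝 0) := by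
      rw [tendsto_zero_iff_norm_tendsto_zero]
      have h3 : Tendsto (fun n : ℕ => 1 / ((n : ℝ) + 1)) (hyperfilter ℕ : Ultrafilter ℕ) (𝓝 0) :=
        tendsto_one_div_add_atTop_nhds_zero_nat.mono_left (by
          rw [← Nat.cofinite_eq_atTop]; exact hyperfilter_le_cofinite)
      refine squeeze_zero (fun _ => norm_nonneg _) (fun n => ?_) h3
      have hfS : f n q ∈ T5.Str h := hfh n q hqD
      have h4 : y (F n q) = y (f n q) := per_int hper _ _ hfS
      rw [h4]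
      exact (hfy n q hq).le
    exact tendsto_nhds_unique h1 h2
  set b0 : ℂ := β z0 with hb0
  have hb0S : b0 ∈ T5.Str h := hβh z0 hz0
  have hb0y : y b0 = 0 := hzero z0 (mem_closedBall_self (by norm_num))
  have hyan : AnalyticOnNhd ℂ y (T5.Str h) := hy.analyticOnNhd hSo
  -- isolated zero
  have hiso : ∀ᶠ z in 𝓝[≠] b0, y z ≠ 0 := by
    rcases (hyan b0 hb0S).eventually_eq_zero_or_eventually_ne_zero with h1 | h1
    · exfalso
      obtain ⟨z, hz, hyz⟩ := hne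
      exact hyz (hyan.eqOn_zero_of_preconnected_of_eventuallyEq_zero hScv.isPreconnected hb0S h1 hz)
    · exact h1
  -- `β` is locally constant at `z0`
  have hβc : ContinuousAt β z0 := (hβd.continuousOn).continuousAt (isOpen_D5.mem_nhds hz0)
  have hloc : ∀ᶠ q in 𝓝 z0, β q = b0 := by
    have h1 : ∀ᶠ q in 𝓝 z0, q ∈ closedBall z0 (1 / 10) := closedBall_mem_nhds _ (by norm_num)
    have h2 : ∀ᶠ q in 𝓝 z0, β q ≠ b0 → y (β q) ≠ 0 := by
      rw [eventually_nhdsWithin_iff] at hiso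
      exact hβc.eventually hiso
    filter_upwards [h1, h2] with q hq1 hq2
    by_contra hne'
    exact hq2 hne' (hzero q hq1)
  have hconst : ∀ q ∈ D5, β q = b0 := by
    intro q hq
    set ℓ : ℂ → ℂ × ℂ := fun ζ => z0 + ζ • (q - z0) with hℓ
    have hℓc : Continuous ℓ := by fun_prop
    have hℓd : Differentiable ℂ ℓ := by fun_prop
    have hWo : IsOpen (ℓ ⁻¹' D5) := isOpen_D5.preimage hℓc
    have hWcv : Convex ℝ (ℓ ⁻¹' D5) := by
      intro x hx w hw a b ha hb hab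
      have h1 : ℓ (a • x + b • w) = a • ℓ x + b • ℓ w := by
        have h2 : (a : ℂ) + b = 1 := by exact_mod_cast hab
        apply Prod.ext
        · simp only [hℓ, Prod.fst_add, Prod.smul_fst, smul_eq_mul, Prod.fst_sub,
            Complex.real_smul]
          linear_combination (-z0.1) * h2
        · simp only [hℓ, Prod.snd_add, Prod.smul_snd, smul_eq_mul, Prod.snd_sub,
            Complex.real_smul]
          linear_combination (-z0.2) * h2
      show ℓ (a • x + b • w) ∈ D5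
      rw [h1]
      exact convex_D5 hx hw ha hb hab
    have h0 : (0 : ℂ) ∈ ℓ ⁻¹' D5 := by
      show ℓ 0 ∈ D5
      simpa [hℓ] using hz0
    have h1 : (1 : ℂ) ∈ ℓ ⁻¹' D5 := by
      show ℓ 1 ∈ D5
      simpa [hℓ] using hq
    have hgd : DifferentiableOn ℂ (fun ζ => β (ℓ ζ)) (ℓ ⁻¹' D5) :=
      hβd.comp hℓd.differentiableOn (fun ζ hζ => hζ)
    have hga : AnalyticOnNhd ℂ (fun ζ => β (ℓ ζ)) (ℓ ⁻¹' D5) := hgd.analyticOnNhd hWo
    have hca : AnalyticOnNhd ℂ (fun _ : ℂ => b0) (ℓ ⁻¹' D5) := analyticOnNhd_const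
    have hev0 : (fun ζ => β (ℓ ζ)) =ᶠ[𝓝 0] fun _ => b0 := by
      have h2 : Tendsto ℓ (𝓝 0) (𝓝 z0) := by
        have := hℓc.tendsto 0
        simpa [hℓ] using this
      exact h2.eventually hloc
    have := hga.eqOn_of_preconnected_of_eventuallyEq hca hWcv.isPreconnected h0 hev0 h1
    simpa [hℓ] using this
  -- uniform convergence on the compact
  have hunif := (tendstoLocallyUniformlyOn_iff_tendstoUniformlyOn_of_compact (KQ_compact d)).1
    (hβu.mono (KQ_sub hd))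
  have hev := Metric.tendstoUniformlyOn_iff.1 hunif g hg
  obtain ⟨n, hn⟩ := hev.exists
  obtain ⟨Q, hQ1, hQ2, hQ3, hQ4, hQ5⟩ := hfQ n b0 hb0S hb0y
  have hQK : Q ∈ KQ d := ⟨hQ1, hQ2, hQ3, hQ4⟩
  have h6 := hn Q hQK
  rw [hconst Q (KQ_sub hd hQK), dist_eq_norm] at h6
  have h7 := Complex.abs_im_le_norm (b0 - F n Q)
  rw [sub_im, hFim, abs_sub_comm] at h7
  linarith

end Crest.Agent.R102.NonDeg528
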