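import Crest.Agent.R102.AreaX_982

/-!
# Row 102, T1-B, EDGE: `R₀ ≠ 1` on all of `X ∩ L` (helper262)

If the line is tangent at the label, the incidence relation, differentiated, gives `dφ ∧ dp = 0`,
against the area form.
-/

set_option autoImplicit false

open Set Filter Topology Metric Complex MeasureTheory

noncomputable section

namespace Crest.Agent.R102.OmitX262

open Crest.Agent.R102.End613
open Crest.Agent.R102.B821 (q1 q2)

/-- pure form -/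
theorem omitX {Z Zc T c : ℂ → ℂ} {φ p B : ℂ × ℂ → ℂ} {x : ℂ × ℂ}
    (hZ : HasDerivAt Z (c (B x) * cexp (I * T (B x))) (B x))
    (hZc : HasDerivAt Zc (c (B x) * cexp (-(I * T (B x)))) (B x))
    (hφ : DifferentiableAt ℂ φ x) (hp : DifferentiableAt ℂ p x) (hB : DifferentiableAt ℂ B x)
    (hinc : ∀ᶠ y in 𝓝 x, Inc (φ y) (p y) (Z (B y)) (Zc (B y)) = 0)
    (harea : q1 φ x * q2 p x - q2 φ x * q1 p x ≠ 0) :
    cexp (2 * I * (T (B x) - φ x)) ≠ 1 := by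
  intro h1
  have dφ := hφ.hasFDerivAt
  have dp := hp.hasFDerivAt
  have dB := hB.hasFDerivAt
  have e1 : HasFDerivAt (fun y => cexp (-(I * φ y))) (cexp (-(I * φ x)) • (-(I • fderiv ℂ φ x))) x :=
    ((dφ.const_smul I).neg).cexp
  have e2 : HasFDerivAt (fun y => cexp (I * φ y)) (cexp (I * φ x) • (I • fderiv ℂ φ x)) x :=
    (dφ.const_smul I).cexp
  have e3 : HasFDerivAt (fun y => Z (B y)) ((c (B x) * cexp (I * T (B x))) • fderiv ℂ B x) x :=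
    hZ.comp_hasFDerivAt x dB
  have e4 : HasFDerivAt (fun y => Zc (B y)) ((c (B x) * cexp (-(I * T (B x)))) • fderiv ℂ B x) x :=
    hZc.comp_hasFDerivAt x dB
  have e5 := ((e1.mul e3).sub (e2.mul e4)).sub (dp.const_smul (2 * I))
  have e6 : HasFDerivAt (fun _ : ℂ × ℂ => (0 : ℂ)) (0 : ℂ × ℂ →L[ℂ] ℂ) x :=
    hasFDerivAt_const _ _
  have e7 : (fun _ : ℂ × ℂ => (0 : ℂ)) =ᶠ[𝓝 x]
      (fun y => cexp (-(I * φ y)) * Z (B y) - cexp (I * φ y) * Zc (B y) - (2 * I) • p y) := by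
    filter_upwards [hinc] with y hy
    rw [← hy]
    simp only [Inc, smul_eq_mul]
  have e8 := (e5.congr_of_eventuallyEq e7).unique e6
  -- the coefficient of `dB` vanishes
  have hc : cexp (-(I * φ x)) * cexp (I * T (B x)) = cexp (I * φ x) * cexp (-(I * T (B x))) := by
    have h2 : cexp (-(I * φ x)) * cexp (I * T (B x)) =
        cexp (2 * I * (T (B x) - φ x)) * (cexp (I * φ x) * cexp (-(I * T (B x)))) := by
      rw [← Complex.exp_add, ← Complex.exp_add, ← Complex.exp_add]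
      congr 1
      ring
    rw [h2, h1, one_mul]
  have key : ∀ v : ℂ × ℂ, 2 * fderiv ℂ p x v =
      -(cexp (-(I * φ x)) * Z (B x) + cexp (I * φ x) * Zc (B x)) * fderiv ℂ φ x v := by
    intro v
    have h3 := congrArg (fun l : ℂ × ℂ →L[ℂ] ℂ => l v) e8
    simp only [_root_.sub_apply, _root_.add_apply, _root_.smul_apply, _root_.neg_apply, smul_eq_mul,
      _root_.zero_apply] at h3
    have hI : (I : ℂ) ≠ 0 := I_ne_zero
    have h4 : I * (2 * fderiv ℂ p x v + (cexp (-(I * φ x)) * Z (B x) +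
        cexp (I * φ x) * Zc (B x)) * fderiv ℂ φ x v) = 0 := by
      linear_combination (-1 : ℂ) * h3 + (c (B x) * fderiv ℂ B x v) * hc
    have h5 := (mul_eq_zero.1 h4).resolve_left hI
    linear_combination h5
  apply harea
  have k1 := key (1, 0)
  have k2 := key (0, 1)
  unfold q1 q2
  have h2 : (2 : ℂ) * (fderiv ℂ φ x (1, 0) * fderiv ℂ p x (0, 1) -
      fderiv ℂ φ x (0, 1) * fderiv ℂ p x (1, 0)) = 0 := by
    linear_combination fderiv ℂ φ x (1, 0) * k2 - fderiv ℂ φ x (0, 1) * k1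
  exact (mul_eq_zero.1 h2).resolve_left two_ne_zero

/-- on the data of one half disc -/
theorem omitX_dat {u0 R d h : ℝ} {S : Set ℂ} {Z Zc T c : ℂ → ℂ} {φ p B : ℂ × ℂ → ℂ}
    {X L : Set (ℂ × ℂ)} (D : Sup115.Dat u0 R d h S Z Zc T c φ p B X L)
    (harea : ∀ x ∈ L, q1 φ x * q2 p x - q2 φ x * q1 p x ≠ 0) {x : ℂ × ℂ} (hx : x ∈ X ∩ L)
    (hS : B x ∈ S) : cexp (2 * I * (T (B x) - φ x)) ≠ 1 := by
  have hB : DifferentiableAt ℂ B x := D.B_diff.differentiableAt (D.X_open.mem_nhds hx.1)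
  refine omitX (D.Z_deriv _ hS) (D.Zc_deriv _ hS)
    (D.φ_diff.differentiableAt (D.L_open.mem_nhds hx.2))
    (D.p_diff.differentiableAt (D.L_open.mem_nhds hx.2)) hB ?_ (harea x hx.2)
  filter_upwards [D.X_open.mem_nhds hx.1, D.L_open.mem_nhds hx.2,
    hB.continuousAt (D.S_open.mem_nhds hS)] with y h1 h2 h3
  exact D.inc y ⟨h1, h2⟩ h3

section Obj

open Crest.Agent.R102.Out559 (OmL OmX)
open Crest.Agent.R102.Sup115 (HDu Dp)
open Crest.Agent.R102.Sh982 (SL SB φe pe be sh)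
open Crest.Agent.R102.PartII150
open Crest.Agent.R102.F300 (Sreg)
open Crest.Agent.R102.Rule982 (Sg)

variable {q : C(ℂ, ℂ)} {η ρ r Bc : ℝ} {b φ p : ℂ × ℂ → ℂ} {m₀ : ℂ → ℂ} {h : ℝ} {ψ H : ℂ → ℂ}

/-- the area form does not vanish on `L` -/
theorem area_ne (D : Sh982.Dat q η ρ r Bc b φ p m₀ h ψ H) {G : ℂ → ℂ} {u0 R d : ℝ}
    (hdρ : d ≤ ρ / 4) (hball : ball (u0 : ℂ) R ⊆ ball 0 r)
    (hG : DifferentiableOn ℂ G (HDu u0 R)) (hG0 : ∀ w ∈ HDu u0 R, 0 ≤ (G w).im) :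
    ∀ x ∈ Le u0 R d G (OmL φ p (-(ρ / 2)) (ρ / 2) r),
      q1 (φx φ p ρ r G) x * q2 (px φ p ρ r G) x - q2 (φx φ p ρ r G) x * q1 (px φ p ρ r G) x ≠ 0 := by
  intro x hx
  rw [AreaX982.area_x D hdρ hball hG hG0 hx]
  have hxH : x.2 ∈ HDu u0 R := hx.1.2
  refine AreaX982.area_coef_ne D ?_ ?_
  · simpa using hball hxH.1
  · intro h0
    have h1 : 0 < x.2.im := hxH.2
    rw [h0] at h1
    simp at h1

/-- **`R₀ ≠ 1` on all of `X ∩ L`**, official sheets in exact coordinates -/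
theorem omitX_obj (D : Sh982.Dat q η ρ r Bc b φ p m₀ h ψ H) {G : ℂ → ℂ} {u0 R d : ℝ} (hR : 0 < R)
    (hd : 0 < d) (hdρ : d ≤ ρ / 4) (hball : ball (u0 : ℂ) R ⊆ ball 0 r)
    (hG : DifferentiableOn ℂ G (HDu u0 R)) (hG0 : ∀ w ∈ HDu u0 R, 0 ≤ (G w).im)
    (hGL : ∀ w ∈ HDu u0 R, ∀ t : ℂ, t.im < (G w).im →
      (t, w) ∈ OmL φ p (-(ρ / 2)) (ρ / 2) r)
    (hGX : ∀ w ∈ HDu u0 R, ∀ t : ℂ, t.im < (G w).im →
      (t, w) ∈ OmX b (T5.Str h) (-(ρ / 2)) (ρ / 2) r) {x : ℂ × ℂ}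
    (hx : x ∈ Xe u0 R d G (OmX b (T5.Str h) (-(ρ / 2)) (ρ / 2) r) ∩
      Le u0 R d G (OmL φ p (-(ρ / 2)) (ρ / 2) r))
    (hS : Bx b h ρ r G x ∈ Sreg (Sg h) ψ) :
    cexp (2 * I * (ψ (Bx b h ρ r G x) - φx φ p ρ r G x)) ≠ 1 :=
  omitX_dat (supDat D hR hd hdρ hball hG hG0 hGL hGX) (area_ne D hdρ hball hG hG0) hx hS

end Obj

end Crest.Agent.R102.OmitX262
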