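import Mathlib

/-!
# Row 102, T1-B leaf (c), part A: superharmonic functions in the local comparison form

* `exists_poly` : continuous functions on a circle are uniform limits of real parts of polynomials;
* `SupH` : local comparison form of superharmonicity;
* `SupH.nonneg` : minimum principle on bounded open sets.
-/

namespace Crest.Agent.R102.Slope811

open MeasureTheory Set Filter Topology Complex Metric
open scoped Real ENNReal ComplexConjugate

/-- Continuous functions on a circle are uniformly approximated by real parts of polynomials. -/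
theorem exists_poly {G : ℂ → ℝ} (hG : Continuous G) (c : ℂ) {r : ℝ} (hr : 0 < r) {ε : ℝ}
    (hε : 0 < ε) :
    ∃ p : Polynomial ℂ, ∀ z, ‖z - c‖ = r → |(p.eval z).re - G z| < ε := by
  have : Fact ((0 : ℝ) < 2 * π) := ⟨by positivity⟩
  set ω : AddCircle (2 * π) → ℂ := fun x => c + r * (AddCircle.toCircle x : ℂ) with hω
  have hωc : Continuous ω := by
    have h1 : Continuous fun x : AddCircle (2 * π) => (AddCircle.toCircle x : ℂ) :=
      continuous_induced_dom.comp AddCircle.continuous_toCircle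
    exact continuous_const.add (continuous_const.mul h1)
  let F : C(AddCircle (2 * π), ℂ) := ⟨fun x => (G (ω x) : ℂ), by fun_prop⟩
  have hF : F ∈ (Submodule.span ℂ (range (fourier (T := 2 * π)))).topologicalClosure := by
    rw [span_fourier_closure_eq_top]; exact Submodule.mem_top
  rw [← SetLike.mem_coe, Submodule.topologicalClosure_coe, Metric.mem_closure_iff] at hF
  obtain ⟨f, hf, hfd⟩ := hF ε hε
  -- structure of the span
  have key : ∀ f ∈ Submodule.span ℂ (range (fourier (T := 2 * π))),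
      ∃ p q : Polynomial ℂ, ∀ x, f x = p.eval (ω x) + conj (q.eval (ω x)) := by
    intro f hf
    induction hf using Submodule.span_induction with
    | mem f hf =>
      obtain ⟨n, rfl⟩ := hf
      have hone : ∀ x, (AddCircle.toCircle x : ℂ) = (ω x - c) / r := by
        intro x
        have : (r : ℂ) ≠ 0 := by exact_mod_cast hr.ne'
        simp only [hω]
        field_simp
        ring
      rcases Int.eq_nat_or_neg n with ⟨k, rfl | rfl⟩
      · refine ⟨((Polynomial.X - Polynomial.C c) * Polynomial.C (r : ℂ)⁻¹) ^ k, 0, fun x => ?_⟩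
        rw [fourier_apply]
        simp only [Polynomial.eval_pow, Polynomial.eval_mul, Polynomial.eval_sub,
          Polynomial.eval_X, Polynomial.eval_C, Polynomial.eval_zero, map_zero, add_zero]
        rw [show ((k : ℤ) • x) = k • x by simp, AddCircle.toCircle_nsmul]
        push_cast
        rw [hone, div_eq_mul_inv]
      · refine ⟨0, ((Polynomial.X - Polynomial.C c) * Polynomial.C (r : ℂ)⁻¹) ^ k, fun x => ?_⟩
        rw [fourier_neg, fourier_apply]
        simp only [Polynomial.eval_pow, Polynomial.eval_mul, Polynomial.eval_sub,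
          Polynomial.eval_X, Polynomial.eval_C, Polynomial.eval_zero, zero_add]
        rw [show ((k : ℤ) • x) = k • x by simp, AddCircle.toCircle_nsmul]
        push_cast
        rw [hone, div_eq_mul_inv]
    | zero => exact ⟨0, 0, fun x => by simp⟩
    | add f g _ _ hf hg =>
      obtain ⟨p, q, h⟩ := hf
      obtain ⟨p', q', h'⟩ := hg
      refine ⟨p + p', q + q', fun x => ?_⟩
      rw [ContinuousMap.add_apply, h, h']
      simp only [Polynomial.eval_add, map_add]
      ring
    | smul a f _ hf =>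
      obtain ⟨p, q, h⟩ := hf
      refine ⟨Polynomial.C a * p, Polynomial.C (conj a) * q, fun x => ?_⟩
      rw [ContinuousMap.smul_apply, h]
      simp only [Polynomial.eval_mul, Polynomial.eval_C, map_mul, Complex.conj_conj, smul_eq_mul]
      ring
  obtain ⟨p, q, hpq⟩ := key f hf
  refine ⟨p + q, fun z hz => ?_⟩
  -- the point of the circle
  obtain ⟨x, rfl⟩ : ∃ x, ω x = z := by
    have h1 : ‖(z - c) / r‖ = 1 := by
      rw [norm_div, hz, Complex.norm_real, Real.norm_of_nonneg hr.le, div_self hr.ne']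
    have h2 : (z - c) / r = exp (arg ((z - c) / r) * I) := by
      conv_lhs => rw [← norm_mul_exp_arg_mul_I ((z - c) / r), h1]
      simp
    have hy : (AddCircle.toCircle ((arg ((z - c) / r) : ℝ) : AddCircle (2 * π)) : ℂ) =
        (z - c) / r := by
      rw [AddCircle.toCircle_apply_mk, Circle.coe_exp, h2]
      congr 2
      have hpi : (π : ℝ) ≠ 0 := Real.pi_ne_zero
      rw [← h2, div_self (by positivity), one_mul]
    refine ⟨((arg ((z - c) / r) : ℝ) : AddCircle (2 * π)), ?_⟩
    simp only [hω, hy]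
    have : (r : ℂ) ≠ 0 := by exact_mod_cast hr.ne'
    field_simp
    ring
  have h3 : ‖F x - f x‖ < ε := by
    refine lt_of_le_of_lt ?_ hfd
    rw [dist_eq_norm]
    exact (F - f).norm_coe_le_norm x
  rw [hpq] at h3
  have h4 : ((p + q).eval (ω x)).re - G (ω x) =
      -((F x - (p.eval (ω x) + conj (q.eval (ω x)))).re) := by
    simp only [Polynomial.eval_add, add_re, sub_re, conj_re, F, ContinuousMap.coe_mk, ofReal_re]
    ring
  rw [h4, abs_neg]
  exact (Complex.abs_re_le_norm _).trans_lt h3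

/-- Superharmonic functions (local comparison form). -/
structure SupH (Ω : Set ℂ) (R : ℂ → ℝ) : Prop where
  lsc : LowerSemicontinuousOn R Ω
  cmp : ∀ c ∈ Ω, ∃ r0 > 0, ∀ r, 0 < r → r < r0 → closedBall c r ⊆ Ω ∧
    ∀ p : ℂ → ℂ, AnalyticOnNhd ℂ p (closedBall c r) →
      (∀ z ∈ sphere c r, (p z).re ≤ R z) → (p c).re ≤ R c

/-- From the comparison with imaginary parts of `DiffContOnCl` functions (the `SH` of 814/712). -/
theorem SupH.of_im {Ω : Set ℂ} (ho : IsOpen Ω) {R : ℂ → ℝ} (hl : LowerSemicontinuousOn R Ω)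
    (h : ∀ c s, 0 < s → closedBall c s ⊆ Ω → ∀ g : ℂ → ℂ, DiffContOnCl ℂ g (ball c s) →
      (∀ z ∈ sphere c s, (g z).im ≤ R z) → ∀ z ∈ closedBall c s, (g z).im ≤ R z) : SupH Ω R := by
  refine ⟨hl, fun c hc => ?_⟩
  obtain ⟨r1, hr1, h1⟩ := Metric.isOpen_iff.1 ho c hc
  refine ⟨r1, hr1, fun r hr hrr => ?_⟩
  have hsub := (closedBall_subset_ball (x := c) hrr).trans h1
  refine ⟨hsub, fun p hp hle => ?_⟩
  have hd : DiffContOnCl ℂ (fun z => I * p z) (ball c r) := by
    apply DifferentiableOn.diffContOnCl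
    rw [closure_ball c hr.ne']
    exact (differentiableOn_const I).mul hp.differentiableOn
  have := h c r hr hsub (fun z => I * p z) hd (fun z hz => by
    simpa using hle z hz) c (mem_closedBall_self hr.le)
  simpa using this

/-- From the comparison with real parts of `DiffContOnCl` functions. -/
theorem SupH.of_re {Ω : Set ℂ} (ho : IsOpen Ω) {R : ℂ → ℝ} (hl : LowerSemicontinuousOn R Ω)
    (h : ∀ c s, 0 < s → closedBall c s ⊆ Ω → ∀ g : ℂ → ℂ, DiffContOnCl ℂ g (ball c s) →
      (∀ z ∈ sphere c s, (g z).re ≤ R z) → (g c).re ≤ R c) : SupH Ω R := by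
  refine ⟨hl, fun c hc => ?_⟩
  obtain ⟨r1, hr1, h1⟩ := Metric.isOpen_iff.1 ho c hc
  refine ⟨r1, hr1, fun r hr hrr => ?_⟩
  have hsub := (closedBall_subset_ball (x := c) hrr).trans h1
  refine ⟨hsub, fun p hp hle => h c r hr hsub p ?_ hle⟩
  apply DifferentiableOn.diffContOnCl
  rw [closure_ball c hr.ne']
  exact hp.differentiableOn

theorem SupH.mono {Ω Ω' : Set ℂ} {R : ℂ → ℝ} (h : SupH Ω R) (hs : Ω' ⊆ Ω) (ho : IsOpen Ω') :
    SupH Ω' R := by
  refine ⟨h.lsc.mono hs, fun c hc => ?_⟩
  obtain ⟨r0, hr0, h0⟩ := h.cmp c (hs hc)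
  obtain ⟨r1, hr1, h1⟩ := Metric.isOpen_iff.1 ho c hc
  refine ⟨min r0 r1, lt_min hr0 hr1, fun r hr hrr => ⟨?_, ?_⟩⟩
  · exact (closedBall_subset_ball (hrr.trans_le (min_le_right _ _))).trans h1
  · exact (h0 r hr (hrr.trans_le (min_le_left _ _))).2

/-- Adding the real part of a holomorphic function. -/
theorem SupH.add_re {Ω : Set ℂ} {R : ℂ → ℝ} (h : SupH Ω R) {q : ℂ → ℂ} (hq : AnalyticOnNhd ℂ q Ω) :
    SupH Ω (fun z => R z + (q z).re) := by
  refine ⟨?_, fun c hc => ?_⟩
  · refine h.lsc.add' ?_ ?_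
    · exact (continuous_re.comp_continuousOn hq.continuousOn).lowerSemicontinuousOn
    · intro x _
      exact continuous_add.continuousAt
  · obtain ⟨r0, hr0, h0⟩ := h.cmp c hc
    refine ⟨r0, hr0, fun r hr hrr => ?_⟩
    obtain ⟨h1, h2⟩ := h0 r hr hrr
    refine ⟨h1, fun p hp hle => ?_⟩
    have := h2 (fun z => p z - q z) (hp.sub (hq.mono h1)) (fun z hz => by
      have := hle z hz
      rw [sub_re]; linarith)
    simp only [sub_re] at this
    linarith

theorem SupH.add_const {Ω : Set ℂ} {R : ℂ → ℝ} (h : SupH Ω R) (a : ℝ) :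
    SupH Ω (fun z => R z + a) := by
  have := h.add_re (q := fun _ => (a : ℂ)) (fun z _ => analyticAt_const)
  simpa using this

/-- **Minimum principle** on bounded open sets. -/
theorem SupH.nonneg {Ω : Set ℂ} (hΩ : IsOpen Ω) (hb : Bornology.IsBounded Ω) {R : ℂ → ℝ}
    (h : SupH Ω R) (hbd : ∀ ζ ∈ frontier Ω, ∀ ε > 0, ∀ᶠ z in 𝓝[Ω] ζ, -ε < R z) :
    ∀ z ∈ Ω, 0 ≤ R z := by
  intro z0 hz0
  by_contra hneg
  rw [not_le] at hneg
  obtain ⟨L, hL0, hL⟩ : ∃ L > 0, ∀ z ∈ Ω, ‖z‖ ≤ L := by
    obtain ⟨L, hL⟩ := hb.exists_norm_le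
    exact ⟨max L 1, by positivity, fun z hz => (hL z hz).trans (le_max_left _ _)⟩
  set ε : ℝ := -R z0 / (8 * L ^ 2) with hε
  have hε0 : 0 < ε := by
    have : 0 < -R z0 := by linarith
    positivity
  have hεL : ε * L ^ 2 = -R z0 / 8 := by
    rw [hε]; field_simp
  set S : ℂ → ℝ := fun z => R z - ε * ‖z‖ ^ 2 with hS
  have hSlsc : LowerSemicontinuousOn S Ω := by
    refine h.lsc.add' (g := fun z => - (ε * ‖z‖ ^ 2)) ?_ ?_
    · exact Continuous.lowerSemicontinuous (by fun_prop) |>.lowerSemicontinuousOn _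
    · intro x _
      exact continuous_add.continuousAt
  have hnb : ∀ z ∈ Ω, 0 ≤ ε * ‖z‖ ^ 2 ∧ ε * ‖z‖ ^ 2 ≤ -R z0 / 8 := by
    intro z hz
    refine ⟨by positivity, ?_⟩
    rw [← hεL]
    gcongr
    exact hL z hz
  set K : Set ℂ := {z | z ∈ Ω ∧ S z ≤ S z0} with hK
  have hKcl : IsClosed K := by
    apply IsSeqClosed.isClosed
    intro xs x hxs hx
    have hxΩ : x ∈ closure Ω := mem_closure_of_tendsto hx (Eventually.of_forall fun n => (hxs n).1)
    have hxw : Tendsto xs atTop (𝓝[Ω] x) :=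
      tendsto_nhdsWithin_iff.2 ⟨hx, Eventually.of_forall fun n => (hxs n).1⟩
    by_cases hxi : x ∈ Ω
    · refine ⟨hxi, ?_⟩
      by_contra hlt
      rw [not_le] at hlt
      have h1 := hxw.eventually (hSlsc x hxi _ hlt)
      obtain ⟨n, hn⟩ := h1.exists
      exact absurd (hxs n).2 (not_le.2 hn)
    · exfalso
      have hfr : x ∈ frontier Ω := by
        rw [frontier, hΩ.interior_eq]; exact ⟨hxΩ, hxi⟩
      have h1 := hxw.eventually (hbd x hfr (-R z0 / 8) (by linarith))
      obtain ⟨n, hn⟩ := h1.exists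
      have h2 := (hxs n).2
      have h3 := hnb _ (hxs n).1
      have h4 := hnb _ hz0
      simp only [hS] at h2
      linarith
  have hKb : Bornology.IsBounded K := hb.subset fun z hz => hz.1
  have hKc : IsCompact K := Metric.isCompact_of_isClosed_isBounded hKcl hKb
  have hKne : K.Nonempty := ⟨z0, hz0, le_refl _⟩
  obtain ⟨z1, hz1K, hz1⟩ := (hSlsc.mono fun z hz => hz.1).exists_isMinOn hKne hKc
  have hz1min : ∀ z ∈ Ω, S z1 ≤ S z := by
    intro z hz
    by_cases hzK : z ∈ K
    · exact hz1 hzK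
    · have : S z0 < S z := by
        by_contra hcon
        exact hzK ⟨hz, not_lt.1 hcon⟩
      exact (hz1K.2.trans this.le)
  obtain ⟨r0, hr0, h0⟩ := h.cmp z1 hz1K.1
  obtain ⟨hsub, hcmp⟩ := h0 (r0 / 2) (by positivity) (by linarith)
  set r := r0 / 2 with hr
  have hrpos : 0 < r := by positivity
  have hfin := hcmp (fun z => ((S z1 + ε * ‖z1‖ ^ 2 + ε * r ^ 2 : ℝ) : ℂ) +
      (2 * ε : ℝ) * (conj z1 * (z - z1))) (by
      intro z _
      fun_prop) (by
      intro z hz
      rw [mem_sphere, dist_eq_norm] at hz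
      have h1 := hz1min z (hsub (by rw [mem_closedBall, dist_eq_norm]; exact hz.le))
      have h2 : ‖z‖ ^ 2 = ‖z1‖ ^ 2 + 2 * (conj z1 * (z - z1)).re + r ^ 2 := by
        rw [← hz]
        simp only [← Complex.normSq_eq_norm_sq, Complex.normSq_apply, mul_re, conj_re, conj_im,
          sub_re, sub_im]
        ring
      rw [Complex.add_re, Complex.ofReal_re, Complex.re_ofReal_mul]
      have h3 : S z = R z - ε * ‖z‖ ^ 2 := rfl
      rw [h3, h2] at h1
      nlinarith)
  simp only [sub_self, mul_zero, add_zero, ofReal_re, hS] at hfin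
  have : 0 < ε * r ^ 2 := by positivity
  linarith

end Crest.Agent.R102.Slope811
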