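import Mathlib
import Crest.Agent.R102.SlopeA_811

/-!
Row 102, T1-B, EDGE (255 (2)(a), 344 (8)): a label function on a half plane (half disc) below the
real axis, with values in the strip `|Im| < h` and without interior cluster values of `Im` at the
real points, goes to ONE edge; on a half plane this is impossible.
-/

set_option autoImplicit false

open Set Filter Topology Metric Complex

noncomputable section

namespace Crest.Agent.R102.OneEdge811

open Crest.Agent.R102.Slope811

/-- the open lower half plane -/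
def LH : Set ℂ := {z | z.im < 0}

theorem isOpen_LH : IsOpen LH := isOpen_lt continuous_im continuous_const

theorem convex_LH : Convex ℝ LH := convex_halfSpace_im_lt 0

theorem neBot_LH (x : ℝ) : (𝓝[LH] (x : ℂ)).NeBot := by
  rw [← mem_closure_iff_nhdsWithin_neBot]
  refine Metric.mem_closure_iff.2 fun ε hε => ⟨x - (ε / 2) * I, ?_, ?_⟩
  · simp only [LH, mem_ofPred_eq, sub_im, ofReal_im, mul_im, I_im, I_re]
    norm_num; linarith
  · rw [dist_eq_norm]
    have : (x : ℂ) - (x - (ε / 2) * I) = ((ε / 2 : ℝ) : ℂ) * I := by push_cast; ring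
    rw [this, norm_mul, norm_I, mul_one, norm_real, Real.norm_eq_abs, abs_of_pos (by positivity)]
    linarith

/-- one side at one point -/
theorem side {H : Set ℂ} {x : ℂ} (hconv : ∀ r > 0, IsPreconnected (H ∩ ball x r))
    {f : ℂ → ℝ} {h : ℝ} (hh : 0 < h) (hc : ContinuousOn f H) (hb : ∀ z ∈ H, |f z| < h)
    (hno : ∀ c ∈ Ioo (-h) h, ¬ MapClusterPt c (𝓝[H] x) f) :
    Tendsto f (𝓝[H] x) (𝓝 h) ∨ Tendsto f (𝓝[H] x) (𝓝 (-h)) := by
  have key : ∀ δ > 0, ∀ᶠ z in 𝓝[H] x, f z ∉ Icc (-h + δ) (h - δ) := by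
    intro δ hδ
    by_contra hcon
    have hfr : ∃ᶠ z in 𝓝[H] x, f z ∈ Icc (-h + δ) (h - δ) := by
      rw [Filter.Frequently]
      exact hcon
    obtain ⟨c, hcI, hcl⟩ := isCompact_Icc.exists_mapClusterPt_of_frequently hfr
    exact hno c ⟨by linarith [hcI.1], by linarith [hcI.2]⟩ hcl
  obtain ⟨r, hr, hrs⟩ := Metric.mem_nhdsWithin_iff.1 (key (h / 2) (by positivity))
  have hout : ∀ z ∈ H ∩ ball x r, f z < -h / 2 ∨ h / 2 < f z := by
    intro z hz
    have := hrs ⟨hz.2, hz.1⟩
    simp only [mem_ofPred_eq, mem_Icc, not_and, not_le] at this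
    by_cases h1 : f z < -h / 2
    · exact Or.inl h1
    · right
      have := this (by linarith)
      linarith
  have hpre := (hconv r hr).image f (hc.mono inter_subset_left)
  have hev : ∀ᶠ z in 𝓝[H] x, z ∈ H ∩ ball x r := by
    filter_upwards [self_mem_nhdsWithin, mem_nhdsWithin_of_mem_nhds (ball_mem_nhds x hr)] with z h1 h2
    exact ⟨h1, h2⟩
  have hdich : (∀ z ∈ H ∩ ball x r, h / 2 < f z) ∨ (∀ z ∈ H ∩ ball x r, f z < -h / 2) := by
    by_contra hcon
    push Not at hcon
    obtain ⟨⟨z1, hz1, h1⟩, ⟨z2, hz2, h2⟩⟩ := hcon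
    have h1' : f z1 < -h / 2 := (hout z1 hz1).resolve_right (not_lt.2 h1)
    have h2' : h / 2 < f z2 := (hout z2 hz2).resolve_left (not_lt.2 h2)
    have : (0 : ℝ) ∈ f '' (H ∩ ball x r) :=
      hpre.ordConnected.out ⟨z1, hz1, rfl⟩ ⟨z2, hz2, rfl⟩ ⟨by linarith, by linarith⟩
    obtain ⟨z, hz, hz0⟩ := this
    rcases hout z hz with h3 | h3 <;> linarith
  rcases hdich with hd | hd
  · left
    rw [Metric.tendsto_nhds]
    intro δ hδ
    filter_upwards [key δ hδ, hev] with z h1 h2
    have h3 := hd z h2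
    have h4 := abs_lt.1 (hb z h2.1)
    simp only [mem_Icc, not_and, not_le] at h1
    rw [Real.dist_eq, abs_lt]
    by_cases h5 : δ ≤ h
    · have := h1 (by linarith)
      constructor <;> linarith
    · constructor <;> linarith
  · right
    rw [Metric.tendsto_nhds]
    intro δ hδ
    filter_upwards [key δ hδ, hev] with z h1 h2
    have h3 := hd z h2
    have h4 := abs_lt.1 (hb z h2.1)
    simp only [mem_Icc, not_and, not_le] at h1
    rw [Real.dist_eq, abs_lt]
    by_cases h5 : δ ≤ h
    · by_contra hcon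
      have h6 : -h + δ ≤ f z := by
        by_contra h7
        exact hcon ⟨by linarith, by linarith⟩
      have := h1 h6
      linarith
    · constructor <;> linarith

/-- **one edge on an interval** (local form: half disc over `(a, b)`, any `H` which is the lower
half plane near the points of `(a, b)`) -/
theorem one_edge {H : Set ℂ} {a b : ℝ} (hH : ∀ x ∈ Ioo a b, ∃ ρ > 0, H ∩ ball (x : ℂ) ρ = LH ∩ ball (x : ℂ) ρ)
    {f : ℂ → ℝ} {h : ℝ} (hh : 0 < h) (hc : ContinuousOn f H) (hb : ∀ z ∈ H, |f z| < h)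
    (hno : ∀ x ∈ Ioo a b, ∀ c ∈ Ioo (-h) h, ¬ MapClusterPt c (𝓝[LH] (x : ℂ)) f) :
    (∀ x ∈ Ioo a b, Tendsto f (𝓝[LH] (x : ℂ)) (𝓝 h)) ∨
      (∀ x ∈ Ioo a b, Tendsto f (𝓝[LH] (x : ℂ)) (𝓝 (-h))) := by
  have hpt : ∀ x ∈ Ioo a b, Tendsto f (𝓝[LH] (x : ℂ)) (𝓝 h) ∨
      Tendsto f (𝓝[LH] (x : ℂ)) (𝓝 (-h)) := by
    intro x hx
    obtain ⟨ρ, hρ, hρe⟩ := hH x hx
    have hnh : 𝓝[LH ∩ ball (x : ℂ) ρ] (x : ℂ) = 𝓝[LH] (x : ℂ) :=
      nhdsWithin_inter_of_mem' (mem_nhdsWithin_of_mem_nhds (ball_mem_nhds _ hρ))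
    have := side (H := LH ∩ ball (x : ℂ) ρ) (x := x) (fun r hr => ?_) hh
      (hc.mono (by rw [← hρe]; exact inter_subset_left))
      (fun z hz => hb z (by rw [← hρe] at hz; exact hz.1))
      (by rw [hnh]; exact hno x hx)
    · rwa [hnh] at this
    · exact ((convex_LH.inter (convex_ball _ _)).inter (convex_ball _ _)).isPreconnected
  set P : Set ℝ := {x | ∀ᶠ z in 𝓝[LH] (x : ℂ), 0 < f z} with hP
  set Q : Set ℝ := {x | ∀ᶠ z in 𝓝[LH] (x : ℂ), f z < 0} with hQ
  have hop : ∀ g : ℂ → Prop, IsOpen {x : ℝ | ∀ᶠ z in 𝓝[LH] (x : ℂ), g z} := by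
    intro g
    rw [Metric.isOpen_iff]
    intro x hx
    obtain ⟨r, hr, hrs⟩ := Metric.mem_nhdsWithin_iff.1 hx
    refine ⟨r, hr, fun y hy => ?_⟩
    rw [mem_ball, Real.dist_eq] at hy
    refine Metric.mem_nhdsWithin_iff.2 ⟨r - |y - x|, by linarith, fun z hz => hrs ⟨?_, hz.2⟩⟩
    have h1 : dist (y : ℂ) (x : ℂ) = |y - x| := by
      rw [dist_eq_norm, ← ofReal_sub, norm_real, Real.norm_eq_abs]
    have h2 := hz.1
    rw [mem_ball] at h2 ⊢
    linarith [dist_triangle z (y : ℂ) (x : ℂ)]
  have hdisj : ∀ x, x ∈ P → x ∈ Q → False := by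
    intro x h1 h2
    have := neBot_LH x
    have h3 : ∀ᶠ z in 𝓝[LH] (x : ℂ), 0 < f z ∧ f z < 0 := Filter.Eventually.and h1 h2
    obtain ⟨z, hz1, hz2⟩ := h3.exists
    linarith
  have hcov : Ioo a b ⊆ P ∪ Q := by
    intro x hx
    rcases hpt x hx with h1 | h1
    · left; exact h1.eventually (lt_mem_nhds hh)
    · right; exact h1.eventually (gt_mem_nhds (by linarith))
  by_cases hne : (Ioo a b ∩ P).Nonempty
  · left
    have hsub := isPreconnected_Ioo.subset_left_of_subset_union (hop _) (hop _)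
      (Set.disjoint_left.2 fun x h1 h2 => hdisj x h1 h2) hcov hne
    intro x hx
    rcases hpt x hx with h1 | h1
    · exact h1
    · exact (hdisj x (hsub hx) (h1.eventually (gt_mem_nhds (by linarith)))).elim
  · right
    intro x hx
    rcases hpt x hx with h1 | h1
    · exact (hne ⟨x, hx, h1.eventually (lt_mem_nhds hh)⟩).elim
    · exact h1

/-- real parts of analytic functions are superharmonic -/
theorem supH_re {Ω : Set ℂ} (ho : IsOpen Ω) {q : ℂ → ℂ} (hq : AnalyticOnNhd ℂ q Ω) :
    SupH Ω (fun z => (q z).re) := by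
  have h0 : SupH Ω (fun _ => (0 : ℝ)) := by
    refine SupH.of_re ho continuousOn_const.lowerSemicontinuousOn ?_
    intro c s hs _ g hg hle
    have hd : DiffContOnCl ℂ (fun z => exp (g z)) (ball c s) :=
      ⟨hg.differentiableOn.cexp, continuous_exp.comp_continuousOn hg.continuousOn⟩
    have := norm_le_of_forall_mem_frontier_norm_le isBounded_ball hd (C := 1) (fun z hz => by
      rw [frontier_ball c hs.ne'] at hz
      rw [norm_exp]
      exact Real.exp_le_one_iff.2 (hle z hz)) (subset_closure (mem_ball_self hs))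
    rw [norm_exp] at this
    exact Real.exp_le_one_iff.1 this
  have := h0.add_re hq
  simpa using this

/-- no function goes to the upper edge along the whole real axis -/
theorem false_of_edge {g : ℂ → ℂ} {h : ℝ} (hg : DifferentiableOn ℂ g LH)
    (hb : ∀ z ∈ LH, |(g z).im| < h)
    (hlim : ∀ x : ℝ, Tendsto (fun z => (g z).im) (𝓝[LH] (x : ℂ)) (𝓝 h)) : False := by
  have hI : (-I : ℂ) ∈ LH := by simp [LH]
  have hh : 0 < h := (abs_nonneg _).trans_lt (hb _ hI)
  have hre : ∀ z ∈ LH, 1 < (1 + I * z).re := by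
    intro z hz
    have : z.im < 0 := hz
    simp only [add_re, one_re, mul_re, I_re, I_im, zero_mul, one_mul]
    linarith
  have hlog : ∀ z ∈ LH, 0 ≤ (Complex.log (1 + I * z)).re := by
    intro z hz
    rw [log_re]
    apply Real.log_nonneg
    exact (hre z hz).le.trans (re_le_norm _)
  -- the main inequality
  have key : ∀ δ > 0, 0 ≤ (g (-I)).im - h + δ * (Complex.log (1 + I * (-I))).re := by
    intro δ hδ
    set M : ℝ := Real.exp (2 * h / δ) with hM
    have hM1 : 1 ≤ M := Real.one_le_exp (by positivity)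
    set R : ℝ := M + 2 with hR
    set Ω : Set ℂ := LH ∩ ball 0 R with hΩ
    have hΩo : IsOpen Ω := isOpen_LH.inter isOpen_ball
    have hq : AnalyticOnNhd ℂ (fun z => -I * g z - h + δ * Complex.log (1 + I * z)) Ω := by
      apply DifferentiableOn.analyticOnNhd _ hΩo
      have h1 : DifferentiableOn ℂ g Ω := hg.mono inter_subset_left
      refine ((h1.const_mul _).sub_const _).add (DifferentiableOn.const_mul ?_ _)
      refine DifferentiableOn.clog ((differentiableOn_const _).add
        (differentiableOn_id.const_mul I)) fun z hz => Or.inl ?_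
      exact zero_lt_one.trans (hre z hz.1)
    have hs := supH_re hΩo hq
    have hval : ∀ z : ℂ, (-I * g z - h + δ * Complex.log (1 + I * z)).re =
        (g z).im - h + δ * (Complex.log (1 + I * z)).re := by
      intro z
      simp only [add_re, sub_re, mul_re, neg_re, I_re, neg_im, I_im, ofReal_re, ofReal_im,
        zero_mul, sub_zero, neg_zero, zero_sub]
      ring
    have hfin := hs.nonneg hΩo (isBounded_ball.subset inter_subset_right) ?_ (-I) ⟨hI, ?_⟩
    · rw [hval] at hfin
      exact hfin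
    · intro ζ hζ ε hε
      have hcl : ζ ∈ closure Ω := hζ.1
      have hnot : ζ ∉ Ω := by
        have := hζ.2
        rwa [hΩo.interior_eq] at this
      have him : ζ.im ≤ 0 := by
        have : closure Ω ⊆ {z | z.im ≤ 0} :=
          closure_minimal (fun z hz => (show z.im < 0 from hz.1).le)
            (isClosed_le continuous_im continuous_const)
        exact this hcl
      rcases him.lt_or_eq with him | him
      · -- on the circle
        have hn : R ≤ ‖ζ‖ := by
          by_contra hcon
          exact hnot ⟨him, by simpa using lt_of_not_ge hcon⟩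
        have h1 : ∀ᶠ z in 𝓝[Ω] ζ, R - 1 < ‖z‖ :=
          mem_nhdsWithin_of_mem_nhds ((isOpen_lt continuous_const continuous_norm).mem_nhds
            (by show R - 1 < ‖ζ‖; linarith))
        filter_upwards [h1, self_mem_nhdsWithin] with z hz1 hz2
        rw [hval]
        have h2 := abs_lt.1 (hb z hz2.1)
        have h3 : M ≤ ‖1 + I * z‖ := by
          have h4 : ‖I * z‖ - ‖(1 : ℂ)‖ ≤ ‖1 + I * z‖ := by
            have := norm_sub_norm_le (I * z) (-1)
            rw [norm_neg] at this
            rw [add_comm]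
            simpa using this
          rw [norm_mul, norm_I, one_mul, norm_one] at h4
          linarith
        have h5 : 2 * h / δ ≤ (Complex.log (1 + I * z)).re := by
          rw [log_re]
          have := Real.log_le_log (Real.exp_pos _) h3
          rwa [Real.log_exp] at this
        have h6 : 2 * h ≤ δ * (Complex.log (1 + I * z)).re := by
          have := mul_le_mul_of_nonneg_left h5 hδ.le
          rwa [mul_div_cancel₀ _ hδ.ne'] at this
        linarith
      · -- on the real axis
        have hζr : ζ = (ζ.re : ℂ) := Complex.ext rfl (by simpa using him)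
        have h1 : ∀ᶠ z in 𝓝[LH] ζ, h - ε < (g z).im := by
          rw [hζr]
          exact (hlim ζ.re).eventually (lt_mem_nhds (by linarith))
        have h2 : ∀ᶠ z in 𝓝[Ω] ζ, h - ε < (g z).im :=
          h1.filter_mono (nhdsWithin_mono _ inter_subset_left)
        filter_upwards [h2, self_mem_nhdsWithin] with z hz1 hz2
        rw [hval]
        have := mul_nonneg hδ.le (hlog z hz2.1)
        linarith
    · rw [mem_ball, dist_zero_right, norm_neg, norm_I]
      linarith
  have hfin : 0 ≤ (g (-I)).im - h := by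
    set L := (Complex.log (1 + I * (-I))).re with hL
    have hL0 : 0 ≤ L := hlog _ hI
    by_contra hneg
    rw [not_le] at hneg
    have := key (-((g (-I)).im - h) / (2 * (L + 1))) (by
      apply div_pos <;> linarith)
    have h2 : -((g (-I)).im - h) / (2 * (L + 1)) * L ≤ -((g (-I)).im - h) / 2 := by
      rw [div_mul_eq_mul_div, div_le_div_iff₀ (by positivity) (by norm_num)]
      nlinarith
    linarith
  have := abs_lt.1 (hb _ hI)
  linarith

/-- **255 (2)(a), 344 (8)**: on a half plane, interior cluster values must exist -/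
theorem exists_cluster {g : ℂ → ℂ} {h : ℝ} (hg : DifferentiableOn ℂ g LH)
    (hb : ∀ z ∈ LH, |(g z).im| < h) :
    ∃ x : ℝ, ∃ c ∈ Ioo (-h) h, MapClusterPt c (𝓝[LH] (x : ℂ)) (fun z => (g z).im) := by
  by_contra hcon
  push Not at hcon
  have hI : (-I : ℂ) ∈ LH := by simp [LH]
  have hh : 0 < h := (abs_nonneg _).trans_lt (hb _ hI)
  have hc : ContinuousOn (fun z => (g z).im) LH := continuous_im.comp_continuousOn hg.continuousOn
  have hall : (∀ x : ℝ, Tendsto (fun z => (g z).im) (𝓝[LH] (x : ℂ)) (𝓝 h)) ∨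
      (∀ x : ℝ, Tendsto (fun z => (g z).im) (𝓝[LH] (x : ℂ)) (𝓝 (-h))) := by
    have hn : ∀ n : ℝ, 0 < n → (∀ x ∈ Ioo (-n) n, Tendsto (fun z => (g z).im) (𝓝[LH] (x : ℂ)) (𝓝 h)) ∨
        (∀ x ∈ Ioo (-n) n, Tendsto (fun z => (g z).im) (𝓝[LH] (x : ℂ)) (𝓝 (-h))) := fun n _ =>
      one_edge (H := LH) (fun x _ => ⟨1, one_pos, rfl⟩) hh hc hb (fun x _ c hc' => hcon x c hc')
    have h0 : ∀ x : ℝ, Tendsto (fun z => (g z).im) (𝓝[LH] (x : ℂ)) (𝓝 h) →
        Tendsto (fun z => (g z).im) (𝓝[LH] (x : ℂ)) (𝓝 (-h)) → False := by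
      intro x h1 h2
      have := neBot_LH x
      have := tendsto_nhds_unique h1 h2
      linarith
    rcases hn 1 one_pos with h1 | h1
    · left
      intro x
      rcases hn (|x| + 1) (by positivity) with h2 | h2
      · exact h2 x ⟨by linarith [neg_abs_le x], by linarith [le_abs_self x]⟩
      · exact (h0 0 (h1 0 (by norm_num)) (h2 0 ⟨by linarith [abs_nonneg x], by positivity⟩)).elim
    · right
      intro x
      rcases hn (|x| + 1) (by positivity) with h2 | h2
      · exact (h0 0 (h2 0 ⟨by linarith [abs_nonneg x], by positivity⟩) (h1 0 (by norm_num))).elim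
      · exact h2 x ⟨by linarith [neg_abs_le x], by linarith [le_abs_self x]⟩
  rcases hall with h1 | h1
  · exact false_of_edge hg hb h1
  · refine false_of_edge (g := fun z => - g z) (h := h) hg.neg (fun z hz => ?_) (fun x => ?_)
    · rw [neg_im, abs_neg]; exact hb z hz
    · have := (h1 x).neg
      rw [neg_neg] at this
      exact this

end Crest.Agent.R102.OneEdge811
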