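import Mathlib
import Crest.Agent.R102.OneStepA_350

/-!
Row 102, T1-E, (E3), part 2: third order estimate; the functions `U_s (z, e)`, `W (z, e)`.
-/

set_option autoImplicit false
set_option linter.unusedSimpArgs false
set_option linter.unusedVariables false

open Set Filter Topology Metric

noncomputable section

namespace Crest.Agent.R102.OS350

/-- mean value inequality from the origin -/
lemma mv0 {p p1 : ℂ → ℂ} {r S : ℝ} (hp : ∀ e ∈ closedBall (0 : ℂ) r, HasDerivAt p (p1 e) e)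
    (h0 : p 0 = 0) (hS : ∀ e ∈ closedBall (0 : ℂ) r, ‖p1 e‖ ≤ S) {e : ℂ}
    (he : e ∈ closedBall (0 : ℂ) r) : ‖p e‖ ≤ S * ‖e‖ := by
  have hr : 0 ≤ r := (norm_nonneg e).trans (by simpa using he)
  have := (convex_closedBall (0 : ℂ) r).norm_image_sub_le_of_norm_hasDerivWithin_le
    (fun x hx => (hp x hx).hasDerivWithinAt) hS (mem_closedBall_self hr) he
  rwa [h0, sub_zero, sub_zero] at this

/-- **third order estimate** -/
theorem est3 {p p1 p2 p3 : ℂ → ℂ} {r A B F : ℝ}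
    (d0 : ∀ e ∈ closedBall (0 : ℂ) r, HasDerivAt p (p1 e) e)
    (d1 : ∀ e ∈ closedBall (0 : ℂ) r, HasDerivAt p1 (p2 e) e)
    (d2 : ∀ e ∈ closedBall (0 : ℂ) r, HasDerivAt p2 (p3 e) e)
    (c3 : ContinuousOn p3 (closedBall 0 r)) (z0 : p 0 = 0) (z1 : p1 0 = 0) (z2 : p2 0 = 0)
    (hr : 0 ≤ r) (hA : 0 ≤ A) (hB : 0 ≤ B) (hAr : A * r ^ 2 ≤ 1 / 4) (hBr : B * r ^ 3 ≤ 1 / 4)
    (h3 : ∀ e ∈ closedBall (0 : ℂ) r, ‖p3 e‖ ≤ A * ‖p1 e‖ + B * ‖p e‖ + F) :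
    ∀ e ∈ closedBall (0 : ℂ) r, ‖p3 e‖ ≤ 2 * F ∧ ‖p2 e‖ ≤ 2 * F * ‖e‖ ∧
      ‖p1 e‖ ≤ 2 * F * r * ‖e‖ ∧ ‖p e‖ ≤ 2 * F * r ^ 2 * ‖e‖ := by
  obtain ⟨e₀, he₀, hmax⟩ := (isCompact_closedBall (0 : ℂ) r).exists_isMaxOn
    ⟨0, mem_closedBall_self hr⟩ c3.norm
  set S : ℝ := ‖p3 e₀‖ with hS
  have hS0 : 0 ≤ S := norm_nonneg _
  have hm : ∀ e ∈ closedBall (0 : ℂ) r, ‖p3 e‖ ≤ S := fun e he => hmax he
  have b2 : ∀ e ∈ closedBall (0 : ℂ) r, ‖p2 e‖ ≤ S * ‖e‖ := fun e he => mv0 d2 z2 hm he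
  have nr : ∀ e ∈ closedBall (0 : ℂ) r, ‖e‖ ≤ r := fun e he => by simpa using he
  have b1 : ∀ e ∈ closedBall (0 : ℂ) r, ‖p1 e‖ ≤ S * r * ‖e‖ := fun e he =>
    mv0 d1 z1 (fun x hx => (b2 x hx).trans (mul_le_mul_of_nonneg_left (nr x hx) hS0)) he
  have b0 : ∀ e ∈ closedBall (0 : ℂ) r, ‖p e‖ ≤ S * r * r * ‖e‖ := fun e he =>
    mv0 d0 z0 (fun x hx => (b1 x hx).trans
      (mul_le_mul_of_nonneg_left (nr x hx) (mul_nonneg hS0 hr))) he
  have hSF : S ≤ 2 * F := by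
    have e1 := h3 e₀ he₀
    have e2 := b1 e₀ he₀
    have e3 := b0 e₀ he₀
    have e4 := nr e₀ he₀
    have e5 : ‖p1 e₀‖ ≤ S * r ^ 2 := by
      refine e2.trans ?_
      have := mul_le_mul_of_nonneg_left e4 (mul_nonneg hS0 hr)
      nlinarith
    have e6 : ‖p e₀‖ ≤ S * r ^ 3 := by
      refine e3.trans ?_
      have := mul_le_mul_of_nonneg_left e4 (mul_nonneg (mul_nonneg hS0 hr) hr)
      nlinarith
    have e7 := mul_le_mul_of_nonneg_left e5 hA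
    have e8 := mul_le_mul_of_nonneg_left e6 hB
    have e9 := mul_le_mul_of_nonneg_left hAr hS0
    have e10 := mul_le_mul_of_nonneg_left hBr hS0
    have : S ≤ A * (S * r ^ 2) + B * (S * r ^ 3) + F := by linarith
    nlinarith
  intro e he
  have hn := norm_nonneg e
  refine ⟨(hm e he).trans hSF, (b2 e he).trans ?_, (b1 e he).trans ?_, (b0 e he).trans ?_⟩
  · exact mul_le_mul_of_nonneg_right hSF hn
  · exact mul_le_mul_of_nonneg_right (mul_le_mul_of_nonneg_right hSF hr) hn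
  · have := mul_le_mul_of_nonneg_right (mul_le_mul_of_nonneg_right
      (mul_le_mul_of_nonneg_right hSF hr) hr) hn
    nlinarith

end Crest.Agent.R102.OS350
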