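import Crest.Agent.R102.Inner_575

/-!
Row 102, part (C), leaf H3: outer Hensel step, transfer of points, swap of the variables.
-/

set_option linter.unusedSectionVars false

namespace Crest.Agent.R102.H3

open PowerSeries Finset

section outer

variable {K H S : Type*} [Field K] [CharZero K] [CommRing H] [Algebra K H] [CommRing S]

/-- outer Hensel step: existence -/
theorem outer_step (d : Derivation K H H) (φ : H →+* S⟦X⟧) {z : H} (hz : d z = 1) (G : H)
    (m k : S⟦X⟧) (h0 : constantCoeff (φ G - (m * φ z + k)) = 0)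
    (hu : IsUnit (constantCoeff (φ (d G) - m))) :
    ∃ (y : S⟦X⟧) (hy : X ∣ y), pt d φ y hy G = m * pt d φ y hy z + k := by
  classical
  let Θ : S⟦X⟧ → S⟦X⟧ := fun y =>
    if hy : X ∣ y then pt d φ y hy G - (m * pt d φ y hy z + k) else 0
  have hroot := exists_root Θ 0 ?_ _ hu ?_
  · obtain ⟨y, hy1, hy2⟩ := hroot
    rw [sub_zero] at hy1
    refine ⟨y, hy1, ?_⟩
    have : Θ y = pt d φ y hy1 G - (m * pt d φ y hy1 z + k) := dif_pos hy1
    rw [this] at hy2
    exact sub_eq_zero.1 hy2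
  · have : Θ 0 = pt d φ 0 (dvd_zero _) G - (m * pt d φ 0 (dvd_zero _) z + k) :=
      dif_pos (dvd_zero _)
    rw [this, pt_zero, X_dvd_iff]
    exact h0
  · intro y y' hy hy'
    rw [sub_zero] at hy hy'
    obtain ⟨q, hq, hq2⟩ := pt_sub_pt d φ hy hy' G
    refine ⟨q - m, by rw [map_sub, map_sub, hq], ?_⟩
    have e1 : Θ y = pt d φ y hy G - (m * pt d φ y hy z + k) := dif_pos hy
    have e2 : Θ y' = pt d φ y' hy' G - (m * pt d φ y' hy' z + k) := dif_pos hy'
    rw [e1, e2, pt_coord d φ hy hz, pt_coord d φ hy' hz]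
    linear_combination hq2

/-- outer Hensel step: uniqueness -/
theorem outer_unique (d : Derivation K H H) (φ : H →+* S⟦X⟧) {z : H} (hz : d z = 1) (G : H)
    (m k : S⟦X⟧) (hu : IsUnit (constantCoeff (φ (d G) - m))) {y y' : S⟦X⟧}
    (hy : X ∣ y) (hy' : X ∣ y')
    (h : pt d φ y hy G = m * pt d φ y hy z + k)
    (h' : pt d φ y' hy' G = m * pt d φ y' hy' z + k) : y = y' := by
  obtain ⟨q, hq, hq2⟩ := pt_sub_pt d φ hy hy' G
  rw [pt_coord d φ hy hz] at h
  rw [pt_coord d φ hy' hz] at h'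
  have h3 : (y - y') * (q - m) = 0 := by
    linear_combination h - h' - hq2
  have hqu : IsUnit (q - m) := by
    rw [PowerSeries.isUnit_iff_constantCoeff, map_sub, hq, ← map_sub]
    exact hu
  rw [← sub_eq_zero]
  exact (hqu.mul_left_eq_zero).1 h3

/-- transfer of a translated point along an arbitrary ring hom -/
theorem map_pt_of_dvd {S' : Type*} [CommRing S'] (d : Derivation K H H) (χ : S⟦X⟧ →+* S'⟦X⟧)
    (φ : H →+* S⟦X⟧) {y : S⟦X⟧} (hy : X ∣ y) (hχ : X ∣ χ y) :
    χ.comp (pt d φ y hy) = pt d (χ.comp φ) (χ y) hχ := by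
  refine RingHom.ext fun f => eq_of_forall_X_pow_dvd fun M => ?_
  obtain ⟨q, hq⟩ := pt_eq d φ hy f M
  obtain ⟨q', hq'⟩ := pt_eq d (χ.comp φ) hχ f M
  rw [RingHom.comp_apply, hq, hq', map_add, map_sum, map_mul, map_pow]
  simp only [map_mul, map_pow, RingHom.comp_apply]
  have e : ∑ x ∈ range M, χ (φ (dn d x f)) * χ y ^ x + χ y ^ M * χ q
      - (∑ x ∈ range M, χ (φ (dn d x f)) * χ y ^ x + χ y ^ M * q')
      = χ y ^ M * (χ q - q') := by ring
  rw [e]
  exact (X_pow_dvd_pow hχ M).mul_right _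

end outer

section swap

variable {H : Type*} [CommRing H]

/-- swap of the two variables of `H⟦X⟧⟦X⟧` -/
noncomputable def swap : H⟦X⟧⟦X⟧ →+* H⟦X⟧⟦X⟧ where
  toFun F := PowerSeries.mk fun n => PowerSeries.mk fun m => coeff n (coeff m F)
  map_one' := by
    ext n m
    simp only [coeff_mk, coeff_one]
    split_ifs <;> simp_all [coeff_one]
  map_zero' := by ext n m; simp
  map_add' F G := by ext n m; simp
  map_mul' F G := by
    ext n m
    simp only [coeff_mk, coeff_mul, map_sum]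
    rw [Finset.sum_comm]

@[simp] theorem coeff_coeff_swap (F : H⟦X⟧⟦X⟧) (n m : ℕ) :
    coeff m (coeff n (swap F)) = coeff n (coeff m F) := by
  change coeff m (coeff n (PowerSeries.mk fun n => PowerSeries.mk fun m => coeff n (coeff m F))) = _
  rw [coeff_mk, coeff_mk]

theorem swap_swap (F : H⟦X⟧⟦X⟧) : swap (swap F) = F := by
  ext n m
  rw [coeff_coeff_swap, coeff_coeff_swap]

theorem swap_injective : Function.Injective (swap (H := H)) := fun F G h => by
  rw [← swap_swap F, h, swap_swap]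

@[simp] theorem swap_C_C (h : H) : swap (C (C h) : H⟦X⟧⟦X⟧) = C (C h) := by
  ext n m
  rw [coeff_coeff_swap, coeff_C, coeff_C]
  split_ifs with h1 h2 h2 <;> simp_all [coeff_C]

@[simp] theorem swap_X : swap (X : H⟦X⟧⟦X⟧) = C X := by
  ext n m
  rw [coeff_coeff_swap, coeff_X, coeff_C]
  split_ifs with h1 h2 h2 <;> simp_all [coeff_X, coeff_one]

@[simp] theorem swap_C_X : swap (C X : H⟦X⟧⟦X⟧) = X := by
  rw [← swap_X, swap_swap]

theorem constantCoeff_swap (F : H⟦X⟧⟦X⟧) :
    constantCoeff (swap F) = PowerSeries.map constantCoeff F := by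
  ext m
  rw [← coeff_zero_eq_constantCoeff_apply, coeff_coeff_swap, coeff_map,
    coeff_zero_eq_constantCoeff_apply]

end swap

end Crest.Agent.R102.H3
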