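import Mathlib

/-!
Row 102, T1-B: the joint between the unshifted heights (full disc, hypothesis (N)) and the heights
in the shifted coordinate `t' = t - Hol(w)` (half disc).

`pen lam y = y - lam y²` for `y ≤ 1/(2 lam)`, `1/(4 lam)` beyond.
-/

set_option autoImplicit false

open Set Filter Topology MeasureTheory

noncomputable section

namespace Crest.Agent.R102.P3

def pen (lam y : ℝ) : ℝ := if y ≤ 1 / (2 * lam) then y - lam * y ^ 2 else 1 / (4 * lam)

theorem pen_le {lam : ℝ} (hl : 0 < lam) (y : ℝ) : pen lam y ≤ y := by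
  unfold pen
  split_ifs with h
  · nlinarith [sq_nonneg y]
  · push Not at h
    have h1 : 1 / (4 * lam) ≤ 1 / (2 * lam) := by
      apply one_div_le_one_div_of_le <;> linarith
    linarith

theorem pen_small {lam e : ℝ} (he : e < 1 / (4 * lam)) {y : ℝ}
    (h : pen lam y ≤ e) : y ≤ 1 / (2 * lam) ∧ y - lam * y ^ 2 ≤ e := by
  unfold pen at h
  split_ifs at h with h1
  · exact ⟨h1, h⟩
  · linarith

/-- core estimate at one point: a nearly minimal singular point of the unshifted penalised height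
is nearly minimal for the shifted one. `w`-data: `H = Hol(w)`, `‖H - h0‖ ≤ C η`. -/
theorem core {lam C C1 η : ℝ} (hl : 0 < lam) (hC : 0 ≤ C) (hC1 : 0 ≤ C1) (hη : 0 < η)
    (hs1 : (C1 + 1) * η < 1 / (4 * lam)) (hs2 : lam * (C + 1) ^ 2 * η ≤ 1)
    {H h0 : ℂ} (hH : ‖H - h0‖ ≤ C * η) {x x0 y : ℝ} (hy : H.im ≤ y)
    (hx : pen lam (y - h0.im) + lam * (x - x0) ^ 2 ≤ C1 * η) :
    (y - H.im) + lam * (x - H.re - (x0 - h0.re)) ^ 2 ≤ 6 * (C1 + C + 1) * η := by
  have hre : |H.re - h0.re| ≤ C * η := by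
    have := Complex.abs_re_le_norm (H - h0)
    rw [Complex.sub_re] at this
    linarith
  have him : |H.im - h0.im| ≤ C * η := by
    have := Complex.abs_im_le_norm (H - h0)
    rw [Complex.sub_im] at this
    linarith
  have hre' := abs_le.1 hre
  have him' := abs_le.1 him
  set Y := y - h0.im with hY
  have hsq : 0 ≤ lam * (x - x0) ^ 2 := by positivity
  have h1 : pen lam Y ≤ C1 * η := by linarith
  have h2 := pen_small (by linarith [add_mul C1 1 η] : C1 * η < 1 / (4 * lam)) h1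
  obtain ⟨h3, h4⟩ := h2
  -- lower bound of Y
  have h5 : -(C * η) ≤ Y := by rw [hY]; linarith [him'.1]
  have h6 : Y * lam ≤ 1 / 2 := by
    rw [le_div_iff₀ (by positivity)] at h3
    linarith
  -- upper bound of Y
  have h7 : Y ≤ 2 * (C1 * η) := by
    by_cases hY0 : 0 ≤ Y
    · have e1 : Y - lam * Y ^ 2 = Y * (1 - Y * lam) := by ring
      have e2 : Y * (1 / 2) ≤ Y * (1 - Y * lam) := mul_le_mul_of_nonneg_left (by linarith) hY0
      linarith
    · push Not at hY0
      have : 0 ≤ C1 * η := by positivity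
      linarith
  have hpen : Y - lam * Y ^ 2 + lam * (x - x0) ^ 2 ≤ C1 * η := by
    have h8 : pen lam Y = Y - lam * Y ^ 2 := by
      unfold pen
      rw [if_pos h3]
    linarith [h8 ▸ hx]
  -- lam (x - x0)^2 ≤ C1 η + 2 C η
  have h9 : lam * (x - x0) ^ 2 ≤ C1 * η + 2 * (C * η) := by
    by_cases hY0 : 0 ≤ Y
    · have h10 : 0 ≤ Y - lam * Y ^ 2 := by
        have e1 : Y - lam * Y ^ 2 = Y * (1 - Y * lam) := by ring
        rw [e1]
        exact mul_nonneg hY0 (by linarith)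
      have : 0 ≤ C * η := by positivity
      linarith
    · push Not at hY0
      have h11 : Y ^ 2 ≤ (C * η) ^ 2 := by
        rw [← sq_abs Y]
        refine pow_le_pow_left₀ (abs_nonneg _) ?_ 2
        rw [abs_of_neg hY0]
        linarith
      have h12 : lam * (C * η) ^ 2 ≤ C * η := by
        have e1 : lam * (C * η) ^ 2 = (lam * C ^ 2 * η) * η := by ring
        have e2 : lam * C ^ 2 * η ≤ C := by
          have e3 : lam * (C + 1) ^ 2 * η = lam * C ^ 2 * η + 2 * (lam * C * η) + lam * η := by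
            ring
          have e4 : 0 ≤ lam * C ^ 2 * η := by positivity
          have e5 : 0 ≤ lam * C * η := by positivity
          have e6 : 0 ≤ lam * η := by positivity
          have e7 : lam * C * η ≤ 1 := by linarith
          calc lam * C ^ 2 * η = (lam * C * η) * C := by ring
            _ ≤ 1 * C := mul_le_mul_of_nonneg_right e7 hC
            _ = C := one_mul C
        rw [e1]
        exact mul_le_mul_of_nonneg_right e2 hη.le
      have h13 : lam * Y ^ 2 ≤ lam * (C * η) ^ 2 := mul_le_mul_of_nonneg_left h11 hl.le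
      linarith
  -- the shifted square
  have h14 : (x - H.re - (x0 - h0.re)) ^ 2 ≤ 2 * (x - x0) ^ 2 + 2 * (C * η) ^ 2 := by
    have e1 : (H.re - h0.re) ^ 2 ≤ (C * η) ^ 2 := by
      rw [← sq_abs (H.re - h0.re)]
      exact pow_le_pow_left₀ (abs_nonneg _) hre 2
    have e2 : x - H.re - (x0 - h0.re) = (x - x0) - (H.re - h0.re) := by ring
    rw [e2]
    have e3 := sq_nonneg ((x - x0) + (H.re - h0.re))
    have e4 : ((x - x0) - (H.re - h0.re)) ^ 2 = 2 * (x - x0) ^ 2 + 2 * (H.re - h0.re) ^ 2 -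
      ((x - x0) + (H.re - h0.re)) ^ 2 := by ring
    rw [e4]
    linarith
  have h15 : lam * (C * η) ^ 2 ≤ η := by
    have e1 : lam * (C * η) ^ 2 = (lam * C ^ 2 * η) * η := by ring
    have e2 : lam * C ^ 2 * η ≤ 1 := by
      have e3 : lam * (C + 1) ^ 2 * η = lam * C ^ 2 * η + 2 * (lam * C * η) + lam * η := by ring
      have e5 : 0 ≤ lam * C * η := by positivity
      have e6 : 0 ≤ lam * η := by positivity
      linarith
    rw [e1]
    calc lam * C ^ 2 * η * η ≤ 1 * η := mul_le_mul_of_nonneg_right e2 hη.le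
      _ = η := one_mul η
  have h16 : lam * (x - H.re - (x0 - h0.re)) ^ 2 ≤ 2 * (lam * (x - x0) ^ 2) +
      2 * (lam * (C * η) ^ 2) := by
    have := mul_le_mul_of_nonneg_left h14 hl.le
    linarith
  have h17 : y - H.im ≤ 2 * (C1 * η) + C * η := by
    have : y - H.im = Y + (h0.im - H.im) := by rw [hY]; ring
    rw [this]
    linarith [him'.1]
  have h18 : 0 ≤ C * η := by positivity
  have h19 : 0 ≤ C1 * η := by positivity
  have e : 6 * (C1 + C + 1) * η = 6 * (C1 * η) + 6 * (C * η) + 6 * η := by ring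
  rw [e]
  linarith

/-- sector points -/
def Sec (z : ℂ) : Prop := 0 < z.im ∧ |z.re| ≤ z.im

theorem Sec.norm_le {z : ℂ} (hz : Sec z) : ‖z‖ ≤ 2 * z.im := by
  have h1 := Complex.norm_le_abs_re_add_abs_im z
  rw [abs_of_pos hz.1] at h1
  linarith [hz.2]

theorem Sec.norm_pos {z : ℂ} (hz : Sec z) : 0 < ‖z‖ := by
  have h1 := Complex.abs_im_le_norm z
  rw [abs_of_pos hz.1] at h1
  linarith [hz.1]

/-- **(P3), local form.** `kt x w` = height (imaginary part) of the lowest singular point over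
`Re t = x` at the parameter `w`; `kL x z` = height of the lowest singular point in the coordinate
`t' = t - Hol (u+z)` over `Re t' = x`. If along a sequence of sector points the unshifted penalised
height is `≤ Hol.im + C1 |z|`-small, the same holds for the shifted one, with a constant which does
not depend on `lam`, `x0`. -/
theorem p3_local {kt kL : ℝ → ℂ → ℝ} {Hol : ℂ → ℂ} {u : ℝ} {h0 : ℂ} {C C1 δ0 lam x0 : ℝ}
    (hl : 0 < lam) (hC : 0 ≤ C) (hC1 : 0 ≤ C1) (hδ0 : 0 < δ0)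
    (hsec : ∀ z : ℂ, Sec z → ‖z‖ < δ0 → ‖Hol (u + z) - h0‖ ≤ C * ‖z‖)
    (hk : ∀ z : ℂ, Sec z → ‖z‖ < δ0 → ∀ x, kL x z ≤ kt (x + (Hol (u + z)).re) (u + z) -
      (Hol (u + z)).im)
    (hkt : ∀ z : ℂ, Sec z → ‖z‖ < δ0 → ∀ x, (Hol (u + z)).im ≤ kt x (u + z))
    (hR : ∀ δ > 0, ∃ z : ℂ, Sec z ∧ ‖z‖ < δ ∧ ∃ x : ℝ,
      pen lam (kt x (u + z) - h0.im) + lam * (x - x0) ^ 2 ≤ C1 * ‖z‖) :
    ∀ δ > 0, ∃ z : ℂ, Sec z ∧ ‖z‖ < δ ∧ ∃ x : ℝ,
      pen lam (kL x z) + lam * (x - (x0 - h0.re)) ^ 2 ≤ 12 * (C1 + C + 1) * z.im := by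
  intro δ hδ
  -- smallness
  set δ1 : ℝ := min (min δ δ0) (min (1 / (8 * lam * (C1 + 1))) (1 / (lam * (C + 1) ^ 2))) with hδ1
  have hδ1pos : 0 < δ1 := by
    apply lt_min (lt_min hδ hδ0)
    apply lt_min <;> positivity
  obtain ⟨z, hz, hzδ, x, hx⟩ := hR δ1 hδ1pos
  have hz1 : ‖z‖ < δ := hzδ.trans_le ((min_le_left _ _).trans (min_le_left _ _))
  have hz2 : ‖z‖ < δ0 := hzδ.trans_le ((min_le_left _ _).trans (min_le_right _ _))
  have hz3 : ‖z‖ < 1 / (8 * lam * (C1 + 1)) :=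
    hzδ.trans_le ((min_le_right _ _).trans (min_le_left _ _))
  have hz4 : ‖z‖ < 1 / (lam * (C + 1) ^ 2) :=
    hzδ.trans_le ((min_le_right _ _).trans (min_le_right _ _))
  have hzp := hz.norm_pos
  refine ⟨z, hz, hz1, x - (Hol (u + z)).re, ?_⟩
  have hs1 : (C1 + 1) * ‖z‖ < 1 / (4 * lam) := by
    rw [lt_div_iff₀ (by positivity)] at hz3 ⊢
    have e1 : 0 ≤ (C1 + 1) * ‖z‖ * (4 * lam) := by positivity
    have e2 : ‖z‖ * (8 * lam * (C1 + 1)) = 2 * ((C1 + 1) * ‖z‖ * (4 * lam)) := by ring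
    linarith
  have hs2 : lam * (C + 1) ^ 2 * ‖z‖ ≤ 1 := by
    rw [lt_div_iff₀ (by positivity)] at hz4
    linarith
  have h1 := core hl hC hC1 hzp hs1 hs2 (hsec z hz hz2) (hkt z hz hz2 x) hx
  have h2 := hk z hz hz2 (x - (Hol (u + z)).re)
  rw [sub_add_cancel] at h2
  have h3 := pen_le hl (kL (x - (Hol (u + z)).re) z)
  have h4 := hz.norm_le
  have h5 : 6 * (C1 + C + 1) * ‖z‖ ≤ 12 * (C1 + C + 1) * z.im := by
    have h6 : 0 ≤ C1 + C + 1 := by linarith
    calc 6 * (C1 + C + 1) * ‖z‖ ≤ 6 * (C1 + C + 1) * (2 * z.im) :=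
          mul_le_mul_of_nonneg_left h4 (by positivity)
      _ = _ := by ring
  linarith

end Crest.Agent.R102.P3
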