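import Mathlib
import Crest.Agent.Lib.InjHolo

/-!
# Row 102, Case E (`h₀ = ∞`): the infinite-time end of a P-start (helper184)

* `meromorphicAt_of_injOn` : an injective holomorphic function on a punctured disc is meromorphic
  at the centre.
* `gamma_mero` : if `Γ (j s) = f s` on a punctured disc, `f` meromorphic at `0`, `j` injective,
  without zeros and `j (u n) → 0` for some `u n → 0`, then `Γ` is meromorphic at `0`.
* `gamma_mero_inf` : the same for `j (u n) → ∞` (and `q ↦ Γ q⁻¹`).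
* `pend_exp` : `θ' = y` entire, `y` 1-periodic and real; if `exp (2 i θ)` is a meromorphic function
  of `q = exp (2 π i z)` at `q = 0` then `y` is constant.
* `pend` : the same if the two isotropic coordinates of the curve are meromorphic functions of `q`
  at `q = 0`.
-/

set_option autoImplicit false

open Set Filter Metric
open scoped Topology ComplexConjugate

noncomputable section

namespace Crest.Agent.R102.PEnd184

/-- the punctured disc -/
def PB (ε : ℝ) : Set ℂ := ball 0 ε \ {0}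

lemma isOpen_PB (ε : ℝ) : IsOpen (PB ε) := isOpen_ball.sdiff isClosed_singleton

lemma mem_PB {ε : ℝ} {s : ℂ} : s ∈ PB ε ↔ ‖s‖ < ε ∧ s ≠ 0 := by
  simp [PB]

lemma PB_mem {ε : ℝ} (hε : 0 < ε) : PB ε ∈ 𝓝[≠] (0 : ℂ) := by
  rw [PB, sdiff_eq]
  exact inter_mem (nhdsWithin_le_nhds (ball_mem_nhds 0 hε)) self_mem_nhdsWithin

/-- An injective holomorphic function on a punctured disc is meromorphic at the centre. -/
theorem meromorphicAt_of_injOn {f : ℂ → ℂ} {ε : ℝ} (hε : 0 < ε) (hd : DifferentiableOn ℂ f (PB ε))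
    (hi : InjOn f (PB ε)) : MeromorphicAt f 0 := by
  set w₀ : ℂ := ((ε / 2 : ℝ) : ℂ) with hw₀
  have hn : ‖w₀‖ = ε / 2 := by
    rw [hw₀, Complex.norm_real, Real.norm_of_nonneg (by linarith)]
  have hw₀m : w₀ ∈ PB ε := mem_PB.2 ⟨by rw [hn]; linarith, by
    intro h
    rw [h, norm_zero] at hn
    linarith⟩
  have hU : ball w₀ (ε / 4) ⊆ PB ε := by
    intro z hz
    rw [mem_ball, dist_eq_norm] at hz
    refine mem_PB.2 ⟨?_, ?_⟩
    · calc ‖z‖ = ‖(z - w₀) + w₀‖ := by ring_nf
        _ ≤ ‖z - w₀‖ + ‖w₀‖ := norm_add_le _ _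
        _ < ε := by rw [hn]; linarith
    · rintro rfl
      rw [zero_sub, norm_neg, hn] at hz
      linarith
  have hnh : f '' (ball w₀ (ε / 4)) ∈ 𝓝 (f w₀) :=
    Lib.nhds_le_map_nhds_of_injOn (isOpen_PB ε) hd hi hw₀m
      (image_mem_map (ball_mem_nhds _ (by linarith)))
  obtain ⟨δ, hδ, hδb⟩ := Metric.mem_nhds_iff.1 hnh
  -- away from `f w₀` on the small disc
  have hfar : ∀ s ∈ PB (ε / 4), δ ≤ ‖f s - f w₀‖ := by
    intro s hs
    by_contra hlt
    push Not at hlt
    have h1 : f s ∈ ball (f w₀) δ := by rwa [mem_ball, dist_eq_norm]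
    obtain ⟨s', hs', he⟩ := hδb h1
    have hsε : s ∈ PB ε := mem_PB.2 ⟨by linarith [(mem_PB.1 hs).1], (mem_PB.1 hs).2⟩
    have h2 : s' = s := hi (hU hs') hsε he
    subst h2
    rw [mem_ball, dist_eq_norm] at hs'
    have h3 : ‖w₀‖ ≤ ‖s'‖ + ‖s' - w₀‖ := by
      calc ‖w₀‖ = ‖s' - (s' - w₀)‖ := by ring_nf
        _ ≤ _ := norm_sub_le _ _
    rw [hn] at h3
    linarith [(mem_PB.1 hs).1]
  set g : ℂ → ℂ := fun s => (f s - f w₀)⁻¹ with hg
  have hsub : PB (ε / 4) ⊆ PB ε := fun s hs => mem_PB.2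
    ⟨by linarith [(mem_PB.1 hs).1], (mem_PB.1 hs).2⟩
  have hne : ∀ s ∈ PB (ε / 4), f s - f w₀ ≠ 0 := by
    intro s hs h0
    have := hfar s hs
    rw [h0, norm_zero] at this
    linarith
  have hgd : DifferentiableOn ℂ g (ball 0 (ε / 4) \ {0}) := by
    change DifferentiableOn ℂ g (PB (ε / 4))
    exact ((hd.mono hsub).sub (differentiableOn_const _)).inv hne
  have hgb : BddAbove (norm ∘ g '' (ball 0 (ε / 4) \ {0})) := by
    refine ⟨δ⁻¹, ?_⟩
    rintro _ ⟨s, hs, rfl⟩
    simp only [Function.comp_apply, hg, norm_inv]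
    exact inv_anti₀ hδ (hfar s hs)
  have hgu := Complex.differentiableOn_update_limUnder_of_bddAbove
    (ball_mem_nhds (0 : ℂ) (by linarith : (0 : ℝ) < ε / 4)) hgd hgb
  have hga : MeromorphicAt (Function.update g 0 (limUnder (𝓝[≠] 0) g)) 0 :=
    (hgu.analyticAt (ball_mem_nhds (0 : ℂ) (by linarith : (0 : ℝ) < ε / 4))).meromorphicAt
  have hgm : MeromorphicAt g 0 := by
    refine hga.congr ?_
    filter_upwards [self_mem_nhdsWithin] with s hs
    exact Function.update_of_ne hs _ _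
  have h1 : MeromorphicAt (fun s => (g s)⁻¹ + f w₀) 0 :=
    hgm.inv.add (MeromorphicAt.const _ _)
  refine h1.congr ?_
  filter_upwards with s
  simp [hg]

/-- If `Γ ∘ j = f` on a punctured disc with `f` meromorphic at `0` and `j` holomorphic, injective,
zero free, tending to `0` along some sequence, then `Γ` is meromorphic at `0`. -/
theorem gamma_mero {f j Γ : ℂ → ℂ} {ε : ℝ} (hε : 0 < ε) (hf : MeromorphicAt f 0)
    (hj : DifferentiableOn ℂ j (PB ε)) (hi : InjOn j (PB ε)) (hj0 : ∀ s ∈ PB ε, j s ≠ 0)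
    {u : ℕ → ℂ} (hu0 : ∀ n, u n ≠ 0) (hu : Tendsto u atTop (𝓝 0))
    (hju : Tendsto (fun n => j (u n)) atTop (𝓝 0)) (hG : ∀ s ∈ PB ε, Γ (j s) = f s) :
    MeromorphicAt Γ 0 := by
  have hjm := meromorphicAt_of_injOn hε hj hi
  have hu' : Tendsto u atTop (𝓝[≠] 0) :=
    tendsto_nhdsWithin_iff.2 ⟨hu, Eventually.of_forall hu0⟩
  -- the limit of `j` at `0` is `0`
  have hlim : Tendsto j (𝓝[≠] 0) (𝓝 0) := by
    rcases lt_or_ge (meromorphicOrderAt j 0) 0 with h | h
    · exfalso
      have h1 := (tendsto_cobounded_iff_meromorphicOrderAt_neg hjm).2 h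
      have h2 := h1.comp hu'
      exact (h2.not_tendsto (Metric.disjoint_cobounded_nhds 0)) hju
    · obtain ⟨c, hc⟩ := (tendsto_nhds_iff_meromorphicOrderAt_nonneg hjm).2 h
      have h2 : Tendsto (fun n => j (u n)) atTop (𝓝 c) := hc.comp hu'
      rwa [tendsto_nhds_unique h2 hju] at hc
  set J : ℂ → ℂ := Function.update j 0 0 with hJ
  have hJj : ∀ s, s ≠ 0 → J s = j s := fun s hs => Function.update_of_ne hs _ _
  have hJ0 : J 0 = 0 := Function.update_self _ _ _
  have hJc : ContinuousAt J 0 := by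
    rw [hJ, continuousAt_update_same]
    exact hlim
  have hJd' : ∀ s ∈ PB ε, DifferentiableAt ℂ J s := by
    intro s hs
    have h1 : J =ᶠ[𝓝 s] j := by
      filter_upwards [isOpen_ne.mem_nhds (mem_PB.1 hs).2] with t ht
      exact hJj t ht
    exact h1.differentiableAt_iff.2 (hj.differentiableAt ((isOpen_PB ε).mem_nhds hs))
  have hJa : AnalyticAt ℂ J 0 := by
    refine Complex.analyticAt_of_differentiable_on_punctured_nhds_of_continuousAt ?_ hJc
    filter_upwards [PB_mem hε] with s hs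
    exact hJd' s hs
  have hJd : DifferentiableOn ℂ J (ball 0 ε) := by
    intro s hs
    by_cases h0 : s = 0
    · subst h0
      exact hJa.differentiableAt.differentiableWithinAt
    · exact (hJd' s (mem_PB.2 ⟨mem_ball_zero_iff.1 hs, h0⟩)).differentiableWithinAt
  have hJi : InjOn J (ball 0 ε) := by
    intro s hs t ht hst
    by_cases hs0 : s = 0
    · by_cases ht0 : t = 0
      · rw [hs0, ht0]
      · exfalso
        subst hs0
        rw [hJ0, hJj t ht0] at hst
        exact hj0 t (mem_PB.2 ⟨mem_ball_zero_iff.1 ht, ht0⟩) hst.symm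
    · by_cases ht0 : t = 0
      · exfalso
        subst ht0
        rw [hJ0, hJj s hs0] at hst
        exact hj0 s (mem_PB.2 ⟨mem_ball_zero_iff.1 hs, hs0⟩) hst
      · rw [hJj s hs0, hJj t ht0] at hst
        exact hi (mem_PB.2 ⟨mem_ball_zero_iff.1 hs, hs0⟩)
          (mem_PB.2 ⟨mem_ball_zero_iff.1 ht, ht0⟩) hst
  have hJ' : deriv J 0 ≠ 0 :=
    Lib.deriv_ne_zero_of_injOn isOpen_ball hJd hJi (mem_ball_self hε)
  have h1 : MeromorphicAt (Γ ∘ J) 0 := by
    refine hf.congr ?_
    filter_upwards [PB_mem hε] with s hs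
    rw [Function.comp_apply, hJj s (mem_PB.1 hs).2, hG s hs]
  have h2 := (meromorphicAt_comp_iff_of_deriv_ne_zero hJa hJ').1 h1
  rwa [hJ0] at h2

/-- The same with `j (u n) → ∞`. -/
theorem gamma_mero_inf {f j Γ : ℂ → ℂ} {ε : ℝ} (hε : 0 < ε) (hf : MeromorphicAt f 0)
    (hj : DifferentiableOn ℂ j (PB ε)) (hi : InjOn j (PB ε)) (hj0 : ∀ s ∈ PB ε, j s ≠ 0)
    {u : ℕ → ℂ} (hu0 : ∀ n, u n ≠ 0) (hu : Tendsto u atTop (𝓝 0))
    (hju : Tendsto (fun n => ‖j (u n)‖) atTop atTop) (hG : ∀ s ∈ PB ε, Γ (j s) = f s) :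
    MeromorphicAt (fun q => Γ q⁻¹) 0 := by
  refine gamma_mero (j := fun s => (j s)⁻¹) (u := u) hε hf (hj.inv hj0) ?_ ?_ hu0 hu ?_ ?_
  · intro s hs t ht hst
    exact hi hs ht (inv_injective hst)
  · intro s hs
    exact inv_ne_zero (hj0 s hs)
  · rw [tendsto_zero_iff_norm_tendsto_zero]
    refine hju.inv_tendsto_atTop.congr fun n => ?_
    simp only [Pi.inv_apply, norm_inv]
  · intro s hs
    simp only [inv_inv]
    exact hG s hs

/-- An entire function, 1-periodic, real and bounded near `+i∞` is constant. -/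
lemma const_of_bdd {y : ℂ → ℂ} (hy : Differentiable ℂ y) (hper : ∀ z, y (z + 1) = y z)
    (hconj : ∀ z, y (conj z) = conj (y z)) {R M : ℝ} (hb : ∀ z : ℂ, R < z.im → ‖y z‖ ≤ M) :
    ∀ z w, y z = y w := by
  have hpern : ∀ (n : ℕ) (z : ℂ), y (z + n) = y z := by
    intro n
    induction n with
    | zero => intro z; simp
    | succ n ih =>
      intro z
      rw [show z + ((n + 1 : ℕ) : ℂ) = (z + n) + 1 by push_cast; ring, hper, ih]
  have hperz : ∀ (n : ℤ) (z : ℂ), y (z + n) = y z := by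
    intro n z
    rcases Int.eq_nat_or_neg n with ⟨k, rfl | rfl⟩
    · exact_mod_cast hpern k z
    · have := hpern k (z + ((-(k : ℤ) : ℤ) : ℂ))
      rw [← this]
      congr 1
      push_cast
      ring
  -- the compact rectangle
  have hK : IsCompact (Icc (0 : ℝ) 1 ×ℂ Icc (-|R|) |R|) := isCompact_Icc.reProdIm isCompact_Icc
  obtain ⟨C, hC⟩ := hK.exists_bound_of_continuousOn hy.continuous.continuousOn
  have hall : ∀ z, ‖y z‖ ≤ max M C := by
    intro z
    rcases lt_or_ge R z.im with h | h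
    · exact (hb z h).trans (le_max_left _ _)
    · rcases lt_or_ge R (-z.im) with h' | h'
      · have h1 := hb (conj z) (by simpa using h')
        rw [hconj, RCLike.norm_conj] at h1
        exact h1.trans (le_max_left _ _)
      · have h1 := hperz (-⌊z.re⌋) z
        rw [← h1]
        refine (hC _ ?_).trans (le_max_right _ _)
        rw [Complex.mem_reProdIm]
        have e1 : (z + ((-⌊z.re⌋ : ℤ) : ℂ)).re = Int.fract z.re := by
          simp [Int.fract, sub_eq_add_neg]
        have e2 : (z + ((-⌊z.re⌋ : ℤ) : ℂ)).im = z.im := by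
          simp
        rw [e1, e2]
        refine ⟨⟨Int.fract_nonneg _, (Int.fract_lt_one _).le⟩, ?_, ?_⟩
        · have := le_abs_self R
          linarith
        · exact h.trans (le_abs_self R)
  refine hy.apply_eq_apply_of_bounded ?_
  rw [Metric.isBounded_iff_subset_closedBall 0]
  refine ⟨max M C, ?_⟩
  rintro _ ⟨z, rfl⟩
  rw [mem_closedBall_zero_iff]
  exact hall z

/-- the nome -/
def nome (z : ℂ) : ℂ := Complex.exp (2 * Real.pi * Complex.I * z)

lemma hasDerivAt_nome (z : ℂ) :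
    HasDerivAt nome (2 * Real.pi * Complex.I * nome z) z := by
  have h := ((hasDerivAt_id z).const_mul (2 * Real.pi * Complex.I : ℂ)).cexp
  simp only [id_eq, mul_one] at h
  rw [mul_comm]
  exact h

lemma nome_ne (z : ℂ) : nome z ≠ 0 := Complex.exp_ne_zero _

lemma norm_nome (z : ℂ) : ‖nome z‖ = Real.exp (-(2 * Real.pi * z.im)) := by
  rw [nome, Complex.norm_exp]
  congr 1
  simp

/-- `nome z` is small for large `Im z`. -/
lemma exists_nome_small {δ : ℝ} (hδ : 0 < δ) : ∃ R : ℝ, ∀ z : ℂ, R < z.im → ‖nome z‖ < δ := by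
  refine ⟨-Real.log δ / (2 * Real.pi), fun z hz => ?_⟩
  have hp : 0 < 2 * Real.pi := by positivity
  rw [norm_nome, ← Real.lt_log_iff_exp_lt hδ]
  rw [div_lt_iff₀ hp] at hz
  linarith

/-- every small nonzero number is a `nome z` with large `Im z`. -/
lemma exists_nome (r : ℝ) : ∀ᶠ q in 𝓝[≠] (0 : ℂ), ∃ z : ℂ, r < z.im ∧ nome z = q := by
  have hp : 0 < 2 * Real.pi := by positivity
  have h1 : ∀ᶠ q in 𝓝 (0 : ℂ), ‖q‖ < Real.exp (-(2 * Real.pi * r)) := by
    have := ball_mem_nhds (0 : ℂ) (Real.exp_pos (-(2 * Real.pi * r)))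
    filter_upwards [this] with q hq
    exact mem_ball_zero_iff.1 hq
  filter_upwards [nhdsWithin_le_nhds h1, self_mem_nhdsWithin] with q hq hq0
  have hq0' : q ≠ 0 := hq0
  have hpc : (2 * Real.pi * Complex.I : ℂ) ≠ 0 := by
    simp [Real.pi_ne_zero]
  have e : nome (Complex.log q / (2 * Real.pi * Complex.I)) = q := by
    rw [nome, mul_div_cancel₀ _ hpc, Complex.exp_log hq0']
  refine ⟨Complex.log q / (2 * Real.pi * Complex.I), ?_, e⟩
  have h2 := norm_nome (Complex.log q / (2 * Real.pi * Complex.I))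
  rw [e] at h2
  rw [h2] at hq
  have h3 := Real.exp_lt_exp.1 hq
  nlinarith

/-- **P-end, exponential form.** -/
theorem pend_exp {θ y : ℂ → ℂ} (hθ : ∀ z, HasDerivAt θ (y z) z) (hper : ∀ z, y (z + 1) = y z)
    (hconj : ∀ z, y (conj z) = conj (y z)) {G : ℂ → ℂ} (hG : MeromorphicAt G 0) {r : ℝ}
    (h : ∀ z : ℂ, r < z.im → Complex.exp (2 * Complex.I * θ z) = G (nome z)) :
    ∀ z w, y z = y w := by
  have hθd : Differentiable ℂ θ := fun z => (hθ z).differentiableAt
  have hyd : Differentiable ℂ y := by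
    have e : y = deriv θ := funext fun z => (hθ z).deriv.symm
    rw [e]
    exact (hθd.analyticAt · |>.deriv.differentiableAt)
  have hord : meromorphicOrderAt G 0 ≠ ⊤ := by
    rw [meromorphicOrderAt_ne_top_iff_eventually_ne_zero hG]
    filter_upwards [exists_nome r] with q ⟨z, hz, hzq⟩
    rw [← hzq, ← h z hz]
    exact Complex.exp_ne_zero _
  obtain ⟨g, hga, hg0, hgG⟩ := (meromorphicOrderAt_ne_top_iff hG).1 hord
  set m : ℤ := (meromorphicOrderAt G 0).untop₀ with hm
  -- `L` is bounded near `0`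
  set L : ℂ → ℂ := fun q => m + q * deriv g q / g q with hL
  have hLc : ContinuousAt L 0 := by
    have h1 := hga.continuousAt
    have h2 := hga.deriv.continuousAt
    exact continuousAt_const.add ((continuousAt_id.mul h2).div h1 hg0)
  have hLb : ∀ᶠ q in 𝓝 (0 : ℂ), ‖L q‖ < ‖L 0‖ + 1 :=
    hLc.norm.eventually (Iio_mem_nhds (by linarith))
  -- the good neighbourhood
  have hgood : ∀ᶠ q in 𝓝 (0 : ℂ), ‖L q‖ < ‖L 0‖ + 1 ∧ AnalyticAt ℂ g q ∧ g q ≠ 0 ∧
      (q ≠ 0 → G q = q ^ m * g q) := by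
    rw [EventuallyEq, eventually_nhdsWithin_iff] at hgG
    filter_upwards [hLb, hga.eventually_analyticAt, hga.continuousAt.eventually_ne hg0, hgG]
      with q h1 h2 h3 h4
    refine ⟨h1, h2, h3, fun hq => ?_⟩
    have := h4 hq
    simpa using this
  obtain ⟨δ, hδ, hδb⟩ := Metric.eventually_nhds_iff_ball.1 hgood
  obtain ⟨R, hR⟩ := exists_nome_small hδ
  refine const_of_bdd (R := max r R) (M := Real.pi * (‖L 0‖ + 1)) hyd hper hconj ?_
  intro z hz
  have hzr : r < z.im := (le_max_left _ _).trans_lt hz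
  have hzR : R < z.im := (le_max_right _ _).trans_lt hz
  have hq := hδb (nome z) (mem_ball_zero_iff.2 (hR z hzR))
  -- the two derivatives
  have hopen : {w : ℂ | max r R < w.im} ∈ 𝓝 z :=
    (isOpen_lt continuous_const Complex.continuous_im).mem_nhds hz
  have h1 : HasDerivAt (fun w => Complex.exp (2 * Complex.I * θ w))
      (Complex.exp (2 * Complex.I * θ z) * (2 * Complex.I * y z)) z :=
    ((hθ z).const_mul (2 * Complex.I)).cexp
  have h2 : HasDerivAt (fun w => nome w ^ m * g (nome w))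
      ((m * nome z ^ (m - 1) * (2 * Real.pi * Complex.I * nome z)) * g (nome z) +
        nome z ^ m * (deriv g (nome z) * (2 * Real.pi * Complex.I * nome z))) z := by
    have e1 : HasDerivAt (fun w => nome w ^ m)
        (m * nome z ^ (m - 1) * (2 * Real.pi * Complex.I * nome z)) z :=
      (hasDerivAt_zpow m (nome z) (Or.inl (nome_ne z))).comp z (hasDerivAt_nome z)
    have e2 : HasDerivAt (fun w => g (nome w))
        (deriv g (nome z) * (2 * Real.pi * Complex.I * nome z)) z :=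
      (hq.2.1.differentiableAt.hasDerivAt).comp z (hasDerivAt_nome z)
    exact e1.mul e2
  have h3 : (fun w => Complex.exp (2 * Complex.I * θ w)) =ᶠ[𝓝 z]
      fun w => nome w ^ m * g (nome w) := by
    filter_upwards [hopen] with w hw
    have hwr : r < w.im := (le_max_left _ _).trans_lt hw
    have hwR : R < w.im := (le_max_right _ _).trans_lt hw
    rw [h w hwr]
    exact (hδb (nome w) (mem_ball_zero_iff.2 (hR w hwR))).2.2.2 (nome_ne w)
  have h4 := h1.unique (h2.congr_of_eventuallyEq h3)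
  have h5 := h3.self_of_nhds
  simp only at h5
  have hz0 := nome_ne z
  have hgz := hq.2.2.1
  have hpow : nome z ^ m ≠ 0 := zpow_ne_zero _ hz0
  have h6 : y z = Real.pi * L (nome z) := by
    rw [h5] at h4
    have hI : (2 * Complex.I : ℂ) ≠ 0 := by simp
    have h7 : nome z ^ (m - 1) * nome z = nome z ^ m := by
      rw [← zpow_add_one₀ hz0]
      ring_nf
    have h8 : (nome z ^ m * g (nome z)) * (2 * Complex.I * y z) =
        (nome z ^ m * g (nome z)) * (2 * Complex.I * (Real.pi * L (nome z))) := by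
      rw [h4, hL]
      simp only
      calc (m * nome z ^ (m - 1) * (2 * Real.pi * Complex.I * nome z)) * g (nome z) +
            nome z ^ m * (deriv g (nome z) * (2 * Real.pi * Complex.I * nome z))
          = 2 * Real.pi * Complex.I * (m * (nome z ^ (m - 1) * nome z) * g (nome z) +
            nome z ^ m * (nome z * deriv g (nome z))) := by ring
        _ = _ := by
          rw [h7]
          field_simp
    exact mul_left_cancel₀ hI (mul_left_cancel₀ (mul_ne_zero hpow hgz) h8)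
  rw [h6, norm_mul, Complex.norm_real, Real.norm_of_nonneg Real.pi_pos.le]
  exact mul_le_mul_of_nonneg_left hq.1.le Real.pi_pos.le

/-- **P-end.** If both isotropic coordinates of the curve are meromorphic functions of the nome
at `q = 0` then `y` is constant. -/
theorem pend {θ y : ℂ → ℂ} (hθ : ∀ z, HasDerivAt θ (y z) z) (hper : ∀ z, y (z + 1) = y z)
    (hconj : ∀ z, y (conj z) = conj (y z)) {Z₁ Z₂ G₁ G₂ : ℂ → ℂ} (hG₁ : MeromorphicAt G₁ 0)
    (hG₂ : MeromorphicAt G₂ 0) {r : ℝ} {c : ℂ} (hc : c ≠ 0)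
    (h1 : ∀ z : ℂ, r < z.im → y z ≠ 0 →
      HasDerivAt Z₁ (c * Complex.exp (Complex.I * θ z) / y z ^ 2) z)
    (h2 : ∀ z : ℂ, r < z.im → y z ≠ 0 →
      HasDerivAt Z₂ (c * Complex.exp (-(Complex.I * θ z)) / y z ^ 2) z)
    (e1 : ∀ z : ℂ, r < z.im → y z ≠ 0 → Z₁ z = G₁ (nome z))
    (e2 : ∀ z : ℂ, r < z.im → y z ≠ 0 → Z₂ z = G₂ (nome z)) :
    ∀ z w, y z = y w := by
  by_cases hy0 : ∀ z, y z = 0
  · intro z w
    rw [hy0, hy0]
  push Not at hy0
  obtain ⟨z₁, hz₁⟩ := hy0
  have hθd : Differentiable ℂ θ := fun z => (hθ z).differentiableAt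
  have hyd : Differentiable ℂ y := by
    have e : y = deriv θ := funext fun z => (hθ z).deriv.symm
    rw [e]
    exact (hθd.analyticAt · |>.deriv.differentiableAt)
  -- the zeros of `y` are isolated
  have hiso : ∀ z, ∀ᶠ w in 𝓝[≠] z, y w ≠ 0 := by
    intro z
    rcases (hyd.analyticAt z).eventually_eq_zero_or_eventually_ne_zero with h | h
    · exfalso
      have han : AnalyticOnNhd ℂ y univ := fun w _ => hyd.analyticAt w
      have := han.eqOn_zero_of_preconnected_of_eventuallyEq_zero isPreconnected_univ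
        (mem_univ z) h (mem_univ z₁)
      exact hz₁ this
    · exact h
  -- `G₁, G₂` analytic on a punctured disc
  have hgood : ∀ᶠ q in 𝓝[≠] (0 : ℂ), AnalyticAt ℂ G₁ q ∧ AnalyticAt ℂ G₂ q :=
    hG₁.eventually_analyticAt.and hG₂.eventually_analyticAt
  rw [eventually_nhdsWithin_iff] at hgood
  obtain ⟨δ, hδ, hδb⟩ := Metric.eventually_nhds_iff_ball.1 hgood
  obtain ⟨R, hR⟩ := exists_nome_small hδ
  have hopen : ∀ z : ℂ, max r R < z.im → ∀ᶠ w in 𝓝 z, max r R < w.im := fun z hz =>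
    (isOpen_lt continuous_const Complex.continuous_im).mem_nhds hz
  have hA : ∀ z : ℂ, max r R < z.im → AnalyticAt ℂ G₁ (nome z) ∧ AnalyticAt ℂ G₂ (nome z) := by
    intro z hz
    exact hδb _ (mem_ball_zero_iff.2 (hR z ((le_max_right _ _).trans_lt hz))) (nome_ne z)
  -- derivatives in the `q`-plane, at points with `y ≠ 0`
  have hD : ∀ (Z G : ℂ → ℂ) (F : ℂ → ℂ)
      (hZ : ∀ z : ℂ, r < z.im → y z ≠ 0 → HasDerivAt Z (c * F z / y z ^ 2) z)
      (hE : ∀ z : ℂ, r < z.im → y z ≠ 0 → Z z = G (nome z)) (z : ℂ) (hz : max r R < z.im)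
      (hG : AnalyticAt ℂ G (nome z)) (hyz : y z ≠ 0),
      deriv G (nome z) * (2 * Real.pi * Complex.I * nome z) * y z ^ 2 = c * F z := by
    intro Z G F hZ hE z hz hG hyz
    have a1 := hZ z ((le_max_left _ _).trans_lt hz) hyz
    have a2 : HasDerivAt (fun w => G (nome w))
        (deriv G (nome z) * (2 * Real.pi * Complex.I * nome z)) z :=
      (hG.differentiableAt.hasDerivAt).comp z (hasDerivAt_nome z)
    have a3 : Z =ᶠ[𝓝 z] fun w => G (nome w) := by
      filter_upwards [hopen z hz, (hyd z).continuousAt.eventually_ne hyz] with w b1 b2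
      exact hE w ((le_max_left _ _).trans_lt b1) b2
    have a4 := a1.unique (a2.congr_of_eventuallyEq a3)
    rw [← a4]
    field_simp
  -- no zeros of `y` in the good half plane
  have hno : ∀ z : ℂ, max r R < z.im → y z ≠ 0 := by
    intro z hz hyz
    have hc1 : ContinuousAt (fun w => deriv G₁ (nome w) *
        (2 * Real.pi * Complex.I * nome w) * y w ^ 2) z := by
      have b1 : ContinuousAt nome z := (hasDerivAt_nome z).continuousAt
      have b2 : ContinuousAt (fun w => deriv G₁ (nome w)) z :=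
        ContinuousAt.comp (f := nome) (g := deriv G₁) (hA z hz).1.deriv.continuousAt b1
      exact (b2.mul (continuousAt_const.mul b1)).mul ((hyd z).continuousAt.pow 2)
    have hc2 : ContinuousAt (fun w => c * Complex.exp (Complex.I * θ w)) z :=
      continuousAt_const.mul
        ((continuousAt_const.mul (hθd z).continuousAt).cexp)
    have hev : (fun w => deriv G₁ (nome w) * (2 * Real.pi * Complex.I * nome w) * y w ^ 2)
        =ᶠ[𝓝[≠] z] fun w => c * Complex.exp (Complex.I * θ w) := by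
      filter_upwards [hiso z, nhdsWithin_le_nhds (hopen z hz)] with w b1 b2
      exact hD Z₁ G₁ (fun w => Complex.exp (Complex.I * θ w)) h1 e1 w b2 (hA w b2).1 b1
    have l1 := (hc1.tendsto.mono_left nhdsWithin_le_nhds).congr' hev
    have l2 := tendsto_nhds_unique l1 (hc2.tendsto.mono_left nhdsWithin_le_nhds)
    rw [hyz] at l2
    simp only [ne_eq, OfNat.ofNat_ne_zero, not_false_eq_true, zero_pow, mul_zero] at l2
    exact mul_ne_zero hc (Complex.exp_ne_zero _) l2.symm
  refine pend_exp (G := fun q => deriv G₁ q / deriv G₂ q) (r := max r R) hθ hper hconj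
    (hG₁.deriv.div hG₂.deriv) ?_
  intro z hz
  have b1 := hD Z₁ G₁ (fun w => Complex.exp (Complex.I * θ w)) h1 e1 z hz (hA z hz).1 (hno z hz)
  have b2 := hD Z₂ G₂ (fun w => Complex.exp (-(Complex.I * θ w))) h2 e2 z hz (hA z hz).2
    (hno z hz)
  set A := Complex.exp (Complex.I * θ z) with hAdef
  have hA0 : A ≠ 0 := Complex.exp_ne_zero _
  have hA2 : Complex.exp (2 * Complex.I * θ z) = A * A := by
    rw [hAdef, ← Complex.exp_add]
    ring_nf
  have hA3 : Complex.exp (-(Complex.I * θ z)) = A⁻¹ := by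
    rw [hAdef, Complex.exp_neg]
  rw [hA3] at b2
  have hk : (2 * Real.pi * Complex.I * nome z) * y z ^ 2 ≠ 0 := by
    refine mul_ne_zero (mul_ne_zero ?_ (nome_ne z)) (pow_ne_zero _ (hno z hz))
    simp [Real.pi_ne_zero]
  have hG2 : deriv G₂ (nome z) ≠ 0 := by
    intro h0
    rw [h0, zero_mul, zero_mul] at b2
    exact mul_ne_zero hc (inv_ne_zero hA0) b2.symm
  rw [hA2, eq_div_iff hG2]
  have b3 : deriv G₁ (nome z) * ((2 * Real.pi * Complex.I * nome z) * y z ^ 2) = c * A := by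
    rw [← b1]; ring
  have b4 : deriv G₂ (nome z) * ((2 * Real.pi * Complex.I * nome z) * y z ^ 2) = c * A⁻¹ := by
    rw [← b2]; ring
  apply mul_right_cancel₀ hk
  rw [b3, mul_assoc, b4]
  field_simp

lemma nome_neg (z : ℂ) : nome (-z) = (nome z)⁻¹ := by
  rw [nome, nome, ← Complex.exp_neg]
  congr 1
  ring

/-- **P-end at `q = ∞`.** -/
theorem pend_low {θ y : ℂ → ℂ} (hθ : ∀ z, HasDerivAt θ (y z) z) (hper : ∀ z, y (z + 1) = y z)
    (hconj : ∀ z, y (conj z) = conj (y z)) {Z₁ Z₂ G₁ G₂ : ℂ → ℂ}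
    (hG₁ : MeromorphicAt (fun q => G₁ q⁻¹) 0)
    (hG₂ : MeromorphicAt (fun q => G₂ q⁻¹) 0) {r : ℝ} {c : ℂ} (hc : c ≠ 0)
    (h1 : ∀ z : ℂ, z.im < -r → y z ≠ 0 →
      HasDerivAt Z₁ (c * Complex.exp (Complex.I * θ z) / y z ^ 2) z)
    (h2 : ∀ z : ℂ, z.im < -r → y z ≠ 0 →
      HasDerivAt Z₂ (c * Complex.exp (-(Complex.I * θ z)) / y z ^ 2) z)
    (e1 : ∀ z : ℂ, z.im < -r → y z ≠ 0 → Z₁ z = G₁ (nome z))
    (e2 : ∀ z : ℂ, z.im < -r → y z ≠ 0 → Z₂ z = G₂ (nome z)) :
    ∀ z w, y z = y w := by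
  have hneg : ∀ z : ℂ, HasDerivAt (fun w : ℂ => -w) (-1) z := fun z => (hasDerivAt_id z).neg
  have key := pend (θ := fun z => -θ (-z)) (y := fun z => y (-z)) (Z₁ := fun z => Z₂ (-z))
    (Z₂ := fun z => Z₁ (-z)) (G₁ := fun q => G₂ q⁻¹) (G₂ := fun q => G₁ q⁻¹) (r := r) (c := -c)
    ?_ ?_ ?_ hG₂ hG₁ (neg_ne_zero.2 hc) ?_ ?_ ?_ ?_
  · intro z w
    have := key (-z) (-w)
    simpa using this
  · intro z
    have h := ((hθ (-z)).comp z (hneg z)).fun_neg
    rw [mul_neg, mul_one, neg_neg] at h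
    exact h
  · intro z
    have h := hper (-z - 1)
    rw [sub_add_cancel] at h
    rw [h]
    congr 1
    ring
  · intro z
    rw [← hconj, map_neg]
  · intro z hz hyz
    have h := (h2 (-z) (by simpa using hz) hyz).comp z (hneg z)
    have e : c * Complex.exp (-(Complex.I * θ (-z))) / y (-z) ^ 2 * -1 =
        -c * Complex.exp (Complex.I * -θ (-z)) / y (-z) ^ 2 := by
      rw [mul_neg_one, mul_neg]
      ring
    rw [e] at h
    exact h
  · intro z hz hyz
    have h := (h1 (-z) (by simpa using hz) hyz).comp z (hneg z)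
    have e : c * Complex.exp (Complex.I * θ (-z)) / y (-z) ^ 2 * -1 =
        -c * Complex.exp (-(Complex.I * -θ (-z))) / y (-z) ^ 2 := by
      rw [mul_neg_one, mul_neg, neg_neg]
      ring
    rw [e] at h
    exact h
  · intro z hz hyz
    rw [e2 (-z) (by simpa using hz) hyz, nome_neg]
  · intro z hz hyz
    rw [e1 (-z) (by simpa using hz) hyz, nome_neg]

/-- **The infinite-time end of a P-start in Case E.**  `y` entire, 1-periodic, real; the two
isotropic coordinates `Z₁, Z₂` of the curve are functions `G₁, G₂` of the nome (away from the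
zeros of `y`).  Suppose one Puiseux branch `s ↦ (f₁ s, f₂ s)` (`f₁, f₂` meromorphic at `0`)
consists of points of the curve with (exponential) labels `j s`, `j` holomorphic, injective and
without zeros on a punctured disc, and that the labels leave every compact subset of `ℂ*` along
some sequence tending to `0`.  Then `y` is constant. -/
theorem pend_branch {θ y : ℂ → ℂ} (hθ : ∀ z, HasDerivAt θ (y z) z)
    (hper : ∀ z, y (z + 1) = y z) (hconj : ∀ z, y (conj z) = conj (y z)) {Z₁ Z₂ G₁ G₂ : ℂ → ℂ}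
    {r : ℝ} {c : ℂ} (hc : c ≠ 0)
    (h1 : ∀ z : ℂ, r < |z.im| → y z ≠ 0 →
      HasDerivAt Z₁ (c * Complex.exp (Complex.I * θ z) / y z ^ 2) z)
    (h2 : ∀ z : ℂ, r < |z.im| → y z ≠ 0 →
      HasDerivAt Z₂ (c * Complex.exp (-(Complex.I * θ z)) / y z ^ 2) z)
    (e1 : ∀ z : ℂ, r < |z.im| → y z ≠ 0 → Z₁ z = G₁ (nome z))
    (e2 : ∀ z : ℂ, r < |z.im| → y z ≠ 0 → Z₂ z = G₂ (nome z))
    {f₁ f₂ j : ℂ → ℂ} {ε : ℝ} (hε : 0 < ε) (hf₁ : MeromorphicAt f₁ 0) (hf₂ : MeromorphicAt f₂ 0)
    (hj : DifferentiableOn ℂ j (PB ε)) (hi : InjOn j (PB ε)) (hj0 : ∀ s ∈ PB ε, j s ≠ 0)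
    (hj1 : ∀ s ∈ PB ε, G₁ (j s) = f₁ s) (hj2 : ∀ s ∈ PB ε, G₂ (j s) = f₂ s)
    {u : ℕ → ℂ} (hu0 : ∀ n, u n ≠ 0) (hu : Tendsto u atTop (𝓝 0))
    (hju : Tendsto (fun n => j (u n)) atTop (𝓝 0) ∨
      Tendsto (fun n => ‖j (u n)‖) atTop atTop) :
    ∀ z w, y z = y w := by
  have hr : ∀ z : ℂ, |r| < z.im → r < |z.im| := fun z hz =>
    (le_abs_self r).trans_lt (hz.trans_le (le_abs_self _))
  have hr' : ∀ z : ℂ, z.im < -|r| → r < |z.im| := fun z hz =>
    (le_abs_self r).trans_lt (by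
      have := neg_le_abs z.im
      linarith)
  rcases hju with hju | hju
  · exact pend hθ hper hconj (gamma_mero hε hf₁ hj hi hj0 hu0 hu hju hj1)
      (gamma_mero hε hf₂ hj hi hj0 hu0 hu hju hj2) hc (fun z hz => h1 z (hr z hz))
      (fun z hz => h2 z (hr z hz)) (fun z hz => e1 z (hr z hz)) (fun z hz => e2 z (hr z hz))
  · exact pend_low hθ hper hconj (gamma_mero_inf hε hf₁ hj hi hj0 hu0 hu hju hj1)
      (gamma_mero_inf hε hf₂ hj hi hj0 hu0 hu hju hj2) hc (fun z hz => h1 z (hr' z hz))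
      (fun z hz => h2 z (hr' z hz)) (fun z hz => e1 z (hr' z hz)) (fun z hz => e2 z (hr' z hz))

end Crest.Agent.R102.PEnd184
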