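import Mathlib

/-!
Row 102, part (C), H3 / (RAT): the power sum step.  If `∑_j √(1 - ν_j X)` is constant then all
`ν_j` vanish.
-/

namespace Crest.Agent.R102.PS985

open PowerSeries

variable {k : Type*} [Field k] [CharZero k]

/-- vanishing of all power sums `∑ ν_j^m`, `m ≥ 1` -/
theorem eq_zero_of_powerSums {ι : Type*} (s : Finset ι) (ν : ι → k)
    (h : ∀ m : ℕ, 1 ≤ m → ∑ j ∈ s, ν j ^ m = 0) : ∀ j ∈ s, ν j = 0 := by
  classical
  intro j0 hj0
  by_contra hne
  set V := s.image ν with hV
  -- every polynomial without constant term has vanishing sum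
  have hpoly : ∀ P : Polynomial k, ∑ j ∈ s, (Polynomial.X * P).eval (ν j) = 0 := by
    intro P
    induction P using Polynomial.induction_on' with
    | add p q hp hq =>
      simp only [mul_add, Polynomial.eval_add, Finset.sum_add_distrib, hp, hq, add_zero]
    | monomial n a =>
      have : ∀ j, (Polynomial.X * Polynomial.monomial n a).eval (ν j) = a * ν j ^ (n + 1) := by
        intro j
        rw [Polynomial.X_mul_monomial, Polynomial.eval_monomial]
      simp only [this, ← Finset.mul_sum, h (n + 1) (by omega), mul_zero]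
  let P : Polynomial k := ∏ w ∈ V.erase (ν j0), (Polynomial.X - Polynomial.C w)
  have h1 := hpoly P
  have h2 : ∀ j ∈ s, (Polynomial.X * P).eval (ν j) =
      if ν j = ν j0 then (Polynomial.X * P).eval (ν j0) else 0 := by
    intro j hj
    split_ifs with hc
    · rw [hc]
    · have : (P).eval (ν j) = 0 := by
        simp only [P, Polynomial.eval_prod]
        refine Finset.prod_eq_zero (i := ν j) (Finset.mem_erase.mpr ⟨hc, ?_⟩) (by simp)
        exact Finset.mem_image_of_mem _ hj
      rw [Polynomial.eval_mul, this, mul_zero]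
  rw [Finset.sum_congr rfl h2, ← Finset.sum_filter, Finset.sum_const, nsmul_eq_mul] at h1
  rcases mul_eq_zero.mp h1 with h3 | h3
  · have : (s.filter fun j => ν j = ν j0).card = 0 := by exact_mod_cast h3
    rw [Finset.card_eq_zero] at this
    have h4 : j0 ∈ s.filter fun j => ν j = ν j0 := by simp [hj0]
    rw [this] at h4
    simp at h4
  · rw [Polynomial.eval_mul, Polynomial.eval_X] at h3
    rcases mul_eq_zero.mp h3 with h4 | h4
    · exact hne h4
    · simp only [P, Polynomial.eval_prod] at h4
      obtain ⟨w, hw, hw0⟩ := Finset.prod_eq_zero_iff.mp h4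
      have := (Finset.mem_erase.mp hw).1
      simp [sub_eq_zero] at hw0
      exact this hw0.symm

/-- coefficients of `√(1 - νX)` -/
noncomputable def cf (k : Type*) [Field k] : ℕ → k
  | 0 => 1
  | n + 1 => cf k n * ((2 * n - 1) / (2 * (n + 1)))

theorem cf_ne_zero (n : ℕ) : cf k n ≠ 0 := by
  induction n with
  | zero => simp [cf]
  | succ n ih =>
    rw [cf]
    refine mul_ne_zero ih (div_ne_zero ?_ ?_)
    · intro h
      have h2 : ((2 * n : ℕ) : k) = ((1 : ℕ) : k) := by
        push_cast
        exact sub_eq_zero.mp h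
      have := Nat.cast_injective h2
      omega
    · have : ((n : k) + 1) ≠ 0 := by exact_mod_cast Nat.succ_ne_zero n
      exact mul_ne_zero two_ne_zero this

theorem coeff_sqrt (ν : k) (s : k⟦X⟧) (hs : s ^ 2 = 1 - C ν * X) (h0 : constantCoeff s = 1)
    (n : ℕ) : coeff n s = cf k n * ν ^ n := by
  have hd : 2 * (1 - C ν * X) * derivative k s = - C ν * s := by
    have h1 := congrArg (derivative k) hs
    rw [Derivation.leibniz_pow] at h1
    simp only [map_sub, Derivation.leibniz, derivative_C, derivative_X, map_one,
      Derivation.map_one_eq_zero, smul_eq_mul, mul_one, mul_zero, add_zero, zero_sub,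
      pow_one, Nat.add_one_sub_one] at h1
    rw [← hs]
    have h2 : s * (2 * (s * derivative k s)) = s * (- C ν) := by
      congr 1
      rw [← h1]
      simp [nsmul_eq_mul]
    linear_combination h2
  induction n with
  | zero => simp [cf, h0]
  | succ n ih =>
    have h1 := congrArg (coeff n) hd
    have h2 : 2 * (1 - C ν * X) * derivative k s =
        C 2 * (derivative k s - C ν * (X * derivative k s)) := by
      have : (C (2 : k)) = (2 : k⟦X⟧) := map_ofNat _ 2
      rw [this]
      ring
    rw [h2, coeff_C_mul, map_sub, coeff_C_mul, neg_mul, map_neg, coeff_C_mul,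
      coeff_derivative] at h1
    have h3 : coeff n (X * derivative k s) = n * coeff n s := by
      cases n with
      | zero => simp
      | succ m =>
        rw [coeff_succ_X_mul, coeff_derivative]
        push_cast
        ring
    rw [h3, ih] at h1
    have hn : ((n : k) + 1) ≠ 0 := by exact_mod_cast Nat.succ_ne_zero n
    rw [cf, pow_succ]
    field_simp
    linear_combination h1

/-- the power sum step: if `∑ √(1 - ν_j X)` is constant then all `ν_j` are zero -/
theorem nu_eq_zero {ι : Type*} (t : Finset ι) (ν : ι → k) (s : ι → k⟦X⟧)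
    (hs : ∀ j ∈ t, s j ^ 2 = 1 - C (ν j) * X) (h0 : ∀ j ∈ t, constantCoeff (s j) = 1)
    (c : k) (hsum : ∑ j ∈ t, s j = C c) : ∀ j ∈ t, ν j = 0 := by
  refine eq_zero_of_powerSums t ν fun m hm => ?_
  have h1 := congrArg (coeff m) hsum
  rw [map_sum, coeff_C, if_neg (by omega)] at h1
  rw [Finset.sum_congr rfl fun j hj => coeff_sqrt (ν j) (s j) (hs j hj) (h0 j hj) m,
    ← Finset.mul_sum] at h1
  exact (mul_eq_zero.mp h1).resolve_left (cf_ne_zero m)

end Crest.Agent.R102.PS985
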