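import Crest.Agent.R102.Step6_811
import Crest.Agent.R102.Face_300

/-!
Row 102, T1-B, PART IV (helper811): joint of steps 6 and 7 of R1_523.

`Om` = main sheet of the vertex label `b` (vertical-star open set), `OmL` = main sheet of the
lines `(φ, p)`.  If `b` has been extended through the point `(x₀ + i V, u)` by reflection
(`Step6811.Ext`) and this point is a limit of points `(t, w) ∉ Om` with `(t - w/2, w) ∈ OmL`
(births above which the incoming line is regular), then `(ψ, H)` continue analytically through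
points of the line `Im z = h`: contradiction with the natural boundary.
-/

set_option autoImplicit false

open Set Filter Topology Metric Complex
open scoped Real ComplexConjugate

noncomputable section

namespace Crest.Agent.R102.P4811

open Crest.Agent.R102.C0 Crest.Agent.R102.B821 Crest.Agent.R102.F300 Crest.Agent.R102.Step6811

theorem q1_eq_deriv {f : ℂ × ℂ → ℂ} {t w : ℂ} (hf : DifferentiableAt ℂ f (t, w)) :
    HasDerivAt (fun s : ℂ => f (s, w)) (q1 f (t, w)) t := by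
  have h1 : HasDerivAt (fun s : ℂ => ((s, w) : ℂ × ℂ)) ((1 : ℂ), (0 : ℂ)) t :=
    (hasDerivAt_id t).prodMk (hasDerivAt_const t w)
  exact (HasFDerivAt.comp_hasDerivAt (l := f) t hf.hasFDerivAt h1)

/-- `Im f` is strictly increasing upwards where `Re ∂f/∂t > 0` -/
theorem im_mono {f : ℂ × ℂ → ℂ} {O : Set (ℂ × ℂ)} (hf : AnalyticOnNhd ℂ f O)
    (hq : ∀ q ∈ O, 0 < (q1 f q).re) {t w : ℂ} {s : ℝ} (hs : 0 < s)
    (hseg : ∀ y ∈ Icc 0 s, (t - (y : ℂ) * I, w) ∈ O) :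
    (f (t - (s : ℂ) * I, w)).im < (f (t, w)).im := by
  set g : ℝ → ℝ := fun y => (f (t - (y : ℂ) * I, w)).im with hg
  have hder : ∀ y ∈ Icc 0 s, HasDerivAt g (-(q1 f (t - (y : ℂ) * I, w)).re) y := by
    intro y hy
    have h1 := q1_eq_deriv (hf _ (hseg y hy)).differentiableAt
    have h2 : HasDerivAt (fun y : ℂ => t - y * I) (-((1 : ℂ) * I)) (y : ℂ) :=
      ((hasDerivAt_id (y : ℂ)).mul_const I).const_sub t
    have h3 : HasDerivAt (fun y : ℂ => f (t - y * I, w)) (q1 f (t - (y : ℂ) * I, w) *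
        -((1 : ℂ) * I)) (y : ℂ) := HasDerivAt.comp (y : ℂ) (h₂ := fun s : ℂ => f (s, w)) h1 h2
    have h4 := h3.comp_ofReal
    have h5 : HasDerivAt g ((q1 f (t - (y : ℂ) * I, w) * -((1 : ℂ) * I)).im) y :=
      imCLM.hasFDerivAt.comp_hasDerivAt y h4
    have h6 : (q1 f (t - (y : ℂ) * I, w) * -((1 : ℂ) * I)).im =
        -(q1 f (t - (y : ℂ) * I, w)).re := by simp
    rw [h6] at h5
    exact h5
  have hanti : StrictAntiOn g (Icc 0 s) := by
    apply strictAntiOn_of_deriv_neg (convex_Icc 0 s)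
    · exact fun y hy => (hder y hy).continuousAt.continuousWithinAt
    · intro y hy
      rw [interior_Icc] at hy
      rw [(hder y ⟨hy.1.le, hy.2.le⟩).deriv]
      have := hq _ (hseg y ⟨hy.1.le, hy.2.le⟩)
      linarith
  have := hanti ⟨le_refl _, hs.le⟩ ⟨hs.le, le_refl _⟩ hs
  simpa [hg] using this

/-- **the main sheet inside the bidisc**: `Om = {Im Bt < h}` near the reflected point. -/
theorem main_sheet {Om : Set (ℂ × ℂ)} (hO : IsOpen Om) {b : ℂ × ℂ → ℂ}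
    (hb : DifferentiableOn ℂ b Om) {h V u x0 r L : ℝ} (hr : 0 < r) (hh : 0 < h) {Bt : ℂ × ℂ → ℂ}
    (hE : Ext Om b h V u x0 r Bt) (hL : L < V) (hlt : ∀ q ∈ Om, (b q).im < h)
    (hstar : ∀ t w : ℂ, (t, w) ∈ Om → ∀ s : ℝ, 0 ≤ s → L < t.im - s → (t - (s : ℂ) * I, w) ∈ Om)
    (hmax : ∀ t w : ℂ, ∀ ε > 0, (∀ s : ℝ, 0 < s → s < ε → (t - (s : ℂ) * I, w) ∈ Om) →
      ∀ g : ℂ × ℂ → ℂ, AnalyticAt ℂ g (t, w) → 0 < (g (t, w)).im → (g (t, w)).im < h →
      (∀ᶠ q in 𝓝 (t, w), q ∈ Om → g q = b q) → (t, w) ∈ Om) :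
    ∃ r' > 0, r' ≤ r ∧ Ext Om b h V u x0 r' Bt ∧
      (∀ q ∈ ball ((x0 : ℂ) + (V : ℂ) * I) r' ×ˢ ball (u : ℂ) r', 0 < (q1 Bt q).re) ∧
      (∀ q ∈ ball ((x0 : ℂ) + (V : ℂ) * I) r' ×ˢ ball (u : ℂ) r', q ∈ Om → Bt q = b q) ∧
      (∀ q ∈ ball ((x0 : ℂ) + (V : ℂ) * I) r' ×ˢ ball (u : ℂ) r', (Bt q).im < h → q ∈ Om) := by
  obtain ⟨r1, hr1, hr1r, hE1, heq1⟩ := hE.eq_on hO hb hr hL hstar
  set c : ℂ := (x0 : ℂ) + (V : ℂ) * I with hc
  have hcim : c.im = V := by simp [hc]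
  -- positivity of the derivative
  have hc1 : (c, (u : ℂ)) ∈ ball c r1 ×ˢ ball (u : ℂ) r1 := ⟨mem_ball_self hr1, mem_ball_self hr1⟩
  have hopen1 : IsOpen (ball c r1 ×ˢ ball (u : ℂ) r1) := isOpen_ball.prod isOpen_ball
  have hpos : 0 < (q1 Bt (c, (u : ℂ))).re := by
    have h1 := q1_eq_deriv (hE1.an _ hc1).differentiableAt
    rw [← h1.deriv]
    exact (hE1.hopf hlt).2
  have hq1c : ContinuousAt (fun q => (q1 Bt q).re) (c, (u : ℂ)) := by
    have h1 : AnalyticAt ℂ (fderiv ℂ Bt) (c, (u : ℂ)) := (hE1.an _ hc1).fderiv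
    have h2 : ContinuousAt (fun q => fderiv ℂ Bt q ((1 : ℂ), (0 : ℂ))) (c, (u : ℂ)) :=
      h1.continuousAt.clm_apply continuousAt_const
    exact continuous_re.continuousAt.comp h2
  obtain ⟨r2, hr2, hr2p⟩ : ∃ r2 > 0, ∀ q ∈ ball c r2 ×ˢ ball (u : ℂ) r2, 0 < (q1 Bt q).re := by
    have h1 := hq1c.eventually (lt_mem_nhds hpos)
    rw [Metric.eventually_nhds_iff_ball] at h1
    obtain ⟨ε, hε, h2⟩ := h1
    refine ⟨ε, hε, fun q hq => h2 q ?_⟩
    rw [← ball_prod_same]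
    exact hq
  obtain ⟨r4, hr4, hr4p⟩ : ∃ r4 > 0, ∀ q ∈ ball c r4 ×ˢ ball (u : ℂ) r4, 0 < (Bt q).im := by
    have h0 : 0 < (Bt (c, (u : ℂ))).im := by
      rw [hE1.real x0 (mem_ball_self hr1)]; exact hh
    have h1 : ∀ᶠ q in 𝓝 (c, (u : ℂ)), 0 < (Bt q).im :=
      (continuous_im.continuousAt.comp (hE1.an _ hc1).continuousAt).eventually (lt_mem_nhds h0)
    rw [Metric.eventually_nhds_iff_ball] at h1
    obtain ⟨ε, hε, h2⟩ := h1
    refine ⟨ε, hε, fun q hq => h2 q ?_⟩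
    rw [← ball_prod_same]
    exact hq
  set r3 : ℝ := min (min (min r1 r2) (V - L)) r4 with hr3
  have hr30 : 0 < r3 := lt_min (lt_min (lt_min hr1 hr2) (by linarith)) hr4
  have hr31 : r3 ≤ r1 := (min_le_left _ _).trans ((min_le_left _ _).trans (min_le_left _ _))
  have hr32 : r3 ≤ r2 := (min_le_left _ _).trans ((min_le_left _ _).trans (min_le_right _ _))
  have hr3L : r3 ≤ V - L := (min_le_left _ _).trans (min_le_right _ _)
  have hr34 : r3 ≤ r4 := min_le_right _ _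
  -- a point of the main sheet below `c`
  set s1 : ℝ := r3 / 2 with hs1
  have hs10 : 0 < s1 := by positivity
  have hlowpt : (c - (s1 : ℂ) * I, (u : ℂ)) ∈ Om := by
    have h1 : c - (s1 : ℂ) * I ∈ ball c r1 := by
      rw [mem_ball, dist_eq_norm, sub_sub_cancel_left, norm_neg, norm_mul, Complex.norm_real,
        Complex.norm_I, mul_one, Real.norm_of_nonneg hs10.le]
      linarith
    exact (hE1.low _ h1 (by
      rw [sub_im, hcim]; simp only [mul_im, ofReal_re, I_im, ofReal_im, I_re]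
      linarith)).self_of_nhds.1
  obtain ⟨δ, hδ, hδO⟩ : ∃ δ > 0, ∀ t ∈ ball c δ, ∀ w ∈ ball (u : ℂ) δ,
      (t - (s1 : ℂ) * I, w) ∈ Om := by
    have hcont : ContinuousAt (fun q : ℂ × ℂ => ((q.1 - (s1 : ℂ) * I, q.2) : ℂ × ℂ)) (c, (u : ℂ)) := by
      fun_prop
    have h1 : ∀ᶠ q in 𝓝 ((c, (u : ℂ)) : ℂ × ℂ), ((q.1 - (s1 : ℂ) * I, q.2) : ℂ × ℂ) ∈ Om :=
      hcont.eventually_mem (hO.mem_nhds hlowpt)
    rw [Metric.eventually_nhds_iff_ball] at h1
    obtain ⟨ε, hε, h2⟩ := h1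
    refine ⟨ε, hε, fun t ht w hw => h2 (t, w) ?_⟩
    rw [← ball_prod_same]
    exact ⟨ht, hw⟩
  set r' : ℝ := min (r3 / 2) δ with hr'
  have hr'0 : 0 < r' := lt_min (by positivity) hδ
  have hr'3 : r' ≤ r3 / 2 := min_le_left _ _
  have hr'δ : r' ≤ δ := min_le_right _ _
  refine ⟨r', hr'0, by linarith, hE1.mono (by linarith), ?_, ?_, ?_⟩
  · intro q hq
    exact hr2p q ⟨ball_subset_ball (by linarith) hq.1, ball_subset_ball (by linarith) hq.2⟩
  · intro q hq hqO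
    exact heq1 q ⟨ball_subset_ball (by linarith) hq.1, ball_subset_ball (by linarith) hq.2⟩ hqO
  · rintro ⟨t, w⟩ ⟨ht, hw⟩ him
    by_contra hnot
    simp only at ht hw
    have htn : ‖t - c‖ < r' := by rwa [mem_ball, dist_eq_norm] at ht
    -- the vertical segment lies in the bidisc of radius r3
    have hseg3 : ∀ y ∈ Icc 0 s1, t - (y : ℂ) * I ∈ ball c r3 := by
      intro y hy
      rw [mem_ball, dist_eq_norm]
      have e1 : ‖t - (y : ℂ) * I - c‖ ≤ ‖t - c‖ + ‖(y : ℂ) * I‖ := by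
        rw [show t - (y : ℂ) * I - c = (t - c) - (y : ℂ) * I by ring]
        exact norm_sub_le _ _
      rw [norm_mul, Complex.norm_real, Complex.norm_I, mul_one, Real.norm_of_nonneg hy.1] at e1
      linarith [hy.2]
    have hw3 : w ∈ ball (u : ℂ) r3 := ball_subset_ball (by linarith) hw
    set A : Set ℝ := {s | s ∈ Icc 0 s1 ∧ (t - (s : ℂ) * I, w) ∈ Om} with hA
    have hs1A : s1 ∈ A := ⟨⟨hs10.le, le_refl _⟩,
      hδO t (ball_subset_ball hr'δ ht) w (ball_subset_ball hr'δ hw)⟩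
    have hAbdd : BddBelow A := ⟨0, fun s hs => hs.1.1⟩
    set s0 : ℝ := sInf A with hs0
    have hs00 : 0 ≤ s0 := le_csInf ⟨s1, hs1A⟩ fun s hs => hs.1.1
    have hs01 : s0 ≤ s1 := csInf_le hAbdd hs1A
    have htim : V - r' < t.im := by
      have e2 := abs_lt.1 ((Complex.abs_im_le_norm (t - c)).trans_lt htn)
      rw [sub_im, hcim] at e2
      linarith [e2.1]
    have habove : ∀ s, s0 < s → s ≤ s1 → (t - (s : ℂ) * I, w) ∈ Om := by
      intro s hs hss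
      obtain ⟨s', hs'A, hs's⟩ := (csInf_lt_iff hAbdd ⟨s1, hs1A⟩).1 hs
      have h1 := hstar _ _ hs'A.2 (s - s') (by linarith) (by
        simp only [sub_im, mul_im, ofReal_re, I_im, ofReal_im, I_re]
        linarith)
      have h2 : t - (s' : ℂ) * I - ((s - s' : ℝ) : ℂ) * I = t - (s : ℂ) * I := by
        push_cast; ring
      rwa [h2] at h1
    have hs0not : (t - (s0 : ℂ) * I, w) ∉ Om := by
      intro hmem
      rcases hs00.eq_or_lt with h0 | h0
      · apply hnot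
        rw [← h0] at hmem
        simpa using hmem
      · -- openness
        have hcont : ContinuousAt (fun y : ℝ => ((t - (y : ℂ) * I, w) : ℂ × ℂ)) s0 := by
          fun_prop
        have h1 : ∀ᶠ y : ℝ in 𝓝 s0, ((t - (y : ℂ) * I, w) : ℂ × ℂ) ∈ Om :=
          hcont.eventually_mem (hO.mem_nhds hmem)
        have h2 : ∀ᶠ y : ℝ in 𝓝[<] s0, ((t - (y : ℂ) * I, w) : ℂ × ℂ) ∈ Om ∧ 0 < y ∧ y < s0 := by
          have h3 : ∀ᶠ y : ℝ in 𝓝[<] s0, 0 < y := nhdsWithin_le_nhds (lt_mem_nhds h0)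
          exact (h1.filter_mono nhdsWithin_le_nhds).and (h3.and self_mem_nhdsWithin)
        obtain ⟨y, hy1, hy2, hy3⟩ := h2.exists
        have h4 : y ∈ A := ⟨⟨hy2.le, by linarith⟩, hy1⟩
        have := csInf_le hAbdd h4
        linarith
    have hs0lt : s0 < s1 := by
      rcases hs01.eq_or_lt with h0 | h0
      · exact absurd (h0 ▸ hs1A.2) hs0not
      · exact h0
    have hBtim : (Bt (t - (s0 : ℂ) * I, w)).im < h := by
      rcases hs00.eq_or_lt with h0 | h0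
      · rw [← h0]; simpa using him
      · refine lt_trans ?_ him
        apply im_mono (O := ball c r3 ×ˢ ball (u : ℂ) r3)
          (hE1.an.mono (prod_mono (ball_subset_ball hr31) (ball_subset_ball hr31)))
          (fun q hq => hr2p q ⟨ball_subset_ball hr32 hq.1, ball_subset_ball hr32 hq.2⟩) h0
        intro y hy
        exact ⟨hseg3 y ⟨hy.1, hy.2.trans hs01⟩, hw3⟩
    apply hs0not
    have hmemN : (t - (s0 : ℂ) * I, w) ∈ ball c r1 ×ˢ ball (u : ℂ) r1 :=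
      ⟨ball_subset_ball hr31 (hseg3 s0 ⟨hs00, hs01⟩), ball_subset_ball hr31 hw3⟩
    have hmemN4 : (t - (s0 : ℂ) * I, w) ∈ ball c r4 ×ˢ ball (u : ℂ) r4 :=
      ⟨ball_subset_ball hr34 (hseg3 s0 ⟨hs00, hs01⟩), ball_subset_ball hr34 hw3⟩
    apply hmax _ _ (s1 - s0) (by linarith) ?_ Bt (hE1.an _ hmemN) (hr4p _ hmemN4) hBtim ?_
    · intro s hs hss
      have h1 := habove (s0 + s) (by linarith) (by linarith)
      have h2 : t - ((s0 + s : ℝ) : ℂ) * I = t - (s0 : ℂ) * I - (s : ℂ) * I := by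
        push_cast; ring
      rwa [h2] at h1
    · filter_upwards [hopen1.mem_nhds hmemN] with q hq hqO
      exact heq1 q hq hqO

/-- shift of the line data to the vertex: `(t, w) ↦ (t - w / 2, w)` -/
def sh (q : ℂ × ℂ) : ℂ × ℂ := (q.1 - q.2 / 2, q.2)

theorem hasFDerivAt_sh (x : ℂ × ℂ) : HasFDerivAt sh
    ((ContinuousLinearMap.fst ℂ ℂ ℂ - (1 / 2 : ℂ) • ContinuousLinearMap.snd ℂ ℂ ℂ).prod
      (ContinuousLinearMap.snd ℂ ℂ ℂ)) x := by
  have h1 : HasFDerivAt (fun q : ℂ × ℂ => q.1 - (1 / 2 : ℂ) • q.2)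
      (ContinuousLinearMap.fst ℂ ℂ ℂ - (1 / 2 : ℂ) • ContinuousLinearMap.snd ℂ ℂ ℂ) x :=
    (ContinuousLinearMap.fst ℂ ℂ ℂ).hasFDerivAt.sub
      ((ContinuousLinearMap.snd ℂ ℂ ℂ).hasFDerivAt.const_smul (1 / 2 : ℂ))
  have h2 := h1.prodMk (ContinuousLinearMap.snd ℂ ℂ ℂ).hasFDerivAt (x := x)
  have h3 : sh = fun q : ℂ × ℂ => (q.1 - (1 / 2 : ℂ) • q.2, (ContinuousLinearMap.snd ℂ ℂ ℂ) q) := by
    ext q
    · simp [sh]; ring
    · simp [sh]
  rw [h3]
  exact h2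

theorem analyticAt_sh (x : ℂ × ℂ) : AnalyticAt ℂ sh x := by
  have h3 : sh = fun q : ℂ × ℂ => (q.1 - (1 / 2 : ℂ) * q.2, q.2) := by
    ext q
    · simp [sh]; ring
    · simp [sh]
  rw [h3]
  exact (analyticAt_fst.sub (analyticAt_const.mul analyticAt_snd)).prod analyticAt_snd

theorem q_sh {f : ℂ × ℂ → ℂ} {x : ℂ × ℂ} (hf : DifferentiableAt ℂ f (sh x)) :
    q1 (f ∘ sh) x = q1 f (sh x) ∧ q2 (f ∘ sh) x = q2 f (sh x) - 1 / 2 * q1 f (sh x) := by
  have h1 := hf.hasFDerivAt.comp x (hasFDerivAt_sh x)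
  constructor
  · rw [q1, h1.fderiv]
    simp only [ContinuousLinearMap.comp_apply, ContinuousLinearMap.prod_apply,
      sub_apply, ContinuousLinearMap.coe_fst', ContinuousLinearMap.coe_snd',
      smul_apply, smul_zero, sub_zero]
    rfl
  · rw [q2, h1.fderiv]
    simp only [ContinuousLinearMap.comp_apply, ContinuousLinearMap.prod_apply,
      sub_apply, ContinuousLinearMap.coe_fst', ContinuousLinearMap.coe_snd',
      smul_apply, zero_sub]
    have h2 : ((-((1 / 2 : ℂ) • (1 : ℂ)), (1 : ℂ)) : ℂ × ℂ) =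
        (0, 1) - (1 / 2 : ℂ) • ((1, 0) : ℂ × ℂ) := by
      ext <;> simp
    rw [h2, map_sub, map_smul]
    rfl

/-- the area form is invariant under the shift -/
theorem area_sh {φ p : ℂ × ℂ → ℂ} {x : ℂ × ℂ} (hφ : DifferentiableAt ℂ φ (sh x))
    (hp : DifferentiableAt ℂ p (sh x)) :
    q1 (φ ∘ sh) x * q2 (p ∘ sh) x - q2 (φ ∘ sh) x * q1 (p ∘ sh) x =
      q1 φ (sh x) * q2 p (sh x) - q2 φ (sh x) * q1 p (sh x) := by
  rw [(q_sh hφ).1, (q_sh hφ).2, (q_sh hp).1, (q_sh hp).2]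
  ring

/-- **PART IV (steps 6 + 7)**: the contradiction. -/
theorem part4 {Om OmL : Set (ℂ × ℂ)} (hO : IsOpen Om) (hOL : IsOpen OmL) {b φ p : ℂ × ℂ → ℂ}
    (hb : DifferentiableOn ℂ b Om) (hφ : AnalyticOnNhd ℂ φ OmL) (hp : AnalyticOnNhd ℂ p OmL)
    {h V u x0 r L : ℝ} (hr : 0 < r) (hh : 0 < h) {Bt : ℂ × ℂ → ℂ}
    (hE : Ext Om b h V u x0 r Bt) (hL : L < V) (hu : u ≠ 0) (hlt : ∀ q ∈ Om, (b q).im < h)
    (hstar : ∀ t w : ℂ, (t, w) ∈ Om → ∀ s : ℝ, 0 ≤ s → L < t.im - s → (t - (s : ℂ) * I, w) ∈ Om)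
    (hstarL : ∀ t w : ℂ, (t, w) ∈ OmL → ∀ s : ℝ, 0 ≤ s → L < (t + w / 2).im - s →
      (t - (s : ℂ) * I, w) ∈ OmL)
    (hmax : ∀ t w : ℂ, ∀ ε > 0, (∀ s : ℝ, 0 < s → s < ε → (t - (s : ℂ) * I, w) ∈ Om) →
      ∀ g : ℂ × ℂ → ℂ, AnalyticAt ℂ g (t, w) → 0 < (g (t, w)).im → (g (t, w)).im < h →
      (∀ᶠ q in 𝓝 (t, w), q ∈ Om → g q = b q) → (t, w) ∈ Om)
    (har : ∀ q ∈ OmL, q.2 ≠ 0 → q1 φ q * q2 p q - q2 φ q * q1 p q ≠ 0)
    -- births above which the incoming line is regular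
    (hbirth : ∀ ε > 0, ∃ t w : ℂ, ‖t - ((x0 : ℂ) + (V : ℂ) * I)‖ < ε ∧ ‖w - u‖ < ε ∧
      (t, w) ∉ Om ∧ (t - w / 2, w) ∈ OmL)
    -- the curve
    {S S' : Set ℂ} (hS : IsOpen S) (hSc : Convex ℝ S) (hS' : IsOpen S') (hsub : S' ⊆ S)
    (hdense : S ⊆ closure S') {ψ H Z Zc κ : ℂ → ℂ}
    (hψ : DifferentiableOn ℂ ψ S) (hH : DifferentiableOn ℂ H S)
    (hZ : ∀ z ∈ S', HasDerivAt Z (κ z * exp (I * ψ z)) z)
    (hZc : ∀ z ∈ S', HasDerivAt Zc (κ z * exp (-(I * ψ z))) z)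
    (hκ : ∀ z ∈ S', κ z ≠ 0)
    (hon0 : ∀ z ∈ S', OnLine (ψ z) (H z) (Z z) (Zc z))
    (hSlt : ∀ z ∈ S, z.im < h) (hScl : ∀ z : ℂ, z.im = h → z ∈ closure S)
    (hon : ∀ t w : ℂ, (t, w) ∈ Om → (t - w / 2, w) ∈ OmL → b (t, w) ∈ S' →
      OnLine (φ (t - w / 2, w)) (p (t - w / 2, w)) (Z (b (t, w))) (Zc (b (t, w))))
    -- natural boundary
    (hnat : ∀ z : ℂ, z.im = h → ¬ RegAt S ψ H z) : False := by
  obtain ⟨r', hr', hr'r, hE', hpos, heq, hms⟩ := main_sheet hO hb hr hh hE hL hlt hstar hmax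
  set c : ℂ := (x0 : ℂ) + (V : ℂ) * I with hc
  have hcim : c.im = V := by simp [hc]
  have hopen : IsOpen (ball c r' ×ˢ ball (u : ℂ) r') := isOpen_ball.prod isOpen_ball
  -- height of the vertical segments used
  set s1 : ℝ := min (r' / 2) ((V - L) / 2) with hs1
  have hs10 : 0 < s1 := lt_min (by positivity) (by linarith)
  have hs1r : s1 ≤ r' / 2 := min_le_left _ _
  have hs1L : s1 ≤ (V - L) / 2 := min_le_right _ _
  have hlow0 : c - (s1 : ℂ) * I ∈ ball c r' := by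
    rw [mem_ball, dist_eq_norm, sub_sub_cancel_left, norm_neg, norm_mul, Complex.norm_real,
      Complex.norm_I, mul_one, Real.norm_of_nonneg hs10.le]
    linarith
  have hlowpt : (Bt (c - (s1 : ℂ) * I, (u : ℂ))).im < h := by
    have h1 := (hE'.low _ hlow0 (by
      rw [sub_im, hcim]; simp only [mul_im, ofReal_re, I_im, ofReal_im, I_re]
      linarith)).self_of_nhds
    rw [h1.2]
    exact hlt _ h1.1
  obtain ⟨δ, hδ, hδO⟩ : ∃ δ > 0, ∀ t ∈ ball c δ, ∀ w ∈ ball (u : ℂ) δ,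
      (Bt (t - (s1 : ℂ) * I, w)).im < h := by
    have hcont : ContinuousAt (fun q : ℂ × ℂ => ((q.1 - (s1 : ℂ) * I, q.2) : ℂ × ℂ))
        (c, (u : ℂ)) := by fun_prop
    have hBc : ContinuousAt Bt (c - (s1 : ℂ) * I, (u : ℂ)) :=
      (hE'.an _ ⟨hlow0, mem_ball_self hr'⟩).continuousAt
    have hcc : ContinuousAt (fun q : ℂ × ℂ => (Bt (q.1 - (s1 : ℂ) * I, q.2)).im) (c, (u : ℂ)) :=
      continuous_im.continuousAt.comp (ContinuousAt.comp
        (f := fun q : ℂ × ℂ => ((q.1 - (s1 : ℂ) * I, q.2) : ℂ × ℂ)) hBc hcont)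
    have h1 := hcc.eventually (gt_mem_nhds hlowpt)
    rw [Metric.eventually_nhds_iff_ball] at h1
    obtain ⟨ε, hε, h2⟩ := h1
    refine ⟨ε, hε, fun t ht w hw => h2 (t, w) ?_⟩
    rw [← ball_prod_same]
    exact ⟨ht, hw⟩
  -- choose the birth
  have hu' : (u : ℂ) ≠ 0 := by exact_mod_cast hu
  obtain ⟨t1, w1, ht1, hw1, hnot, hL1⟩ := hbirth (min (min (r' / 2) δ) (min ‖(u : ℂ)‖ s1))
    (lt_min (lt_min (by positivity) hδ) (lt_min (norm_pos_iff.2 hu') hs10))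
  have ht1r : ‖t1 - c‖ < r' / 2 := ht1.trans_le ((min_le_left _ _).trans (min_le_left _ _))
  have ht1δ : ‖t1 - c‖ < δ := ht1.trans_le ((min_le_left _ _).trans (min_le_right _ _))
  have ht1s : ‖t1 - c‖ < s1 := ht1.trans_le ((min_le_right _ _).trans (min_le_right _ _))
  have hw1r : ‖w1 - u‖ < r' / 2 := hw1.trans_le ((min_le_left _ _).trans (min_le_left _ _))
  have hw1δ : ‖w1 - u‖ < δ := hw1.trans_le ((min_le_left _ _).trans (min_le_right _ _))
  have hw1u : ‖w1 - u‖ < ‖(u : ℂ)‖ := hw1.trans_le ((min_le_right _ _).trans (min_le_left _ _))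
  have hw1ne : w1 ≠ 0 := by
    rintro rfl
    simp at hw1u
  have hw1m : w1 ∈ ball (u : ℂ) r' := by rw [mem_ball, dist_eq_norm]; linarith
  have hsegN : ∀ y ∈ Icc 0 s1, (t1 - (y : ℂ) * I, w1) ∈ ball c r' ×ˢ ball (u : ℂ) r' := by
    intro y hy
    refine ⟨?_, hw1m⟩
    rw [mem_ball, dist_eq_norm]
    have e1 : ‖t1 - (y : ℂ) * I - c‖ ≤ ‖t1 - c‖ + ‖(y : ℂ) * I‖ := by
      rw [show t1 - (y : ℂ) * I - c = (t1 - c) - (y : ℂ) * I by ring]
      exact norm_sub_le _ _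
    rw [norm_mul, Complex.norm_real, Complex.norm_I, mul_one, Real.norm_of_nonneg hy.1] at e1
    linarith [hy.2]
  have htop : h ≤ (Bt (t1, w1)).im := by
    by_contra hcon
    rw [not_le] at hcon
    apply hnot
    apply hms (t1, w1) _ hcon
    have := hsegN 0 ⟨le_refl _, hs10.le⟩
    simpa using this
  have hbot : (Bt (t1 - (s1 : ℂ) * I, w1)).im < h :=
    hδO t1 (by rw [mem_ball, dist_eq_norm]; exact ht1δ) w1
      (by rw [mem_ball, dist_eq_norm]; exact hw1δ)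
  -- intermediate value: a point on the face
  set g : ℝ → ℝ := fun y => (Bt (t1 - (y : ℂ) * I, w1)).im with hg
  have hgc : ContinuousOn g (Icc 0 s1) := by
    intro y hy
    have h1 : ContinuousAt Bt (t1 - (y : ℂ) * I, w1) := (hE'.an _ (hsegN y hy)).continuousAt
    have h2 : ContinuousAt (fun y : ℝ => ((t1 - (y : ℂ) * I, w1) : ℂ × ℂ)) y := by fun_prop
    exact (continuous_im.continuousAt.comp (ContinuousAt.comp
      (f := fun y : ℝ => ((t1 - (y : ℂ) * I, w1) : ℂ × ℂ)) h1 h2)).continuousWithinAt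
  obtain ⟨y2, hy2, hgy2⟩ : ∃ y2 ∈ Icc 0 s1, g y2 = h := by
    have h1 := intermediate_value_Icc' hs10.le hgc
    have h2 : h ∈ Icc (g s1) (g 0) := ⟨hbot.le, by simpa [hg] using htop⟩
    obtain ⟨y2, hy2, hh⟩ := h1 h2
    exact ⟨y2, hy2, hh⟩
  set x : ℂ × ℂ := (t1 - (y2 : ℂ) * I, w1) with hx
  have hxN : x ∈ ball c r' ×ˢ ball (u : ℂ) r' := hsegN y2 hy2
  have hxL : sh x ∈ OmL := by
    have h1 := hstarL _ _ hL1 y2 hy2.1 (by
      rw [show t1 - w1 / 2 + w1 / 2 = t1 by ring]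
      have e2 := abs_lt.1 ((Complex.abs_im_le_norm (t1 - c)).trans_lt ht1s)
      rw [sub_im, hcim] at e2
      have := hy2.2
      linarith [e2.1])
    have h2 : sh x = (t1 - w1 / 2 - (y2 : ℂ) * I, w1) := by
      simp only [sh, hx]
      congr 1
      ring
    rwa [h2]
  have hxB : (Bt x).im = h := hgy2
  have hφx : AnalyticAt ℂ (φ ∘ sh) x := AnalyticAt.comp (hφ _ hxL) (analyticAt_sh x)
  have hpx : AnalyticAt ℂ (p ∘ sh) x := AnalyticAt.comp (hp _ hxL) (analyticAt_sh x)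
  have hne : q1 Bt x ≠ 0 := by
    intro h0
    have := hpos x hxN
    rw [h0] at this
    simp at this
  have harx : q1 (φ ∘ sh) x * q2 (p ∘ sh) x - q2 (φ ∘ sh) x * q1 (p ∘ sh) x ≠ 0 := by
    rw [area_sh (hφ _ hxL).differentiableAt (hp _ hxL).differentiableAt]
    exact har _ hxL hw1ne
  have honx : ∀ᶠ y in 𝓝 x, Bt y ∈ S' →
      OnLine ((φ ∘ sh) y) ((p ∘ sh) y) (Z (Bt y)) (Zc (Bt y)) := by
    have h1 : ∀ᶠ y in 𝓝 x, sh y ∈ OmL :=
      (analyticAt_sh x).continuousAt.eventually_mem (hOL.mem_nhds hxL)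
    filter_upwards [hopen.mem_nhds hxN, h1] with y hyN hyL hyS
    have h2 : y ∈ Om := hms y hyN (hSlt _ (hsub hyS))
    have h3 : Bt y = b y := heq y hyN h2
    have h4 := hon y.1 y.2 h2 hyL (by rw [h3] at hyS; exact hyS)
    rw [h3]
    exact h4
  have hreg := face_reg hS hSc hS' hsub hdense hψ hH hZ hZc hκ hon0 hφx hpx
    (hE'.an _ hxN) hne harx honx (hScl _ hxB)
  -- points of the line near `Bt x`
  have hfreq : ∃ᶠ z in 𝓝[≠] (Bt x), z.im = h := by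
    have h1 : Tendsto (fun y : ℝ => Bt x + (y : ℂ)) (𝓝[≠] 0) (𝓝[≠] (Bt x)) := by
      rw [tendsto_nhdsWithin_iff]
      constructor
      · have h2 : Continuous fun y : ℝ => Bt x + (y : ℂ) := by fun_prop
        have h3 := h2.tendsto 0
        simp only [ofReal_zero, add_zero] at h3
        exact h3.mono_left nhdsWithin_le_nhds
      · filter_upwards [self_mem_nhdsWithin] with y hy
        simp only [mem_compl_iff, mem_singleton_iff, add_eq_left, ofReal_eq_zero] at hy ⊢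
        exact hy
    apply h1.frequently
    apply Eventually.frequently
    filter_upwards with y
    simp [hxB]
  obtain ⟨z, hz1, hz2⟩ := (hfreq.and_eventually hreg).exists
  exact hnat z hz1 hz2

end Crest.Agent.R102.P4811
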