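import Crest.Agent.R102.PartII_150

/-!
Row 102, T1-B, PART II (helper150): the output of `partII` as set conditions in the exact
coordinates `(t', w)`, `t' = t - G w`, `w` absolute, with fixed constants (`At`); these conditions
are Borel in the real parameter `u`.
-/

set_option autoImplicit false

open Set Filter Topology Metric Complex MeasureTheory
open scoped Real

noncomputable section

namespace Crest.Agent.R102.PartII150

open Crest.Agent.R102.K669 Crest.Agent.R102.Heights150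
open Crest.Agent.R102.Slope811 (SupH)
open Crest.Agent.R102.Slope845 (Expn)

/-- exact coordinates to original coordinates (vertex) -/
def ex (G : ℂ → ℂ) (q : ℂ × ℂ) : ℂ × ℂ := (q.1 + G q.2, q.2)

/-- exact coordinates to original coordinates of the incoming line -/
def ln (G : ℂ → ℂ) (q : ℂ × ℂ) : ℂ × ℂ := (q.1 + G q.2 - q.2 / 2, q.2)

/-- the output of PART II at `u` with fixed constants: level `a`, gap `c`, precision `ε`,
arc `|s - s₁| < δ`, scale `η` -/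
structure At (L X : Set (ℂ × ℂ)) (G : ℂ → ℂ) (a c ε s₁ δ η u : ℝ) : Prop where
  low : ∀ q : ℂ × ℂ, |q.1.re - s₁| < δ → q.2 - u ∈ HD η → -η < q.1.im →
    q.1.im < (a - ε) * q.2.im → ex G q ∈ X
  line : ∀ q : ℂ × ℂ, |q.1.re - s₁| < δ → q.2 - u ∈ HD η → -η < q.1.im →
    q.1.im < (a + c) * q.2.im → ln G q ∈ L
  births : ∀ x : ℝ, |x - s₁| < δ → ∀ z ∈ HD η, 2 * ε * ‖z‖ < z.im → ∃ q' : ℂ × ℂ,
    |q'.1.re - x| ≤ ε * ‖z‖ ∧ ‖q'.2 - (u + z)‖ ≤ ε * ‖z‖ ∧ (a - ε) * q'.2.im ≤ q'.1.im ∧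
    q'.1.im ≤ (a + ε) * q'.2.im ∧ ex G q' ∉ X

variable {L X : Set (ℂ × ℂ)} {G : ℂ → ℂ} {u R s₀ a₀ c : ℝ}

theorem mem_X_of_lt (hXX : LV 0 (HD R) (half u R (sft u G) X)) {q : ℂ × ℂ}
    (hz : q.2 - u ∈ HD R) (h : q.1.im < kX u R G X q.1.re (q.2 - u)) : ex G q ∈ X := by
  have h1 := hXX.mem_of_lt hz h
  have h2 := h1.2
  simp only [sft] at h2
  rw [Complex.re_add_im, add_sub_cancel] at h2
  exact h2

theorem mem_L_of_lt (hLL : LV 0 (HD R) (half u R (sft u G) L)) {q : ℂ × ℂ}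
    (hz : q.2 - u ∈ HD R) (h : q.1.im < mn u (kX u R G L) q.1.re (q.2 - u)) : ln G q ∈ L := by
  unfold mn at h
  have h0 : q.1.im - (q.2 - u).im / 2 <
      kX u R G L (q.1.re - (u + (q.2 - u).re) / 2) (q.2 - u) := by linarith
  have h1 := hLL.mem_of_lt hz h0
  have h2 := h1.2
  simp only [sft] at h2
  rw [add_sub_cancel] at h2
  have h3 : ((q.1.re - (u + (q.2 - u).re) / 2 : ℝ) : ℂ) +
      ((q.1.im - (q.2 - u).im / 2 : ℝ) : ℂ) * I + G q.2 = q.1 + G q.2 - q.2 / 2 := by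
    apply Complex.ext
    · simp; ring
    · simp; ring
  rw [h3] at h2
  exact h2

theorem notMem_X {x : ℝ} {z : ℂ} (hXX : LV 0 (HD R) (half u R (sft u G) X))
    (hz : z ∈ HD R) (h : kX u R G X x z < 1) :
    ex G ((x : ℂ) + (kX u R G X x z : ℝ) * I, (u : ℂ) + z) ∉ X := by
  have h1 := hXX.kO_notMem (y := kX u R G X x z) h le_rfl
  intro h2
  exact h1 ⟨hz, h2⟩

theorem exists_theta {θ ε₁ ε₂ : ℝ} (h0 : 0 < θ) (hπ : θ < π) (h12 : ε₁ < ε₂) (h1 : 0 ≤ ε₁)
    (h2 : ε₂ ≤ 1) {S : Set ℝ} (hS : volume S ≤ ENNReal.ofReal ε₁) :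
    ∃ θ' ∈ Ioo 0 π, |θ' - θ| < ε₂ ∧ θ' ∉ S := by
  have hπ3 := Real.pi_gt_three
  obtain ⟨l, hl, hsub⟩ : ∃ l : ℝ, Ioo l (l + ε₂) ⊆ Ioo 0 π ∧
      ∀ x ∈ Ioo l (l + ε₂), |x - θ| < ε₂ := by
    rcases le_total θ (π / 2) with h | h
    · refine ⟨θ, fun x hx => ⟨h0.trans hx.1, by linarith [hx.2]⟩, fun x hx => ?_⟩
      rw [abs_lt]; constructor <;> linarith [hx.1, hx.2]
    · refine ⟨θ - ε₂, fun x hx => ⟨by linarith [hx.1], by linarith [hx.2]⟩, fun x hx => ?_⟩
      rw [abs_lt]; constructor <;> linarith [hx.1, hx.2]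
  by_contra hcon
  push Not at hcon
  have h3 : Ioo l (l + ε₂) ⊆ S := fun x hx => hcon x (hl hx) (hsub x hx)
  have h4 := (measure_mono h3).trans hS
  rw [Real.volume_Ioo, add_sub_cancel_left] at h4
  exact absurd h4 (not_le.2 ((ENNReal.ofReal_lt_ofReal_iff (h1.trans_lt h12)).2 h12))

/-- **`Out` gives `At` for all nearby levels, arcs and smaller scales** -/
theorem at_of_out (hR : 0 < R) (hLL : LV 0 (HD R) (half u R (sft u G) L))
    (hXX : LV 0 (HD R) (half u R (sft u G) X)) (O : Out L X u G R s₀ a₀ c) {ε : ℝ} (hε : 0 < ε) :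
    ∃ δ₀ > (0 : ℝ), ∃ η₁ > (0 : ℝ), ∀ a c' s₁ δ η : ℝ, |a - a₀| ≤ ε / 2 → a + c' ≤ a₀ + c →
      |s₁ - s₀| + δ ≤ δ₀ → η ≤ η₁ → At L X G a c' ε s₁ δ η u := by
  have ha₀ := O.a₀_nonneg
  set ε₂ : ℝ := min (ε / (2 * (a₀ + 1))) 1 with hε₂
  have hε₂0 : 0 < ε₂ := lt_min (by positivity) one_pos
  have hε₂1 : ε₂ ≤ 1 := min_le_right _ _
  have hε₂a : (a₀ + 1) * ε₂ ≤ ε / 2 := by
    have h1 : ε₂ ≤ ε / (2 * (a₀ + 1)) := min_le_left _ _
    have h2 : (0 : ℝ) < a₀ + 1 := by linarith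
    calc (a₀ + 1) * ε₂ ≤ (a₀ + 1) * (ε / (2 * (a₀ + 1))) := mul_le_mul_of_nonneg_left h1 h2.le
      _ = ε / 2 := by field_simp
  have hε₂ε : ε₂ ≤ ε / 2 := by nlinarith
  obtain ⟨D, hD, η₀, hη₀, H⟩ := O.out (ε₂ / 2) (by positivity)
  set η₁ : ℝ := min (min η₀ R) (min (D / (4 * (a₀ + ε + 1))) (1 / (2 * (a₀ + ε + 1)))) with hη₁
  have hpos : (0 : ℝ) < a₀ + ε + 1 := by linarith
  have hη₁0 : 0 < η₁ := lt_min (lt_min hη₀ hR) (lt_min (by positivity) (by positivity))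
  have e1 : η₁ ≤ η₀ := (min_le_left _ _).trans (min_le_left _ _)
  have e2 : η₁ ≤ R := (min_le_left _ _).trans (min_le_right _ _)
  have e3 : (a₀ + ε + 1) * η₁ ≤ D / 4 := by
    have h1 : η₁ ≤ D / (4 * (a₀ + ε + 1)) := (min_le_right _ _).trans (min_le_left _ _)
    calc (a₀ + ε + 1) * η₁ ≤ (a₀ + ε + 1) * (D / (4 * (a₀ + ε + 1))) :=
          mul_le_mul_of_nonneg_left h1 hpos.le
      _ = D / 4 := by field_simp
  have e4 : (a₀ + ε + 1) * η₁ ≤ 1 / 2 := by
    have h1 : η₁ ≤ 1 / (2 * (a₀ + ε + 1)) := (min_le_right _ _).trans (min_le_right _ _)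
    calc (a₀ + ε + 1) * η₁ ≤ (a₀ + ε + 1) * (1 / (2 * (a₀ + ε + 1))) :=
          mul_le_mul_of_nonneg_left h1 hpos.le
      _ = 1 / 2 := by field_simp
  refine ⟨D / 2, by positivity, η₁, hη₁0, ?_⟩
  intro a c' s₁ δ η haa hac hs hη
  have haa' := abs_le.1 haa
  have hnear : ∀ x : ℝ, |x - s₁| < δ → |x - s₀| < D / 2 := by
    intro x hx
    calc |x - s₀| = |(x - s₁) + (s₁ - s₀)| := by ring_nf
      _ ≤ |x - s₁| + |s₁ - s₀| := abs_add_le _ _
      _ < D / 2 := by linarith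
  refine ⟨?_, ?_, ?_⟩
  · intro q hq hz _ him
    have hz0 : 0 < (q.2 - u).im := hz.1
    have hzi : (q.2 - u).im = q.2.im := by simp
    have h1 := (H q.1.re (by linarith [hnear _ hq])).1 (q.2 - u) (HD_mono (hη.trans e1) hz)
    refine mem_X_of_lt hXX (HD_mono (hη.trans e2) hz) (lt_of_lt_of_le him (le_trans ?_ h1))
    rw [hzi] at hz0 ⊢
    exact mul_le_mul_of_nonneg_right (by linarith) hz0.le
  · intro q hq hz _ him
    have hz0 : 0 < (q.2 - u).im := hz.1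
    have hzi : (q.2 - u).im = q.2.im := by simp
    have h1 := (H q.1.re (by linarith [hnear _ hq])).2.1 (q.2 - u) (HD_mono (hη.trans e1) hz)
    refine mem_L_of_lt hLL (HD_mono (hη.trans e2) hz) (lt_of_lt_of_le him (le_trans ?_ h1))
    rw [hzi] at hz0 ⊢
    exact mul_le_mul_of_nonneg_right hac hz0.le
  · intro x hx z hz hzc
    have hz0 : 0 < z.im := hz.1
    have hzn : ‖z‖ < η₁ := hz.2.trans_le hη
    have hzp : 0 < ‖z‖ := hz0.trans_le ((le_abs_self _).trans (Complex.abs_im_le_norm z))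
    set ρ : ℝ := ‖z‖ with hρ
    set θ : ℝ := Complex.arg z with hθ
    have hθπ : θ < π := by
      rcases lt_or_eq_of_le (Complex.arg_le_pi z) with h | h
      · exact h
      · exfalso
        rw [Complex.arg_eq_pi_iff] at h
        linarith [h.2]
    have hθ0 : 0 < θ := by
      rcases lt_or_eq_of_le (Complex.arg_nonneg_iff.2 hz0.le) with h | h
      · exact h
      · exfalso
        have := Complex.arg_eq_zero_iff.1 h.symm
        linarith [this.2]
    have hzc' : circleMap 0 ρ θ = z := by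
      rw [circleMap, zero_add, hρ, hθ]
      exact Complex.norm_mul_exp_arg_mul_I z
    have hzre : z.re = ρ * Real.cos θ := by
      rw [← hzc']; simp [circleMap, Complex.exp_ofReal_mul_I_re]
    set s : ℝ := x - a₀ * z.re with hs'
    have hreb : |z.re| ≤ ρ := Complex.abs_re_le_norm z
    have hρη : (a₀ + ε + 1) * ρ ≤ D / 4 :=
      (mul_le_mul_of_nonneg_left hzn.le hpos.le).trans e3
    have hsD : |s - s₀| < D := by
      have h1 := hnear x hx
      have h2 : |a₀ * z.re| ≤ a₀ * ρ := by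
        rw [abs_mul, abs_of_nonneg ha₀]
        exact mul_le_mul_of_nonneg_left hreb ha₀
      have h3 : a₀ * ρ ≤ (a₀ + ε + 1) * ρ := mul_le_mul_of_nonneg_right (by linarith) hzp.le
      calc |s - s₀| = |(x - s₀) + (-(a₀ * z.re))| := by rw [hs']; ring_nf
        _ ≤ |x - s₀| + |-(a₀ * z.re)| := abs_add_le _ _
        _ < D := by rw [abs_neg]; linarith
    have hB := (H s hsD).2.2.2 ρ hzp (hzn.trans_le e1)
    obtain ⟨θ', hθ', hθd, hθB⟩ := exists_theta (ε₂ := ε₂) hθ0 hθπ (by linarith) (by linarith)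
      hε₂1 hB
    set z' : ℂ := circleMap 0 ρ θ' with hz'
    have hz'n : ‖z'‖ = ρ := by rw [hz', norm_circleMap_zero, abs_of_pos hzp]
    have hz're : z'.re = ρ * Real.cos θ' := by
      rw [hz']; simp [circleMap, Complex.exp_ofReal_mul_I_re]
    have hz'im : z'.im = ρ * Real.sin θ' := by
      rw [hz']; simp [circleMap, Complex.exp_ofReal_mul_I_im]
    have hz'0 : 0 < z'.im := by
      rw [hz'im]; exact mul_pos hzp (Real.sin_pos_of_pos_of_lt_pi hθ'.1 hθ'.2)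
    have hdz : ‖z' - z‖ ≤ ε₂ * ρ := by
      have h1 := (lipschitzWith_circleMap (0 : ℂ) ρ).dist_le_mul θ' θ
      rw [hzc', dist_eq_norm, Real.dist_eq] at h1
      refine h1.trans ?_
      rw [Real.coe_nnabs, abs_of_pos hzp, mul_comm]
      exact mul_le_mul_of_nonneg_right hθd.le hzp.le
    have hex : ∃ x', |x' - (s + a₀ * (ρ * Real.cos θ'))| ≤ ε₂ / 2 * ρ ∧
        kX u R G X x' z' ≤ (a₀ + ε₂ / 2) * (ρ * Real.sin θ') := by
      by_contra hcon
      exact hθB ⟨hθ', hcon⟩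
    obtain ⟨x', hx'1, hx'2⟩ := hex
    rw [← hz're] at hx'1
    rw [← hz'im] at hx'2
    have hxx : |x' - x| ≤ ε * ρ := by
      have h1 : |a₀ * (z'.re - z.re)| ≤ a₀ * (ε₂ * ρ) := by
        rw [abs_mul, abs_of_nonneg ha₀]
        refine mul_le_mul_of_nonneg_left ?_ ha₀
        rw [← Complex.sub_re]
        exact (Complex.abs_re_le_norm _).trans hdz
      have h2 : x' - x = (x' - (s + a₀ * z'.re)) + a₀ * (z'.re - z.re) := by rw [hs']; ring
      have h3 : (ε₂ / 2 + a₀ * ε₂) ≤ ε := by linarith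
      calc |x' - x| ≤ |x' - (s + a₀ * z'.re)| + |a₀ * (z'.re - z.re)| := by
            rw [h2]; exact abs_add_le _ _
        _ ≤ ε₂ / 2 * ρ + a₀ * (ε₂ * ρ) := add_le_add hx'1 h1
        _ = (ε₂ / 2 + a₀ * ε₂) * ρ := by ring
        _ ≤ ε * ρ := mul_le_mul_of_nonneg_right h3 hzp.le
    have hz'R : z' ∈ HD R := ⟨hz'0, by rw [hz'n]; exact hzn.trans_le e2⟩
    have hz'η : z' ∈ HD η₀ := ⟨hz'0, by rw [hz'n]; exact hzn.trans_le e1⟩
    have hx'D : |x' - s₀| < D := by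
      have h1 := hnear x hx
      have h3 : ε * ρ ≤ (a₀ + ε + 1) * ρ := mul_le_mul_of_nonneg_right (by linarith) hzp.le
      calc |x' - s₀| = |(x' - x) + (x - s₀)| := by ring_nf
        _ ≤ |x' - x| + |x - s₀| := abs_add_le _ _
        _ < D := by linarith
    have hlow := (H x' hx'D).1 z' hz'η
    have hk1 : kX u R G X x' z' < 1 := by
      have h1 : z'.im ≤ ρ := by rw [← hz'n]; exact (le_abs_self _).trans (Complex.abs_im_le_norm _)
      have h2 : (a₀ + ε₂ / 2) * z'.im ≤ (a₀ + ε + 1) * η₁ :=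
        mul_le_mul (by linarith) (h1.trans hzn.le) hz'0.le hpos.le
      linarith
    refine ⟨((x' : ℂ) + (kX u R G X x' z' : ℝ) * I, (u : ℂ) + z'), ?_, ?_, ?_, ?_, ?_⟩
    · simpa using hxx
    · have h1 : (u : ℂ) + z' - (u + z) = z' - z := by ring
      simp only [h1]
      refine hdz.trans (mul_le_mul_of_nonneg_right (by linarith) hzp.le)
    · simp only [add_im, ofReal_im, mul_im, ofReal_re, I_im, I_re, mul_one, mul_zero, add_zero,
        zero_add]
      refine le_trans ?_ hlow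
      exact mul_le_mul_of_nonneg_right (by linarith) hz'0.le
    · simp only [add_im, ofReal_im, mul_im, ofReal_re, I_im, I_re, mul_one, mul_zero, add_zero,
        zero_add]
      refine hx'2.trans ?_
      exact mul_le_mul_of_nonneg_right (by linarith) hz'0.le
    · exact notMem_X hXX hz'R hk1

end Crest.Agent.R102.PartII150
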