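import Crest.Agent.R102.LVC_669
import Crest.Agent.R102.JN_814

/-!
Row 102, T1-B, PART II (helper150): the main theorem of `Heights_150` on two LV sets
(`L` = main sheet of the lines, `X` = main sheet of the vertex labels) in the exact coordinates
`t' = t - G(u+z)`, `w = u + z`, at ONE real `u` at which no point of the first line `Im t = V u`
belongs to `L` and at which the exact harmonic shift has an expansion.
-/

set_option autoImplicit false

open Set Filter Topology Metric Complex MeasureTheory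
open scoped Real

noncomputable section

namespace Crest.Agent.R102.PartII150

open Crest.Agent.R102.K669 Crest.Agent.R102.Heights150
open Crest.Agent.R102.Slope811 (SupH)
open Crest.Agent.R102.Slope845 (Expn)

/-- two LV sets with the rule "two of the three points `(t - w/2, w) ∈ L`, `(t, w) ∈ X`,
`(t + w/2, w) ∈ L` give the third" -/
structure Pair (b : ℝ) (W : Set ℂ) (L X : Set (ℂ × ℂ)) : Prop where
  hL : LV b W L
  hX : LV b W X
  r1 : ∀ t : ℂ, ∀ w ∈ W, (t - w / 2, w) ∈ L → (t + w / 2, w) ∈ L → (t, w) ∈ X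
  r2 : ∀ t : ℂ, ∀ w ∈ W, (t, w) ∈ X → (t + w / 2, w) ∈ L → (t - w / 2, w) ∈ L
  r3 : ∀ t : ℂ, ∀ w ∈ W, (t - w / 2, w) ∈ L → (t, w) ∈ X → (t + w / 2, w) ∈ L

/-- the shift in the parameter `z = w - u` -/
def sft (u : ℝ) (G : ℂ → ℂ) : ℂ → ℂ := fun z => G (u + z)

/-- the height of the vertex label in the exact coordinates -/
def kX (u R : ℝ) (G : ℂ → ℂ) (X : Set (ℂ × ℂ)) : ℝ → ℂ → ℝ := kO (half u R (sft u G) X)

theorem kO_half_mono {u R R' : ℝ} (h : R' ≤ R) (G : ℂ → ℂ) (Om : Set (ℂ × ℂ)) {z : ℂ}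
    (hz : z ∈ HD R') (x : ℝ) : kO (half u R' G Om) x z = kO (half u R G Om) x z := by
  have hz' : z ∈ HD R := HD_mono h hz
  unfold kO
  congr 1
  ext y
  simp only [Set.mem_ofPred_eq, half]
  tauto

/-- the output of PART II -/
structure Out (L X : Set (ℂ × ℂ)) (u : ℝ) (G : ℂ → ℂ) (R s₀ a₀ c : ℝ) : Prop where
  c_pos : 0 < c
  a₀_nonneg : 0 ≤ a₀
  out : ∀ ε > (0 : ℝ), ∃ δ > (0 : ℝ), ∃ η₀ > (0 : ℝ), ∀ s, |s - s₀| < δ →
        (∀ z ∈ HD η₀, (a₀ - ε) * z.im ≤ kX u R G X s z) ∧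
        (∀ z ∈ HD η₀, (a₀ + c) * z.im ≤ mn u (kX u R G L) s z) ∧
        (∀ i : ℕ, LowAt (kX u R G L) (s - (i + 1/2) * u) (a₀ + c - (i + 1/2))) ∧
        ∀ η, 0 < η → η < η₀ → volume (Bad (kX u R G X) a₀ s ε η) ≤ ENNReal.ofReal ε

theorem partII {b : ℝ} {W : Set ℂ} {L X : Set (ℂ × ℂ)} (P : Pair b W L X) {V : ℂ → ℝ}
    (hVL : ∀ w ∈ W, ∀ t : ℂ, t.im < V w → (t, w) ∈ L)
    (hVX : ∀ w ∈ W, ∀ t : ℂ, t.im < V w → (t, w) ∈ X)
    {u R α β : ℝ} {G : ℂ → ℂ} (hu : (u : ℂ) ∈ W) (hsub : ∀ z ∈ HD R, (u : ℂ) + z ∈ W)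
    (hN : ∀ x : ℝ, ((x : ℂ) + (V u) * I, (u : ℂ)) ∉ L)
    (hR : 0 < R) (hG : DifferentiableOn ℂ G {w | w - u ∈ HD R})
    (hGV : ∀ w : ℂ, w - u ∈ HD R → (G w).im ≤ V w) (hE : Expn G V u α β) :
    ∃ R' : ℝ, 0 < R' ∧ R' ≤ R ∧ R' ≤ 1 ∧ LV 0 (HD R') (half u R' (sft u G) L) ∧
      LV 0 (HD R') (half u R' (sft u G) X) ∧ ∃ s₀ a₀ c : ℝ, Out L X u G R' s₀ a₀ c := by
  -- the sets over the half discs
  have hLV : ∀ r : ℝ, r ≤ R → ∀ Om : Set (ℂ × ℂ), LV b W Om →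
      (∀ w ∈ W, ∀ t : ℂ, t.im < V w → (t, w) ∈ Om) → LV 0 (HD r) (half u r (sft u G) Om) := by
    intro r hr Om hOm hV
    refine hOm.half (fun z hz => hsub z (HD_mono hr hz)) ?_ ?_
    · have h1 : Differentiable ℂ (fun z : ℂ => (u : ℂ) + z) := by fun_prop
      refine hG.comp h1.differentiableOn ?_
      intro z hz
      show (u : ℂ) + z - u ∈ HD R
      rw [add_sub_cancel_left]
      exact HD_mono hr hz
    · intro z hz t ht
      refine hV _ (hsub z (HD_mono hr hz)) t ?_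
      refine lt_of_lt_of_le ht ?_
      rw [zero_add]
      refine hGV _ ?_
      rw [add_sub_cancel_left]
      exact HD_mono hr hz
  obtain ⟨c2, hc2, hlow⟩ := JN.jn_half P.hL hu hVL hN hR hG hE (hLV R le_rfl L P.hL hVL)
  set R' : ℝ := min (min R 1) (1 / (2 * (c2 + 1))) with hR'
  have hR'0 : 0 < R' := by
    have : 0 < 1 / (2 * (c2 + 1)) := by positivity
    exact lt_min (lt_min hR one_pos) this
  have hR'R : R' ≤ R := (min_le_left _ _).trans (min_le_left _ _)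
  have hR'1 : R' ≤ 1 := (min_le_left _ _).trans (min_le_right _ _)
  have hR'c : (c2 + 1) * R' ≤ 1 / 2 := by
    have h1 : R' ≤ 1 / (2 * (c2 + 1)) := min_le_right _ _
    have h2 : (0 : ℝ) < c2 + 1 := by linarith
    calc (c2 + 1) * R' ≤ (c2 + 1) * (1 / (2 * (c2 + 1))) := mul_le_mul_of_nonneg_left h1 h2.le
      _ = 1 / 2 := by field_simp
  have hLL := hLV R' hR'R L P.hL hVL
  have hXX := hLV R' hR'R X P.hX hVX
  refine ⟨R', hR'0, hR'R, hR'1, hLL, hXX, ?_⟩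
  obtain ⟨q1, q2, q3⟩ := rules (G := sft u G) hR'1 hLL hXX
    (fun t z hz => P.r1 t _ (hsub z (HD_mono hR'R hz)))
    (fun t z hz => P.r2 t _ (hsub z (HD_mono hR'R hz)))
    (fun t z hz => P.r3 t _ (hsub z (HD_mono hR'R hz)))
  obtain ⟨s₀, a₀, c, hc, ha, -, hout⟩ := main (kX := kX u R' G X) (kL := kX u R' G L) (u := u)
    (R := R') (lam₀ := 1) (c₂ := c2) hR'0 one_pos
    (fun z hz x => hXX.base_le_kO (by norm_num) x hz)
    (fun z hz x => hLL.base_le_kO (by norm_num) x hz) q1 q2 q3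
    (by
      intro s c ⟨d, hd, hh⟩
      refine hlow s c ⟨min d R', lt_min hd hR'0, fun x hx z hz => ?_⟩
      have hzd : z ∈ HD d := HD_mono (min_le_left _ _) hz
      have hzR : z ∈ HD R' := HD_mono (min_le_right _ _) hz
      have h1 := hh x (hx.trans_le (min_le_left _ _)) z hzd
      have h2 := kO_half_mono (u := u) hR'R (sft u G) L hzR x
      exact h1.trans_eq h2)
    (by
      intro α' lam s h0 h1 hl
      refine hXX.supH_HD hR'0.le ?_ s hl
      rw [abs_of_nonneg h0]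
      exact (mul_le_mul_of_nonneg_right h1 hR'0.le).trans hR'c)
  exact ⟨s₀, a₀, c, hc, ha, hout⟩

end Crest.Agent.R102.PartII150
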