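import Crest.Agent.R102.F7_389

/-!
# Row 102, [H3], THEOREM (RAT), step 3: the pencil argument (helper926), part A

Quantitative facts about the chords of the graph `a = g b` near the grazing line at `c₀`.
-/

set_option autoImplicit false

open Set Filter Topology Metric

noncomputable section

namespace Crest.Agent.R102.Pen926

/-- chords near the grazing line at `c₀`: the line `(m p, k p)`, `p = (c, ω)`, passes through
the points `c + ω`, `c - ω` of the graph of `g`. -/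
structure Chord (g : ℂ → ℂ) (c₀ : ℂ) (ρ : ℝ) (m k : ℂ × ℂ → ℂ) : Prop where
  ρ_pos : 0 < ρ
  g_an : AnalyticOnNhd ℂ g (ball c₀ (2 * ρ))
  g2 : deriv (deriv g) c₀ ≠ 0
  an_m : AnalyticOnNhd ℂ m (ball c₀ ρ ×ˢ ball 0 ρ)
  an_k : AnalyticOnNhd ℂ k (ball c₀ ρ ×ˢ ball 0 ρ)
  inc : ∀ p ∈ ball c₀ ρ ×ˢ ball 0 ρ, g (p.1 + p.2) = m p * (p.1 + p.2) + k p
  chord : ∀ p ∈ ball c₀ ρ ×ˢ ball 0 ρ, g (p.1 - p.2) = m p * (p.1 - p.2) + k p
  m_c : ∀ c ∈ ball c₀ ρ, m (c, 0) = deriv g c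

variable {g : ℂ → ℂ} {c₀ : ℂ} {ρ : ℝ} {m k : ℂ × ℂ → ℂ}

/-- a radius on which `g'` is close to its linear part -/
def A1 (g : ℂ → ℂ) (c₀ : ℂ) (r : ℝ) : Prop :=
  ∀ z ∈ ball c₀ (2 * r), ∀ w ∈ ball c₀ (2 * r),
    ‖deriv g z - deriv g w - deriv (deriv g) c₀ * (z - w)‖ ≤
      ‖deriv (deriv g) c₀‖ / 10 * ‖z - w‖

theorem exists_A1 (h : Chord g c₀ ρ m k) : ∃ r > 0, r ≤ ρ ∧ A1 g c₀ r := by
  have hG := h.g2
  have hGp : 0 < ‖deriv (deriv g) c₀‖ / 10 := by positivity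
  have hc : c₀ ∈ ball c₀ (2 * ρ) := by
    simp; linarith [h.ρ_pos]
  have h1 : HasStrictDerivAt (deriv g) (deriv (deriv g) c₀) c₀ :=
    (h.g_an c₀ hc).deriv.hasStrictDerivAt
  have h2 := (hasStrictFDerivAt_iff_isLittleO.1 h1.hasStrictFDerivAt).def hGp
  rw [Metric.eventually_nhds_iff] at h2
  obtain ⟨ε, hε, hb⟩ := h2
  refine ⟨min ρ (ε / 2), lt_min h.ρ_pos (by positivity), min_le_left _ _, ?_⟩
  intro z hz w hw
  have hle : 2 * min ρ (ε / 2) ≤ ε := by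
    have := min_le_right ρ (ε / 2)
    linarith
  have h3 := @hb (z, w) (by
    rw [Prod.dist_eq]
    exact max_lt (lt_of_lt_of_le hz hle) (lt_of_lt_of_le hw hle))
  have e : (z - w) • deriv (deriv g) c₀ = deriv (deriv g) c₀ * (z - w) := by
    rw [smul_eq_mul, mul_comm]
  simpa [e, mul_comm] using h3

theorem A1.le {r : ℝ} (hA : A1 g c₀ r) {r' : ℝ} (h : r' ≤ r) : A1 g c₀ r' := by
  intro z hz w hw
  exact hA z (ball_subset_ball (by linarith) hz) w (ball_subset_ball (by linarith) hw)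

/-- second order Taylor estimate -/
theorem A2 (h : Chord g c₀ ρ m k) {r : ℝ} (hrρ : r ≤ ρ) (hA : A1 g c₀ r) {z w : ℂ}
    (hz : z ∈ ball c₀ (2 * r)) (hw : w ∈ ball c₀ (2 * r)) :
    ‖g z - g w - deriv g w * (z - w) - deriv (deriv g) c₀ / 2 * (z - w) ^ 2‖ ≤
      ‖deriv (deriv g) c₀‖ / 10 * ‖z - w‖ ^ 2 := by
  set G := deriv (deriv g) c₀ with hG
  set φ : ℂ → ℂ := fun ζ => g ζ - g w - deriv g w * (ζ - w) - G / 2 * (ζ - w) ^ 2 with hφ
  have hseg : segment ℝ w z ⊆ ball c₀ (2 * r) := (convex_ball c₀ (2 * r)).segment_subset hw hz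
  have hder : ∀ ζ ∈ segment ℝ w z, HasDerivWithinAt φ (deriv g ζ - deriv g w - G * (ζ - w))
      (segment ℝ w z) ζ := by
    intro ζ hζ
    have hζb := hseg hζ
    have hga : HasDerivAt g (deriv g ζ) ζ :=
      (h.g_an ζ (ball_subset_ball (by linarith) hζb)).differentiableAt.hasDerivAt
    have h1 : HasDerivAt (fun ζ : ℂ => ζ - w) 1 ζ := (hasDerivAt_id ζ).sub_const w
    have h2 : HasDerivAt φ (deriv g ζ - deriv g w * 1 - G / 2 * (2 * (ζ - w) ^ 1 * 1)) ζ := by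
      have h3 := h1.pow 2
      have h4 := (h3.const_mul (G / 2))
      have h5 := ((hga.sub_const (g w)).sub (h1.const_mul (deriv g w))).sub h4
      refine h5.congr_deriv ?_
      push_cast
      ring
    refine (h2.congr_deriv ?_).hasDerivWithinAt
    ring
  have hbound : ∀ ζ ∈ segment ℝ w z, ‖deriv g ζ - deriv g w - G * (ζ - w)‖ ≤
      ‖G‖ / 10 * ‖z - w‖ := by
    intro ζ hζ
    refine (hA ζ (hseg hζ) w hw).trans ?_
    refine mul_le_mul_of_nonneg_left ?_ (by positivity)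
    obtain ⟨a, b, ha, hb, hab, rfl⟩ := hζ
    have : a • w + b • z - w = (b : ℂ) * (z - w) := by
      have : (a : ℂ) = 1 - b := by
        have := congrArg (fun t : ℝ => (t : ℂ)) hab
        push_cast at this
        linear_combination this
      simp only [Complex.real_smul, this]
      ring
    rw [this, norm_mul]
    have hb1 : ‖(b : ℂ)‖ ≤ 1 := by
      rw [Complex.norm_real, Real.norm_eq_abs, abs_of_nonneg hb]; linarith
    calc ‖(b : ℂ)‖ * ‖z - w‖ ≤ 1 * ‖z - w‖ :=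
          mul_le_mul_of_nonneg_right hb1 (norm_nonneg _)
      _ = ‖z - w‖ := one_mul _
  have hmv := (convex_segment w z).norm_image_sub_le_of_norm_hasDerivWithin_le hder hbound
    (left_mem_segment ℝ w z) (right_mem_segment ℝ w z)
  have hφw : φ w = 0 := by simp [hφ]
  rw [hφw, sub_zero] at hmv
  calc ‖g z - g w - deriv g w * (z - w) - G / 2 * (z - w) ^ 2‖ = ‖φ z‖ := rfl
    _ ≤ ‖G‖ / 10 * ‖z - w‖ * ‖z - w‖ := hmv
    _ = ‖G‖ / 10 * ‖z - w‖ ^ 2 := by ring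

/-- a tangent line meets the graph only at the point of tangency -/
theorem tangent_unique (h : Chord g c₀ ρ m k) {r : ℝ} (hrρ : r ≤ ρ) (hA : A1 g c₀ r) {z t : ℂ}
    (hz : z ∈ ball c₀ (2 * r)) (ht : t ∈ ball c₀ (2 * r))
    (e : g z = g t + deriv g t * (z - t)) : z = t := by
  by_contra hne
  have hp : 0 < ‖z - t‖ := norm_pos_iff.2 (sub_ne_zero.2 hne)
  have h1 := A2 h hrρ hA hz ht
  have e1 : g z - g t - deriv g t * (z - t) - deriv (deriv g) c₀ / 2 * (z - t) ^ 2 =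
      -(deriv (deriv g) c₀ / 2 * (z - t) ^ 2) := by rw [e]; ring
  rw [e1, norm_neg, norm_mul, norm_div, norm_pow] at h1
  have hG : 0 < ‖deriv (deriv g) c₀‖ := norm_pos_iff.2 h.g2
  have h2 : ‖(2 : ℂ)‖ = 2 := by simp
  rw [h2] at h1
  have : 0 < ‖deriv (deriv g) c₀‖ * ‖z - t‖ ^ 2 := by positivity
  nlinarith

theorem mem_add {r : ℝ} {p : ℂ × ℂ} (hp : p ∈ ball c₀ r ×ˢ ball (0 : ℂ) r) :
    p.1 + p.2 ∈ ball c₀ (2 * r) ∧ p.1 - p.2 ∈ ball c₀ (2 * r) := by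
  obtain ⟨h1, h2⟩ := hp
  rw [mem_ball_iff_norm] at h1
  rw [mem_ball_zero_iff] at h2
  constructor
  · rw [mem_ball_iff_norm]
    calc ‖p.1 + p.2 - c₀‖ = ‖(p.1 - c₀) + p.2‖ := by ring_nf
      _ ≤ ‖p.1 - c₀‖ + ‖p.2‖ := norm_add_le _ _
      _ < 2 * r := by linarith
  · rw [mem_ball_iff_norm]
    calc ‖p.1 - p.2 - c₀‖ = ‖(p.1 - c₀) - p.2‖ := by ring_nf
      _ ≤ ‖p.1 - c₀‖ + ‖p.2‖ := norm_sub_le _ _
      _ < 2 * r := by linarith

theorem prod_mono {r r' : ℝ} (h : r ≤ r') :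
    ball c₀ r ×ˢ ball (0 : ℂ) r ⊆ ball c₀ r' ×ˢ ball (0 : ℂ) r' :=
  prod_mono_left (ball_subset_ball h) |>.trans (prod_mono_right (ball_subset_ball h))

/-- slopes of the chord and of the tangents at its ends -/
theorem slope (h : Chord g c₀ ρ m k) {r : ℝ} (hrρ : r ≤ ρ) (hA : A1 g c₀ r) {p : ℂ × ℂ}
    (hp : p ∈ ball c₀ r ×ˢ ball (0 : ℂ) r) :
    ‖m p - deriv g (p.1 + p.2) + deriv (deriv g) c₀ * p.2‖ ≤ ‖deriv (deriv g) c₀‖ / 5 * ‖p.2‖ ∧
    ‖m p - deriv g (p.1 - p.2) - deriv (deriv g) c₀ * p.2‖ ≤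
      ‖deriv (deriv g) c₀‖ / 5 * ‖p.2‖ := by
  have hpρ := prod_mono hrρ hp
  obtain ⟨ha, hb⟩ := mem_add hp
  by_cases h0 : p.2 = 0
  · have e : p = (p.1, 0) := by ext <;> simp [h0]
    have hm : m p = deriv g p.1 := by
      rw [e]; exact h.m_c _ hpρ.1
    rw [hm, h0]
    simp
  have hw : 0 < ‖p.2‖ := norm_pos_iff.2 h0
  have i1 := h.inc p hpρ
  have i2 := h.chord p hpρ
  have t1 := A2 h hrρ hA hb ha
  have t2 := A2 h hrρ hA ha hb
  set G := deriv (deriv g) c₀ with hG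
  have n1 : ‖(2 : ℂ) * p.2‖ = 2 * ‖p.2‖ := by simp
  constructor
  · have e1 : g (p.1 - p.2) - g (p.1 + p.2) - deriv g (p.1 + p.2) * (p.1 - p.2 - (p.1 + p.2)) -
        G / 2 * (p.1 - p.2 - (p.1 + p.2)) ^ 2 =
        -(2 * p.2) * (m p - deriv g (p.1 + p.2) + G * p.2) := by
      rw [i1, i2]; ring
    have e2 : p.1 - p.2 - (p.1 + p.2) = -(2 * p.2) := by ring
    rw [e1, e2, norm_mul, norm_neg, n1] at t1
    have : 2 * ‖p.2‖ * ‖m p - deriv g (p.1 + p.2) + G * p.2‖ ≤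
        2 * ‖p.2‖ * (‖G‖ / 5 * ‖p.2‖) := by nlinarith
    exact le_of_mul_le_mul_left this (by positivity)
  · have e1 : g (p.1 + p.2) - g (p.1 - p.2) - deriv g (p.1 - p.2) * (p.1 + p.2 - (p.1 - p.2)) -
        G / 2 * (p.1 + p.2 - (p.1 - p.2)) ^ 2 =
        (2 * p.2) * (m p - deriv g (p.1 - p.2) - G * p.2) := by
      rw [i1, i2]; ring
    have e2 : p.1 + p.2 - (p.1 - p.2) = 2 * p.2 := by ring
    rw [e1, e2, norm_mul, n1] at t2
    have : 2 * ‖p.2‖ * ‖m p - deriv g (p.1 - p.2) - G * p.2‖ ≤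
        2 * ‖p.2‖ * (‖G‖ / 5 * ‖p.2‖) := by nlinarith
    exact le_of_mul_le_mul_left this (by positivity)

theorem slope_ne (h : Chord g c₀ ρ m k) {r : ℝ} (hrρ : r ≤ ρ) (hA : A1 g c₀ r) {p : ℂ × ℂ}
    (hp : p ∈ ball c₀ r ×ˢ ball (0 : ℂ) r) (h0 : p.2 ≠ 0) :
    m p ≠ deriv g (p.1 + p.2) ∧ m p ≠ deriv g (p.1 - p.2) := by
  have hw : 0 < ‖p.2‖ := norm_pos_iff.2 h0
  have hG : 0 < ‖deriv (deriv g) c₀‖ := norm_pos_iff.2 h.g2
  obtain ⟨h1, h2⟩ := slope h hrρ hA hp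
  have : 0 < ‖deriv (deriv g) c₀‖ * ‖p.2‖ := by positivity
  constructor
  · intro e
    rw [e, sub_self, zero_add, norm_mul] at h1
    nlinarith
  · intro e
    rw [e, sub_self, zero_sub, norm_neg, norm_mul] at h2
    nlinarith

/-- the map `p ↦ (m p, k p)` is open at `p`, `ω ≠ 0` -/
theorem map_nhds (h : Chord g c₀ ρ m k) {r : ℝ} (hrρ : r ≤ ρ) (hA : A1 g c₀ r) {p : ℂ × ℂ}
    (hp : p ∈ ball c₀ r ×ˢ ball (0 : ℂ) r) (h0 : p.2 ≠ 0) :
    map (fun x => (m x, k x)) (𝓝 p) = 𝓝 (m p, k p) := by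
  have hpρ := prod_mono hrρ hp
  obtain ⟨ha, hb⟩ := mem_add hp
  have hU : (ball c₀ ρ ×ˢ ball (0 : ℂ) ρ) ∈ 𝓝 p := (isOpen_ball.prod isOpen_ball).mem_nhds hpρ
  set A := fderiv ℂ m p with hAdef
  set B := fderiv ℂ k p with hBdef
  have hmA : HasStrictFDerivAt m A p := (h.an_m p hpρ).hasStrictFDerivAt
  have hkB : HasStrictFDerivAt k B p := (h.an_k p hpρ).hasStrictFDerivAt
  have hga : AnalyticAt ℂ g (p.1 + p.2) := h.g_an _ (ball_subset_ball (by linarith) ha)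
  have hgb : AnalyticAt ℂ g (p.1 - p.2) := h.g_an _ (ball_subset_ball (by linarith) hb)
  have h1 : HasFDerivAt (fun x : ℂ × ℂ => x.1 + x.2)
      (ContinuousLinearMap.fst ℂ ℂ ℂ + ContinuousLinearMap.snd ℂ ℂ ℂ) p :=
    hasFDerivAt_fst.add hasFDerivAt_snd
  have h2 : HasFDerivAt (fun x : ℂ × ℂ => x.1 - x.2)
      (ContinuousLinearMap.fst ℂ ℂ ℂ - ContinuousLinearMap.snd ℂ ℂ ℂ) p :=
    hasFDerivAt_fst.sub hasFDerivAt_snd
  -- differentiate the incidence relations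
  have ea : ∀ v : ℂ × ℂ, deriv g (p.1 + p.2) * (v.1 + v.2) =
      m p * (v.1 + v.2) + (p.1 + p.2) * A v + B v := by
    intro v
    have l1 : HasFDerivAt (fun x : ℂ × ℂ => g (x.1 + x.2)) (deriv g (p.1 + p.2) •
        (ContinuousLinearMap.fst ℂ ℂ ℂ + ContinuousLinearMap.snd ℂ ℂ ℂ)) p :=
      HasDerivAt.comp_hasFDerivAt (h₂ := g) p hga.differentiableAt.hasDerivAt h1
    have l2 : HasFDerivAt (fun x : ℂ × ℂ => m x * (x.1 + x.2) + k x)
        (m p • (ContinuousLinearMap.fst ℂ ℂ ℂ + ContinuousLinearMap.snd ℂ ℂ ℂ) +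
          (p.1 + p.2) • A + B) p := (hmA.hasFDerivAt.mul h1).add hkB.hasFDerivAt
    have l3 : (fun x : ℂ × ℂ => g (x.1 + x.2)) =ᶠ[𝓝 p] fun x => m x * (x.1 + x.2) + k x := by
      filter_upwards [hU] with x hx using h.inc x hx
    have l4 := (l2.congr_of_eventuallyEq l3).unique l1
    have l5 := congrArg (fun T : (ℂ × ℂ) →L[ℂ] ℂ => T v) l4
    simp at l5
    linear_combination -l5
  have eb : ∀ v : ℂ × ℂ, deriv g (p.1 - p.2) * (v.1 - v.2) =
      m p * (v.1 - v.2) + (p.1 - p.2) * A v + B v := by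
    intro v
    have l1 : HasFDerivAt (fun x : ℂ × ℂ => g (x.1 - x.2)) (deriv g (p.1 - p.2) •
        (ContinuousLinearMap.fst ℂ ℂ ℂ - ContinuousLinearMap.snd ℂ ℂ ℂ)) p :=
      HasDerivAt.comp_hasFDerivAt (h₂ := g) p hgb.differentiableAt.hasDerivAt h2
    have l2 : HasFDerivAt (fun x : ℂ × ℂ => m x * (x.1 - x.2) + k x)
        (m p • (ContinuousLinearMap.fst ℂ ℂ ℂ - ContinuousLinearMap.snd ℂ ℂ ℂ) +
          (p.1 - p.2) • A + B) p := (hmA.hasFDerivAt.mul h2).add hkB.hasFDerivAt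
    have l3 : (fun x : ℂ × ℂ => g (x.1 - x.2)) =ᶠ[𝓝 p] fun x => m x * (x.1 - x.2) + k x := by
      filter_upwards [hU] with x hx using h.chord x hx
    have l4 := (l2.congr_of_eventuallyEq l3).unique l1
    have l5 := congrArg (fun T : (ℂ × ℂ) →L[ℂ] ℂ => T v) l4
    simp at l5
    linear_combination -l5
  obtain ⟨n1, n2⟩ := slope_ne h hrρ hA hp h0
  have hs : HasStrictFDerivAt (fun x => (m x, k x)) (A.prod B) p := hmA.prodMk hkB
  refine hs.map_nhds_eq_of_surj ?_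
  rw [LinearMap.range_eq_top]
  rintro ⟨a, b⟩
  have hd1 : deriv g (p.1 + p.2) - m p ≠ 0 := sub_ne_zero.2 n1.symm
  have hd2 : deriv g (p.1 - p.2) - m p ≠ 0 := sub_ne_zero.2 n2.symm
  set s1 := ((p.1 + p.2) * a + b) / (deriv g (p.1 + p.2) - m p) with hs1
  set s2 := ((p.1 - p.2) * a + b) / (deriv g (p.1 - p.2) - m p) with hs2
  refine ⟨((s1 + s2) / 2, (s1 - s2) / 2), ?_⟩
  have f1 := ea ((s1 + s2) / 2, (s1 - s2) / 2)
  have f2 := eb ((s1 + s2) / 2, (s1 - s2) / 2)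
  simp only at f1 f2
  have g1 : (s1 + s2) / 2 + (s1 - s2) / 2 = s1 := by ring
  have g2 : (s1 + s2) / 2 - (s1 - s2) / 2 = s2 := by ring
  rw [g1] at f1
  rw [g2] at f2
  have k1 : (deriv g (p.1 + p.2) - m p) * s1 = (p.1 + p.2) * a + b := by
    rw [hs1]; field_simp
  have k2 : (deriv g (p.1 - p.2) - m p) * s2 = (p.1 - p.2) * a + b := by
    rw [hs2]; field_simp
  set v : ℂ × ℂ := ((s1 + s2) / 2, (s1 - s2) / 2) with hv
  have q1 : (p.1 + p.2) * A v + B v = (p.1 + p.2) * a + b := by linear_combination k1 - f1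
  have q2 : (p.1 - p.2) * A v + B v = (p.1 - p.2) * a + b := by linear_combination k2 - f2
  have q3 : (2 * p.2) * (A v - a) = 0 := by linear_combination q1 - q2
  have q4 : A v = a := by
    rcases mul_eq_zero.1 q3 with h | h
    · exact absurd (by simpa using h) h0
    · exact sub_eq_zero.1 h
  have q5 : B v = b := by rw [q4] at q1; linear_combination q1
  change (A v, B v) = (a, b)
  rw [q4, q5]

end Crest.Agent.R102.Pen926
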