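import Crest.Agent.R102.PenA_926

/-!
# Row 102, [H3], THEOREM (RAT), step 3: the pencil argument (helper926), part B

A line close to the grazing line, through any point `Y`: there is a tangent line of the graph
through `Y` close to it.
-/

set_option autoImplicit false

open Set Filter Topology Metric

noncomputable section

namespace Crest.Agent.R102.Pen926

variable {g : ℂ → ℂ} {c₀ : ℂ} {ρ : ℝ} {m k : ℂ × ℂ → ℂ}

/-- the deviation at the centre of the chord -/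
theorem centre (h : Chord g c₀ ρ m k) {r : ℝ} (hrρ : r ≤ ρ) (hA : A1 g c₀ r) {p : ℂ × ℂ}
    (hp : p ∈ ball c₀ r ×ˢ ball (0 : ℂ) r) :
    ‖g p.1 - m p * p.1 - k p‖ ≤ ‖deriv (deriv g) c₀‖ * (18 / 10 * ‖p.2‖ ^ 2) ∧
    ‖deriv g p.1 - m p‖ ≤ ‖deriv (deriv g) c₀‖ * (23 / 10 * ‖p.2‖) := by
  have hpρ := prod_mono hrρ hp
  obtain ⟨ha, hb⟩ := mem_add hp
  have hr : 0 < r := by
    have := hp.1
    rw [mem_ball] at this
    exact lt_of_le_of_lt dist_nonneg this
  have hc : p.1 ∈ ball c₀ (2 * r) := ball_subset_ball (by linarith) hp.1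
  have s1 := (slope h hrρ hA hp).1
  have t1 := A2 h hrρ hA hc ha
  have t2 := hA p.1 hc (p.1 + p.2) ha
  have i1 := h.inc p hpρ
  set G := deriv (deriv g) c₀ with hG
  have e0 : p.1 - (p.1 + p.2) = -p.2 := by ring
  rw [e0, norm_neg] at t1 t2
  have hs : ‖m p - deriv g (p.1 + p.2)‖ ≤ ‖G‖ * (12 / 10 * ‖p.2‖) := by
    have : m p - deriv g (p.1 + p.2) = (m p - deriv g (p.1 + p.2) + G * p.2) - G * p.2 := by ring
    rw [this]
    refine (norm_sub_le _ _).trans ?_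
    rw [norm_mul]
    nlinarith [norm_nonneg G, norm_nonneg p.2]
  constructor
  · have e1 : g p.1 - m p * p.1 - k p =
        (g p.1 - g (p.1 + p.2) - deriv g (p.1 + p.2) * -p.2 - G / 2 * (-p.2) ^ 2) +
          G / 2 * p.2 ^ 2 + (m p - deriv g (p.1 + p.2)) * p.2 := by
      rw [i1]; ring
    rw [e1]
    refine (norm_add_le _ _).trans ?_
    refine (add_le_add_left (norm_add_le _ _) _).trans ?_
    rw [norm_mul, norm_mul, norm_div, norm_pow]
    have h2 : ‖(2 : ℂ)‖ = 2 := by simp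
    rw [h2]
    nlinarith [norm_nonneg G, norm_nonneg p.2,
      mul_le_mul_of_nonneg_right hs (norm_nonneg p.2)]
  · have e1 : deriv g p.1 - m p = (deriv g p.1 - deriv g (p.1 + p.2) - G * -p.2) - G * p.2 -
        (m p - deriv g (p.1 + p.2)) := by ring
    rw [e1]
    refine (norm_sub_le _ _).trans ?_
    refine (add_le_add_left (norm_sub_le _ _) _).trans ?_
    rw [norm_mul]
    nlinarith [norm_nonneg G, norm_nonneg p.2]

/-- there is a tangent of the graph through the point `(m p * y + k p, y)`, close to the chord -/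
theorem exists_tangent (h : Chord g c₀ ρ m k) {r : ℝ} (hrρ : r ≤ ρ) (hA : A1 g c₀ r) {p : ℂ × ℂ}
    (hp : p ∈ ball c₀ r ×ˢ ball (0 : ℂ) r) (h0 : p.2 ≠ 0) (y : ℂ)
    (hsmall : closedBall p.1 (60 * ‖p.2‖) ⊆ ball c₀ (2 * r)) :
    ∃ t ∈ closedBall p.1 (60 * ‖p.2‖), g t + deriv g t * (y - t) = m p * y + k p := by
  have hw : 0 < ‖p.2‖ := norm_pos_iff.2 h0
  have hG0 : 0 < ‖deriv (deriv g) c₀‖ := norm_pos_iff.2 h.g2
  obtain ⟨c1, c2⟩ := centre h hrρ hA hp
  set G := deriv (deriv g) c₀ with hG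
  set Y := y - p.1 with hY
  set H : ℂ → ℂ := fun t => g t + deriv g t * (y - t) - (m p * y + k p) with hH
  have hcb : p.1 ∈ ball c₀ (2 * r) := hsmall (mem_closedBall_self (by positivity))
  -- size at the centre
  have hHc : ‖H p.1‖ ≤ ‖G‖ * (18 / 10 * ‖p.2‖ ^ 2 + 23 / 10 * ‖p.2‖ * ‖Y‖) := by
    have e : H p.1 = (g p.1 - m p * p.1 - k p) + (deriv g p.1 - m p) * Y := by
      simp only [hH, hY]; ring
    rw [e]
    refine (norm_add_le _ _).trans ?_
    rw [norm_mul]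
    nlinarith [mul_le_mul_of_nonneg_right c2 (norm_nonneg Y)]
  -- lower bound for the increment
  have hlow : ∀ z ∈ ball c₀ (2 * r), ‖G‖ * ‖z - p.1‖ * (‖Y - (z - p.1) / 2‖ -
      (‖z - p.1‖ + ‖Y‖) / 10) ≤ ‖H z - H p.1‖ := by
    intro z hz
    have t1 := A2 h hrρ hA hcb hz
    have t2 := hA z hz p.1 hcb
    set ζ := z - p.1 with hζ
    have e0 : p.1 - z = -ζ := by rw [hζ]; ring
    rw [e0, norm_neg] at t1
    have e : H z - H p.1 = G * ζ * (Y - ζ / 2) -
        (g p.1 - g z - deriv g z * -ζ - G / 2 * (-ζ) ^ 2) +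
        (deriv g z - deriv g p.1 - G * ζ) * Y := by
      simp only [hH, hY, hζ]; ring
    have n1 : ‖(deriv g z - deriv g p.1 - G * ζ) * Y‖ ≤ ‖G‖ / 10 * ‖ζ‖ * ‖Y‖ := by
      rw [norm_mul]; exact mul_le_mul_of_nonneg_right t2 (norm_nonneg _)
    have n2 : ‖G * ζ * (Y - ζ / 2)‖ = ‖G‖ * ‖ζ‖ * ‖Y - ζ / 2‖ := by
      rw [norm_mul, norm_mul]
    have n3 : ‖G * ζ * (Y - ζ / 2)‖ ≤ ‖H z - H p.1‖ +
        ‖g p.1 - g z - deriv g z * -ζ - G / 2 * (-ζ) ^ 2‖ +
        ‖(deriv g z - deriv g p.1 - G * ζ) * Y‖ := by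
      have e2 : G * ζ * (Y - ζ / 2) = (H z - H p.1) +
        (g p.1 - g z - deriv g z * -ζ - G / 2 * (-ζ) ^ 2) -
        (deriv g z - deriv g p.1 - G * ζ) * Y := by rw [e]; ring
      calc ‖G * ζ * (Y - ζ / 2)‖ = ‖(H z - H p.1) +
        (g p.1 - g z - deriv g z * -ζ - G / 2 * (-ζ) ^ 2) -
        (deriv g z - deriv g p.1 - G * ζ) * Y‖ := by rw [← e2]
        _ ≤ _ := (norm_sub_le _ _).trans (add_le_add_left (norm_add_le _ _) _)
    rw [n2] at n3
    nlinarith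
  -- analyticity
  have hHan : AnalyticOnNhd ℂ H (ball c₀ (2 * r)) := by
    intro z hz
    have hg := h.g_an z (ball_subset_ball (by linarith) hz)
    exact (hg.add (hg.deriv.mul (analyticAt_const.sub analyticAt_id))).sub analyticAt_const
  have hfreq : ∃ᶠ z in 𝓝 p.1, H z ≠ H p.1 := by
    by_contra hcon
    rw [not_frequently] at hcon
    push Not at hcon
    have hev : ∀ᶠ z in 𝓝 p.1, z ∈ ball c₀ (2 * r) := isOpen_ball.mem_nhds hcb
    have hsm : ∀ᶠ z in 𝓝[≠] p.1, (Y = 0 ∨ ‖z - p.1‖ < ‖Y‖) := by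
      by_cases hY0 : Y = 0
      · exact Eventually.of_forall fun z => Or.inl hY0
      · have : ∀ᶠ z in 𝓝 p.1, ‖z - p.1‖ < ‖Y‖ := by
          filter_upwards [ball_mem_nhds p.1 (norm_pos_iff.2 hY0)] with z hz
          rwa [mem_ball_iff_norm] at hz
        filter_upwards [this.filter_mono nhdsWithin_le_nhds] with z hz using Or.inr hz
    have hall := ((hcon.filter_mono nhdsWithin_le_nhds).and
      ((hev.filter_mono nhdsWithin_le_nhds).and (hsm.and self_mem_nhdsWithin))).exists (f := 𝓝[≠] p.1)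
    obtain ⟨z, hz1, hz2, hz3, hz4⟩ := hall
    have hz5 : 0 < ‖z - p.1‖ := norm_pos_iff.2 (sub_ne_zero.2 hz4)
    have h1 := hlow z hz2
    rw [hz1, sub_self, norm_zero] at h1
    have h2 : 0 < ‖Y - (z - p.1) / 2‖ - (‖z - p.1‖ + ‖Y‖) / 10 := by
      have n2 : ‖(2 : ℂ)‖ = 2 := by simp
      have n1 : ‖(z - p.1) / 2‖ = ‖z - p.1‖ / 2 := by rw [norm_div, n2]
      rcases hz3 with hz3 | hz3
      · rw [hz3, zero_sub, norm_neg, n1, norm_zero]
        linarith
      · have := norm_sub_norm_le Y ((z - p.1) / 2)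
        rw [n1] at this
        linarith
    have : 0 < ‖G‖ * ‖z - p.1‖ * (‖Y - (z - p.1) / 2‖ - (‖z - p.1‖ + ‖Y‖) / 10) := by positivity
    linarith
  -- common conclusion
  have key : ∀ R : ℝ, 0 < R → R ≤ 60 * ‖p.2‖ → ∀ ε : ℝ,
      (∀ z ∈ sphere p.1 R, ε ≤ ‖H z - H p.1‖) → ‖H p.1‖ < ε / 2 →
      ∃ t ∈ closedBall p.1 (60 * ‖p.2‖), g t + deriv g t * (y - t) = m p * y + k p := by
    intro R hR hR2 ε hε hlt
    have hsub : closedBall p.1 R ⊆ ball c₀ (2 * r) := (closedBall_subset_closedBall hR2).trans hsmall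
    have hd : DiffContOnCl ℂ H (ball p.1 R) := by
      refine DifferentiableOn.diffContOnCl ?_
      rw [closure_ball _ hR.ne']
      exact fun z hz => (hHan z (hsub hz)).differentiableAt.differentiableWithinAt
    have h1 := hd.ball_subset_image_closedBall hR hε hfreq
    have h2 : (0 : ℂ) ∈ ball (H p.1) (ε / 2) := by
      rw [mem_ball, dist_comm, dist_zero_right]; exact hlt
    obtain ⟨t, ht, ht0⟩ := h1 h2
    refine ⟨t, closedBall_subset_closedBall hR2 ht, ?_⟩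
    simp only [hH] at ht0
    exact sub_eq_zero.1 ht0
  have n2 : ‖(2 : ℂ)‖ = 2 := by simp
  by_cases hfar : 20 * ‖p.2‖ ≤ ‖Y‖
  · refine key (10 * ‖p.2‖) (by positivity) (by linarith) (6 * ‖G‖ * ‖p.2‖ * ‖Y‖) ?_ ?_
    · intro z hz
      have hzb : z ∈ ball c₀ (2 * r) := hsmall (by
        rw [mem_sphere] at hz
        rw [mem_closedBall, hz]; linarith)
      refine le_trans ?_ (hlow z hzb)
      rw [mem_sphere_iff_norm] at hz
      have n1 : ‖(z - p.1) / 2‖ = 5 * ‖p.2‖ := by rw [norm_div, n2, hz]; ring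
      have h3 := norm_sub_norm_le Y ((z - p.1) / 2)
      rw [n1] at h3
      rw [hz]
      have h4 : 6 / 10 * ‖Y‖ ≤ ‖Y - (z - p.1) / 2‖ - (10 * ‖p.2‖ + ‖Y‖) / 10 := by linarith
      have h5 : 0 ≤ ‖G‖ * (10 * ‖p.2‖) := by positivity
      nlinarith [mul_le_mul_of_nonneg_left h4 h5]
    · refine lt_of_le_of_lt hHc ?_
      have h6 : 0 < ‖G‖ * ‖p.2‖ := by positivity
      nlinarith
  · push Not at hfar
    refine key (60 * ‖p.2‖) (by positivity) le_rfl (120 * ‖G‖ * ‖p.2‖ ^ 2) ?_ ?_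
    · intro z hz
      have hzb : z ∈ ball c₀ (2 * r) := hsmall (by
        rw [mem_sphere] at hz
        rw [mem_closedBall, hz])
      refine le_trans ?_ (hlow z hzb)
      rw [mem_sphere_iff_norm] at hz
      have n1 : ‖(z - p.1) / 2‖ = 30 * ‖p.2‖ := by rw [norm_div, n2, hz]; ring
      have h3 := norm_sub_norm_le ((z - p.1) / 2) Y
      rw [n1, norm_sub_rev _ Y] at h3
      rw [hz]
      have h4 : 2 * ‖p.2‖ ≤ ‖Y - (z - p.1) / 2‖ - (60 * ‖p.2‖ + ‖Y‖) / 10 := by linarith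
      have h5 : 0 ≤ ‖G‖ * (60 * ‖p.2‖) := by positivity
      nlinarith [mul_le_mul_of_nonneg_left h4 h5]
    · refine lt_of_le_of_lt hHc ?_
      have h6 : 0 < ‖G‖ * ‖p.2‖ := by positivity
      nlinarith

end Crest.Agent.R102.Pen926
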