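import Crest.Agent.R102.PenB_926

/-!
# Row 102, [H3], THEOREM (RAT), step 3: the pencil argument (helper926), part C

`pencil`: the far vertex `Y = (gh y, y)` of a line `l p` close to the grazing line; a relation
`R (u, x) = 0` for the far intersection `u` near `p` is continued along the pencil of the lines
through `Y` to a tangent line of the graph.
-/

set_option autoImplicit false

open Set Filter Topology Metric

noncomputable section

namespace Crest.Agent.R102.Pen926

variable {g : ℂ → ℂ} {c₀ : ℂ} {ρ : ℝ} {m k : ℂ × ℂ → ℂ}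

/-- the far intersection `u` of the lines near `x` with the far mirror `gh` satisfies the relation -/
def Good (m k : ℂ × ℂ → ℂ) (gh : ℂ → ℂ) (y : ℂ) (R : ℂ × (ℂ × ℂ) → ℂ) (x : ℂ × ℂ) : Prop :=
  ∃ u : ℂ × ℂ → ℂ, AnalyticAt ℂ u x ∧ u x = y ∧
    (∀ᶠ z in 𝓝 x, gh (u z) = m z * u z + k z) ∧ ∀ᶠ z in 𝓝 x, R (u z, z) = 0

/-- propagation inside the pencil -/
theorem good_prop (h : Chord g c₀ ρ m k) {gh : ℂ → ℂ} {y : ℂ} (hgh : AnalyticAt ℂ gh y)
    {R : ℂ × (ℂ × ℂ) → ℂ} (hR : AnalyticOnNhd ℂ R (univ ×ˢ (ball c₀ ρ ×ˢ ball (0 : ℂ) ρ)))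
    {x : ℂ × ℂ} (hx : x ∈ ball c₀ ρ ×ˢ ball (0 : ℂ) ρ) (hy : gh y = m x * y + k x)
    (hd : deriv gh y ≠ m x) :
    ∀ᶠ x' in 𝓝 x, gh y = m x' * y + k x' → (Good m k gh y R x' ↔ Good m k gh y R x) := by
  set Φ : (ℂ × ℂ) × ℂ → ℂ := fun q => gh q.2 - m q.1 * q.2 - k q.1 with hΦ
  have hm := h.an_m x hx
  have hk := h.an_k x hx
  have hΦa : AnalyticAt ℂ Φ (x, y) := by
    have a1 : AnalyticAt ℂ (fun q : (ℂ × ℂ) × ℂ => gh q.2) (x, y) :=
      AnalyticAt.fun_comp (g := gh) (by exact hgh) analyticAt_snd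
    have a2 : AnalyticAt ℂ (fun q : (ℂ × ℂ) × ℂ => m q.1) (x, y) :=
      AnalyticAt.fun_comp (g := m) (by exact hm) analyticAt_fst
    have a3 : AnalyticAt ℂ (fun q : (ℂ × ℂ) × ℂ => k q.1) (x, y) :=
      AnalyticAt.fun_comp (g := k) (by exact hk) analyticAt_fst
    exact (a1.sub (a2.mul analyticAt_snd)).sub a3
  have hΦ0 : Φ (x, y) = 0 := by simp only [hΦ]; rw [hy]; ring
  have hΦd : fderiv ℂ Φ (x, y) (0, 1) ≠ 0 := by
    have h1 : HasFDerivAt Φ (fderiv ℂ Φ (x, y)) (x, y) := hΦa.differentiableAt.hasFDerivAt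
    have h2 : HasDerivAt (fun v : ℂ => ((x, v) : (ℂ × ℂ) × ℂ)) ((0 : ℂ × ℂ), (1 : ℂ)) y :=
      (hasDerivAt_const y x).prodMk (hasDerivAt_id y)
    have h3 : HasDerivAt (fun v : ℂ => Φ (x, v)) (fderiv ℂ Φ (x, y) (0, 1)) y :=
      HasFDerivAt.comp_hasDerivAt y h1 h2
    have h4 : HasDerivAt (fun v : ℂ => Φ (x, v)) (deriv gh y - m x * 1) y := by
      have := (hgh.differentiableAt.hasDerivAt.sub ((hasDerivAt_id y).const_mul (m x))).sub_const
        (k x)
      exact this
    rw [h3.unique h4, mul_one]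
    exact sub_ne_zero.2 hd
  obtain ⟨φ, hφa, hφx, hφ0, hφu⟩ := F7389.implicit hΦa hΦ0 hΦd
  -- a ball on which everything is fine
  have hU : ∀ᶠ z in 𝓝 x, z ∈ ball c₀ ρ ×ˢ ball (0 : ℂ) ρ := (isOpen_ball.prod isOpen_ball).mem_nhds hx
  have hev : ∀ᶠ z in 𝓝 x, AnalyticAt ℂ φ z ∧ Φ (z, φ z) = 0 ∧ z ∈ ball c₀ ρ ×ˢ ball (0 : ℂ) ρ :=
    hφa.eventually_analyticAt.and (hφ0.and hU)
  obtain ⟨ε₁, hε₁, hb₁⟩ := Metric.eventually_nhds_iff_ball.1 hev
  obtain ⟨ε₂, hε₂, hb₂⟩ := Metric.eventually_nhds_iff_ball.1 hφu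
  set ε := min ε₁ ε₂ with hε
  have hεp : 0 < ε := lt_min hε₁ hε₂
  have huniq : ∀ z ∈ ball x ε, ∀ v ∈ ball y ε, Φ (z, v) = 0 → v = φ z := by
    intro z hz v hv hzv
    refine hb₂ (z, v) ?_ hzv
    rw [mem_ball, Prod.dist_eq]
    exact max_lt (lt_of_lt_of_le hz (min_le_right _ _)) (lt_of_lt_of_le hv (min_le_right _ _))
  have hgood : ∀ z ∈ ball x ε, AnalyticAt ℂ φ z ∧ Φ (z, φ z) = 0 ∧
      z ∈ ball c₀ ρ ×ˢ ball (0 : ℂ) ρ := fun z hz => hb₁ z (ball_subset_ball (min_le_left _ _) hz)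
  have hF : AnalyticOnNhd ℂ (fun z => R (φ z, z)) (ball x ε) := by
    intro z hz
    obtain ⟨h1, -, h3⟩ := hgood z hz
    exact AnalyticAt.fun_comp (g := R) (hR _ ⟨mem_univ _, h3⟩) (h1.prod analyticAt_id)
  have hpre : IsPreconnected (ball x ε) := (convex_ball x ε).isPreconnected
  -- the statement `R (φ z, z) = 0` on the ball is equivalent to `Good` at any pencil point
  have hiff : ∀ x' ∈ ball x ε, gh y = m x' * y + k x' →
      (Good m k gh y R x' ↔ ∀ z ∈ ball x ε, R (φ z, z) = 0) := by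
    intro x' hx' hyx'
    have hyφ : y = φ x' := huniq x' hx' y (mem_ball_self hεp) (by
      simp only [hΦ]; rw [hyx']; ring)
    constructor
    · rintro ⟨u, hua, hux, hui, hur⟩
      have h1 : ∀ᶠ z in 𝓝 x', u z = φ z := by
        have c1 : ∀ᶠ z in 𝓝 x', z ∈ ball x ε := isOpen_ball.mem_nhds hx'
        have c2 : ∀ᶠ z in 𝓝 x', u z ∈ ball y ε := by
          refine hua.continuousAt.eventually_mem ?_
          rw [hux]; exact ball_mem_nhds y hεp
        filter_upwards [c1, c2, hui] with z z1 z2 z3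
        exact huniq z z1 (u z) z2 (by simp only [hΦ]; rw [z3]; ring)
      have h2 : (fun z => R (φ z, z)) =ᶠ[𝓝 x'] 0 := by
        filter_upwards [h1, hur] with z z1 z2
        rw [z1] at z2
        exact z2
      have h3 := hF.eqOn_zero_of_preconnected_of_eventuallyEq_zero hpre hx' h2
      exact fun z hz => h3 hz
    · intro hz
      refine ⟨φ, (hgood x' hx').1, hyφ.symm, ?_, ?_⟩
      · filter_upwards [isOpen_ball.mem_nhds hx'] with z hz'
        have := (hgood z hz').2.1
        simp only [hΦ] at this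
        linear_combination this
      · filter_upwards [isOpen_ball.mem_nhds hx'] with z hz' using hz z hz'
  filter_upwards [ball_mem_nhds x hεp] with x' hx' hyx'
  rw [hiff x' hx' hyx', hiff x (mem_ball_self hεp) hy]

/-- a disc without a point is connected -/
theorem isPreconnected_ball_diff (a b : ℂ) {D : ℝ} (hD : 0 < D) :
    IsPreconnected (ball a D \ {b}) := by
  by_cases hb : b ∈ ball a D
  · set f := OpenPartialHomeomorph.univBall a D with hf
    have hsrc : f.source = univ := OpenPartialHomeomorph.univBall_source a D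
    have htgt : f.target = ball a D := OpenPartialHomeomorph.univBall_target a hD
    have hc : Continuous f := OpenPartialHomeomorph.continuous_univBall a D
    have h1 : IsPreconnected ({f.symm b}ᶜ : Set ℂ) :=
      (isConnected_compl_singleton_of_one_lt_rank (by
        rw [Complex.rank_real_complex]; exact Nat.one_lt_ofNat) _).isPreconnected
    have h2 : ball a D \ {b} = f '' {f.symm b}ᶜ := by
      ext z
      constructor
      · rintro ⟨hz, hzb⟩
        refine ⟨f.symm z, ?_, f.right_inv (by rw [htgt]; exact hz)⟩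
        intro hcon
        apply hzb
        have := congrArg f (mem_singleton_iff.1 hcon)
        rwa [f.right_inv (by rw [htgt]; exact hz), f.right_inv (by rw [htgt]; exact hb)] at this
      · rintro ⟨w, hw, rfl⟩
        refine ⟨?_, ?_⟩
        · rw [← htgt]; exact f.map_source (by rw [hsrc]; exact mem_univ _)
        · intro hcon
          apply hw
          rw [mem_singleton_iff] at hcon ⊢
          rw [← hcon, f.left_inv (by rw [hsrc]; exact mem_univ _)]
    rw [h2]
    exact h1.image _ hc.continuousOn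
  · rw [diff_singleton_eq_self hb]
    exact isPreconnected_ball

/-- a chord coinciding with the tangent at `t` is the tangent at `t` -/
theorem eq_of_tangent (h : Chord g c₀ ρ m k) {r : ℝ} (hrρ : r ≤ ρ) (hA : A1 g c₀ r)
    {x : ℂ × ℂ} (hx : x ∈ ball c₀ r ×ˢ ball (0 : ℂ) r) {t : ℂ} (ht : t ∈ ball c₀ (2 * r))
    (e1 : m x = deriv g t) (e2 : k x = g t - t * deriv g t) : x = (t, 0) := by
  have hxρ := prod_mono hrρ hx
  obtain ⟨ha, hb⟩ := mem_add hx
  have i1 := h.inc x hxρ
  have i2 := h.chord x hxρ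
  have t1 : x.1 + x.2 = t := tangent_unique h hrρ hA ha ht (by rw [i1, e1, e2]; ring)
  have t2 : x.1 - x.2 = t := tangent_unique h hrρ hA hb ht (by rw [i2, e1, e2]; ring)
  ext
  · simp only
    linear_combination (t1 + t2) / 2
  · simp only
    linear_combination (t1 - t2) / 2

end Crest.Agent.R102.Pen926
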