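import Crest.Agent.R102.PenC_926

/-!
# Row 102, [H3], THEOREM (RAT), step 3: **the pencil theorem** (helper926)
-/

set_option autoImplicit false

open Set Filter Topology Metric

noncomputable section

namespace Crest.Agent.R102.Pen926

variable {g : ℂ → ℂ} {c₀ : ℂ} {ρ : ℝ} {m k : ℂ × ℂ → ℂ}

theorem Chord.k_c (h : Chord g c₀ ρ m k) {c : ℂ} (hc : c ∈ ball c₀ ρ) :
    k (c, 0) = g c - c * deriv g c := by
  have := h.inc (c, 0) ⟨hc, mem_ball_self h.ρ_pos⟩
  simp only [add_zero] at this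
  rw [h.m_c c hc] at this
  linear_combination -this

/-- properness -/
theorem proper (h : Chord g c₀ ρ m k) {r s : ℝ} (hrρ : r ≤ ρ) (hA : A1 g c₀ r) (hs : 0 < s)
    (hsr : s < r) : ∃ η > 0, ∀ x ∈ closedBall c₀ s ×ˢ closedBall (0 : ℂ) s,
      dist (m x, k x) (m (c₀, 0), k (c₀, 0)) < η → x ∈ ball c₀ s ×ˢ ball (0 : ℂ) s := by
  set K : Set (ℂ × ℂ) := (closedBall c₀ s ×ˢ closedBall (0 : ℂ) s) \ (ball c₀ s ×ˢ ball (0 : ℂ) s)
    with hK
  have hKc : IsCompact K :=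
    ((isCompact_closedBall c₀ s).prod (isCompact_closedBall (0 : ℂ) s)).diff
      (isOpen_ball.prod isOpen_ball)
  have hsub : ∀ x ∈ closedBall c₀ s ×ˢ closedBall (0 : ℂ) s, x ∈ ball c₀ r ×ˢ ball (0 : ℂ) r :=
    fun x hx => ⟨closedBall_subset_ball hsr hx.1, closedBall_subset_ball hsr hx.2⟩
  have hc₀ : c₀ ∈ ball c₀ ρ := mem_ball_self h.ρ_pos
  have hr : 0 < r := hs.trans hsr
  have hcont : ContinuousOn (fun x => dist (m x, k x) (m (c₀, 0), k (c₀, 0))) K := by
    intro x hx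
    have hxρ := prod_mono hrρ (hsub x hx.1)
    have hca : ContinuousAt (fun x => dist (m x, k x) (m (c₀, 0), k (c₀, 0))) x :=
      ((h.an_m x hxρ).continuousAt.prodMk (h.an_k x hxρ).continuousAt).dist continuousAt_const
    exact hca.continuousWithinAt
  rcases K.eq_empty_or_nonempty with hE | hne
  · refine ⟨1, one_pos, fun x hx _ => ?_⟩
    by_contra hcon
    have : x ∈ K := ⟨hx, hcon⟩
    rw [hE] at this
    exact this
  · obtain ⟨x₀, hx₀, hmin⟩ := hKc.exists_isMinOn hne hcont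
    refine ⟨dist (m x₀, k x₀) (m (c₀, 0), k (c₀, 0)), ?_, ?_⟩
    · rcases (dist_nonneg (x := (m x₀, k x₀)) (y := (m (c₀, 0), k (c₀, 0)))).lt_or_eq with h1 | h1
      · exact h1
      · exfalso
        have h2 := dist_eq_zero.1 h1.symm
        rw [Prod.mk.injEq] at h2
        have h3 := eq_of_tangent h hrρ hA (hsub x₀ hx₀.1) (t := c₀) (mem_ball_self (by linarith))
          (by rw [h2.1]; exact h.m_c c₀ hc₀) (by rw [h2.2]; exact h.k_c hc₀)
        apply hx₀.2
        rw [h3]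
        exact ⟨mem_ball_self hs, mem_ball_self hs⟩
    · intro x hx hlt
      by_contra hcon
      exact absurd (hmin ⟨hx, hcon⟩) (not_le.2 hlt)

/-- **PENCIL** -/
theorem pencil (h : Chord g c₀ ρ m k) : ∃ δ > 0, ∃ ρ' > 0, δ ≤ ρ' ∧ ρ' < ρ ∧
    ∀ p ∈ ball c₀ δ ×ˢ ball (0 : ℂ) δ, p.2 ≠ 0 → ∀ (gh : ℂ → ℂ) (y : ℂ), AnalyticAt ℂ gh y →
    gh y = m p * y + k p → deriv gh y ≠ m p → (y ∈ ball c₀ ρ → g y ≠ gh y) →
    (∀ t ∈ closedBall c₀ ρ', deriv g t = deriv gh y → g t + deriv g t * (y - t) ≠ gh y) →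
    ∀ R : ℂ × (ℂ × ℂ) → ℂ, AnalyticOnNhd ℂ R (univ ×ˢ (ball c₀ ρ ×ˢ ball (0 : ℂ) ρ)) →
    Good m k gh y R p →
    ∃ t ∈ ball c₀ ρ', t ≠ y ∧ gh y = g t + deriv g t * (y - t) ∧ deriv gh y ≠ deriv g t ∧
      Good m k gh y R (t, 0) := by
  obtain ⟨r, hr, hrρ, hA⟩ := exists_A1 h
  set G := deriv (deriv g) c₀ with hG
  have hG0 : 0 < ‖G‖ := norm_pos_iff.2 h.g2
  set s := r / 2 with hs
  have hsp : 0 < s := by positivity
  have hsr : s < r := by rw [hs]; linarith
  obtain ⟨η, hη, hprop⟩ := proper h hrρ hA hsp hsr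
  have hc₀ : c₀ ∈ ball c₀ ρ := mem_ball_self h.ρ_pos
  -- continuity
  have hU₀ : ((c₀, 0) : ℂ × ℂ) ∈ ball c₀ ρ ×ˢ ball (0 : ℂ) ρ := ⟨hc₀, mem_ball_self h.ρ_pos⟩
  have hcont1 : ∀ᶠ x in 𝓝 ((c₀, 0) : ℂ × ℂ),
      dist (m x, k x) (m (c₀, 0), k (c₀, 0)) < η / 4 := by
    have : ContinuousAt (fun x => (m x, k x)) (c₀, 0) :=
      (h.an_m _ hU₀).continuousAt.prodMk (h.an_k _ hU₀).continuousAt
    exact this.eventually (ball_mem_nhds _ (by positivity))
  have hcont2 : ∀ᶠ t in 𝓝 c₀, dist (deriv g t, g t - t * deriv g t) (m (c₀, 0), k (c₀, 0)) <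
      η / 4 := by
    have hg := h.g_an c₀ (mem_ball_self (by linarith [h.ρ_pos]))
    have : ContinuousAt (fun t => (deriv g t, g t - t * deriv g t)) c₀ :=
      hg.deriv.continuousAt.prodMk (hg.continuousAt.sub
        (continuousAt_id.mul hg.deriv.continuousAt))
    have e : (fun t => (deriv g t, g t - t * deriv g t)) c₀ = (m (c₀, 0), k (c₀, 0)) := by
      simp only
      rw [h.m_c c₀ hc₀, h.k_c hc₀]
    rw [← e]
    exact this.eventually (ball_mem_nhds _ (by positivity))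
  obtain ⟨δ₁, hδ₁, hb₁⟩ := Metric.eventually_nhds_iff_ball.1 hcont1
  obtain ⟨δ₂, hδ₂, hb₂⟩ := Metric.eventually_nhds_iff_ball.1 hcont2
  set δ := min δ₁ (min (δ₂ / 100) (s / 100)) with hδ
  have hδp : 0 < δ := lt_min hδ₁ (lt_min (by positivity) (by positivity))
  have hδ1 : δ ≤ δ₁ := min_le_left _ _
  have hδ2 : 100 * δ ≤ δ₂ := by
    have : δ ≤ δ₂ / 100 := (min_le_right _ _).trans (min_le_left _ _)
    linarith
  have hδ3 : 100 * δ ≤ s := by
    have : δ ≤ s / 100 := (min_le_right _ _).trans (min_le_right _ _)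
    linarith
  refine ⟨δ, hδp, s, hsp, by linarith, by linarith, ?_⟩
  intro p hp hp0 gh y hgh hy hd hng hnt R hR hgood
  have hw : 0 < ‖p.2‖ := norm_pos_iff.2 hp0
  have hp1 : ‖p.1 - c₀‖ < δ := mem_ball_iff_norm.1 hp.1
  have hp2 : ‖p.2‖ < δ := by simpa using hp.2
  have hpr : p ∈ ball c₀ r ×ˢ ball (0 : ℂ) r := prod_mono (by linarith) hp
  have hps : p ∈ ball c₀ s ×ˢ ball (0 : ℂ) s := prod_mono (by linarith) hp
  have hlp : dist (m p, k p) (m (c₀, 0), k (c₀, 0)) < η / 4 := hb₁ p (by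
    rw [mem_ball, Prod.dist_eq]
    exact max_lt (lt_of_lt_of_le hp.1 hδ1) (lt_of_lt_of_le hp.2 hδ1))
  obtain ⟨-, ce2⟩ := centre h hrρ hA hpr
  have hcp : p.1 ∈ ball c₀ (2 * r) := ball_subset_ball (by linarith) hpr.1
  -- a tangent through `Y`
  have hsmall : closedBall p.1 (60 * ‖p.2‖) ⊆ ball c₀ (2 * r) := by
    intro z hz
    rw [mem_closedBall_iff_norm] at hz
    rw [mem_ball_iff_norm]
    calc ‖z - c₀‖ = ‖(z - p.1) + (p.1 - c₀)‖ := by ring_nf
      _ ≤ ‖z - p.1‖ + ‖p.1 - c₀‖ := norm_add_le _ _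
      _ < 2 * r := by linarith
  obtain ⟨t₀, ht₀, ht₀e⟩ := exists_tangent h hrρ hA hpr hp0 y hsmall
  have ht₀r := hsmall ht₀
  -- the nearest one
  set T : Set ℂ := {t ∈ closedBall c₀ s | g t + deriv g t * (y - t) = m p * y + k p} with hT
  have hcs : closedBall c₀ s ⊆ ball c₀ (2 * ρ) := closedBall_subset_ball (by linarith)
  have hgc : ContinuousOn g (closedBall c₀ s) := fun t ht =>
    (h.g_an t (hcs ht)).continuousAt.continuousWithinAt
  have hgc' : ContinuousOn (deriv g) (closedBall c₀ s) := fun t ht =>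
    (h.g_an t (hcs ht)).deriv.continuousAt.continuousWithinAt
  have hTc : IsCompact T := by
    have hcl : IsClosed T := by
      have : T = closedBall c₀ s ∩ (fun t => g t + deriv g t * (y - t)) ⁻¹' {m p * y + k p} := by
        ext t; simp [hT]
      rw [this]
      exact ContinuousOn.preimage_isClosed_of_isClosed
        (hgc.add (hgc'.mul (continuousOn_const.sub continuousOn_id))) isClosed_closedBall
        isClosed_singleton
    exact (isCompact_closedBall c₀ s).of_isClosed_subset hcl fun t ht => ht.1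
  have ht₀n : ‖t₀ - p.1‖ ≤ 60 * ‖p.2‖ := mem_closedBall_iff_norm.1 ht₀
  have ht₀T : t₀ ∈ T := by
    refine ⟨?_, ht₀e⟩
    rw [mem_closedBall_iff_norm]
    calc ‖t₀ - c₀‖ = ‖(t₀ - p.1) + (p.1 - c₀)‖ := by ring_nf
      _ ≤ ‖t₀ - p.1‖ + ‖p.1 - c₀‖ := norm_add_le _ _
      _ ≤ s := by linarith
  obtain ⟨t, htT, htmin⟩ := hTc.exists_isMinOn ⟨t₀, ht₀T⟩
    (f := fun t => ‖deriv g t - m p‖)
    (((hgc'.mono fun t ht => ht.1).sub continuousOn_const).norm)
  set D := ‖deriv g t - m p‖ with hD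
  have htr : t ∈ ball c₀ (2 * r) := closedBall_subset_ball (by linarith) htT.1
  have htρ : t ∈ ball c₀ ρ := closedBall_subset_ball (by linarith) htT.1
  have hDle : D ≤ ‖G‖ * (69 * ‖p.2‖) := by
    refine (htmin ht₀T).trans ?_
    have a1 := hA t₀ ht₀r p.1 hcp
    have e : deriv g t₀ - m p = (deriv g t₀ - deriv g p.1 - G * (t₀ - p.1)) + G * (t₀ - p.1) +
        (deriv g p.1 - m p) := by ring
    simp only
    rw [e]
    refine (norm_add₃_le).trans ?_
    rw [norm_mul]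
    nlinarith [mul_le_mul_of_nonneg_left ht₀n hG0.le]
  have htn : ‖t - p.1‖ ≤ 80 * ‖p.2‖ := by
    have a1 := hA t htr p.1 hcp
    have e : G * (t - p.1) = (deriv g t - m p) - (deriv g p.1 - m p) -
        (deriv g t - deriv g p.1 - G * (t - p.1)) := by ring
    have a2 : ‖G‖ * ‖t - p.1‖ ≤ D + ‖deriv g p.1 - m p‖ + ‖G‖ / 10 * ‖t - p.1‖ := by
      rw [← norm_mul, e]
      refine (norm_sub_le _ _).trans ?_
      exact add_le_add ((norm_sub_le _ _)) a1
    have a3 : ‖G‖ * (9 / 10 * ‖t - p.1‖) ≤ ‖G‖ * (72 * ‖p.2‖) := by nlinarith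
    have a4 := le_of_mul_le_mul_left a3 hG0
    linarith
  have htc : ‖t - c₀‖ < 81 * δ := by
    calc ‖t - c₀‖ = ‖(t - p.1) + (p.1 - c₀)‖ := by ring_nf
      _ ≤ ‖t - p.1‖ + ‖p.1 - c₀‖ := norm_add_le _ _
      _ < 81 * δ := by linarith
  have hts : t ∈ ball c₀ s := by
    rw [mem_ball_iff_norm]; linarith
  have hlt : dist (deriv g t, g t - t * deriv g t) (m (c₀, 0), k (c₀, 0)) < η / 4 := hb₂ t (by
    rw [mem_ball_iff_norm]; linarith)
  -- the lines of the pencil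
  have hTe : ∀ t ∈ T, g t + deriv g t * (y - t) = m p * y + k p := fun t ht => ht.2
  have hTi : ∀ t ∈ closedBall c₀ s, g t + deriv g t * (y - t) = m p * y + k p → t ∈ T :=
    fun t ht1 ht2 => ⟨ht1, ht2⟩
  set a := m p * y + k p with ha
  set Lx : ℂ → ℂ × ℂ := fun μ => (μ, a - μ * y) with hLx
  have hLp : Lx (m p) = (m p, k p) := by simp only [hLx, ha]; ring_nf
  have hLt : Lx (deriv g t) = (deriv g t, g t - t * deriv g t) := by
    have := hTe t htT
    simp only [hLx]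
    rw [← this]
    ring_nf
  have hDpos : 0 < D := by
    rw [hD, norm_pos_iff, sub_ne_zero]
    intro hcon
    have h1 : (m p, k p) = (deriv g t, g t - t * deriv g t) := by rw [← hLp, ← hLt, hcon]
    rw [Prod.mk.injEq] at h1
    have := eq_of_tangent h hrρ hA hpr htr h1.1 h1.2
    exact hp0 (by rw [this])
  have hDy : D * ‖y‖ < η / 2 := by
    have e : (deriv g t - m p) * y = k p - (g t - t * deriv g t) := by
      have := hTe t htT
      rw [ha] at this
      linear_combination this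
    have e1 : D * ‖y‖ = ‖k p - (g t - t * deriv g t)‖ := by rw [hD, ← norm_mul, e]
    rw [e1, ← dist_eq_norm]
    have a1 : dist (k p) (k (c₀, 0)) < η / 4 :=
      lt_of_le_of_lt (le_max_right _ _) (by rwa [Prod.dist_eq] at hlp)
    have a2 : dist (g t - t * deriv g t) (k (c₀, 0)) < η / 4 :=
      lt_of_le_of_lt (le_max_right _ _) (by rwa [Prod.dist_eq] at hlt)
    calc dist (k p) (g t - t * deriv g t) ≤ dist (k p) (k (c₀, 0)) +
          dist (k (c₀, 0)) (g t - t * deriv g t) := dist_triangle _ _ _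
      _ < η / 2 := by rw [dist_comm (k (c₀, 0))]; linarith
  have hDη : D < η / 2 := by
    have a1 : dist (m p) (m (c₀, 0)) < η / 4 :=
      lt_of_le_of_lt (le_max_left _ _) (by rwa [Prod.dist_eq] at hlp)
    have a2 : dist (deriv g t) (m (c₀, 0)) < η / 4 :=
      lt_of_le_of_lt (le_max_left _ _) (by rwa [Prod.dist_eq] at hlt)
    rw [hD, ← dist_eq_norm]
    calc dist (deriv g t) (m p) ≤ dist (deriv g t) (m (c₀, 0)) +
          dist (m (c₀, 0)) (m p) := dist_triangle _ _ _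
      _ < η / 2 := by rw [dist_comm (m (c₀, 0))]; linarith
  have hLdist : ∀ μ ∈ closedBall (m p) D, dist (Lx μ) (m (c₀, 0), k (c₀, 0)) < η := by
    intro μ hμ
    have hμn : ‖μ - m p‖ ≤ D := mem_closedBall_iff_norm.1 hμ
    have h1 : dist (Lx μ) (Lx (m p)) < η / 2 := by
      rw [Prod.dist_eq]
      refine max_lt ?_ ?_
      · simp only [hLx]
        rw [dist_eq_norm]; linarith
      · simp only [hLx]
        rw [dist_eq_norm]
        have e : a - μ * y - (a - m p * y) = -((μ - m p) * y) := by ring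
        rw [e, norm_neg, norm_mul]
        exact lt_of_le_of_lt (mul_le_mul_of_nonneg_right hμn (norm_nonneg _)) hDy
    rw [hLp] at h1
    have := dist_triangle (Lx μ) (m p, k p) (m (c₀, 0), k (c₀, 0))
    linarith
  set P : Set (ℂ × ℂ) := closedBall c₀ s ×ˢ closedBall (0 : ℂ) s with hP
  have hPr : ∀ x ∈ P, x ∈ ball c₀ r ×ˢ ball (0 : ℂ) r :=
    fun x hx => ⟨closedBall_subset_ball hsr hx.1, closedBall_subset_ball hsr hx.2⟩
  have hPc : IsCompact P := (isCompact_closedBall c₀ s).prod (isCompact_closedBall (0 : ℂ) s)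
  have hint : ∀ μ ∈ closedBall (m p) D, ∀ x ∈ P, (m x, k x) = Lx μ →
      x ∈ ball c₀ s ×ˢ ball (0 : ℂ) s := by
    intro μ hμ x hx hxe
    exact hprop x hx (by rw [hxe]; exact hLdist μ hμ)
  -- points of the pencil
  have honp : ∀ μ : ℂ, ∀ x : ℂ × ℂ, (m x, k x) = Lx μ → gh y = m x * y + k x ∧ m x = μ := by
    intro μ x hxe
    simp only [hLx, Prod.mk.injEq] at hxe
    refine ⟨?_, hxe.1⟩
    rw [hy, hxe.1, hxe.2]
    ring
  have hgp : ∀ μ ≠ deriv gh y, ∀ x ∈ P, (m x, k x) = Lx μ →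
      ∀ᶠ x' in 𝓝 x, gh y = m x' * y + k x' → (Good m k gh y R x' ↔ Good m k gh y R x) := by
    intro μ hμ x hx hxe
    obtain ⟨h1, h2⟩ := honp μ x hxe
    exact good_prop h hgh hR (prod_mono hrρ (hPr x hx)) h1 (by rw [h2]; exact hμ.symm)
  set μT := deriv gh y with hμT
  set S := ball (m p) D \ {μT} with hS
  set u : Set ℂ := {μ | μ ∈ S ∧ ∃ x ∈ P, (m x, k x) = Lx μ ∧ Good m k gh y R x} with hu
  have hLc : Continuous Lx := by
    simp only [hLx]
    fun_prop
  -- closedness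
  have hclosed : ∀ μ ∈ closedBall (m p) D, μ ≠ μT → μ ∈ closure u →
      ∃ x ∈ P, (m x, k x) = Lx μ ∧ Good m k gh y R x := by
    intro μ hμ hμT' hμu
    obtain ⟨μs, hμs, hlim⟩ := mem_closure_iff_seq_limit.1 hμu
    choose xs hxsP hxse hxsg using fun n => (hμs n).2
    obtain ⟨x, hxP, φ, hφ, hxlim⟩ := hPc.tendsto_subseq hxsP
    have hxρ := prod_mono hrρ (hPr x hxP)
    have hcx : ContinuousAt (fun x => (m x, k x)) x :=
      (h.an_m _ hxρ).continuousAt.prodMk (h.an_k _ hxρ).continuousAt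
    have hxe : (m x, k x) = Lx μ := by
      have l1 : Tendsto (fun n => (m (xs (φ n)), k (xs (φ n)))) atTop (𝓝 (m x, k x)) :=
        hcx.tendsto.comp hxlim
      have l2 : Tendsto (fun n => Lx (μs (φ n))) atTop (𝓝 (Lx μ)) :=
        (hLc.tendsto μ).comp (hlim.comp hφ.tendsto_atTop)
      have l3 : (fun n => (m (xs (φ n)), k (xs (φ n)))) = fun n => Lx (μs (φ n)) := by
        funext n; exact hxse (φ n)
      rw [l3] at l1
      exact tendsto_nhds_unique l1 l2
    refine ⟨x, hxP, hxe, ?_⟩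
    obtain ⟨n, hn⟩ := (hxlim.eventually (hgp μ hμT' x hxP hxe)).exists
    exact (hn (honp (μs (φ n)) _ (hxse (φ n))).1).1 (hxsg (φ n))
  -- openness
  have hopen : IsOpen u := by
    rw [isOpen_iff_mem_nhds]
    rintro μ ⟨hμS, x, hxP, hxe, hxg⟩
    have hμD : μ ∈ closedBall (m p) D := ball_subset_closedBall hμS.1
    have hxs := hint μ hμD x hxP hxe
    have hx0 : x.2 ≠ 0 := by
      intro hx0
      have e : x = (x.1, 0) := by ext <;> simp [hx0]
      have hx1 : x.1 ∈ ball c₀ ρ := ball_subset_ball (by linarith) hxs.1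
      obtain ⟨h1, h2⟩ := honp μ x hxe
      rw [hy] at h1
      have h3 : m x = deriv g x.1 := by rw [e]; exact h.m_c _ hx1
      have h4 : k x = g x.1 - x.1 * deriv g x.1 := by rw [e]; exact h.k_c hx1
      have h5 : x.1 ∈ T := by
        refine hTi x.1 hxP.1 ?_
        rw [h1, h3, h4]; ring
      have h6 : ‖deriv g t - m p‖ ≤ ‖deriv g x.1 - m p‖ := htmin h5
      rw [← h3, h2] at h6
      have h7 := hμS.1
      rw [mem_ball_iff_norm] at h7
      exact absurd h6 (not_le.2 h7)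
    have hxr := hPr x hxP
    have hN : {x' | x' ∈ ball c₀ s ×ˢ ball (0 : ℂ) s ∧
        (gh y = m x' * y + k x' → (Good m k gh y R x' ↔ Good m k gh y R x))} ∈ 𝓝 x :=
      Filter.inter_mem ((isOpen_ball.prod isOpen_ball).mem_nhds hxs)
        (hgp μ hμS.2 x hxP hxe)
    have hmap : (fun x => (m x, k x)) '' {x' | x' ∈ ball c₀ s ×ˢ ball (0 : ℂ) s ∧
        (gh y = m x' * y + k x' → (Good m k gh y R x' ↔ Good m k gh y R x))} ∈ 𝓝 (Lx μ) := by
      rw [← hxe, ← map_nhds h hrρ hA hxr hx0]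
      exact image_mem_map hN
    have hSn : S ∈ 𝓝 μ := (isOpen_ball.sdiff isClosed_singleton).mem_nhds hμS
    filter_upwards [hSn, hLc.continuousAt.preimage_mem_nhds hmap] with μ' h1 h2
    obtain ⟨x', ⟨hx'1, hx'2⟩, hx'e⟩ := h2
    have hx'e' : (m x', k x') = Lx μ' := hx'e
    refine ⟨h1, x', ⟨ball_subset_closedBall hx'1.1, ball_subset_closedBall hx'1.2⟩, hx'e', ?_⟩
    exact (hx'2 (honp μ' x' hx'e').1).2 hxg
  -- all slopes
  have hSp : IsPreconnected S := isPreconnected_ball_diff _ _ hDpos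
  have hmS : m p ∈ S := ⟨mem_ball_self hDpos, fun hcon => hd (mem_singleton_iff.1 hcon).symm⟩
  have hmu : m p ∈ u := ⟨hmS, p, ⟨ball_subset_closedBall hps.1, ball_subset_closedBall hps.2⟩,
    hLp.symm, hgood⟩
  have hSu : S ⊆ u := hSp.subset_of_closure_inter_subset hopen ⟨m p, hmS, hmu⟩ (by
    rintro μ ⟨hμ1, hμ2⟩
    exact ⟨hμ2, hclosed μ (ball_subset_closedBall hμ2.1) hμ2.2 hμ1⟩)
  -- the tangent
  have hμt : deriv g t ≠ μT := by
    intro hcon
    exact hnt t htT.1 hcon (by rw [hy]; exact hTe t htT)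
  have hμtD : deriv g t ∈ closedBall (m p) D := by
    rw [mem_closedBall_iff_norm]
  have hμtc : deriv g t ∈ closure u := by
    refine closure_mono hSu ?_
    have h1 : deriv g t ∈ closure (ball (m p) D) := by
      rw [closure_ball _ hDpos.ne']; exact hμtD
    rw [mem_closure_iff_nhds] at h1 ⊢
    intro W hW
    have h2 : W ∩ {μT}ᶜ ∈ 𝓝 (deriv g t) :=
      Filter.inter_mem hW (isOpen_compl_singleton.mem_nhds hμt)
    obtain ⟨z, ⟨hz1, hz2⟩, hz3⟩ := h1 _ h2
    exact ⟨z, hz1, hz3, hz2⟩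
  obtain ⟨x, hxP, hxe, hxg⟩ := hclosed _ hμtD hμt hμtc
  have hxt : x = (t, 0) := by
    rw [hLt, Prod.mk.injEq] at hxe
    exact eq_of_tangent h hrρ hA (hPr x hxP) htr hxe.1 hxe.2
  refine ⟨t, hts, ?_, ?_, hμt.symm, hxt ▸ hxg⟩
  · intro hty
    apply hng (hty ▸ htρ)
    have := hTe t htT
    rw [hty, sub_self, mul_zero, add_zero] at this
    rw [this, hy]
  · rw [hy]; exact (hTe t htT).symm

end Crest.Agent.R102.Pen926
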