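import Crest.Agent.R266.SCV

/-!
Row 102, T1-B (b1) (helper712): a holomorphic function on one side of a strictly pseudoconvex
hypersurface (seen from the concave side) extends across it: Hartogs figure + Cauchy integral.
-/

set_option autoImplicit false
set_option linter.unusedSectionVars false
set_option linter.unusedVariables false

open Set Filter Topology Metric Complex MeasureTheory
open scoped Real

noncomputable section

namespace Crest.Agent.R102.PenH712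

/-- the Cauchy integral in the second variable -/
def cau (F : ℂ × ℂ → ℂ) (ρ : ℝ) (p : ℂ × ℂ) : ℂ :=
  (2 * π * I : ℂ)⁻¹ • ∮ z in C(0, ρ), (z - p.2)⁻¹ • F (p.1, z)

theorem norm_cm {ρ : ℝ} (hρ : 0 < ρ) (θ : ℝ) : ‖circleMap 0 ρ θ‖ = ρ := by
  simp [circleMap, abs_of_pos hρ]

theorem cau_analytic {F : ℂ × ℂ → ℂ} {D : Set (ℂ × ℂ)} (hD : IsOpen D)
    (hF : AnalyticOnNhd ℂ F D) {A : Set ℂ} (hA : IsOpen A) {ρ : ℝ} (hρ : 0 < ρ)
    (hsub : ∀ x ∈ A, ∀ z : ℂ, ‖z‖ = ρ → (x, z) ∈ D) :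
    AnalyticOnNhd ℂ (cau F ρ) (A ×ˢ ball (0 : ℂ) ρ) := by
  have hU : IsOpen (A ×ˢ ball (0 : ℂ) ρ) := hA.prod isOpen_ball
  have hne : ∀ (p : ℂ × ℂ), p ∈ A ×ˢ ball (0 : ℂ) ρ → ∀ θ : ℝ, circleMap 0 ρ θ - p.2 ≠ 0 := by
    intro p hp θ h0
    have h1 : p.2 = circleMap 0 ρ θ := (sub_eq_zero.1 h0).symm
    have h2 : ‖p.2‖ < ρ := by simpa using hp.2
    rw [h1, norm_cm hρ θ] at h2
    exact lt_irrefl _ h2
  have key : AnalyticOnNhd ℂ (fun x : ℂ × ℂ => ∫ θ in (0:ℝ)..(2 * π),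
      (fun q : (ℂ × ℂ) × ℝ => deriv (circleMap 0 ρ) q.2 •
        ((circleMap 0 ρ q.2 - q.1.2)⁻¹ • F (q.1.1, circleMap 0 ρ q.2))) (x, θ))
      (A ×ˢ ball (0 : ℂ) ρ) := by
    refine Crest.Agent.R266.SCV.analyticOnNhd_intervalIntegral (E := ℂ × ℂ) (F := ℂ)
      (f := fun q : (ℂ × ℂ) × ℝ => deriv (circleMap 0 ρ) q.2 •
        ((circleMap 0 ρ q.2 - q.1.2)⁻¹ • F (q.1.1, circleMap 0 ρ q.2)))
      (a := 0) (b := 2 * π) hU ?_ ?_
    · have h1 : Continuous (fun q : (ℂ × ℂ) × ℝ => deriv (circleMap 0 ρ) q.2) := by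
        have h2 : (fun q : (ℂ × ℂ) × ℝ => deriv (circleMap 0 ρ) q.2) =
            fun q => circleMap 0 ρ q.2 * I := by
          funext q
          rw [deriv_circleMap]
        rw [h2]
        have h3 : Continuous (circleMap 0 ρ) := continuous_circleMap 0 ρ
        fun_prop
      refine h1.continuousOn.fun_smul (ContinuousOn.fun_smul ?_ ?_)
      · refine ContinuousOn.fun_inv₀ ?_ ?_
        · have h3 : Continuous (circleMap 0 ρ) := continuous_circleMap 0 ρ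
          fun_prop
        · rintro ⟨p, θ⟩ ⟨hp, -⟩
          exact hne p hp θ
      · refine (hF.continuousOn).comp ?_ ?_
        · have h3 : Continuous (circleMap 0 ρ) := continuous_circleMap 0 ρ
          fun_prop
        · rintro ⟨p, θ⟩ ⟨hp, -⟩
          exact hsub p.1 hp.1 _ (norm_cm hρ θ)
    · intro θ _ p hp
      refine DifferentiableAt.differentiableWithinAt ?_
      change DifferentiableAt ℂ (fun x : ℂ × ℂ => deriv (circleMap 0 ρ) θ •
        ((circleMap 0 ρ θ - x.2)⁻¹ • F (x.1, circleMap 0 ρ θ))) p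
      refine DifferentiableAt.fun_smul (differentiableAt_const _)
        (DifferentiableAt.fun_smul ?_ ?_)
      · refine DifferentiableAt.fun_inv (by fun_prop) (hne p hp θ)
      · have h1 : DifferentiableAt ℂ F (p.1, circleMap 0 ρ θ) :=
          (hF _ (hsub p.1 hp.1 _ (norm_cm hρ θ))).differentiableAt
        have h2 : DifferentiableAt ℂ (fun x : ℂ × ℂ => (x.1, circleMap 0 ρ θ)) p := by
          fun_prop
        exact DifferentiableAt.comp p (f := fun x : ℂ × ℂ => (x.1, circleMap 0 ρ θ)) h1 h2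
  have h5 : cau F ρ = fun x : ℂ × ℂ => (2 * π * I : ℂ)⁻¹ • ∫ θ in (0:ℝ)..(2 * π),
      (fun q : (ℂ × ℂ) × ℝ => deriv (circleMap 0 ρ) q.2 •
        ((circleMap 0 ρ q.2 - q.1.2)⁻¹ • F (q.1.1, circleMap 0 ρ q.2))) (x, θ) := by
    funext x
    rfl
  rw [h5]
  intro x hx
  exact analyticAt_const.fun_smul (key x hx)

/-- flat form of the extension: `F` holomorphic on `{|ξ|<δ, |η|<ρ, Re ξ < c|η|²}` -/
theorem flat {F : ℂ × ℂ → ℂ} {D : Set (ℂ × ℂ)} (hD : IsOpen D)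
    (hF : AnalyticOnNhd ℂ F D) {δ ρ c : ℝ} (hδ : 0 < δ) (hρ : 0 < ρ) (hc : 0 < c)
    (hsub : ∀ x y : ℂ, ‖x‖ < δ → ‖y‖ < ρ → x.re < c * ‖y‖ ^ 2 → (x, y) ∈ D) :
    ∃ δ' > 0, ∃ ρ' > 0, δ' ≤ δ ∧ ρ' < ρ ∧ ∃ F' : ℂ × ℂ → ℂ,
      AnalyticOnNhd ℂ F' (ball (0 : ℂ) δ' ×ˢ ball (0 : ℂ) ρ') ∧
      (∀ p ∈ ball (0 : ℂ) δ' ×ˢ ball (0 : ℂ) ρ', p.1.re < c * ‖p.2‖ ^ 2 → F' p = F p) ∧
      (∀ p ∈ ball (0 : ℂ) δ' ×ˢ ball (0 : ℂ) ρ', ∀ a : ℂ, ∃ q ∈ D,
        (a * F' p).re ≤ (a * F q).re) := by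
  set ρ' := ρ / 2 with hρ'
  have hρ0 : 0 < ρ' := by positivity
  have hρ1 : ρ' < ρ := by rw [hρ']; linarith
  set δ' := min δ (c * ρ' ^ 2) with hδ'
  have hδ0 : 0 < δ' := lt_min hδ (by positivity)
  have hδ1 : δ' ≤ δ := min_le_left _ _
  have hδ2 : δ' ≤ c * ρ' ^ 2 := min_le_right _ _
  have hA : IsOpen (ball (0 : ℂ) δ') := isOpen_ball
  have hsub' : ∀ x ∈ ball (0 : ℂ) δ', ∀ z : ℂ, ‖z‖ = ρ' → (x, z) ∈ D := by
    intro x hx z hz
    have hx' : ‖x‖ < δ' := by simpa using hx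
    refine hsub x z (hx'.trans_le hδ1) (by rw [hz]; exact hρ1) ?_
    calc x.re ≤ ‖x‖ := Complex.re_le_norm x
      _ < δ' := hx'
      _ ≤ c * ρ' ^ 2 := hδ2
      _ = c * ‖z‖ ^ 2 := by rw [hz]
  have han := cau_analytic hD hF hA hρ0 hsub'
  -- equality for `Re ξ < 0`
  have heq0 : ∀ x ∈ ball (0 : ℂ) δ', x.re < 0 → ∀ y ∈ ball (0 : ℂ) ρ',
      cau F ρ' (x, y) = F (x, y) := by
    intro x hx hx0 y hy
    have hx' : ‖x‖ < δ' := by simpa using hx
    have hdiff : DifferentiableOn ℂ (fun z => F (x, z)) (closedBall 0 ρ') := by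
      intro z hz
      have hz' : ‖z‖ ≤ ρ' := by simpa using hz
      have hmem : (x, z) ∈ D := by
        refine hsub x z (hx'.trans_le hδ1) (hz'.trans_lt hρ1) ?_
        have : 0 ≤ c * ‖z‖ ^ 2 := by positivity
        linarith
      have h1 : DifferentiableAt ℂ F (x, z) := (hF _ hmem).differentiableAt
      have h2 : DifferentiableAt ℂ (fun z : ℂ => (x, z)) z := by fun_prop
      exact (DifferentiableAt.comp z (f := fun z : ℂ => (x, z)) h1 h2).differentiableWithinAt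
    have h3 := hdiff.circleIntegral_sub_inv_smul hy
    simp only [cau]
    rw [h3, smul_smul]
    rw [inv_mul_cancel₀ (by simp [Real.pi_ne_zero]), one_smul]
  have heq : ∀ p ∈ ball (0 : ℂ) δ' ×ˢ ball (0 : ℂ) ρ', p.1.re < c * ‖p.2‖ ^ 2 →
      cau F ρ' p = F p := by
    rintro ⟨x, y⟩ ⟨hx, hy⟩ hxy
    have hy' : ‖y‖ < ρ' := by simpa using hy
    -- the convex slice
    set S : Set ℂ := ball (0 : ℂ) δ' ∩ {z : ℂ | z.re < c * ‖y‖ ^ 2} with hS
    have hSo : IsOpen S := isOpen_ball.inter (isOpen_lt Complex.continuous_re continuous_const)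
    have hSc : Convex ℝ S := (convex_ball _ _).inter (convex_halfSpace_re_lt _)
    have hf : AnalyticOnNhd ℂ (fun z : ℂ => F (z, y)) S := by
      rintro z ⟨hz1, hz2⟩
      have hz1' : ‖z‖ < δ' := by simpa using hz1
      have hm : (z, y) ∈ D := hsub z y (hz1'.trans_le hδ1) (hy'.trans hρ1) hz2
      have h2 : AnalyticAt ℂ (fun z : ℂ => (z, y)) z := by fun_prop
      exact (hF _ hm).comp_of_eq h2 rfl
    have hg : AnalyticOnNhd ℂ (fun z : ℂ => cau F ρ' (z, y)) S := by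
      rintro z ⟨hz1, hz2⟩
      have h2 : AnalyticAt ℂ (fun z : ℂ => (z, y)) z := by fun_prop
      exact (han (z, y) ⟨hz1, hy⟩).comp_of_eq h2 rfl
    have hz0 : (((-(δ' / 2) : ℝ)) : ℂ) ∈ S := by
      refine ⟨?_, ?_⟩
      · simp only [mem_ball, dist_zero_right, Complex.norm_real, Real.norm_eq_abs, abs_neg]
        rw [abs_of_pos (by positivity)]
        linarith
      · have : 0 ≤ c * ‖y‖ ^ 2 := by positivity
        simp only [mem_ofPred_eq, Complex.ofReal_re]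
        linarith
    have hev : (fun z : ℂ => cau F ρ' (z, y)) =ᶠ[𝓝 (((-(δ' / 2) : ℝ)) : ℂ)]
        (fun z : ℂ => F (z, y)) := by
      have h1 : {z : ℂ | z.re < 0} ∈ 𝓝 (((-(δ' / 2) : ℝ)) : ℂ) :=
        (isOpen_lt Complex.continuous_re continuous_const).mem_nhds (by
          simp only [mem_ofPred_eq, Complex.ofReal_re]; linarith)
      filter_upwards [h1, hSo.mem_nhds hz0] with z hz1 hz2
      exact heq0 z hz2.1 hz1 y hy
    exact hg.eqOn_of_preconnected_of_eventuallyEq hf hSc.isPreconnected hz0 hev ⟨hx, hxy⟩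
  refine ⟨δ', hδ0, ρ', hρ0, hδ1, hρ1, cau F ρ', han, heq, ?_⟩
  rintro ⟨x, y⟩ ⟨hx, hy⟩ a
  have hx' : ‖x‖ < δ' := by simpa using hx
  have hy' : ‖y‖ < ρ' := by simpa using hy
  -- choose an intermediate radius
  have hs : ∃ s : ℝ, ‖y‖ < s ∧ ‖x‖ < c * s ^ 2 ∧ s < ρ' ∧ 0 < s := by
    have h1 : ‖x‖ < c * ρ' ^ 2 := hx'.trans_le hδ2
    have h2 : Tendsto (fun s : ℝ => c * s ^ 2) (𝓝[<] ρ') (𝓝 (c * ρ' ^ 2)) := by
      have h3 : Continuous (fun s : ℝ => c * s ^ 2) := by fun_prop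
      exact (h3.tendsto ρ').mono_left nhdsWithin_le_nhds
    have h4 : ∀ᶠ s in 𝓝[<] ρ', ‖x‖ < c * s ^ 2 := h2.eventually (lt_mem_nhds h1)
    have h5 : ∀ᶠ s in 𝓝[<] ρ', ‖y‖ < s ∧ s < ρ' := by
      filter_upwards [Ioo_mem_nhdsLT hy'] with s hs
      exact ⟨hs.1, hs.2⟩
    obtain ⟨s, h6, h7⟩ := (h4.and h5).exists
    exact ⟨s, h7.1, h6, h7.2, (norm_nonneg y).trans_lt h7.1⟩
  obtain ⟨s, hys, hxs, hsρ, hs0⟩ := hs
  have hE : DifferentiableOn ℂ (fun z => Complex.exp (a * cau F ρ' (x, z))) (closedBall 0 s) := by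
    intro z hz
    have hz' : ‖z‖ ≤ s := by simpa using hz
    have h1 : DifferentiableAt ℂ (cau F ρ') (x, z) :=
      (han (x, z) ⟨hx, by simpa using hz'.trans_lt hsρ⟩).differentiableAt
    have h2 : DifferentiableAt ℂ (fun z : ℂ => (x, z)) z := by fun_prop
    have h3 := DifferentiableAt.comp z (f := fun z : ℂ => (x, z)) h1 h2
    exact ((h3.const_mul a).cexp).differentiableWithinAt
  have hbd : Bornology.IsBounded (ball (0 : ℂ) s) := isBounded_ball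
  have hdc : DiffContOnCl ℂ (fun z => Complex.exp (a * cau F ρ' (x, z))) (ball (0 : ℂ) s) := by
    refine DifferentiableOn.diffContOnCl ?_
    rw [closure_ball (0 : ℂ) hs0.ne']
    exact hE
  have hne : (ball (0 : ℂ) s).Nonempty := ⟨0, mem_ball_self hs0⟩
  obtain ⟨z, hz, hzmax⟩ := Complex.exists_mem_frontier_isMaxOn_norm hbd hne hdc
  rw [frontier_ball (0 : ℂ) hs0.ne'] at hz
  have hz' : ‖z‖ = s := by simpa using hz
  have hzD : (x, z) ∈ D := by
    refine hsub x z (hx'.trans_le hδ1) (by rw [hz']; exact hsρ.trans hρ1) ?_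
    rw [hz']
    exact (Complex.re_le_norm x).trans_lt hxs
  have hzF : cau F ρ' (x, z) = F (x, z) := by
    refine heq (x, z) ⟨hx, by simpa [hz'] using hsρ⟩ ?_
    simp only [hz']
    exact (Complex.re_le_norm x).trans_lt hxs
  refine ⟨(x, z), hzD, ?_⟩
  have hymem : y ∈ closure (ball (0 : ℂ) s) := subset_closure (by simpa using hys)
  have h9 := hzmax hymem
  simp only [Function.comp_apply, mem_ofPred_eq, Complex.norm_exp] at h9
  rw [hzF] at h9
  exact Real.exp_le_exp.1 h9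

end Crest.Agent.R102.PenH712
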