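import Mathlib
import Crest.Agent.R102.Schottky_948

/-! # T1-E (516 #26350), leaf 1a: the label step omits the integers

`s` holomorphic and odd on `ball 0 r`, `s' 0 = 1`, `s w ∉ ℤ` for `w ≠ 0`. Then `s w = w exp (g w)`
with `‖g w‖ ≤ 128 log (8 A0 / r) (‖w‖ / r)²` on `ball 0 (r / 8)`. -/

set_option autoImplicit false

open Set Filter Metric Complex Topology

namespace Crest.Agent.R102.Pick1a948

open Crest.Agent.R102.M948

/-- universal constant -/
noncomputable def A0 : ℝ := Real.exp (Real.pi * 133)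

theorem one_le_A0 : 1 ≤ A0 := Real.one_le_exp (by positivity)

theorem A0_pos : 0 < A0 := Real.exp_pos _

theorem log_Psi : Real.log (Psi 1 (1 / 2)) = Real.pi * A0 := by
  unfold Psi A0
  rw [Real.log_exp]
  norm_num

/-- `exp (i π s) = -1` only if `s` is an integer -/
theorem int_of_exp {s : ℂ} (h : Complex.exp (Real.pi * I * s) = -1) : ∃ k : ℤ, s = k := by
  have h2 : Complex.exp (2 * (Real.pi * I * s)) = 1 := by
    rw [two_mul, Complex.exp_add, h]; norm_num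
  rw [Complex.exp_eq_one_iff] at h2
  obtain ⟨n, hn⟩ := h2
  refine ⟨n, ?_⟩
  have hpi : (2 * Real.pi * I : ℂ) ≠ 0 := by
    simp [Real.pi_ne_zero]
  apply mul_left_cancel₀ hpi
  linear_combination hn

/-- lower bound of the imaginary part, from Schottky -/
theorem neg_im_le {r : ℝ} {s : ℂ → ℂ} (hr : 0 < r) (hs : DifferentiableOn ℂ s (ball 0 r))
    (h0 : s 0 = 0) (hZ : ∀ w ∈ ball (0 : ℂ) r, w ≠ 0 → ∀ k : ℤ, s w ≠ k)
    {w : ℂ} (hw : w ∈ closedBall (0 : ℂ) (r / 2)) : -(s w).im ≤ A0 := by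
  set f : ℂ → ℂ := fun z => -Complex.exp (Real.pi * I * s z) with hf
  have hfd : DifferentiableOn ℂ f (ball 0 r) := ((hs.const_mul _).cexp).neg
  have hS := schottky hr hfd (fun z _ => neg_ne_zero.mpr (Complex.exp_ne_zero _)) (M := 1)
    (θ := 1 / 2) (fun z hz h1 => by
      by_cases hz0 : z = 0
      · rw [hf] at h1; simp only [hz0, h0, mul_zero, Complex.exp_zero] at h1; norm_num at h1
      · obtain ⟨k, hk⟩ := int_of_exp (s := s z) (by rw [hf] at h1; simp only at h1; rw [← h1]; ring)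
        exact hZ z hz hz0 k hk) (by simp [hf, h0]) (by norm_num) (by norm_num) w
    (by rw [show (1 / 2 : ℝ) * r = r / 2 by ring]; exact hw)
  rw [hf] at hS
  simp only [norm_neg, Complex.norm_exp] at hS
  have h2 : ((Real.pi : ℂ) * I * s w).re = -(Real.pi * (s w).im) := by
    simp [mul_assoc]
  rw [h2] at hS
  have h3 := (Real.le_log_iff_exp_le (Psi_pos 1 (1 / 2))).mpr hS
  rw [log_Psi] at h3
  have hpi := Real.pi_pos
  nlinarith

/-- bound of the label step, from Schottky and Borel-Carathéodory -/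
theorem norm_step_le {r : ℝ} {s : ℂ → ℂ} (hr : 0 < r) (hs : DifferentiableOn ℂ s (ball 0 r))
    (h0 : s 0 = 0) (hZ : ∀ w ∈ ball (0 : ℂ) r, w ≠ 0 → ∀ k : ℤ, s w ≠ k)
    {w : ℂ} (hw : w ∈ closedBall (0 : ℂ) (r / 4)) : ‖s w‖ ≤ 8 * A0 / r * ‖w‖ := by
  have hw' : ‖w‖ ≤ r / 4 := by simpa using hw
  have hd : DifferentiableOn ℂ (fun z => I * s z) (ball 0 (r / 2)) :=
    (hs.mono (ball_subset_ball (by linarith))).const_mul I
  have h := borelCaratheodory_zero (f := fun z => I * s z) (M := A0) (R := r / 2) (z := w) A0_pos hd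
    (fun z hz => by
      have := neg_im_le hr hs h0 hZ (ball_subset_closedBall hz)
      simpa using this) (by positivity)
    (by rw [mem_ball_zero_iff]; linarith) (by simp [h0])
  have h1 : ‖s w‖ = ‖I * s w‖ := by simp
  rw [h1]
  refine h.trans ?_
  have h2 : r / 4 ≤ r / 2 - ‖w‖ := by linarith
  have hA := A0_pos
  calc 2 * A0 * ‖w‖ / (r / 2 - ‖w‖) ≤ 2 * A0 * ‖w‖ / (r / 4) := by gcongr
    _ = 8 * A0 / r * ‖w‖ := by field_simp; ring

/-- **leaf 1a** -/
theorem step_log {r : ℝ} {s : ℂ → ℂ} (hr : 0 < r) (hr1 : r ≤ 1)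
    (hs : DifferentiableOn ℂ s (ball 0 r)) (h0 : s 0 = 0) (h1 : deriv s 0 = 1)
    (hodd : ∀ w ∈ ball (0 : ℂ) r, s (-w) = -s w)
    (hZ : ∀ w ∈ ball (0 : ℂ) r, w ≠ 0 → ∀ k : ℤ, s w ≠ k) :
    ∃ g : ℂ → ℂ, DifferentiableOn ℂ g (ball 0 (r / 4)) ∧ g 0 = 0 ∧
      (∀ w ∈ ball (0 : ℂ) (r / 4), s w = w * Complex.exp (g w)) ∧
      (∀ w ∈ ball (0 : ℂ) (r / 8), ‖g w‖ ≤ 128 * Real.log (8 * A0 / r) * (‖w‖ / r) ^ 2) := by
  have hA1 := one_le_A0
  have hb4 : ball (0 : ℂ) (r / 4) ⊆ ball 0 r := ball_subset_ball (by linarith)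
  have hb8 : ball (0 : ℂ) (r / 8) ⊆ ball 0 (r / 4) := ball_subset_ball (by linarith)
  have hm4 : (0 : ℂ) ∈ ball (0 : ℂ) (r / 4) := mem_ball_self (by positivity)
  set q : ℂ → ℂ := dslope s 0 with hq
  have hqd : DifferentiableOn ℂ q (ball 0 (r / 4)) :=
    (differentiableOn_dslope (isOpen_ball.mem_nhds hm4)).mpr (hs.mono hb4)
  have hq0 : q 0 = 1 := by rw [hq, dslope_same, h1]
  have hqs : ∀ w, s w = w * q w := by
    intro w
    have := sub_smul_dslope s 0 w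
    rw [h0, sub_zero, sub_zero, smul_eq_mul] at this
    exact this.symm
  have hqn : ∀ w ∈ ball (0 : ℂ) (r / 4), q w ≠ 0 := by
    intro w hw hw0
    by_cases hw1 : w = 0
    · rw [hw1, hq0] at hw0; exact one_ne_zero hw0
    · exact hZ w (hb4 hw) hw1 0 (by rw [hqs w, hw0]; simp)
  have hqle : ∀ w ∈ ball (0 : ℂ) (r / 4), ‖q w‖ ≤ 8 * A0 / r := by
    intro w hw
    by_cases hw1 : w = 0
    · rw [hw1, hq0, norm_one, le_div_iff₀ hr]; linarith
    · have h2 := norm_step_le hr hs h0 hZ (ball_subset_closedBall hw)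
      rw [hqs w, norm_mul, mul_comm] at h2
      exact le_of_mul_le_mul_right h2 (norm_pos_iff.mpr hw1)
  have hqeven : ∀ w ∈ ball (0 : ℂ) (r / 4), q (-w) = q w := by
    intro w hw
    by_cases hw1 : w = 0
    · simp [hw1]
    · have h2 := hodd w (hb4 hw)
      rw [hqs w, hqs (-w)] at h2
      apply mul_left_cancel₀ hw1
      linear_combination -h2
  obtain ⟨L, hL, hLe⟩ := exists_log hqd hqn
  set g : ℂ → ℂ := fun w => L w - L 0 with hg
  have hgd : DifferentiableOn ℂ g (ball 0 (r / 4)) := hL.sub (differentiableOn_const _)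
  have hg0 : g 0 = 0 := by simp [hg]
  have hge : ∀ w ∈ ball (0 : ℂ) (r / 4), Complex.exp (g w) = q w := by
    intro w hw
    rw [hg]; simp only
    rw [Complex.exp_sub, hLe w hw, hLe 0 hm4, hq0, div_one]
  have hgre : ∀ w ∈ ball (0 : ℂ) (r / 4), (g w).re ≤ Real.log (8 * A0 / r) := by
    intro w hw
    have h2 := hqle w hw
    rw [← hge w hw, Complex.norm_exp] at h2
    exact (Real.le_log_iff_exp_le (by positivity)).mpr h2
  have hM : 0 < Real.log (8 * A0 / r) := by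
    apply Real.log_pos
    rw [lt_div_iff₀ hr]; linarith
  -- `g' 0 = 0`
  have hg' : deriv g 0 = 0 := by
    have hd1 : HasDerivAt q (deriv q 0) 0 :=
      (hqd.differentiableAt (isOpen_ball.mem_nhds hm4)).hasDerivAt
    have hd1' : HasDerivAt q (deriv q 0) (-(0 : ℂ)) := by rw [neg_zero]; exact hd1
    have hd2 : HasDerivAt (fun w => q (-w)) (-deriv q 0) 0 := by
      have := hd1'.comp (0 : ℂ) (hasDerivAt_neg (0 : ℂ))
      rw [mul_neg_one] at this
      exact this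
    have hev : (fun w => q (-w)) =ᶠ[𝓝 0] q := by
      filter_upwards [isOpen_ball.mem_nhds hm4] with w hw using hqeven w hw
    have hd3 : HasDerivAt q (-deriv q 0) 0 := hd2.congr_of_eventuallyEq hev.symm
    have h4 : deriv q 0 = 0 := by
      have := hd1.unique hd3
      linear_combination this / 2
    have hd5 : HasDerivAt g (deriv g 0) 0 :=
      (hgd.differentiableAt (isOpen_ball.mem_nhds hm4)).hasDerivAt
    have hd6 := hd5.cexp
    have hev2 : (fun w => Complex.exp (g w)) =ᶠ[𝓝 0] q := by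
      filter_upwards [isOpen_ball.mem_nhds hm4] with w hw using hge w hw
    have hd7 := hd6.congr_of_eventuallyEq hev2.symm
    have := hd7.unique hd1
    rw [hg0, Complex.exp_zero, one_mul, h4] at this
    exact this
  have hbc : ∀ w ∈ ball (0 : ℂ) (r / 8), ‖g w‖ ≤ 2 * Real.log (8 * A0 / r) := by
    intro w hw
    have hw' : ‖w‖ < r / 8 := by simpa using hw
    have h := borelCaratheodory_zero (f := g) (M := Real.log (8 * A0 / r)) (R := r / 4) (z := w) hM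
      hgd (fun z hz => hgre z hz) (by positivity) (hb8 hw) hg0
    refine h.trans ?_
    have h3 : 0 < r / 4 - ‖w‖ := by linarith
    rw [div_le_iff₀ h3]
    nlinarith
  refine ⟨g, hgd, hg0, fun w hw => by rw [hge w hw]; exact hqs w, ?_⟩
  intro w hw
  have h := dist_le_mul_div_pow_of_mapsTo_ball_of_isLittleO (f := g) (c := (0 : ℂ)) (z := w)
    (R₁ := r / 8) (R₂ := 2 * Real.log (8 * A0 / r)) (n := 1) (hgd.mono hb8)
    (fun z hz => by rw [hg0, mem_closedBall_zero_iff]; exact hbc z hz) (by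
      have hd5 : HasDerivAt g 0 0 := by
        have := (hgd.differentiableAt (isOpen_ball.mem_nhds hm4)).hasDerivAt
        rwa [hg'] at this
      have h6 := hd5.isLittleO
      simp only [smul_zero, sub_zero] at h6
      simp only [sub_zero, pow_one]
      exact h6.norm_right) hw
  rw [hg0, dist_zero_right, dist_zero_right] at h
  refine h.trans (le_of_eq ?_)
  norm_num
  field_simp
  ring

/-- the coefficient of `w³` in `s` -/
theorem coeff_le {r : ℝ} {s : ℂ → ℂ} (hr : 0 < r) (hr1 : r ≤ 1)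
    (hs : DifferentiableOn ℂ s (ball 0 r)) (h0 : s 0 = 0) (h1 : deriv s 0 = 1)
    (hodd : ∀ w ∈ ball (0 : ℂ) r, s (-w) = -s w)
    (hZ : ∀ w ∈ ball (0 : ℂ) r, w ≠ 0 → ∀ k : ℤ, s w ≠ k) {c : ℂ}
    (hc : (fun w => s w - w - c * w ^ 3) =o[𝓝 0] fun w => w ^ 3) :
    ‖c‖ ≤ 128 * Real.log (8 * A0 / r) / r ^ 2 := by
  obtain ⟨g, hgd, hg0, hgs, hgb⟩ := step_log hr hr1 hs h0 h1 hodd hZ
  have hA1 := one_le_A0
  have hM : 0 < Real.log (8 * A0 / r) := by
    apply Real.log_pos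
    rw [lt_div_iff₀ hr]; linarith
  set K := 128 * Real.log (8 * A0 / r) / r ^ 2 with hK
  have hK0 : 0 < K := by positivity
  refine le_of_forall_pos_le_add fun ε hε => ?_
  -- `‖exp g - 1‖ ≤ (1 + ‖g‖) ‖g‖` for small `g`
  have e1 : ∀ᶠ w in 𝓝 (0 : ℂ), ‖s w - w - c * w ^ 3‖ ≤ (ε / 2) * ‖w ^ 3‖ :=
    hc.def (by positivity)
  have hgc : Tendsto (fun w => ‖g w‖) (𝓝 0) (𝓝 0) := by
    have := (hgd.differentiableAt (isOpen_ball.mem_nhds (mem_ball_self (by positivity)))).continuousAt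
    have h2 := this.norm
    simpa [ContinuousAt, hg0] using h2
  have e2 : ∀ᶠ w in 𝓝 (0 : ℂ), ‖g w‖ ≤ min 1 (ε / (2 * K)) :=
    (hgc.eventually (gt_mem_nhds (lt_min one_pos (by positivity)))).mono fun w hw => hw.le
  have e3 : ∀ᶠ w in 𝓝 (0 : ℂ), w ∈ ball (0 : ℂ) (r / 8) :=
    isOpen_ball.mem_nhds (mem_ball_self (by positivity))
  have e4 : ∃ w : ℂ, w ≠ 0 ∧ ‖s w - w - c * w ^ 3‖ ≤ (ε / 2) * ‖w ^ 3‖ ∧
      ‖g w‖ ≤ min 1 (ε / (2 * K)) ∧ w ∈ ball (0 : ℂ) (r / 8) := by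
    have := (e1.and (e2.and e3)).filter_mono (nhdsWithin_le_nhds (s := {0}ᶜ))
    obtain ⟨w, ⟨h5, h6, h7⟩, h8⟩ := (this.and self_mem_nhdsWithin).exists
    exact ⟨w, h8, h5, h6, h7⟩
  obtain ⟨w, hw0, hw1, hw2, hw3⟩ := e4
  have hwp : 0 < ‖w‖ := norm_pos_iff.mpr hw0
  have hg1 : ‖g w‖ ≤ 1 := hw2.trans (min_le_left _ _)
  have hg2 : ‖g w‖ ≤ ε / (2 * K) := hw2.trans (min_le_right _ _)
  have hexp : ‖Complex.exp (g w) - 1‖ ≤ ‖g w‖ + ‖g w‖ ^ 2 := by
    have h9 := Complex.norm_exp_sub_one_sub_id_le hg1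
    calc ‖Complex.exp (g w) - 1‖ = ‖(Complex.exp (g w) - 1 - g w) + g w‖ := by ring_nf
      _ ≤ ‖Complex.exp (g w) - 1 - g w‖ + ‖g w‖ := norm_add_le _ _
      _ ≤ _ := by linarith
  have hgb' := hgb w hw3
  have hgK : ‖g w‖ ≤ K * ‖w‖ ^ 2 := by
    refine hgb'.trans (le_of_eq ?_)
    rw [hK]; field_simp
  have hsw : ‖s w - w‖ ≤ ‖w‖ * ((K + ε / 2) * ‖w‖ ^ 2) := by
    rw [hgs w (ball_subset_ball (by linarith) hw3),
      show w * Complex.exp (g w) - w = w * (Complex.exp (g w) - 1) by ring, norm_mul]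
    gcongr
    refine hexp.trans ?_
    have h10 : ‖g w‖ ^ 2 ≤ (K * ‖w‖ ^ 2) * (ε / (2 * K)) := by
      rw [sq]; gcongr
    have h11 : (K * ‖w‖ ^ 2) * (ε / (2 * K)) = ε / 2 * ‖w‖ ^ 2 := by field_simp
    linarith
  have hcw : ‖c‖ * ‖w‖ ^ 3 ≤ (K + ε) * ‖w‖ ^ 3 := by
    have h12 : ‖c * w ^ 3‖ ≤ ‖s w - w‖ + ‖s w - w - c * w ^ 3‖ := by
      calc ‖c * w ^ 3‖ = ‖(s w - w) - (s w - w - c * w ^ 3)‖ := by ring_nf
        _ ≤ _ := norm_sub_le _ _
    rw [norm_mul, norm_pow] at h12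
    rw [norm_pow] at hw1
    nlinarith
  exact le_of_mul_le_mul_right hcw (by positivity)

end Crest.Agent.R102.Pick1a948
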