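import Mathlib

/-!
# Row 102, part (C), item [d]: abstract Pick extension (helper348)

`D` = half plane or strip in the lower half plane, symmetric under `rf a = -conj a`,
`Φ` injective on `D`, and a germ `G` at infinity with `Φ (G s) = Ps Φ (G (s+1))`,
`Ps Φ a = conj (Φ (-conj a))` (the other branch, `= Φ (-a)`).  Under the properness hypothesis
`Sys.prop` the germ extends to the whole upper half plane.
-/

open Complex Set Filter Topology

noncomputable section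

namespace Crest.Agent.R102.PickExt348

/-- reflection `s ↦ -conj s` -/
def rf (s : ℂ) : ℂ := -(starRingEnd ℂ) s

@[simp] lemma rf_re (s : ℂ) : (rf s).re = -s.re := by simp [rf]
@[simp] lemma rf_im (s : ℂ) : (rf s).im = s.im := by simp [rf]
@[simp] lemma rf_rf (s : ℂ) : rf (rf s) = s := by simp [rf]
lemma rf_norm (s : ℂ) : ‖rf s‖ = ‖s‖ := by simp [rf]
lemma rf_add_one (s : ℂ) : rf (s + 1) = rf s - 1 := by simp [rf]; ring
lemma continuous_rf : Continuous rf := by unfold rf; fun_prop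

/-- the other branch -/
def Ps (Φ : ℂ → ℂ) (a : ℂ) : ℂ := (starRingEnd ℂ) (Φ (rf a))

lemma diff_conj_rf {f : ℂ → ℂ} {s : ℂ} (h : DifferentiableAt ℂ f (rf s)) :
    DifferentiableAt ℂ (fun s => (starRingEnd ℂ) (f (rf s))) s := by
  have h1 : DifferentiableAt ℂ (fun z => f (-z)) ((starRingEnd ℂ) s) := by
    have : DifferentiableAt ℂ f (-((starRingEnd ℂ) s)) := h
    exact this.comp ((starRingEnd ℂ) s) (differentiableAt_id.neg)
  have h2 := h1.conj_conj
  simpa [Function.comp_def, rf] using h2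

lemma diff_rf_rf {f : ℂ → ℂ} {s : ℂ} (h : DifferentiableAt ℂ f (rf s)) :
    DifferentiableAt ℂ (fun s => rf (f (rf s))) s := by
  have := (diff_conj_rf h).neg
  exact this

structure Sys (D : Set ℂ) (Φ Φ' : ℂ → ℂ) : Prop where
  op : IsOpen D
  sy : ∀ a ∈ D, rf a ∈ D
  dr : ∀ a ∈ D, HasStrictDerivAt Φ (Φ' a) a
  nz : ∀ a ∈ D, Φ' a ≠ 0
  inj : InjOn Φ D
  prop : ∀ a' ∈ D, ∀ a : ℕ → ℂ, (∀ j, a j ∈ D ∧ 0 < (a j).re) →
    Tendsto (fun j => Φ (a j)) atTop (𝓝 (Ps Φ a')) → Ps Φ a' ∈ Φ '' D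

structure GInf (D : Set ℂ) (Φ : ℂ → ℂ) (ρ : ℝ) (G : ℂ → ℂ) : Prop where
  hρ : 0 < ρ
  an : DifferentiableOn ℂ G {s | ρ < ‖s‖}
  sy : ∀ s : ℂ, ρ < ‖s‖ → G (rf s) = rf (G s)
  maps : ∀ s : ℂ, ρ < ‖s‖ → 0 < s.im → G s ∈ D
  inj : InjOn G {s | ρ < ‖s‖}
  eq : ∀ s : ℂ, ρ < ‖s‖ → ρ < ‖s + 1‖ → 0 < s.im → Φ (G s) = Ps Φ (G (s + 1))
  rpos : ∀ s : ℂ, ρ < ‖s‖ → 0 < s.re → 0 < (G s).re

variable {D : Set ℂ} {Φ Φ' : ℂ → ℂ} {ρ : ℝ} {G : ℂ → ℂ}

/-- the half plane `Im > Y` -/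
def HP (Y : ℝ) : Set ℂ := {s | Y < s.im}

lemma isOpen_HP (Y : ℝ) : IsOpen (HP Y) := isOpen_lt continuous_const Complex.continuous_im

lemma convex_HP (Y : ℝ) : Convex ℝ (HP Y) := by
  have : HP Y = {s : ℂ | Y < Complex.imCLM s} := rfl
  rw [this]
  exact convex_halfSpace_gt (f := Complex.imCLM) (Complex.imCLM.isLinear) Y

lemma convex_re_gt (Y : ℝ) : Convex ℝ {s : ℂ | Y < s.re} := by
  have : {s : ℂ | Y < s.re} = {s : ℂ | Y < Complex.reCLM s} := rfl
  rw [this]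
  exact convex_halfSpace_gt (f := Complex.reCLM) (Complex.reCLM.isLinear) Y

lemma convex_re_lt (Y : ℝ) : Convex ℝ {s : ℂ | s.re < Y} := by
  have : {s : ℂ | s.re < Y} = {s : ℂ | Complex.reCLM s < Y} := rfl
  rw [this]
  exact convex_halfSpace_lt (f := Complex.reCLM) (Complex.reCLM.isLinear) Y

/-! ### the inverse of `Φ` -/

/-- inverse branch -/
def Jv (Φ : ℂ → ℂ) (D : Set ℂ) : ℂ → ℂ := Function.invFunOn Φ D

lemma Jv_mem {w : ℂ} (hw : w ∈ Φ '' D) : Jv Φ D w ∈ D := Function.invFunOn_mem hw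

lemma Φ_Jv {w : ℂ} (hw : w ∈ Φ '' D) : Φ (Jv Φ D w) = w := Function.invFunOn_eq hw

lemma Sys.Jv_Φ (S : Sys D Φ Φ') {a : ℂ} (ha : a ∈ D) : Jv Φ D (Φ a) = a :=
  S.inj (Jv_mem ⟨a, ha, rfl⟩) ha (Φ_Jv ⟨a, ha, rfl⟩)

lemma Sys.image_nhds (S : Sys D Φ Φ') {a : ℂ} (ha : a ∈ D) {V : Set ℂ} (hV : V ∈ 𝓝 a) :
    Φ '' V ∈ 𝓝 (Φ a) := by
  rw [← (S.dr a ha).map_nhds_eq (S.nz a ha)]
  exact image_mem_map hV

lemma Sys.open_image (S : Sys D Φ Φ') : IsOpen (Φ '' D) := by
  rw [isOpen_iff_mem_nhds]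
  rintro _ ⟨a, ha, rfl⟩
  exact S.image_nhds ha (S.op.mem_nhds ha)

lemma Sys.Jv_cont (S : Sys D Φ Φ') {a : ℂ} (ha : a ∈ D) : ContinuousAt (Jv Φ D) (Φ a) := by
  rw [ContinuousAt, S.Jv_Φ ha]
  intro V hV
  have h1 := S.image_nhds ha (inter_mem hV (S.op.mem_nhds ha))
  rw [Filter.mem_map]
  refine mem_of_superset h1 ?_
  rintro _ ⟨v, hv, rfl⟩
  show Jv Φ D (Φ v) ∈ V
  rw [S.Jv_Φ hv.2]; exact hv.1

lemma Sys.Jv_diff (S : Sys D Φ Φ') {w : ℂ} (hw : w ∈ Φ '' D) :
    DifferentiableAt ℂ (Jv Φ D) w := by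
  obtain ⟨a, ha, rfl⟩ := hw
  refine (HasDerivAt.of_local_left_inverse (f := Φ) (S.Jv_cont ha) ?_ (S.nz a ha) ?_).differentiableAt
  · rw [S.Jv_Φ ha]; exact (S.dr a ha).hasDerivAt
  · filter_upwards [S.open_image.mem_nhds ⟨a, ha, rfl⟩] with w hw
    exact Φ_Jv hw

lemma Sys.Ps_diff (S : Sys D Φ Φ') {a : ℂ} (ha : a ∈ D) : DifferentiableAt ℂ (Ps Φ) a := by
  have h : DifferentiableAt ℂ Φ (rf a) := (S.dr _ (S.sy a ha)).hasDerivAt.differentiableAt
  exact diff_conj_rf h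

lemma Sys.Ps_inj (S : Sys D Φ Φ') {a b : ℂ} (ha : a ∈ D) (hb : b ∈ D) (h : Ps Φ a = Ps Φ b) :
    a = b := by
  have h1 : Φ (rf a) = Φ (rf b) := (starRingEnd ℂ).injective h
  have h2 := S.inj (S.sy a ha) (S.sy b hb) h1
  rw [← rf_rf a, h2, rf_rf]

/-! ### the canonical function -/

/-- one step to the left -/
def Bm (Φ : ℂ → ℂ) (D : Set ℂ) (a : ℂ) : ℂ := Jv Φ D (Ps Φ a)

/-- number of steps -/
def Kn (ρ : ℝ) (s : ℂ) : ℕ := ⌈ρ - s.re⌉₊ + 1

lemma Kn_spec (ρ : ℝ) (s : ℂ) : ρ < s.re + Kn ρ s := by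
  unfold Kn
  have := Nat.le_ceil (ρ - s.re)
  push_cast
  linarith

/-- the extension (total function) -/
def gg (Φ : ℂ → ℂ) (D : Set ℂ) (ρ : ℝ) (G : ℂ → ℂ) (s : ℂ) : ℂ :=
  (Bm Φ D)^[Kn ρ s] (G (s + Kn ρ s))

lemma norm_gt_of_re {s : ℂ} (h : ρ < s.re) : ρ < ‖s‖ := lt_of_lt_of_le h (Complex.re_le_norm s)

lemma norm_gt_of_im {s : ℂ} (h : ρ < s.im) : ρ < ‖s‖ :=
  lt_of_lt_of_le h ((le_abs_self _).trans (Complex.abs_im_le_norm s))

lemma step_G (S : Sys D Φ Φ') (hG : GInf D Φ ρ G) {s : ℂ} (hs : 0 < s.im) (h1 : ρ < ‖s‖)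
    (h2 : ρ < ‖s + 1‖) : Bm Φ D (G (s + 1)) = G s := by
  unfold Bm
  rw [← hG.eq s h1 h2 hs, S.Jv_Φ (hG.maps s h1 hs)]

lemma iter_eq (S : Sys D Φ Φ') (hG : GInf D Φ ρ G) {s : ℂ} (hs : 0 < s.im) {k : ℕ}
    (hk : ρ < s.re + k) (m : ℕ) :
    (Bm Φ D)^[k + m] (G (s + ((k + m : ℕ) : ℂ))) = (Bm Φ D)^[k] (G (s + k)) := by
  induction m with
  | zero => rfl
  | succ m ih =>
    rw [← ih, ← add_assoc, Function.iterate_succ_apply]
    congr 1
    have e : s + ((k + m + 1 : ℕ) : ℂ) = (s + ((k + m : ℕ) : ℂ)) + 1 := by push_cast; ring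
    rw [e]
    have hre : ρ < (s + ((k + m : ℕ) : ℂ)).re := by
      simp only [Complex.add_re, Complex.natCast_re]
      push_cast
      have : (0 : ℝ) ≤ m := Nat.cast_nonneg m
      linarith
    apply step_G S hG
    · simpa using hs
    · exact norm_gt_of_re hre
    · apply norm_gt_of_re
      simp only [Complex.add_re, Complex.one_re] at hre ⊢
      linarith

lemma gg_eq (S : Sys D Φ Φ') (hG : GInf D Φ ρ G) {s : ℂ} (hs : 0 < s.im) {k : ℕ}
    (hk : ρ < s.re + k) : gg Φ D ρ G s = (Bm Φ D)^[k] (G (s + k)) := by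
  unfold gg
  rcases le_total k (Kn ρ s) with h | h
  · obtain ⟨m, hm⟩ := Nat.exists_eq_add_of_le h
    rw [hm]
    exact iter_eq S hG hs hk m
  · obtain ⟨m, hm⟩ := Nat.exists_eq_add_of_le h
    rw [hm]
    exact (iter_eq S hG hs (Kn_spec ρ s) m).symm

lemma gg_step (S : Sys D Φ Φ') (hG : GInf D Φ ρ G) {s : ℂ} (hs : 0 < s.im) :
    gg Φ D ρ G s = Bm Φ D (gg Φ D ρ G (s + 1)) := by
  have h1 : ρ < s.re + (Kn ρ s + 1 : ℕ) := by
    have := Kn_spec ρ s; push_cast; linarith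
  have h2 : ρ < (s + 1).re + (Kn ρ s : ℕ) := by
    have := Kn_spec ρ s; simp only [Complex.add_re, Complex.one_re]; linarith
  rw [gg_eq S hG hs h1, gg_eq S hG (s := s + 1) (by simpa using hs) h2,
    Function.iterate_succ_apply']
  congr 3
  push_cast; ring

lemma gg_right (S : Sys D Φ Φ') (hG : GInf D Φ ρ G) {s : ℂ} (hs : 0 < s.im) (hk : ρ < s.re) :
    gg Φ D ρ G s = G s := by
  have h : ρ < s.re + (0 : ℕ) := by simpa using hk
  rw [gg_eq S hG hs h]
  simp

/-- good points -/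
def Om (Φ : ℂ → ℂ) (D : Set ℂ) (ρ : ℝ) (G : ℂ → ℂ) : Set ℂ :=
  {s | 0 < s.im ∧ ∀ j : ℕ, Ps Φ (gg Φ D ρ G (s + j + 1)) ∈ Φ '' D}

lemma Om_im {s : ℂ} (h : s ∈ Om Φ D ρ G) : 0 < s.im := h.1

lemma Om_add_one {s : ℂ} (h : s ∈ Om Φ D ρ G) : s + 1 ∈ Om Φ D ρ G := by
  refine ⟨by simpa using h.1, fun j => ?_⟩
  have := h.2 (j + 1)
  have e : s + ((j + 1 : ℕ) : ℂ) + 1 = s + 1 + j + 1 := by push_cast; ring
  rw [e] at this; exact this

lemma Om_add {s : ℂ} (h : s ∈ Om Φ D ρ G) (k : ℕ) : s + k ∈ Om Φ D ρ G := by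
  induction k with
  | zero => simpa using h
  | succ k ih =>
    have := Om_add_one ih
    have e : s + k + 1 = s + ((k + 1 : ℕ) : ℂ) := by push_cast; ring
    rw [e] at this; exact this

lemma Om_of_step {s : ℂ} (hs : 0 < s.im) (h : s + 1 ∈ Om Φ D ρ G)
    (h0 : Ps Φ (gg Φ D ρ G (s + 1)) ∈ Φ '' D) : s ∈ Om Φ D ρ G := by
  refine ⟨hs, fun j => ?_⟩
  rcases j with _ | j
  · simpa using h0
  · have := h.2 j
    have e : s + ((j + 1 : ℕ) : ℂ) + 1 = s + 1 + j + 1 := by push_cast; ring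
    rw [e]; exact this

lemma gg_mem (S : Sys D Φ Φ') (hG : GInf D Φ ρ G) {s : ℂ} (h : s ∈ Om Φ D ρ G) :
    gg Φ D ρ G s ∈ D := by
  rw [gg_step S hG h.1]
  apply Jv_mem
  have := h.2 0
  simpa using this

lemma gg_fe (S : Sys D Φ Φ') (hG : GInf D Φ ρ G) {s : ℂ} (h : s ∈ Om Φ D ρ G) :
    Φ (gg Φ D ρ G s) = Ps Φ (gg Φ D ρ G (s + 1)) := by
  rw [gg_step S hG h.1]
  apply Φ_Jv
  have := h.2 0
  simpa using this

/-- points with all translates outside the disc -/
lemma gg_out (S : Sys D Φ Φ') (hG : GInf D Φ ρ G) :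
    ∀ (k : ℕ) (s : ℂ), ρ < s.re + k → 0 < s.im → (∀ j : ℕ, ρ < ‖s + j‖) →
      s ∈ Om Φ D ρ G ∧ gg Φ D ρ G s = G s := by
  intro k
  induction k with
  | zero =>
    intro s hk hs _
    have hk' : ρ < s.re := by simpa using hk
    refine ⟨⟨hs, fun j => ?_⟩, gg_right S hG hs hk'⟩
    have h1 : ρ < (s + j).re := by
      simp only [Complex.add_re, Complex.natCast_re]
      have : (0 : ℝ) ≤ j := Nat.cast_nonneg j
      linarith
    have h2 : ρ < (s + j + 1).re := by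
      simp only [Complex.add_re, Complex.one_re] at h1 ⊢; linarith
    have him : 0 < (s + (j : ℂ)).im := by simpa using hs
    rw [gg_right S hG (by simpa using hs) h2,
      ← hG.eq (s + j) (norm_gt_of_re h1) (norm_gt_of_re h2) him]
    exact ⟨_, hG.maps _ (norm_gt_of_re h1) him, rfl⟩
  | succ k ih =>
    intro s hk hs hj
    obtain ⟨h1, h2⟩ := ih (s + 1) (by
      simp only [Complex.add_re, Complex.one_re]; push_cast at hk; linarith)
      (by simpa using hs) (fun j => by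
        have := hj (j + 1)
        have e : s + ((j + 1 : ℕ) : ℂ) = s + 1 + j := by push_cast; ring
        rw [e] at this; exact this)
    have h0 : ρ < ‖s‖ := by simpa using hj 0
    have h0' : ρ < ‖s + 1‖ := by simpa using hj 1
    refine ⟨Om_of_step hs h1 ?_, ?_⟩
    · rw [h2, ← hG.eq s h0 h0' hs]
      exact ⟨_, hG.maps s h0 hs, rfl⟩
    · rw [gg_step S hG hs, h2]
      exact step_G S hG hs h0 h0'

lemma exists_k (ρ : ℝ) (s : ℂ) : ∃ k : ℕ, ρ < s.re + k := ⟨_, Kn_spec ρ s⟩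

lemma gg_high (S : Sys D Φ Φ') (hG : GInf D Φ ρ G) {s : ℂ} (hs : ρ < s.im) :
    s ∈ Om Φ D ρ G ∧ gg Φ D ρ G s = G s := by
  obtain ⟨k, hk⟩ := exists_k ρ s
  refine gg_out S hG k s hk (lt_trans hG.hρ hs) fun j => norm_gt_of_im ?_
  simpa using hs

lemma gg_far (S : Sys D Φ Φ') (hG : GInf D Φ ρ G) {s : ℂ} (hs : ρ < s.re) (him : 0 < s.im) :
    s ∈ Om Φ D ρ G ∧ gg Φ D ρ G s = G s :=
  gg_out S hG 0 s (by simpa using hs) him fun j => norm_gt_of_re (by
    simp only [Complex.add_re, Complex.natCast_re]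
    have : (0 : ℝ) ≤ j := Nat.cast_nonneg j
    linarith)

/-- differentiability along the chain -/
lemma gg_diff (S : Sys D Φ Φ') (hG : GInf D Φ ρ G) :
    ∀ (k : ℕ) (s : ℂ), ρ < s.re + k → s ∈ Om Φ D ρ G → DifferentiableAt ℂ (gg Φ D ρ G) s := by
  have hopen : IsOpen {s : ℂ | ρ < ‖s‖} := isOpen_lt continuous_const continuous_norm
  intro k
  induction k with
  | zero =>
    intro s hk hs
    have hk' : ρ < s.re := by simpa using hk
    refine (hG.an.differentiableAt (hopen.mem_nhds (norm_gt_of_re hk'))).congr_of_eventuallyEq ?_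
    filter_upwards [(isOpen_lt continuous_const Complex.continuous_re).mem_nhds hk',
      (isOpen_HP 0).mem_nhds hs.1] with z hz1 hz2
    exact gg_right S hG hz2 hz1
  | succ k ih =>
    intro s hk hs
    have h1 := ih (s + 1) (by
      simp only [Complex.add_re, Complex.one_re]; push_cast at hk; linarith) (Om_add_one hs)
    have h2 : DifferentiableAt ℂ (fun z => gg Φ D ρ G (z + 1)) s :=
      DifferentiableAt.comp (g := gg Φ D ρ G) (f := fun z : ℂ => z + 1) s h1 (by fun_prop)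
    have hm := gg_mem S hG (Om_add_one hs)
    have h3 : DifferentiableAt ℂ (fun z => Bm Φ D (gg Φ D ρ G (z + 1))) s := by
      have hw : Ps Φ (gg Φ D ρ G (s + 1)) ∈ Φ '' D := by simpa using hs.2 0
      have h4 : DifferentiableAt ℂ (Bm Φ D) (gg Φ D ρ G (s + 1)) :=
        DifferentiableAt.comp (g := Jv Φ D) (f := Ps Φ) _ (S.Jv_diff hw) (S.Ps_diff hm)
      exact DifferentiableAt.comp (g := Bm Φ D) (f := fun z => gg Φ D ρ G (z + 1)) s h4 h2
    refine h3.congr_of_eventuallyEq ?_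
    filter_upwards [(isOpen_HP 0).mem_nhds hs.1] with z hz
    exact gg_step S hG hz

lemma gg_diffAt (S : Sys D Φ Φ') (hG : GInf D Φ ρ G) {s : ℂ} (hs : s ∈ Om Φ D ρ G) :
    DifferentiableAt ℂ (gg Φ D ρ G) s := by
  obtain ⟨k, hk⟩ := exists_k ρ s
  exact gg_diff S hG k s hk hs

/-- openness -/
lemma Om_nhds (S : Sys D Φ Φ') (hG : GInf D Φ ρ G) :
    ∀ (k : ℕ) (s : ℂ), ρ < s.re + k → s ∈ Om Φ D ρ G → Om Φ D ρ G ∈ 𝓝 s := by
  intro k
  induction k with
  | zero =>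
    intro s hk hs
    have hk' : ρ < s.re := by simpa using hk
    filter_upwards [(isOpen_lt continuous_const Complex.continuous_re).mem_nhds hk',
      (isOpen_HP 0).mem_nhds hs.1] with z hz1 hz2
    exact (gg_far S hG hz1 hz2).1
  | succ k ih =>
    intro s hk hs
    have hs1 := Om_add_one hs
    have h1 := ih (s + 1) (by
      simp only [Complex.add_re, Complex.one_re]; push_cast at hk; linarith) hs1
    have hc : ContinuousAt (fun z : ℂ => z + 1) s := by fun_prop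
    have hm := gg_mem S hG hs1
    have h2 : ContinuousAt (fun z => Ps Φ (gg Φ D ρ G (z + 1))) s := by
      refine ContinuousAt.comp (g := Ps Φ) (f := fun z => gg Φ D ρ G (z + 1))
        (S.Ps_diff hm).continuousAt ?_
      exact ContinuousAt.comp (g := gg Φ D ρ G) (f := fun z : ℂ => z + 1)
        (gg_diffAt S hG hs1).continuousAt hc
    have hw : Ps Φ (gg Φ D ρ G (s + 1)) ∈ Φ '' D := by simpa using hs.2 0
    filter_upwards [hc.eventually_mem h1, h2.eventually_mem (S.open_image.mem_nhds hw),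
      (isOpen_HP 0).mem_nhds hs.1] with z hz1 hz2 hz3
    exact Om_of_step hz3 hz1 hz2

lemma Om_open (S : Sys D Φ Φ') (hG : GInf D Φ ρ G) : IsOpen (Om Φ D ρ G) := by
  rw [isOpen_iff_mem_nhds]
  intro s hs
  obtain ⟨k, hk⟩ := exists_k ρ s
  exact Om_nhds S hG k s hk hs

/-- injectivity on good points -/
lemma gg_inj (S : Sys D Φ Φ') (hG : GInf D Φ ρ G) {s t : ℂ} (hs : s ∈ Om Φ D ρ G)
    (ht : t ∈ Om Φ D ρ G) (h : gg Φ D ρ G s = gg Φ D ρ G t) : s = t := by
  have key : ∀ k : ℕ, gg Φ D ρ G (s + k) = gg Φ D ρ G (t + k) := by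
    intro k
    induction k with
    | zero => simpa using h
    | succ k ih =>
      have h1 := congrArg Φ ih
      rw [gg_fe S hG (Om_add hs k), gg_fe S hG (Om_add ht k)] at h1
      have h2 := S.Ps_inj (gg_mem S hG (Om_add_one (Om_add hs k)))
        (gg_mem S hG (Om_add_one (Om_add ht k))) h1
      have e1 : s + k + 1 = s + ((k + 1 : ℕ) : ℂ) := by push_cast; ring
      have e2 : t + k + 1 = t + ((k + 1 : ℕ) : ℂ) := by push_cast; ring
      rw [e1, e2] at h2
      exact h2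
  obtain ⟨k1, hk1⟩ := exists_k ρ s
  obtain ⟨k2, hk2⟩ := exists_k ρ t
  have h3 := key (k1 + k2)
  have hs1 : ρ < (s + ((k1 + k2 : ℕ) : ℂ)).re := by
    simp only [Complex.add_re, Complex.natCast_re]; push_cast
    have : (0 : ℝ) ≤ k2 := Nat.cast_nonneg k2
    linarith
  have ht1 : ρ < (t + ((k1 + k2 : ℕ) : ℂ)).re := by
    simp only [Complex.add_re, Complex.natCast_re]; push_cast
    have : (0 : ℝ) ≤ k1 := Nat.cast_nonneg k1
    linarith
  rw [gg_right S hG (by simpa using hs.1) hs1, gg_right S hG (by simpa using ht.1) ht1] at h3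
  have h4 := hG.inj (norm_gt_of_re hs1) (norm_gt_of_re ht1) h3
  exact add_right_cancel h4

/-- symmetry on a half plane of good points -/
lemma gg_sym (S : Sys D Φ Φ') (hG : GInf D Φ ρ G) {Y : ℝ} (hY : HP Y ⊆ Om Φ D ρ G) {s : ℂ}
    (hs : s ∈ HP Y) : gg Φ D ρ G (rf s) = rf (gg Φ D ρ G s) := by
  have hrf : ∀ s ∈ HP Y, rf s ∈ HP Y := fun s hs => by
    show Y < (rf s).im
    rw [rf_im]; exact hs
  have h1 : AnalyticOnNhd ℂ (gg Φ D ρ G) (HP Y) := by
    apply DifferentiableOn.analyticOnNhd _ (isOpen_HP Y)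
    intro s hs
    exact (gg_diffAt S hG (hY hs)).differentiableWithinAt
  have h2 : AnalyticOnNhd ℂ (fun s => rf (gg Φ D ρ G (rf s))) (HP Y) := by
    apply DifferentiableOn.analyticOnNhd _ (isOpen_HP Y)
    intro s hs
    exact (diff_rf_rf (gg_diffAt S hG (hY (hrf s hs)))).differentiableWithinAt
  set z0 : ℂ := ((max Y ρ + 1 : ℝ) : ℂ) * I with hz0
  have hz0im : z0.im = max Y ρ + 1 := by simp [hz0]
  have hz0Y : z0 ∈ HP Y := by
    show Y < z0.im
    rw [hz0im]; linarith [le_max_left Y ρ]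
  have hz0ρ : ρ < z0.im := by rw [hz0im]; linarith [le_max_right Y ρ]
  have h3 : gg Φ D ρ G =ᶠ[𝓝 z0] fun s => rf (gg Φ D ρ G (rf s)) := by
    filter_upwards [(isOpen_HP ρ).mem_nhds hz0ρ] with z hz
    have hz' : ρ < z.im := hz
    rw [(gg_high S hG hz').2, (gg_high S hG (s := rf z) (by rw [rf_im]; exact hz')).2,
      hG.sy z (norm_gt_of_im hz'), rf_rf]
  have h4 := AnalyticOnNhd.eqOn_of_preconnected_of_eventuallyEq h1 h2
    (convex_HP Y).isPreconnected hz0Y h3 hs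
  have h5 : gg Φ D ρ G s = rf (gg Φ D ρ G (rf s)) := h4
  rw [h5, rf_rf]

lemma sign_of {U : Set ℂ} (hU : IsPreconnected U) {f : ℂ → ℝ} (hf : ContinuousOn f U)
    (h0 : ∀ z ∈ U, f z ≠ 0) {a : ℂ} (ha : a ∈ U) (hpos : 0 < f a) {z : ℂ} (hz : z ∈ U) :
    0 < f z := by
  by_contra hneg
  push Not at hneg
  have h1 := hU.intermediate_value hz ha hf
  obtain ⟨w, hw, hw0⟩ := h1 ⟨hneg, hpos.le⟩
  exact h0 w hw hw0

/-- positivity -/
lemma gg_pos (S : Sys D Φ Φ') (hG : GInf D Φ ρ G) {Y : ℝ} (hY : HP Y ⊆ Om Φ D ρ G) {s : ℂ}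
    (hs : s ∈ HP Y) (hre : 0 < s.re) : 0 < (gg Φ D ρ G s).re := by
  set U : Set ℂ := HP Y ∩ {s | 0 < s.re} with hU
  have hUc : Convex ℝ U := (convex_HP Y).inter (convex_re_gt 0)
  have hcont : ContinuousOn (fun s => (gg Φ D ρ G s).re) U := by
    intro s hs
    exact (Complex.continuous_re.continuousAt.comp
      (gg_diffAt S hG (hY hs.1)).continuousAt).continuousWithinAt
  have hne : ∀ z ∈ U, (gg Φ D ρ G z).re ≠ 0 := by
    intro z hz h
    have h1 : rf (gg Φ D ρ G z) = gg Φ D ρ G z := by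
      apply Complex.ext <;> simp [h]
    rw [← gg_sym S hG hY hz.1] at h1
    have h2 := gg_inj S hG (hY (by show Y < (rf z).im; rw [rf_im]; exact hz.1)) (hY hz.1) h1
    have h3 := congrArg Complex.re h2
    rw [rf_re] at h3
    have : 0 < z.re := hz.2
    linarith
  set z0 : ℂ := ((1 : ℝ) : ℂ) + ((max Y ρ + 1 : ℝ) : ℂ) * I with hz0
  have hz0im : z0.im = max Y ρ + 1 := by simp [hz0]
  have hz0re : z0.re = 1 := by simp [hz0]
  have hz0Y : z0 ∈ HP Y := by
    show Y < z0.im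
    rw [hz0im]; linarith [le_max_left Y ρ]
  have hz0ρ : ρ < z0.im := by rw [hz0im]; linarith [le_max_right Y ρ]
  have hz0U : z0 ∈ U := ⟨hz0Y, by show 0 < z0.re; rw [hz0re]; norm_num⟩
  refine sign_of hUc.isPreconnected hcont hne hz0U ?_ ⟨hs, hre⟩
  rw [(gg_high S hG hz0ρ).2]
  exact hG.rpos z0 (norm_gt_of_im hz0ρ) (by rw [hz0re]; norm_num)

/-- points of the line with `Re ≥ 0` are good -/
lemma line_good (S : Sys D Φ Φ') (hG : GInf D Φ ρ G) {Y : ℝ} (hY0 : 0 < Y)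
    (hY : HP Y ⊆ Om Φ D ρ G) :
    ∀ (k : ℕ) (s : ℂ), ρ < s.re + k → s.im = Y → 0 ≤ s.re → s ∈ Om Φ D ρ G := by
  intro k
  induction k with
  | zero =>
    intro s hk him hre
    exact (gg_far S hG (by simpa using hk) (by rw [him]; exact hY0)).1
  | succ k ih =>
    intro s hk him hre
    have h1 := ih (s + 1) (by
      simp only [Complex.add_re, Complex.one_re]; push_cast at hk; linarith)
      (by simpa using him) (by simp only [Complex.add_re, Complex.one_re]; linarith)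
    refine Om_of_step (by rw [him]; exact hY0) h1 ?_
    set a : ℕ → ℂ := fun j => s + (((1 / ((j : ℝ) + 1) : ℝ)) : ℂ) * (1 + I) with ha
    have hpos : ∀ j : ℕ, 0 < 1 / ((j : ℝ) + 1) := fun j => by positivity
    have him' : ∀ j, (a j).im = Y + 1 / ((j : ℝ) + 1) := by
      intro j
      simp only [ha, Complex.add_im, Complex.im_ofReal_mul, Complex.one_im, Complex.I_im, him]
      ring
    have hre' : ∀ j, (a j).re = s.re + 1 / ((j : ℝ) + 1) := by
      intro j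
      simp only [ha, Complex.add_re, Complex.re_ofReal_mul, Complex.one_re, Complex.I_re]
      ring
    have hHP : ∀ j, a j ∈ HP Y := fun j => by
      show Y < (a j).im
      rw [him' j]; linarith [hpos j]
    have hlim : Tendsto a atTop (𝓝 s) := by
      have h2 : Tendsto (fun j : ℕ => 1 / ((j : ℝ) + 1)) atTop (𝓝 0) :=
        tendsto_one_div_add_atTop_nhds_zero_nat
      have h3 : Tendsto (fun x : ℝ => s + (x : ℂ) * (1 + I)) (𝓝 0) (𝓝 s) := by
        have : ContinuousAt (fun x : ℝ => s + (x : ℂ) * (1 + I)) 0 := by fun_prop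
        simpa using this.tendsto
      exact h3.comp h2
    refine S.prop _ (gg_mem S hG h1) (fun j => gg Φ D ρ G (a j)) (fun j => ⟨?_, ?_⟩) ?_
    · exact gg_mem S hG (hY (hHP j))
    · exact gg_pos S hG hY (hHP j) (by rw [hre' j]; linarith [hpos j])
    · have hc : ContinuousAt (fun z => Ps Φ (gg Φ D ρ G (z + 1))) s := by
        refine ContinuousAt.comp (g := Ps Φ) (f := fun z => gg Φ D ρ G (z + 1))
          (S.Ps_diff (gg_mem S hG h1)).continuousAt ?_
        exact ContinuousAt.comp (g := gg Φ D ρ G) (f := fun z : ℂ => z + 1)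
          (gg_diffAt S hG h1).continuousAt (by fun_prop)
      refine (hc.tendsto.comp hlim).congr fun j => ?_
      exact (gg_fe S hG (hY (hHP j))).symm

/-- a larger half plane is good -/
lemma extend_down (S : Sys D Φ Φ') (hG : GInf D Φ ρ G) {Y : ℝ} (hY0 : 0 < Y)
    (hY : HP Y ⊆ Om Φ D ρ G) : ∃ Y1, 0 ≤ Y1 ∧ Y1 < Y ∧ HP Y1 ⊆ Om Φ D ρ G := by
  have hρ := hG.hρ
  -- compactness
  set K : Set ℂ := (fun x : ℝ => (x : ℂ) + Y * I) '' Icc 0 ρ with hK
  have hKc : IsCompact K := by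
    apply isCompact_Icc.image
    fun_prop
  have hKW : K ⊆ Om Φ D ρ G := by
    rintro _ ⟨x, hx, rfl⟩
    obtain ⟨k, hk⟩ := exists_k ρ ((x : ℂ) + Y * I)
    exact line_good S hG hY0 hY k _ hk (by simp) (by simpa using hx.1)
  obtain ⟨η, hη, hthick⟩ := hKc.exists_thickening_subset_open (Om_open S hG) hKW
  set δ : ℝ := min (η / 4) (Y / 2) with hδ
  have hδ0 : 0 < δ := lt_min (by positivity) (by positivity)
  have hδη : δ ≤ η / 4 := min_le_left _ _
  have hδY : δ ≤ Y / 2 := min_le_right _ _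
  set Y1 : ℝ := Y - δ with hY1
  have hY1p : 0 < Y1 := by rw [hY1]; linarith
  have hY1Y : Y1 < Y := by rw [hY1]; linarith
  -- the right region
  have hR : ∀ s : ℂ, -δ < s.re → Y1 < s.im → s ∈ Om Φ D ρ G := by
    intro s hre him
    rcases lt_or_ge Y s.im with h | h
    · exact hY h
    rcases lt_or_ge ρ s.re with h2 | h2
    · exact (gg_far S hG h2 (lt_trans hY1p him)).1
    apply hthick
    rw [Metric.mem_thickening_iff]
    refine ⟨((max s.re 0 : ℝ) : ℂ) + Y * I, ⟨max s.re 0, ⟨le_max_right _ _, max_le h2 hρ.le⟩, rfl⟩, ?_⟩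
    rw [dist_eq_norm]
    refine lt_of_le_of_lt (Complex.norm_le_abs_re_add_abs_im _) ?_
    have e1 : (s - (((max s.re 0 : ℝ) : ℂ) + Y * I)).re = s.re - max s.re 0 := by simp
    have e2 : (s - (((max s.re 0 : ℝ) : ℂ) + Y * I)).im = s.im - Y := by simp
    rw [e1, e2]
    have h3 : |s.re - max s.re 0| ≤ δ := by
      rw [abs_le]
      constructor
      · rcases le_total s.re 0 with h5 | h5
        · rw [max_eq_right h5]; linarith
        · rw [max_eq_left h5]; linarith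
      · have := le_max_left s.re 0
        linarith
    have h4 : |s.im - Y| ≤ δ := by
      rw [abs_le]; constructor <;> [rw [hY1] at him; skip] <;> linarith
    linarith
  -- analyticity of `g*`
  have hgd : ∀ s : ℂ, -δ < s.re → Y1 < s.im → DifferentiableAt ℂ (gg Φ D ρ G) s :=
    fun s h1 h2 => gg_diffAt S hG (hR s h1 h2)
  have hsd : ∀ s : ℂ, s.re < δ → Y1 < s.im →
      DifferentiableAt ℂ (fun s => rf (gg Φ D ρ G (rf s))) s := by
    intro s h1 h2
    exact diff_rf_rf (hgd _ (by rw [rf_re]; linarith) (by rw [rf_im]; exact h2))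
  have hsD : ∀ s : ℂ, s.re < δ → Y1 < s.im → rf (gg Φ D ρ G (rf s)) ∈ D := by
    intro s h1 h2
    exact S.sy _ (gg_mem S hG (hR _ (by rw [rf_re]; linarith) (by rw [rf_im]; exact h2)))
  -- agreement on the thin box
  have hA : ∀ s : ℂ, -δ < s.re → s.re < δ → Y1 < s.im →
      gg Φ D ρ G s = rf (gg Φ D ρ G (rf s)) := by
    intro s h1 h2 h3
    set U : Set ℂ := ({s | -δ < s.re} ∩ {s | s.re < δ}) ∩ HP Y1 with hU
    have hUo : IsOpen U := ((isOpen_lt continuous_const Complex.continuous_re).inter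
      (isOpen_lt Complex.continuous_re continuous_const)).inter (isOpen_HP Y1)
    have hUc : Convex ℝ U := ((convex_re_gt _).inter (convex_re_lt _)).inter (convex_HP Y1)
    have a1 : AnalyticOnNhd ℂ (gg Φ D ρ G) U := by
      apply DifferentiableOn.analyticOnNhd _ hUo
      intro z hz
      exact (hgd z hz.1.1 hz.2).differentiableWithinAt
    have a2 : AnalyticOnNhd ℂ (fun s => rf (gg Φ D ρ G (rf s))) U := by
      apply DifferentiableOn.analyticOnNhd _ hUo
      intro z hz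
      exact (hsd z hz.1.2 hz.2).differentiableWithinAt
    set z0 : ℂ := ((Y + 1 : ℝ) : ℂ) * I with hz0
    have hz0im : z0.im = Y + 1 := by simp [hz0]
    have hz0re : z0.re = 0 := by simp [hz0]
    have hz0U : z0 ∈ U := by
      refine ⟨⟨?_, ?_⟩, ?_⟩
      · show -δ < z0.re
        rw [hz0re]; linarith
      · show z0.re < δ
        rw [hz0re]; exact hδ0
      · show Y1 < z0.im
        rw [hz0im]; linarith
    have hz0Y : z0 ∈ HP Y := by show Y < z0.im; rw [hz0im]; linarith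
    have a3 : gg Φ D ρ G =ᶠ[𝓝 z0] fun s => rf (gg Φ D ρ G (rf s)) := by
      filter_upwards [(isOpen_HP Y).mem_nhds hz0Y] with z hz
      rw [gg_sym S hG hY hz, rf_rf]
    exact AnalyticOnNhd.eqOn_of_preconnected_of_eventuallyEq a1 a2 hUc.isPreconnected hz0U a3
      ⟨⟨h1, h2⟩, h3⟩
  -- the functional equation for `g*` on the strip
  have hB : ∀ s : ℂ, -1 - δ < s.re → s.re < δ → Y1 < s.im →
      Φ (rf (gg Φ D ρ G (rf s))) = Ps Φ (gg Φ D ρ G (s + 1)) := by
    intro s h1 h2 h3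
    set U : Set ℂ := ({s | -1 - δ < s.re} ∩ {s | s.re < δ}) ∩ HP Y1 with hU
    have hUo : IsOpen U := ((isOpen_lt continuous_const Complex.continuous_re).inter
      (isOpen_lt Complex.continuous_re continuous_const)).inter (isOpen_HP Y1)
    have hUc : Convex ℝ U := ((convex_re_gt _).inter (convex_re_lt _)).inter (convex_HP Y1)
    have hs1 : ∀ z ∈ U, z + 1 ∈ Om Φ D ρ G ∧ DifferentiableAt ℂ (gg Φ D ρ G) (z + 1) := by
      intro z hz
      have q1 : -1 - δ < z.re := hz.1.1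
      have q2 : Y1 < z.im := hz.2
      have q3 : -δ < (z + 1).re := by simp only [Complex.add_re, Complex.one_re]; linarith
      have q4 : Y1 < (z + 1).im := by simpa using q2
      exact ⟨hR _ q3 q4, hgd _ q3 q4⟩
    have a1 : AnalyticOnNhd ℂ (fun s => Φ (rf (gg Φ D ρ G (rf s)))) U := by
      apply DifferentiableOn.analyticOnNhd _ hUo
      intro z hz
      refine DifferentiableAt.differentiableWithinAt ?_
      exact DifferentiableAt.comp (g := Φ) (f := fun s => rf (gg Φ D ρ G (rf s))) z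
        (S.dr _ (hsD z hz.1.2 hz.2)).hasDerivAt.differentiableAt (hsd z hz.1.2 hz.2)
    have a2 : AnalyticOnNhd ℂ (fun s => Ps Φ (gg Φ D ρ G (s + 1))) U := by
      apply DifferentiableOn.analyticOnNhd _ hUo
      intro z hz
      refine DifferentiableAt.differentiableWithinAt ?_
      refine DifferentiableAt.comp (g := Ps Φ) (f := fun s => gg Φ D ρ G (s + 1)) z
        (S.Ps_diff (gg_mem S hG (hs1 z hz).1)) ?_
      exact DifferentiableAt.comp (g := gg Φ D ρ G) (f := fun z : ℂ => z + 1) z (hs1 z hz).2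
        (by fun_prop)
    set z0 : ℂ := ((Y + 1 : ℝ) : ℂ) * I with hz0
    have hz0im : z0.im = Y + 1 := by simp [hz0]
    have hz0re : z0.re = 0 := by simp [hz0]
    have hz0U : z0 ∈ U := by
      refine ⟨⟨?_, ?_⟩, ?_⟩
      · show -1 - δ < z0.re
        rw [hz0re]; linarith
      · show z0.re < δ
        rw [hz0re]; exact hδ0
      · show Y1 < z0.im
        rw [hz0im]; linarith
    have hz0Y : z0 ∈ HP Y := by show Y < z0.im; rw [hz0im]; linarith
    have a3 : (fun s => Φ (rf (gg Φ D ρ G (rf s)))) =ᶠ[𝓝 z0]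
        fun s => Ps Φ (gg Φ D ρ G (s + 1)) := by
      filter_upwards [(isOpen_HP Y).mem_nhds hz0Y] with z hz
      rw [gg_sym S hG hY hz, rf_rf]
      exact gg_fe S hG (hY hz)
    exact AnalyticOnNhd.eqOn_of_preconnected_of_eventuallyEq a1 a2 hUc.isPreconnected hz0U a3
      ⟨⟨h1, h2⟩, h3⟩
  -- induction to the left
  have hC : ∀ (m : ℕ) (s : ℂ), -(m : ℝ) - δ < s.re → s.re < δ → Y1 < s.im →
      s ∈ Om Φ D ρ G ∧ gg Φ D ρ G s = rf (gg Φ D ρ G (rf s)) := by
    intro m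
    induction m with
    | zero =>
      intro s h1 h2 h3
      have h1' : -δ < s.re := by simpa using h1
      exact ⟨hR s h1' h3, hA s h1' h2 h3⟩
    | succ m ih =>
      intro s h1 h2 h3
      have him : 0 < s.im := lt_trans hY1p h3
      have hrs : rf s ∈ Om Φ D ρ G := hR _ (by rw [rf_re]; linarith) (by rw [rf_im]; exact h3)
      rcases lt_or_ge (-1 - δ) s.re with h4 | h4
      · have hb := hB s h4 h2 h3
        have hs1 : s + 1 ∈ Om Φ D ρ G := hR _
          (by simp only [Complex.add_re, Complex.one_re]; linarith) (by simpa using h3)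
        have hw : Ps Φ (gg Φ D ρ G (s + 1)) ∈ Φ '' D := ⟨_, hsD s h2 h3, hb⟩
        have hs := Om_of_step him hs1 hw
        refine ⟨hs, ?_⟩
        apply S.inj (gg_mem S hG hs) (hsD s h2 h3)
        rw [hb]; exact gg_fe S hG hs
      · -- `s + 1` by induction, `rf s - 1` in the right region
        have hre1 : (s + 1).re = s.re + 1 := by simp
        obtain ⟨hs1, he1⟩ := ih (s + 1) (by rw [hre1]; push_cast at h1; linarith)
          (by rw [hre1]; linarith) (by simpa using h3)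
        have hc : rf (s + 1) ∈ Om Φ D ρ G := hR _ (by rw [rf_re, hre1]; linarith)
          (by rw [rf_im]; simpa using h3)
        have hfe := gg_fe S hG hc
        have e : rf (s + 1) + 1 = rf s := by rw [rf_add_one]; ring
        rw [e] at hfe
        have hP : Ps Φ (gg Φ D ρ G (s + 1)) = Φ (rf (gg Φ D ρ G (rf s))) := by
          rw [he1]
          unfold Ps
          rw [rf_rf, hfe]
          unfold Ps
          exact Complex.conj_conj _
        have hw : Ps Φ (gg Φ D ρ G (s + 1)) ∈ Φ '' D := ⟨_, hsD s h2 h3, hP.symm⟩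
        have hs := Om_of_step him hs1 hw
        refine ⟨hs, ?_⟩
        apply S.inj (gg_mem S hG hs) (hsD s h2 h3)
        rw [← hP]; exact gg_fe S hG hs
  refine ⟨Y1, hY1p.le, hY1Y, fun s hs => ?_⟩
  rcases lt_or_ge s.re δ with h | h
  · obtain ⟨m, hm⟩ := exists_nat_gt (-s.re)
    exact (hC m s (by linarith) h hs).1
  · exact hR s (by linarith) hs

/-- **Pick extension** -/
theorem all_good (S : Sys D Φ Φ') (hG : GInf D Φ ρ G) : HP 0 ⊆ Om Φ D ρ G := by
  set A : Set ℝ := {Y | 0 ≤ Y ∧ HP Y ⊆ Om Φ D ρ G} with hA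
  have hAne : A.Nonempty := ⟨ρ, hG.hρ.le, fun s hs => (gg_high S hG hs).1⟩
  have hAb : BddBelow A := ⟨0, fun Y hY => hY.1⟩
  set Y0 := sInf A with hY0
  have h0 : 0 ≤ Y0 := le_csInf hAne fun Y hY => hY.1
  have h1 : HP Y0 ⊆ Om Φ D ρ G := by
    intro s hs
    obtain ⟨Y, hY, hYs⟩ := exists_lt_of_csInf_lt hAne (show sInf A < s.im from hs)
    exact hY.2 hYs
  rcases h0.lt_or_eq with h | h
  · exfalso
    obtain ⟨Y1, hY1, hY1Y, hY1'⟩ := extend_down S hG h h1
    have := csInf_le hAb (show Y1 ∈ A from ⟨hY1, hY1'⟩)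
    linarith
  · rw [← h] at h1; exact h1

/-- packaged form -/
theorem ext (S : Sys D Φ Φ') (hG : GInf D Φ ρ G) : ∃ g : ℂ → ℂ,
    DifferentiableOn ℂ g (HP 0) ∧ (∀ s ∈ HP 0, g s ∈ D) ∧
    (∀ s ∈ HP 0, Φ (g s) = Ps Φ (g (s + 1))) ∧
    (∀ s ∈ HP 0, ρ < ‖s‖ → g s = G s) ∧ (∀ s ∈ HP 0, g (rf s) = rf (g s)) ∧
    InjOn g (HP 0) ∧ (∀ s ∈ HP 0, 0 < s.re → 0 < (g s).re) := by
  have hall := all_good S hG
  have hfar : ∀ s ∈ HP 0, ρ < ‖s‖ → 0 ≤ s.re → gg Φ D ρ G s = G s := by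
    intro s hs hn hre
    obtain ⟨k, hk⟩ := exists_k ρ s
    refine (gg_out S hG k s hk hs fun j => ?_).2
    refine lt_of_lt_of_le hn ?_
    rw [Complex.norm_def, Complex.norm_def]
    apply Real.sqrt_le_sqrt
    rw [Complex.normSq_apply, Complex.normSq_apply]
    simp only [Complex.add_re, Complex.natCast_re, Complex.add_im, Complex.natCast_im, add_zero]
    have : (0 : ℝ) ≤ j := Nat.cast_nonneg j
    nlinarith
  refine ⟨gg Φ D ρ G, fun s hs => (gg_diffAt S hG (hall hs)).differentiableWithinAt,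
    fun s hs => gg_mem S hG (hall hs), fun s hs => gg_fe S hG (hall hs), ?_,
    fun s hs => gg_sym S hG hall hs, fun s hs t ht h => gg_inj S hG (hall hs) (hall ht) h,
    fun s hs hre => gg_pos S hG hall hs hre⟩
  intro s hs hn
  rcases le_total 0 s.re with h | h
  · exact hfar s hs hn h
  · have hs' : rf s ∈ HP 0 := by show 0 < (rf s).im; rw [rf_im]; exact hs
    have h1 := hfar (rf s) hs' (by rw [rf_norm]; exact hn) (by rw [rf_re]; linarith)
    rw [gg_sym S hG hall hs, hG.sy s hn] at h1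
    rw [← rf_rf (gg Φ D ρ G s), h1, rf_rf]

end Crest.Agent.R102.PickExt348
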