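import Mathlib
import Crest.Agent.R102.Marc_295

/-!
Row 102, T1-B, EDGE, slow label regime (helper198): point picking with a growth function, over the
tree of windows `(x, u, s)`, `u` in a set `F` (closed or not) with finite Marcinkiewicz integral at
ONE point `u0`.

* `pickG`     : abstract point picking with a multiplicative growth function;
* `Win`, `rr`, `G` : windows, joint size, growth `(ρ/s)^θ (ρ/s')²`; `G_tri`;
* `side_M`    : the Marcinkiewicz integral at the picked point;
* `slow_pick` : the packaged statement.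
-/

set_option autoImplicit false

open Set Filter Topology Metric MeasureTheory
open scoped ENNReal

noncomputable section

namespace Crest.Agent.R102.PickG198

open Crest.Agent.R102.Marc295 (MI dn MI_eq)

/-! ### point picking -/

/-- **(P1) point picking with a growth function** -/
theorem pickG {ι : Type*} {V : ℝ → Set ι} {e : ι → ℝ} {G : ι → ι → ℝ} {k ε : ℝ} {W0 : ι}
    (hW0 : W0 ∈ V (k / 2)) (he0 : 0 < e W0) (hk : 0 < k)
    (hε : ∀ κ, κ ≤ k → ∀ W ∈ V κ, e W ≤ ε) (heps : 4 * √ε ≤ k / 2)
    (hG1 : ∀ W W', 1 ≤ G W W') (hrefl : ∀ W, G W W = 1)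
    (htri : ∀ W W' W'', G W W'' ≤ G W W' * G W' W'') :
    ∃ κ W, k / 2 ≤ κ ∧ κ + √(e W) ≤ k ∧ W ∈ V κ ∧ G W0 W * e W0 ≤ e W ∧
      ∀ W' ∈ V (κ + √(e W)), e W' ≤ 2 * G W W' * e W := by
  by_contra hcon
  push Not at hcon
  have key : ∀ n : ℕ, ∃ κ W, k / 2 ≤ κ ∧ κ ≤ k / 2 + 3 * √(e W) ∧ κ ≤ k ∧ W ∈ V κ ∧
      G W0 W * (2 ^ n * e W0) ≤ e W := by
    intro n
    induction n with
    | zero =>
      refine ⟨k / 2, W0, le_rfl, ?_, by linarith, hW0, ?_⟩
      · have := Real.sqrt_nonneg (e W0)
        linarith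
      · rw [hrefl]
        simp
    | succ n ih =>
      obtain ⟨κ, W, h1, h2, h3, h4, h5⟩ := ih
      have hE2 := hε κ h3 W h4
      have hsq : √(e W) ≤ √ε := Real.sqrt_le_sqrt hE2
      have hsq0 := Real.sqrt_nonneg (e W)
      have hk' : κ + √(e W) ≤ k := by linarith
      have hG0 := hG1 W0 W
      have hpw : (1 : ℝ) ≤ 2 ^ n := one_le_pow₀ (by norm_num)
      have hge : G W0 W * e W0 ≤ e W := by
        refine le_trans ?_ h5
        refine mul_le_mul_of_nonneg_left ?_ (by linarith)
        nlinarith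
      have hpos : 0 < e W := lt_of_lt_of_le (by nlinarith) hge
      obtain ⟨W', hW', hlt⟩ := hcon κ W h1 hk' h4 hge
      have hG' := hG1 W W'
      have h2x : 2 * e W ≤ e W' := by
        refine le_trans ?_ hlt.le
        nlinarith
      refine ⟨κ + √(e W), W', by linarith, ?_, hk', hW', ?_⟩
      · have hr : 7 / 5 * √(e W) ≤ √(e W') := by
          refine Real.le_sqrt_of_sq_le ?_
          have := Real.sq_sqrt hpos.le
          nlinarith
        linarith
      · calc G W0 W' * (2 ^ (n + 1) * e W0)
            ≤ (G W0 W * G W W') * (2 ^ (n + 1) * e W0) :=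
              mul_le_mul_of_nonneg_right (htri _ _ _) (by positivity)
          _ = 2 * G W W' * (G W0 W * (2 ^ n * e W0)) := by ring
          _ ≤ 2 * G W W' * e W := mul_le_mul_of_nonneg_left h5 (by linarith)
          _ ≤ _ := hlt.le
  obtain ⟨n, hn⟩ := pow_unbounded_of_one_lt (ε / e W0) (one_lt_two (α := ℝ))
  obtain ⟨κ, W, -, -, h3, h4, h5⟩ := key n
  have h6 := hε κ h3 W h4
  rw [div_lt_iff₀ he0] at hn
  have h7 := hG1 W0 W
  have h8 : (0 : ℝ) < 2 ^ n * e W0 := by positivity
  nlinarith

/-! ### windows -/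

/-- a window `(x, u, s)` -/
structure Win where
  x : ℝ
  u : ℝ
  s : ℝ
  pos : 0 < s

/-- joint size of two windows -/
def rr (W W' : Win) : ℝ := max W.s W'.s + |W.x - W'.x| + |W.u - W'.u|

/-- the growth function -/
def G (θ : ℝ) (W W' : Win) : ℝ := (rr W W' / W.s) ^ θ * (rr W W' / W'.s) ^ 2

theorem le_rr_left (W W' : Win) : W.s ≤ rr W W' := by
  unfold rr
  have := le_max_left W.s W'.s
  have := abs_nonneg (W.x - W'.x)
  have := abs_nonneg (W.u - W'.u)
  linarith

theorem le_rr_right (W W' : Win) : W'.s ≤ rr W W' := by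
  unfold rr
  have := le_max_right W.s W'.s
  have := abs_nonneg (W.x - W'.x)
  have := abs_nonneg (W.u - W'.u)
  linarith

theorem rr_pos (W W' : Win) : 0 < rr W W' := W.pos.trans_le (le_rr_left W W')

theorem du_le_rr (W W' : Win) : |W.u - W'.u| ≤ rr W W' := by
  unfold rr
  have := W.pos.le.trans (le_max_left W.s W'.s)
  have := abs_nonneg (W.x - W'.x)
  linarith

theorem dx_le_rr (W W' : Win) : |W.x - W'.x| ≤ rr W W' := by
  unfold rr
  have := W.pos.le.trans (le_max_left W.s W'.s)
  have := abs_nonneg (W.u - W'.u)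
  linarith

theorem rr_self (W : Win) : rr W W = W.s := by
  unfold rr
  simp

theorem G_refl (θ : ℝ) (W : Win) : G θ W W = 1 := by
  unfold G
  rw [rr_self, div_self W.pos.ne', Real.one_rpow]
  norm_num

theorem one_le_G {θ : ℝ} (hθ : 0 ≤ θ) (W W' : Win) : 1 ≤ G θ W W' := by
  unfold G
  have h1 : (1 : ℝ) ≤ (rr W W' / W.s) ^ θ :=
    Real.one_le_rpow ((one_le_div W.pos).2 (le_rr_left W W')) hθ
  have h2 : (1 : ℝ) ≤ (rr W W' / W'.s) ^ 2 :=
    one_le_pow₀ ((one_le_div W'.pos).2 (le_rr_right W W'))
  nlinarith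

theorem rr_mul (W W' W'' : Win) : rr W W'' * W'.s ≤ rr W W' * rr W' W'' := by
  have hx := abs_sub_le W.x W'.x W''.x
  have hu := abs_sub_le W.u W'.u W''.u
  have h0 := W.pos
  have h0' := W'.pos
  have h0'' := W''.pos
  unfold rr
  set d1 := |W.x - W'.x| + |W.u - W'.u| with hd1
  set d2 := |W'.x - W''.x| + |W'.u - W''.u| with hd2
  have hd1n : 0 ≤ d1 := by positivity
  have hd2n : 0 ≤ d2 := by positivity
  have e1 : max W.s W'.s + |W.x - W'.x| + |W.u - W'.u| = max W.s W'.s + d1 := by rw [hd1]; ring
  have e2 : max W'.s W''.s + |W'.x - W''.x| + |W'.u - W''.u| = max W'.s W''.s + d2 := by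
    rw [hd2]; ring
  rw [e1, e2]
  have h1 : max W.s W''.s * W'.s ≤ max W.s W'.s * max W'.s W''.s := by
    rcases le_total W.s W''.s with h | h
    · rw [max_eq_right h]
      have := le_max_right W.s W'.s
      have := le_max_right W'.s W''.s
      nlinarith
    · rw [max_eq_left h]
      have := le_max_left W.s W'.s
      have := le_max_left W'.s W''.s
      nlinarith
  have h2 := le_max_right W.s W'.s
  have h3 := le_max_left W'.s W''.s
  nlinarith

/-- **triangle inequality for the growth function** -/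
theorem G_tri {θ : ℝ} (hθ : 0 ≤ θ) (W W' W'' : Win) : G θ W W'' ≤ G θ W W' * G θ W' W'' := by
  have h0 := W.pos
  have h0' := W'.pos
  have h0'' := W''.pos
  have r1 := rr_pos W W''
  have r2 := rr_pos W W'
  have r3 := rr_pos W' W''
  have hm := rr_mul W W' W''
  have hm' : rr W W'' ≤ rr W W' * rr W' W'' / W'.s := by
    rw [le_div_iff₀ h0']
    exact hm
  unfold G
  have e1 : (rr W W'' / W.s) ^ θ ≤ (rr W W' / W.s) ^ θ * (rr W' W'' / W'.s) ^ θ := by
    rw [← Real.mul_rpow (by positivity) (by positivity)]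
    refine Real.rpow_le_rpow (by positivity) ?_ hθ
    calc rr W W'' / W.s ≤ (rr W W' * rr W' W'' / W'.s) / W.s :=
          div_le_div_of_nonneg_right hm' h0.le
      _ = _ := by field_simp
  have e2 : (rr W W'' / W''.s) ^ 2 ≤ (rr W W' / W'.s) ^ 2 * (rr W' W'' / W''.s) ^ 2 := by
    rw [← mul_pow]
    refine pow_le_pow_left₀ (by positivity) ?_ 2
    calc rr W W'' / W''.s ≤ (rr W W' * rr W' W'' / W'.s) / W''.s :=
          div_le_div_of_nonneg_right hm' h0''.le
      _ = _ := by field_simp
  calc (rr W W'' / W.s) ^ θ * (rr W W'' / W''.s) ^ 2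
      ≤ ((rr W W' / W.s) ^ θ * (rr W' W'' / W'.s) ^ θ) *
        ((rr W W' / W'.s) ^ 2 * (rr W' W'' / W''.s) ^ 2) :=
        mul_le_mul e1 e2 (by positivity) (by positivity)
    _ = _ := by ring

/-! ### the Marcinkiewicz integral at the picked point -/

/-- relative mean gap at scale `ρ` -/
def A2 (F : Set ℝ) (ρ x : ℝ) : ℝ≥0∞ := ∫⁻ y in Ioo (x - ρ) (x + ρ), ENNReal.ofReal (infDist y F / ρ ^ 2)

/-- the side integral at `(u, σ)` -/
def SM (F : Set ℝ) (r σ x : ℝ) : ℝ≥0∞ :=
  ∫⁻ t in Ioo (-r) r, ENNReal.ofReal (infDist (x + t) F / (t ^ 2 + σ ^ 2))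

lemma SM_eq (F : Set ℝ) {r σ : ℝ} (x : ℝ) : SM F r σ x =
    ∫⁻ y in Ioo (x - r) (x + r), ENNReal.ofReal (infDist y F / ((y - x) ^ 2 + σ ^ 2)) := by
  have hm : Measurable (fun y => ENNReal.ofReal (infDist y F / ((y - x) ^ 2 + σ ^ 2))) := by
    exact ENNReal.measurable_ofReal.comp
      (((continuous_infDist_pt F).measurable).div
        (((measurable_id.sub_const x).pow_const 2).add_const _))
  have h := (measurePreserving_add_left (volume : Measure ℝ) x).setLIntegral_comp_preimage
    (s := Ioo (x - r) (x + r)) (f := fun y => ENNReal.ofReal (infDist y F / ((y - x) ^ 2 + σ ^ 2)))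
    measurableSet_Ioo hm
  rw [← h]
  have e : (fun t : ℝ => x + t) ⁻¹' Ioo (x - r) (x + r) = Ioo (-r) r := by
    ext t
    simp only [mem_preimage, mem_Ioo]
    constructor
    · rintro ⟨h1, h2⟩
      constructor <;> linarith
    · rintro ⟨h1, h2⟩
      constructor <;> linarith
  rw [e]
  unfold SM
  refine lintegral_congr fun t => ?_
  congr 2
  ring

/-- **(P3)** the side integral at a point `us` at distance `≤ ρ` of `u0` -/
theorem side_M {F : Set ℝ} {u0 us σ ρ r : ℝ} (hσ : 0 < σ) (hρ : σ ≤ ρ) (hd : |us - u0| ≤ ρ) :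
    SM F r σ us ≤ 3 * MI F (2 * r) u0 + ENNReal.ofReal (9 * (ρ / σ) ^ 2) * A2 F (3 * ρ) u0 := by
  have hρ0 : 0 < ρ := hσ.trans_le hρ
  rw [SM_eq, MI_eq]
  unfold A2
  rw [← lintegral_indicator measurableSet_Ioo, ← lintegral_indicator measurableSet_Ioo,
    ← lintegral_indicator measurableSet_Ioo, ← lintegral_const_mul', ← lintegral_const_mul',
    ← lintegral_add_left']
  · refine lintegral_mono fun y => ?_
    by_cases hy : y ∈ Ioo (us - r) (us + r)
    · rw [indicator_of_mem hy]
      have hD : 0 ≤ infDist y F := infDist_nonneg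
      have hdd := abs_le.1 hd
      by_cases h2 : |y - us| < 2 * ρ
      · have h2' := abs_lt.1 h2
        have hmem : y ∈ Ioo (u0 - 3 * ρ) (u0 + 3 * ρ) := ⟨by linarith, by linarith⟩
        rw [indicator_of_mem hmem]
        refine le_trans ?_ le_add_self
        rw [← ENNReal.ofReal_mul (by positivity)]
        refine ENNReal.ofReal_le_ofReal ?_
        have e1 : 9 * (ρ / σ) ^ 2 * (infDist y F / (3 * ρ) ^ 2) = infDist y F / σ ^ 2 := by
          field_simp
          ring
        rw [e1]
        refine div_le_div_of_nonneg_left hD (by positivity) ?_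
        nlinarith [sq_nonneg (y - us)]
      · push Not at h2
        have h3 : |y - u0| ≤ 3 / 2 * |y - us| := by
          have : y - u0 = (y - us) + (us - u0) := by ring
          rw [this]
          have := abs_add_le (y - us) (us - u0)
          linarith
        have h4 : |y - us| / 2 ≤ |y - u0| := by
          have h5 : |y - us| ≤ |y - u0| + |us - u0| := by
            have : y - us = (y - u0) - (us - u0) := by ring
            rw [this]
            exact abs_sub _ _
          linarith
        have hyr : |y - us| < r := by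
          rw [abs_lt]
          exact ⟨by linarith [hy.1], by linarith [hy.2]⟩
        have h6 : |y - u0| < 2 * r := by
          have := abs_nonneg (y - us)
          linarith
        have h6' := abs_lt.1 h6
        have hmem : y ∈ Ioo (u0 - 2 * r) (u0 + 2 * r) := ⟨by linarith, by linarith⟩
        rw [indicator_of_mem hmem]
        refine le_trans ?_ le_self_add
        unfold dn
        have e3 : (3 : ℝ≥0∞) = ENNReal.ofReal 3 := by norm_num
        rw [e3, ← ENNReal.ofReal_mul (by norm_num)]
        refine ENNReal.ofReal_le_ofReal ?_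
        have hpos : 0 < |y - us| := by linarith
        have hpos' : 0 < |y - u0| := by linarith
        have q1 : 0 < (y - u0) ^ 2 := by rw [← sq_abs]; positivity
        have q2 : (y - u0) ^ 2 ≤ 3 * ((y - us) ^ 2 + σ ^ 2) := by
          rw [← sq_abs (y - u0), ← sq_abs (y - us)]
          nlinarith [sq_nonneg σ, abs_nonneg (y - u0)]
        rw [← mul_div_assoc, div_le_div_iff₀ (by positivity) q1]
        nlinarith
    · rw [indicator_of_notMem hy]
      exact zero_le
  · refine Measurable.aemeasurable ?_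
    refine (measurable_const.mul ?_)
    refine Measurable.indicator ?_ measurableSet_Ioo
    unfold dn
    exact ENNReal.measurable_ofReal.comp
      (((continuous_infDist_pt F).measurable).div ((measurable_id.sub_const u0).pow_const 2))
  · exact ENNReal.ofReal_ne_top
  · norm_num

end Crest.Agent.R102.PickG198
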