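import Mathlib

/-!
Row 102, T1-B, EDGE, slow regime (helper295): **the weighted picking lemma**.

`Z` = windows, `tree κ` = windows all of whose ancestors have label within `κ`, `good` = windows
which see births, `E` = oscillation (truncated at `1`), `w` = weight (`1 ≤ w`, submultiplicative
up to `C`).  From a good window `z₀` one reaches a window `z` with `E z₀ * w z₀ z ≤ E z` which is
either bad, or good and dominating: `E z' ≤ A * E z * w z z'` on `tree (κ + E z ^ (1/4))`.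

`wt` : the weight `(D / s) ^ θ * (D / s') ^ 4`, `D = max (s, s', |x - x'|, |u - u'|)`.
-/

set_option autoImplicit false

open Set Filter Topology

noncomputable section

namespace Crest.Agent.R102.PickW295

/-- fourth root -/
def rt (x : ℝ) : ℝ := Real.sqrt (Real.sqrt x)

lemma rt_nonneg (x : ℝ) : 0 ≤ rt x := Real.sqrt_nonneg _

lemma rt_mono {x y : ℝ} (h : x ≤ y) : rt x ≤ rt y := Real.sqrt_le_sqrt (Real.sqrt_le_sqrt h)

lemma rt_double {x y : ℝ} (hx : 0 ≤ x) (h : 16 * x ≤ y) : 2 * rt x ≤ rt y := by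
  refine le_trans (le_of_eq ?_) (rt_mono h)
  unfold rt
  rw [show (16 : ℝ) * x = 4 ^ 2 * x by norm_num, Real.sqrt_mul (by norm_num),
    Real.sqrt_sq (by norm_num), Real.sqrt_mul (by norm_num), show (4 : ℝ) = 2 ^ 2 by norm_num,
    Real.sqrt_sq (by norm_num)]

/-- **the weighted picking lemma** -/
theorem pickW {Z : Type*} {tree : ℝ → Set Z} {good : Set Z} {E : Z → ℝ} {w : Z → Z → ℝ}
    {A C k ε κ0 : ℝ} (hA : C ≤ A) (hA16 : 16 ≤ A)
    (hw1 : ∀ z z', 1 ≤ w z z') (hw : ∀ z z' z'', w z z'' ≤ C * (w z z' * w z' z''))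
    (hE0 : ∀ z, 0 ≤ E z) (hE1 : ∀ z, E z ≤ 1)
    (hgood : ∀ κ, κ ≤ k → ∀ z ∈ tree κ, z ∈ good → E z ≤ ε)
    (hε : κ0 + 2 * rt ε ≤ k) {z0 : Z} (hz0 : z0 ∈ tree κ0) (hg0 : z0 ∈ good)
    (hw0 : w z0 z0 ≤ 1) (hpos : 0 < E z0) :
    ∃ (z : Z) (κ : ℝ), κ0 ≤ κ ∧ κ ≤ k ∧ z ∈ tree κ ∧ E z0 * w z0 z ≤ E z ∧
      (z ∉ good ∨ (z ∈ good ∧ κ + rt (E z) ≤ k ∧
        ∀ z' ∈ tree (κ + rt (E z)), E z' ≤ A * (E z * w z z'))) := by
  have hk0 : κ0 ≤ k := by linarith [rt_nonneg ε]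
  have hC0 : 0 ≤ C := by
    have h1 := hw z0 z0 z0
    have h2 := hw1 z0 z0
    by_contra hc
    push Not at hc
    have h3 : C * (w z0 z0 * w z0 z0) < 0 := mul_neg_of_neg_of_pos hc (by positivity)
    linarith
  have key : ∀ (n : ℕ) (z : Z) (κ : ℝ), κ0 ≤ κ → κ ≤ κ0 + rt (E z) → z ∈ tree κ → z ∈ good →
      κ ≤ k → 0 < E z → E z0 * w z0 z ≤ E z → 1 < 2 ^ n * E z →
      ∃ (z : Z) (κ : ℝ), κ0 ≤ κ ∧ κ ≤ k ∧ z ∈ tree κ ∧ E z0 * w z0 z ≤ E z ∧
      (z ∉ good ∨ (z ∈ good ∧ κ + rt (E z) ≤ k ∧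
        ∀ z' ∈ tree (κ + rt (E z)), E z' ≤ A * (E z * w z z'))) := by
    intro n
    induction n with
    | zero =>
      intro z κ _ _ _ _ _ _ _ h
      rw [pow_zero, one_mul] at h
      exact absurd (hE1 z) (not_le.2 h)
    | succ n ih =>
      intro z κ h1 h2 h3 h4 h5 h6 h7 h8
      have hEz : E z ≤ ε := hgood κ h5 z h3 h4
      have hκ' : κ + rt (E z) ≤ k := by
        have := rt_mono hEz
        linarith
      by_cases hdom : ∀ z' ∈ tree (κ + rt (E z)), E z' ≤ A * (E z * w z z')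
      · exact ⟨z, κ, h1, h5, h3, h7, Or.inr ⟨h4, hκ', hdom⟩⟩
      · push Not at hdom
        obtain ⟨z', hz', hlt⟩ := hdom
        have hAE : 0 ≤ A * E z := mul_nonneg (by linarith) h6.le
        have h9 : A * E z ≤ A * (E z * w z z') := by
          have := mul_le_mul_of_nonneg_left (hw1 z z') hAE
          linarith
        have h10 : 16 * E z ≤ E z' := by
          have := mul_le_mul_of_nonneg_right hA16 h6.le
          linarith
        have h11 : 0 < E z' := by linarith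
        have h12 : E z0 * w z0 z' ≤ E z' := by
          have a1 : E z0 * w z0 z' ≤ E z0 * (C * (w z0 z * w z z')) :=
            mul_le_mul_of_nonneg_left (hw _ _ _) (hE0 _)
          have a2 : E z0 * (C * (w z0 z * w z z')) = C * ((E z0 * w z0 z) * w z z') := by ring
          have hwp : 0 ≤ w z z' := by linarith [hw1 z z']
          have a3 : C * ((E z0 * w z0 z) * w z z') ≤ A * (E z * w z z') :=
            mul_le_mul hA (mul_le_mul_of_nonneg_right h7 hwp)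
              (mul_nonneg (mul_nonneg (hE0 _) (by linarith [hw1 z0 z])) hwp) (by linarith)
          linarith
        by_cases hg : z' ∈ good
        · refine ih z' (κ + rt (E z)) (by linarith [rt_nonneg (E z)]) ?_ hz' hg hκ' h11 h12 ?_
          · have := rt_double h6.le h10
            linarith
          · have hp : (0 : ℝ) < 2 ^ n := by positivity
            have : 2 ^ n * (2 * E z) ≤ 2 ^ n * E z' := by
              apply mul_le_mul_of_nonneg_left _ hp.le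
              linarith
            have e : (2 : ℝ) ^ (n + 1) * E z = 2 ^ n * (2 * E z) := by ring
            linarith
        · exact ⟨z', κ + rt (E z), by linarith [rt_nonneg (E z)], hκ', hz', h12, Or.inl hg⟩
  obtain ⟨n, hn⟩ := pow_unbounded_of_one_lt (1 / E z0) (show (1 : ℝ) < 2 by norm_num)
  refine key n z0 κ0 le_rfl (by linarith [rt_nonneg (E z0)]) hz0 hg0 hk0 hpos ?_ ?_
  · have := mul_le_mul_of_nonneg_left hw0 (hE0 z0)
    linarith
  · rwa [div_lt_iff₀ hpos] at hn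

/-! ### the weight -/

/-- window: `(x, u, s)` -/
abbrev Win : Type := ℝ × ℝ × ℝ

/-- distance scale of two windows -/
def DD (z z' : Win) : ℝ := max (max z.2.2 z'.2.2) (max |z.1 - z'.1| |z.2.1 - z'.2.1|)

/-- the weight -/
def wt (θ : ℝ) (z z' : Win) : ℝ := (DD z z' / z.2.2) ^ θ * (DD z z' / z'.2.2) ^ 4

lemma le_DD_left (z z' : Win) : z.2.2 ≤ DD z z' := (le_max_left _ _).trans (le_max_left _ _)

lemma le_DD_right (z z' : Win) : z'.2.2 ≤ DD z z' := (le_max_right _ _).trans (le_max_left _ _)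

lemma le_DD_x (z z' : Win) : |z.1 - z'.1| ≤ DD z z' := (le_max_left _ _).trans (le_max_right _ _)

lemma le_DD_u (z z' : Win) : |z.2.1 - z'.2.1| ≤ DD z z' :=
  (le_max_right _ _).trans (le_max_right _ _)

lemma DD_triangle (z z' z'' : Win) : DD z z'' ≤ 2 * max (DD z z') (DD z' z'') := by
  set M := max (DD z z') (DD z' z'') with hM
  have h1 : DD z z' ≤ M := le_max_left _ _
  have h2 : DD z' z'' ≤ M := le_max_right _ _
  have hx0 : 0 ≤ |z.1 - z'.1| := abs_nonneg _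
  have hM0 : 0 ≤ M := hx0.trans ((le_DD_x z z').trans h1)
  unfold DD
  refine max_le (max_le ?_ ?_) (max_le ?_ ?_)
  · linarith [le_DD_left z z']
  · linarith [le_DD_right z' z'']
  · have := abs_sub_le z.1 z'.1 z''.1
    linarith [le_DD_x z z', le_DD_x z' z'']
  · have := abs_sub_le z.2.1 z'.2.1 z''.2.1
    linarith [le_DD_u z z', le_DD_u z' z'']

lemma one_le_wt {θ : ℝ} (hθ : 0 ≤ θ) {z z' : Win} (hz : 0 < z.2.2) (hz' : 0 < z'.2.2) :
    1 ≤ wt θ z z' := by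
  unfold wt
  have h1 : 1 ≤ DD z z' / z.2.2 := (one_le_div hz).2 (le_DD_left z z')
  have h2 : 1 ≤ DD z z' / z'.2.2 := (one_le_div hz').2 (le_DD_right z z')
  exact one_le_mul_of_one_le_of_one_le (Real.one_le_rpow h1 hθ) (one_le_pow₀ h2)

lemma wt_self {θ : ℝ} {z : Win} (hz : 0 < z.2.2) : wt θ z z = 1 := by
  unfold wt DD
  rw [sub_self, sub_self, abs_zero, max_self, max_self, max_eq_left hz.le, div_self hz.ne']
  simp

lemma wt_mul {θ : ℝ} (hθ : 0 ≤ θ) {z z' z'' : Win} (hz : 0 < z.2.2) (hz' : 0 < z'.2.2)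
    (hz'' : 0 < z''.2.2) :
    wt θ z z'' ≤ 2 ^ (θ + 4) * (wt θ z z' * wt θ z' z'') := by
  set D := DD z z'' with hD
  set D1 := DD z z' with hD1
  set D2 := DD z' z'' with hD2
  have hDp : 0 < D := hz.trans_le (le_DD_left _ _)
  have hD1p : 0 < D1 := hz.trans_le (le_DD_left _ _)
  have hD2p : 0 < D2 := hz'.trans_le (le_DD_left _ _)
  have htri : D ≤ 2 * max D1 D2 := DD_triangle z z' z''
  have hs1 : z'.2.2 ≤ D1 := le_DD_right _ _
  have hs2 : z'.2.2 ≤ D2 := le_DD_left _ _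
  have e2 : (2 : ℝ) ^ (θ + 4) = 2 ^ θ * 2 ^ 4 := by
    rw [Real.rpow_add (by norm_num)]
    norm_num
  -- main inequality with `M`
  have hwt : wt θ z z'' ≤ 2 ^ (θ + 4) * ((max D1 D2 / z.2.2) ^ θ * (max D1 D2 / z''.2.2) ^ 4) := by
    unfold wt
    rw [← hD, e2]
    have a1 : (D / z.2.2) ^ θ ≤ 2 ^ θ * (max D1 D2 / z.2.2) ^ θ := by
      rw [← Real.mul_rpow (by norm_num) (by positivity)]
      refine Real.rpow_le_rpow (by positivity) ?_ hθ
      rw [← mul_div_assoc]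
      gcongr
    have a2 : (D / z''.2.2) ^ 4 ≤ 2 ^ 4 * (max D1 D2 / z''.2.2) ^ 4 := by
      rw [← mul_pow, ← mul_div_assoc]
      gcongr
    calc (D / z.2.2) ^ θ * (D / z''.2.2) ^ 4 ≤
        (2 ^ θ * (max D1 D2 / z.2.2) ^ θ) * (2 ^ 4 * (max D1 D2 / z''.2.2) ^ 4) :=
          mul_le_mul a1 a2 (by positivity) (by positivity)
      _ = 2 ^ θ * 2 ^ 4 * ((max D1 D2 / z.2.2) ^ θ * (max D1 D2 / z''.2.2) ^ 4) := by ring
  refine hwt.trans (mul_le_mul_of_nonneg_left ?_ (by positivity))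
  unfold wt
  rw [← hD1, ← hD2]
  rcases le_total D2 D1 with h | h
  · rw [max_eq_left h]
    -- (D1/s'')^4 = (D1/D2)^4 (D2/s'')^4, (D1/D2) ≤ (D1/s')
    have b1 : (D1 / z''.2.2) ^ 4 = (D1 / D2) ^ 4 * (D2 / z''.2.2) ^ 4 := by
      rw [← mul_pow]
      congr 1
      field_simp
    have b2 : D1 / D2 ≤ D1 / z'.2.2 := by gcongr
    have b3 : (D1 / D2) ^ 4 ≤ (D1 / z'.2.2) ^ 4 := by gcongr
    have b4 : 1 ≤ (D2 / z'.2.2) ^ θ := Real.one_le_rpow ((one_le_div hz').2 hs2) hθ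
    rw [b1]
    calc (D1 / z.2.2) ^ θ * ((D1 / D2) ^ 4 * (D2 / z''.2.2) ^ 4)
        ≤ (D1 / z.2.2) ^ θ * ((D1 / z'.2.2) ^ 4 * (D2 / z''.2.2) ^ 4) := by gcongr
      _ = (D1 / z.2.2) ^ θ * (D1 / z'.2.2) ^ 4 * (1 * (D2 / z''.2.2) ^ 4) := by ring
      _ ≤ (D1 / z.2.2) ^ θ * (D1 / z'.2.2) ^ 4 * ((D2 / z'.2.2) ^ θ * (D2 / z''.2.2) ^ 4) := by
          gcongr
  · rw [max_eq_right h]
    have b1 : (D2 / z.2.2) ^ θ = (D2 / D1) ^ θ * (D1 / z.2.2) ^ θ := by
      rw [← Real.mul_rpow (by positivity) (by positivity)]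
      congr 1
      field_simp
    have b2 : D2 / D1 ≤ D2 / z'.2.2 := by gcongr
    have b3 : (D2 / D1) ^ θ ≤ (D2 / z'.2.2) ^ θ := Real.rpow_le_rpow (by positivity) b2 hθ
    have b4 : 1 ≤ (D1 / z'.2.2) ^ 4 := one_le_pow₀ ((one_le_div hz').2 hs1)
    rw [b1]
    calc (D2 / D1) ^ θ * (D1 / z.2.2) ^ θ * (D2 / z''.2.2) ^ 4
        ≤ (D2 / z'.2.2) ^ θ * (D1 / z.2.2) ^ θ * (D2 / z''.2.2) ^ 4 := by gcongr
      _ = (D1 / z.2.2) ^ θ * 1 * ((D2 / z'.2.2) ^ θ * (D2 / z''.2.2) ^ 4) := by ring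
      _ ≤ (D1 / z.2.2) ^ θ * (D1 / z'.2.2) ^ 4 * ((D2 / z'.2.2) ^ θ * (D2 / z''.2.2) ^ 4) := by
          gcongr

end Crest.Agent.R102.PickW295
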