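import Mathlib

/-!
Row 102, T1-B, EDGE, slow label regime: Hamilton picking in (threshold, scale) (helper909).
-/

set_option autoImplicit false

open Real

namespace Crest.Agent.R102.Pick909

/-- **Picking lemma.** `E κ s` = sup of the oscillation over the windows of size `≤ s` all of whose
ancestors have label within `κ` of the base label.  There is `(κ, s)` such that the oscillation
on the larger family `κ + √E` grows at most like `2 (s'/s)^θ` upwards. -/
theorem pick {E : ℝ → ℝ → ℝ} {k th eps s0 s1 : ℝ} (hk : 0 < k) (hth : 0 ≤ th) (hs0 : 0 < s0)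
    (hs : s0 ≤ s1)
    (hE0 : ∀ kap s, k / 2 ≤ kap → kap ≤ k → s0 ≤ s → s ≤ s1 → 0 ≤ E kap s ∧ E kap s ≤ eps)
    (heps : 4 * √eps ≤ k / 2) (hpos : 0 < E (k / 2) s0) :
    ∃ kap s, k / 2 ≤ kap ∧ kap + √(E kap s) ≤ k ∧ s0 ≤ s ∧ s ≤ s1 ∧
      (s / s0) ^ th * E (k / 2) s0 ≤ E kap s ∧
      ∀ s', s ≤ s' → s' ≤ s1 → E (kap + √(E kap s)) s' ≤ 2 * (s' / s) ^ th * E kap s := by
  by_contra hcon
  push Not at hcon
  have key : ∀ n : ℕ, ∃ kap s, k / 2 ≤ kap ∧ kap ≤ k / 2 + 5 / 2 * √(E kap s) ∧ kap ≤ k ∧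
      s0 ≤ s ∧ s ≤ s1 ∧ (s / s0) ^ th * (2 ^ n * E (k / 2) s0) ≤ E kap s := by
    intro n
    induction n with
    | zero =>
      refine ⟨k / 2, s0, le_rfl, ?_, by linarith, le_rfl, hs, ?_⟩
      · have := Real.sqrt_nonneg (E (k / 2) s0)
        linarith
      · rw [div_self hs0.ne', Real.one_rpow]
        simp
    | succ n ih =>
      obtain ⟨kap, s, h1, h2, h2', h3, h4, h5⟩ := ih
      have hspos : 0 < s := lt_of_lt_of_le hs0 h3
      obtain ⟨hE1, hE2⟩ := hE0 kap s h1 h2' h3 h4
      have hsq : √(E kap s) ≤ √eps := Real.sqrt_le_sqrt hE2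
      have hsq0 := Real.sqrt_nonneg (E kap s)
      have hk' : kap + √(E kap s) ≤ k := by linarith
      have hge : (s / s0) ^ th * E (k / 2) s0 ≤ E kap s := by
        refine le_trans ?_ h5
        have hp : (0 : ℝ) ≤ (s / s0) ^ th := Real.rpow_nonneg (by positivity) _
        refine mul_le_mul_of_nonneg_left ?_ hp
        have : (1 : ℝ) ≤ 2 ^ n := one_le_pow₀ (by norm_num)
        nlinarith
      obtain ⟨s', hs1', hs2', hlt⟩ := hcon kap s h1 hk' h3 h4 hge
      have hs'pos : 0 < s' := lt_of_lt_of_le hspos hs1'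
      have hEpos : 0 < E kap s := by
        refine lt_of_lt_of_le ?_ hge
        have : (0 : ℝ) < (s / s0) ^ th := Real.rpow_pos_of_pos (by positivity) _
        positivity
      obtain ⟨hE1', hE2'⟩ := hE0 (kap + √(E kap s)) s' (by linarith) hk' (h3.trans hs1') hs2'
      have hpw : (1 : ℝ) ≤ (s' / s) ^ th :=
        Real.one_le_rpow ((one_le_div hspos).2 hs1') hth
      refine ⟨kap + √(E kap s), s', by linarith, ?_, hk', h3.trans hs1', hs2', ?_⟩
      · have hE2x : 2 * E kap s ≤ E (kap + √(E kap s)) s' := by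
          refine le_trans ?_ hlt.le
          nlinarith
        have hr : 7 / 5 * √(E kap s) ≤ √(E (kap + √(E kap s)) s') := by
          refine Real.le_sqrt_of_sq_le ?_
          have := Real.sq_sqrt hE1
          nlinarith
        linarith
      · have e1 : (s' / s0) ^ th = (s' / s) ^ th * (s / s0) ^ th := by
          rw [← Real.mul_rpow (by positivity) (by positivity)]
          congr 1
          field_simp
        calc (s' / s0) ^ th * (2 ^ (n + 1) * E (k / 2) s0)
            = 2 * (s' / s) ^ th * ((s / s0) ^ th * (2 ^ n * E (k / 2) s0)) := by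
              rw [e1]; ring
          _ ≤ 2 * (s' / s) ^ th * E kap s := by
              exact mul_le_mul_of_nonneg_left h5 (by positivity)
          _ ≤ _ := hlt.le
  obtain ⟨n, hn⟩ := pow_unbounded_of_one_lt (eps / E (k / 2) s0) (one_lt_two (α := ℝ))
  obtain ⟨kap, s, h1, -, h2, h3, h4, h5⟩ := key n
  have h6 := (hE0 kap s h1 h2 h3 h4).2
  rw [div_lt_iff₀ hpos] at hn
  have h7 : (1 : ℝ) ≤ (s / s0) ^ th := Real.one_le_rpow ((one_le_div hs0).2 h3) hth
  have h8 : (0 : ℝ) < 2 ^ n * E (k / 2) s0 := by positivity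
  nlinarith

end Crest.Agent.R102.Pick909
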