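import Mathlib

/-!
Row 102, T1-B, EDGE / SLOW (helper249): the potential of the bad set of widths.

`F` = set of good real widths, `Lam F th ε u s` = `8 ε ∫ dist(v,F) s^th / (s + |v-u|)^(2+th) dv`.
* `Lam_step` : Harnack-type inequality from a window `(u,s)` to a neighbour `(u',s')`;
* `Lam_bad`  : `dist(u,F) > s/ε` implies `1 ≤ Lam`;
* `Lam_sum`  : at a Marcinkiewicz point `u0 ∈ F` the sum over the dyadic scales is `≤ C ε`.
-/

set_option autoImplicit false

open MeasureTheory Set Metric Filter Topology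
open scoped ENNReal

noncomputable section

namespace Crest.Agent.R102.Pot249

/-- the kernel -/
def kk (th u s v : ℝ) : ℝ := s ^ th / (s + |v - u|) ^ (2 + th)

lemma kk_nonneg {th u s v : ℝ} (hs : 0 < s) : 0 ≤ kk th u s v := by
  unfold kk; positivity

lemma kk_step {th s t d c u s' u' v : ℝ} (hth : 0 ≤ th) (hs : 0 < s) (hst : s ≤ t) (hd : 0 < d)
    (hd1 : d ≤ 1) (hc : 0 ≤ c) (hu : |u' - u| ≤ c * t) (h1 : d * t ≤ s') (h2 : s' ≤ c * t) :
    kk th u' s' v ≤ (c * t / s) ^ th * ((2 + c) / d) ^ (2 + th) * kk th u s v := by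
  have ht : 0 < t := hs.trans_le hst
  have hs' : 0 < s' := (mul_pos hd ht).trans_le h1
  have hR' : 0 < s' + |v - u'| := by positivity
  have hR : 0 < s + |v - u| := by positivity
  have hle : s + |v - u| ≤ (2 + c) / d * (s' + |v - u'|) := by
    have e1 : |v - u| ≤ |v - u'| + c * t := by
      have : |v - u| ≤ |v - u'| + |u' - u| := abs_sub_le v u' u
      linarith
    have e2 : t ≤ (s' + |v - u'|) / d := by
      rw [le_div_iff₀ hd]
      have := abs_nonneg (v - u')
      nlinarith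
    have e3 : |v - u'| ≤ (s' + |v - u'|) / d := by
      rw [le_div_iff₀ hd]
      have := abs_nonneg (v - u')
      nlinarith
    have e4 : (2 + c) / d * (s' + |v - u'|) = (2 + c) * ((s' + |v - u'|) / d) := by ring
    rw [e4]
    nlinarith [mul_le_mul_of_nonneg_left e2 hc]
  have h3 : s' ^ th ≤ (c * t / s) ^ th * s ^ th := by
    rw [← Real.mul_rpow (by positivity) hs.le, div_mul_cancel₀ _ hs.ne']
    exact Real.rpow_le_rpow hs'.le h2 hth
  have h4 : (s + |v - u|) ^ (2 + th) ≤
      ((2 + c) / d) ^ (2 + th) * (s' + |v - u'|) ^ (2 + th) := by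
    rw [← Real.mul_rpow (by positivity) hR'.le]
    exact Real.rpow_le_rpow hR.le hle (by linarith)
  have p1 : 0 < (s + |v - u|) ^ (2 + th) := Real.rpow_pos_of_pos hR _
  have p2 : 0 < (s' + |v - u'|) ^ (2 + th) := Real.rpow_pos_of_pos hR' _
  unfold kk
  rw [div_le_iff₀ p2]
  have h5 : s' ^ th * (s + |v - u|) ^ (2 + th) ≤
      ((c * t / s) ^ th * s ^ th) * (((2 + c) / d) ^ (2 + th) * (s' + |v - u'|) ^ (2 + th)) :=
    mul_le_mul h3 h4 p1.le (by positivity)
  have h6 : (c * t / s) ^ th * ((2 + c) / d) ^ (2 + th) * (s ^ th / (s + |v - u|) ^ (2 + th)) *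
      (s' + |v - u'|) ^ (2 + th) = ((c * t / s) ^ th * s ^ th) *
      (((2 + c) / d) ^ (2 + th) * (s' + |v - u'|) ^ (2 + th)) / (s + |v - u|) ^ (2 + th) := by
    ring
  rw [h6, le_div_iff₀ p1]
  exact h5

/-- the integral -/
def J (F : Set ℝ) (th u s : ℝ) : ℝ≥0∞ := ∫⁻ v, ENNReal.ofReal (infDist v F * kk th u s v)

/-- the potential of the bad set -/
def Lam (F : Set ℝ) (th ε u s : ℝ) : ℝ := 8 * ε * (J F th u s).toReal

lemma Lam_nonneg {F : Set ℝ} {th ε u s : ℝ} (hε : 0 ≤ ε) : 0 ≤ Lam F th ε u s := by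
  unfold Lam; positivity

lemma meas_kk (th u s : ℝ) : Measurable (kk th u s) := by
  unfold kk
  fun_prop

lemma J_lt_top {F : Set ℝ} (hF : F.Nonempty) {th u s : ℝ} (hth : 0 < th) (hs : 0 < s) :
    J F th u s < ⊤ := by
  obtain ⟨u0, hu0⟩ := hF
  set m : ℝ := min s 1 with hm
  have hm0 : 0 < m := lt_min hs one_pos
  set C : ℝ := (1 + |u - u0| / s) * s ^ th * m ^ (-(1 + th)) with hC
  have hC0 : 0 ≤ C := by positivity
  have hint : Integrable (fun v : ℝ => C * (1 + ‖v - u‖) ^ (-(1 + th))) := by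
    have h1 : Integrable (fun v : ℝ => (1 + ‖v‖) ^ (-(1 + th))) := by
      refine integrable_one_add_norm ?_
      simp
      linarith
    exact (h1.comp_sub_right u).const_mul C
  refine lt_of_le_of_lt ?_ hint.hasFiniteIntegral
  refine lintegral_mono fun v => ?_
  have hb : infDist v F * kk th u s v ≤ C * (1 + ‖v - u‖) ^ (-(1 + th)) := by
    set R : ℝ := s + |v - u| with hR
    have hR0 : 0 < R := by positivity
    have hD : infDist v F ≤ (1 + |u - u0| / s) * R := by
      have e1 : infDist v F ≤ dist v u0 := infDist_le_dist_of_mem hu0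
      have e2 : dist v u0 ≤ |v - u| + |u - u0| := by
        rw [Real.dist_eq]; exact abs_sub_le v u u0
      have e3 : |u - u0| ≤ |u - u0| / s * R := by
        rw [div_mul_eq_mul_div, le_div_iff₀ hs]
        have := abs_nonneg (v - u)
        exact mul_le_mul_of_nonneg_left (by rw [hR]; linarith) (abs_nonneg _)
      have : |v - u| ≤ R := by rw [hR]; linarith
      calc infDist v F ≤ |v - u| + |u - u0| := e1.trans e2
        _ ≤ R + |u - u0| / s * R := by linarith
        _ = _ := by ring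
    have hk : kk th u s v = s ^ th * R ^ (-(1 + th)) / R := by
      unfold kk
      rw [← hR, Real.rpow_neg hR0.le]
      have : R ^ (2 + th) = R ^ (1 + th) * R := by
        rw [show (2 : ℝ) + th = (1 + th) + 1 by ring, Real.rpow_add_one hR0.ne']
      rw [this]
      field_simp
    rw [hk]
    have hm' : m * (1 + ‖v - u‖) ≤ R := by
      rw [Real.norm_eq_abs, hR]
      have h1 : m ≤ s := min_le_left _ _
      have h2 : m ≤ 1 := min_le_right _ _
      have := abs_nonneg (v - u)
      nlinarith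
    have hRp : R ^ (-(1 + th)) ≤ m ^ (-(1 + th)) * (1 + ‖v - u‖) ^ (-(1 + th)) := by
      rw [← Real.mul_rpow hm0.le (by positivity)]
      exact Real.rpow_le_rpow_of_nonpos (by positivity) hm' (by linarith)
    calc infDist v F * (s ^ th * R ^ (-(1 + th)) / R)
        ≤ ((1 + |u - u0| / s) * R) * (s ^ th * R ^ (-(1 + th)) / R) := by
          refine mul_le_mul_of_nonneg_right hD (by positivity)
      _ = (1 + |u - u0| / s) * s ^ th * R ^ (-(1 + th)) := by field_simp
      _ ≤ (1 + |u - u0| / s) * s ^ th * (m ^ (-(1 + th)) * (1 + ‖v - u‖) ^ (-(1 + th))) :=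
          mul_le_mul_of_nonneg_left hRp (by positivity)
      _ = _ := by rw [hC]; ring
  calc ENNReal.ofReal (infDist v F * kk th u s v)
      ≤ ENNReal.ofReal (C * (1 + ‖v - u‖) ^ (-(1 + th))) := ENNReal.ofReal_le_ofReal hb
    _ ≤ ‖C * (1 + ‖v - u‖) ^ (-(1 + th))‖ₑ := by
        rw [← ofReal_norm_eq_enorm]
        exact ENNReal.ofReal_le_ofReal (le_abs_self _)

/-- **(i)** from a window to a neighbour -/
theorem Lam_step {F : Set ℝ} (hF : F.Nonempty) {th ε s t d c u s' u' : ℝ} (hth : 0 < th)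
    (hε : 0 ≤ ε) (hs : 0 < s) (hst : s ≤ t) (hd : 0 < d) (hd1 : d ≤ 1) (hc : 0 ≤ c)
    (hu : |u' - u| ≤ c * t) (h1 : d * t ≤ s') (h2 : s' ≤ c * t) :
    Lam F th ε u' s' ≤ (c * t / s) ^ th * ((2 + c) / d) ^ (2 + th) * Lam F th ε u s := by
  set K : ℝ := (c * t / s) ^ th * ((2 + c) / d) ^ (2 + th) with hK
  have ht : 0 < t := hs.trans_le hst
  have hK0 : 0 ≤ K := by positivity
  have hJ : J F th u' s' ≤ ENNReal.ofReal K * J F th u s := by
    unfold J
    rw [← lintegral_const_mul' _ _ ENNReal.ofReal_ne_top]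
    refine lintegral_mono fun v => ?_
    dsimp only
    rw [← ENNReal.ofReal_mul hK0]
    refine ENNReal.ofReal_le_ofReal ?_
    have := kk_step (v := v) hth.le hs hst hd hd1 hc hu h1 h2
    calc infDist v F * kk th u' s' v ≤ infDist v F * (K * kk th u s v) :=
          mul_le_mul_of_nonneg_left this infDist_nonneg
      _ = _ := by ring
  have hfin : ENNReal.ofReal K * J F th u s ≠ ⊤ :=
    ENNReal.mul_ne_top ENNReal.ofReal_ne_top (J_lt_top hF hth hs).ne
  have h3 := ENNReal.toReal_mono hfin hJ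
  rw [ENNReal.toReal_mul, ENNReal.toReal_ofReal hK0] at h3
  unfold Lam
  calc 8 * ε * (J F th u' s').toReal ≤ 8 * ε * (K * (J F th u s).toReal) :=
        mul_le_mul_of_nonneg_left h3 (by positivity)
    _ = _ := by ring

/-- **(ii)** bad windows have potential at least one -/
theorem Lam_bad {F : Set ℝ} (hF : F.Nonempty) {th ε u s : ℝ} (hth : 0 < th) (hth1 : th ≤ 1)
    (hε : 0 < ε) (hε1 : ε ≤ 1 / 2) (hs : 0 < s) (hb : s / ε < infDist u F) :
    1 ≤ Lam F th ε u s := by
  have hlow : ENNReal.ofReal (1 / (8 * ε)) ≤ J F th u s := by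
    have hpt : ∀ v ∈ Ioo (u - s) (u + s), 1 / (16 * ε * s) ≤ infDist v F * kk th u s v := by
      intro v hv
      have hvu : |v - u| ≤ s := by
        rw [abs_le]; constructor <;> linarith [hv.1, hv.2]
      have e1 : s / (2 * ε) ≤ infDist v F := by
        have h1 : infDist u F ≤ infDist v F + dist u v := infDist_le_infDist_add_dist
        rw [Real.dist_eq, abs_sub_comm] at h1
        have h2 : s / ε = s / (2 * ε) + s / (2 * ε) := by field_simp; ring
        have h3 : s ≤ s / (2 * ε) := by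
          rw [le_div_iff₀ (by positivity)]
          nlinarith
        linarith
      have e2 : 1 / (8 * s ^ 2) ≤ kk th u s v := by
        unfold kk
        have h1 : (s + |v - u|) ^ (2 + th) ≤ (2 * s) ^ (2 + th) :=
          Real.rpow_le_rpow (by positivity) (by linarith) (by linarith)
        have h2 : (2 * s) ^ (2 + th) ≤ 8 * s ^ 2 * s ^ th := by
          rw [Real.mul_rpow (by norm_num) hs.le, Real.rpow_add hs, Real.rpow_two]
          have h3 : (2 : ℝ) ^ (2 + th) ≤ 8 := by
            calc (2 : ℝ) ^ (2 + th) ≤ 2 ^ (3 : ℝ) :=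
                  Real.rpow_le_rpow_of_exponent_le (by norm_num) (by linarith)
              _ = 8 := by norm_num
          have h4 : 0 ≤ s ^ 2 * s ^ th := by positivity
          calc (2 : ℝ) ^ (2 + th) * (s ^ 2 * s ^ th) ≤ 8 * (s ^ 2 * s ^ th) :=
                mul_le_mul_of_nonneg_right h3 h4
            _ = _ := by ring
        have p1 : 0 < (s + |v - u|) ^ (2 + th) := Real.rpow_pos_of_pos (by positivity) _
        rw [div_le_div_iff₀ (by positivity) p1]
        linarith
      have e3 : (1 : ℝ) / (16 * ε * s) = s / (2 * ε) * (1 / (8 * s ^ 2)) := by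
        field_simp
        ring
      rw [e3]
      exact mul_le_mul e1 e2 (by positivity) infDist_nonneg
    calc ENNReal.ofReal (1 / (8 * ε))
        = ∫⁻ _ in Ioo (u - s) (u + s), ENNReal.ofReal (1 / (16 * ε * s)) := by
          rw [setLIntegral_const, Real.volume_Ioo, ← ENNReal.ofReal_mul (by positivity)]
          congr 1
          field_simp
          ring
      _ ≤ ∫⁻ v in Ioo (u - s) (u + s), ENNReal.ofReal (infDist v F * kk th u s v) :=
          setLIntegral_mono' measurableSet_Ioo fun v hv => ENNReal.ofReal_le_ofReal (hpt v hv)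
      _ ≤ J F th u s := setLIntegral_le_lintegral _ _
  have h1 := ENNReal.toReal_mono (J_lt_top hF hth hs).ne hlow
  rw [ENNReal.toReal_ofReal (by positivity)] at h1
  unfold Lam
  calc (1 : ℝ) = 8 * ε * (1 / (8 * ε)) := by field_simp
    _ ≤ _ := mul_le_mul_of_nonneg_left h1 (by positivity)


/-- sum of the kernels over the dyadic scales, near -/
lemma sum_kk_near {th s r : ℝ} (hth : 0 < th) (hth1 : th ≤ 1) (hs : 0 < s) (hr : 0 < r) (n : ℕ) :
    ∑ i ∈ Finset.range n, (s / 2 ^ i) ^ th / (s / 2 ^ i + r) ^ (2 + th) ≤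
      4 / (1 - 2 ^ (-th)) / r ^ 2 := by
  set q : ℝ := 2 ^ (-th) with hq
  have hq0 : 0 < q := by positivity
  have hq1 : q < 1 := by
    rw [hq]
    exact Real.rpow_lt_one_of_one_lt_of_neg (by norm_num) (by linarith)
  set φ : ℕ → ℝ := fun i => ((s / 2 ^ i) / r) ^ th / (1 + ((s / 2 ^ i) / r) ^ th) with hφ
  have hstep : ∀ i : ℕ, (s / 2 ^ i) ^ th / (s / 2 ^ i + r) ^ (2 + th) ≤
      4 / (1 - q) / r ^ 2 * (φ i - φ (i + 1)) := by
    intro i
    set x : ℝ := (s / 2 ^ i) / r with hx
    have hx0 : 0 < x := by positivity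
    set y : ℝ := x ^ th with hy
    have hy0 : 0 < y := by positivity
    have hy1 : ((s / 2 ^ (i + 1)) / r) ^ th = q * y := by
      have : (s / 2 ^ (i + 1)) / r = 2⁻¹ * x := by rw [hx, pow_succ]; field_simp
      rw [this, Real.mul_rpow (by norm_num) hx0.le, hq, hy, Real.rpow_neg (by norm_num),
        Real.inv_rpow (by norm_num)]
    have e1 : φ i - φ (i + 1) = (1 - q) * y / ((1 + y) * (1 + q * y)) := by
      simp only [hφ]
      rw [hy1]
      rw [← hx, ← hy]
      field_simp
      ring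
    have e2 : (s / 2 ^ i) ^ th / (s / 2 ^ i + r) ^ (2 + th) =
        y / (1 + x) ^ (2 + th) / r ^ 2 := by
      have h1 : s / 2 ^ i = x * r := by rw [hx]; field_simp
      rw [h1, Real.mul_rpow hx0.le hr.le, show x * r + r = (1 + x) * r by ring,
        Real.mul_rpow (by positivity) hr.le, Real.rpow_add hr, Real.rpow_two, ← hy]
      field_simp
    rw [e1, e2]
    have h2 : (1 + y) ^ 2 ≤ 4 * (1 + x) ^ (2 + th) := by
      have h3 : 1 + y ≤ 2 * (1 + x) ^ th := by
        have a1 : 1 ≤ (1 + x) ^ th := Real.one_le_rpow (by linarith) hth.le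
        have a2 : y ≤ (1 + x) ^ th := Real.rpow_le_rpow hx0.le (by linarith) hth.le
        linarith
      have h4 : ((1 + x) ^ th) ^ 2 ≤ (1 + x) ^ (2 + th) := by
        rw [← Real.rpow_natCast, ← Real.rpow_mul (by positivity)]
        refine Real.rpow_le_rpow_of_exponent_le (by linarith) ?_
        push_cast
        linarith
      calc (1 + y) ^ 2 ≤ (2 * (1 + x) ^ th) ^ 2 := pow_le_pow_left₀ (by positivity) h3 2
        _ = 4 * ((1 + x) ^ th) ^ 2 := by ring
        _ ≤ _ := by linarith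
    have h5 : (1 + y) * (1 + q * y) ≤ (1 + y) ^ 2 := by
      rw [sq]
      refine mul_le_mul_of_nonneg_left ?_ (by positivity)
      have := mul_le_mul_of_nonneg_right hq1.le hy0.le
      linarith
    have p1 : 0 < (1 + x) ^ (2 + th) := by positivity
    have h6 : y / (1 + x) ^ (2 + th) ≤ 4 * (y / ((1 + y) * (1 + q * y))) := by
      rw [div_le_iff₀ p1, ← mul_div_assoc, div_mul_eq_mul_div, le_div_iff₀ (by positivity)]
      have := mul_le_mul_of_nonneg_left (h5.trans h2) hy0.le
      linarith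
    have h7 : 4 / (1 - q) / r ^ 2 * ((1 - q) * y / ((1 + y) * (1 + q * y))) =
        4 * (y / ((1 + y) * (1 + q * y))) / r ^ 2 := by
      have : (1 - q) ≠ 0 := by linarith
      field_simp
    rw [h7]
    exact div_le_div_of_nonneg_right h6 (by positivity)
  have hφ1 : φ 0 - φ n ≤ 1 := by
    have a1 : 0 ≤ φ n := by simp only [hφ]; positivity
    have a2 : φ 0 ≤ 1 := by
      simp only [hφ]
      have : 0 ≤ ((s / 2 ^ 0) / r) ^ th := by positivity
      rw [div_le_one (by positivity)]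
      linarith
    linarith
  have hpos : 0 ≤ 4 / (1 - q) / r ^ 2 := by
    have : 0 < 1 - q := by linarith
    positivity
  calc ∑ i ∈ Finset.range n, (s / 2 ^ i) ^ th / (s / 2 ^ i + r) ^ (2 + th)
      ≤ ∑ i ∈ Finset.range n, 4 / (1 - q) / r ^ 2 * (φ i - φ (i + 1)) :=
        Finset.sum_le_sum fun i _ => hstep i
    _ = 4 / (1 - q) / r ^ 2 * (φ 0 - φ n) := by
        rw [← Finset.mul_sum, Finset.sum_range_sub']
    _ ≤ 4 / (1 - q) / r ^ 2 * 1 := mul_le_mul_of_nonneg_left hφ1 hpos
    _ = _ := mul_one _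

/-- sum of the kernels over the dyadic scales, far -/
lemma sum_kk_far {th s r : ℝ} (hth : 0 < th) (hs : 0 < s) (hr : 0 < r) (n : ℕ) :
    ∑ i ∈ Finset.range n, (s / 2 ^ i) ^ th / (s / 2 ^ i + r) ^ (2 + th) ≤
      s ^ th / (1 - 2 ^ (-th)) / r ^ (2 + th) := by
  set q : ℝ := 2 ^ (-th) with hq
  have hq0 : 0 < q := by positivity
  have hq1 : q < 1 := by
    rw [hq]
    exact Real.rpow_lt_one_of_one_lt_of_neg (by norm_num) (by linarith)
  have hstep : ∀ i : ℕ, (s / 2 ^ i) ^ th / (s / 2 ^ i + r) ^ (2 + th) ≤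
      s ^ th / r ^ (2 + th) * q ^ i := by
    intro i
    have e1 : (s / 2 ^ i) ^ th = s ^ th * q ^ i := by
      rw [hq, div_eq_mul_inv, Real.mul_rpow hs.le (by positivity), ← Real.rpow_natCast 2 i,
        ← Real.rpow_neg (by norm_num), ← Real.rpow_mul (by norm_num),
        ← Real.rpow_natCast, ← Real.rpow_mul (by norm_num)]
      congr 2
      ring
    rw [e1]
    have e2 : r ^ (2 + th) ≤ (s / 2 ^ i + r) ^ (2 + th) :=
      Real.rpow_le_rpow hr.le (by have : 0 < s / 2 ^ i := by positivity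
                                  linarith) (by linarith)
    calc s ^ th * q ^ i / (s / 2 ^ i + r) ^ (2 + th) ≤ s ^ th * q ^ i / r ^ (2 + th) :=
          div_le_div_of_nonneg_left (by positivity) (by positivity) e2
      _ = _ := by ring
  calc ∑ i ∈ Finset.range n, (s / 2 ^ i) ^ th / (s / 2 ^ i + r) ^ (2 + th)
      ≤ ∑ i ∈ Finset.range n, s ^ th / r ^ (2 + th) * q ^ i := Finset.sum_le_sum fun i _ => hstep i
    _ = s ^ th / r ^ (2 + th) * ∑ i ∈ Finset.range n, q ^ i := by rw [← Finset.mul_sum]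
    _ ≤ s ^ th / r ^ (2 + th) * (1 / (1 - q)) := by
        refine mul_le_mul_of_nonneg_left ?_ (by positivity)
        rw [geom_sum_eq hq1.ne, le_div_iff₀ (by linarith)]
        have h1 : (q ^ n - 1) / (q - 1) * (1 - q) = 1 - q ^ n := by
          have : q - 1 ≠ 0 := by linarith
          field_simp
          ring
        rw [h1]
        have : 0 ≤ q ^ n := by positivity
        linarith
    _ = _ := by
        have : (1 - q) ≠ 0 := by linarith
        field_simp

lemma lint_Ioi {a th : ℝ} (ha : 0 < a) (hth : 0 < th) :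
    ∫⁻ t in Ioi a, ENNReal.ofReal (|t| ^ (-(1 + th))) = ENNReal.ofReal (a ^ (-th) / th) := by
  have h1 : IntegrableOn (fun t : ℝ => t ^ (-(1 + th))) (Ioi a) :=
    integrableOn_Ioi_rpow_of_lt (by linarith) ha
  have h2 : ∫ t in Ioi a, t ^ (-(1 + th)) = a ^ (-th) / th := by
    rw [integral_Ioi_rpow_of_lt (by linarith) ha]
    rw [show -(1 + th) + 1 = -th by ring, neg_div_neg_eq]
  rw [← h2, ofReal_integral_eq_lintegral_ofReal h1]
  · refine setLIntegral_congr_fun measurableSet_Ioi fun t ht => ?_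
    have : |t| = t := abs_of_pos (ha.trans ht)
    simp only [this]
  · refine (ae_restrict_iff' measurableSet_Ioi).2 (Eventually.of_forall fun t ht => ?_)
    have : 0 < t := ha.trans ht
    simp only [Pi.zero_apply]
    positivity

lemma lint_Iio {a th : ℝ} (ha : 0 < a) (hth : 0 < th) :
    ∫⁻ t in Iio (-a), ENNReal.ofReal (|t| ^ (-(1 + th))) = ENNReal.ofReal (a ^ (-th) / th) := by
  rw [← lint_Ioi ha hth, ← lintegral_indicator measurableSet_Iio,
    ← lintegral_indicator measurableSet_Ioi, ← lintegral_neg_eq_self]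
  congr 1
  ext t
  by_cases h : a < t
  · rw [indicator_of_mem (show -t ∈ Iio (-a) by simpa using h), indicator_of_mem (show t ∈ Ioi a from h),
      abs_neg]
  · rw [indicator_of_notMem (show -t ∉ Iio (-a) by simpa using h),
      indicator_of_notMem (show t ∉ Ioi a from h)]

/-- the constant of `Lam_sum` -/
def CS (th m : ℝ) : ℝ := 8 * (4 / (1 - 2 ^ (-th)) * m + 4 / (th * (1 - 2 ^ (-th))))

/-- **(iii)** the sum over the dyadic scales at a Marcinkiewicz point -/
theorem Lam_sum {F : Set ℝ} {u0 r1 m th ε s : ℝ} (hu0 : u0 ∈ F) (hr1 : 0 < r1) (hm : 0 ≤ m)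
    (hM : ∫⁻ t in Ioo (-r1) r1, ENNReal.ofReal (infDist (u0 + t) F / t ^ 2) ≤ ENNReal.ofReal m)
    (hth : 0 < th) (hth1 : th ≤ 1) (hε : 0 ≤ ε) (hs : 0 < s) (hsr : s ≤ r1) (n : ℕ) :
    ∑ i ∈ Finset.range n, Lam F th ε u0 (s / 2 ^ i) ≤ CS th m * ε := by
  have hF : F.Nonempty := ⟨u0, hu0⟩
  set q : ℝ := 2 ^ (-th) with hq
  have hq0 : 0 < q := by positivity
  have hq1 : q < 1 := by
    rw [hq]
    exact Real.rpow_lt_one_of_one_lt_of_neg (by norm_num) (by linarith)
  have hq2 : 0 < 1 - q := by linarith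
  -- translated integral
  have hJ : ∀ i : ℕ, J F th u0 (s / 2 ^ i) = ∫⁻ t, ENNReal.ofReal
      (infDist (u0 + t) F * ((s / 2 ^ i) ^ th / (s / 2 ^ i + |t|) ^ (2 + th))) := by
    intro i
    unfold J
    rw [← lintegral_add_left_eq_self _ u0]
    simp only [kk, add_sub_cancel_left]
  have hmeas : ∀ i : ℕ, Measurable (fun t : ℝ => ENNReal.ofReal
      (infDist (u0 + t) F * ((s / 2 ^ i) ^ th / (s / 2 ^ i + |t|) ^ (2 + th)))) := by
    intro i
    have h1 : Measurable (fun t : ℝ => infDist (u0 + t) F) :=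
      measurable_infDist.comp (measurable_const_add u0)
    fun_prop
  set S : ℝ → ℝ := fun t => ∑ i ∈ Finset.range n,
    (s / 2 ^ i) ^ th / (s / 2 ^ i + |t|) ^ (2 + th) with hS
  have hsum : ∑ i ∈ Finset.range n, J F th u0 (s / 2 ^ i) =
      ∫⁻ t, ENNReal.ofReal (infDist (u0 + t) F * S t) := by
    simp only [hJ]
    rw [← lintegral_finset_sum _ (fun i _ => hmeas i)]
    refine lintegral_congr fun t => ?_
    rw [← ENNReal.ofReal_sum_of_nonneg, hS, Finset.mul_sum]
    intro i _
    exact mul_nonneg infDist_nonneg (by positivity)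
  -- the two regimes
  have hnear : ∀ t ∈ Ioo (-r1) r1, ENNReal.ofReal (infDist (u0 + t) F * S t) ≤
      ENNReal.ofReal (4 / (1 - q)) * ENNReal.ofReal (infDist (u0 + t) F / t ^ 2) := by
    intro t _
    rw [← ENNReal.ofReal_mul (by positivity)]
    refine ENNReal.ofReal_le_ofReal ?_
    rcases eq_or_ne t 0 with rfl | ht
    · simp [infDist_zero_of_mem hu0]
    · have h1 := sum_kk_near hth hth1 hs (abs_pos.2 ht) n
      rw [sq_abs] at h1
      calc infDist (u0 + t) F * S t ≤ infDist (u0 + t) F * (4 / (1 - q) / t ^ 2) :=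
            mul_le_mul_of_nonneg_left h1 infDist_nonneg
        _ = _ := by ring
  have hfar : ∀ t, t ∉ Ioo (-r1) r1 → ENNReal.ofReal (infDist (u0 + t) F * S t) ≤
      ENNReal.ofReal (s ^ th / (1 - q)) * ENNReal.ofReal (|t| ^ (-(1 + th))) := by
    intro t ht
    have ht0 : r1 ≤ |t| := by
      by_contra h
      exact ht ⟨(abs_lt.1 (not_le.1 h)).1, (abs_lt.1 (not_le.1 h)).2⟩
    have ht1 : 0 < |t| := hr1.trans_le ht0
    rw [← ENNReal.ofReal_mul (by positivity)]
    refine ENNReal.ofReal_le_ofReal ?_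
    have h1 := sum_kk_far hth hs ht1 n
    have h2 : infDist (u0 + t) F ≤ |t| := by
      have := infDist_le_dist_of_mem (x := u0 + t) hu0
      rwa [Real.dist_eq, add_sub_cancel_left] at this
    have h3 : |t| * (s ^ th / (1 - q) / |t| ^ (2 + th)) =
        s ^ th / (1 - q) * |t| ^ (-(1 + th)) := by
      rw [Real.rpow_neg ht1.le, show (2 : ℝ) + th = (1 + th) + 1 by ring,
        Real.rpow_add_one ht1.ne']
      field_simp
    rw [← h3]
    exact mul_le_mul h2 h1 (by simp only [hS]; positivity) ht1.le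
  have htot : ∑ i ∈ Finset.range n, J F th u0 (s / 2 ^ i) ≤
      ENNReal.ofReal (4 / (1 - q) * m + 4 / (th * (1 - q))) := by
    rw [hsum]
    have hcov : (univ : Set ℝ) ⊆ Ioo (-r1) r1 ∪ (Ioi (r1 / 2) ∪ Iio (-(r1 / 2))) \ Ioo (-r1) r1 := by
      intro t _
      by_cases h : t ∈ Ioo (-r1) r1
      · exact Or.inl h
      · refine Or.inr ⟨?_, h⟩
        by_cases h0 : 0 < t
        · left
          have : r1 ≤ t := by
            by_contra h1
            exact h ⟨by linarith, not_le.1 h1⟩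
          exact lt_of_lt_of_le (by linarith) this
        · right
          have : t ≤ -r1 := by
            by_contra h1
            exact h ⟨not_le.1 h1, by linarith [not_lt.1 h0]⟩
          exact lt_of_le_of_lt this (by linarith)
    have hA : ∫⁻ t in Ioo (-r1) r1, ENNReal.ofReal (infDist (u0 + t) F * S t) ≤
        ENNReal.ofReal (4 / (1 - q) * m) := by
      calc ∫⁻ t in Ioo (-r1) r1, ENNReal.ofReal (infDist (u0 + t) F * S t)
          ≤ ∫⁻ t in Ioo (-r1) r1, ENNReal.ofReal (4 / (1 - q)) *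
              ENNReal.ofReal (infDist (u0 + t) F / t ^ 2) :=
            setLIntegral_mono' measurableSet_Ioo hnear
        _ = ENNReal.ofReal (4 / (1 - q)) *
              ∫⁻ t in Ioo (-r1) r1, ENNReal.ofReal (infDist (u0 + t) F / t ^ 2) :=
            lintegral_const_mul' _ _ ENNReal.ofReal_ne_top
        _ ≤ ENNReal.ofReal (4 / (1 - q)) * ENNReal.ofReal m := by gcongr
        _ = _ := by rw [← ENNReal.ofReal_mul (by positivity)]
    have hB : ∫⁻ t in (Ioi (r1 / 2) ∪ Iio (-(r1 / 2))) \ Ioo (-r1) r1,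
        ENNReal.ofReal (infDist (u0 + t) F * S t) ≤ ENNReal.ofReal (4 / (th * (1 - q))) := by
      have hms : MeasurableSet ((Ioi (r1 / 2) ∪ Iio (-(r1 / 2))) \ Ioo (-r1) r1) :=
        (measurableSet_Ioi.union measurableSet_Iio).diff measurableSet_Ioo
      have hb1 : ∫⁻ t in Ioi (r1 / 2) ∪ Iio (-(r1 / 2)), ENNReal.ofReal (|t| ^ (-(1 + th))) ≤
          ENNReal.ofReal ((r1 / 2) ^ (-th) / th) + ENNReal.ofReal ((r1 / 2) ^ (-th) / th) := by
        refine (lintegral_union_le _ _ _).trans ?_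
        rw [lint_Ioi (by positivity) hth, lint_Iio (by positivity) hth]
      calc ∫⁻ t in (Ioi (r1 / 2) ∪ Iio (-(r1 / 2))) \ Ioo (-r1) r1,
            ENNReal.ofReal (infDist (u0 + t) F * S t)
          ≤ ∫⁻ t in (Ioi (r1 / 2) ∪ Iio (-(r1 / 2))) \ Ioo (-r1) r1,
              ENNReal.ofReal (s ^ th / (1 - q)) * ENNReal.ofReal (|t| ^ (-(1 + th))) :=
            setLIntegral_mono' hms fun t ht => hfar t ht.2
        _ ≤ ∫⁻ t in Ioi (r1 / 2) ∪ Iio (-(r1 / 2)),
              ENNReal.ofReal (s ^ th / (1 - q)) * ENNReal.ofReal (|t| ^ (-(1 + th))) :=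
            lintegral_mono_set diff_subset
        _ = ENNReal.ofReal (s ^ th / (1 - q)) *
              ∫⁻ t in Ioi (r1 / 2) ∪ Iio (-(r1 / 2)), ENNReal.ofReal (|t| ^ (-(1 + th))) :=
            lintegral_const_mul' _ _ ENNReal.ofReal_ne_top
        _ ≤ ENNReal.ofReal (s ^ th / (1 - q)) *
              (ENNReal.ofReal ((r1 / 2) ^ (-th) / th) + ENNReal.ofReal ((r1 / 2) ^ (-th) / th)) := by
            gcongr
        _ = ENNReal.ofReal (s ^ th / (1 - q) * ((r1 / 2) ^ (-th) / th + (r1 / 2) ^ (-th) / th)) := by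
            rw [← ENNReal.ofReal_add (by positivity) (by positivity),
              ← ENNReal.ofReal_mul (by positivity)]
        _ ≤ _ := by
            refine ENNReal.ofReal_le_ofReal ?_
            have h1 : s ^ th * (r1 / 2) ^ (-th) ≤ 2 := by
              rw [Real.rpow_neg (by positivity), ← div_eq_mul_inv,
                ← Real.div_rpow hs.le (by positivity)]
              calc (s / (r1 / 2)) ^ th ≤ (2 : ℝ) ^ th := by
                    refine Real.rpow_le_rpow (by positivity) ?_ hth.le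
                    rw [div_le_iff₀ (by positivity)]
                    linarith
                _ ≤ 2 ^ (1 : ℝ) := Real.rpow_le_rpow_of_exponent_le (by norm_num) hth1
                _ = 2 := by norm_num
            have h2 : s ^ th / (1 - q) * ((r1 / 2) ^ (-th) / th + (r1 / 2) ^ (-th) / th) =
                (s ^ th * (r1 / 2) ^ (-th)) * (2 / (th * (1 - q))) := by
              field_simp
              ring
            rw [h2, show 4 / (th * (1 - q)) = 2 * (2 / (th * (1 - q))) by ring]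
            exact mul_le_mul_of_nonneg_right h1 (by positivity)
    calc ∫⁻ t, ENNReal.ofReal (infDist (u0 + t) F * S t)
        = ∫⁻ t in univ, ENNReal.ofReal (infDist (u0 + t) F * S t) := by rw [Measure.restrict_univ]
      _ ≤ ∫⁻ t in Ioo (-r1) r1 ∪ (Ioi (r1 / 2) ∪ Iio (-(r1 / 2))) \ Ioo (-r1) r1,
            ENNReal.ofReal (infDist (u0 + t) F * S t) := lintegral_mono_set hcov
      _ ≤ _ := lintegral_union_le _ _ _
      _ ≤ ENNReal.ofReal (4 / (1 - q) * m) + ENNReal.ofReal (4 / (th * (1 - q))) :=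
          add_le_add hA hB
      _ = _ := by rw [← ENNReal.ofReal_add (by positivity) (by positivity)]
  have h3 := ENNReal.toReal_mono ENNReal.ofReal_ne_top htot
  rw [ENNReal.toReal_ofReal (by positivity), ENNReal.toReal_sum
    (fun i _ => (J_lt_top hF hth (by positivity)).ne)] at h3
  unfold Lam CS
  rw [← Finset.mul_sum]
  calc 8 * ε * ∑ i ∈ Finset.range n, (J F th u0 (s / 2 ^ i)).toReal
      ≤ 8 * ε * (4 / (1 - q) * m + 4 / (th * (1 - q))) :=
        mul_le_mul_of_nonneg_left h3 (by positivity)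
    _ = _ := by ring

/-- the constant of the neighbour relation with polynomial depths -/
theorem exists_A {th' th c κ : ℝ} (p : ℕ) (hth' : 0 ≤ th') (hth : th' < th) (hκ : 0 < κ)
    (hc : 0 ≤ c) (A0 : ℝ) : ∃ A : ℝ, A0 ≤ A ∧ ∀ j : ℕ,
      (c * 2 ^ j) ^ th' * ((2 + c) / (κ / (1 + j) ^ p)) ^ (2 + th') ≤ A * 2 ^ (th * j) := by
  set r : ℝ := 2 ^ (-(th - th')) with hr
  have hr0 : 0 < r := by positivity
  have hr1 : r < 1 := by
    rw [hr]
    exact Real.rpow_lt_one_of_one_lt_of_neg (by norm_num) (by linarith)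
  obtain ⟨k, hk⟩ := exists_nat_ge ((p : ℝ) * (2 + th'))
  have ht := tendsto_pow_const_mul_const_pow_of_abs_lt_one k
    (show |r| < 1 by rwa [abs_of_pos hr0])
  obtain ⟨B, hB⟩ := ht.bddAbove_range
  have hB' : ∀ n : ℕ, (n : ℝ) ^ k * r ^ n ≤ B := fun n => hB ⟨n, rfl⟩
  have hB0 : 0 ≤ B := le_trans (by positivity) (hB' 0)
  set K : ℝ := c ^ th' * ((2 + c) / κ) ^ (2 + th') with hK
  have hK0 : 0 ≤ K := by positivity
  refine ⟨max A0 (K * (B / r)), le_max_left _ _, fun j => ?_⟩
  have hj1 : (1 : ℝ) ≤ 1 + j := by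
    have : (0 : ℝ) ≤ j := Nat.cast_nonneg j
    linarith
  have e1 : (c * 2 ^ j) ^ th' * ((2 + c) / (κ / (1 + j) ^ p)) ^ (2 + th') =
      K * (2 ^ (th' * j) * ((1 + j) ^ p) ^ (2 + th')) := by
    have h1 : (2 + c) / (κ / (1 + j) ^ p) = (2 + c) / κ * (1 + (j : ℝ)) ^ p := by
      field_simp
    rw [h1, Real.mul_rpow hc (by positivity),
      Real.mul_rpow (x := (2 + c) / κ) (by positivity) (by positivity), hK,
      ← Real.rpow_natCast (2 : ℝ) j, ← Real.rpow_mul (by norm_num), mul_comm (j : ℝ) th']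
    ring
  have e2 : (((1 : ℝ) + j) ^ p) ^ (2 + th') ≤ ((1 : ℝ) + j) ^ k := by
    rw [← Real.rpow_natCast, ← Real.rpow_mul (by positivity), ← Real.rpow_natCast]
    exact Real.rpow_le_rpow_of_exponent_le hj1 hk
  have e3 : ((1 : ℝ) + j) ^ k * r ^ j ≤ B / r := by
    rw [le_div_iff₀ hr0]
    have := hB' (j + 1)
    rw [pow_succ r j] at this
    push_cast at this
    rw [show (1 : ℝ) + j = j + 1 by ring]
    linarith
  have e4 : (2 : ℝ) ^ (th' * j) = r ^ j * 2 ^ (th * j) := by
    rw [hr, ← Real.rpow_natCast, ← Real.rpow_mul (by norm_num), ← Real.rpow_add (by norm_num)]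
    congr 1
    ring
  rw [e1, e4]
  have h5 : (2 : ℝ) ^ (th * j) ≥ 0 := by positivity
  calc K * (r ^ j * 2 ^ (th * j) * (((1 : ℝ) + j) ^ p) ^ (2 + th'))
      ≤ K * (r ^ j * 2 ^ (th * j) * ((1 : ℝ) + j) ^ k) := by gcongr
    _ = K * (((1 : ℝ) + j) ^ k * r ^ j) * 2 ^ (th * j) := by ring
    _ ≤ K * (B / r) * 2 ^ (th * j) := by gcongr
    _ ≤ _ := by gcongr; exact le_max_right _ _

end Crest.Agent.R102.Pot249
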