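import Mathlib

/-!
Row 102, T5S / P1 (helper596): one variable lemmas (residue of a derivative, order of a primitive).
-/

set_option autoImplicit false

open Set Filter Topology Metric

noncomputable section

namespace Crest.Agent.R102.Puis596

/-- the derivative of a single valued function has no residue -/
theorem res_zero {W A : ℂ → ℂ} (hA : AnalyticAt ℂ A 0)
    (h : ∀ᶠ u in 𝓝[≠] (0 : ℂ), HasDerivAt W (A u / u) u) : A 0 = 0 := by
  obtain ⟨r₁, h1, hA1⟩ := Metric.eventually_nhds_iff_ball.1 hA.eventually_analyticAt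
  obtain ⟨r₂, h2, hW⟩ := Metric.eventually_nhds_iff_ball.1 (eventually_nhdsWithin_iff.1 h)
  set r := min r₁ r₂ / 2 with hr
  have hr0 : 0 < r := by rw [hr]; have := lt_min h1 h2; linarith
  have hr1 : r < r₁ := by
    have : min r₁ r₂ ≤ r₁ := min_le_left _ _
    linarith
  have hr2 : r < r₂ := by
    have : min r₁ r₂ ≤ r₂ := min_le_right _ _
    linarith
  have e1 : (∮ z in C((0 : ℂ), r), A z / z) = 0 := by
    refine circleIntegral.integral_eq_zero_of_hasDerivWithinAt (f := W) hr0.le (fun z hz => ?_)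
    have hz' : ‖z‖ = r := by simpa using hz
    refine (hW z (by rw [mem_ball, dist_zero_right, hz']; exact hr2) ?_).hasDerivWithinAt
    intro h0
    rw [mem_singleton_iff] at h0
    rw [h0, norm_zero] at hz'
    exact hr0.ne' hz'.symm
  have hd : DifferentiableOn ℂ A (closedBall 0 r) := fun z hz =>
    (hA1 z (closedBall_subset_ball hr1 hz)).differentiableAt.differentiableWithinAt
  have e2 := DiffContOnCl.circleIntegral_sub_inv_smul (c := (0 : ℂ)) (R := r) (w := 0) (f := A)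
    (DifferentiableOn.diffContOnCl (by rw [closure_ball _ hr0.ne']; exact hd)) (mem_ball_self hr0)
  have e3 : (∮ z in C((0 : ℂ), r), (z - 0)⁻¹ • A z) = ∮ z in C((0 : ℂ), r), A z / z := by
    congr 1
    funext z
    rw [sub_zero, smul_eq_mul, div_eq_inv_mul]
  rw [e3, e1] at e2
  have h2pi : (2 * (Real.pi : ℂ) * Complex.I) ≠ 0 := Complex.two_pi_I_ne_zero
  rw [smul_eq_mul] at e2
  exact (mul_eq_zero.1 e2.symm).resolve_left h2pi

/-- order of a primitive -/
theorem prim_order {S b : ℂ → ℂ} {m : ℕ} (hS : AnalyticAt ℂ S 0) (hb : AnalyticAt ℂ b 0)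
    (hS0 : S 0 = 0) (hb0 : b 0 ≠ 0) (h : ∀ᶠ u in 𝓝[≠] (0 : ℂ), deriv S u = u ^ m * b u) :
    ∃ S₁ : ℂ → ℂ, AnalyticAt ℂ S₁ 0 ∧ S₁ 0 ≠ 0 ∧ ∀ᶠ u in 𝓝 (0 : ℂ), S u = u ^ (m + 1) * S₁ u := by
  have h1 : ∀ᶠ u in 𝓝 (0 : ℂ), deriv S u = u ^ m * b u := by
    have := (hS.deriv.frequently_eq_iff_eventually_eq
      ((analyticAt_id.pow m).mul hb)).1 h.frequently
    filter_upwards [this] with u hu
    simpa using hu
  have h2 : analyticOrderAt (deriv S) 0 = m := by
    rw [hS.deriv.analyticOrderAt_eq_natCast]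
    refine ⟨b, hb, hb0, ?_⟩
    filter_upwards [h1] with u hu
    rw [hu, sub_zero, smul_eq_mul]
  have h3 := hS.analyticOrderAt_deriv_add_one
  have h4 : (fun z => S z - S 0) = S := by funext z; rw [hS0, sub_zero]
  rw [h4, h2] at h3
  have h5 : analyticOrderAt S 0 = ((m + 1 : ℕ) : ℕ∞) := by rw [← h3]; push_cast; rfl
  rw [hS.analyticOrderAt_eq_natCast] at h5
  obtain ⟨g, hg, hg0, hg1⟩ := h5
  refine ⟨g, hg, hg0, ?_⟩
  filter_upwards [hg1] with u hu
  rw [hu, sub_zero, smul_eq_mul]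

/-- normal form of a meromorphic germ at `0` which does not vanish identically -/
theorem mero_form {f : ℂ → ℂ} (hf : MeromorphicAt f 0) (h : ∃ᶠ u in 𝓝[≠] (0 : ℂ), f u ≠ 0) :
    ∃ (m : ℤ) (g : ℂ → ℂ), AnalyticAt ℂ g 0 ∧ g 0 ≠ 0 ∧
      ∀ᶠ u in 𝓝[≠] (0 : ℂ), f u = u ^ m * g u := by
  have h1 : meromorphicOrderAt f 0 ≠ ⊤ := by
    intro h2
    rw [meromorphicOrderAt_eq_top_iff] at h2
    exact h (h2.mono fun u hu => by simpa using hu)
  obtain ⟨m, hm⟩ := WithTop.ne_top_iff_exists.1 h1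
  obtain ⟨g, hg, hg0, hg1⟩ := (meromorphicOrderAt_eq_int_iff hf).1 hm.symm
  refine ⟨m, g, hg, hg0, ?_⟩
  filter_upwards [hg1] with u hu
  rw [hu, sub_zero, smul_eq_mul]

/-- identity theorem for meromorphic germs -/
theorem mero_eq {f g : ℂ → ℂ} (hf : MeromorphicAt f 0) (hg : MeromorphicAt g 0)
    (h : ∃ᶠ u in 𝓝[≠] (0 : ℂ), f u = g u) : ∀ᶠ u in 𝓝[≠] (0 : ℂ), f u = g u := by
  have hs := hf.sub hg
  rcases hs.eventually_eq_zero_or_eventually_ne_zero with h1 | h1
  · filter_upwards [h1] with u hu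
    exact sub_eq_zero.1 hu
  · exfalso
    exact h (h1.mono fun u hu he => hu (by simp [he]))

end Crest.Agent.R102.Puis596
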