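import Crest.Agent.R102.PuisA_596

/-!
Row 102, T5S / P1 (helper596): the germ at a Puiseux end, in the uniformiser `u`.
-/

set_option autoImplicit false

open Set Filter Topology Metric

noncomputable section

namespace Crest.Agent.R102.Puis596

/-- `θ'` in the coordinate `u`, `z = s - i uⁿ`, `E = exp (i θ)` -/
def gG (n : ℕ) (E : ℂ → ℂ) (u : ℂ) : ℂ := deriv E u / (n * u ^ (n - 1) * E u)

/-- `H'/θ' = i V` -/
def VV (E F : ℂ → ℂ) (u : ℂ) : ℂ := deriv F u / deriv E u * E u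

def Wp (E F : ℂ → ℂ) (u : ℂ) : ℂ := E u * (Complex.I * VV E F u - Complex.I * F u)

def Wm (E F : ℂ → ℂ) (u : ℂ) : ℂ := (E u)⁻¹ * (Complex.I * VV E F u + Complex.I * F u)

lemma gG_mero {n : ℕ} {E : ℂ → ℂ} (hE : MeromorphicAt E 0) : MeromorphicAt (gG n E) 0 := by
  have h1 : MeromorphicAt (fun u : ℂ => (n : ℂ) * u ^ (n - 1)) 0 := by
    apply AnalyticAt.meromorphicAt
    fun_prop
  exact hE.deriv.div (h1.mul hE)

lemma VV_mero {E F : ℂ → ℂ} (hE : MeromorphicAt E 0) (hF : MeromorphicAt F 0) :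
    MeromorphicAt (VV E F) 0 := (hF.deriv.div hE.deriv).mul hE

lemma Wp_mero {E F : ℂ → ℂ} (hE : MeromorphicAt E 0) (hF : MeromorphicAt F 0) :
    MeromorphicAt (Wp E F) 0 :=
  hE.mul (((MeromorphicAt.const _ _).mul (VV_mero hE hF)).sub ((MeromorphicAt.const _ _).mul hF))

lemma Wm_mero {E F : ℂ → ℂ} (hE : MeromorphicAt E 0) (hF : MeromorphicAt F 0) :
    MeromorphicAt (Wm E F) 0 :=
  hE.inv.mul (((MeromorphicAt.const _ _).mul (VV_mero hE hF)).add
    ((MeromorphicAt.const _ _).mul hF))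

/-- the derivative of a meromorphic germ cannot be `A u / u` with `A 0 ≠ 0` -/
lemma no_res {W A D : ℂ → ℂ} (hW : MeromorphicAt W 0) (hA : AnalyticAt ℂ A 0) (hA0 : A 0 ≠ 0)
    (hD : ∀ᶠ u in 𝓝[≠] (0 : ℂ), deriv W u = D u) (h : ∀ᶠ u in 𝓝[≠] (0 : ℂ), D u = A u / u) :
    False := by
  refine hA0 (res_zero (W := W) hA ?_)
  filter_upwards [hW.eventually_analyticAt, hD, h] with u h1 h2 h3
  have := h1.differentiableAt.hasDerivAt
  rwa [h2, h3] at this

theorem germ {n : ℕ} {E F : ℂ → ℂ} (hn : 0 < n) (hE : MeromorphicAt E 0) (hF : MeromorphicAt F 0)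
    (hne : ∃ᶠ u in 𝓝[≠] (0 : ℂ), E u ≠ 0 ∧ deriv E u ≠ 0)
    (hp : ∃ᶠ u in 𝓝[≠] (0 : ℂ),
      deriv (Wp E F) u = Complex.I * n * u ^ (n - 1) * (gG n E u)⁻¹ ^ 2 * E u)
    (hm : ∃ᶠ u in 𝓝[≠] (0 : ℂ),
      deriv (Wm E F) u = Complex.I * n * u ^ (n - 1) * (gG n E u)⁻¹ ^ 2 * (E u)⁻¹) :
    ∃ (k : ℤ) (g₁ : ℂ → ℂ), AnalyticAt ℂ g₁ 0 ∧ g₁ 0 ≠ 0 ∧
      (∀ᶠ u in 𝓝[≠] (0 : ℂ), gG n E u = u ^ k * g₁ u) ∧
      ((-(n : ℤ) < k ∧ 2 * k ≠ n ∧ k ≠ 2 * n) ∨
        (k = -(n : ℤ) ∧ ∃ m₀ : ℤ, m₀ ≠ 0 ∧ m₀ ≠ 3 * n ∧ m₀ ≠ -(3 * n) ∧ g₁ 0 = m₀ / n)) := by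
  have hn0 : (n : ℂ) ≠ 0 := by exact_mod_cast hn.ne'
  obtain ⟨m₀, E₁, hE1, hE10, hEe⟩ := mero_form hE (hne.mono fun u hu => hu.1)
  -- `g`
  have hgne : ∃ᶠ u in 𝓝[≠] (0 : ℂ), gG n E u ≠ 0 := by
    refine (hne.and_eventually self_mem_nhdsWithin).mono ?_
    rintro u ⟨⟨h1, h2⟩, h3⟩
    exact div_ne_zero h2 (mul_ne_zero (mul_ne_zero hn0 (pow_ne_zero _ h3)) h1)
  obtain ⟨k, g₁, hg1, hg10, hge⟩ := mero_form (gG_mero (n := n) hE) hgne
  refine ⟨k, g₁, hg1, hg10, hge, ?_⟩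
  have hE1n : ∀ᶠ u in 𝓝[≠] (0 : ℂ), E₁ u ≠ 0 :=
    (hE1.continuousAt.eventually_ne hE10).filter_mono nhdsWithin_le_nhds
  have hg1n : ∀ᶠ u in 𝓝[≠] (0 : ℂ), g₁ u ≠ 0 :=
    (hg1.continuousAt.eventually_ne hg10).filter_mono nhdsWithin_le_nhds
  have hE1a : ∀ᶠ u in 𝓝[≠] (0 : ℂ), AnalyticAt ℂ E₁ u :=
    hE1.eventually_analyticAt.filter_mono nhdsWithin_le_nhds
  have hEd : ∀ᶠ u in 𝓝[≠] (0 : ℂ),
      deriv E u = m₀ * u ^ (m₀ - 1) * E₁ u + u ^ m₀ * deriv E₁ u := by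
    have h1 := eventually_nhdsNE_eventually_nhds_iff.2 hEe
    filter_upwards [h1, hE1a, self_mem_nhdsWithin] with u h2 h3 h4
    have h5 : E =ᶠ[𝓝 u] fun v => v ^ m₀ * E₁ v := h2
    rw [h5.deriv_eq]
    exact ((hasDerivAt_zpow m₀ u (Or.inl h4)).mul h3.differentiableAt.hasDerivAt).deriv
  -- `h = n uⁿ g`
  set h : ℂ → ℂ := fun u => m₀ + u * deriv E₁ u / E₁ u with hh
  have hha : AnalyticAt ℂ h 0 :=
    analyticAt_const.add ((analyticAt_id.mul hE1.deriv).div hE1 hE10)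
  have hh0 : h 0 = m₀ := by simp [hh]
  have hhe : ∀ᶠ u in 𝓝[≠] (0 : ℂ), h u = n * (u ^ (n + k) * g₁ u) := by
    filter_upwards [hEe, hEd, hge, hE1n, self_mem_nhdsWithin] with u h1 h2 h3 h4 h5
    have h5' : u ≠ 0 := h5
    have h6 : u ^ m₀ ≠ 0 := zpow_ne_zero _ h5'
    have h7 : h u = n * (u ^ n * gG n E u) := by
      simp only [hh, gG]
      rw [h2, h1]
      have h8 : u ^ (m₀ - 1) = u ^ m₀ / u := by rw [zpow_sub_one₀ h5']; rfl
      have h9 : u ^ n = u ^ (n - 1) * u := by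
        rw [← pow_succ]; congr 1; omega
      have h10 : u ^ (n - 1) ≠ 0 := pow_ne_zero _ h5'
      rw [h8, h9]
      field_simp
    rw [h7, h3, zpow_add₀ h5', zpow_natCast]
    ring
  -- no poles
  have hnk : 0 ≤ (n : ℤ) + k := by
    by_contra hlt
    push Not at hlt
    obtain ⟨j, hj⟩ : ∃ j : ℕ, (j : ℤ) + 1 = -(n + k) := ⟨(-(n + k) - 1).toNat, by omega⟩
    have h1 : ∀ᶠ u in 𝓝[≠] (0 : ℂ), u ^ (j + 1) * h u = n * g₁ u := by
      filter_upwards [hhe, self_mem_nhdsWithin] with u h2 h3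
      have h3' : u ≠ 0 := h3
      rw [h2, show (n : ℤ) + k = -((j + 1 : ℕ) : ℤ) by push_cast; omega, zpow_neg, zpow_natCast]
      field_simp
    have h2 := (((analyticAt_id.pow (j + 1)).mul hha).frequently_eq_iff_eventually_eq
      (analyticAt_const.mul hg1)).1 h1.frequently
    have h3 : (0 : ℂ) ^ (j + 1) * h 0 = n * g₁ 0 := h2.self_of_nhds
    rw [zero_pow (Nat.succ_ne_zero j), zero_mul] at h3
    exact mul_ne_zero hn0 hg10 h3.symm
  -- the two exponent identities are impossible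
  have keyA : ∀ c : ℂ → ℂ, AnalyticAt ℂ c 0 → c 0 ≠ 0 → ∀ e : ℤ, (n : ℤ) - 2 * k + e = 0 →
      ∀ W : ℂ → ℂ, MeromorphicAt W 0 →
      (∀ᶠ u in 𝓝[≠] (0 : ℂ), deriv W u =
        Complex.I * n * u ^ (n - 1) * (gG n E u)⁻¹ ^ 2 * (u ^ e * c u)) → False := by
    intro c hc hc0 e he W hW hWd
    refine no_res (A := fun u => Complex.I * n * (g₁ u)⁻¹ ^ 2 * c u) hW ?_ ?_ hWd ?_
    · exact ((analyticAt_const.mul analyticAt_const).mul ((hg1.inv hg10).pow 2)).mul hc
    · exact mul_ne_zero (mul_ne_zero (mul_ne_zero Complex.I_ne_zero hn0)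
        (pow_ne_zero _ (inv_ne_zero hg10))) hc0
    · filter_upwards [hge, hg1n, self_mem_nhdsWithin] with u h1 h2 h3
      have h3' : u ≠ 0 := h3
      rw [h1]
      have h4 : u ^ (n - 1) * u = (u ^ k) ^ 2 * (u ^ e)⁻¹ := by
        have h5 : u ^ (n - 1) * u = u ^ (n : ℤ) := by
          rw [zpow_natCast, ← pow_succ]; congr 1; omega
        rw [h5, ← zpow_natCast (u ^ k) 2, ← zpow_mul, ← zpow_neg, ← zpow_add₀ h3']
        congr 1
        push_cast
        omega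
      have h6 : u ^ k ≠ 0 := zpow_ne_zero _ h3'
      have h7 : u ^ e ≠ 0 := zpow_ne_zero _ h3'
      have h8 : u ^ (n - 1) = (u ^ k) ^ 2 * (u ^ e)⁻¹ / u := by
        rw [← h4]; field_simp
      rw [h8]
      field_simp
  have hpe := mero_eq (Wp_mero hE hF).deriv (by
    have h1 : MeromorphicAt (fun u : ℂ => Complex.I * (n : ℂ) * u ^ (n - 1)) 0 := by
      apply AnalyticAt.meromorphicAt; fun_prop
    exact (h1.mul ((gG_mero (n := n) hE).inv.pow 2)).mul hE) hp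
  have hme := mero_eq (Wm_mero hE hF).deriv (by
    have h1 : MeromorphicAt (fun u : ℂ => Complex.I * (n : ℂ) * u ^ (n - 1)) 0 := by
      apply AnalyticAt.meromorphicAt; fun_prop
    exact (h1.mul ((gG_mero (n := n) hE).inv.pow 2)).mul hE.inv) hm
  have Ep : (n : ℤ) - 2 * k + m₀ ≠ 0 := by
    intro he
    refine keyA E₁ hE1 hE10 m₀ he _ (Wp_mero hE hF) ?_
    filter_upwards [hpe, hEe] with u h1 h2
    rw [h1, ← h2]
  have Em : (n : ℤ) - 2 * k + -m₀ ≠ 0 := by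
    intro he
    refine keyA (fun u => (E₁ u)⁻¹) (hE1.inv hE10) (inv_ne_zero hE10) (-m₀) he _
      (Wm_mero hE hF) ?_
    filter_upwards [hme, hEe] with u h1 h2
    rw [h1, h2, mul_inv, zpow_neg]
  rcases hnk.eq_or_lt with hj | hj
  · -- isotropic
    right
    have hk : k = -(n : ℤ) := by omega
    have h1 : (m₀ : ℂ) = n * g₁ 0 := by
      have h2 : ∀ᶠ u in 𝓝[≠] (0 : ℂ), h u = n * g₁ u := by
        filter_upwards [hhe] with u h2
        rw [h2, ← hj, zpow_zero, one_mul]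
      have h3 := (hha.frequently_eq_iff_eventually_eq (analyticAt_const.mul hg1)).1 h2.frequently
      rw [← hh0]
      exact h3.self_of_nhds
    refine ⟨hk, m₀, ?_, ?_, ?_, ?_⟩
    · intro h2
      rw [h2, Int.cast_zero] at h1
      exact mul_ne_zero hn0 hg10 h1.symm
    · intro h2; apply Em; rw [hk, h2]; ring
    · intro h2; apply Ep; rw [hk, h2]; ring
    · rw [h1]; field_simp
  · left
    obtain ⟨j, hj'⟩ : ∃ j : ℕ, (n : ℤ) + k = j + 1 := ⟨((n : ℤ) + k - 1).toNat, by omega⟩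
    have hhe' : ∀ᶠ u in 𝓝[≠] (0 : ℂ), h u = n * (u ^ (j + 1) * g₁ u) := by
      filter_upwards [hhe] with u h2
      rw [h2, hj']
      norm_cast
    have hm0 : m₀ = 0 := by
      have h3 := (hha.frequently_eq_iff_eventually_eq
        (analyticAt_const.mul ((analyticAt_id.pow (j + 1)).mul hg1))).1 hhe'.frequently
      have h4 := h3.self_of_nhds
      rw [hh0] at h4
      simpa using h4
    refine ⟨by omega, ?_, ?_⟩
    · intro h2; apply Ep; rw [hm0]; omega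
    · intro hk2
      -- `c = 2`
      have hj3 : j + 1 = 3 * n := by omega
      set a : ℂ := E₁ 0 with ha
      have hEe' : ∀ᶠ u in 𝓝[≠] (0 : ℂ), E u = E₁ u := by
        filter_upwards [hEe] with u h1
        rw [h1, hm0, zpow_zero, one_mul]
      have hl : ∀ᶠ u in 𝓝[≠] (0 : ℂ), deriv E₁ u / E₁ u = n * (u ^ (3 * n - 1) * g₁ u) := by
        filter_upwards [hhe', hE1n, self_mem_nhdsWithin] with u h1 h2 h3
        have h3' : u ≠ 0 := h3
        simp only [hh, hm0, Int.cast_zero, zero_add] at h1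
        have h4 : u ^ (j + 1) = u ^ (3 * n - 1) * u := by
          rw [← pow_succ]; congr 1; omega
        rw [h4] at h1
        have h5 : u * (deriv E₁ u / E₁ u) = u * (n * (u ^ (3 * n - 1) * g₁ u)) := by
          rw [← mul_div_assoc, h1]; ring
        exact mul_left_cancel₀ h3' h5
      -- `S = E/a - a/E`
      set S : ℂ → ℂ := fun u => E₁ u / a - a / E₁ u with hS
      have hSa : AnalyticAt ℂ S 0 :=
        (hE1.div analyticAt_const hE10).sub (analyticAt_const.div hE1 hE10)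
      have hS0 : S 0 = 0 := by
        simp only [hS, ← ha]
        rw [div_self hE10, sub_self]
      set b : ℂ → ℂ := fun u => n * g₁ u * (E₁ u / a + a / E₁ u) with hb
      have hba : AnalyticAt ℂ b 0 := (analyticAt_const.mul hg1).mul
        ((hE1.div analyticAt_const hE10).add (analyticAt_const.div hE1 hE10))
      have hb0 : b 0 ≠ 0 := by
        simp only [hb, ← ha]
        rw [div_self hE10]
        exact mul_ne_zero (mul_ne_zero hn0 hg10) (by norm_num)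
      have hSd : ∀ᶠ u in 𝓝[≠] (0 : ℂ), deriv S u = u ^ (3 * n - 1) * b u := by
        filter_upwards [hl, hE1n, hE1a] with u h1 h2 h3
        have h4 := h3.differentiableAt.hasDerivAt
        have h5 : HasDerivAt S (deriv E₁ u / a - (-(a * deriv E₁ u) / E₁ u ^ 2)) u := by
          have h6 := h4.div_const a
          have h7 := ((hasDerivAt_const u a).div h4 h2)
          have h8 := h6.sub h7
          have h9 : deriv E₁ u / a - (0 * E₁ u - a * deriv E₁ u) / E₁ u ^ 2 =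
              deriv E₁ u / a - (-(a * deriv E₁ u) / E₁ u ^ 2) := by ring
          rw [← h9]
          exact h8
        rw [h5.deriv]
        have h9 : deriv E₁ u = n * (u ^ (3 * n - 1) * g₁ u) * E₁ u := by
          rw [← h1]; field_simp
        simp only [hb]
        rw [h9]
        field_simp
        ring
      obtain ⟨S₁, hS1, hS10, hSe⟩ := prim_order hSa hba hS0 hb0 hSd
      have h3n : 3 * n - 1 + 1 = 3 * n := by omega
      rw [h3n] at hSe
      have hSe' := hSe.filter_mono (nhdsWithin_le_nhds (s := {(0 : ℂ)}ᶜ))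
      refine keyA S₁ hS1 hS10 (3 * n) (by omega) (fun u => Wp E F u / a - a * Wm E F u)
        (((Wp_mero hE hF).div (MeromorphicAt.const _ _)).sub
          ((MeromorphicAt.const _ _).mul (Wm_mero hE hF))) ?_
      filter_upwards [hpe, hme, hEe', hSe', (Wp_mero hE hF).eventually_analyticAt,
        (Wm_mero hE hF).eventually_analyticAt, hE1n] with u h1 h2 h3 h4 h5 h6 h7
      have h8 : HasDerivAt (fun u => Wp E F u / a - a * Wm E F u)
          (deriv (Wp E F) u / a - a * deriv (Wm E F) u) u :=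
        (h5.differentiableAt.hasDerivAt.div_const a).sub
          (h6.differentiableAt.hasDerivAt.const_mul a)
      rw [h8.deriv, h1, h2]
      have h9 : u ^ (3 * (n : ℤ)) = u ^ (3 * n) := by
        norm_cast
      rw [h9, ← h4, h3]
      simp only [hS]
      field_simp

end Crest.Agent.R102.Puis596
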