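import Crest.Agent.R102.SchL_864

/-!
Row 102, T1-B, EDGE: zeros of `y` cost only an additive `N` (helper909).

`F` holomorphic and zero free on a disc, with at most `N` points where `F = 1`: the sharp Schottky
bound holds with `1` replaced by `N + 1` (root trick: some residue class of `log F / 2πi` mod `N + 1`
is never hit).
-/

set_option autoImplicit false

open Set Filter Metric Complex Topology

namespace Crest.Agent.R102.RootSch909

open Crest.Agent.R102.G864

theorem root_schottky {F : ℂ → ℂ} {c : ℂ} {R : ℝ} (hR : 0 < R)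
    (hF : DifferentiableOn ℂ F (ball c R)) (h0 : ∀ z ∈ ball c R, F z ≠ 0)
    {N : ℕ} {Zs : Finset ℂ} (hN : Zs.card ≤ N) (h1 : ∀ z ∈ ball c R, F z = 1 → z ∈ Zs)
    {θ : ℝ} (hθ0 : 0 ≤ θ) (hθ1 : θ < 1) :
    ∀ z ∈ closedBall c (θ * R),
      |Real.log ‖F z‖| ≤ KS θ * (N + 1 + |Real.log ‖F c‖|) := by
  obtain ⟨L, hL, hexp⟩ := M948.exists_log hF h0
  classical
  -- the integer of a zero of `F - 1`
  let k : ℂ → ℤ := fun z => if h : ∃ n : ℤ, L z = n * (2 * Real.pi * I) then h.choose else 0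
  have hk : ∀ z, (∃ n : ℤ, L z = n * (2 * Real.pi * I)) → L z = k z * (2 * Real.pi * I) := by
    intro z h
    have : k z = h.choose := by simp only [k]; rw [dif_pos h]
    rw [this]
    exact h.choose_spec
  have hN1 : (0 : ℝ) < (N : ℝ) + 1 := by positivity
  have hN1c : ((N : ℂ) + 1) ≠ 0 := by exact_mod_cast (Nat.succ_ne_zero N)
  obtain ⟨r, hr⟩ : ∃ r : ZMod (N + 1), r ∉ Zs.image (fun z => ((k z : ℤ) : ZMod (N + 1))) := by
    by_contra hcon
    push Not at hcon
    have h2 : (Finset.univ : Finset (ZMod (N + 1))) ⊆ Zs.image (fun z => ((k z : ℤ) : ZMod (N + 1))) :=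
      fun x _ => hcon x
    have h3 := Finset.card_le_card h2
    have h4 : (Zs.image (fun z => ((k z : ℤ) : ZMod (N + 1)))).card ≤ Zs.card := Finset.card_image_le
    rw [Finset.card_univ, ZMod.card] at h3
    omega
  obtain ⟨k0, rfl⟩ := ZMod.intCast_surjective r
  set G : ℂ → ℂ := fun z => cexp ((L z - k0 * (2 * Real.pi * I)) / (N + 1)) with hG
  have hGd : DifferentiableOn ℂ G (ball c R) :=
    ((hL.sub_const _).div_const _).cexp
  have hG0 : ∀ z ∈ ball c R, G z ≠ 0 := fun z _ => Complex.exp_ne_zero _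
  have hG1 : ∀ z ∈ ball c R, G z ≠ 1 := by
    intro z hz h
    obtain ⟨m, hm⟩ := Complex.exp_eq_one_iff.1 h
    have h2 : L z = ((k0 + m * (N + 1) : ℤ) : ℂ) * (2 * Real.pi * I) := by
      rw [div_eq_iff hN1c] at hm
      push_cast
      linear_combination hm
    have h3 : F z = 1 := by
      rw [← hexp z hz, h2]
      exact Complex.exp_eq_one_iff.2 ⟨_, rfl⟩
    have h4 := h1 z hz h3
    apply hr
    rw [Finset.mem_image]
    refine ⟨z, h4, ?_⟩
    have h5 := hk z ⟨_, h2⟩
    rw [h2] at h5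
    have h6 : ((k0 + m * (N + 1) : ℤ) : ℂ) = (k z : ℂ) :=
      mul_right_cancel₀ (by simp [Real.pi_ne_zero]) h5
    have h7 : k0 + m * (N + 1) = k z := by exact_mod_cast h6
    rw [← h7]
    push_cast
    have : ((N : ZMod (N + 1)) + 1) = 0 := by
      have := ZMod.natCast_self (N + 1)
      push_cast at this
      exact this
    rw [this, mul_zero, add_zero]
  have hGn : ∀ z ∈ ball c R, Real.log ‖G z‖ = Real.log ‖F z‖ / (N + 1) := by
    intro z hz
    rw [← hexp z hz, Complex.norm_exp, Real.log_exp, Complex.norm_exp, Real.log_exp]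
    have e1 : (L z - k0 * (2 * Real.pi * I)) / ((N : ℂ) + 1) =
        (L z - k0 * (2 * Real.pi * I)) / (((N : ℝ) + 1 : ℝ) : ℂ) := by push_cast; rfl
    rw [e1, Complex.div_ofReal_re]
    congr 1
    simp
  intro z hz
  have hcb : c ∈ ball c R := mem_ball_self hR
  have hzb : z ∈ ball c R := by
    rw [mem_closedBall] at hz
    rw [mem_ball]
    nlinarith
  have h := schottky_log hR hGd hG0 hG1 hθ0 hθ1 z hz
  rw [hGn z hzb, hGn c hcb, abs_div, abs_div, abs_of_pos hN1, div_le_iff₀ hN1] at h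
  refine h.trans (le_of_eq ?_)
  field_simp

end Crest.Agent.R102.RootSch909
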